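import Crest.Agent.Helper32.Snaky.Gen.R1_0_p6
set_option autoImplicit false
set_option maxRecDepth 100000
set_option linter.all false
set_option Elab.async false
namespace Crest.Agent.Helper32.Snaky.R1_0
@[reducible] def W_7 (d M Bz Z : Nat) : Prop := Crest.Agent.Helper32.Snaky.Wins (nat_lit 17) d M Bz Z
theorem D_7 {d M Bz Z : Nat} (m t1 t2 o1 x1 y1 o2 x2 y2 : Nat) (h : Crest.Agent.Helper32.Snaky.chkDoubleC (nat_lit 17) d M Bz Z m t1 t2 o1 x1 y1 o2 x2 y2 = true) : W_7 d M Bz Z := Crest.Agent.Helper32.Snaky.doubleC m t1 t2 o1 x1 y1 o2 x2 y2 h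
theorem T_7 {d M Bz Z cd cM cBz cZ : Nat} (m t o x y : Nat) (child : W_7 cd cM cBz cZ) (h : Crest.Agent.Helper32.Snaky.chkThreatC (nat_lit 17) d M Bz Z cd cM cBz cZ m t o x y = true) : W_7 d M Bz Z := Crest.Agent.Helper32.Snaky.threatC m t o x y child h
theorem Q_7 {d M Bz Z : Nat} (m : Nat) {l : List Crest.Agent.Helper32.Snaky.Spec} (kids : Crest.Agent.Helper32.Snaky.AllWins (nat_lit 17) l) (h : Crest.Agent.Helper32.Snaky.chkQuiet d M Bz Z m l = true) : W_7 d M Bz Z := Crest.Agent.Helper32.Snaky.quiet m kids h
theorem C_7 {cd cM cBz cZ : Nat} {l : List Crest.Agent.Helper32.Snaky.Spec} (h : W_7 cd cM cBz cZ) (hl : Crest.Agent.Helper32.Snaky.AllWins (nat_lit 17) l) : Crest.Agent.Helper32.Snaky.AllWins (nat_lit 17) ((cd, cM, cBz, cZ) :: l) := Crest.Agent.Helper32.Snaky.AllWins.cons h hl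
theorem N_7 : Crest.Agent.Helper32.Snaky.AllWins (nat_lit 17) [] := Crest.Agent.Helper32.Snaky.AllWins.nil
theorem L50442 : W_7 (nat_lit 5) (nat_lit 0x200012801340082000000000000000000000000000000) (nat_lit 0x0) (nat_lit 0x4000200050000b0001000100000000000000000000000000) := T_7 (nat_lit 139) (nat_lit 120) (nat_lit 0) (nat_lit 5) (nat_lit 8) L50441 (by decide +kernel)
theorem L50443 : W_7 (nat_lit 2) (nat_lit 0x2000128013f0086000000000000000000000000000000) (nat_lit 0x0) (nat_lit 0x10000000000000000200010000000000000000000000) := D_7 (nat_lit 105) (nat_lit 88) (nat_lit 172) (nat_lit 7) (nat_lit 3) (nat_lit 5) (nat_lit 6) (nat_lit 2) (nat_lit 10) (by decide +kernel)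
theorem L50444 : W_7 (nat_lit 3) (nat_lit 0x2000128013f0082000000000000000000000000000000) (nat_lit 0x0) (nat_lit 0x1000000000000c000200010000000000000000000000) := T_7 (nat_lit 122) (nat_lit 123) (nat_lit 2) (nat_lit 0) (nat_lit 8) L50443 (by decide +kernel)
theorem L50445 : W_7 (nat_lit 4) (nat_lit 0x2000128013e0082000000000000000000000000000000) (nat_lit 0x0) (nat_lit 0x1000100001000c000200010000000000000000000000) := T_7 (nat_lit 136) (nat_lit 156) (nat_lit 3) (nat_lit 0) (nat_lit 8) L50444 (by decide +kernel)
theorem L50446 : W_7 (nat_lit 5) (nat_lit 0x2000128013c0082000000000000000000000000000000) (nat_lit 0x0) (nat_lit 0x1000500003000c000200010000000000000000000000) := T_7 (nat_lit 137) (nat_lit 158) (nat_lit 3) (nat_lit 1) (nat_lit 8) L50445 (by decide +kernel)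
theorem L50447 : W_7 (nat_lit 6) (nat_lit 0x200012801340082000000000000000000000000000000) (nat_lit 0x0) (nat_lit 0x100050000b000d000200010000000000000000000000) := T_7 (nat_lit 139) (nat_lit 120) (nat_lit 0) (nat_lit 5) (nat_lit 8) L50446 (by decide +kernel)
theorem L50448 : W_7 (nat_lit 4) (nat_lit 0x218012801340082000000000000000000000000000000) (nat_lit 0x0) (nat_lit 0x2000000050000a0004000200000000000000000000000000) := T_7 (nat_lit 158) (nat_lit 156) (nat_lit 1) (nat_lit 5) (nat_lit 9) L50384 (by decide +kernel)
theorem L50449 : W_7 (nat_lit 5) (nat_lit 0x210012801340082000000000000000000000000000000) (nat_lit 0x0) (nat_lit 0x3000080050000a0004000200000000000000000000000000) := T_7 (nat_lit 171) (nat_lit 188) (nat_lit 5) (nat_lit 2) (nat_lit 7) L50448 (by decide +kernel)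
theorem L50450 : W_7 (nat_lit 2) (nat_lit 0x238012801340086000000000000000000000000000000) (nat_lit 0x0) (nat_lit 0x4001000000000000100000000000000000000000000) := D_7 (nat_lit 156) (nat_lit 170) (nat_lit 104) (nat_lit 2) (nat_lit 0) (nat_lit 10) (nat_lit 7) (nat_lit 2) (nat_lit 6) (by decide +kernel)
theorem L50451 : W_7 (nat_lit 3) (nat_lit 0x230012801340086000000000000000000000000000000) (nat_lit 0x0) (nat_lit 0x10000c001000000000000100000000000000000000000000) := T_7 (nat_lit 171) (nat_lit 188) (nat_lit 5) (nat_lit 2) (nat_lit 7) L50450 (by decide +kernel)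
theorem L50452 : W_7 (nat_lit 4) (nat_lit 0x210012801340086000000000000000000000000000000) (nat_lit 0x0) (nat_lit 0x50002c001000000000000100000000000000000000000000) := T_7 (nat_lit 173) (nat_lit 190) (nat_lit 7) (nat_lit 2) (nat_lit 7) L50451 (by decide +kernel)
theorem L50453 : W_7 (nat_lit 5) (nat_lit 0x210012801340082000000000000000000000000000000) (nat_lit 0x0) (nat_lit 0x50002c001000000004000300000000000000000000000000) := T_7 (nat_lit 122) (nat_lit 105) (nat_lit 6) (nat_lit 2) (nat_lit 10) L50452 (by decide +kernel)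
theorem L50454 : W_7 (nat_lit 2) (nat_lit 0x8000000030023001780134008e000000000000000000000000000000) (nat_lit 0x0) (nat_lit 0x1000180000000000000000000000000000000000000000000) := D_7 (nat_lit 175) (nat_lit 176) (nat_lit 192) (nat_lit 3) (nat_lit 2) (nat_lit 9) (nat_lit 4) (nat_lit 5) (nat_lit 11) (by decide +kernel)
theorem L50455 : W_7 (nat_lit 3) (nat_lit 0x8000000030023001380134008e000000000000000000000000000000) (nat_lit 0x0) (nat_lit 0x1000180004000020000000000000000000000000000000000) := T_7 (nat_lit 158) (nat_lit 137) (nat_lit 0) (nat_lit 5) (nat_lit 9) L50454 (by decide +kernel)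
theorem L50456 : W_7 (nat_lit 4) (nat_lit 0x30023001380134008e000000000000000000000000000000) (nat_lit 0x0) (nat_lit 0x80004001000180004000020000000000000000000000000000000000) := T_7 (nat_lit 223) (nat_lit 206) (nat_lit 6) (nat_lit 2) (nat_lit 13) L50455 (by decide +kernel)
theorem L50457 : W_7 (nat_lit 5) (nat_lit 0x300230013801340086000000000000000000000000000000) (nat_lit 0x0) (nat_lit 0x80004001000180004000020008000400000000000000000000000000) := T_7 (nat_lit 123) (nat_lit 106) (nat_lit 5) (nat_lit 4) (nat_lit 6) L50456 (by decide +kernel)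
theorem L50458 : W_7 (nat_lit 6) (nat_lit 0x300230012801340086000000000000000000000000000000) (nat_lit 0x0) (nat_lit 0x80004001000180005000020008000500000000000000000000000000) := T_7 (nat_lit 156) (nat_lit 104) (nat_lit 7) (nat_lit 2) (nat_lit 6) L50457 (by decide +kernel)
theorem L50459 : W_7 (nat_lit 7) (nat_lit 0x200230012801340086000000000000000000000000000000) (nat_lit 0x0) (nat_lit 0x80006001100180005000020008000500000000000000000000000000) := T_7 (nat_lit 188) (nat_lit 205) (nat_lit 5) (nat_lit 2) (nat_lit 8) L50458 (by decide +kernel)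
theorem L50460 : W_7 (nat_lit 8) (nat_lit 0x230012801340086000000000000000000000000000000) (nat_lit 0x0) (nat_lit 0x800060013001800050000a0008000500000000000000000000000000) := T_7 (nat_lit 189) (nat_lit 139) (nat_lit 6) (nat_lit 2) (nat_lit 11) L50459 (by decide +kernel)
theorem L50461 : W_7 (nat_lit 9) (nat_lit 0x230012801340082000000000000000000000000000000) (nat_lit 0x0) (nat_lit 0x800060013001800050000a000c000700000000000000000000000000) := T_7 (nat_lit 122) (nat_lit 105) (nat_lit 6) (nat_lit 2) (nat_lit 10) L50460 (by decide +kernel)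
theorem L50462 : W_7 (nat_lit 10) (nat_lit 0x210012801340082000000000000000000000000000000) (nat_lit 0x0) (nat_lit 0x800060017001a00050000a000c000700000000000000000000000000) := T_7 (nat_lit 173) (nat_lit 190) (nat_lit 7) (nat_lit 2) (nat_lit 7) L50461 (by decide +kernel)
theorem L50463 : W_7 (nat_lit 2) (nat_lit 0x200230013801340086000000000000000000000000000000) (nat_lit 0x0) (nat_lit 0x8004000020000000000000000000000000000000000) := D_7 (nat_lit 158) (nat_lit 171) (nat_lit 137) (nat_lit 1) (nat_lit 5) (nat_lit 9) (nat_lit 0) (nat_lit 5) (nat_lit 9) (by decide +kernel)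
theorem L50464 : W_7 (nat_lit 3) (nat_lit 0x200230012801340086000000000000000000000000000000) (nat_lit 0x0) (nat_lit 0x8005000020000000100000000000000000000000000) := T_7 (nat_lit 156) (nat_lit 104) (nat_lit 7) (nat_lit 2) (nat_lit 6) L50463 (by decide +kernel)
theorem L50465 : W_7 (nat_lit 4) (nat_lit 0x230012801340086000000000000000000000000000000) (nat_lit 0x0) (nat_lit 0x2000080050000a0000000100000000000000000000000000) := T_7 (nat_lit 189) (nat_lit 139) (nat_lit 6) (nat_lit 2) (nat_lit 11) L50464 (by decide +kernel)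
theorem L50466 : W_7 (nat_lit 5) (nat_lit 0x230012801340082000000000000000000000000000000) (nat_lit 0x0) (nat_lit 0x2000080050000a0004000300000000000000000000000000) := T_7 (nat_lit 122) (nat_lit 105) (nat_lit 6) (nat_lit 2) (nat_lit 10) L50465 (by decide +kernel)
theorem L50467 : W_7 (nat_lit 6) (nat_lit 0x210012801340082000000000000000000000000000000) (nat_lit 0x0) (nat_lit 0x6000280050000a0004000300000000000000000000000000) := T_7 (nat_lit 173) (nat_lit 190) (nat_lit 7) (nat_lit 2) (nat_lit 7) L50466 (by decide +kernel)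
theorem L50468 : W_7 (nat_lit 11) (nat_lit 0x200012801340082000000000000000000000000000000) (nat_lit 0x0) (nat_lit 0x8000e0017001bc0050000a000c000700000000000000000000000000) := Q_7 (nat_lit 172) (C_7 L50311 (C_7 L50449 (C_7 L50453 (C_7 L50462 (C_7 L50467 N_7))))) (by decide +kernel)
theorem L50469 : W_7 (nat_lit 2) (nat_lit 0x200012801340087000000000000000000000000000000) (nat_lit 0x0) (nat_lit 0x10000000000000000280000000000000000000000000) := D_7 (nat_lit 172) (nat_lit 103) (nat_lit 105) (nat_lit 4) (nat_lit 2) (nat_lit 10) (nat_lit 6) (nat_lit 2) (nat_lit 10) (by decide +kernel)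
theorem L50470 : W_7 (nat_lit 3) (nat_lit 0x200012801340083000000000000000000000000000000) (nat_lit 0x0) (nat_lit 0x1000000000000c000280000000000000000000000000) := T_7 (nat_lit 122) (nat_lit 123) (nat_lit 3) (nat_lit 1) (nat_lit 7) L50469 (by decide +kernel)
theorem L50471 : W_7 (nat_lit 4) (nat_lit 0x200012801340082000000000000000000000000000000) (nat_lit 0x0) (nat_lit 0x1000000008000d000280000000000000000000000000) := T_7 (nat_lit 120) (nat_lit 139) (nat_lit 0) (nat_lit 5) (nat_lit 8) L50470 (by decide +kernel)
theorem L50472 : W_7 (nat_lit 12) (nat_lit 0x200012801340080000000000000000000000000000000) (nat_lit 0x0) (nat_lit 0x8000e0017001bc0050000b000f000780010000000000000000000000) := Q_7 (nat_lit 121) (C_7 L50312 (C_7 L50442 (C_7 L50447 (C_7 L50468 (C_7 L50471 N_7))))) (by decide +kernel)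
theorem L50473 : W_7 (nat_lit 13) (nat_lit 0x200012801300080000000000000000000000000000000) (nat_lit 0x0) (nat_lit 0x8002e0017001bc0054000f000f80078001c000a00000000000000000) := Q_7 (nat_lit 138) (C_7 L50340 (C_7 L50367 (C_7 L50437 (C_7 L50438 (C_7 L50472 N_7))))) (by decide +kernel)
theorem L50474 : W_7 (nat_lit 4) (nat_lit 0x200012801340083000000000000000000000000000000) (nat_lit 0x0) (nat_lit 0x8000600030000000020000000080000000000000000000000000) := T_7 (nat_lit 172) (nat_lit 103) (nat_lit 4) (nat_lit 2) (nat_lit 10) L50296 (by decide +kernel)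
theorem L50475 : W_7 (nat_lit 5) (nat_lit 0x200012801340082000000000000000000000000000000) (nat_lit 0x0) (nat_lit 0x80006000300000000a0001000080000000000000000000000000) := T_7 (nat_lit 120) (nat_lit 139) (nat_lit 0) (nat_lit 5) (nat_lit 8) L50474 (by decide +kernel)
theorem L50476 : W_7 (nat_lit 2) (nat_lit 0x200013801340082000100004000000000000000000000) (nat_lit 0x0) (nat_lit 0x80000000000008000200000000000000000) := D_7 (nat_lit 87) (nat_lit 69) (nat_lit 139) (nat_lit 4) (nat_lit 2) (nat_lit 8) (nat_lit 7) (nat_lit 2) (nat_lit 5) (by decide +kernel)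
theorem L50477 : W_7 (nat_lit 3) (nat_lit 0x200012801340082000100004000000000000000000000) (nat_lit 0x0) (nat_lit 0x20001000080000000000008000200000000000000000) := T_7 (nat_lit 156) (nat_lit 173) (nat_lit 7) (nat_lit 2) (nat_lit 6) L50476 (by decide +kernel)
theorem L50478 : W_7 (nat_lit 4) (nat_lit 0x200012801340082000100000000000000000000000000) (nat_lit 0x0) (nat_lit 0x2000100008000000008000c000200000000000000000) := T_7 (nat_lit 86) (nat_lit 103) (nat_lit 4) (nat_lit 2) (nat_lit 9) L50477 (by decide +kernel)
theorem L50479 : W_7 (nat_lit 2) (nat_lit 0x210012801340082000380000000000000000000000000) (nat_lit 0x0) (nat_lit 0x400020001000000000000000000000000000000000000000) := D_7 (nat_lit 173) (nat_lit 190) (nat_lit 156) (nat_lit 7) (nat_lit 2) (nat_lit 7) (nat_lit 7) (nat_lit 2) (nat_lit 6) (by decide +kernel)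
theorem L50480 : W_7 (nat_lit 3) (nat_lit 0x200012801340082000380000000000000000000000000) (nat_lit 0x0) (nat_lit 0x400030001000000004000000000000000000000000000000) := T_7 (nat_lit 172) (nat_lit 122) (nat_lit 6) (nat_lit 2) (nat_lit 10) L50479 (by decide +kernel)
theorem L50481 : W_7 (nat_lit 4) (nat_lit 0x200012801340082000180000000000000000000000000) (nat_lit 0x0) (nat_lit 0x400030001000000004000200010000000000000000000000) := T_7 (nat_lit 105) (nat_lit 88) (nat_lit 6) (nat_lit 2) (nat_lit 9) L50480 (by decide +kernel)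
theorem L50482 : W_7 (nat_lit 5) (nat_lit 0x200012801340082000100000000000000000000000000) (nat_lit 0x0) (nat_lit 0x400030001000000004000280014000000000000000000000) := T_7 (nat_lit 103) (nat_lit 86) (nat_lit 4) (nat_lit 2) (nat_lit 9) L50481 (by decide +kernel)
theorem L50483 : W_7 (nat_lit 2) (nat_lit 0x1002100138013c0082000300000000000000000000000000) (nat_lit 0x0) (nat_lit 0x6000200000000000000000000000000000000000000000000000) := D_7 (nat_lit 189) (nat_lit 205) (nat_lit 206) (nat_lit 5) (nat_lit 2) (nat_lit 8) (nat_lit 6) (nat_lit 2) (nat_lit 12) (by decide +kernel)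
theorem L50484 : W_7 (nat_lit 3) (nat_lit 0x100210013801340082000300000000000000000000000000) (nat_lit 0x0) (nat_lit 0x6000200000000000080000000000008000000000000000000000) := T_7 (nat_lit 139) (nat_lit 87) (nat_lit 7) (nat_lit 2) (nat_lit 5) L50483 (by decide +kernel)
theorem L50485 : W_7 (nat_lit 4) (nat_lit 0x210013801340082000300000000000000000000000000) (nat_lit 0x0) (nat_lit 0x6000300008000000080000000000008000000000000000000000) := T_7 (nat_lit 188) (nat_lit 171) (nat_lit 5) (nat_lit 2) (nat_lit 7) L50484 (by decide +kernel)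
theorem L50486 : W_7 (nat_lit 5) (nat_lit 0x200013801340082000300000000000000000000000000) (nat_lit 0x0) (nat_lit 0x6000300018000000080004000000008000000000000000000000) := T_7 (nat_lit 172) (nat_lit 122) (nat_lit 6) (nat_lit 2) (nat_lit 10) L50485 (by decide +kernel)
theorem L50487 : W_7 (nat_lit 6) (nat_lit 0x200013801340082000100000000000000000000000000) (nat_lit 0x0) (nat_lit 0x6000300018000000080004000200018000000000000000000000) := T_7 (nat_lit 105) (nat_lit 88) (nat_lit 6) (nat_lit 2) (nat_lit 9) L50486 (by decide +kernel)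
theorem L50488 : W_7 (nat_lit 7) (nat_lit 0x200012801340082000100000000000000000000000000) (nat_lit 0x0) (nat_lit 0x6000300038001000080004000200018000000000000000000000) := T_7 (nat_lit 156) (nat_lit 173) (nat_lit 7) (nat_lit 2) (nat_lit 6) L50487 (by decide +kernel)
theorem L50489 : W_7 (nat_lit 8) (nat_lit 0x200012801340082000000000000000000000000000000) (nat_lit 0x0) (nat_lit 0x600070003800100008000400038001c000a00000000000000000) := Q_7 (nat_lit 104) (C_7 L50204 (C_7 L50478 (C_7 L50482 (C_7 L50488 N_7)))) (by decide +kernel)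
theorem L50490 : W_7 (nat_lit 2) (nat_lit 0x200013801340087000300000000000000000000000000) (nat_lit 0x0) (nat_lit 0x800c00000000000000000000000000) := D_7 (nat_lit 106) (nat_lit 107) (nat_lit 119) (nat_lit 1) (nat_lit 5) (nat_lit 6) (nat_lit 2) (nat_lit 0) (nat_lit 7) (by decide +kernel)
theorem L50491 : W_7 (nat_lit 3) (nat_lit 0x200013801340083000300000000000000000000000000) (nat_lit 0x0) (nat_lit 0xc800c00000000000000000000000000) := T_7 (nat_lit 122) (nat_lit 123) (nat_lit 3) (nat_lit 1) (nat_lit 7) L50490 (by decide +kernel)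
theorem L50492 : W_7 (nat_lit 4) (nat_lit 0x200012801340083000300000000000000000000000000) (nat_lit 0x0) (nat_lit 0x2000100000000c800c00000000000000000000000000) := T_7 (nat_lit 156) (nat_lit 173) (nat_lit 7) (nat_lit 2) (nat_lit 6) L50491 (by decide +kernel)
theorem L50493 : W_7 (nat_lit 5) (nat_lit 0x200012801340082000300000000000000000000000000) (nat_lit 0x0) (nat_lit 0x2000100008000d800c00000000000000000000000000) := T_7 (nat_lit 120) (nat_lit 139) (nat_lit 0) (nat_lit 5) (nat_lit 8) L50492 (by decide +kernel)
theorem L50494 : W_7 (nat_lit 6) (nat_lit 0x200012801340082000100000000000000000000000000) (nat_lit 0x0) (nat_lit 0x2000100008000d800e00010000000000000000000000) := T_7 (nat_lit 105) (nat_lit 88) (nat_lit 6) (nat_lit 2) (nat_lit 9) L50493 (by decide +kernel)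
theorem L50495 : W_7 (nat_lit 7) (nat_lit 0x200012801340082000000000000000000000000000000) (nat_lit 0x0) (nat_lit 0x2000100008000d800f8001c000a00000000000000000) := Q_7 (nat_lit 104) (C_7 L50478 (C_7 L50204 (C_7 L50494 N_7))) (by decide +kernel)
theorem L50496 : W_7 (nat_lit 4) (nat_lit 0x200012801340087000000000000000000000000000000) (nat_lit 0x0) (nat_lit 0x8000600030000000020000000200000000000000000000000000) := T_7 (nat_lit 172) (nat_lit 105) (nat_lit 6) (nat_lit 2) (nat_lit 10) L50332 (by decide +kernel)
theorem L50497 : W_7 (nat_lit 5) (nat_lit 0x200012801340083000000000000000000000000000000) (nat_lit 0x0) (nat_lit 0x800060003000000002000c000200000000000000000000000000) := T_7 (nat_lit 122) (nat_lit 123) (nat_lit 3) (nat_lit 1) (nat_lit 7) L50496 (by decide +kernel)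
theorem L50498 : W_7 (nat_lit 6) (nat_lit 0x200012801340082000000000000000000000000000000) (nat_lit 0x0) (nat_lit 0x80006000300000000a000d000200000000000000000000000000) := T_7 (nat_lit 120) (nat_lit 139) (nat_lit 0) (nat_lit 5) (nat_lit 8) L50497 (by decide +kernel)
theorem L50499 : W_7 (nat_lit 9) (nat_lit 0x200012801340080000000000000000000000000000000) (nat_lit 0x0) (nat_lit 0xe0007000380010000a000f800f8001c000a00000000000000000) := Q_7 (nat_lit 121) (C_7 L50471 (C_7 L50475 (C_7 L50312 (C_7 L50489 (C_7 L50495 (C_7 L50498 N_7)))))) (by decide +kernel)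
theorem L50500 : W_7 (nat_lit 4) (nat_lit 0x200012c01340082000000000000000000000000000000) (nat_lit 0x0) (nat_lit 0x8000000020000000300018000800000000000000000) := T_7 (nat_lit 104) (nat_lit 171) (nat_lit 5) (nat_lit 2) (nat_lit 6) L50280 (by decide +kernel)
theorem L50501 : W_7 (nat_lit 5) (nat_lit 0x200012801340082000000000000000000000000000000) (nat_lit 0x0) (nat_lit 0x8001400020000000300018000800000000000000000) := T_7 (nat_lit 154) (nat_lit 156) (nat_lit 2) (nat_lit 1) (nat_lit 9) L50500 (by decide +kernel)
theorem L50502 : W_7 (nat_lit 2) (nat_lit 0x210013801340082000180000000000000000000000000) (nat_lit 0x0) (nat_lit 0x4000200010000000000000000000000) := D_7 (nat_lit 105) (nat_lit 88) (nat_lit 122) (nat_lit 6) (nat_lit 2) (nat_lit 9) (nat_lit 6) (nat_lit 2) (nat_lit 10) (by decide +kernel)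
theorem L50503 : W_7 (nat_lit 3) (nat_lit 0x200013801340082000180000000000000000000000000) (nat_lit 0x0) (nat_lit 0x10000000000005000200010000000000000000000000) := T_7 (nat_lit 172) (nat_lit 120) (nat_lit 4) (nat_lit 2) (nat_lit 10) L50502 (by decide +kernel)
theorem L50504 : W_7 (nat_lit 4) (nat_lit 0x200013801340082000100000000000000000000000000) (nat_lit 0x0) (nat_lit 0x10000000000005000280014000000000000000000000) := T_7 (nat_lit 103) (nat_lit 86) (nat_lit 4) (nat_lit 2) (nat_lit 9) L50503 (by decide +kernel)
theorem L50505 : W_7 (nat_lit 5) (nat_lit 0x200013801340082000000000000000000000000000000) (nat_lit 0x0) (nat_lit 0x30000000000005000380014000000000000000000000) := T_7 (nat_lit 104) (nat_lit 173) (nat_lit 7) (nat_lit 2) (nat_lit 6) L50504 (by decide +kernel)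
theorem L50506 : W_7 (nat_lit 6) (nat_lit 0x200012801340082000000000000000000000000000000) (nat_lit 0x0) (nat_lit 0x30001400000005000380014000000000000000000000) := T_7 (nat_lit 156) (nat_lit 154) (nat_lit 2) (nat_lit 1) (nat_lit 9) L50505 (by decide +kernel)
theorem L50507 : W_7 (nat_lit 8) (nat_lit 0x200012801340080000000000000000000000000000000) (nat_lit 0x0) (nat_lit 0x8000e00070003800140002000f00038001c000a00000000000000000) := Q_7 (nat_lit 121) (C_7 L50336 (C_7 L50299 (C_7 L50298 (C_7 L50308 (C_7 L50501 (C_7 L50312 (C_7 L50506 N_7))))))) (by decide +kernel)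
theorem L50508 : W_7 (nat_lit 10) (nat_lit 0x200012801300080000000000000000000000000000000) (nat_lit 0x0) (nat_lit 0x8000e0007000380014000e000f800f8001c000a00000000000000000) := Q_7 (nat_lit 138) (C_7 L50499 (C_7 L50438 (C_7 L50507 (C_7 L50367 N_7)))) (by decide +kernel)
theorem L50509 : W_7 (nat_lit 2) (nat_lit 0x280016801300080000000000000000000000000000000) (nat_lit 0x0) (nat_lit 0x20001000000000000000008000000000000000000000000000000) := D_7 (nat_lit 192) (nat_lit 209) (nat_lit 123) (nat_lit 4) (nat_lit 5) (nat_lit 12) (nat_lit 4) (nat_lit 5) (nat_lit 11) (by decide +kernel)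
theorem L50510 : W_7 (nat_lit 9) (nat_lit 0x280016801300080000000000000000000000000000000) (nat_lit 0x0) (nat_lit 0x7c003e00138001000060000000000000000000000000000000000) := T_7 (nat_lit 156) (nat_lit 176) (nat_lit 3) (nat_lit 2) (nat_lit 9) L50421 (by decide +kernel)
theorem L50511 : W_7 (nat_lit 2) (nat_lit 0x290017801340082000000000000000000000000000000) (nat_lit 0x0) (nat_lit 0x400020000000000000000100000000000000000000000000) := D_7 (nat_lit 173) (nat_lit 104) (nat_lit 190) (nat_lit 7) (nat_lit 2) (nat_lit 6) (nat_lit 7) (nat_lit 2) (nat_lit 7) (by decide +kernel)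
theorem L50512 : W_7 (nat_lit 3) (nat_lit 0x280017801340082000000000000000000000000000000) (nat_lit 0x0) (nat_lit 0x400038000000000000000100000000000000000000000000) := T_7 (nat_lit 172) (nat_lit 171) (nat_lit 1) (nat_lit 5) (nat_lit 9) L50511 (by decide +kernel)
theorem L50513 : W_7 (nat_lit 4) (nat_lit 0x280017801300082000000000000000000000000000000) (nat_lit 0x0) (nat_lit 0x400038000000060000000100000000000000000000000000) := T_7 (nat_lit 138) (nat_lit 137) (nat_lit 0) (nat_lit 5) (nat_lit 9) L50512 (by decide +kernel)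
theorem L50514 : W_7 (nat_lit 5) (nat_lit 0x280016801300082000000000000000000000000000000) (nat_lit 0x0) (nat_lit 0x400138001000060000000100000000000000000000000000) := T_7 (nat_lit 156) (nat_lit 176) (nat_lit 3) (nat_lit 2) (nat_lit 9) L50513 (by decide +kernel)
theorem L50515 : W_7 (nat_lit 2) (nat_lit 0x29001780138008e000000000000000000000000000000) (nat_lit 0x0) (nat_lit 0x200020000000000000000100000000000000000000000000) := D_7 (nat_lit 173) (nat_lit 189) (nat_lit 104) (nat_lit 5) (nat_lit 3) (nat_lit 7) (nat_lit 4) (nat_lit 3) (nat_lit 10) (by decide +kernel)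
theorem L50516 : W_7 (nat_lit 3) (nat_lit 0x29001780130008e000000000000000000000000000000) (nat_lit 0x0) (nat_lit 0x200020000000080000000300000000000000000000000000) := T_7 (nat_lit 139) (nat_lit 105) (nat_lit 5) (nat_lit 3) (nat_lit 6) L50515 (by decide +kernel)
theorem L50517 : W_7 (nat_lit 4) (nat_lit 0x29001780130008a000000000000000000000000000000) (nat_lit 0x0) (nat_lit 0x200020000000080005000300000000000000000000000000) := T_7 (nat_lit 122) (nat_lit 120) (nat_lit 3) (nat_lit 1) (nat_lit 7) L50516 (by decide +kernel)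
theorem L50518 : W_7 (nat_lit 5) (nat_lit 0x290017801300082000000000000000000000000000000) (nat_lit 0x0) (nat_lit 0x20002000000008000d000700000000000000000000000000) := T_7 (nat_lit 123) (nat_lit 106) (nat_lit 7) (nat_lit 4) (nat_lit 6) L50517 (by decide +kernel)
theorem L50519 : W_7 (nat_lit 6) (nat_lit 0x280017801300082000000000000000000000000000000) (nat_lit 0x0) (nat_lit 0x20003800000008000d000700000000000000000000000000) := T_7 (nat_lit 172) (nat_lit 171) (nat_lit 1) (nat_lit 5) (nat_lit 9) L50518 (by decide +kernel)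
theorem L50520 : W_7 (nat_lit 7) (nat_lit 0x280016801300082000000000000000000000000000000) (nat_lit 0x0) (nat_lit 0x20013800100008000d000700000000000000000000000000) := T_7 (nat_lit 156) (nat_lit 176) (nat_lit 3) (nat_lit 2) (nat_lit 9) L50519 (by decide +kernel)
theorem L50521 : W_7 (nat_lit 2) (nat_lit 0x20029001680134008b000000000000000000000000000000) (nat_lit 0x0) (nat_lit 0x2000100008000000000000000000000000000000000000000000) := D_7 (nat_lit 188) (nat_lit 205) (nat_lit 171) (nat_lit 5) (nat_lit 2) (nat_lit 8) (nat_lit 5) (nat_lit 2) (nat_lit 7) (by decide +kernel)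
theorem L50522 : W_7 (nat_lit 3) (nat_lit 0x29001680134008b000000000000000000000000000000) (nat_lit 0x0) (nat_lit 0x2000300008000000020000000000000000000000000000000000) := T_7 (nat_lit 189) (nat_lit 137) (nat_lit 4) (nat_lit 2) (nat_lit 11) L50521 (by decide +kernel)
theorem L50523 : W_7 (nat_lit 4) (nat_lit 0x28001680134008b000000000000000000000000000000) (nat_lit 0x0) (nat_lit 0x2000300018000000020000000080000000000000000000000000) := T_7 (nat_lit 172) (nat_lit 103) (nat_lit 4) (nat_lit 2) (nat_lit 10) L50522 (by decide +kernel)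
theorem L50524 : W_7 (nat_lit 5) (nat_lit 0x28001680130008b000000000000000000000000000000) (nat_lit 0x0) (nat_lit 0x20003000180000000e0000000080000000000000000000000000) := T_7 (nat_lit 138) (nat_lit 139) (nat_lit 0) (nat_lit 5) (nat_lit 8) L50523 (by decide +kernel)
theorem L50525 : W_7 (nat_lit 6) (nat_lit 0x28001680130008a000000000000000000000000000000) (nat_lit 0x0) (nat_lit 0x20003000180000000e0005000080000000000000000000000000) := T_7 (nat_lit 120) (nat_lit 122) (nat_lit 3) (nat_lit 1) (nat_lit 7) L50524 (by decide +kernel)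
theorem L50526 : W_7 (nat_lit 7) (nat_lit 0x280016801300082000000000000000000000000000000) (nat_lit 0x0) (nat_lit 0x20003000180000000e000d000480000000000000000000000000) := T_7 (nat_lit 123) (nat_lit 106) (nat_lit 7) (nat_lit 4) (nat_lit 6) L50525 (by decide +kernel)
theorem L50527 : W_7 (nat_lit 2) (nat_lit 0x2800178013c0082000400000000000000000000000000) (nat_lit 0x0) (nat_lit 0x20000000000000000100008000000000000000000000) := D_7 (nat_lit 104) (nat_lit 173) (nat_lit 87) (nat_lit 7) (nat_lit 2) (nat_lit 6) (nat_lit 7) (nat_lit 2) (nat_lit 5) (by decide +kernel)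
theorem L50528 : W_7 (nat_lit 3) (nat_lit 0x280017801340082000400000000000000000000000000) (nat_lit 0x0) (nat_lit 0x20000000080001000100008000000000000000000000) := T_7 (nat_lit 139) (nat_lit 120) (nat_lit 0) (nat_lit 5) (nat_lit 8) L50527 (by decide +kernel)
theorem L50529 : W_7 (nat_lit 4) (nat_lit 0x280017801300082000400000000000000000000000000) (nat_lit 0x0) (nat_lit 0x200000000e0001000100008000000000000000000000) := T_7 (nat_lit 138) (nat_lit 137) (nat_lit 0) (nat_lit 5) (nat_lit 9) L50528 (by decide +kernel)
theorem L50530 : W_7 (nat_lit 5) (nat_lit 0x280016801300082000400000000000000000000000000) (nat_lit 0x0) (nat_lit 0x1200010000e0001000100008000000000000000000000) := T_7 (nat_lit 156) (nat_lit 176) (nat_lit 3) (nat_lit 2) (nat_lit 9) L50529 (by decide +kernel)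
theorem L50531 : W_7 (nat_lit 6) (nat_lit 0x280016801300082000000000000000000000000000000) (nat_lit 0x0) (nat_lit 0x1200010000e0009000500008000000000000000000000) := T_7 (nat_lit 106) (nat_lit 123) (nat_lit 7) (nat_lit 4) (nat_lit 6) L50530 (by decide +kernel)
theorem L50532 : W_7 (nat_lit 8) (nat_lit 0x280016801300080000000000000000000000000000000) (nat_lit 0x0) (nat_lit 0x20007001380010000e000f000780008000000000000000000000) := Q_7 (nat_lit 121) (C_7 L50514 (C_7 L50520 (C_7 L50526 (C_7 L50531 N_7)))) (by decide +kernel)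
theorem L50533 : W_7 (nat_lit 10) (nat_lit 0x200016801300080000000000000000000000000000000) (nat_lit 0x0) (nat_lit 0x7e003f001b80010000e000f000780008000000000000000000000) := Q_7 (nat_lit 175) (C_7 L50509 (C_7 L50510 (C_7 L50532 N_7))) (by decide +kernel)
theorem L50534 : W_7 (nat_lit 11) (nat_lit 0x200012801300080000000000000000000000000000000) (nat_lit 0x0) (nat_lit 0x7e003f001b802d0008e000f000780008000000000000000000000) := Q_7 (nat_lit 158) (C_7 L50410 (C_7 L50409 (C_7 L50533 N_7))) (by decide +kernel)
theorem L50535 : W_7 (nat_lit 14) (nat_lit 0x200012001300080000000000000000000000000000000) (nat_lit 0x0) (nat_lit 0xc007e003f001bc02dc008f000f801fc007c000e00060000000000000) := Q_7 (nat_lit 155) (C_7 L50408 (C_7 L50414 (C_7 L50424 (C_7 L50425 (C_7 L50426 (C_7 L50432 (C_7 L50473 (C_7 L50508 (C_7 L50534 N_7))))))))) (by decide +kernel)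
theorem L50536 : W_7 (nat_lit 2) (nat_lit 0x340012001300080000000000000000000000000000000) (nat_lit 0x0) (nat_lit 0x80021000000000000000000000000000000000000000) := D_7 (nat_lit 175) (nat_lit 156) (nat_lit 161) (nat_lit 0) (nat_lit 7) (nat_lit 10) (nat_lit 2) (nat_lit 4) (nat_lit 10) (by decide +kernel)
theorem L50537 : W_7 (nat_lit 4) (nat_lit 0x340012001300080000000000000000000000000000000) (nat_lit 0x0) (nat_lit 0xe000a0028000000000000000000000000000000000000000) := T_7 (nat_lit 175) (nat_lit 161) (nat_lit 2) (nat_lit 4) (nat_lit 10) L35826 (by decide +kernel)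
theorem L50538 : W_7 (nat_lit 2) (nat_lit 0x340012001300088000400000000000000000000000000) (nat_lit 0x0) (nat_lit 0x4000200010000000000000000000000) := D_7 (nat_lit 105) (nat_lit 122) (nat_lit 88) (nat_lit 4) (nat_lit 4) (nat_lit 10) (nat_lit 4) (nat_lit 4) (nat_lit 9) (by decide +kernel)
theorem L50539 : W_7 (nat_lit 2) (nat_lit 0x340012001300088000400050000000000000000000000) (nat_lit 0x0) (nat_lit 0x20002800000000000000000) := D_7 (nat_lit 89) (nat_lit 73) (nat_lit 71) (nat_lit 6) (nat_lit 4) (nat_lit 8) (nat_lit 4) (nat_lit 4) (nat_lit 8) (by decide +kernel)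
theorem L50540 : W_7 (nat_lit 3) (nat_lit 0x340012001300088000400040000000000000000000000) (nat_lit 0x0) (nat_lit 0x200030002800000000000000000) := T_7 (nat_lit 88) (nat_lit 105) (nat_lit 4) (nat_lit 4) (nat_lit 9) L50539 (by decide +kernel)
theorem L50541 : W_7 (nat_lit 4) (nat_lit 0x340012001300088000400000000000000000000000000) (nat_lit 0x0) (nat_lit 0xa00070002800000000000000000) := T_7 (nat_lit 90) (nat_lit 107) (nat_lit 6) (nat_lit 4) (nat_lit 9) L50540 (by decide +kernel)
theorem L50542 : W_7 (nat_lit 2) (nat_lit 0x340012001380088000400070000000000000000000000) (nat_lit 0x0) (nat_lit 0x800000000000000004000000000001000000000000000000) := D_7 (nat_lit 122) (nat_lit 72) (nat_lit 191) (nat_lit 5) (nat_lit 4) (nat_lit 4) (nat_lit 4) (nat_lit 4) (nat_lit 11) (by decide +kernel)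
theorem L50543 : W_7 (nat_lit 3) (nat_lit 0x340012001300088000400070000000000000000000000) (nat_lit 0x0) (nat_lit 0x800000001000080004000000000001000000000000000000) := T_7 (nat_lit 139) (nat_lit 156) (nat_lit 5) (nat_lit 4) (nat_lit 5) L50542 (by decide +kernel)
theorem L50544 : W_7 (nat_lit 4) (nat_lit 0x340012001300088000400060000000000000000000000) (nat_lit 0x0) (nat_lit 0x800000001000080004000000010001800000000000000000) := T_7 (nat_lit 88) (nat_lit 71) (nat_lit 4) (nat_lit 4) (nat_lit 8) L50543 (by decide +kernel)
theorem L50545 : W_7 (nat_lit 5) (nat_lit 0x340012001300088000400040000000000000000000000) (nat_lit 0x0) (nat_lit 0x800000001000080004000000030003800000000000000000) := T_7 (nat_lit 89) (nat_lit 73) (nat_lit 6) (nat_lit 4) (nat_lit 8) L50544 (by decide +kernel)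
theorem L50546 : W_7 (nat_lit 6) (nat_lit 0x340012001300088000400000000000000000000000000) (nat_lit 0x0) (nat_lit 0x800000001000080004000800070003800000000000000000) := T_7 (nat_lit 90) (nat_lit 107) (nat_lit 6) (nat_lit 4) (nat_lit 9) L50545 (by decide +kernel)
theorem L50547 : W_7 (nat_lit 2) (nat_lit 0x34001200138008c000c00000000000000000000000000) (nat_lit 0x0) (nat_lit 0x1000000000000000020001000000000000000000) := D_7 (nat_lit 89) (nat_lit 72) (nat_lit 156) (nat_lit 5) (nat_lit 4) (nat_lit 4) (nat_lit 5) (nat_lit 4) (nat_lit 5) (by decide +kernel)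
theorem L50548 : W_7 (nat_lit 3) (nat_lit 0x34001200130008c000c00000000000000000000000000) (nat_lit 0x0) (nat_lit 0x800000001000080000000000020001000000000000000000) := T_7 (nat_lit 139) (nat_lit 191) (nat_lit 4) (nat_lit 4) (nat_lit 11) L50547 (by decide +kernel)
theorem L50549 : W_7 (nat_lit 4) (nat_lit 0x340012001300088000c00000000000000000000000000) (nat_lit 0x0) (nat_lit 0x800000001000080004000200020001000000000000000000) := T_7 (nat_lit 122) (nat_lit 105) (nat_lit 4) (nat_lit 4) (nat_lit 10) L50548 (by decide +kernel)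
theorem L50550 : W_7 (nat_lit 5) (nat_lit 0x340012001300088000400000000000000000000000000) (nat_lit 0x0) (nat_lit 0x800000001000080004000a00060001000000000000000000) := T_7 (nat_lit 107) (nat_lit 90) (nat_lit 6) (nat_lit 4) (nat_lit 9) L50549 (by decide +kernel)
theorem L50551 : W_7 (nat_lit 7) (nat_lit 0x340012001300088000000000000000000000000000000) (nat_lit 0x0) (nat_lit 0x800000001000080004000e00070003800000000000000000) := Q_7 (nat_lit 106) (C_7 L50538 (C_7 L50541 (C_7 L50546 (C_7 L50550 N_7)))) (by decide +kernel)
theorem L50552 : W_7 (nat_lit 2) (nat_lit 0x36001200130008d000400060000800000000000000000) (nat_lit 0x0) (nat_lit 0x80000000000000001000040000000000000) := D_7 (nat_lit 72) (nat_lit 139) (nat_lit 54) (nat_lit 5) (nat_lit 4) (nat_lit 4) (nat_lit 4) (nat_lit 4) (nat_lit 7) (by decide +kernel)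
theorem L50553 : W_7 (nat_lit 3) (nat_lit 0x36001200130008d000400060000000000000000000000) (nat_lit 0x0) (nat_lit 0x80000000000010001800040000000000000) := T_7 (nat_lit 71) (nat_lit 88) (nat_lit 4) (nat_lit 4) (nat_lit 8) L50552 (by decide +kernel)
theorem L50554 : W_7 (nat_lit 4) (nat_lit 0x36001200130008d000400040000000000000000000000) (nat_lit 0x0) (nat_lit 0x80000000000030003800040000000000000) := T_7 (nat_lit 89) (nat_lit 73) (nat_lit 6) (nat_lit 4) (nat_lit 8) L50553 (by decide +kernel)
theorem L50555 : W_7 (nat_lit 5) (nat_lit 0x36001200130008d000400000000000000000000000000) (nat_lit 0x0) (nat_lit 0x80000000800070003800040000000000000) := T_7 (nat_lit 90) (nat_lit 107) (nat_lit 6) (nat_lit 4) (nat_lit 9) L50554 (by decide +kernel)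
theorem L50556 : W_7 (nat_lit 6) (nat_lit 0x36001200130008d000000000000000000000000000000) (nat_lit 0x0) (nat_lit 0x1000080000000c00070003800040000000000000) := T_7 (nat_lit 106) (nat_lit 156) (nat_lit 5) (nat_lit 4) (nat_lit 6) L50555 (by decide +kernel)
theorem L50557 : W_7 (nat_lit 7) (nat_lit 0x34001200130008d000000000000000000000000000000) (nat_lit 0x0) (nat_lit 0x400020001000080000000c00070003800040000000000000) := T_7 (nat_lit 173) (nat_lit 190) (nat_lit 5) (nat_lit 4) (nat_lit 7) L50556 (by decide +kernel)
theorem L50558 : W_7 (nat_lit 8) (nat_lit 0x34001200130008c000000000000000000000000000000) (nat_lit 0x0) (nat_lit 0x400020001000080003000c00070003800040000000000000) := T_7 (nat_lit 120) (nat_lit 121) (nat_lit 3) (nat_lit 1) (nat_lit 7) L50557 (by decide +kernel)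
theorem L50559 : W_7 (nat_lit 9) (nat_lit 0x340012001300088000000000000000000000000000000) (nat_lit 0x0) (nat_lit 0x400020001000080007000e00070003800040000000000000) := T_7 (nat_lit 122) (nat_lit 105) (nat_lit 4) (nat_lit 4) (nat_lit 10) L50558 (by decide +kernel)
theorem L50560 : W_7 (nat_lit 2) (nat_lit 0x40034001200130008c000000000000000000000000000000) (nat_lit 0x0) (nat_lit 0x8000800000000000080000000000000000000000000000000000) := D_7 (nat_lit 191) (nat_lit 139) (nat_lit 207) (nat_lit 4) (nat_lit 4) (nat_lit 11) (nat_lit 5) (nat_lit 4) (nat_lit 8) (by decide +kernel)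
theorem L50561 : W_7 (nat_lit 3) (nat_lit 0x400340012001300088000000000000000000000000000000) (nat_lit 0x0) (nat_lit 0x8000800000000000080004000200000000000000000000000000) := T_7 (nat_lit 122) (nat_lit 105) (nat_lit 4) (nat_lit 4) (nat_lit 10) L50560 (by decide +kernel)
theorem L50562 : W_7 (nat_lit 4) (nat_lit 0x340012001300088000000000000000000000000000000) (nat_lit 0x0) (nat_lit 0x8000c00020000000080004000200000000000000000000000000) := T_7 (nat_lit 190) (nat_lit 173) (nat_lit 5) (nat_lit 4) (nat_lit 7) L50561 (by decide +kernel)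
theorem L50563 : W_7 (nat_lit 2) (nat_lit 0x360012001300088000400050000000000000000000000) (nat_lit 0x0) (nat_lit 0x20002800000000000000000) := D_7 (nat_lit 89) (nat_lit 71) (nat_lit 73) (nat_lit 4) (nat_lit 4) (nat_lit 8) (nat_lit 6) (nat_lit 4) (nat_lit 8) (by decide +kernel)
theorem L50564 : W_7 (nat_lit 3) (nat_lit 0x360012001300088000400010000000000000000000000) (nat_lit 0x0) (nat_lit 0x800060002800000000000000000) := T_7 (nat_lit 90) (nat_lit 107) (nat_lit 6) (nat_lit 4) (nat_lit 9) L50563 (by decide +kernel)
theorem L50565 : W_7 (nat_lit 4) (nat_lit 0x360012001300088000400000000000000000000000000) (nat_lit 0x0) (nat_lit 0xa00070002800000000000000000) := T_7 (nat_lit 88) (nat_lit 105) (nat_lit 4) (nat_lit 4) (nat_lit 9) L50564 (by decide +kernel)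
theorem L50566 : W_7 (nat_lit 5) (nat_lit 0x360012001300088000000000000000000000000000000) (nat_lit 0x0) (nat_lit 0x1000000000000e00070002800000000000000000) := T_7 (nat_lit 106) (nat_lit 156) (nat_lit 5) (nat_lit 4) (nat_lit 6) L50565 (by decide +kernel)
theorem L50567 : W_7 (nat_lit 6) (nat_lit 0x340012001300088000000000000000000000000000000) (nat_lit 0x0) (nat_lit 0x400020001000000000000e00070002800000000000000000) := T_7 (nat_lit 173) (nat_lit 190) (nat_lit 5) (nat_lit 4) (nat_lit 7) L50566 (by decide +kernel)
theorem L50568 : W_7 (nat_lit 2) (nat_lit 0x70002d00340012001380088000000000000000000000000000000) (nat_lit 0x0) (nat_lit 0x8000800040000000000000000000000000000000) := D_7 (nat_lit 143) (nat_lit 126) (nat_lit 159) (nat_lit 5) (nat_lit 7) (nat_lit 7) (nat_lit 6) (nat_lit 6) (nat_lit 12) (by decide +kernel)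
theorem L50569 : W_7 (nat_lit 3) (nat_lit 0x70000d00340012001380088000000000000000000000000000000) (nat_lit 0x0) (nat_lit 0x800000002000000008000800040000000000000000000000000000000) := T_7 (nat_lit 193) (nat_lit 227) (nat_lit 6) (nat_lit 6) (nat_lit 13) L50568 (by decide +kernel)
theorem L50570 : W_7 (nat_lit 4) (nat_lit 0x30000d00340012001380088000000000000000000000000000000) (nat_lit 0x0) (nat_lit 0x8000c0002000000008000800040000000000000000000000000000000) := T_7 (nat_lit 210) (nat_lit 211) (nat_lit 0) (nat_lit 7) (nat_lit 12) L50569 (by decide +kernel)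
theorem L50571 : W_7 (nat_lit 5) (nat_lit 0x30000c00340012001380088000000000000000000000000000000) (nat_lit 0x0) (nat_lit 0x8000c0002300000008000800040000000000000000000000000000000) := T_7 (nat_lit 188) (nat_lit 189) (nat_lit 3) (nat_lit 1) (nat_lit 11) L50570 (by decide +kernel)
theorem L50572 : W_7 (nat_lit 6) (nat_lit 0x10000c00340012001380088000000000000000000000000000000) (nat_lit 0x0) (nat_lit 0xc000e0002300000008000800040000000000000000000000000000000) := T_7 (nat_lit 209) (nat_lit 226) (nat_lit 7) (nat_lit 4) (nat_lit 9) L50571 (by decide +kernel)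
theorem L50573 : W_7 (nat_lit 7) (nat_lit 0xc00340012001380088000000000000000000000000000000) (nat_lit 0x0) (nat_lit 0xc000f0002300000009000800040000000000000000000000000000000) := T_7 (nat_lit 208) (nat_lit 156) (nat_lit 4) (nat_lit 4) (nat_lit 12) L50572 (by decide +kernel)
theorem L50574 : W_7 (nat_lit 8) (nat_lit 0xc00340012001300088000000000000000000000000000000) (nat_lit 0x0) (nat_lit 0xc000f0002300000009000880044000000000000000000000000000000) := T_7 (nat_lit 139) (nat_lit 122) (nat_lit 4) (nat_lit 4) (nat_lit 11) L50573 (by decide +kernel)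
theorem L50575 : W_7 (nat_lit 9) (nat_lit 0x400340012001300088000000000000000000000000000000) (nat_lit 0x0) (nat_lit 0xc000f8002b00000009000880044000000000000000000000000000000) := T_7 (nat_lit 191) (nat_lit 207) (nat_lit 5) (nat_lit 4) (nat_lit 8) L50574 (by decide +kernel)
theorem L50576 : W_7 (nat_lit 10) (nat_lit 0x340012001300088000000000000000000000000000000) (nat_lit 0x0) (nat_lit 0xc000f8002f00020009000880044000000000000000000000000000000) := T_7 (nat_lit 190) (nat_lit 173) (nat_lit 5) (nat_lit 4) (nat_lit 7) L50575 (by decide +kernel)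
theorem L50577 : W_7 (nat_lit 11) (nat_lit 0x340012001300080000000000000000000000000000000) (nat_lit 0x0) (nat_lit 0xc000f8002f0002000900088004f000e00070003800040000000000000) := Q_7 (nat_lit 123) (C_7 L50551 (C_7 L50559 (C_7 L50562 (C_7 L50567 (C_7 L50576 N_7))))) (by decide +kernel)
theorem L50578 : W_7 (nat_lit 12) (nat_lit 0x240012001300080000000000000000000000000000000) (nat_lit 0x0) (nat_lit 0xc000f8002f001a002900088004f000e00070003800040000000000000) := Q_7 (nat_lit 176) (C_7 L50536 (C_7 L50537 (C_7 L50577 N_7))) (by decide +kernel)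
theorem L50579 : W_7 (nat_lit 2) (nat_lit 0xc00340012001300080000000000000000000000000000000) (nat_lit 0x0) (nat_lit 0x20003000000000000000000000000000000000000000000000000) := D_7 (nat_lit 192) (nat_lit 209) (nat_lit 193) (nat_lit 7) (nat_lit 4) (nat_lit 8) (nat_lit 2) (nat_lit 3) (nat_lit 11) (by decide +kernel)
theorem L50580 : W_7 (nat_lit 3) (nat_lit 0xc00240012001300080000000000000000000000000000000) (nat_lit 0x0) (nat_lit 0x20003000180000000000000000000000000000000000000000000) := T_7 (nat_lit 176) (nat_lit 175) (nat_lit 1) (nat_lit 7) (nat_lit 10) L50579 (by decide +kernel)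
theorem L50581 : W_7 (nat_lit 4) (nat_lit 0x800240012001300080000000000000000000000000000000) (nat_lit 0x0) (nat_lit 0x28003400180000000000000000000000000000000000000000000) := T_7 (nat_lit 190) (nat_lit 207) (nat_lit 5) (nat_lit 4) (nat_lit 8) L50580 (by decide +kernel)
theorem L50582 : W_7 (nat_lit 2) (nat_lit 0x10000c00240012001380080000000000000000000000000000000) (nat_lit 0x0) (nat_lit 0x400020001000000000000000000000000000000000000000000000000) := D_7 (nat_lit 209) (nat_lit 192) (nat_lit 226) (nat_lit 7) (nat_lit 4) (nat_lit 8) (nat_lit 7) (nat_lit 4) (nat_lit 9) (by decide +kernel)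
theorem L50583 : W_7 (nat_lit 3) (nat_lit 0xc00240012001380080000000000000000000000000000000) (nat_lit 0x0) (nat_lit 0x400030001000000001000000000000000000000000000000000000000) := T_7 (nat_lit 208) (nat_lit 156) (nat_lit 4) (nat_lit 4) (nat_lit 12) L50582 (by decide +kernel)
theorem L50584 : W_7 (nat_lit 4) (nat_lit 0xc00240012001300080000000000000000000000000000000) (nat_lit 0x0) (nat_lit 0x400030001000000001000080004000000000000000000000000000000) := T_7 (nat_lit 139) (nat_lit 122) (nat_lit 4) (nat_lit 4) (nat_lit 11) L50583 (by decide +kernel)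
theorem L50585 : W_7 (nat_lit 5) (nat_lit 0x800240012001300080000000000000000000000000000000) (nat_lit 0x0) (nat_lit 0x400038001400000001000080004000000000000000000000000000000) := T_7 (nat_lit 190) (nat_lit 207) (nat_lit 5) (nat_lit 4) (nat_lit 8) L50584 (by decide +kernel)
theorem L50586 : W_7 (nat_lit 9) (nat_lit 0xc00340012001300080000000000000000000000000000000) (nat_lit 0x0) (nat_lit 0xc000f000230002000900088004c000000000000000000000000000000) := T_7 (nat_lit 123) (nat_lit 173) (nat_lit 5) (nat_lit 4) (nat_lit 7) L50574 (by decide +kernel)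
theorem L50587 : W_7 (nat_lit 10) (nat_lit 0xc00240012001300080000000000000000000000000000000) (nat_lit 0x0) (nat_lit 0xc000f00023001a000900088004c000000000000000000000000000000) := T_7 (nat_lit 176) (nat_lit 175) (nat_lit 1) (nat_lit 7) (nat_lit 10) L50586 (by decide +kernel)
theorem L50588 : W_7 (nat_lit 11) (nat_lit 0x800240012001300080000000000000000000000000000000) (nat_lit 0x0) (nat_lit 0xc000f80027001a000900088004c000000000000000000000000000000) := T_7 (nat_lit 190) (nat_lit 207) (nat_lit 5) (nat_lit 4) (nat_lit 8) L50587 (by decide +kernel)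
theorem L50589 : W_7 (nat_lit 12) (nat_lit 0x240012001300080000000000000000000000000000000) (nat_lit 0x0) (nat_lit 0xc000f8003f001a000900088004c000200000000000000000000000000) := Q_7 (nat_lit 191) (C_7 L50581 (C_7 L50585 (C_7 L50588 (C_7 L49912 (C_7 L49906 N_7))))) (by decide +kernel)
theorem L50590 : W_7 (nat_lit 2) (nat_lit 0x70002d00340012001380080000000000000000000000000000000) (nat_lit 0x0) (nat_lit 0x8000800040000000000000000000000000000000) := D_7 (nat_lit 143) (nat_lit 126) (nat_lit 159) (nat_lit 5) (nat_lit 7) (nat_lit 7) (nat_lit 6) (nat_lit 6) (nat_lit 12) (by decide +kernel)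
theorem L50591 : W_7 (nat_lit 3) (nat_lit 0x70000d00340012001380080000000000000000000000000000000) (nat_lit 0x0) (nat_lit 0x800000002000000008000800040000000000000000000000000000000) := T_7 (nat_lit 193) (nat_lit 227) (nat_lit 6) (nat_lit 6) (nat_lit 13) L50590 (by decide +kernel)
theorem L50592 : W_7 (nat_lit 4) (nat_lit 0x30000d00340012001380080000000000000000000000000000000) (nat_lit 0x0) (nat_lit 0x8000c0002000000008000800040000000000000000000000000000000) := T_7 (nat_lit 210) (nat_lit 211) (nat_lit 0) (nat_lit 7) (nat_lit 12) L50591 (by decide +kernel)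
theorem L50593 : W_7 (nat_lit 5) (nat_lit 0x30000c00340012001380080000000000000000000000000000000) (nat_lit 0x0) (nat_lit 0x8000c0002300000008000800040000000000000000000000000000000) := T_7 (nat_lit 188) (nat_lit 189) (nat_lit 3) (nat_lit 1) (nat_lit 11) L50592 (by decide +kernel)
theorem L50594 : W_7 (nat_lit 6) (nat_lit 0x10000c00340012001380080000000000000000000000000000000) (nat_lit 0x0) (nat_lit 0xc000e0002300000008000800040000000000000000000000000000000) := T_7 (nat_lit 209) (nat_lit 226) (nat_lit 7) (nat_lit 4) (nat_lit 9) L50593 (by decide +kernel)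
theorem L50595 : W_7 (nat_lit 7) (nat_lit 0xc00340012001380080000000000000000000000000000000) (nat_lit 0x0) (nat_lit 0xc000f0002300000009000800040000000000000000000000000000000) := T_7 (nat_lit 208) (nat_lit 156) (nat_lit 4) (nat_lit 4) (nat_lit 12) L50594 (by decide +kernel)
theorem L50596 : W_7 (nat_lit 8) (nat_lit 0xc00340012001300080000000000000000000000000000000) (nat_lit 0x0) (nat_lit 0xc000f0002300000009000880044000000000000000000000000000000) := T_7 (nat_lit 139) (nat_lit 122) (nat_lit 4) (nat_lit 4) (nat_lit 11) L50595 (by decide +kernel)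
theorem L50597 : W_7 (nat_lit 9) (nat_lit 0xc00240012001300080000000000000000000000000000000) (nat_lit 0x0) (nat_lit 0xc000f0002300180009000880044000000000000000000000000000000) := T_7 (nat_lit 176) (nat_lit 175) (nat_lit 1) (nat_lit 7) (nat_lit 10) L50596 (by decide +kernel)
theorem L50598 : W_7 (nat_lit 10) (nat_lit 0x800240012001300080000000000000000000000000000000) (nat_lit 0x0) (nat_lit 0xc000f8002700180009000880044000000000000000000000000000000) := T_7 (nat_lit 190) (nat_lit 207) (nat_lit 5) (nat_lit 4) (nat_lit 8) L50597 (by decide +kernel)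
theorem L50599 : W_7 (nat_lit 2) (nat_lit 0x10000800240012001380080000000000000000000000000000000) (nat_lit 0x0) (nat_lit 0x100008000400000000000000000000000000000000000000000000000) := D_7 (nat_lit 207) (nat_lit 224) (nat_lit 190) (nat_lit 5) (nat_lit 4) (nat_lit 9) (nat_lit 5) (nat_lit 4) (nat_lit 8) (by decide +kernel)
theorem L50600 : W_7 (nat_lit 3) (nat_lit 0x800240012001380080000000000000000000000000000000) (nat_lit 0x0) (nat_lit 0x100018000400000001000000000000000000000000000000000000000) := T_7 (nat_lit 208) (nat_lit 156) (nat_lit 4) (nat_lit 4) (nat_lit 12) L50599 (by decide +kernel)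
theorem L50601 : W_7 (nat_lit 4) (nat_lit 0x800240012001300080000000000000000000000000000000) (nat_lit 0x0) (nat_lit 0x100018000400000001000080004000000000000000000000000000000) := T_7 (nat_lit 139) (nat_lit 122) (nat_lit 4) (nat_lit 4) (nat_lit 11) L50600 (by decide +kernel)
theorem L50602 : W_7 (nat_lit 11) (nat_lit 0x240012001300080000000000000000000000000000000) (nat_lit 0x0) (nat_lit 0xd000f8003f00180009000880044000000000000000000000000000000) := Q_7 (nat_lit 191) (C_7 L50581 (C_7 L49912 (C_7 L50598 (C_7 L50601 N_7)))) (by decide +kernel)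
theorem L50603 : W_7 (nat_lit 2) (nat_lit 0x2c0012001300080000000000000000000000000000000) (nat_lit 0x0) (nat_lit 0x100021000000000000000000000000000000000000000) := D_7 (nat_lit 176) (nat_lit 156) (nat_lit 161) (nat_lit 0) (nat_lit 7) (nat_lit 10) (nat_lit 2) (nat_lit 4) (nat_lit 10) (by decide +kernel)
theorem L50604 : W_7 (nat_lit 2) (nat_lit 0x2e0012001300088000000000000000000000000000000) (nat_lit 0x0) (nat_lit 0x100028000000000000000000000000000000000000000) := D_7 (nat_lit 176) (nat_lit 159) (nat_lit 161) (nat_lit 2) (nat_lit 3) (nat_lit 10) (nat_lit 2) (nat_lit 4) (nat_lit 10) (by decide +kernel)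
theorem L50605 : W_7 (nat_lit 3) (nat_lit 0x2c0012001300088000000000000000000000000000000) (nat_lit 0x0) (nat_lit 0x400120028000000000000000000000000000000000000000) := T_7 (nat_lit 173) (nat_lit 190) (nat_lit 5) (nat_lit 4) (nat_lit 7) L50604 (by decide +kernel)
theorem L50606 : W_7 (nat_lit 4) (nat_lit 0x2c0012001300080000000000000000000000000000000) (nat_lit 0x0) (nat_lit 0x1400120028000000008000000000000000000000000000000) := T_7 (nat_lit 123) (nat_lit 192) (nat_lit 7) (nat_lit 4) (nat_lit 7) L50605 (by decide +kernel)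
theorem L50607 : W_7 (nat_lit 2) (nat_lit 0x2e0012001300088000400050000000000000000000000) (nat_lit 0x0) (nat_lit 0x20002800000000000000000) := D_7 (nat_lit 89) (nat_lit 71) (nat_lit 73) (nat_lit 4) (nat_lit 4) (nat_lit 8) (nat_lit 6) (nat_lit 4) (nat_lit 8) (by decide +kernel)
theorem L50608 : W_7 (nat_lit 3) (nat_lit 0x2e0012001300088000400010000000000000000000000) (nat_lit 0x0) (nat_lit 0x800060002800000000000000000) := T_7 (nat_lit 90) (nat_lit 107) (nat_lit 6) (nat_lit 4) (nat_lit 9) L50607 (by decide +kernel)
theorem L50609 : W_7 (nat_lit 4) (nat_lit 0x2e0012001300088000400000000000000000000000000) (nat_lit 0x0) (nat_lit 0xa00070002800000000000000000) := T_7 (nat_lit 88) (nat_lit 105) (nat_lit 4) (nat_lit 4) (nat_lit 9) L50608 (by decide +kernel)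
theorem L50610 : W_7 (nat_lit 5) (nat_lit 0x2e0012001300088000000000000000000000000000000) (nat_lit 0x0) (nat_lit 0x1000000000000e00070002800000000000000000) := T_7 (nat_lit 106) (nat_lit 156) (nat_lit 5) (nat_lit 4) (nat_lit 6) L50609 (by decide +kernel)
theorem L50611 : W_7 (nat_lit 6) (nat_lit 0x2c0012001300088000000000000000000000000000000) (nat_lit 0x0) (nat_lit 0x400020001000000000000e00070002800000000000000000) := T_7 (nat_lit 173) (nat_lit 190) (nat_lit 5) (nat_lit 4) (nat_lit 7) L50610 (by decide +kernel)
theorem L50612 : W_7 (nat_lit 7) (nat_lit 0x2c0012001300080000000000000000000000000000000) (nat_lit 0x0) (nat_lit 0x1400020001000000008000e00070002800000000000000000) := T_7 (nat_lit 123) (nat_lit 192) (nat_lit 7) (nat_lit 4) (nat_lit 7) L50611 (by decide +kernel)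
theorem L50613 : W_7 (nat_lit 8) (nat_lit 0x240012001300080000000000000000000000000000000) (nat_lit 0x0) (nat_lit 0x14001a0029000000008000e00070002800000000000000000) := Q_7 (nat_lit 175) (C_7 L50603 (C_7 L50606 (C_7 L50612 N_7))) (by decide +kernel)
theorem L50614 : W_7 (nat_lit 2) (nat_lit 0xc00240012001380088000000000000000000000000000000) (nat_lit 0x0) (nat_lit 0x20001000080000000000000000000000000000000000000000000) := D_7 (nat_lit 192) (nat_lit 209) (nat_lit 175) (nat_lit 7) (nat_lit 4) (nat_lit 8) (nat_lit 7) (nat_lit 4) (nat_lit 7) (by decide +kernel)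
theorem L50615 : W_7 (nat_lit 3) (nat_lit 0xc00240012001380080000000000000000000000000000000) (nat_lit 0x0) (nat_lit 0x200010000a0000000000008000000000000000000000000000000) := T_7 (nat_lit 123) (nat_lit 173) (nat_lit 5) (nat_lit 4) (nat_lit 7) L50614 (by decide +kernel)
theorem L50616 : W_7 (nat_lit 4) (nat_lit 0xc00240012001300080000000000000000000000000000000) (nat_lit 0x0) (nat_lit 0x200010000a000000008000c000000000000000000000000000000) := T_7 (nat_lit 139) (nat_lit 122) (nat_lit 4) (nat_lit 4) (nat_lit 11) L50615 (by decide +kernel)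
theorem L50617 : W_7 (nat_lit 5) (nat_lit 0x800240012001300080000000000000000000000000000000) (nat_lit 0x0) (nat_lit 0x280014000a000000008000c000000000000000000000000000000) := T_7 (nat_lit 190) (nat_lit 207) (nat_lit 5) (nat_lit 4) (nat_lit 8) L50616 (by decide +kernel)
theorem L50618 : W_7 (nat_lit 2) (nat_lit 0x3c00240012001380080000000000000000000000000000000) (nat_lit 0x0) (nat_lit 0x30000000000008000000000000000000000000000000) := D_7 (nat_lit 173) (nat_lit 123) (nat_lit 172) (nat_lit 5) (nat_lit 4) (nat_lit 7) (nat_lit 0) (nat_lit 6) (nat_lit 11) (by decide +kernel)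
theorem L50619 : W_7 (nat_lit 3) (nat_lit 0x1c00240012001380080000000000000000000000000000000) (nat_lit 0x0) (nat_lit 0x2000130000000000008000000000000000000000000000000) := T_7 (nat_lit 193) (nat_lit 176) (nat_lit 2) (nat_lit 3) (nat_lit 11) L50618 (by decide +kernel)
theorem L50620 : W_7 (nat_lit 4) (nat_lit 0x1800240012001380080000000000000000000000000000000) (nat_lit 0x0) (nat_lit 0x8002400130000000000008000000000000000000000000000000) := T_7 (nat_lit 190) (nat_lit 207) (nat_lit 5) (nat_lit 4) (nat_lit 8) L50619 (by decide +kernel)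
theorem L50621 : W_7 (nat_lit 5) (nat_lit 0x1800240012001300080000000000000000000000000000000) (nat_lit 0x0) (nat_lit 0x800240013000000008000c000000000000000000000000000000) := T_7 (nat_lit 139) (nat_lit 122) (nat_lit 4) (nat_lit 4) (nat_lit 11) L50620 (by decide +kernel)
theorem L50622 : W_7 (nat_lit 6) (nat_lit 0x800240012001300080000000000000000000000000000000) (nat_lit 0x0) (nat_lit 0x2800340013000000008000c000000000000000000000000000000) := T_7 (nat_lit 192) (nat_lit 209) (nat_lit 7) (nat_lit 4) (nat_lit 8) L50621 (by decide +kernel)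
theorem L50623 : W_7 (nat_lit 2) (nat_lit 0x18003e0012001380080000000000000000000000000000000) (nat_lit 0x0) (nat_lit 0x2000018000000000000000000000000000000000000000000) := D_7 (nat_lit 172) (nat_lit 193) (nat_lit 171) (nat_lit 3) (nat_lit 2) (nat_lit 10) (nat_lit 3) (nat_lit 1) (nat_lit 10) (by decide +kernel)
theorem L50624 : W_7 (nat_lit 3) (nat_lit 0x18003c0012001380080000000000000000000000000000000) (nat_lit 0x0) (nat_lit 0x2000038008000000000000000000000000000000000000000) := T_7 (nat_lit 173) (nat_lit 159) (nat_lit 2) (nat_lit 3) (nat_lit 10) L50623 (by decide +kernel)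
theorem L50625 : W_7 (nat_lit 4) (nat_lit 0x18002c0012001380080000000000000000000000000000000) (nat_lit 0x0) (nat_lit 0x2000138028000000000000000000000000000000000000000) := T_7 (nat_lit 176) (nat_lit 161) (nat_lit 2) (nat_lit 4) (nat_lit 10) L50624 (by decide +kernel)
theorem L50626 : W_7 (nat_lit 5) (nat_lit 0x1800240012001380080000000000000000000000000000000) (nat_lit 0x0) (nat_lit 0x20001b8028000000008000000000000000000000000000000) := T_7 (nat_lit 175) (nat_lit 123) (nat_lit 7) (nat_lit 4) (nat_lit 7) L50625 (by decide +kernel)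
theorem L50627 : W_7 (nat_lit 6) (nat_lit 0x1800240012001300080000000000000000000000000000000) (nat_lit 0x0) (nat_lit 0x20001b802800008000c000000000000000000000000000000) := T_7 (nat_lit 139) (nat_lit 122) (nat_lit 4) (nat_lit 4) (nat_lit 11) L50626 (by decide +kernel)
theorem L50628 : W_7 (nat_lit 7) (nat_lit 0x800240012001300080000000000000000000000000000000) (nat_lit 0x0) (nat_lit 0x200030001b802800008000c000000000000000000000000000000) := T_7 (nat_lit 192) (nat_lit 209) (nat_lit 7) (nat_lit 4) (nat_lit 8) L50627 (by decide +kernel)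
theorem L50629 : W_7 (nat_lit 8) (nat_lit 0x240012001300080000000000000000000000000000000) (nat_lit 0x0) (nat_lit 0x28003c001b802800008000c000200000000000000000000000000) := Q_7 (nat_lit 191) (C_7 L50581 (C_7 L49906 (C_7 L50617 (C_7 L50622 (C_7 L50628 N_7))))) (by decide +kernel)
theorem L50630 : W_7 (nat_lit 5) (nat_lit 0x240012001300080000000000000000000000000000000) (nat_lit 0x0) (nat_lit 0x500038001c000a000100008000c000000000000000000000000000000) := Q_7 (nat_lit 191) (C_7 L41766 (C_7 L50601 (C_7 L49912 N_7))) (by decide +kernel)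
theorem L50631 : W_7 (nat_lit 6) (nat_lit 0x240012001300080000000000000000000000000000000) (nat_lit 0x0) (nat_lit 0x500038003c0013000100008000c000000000000000000000000000000) := Q_7 (nat_lit 191) (C_7 L49938 (C_7 L50601 (C_7 L49912 N_7))) (by decide +kernel)
theorem L50632 : W_7 (nat_lit 2) (nat_lit 0x10002c0012001300080000000000000000000000000000000) (nat_lit 0x0) (nat_lit 0x400020000800000000000000000000000000000000000000000000000) := D_7 (nat_lit 209) (nat_lit 191) (nat_lit 226) (nat_lit 7) (nat_lit 4) (nat_lit 8) (nat_lit 4) (nat_lit 5) (nat_lit 13) (by decide +kernel)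
theorem L50633 : W_7 (nat_lit 3) (nat_lit 0x2c0012001300080000000000000000000000000000000) (nat_lit 0x0) (nat_lit 0x400020001800000000000000008000000000000000000000000000000) := T_7 (nat_lit 192) (nat_lit 123) (nat_lit 7) (nat_lit 4) (nat_lit 7) L50632 (by decide +kernel)
theorem L50634 : W_7 (nat_lit 4) (nat_lit 0x240012001300080000000000000000000000000000000) (nat_lit 0x0) (nat_lit 0x400020001800180021000000008000000000000000000000000000000) := Q_7 (nat_lit 175) (C_7 L50603 (C_7 L50633 N_7)) (by decide +kernel)
theorem L50635 : W_7 (nat_lit 13) (nat_lit 0x200012001300080000000000000000000000000000000) (nat_lit 0x0) (nat_lit 0xd000f8003f001f802900088004f000e00070003800040000000000000) := Q_7 (nat_lit 174) (C_7 L50578 (C_7 L50589 (C_7 L50602 (C_7 L50613 (C_7 L50629 (C_7 L50630 (C_7 L50631 (C_7 L50634 N_7)))))))) (by decide +kernel)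
theorem L50636 : W_7 (nat_lit 5) (nat_lit 0x240012001300080000000000000000000000000000000) (nat_lit 0x0) (nat_lit 0x500038003c00180001000080004000000000000000000000000000000) := Q_7 (nat_lit 191) (C_7 L50581 (C_7 L50601 (C_7 L49912 N_7))) (by decide +kernel)
theorem L50637 : W_7 (nat_lit 2) (nat_lit 0x2000100018002c0012001380080000000000000000000000000000000) (nat_lit 0x0) (nat_lit 0x2000100008000000000000000000000000000000000000000000000000000) := D_7 (nat_lit 224) (nat_lit 207) (nat_lit 241) (nat_lit 5) (nat_lit 4) (nat_lit 9) (nat_lit 5) (nat_lit 4) (nat_lit 10) (by decide +kernel)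
theorem L50638 : W_7 (nat_lit 3) (nat_lit 0x100018002c0012001380080000000000000000000000000000000) (nat_lit 0x0) (nat_lit 0x6000300008000000000000000000000000000000000000000000000000000) := T_7 (nat_lit 225) (nat_lit 242) (nat_lit 6) (nat_lit 4) (nat_lit 14) L50637 (by decide +kernel)
theorem L50639 : W_7 (nat_lit 4) (nat_lit 0x18002c0012001380080000000000000000000000000000000) (nat_lit 0x0) (nat_lit 0x6000300018000000000004000000000000000000000000000000000000000) := T_7 (nat_lit 208) (nat_lit 158) (nat_lit 6) (nat_lit 4) (nat_lit 12) L50638 (by decide +kernel)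
theorem L50640 : W_7 (nat_lit 5) (nat_lit 0x1800240012001380080000000000000000000000000000000) (nat_lit 0x0) (nat_lit 0x6000300018000000080004000000008000000000000000000000000000000) := T_7 (nat_lit 175) (nat_lit 123) (nat_lit 7) (nat_lit 4) (nat_lit 7) L50639 (by decide +kernel)
theorem L50641 : W_7 (nat_lit 6) (nat_lit 0x1800240012001300080000000000000000000000000000000) (nat_lit 0x0) (nat_lit 0x600030001800000008000400008000c000000000000000000000000000000) := T_7 (nat_lit 139) (nat_lit 122) (nat_lit 4) (nat_lit 4) (nat_lit 11) L50640 (by decide +kernel)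
theorem L50642 : W_7 (nat_lit 7) (nat_lit 0x800240012001300080000000000000000000000000000000) (nat_lit 0x0) (nat_lit 0x600030003800100008000400008000c000000000000000000000000000000) := T_7 (nat_lit 192) (nat_lit 209) (nat_lit 7) (nat_lit 4) (nat_lit 8) L50641 (by decide +kernel)
theorem L50643 : W_7 (nat_lit 8) (nat_lit 0x240012001300080000000000000000000000000000000) (nat_lit 0x0) (nat_lit 0x6000700038003c001b000400008000c000200000000000000000000000000) := Q_7 (nat_lit 191) (C_7 L49938 (C_7 L50581 (C_7 L41766 (C_7 L49906 (C_7 L50642 (C_7 L49873 N_7)))))) (by decide +kernel)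
theorem L50644 : W_7 (nat_lit 6) (nat_lit 0x260012001300088000000000000000000000000000000) (nat_lit 0x0) (nat_lit 0x1000080001000000000000e00070002800000000000000000) := T_7 (nat_lit 175) (nat_lit 192) (nat_lit 7) (nat_lit 4) (nat_lit 7) L50610 (by decide +kernel)
theorem L50645 : W_7 (nat_lit 7) (nat_lit 0x240012001300088000000000000000000000000000000) (nat_lit 0x0) (nat_lit 0x14000a0001000000000000e00070002800000000000000000) := T_7 (nat_lit 173) (nat_lit 190) (nat_lit 5) (nat_lit 4) (nat_lit 7) L50644 (by decide +kernel)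
theorem L50646 : W_7 (nat_lit 2) (nat_lit 0x26001200130008d000400020000000000000000000000) (nat_lit 0x0) (nat_lit 0x800040002000000000000000000) := D_7 (nat_lit 90) (nat_lit 107) (nat_lit 73) (nat_lit 6) (nat_lit 4) (nat_lit 9) (nat_lit 6) (nat_lit 4) (nat_lit 8) (by decide +kernel)
theorem L50647 : W_7 (nat_lit 3) (nat_lit 0x26001200130008d000400000000000000000000000000) (nat_lit 0x0) (nat_lit 0x4000000000000800060002000000000000000000) := T_7 (nat_lit 89) (nat_lit 158) (nat_lit 7) (nat_lit 4) (nat_lit 5) L50646 (by decide +kernel)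
theorem L50648 : W_7 (nat_lit 4) (nat_lit 0x26001200130008d000000000000000000000000000000) (nat_lit 0x0) (nat_lit 0x5000000000000c00060002000000000000000000) := T_7 (nat_lit 106) (nat_lit 156) (nat_lit 5) (nat_lit 4) (nat_lit 6) L50647 (by decide +kernel)
theorem L50649 : W_7 (nat_lit 5) (nat_lit 0x26001200130008c000000000000000000000000000000) (nat_lit 0x0) (nat_lit 0x5000000003000c00060002000000000000000000) := T_7 (nat_lit 120) (nat_lit 121) (nat_lit 3) (nat_lit 1) (nat_lit 7) L50648 (by decide +kernel)
theorem L50650 : W_7 (nat_lit 6) (nat_lit 0x260012001300088000000000000000000000000000000) (nat_lit 0x0) (nat_lit 0x5000000007000e00060002000000000000000000) := T_7 (nat_lit 122) (nat_lit 105) (nat_lit 4) (nat_lit 4) (nat_lit 10) L50649 (by decide +kernel)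
theorem L50651 : W_7 (nat_lit 7) (nat_lit 0x240012001300088000000000000000000000000000000) (nat_lit 0x0) (nat_lit 0x400020005000000007000e00060002000000000000000000) := T_7 (nat_lit 173) (nat_lit 190) (nat_lit 5) (nat_lit 4) (nat_lit 7) L50650 (by decide +kernel)
theorem L50652 : W_7 (nat_lit 8) (nat_lit 0x240012001300080000000000000000000000000000000) (nat_lit 0x0) (nat_lit 0x14001a002500000000f000e00070002800000000000000000) := Q_7 (nat_lit 123) (C_7 L50645 (C_7 L41911 (C_7 L50651 (C_7 L47051 N_7)))) (by decide +kernel)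
theorem L50653 : W_7 (nat_lit 2) (nat_lit 0xc00340016001300088000200000000000000000000000000) (nat_lit 0x0) (nat_lit 0x400030000000000000000000000) := D_7 (nat_lit 106) (nat_lit 89) (nat_lit 88) (nat_lit 7) (nat_lit 4) (nat_lit 5) (nat_lit 4) (nat_lit 4) (nat_lit 9) (by decide +kernel)
theorem L50654 : W_7 (nat_lit 3) (nat_lit 0xc00340016001300088000000000000000000000000000000) (nat_lit 0x0) (nat_lit 0x4000600030000000000000000000000) := T_7 (nat_lit 105) (nat_lit 122) (nat_lit 4) (nat_lit 4) (nat_lit 10) L50653 (by decide +kernel)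
theorem L50655 : W_7 (nat_lit 4) (nat_lit 0xc00340012001300088000000000000000000000000000000) (nat_lit 0x0) (nat_lit 0x10000000000004000000004000600030000000000000000000000) := T_7 (nat_lit 158) (nat_lit 208) (nat_lit 6) (nat_lit 4) (nat_lit 12) L50654 (by decide +kernel)
theorem L50656 : W_7 (nat_lit 5) (nat_lit 0xc00340012001300080000000000000000000000000000000) (nat_lit 0x0) (nat_lit 0x1000000002000400000000c000600030000000000000000000000) := T_7 (nat_lit 123) (nat_lit 173) (nat_lit 5) (nat_lit 4) (nat_lit 7) L50655 (by decide +kernel)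
theorem L50657 : W_7 (nat_lit 6) (nat_lit 0xc00240012001300080000000000000000000000000000000) (nat_lit 0x0) (nat_lit 0x100000001a000400000000c000600030000000000000000000000) := T_7 (nat_lit 176) (nat_lit 175) (nat_lit 1) (nat_lit 7) (nat_lit 10) L50656 (by decide +kernel)
theorem L50658 : W_7 (nat_lit 7) (nat_lit 0x800240012001300080000000000000000000000000000000) (nat_lit 0x0) (nat_lit 0x180004001a000400000000c000600030000000000000000000000) := T_7 (nat_lit 190) (nat_lit 207) (nat_lit 5) (nat_lit 4) (nat_lit 8) L50657 (by decide +kernel)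
theorem L50659 : W_7 (nat_lit 2) (nat_lit 0x10000c00360012001300080000000000000000000000000000000) (nat_lit 0x0) (nat_lit 0x200000000000000001000080000000000000000000000000000000000) := D_7 (nat_lit 156) (nat_lit 139) (nat_lit 225) (nat_lit 7) (nat_lit 3) (nat_lit 8) (nat_lit 4) (nat_lit 4) (nat_lit 13) (by decide +kernel)
theorem L50660 : W_7 (nat_lit 3) (nat_lit 0xc00360012001300080000000000000000000000000000000) (nat_lit 0x0) (nat_lit 0x200010000000000005000080000000000000000000000000000000000) := T_7 (nat_lit 208) (nat_lit 158) (nat_lit 6) (nat_lit 4) (nat_lit 12) L50659 (by decide +kernel)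
theorem L50661 : W_7 (nat_lit 4) (nat_lit 0xc00340012001300080000000000000000000000000000000) (nat_lit 0x0) (nat_lit 0x200010000000020005000080008000000000000000000000000000000) := T_7 (nat_lit 173) (nat_lit 123) (nat_lit 5) (nat_lit 4) (nat_lit 7) L50660 (by decide +kernel)
theorem L50662 : W_7 (nat_lit 5) (nat_lit 0xc00240012001300080000000000000000000000000000000) (nat_lit 0x0) (nat_lit 0x2000100000001a0005000080008000000000000000000000000000000) := T_7 (nat_lit 176) (nat_lit 175) (nat_lit 1) (nat_lit 7) (nat_lit 10) L50661 (by decide +kernel)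
theorem L50663 : W_7 (nat_lit 6) (nat_lit 0x800240012001300080000000000000000000000000000000) (nat_lit 0x0) (nat_lit 0x2000180004001a0005000080008000000000000000000000000000000) := T_7 (nat_lit 190) (nat_lit 207) (nat_lit 5) (nat_lit 4) (nat_lit 8) L50662 (by decide +kernel)
theorem L50664 : W_7 (nat_lit 2) (nat_lit 0x10000800240012001300080000000000000000000000000000000) (nat_lit 0x0) (nat_lit 0x1000080004000000000000000000000000000000) := D_7 (nat_lit 139) (nat_lit 122) (nat_lit 156) (nat_lit 4) (nat_lit 4) (nat_lit 11) (nat_lit 4) (nat_lit 4) (nat_lit 12) (by decide +kernel)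
theorem L50665 : W_7 (nat_lit 3) (nat_lit 0x800240012001300080000000000000000000000000000000) (nat_lit 0x0) (nat_lit 0x10000000000005000080004000000000000000000000000000000) := T_7 (nat_lit 208) (nat_lit 158) (nat_lit 6) (nat_lit 4) (nat_lit 12) L50664 (by decide +kernel)
theorem L50666 : W_7 (nat_lit 8) (nat_lit 0x240012001300080000000000000000000000000000000) (nat_lit 0x0) (nat_lit 0x300018000c001a000500008000c000600030000000000000000000000) := Q_7 (nat_lit 191) (C_7 L50658 (C_7 L50601 (C_7 L50663 (C_7 L50665 (C_7 L49906 N_7))))) (by decide +kernel)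
theorem L50667 : W_7 (nat_lit 9) (nat_lit 0x200012001300080000000000000000000000000000000) (nat_lit 0x0) (nat_lit 0x6000700038003c001f002500008000f000e00070002800000000000000000) := Q_7 (nat_lit 174) (C_7 L50634 (C_7 L50636 (C_7 L50643 (C_7 L50630 (C_7 L50631 (C_7 L50652 (C_7 L50666 N_7))))))) (by decide +kernel)
theorem L50668 : W_7 (nat_lit 2) (nat_lit 0x30002b0017801340080000000000000000000000000000000) (nat_lit 0x0) (nat_lit 0x8000400000000000000002000000000000000000000000000000) := D_7 (nat_lit 190) (nat_lit 207) (nat_lit 121) (nat_lit 6) (nat_lit 3) (nat_lit 12) (nat_lit 7) (nat_lit 2) (nat_lit 7) (by decide +kernel)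
theorem L50669 : W_7 (nat_lit 3) (nat_lit 0x3000290017801340080000000000000000000000000000000) (nat_lit 0x0) (nat_lit 0x8000400060000000000002000000000000000000000000000000) := T_7 (nat_lit 173) (nat_lit 174) (nat_lit 3) (nat_lit 2) (nat_lit 10) L50668 (by decide +kernel)
theorem L50670 : W_7 (nat_lit 4) (nat_lit 0x3000280017801340080000000000000000000000000000000) (nat_lit 0x0) (nat_lit 0x8000400078000000000002000000000000000000000000000000) := T_7 (nat_lit 172) (nat_lit 171) (nat_lit 1) (nat_lit 5) (nat_lit 9) L50669 (by decide +kernel)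
theorem L50671 : W_7 (nat_lit 5) (nat_lit 0x1000280017801340080000000000000000000000000000000) (nat_lit 0x0) (nat_lit 0x48002400078000000000002000000000000000000000000000000) := T_7 (nat_lit 193) (nat_lit 210) (nat_lit 7) (nat_lit 5) (nat_lit 8) L50670 (by decide +kernel)
theorem L50672 : W_7 (nat_lit 6) (nat_lit 0x1000280017801300080000000000000000000000000000000) (nat_lit 0x0) (nat_lit 0x48002400078000000060002000000000000000000000000000000) := T_7 (nat_lit 138) (nat_lit 137) (nat_lit 0) (nat_lit 5) (nat_lit 9) L50671 (by decide +kernel)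
theorem L50673 : W_7 (nat_lit 7) (nat_lit 0x280017801300080000000000000000000000000000000) (nat_lit 0x0) (nat_lit 0x68003400078000000060002000000000000000000000000000000) := T_7 (nat_lit 192) (nat_lit 209) (nat_lit 4) (nat_lit 5) (nat_lit 12) L50672 (by decide +kernel)
theorem L50674 : W_7 (nat_lit 8) (nat_lit 0x200017801300080000000000000000000000000000000) (nat_lit 0x0) (nat_lit 0x680034001f8000000060002000000000000000000000000000000) := T_7 (nat_lit 175) (nat_lit 176) (nat_lit 3) (nat_lit 2) (nat_lit 9) L50673 (by decide +kernel)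
theorem L50675 : W_7 (nat_lit 9) (nat_lit 0x200017001300080000000000000000000000000000000) (nat_lit 0x0) (nat_lit 0x680034001f8000c00060002000000000000000000000000000000) := T_7 (nat_lit 155) (nat_lit 154) (nat_lit 2) (nat_lit 1) (nat_lit 9) L50674 (by decide +kernel)
theorem L50676 : W_7 (nat_lit 2) (nat_lit 0x30002b0017801300080000000000000000000000000000000) (nat_lit 0x0) (nat_lit 0x10000c00000000000000000000000000000000000000000000000) := D_7 (nat_lit 191) (nat_lit 190) (nat_lit 208) (nat_lit 0) (nat_lit 6) (nat_lit 11) (nat_lit 5) (nat_lit 5) (nat_lit 8) (by decide +kernel)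
theorem L50677 : W_7 (nat_lit 3) (nat_lit 0x3000290017801300080000000000000000000000000000000) (nat_lit 0x0) (nat_lit 0x10000c00060000000000000000000000000000000000000000000) := T_7 (nat_lit 173) (nat_lit 174) (nat_lit 3) (nat_lit 2) (nat_lit 10) L50676 (by decide +kernel)
theorem L50678 : W_7 (nat_lit 4) (nat_lit 0x1000290017801300080000000000000000000000000000000) (nat_lit 0x0) (nat_lit 0x50002c00060000000000000000000000000000000000000000000) := T_7 (nat_lit 193) (nat_lit 210) (nat_lit 7) (nat_lit 5) (nat_lit 8) L50677 (by decide +kernel)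
theorem L50679 : W_7 (nat_lit 5) (nat_lit 0x1000280017801300080000000000000000000000000000000) (nat_lit 0x0) (nat_lit 0x50002c00078000000000000000000000000000000000000000000) := T_7 (nat_lit 172) (nat_lit 171) (nat_lit 1) (nat_lit 5) (nat_lit 9) L50678 (by decide +kernel)
theorem L50680 : W_7 (nat_lit 6) (nat_lit 0x280017801300080000000000000000000000000000000) (nat_lit 0x0) (nat_lit 0x70003c00078000000000000000000000000000000000000000000) := T_7 (nat_lit 192) (nat_lit 209) (nat_lit 4) (nat_lit 5) (nat_lit 12) L50679 (by decide +kernel)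
theorem L50681 : W_7 (nat_lit 7) (nat_lit 0x200017801300080000000000000000000000000000000) (nat_lit 0x0) (nat_lit 0x70003c001f8000000000000000000000000000000000000000000) := T_7 (nat_lit 175) (nat_lit 176) (nat_lit 3) (nat_lit 2) (nat_lit 9) L50680 (by decide +kernel)
theorem L50682 : W_7 (nat_lit 8) (nat_lit 0x200017001300080000000000000000000000000000000) (nat_lit 0x0) (nat_lit 0x70003c001f8000c00000000000000000000000000000000000000) := T_7 (nat_lit 155) (nat_lit 154) (nat_lit 2) (nat_lit 1) (nat_lit 9) L50681 (by decide +kernel)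
theorem L50683 : W_7 (nat_lit 2) (nat_lit 0x2200174013c0082000000000000000000000000000000) (nat_lit 0x0) (nat_lit 0x4000100008000000000000000000000) := D_7 (nat_lit 104) (nat_lit 87) (nat_lit 122) (nat_lit 7) (nat_lit 2) (nat_lit 5) (nat_lit 4) (nat_lit 3) (nat_lit 10) (by decide +kernel)
theorem L50684 : W_7 (nat_lit 3) (nat_lit 0x2000174013c0082000000000000000000000000000000) (nat_lit 0x0) (nat_lit 0x400020000000000004000100008000000000000000000000) := T_7 (nat_lit 173) (nat_lit 190) (nat_lit 4) (nat_lit 3) (nat_lit 11) L50683 (by decide +kernel)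
theorem L50685 : W_7 (nat_lit 4) (nat_lit 0x2000174013c0080000000000000000000000000000000) (nat_lit 0x0) (nat_lit 0x400020000000000007000100008000000000000000000000) := T_7 (nat_lit 121) (nat_lit 120) (nat_lit 0) (nat_lit 5) (nat_lit 8) L50684 (by decide +kernel)
theorem L50686 : W_7 (nat_lit 5) (nat_lit 0x200017401380080000000000000000000000000000000) (nat_lit 0x0) (nat_lit 0x400020000000060007000100008000000000000000000000) := T_7 (nat_lit 138) (nat_lit 137) (nat_lit 3) (nat_lit 1) (nat_lit 8) L50685 (by decide +kernel)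
theorem L50687 : W_7 (nat_lit 6) (nat_lit 0x200017001380080000000000000000000000000000000) (nat_lit 0x0) (nat_lit 0x400020000c00060007000100008000000000000000000000) := T_7 (nat_lit 154) (nat_lit 155) (nat_lit 2) (nat_lit 1) (nat_lit 9) L50686 (by decide +kernel)
theorem L50688 : W_7 (nat_lit 2) (nat_lit 0x2100178013c0082000000000000000000000000000000) (nat_lit 0x0) (nat_lit 0x400020000000000000000100000000000000000000000000) := D_7 (nat_lit 173) (nat_lit 190) (nat_lit 104) (nat_lit 7) (nat_lit 2) (nat_lit 7) (nat_lit 7) (nat_lit 2) (nat_lit 6) (by decide +kernel)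
theorem L50689 : W_7 (nat_lit 3) (nat_lit 0x2100178013c0080000000000000000000000000000000) (nat_lit 0x0) (nat_lit 0x400020000000000003000100000000000000000000000000) := T_7 (nat_lit 121) (nat_lit 120) (nat_lit 0) (nat_lit 5) (nat_lit 8) L50688 (by decide +kernel)
theorem L50690 : W_7 (nat_lit 4) (nat_lit 0x2000178013c0080000000000000000000000000000000) (nat_lit 0x0) (nat_lit 0x400038000000000003000100000000000000000000000000) := T_7 (nat_lit 172) (nat_lit 171) (nat_lit 1) (nat_lit 5) (nat_lit 9) L50689 (by decide +kernel)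
theorem L50691 : W_7 (nat_lit 5) (nat_lit 0x200017801380080000000000000000000000000000000) (nat_lit 0x0) (nat_lit 0x400038000000060003000100000000000000000000000000) := T_7 (nat_lit 138) (nat_lit 137) (nat_lit 3) (nat_lit 1) (nat_lit 8) L50690 (by decide +kernel)
theorem L50692 : W_7 (nat_lit 6) (nat_lit 0x200017001380080000000000000000000000000000000) (nat_lit 0x0) (nat_lit 0x400038000c00060003000100000000000000000000000000) := T_7 (nat_lit 155) (nat_lit 154) (nat_lit 2) (nat_lit 1) (nat_lit 9) L50691 (by decide +kernel)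
theorem L50693 : W_7 (nat_lit 2) (nat_lit 0x2200170013c0082000000000000000000000000000000) (nat_lit 0x0) (nat_lit 0x4000100008000000000000000000000) := D_7 (nat_lit 104) (nat_lit 87) (nat_lit 122) (nat_lit 7) (nat_lit 2) (nat_lit 5) (nat_lit 4) (nat_lit 3) (nat_lit 10) (by decide +kernel)
theorem L50694 : W_7 (nat_lit 3) (nat_lit 0x2000170013c0082000000000000000000000000000000) (nat_lit 0x0) (nat_lit 0x400020000000000004000100008000000000000000000000) := T_7 (nat_lit 173) (nat_lit 190) (nat_lit 4) (nat_lit 3) (nat_lit 11) L50693 (by decide +kernel)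
theorem L50695 : W_7 (nat_lit 4) (nat_lit 0x2000170013c0080000000000000000000000000000000) (nat_lit 0x0) (nat_lit 0x400020000000000007000100008000000000000000000000) := T_7 (nat_lit 121) (nat_lit 120) (nat_lit 0) (nat_lit 5) (nat_lit 8) L50694 (by decide +kernel)
theorem L50696 : W_7 (nat_lit 5) (nat_lit 0x200017001380080000000000000000000000000000000) (nat_lit 0x0) (nat_lit 0x400020000000060007000100008000000000000000000000) := T_7 (nat_lit 138) (nat_lit 137) (nat_lit 3) (nat_lit 1) (nat_lit 8) L50695 (by decide +kernel)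
theorem L50697 : W_7 (nat_lit 2) (nat_lit 0x2100178013c0082000000000000000000000000000000) (nat_lit 0x0) (nat_lit 0x200000000000000004000200000000000000000000000000) := D_7 (nat_lit 122) (nat_lit 105) (nat_lit 189) (nat_lit 6) (nat_lit 2) (nat_lit 10) (nat_lit 6) (nat_lit 2) (nat_lit 11) (by decide +kernel)
theorem L50698 : W_7 (nat_lit 3) (nat_lit 0x2000178013c0082000000000000000000000000000000) (nat_lit 0x0) (nat_lit 0x200018000000000004000200000000000000000000000000) := T_7 (nat_lit 172) (nat_lit 171) (nat_lit 1) (nat_lit 5) (nat_lit 9) L50697 (by decide +kernel)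
theorem L50699 : W_7 (nat_lit 4) (nat_lit 0x2000178013c0080000000000000000000000000000000) (nat_lit 0x0) (nat_lit 0x200018000000000007000200000000000000000000000000) := T_7 (nat_lit 121) (nat_lit 120) (nat_lit 0) (nat_lit 5) (nat_lit 8) L50698 (by decide +kernel)
theorem L50700 : W_7 (nat_lit 5) (nat_lit 0x2000170013c0080000000000000000000000000000000) (nat_lit 0x0) (nat_lit 0x200018000c00000007000200000000000000000000000000) := T_7 (nat_lit 155) (nat_lit 154) (nat_lit 2) (nat_lit 1) (nat_lit 9) L50699 (by decide +kernel)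
theorem L50701 : W_7 (nat_lit 6) (nat_lit 0x200017001380080000000000000000000000000000000) (nat_lit 0x0) (nat_lit 0x200018000c00060007000200000000000000000000000000) := T_7 (nat_lit 138) (nat_lit 137) (nat_lit 3) (nat_lit 1) (nat_lit 8) L50700 (by decide +kernel)
theorem L50702 : W_7 (nat_lit 7) (nat_lit 0x200017001300080000000000000000000000000000000) (nat_lit 0x0) (nat_lit 0x4000600038000c000e0007000300008000000000000000000000) := Q_7 (nat_lit 139) (C_7 L50687 (C_7 L37445 (C_7 L50692 (C_7 L50696 (C_7 L50701 N_7))))) (by decide +kernel)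
theorem L50703 : W_7 (nat_lit 2) (nat_lit 0x3c00200017001300080000000000000000000000000000000) (nat_lit 0x0) (nat_lit 0xc000000020000000000000000000000000000000000000000000) := D_7 (nat_lit 207) (nat_lit 173) (nat_lit 206) (nat_lit 6) (nat_lit 3) (nat_lit 12) (nat_lit 1) (nat_lit 6) (nat_lit 11) (by decide +kernel)
theorem L50704 : W_7 (nat_lit 3) (nat_lit 0x1c00200017001300080000000000000000000000000000000) (nat_lit 0x0) (nat_lit 0xc002000120000000000000000000000000000000000000000000) := T_7 (nat_lit 193) (nat_lit 176) (nat_lit 2) (nat_lit 3) (nat_lit 11) L50703 (by decide +kernel)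
theorem L50705 : W_7 (nat_lit 2) (nat_lit 0xc001c00200017001300080000000000000000000000000000000) (nat_lit 0x0) (nat_lit 0x3000200000000000000000000000000000000000000000000000) := D_7 (nat_lit 205) (nat_lit 189) (nat_lit 204) (nat_lit 1) (nat_lit 5) (nat_lit 11) (nat_lit 2) (nat_lit 0) (nat_lit 12) (by decide +kernel)
theorem L50706 : W_7 (nat_lit 3) (nat_lit 0x8001c00200017001300080000000000000000000000000000000) (nat_lit 0x0) (nat_lit 0x7002200000000000000000000000000000000000000000000000) := T_7 (nat_lit 206) (nat_lit 193) (nat_lit 1) (nat_lit 6) (nat_lit 11) L50705 (by decide +kernel)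
theorem L50707 : W_7 (nat_lit 4) (nat_lit 0x1c00200017001300080000000000000000000000000000000) (nat_lit 0x0) (nat_lit 0xf002200020000000000000000000000000000000000000000000) := T_7 (nat_lit 207) (nat_lit 173) (nat_lit 6) (nat_lit 3) (nat_lit 12) L50706 (by decide +kernel)
theorem L50708 : W_7 (nat_lit 2) (nat_lit 0x1c00220017001380080000000000000000000000000000000) (nat_lit 0x0) (nat_lit 0x60002000000000000000000000000000000) := D_7 (nat_lit 138) (nat_lit 121) (nat_lit 137) (nat_lit 4) (nat_lit 3) (nat_lit 11) (nat_lit 3) (nat_lit 1) (nat_lit 8) (by decide +kernel)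
theorem L50709 : W_7 (nat_lit 3) (nat_lit 0x1c00220017001300080000000000000000000000000000000) (nat_lit 0x0) (nat_lit 0x100000000000000000e0002000000000000000000000000000000) := T_7 (nat_lit 139) (nat_lit 208) (nat_lit 7) (nat_lit 3) (nat_lit 8) L50708 (by decide +kernel)
theorem L50710 : W_7 (nat_lit 4) (nat_lit 0x1c00200017001300080000000000000000000000000000000) (nat_lit 0x0) (nat_lit 0x180000000200000000e0002000000000000000000000000000000) := T_7 (nat_lit 173) (nat_lit 207) (nat_lit 6) (nat_lit 3) (nat_lit 12) L50709 (by decide +kernel)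
theorem L50711 : W_7 (nat_lit 2) (nat_lit 0x40003e00200017001300080000000000000000000000000000000) (nat_lit 0x0) (nat_lit 0xe000000000000000000000000000000000000000000000000000) := D_7 (nat_lit 206) (nat_lit 207) (nat_lit 205) (nat_lit 1) (nat_lit 6) (nat_lit 11) (nat_lit 1) (nat_lit 5) (nat_lit 11) (by decide +kernel)
theorem L50712 : W_7 (nat_lit 3) (nat_lit 0x40003c00200017001300080000000000000000000000000000000) (nat_lit 0x0) (nat_lit 0x2e000200000000000000000000000000000000000000000000000) := T_7 (nat_lit 189) (nat_lit 209) (nat_lit 3) (nat_lit 2) (nat_lit 11) L50711 (by decide +kernel)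
theorem L50713 : W_7 (nat_lit 4) (nat_lit 0x3c00200017001300080000000000000000000000000000000) (nat_lit 0x0) (nat_lit 0xee000200000000000000000000000000000000000000000000000) := T_7 (nat_lit 210) (nat_lit 211) (nat_lit 3) (nat_lit 3) (nat_lit 11) L50712 (by decide +kernel)
theorem L50714 : W_7 (nat_lit 5) (nat_lit 0x1c00200017001300080000000000000000000000000000000) (nat_lit 0x0) (nat_lit 0xee002200100000000000000000000000000000000000000000000) := T_7 (nat_lit 193) (nat_lit 176) (nat_lit 2) (nat_lit 3) (nat_lit 11) L50713 (by decide +kernel)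
theorem L50715 : W_7 (nat_lit 2) (nat_lit 0x40003e00200017001300080000000000000000000000000000000) (nat_lit 0x0) (nat_lit 0x38000000000000000000000000000000000000000000) := D_7 (nat_lit 172) (nat_lit 171) (nat_lit 173) (nat_lit 0) (nat_lit 5) (nat_lit 11) (nat_lit 0) (nat_lit 6) (nat_lit 11) (by decide +kernel)
theorem L50716 : W_7 (nat_lit 3) (nat_lit 0x40003c00200017001300080000000000000000000000000000000) (nat_lit 0x0) (nat_lit 0x20000200038000000000000000000000000000000000000000000) := T_7 (nat_lit 189) (nat_lit 209) (nat_lit 3) (nat_lit 2) (nat_lit 11) L50715 (by decide +kernel)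
theorem L50717 : W_7 (nat_lit 4) (nat_lit 0x3c00200017001300080000000000000000000000000000000) (nat_lit 0x0) (nat_lit 0xe0000200038000000000000000000000000000000000000000000) := T_7 (nat_lit 210) (nat_lit 211) (nat_lit 3) (nat_lit 3) (nat_lit 11) L50716 (by decide +kernel)
theorem L50718 : W_7 (nat_lit 5) (nat_lit 0x1c00200017001300080000000000000000000000000000000) (nat_lit 0x0) (nat_lit 0xe0002200138000000000000000000000000000000000000000000) := T_7 (nat_lit 193) (nat_lit 176) (nat_lit 2) (nat_lit 3) (nat_lit 11) L50717 (by decide +kernel)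
theorem L50719 : W_7 (nat_lit 6) (nat_lit 0x1800200017001300080000000000000000000000000000000) (nat_lit 0x0) (nat_lit 0xff0026001380000000e0002000000000000000000000000000000) := Q_7 (nat_lit 190) (C_7 L50704 (C_7 L50707 (C_7 L50710 (C_7 L50714 (C_7 L50718 N_7))))) (by decide +kernel)
theorem L50720 : W_7 (nat_lit 2) (nat_lit 0x1800200017001300080000000000000000000000000000000) (nat_lit 0x0) (nat_lit 0x30000000080000000000000000000000000000000000000000000) := D_7 (nat_lit 175) (nat_lit 208) (nat_lit 209) (nat_lit 5) (nat_lit 5) (nat_lit 8) (nat_lit 4) (nat_lit 5) (nat_lit 12) (by decide +kernel)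
theorem L50721 : W_7 (nat_lit 2) (nat_lit 0x3c00280017001300080000000000000000000000000000000) (nat_lit 0x0) (nat_lit 0xc000000020000000000000000000000000000000000000000000) := D_7 (nat_lit 207) (nat_lit 173) (nat_lit 206) (nat_lit 6) (nat_lit 3) (nat_lit 12) (nat_lit 1) (nat_lit 6) (nat_lit 11) (by decide +kernel)
theorem L50722 : W_7 (nat_lit 3) (nat_lit 0x3800280017001300080000000000000000000000000000000) (nat_lit 0x0) (nat_lit 0xc000400120000000000000000000000000000000000000000000) := T_7 (nat_lit 190) (nat_lit 176) (nat_lit 2) (nat_lit 3) (nat_lit 11) L50721 (by decide +kernel)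
theorem L50723 : W_7 (nat_lit 4) (nat_lit 0x1800280017001300080000000000000000000000000000000) (nat_lit 0x0) (nat_lit 0x4c002400120000000000000000000000000000000000000000000) := T_7 (nat_lit 193) (nat_lit 210) (nat_lit 7) (nat_lit 5) (nat_lit 8) L50722 (by decide +kernel)
theorem L50724 : W_7 (nat_lit 5) (nat_lit 0x1800200017001300080000000000000000000000000000000) (nat_lit 0x0) (nat_lit 0x5c0024001a0000000000000000000000000000000000000000000) := T_7 (nat_lit 175) (nat_lit 208) (nat_lit 5) (nat_lit 5) (nat_lit 8) L50723 (by decide +kernel)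
theorem L50725 : W_7 (nat_lit 5) (nat_lit 0x1800200017001300080000000000000000000000000000000) (nat_lit 0x0) (nat_lit 0x6c0024001a0000000000000000000000000000000000000000000) := T_7 (nat_lit 175) (nat_lit 209) (nat_lit 4) (nat_lit 5) (nat_lit 12) L50723 (by decide +kernel)
theorem L50726 : W_7 (nat_lit 7) (nat_lit 0x800200017001300080000000000000000000000000000000) (nat_lit 0x0) (nat_lit 0xff0036001b80000000e0002000000000000000000000000000000) := Q_7 (nat_lit 192) (C_7 L50719 (C_7 L50720 (C_7 L50724 (C_7 L50725 N_7)))) (by decide +kernel)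
theorem L50727 : W_7 (nat_lit 2) (nat_lit 0x1c002400170013a0080000000000000000000000000000000) (nat_lit 0x0) (nat_lit 0x2000180000000000000000000000000000000000000000000) := D_7 (nat_lit 176) (nat_lit 193) (nat_lit 175) (nat_lit 2) (nat_lit 3) (nat_lit 11) (nat_lit 1) (nat_lit 7) (nat_lit 10) (by decide +kernel)
theorem L50728 : W_7 (nat_lit 3) (nat_lit 0x18002400170013a0080000000000000000000000000000000) (nat_lit 0x0) (nat_lit 0x8002400180000000000000000000000000000000000000000000) := T_7 (nat_lit 190) (nat_lit 207) (nat_lit 5) (nat_lit 4) (nat_lit 8) L50727 (by decide +kernel)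
theorem L50729 : W_7 (nat_lit 4) (nat_lit 0x1800240017001380080000000000000000000000000000000) (nat_lit 0x0) (nat_lit 0x8002400180000000060000000000000000000000000000000000) := T_7 (nat_lit 137) (nat_lit 138) (nat_lit 3) (nat_lit 1) (nat_lit 8) L50728 (by decide +kernel)
theorem L50730 : W_7 (nat_lit 5) (nat_lit 0x1800240017001300080000000000000000000000000000000) (nat_lit 0x0) (nat_lit 0x80024001800000000e0004000000000000000000000000000000) := T_7 (nat_lit 139) (nat_lit 122) (nat_lit 4) (nat_lit 4) (nat_lit 11) L50729 (by decide +kernel)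
theorem L50731 : W_7 (nat_lit 6) (nat_lit 0x800240017001300080000000000000000000000000000000) (nat_lit 0x0) (nat_lit 0x280034001800000000e0004000000000000000000000000000000) := T_7 (nat_lit 192) (nat_lit 209) (nat_lit 7) (nat_lit 4) (nat_lit 8) L50730 (by decide +kernel)
theorem L50732 : W_7 (nat_lit 7) (nat_lit 0x800200017001300080000000000000000000000000000000) (nat_lit 0x0) (nat_lit 0x380034001c00000000e0004000000000000000000000000000000) := T_7 (nat_lit 174) (nat_lit 208) (nat_lit 6) (nat_lit 4) (nat_lit 12) L50731 (by decide +kernel)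
theorem L50733 : W_7 (nat_lit 2) (nat_lit 0x1c00240017001380080000000000000000000000000000000) (nat_lit 0x0) (nat_lit 0x2000180000000000000000000000000000000000000000000) := D_7 (nat_lit 176) (nat_lit 193) (nat_lit 175) (nat_lit 2) (nat_lit 3) (nat_lit 11) (nat_lit 1) (nat_lit 7) (nat_lit 10) (by decide +kernel)
theorem L50734 : W_7 (nat_lit 3) (nat_lit 0x1800240017001380080000000000000000000000000000000) (nat_lit 0x0) (nat_lit 0x8002400180000000000000000000000000000000000000000000) := T_7 (nat_lit 190) (nat_lit 207) (nat_lit 5) (nat_lit 4) (nat_lit 8) L50733 (by decide +kernel)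
theorem L50735 : W_7 (nat_lit 4) (nat_lit 0x1800240017001300080000000000000000000000000000000) (nat_lit 0x0) (nat_lit 0x8002400180000000080004000000000000000000000000000000) := T_7 (nat_lit 139) (nat_lit 122) (nat_lit 4) (nat_lit 4) (nat_lit 11) L50734 (by decide +kernel)
theorem L50736 : W_7 (nat_lit 5) (nat_lit 0x800240017001300080000000000000000000000000000000) (nat_lit 0x0) (nat_lit 0x28003400180000000080004000000000000000000000000000000) := T_7 (nat_lit 192) (nat_lit 209) (nat_lit 7) (nat_lit 4) (nat_lit 8) L50735 (by decide +kernel)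
theorem L50737 : W_7 (nat_lit 6) (nat_lit 0x800200017001300080000000000000000000000000000000) (nat_lit 0x0) (nat_lit 0x380034001c0000000080004000000000000000000000000000000) := T_7 (nat_lit 174) (nat_lit 208) (nat_lit 6) (nat_lit 4) (nat_lit 12) L50736 (by decide +kernel)
theorem L50738 : W_7 (nat_lit 2) (nat_lit 0x1c00240017001300080000000000000000000000000000000) (nat_lit 0x0) (nat_lit 0x2000180000000000000000000000000000000000000000000) := D_7 (nat_lit 176) (nat_lit 193) (nat_lit 175) (nat_lit 2) (nat_lit 3) (nat_lit 11) (nat_lit 1) (nat_lit 7) (nat_lit 10) (by decide +kernel)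
theorem L50739 : W_7 (nat_lit 3) (nat_lit 0x1800240017001300080000000000000000000000000000000) (nat_lit 0x0) (nat_lit 0x8002400180000000000000000000000000000000000000000000) := T_7 (nat_lit 190) (nat_lit 207) (nat_lit 5) (nat_lit 4) (nat_lit 8) L50738 (by decide +kernel)
theorem L50740 : W_7 (nat_lit 4) (nat_lit 0x800240017001300080000000000000000000000000000000) (nat_lit 0x0) (nat_lit 0x28003400180000000000000000000000000000000000000000000) := T_7 (nat_lit 192) (nat_lit 209) (nat_lit 7) (nat_lit 4) (nat_lit 8) L50739 (by decide +kernel)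
theorem L50741 : W_7 (nat_lit 5) (nat_lit 0x800200017001300080000000000000000000000000000000) (nat_lit 0x0) (nat_lit 0x380034001c0000000000000000000000000000000000000000000) := T_7 (nat_lit 174) (nat_lit 208) (nat_lit 6) (nat_lit 4) (nat_lit 12) L50740 (by decide +kernel)
theorem L50742 : W_7 (nat_lit 2) (nat_lit 0x1c002400170013c0080000000000000000000000000000000) (nat_lit 0x0) (nat_lit 0x20000000000003000000000000000000000000000000) := D_7 (nat_lit 121) (nat_lit 120) (nat_lit 173) (nat_lit 0) (nat_lit 5) (nat_lit 8) (nat_lit 4) (nat_lit 3) (nat_lit 11) (by decide +kernel)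
theorem L50743 : W_7 (nat_lit 3) (nat_lit 0x18002400170013c0080000000000000000000000000000000) (nat_lit 0x0) (nat_lit 0x8000400020000000000003000000000000000000000000000000) := T_7 (nat_lit 190) (nat_lit 207) (nat_lit 5) (nat_lit 4) (nat_lit 8) L50742 (by decide +kernel)
theorem L50744 : W_7 (nat_lit 4) (nat_lit 0x1800240017001380080000000000000000000000000000000) (nat_lit 0x0) (nat_lit 0x8000400020000000060003000000000000000000000000000000) := T_7 (nat_lit 138) (nat_lit 137) (nat_lit 3) (nat_lit 1) (nat_lit 8) L50743 (by decide +kernel)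
theorem L50745 : W_7 (nat_lit 5) (nat_lit 0x1800240017001300080000000000000000000000000000000) (nat_lit 0x0) (nat_lit 0x80004000200000000e0007000000000000000000000000000000) := T_7 (nat_lit 139) (nat_lit 122) (nat_lit 4) (nat_lit 4) (nat_lit 11) L50744 (by decide +kernel)
theorem L50746 : W_7 (nat_lit 6) (nat_lit 0x800240017001300080000000000000000000000000000000) (nat_lit 0x0) (nat_lit 0x280014000200000000e0007000000000000000000000000000000) := T_7 (nat_lit 192) (nat_lit 209) (nat_lit 7) (nat_lit 4) (nat_lit 8) L50745 (by decide +kernel)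
theorem L50747 : W_7 (nat_lit 7) (nat_lit 0x800200017001300080000000000000000000000000000000) (nat_lit 0x0) (nat_lit 0x380014000600000000e0007000000000000000000000000000000) := T_7 (nat_lit 174) (nat_lit 208) (nat_lit 6) (nat_lit 4) (nat_lit 12) L50746 (by decide +kernel)
theorem L50748 : W_7 (nat_lit 2) (nat_lit 0xc002400170013c0080000000000000000000000000000000) (nat_lit 0x0) (nat_lit 0x20000000000003000000000000000000000000000000) := D_7 (nat_lit 121) (nat_lit 120) (nat_lit 173) (nat_lit 0) (nat_lit 5) (nat_lit 8) (nat_lit 4) (nat_lit 3) (nat_lit 11) (by decide +kernel)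
theorem L50749 : W_7 (nat_lit 3) (nat_lit 0x8002400170013c0080000000000000000000000000000000) (nat_lit 0x0) (nat_lit 0x8000400020000000000003000000000000000000000000000000) := T_7 (nat_lit 190) (nat_lit 207) (nat_lit 5) (nat_lit 4) (nat_lit 8) L50748 (by decide +kernel)
theorem L50750 : W_7 (nat_lit 4) (nat_lit 0x800240017001380080000000000000000000000000000000) (nat_lit 0x0) (nat_lit 0x8000400020000000060003000000000000000000000000000000) := T_7 (nat_lit 138) (nat_lit 137) (nat_lit 3) (nat_lit 1) (nat_lit 8) L50749 (by decide +kernel)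
theorem L50751 : W_7 (nat_lit 5) (nat_lit 0x800240017001300080000000000000000000000000000000) (nat_lit 0x0) (nat_lit 0x80004000200000000e0007000000000000000000000000000000) := T_7 (nat_lit 139) (nat_lit 122) (nat_lit 4) (nat_lit 4) (nat_lit 11) L50750 (by decide +kernel)
theorem L50752 : W_7 (nat_lit 6) (nat_lit 0x800200017001300080000000000000000000000000000000) (nat_lit 0x0) (nat_lit 0x180004000600000000e0007000000000000000000000000000000) := T_7 (nat_lit 174) (nat_lit 208) (nat_lit 6) (nat_lit 4) (nat_lit 12) L50751 (by decide +kernel)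
theorem L50753 : W_7 (nat_lit 2) (nat_lit 0x1800200017001300080000000000000000000000000000000) (nat_lit 0x0) (nat_lit 0x30000000040000000000000000000000000000000000000000000) := D_7 (nat_lit 174) (nat_lit 208) (nat_lit 209) (nat_lit 6) (nat_lit 4) (nat_lit 12) (nat_lit 7) (nat_lit 4) (nat_lit 8) (by decide +kernel)
theorem L50754 : W_7 (nat_lit 2) (nat_lit 0x1800200017001300080000000000000000000000000000000) (nat_lit 0x0) (nat_lit 0x100000000c0000000000000000000000000000000000000000000) := D_7 (nat_lit 208) (nat_lit 174) (nat_lit 175) (nat_lit 6) (nat_lit 4) (nat_lit 12) (nat_lit 5) (nat_lit 5) (nat_lit 8) (by decide +kernel)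
theorem L50755 : W_7 (nat_lit 2) (nat_lit 0x1800200017001300080000000000000000000000000000000) (nat_lit 0x0) (nat_lit 0x200000000c0000000000000000000000000000000000000000000) := D_7 (nat_lit 209) (nat_lit 175) (nat_lit 174) (nat_lit 4) (nat_lit 5) (nat_lit 12) (nat_lit 7) (nat_lit 4) (nat_lit 8) (by decide +kernel)
theorem L50756 : W_7 (nat_lit 3) (nat_lit 0x800200017001300080000000000000000000000000000000) (nat_lit 0x0) (nat_lit 0x300010000c0000000000000000000000000000000000000000000) := Q_7 (nat_lit 192) (C_7 L50720 (C_7 L50753 (C_7 L50754 (C_7 L50755 N_7)))) (by decide +kernel)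
theorem L50757 : W_7 (nat_lit 2) (nat_lit 0xa002200170013a0084000300000000000000000000000000) (nat_lit 0x0) (nat_lit 0xc000400000000000000000000000000000000000000000000000) := D_7 (nat_lit 190) (nat_lit 207) (nat_lit 206) (nat_lit 6) (nat_lit 3) (nat_lit 12) (nat_lit 5) (nat_lit 3) (nat_lit 8) (by decide +kernel)
theorem L50758 : W_7 (nat_lit 3) (nat_lit 0x8002200170013a0084000300000000000000000000000000) (nat_lit 0x0) (nat_lit 0xc000600010000000000000000000000000000000000000000000) := T_7 (nat_lit 189) (nat_lit 172) (nat_lit 5) (nat_lit 3) (nat_lit 7) L50757 (by decide +kernel)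
theorem L50759 : W_7 (nat_lit 4) (nat_lit 0x8002000170013a0084000300000000000000000000000000) (nat_lit 0x0) (nat_lit 0xc000600030000000000002000000000000000000000000000000) := T_7 (nat_lit 173) (nat_lit 121) (nat_lit 4) (nat_lit 3) (nat_lit 10) L50758 (by decide +kernel)
theorem L50760 : W_7 (nat_lit 5) (nat_lit 0x8002000170013a0084000200000000000000000000000000) (nat_lit 0x0) (nat_lit 0xc000600030000000000002000100008000000000000000000000) := T_7 (nat_lit 104) (nat_lit 87) (nat_lit 4) (nat_lit 3) (nat_lit 9) L50759 (by decide +kernel)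
theorem L50761 : W_7 (nat_lit 6) (nat_lit 0x8002000170013a0084000000000000000000000000000000) (nat_lit 0x0) (nat_lit 0xc000600030000000000002000300018000000000000000000000) := T_7 (nat_lit 105) (nat_lit 88) (nat_lit 7) (nat_lit 3) (nat_lit 5) L50760 (by decide +kernel)
theorem L50762 : W_7 (nat_lit 7) (nat_lit 0x8002000170013a0080000000000000000000000000000000) (nat_lit 0x0) (nat_lit 0xc000600070000000000006000300018000000000000000000000) := T_7 (nat_lit 122) (nat_lit 174) (nat_lit 4) (nat_lit 4) (nat_lit 11) L50761 (by decide +kernel)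
theorem L50763 : W_7 (nat_lit 8) (nat_lit 0x800200017001380080000000000000000000000000000000) (nat_lit 0x0) (nat_lit 0xc000600070000000060006000300018000000000000000000000) := T_7 (nat_lit 137) (nat_lit 138) (nat_lit 3) (nat_lit 1) (nat_lit 8) L50762 (by decide +kernel)
theorem L50764 : W_7 (nat_lit 2) (nat_lit 0xc00340017001380080000000000000000000000000000000) (nat_lit 0x0) (nat_lit 0x20003000000000000000000000000000000000000000000000000) := D_7 (nat_lit 192) (nat_lit 209) (nat_lit 193) (nat_lit 7) (nat_lit 4) (nat_lit 8) (nat_lit 2) (nat_lit 3) (nat_lit 11) (by decide +kernel)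
theorem L50765 : W_7 (nat_lit 3) (nat_lit 0xc00240017001380080000000000000000000000000000000) (nat_lit 0x0) (nat_lit 0x20003000180000000000000000000000000000000000000000000) := T_7 (nat_lit 176) (nat_lit 175) (nat_lit 1) (nat_lit 7) (nat_lit 10) L50764 (by decide +kernel)
theorem L50766 : W_7 (nat_lit 4) (nat_lit 0x800240017001380080000000000000000000000000000000) (nat_lit 0x0) (nat_lit 0x28003400180000000000000000000000000000000000000000000) := T_7 (nat_lit 190) (nat_lit 207) (nat_lit 5) (nat_lit 4) (nat_lit 8) L50765 (by decide +kernel)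
theorem L50767 : W_7 (nat_lit 5) (nat_lit 0x800200017001380080000000000000000000000000000000) (nat_lit 0x0) (nat_lit 0x280034001c0000000000004000000000000000000000000000000) := T_7 (nat_lit 174) (nat_lit 122) (nat_lit 4) (nat_lit 4) (nat_lit 11) L50766 (by decide +kernel)
theorem L50768 : W_7 (nat_lit 2) (nat_lit 0xc003400170013c0082000000000000000000000000000000) (nat_lit 0x0) (nat_lit 0x20003000000000000000000000000000000000000000000000000) := D_7 (nat_lit 192) (nat_lit 209) (nat_lit 193) (nat_lit 7) (nat_lit 4) (nat_lit 8) (nat_lit 2) (nat_lit 3) (nat_lit 11) (by decide +kernel)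
theorem L50769 : W_7 (nat_lit 3) (nat_lit 0xc002400170013c0082000000000000000000000000000000) (nat_lit 0x0) (nat_lit 0x20003000180000000000000000000000000000000000000000000) := T_7 (nat_lit 176) (nat_lit 175) (nat_lit 1) (nat_lit 7) (nat_lit 10) L50768 (by decide +kernel)
theorem L50770 : W_7 (nat_lit 4) (nat_lit 0xc002000170013c0082000000000000000000000000000000) (nat_lit 0x0) (nat_lit 0x280030001c0000000000000000000000000000000000000000000) := T_7 (nat_lit 174) (nat_lit 207) (nat_lit 5) (nat_lit 4) (nat_lit 8) L50769 (by decide +kernel)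
theorem L50771 : W_7 (nat_lit 5) (nat_lit 0x8002000170013c0082000000000000000000000000000000) (nat_lit 0x0) (nat_lit 0x280034001e0000000000000000000000000000000000000000000) := T_7 (nat_lit 190) (nat_lit 173) (nat_lit 4) (nat_lit 3) (nat_lit 11) L50770 (by decide +kernel)
theorem L50772 : W_7 (nat_lit 6) (nat_lit 0x8002000170013c0080000000000000000000000000000000) (nat_lit 0x0) (nat_lit 0x280034001e0000000000003000000000000000000000000000000) := T_7 (nat_lit 121) (nat_lit 120) (nat_lit 0) (nat_lit 5) (nat_lit 8) L50771 (by decide +kernel)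
theorem L50773 : W_7 (nat_lit 7) (nat_lit 0x800200017001380080000000000000000000000000000000) (nat_lit 0x0) (nat_lit 0x280034001e0000000060003000000000000000000000000000000) := T_7 (nat_lit 138) (nat_lit 137) (nat_lit 3) (nat_lit 1) (nat_lit 8) L50772 (by decide +kernel)
theorem L50774 : W_7 (nat_lit 2) (nat_lit 0x8002200170013c0082000000000000000000000000000000) (nat_lit 0x0) (nat_lit 0x4000100008000000000000000000000) := D_7 (nat_lit 104) (nat_lit 87) (nat_lit 122) (nat_lit 7) (nat_lit 2) (nat_lit 5) (nat_lit 4) (nat_lit 3) (nat_lit 10) (by decide +kernel)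
theorem L50775 : W_7 (nat_lit 3) (nat_lit 0x8002000170013c0082000000000000000000000000000000) (nat_lit 0x0) (nat_lit 0x400020000000000004000100008000000000000000000000) := T_7 (nat_lit 173) (nat_lit 190) (nat_lit 4) (nat_lit 3) (nat_lit 11) L50774 (by decide +kernel)
theorem L50776 : W_7 (nat_lit 4) (nat_lit 0x8002000170013c0080000000000000000000000000000000) (nat_lit 0x0) (nat_lit 0x400020000000000007000100008000000000000000000000) := T_7 (nat_lit 121) (nat_lit 120) (nat_lit 0) (nat_lit 5) (nat_lit 8) L50775 (by decide +kernel)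
theorem L50777 : W_7 (nat_lit 5) (nat_lit 0x800200017001380080000000000000000000000000000000) (nat_lit 0x0) (nat_lit 0x400020000000060007000100008000000000000000000000) := T_7 (nat_lit 138) (nat_lit 137) (nat_lit 3) (nat_lit 1) (nat_lit 8) L50776 (by decide +kernel)
theorem L50778 : W_7 (nat_lit 2) (nat_lit 0x8002000170013a0086000700000000000000000000000000) (nat_lit 0x0) (nat_lit 0x1800800000000000000000000000000) := D_7 (nat_lit 120) (nat_lit 119) (nat_lit 107) (nat_lit 3) (nat_lit 0) (nat_lit 7) (nat_lit 1) (nat_lit 5) (nat_lit 6) (by decide +kernel)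
theorem L50779 : W_7 (nat_lit 3) (nat_lit 0x8002000170013a0086000300000000000000000000000000) (nat_lit 0x0) (nat_lit 0x1800c00020000000000000000000000) := T_7 (nat_lit 106) (nat_lit 89) (nat_lit 6) (nat_lit 3) (nat_lit 9) L50778 (by decide +kernel)
theorem L50780 : W_7 (nat_lit 4) (nat_lit 0x8002000170013a0084000300000000000000000000000000) (nat_lit 0x0) (nat_lit 0x20000000000003800c00020000000000000000000000) := T_7 (nat_lit 121) (nat_lit 173) (nat_lit 4) (nat_lit 3) (nat_lit 10) L50779 (by decide +kernel)
theorem L50781 : W_7 (nat_lit 5) (nat_lit 0x8002000170013a0084000200000000000000000000000000) (nat_lit 0x0) (nat_lit 0x20000000000003800d00028000000000000000000000) := T_7 (nat_lit 104) (nat_lit 87) (nat_lit 4) (nat_lit 3) (nat_lit 9) L50780 (by decide +kernel)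
theorem L50782 : W_7 (nat_lit 6) (nat_lit 0x8002000170013a0084000000000000000000000000000000) (nat_lit 0x0) (nat_lit 0x20000000000003800f00038000000000000000000000) := T_7 (nat_lit 105) (nat_lit 88) (nat_lit 7) (nat_lit 3) (nat_lit 5) L50781 (by decide +kernel)
theorem L50783 : W_7 (nat_lit 7) (nat_lit 0x8002000170013a0080000000000000000000000000000000) (nat_lit 0x0) (nat_lit 0x60000000000007800f00038000000000000000000000) := T_7 (nat_lit 122) (nat_lit 174) (nat_lit 4) (nat_lit 4) (nat_lit 11) L50782 (by decide +kernel)
theorem L50784 : W_7 (nat_lit 8) (nat_lit 0x800200017001380080000000000000000000000000000000) (nat_lit 0x0) (nat_lit 0x60000000060007800f00038000000000000000000000) := T_7 (nat_lit 137) (nat_lit 138) (nat_lit 3) (nat_lit 1) (nat_lit 8) L50783 (by decide +kernel)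
theorem L50785 : W_7 (nat_lit 9) (nat_lit 0x800200017001300080000000000000000000000000000000) (nat_lit 0x0) (nat_lit 0x2c0036001f00000000e0007800f00038000000000000000000000) := Q_7 (nat_lit 139) (C_7 L50763 (C_7 L50767 (C_7 L50773 (C_7 L50777 (C_7 L50784 N_7))))) (by decide +kernel)
theorem L50786 : W_7 (nat_lit 10) (nat_lit 0x200017001300080000000000000000000000000000000) (nat_lit 0x0) (nat_lit 0xff003e001f80000000e0007800f00038000000000000000000000) := Q_7 (nat_lit 191) (C_7 L50726 (C_7 L50732 (C_7 L50737 (C_7 L50741 (C_7 L50747 (C_7 L50752 (C_7 L50756 (C_7 L50785 N_7)))))))) (by decide +kernel)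
theorem L50787 : W_7 (nat_lit 2) (nat_lit 0x800200017001380080000000000000000000000000000000) (nat_lit 0x0) (nat_lit 0x10000000040000000000004000000000000000000000000000000) := D_7 (nat_lit 174) (nat_lit 208) (nat_lit 122) (nat_lit 6) (nat_lit 4) (nat_lit 12) (nat_lit 4) (nat_lit 4) (nat_lit 11) (by decide +kernel)
theorem L50788 : W_7 (nat_lit 2) (nat_lit 0x10000e002100178013c0082000000008000000000000000000000) (nat_lit 0x0) (nat_lit 0x22000100000000000000000000000000000000000000000000000) := D_7 (nat_lit 188) (nat_lit 209) (nat_lit 205) (nat_lit 3) (nat_lit 1) (nat_lit 11) (nat_lit 5) (nat_lit 2) (nat_lit 8) (by decide +kernel)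
theorem L50789 : W_7 (nat_lit 3) (nat_lit 0x10000a002100178013c0082000000008000000000000000000000) (nat_lit 0x0) (nat_lit 0x2a000500000000000000000000000000000000000000000000000) := T_7 (nat_lit 190) (nat_lit 207) (nat_lit 7) (nat_lit 2) (nat_lit 8) L50788 (by decide +kernel)
theorem L50790 : W_7 (nat_lit 4) (nat_lit 0x100008002100178013c0082000000008000000000000000000000) (nat_lit 0x0) (nat_lit 0x2e000700000000000000000000000000000000000000000000000) := T_7 (nat_lit 189) (nat_lit 206) (nat_lit 6) (nat_lit 2) (nat_lit 12) L50789 (by decide +kernel)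
theorem L50791 : W_7 (nat_lit 5) (nat_lit 0x100008002100178013c0082000000000000000000000000000000) (nat_lit 0x0) (nat_lit 0x2e000700000000000000000000100008000000000000000000000) := T_7 (nat_lit 87) (nat_lit 104) (nat_lit 7) (nat_lit 2) (nat_lit 5) L50790 (by decide +kernel)
theorem L50792 : W_7 (nat_lit 6) (nat_lit 0x100008002000178013c0082000000000000000000000000000000) (nat_lit 0x0) (nat_lit 0x2e000700018000000000000000100008000000000000000000000) := T_7 (nat_lit 172) (nat_lit 171) (nat_lit 1) (nat_lit 5) (nat_lit 9) L50791 (by decide +kernel)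
theorem L50793 : W_7 (nat_lit 7) (nat_lit 0x100008002000178013c0080000000000000000000000000000000) (nat_lit 0x0) (nat_lit 0x2e000700018000000000003000100008000000000000000000000) := T_7 (nat_lit 121) (nat_lit 120) (nat_lit 0) (nat_lit 5) (nat_lit 8) L50792 (by decide +kernel)
theorem L50794 : W_7 (nat_lit 8) (nat_lit 0x100008002000170013c0080000000000000000000000000000000) (nat_lit 0x0) (nat_lit 0x2e000700018000c00000003000100008000000000000000000000) := T_7 (nat_lit 155) (nat_lit 154) (nat_lit 2) (nat_lit 1) (nat_lit 9) L50793 (by decide +kernel)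
theorem L50795 : W_7 (nat_lit 9) (nat_lit 0x10000800200017001380080000000000000000000000000000000) (nat_lit 0x0) (nat_lit 0x2e000700018000c00060003000100008000000000000000000000) := T_7 (nat_lit 138) (nat_lit 137) (nat_lit 3) (nat_lit 1) (nat_lit 8) L50794 (by decide +kernel)
theorem L50796 : W_7 (nat_lit 10) (nat_lit 0x800200017001380080000000000000000000000000000000) (nat_lit 0x0) (nat_lit 0x3e000700058000c00060003000100008000000000000000000000) := T_7 (nat_lit 208) (nat_lit 174) (nat_lit 6) (nat_lit 4) (nat_lit 12) L50795 (by decide +kernel)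
theorem L50797 : W_7 (nat_lit 2) (nat_lit 0x8002100178013c0080000000000000000000000000000000) (nat_lit 0x0) (nat_lit 0x200000000000000004000200000000000000000000000000) := D_7 (nat_lit 122) (nat_lit 105) (nat_lit 189) (nat_lit 5) (nat_lit 3) (nat_lit 6) (nat_lit 6) (nat_lit 2) (nat_lit 11) (by decide +kernel)
theorem L50798 : W_7 (nat_lit 3) (nat_lit 0x8002000178013c0080000000000000000000000000000000) (nat_lit 0x0) (nat_lit 0x200018000000000004000200000000000000000000000000) := T_7 (nat_lit 172) (nat_lit 171) (nat_lit 1) (nat_lit 5) (nat_lit 9) L50797 (by decide +kernel)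
theorem L50799 : W_7 (nat_lit 4) (nat_lit 0x800200017801380080000000000000000000000000000000) (nat_lit 0x0) (nat_lit 0x200018000000060004000200000000000000000000000000) := T_7 (nat_lit 138) (nat_lit 137) (nat_lit 3) (nat_lit 1) (nat_lit 8) L50798 (by decide +kernel)
theorem L50800 : W_7 (nat_lit 5) (nat_lit 0x800200017001380080000000000000000000000000000000) (nat_lit 0x0) (nat_lit 0x200018000c00060004000200000000000000000000000000) := T_7 (nat_lit 155) (nat_lit 154) (nat_lit 2) (nat_lit 1) (nat_lit 9) L50799 (by decide +kernel)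
theorem L50801 : W_7 (nat_lit 11) (nat_lit 0x800200017001300080000000000000000000000000000000) (nat_lit 0x0) (nat_lit 0x3e000700058000c000e0007000300008000000000000000000000) := Q_7 (nat_lit 139) (C_7 L50787 (C_7 L50796 (C_7 L50800 N_7))) (by decide +kernel)
theorem L50802 : W_7 (nat_lit 2) (nat_lit 0x800280017801300080000000000000000000000000000000) (nat_lit 0x0) (nat_lit 0x30001000000000000000000000000000000000000000000000000) := D_7 (nat_lit 192) (nat_lit 208) (nat_lit 209) (nat_lit 5) (nat_lit 5) (nat_lit 8) (nat_lit 4) (nat_lit 5) (nat_lit 12) (by decide +kernel)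
theorem L50803 : W_7 (nat_lit 3) (nat_lit 0x800200017801300080000000000000000000000000000000) (nat_lit 0x0) (nat_lit 0x30001000180000000000000000000000000000000000000000000) := T_7 (nat_lit 175) (nat_lit 176) (nat_lit 3) (nat_lit 2) (nat_lit 9) L50802 (by decide +kernel)
theorem L50804 : W_7 (nat_lit 4) (nat_lit 0x800200017001300080000000000000000000000000000000) (nat_lit 0x0) (nat_lit 0x30001000180000c00000000000000000000000000000000000000) := T_7 (nat_lit 155) (nat_lit 154) (nat_lit 2) (nat_lit 1) (nat_lit 9) L50803 (by decide +kernel)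
theorem L50805 : W_7 (nat_lit 2) (nat_lit 0x10000800200017801300080000000000000000000000000000000) (nat_lit 0x0) (nat_lit 0x1000180000000000000000000000000000000000000000000) := D_7 (nat_lit 175) (nat_lit 192) (nat_lit 176) (nat_lit 5) (nat_lit 5) (nat_lit 8) (nat_lit 3) (nat_lit 2) (nat_lit 9) (by decide +kernel)
theorem L50806 : W_7 (nat_lit 3) (nat_lit 0x800200017801300080000000000000000000000000000000) (nat_lit 0x0) (nat_lit 0x100010001c0000000000000000000000000000000000000000000) := T_7 (nat_lit 208) (nat_lit 174) (nat_lit 6) (nat_lit 4) (nat_lit 12) L50805 (by decide +kernel)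
theorem L50807 : W_7 (nat_lit 4) (nat_lit 0x800200017001300080000000000000000000000000000000) (nat_lit 0x0) (nat_lit 0x100010001c0000c00000000000000000000000000000000000000) := T_7 (nat_lit 155) (nat_lit 154) (nat_lit 2) (nat_lit 1) (nat_lit 9) L50806 (by decide +kernel)
theorem L50808 : W_7 (nat_lit 2) (nat_lit 0xf002100178013c0082000000008000000000000000000000) (nat_lit 0x0) (nat_lit 0x1c0000000000000000000000000000000000000000000) := D_7 (nat_lit 175) (nat_lit 174) (nat_lit 176) (nat_lit 2) (nat_lit 1) (nat_lit 11) (nat_lit 3) (nat_lit 2) (nat_lit 9) (by decide +kernel)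
theorem L50809 : W_7 (nat_lit 3) (nat_lit 0xb002100178013c0082000000008000000000000000000000) (nat_lit 0x0) (nat_lit 0x80004001c0000000000000000000000000000000000000000000) := T_7 (nat_lit 190) (nat_lit 207) (nat_lit 7) (nat_lit 2) (nat_lit 8) L50808 (by decide +kernel)
theorem L50810 : W_7 (nat_lit 4) (nat_lit 0xa002100178013c0082000000008000000000000000000000) (nat_lit 0x0) (nat_lit 0xa0005001c0000000000000000000000000000000000000000000) := T_7 (nat_lit 188) (nat_lit 205) (nat_lit 5) (nat_lit 2) (nat_lit 8) L50809 (by decide +kernel)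
theorem L50811 : W_7 (nat_lit 5) (nat_lit 0xa002100178013c0082000000000000000000000000000000) (nat_lit 0x0) (nat_lit 0xa0005001c0000000000000000100008000000000000000000000) := T_7 (nat_lit 87) (nat_lit 104) (nat_lit 7) (nat_lit 2) (nat_lit 5) L50810 (by decide +kernel)
theorem L50812 : W_7 (nat_lit 6) (nat_lit 0x8002100178013c0082000000000000000000000000000000) (nat_lit 0x0) (nat_lit 0xe0007001c0000000000000000100008000000000000000000000) := T_7 (nat_lit 189) (nat_lit 206) (nat_lit 6) (nat_lit 2) (nat_lit 12) L50811 (by decide +kernel)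
theorem L50813 : W_7 (nat_lit 7) (nat_lit 0x8002100178013c0080000000000000000000000000000000) (nat_lit 0x0) (nat_lit 0xe0007001c0000000000003000100008000000000000000000000) := T_7 (nat_lit 121) (nat_lit 120) (nat_lit 0) (nat_lit 5) (nat_lit 8) L50812 (by decide +kernel)
theorem L50814 : W_7 (nat_lit 8) (nat_lit 0x8002000178013c0080000000000000000000000000000000) (nat_lit 0x0) (nat_lit 0xe0007001d8000000000003000100008000000000000000000000) := T_7 (nat_lit 172) (nat_lit 171) (nat_lit 1) (nat_lit 5) (nat_lit 9) L50813 (by decide +kernel)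
theorem L50815 : W_7 (nat_lit 9) (nat_lit 0x800200017801380080000000000000000000000000000000) (nat_lit 0x0) (nat_lit 0xe0007001d8000000060003000100008000000000000000000000) := T_7 (nat_lit 138) (nat_lit 137) (nat_lit 3) (nat_lit 1) (nat_lit 8) L50814 (by decide +kernel)
theorem L50816 : W_7 (nat_lit 10) (nat_lit 0x800200017001380080000000000000000000000000000000) (nat_lit 0x0) (nat_lit 0xe0007001d8000c00060003000100008000000000000000000000) := T_7 (nat_lit 155) (nat_lit 154) (nat_lit 2) (nat_lit 1) (nat_lit 9) L50815 (by decide +kernel)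
theorem L50817 : W_7 (nat_lit 11) (nat_lit 0x800200017001300080000000000000000000000000000000) (nat_lit 0x0) (nat_lit 0x2e0037001d8000c000e0007000300008000000000000000000000) := Q_7 (nat_lit 139) (C_7 L50800 (C_7 L50767 (C_7 L50816 N_7))) (by decide +kernel)
theorem L50818 : W_7 (nat_lit 12) (nat_lit 0x200017001300080000000000000000000000000000000) (nat_lit 0x0) (nat_lit 0x3e003f001d8000c000e0007000300008000000000000000000000) := Q_7 (nat_lit 191) (C_7 L50756 (C_7 L50801 (C_7 L50804 (C_7 L50807 (C_7 L50817 N_7))))) (by decide +kernel)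
theorem L50819 : W_7 (nat_lit 2) (nat_lit 0x38002b0017801340082000000000000000000000000000000) (nat_lit 0x0) (nat_lit 0x80001000080000000000000000000000000) := D_7 (nat_lit 120) (nat_lit 103) (nat_lit 139) (nat_lit 4) (nat_lit 2) (nat_lit 10) (nat_lit 0) (nat_lit 5) (nat_lit 8) (by decide +kernel)
theorem L50820 : W_7 (nat_lit 3) (nat_lit 0x38002b0017801340080000000000000000000000000000000) (nat_lit 0x0) (nat_lit 0x80003000180000000000000000000000000) := T_7 (nat_lit 121) (nat_lit 104) (nat_lit 7) (nat_lit 2) (nat_lit 6) L50819 (by decide +kernel)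
theorem L50821 : W_7 (nat_lit 4) (nat_lit 0x3800290017801340080000000000000000000000000000000) (nat_lit 0x0) (nat_lit 0x60000000080003000180000000000000000000000000) := T_7 (nat_lit 173) (nat_lit 174) (nat_lit 3) (nat_lit 2) (nat_lit 10) L50820 (by decide +kernel)
theorem L50822 : W_7 (nat_lit 5) (nat_lit 0x3800280017801340080000000000000000000000000000000) (nat_lit 0x0) (nat_lit 0x78000000080003000180000000000000000000000000) := T_7 (nat_lit 172) (nat_lit 171) (nat_lit 1) (nat_lit 5) (nat_lit 9) L50821 (by decide +kernel)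
theorem L50823 : W_7 (nat_lit 6) (nat_lit 0x3000280017801340080000000000000000000000000000000) (nat_lit 0x0) (nat_lit 0x10000800078000000080003000180000000000000000000000000) := T_7 (nat_lit 191) (nat_lit 208) (nat_lit 5) (nat_lit 5) (nat_lit 8) L50822 (by decide +kernel)
theorem L50824 : W_7 (nat_lit 7) (nat_lit 0x1000280017801340080000000000000000000000000000000) (nat_lit 0x0) (nat_lit 0x50002800078000000080003000180000000000000000000000000) := T_7 (nat_lit 193) (nat_lit 210) (nat_lit 7) (nat_lit 5) (nat_lit 8) L50823 (by decide +kernel)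
theorem L50825 : W_7 (nat_lit 8) (nat_lit 0x1000280017801300080000000000000000000000000000000) (nat_lit 0x0) (nat_lit 0x500028000780000000e0003000180000000000000000000000000) := T_7 (nat_lit 138) (nat_lit 137) (nat_lit 0) (nat_lit 5) (nat_lit 9) L50824 (by decide +kernel)
theorem L50826 : W_7 (nat_lit 9) (nat_lit 0x280017801300080000000000000000000000000000000) (nat_lit 0x0) (nat_lit 0x700038000780000000e0003000180000000000000000000000000) := T_7 (nat_lit 192) (nat_lit 209) (nat_lit 4) (nat_lit 5) (nat_lit 12) L50825 (by decide +kernel)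
theorem L50827 : W_7 (nat_lit 10) (nat_lit 0x200017801300080000000000000000000000000000000) (nat_lit 0x0) (nat_lit 0x700038001f80000000e0003000180000000000000000000000000) := T_7 (nat_lit 175) (nat_lit 176) (nat_lit 3) (nat_lit 2) (nat_lit 9) L50826 (by decide +kernel)
theorem L50828 : W_7 (nat_lit 11) (nat_lit 0x200017001300080000000000000000000000000000000) (nat_lit 0x0) (nat_lit 0x700038001f8000c000e0003000180000000000000000000000000) := T_7 (nat_lit 155) (nat_lit 154) (nat_lit 2) (nat_lit 1) (nat_lit 9) L50827 (by decide +kernel)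
theorem L50829 : W_7 (nat_lit 2) (nat_lit 0x3e002c0017801380080000000000000000000000000000000) (nat_lit 0x0) (nat_lit 0x6000000020000000000000000000000000000000000000000000) := D_7 (nat_lit 206) (nat_lit 205) (nat_lit 173) (nat_lit 1) (nat_lit 5) (nat_lit 11) (nat_lit 5) (nat_lit 3) (nat_lit 8) (by decide +kernel)
theorem L50830 : W_7 (nat_lit 3) (nat_lit 0x3c002c0017801380080000000000000000000000000000000) (nat_lit 0x0) (nat_lit 0x6000300020000000000000000000000000000000000000000000) := T_7 (nat_lit 189) (nat_lit 188) (nat_lit 2) (nat_lit 1) (nat_lit 11) L50829 (by decide +kernel)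
theorem L50831 : W_7 (nat_lit 4) (nat_lit 0x38002c0017801380080000000000000000000000000000000) (nat_lit 0x0) (nat_lit 0xe000700020000000000000000000000000000000000000000000) := T_7 (nat_lit 190) (nat_lit 207) (nat_lit 5) (nat_lit 4) (nat_lit 8) L50830 (by decide +kernel)
theorem L50832 : W_7 (nat_lit 5) (nat_lit 0x3800280017801380080000000000000000000000000000000) (nat_lit 0x0) (nat_lit 0xe000700060000000000004000000000000000000000000000000) := T_7 (nat_lit 174) (nat_lit 122) (nat_lit 4) (nat_lit 4) (nat_lit 11) L50831 (by decide +kernel)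
theorem L50833 : W_7 (nat_lit 6) (nat_lit 0x1800280017801380080000000000000000000000000000000) (nat_lit 0x0) (nat_lit 0x4e002700060000000000004000000000000000000000000000000) := T_7 (nat_lit 193) (nat_lit 210) (nat_lit 7) (nat_lit 5) (nat_lit 8) L50832 (by decide +kernel)
theorem L50834 : W_7 (nat_lit 7) (nat_lit 0x1000280017801380080000000000000000000000000000000) (nat_lit 0x0) (nat_lit 0x5e002f00060000000000004000000000000000000000000000000) := T_7 (nat_lit 191) (nat_lit 208) (nat_lit 5) (nat_lit 5) (nat_lit 8) L50833 (by decide +kernel)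
theorem L50835 : W_7 (nat_lit 8) (nat_lit 0x280017801380080000000000000000000000000000000) (nat_lit 0x0) (nat_lit 0x7e003f00060000000000004000000000000000000000000000000) := T_7 (nat_lit 192) (nat_lit 209) (nat_lit 4) (nat_lit 5) (nat_lit 12) L50834 (by decide +kernel)
theorem L50836 : W_7 (nat_lit 9) (nat_lit 0x200017801380080000000000000000000000000000000) (nat_lit 0x0) (nat_lit 0x7e003f001e0000000000004000000000000000000000000000000) := T_7 (nat_lit 175) (nat_lit 176) (nat_lit 3) (nat_lit 2) (nat_lit 9) L50835 (by decide +kernel)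
theorem L50837 : W_7 (nat_lit 10) (nat_lit 0x200017001380080000000000000000000000000000000) (nat_lit 0x0) (nat_lit 0x7e003f001e0000c00000004000000000000000000000000000000) := T_7 (nat_lit 155) (nat_lit 154) (nat_lit 2) (nat_lit 1) (nat_lit 9) L50836 (by decide +kernel)
theorem L50838 : W_7 (nat_lit 2) (nat_lit 0x200000002800178013c0082000000000000000000000000000000) (nat_lit 0x0) (nat_lit 0x400020000000000000000100000000000000000000000000) := D_7 (nat_lit 173) (nat_lit 190) (nat_lit 104) (nat_lit 4) (nat_lit 3) (nat_lit 11) (nat_lit 7) (nat_lit 2) (nat_lit 6) (by decide +kernel)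
theorem L50839 : W_7 (nat_lit 3) (nat_lit 0x200000002800178013c0080000000000000000000000000000000) (nat_lit 0x0) (nat_lit 0x400020000000000003000100000000000000000000000000) := T_7 (nat_lit 121) (nat_lit 120) (nat_lit 0) (nat_lit 5) (nat_lit 8) L50838 (by decide +kernel)
theorem L50840 : W_7 (nat_lit 4) (nat_lit 0x2800178013c0080000000000000000000000000000000) (nat_lit 0x0) (nat_lit 0x20001400020000000000003000100000000000000000000000000) := T_7 (nat_lit 209) (nat_lit 192) (nat_lit 4) (nat_lit 5) (nat_lit 12) L50839 (by decide +kernel)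
theorem L50841 : W_7 (nat_lit 5) (nat_lit 0x2000178013c0080000000000000000000000000000000) (nat_lit 0x0) (nat_lit 0x200014001a0000000000003000100000000000000000000000000) := T_7 (nat_lit 175) (nat_lit 176) (nat_lit 3) (nat_lit 2) (nat_lit 9) L50840 (by decide +kernel)
theorem L50842 : W_7 (nat_lit 6) (nat_lit 0x200017801380080000000000000000000000000000000) (nat_lit 0x0) (nat_lit 0x200014001a0000000060003000100000000000000000000000000) := T_7 (nat_lit 138) (nat_lit 137) (nat_lit 3) (nat_lit 1) (nat_lit 8) L50841 (by decide +kernel)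
theorem L50843 : W_7 (nat_lit 7) (nat_lit 0x200017001380080000000000000000000000000000000) (nat_lit 0x0) (nat_lit 0x200014001a0000c00060003000100000000000000000000000000) := T_7 (nat_lit 155) (nat_lit 154) (nat_lit 2) (nat_lit 1) (nat_lit 9) L50842 (by decide +kernel)
theorem L50844 : W_7 (nat_lit 2) (nat_lit 0xc003400178013c0082000300000000000000000000000000) (nat_lit 0x0) (nat_lit 0x20003000000000000000000000000000000000000000000000000) := D_7 (nat_lit 192) (nat_lit 209) (nat_lit 193) (nat_lit 7) (nat_lit 4) (nat_lit 8) (nat_lit 2) (nat_lit 3) (nat_lit 11) (by decide +kernel)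
theorem L50845 : W_7 (nat_lit 3) (nat_lit 0x8003400178013c0082000300000000000000000000000000) (nat_lit 0x0) (nat_lit 0x28003400000000000000000000000000000000000000000000000) := T_7 (nat_lit 190) (nat_lit 207) (nat_lit 5) (nat_lit 4) (nat_lit 8) L50844 (by decide +kernel)
theorem L50846 : W_7 (nat_lit 4) (nat_lit 0x3400178013c0082000300000000000000000000000000) (nat_lit 0x0) (nat_lit 0x38003c00000000000000000000000000000000000000000000000) := T_7 (nat_lit 191) (nat_lit 208) (nat_lit 6) (nat_lit 4) (nat_lit 12) L50845 (by decide +kernel)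
theorem L50847 : W_7 (nat_lit 5) (nat_lit 0x3000178013c0082000300000000000000000000000000) (nat_lit 0x0) (nat_lit 0x38003c00040000000000004000000000000000000000000000000) := T_7 (nat_lit 174) (nat_lit 122) (nat_lit 7) (nat_lit 3) (nat_lit 6) L50846 (by decide +kernel)
theorem L50848 : W_7 (nat_lit 6) (nat_lit 0x3000178013c0082000100000000000000000000000000) (nat_lit 0x0) (nat_lit 0x38003c00040000000000004000200010000000000000000000000) := T_7 (nat_lit 105) (nat_lit 88) (nat_lit 6) (nat_lit 2) (nat_lit 9) L50847 (by decide +kernel)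
theorem L50849 : W_7 (nat_lit 7) (nat_lit 0x3000178013c0082000000000000000000000000000000) (nat_lit 0x0) (nat_lit 0x38003c00040000000000004000300018000000000000000000000) := T_7 (nat_lit 104) (nat_lit 87) (nat_lit 7) (nat_lit 2) (nat_lit 5) L50848 (by decide +kernel)
theorem L50850 : W_7 (nat_lit 8) (nat_lit 0x2000178013c0082000000000000000000000000000000) (nat_lit 0x0) (nat_lit 0x38003c001c0000000000004000300018000000000000000000000) := T_7 (nat_lit 176) (nat_lit 175) (nat_lit 3) (nat_lit 2) (nat_lit 9) L50849 (by decide +kernel)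
theorem L50851 : W_7 (nat_lit 9) (nat_lit 0x2000178013c0080000000000000000000000000000000) (nat_lit 0x0) (nat_lit 0x38003c001c0000000000007000300018000000000000000000000) := T_7 (nat_lit 121) (nat_lit 120) (nat_lit 0) (nat_lit 5) (nat_lit 8) L50850 (by decide +kernel)
theorem L50852 : W_7 (nat_lit 10) (nat_lit 0x2000170013c0080000000000000000000000000000000) (nat_lit 0x0) (nat_lit 0x38003c001c0000c00000007000300018000000000000000000000) := T_7 (nat_lit 155) (nat_lit 154) (nat_lit 2) (nat_lit 1) (nat_lit 9) L50851 (by decide +kernel)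
theorem L50853 : W_7 (nat_lit 11) (nat_lit 0x200017001380080000000000000000000000000000000) (nat_lit 0x0) (nat_lit 0x38003c001c0000c00060007000300018000000000000000000000) := T_7 (nat_lit 138) (nat_lit 137) (nat_lit 3) (nat_lit 1) (nat_lit 8) L50852 (by decide +kernel)
theorem L50854 : W_7 (nat_lit 2) (nat_lit 0x2000174013c0086000100000000000000000000000000) (nat_lit 0x0) (nat_lit 0x800040000000000000000200000000000000000000000000) := D_7 (nat_lit 174) (nat_lit 191) (nat_lit 105) (nat_lit 4) (nat_lit 4) (nat_lit 11) (nat_lit 7) (nat_lit 3) (nat_lit 6) (by decide +kernel)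
theorem L50855 : W_7 (nat_lit 3) (nat_lit 0x2000174013c0082000100000000000000000000000000) (nat_lit 0x0) (nat_lit 0x800060000000000004000200000000000000000000000000) := T_7 (nat_lit 122) (nat_lit 173) (nat_lit 4) (nat_lit 3) (nat_lit 10) L50854 (by decide +kernel)
theorem L50856 : W_7 (nat_lit 4) (nat_lit 0x2000174013c0082000000000000000000000000000000) (nat_lit 0x0) (nat_lit 0x800060000000000004000300008000000000000000000000) := T_7 (nat_lit 104) (nat_lit 87) (nat_lit 7) (nat_lit 2) (nat_lit 5) L50855 (by decide +kernel)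
theorem L50857 : W_7 (nat_lit 5) (nat_lit 0x2000174013c0080000000000000000000000000000000) (nat_lit 0x0) (nat_lit 0x800060000000000007000300008000000000000000000000) := T_7 (nat_lit 121) (nat_lit 120) (nat_lit 0) (nat_lit 5) (nat_lit 8) L50856 (by decide +kernel)
theorem L50858 : W_7 (nat_lit 6) (nat_lit 0x200017401380080000000000000000000000000000000) (nat_lit 0x0) (nat_lit 0x800060000000060007000300008000000000000000000000) := T_7 (nat_lit 138) (nat_lit 137) (nat_lit 3) (nat_lit 1) (nat_lit 8) L50857 (by decide +kernel)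
theorem L50859 : W_7 (nat_lit 7) (nat_lit 0x200017001380080000000000000000000000000000000) (nat_lit 0x0) (nat_lit 0x800060000c00060007000300008000000000000000000000) := T_7 (nat_lit 154) (nat_lit 155) (nat_lit 2) (nat_lit 1) (nat_lit 9) L50858 (by decide +kernel)
theorem L50860 : W_7 (nat_lit 12) (nat_lit 0x200017001300080000000000000000000000000000000) (nat_lit 0x0) (nat_lit 0x7e003f001e0000c000e0007000300018000000000000000000000) := Q_7 (nat_lit 139) (C_7 L50696 (C_7 L50837 (C_7 L50843 (C_7 L50853 (C_7 L50859 N_7))))) (by decide +kernel)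
theorem L50861 : W_7 (nat_lit 13) (nat_lit 0x200016001300080000000000000000000000000000000) (nat_lit 0x0) (nat_lit 0xff003f001f8001c000e0007800f80038000000000000000000000) := Q_7 (nat_lit 156) (C_7 L50675 (C_7 L50682 (C_7 L50702 (C_7 L50786 (C_7 L50818 (C_7 L50828 (C_7 L50860 N_7))))))) (by decide +kernel)
theorem L50862 : W_7 (nat_lit 14) (nat_lit 0x200012001300080000000000000000000000000000000) (nat_lit 0x0) (nat_lit 0xff003f001f802dc008e0007800f80038000000000000000000000) := Q_7 (nat_lit 158) (C_7 L50861 (C_7 L41950 (C_7 L42014 N_7))) (by decide +kernel)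
theorem L50863 : W_7 (nat_lit 2) (nat_lit 0x280016001300080000000000000000000000000000000) (nat_lit 0x0) (nat_lit 0x20001000000000000000008000000000000000000000000000000) := D_7 (nat_lit 192) (nat_lit 209) (nat_lit 123) (nat_lit 4) (nat_lit 5) (nat_lit 12) (nat_lit 4) (nat_lit 5) (nat_lit 11) (by decide +kernel)
theorem L50864 : W_7 (nat_lit 2) (nat_lit 0x3c00280016001300080000000000000000000000000000000) (nat_lit 0x0) (nat_lit 0xc000000040000000000000000000000000000000000000000000) := D_7 (nat_lit 207) (nat_lit 206) (nat_lit 174) (nat_lit 1) (nat_lit 6) (nat_lit 11) (nat_lit 5) (nat_lit 4) (nat_lit 8) (by decide +kernel)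
theorem L50865 : W_7 (nat_lit 3) (nat_lit 0x3800280016001300080000000000000000000000000000000) (nat_lit 0x0) (nat_lit 0xc000400140000000000000000000000000000000000000000000) := T_7 (nat_lit 190) (nat_lit 176) (nat_lit 2) (nat_lit 3) (nat_lit 11) L50864 (by decide +kernel)
theorem L50866 : W_7 (nat_lit 4) (nat_lit 0x1800280016001300080000000000000000000000000000000) (nat_lit 0x0) (nat_lit 0x4c002400140000000000000000000000000000000000000000000) := T_7 (nat_lit 193) (nat_lit 210) (nat_lit 7) (nat_lit 5) (nat_lit 8) L50865 (by decide +kernel)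
theorem L50867 : W_7 (nat_lit 5) (nat_lit 0x1000280016001300080000000000000000000000000000000) (nat_lit 0x0) (nat_lit 0x5c002c00140000000000000000000000000000000000000000000) := T_7 (nat_lit 191) (nat_lit 208) (nat_lit 5) (nat_lit 5) (nat_lit 8) L50866 (by decide +kernel)
theorem L50868 : W_7 (nat_lit 6) (nat_lit 0x280016001300080000000000000000000000000000000) (nat_lit 0x0) (nat_lit 0x7c003c00140000000000000000000000000000000000000000000) := T_7 (nat_lit 192) (nat_lit 209) (nat_lit 4) (nat_lit 5) (nat_lit 12) L50867 (by decide +kernel)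
theorem L50869 : W_7 (nat_lit 2) (nat_lit 0x2c0016001300080000000000000000000000000000000) (nat_lit 0x0) (nat_lit 0x100021000000000000000000000000000000000000000) := D_7 (nat_lit 176) (nat_lit 156) (nat_lit 161) (nat_lit 0) (nat_lit 7) (nat_lit 10) (nat_lit 2) (nat_lit 4) (nat_lit 10) (by decide +kernel)
theorem L50870 : W_7 (nat_lit 2) (nat_lit 0x8002c0016001300088000000000000000000000000000000) (nat_lit 0x0) (nat_lit 0x8000400020000000000000000000000000000000000000000000) := D_7 (nat_lit 190) (nat_lit 173) (nat_lit 207) (nat_lit 5) (nat_lit 4) (nat_lit 7) (nat_lit 5) (nat_lit 4) (nat_lit 8) (by decide +kernel)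
theorem L50871 : W_7 (nat_lit 3) (nat_lit 0x2c0016001300088000000000000000000000000000000) (nat_lit 0x0) (nat_lit 0x18000c00020000000000000000000000000000000000000000000) := T_7 (nat_lit 191) (nat_lit 208) (nat_lit 6) (nat_lit 4) (nat_lit 12) L50870 (by decide +kernel)
theorem L50872 : W_7 (nat_lit 4) (nat_lit 0x2c0016001300080000000000000000000000000000000) (nat_lit 0x0) (nat_lit 0x18000c00020000000000008000400000000000000000000000000) := T_7 (nat_lit 123) (nat_lit 106) (nat_lit 7) (nat_lit 4) (nat_lit 6) L50871 (by decide +kernel)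
theorem L50873 : W_7 (nat_lit 5) (nat_lit 0x280016001300080000000000000000000000000000000) (nat_lit 0x0) (nat_lit 0x18000c00160021000000008000400000000000000000000000000) := Q_7 (nat_lit 174) (C_7 L50869 (C_7 L50872 N_7)) (by decide +kernel)
theorem L50874 : W_7 (nat_lit 7) (nat_lit 0x200016001300080000000000000000000000000000000) (nat_lit 0x0) (nat_lit 0x7c003c001e0021000000008000400000000000000000000000000) := Q_7 (nat_lit 175) (C_7 L50863 (C_7 L50868 (C_7 L50873 N_7))) (by decide +kernel)
theorem L50875 : W_7 (nat_lit 8) (nat_lit 0x200012001300080000000000000000000000000000000) (nat_lit 0x0) (nat_lit 0x7c003c001e002d000880008000400000000000000000000000000) := Q_7 (nat_lit 158) (C_7 L42014 (C_7 L41950 (C_7 L50874 (C_7 L40505 N_7)))) (by decide +kernel)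
theorem L50876 : W_7 (nat_lit 8) (nat_lit 0x200012001300080000000000000000000000000000000) (nat_lit 0x0) (nat_lit 0x7c003c001f002d000800008000400000000000000000000000000) := Q_7 (nat_lit 158) (C_7 L42014 (C_7 L50874 (C_7 L40519 N_7))) (by decide +kernel)
theorem L50877 : W_7 (nat_lit 2) (nat_lit 0x200016001300088000000000000000000000000000000) (nat_lit 0x0) (nat_lit 0x1000080000000000000000400000000000000000000000000) := D_7 (nat_lit 175) (nat_lit 192) (nat_lit 106) (nat_lit 4) (nat_lit 5) (nat_lit 11) (nat_lit 7) (nat_lit 4) (nat_lit 6) (by decide +kernel)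
theorem L50878 : W_7 (nat_lit 2) (nat_lit 0x400240016001300088000600000000000000000000000000) (nat_lit 0x0) (nat_lit 0x18000800000000000000000000000000000000000000000000000) := D_7 (nat_lit 191) (nat_lit 208) (nat_lit 207) (nat_lit 6) (nat_lit 4) (nat_lit 12) (nat_lit 5) (nat_lit 4) (nat_lit 8) (by decide +kernel)
theorem L50879 : W_7 (nat_lit 3) (nat_lit 0x240016001300088000600000000000000000000000000) (nat_lit 0x0) (nat_lit 0x18000c00020000000000000000000000000000000000000000000) := T_7 (nat_lit 190) (nat_lit 173) (nat_lit 5) (nat_lit 4) (nat_lit 7) L50878 (by decide +kernel)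
theorem L50880 : W_7 (nat_lit 4) (nat_lit 0x200016001300088000600000000000000000000000000) (nat_lit 0x0) (nat_lit 0x18000c00060000000000004000000000000000000000000000000) := T_7 (nat_lit 174) (nat_lit 122) (nat_lit 4) (nat_lit 4) (nat_lit 10) L50879 (by decide +kernel)
theorem L50881 : W_7 (nat_lit 5) (nat_lit 0x200016001300088000400000000000000000000000000) (nat_lit 0x0) (nat_lit 0x18000c00060000000000004000200010000000000000000000000) := T_7 (nat_lit 105) (nat_lit 88) (nat_lit 4) (nat_lit 4) (nat_lit 9) L50880 (by decide +kernel)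
theorem L50882 : W_7 (nat_lit 6) (nat_lit 0x200016001300088000000000000000000000000000000) (nat_lit 0x0) (nat_lit 0x18000c00060000000000004000600030000000000000000000000) := T_7 (nat_lit 106) (nat_lit 89) (nat_lit 7) (nat_lit 4) (nat_lit 5) L50881 (by decide +kernel)
theorem L50883 : W_7 (nat_lit 2) (nat_lit 0x2003f001680130008d000000000000000000000000000000) (nat_lit 0x0) (nat_lit 0xe0000000000000000000000000000000000) := D_7 (nat_lit 138) (nat_lit 137) (nat_lit 139) (nat_lit 4) (nat_lit 2) (nat_lit 11) (nat_lit 6) (nat_lit 2) (nat_lit 11) (by decide +kernel)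
theorem L50884 : W_7 (nat_lit 3) (nat_lit 0x3f001680130008d000000000000000000000000000000) (nat_lit 0x0) (nat_lit 0x3000000000000e0000000000000000000000000000000000) := T_7 (nat_lit 189) (nat_lit 188) (nat_lit 1) (nat_lit 5) (nat_lit 10) L50883 (by decide +kernel)
theorem L50885 : W_7 (nat_lit 4) (nat_lit 0x3f001600130008d000000000000000000000000000000) (nat_lit 0x0) (nat_lit 0x300000000c000e0000000000000000000000000000000000) := T_7 (nat_lit 155) (nat_lit 154) (nat_lit 0) (nat_lit 5) (nat_lit 10) L50884 (by decide +kernel)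
theorem L50886 : W_7 (nat_lit 5) (nat_lit 0x3e001600130008d000000000000000000000000000000) (nat_lit 0x0) (nat_lit 0x300018000c000e0000000000000000000000000000000000) := T_7 (nat_lit 172) (nat_lit 171) (nat_lit 2) (nat_lit 1) (nat_lit 10) L50885 (by decide +kernel)
theorem L50887 : W_7 (nat_lit 6) (nat_lit 0x3c001600130008d000000000000000000000000000000) (nat_lit 0x0) (nat_lit 0x700038000c000e0000000000000000000000000000000000) := T_7 (nat_lit 173) (nat_lit 190) (nat_lit 5) (nat_lit 4) (nat_lit 7) L50886 (by decide +kernel)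
theorem L50888 : W_7 (nat_lit 7) (nat_lit 0x2c001600130008d000000000000000000000000000000) (nat_lit 0x0) (nat_lit 0x700138020c000e0000000000000000000000000000000000) := T_7 (nat_lit 176) (nat_lit 161) (nat_lit 2) (nat_lit 4) (nat_lit 10) L50887 (by decide +kernel)
theorem L50889 : W_7 (nat_lit 8) (nat_lit 0x2c001600130008c000000000000000000000000000000) (nat_lit 0x0) (nat_lit 0x700138020c000e0003000000000000000000000000000000) := T_7 (nat_lit 120) (nat_lit 121) (nat_lit 3) (nat_lit 1) (nat_lit 7) L50888 (by decide +kernel)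
theorem L50890 : W_7 (nat_lit 9) (nat_lit 0x2c0016001300088000000000000000000000000000000) (nat_lit 0x0) (nat_lit 0x700138020c000e0007000200000000000000000000000000) := T_7 (nat_lit 122) (nat_lit 105) (nat_lit 4) (nat_lit 4) (nat_lit 10) L50889 (by decide +kernel)
theorem L50891 : W_7 (nat_lit 10) (nat_lit 0x240016001300088000000000000000000000000000000) (nat_lit 0x0) (nat_lit 0x17001b8020c000e0007000200000000000000000000000000) := T_7 (nat_lit 175) (nat_lit 192) (nat_lit 7) (nat_lit 4) (nat_lit 7) L50890 (by decide +kernel)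
theorem L50892 : W_7 (nat_lit 2) (nat_lit 0x800268016001300088000000000000000000000000000000) (nat_lit 0x0) (nat_lit 0x20001000080000000000000000000000000000000000000000000) := D_7 (nat_lit 192) (nat_lit 175) (nat_lit 209) (nat_lit 7) (nat_lit 4) (nat_lit 7) (nat_lit 7) (nat_lit 4) (nat_lit 8) (by decide +kernel)
theorem L50893 : W_7 (nat_lit 3) (nat_lit 0x268016001300088000000000000000000000000000000) (nat_lit 0x0) (nat_lit 0x30001800080000000000000000000000000000000000000000000) := T_7 (nat_lit 191) (nat_lit 208) (nat_lit 6) (nat_lit 4) (nat_lit 12) L50892 (by decide +kernel)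
theorem L50894 : W_7 (nat_lit 4) (nat_lit 0x260016001300088000000000000000000000000000000) (nat_lit 0x0) (nat_lit 0x30001800098000000000000000000000000000000000000000000) := T_7 (nat_lit 171) (nat_lit 172) (nat_lit 2) (nat_lit 1) (nat_lit 10) L50893 (by decide +kernel)
theorem L50895 : W_7 (nat_lit 5) (nat_lit 0x240016001300088000000000000000000000000000000) (nat_lit 0x0) (nat_lit 0x30001c000b8000000000000000000000000000000000000000000) := T_7 (nat_lit 173) (nat_lit 190) (nat_lit 5) (nat_lit 4) (nat_lit 7) L50894 (by decide +kernel)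
theorem L50896 : W_7 (nat_lit 2) (nat_lit 0x26801600130008c000000000000000000000000000000) (nat_lit 0x0) (nat_lit 0x10000800000000000080000000000000000000000000000000000) := D_7 (nat_lit 191) (nat_lit 139) (nat_lit 208) (nat_lit 4) (nat_lit 4) (nat_lit 11) (nat_lit 6) (nat_lit 4) (nat_lit 12) (by decide +kernel)
theorem L50897 : W_7 (nat_lit 3) (nat_lit 0x268016001300088000000000000000000000000000000) (nat_lit 0x0) (nat_lit 0x10000800000000000080004000200000000000000000000000000) := T_7 (nat_lit 122) (nat_lit 105) (nat_lit 4) (nat_lit 4) (nat_lit 10) L50896 (by decide +kernel)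
theorem L50898 : W_7 (nat_lit 4) (nat_lit 0x260016001300088000000000000000000000000000000) (nat_lit 0x0) (nat_lit 0x10000800018000000080004000200000000000000000000000000) := T_7 (nat_lit 171) (nat_lit 172) (nat_lit 2) (nat_lit 1) (nat_lit 10) L50897 (by decide +kernel)
theorem L50899 : W_7 (nat_lit 5) (nat_lit 0x240016001300088000000000000000000000000000000) (nat_lit 0x0) (nat_lit 0x10000c00038000000080004000200000000000000000000000000) := T_7 (nat_lit 173) (nat_lit 190) (nat_lit 5) (nat_lit 4) (nat_lit 7) L50898 (by decide +kernel)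
theorem L50900 : W_7 (nat_lit 2) (nat_lit 0x800240016001300088000000000000000000000000000000) (nat_lit 0x0) (nat_lit 0x20001000080000000000000000000000000000000000000000000) := D_7 (nat_lit 192) (nat_lit 175) (nat_lit 209) (nat_lit 7) (nat_lit 4) (nat_lit 7) (nat_lit 7) (nat_lit 4) (nat_lit 8) (by decide +kernel)
theorem L50901 : W_7 (nat_lit 3) (nat_lit 0x240016001300088000000000000000000000000000000) (nat_lit 0x0) (nat_lit 0x30001800080000000000000000000000000000000000000000000) := T_7 (nat_lit 191) (nat_lit 208) (nat_lit 6) (nat_lit 4) (nat_lit 12) L50900 (by decide +kernel)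
theorem L50902 : W_7 (nat_lit 11) (nat_lit 0x200016001300088000000000000000000000000000000) (nat_lit 0x0) (nat_lit 0x30001f001f8020c000e0007000200000000000000000000000000) := Q_7 (nat_lit 174) (C_7 L50891 (C_7 L50895 (C_7 L50899 (C_7 L50901 N_7)))) (by decide +kernel)
theorem L50903 : W_7 (nat_lit 12) (nat_lit 0x200016001300080000000000000000000000000000000) (nat_lit 0x0) (nat_lit 0x38001f001f8020c000e000f000600030000000000000000000000) := Q_7 (nat_lit 123) (C_7 L50877 (C_7 L50882 (C_7 L50902 N_7))) (by decide +kernel)
theorem L50904 : W_7 (nat_lit 13) (nat_lit 0x200012001300080000000000000000000000000000000) (nat_lit 0x0) (nat_lit 0x38001f001f802cc008e000f000600030000000000000000000000) := Q_7 (nat_lit 158) (C_7 L40505 (C_7 L41950 (C_7 L42014 (C_7 L50903 N_7)))) (by decide +kernel)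
theorem L50905 : W_7 (nat_lit 3) (nat_lit 0x2f001680130008d000000000000000000000000000000) (nat_lit 0x0) (nat_lit 0x3000000010000c0000000000000000000000000000000000) := T_7 (nat_lit 189) (nat_lit 188) (nat_lit 1) (nat_lit 5) (nat_lit 10) L36831 (by decide +kernel)
theorem L50906 : W_7 (nat_lit 4) (nat_lit 0x2f001600130008d000000000000000000000000000000) (nat_lit 0x0) (nat_lit 0x300000001c000c0000000000000000000000000000000000) := T_7 (nat_lit 155) (nat_lit 154) (nat_lit 0) (nat_lit 5) (nat_lit 10) L50905 (by decide +kernel)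
theorem L50907 : W_7 (nat_lit 5) (nat_lit 0x2e001600130008d000000000000000000000000000000) (nat_lit 0x0) (nat_lit 0x300018001c000c0000000000000000000000000000000000) := T_7 (nat_lit 172) (nat_lit 171) (nat_lit 2) (nat_lit 1) (nat_lit 10) L50906 (by decide +kernel)
theorem L50908 : W_7 (nat_lit 6) (nat_lit 0x2c001600130008d000000000000000000000000000000) (nat_lit 0x0) (nat_lit 0x700038001c000c0000000000000000000000000000000000) := T_7 (nat_lit 173) (nat_lit 190) (nat_lit 5) (nat_lit 4) (nat_lit 7) L50907 (by decide +kernel)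
theorem L50909 : W_7 (nat_lit 7) (nat_lit 0x2c001600130008c000000000000000000000000000000) (nat_lit 0x0) (nat_lit 0x700038001c000c0003000000000000000000000000000000) := T_7 (nat_lit 120) (nat_lit 121) (nat_lit 3) (nat_lit 1) (nat_lit 7) L50908 (by decide +kernel)
theorem L50910 : W_7 (nat_lit 8) (nat_lit 0x2c0016001300088000000000000000000000000000000) (nat_lit 0x0) (nat_lit 0x700038001c000c0007000200000000000000000000000000) := T_7 (nat_lit 122) (nat_lit 105) (nat_lit 4) (nat_lit 4) (nat_lit 10) L50909 (by decide +kernel)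
theorem L50911 : W_7 (nat_lit 9) (nat_lit 0x240016001300088000000000000000000000000000000) (nat_lit 0x0) (nat_lit 0x17000b8001c000c0007000200000000000000000000000000) := T_7 (nat_lit 175) (nat_lit 192) (nat_lit 7) (nat_lit 4) (nat_lit 7) L50910 (by decide +kernel)
theorem L50912 : W_7 (nat_lit 10) (nat_lit 0x200016001300088000000000000000000000000000000) (nat_lit 0x0) (nat_lit 0x30001f000f8001c000c0007000200000000000000000000000000) := Q_7 (nat_lit 174) (C_7 L50911 (C_7 L50901 (C_7 L50899 N_7))) (by decide +kernel)
theorem L50913 : W_7 (nat_lit 11) (nat_lit 0x200016001300080000000000000000000000000000000) (nat_lit 0x0) (nat_lit 0x38001f000f8001c000c000f000600030000000000000000000000) := Q_7 (nat_lit 123) (C_7 L50877 (C_7 L50882 (C_7 L50912 N_7))) (by decide +kernel)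
theorem L50914 : W_7 (nat_lit 12) (nat_lit 0x200012001300080000000000000000000000000000000) (nat_lit 0x0) (nat_lit 0x38001f000f802dc008c000f000600030000000000000000000000) := Q_7 (nat_lit 158) (C_7 L40505 (C_7 L41950 (C_7 L42014 (C_7 L50913 N_7)))) (by decide +kernel)
theorem L50915 : W_7 (nat_lit 2) (nat_lit 0x1000000027001740130008e000000000000000000000000000000) (nat_lit 0x0) (nat_lit 0x200000000000080000000100000000000000000000000000) := D_7 (nat_lit 139) (nat_lit 104) (nat_lit 189) (nat_lit 4) (nat_lit 3) (nat_lit 10) (nat_lit 5) (nat_lit 3) (nat_lit 7) (by decide +kernel)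
theorem L50916 : W_7 (nat_lit 3) (nat_lit 0x1000000026001740130008e000000000000000000000000000000) (nat_lit 0x0) (nat_lit 0x200018000000080000000100000000000000000000000000) := T_7 (nat_lit 172) (nat_lit 171) (nat_lit 2) (nat_lit 1) (nat_lit 10) L50915 (by decide +kernel)
theorem L50917 : W_7 (nat_lit 4) (nat_lit 0x1000000024001740130008e000000000000000000000000000000) (nat_lit 0x0) (nat_lit 0x600038000000080000000100000000000000000000000000) := T_7 (nat_lit 173) (nat_lit 190) (nat_lit 5) (nat_lit 4) (nat_lit 7) L50916 (by decide +kernel)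
theorem L50918 : W_7 (nat_lit 5) (nat_lit 0x1000000024001740130008c000000000000000000000000000000) (nat_lit 0x0) (nat_lit 0x600038000000080003000100000000000000000000000000) := T_7 (nat_lit 121) (nat_lit 120) (nat_lit 3) (nat_lit 1) (nat_lit 7) L50917 (by decide +kernel)
theorem L50919 : W_7 (nat_lit 6) (nat_lit 0x10000000240017401300088000000000000000000000000000000) (nat_lit 0x0) (nat_lit 0x600038000000080007000300000000000000000000000000) := T_7 (nat_lit 122) (nat_lit 105) (nat_lit 4) (nat_lit 4) (nat_lit 10) L50918 (by decide +kernel)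
theorem L50920 : W_7 (nat_lit 7) (nat_lit 0x240017401300088000000000000000000000000000000) (nat_lit 0x0) (nat_lit 0x10000e00038000000080007000300000000000000000000000000) := T_7 (nat_lit 208) (nat_lit 191) (nat_lit 6) (nat_lit 4) (nat_lit 12) L50919 (by decide +kernel)
theorem L50921 : W_7 (nat_lit 8) (nat_lit 0x240017001300088000000000000000000000000000000) (nat_lit 0x0) (nat_lit 0x10000e00038000c00080007000300000000000000000000000000) := T_7 (nat_lit 154) (nat_lit 155) (nat_lit 2) (nat_lit 1) (nat_lit 9) L50920 (by decide +kernel)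
theorem L50922 : W_7 (nat_lit 2) (nat_lit 0x400240017001300088000000000000000000000000000000) (nat_lit 0x0) (nat_lit 0x18000800000000000000000000000000000000000000000000000) := D_7 (nat_lit 191) (nat_lit 207) (nat_lit 208) (nat_lit 5) (nat_lit 4) (nat_lit 8) (nat_lit 6) (nat_lit 4) (nat_lit 12) (by decide +kernel)
theorem L50923 : W_7 (nat_lit 3) (nat_lit 0x240017001300088000000000000000000000000000000) (nat_lit 0x0) (nat_lit 0x18000c00020000000000000000000000000000000000000000000) := T_7 (nat_lit 190) (nat_lit 173) (nat_lit 5) (nat_lit 4) (nat_lit 7) L50922 (by decide +kernel)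
theorem L50924 : W_7 (nat_lit 2) (nat_lit 0x24001700130008c000000000000000000000000000000) (nat_lit 0x0) (nat_lit 0x10000800000000000080000000000000000000000000000000000) := D_7 (nat_lit 191) (nat_lit 139) (nat_lit 208) (nat_lit 4) (nat_lit 4) (nat_lit 11) (nat_lit 6) (nat_lit 4) (nat_lit 12) (by decide +kernel)
theorem L50925 : W_7 (nat_lit 3) (nat_lit 0x240017001300088000000000000000000000000000000) (nat_lit 0x0) (nat_lit 0x10000800000000000080004000200000000000000000000000000) := T_7 (nat_lit 122) (nat_lit 105) (nat_lit 4) (nat_lit 4) (nat_lit 10) L50924 (by decide +kernel)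
theorem L50926 : W_7 (nat_lit 2) (nat_lit 0x27001700130008e000000000000000000000000000000) (nat_lit 0x0) (nat_lit 0x200000000000080000000100000000000000000000000000) := D_7 (nat_lit 139) (nat_lit 104) (nat_lit 189) (nat_lit 4) (nat_lit 3) (nat_lit 10) (nat_lit 5) (nat_lit 3) (nat_lit 7) (by decide +kernel)
theorem L50927 : W_7 (nat_lit 3) (nat_lit 0x26001700130008e000000000000000000000000000000) (nat_lit 0x0) (nat_lit 0x200018000000080000000100000000000000000000000000) := T_7 (nat_lit 172) (nat_lit 171) (nat_lit 2) (nat_lit 1) (nat_lit 10) L50926 (by decide +kernel)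
theorem L50928 : W_7 (nat_lit 4) (nat_lit 0x24001700130008e000000000000000000000000000000) (nat_lit 0x0) (nat_lit 0x600038000000080000000100000000000000000000000000) := T_7 (nat_lit 173) (nat_lit 190) (nat_lit 5) (nat_lit 4) (nat_lit 7) L50927 (by decide +kernel)
theorem L50929 : W_7 (nat_lit 5) (nat_lit 0x24001700130008c000000000000000000000000000000) (nat_lit 0x0) (nat_lit 0x600038000000080003000100000000000000000000000000) := T_7 (nat_lit 121) (nat_lit 120) (nat_lit 3) (nat_lit 1) (nat_lit 7) L50928 (by decide +kernel)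
theorem L50930 : W_7 (nat_lit 6) (nat_lit 0x240017001300088000000000000000000000000000000) (nat_lit 0x0) (nat_lit 0x600038000000080007000300000000000000000000000000) := T_7 (nat_lit 122) (nat_lit 105) (nat_lit 4) (nat_lit 4) (nat_lit 10) L50929 (by decide +kernel)
theorem L50931 : W_7 (nat_lit 9) (nat_lit 0x200017001300088000000000000000000000000000000) (nat_lit 0x0) (nat_lit 0x18000e00078000c00080007000300000000000000000000000000) := Q_7 (nat_lit 174) (C_7 L50921 (C_7 L50923 (C_7 L50925 (C_7 L50930 N_7)))) (by decide +kernel)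
theorem L50932 : W_7 (nat_lit 2) (nat_lit 0x200017001300088000000000000000000000000000000) (nat_lit 0x0) (nat_lit 0x20000000000000000400020000000000000000000000) := D_7 (nat_lit 106) (nat_lit 173) (nat_lit 89) (nat_lit 5) (nat_lit 4) (nat_lit 6) (nat_lit 7) (nat_lit 4) (nat_lit 5) (by decide +kernel)
theorem L50933 : W_7 (nat_lit 2) (nat_lit 0x20001740130008c000e00000000000000000000000000) (nat_lit 0x0) (nat_lit 0x3001000000000000000000000000000) := D_7 (nat_lit 121) (nat_lit 120) (nat_lit 108) (nat_lit 3) (nat_lit 1) (nat_lit 7) (nat_lit 1) (nat_lit 6) (nat_lit 6) (by decide +kernel)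
theorem L50934 : W_7 (nat_lit 3) (nat_lit 0x20001740130008c000600000000000000000000000000) (nat_lit 0x0) (nat_lit 0x3001800040000000000000000000000) := T_7 (nat_lit 107) (nat_lit 90) (nat_lit 6) (nat_lit 4) (nat_lit 9) L50933 (by decide +kernel)
theorem L50935 : W_7 (nat_lit 4) (nat_lit 0x200017401300088000600000000000000000000000000) (nat_lit 0x0) (nat_lit 0x40000000000007001800040000000000000000000000) := T_7 (nat_lit 122) (nat_lit 174) (nat_lit 4) (nat_lit 4) (nat_lit 10) L50934 (by decide +kernel)
theorem L50936 : W_7 (nat_lit 5) (nat_lit 0x200017401300088000400000000000000000000000000) (nat_lit 0x0) (nat_lit 0x40000000000007001a00050000000000000000000000) := T_7 (nat_lit 105) (nat_lit 88) (nat_lit 4) (nat_lit 4) (nat_lit 9) L50935 (by decide +kernel)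
theorem L50937 : W_7 (nat_lit 6) (nat_lit 0x200017401300088000000000000000000000000000000) (nat_lit 0x0) (nat_lit 0x40000000000007001e00070000000000000000000000) := T_7 (nat_lit 106) (nat_lit 89) (nat_lit 7) (nat_lit 4) (nat_lit 5) L50936 (by decide +kernel)
theorem L50938 : W_7 (nat_lit 7) (nat_lit 0x200017001300088000000000000000000000000000000) (nat_lit 0x0) (nat_lit 0x40000c00000007001e00070000000000000000000000) := T_7 (nat_lit 154) (nat_lit 155) (nat_lit 2) (nat_lit 1) (nat_lit 9) L50937 (by decide +kernel)
theorem L50939 : W_7 (nat_lit 10) (nat_lit 0x200017001300080000000000000000000000000000000) (nat_lit 0x0) (nat_lit 0x18000e00078000c0008000f001f00070000000000000000000000) := Q_7 (nat_lit 123) (C_7 L50931 (C_7 L50932 (C_7 L50938 N_7))) (by decide +kernel)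
theorem L50940 : W_7 (nat_lit 2) (nat_lit 0x200017001300084000200000000000000000000000000) (nat_lit 0x0) (nat_lit 0x40000000080008000000000000000000000000000000) := D_7 (nat_lit 174) (nat_lit 123) (nat_lit 139) (nat_lit 4) (nat_lit 4) (nat_lit 10) (nat_lit 7) (nat_lit 3) (nat_lit 6) (by decide +kernel)
theorem L50941 : W_7 (nat_lit 2) (nat_lit 0x200017001300084000200000000000000000000000000) (nat_lit 0x0) (nat_lit 0x40000000080000000000010000000000000000000000) := D_7 (nat_lit 139) (nat_lit 88) (nat_lit 174) (nat_lit 7) (nat_lit 3) (nat_lit 5) (nat_lit 7) (nat_lit 3) (nat_lit 6) (by decide +kernel)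
theorem L50942 : W_7 (nat_lit 2) (nat_lit 0x20001700130008c000200000000000000000000000000) (nat_lit 0x0) (nat_lit 0x400030000000000000000000000) := D_7 (nat_lit 106) (nat_lit 88) (nat_lit 89) (nat_lit 4) (nat_lit 4) (nat_lit 9) (nat_lit 7) (nat_lit 4) (nat_lit 5) (by decide +kernel)
theorem L50943 : W_7 (nat_lit 3) (nat_lit 0x200017001300084000200000000000000000000000000) (nat_lit 0x0) (nat_lit 0x40000000000008000400030000000000000000000000) := T_7 (nat_lit 123) (nat_lit 174) (nat_lit 4) (nat_lit 4) (nat_lit 10) L50942 (by decide +kernel)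
theorem L50944 : W_7 (nat_lit 2) (nat_lit 0x200017001300084000200010000000000000000000000) (nat_lit 0x0) (nat_lit 0x8000400000000800000000000000000) := D_7 (nat_lit 123) (nat_lit 106) (nat_lit 71) (nat_lit 4) (nat_lit 4) (nat_lit 9) (nat_lit 7) (nat_lit 3) (nat_lit 4) (by decide +kernel)
theorem L50945 : W_7 (nat_lit 3) (nat_lit 0x200017001300084000200000000000000000000000000) (nat_lit 0x0) (nat_lit 0x80008000400010000800000000000000000) := T_7 (nat_lit 88) (nat_lit 139) (nat_lit 7) (nat_lit 3) (nat_lit 5) L50944 (by decide +kernel)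
theorem L50946 : W_7 (nat_lit 4) (nat_lit 0x200017001300084000000000000000000000000000000) (nat_lit 0x0) (nat_lit 0x40000000080008000600030000800000000000000000) := Q_7 (nat_lit 105) (C_7 L50940 (C_7 L50941 (C_7 L50943 (C_7 L50945 N_7)))) (by decide +kernel)
theorem L50947 : W_7 (nat_lit 2) (nat_lit 0x210017801340084000000000000000000000000000000) (nat_lit 0x0) (nat_lit 0x80002000200000000000000000000000000) := D_7 (nat_lit 105) (nat_lit 139) (nat_lit 121) (nat_lit 5) (nat_lit 3) (nat_lit 6) (nat_lit 6) (nat_lit 2) (nat_lit 10) (by decide +kernel)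
theorem L50948 : W_7 (nat_lit 3) (nat_lit 0x200017801340084000000000000000000000000000000) (nat_lit 0x0) (nat_lit 0x18000000080002000200000000000000000000000000) := T_7 (nat_lit 172) (nat_lit 171) (nat_lit 1) (nat_lit 5) (nat_lit 9) L50947 (by decide +kernel)
theorem L50949 : W_7 (nat_lit 4) (nat_lit 0x200017801300084000000000000000000000000000000) (nat_lit 0x0) (nat_lit 0x180000000e0002000200000000000000000000000000) := T_7 (nat_lit 138) (nat_lit 137) (nat_lit 0) (nat_lit 5) (nat_lit 9) L50948 (by decide +kernel)
theorem L50950 : W_7 (nat_lit 5) (nat_lit 0x200017001300084000000000000000000000000000000) (nat_lit 0x0) (nat_lit 0x18000c000e0002000200000000000000000000000000) := T_7 (nat_lit 155) (nat_lit 154) (nat_lit 2) (nat_lit 1) (nat_lit 9) L50949 (by decide +kernel)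
theorem L50951 : W_7 (nat_lit 2) (nat_lit 0x210017801340086000000000000000000000000000000) (nat_lit 0x0) (nat_lit 0x9000080000000000000000000000000) := D_7 (nat_lit 120) (nat_lit 103) (nat_lit 123) (nat_lit 4) (nat_lit 2) (nat_lit 10) (nat_lit 3) (nat_lit 1) (nat_lit 7) (by decide +kernel)
theorem L50952 : W_7 (nat_lit 3) (nat_lit 0x210017801340084000000000000000000000000000000) (nat_lit 0x0) (nat_lit 0xb000280000000000000000000000000) := T_7 (nat_lit 121) (nat_lit 105) (nat_lit 6) (nat_lit 2) (nat_lit 10) L50951 (by decide +kernel)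
theorem L50953 : W_7 (nat_lit 4) (nat_lit 0x200017801340084000000000000000000000000000000) (nat_lit 0x0) (nat_lit 0x1800000000000b000280000000000000000000000000) := T_7 (nat_lit 172) (nat_lit 171) (nat_lit 1) (nat_lit 5) (nat_lit 9) L50952 (by decide +kernel)
theorem L50954 : W_7 (nat_lit 5) (nat_lit 0x200017801300084000000000000000000000000000000) (nat_lit 0x0) (nat_lit 0x1800000006000b000280000000000000000000000000) := T_7 (nat_lit 138) (nat_lit 137) (nat_lit 0) (nat_lit 5) (nat_lit 9) L50953 (by decide +kernel)
theorem L50955 : W_7 (nat_lit 6) (nat_lit 0x200017001300084000000000000000000000000000000) (nat_lit 0x0) (nat_lit 0x18000c0006000b000280000000000000000000000000) := T_7 (nat_lit 155) (nat_lit 154) (nat_lit 2) (nat_lit 1) (nat_lit 9) L50954 (by decide +kernel)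
theorem L50956 : W_7 (nat_lit 2) (nat_lit 0xa000200210017801340084000000000000000000000000000000) (nat_lit 0x0) (nat_lit 0x140004000000000000000000000000000000000000000000000000000) := D_7 (nat_lit 206) (nat_lit 224) (nat_lit 222) (nat_lit 7) (nat_lit 2) (nat_lit 9) (nat_lit 5) (nat_lit 2) (nat_lit 9) (by decide +kernel)
theorem L50957 : W_7 (nat_lit 3) (nat_lit 0x8000200210017801340084000000000000000000000000000000) (nat_lit 0x0) (nat_lit 0x140006000100000000000000000000000000000000000000000000000) := T_7 (nat_lit 205) (nat_lit 188) (nat_lit 5) (nat_lit 2) (nat_lit 8) L50956 (by decide +kernel)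
theorem L50958 : W_7 (nat_lit 4) (nat_lit 0x200210017801340084000000000000000000000000000000) (nat_lit 0x0) (nat_lit 0x14000e000500000000000000000000000000000000000000000000000) := T_7 (nat_lit 207) (nat_lit 190) (nat_lit 7) (nat_lit 2) (nat_lit 8) L50957 (by decide +kernel)
theorem L50959 : W_7 (nat_lit 5) (nat_lit 0x210017801340084000000000000000000000000000000) (nat_lit 0x0) (nat_lit 0x14000e000700000000000080000000000000000000000000000000000) := T_7 (nat_lit 189) (nat_lit 139) (nat_lit 6) (nat_lit 2) (nat_lit 11) L50958 (by decide +kernel)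
theorem L50960 : W_7 (nat_lit 6) (nat_lit 0x200017801340084000000000000000000000000000000) (nat_lit 0x0) (nat_lit 0x14000e000700018000000080000000000000000000000000000000000) := T_7 (nat_lit 172) (nat_lit 171) (nat_lit 1) (nat_lit 5) (nat_lit 9) L50959 (by decide +kernel)
theorem L50961 : W_7 (nat_lit 7) (nat_lit 0x200017801300084000000000000000000000000000000) (nat_lit 0x0) (nat_lit 0x14000e0007000180000000e0000000000000000000000000000000000) := T_7 (nat_lit 138) (nat_lit 137) (nat_lit 0) (nat_lit 5) (nat_lit 9) L50960 (by decide +kernel)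
theorem L50962 : W_7 (nat_lit 8) (nat_lit 0x200017001300084000000000000000000000000000000) (nat_lit 0x0) (nat_lit 0x14000e000700018000c000e0000000000000000000000000000000000) := T_7 (nat_lit 155) (nat_lit 154) (nat_lit 2) (nat_lit 1) (nat_lit 9) L50961 (by decide +kernel)
theorem L50963 : W_7 (nat_lit 9) (nat_lit 0x200017001300080000000000000000000000000000000) (nat_lit 0x0) (nat_lit 0x14000e000700058000c000e000f000680030000800000000000000000) := Q_7 (nat_lit 122) (C_7 L50946 (C_7 L50950 (C_7 L50955 (C_7 L50962 N_7)))) (by decide +kernel)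
theorem L50964 : W_7 (nat_lit 2) (nat_lit 0x400220017001300080000000000000000000000000000000) (nat_lit 0x0) (nat_lit 0x40000000000008000400000000000000000000000000) := D_7 (nat_lit 123) (nat_lit 106) (nat_lit 174) (nat_lit 5) (nat_lit 4) (nat_lit 6) (nat_lit 5) (nat_lit 4) (nat_lit 7) (by decide +kernel)
theorem L50965 : W_7 (nat_lit 3) (nat_lit 0x220017001300080000000000000000000000000000000) (nat_lit 0x0) (nat_lit 0x8000400040000000000008000400000000000000000000000000) := T_7 (nat_lit 190) (nat_lit 207) (nat_lit 6) (nat_lit 3) (nat_lit 12) L50964 (by decide +kernel)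
theorem L50966 : W_7 (nat_lit 2) (nat_lit 0x8000000230017801340082000000000000000000000000000000) (nat_lit 0x0) (nat_lit 0x80001000080000000000000000000000000) := D_7 (nat_lit 120) (nat_lit 103) (nat_lit 139) (nat_lit 4) (nat_lit 2) (nat_lit 10) (nat_lit 0) (nat_lit 5) (nat_lit 8) (by decide +kernel)
theorem L50967 : W_7 (nat_lit 3) (nat_lit 0x8000000230017801340080000000000000000000000000000000) (nat_lit 0x0) (nat_lit 0x80003000180000000000000000000000000) := T_7 (nat_lit 121) (nat_lit 104) (nat_lit 7) (nat_lit 2) (nat_lit 6) L50966 (by decide +kernel)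
theorem L50968 : W_7 (nat_lit 4) (nat_lit 0x8000000230017801300080000000000000000000000000000000) (nat_lit 0x0) (nat_lit 0xe0003000180000000000000000000000000) := T_7 (nat_lit 138) (nat_lit 137) (nat_lit 0) (nat_lit 5) (nat_lit 9) L50967 (by decide +kernel)
theorem L50969 : W_7 (nat_lit 5) (nat_lit 0x8000000220017801300080000000000000000000000000000000) (nat_lit 0x0) (nat_lit 0x180000000e0003000180000000000000000000000000) := T_7 (nat_lit 172) (nat_lit 171) (nat_lit 1) (nat_lit 5) (nat_lit 9) L50968 (by decide +kernel)
theorem L50970 : W_7 (nat_lit 6) (nat_lit 0x220017801300080000000000000000000000000000000) (nat_lit 0x0) (nat_lit 0x80004000180000000e0003000180000000000000000000000000) := T_7 (nat_lit 207) (nat_lit 190) (nat_lit 6) (nat_lit 3) (nat_lit 12) L50969 (by decide +kernel)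
theorem L50971 : W_7 (nat_lit 7) (nat_lit 0x220017001300080000000000000000000000000000000) (nat_lit 0x0) (nat_lit 0x8000400018000c000e0003000180000000000000000000000000) := T_7 (nat_lit 155) (nat_lit 154) (nat_lit 2) (nat_lit 1) (nat_lit 9) L50970 (by decide +kernel)
theorem L50972 : W_7 (nat_lit 2) (nat_lit 0x230017801340082000400000000000000000000000000) (nat_lit 0x0) (nat_lit 0x80001000080000000000000000000000000) := D_7 (nat_lit 120) (nat_lit 103) (nat_lit 139) (nat_lit 4) (nat_lit 2) (nat_lit 10) (nat_lit 0) (nat_lit 5) (nat_lit 8) (by decide +kernel)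
theorem L50973 : W_7 (nat_lit 3) (nat_lit 0x230017801340080000400000000000000000000000000) (nat_lit 0x0) (nat_lit 0x80003000180000000000000000000000000) := T_7 (nat_lit 121) (nat_lit 104) (nat_lit 7) (nat_lit 2) (nat_lit 6) L50972 (by decide +kernel)
theorem L50974 : W_7 (nat_lit 4) (nat_lit 0x220017801340080000400000000000000000000000000) (nat_lit 0x0) (nat_lit 0x18000000080003000180000000000000000000000000) := T_7 (nat_lit 172) (nat_lit 171) (nat_lit 1) (nat_lit 5) (nat_lit 9) L50973 (by decide +kernel)
theorem L50975 : W_7 (nat_lit 5) (nat_lit 0x220017801300080000400000000000000000000000000) (nat_lit 0x0) (nat_lit 0x180000000e0003000180000000000000000000000000) := T_7 (nat_lit 138) (nat_lit 137) (nat_lit 0) (nat_lit 5) (nat_lit 9) L50974 (by decide +kernel)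
theorem L50976 : W_7 (nat_lit 6) (nat_lit 0x220017001300080000400000000000000000000000000) (nat_lit 0x0) (nat_lit 0x18000c000e0003000180000000000000000000000000) := T_7 (nat_lit 155) (nat_lit 154) (nat_lit 2) (nat_lit 1) (nat_lit 9) L50975 (by decide +kernel)
theorem L50977 : W_7 (nat_lit 7) (nat_lit 0x220017001300080000000000000000000000000000000) (nat_lit 0x0) (nat_lit 0x18000c000e000b000580000000000000000000000000) := T_7 (nat_lit 106) (nat_lit 123) (nat_lit 5) (nat_lit 4) (nat_lit 6) L50976 (by decide +kernel)
theorem L50978 : W_7 (nat_lit 8) (nat_lit 0x200017001300080000000000000000000000000000000) (nat_lit 0x0) (nat_lit 0x8000400078000c000e000b000580000000000000000000000000) := Q_7 (nat_lit 173) (C_7 L50965 (C_7 L50971 (C_7 L50977 N_7))) (by decide +kernel)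
theorem L50979 : W_7 (nat_lit 2) (nat_lit 0x220017001300088000000000000000000000000000000) (nat_lit 0x0) (nat_lit 0x8000400040000000000000000000000000000000000000000000) := D_7 (nat_lit 190) (nat_lit 174) (nat_lit 207) (nat_lit 5) (nat_lit 4) (nat_lit 7) (nat_lit 6) (nat_lit 3) (nat_lit 12) (by decide +kernel)
theorem L50980 : W_7 (nat_lit 2) (nat_lit 0x800000023001780134008a000000000000000000000000000000) (nat_lit 0x0) (nat_lit 0x5000080000000000000000000000000) := D_7 (nat_lit 120) (nat_lit 103) (nat_lit 122) (nat_lit 4) (nat_lit 2) (nat_lit 10) (nat_lit 3) (nat_lit 1) (nat_lit 7) (by decide +kernel)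
theorem L50981 : W_7 (nat_lit 3) (nat_lit 0x8000000230017801340088000000000000000000000000000000) (nat_lit 0x0) (nat_lit 0x7000180000000000000000000000000) := T_7 (nat_lit 121) (nat_lit 104) (nat_lit 7) (nat_lit 2) (nat_lit 6) L50980 (by decide +kernel)
theorem L50982 : W_7 (nat_lit 4) (nat_lit 0x8000000230017801300088000000000000000000000000000000) (nat_lit 0x0) (nat_lit 0x60007000180000000000000000000000000) := T_7 (nat_lit 138) (nat_lit 137) (nat_lit 0) (nat_lit 5) (nat_lit 9) L50981 (by decide +kernel)
theorem L50983 : W_7 (nat_lit 5) (nat_lit 0x8000000220017801300088000000000000000000000000000000) (nat_lit 0x0) (nat_lit 0x18000000060007000180000000000000000000000000) := T_7 (nat_lit 172) (nat_lit 171) (nat_lit 1) (nat_lit 5) (nat_lit 9) L50982 (by decide +kernel)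
theorem L50984 : W_7 (nat_lit 6) (nat_lit 0x220017801300088000000000000000000000000000000) (nat_lit 0x0) (nat_lit 0x8000400018000000060007000180000000000000000000000000) := T_7 (nat_lit 207) (nat_lit 190) (nat_lit 6) (nat_lit 3) (nat_lit 12) L50983 (by decide +kernel)
theorem L50985 : W_7 (nat_lit 7) (nat_lit 0x220017001300088000000000000000000000000000000) (nat_lit 0x0) (nat_lit 0x8000400018000c00060007000180000000000000000000000000) := T_7 (nat_lit 155) (nat_lit 154) (nat_lit 2) (nat_lit 1) (nat_lit 9) L50984 (by decide +kernel)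
theorem L50986 : W_7 (nat_lit 2) (nat_lit 0x23001780134008a000000000000000000000000000000) (nat_lit 0x0) (nat_lit 0x5000080000000000000000000000000) := D_7 (nat_lit 120) (nat_lit 103) (nat_lit 122) (nat_lit 4) (nat_lit 2) (nat_lit 10) (nat_lit 3) (nat_lit 1) (nat_lit 7) (by decide +kernel)
theorem L50987 : W_7 (nat_lit 3) (nat_lit 0x230017801340088000000000000000000000000000000) (nat_lit 0x0) (nat_lit 0x7000180000000000000000000000000) := T_7 (nat_lit 121) (nat_lit 104) (nat_lit 7) (nat_lit 2) (nat_lit 6) L50986 (by decide +kernel)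
theorem L50988 : W_7 (nat_lit 4) (nat_lit 0x220017801340088000000000000000000000000000000) (nat_lit 0x0) (nat_lit 0x18000000000007000180000000000000000000000000) := T_7 (nat_lit 172) (nat_lit 171) (nat_lit 1) (nat_lit 5) (nat_lit 9) L50987 (by decide +kernel)
theorem L50989 : W_7 (nat_lit 5) (nat_lit 0x220017801300088000000000000000000000000000000) (nat_lit 0x0) (nat_lit 0x18000000060007000180000000000000000000000000) := T_7 (nat_lit 138) (nat_lit 137) (nat_lit 0) (nat_lit 5) (nat_lit 9) L50988 (by decide +kernel)
theorem L50990 : W_7 (nat_lit 6) (nat_lit 0x220017001300088000000000000000000000000000000) (nat_lit 0x0) (nat_lit 0x18000c00060007000180000000000000000000000000) := T_7 (nat_lit 155) (nat_lit 154) (nat_lit 2) (nat_lit 1) (nat_lit 9) L50989 (by decide +kernel)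
theorem L50991 : W_7 (nat_lit 8) (nat_lit 0x200017001300088000000000000000000000000000000) (nat_lit 0x0) (nat_lit 0x8000400078000c00060007000180000000000000000000000000) := Q_7 (nat_lit 173) (C_7 L50979 (C_7 L50985 (C_7 L50990 N_7))) (by decide +kernel)
theorem L50992 : W_7 (nat_lit 9) (nat_lit 0x200017001300080000000000000000000000000000000) (nat_lit 0x0) (nat_lit 0x8000400078000c0006000f001f80070000000000000000000000) := Q_7 (nat_lit 123) (C_7 L50932 (C_7 L50938 (C_7 L50991 N_7))) (by decide +kernel)
theorem L50993 : W_7 (nat_lit 7) (nat_lit 0x200017001300088000000000000000000000000000000) (nat_lit 0x0) (nat_lit 0x18000e00078000000080007000300000000000000000000000000) := Q_7 (nat_lit 174) (C_7 L50930 (C_7 L50923 (C_7 L50925 N_7))) (by decide +kernel)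
theorem L50994 : W_7 (nat_lit 2) (nat_lit 0x20001700130008c000e00000000000000000000000000) (nat_lit 0x0) (nat_lit 0x3001000000000000000000000000000) := D_7 (nat_lit 121) (nat_lit 120) (nat_lit 108) (nat_lit 3) (nat_lit 1) (nat_lit 7) (nat_lit 1) (nat_lit 6) (nat_lit 6) (by decide +kernel)
theorem L50995 : W_7 (nat_lit 3) (nat_lit 0x20001700130008c000600000000000000000000000000) (nat_lit 0x0) (nat_lit 0x3001800040000000000000000000000) := T_7 (nat_lit 107) (nat_lit 90) (nat_lit 6) (nat_lit 4) (nat_lit 9) L50994 (by decide +kernel)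
theorem L50996 : W_7 (nat_lit 4) (nat_lit 0x200017001300088000600000000000000000000000000) (nat_lit 0x0) (nat_lit 0x40000000000007001800040000000000000000000000) := T_7 (nat_lit 122) (nat_lit 174) (nat_lit 4) (nat_lit 4) (nat_lit 10) L50995 (by decide +kernel)
theorem L50997 : W_7 (nat_lit 5) (nat_lit 0x200017001300088000400000000000000000000000000) (nat_lit 0x0) (nat_lit 0x40000000000007001a00050000000000000000000000) := T_7 (nat_lit 105) (nat_lit 88) (nat_lit 4) (nat_lit 4) (nat_lit 9) L50996 (by decide +kernel)
theorem L50998 : W_7 (nat_lit 6) (nat_lit 0x200017001300088000000000000000000000000000000) (nat_lit 0x0) (nat_lit 0x40000000000007001e00070000000000000000000000) := T_7 (nat_lit 106) (nat_lit 89) (nat_lit 7) (nat_lit 4) (nat_lit 5) L50997 (by decide +kernel)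
theorem L50999 : W_7 (nat_lit 8) (nat_lit 0x200017001300080000000000000000000000000000000) (nat_lit 0x0) (nat_lit 0x18000e0007800000008000f001f00070000000000000000000000) := Q_7 (nat_lit 123) (C_7 L50932 (C_7 L50993 (C_7 L50998 N_7))) (by decide +kernel)
theorem L51000 : W_7 (nat_lit 2) (nat_lit 0x8000200230017801340086000000000000000000000000000000) (nat_lit 0x0) (nat_lit 0x180004000000000000000000000000000000000000000000000000000) := D_7 (nat_lit 206) (nat_lit 223) (nat_lit 224) (nat_lit 6) (nat_lit 2) (nat_lit 13) (nat_lit 7) (nat_lit 2) (nat_lit 9) (by decide +kernel)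
theorem L51001 : W_7 (nat_lit 3) (nat_lit 0x8000000230017801340086000000000000000000000000000000) (nat_lit 0x0) (nat_lit 0x180004000200000000000080000000000000000000000000000000000) := T_7 (nat_lit 189) (nat_lit 139) (nat_lit 6) (nat_lit 2) (nat_lit 11) L51000 (by decide +kernel)
theorem L51002 : W_7 (nat_lit 4) (nat_lit 0x8000000230017801340082000000000000000000000000000000) (nat_lit 0x0) (nat_lit 0x180004000200000000000080004000200000000000000000000000000) := T_7 (nat_lit 122) (nat_lit 105) (nat_lit 6) (nat_lit 2) (nat_lit 10) L51001 (by decide +kernel)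
theorem L51003 : W_7 (nat_lit 5) (nat_lit 0x8000000230017801340080000000000000000000000000000000) (nat_lit 0x0) (nat_lit 0x180004000200000000000080006000300000000000000000000000000) := T_7 (nat_lit 121) (nat_lit 104) (nat_lit 7) (nat_lit 2) (nat_lit 6) L51002 (by decide +kernel)
theorem L51004 : W_7 (nat_lit 6) (nat_lit 0x8000000230017801300080000000000000000000000000000000) (nat_lit 0x0) (nat_lit 0x1800040002000000000000e0006000300000000000000000000000000) := T_7 (nat_lit 138) (nat_lit 137) (nat_lit 0) (nat_lit 5) (nat_lit 9) L51003 (by decide +kernel)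
theorem L51005 : W_7 (nat_lit 7) (nat_lit 0x8000000220017801300080000000000000000000000000000000) (nat_lit 0x0) (nat_lit 0x1800040002000180000000e0006000300000000000000000000000000) := T_7 (nat_lit 172) (nat_lit 171) (nat_lit 1) (nat_lit 5) (nat_lit 9) L51004 (by decide +kernel)
theorem L51006 : W_7 (nat_lit 8) (nat_lit 0x220017801300080000000000000000000000000000000) (nat_lit 0x0) (nat_lit 0x18000c0006000180000000e0006000300000000000000000000000000) := T_7 (nat_lit 207) (nat_lit 190) (nat_lit 6) (nat_lit 3) (nat_lit 12) L51005 (by decide +kernel)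
theorem L51007 : W_7 (nat_lit 9) (nat_lit 0x220017001300080000000000000000000000000000000) (nat_lit 0x0) (nat_lit 0x18000c000600018000c000e0006000300000000000000000000000000) := T_7 (nat_lit 155) (nat_lit 154) (nat_lit 2) (nat_lit 1) (nat_lit 9) L51006 (by decide +kernel)
theorem L51008 : W_7 (nat_lit 2) (nat_lit 0x4000200230017801340086000400000000000000000000000000) (nat_lit 0x0) (nat_lit 0x40002000100000000000000000000000000000000000000000000000) := D_7 (nat_lit 205) (nat_lit 188) (nat_lit 222) (nat_lit 5) (nat_lit 2) (nat_lit 8) (nat_lit 5) (nat_lit 2) (nat_lit 9) (by decide +kernel)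
theorem L51009 : W_7 (nat_lit 3) (nat_lit 0x200230017801340086000400000000000000000000000000) (nat_lit 0x0) (nat_lit 0xc0006000100000000000000000000000000000000000000000000000) := T_7 (nat_lit 206) (nat_lit 223) (nat_lit 6) (nat_lit 2) (nat_lit 13) L51008 (by decide +kernel)
theorem L51010 : W_7 (nat_lit 4) (nat_lit 0x230017801340086000400000000000000000000000000) (nat_lit 0x0) (nat_lit 0xc0006000300000000000080000000000000000000000000000000000) := T_7 (nat_lit 189) (nat_lit 139) (nat_lit 6) (nat_lit 2) (nat_lit 11) L51009 (by decide +kernel)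
theorem L51011 : W_7 (nat_lit 5) (nat_lit 0x230017801340082000400000000000000000000000000) (nat_lit 0x0) (nat_lit 0xc0006000300000000000080004000200000000000000000000000000) := T_7 (nat_lit 122) (nat_lit 105) (nat_lit 6) (nat_lit 2) (nat_lit 10) L51010 (by decide +kernel)
theorem L51012 : W_7 (nat_lit 6) (nat_lit 0x230017801340080000400000000000000000000000000) (nat_lit 0x0) (nat_lit 0xc0006000300000000000080006000300000000000000000000000000) := T_7 (nat_lit 121) (nat_lit 104) (nat_lit 7) (nat_lit 2) (nat_lit 6) L51011 (by decide +kernel)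
theorem L51013 : W_7 (nat_lit 7) (nat_lit 0x220017801340080000400000000000000000000000000) (nat_lit 0x0) (nat_lit 0xc0006000300018000000080006000300000000000000000000000000) := T_7 (nat_lit 172) (nat_lit 171) (nat_lit 1) (nat_lit 5) (nat_lit 9) L51012 (by decide +kernel)
theorem L51014 : W_7 (nat_lit 8) (nat_lit 0x220017801300080000400000000000000000000000000) (nat_lit 0x0) (nat_lit 0xc00060003000180000000e0006000300000000000000000000000000) := T_7 (nat_lit 138) (nat_lit 137) (nat_lit 0) (nat_lit 5) (nat_lit 9) L51013 (by decide +kernel)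
theorem L51015 : W_7 (nat_lit 9) (nat_lit 0x220017001300080000400000000000000000000000000) (nat_lit 0x0) (nat_lit 0xc0006000300018000c000e0006000300000000000000000000000000) := T_7 (nat_lit 155) (nat_lit 154) (nat_lit 2) (nat_lit 1) (nat_lit 9) L51014 (by decide +kernel)
theorem L51016 : W_7 (nat_lit 10) (nat_lit 0x220017001300080000000000000000000000000000000) (nat_lit 0x0) (nat_lit 0xc0006000300018000c000e000e000700000000000000000000000000) := T_7 (nat_lit 106) (nat_lit 123) (nat_lit 5) (nat_lit 4) (nat_lit 6) L51015 (by decide +kernel)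
theorem L51017 : W_7 (nat_lit 11) (nat_lit 0x200017001300080000000000000000000000000000000) (nat_lit 0x0) (nat_lit 0x1c000e000700078000c000e000e000700000000000000000000000000) := Q_7 (nat_lit 173) (C_7 L50965 (C_7 L51007 (C_7 L51016 N_7))) (by decide +kernel)
theorem L51018 : W_7 (nat_lit 2) (nat_lit 0x2100178013c0082000000000000000000000000000000) (nat_lit 0x0) (nat_lit 0x20000000000000000100008000000000000000000000) := D_7 (nat_lit 104) (nat_lit 87) (nat_lit 173) (nat_lit 7) (nat_lit 2) (nat_lit 5) (nat_lit 7) (nat_lit 2) (nat_lit 6) (by decide +kernel)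
theorem L51019 : W_7 (nat_lit 3) (nat_lit 0x2100178013c0080000000000000000000000000000000) (nat_lit 0x0) (nat_lit 0x20000000000003000100008000000000000000000000) := T_7 (nat_lit 121) (nat_lit 120) (nat_lit 0) (nat_lit 5) (nat_lit 8) L51018 (by decide +kernel)
theorem L51020 : W_7 (nat_lit 4) (nat_lit 0x2000178013c0080000000000000000000000000000000) (nat_lit 0x0) (nat_lit 0x38000000000003000100008000000000000000000000) := T_7 (nat_lit 172) (nat_lit 171) (nat_lit 1) (nat_lit 5) (nat_lit 9) L51019 (by decide +kernel)
theorem L51021 : W_7 (nat_lit 5) (nat_lit 0x200017801380080000000000000000000000000000000) (nat_lit 0x0) (nat_lit 0x38000000060003000100008000000000000000000000) := T_7 (nat_lit 138) (nat_lit 137) (nat_lit 3) (nat_lit 1) (nat_lit 8) L51020 (by decide +kernel)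
theorem L51022 : W_7 (nat_lit 6) (nat_lit 0x200017001380080000000000000000000000000000000) (nat_lit 0x0) (nat_lit 0x38000c00060003000100008000000000000000000000) := T_7 (nat_lit 155) (nat_lit 154) (nat_lit 2) (nat_lit 1) (nat_lit 9) L51021 (by decide +kernel)
theorem L51023 : W_7 (nat_lit 2) (nat_lit 0x2000170013c0086000100000000000000000000000000) (nat_lit 0x0) (nat_lit 0x800040000000000000000200000000000000000000000000) := D_7 (nat_lit 174) (nat_lit 191) (nat_lit 105) (nat_lit 4) (nat_lit 4) (nat_lit 11) (nat_lit 7) (nat_lit 3) (nat_lit 6) (by decide +kernel)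
theorem L51024 : W_7 (nat_lit 3) (nat_lit 0x2000170013c0082000100000000000000000000000000) (nat_lit 0x0) (nat_lit 0x800060000000000004000200000000000000000000000000) := T_7 (nat_lit 122) (nat_lit 173) (nat_lit 4) (nat_lit 3) (nat_lit 10) L51023 (by decide +kernel)
theorem L51025 : W_7 (nat_lit 4) (nat_lit 0x2000170013c0082000000000000000000000000000000) (nat_lit 0x0) (nat_lit 0x800060000000000004000300008000000000000000000000) := T_7 (nat_lit 104) (nat_lit 87) (nat_lit 7) (nat_lit 2) (nat_lit 5) L51024 (by decide +kernel)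
theorem L51026 : W_7 (nat_lit 5) (nat_lit 0x2000170013c0080000000000000000000000000000000) (nat_lit 0x0) (nat_lit 0x800060000000000007000300008000000000000000000000) := T_7 (nat_lit 121) (nat_lit 120) (nat_lit 0) (nat_lit 5) (nat_lit 8) L51025 (by decide +kernel)
theorem L51027 : W_7 (nat_lit 6) (nat_lit 0x200017001380080000000000000000000000000000000) (nat_lit 0x0) (nat_lit 0x800060000000060007000300008000000000000000000000) := T_7 (nat_lit 138) (nat_lit 137) (nat_lit 3) (nat_lit 1) (nat_lit 8) L51026 (by decide +kernel)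
theorem L51028 : W_7 (nat_lit 7) (nat_lit 0x200017001300080000000000000000000000000000000) (nat_lit 0x0) (nat_lit 0x4000a00078000c000e0007000300008000000000000000000000) := Q_7 (nat_lit 139) (C_7 L51022 (C_7 L51027 (C_7 L37445 (C_7 L50701 N_7)))) (by decide +kernel)
theorem L51029 : W_7 (nat_lit 2) (nat_lit 0x200020027001780134008c000000000000000000000000000000) (nat_lit 0x0) (nat_lit 0xc0004000000000000000000000000000000000000000000000000000) := D_7 (nat_lit 206) (nat_lit 223) (nat_lit 222) (nat_lit 6) (nat_lit 2) (nat_lit 13) (nat_lit 5) (nat_lit 2) (nat_lit 9) (by decide +kernel)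
theorem L51030 : W_7 (nat_lit 3) (nat_lit 0x20027001780134008c000000000000000000000000000000) (nat_lit 0x0) (nat_lit 0xc0006000100000000000000000000000000000000000000000000000) := T_7 (nat_lit 205) (nat_lit 188) (nat_lit 5) (nat_lit 2) (nat_lit 8) L51029 (by decide +kernel)
theorem L51031 : W_7 (nat_lit 4) (nat_lit 0x27001780134008c000000000000000000000000000000) (nat_lit 0x0) (nat_lit 0xc0006000300000000000080000000000000000000000000000000000) := T_7 (nat_lit 189) (nat_lit 139) (nat_lit 6) (nat_lit 2) (nat_lit 11) L51030 (by decide +kernel)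
theorem L51032 : W_7 (nat_lit 5) (nat_lit 0x25001780134008c000000000000000000000000000000) (nat_lit 0x0) (nat_lit 0xc0006000700020000000080000000000000000000000000000000000) := T_7 (nat_lit 173) (nat_lit 190) (nat_lit 5) (nat_lit 4) (nat_lit 7) L51031 (by decide +kernel)
theorem L51033 : W_7 (nat_lit 6) (nat_lit 0x25001780130008c000000000000000000000000000000) (nat_lit 0x0) (nat_lit 0xc00060007000200000000e0000000000000000000000000000000000) := T_7 (nat_lit 138) (nat_lit 137) (nat_lit 0) (nat_lit 5) (nat_lit 9) L51032 (by decide +kernel)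
theorem L51034 : W_7 (nat_lit 7) (nat_lit 0x24001780130008c000000000000000000000000000000) (nat_lit 0x0) (nat_lit 0xc00060007000380000000e0000000000000000000000000000000000) := T_7 (nat_lit 172) (nat_lit 171) (nat_lit 1) (nat_lit 5) (nat_lit 9) L51033 (by decide +kernel)
theorem L51035 : W_7 (nat_lit 8) (nat_lit 0x240017801300088000000000000000000000000000000) (nat_lit 0x0) (nat_lit 0xc00060007000380000000e0004000200000000000000000000000000) := T_7 (nat_lit 122) (nat_lit 105) (nat_lit 4) (nat_lit 4) (nat_lit 10) L51034 (by decide +kernel)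
theorem L51036 : W_7 (nat_lit 9) (nat_lit 0x240017001300088000000000000000000000000000000) (nat_lit 0x0) (nat_lit 0xc0006000700038000c000e0004000200000000000000000000000000) := T_7 (nat_lit 155) (nat_lit 154) (nat_lit 2) (nat_lit 1) (nat_lit 9) L51035 (by decide +kernel)
theorem L51037 : W_7 (nat_lit 10) (nat_lit 0x200017001300088000000000000000000000000000000) (nat_lit 0x0) (nat_lit 0xc001e000f00078000c000e0004000200000000000000000000000000) := Q_7 (nat_lit 174) (C_7 L50925 (C_7 L50923 (C_7 L51036 N_7))) (by decide +kernel)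
theorem L51038 : W_7 (nat_lit 2) (nat_lit 0x210017801300088000e00000000000000000000000000) (nat_lit 0x0) (nat_lit 0x40000000080004000000000000000000000000000000) := D_7 (nat_lit 122) (nat_lit 174) (nat_lit 139) (nat_lit 4) (nat_lit 4) (nat_lit 10) (nat_lit 5) (nat_lit 3) (nat_lit 6) (by decide +kernel)
theorem L51039 : W_7 (nat_lit 3) (nat_lit 0x210017801300088000c00000000000000000000000000) (nat_lit 0x0) (nat_lit 0x40000000080004000200010000000000000000000000) := T_7 (nat_lit 105) (nat_lit 88) (nat_lit 4) (nat_lit 4) (nat_lit 9) L51038 (by decide +kernel)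
theorem L51040 : W_7 (nat_lit 4) (nat_lit 0x210017801300088000400000000000000000000000000) (nat_lit 0x0) (nat_lit 0x40000000080004000a00050000000000000000000000) := T_7 (nat_lit 107) (nat_lit 90) (nat_lit 6) (nat_lit 4) (nat_lit 9) L51039 (by decide +kernel)
theorem L51041 : W_7 (nat_lit 5) (nat_lit 0x200017801300088000400000000000000000000000000) (nat_lit 0x0) (nat_lit 0x58000000080004000a00050000000000000000000000) := T_7 (nat_lit 172) (nat_lit 171) (nat_lit 1) (nat_lit 5) (nat_lit 9) L51040 (by decide +kernel)
theorem L51042 : W_7 (nat_lit 6) (nat_lit 0x200017801300088000000000000000000000000000000) (nat_lit 0x0) (nat_lit 0x58000000080004000e00070000000000000000000000) := T_7 (nat_lit 106) (nat_lit 89) (nat_lit 7) (nat_lit 4) (nat_lit 5) L51041 (by decide +kernel)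
theorem L51043 : W_7 (nat_lit 7) (nat_lit 0x200017001300088000000000000000000000000000000) (nat_lit 0x0) (nat_lit 0x58000c00080004000e00070000000000000000000000) := T_7 (nat_lit 155) (nat_lit 154) (nat_lit 2) (nat_lit 1) (nat_lit 9) L51042 (by decide +kernel)
theorem L51044 : W_7 (nat_lit 11) (nat_lit 0x200017001300080000000000000000000000000000000) (nat_lit 0x0) (nat_lit 0xc001e000f00078000c000e000c000e00070000000000000000000000) := Q_7 (nat_lit 123) (C_7 L50932 (C_7 L51037 (C_7 L51043 N_7))) (by decide +kernel)
theorem L51045 : W_7 (nat_lit 2) (nat_lit 0x24001780134008e000000000000000000000000000000) (nat_lit 0x0) (nat_lit 0x400020000000000000000100000000000000000000000000) := D_7 (nat_lit 173) (nat_lit 190) (nat_lit 104) (nat_lit 5) (nat_lit 4) (nat_lit 7) (nat_lit 7) (nat_lit 2) (nat_lit 6) (by decide +kernel)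
theorem L51046 : W_7 (nat_lit 3) (nat_lit 0x24001780130008e000000000000000000000000000000) (nat_lit 0x0) (nat_lit 0x400020000000060000000100000000000000000000000000) := T_7 (nat_lit 138) (nat_lit 137) (nat_lit 0) (nat_lit 5) (nat_lit 9) L51045 (by decide +kernel)
theorem L51047 : W_7 (nat_lit 4) (nat_lit 0x24001780130008c000000000000000000000000000000) (nat_lit 0x0) (nat_lit 0x400020000000060003000100000000000000000000000000) := T_7 (nat_lit 121) (nat_lit 120) (nat_lit 3) (nat_lit 1) (nat_lit 7) L51046 (by decide +kernel)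
theorem L51048 : W_7 (nat_lit 5) (nat_lit 0x240017801300088000000000000000000000000000000) (nat_lit 0x0) (nat_lit 0x400020000000060007000300000000000000000000000000) := T_7 (nat_lit 122) (nat_lit 105) (nat_lit 4) (nat_lit 4) (nat_lit 10) L51047 (by decide +kernel)
theorem L51049 : W_7 (nat_lit 6) (nat_lit 0x240017001300088000000000000000000000000000000) (nat_lit 0x0) (nat_lit 0x400020000c00060007000300000000000000000000000000) := T_7 (nat_lit 155) (nat_lit 154) (nat_lit 2) (nat_lit 1) (nat_lit 9) L51048 (by decide +kernel)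
theorem L51050 : W_7 (nat_lit 7) (nat_lit 0x200017001300088000000000000000000000000000000) (nat_lit 0x0) (nat_lit 0x18000c00060000c000e0007000300000000000000000000000000) := Q_7 (nat_lit 174) (C_7 L50925 (C_7 L50923 (C_7 L51049 N_7))) (by decide +kernel)
theorem L51051 : W_7 (nat_lit 8) (nat_lit 0x200017001300080000000000000000000000000000000) (nat_lit 0x0) (nat_lit 0x18000c00060000c000e000f001f00070000000000000000000000) := Q_7 (nat_lit 123) (C_7 L50932 (C_7 L50998 (C_7 L51050 N_7))) (by decide +kernel)
theorem L51052 : W_7 (nat_lit 12) (nat_lit 0x200016001300080000000000000000000000000000000) (nat_lit 0x0) (nat_lit 0x1c001e000f00078001c000e000f001f80078000800000000000000000) := Q_7 (nat_lit 156) (C_7 L50939 (C_7 L50963 (C_7 L50978 (C_7 L50702 (C_7 L50992 (C_7 L50999 (C_7 L51017 (C_7 L51028 (C_7 L51044 (C_7 L51051 N_7)))))))))) (by decide +kernel)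
theorem L51053 : W_7 (nat_lit 13) (nat_lit 0x200012001300080000000000000000000000000000000) (nat_lit 0x0) (nat_lit 0x1c001e000f0017802dc008e000f001f80078000800000000000000000) := Q_7 (nat_lit 158) (C_7 L40519 (C_7 L41950 (C_7 L51052 N_7))) (by decide +kernel)
theorem L51054 : W_7 (nat_lit 2) (nat_lit 0x8002c0016001300080000000000000000000000000000000) (nat_lit 0x0) (nat_lit 0x400100020000000000000000000000000000000000000000) := D_7 (nat_lit 176) (nat_lit 161) (nat_lit 190) (nat_lit 2) (nat_lit 4) (nat_lit 10) (nat_lit 1) (nat_lit 7) (nat_lit 10) (by decide +kernel)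
theorem L51055 : W_7 (nat_lit 3) (nat_lit 0x2c0016001300080000000000000000000000000000000) (nat_lit 0x0) (nat_lit 0x10000c00100020000000000000000000000000000000000000000) := T_7 (nat_lit 191) (nat_lit 208) (nat_lit 6) (nat_lit 4) (nat_lit 12) L51054 (by decide +kernel)
theorem L51056 : W_7 (nat_lit 2) (nat_lit 0xd002e00160013c0080000000000000000000000000000000) (nat_lit 0x0) (nat_lit 0x1000000003000000000000000000000000000000) := D_7 (nat_lit 121) (nat_lit 120) (nat_lit 156) (nat_lit 0) (nat_lit 5) (nat_lit 8) (nat_lit 4) (nat_lit 3) (nat_lit 11) (by decide +kernel)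
theorem L51057 : W_7 (nat_lit 3) (nat_lit 0xd002c00160013c0080000000000000000000000000000000) (nat_lit 0x0) (nat_lit 0x2000100000000b000000000000000000000000000000) := T_7 (nat_lit 173) (nat_lit 123) (nat_lit 5) (nat_lit 4) (nat_lit 7) L51056 (by decide +kernel)
theorem L51058 : W_7 (nat_lit 4) (nat_lit 0xc002c00160013c0080000000000000000000000000000000) (nat_lit 0x0) (nat_lit 0x30002000100000000b000000000000000000000000000000) := T_7 (nat_lit 188) (nat_lit 189) (nat_lit 2) (nat_lit 1) (nat_lit 11) L51057 (by decide +kernel)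
theorem L51059 : W_7 (nat_lit 5) (nat_lit 0x8002c00160013c0080000000000000000000000000000000) (nat_lit 0x0) (nat_lit 0x800070002000100000000b000000000000000000000000000000) := T_7 (nat_lit 190) (nat_lit 207) (nat_lit 5) (nat_lit 4) (nat_lit 8) L51058 (by decide +kernel)
theorem L51060 : W_7 (nat_lit 6) (nat_lit 0x8002c0016001380080000000000000000000000000000000) (nat_lit 0x0) (nat_lit 0x800070002000100006000b000000000000000000000000000000) := T_7 (nat_lit 138) (nat_lit 137) (nat_lit 3) (nat_lit 1) (nat_lit 8) L51059 (by decide +kernel)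
theorem L51061 : W_7 (nat_lit 7) (nat_lit 0x8002c0016001300080000000000000000000000000000000) (nat_lit 0x0) (nat_lit 0x80007000200010000e000f000000000000000000000000000000) := T_7 (nat_lit 139) (nat_lit 122) (nat_lit 4) (nat_lit 4) (nat_lit 11) L51060 (by decide +kernel)
theorem L51062 : W_7 (nat_lit 8) (nat_lit 0x2c0016001300080000000000000000000000000000000) (nat_lit 0x0) (nat_lit 0x18000f000200010000e000f000000000000000000000000000000) := T_7 (nat_lit 191) (nat_lit 208) (nat_lit 6) (nat_lit 4) (nat_lit 12) L51061 (by decide +kernel)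
theorem L51063 : W_7 (nat_lit 9) (nat_lit 0x280016001300080000000000000000000000000000000) (nat_lit 0x0) (nat_lit 0x18000f001600210000e000f000000000000000000000000000000) := Q_7 (nat_lit 174) (C_7 L50869 (C_7 L51055 (C_7 L51062 N_7))) (by decide +kernel)
theorem L51064 : W_7 (nat_lit 10) (nat_lit 0x200016001300080000000000000000000000000000000) (nat_lit 0x0) (nat_lit 0x7c003f001e00210000e000f000000000000000000000000000000) := Q_7 (nat_lit 175) (C_7 L50868 (C_7 L50863 (C_7 L51063 N_7))) (by decide +kernel)
theorem L51065 : W_7 (nat_lit 11) (nat_lit 0x200012001300080000000000000000000000000000000) (nat_lit 0x0) (nat_lit 0x7c003f001f002d0008e000f000000000000000000000000000000) := Q_7 (nat_lit 158) (C_7 L40519 (C_7 L41950 (C_7 L51064 N_7))) (by decide +kernel)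
theorem L51066 : W_7 (nat_lit 2) (nat_lit 0x8002c0016001300088000000000000000000000000000000) (nat_lit 0x0) (nat_lit 0x80004000200000000000000000000000000) := D_7 (nat_lit 122) (nat_lit 105) (nat_lit 139) (nat_lit 4) (nat_lit 4) (nat_lit 10) (nat_lit 4) (nat_lit 4) (nat_lit 11) (by decide +kernel)
theorem L51067 : W_7 (nat_lit 3) (nat_lit 0x2c0016001300088000000000000000000000000000000) (nat_lit 0x0) (nat_lit 0x10000800000000000080004000200000000000000000000000000) := T_7 (nat_lit 191) (nat_lit 208) (nat_lit 6) (nat_lit 4) (nat_lit 12) L51066 (by decide +kernel)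
theorem L51068 : W_7 (nat_lit 4) (nat_lit 0x2c0016001300080000000000000000000000000000000) (nat_lit 0x0) (nat_lit 0x1000080000000000008000c000600000000000000000000000000) := T_7 (nat_lit 123) (nat_lit 106) (nat_lit 7) (nat_lit 4) (nat_lit 6) L51067 (by decide +kernel)
theorem L51069 : W_7 (nat_lit 5) (nat_lit 0x280016001300080000000000000000000000000000000) (nat_lit 0x0) (nat_lit 0x10000c0014002100008000c000600000000000000000000000000) := Q_7 (nat_lit 174) (C_7 L51055 (C_7 L51068 (C_7 L50869 N_7))) (by decide +kernel)
theorem L51070 : W_7 (nat_lit 7) (nat_lit 0x200016001300080000000000000000000000000000000) (nat_lit 0x0) (nat_lit 0x7c003c001c002100008000c000600000000000000000000000000) := Q_7 (nat_lit 175) (C_7 L50868 (C_7 L50863 (C_7 L51069 N_7))) (by decide +kernel)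
theorem L51071 : W_7 (nat_lit 8) (nat_lit 0x200012001300080000000000000000000000000000000) (nat_lit 0x0) (nat_lit 0x7c003c001c002d00088000c000600000000000000000000000000) := Q_7 (nat_lit 158) (C_7 L40505 (C_7 L41950 (C_7 L42014 (C_7 L51070 N_7)))) (by decide +kernel)
theorem L51072 : W_7 (nat_lit 2) (nat_lit 0x240016001300088000600000000000000000000000000) (nat_lit 0x0) (nat_lit 0x400020001000000000000000000000000000000000000000) := D_7 (nat_lit 173) (nat_lit 190) (nat_lit 156) (nat_lit 5) (nat_lit 4) (nat_lit 7) (nat_lit 5) (nat_lit 4) (nat_lit 6) (by decide +kernel)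
theorem L51073 : W_7 (nat_lit 3) (nat_lit 0x200016001300088000600000000000000000000000000) (nat_lit 0x0) (nat_lit 0x400060001000000004000000000000000000000000000000) := T_7 (nat_lit 174) (nat_lit 122) (nat_lit 4) (nat_lit 4) (nat_lit 10) L51072 (by decide +kernel)
theorem L51074 : W_7 (nat_lit 4) (nat_lit 0x200016001300088000400000000000000000000000000) (nat_lit 0x0) (nat_lit 0x400060001000000004000200010000000000000000000000) := T_7 (nat_lit 105) (nat_lit 88) (nat_lit 4) (nat_lit 4) (nat_lit 9) L51073 (by decide +kernel)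
theorem L51075 : W_7 (nat_lit 5) (nat_lit 0x200016001300088000000000000000000000000000000) (nat_lit 0x0) (nat_lit 0x400060001000000004000600030000000000000000000000) := T_7 (nat_lit 106) (nat_lit 89) (nat_lit 7) (nat_lit 4) (nat_lit 5) L51074 (by decide +kernel)
theorem L51076 : W_7 (nat_lit 2) (nat_lit 0x2c0016001300088000000000000000000000000000000) (nat_lit 0x0) (nat_lit 0x100021000000000000000000000000000000000000000) := D_7 (nat_lit 176) (nat_lit 156) (nat_lit 161) (nat_lit 0) (nat_lit 7) (nat_lit 10) (nat_lit 2) (nat_lit 4) (nat_lit 10) (by decide +kernel)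
theorem L51077 : W_7 (nat_lit 3) (nat_lit 0x240016001300088000000000000000000000000000000) (nat_lit 0x0) (nat_lit 0x1000180021000000000000000000000000000000000000000) := T_7 (nat_lit 175) (nat_lit 192) (nat_lit 7) (nat_lit 4) (nat_lit 7) L51076 (by decide +kernel)
theorem L51078 : W_7 (nat_lit 2) (nat_lit 0x27001780134008a000000000000000000000000000000) (nat_lit 0x0) (nat_lit 0x80001000080000000000000000000000000) := D_7 (nat_lit 120) (nat_lit 103) (nat_lit 139) (nat_lit 4) (nat_lit 2) (nat_lit 10) (nat_lit 0) (nat_lit 5) (nat_lit 8) (by decide +kernel)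
theorem L51079 : W_7 (nat_lit 3) (nat_lit 0x270017801340088000000000000000000000000000000) (nat_lit 0x0) (nat_lit 0x80003000180000000000000000000000000) := T_7 (nat_lit 121) (nat_lit 104) (nat_lit 7) (nat_lit 2) (nat_lit 6) L51078 (by decide +kernel)
theorem L51080 : W_7 (nat_lit 4) (nat_lit 0x270017801300088000000000000000000000000000000) (nat_lit 0x0) (nat_lit 0xe0003000180000000000000000000000000) := T_7 (nat_lit 138) (nat_lit 137) (nat_lit 0) (nat_lit 5) (nat_lit 9) L51079 (by decide +kernel)
theorem L51081 : W_7 (nat_lit 5) (nat_lit 0x270017001300088000000000000000000000000000000) (nat_lit 0x0) (nat_lit 0xc000e0003000180000000000000000000000000) := T_7 (nat_lit 155) (nat_lit 154) (nat_lit 2) (nat_lit 1) (nat_lit 9) L51080 (by decide +kernel)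
theorem L51082 : W_7 (nat_lit 6) (nat_lit 0x260017001300088000000000000000000000000000000) (nat_lit 0x0) (nat_lit 0x18000c000e0003000180000000000000000000000000) := T_7 (nat_lit 172) (nat_lit 171) (nat_lit 2) (nat_lit 1) (nat_lit 10) L51081 (by decide +kernel)
theorem L51083 : W_7 (nat_lit 7) (nat_lit 0x240017001300088000000000000000000000000000000) (nat_lit 0x0) (nat_lit 0x400038000c000e0003000180000000000000000000000000) := T_7 (nat_lit 173) (nat_lit 190) (nat_lit 5) (nat_lit 4) (nat_lit 7) L51082 (by decide +kernel)
theorem L51084 : W_7 (nat_lit 2) (nat_lit 0xa00020025001780134008d000000000000000000000000000000) (nat_lit 0x0) (nat_lit 0x140004000000000000000000000000000000000000000000000000000) := D_7 (nat_lit 206) (nat_lit 224) (nat_lit 222) (nat_lit 7) (nat_lit 2) (nat_lit 9) (nat_lit 5) (nat_lit 2) (nat_lit 9) (by decide +kernel)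
theorem L51085 : W_7 (nat_lit 3) (nat_lit 0x800020025001780134008d000000000000000000000000000000) (nat_lit 0x0) (nat_lit 0x140006000100000000000000000000000000000000000000000000000) := T_7 (nat_lit 205) (nat_lit 188) (nat_lit 5) (nat_lit 2) (nat_lit 8) L51084 (by decide +kernel)
theorem L51086 : W_7 (nat_lit 4) (nat_lit 0x20025001780134008d000000000000000000000000000000) (nat_lit 0x0) (nat_lit 0x14000e000500000000000000000000000000000000000000000000000) := T_7 (nat_lit 207) (nat_lit 190) (nat_lit 7) (nat_lit 2) (nat_lit 8) L51085 (by decide +kernel)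
theorem L51087 : W_7 (nat_lit 5) (nat_lit 0x25001780134008d000000000000000000000000000000) (nat_lit 0x0) (nat_lit 0x14000e000700000000000080000000000000000000000000000000000) := T_7 (nat_lit 189) (nat_lit 139) (nat_lit 6) (nat_lit 2) (nat_lit 11) L51086 (by decide +kernel)
theorem L51088 : W_7 (nat_lit 6) (nat_lit 0x25001780130008d000000000000000000000000000000) (nat_lit 0x0) (nat_lit 0x14000e0007000000000000e0000000000000000000000000000000000) := T_7 (nat_lit 138) (nat_lit 137) (nat_lit 0) (nat_lit 5) (nat_lit 9) L51087 (by decide +kernel)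
theorem L51089 : W_7 (nat_lit 7) (nat_lit 0x24001780130008d000000000000000000000000000000) (nat_lit 0x0) (nat_lit 0x14000e0007000180000000e0000000000000000000000000000000000) := T_7 (nat_lit 172) (nat_lit 171) (nat_lit 1) (nat_lit 5) (nat_lit 9) L51088 (by decide +kernel)
theorem L51090 : W_7 (nat_lit 8) (nat_lit 0x24001780130008c000000000000000000000000000000) (nat_lit 0x0) (nat_lit 0x14000e0007000180000000e0003000000000000000000000000000000) := T_7 (nat_lit 120) (nat_lit 121) (nat_lit 3) (nat_lit 1) (nat_lit 7) L51089 (by decide +kernel)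
theorem L51091 : W_7 (nat_lit 9) (nat_lit 0x240017801300088000000000000000000000000000000) (nat_lit 0x0) (nat_lit 0x14000e0007000180000000e0007000200000000000000000000000000) := T_7 (nat_lit 122) (nat_lit 105) (nat_lit 4) (nat_lit 4) (nat_lit 10) L51090 (by decide +kernel)
theorem L51092 : W_7 (nat_lit 10) (nat_lit 0x240017001300088000000000000000000000000000000) (nat_lit 0x0) (nat_lit 0x14000e000700018000c000e0007000200000000000000000000000000) := T_7 (nat_lit 155) (nat_lit 154) (nat_lit 2) (nat_lit 1) (nat_lit 9) L51091 (by decide +kernel)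
theorem L51093 : W_7 (nat_lit 2) (nat_lit 0x25001780134008e000100000000000000000000000000) (nat_lit 0x0) (nat_lit 0x200000000000080000000000008000000000000000000000) := D_7 (nat_lit 139) (nat_lit 189) (nat_lit 87) (nat_lit 6) (nat_lit 2) (nat_lit 11) (nat_lit 7) (nat_lit 2) (nat_lit 5) (by decide +kernel)
theorem L51094 : W_7 (nat_lit 3) (nat_lit 0x25001780134008e000000000000000000000000000000) (nat_lit 0x0) (nat_lit 0x200020000000080000000100008000000000000000000000) := T_7 (nat_lit 104) (nat_lit 173) (nat_lit 7) (nat_lit 2) (nat_lit 6) L51093 (by decide +kernel)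
theorem L51095 : W_7 (nat_lit 4) (nat_lit 0x24001780134008e000000000000000000000000000000) (nat_lit 0x0) (nat_lit 0x200038000000080000000100008000000000000000000000) := T_7 (nat_lit 172) (nat_lit 171) (nat_lit 1) (nat_lit 5) (nat_lit 9) L51094 (by decide +kernel)
theorem L51096 : W_7 (nat_lit 5) (nat_lit 0x24001780130008e000000000000000000000000000000) (nat_lit 0x0) (nat_lit 0x2000380000000e0000000100008000000000000000000000) := T_7 (nat_lit 138) (nat_lit 137) (nat_lit 0) (nat_lit 5) (nat_lit 9) L51095 (by decide +kernel)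
theorem L51097 : W_7 (nat_lit 6) (nat_lit 0x24001700130008e000000000000000000000000000000) (nat_lit 0x0) (nat_lit 0x200038000c000e0000000100008000000000000000000000) := T_7 (nat_lit 155) (nat_lit 154) (nat_lit 2) (nat_lit 1) (nat_lit 9) L51096 (by decide +kernel)
theorem L51098 : W_7 (nat_lit 7) (nat_lit 0x24001700130008c000000000000000000000000000000) (nat_lit 0x0) (nat_lit 0x200038000c000e0003000100008000000000000000000000) := T_7 (nat_lit 121) (nat_lit 120) (nat_lit 3) (nat_lit 1) (nat_lit 7) L51097 (by decide +kernel)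
theorem L51099 : W_7 (nat_lit 8) (nat_lit 0x240017001300088000000000000000000000000000000) (nat_lit 0x0) (nat_lit 0x200038000c000e0007000300008000000000000000000000) := T_7 (nat_lit 122) (nat_lit 105) (nat_lit 4) (nat_lit 4) (nat_lit 10) L51098 (by decide +kernel)
theorem L51100 : W_7 (nat_lit 11) (nat_lit 0x240016001300088000000000000000000000000000000) (nat_lit 0x0) (nat_lit 0x1c000e000700038001c000e0007000380008000000000000000000000) := Q_7 (nat_lit 156) (C_7 L51049 (C_7 L50930 (C_7 L51083 (C_7 L51092 (C_7 L51036 (C_7 L51099 N_7)))))) (by decide +kernel)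
theorem L51101 : W_7 (nat_lit 12) (nat_lit 0x200016001300088000000000000000000000000000000) (nat_lit 0x0) (nat_lit 0x1c000e0017001f8021c000e0007000380008000000000000000000000) := Q_7 (nat_lit 174) (C_7 L51077 (C_7 L50891 (C_7 L50911 (C_7 L51100 N_7)))) (by decide +kernel)
theorem L51102 : W_7 (nat_lit 13) (nat_lit 0x200016001300080000000000000000000000000000000) (nat_lit 0x0) (nat_lit 0x1c000e0017001f8021c000e000f000780038000000000000000000000) := Q_7 (nat_lit 123) (C_7 L50877 (C_7 L51075 (C_7 L51101 N_7))) (by decide +kernel)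
theorem L51103 : W_7 (nat_lit 14) (nat_lit 0x200012001300080000000000000000000000000000000) (nat_lit 0x0) (nat_lit 0x1c000e0017001f802dc008e000f000780038000000000000000000000) := Q_7 (nat_lit 158) (C_7 L40519 (C_7 L41950 (C_7 L51102 N_7))) (by decide +kernel)
theorem L51104 : W_7 (nat_lit 2) (nat_lit 0x800280016001300080000000000000000000000000000000) (nat_lit 0x0) (nat_lit 0x30001000000000000000000000000000000000000000000000000) := D_7 (nat_lit 192) (nat_lit 209) (nat_lit 208) (nat_lit 4) (nat_lit 5) (nat_lit 12) (nat_lit 5) (nat_lit 5) (nat_lit 8) (by decide +kernel)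
theorem L51105 : W_7 (nat_lit 2) (nat_lit 0x8002c0016001300080000000000000000000000000000000) (nat_lit 0x0) (nat_lit 0x100021000000000000000000000000000000000000000) := D_7 (nat_lit 176) (nat_lit 156) (nat_lit 161) (nat_lit 0) (nat_lit 7) (nat_lit 10) (nat_lit 2) (nat_lit 4) (nat_lit 10) (by decide +kernel)
theorem L51106 : W_7 (nat_lit 3) (nat_lit 0x800280016001300080000000000000000000000000000000) (nat_lit 0x0) (nat_lit 0x10000000140021000000000000000000000000000000000000000) := T_7 (nat_lit 174) (nat_lit 208) (nat_lit 6) (nat_lit 4) (nat_lit 12) L51105 (by decide +kernel)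
theorem L51107 : W_7 (nat_lit 2) (nat_lit 0x8002c0016001380080000000000000000000000000000000) (nat_lit 0x0) (nat_lit 0x100021000000000000000000000000000000000000000) := D_7 (nat_lit 176) (nat_lit 161) (nat_lit 156) (nat_lit 2) (nat_lit 4) (nat_lit 10) (nat_lit 0) (nat_lit 7) (nat_lit 10) (by decide +kernel)
theorem L51108 : W_7 (nat_lit 3) (nat_lit 0x800280016001380080000000000000000000000000000000) (nat_lit 0x0) (nat_lit 0x140021000000004000000000000000000000000000000) := T_7 (nat_lit 174) (nat_lit 122) (nat_lit 4) (nat_lit 4) (nat_lit 11) L51107 (by decide +kernel)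
theorem L51109 : W_7 (nat_lit 2) (nat_lit 0x200008002800178013c0082000000000000000000000000000000) (nat_lit 0x0) (nat_lit 0x20000000000000000100008000000000000000000000) := D_7 (nat_lit 104) (nat_lit 87) (nat_lit 173) (nat_lit 7) (nat_lit 2) (nat_lit 5) (nat_lit 7) (nat_lit 2) (nat_lit 6) (by decide +kernel)
theorem L51110 : W_7 (nat_lit 3) (nat_lit 0x200008002800168013c0082000000000000000000000000000000) (nat_lit 0x0) (nat_lit 0x120001000000000000100008000000000000000000000) := T_7 (nat_lit 156) (nat_lit 176) (nat_lit 3) (nat_lit 2) (nat_lit 9) L51109 (by decide +kernel)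
theorem L51111 : W_7 (nat_lit 4) (nat_lit 0x200008002800168013c0080000000000000000000000000000000) (nat_lit 0x0) (nat_lit 0x120001000000003000100008000000000000000000000) := T_7 (nat_lit 121) (nat_lit 120) (nat_lit 0) (nat_lit 5) (nat_lit 8) L51110 (by decide +kernel)
theorem L51112 : W_7 (nat_lit 5) (nat_lit 0x200008002800160013c0080000000000000000000000000000000) (nat_lit 0x0) (nat_lit 0x120001c00000003000100008000000000000000000000) := T_7 (nat_lit 155) (nat_lit 154) (nat_lit 1) (nat_lit 5) (nat_lit 8) L51111 (by decide +kernel)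
theorem L51113 : W_7 (nat_lit 6) (nat_lit 0x8002800160013c0080000000000000000000000000000000) (nat_lit 0x0) (nat_lit 0x20001000120001c00000003000100008000000000000000000000) := T_7 (nat_lit 209) (nat_lit 192) (nat_lit 4) (nat_lit 5) (nat_lit 12) L51112 (by decide +kernel)
theorem L51114 : W_7 (nat_lit 7) (nat_lit 0x800280016001380080000000000000000000000000000000) (nat_lit 0x0) (nat_lit 0x20001000120001c00060003000100008000000000000000000000) := T_7 (nat_lit 138) (nat_lit 137) (nat_lit 3) (nat_lit 1) (nat_lit 8) L51113 (by decide +kernel)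
theorem L51115 : W_7 (nat_lit 2) (nat_lit 0x200008002800168013c0084000200000000000000000000000000) (nat_lit 0x0) (nat_lit 0x10000000000003000000000000000000000000000000) := D_7 (nat_lit 121) (nat_lit 120) (nat_lit 172) (nat_lit 0) (nat_lit 5) (nat_lit 8) (nat_lit 6) (nat_lit 2) (nat_lit 10) (by decide +kernel)
theorem L51116 : W_7 (nat_lit 3) (nat_lit 0x200008002800160013c0084000200000000000000000000000000) (nat_lit 0x0) (nat_lit 0x10000c00000003000000000000000000000000000000) := T_7 (nat_lit 155) (nat_lit 154) (nat_lit 1) (nat_lit 5) (nat_lit 8) L51115 (by decide +kernel)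
theorem L51117 : W_7 (nat_lit 4) (nat_lit 0x200008002800160013c0084000000000000000000000000000000) (nat_lit 0x0) (nat_lit 0x10000c00000003000200010000000000000000000000) := T_7 (nat_lit 105) (nat_lit 88) (nat_lit 7) (nat_lit 3) (nat_lit 5) L51116 (by decide +kernel)
theorem L51118 : W_7 (nat_lit 5) (nat_lit 0x20000800280016001380084000000000000000000000000000000) (nat_lit 0x0) (nat_lit 0x10000c00060003000200010000000000000000000000) := T_7 (nat_lit 138) (nat_lit 137) (nat_lit 3) (nat_lit 1) (nat_lit 8) L51117 (by decide +kernel)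
theorem L51119 : W_7 (nat_lit 6) (nat_lit 0x20000800280016001380080000000000000000000000000000000) (nat_lit 0x0) (nat_lit 0x50000c00060007000200010000000000000000000000) := T_7 (nat_lit 122) (nat_lit 174) (nat_lit 4) (nat_lit 4) (nat_lit 11) L51118 (by decide +kernel)
theorem L51120 : W_7 (nat_lit 7) (nat_lit 0x800280016001380080000000000000000000000000000000) (nat_lit 0x0) (nat_lit 0x20001000050000c00060007000200010000000000000000000000) := T_7 (nat_lit 209) (nat_lit 192) (nat_lit 4) (nat_lit 5) (nat_lit 12) L51119 (by decide +kernel)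
theorem L51121 : W_7 (nat_lit 8) (nat_lit 0x800280016001300080000000000000000000000000000000) (nat_lit 0x0) (nat_lit 0x20001000170021c000e0007000300018000000000000000000000) := Q_7 (nat_lit 139) (C_7 L51108 (C_7 L51114 (C_7 L51120 N_7))) (by decide +kernel)
theorem L51122 : W_7 (nat_lit 9) (nat_lit 0x280016001300080000000000000000000000000000000) (nat_lit 0x0) (nat_lit 0x30001800170021c000e0007000300018000000000000000000000) := Q_7 (nat_lit 191) (C_7 L51104 (C_7 L51106 (C_7 L51121 N_7))) (by decide +kernel)
theorem L51123 : W_7 (nat_lit 5) (nat_lit 0x280016001300080000000000000000000000000000000) (nat_lit 0x0) (nat_lit 0x1000080014002100008000c000600000000000000000000000000) := Q_7 (nat_lit 174) (C_7 L50869 (C_7 L51068 N_7)) (by decide +kernel)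
theorem L51124 : W_7 (nat_lit 10) (nat_lit 0x200016001300080000000000000000000000000000000) (nat_lit 0x0) (nat_lit 0x300018001f0021c000e000f000700018000000000000000000000) := Q_7 (nat_lit 175) (C_7 L50863 (C_7 L51122 (C_7 L51123 N_7))) (by decide +kernel)
theorem L51125 : W_7 (nat_lit 11) (nat_lit 0x200012001300080000000000000000000000000000000) (nat_lit 0x0) (nat_lit 0x300018001f002dc008e000f000700018000000000000000000000) := Q_7 (nat_lit 158) (C_7 L40519 (C_7 L41950 (C_7 L51124 N_7))) (by decide +kernel)
theorem L51126 : W_7 (nat_lit 13) (nat_lit 0x200012001300080000000000000000000000000000000) (nat_lit 0x0) (nat_lit 0x1c001e000f0017800dc008e000f001f80078000800000000000000000) := Q_7 (nat_lit 158) (C_7 L40519 (C_7 L51052 (C_7 L40505 N_7))) (by decide +kernel)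
theorem L51127 : W_7 (nat_lit 15) (nat_lit 0x200010001300080000000000000000000000000000000) (nat_lit 0x0) (nat_lit 0x6000fc00ff003f001fc02fc008f004f801fc007c003e00060000000000000) := Q_7 (nat_lit 157) (C_7 L50535 (C_7 L50635 (C_7 L50667 (C_7 L50862 (C_7 L50875 (C_7 L50876 (C_7 L50904 (C_7 L50914 (C_7 L51053 (C_7 L51065 (C_7 L51071 (C_7 L51103 (C_7 L51125 (C_7 L51126 N_7)))))))))))))) (by decide +kernel)
theorem L51128 : W_7 (nat_lit 2) (nat_lit 0x3c0014001300080000000000000000000000000000000) (nat_lit 0x0) (nat_lit 0x2800000000000000010000000000000000000000000000000) := D_7 (nat_lit 124) (nat_lit 191) (nat_lit 193) (nat_lit 5) (nat_lit 5) (nat_lit 7) (nat_lit 7) (nat_lit 5) (nat_lit 7) (by decide +kernel)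
theorem L51129 : W_7 (nat_lit 3) (nat_lit 0x2c0014001300080000000000000000000000000000000) (nat_lit 0x0) (nat_lit 0x2800100020000000010000000000000000000000000000000) := T_7 (nat_lit 176) (nat_lit 161) (nat_lit 2) (nat_lit 4) (nat_lit 10) L51128 (by decide +kernel)
theorem L51130 : W_7 (nat_lit 2) (nat_lit 0x2c00140013000900008000a0000000000000000000000) (nat_lit 0x0) (nat_lit 0x40005000000000000000000) := D_7 (nat_lit 90) (nat_lit 74) (nat_lit 72) (nat_lit 6) (nat_lit 5) (nat_lit 8) (nat_lit 4) (nat_lit 5) (nat_lit 8) (by decide +kernel)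
theorem L51131 : W_7 (nat_lit 3) (nat_lit 0x2c0014001300090000800080000000000000000000000) (nat_lit 0x0) (nat_lit 0x400060005000000000000000000) := T_7 (nat_lit 89) (nat_lit 106) (nat_lit 4) (nat_lit 5) (nat_lit 9) L51130 (by decide +kernel)
theorem L51132 : W_7 (nat_lit 4) (nat_lit 0x2c0014001300090000800000000000000000000000000) (nat_lit 0x0) (nat_lit 0x14000e0005000000000000000000) := T_7 (nat_lit 91) (nat_lit 108) (nat_lit 6) (nat_lit 5) (nat_lit 9) L51131 (by decide +kernel)
theorem L51133 : W_7 (nat_lit 5) (nat_lit 0x2c0014001300090000000000000000000000000000000) (nat_lit 0x0) (nat_lit 0x2000000000001c000e0005000000000000000000) := T_7 (nat_lit 107) (nat_lit 157) (nat_lit 5) (nat_lit 5) (nat_lit 6) L51132 (by decide +kernel)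
theorem L51134 : W_7 (nat_lit 6) (nat_lit 0x2c0014001300080000000000000000000000000000000) (nat_lit 0x0) (nat_lit 0x800000002000000010001c000e0005000000000000000000) := T_7 (nat_lit 124) (nat_lit 191) (nat_lit 5) (nat_lit 5) (nat_lit 7) L51133 (by decide +kernel)
theorem L51135 : W_7 (nat_lit 2) (nat_lit 0x3c0016001300080000000000000000000000000000000) (nat_lit 0x0) (nat_lit 0x2000000000000000010000800000000000000000000000000) := D_7 (nat_lit 124) (nat_lit 193) (nat_lit 107) (nat_lit 7) (nat_lit 5) (nat_lit 7) (nat_lit 5) (nat_lit 5) (nat_lit 6) (by decide +kernel)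
theorem L51136 : W_7 (nat_lit 3) (nat_lit 0x3c0014001300080000000000000000000000000000000) (nat_lit 0x0) (nat_lit 0x2000000003000000010000800000000000000000000000000) := T_7 (nat_lit 157) (nat_lit 156) (nat_lit 0) (nat_lit 7) (nat_lit 10) L51135 (by decide +kernel)
theorem L51137 : W_7 (nat_lit 4) (nat_lit 0x2c0014001300080000000000000000000000000000000) (nat_lit 0x0) (nat_lit 0x2000100023000000010000800000000000000000000000000) := T_7 (nat_lit 176) (nat_lit 161) (nat_lit 2) (nat_lit 4) (nat_lit 10) L51136 (by decide +kernel)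
theorem L51138 : W_7 (nat_lit 2) (nat_lit 0x3c0016001300080000000000000000000000000000000) (nat_lit 0x0) (nat_lit 0x10000c00000000000000000000000000000000000000000000000) := D_7 (nat_lit 191) (nat_lit 190) (nat_lit 208) (nat_lit 1) (nat_lit 7) (nat_lit 10) (nat_lit 6) (nat_lit 4) (nat_lit 12) (by decide +kernel)
theorem L51139 : W_7 (nat_lit 3) (nat_lit 0x3c0014001300080000000000000000000000000000000) (nat_lit 0x0) (nat_lit 0x10000c00000003000000000000000000000000000000000000000) := T_7 (nat_lit 157) (nat_lit 156) (nat_lit 0) (nat_lit 7) (nat_lit 10) L51138 (by decide +kernel)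
theorem L51140 : W_7 (nat_lit 4) (nat_lit 0x2c0014001300080000000000000000000000000000000) (nat_lit 0x0) (nat_lit 0x10000c00100023000000000000000000000000000000000000000) := T_7 (nat_lit 176) (nat_lit 161) (nat_lit 2) (nat_lit 4) (nat_lit 10) L51139 (by decide +kernel)
theorem L51141 : W_7 (nat_lit 7) (nat_lit 0x280014001300080000000000000000000000000000000) (nat_lit 0x0) (nat_lit 0x10002c00140023000000010001c000e0005000000000000000000) := Q_7 (nat_lit 174) (C_7 L51129 (C_7 L51134 (C_7 L51137 (C_7 L51140 N_7)))) (by decide +kernel)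
theorem L51142 : W_7 (nat_lit 8) (nat_lit 0x200014001300080000000000000000000000000000000) (nat_lit 0x0) (nat_lit 0xa00070003c001c0023000000018001c000e0005000000000000000000) := Q_7 (nat_lit 175) (C_7 L51141 (C_7 L50072 (C_7 L50082 (C_7 L36340 N_7)))) (by decide +kernel)
theorem L51143 : W_7 (nat_lit 2) (nat_lit 0x8002c0034001300080000000000000000000000000000000) (nat_lit 0x0) (nat_lit 0x200010001000000000000000000000000000000000000000000000000) := D_7 (nat_lit 208) (nat_lit 192) (nat_lit 225) (nat_lit 5) (nat_lit 5) (nat_lit 8) (nat_lit 6) (nat_lit 4) (nat_lit 13) (by decide +kernel)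
theorem L51144 : W_7 (nat_lit 3) (nat_lit 0x2c0034001300080000000000000000000000000000000) (nat_lit 0x0) (nat_lit 0x200010001800000000000000010000000000000000000000000000000) := T_7 (nat_lit 191) (nat_lit 124) (nat_lit 5) (nat_lit 5) (nat_lit 7) L51143 (by decide +kernel)
theorem L51145 : W_7 (nat_lit 4) (nat_lit 0x280034001300080000000000000000000000000000000) (nat_lit 0x0) (nat_lit 0x200010001800140000000000010000000000000000000000000000000) := T_7 (nat_lit 174) (nat_lit 176) (nat_lit 2) (nat_lit 4) (nat_lit 10) L51144 (by decide +kernel)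
theorem L51146 : W_7 (nat_lit 5) (nat_lit 0x280014001300080000000000000000000000000000000) (nat_lit 0x0) (nat_lit 0x200010001800140028000000010000000000000000000000000000000) := T_7 (nat_lit 161) (nat_lit 159) (nat_lit 0) (nat_lit 8) (nat_lit 9) L51145 (by decide +kernel)
theorem L51147 : W_7 (nat_lit 2) (nat_lit 0x50001000280034001300080000000000000000000000000000000) (nat_lit 0x0) (nat_lit 0xa00020000000000000000000000000000000000000000000000000000) := D_7 (nat_lit 209) (nat_lit 225) (nat_lit 227) (nat_lit 5) (nat_lit 5) (nat_lit 9) (nat_lit 7) (nat_lit 5) (nat_lit 9) (by decide +kernel)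
theorem L51148 : W_7 (nat_lit 3) (nat_lit 0x10001000280034001300080000000000000000000000000000000) (nat_lit 0x0) (nat_lit 0xa00060002000000000000000000000000000000000000000000000000) := T_7 (nat_lit 210) (nat_lit 193) (nat_lit 7) (nat_lit 5) (nat_lit 8) L51147 (by decide +kernel)
theorem L51149 : W_7 (nat_lit 4) (nat_lit 0x1000280034001300080000000000000000000000000000000) (nat_lit 0x0) (nat_lit 0xa00070002800000000000000000000000000000000000000000000000) := T_7 (nat_lit 208) (nat_lit 191) (nat_lit 5) (nat_lit 5) (nat_lit 8) L51148 (by decide +kernel)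
theorem L51150 : W_7 (nat_lit 5) (nat_lit 0x280034001300080000000000000000000000000000000) (nat_lit 0x0) (nat_lit 0xa00070003800000000000000008000000000000000000000000000000) := T_7 (nat_lit 192) (nat_lit 123) (nat_lit 4) (nat_lit 5) (nat_lit 11) L51149 (by decide +kernel)
theorem L51151 : W_7 (nat_lit 6) (nat_lit 0x280014001300080000000000000000000000000000000) (nat_lit 0x0) (nat_lit 0xa00070003800000028000000008000000000000000000000000000000) := T_7 (nat_lit 161) (nat_lit 159) (nat_lit 0) (nat_lit 8) (nat_lit 9) L51150 (by decide +kernel)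
theorem L51152 : W_7 (nat_lit 3) (nat_lit 0x380014001300080000000000000000000000000000000) (nat_lit 0x0) (nat_lit 0x2800040020000000010000000000000000000000000000000) := T_7 (nat_lit 124) (nat_lit 193) (nat_lit 7) (nat_lit 5) (nat_lit 7) L38638 (by decide +kernel)
theorem L51153 : W_7 (nat_lit 2) (nat_lit 0x38001c001300080000000000000000000000000000000) (nat_lit 0x0) (nat_lit 0x2000000000000000010000800000000000000000000000000) := D_7 (nat_lit 124) (nat_lit 193) (nat_lit 107) (nat_lit 7) (nat_lit 5) (nat_lit 7) (nat_lit 7) (nat_lit 5) (nat_lit 6) (by decide +kernel)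
theorem L51154 : W_7 (nat_lit 3) (nat_lit 0x380014001300080000000000000000000000000000000) (nat_lit 0x0) (nat_lit 0x2000000028000000010000800000000000000000000000000) := T_7 (nat_lit 159) (nat_lit 161) (nat_lit 0) (nat_lit 8) (nat_lit 9) L51153 (by decide +kernel)
theorem L51155 : W_7 (nat_lit 2) (nat_lit 0x380014001300080000000000000000000000000000000) (nat_lit 0x0) (nat_lit 0x40028000000000000000000000000000000000000000) := D_7 (nat_lit 161) (nat_lit 174) (nat_lit 159) (nat_lit 2) (nat_lit 4) (nat_lit 10) (nat_lit 0) (nat_lit 8) (nat_lit 9) (by decide +kernel)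
theorem L51156 : W_7 (nat_lit 2) (nat_lit 0x380014001300098000800040000000000000000000000) (nat_lit 0x0) (nat_lit 0x1000080004000000000000000000) := D_7 (nat_lit 91) (nat_lit 108) (nat_lit 74) (nat_lit 6) (nat_lit 5) (nat_lit 9) (nat_lit 6) (nat_lit 5) (nat_lit 8) (by decide +kernel)
theorem L51157 : W_7 (nat_lit 3) (nat_lit 0x380014001300098000800000000000000000000000000) (nat_lit 0x0) (nat_lit 0x10000c0006000000000000000000) := T_7 (nat_lit 90) (nat_lit 73) (nat_lit 5) (nat_lit 5) (nat_lit 4) L51156 (by decide +kernel)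
theorem L51158 : W_7 (nat_lit 4) (nat_lit 0x380014001300098000000000000000000000000000000) (nat_lit 0x0) (nat_lit 0x80000000000018000c0006000000000000000000) := T_7 (nat_lit 107) (nat_lit 159) (nat_lit 7) (nat_lit 5) (nat_lit 6) L51157 (by decide +kernel)
theorem L51159 : W_7 (nat_lit 5) (nat_lit 0x380014001300090000000000000000000000000000000) (nat_lit 0x0) (nat_lit 0x8000000008001c000c0006000000000000000000) := T_7 (nat_lit 123) (nat_lit 106) (nat_lit 4) (nat_lit 5) (nat_lit 10) L51158 (by decide +kernel)
theorem L51160 : W_7 (nat_lit 6) (nat_lit 0x380014001300080000000000000000000000000000000) (nat_lit 0x0) (nat_lit 0x2000000008000000018001c000c0006000000000000000000) := T_7 (nat_lit 124) (nat_lit 193) (nat_lit 7) (nat_lit 5) (nat_lit 7) L51159 (by decide +kernel)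
theorem L51161 : W_7 (nat_lit 7) (nat_lit 0x280014001300080000000000000000000000000000000) (nat_lit 0x0) (nat_lit 0x2800140028000000018001c000c0006000000000000000000) := Q_7 (nat_lit 176) (C_7 L51152 (C_7 L51154 (C_7 L51155 (C_7 L51160 N_7)))) (by decide +kernel)
theorem L51162 : W_7 (nat_lit 8) (nat_lit 0x200014001300080000000000000000000000000000000) (nat_lit 0x0) (nat_lit 0xa00070003c001c0028000000018001c000c0006000000000000000000) := Q_7 (nat_lit 175) (C_7 L50082 (C_7 L51146 (C_7 L51151 (C_7 L50086 (C_7 L51161 N_7))))) (by decide +kernel)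
theorem L51163 : W_7 (nat_lit 2) (nat_lit 0x3800280016001300080000000000000000000000000000000) (nat_lit 0x0) (nat_lit 0x400100000000000010000000000000000000000000000000) := D_7 (nat_lit 176) (nat_lit 190) (nat_lit 124) (nat_lit 2) (nat_lit 3) (nat_lit 11) (nat_lit 7) (nat_lit 5) (nat_lit 7) (by decide +kernel)
theorem L51164 : W_7 (nat_lit 3) (nat_lit 0x1800280016001300080000000000000000000000000000000) (nat_lit 0x0) (nat_lit 0x40002400100000000000010000000000000000000000000000000) := T_7 (nat_lit 193) (nat_lit 210) (nat_lit 7) (nat_lit 5) (nat_lit 8) L51163 (by decide +kernel)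
theorem L51165 : W_7 (nat_lit 4) (nat_lit 0x1000280016001300080000000000000000000000000000000) (nat_lit 0x0) (nat_lit 0x50002c00100000000000010000000000000000000000000000000) := T_7 (nat_lit 191) (nat_lit 208) (nat_lit 5) (nat_lit 5) (nat_lit 8) L51164 (by decide +kernel)
theorem L51166 : W_7 (nat_lit 5) (nat_lit 0x280016001300080000000000000000000000000000000) (nat_lit 0x0) (nat_lit 0x70003c00100000000000010000000000000000000000000000000) := T_7 (nat_lit 192) (nat_lit 209) (nat_lit 4) (nat_lit 5) (nat_lit 12) L51165 (by decide +kernel)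
theorem L51167 : W_7 (nat_lit 2) (nat_lit 0x280016001300080000000000000000000000000000000) (nat_lit 0x0) (nat_lit 0x8000880000000000000000000000000000000000) := D_7 (nat_lit 159) (nat_lit 139) (nat_lit 143) (nat_lit 0) (nat_lit 7) (nat_lit 9) (nat_lit 2) (nat_lit 4) (nat_lit 9) (by decide +kernel)
theorem L51168 : W_7 (nat_lit 6) (nat_lit 0x280014001300080000000000000000000000000000000) (nat_lit 0x0) (nat_lit 0x70003c0010000a000880010000000000000000000000000000000) := Q_7 (nat_lit 157) (C_7 L51166 (C_7 L51167 N_7)) (by decide +kernel)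
theorem L51169 : W_7 (nat_lit 6) (nat_lit 0x280014001300090000000000000000000000000000000) (nat_lit 0x0) (nat_lit 0x800040002000000000001c000e0005000000000000000000) := T_7 (nat_lit 174) (nat_lit 191) (nat_lit 5) (nat_lit 5) (nat_lit 7) L51133 (by decide +kernel)
theorem L51170 : W_7 (nat_lit 6) (nat_lit 0x280014001300090000000000000000000000000000000) (nat_lit 0x0) (nat_lit 0x2000100008000000008001c000c0006000000000000000000) := T_7 (nat_lit 176) (nat_lit 193) (nat_lit 7) (nat_lit 5) (nat_lit 7) L51159 (by decide +kernel)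
theorem L51171 : W_7 (nat_lit 2) (nat_lit 0x3e0014001300098000000000000000000000000000000) (nat_lit 0x0) (nat_lit 0x3800000000000000000000000000000000000000) := D_7 (nat_lit 156) (nat_lit 155) (nat_lit 157) (nat_lit 0) (nat_lit 6) (nat_lit 10) (nat_lit 0) (nat_lit 7) (nat_lit 10) (by decide +kernel)
theorem L51172 : W_7 (nat_lit 3) (nat_lit 0x3c0014001300098000000000000000000000000000000) (nat_lit 0x0) (nat_lit 0x2000b800000000000000000000000000000000000000) := T_7 (nat_lit 173) (nat_lit 159) (nat_lit 2) (nat_lit 3) (nat_lit 10) L51171 (by decide +kernel)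
theorem L51173 : W_7 (nat_lit 4) (nat_lit 0x380014001300098000000000000000000000000000000) (nat_lit 0x0) (nat_lit 0x80006000b800000000000000000000000000000000000000) := T_7 (nat_lit 174) (nat_lit 191) (nat_lit 5) (nat_lit 5) (nat_lit 7) L51172 (by decide +kernel)
theorem L51174 : W_7 (nat_lit 5) (nat_lit 0x380014001300090000000000000000000000000000000) (nat_lit 0x0) (nat_lit 0x80006000b800000008000400000000000000000000000000) := T_7 (nat_lit 123) (nat_lit 106) (nat_lit 4) (nat_lit 5) (nat_lit 10) L51173 (by decide +kernel)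
theorem L51175 : W_7 (nat_lit 6) (nat_lit 0x280014001300090000000000000000000000000000000) (nat_lit 0x0) (nat_lit 0x280016000b800000008000400000000000000000000000000) := T_7 (nat_lit 176) (nat_lit 193) (nat_lit 7) (nat_lit 5) (nat_lit 7) L51174 (by decide +kernel)
theorem L51176 : W_7 (nat_lit 7) (nat_lit 0x280014001300080000000000000000000000000000000) (nat_lit 0x0) (nat_lit 0x280016000b800000018001c000e0007000000000000000000) := Q_7 (nat_lit 124) (C_7 L51169 (C_7 L51170 (C_7 L43270 (C_7 L51175 N_7)))) (by decide +kernel)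
theorem L51177 : W_7 (nat_lit 8) (nat_lit 0x200014001300080000000000000000000000000000000) (nat_lit 0x0) (nat_lit 0xa00070003c001e000b800880018001c000e0007000000000000000000) := Q_7 (nat_lit 175) (C_7 L36340 (C_7 L51168 (C_7 L50082 (C_7 L51176 (C_7 L50072 N_7))))) (by decide +kernel)
theorem L51178 : W_7 (nat_lit 9) (nat_lit 0x200010001300080000000000000000000000000000000) (nat_lit 0x0) (nat_lit 0xa00070003c001e002f800880018001c000e0007000000000000000000) := Q_7 (nat_lit 158) (C_7 L51142 (C_7 L38631 (C_7 L51162 (C_7 L51177 N_7)))) (by decide +kernel)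
theorem L51179 : W_7 (nat_lit 4) (nat_lit 0x280014001300080000000000000000000000000000000) (nat_lit 0x0) (nat_lit 0x2800140020000000070001000000000000000000000000000) := Q_7 (nat_lit 124) (C_7 L50062 (C_7 L38639 N_7)) (by decide +kernel)
theorem L51180 : W_7 (nat_lit 5) (nat_lit 0x200014001300080000000000000000000000000000000) (nat_lit 0x0) (nat_lit 0xa000700038001c0022000000078001000000000000000000000000000) := Q_7 (nat_lit 175) (C_7 L51179 (C_7 L50072 (C_7 L36340 N_7))) (by decide +kernel)
theorem L51181 : W_7 (nat_lit 2) (nat_lit 0x500010002c0034001300080000000000000000000000000000000) (nat_lit 0x0) (nat_lit 0xa00020000000000000000000000000000000000000000000000000000) := D_7 (nat_lit 209) (nat_lit 225) (nat_lit 227) (nat_lit 5) (nat_lit 5) (nat_lit 9) (nat_lit 7) (nat_lit 5) (nat_lit 9) (by decide +kernel)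
theorem L51182 : W_7 (nat_lit 3) (nat_lit 0x100010002c0034001300080000000000000000000000000000000) (nat_lit 0x0) (nat_lit 0xa00060002000000000000000000000000000000000000000000000000) := T_7 (nat_lit 210) (nat_lit 193) (nat_lit 7) (nat_lit 5) (nat_lit 8) L51181 (by decide +kernel)
theorem L51183 : W_7 (nat_lit 4) (nat_lit 0x10002c0034001300080000000000000000000000000000000) (nat_lit 0x0) (nat_lit 0xa00070002800000000000000000000000000000000000000000000000) := T_7 (nat_lit 208) (nat_lit 191) (nat_lit 5) (nat_lit 5) (nat_lit 8) L51182 (by decide +kernel)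
theorem L51184 : W_7 (nat_lit 5) (nat_lit 0x2c0034001300080000000000000000000000000000000) (nat_lit 0x0) (nat_lit 0xa00070003800000000000000008000000000000000000000000000000) := T_7 (nat_lit 192) (nat_lit 123) (nat_lit 4) (nat_lit 5) (nat_lit 11) L51183 (by decide +kernel)
theorem L51185 : W_7 (nat_lit 6) (nat_lit 0x280034001300080000000000000000000000000000000) (nat_lit 0x0) (nat_lit 0xa00070003800140000000000008000000000000000000000000000000) := T_7 (nat_lit 174) (nat_lit 176) (nat_lit 2) (nat_lit 4) (nat_lit 10) L51184 (by decide +kernel)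
theorem L51186 : W_7 (nat_lit 7) (nat_lit 0x280014001300080000000000000000000000000000000) (nat_lit 0x0) (nat_lit 0xa00070003800140028000000008000000000000000000000000000000) := T_7 (nat_lit 161) (nat_lit 159) (nat_lit 0) (nat_lit 8) (nat_lit 9) L51185 (by decide +kernel)
theorem L51187 : W_7 (nat_lit 2) (nat_lit 0x1800280034001300080000000000000000000000000000000) (nat_lit 0x0) (nat_lit 0x140000000000010000000000000000000000000000000) := D_7 (nat_lit 174) (nat_lit 176) (nat_lit 124) (nat_lit 2) (nat_lit 4) (nat_lit 10) (nat_lit 5) (nat_lit 5) (nat_lit 7) (by decide +kernel)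
theorem L51188 : W_7 (nat_lit 3) (nat_lit 0x1800280014001300080000000000000000000000000000000) (nat_lit 0x0) (nat_lit 0x140028000000010000000000000000000000000000000) := T_7 (nat_lit 161) (nat_lit 159) (nat_lit 0) (nat_lit 8) (nat_lit 9) L51187 (by decide +kernel)
theorem L51189 : W_7 (nat_lit 4) (nat_lit 0x1000280014001300080000000000000000000000000000000) (nat_lit 0x0) (nat_lit 0x10000800140028000000010000000000000000000000000000000) := T_7 (nat_lit 191) (nat_lit 208) (nat_lit 5) (nat_lit 5) (nat_lit 8) L51188 (by decide +kernel)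
theorem L51190 : W_7 (nat_lit 5) (nat_lit 0x280014001300080000000000000000000000000000000) (nat_lit 0x0) (nat_lit 0x10001800140028000000018000000000000000000000000000000) := T_7 (nat_lit 192) (nat_lit 123) (nat_lit 4) (nat_lit 5) (nat_lit 11) L51189 (by decide +kernel)
theorem L51191 : W_7 (nat_lit 2) (nat_lit 0x1000380034001300080000000000000000000000000000000) (nat_lit 0x0) (nat_lit 0x40002000000000000000010000000000000000000000000000000) := D_7 (nat_lit 193) (nat_lit 124) (nat_lit 210) (nat_lit 7) (nat_lit 5) (nat_lit 7) (nat_lit 7) (nat_lit 5) (nat_lit 8) (by decide +kernel)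
theorem L51192 : W_7 (nat_lit 3) (nat_lit 0x380034001300080000000000000000000000000000000) (nat_lit 0x0) (nat_lit 0x40003000000000000000018000000000000000000000000000000) := T_7 (nat_lit 192) (nat_lit 123) (nat_lit 4) (nat_lit 5) (nat_lit 11) L51191 (by decide +kernel)
theorem L51193 : W_7 (nat_lit 4) (nat_lit 0x280034001300080000000000000000000000000000000) (nat_lit 0x0) (nat_lit 0x40003000140000000000018000000000000000000000000000000) := T_7 (nat_lit 176) (nat_lit 174) (nat_lit 2) (nat_lit 4) (nat_lit 10) L51192 (by decide +kernel)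
theorem L51194 : W_7 (nat_lit 5) (nat_lit 0x280014001300080000000000000000000000000000000) (nat_lit 0x0) (nat_lit 0x40003000140028000000018000000000000000000000000000000) := T_7 (nat_lit 161) (nat_lit 159) (nat_lit 0) (nat_lit 8) (nat_lit 9) L51193 (by decide +kernel)
theorem L51195 : W_7 (nat_lit 8) (nat_lit 0x200014001300080000000000000000000000000000000) (nat_lit 0x0) (nat_lit 0xa00070003c001c0028000000078001000000000000000000000000000) := Q_7 (nat_lit 175) (C_7 L51179 (C_7 L51186 (C_7 L50082 (C_7 L50091 (C_7 L51190 (C_7 L51194 N_7)))))) (by decide +kernel)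
theorem L51196 : W_7 (nat_lit 2) (nat_lit 0x240016001300080000000000000000000000000000000) (nat_lit 0x0) (nat_lit 0x10000800000000000000010000000000000000000000000000000) := D_7 (nat_lit 191) (nat_lit 124) (nat_lit 208) (nat_lit 6) (nat_lit 4) (nat_lit 11) (nat_lit 6) (nat_lit 4) (nat_lit 12) (by decide +kernel)
theorem L51197 : W_7 (nat_lit 7) (nat_lit 0x200016001300080000000000000000000000000000000) (nat_lit 0x0) (nat_lit 0x30003c001c00010000c0078001800000000000000000000000000) := Q_7 (nat_lit 174) (C_7 L51196 (C_7 L49869 (C_7 L50040 N_7))) (by decide +kernel)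
theorem L51198 : W_7 (nat_lit 8) (nat_lit 0x200014001300080000000000000000000000000000000) (nat_lit 0x0) (nat_lit 0x30003c001f000b0008c0078001800000000000000000000000000) := Q_7 (nat_lit 157) (C_7 L40505 (C_7 L51197 (C_7 L40519 N_7))) (by decide +kernel)
theorem L51199 : W_7 (nat_lit 9) (nat_lit 0x200010001300080000000000000000000000000000000) (nat_lit 0x0) (nat_lit 0xa00070003c001f002f0008c0078001800000000000000000000000000) := Q_7 (nat_lit 158) (C_7 L51180 (C_7 L38631 (C_7 L51195 (C_7 L51198 N_7)))) (by decide +kernel)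
theorem L51200 : W_7 (nat_lit 4) (nat_lit 0x280014001300080000000000000000000000000000000) (nat_lit 0x0) (nat_lit 0x2800140020000000070001000000000000000000000000000) := Q_7 (nat_lit 124) (C_7 L50062 (C_7 L38639 N_7)) (by decide +kernel)
theorem L51201 : W_7 (nat_lit 5) (nat_lit 0x200014001300080000000000000000000000000000000) (nat_lit 0x0) (nat_lit 0xa000700038001c0022000000078001000000000000000000000000000) := Q_7 (nat_lit 175) (C_7 L51200 (C_7 L50072 (C_7 L36340 N_7))) (by decide +kernel)
theorem L51211 : W_7 (nat_lit 2) (nat_lit 0x2c0034001300088000000000000000000000000000000) (nat_lit 0x0) (nat_lit 0x10000400020000000000000000000000) := D_7 (nat_lit 106) (nat_lit 124) (nat_lit 89) (nat_lit 4) (nat_lit 5) (nat_lit 10) (nat_lit 7) (nat_lit 4) (nat_lit 5) (by decide +kernel)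
theorem L51212 : W_7 (nat_lit 3) (nat_lit 0x2c0034001300080000000000000000000000000000000) (nat_lit 0x0) (nat_lit 0x1000000000000000018000400020000000000000000000000) := T_7 (nat_lit 123) (nat_lit 192) (nat_lit 4) (nat_lit 5) (nat_lit 11) L51211 (by decide +kernel)
theorem L51213 : W_7 (nat_lit 4) (nat_lit 0x280034001300080000000000000000000000000000000) (nat_lit 0x0) (nat_lit 0x1000140000000000018000400020000000000000000000000) := T_7 (nat_lit 174) (nat_lit 176) (nat_lit 2) (nat_lit 4) (nat_lit 10) L51212 (by decide +kernel)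
theorem L51214 : W_7 (nat_lit 5) (nat_lit 0x280014001300080000000000000000000000000000000) (nat_lit 0x0) (nat_lit 0x1000140028000000018000400020000000000000000000000) := T_7 (nat_lit 161) (nat_lit 159) (nat_lit 0) (nat_lit 8) (nat_lit 9) L51213 (by decide +kernel)
theorem L51215 : W_7 (nat_lit 11) (nat_lit 0x200014001300080000000000000000000000000000000) (nat_lit 0x0) (nat_lit 0x5e003e001f00290000c0078001400020000000000000000000000) := Q_7 (nat_lit 175) (C_7 L51200 (C_7 L50082 (C_7 L51210 (C_7 L51214 (C_7 L50091 N_7))))) (by decide +kernel)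
theorem L51216 : W_7 (nat_lit 2) (nat_lit 0x280014001300088000000000000000000000000000000) (nat_lit 0x0) (nat_lit 0x10000400020000000000000000000000) := D_7 (nat_lit 106) (nat_lit 89) (nat_lit 124) (nat_lit 7) (nat_lit 4) (nat_lit 5) (nat_lit 4) (nat_lit 5) (nat_lit 10) (by decide +kernel)
theorem L51217 : W_7 (nat_lit 3) (nat_lit 0x200014001300088000000000000000000000000000000) (nat_lit 0x0) (nat_lit 0x1000080000000000010000400020000000000000000000000) := T_7 (nat_lit 175) (nat_lit 192) (nat_lit 4) (nat_lit 5) (nat_lit 11) L51216 (by decide +kernel)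
theorem L51218 : W_7 (nat_lit 2) (nat_lit 0x200016001300088000000000000000000000000000000) (nat_lit 0x0) (nat_lit 0x8000880000000000000000000000000000000000) := D_7 (nat_lit 159) (nat_lit 139) (nat_lit 143) (nat_lit 0) (nat_lit 7) (nat_lit 9) (nat_lit 2) (nat_lit 4) (nat_lit 9) (by decide +kernel)
theorem L51219 : W_7 (nat_lit 6) (nat_lit 0x200014001300088000000000000000000000000000000) (nat_lit 0x0) (nat_lit 0x40006000b000880004000600030000000000000000000000) := Q_7 (nat_lit 157) (C_7 L51075 (C_7 L51218 N_7)) (by decide +kernel)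
theorem L51220 : W_7 (nat_lit 2) (nat_lit 0x280014001300098000000000000000000000000000000) (nat_lit 0x0) (nat_lit 0x60001000000000000000000000000000) := D_7 (nat_lit 125) (nat_lit 126) (nat_lit 108) (nat_lit 1) (nat_lit 8) (nat_lit 7) (nat_lit 6) (nat_lit 5) (nat_lit 10) (by decide +kernel)
theorem L51221 : W_7 (nat_lit 3) (nat_lit 0x200014001300098000000000000000000000000000000) (nat_lit 0x0) (nat_lit 0x1000080000000000060001000000000000000000000000000) := T_7 (nat_lit 175) (nat_lit 192) (nat_lit 4) (nat_lit 5) (nat_lit 11) L51220 (by decide +kernel)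
theorem L51222 : W_7 (nat_lit 4) (nat_lit 0x2c0014001300098000000000000000000000000000000) (nat_lit 0x0) (nat_lit 0x200012000b800000000000000000000000000000000000000) := T_7 (nat_lit 176) (nat_lit 193) (nat_lit 7) (nat_lit 5) (nat_lit 7) L51172 (by decide +kernel)
theorem L51223 : W_7 (nat_lit 5) (nat_lit 0x280014001300098000000000000000000000000000000) (nat_lit 0x0) (nat_lit 0x280016000b800000000000000000000000000000000000000) := T_7 (nat_lit 174) (nat_lit 191) (nat_lit 5) (nat_lit 5) (nat_lit 7) L51222 (by decide +kernel)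
theorem L51224 : W_7 (nat_lit 6) (nat_lit 0x200014001300098000000000000000000000000000000) (nat_lit 0x0) (nat_lit 0x38001e000b800000000000000000000000000000000000000) := T_7 (nat_lit 175) (nat_lit 192) (nat_lit 4) (nat_lit 5) (nat_lit 11) L51223 (by decide +kernel)
theorem L51225 : W_7 (nat_lit 2) (nat_lit 0x2400160013800be001100000004000000000000000000) (nat_lit 0x0) (nat_lit 0x400020001000000000000000000000000000000000000000) := D_7 (nat_lit 173) (nat_lit 190) (nat_lit 156) (nat_lit 5) (nat_lit 4) (nat_lit 7) (nat_lit 4) (nat_lit 3) (nat_lit 10) (by decide +kernel)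
theorem L51226 : W_7 (nat_lit 3) (nat_lit 0x2400160013800be001000000004000000000000000000) (nat_lit 0x0) (nat_lit 0x400020001000000000000180000000000000000000000000) := T_7 (nat_lit 104) (nat_lit 103) (nat_lit 0) (nat_lit 5) (nat_lit 7) L51225 (by decide +kernel)
theorem L51227 : W_7 (nat_lit 4) (nat_lit 0x2400160013800be001000000000000000000000000000) (nat_lit 0x0) (nat_lit 0x400020001000000000000180080004000000000000000000) := T_7 (nat_lit 74) (nat_lit 91) (nat_lit 5) (nat_lit 6) (nat_lit 4) L51226 (by decide +kernel)
theorem L51228 : W_7 (nat_lit 5) (nat_lit 0x2400160013800bc001000000000000000000000000000) (nat_lit 0x0) (nat_lit 0x400020001000000003000180080004000000000000000000) := T_7 (nat_lit 121) (nat_lit 120) (nat_lit 3) (nat_lit 1) (nat_lit 7) L51227 (by decide +kernel)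
theorem L51229 : W_7 (nat_lit 6) (nat_lit 0x2400160013800bc000000000000000000000000000000) (nat_lit 0x0) (nat_lit 0x400020001000000003003180080004000000000000000000) := T_7 (nat_lit 108) (nat_lit 109) (nat_lit 2) (nat_lit 3) (nat_lit 7) L51228 (by decide +kernel)
theorem L51230 : W_7 (nat_lit 7) (nat_lit 0x2400160013800b8000000000000000000000000000000) (nat_lit 0x0) (nat_lit 0x400020001000000007003380080004000000000000000000) := T_7 (nat_lit 122) (nat_lit 105) (nat_lit 4) (nat_lit 4) (nat_lit 10) L51229 (by decide +kernel)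
theorem L51231 : W_7 (nat_lit 8) (nat_lit 0x2000160013800b8000000000000000000000000000000) (nat_lit 0x0) (nat_lit 0xc00060001000000007003380080004000000000000000000) := T_7 (nat_lit 174) (nat_lit 191) (nat_lit 6) (nat_lit 4) (nat_lit 11) L51230 (by decide +kernel)
theorem L51232 : W_7 (nat_lit 9) (nat_lit 0x2000140013800b8000000000000000000000000000000) (nat_lit 0x0) (nat_lit 0xc0006000b000000007003380080004000000000000000000) := T_7 (nat_lit 157) (nat_lit 159) (nat_lit 0) (nat_lit 7) (nat_lit 9) L51231 (by decide +kernel)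
theorem L51233 : W_7 (nat_lit 10) (nat_lit 0x2000140013000b8000000000000000000000000000000) (nat_lit 0x0) (nat_lit 0xc0006000b0000c0007003380080004000000000000000000) := T_7 (nat_lit 139) (nat_lit 138) (nat_lit 2) (nat_lit 2) (nat_lit 8) L51232 (by decide +kernel)
theorem L51234 : W_7 (nat_lit 11) (nat_lit 0x200014001300098000000000000000000000000000000) (nat_lit 0x0) (nat_lit 0xc0006000b0000c0067003380080004000000000000000000) := T_7 (nat_lit 125) (nat_lit 126) (nat_lit 1) (nat_lit 8) (nat_lit 7) L51233 (by decide +kernel)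
theorem L51235 : W_7 (nat_lit 12) (nat_lit 0x200014001300088000000000000000000000000000000) (nat_lit 0x0) (nat_lit 0x3c001e000b8000c0077003380080004000000000000000000) := Q_7 (nat_lit 124) (C_7 L51221 (C_7 L51224 (C_7 L51234 N_7))) (by decide +kernel)
theorem L51236 : W_7 (nat_lit 13) (nat_lit 0x200014001300080000000000000000000000000000000) (nat_lit 0x0) (nat_lit 0x3c001e000b8008c007f0037800b0004000000000000000000) := Q_7 (nat_lit 123) (C_7 L51217 (C_7 L51219 (C_7 L51235 N_7))) (by decide +kernel)
theorem L51237 : W_7 (nat_lit 14) (nat_lit 0x200010001300080000000000000000000000000000000) (nat_lit 0x0) (nat_lit 0xa0007e003e001f002f8008c007f0037800b0004000000000000000000) := Q_7 (nat_lit 158) (C_7 L51201 (C_7 L38631 (C_7 L51215 (C_7 L51236 N_7)))) (by decide +kernel)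
theorem L51238 : W_7 (nat_lit 2) (nat_lit 0x1000280014001300090000000000000000000000000000000) (nat_lit 0x0) (nat_lit 0x40002000100000000000000000000000000000000000000000000) := D_7 (nat_lit 193) (nat_lit 176) (nat_lit 210) (nat_lit 7) (nat_lit 5) (nat_lit 7) (nat_lit 7) (nat_lit 5) (nat_lit 8) (by decide +kernel)
theorem L51239 : W_7 (nat_lit 3) (nat_lit 0x280014001300090000000000000000000000000000000) (nat_lit 0x0) (nat_lit 0x40003000100000000000008000000000000000000000000000000) := T_7 (nat_lit 192) (nat_lit 123) (nat_lit 4) (nat_lit 5) (nat_lit 11) L51238 (by decide +kernel)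
theorem L51240 : W_7 (nat_lit 2) (nat_lit 0x1000280014001300090000000000000000000000000000000) (nat_lit 0x0) (nat_lit 0x10000800040000000000000000000000000000000000000000000) := D_7 (nat_lit 191) (nat_lit 174) (nat_lit 208) (nat_lit 5) (nat_lit 5) (nat_lit 7) (nat_lit 5) (nat_lit 5) (nat_lit 8) (by decide +kernel)
theorem L51241 : W_7 (nat_lit 3) (nat_lit 0x280014001300090000000000000000000000000000000) (nat_lit 0x0) (nat_lit 0x10001800040000000000008000000000000000000000000000000) := T_7 (nat_lit 192) (nat_lit 123) (nat_lit 4) (nat_lit 5) (nat_lit 11) L51240 (by decide +kernel)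
theorem L51242 : W_7 (nat_lit 5) (nat_lit 0x200014001300090000000000000000000000000000000) (nat_lit 0x0) (nat_lit 0x500038001c0020000000068000000000000000000000000000000) := Q_7 (nat_lit 175) (C_7 L50168 (C_7 L51239 (C_7 L51241 N_7))) (by decide +kernel)
theorem L51243 : W_7 (nat_lit 2) (nat_lit 0x2000140013000d8000c00000000000000000000000000) (nat_lit 0x0) (nat_lit 0x2000000000000000040002000000000000000000) := D_7 (nat_lit 90) (nat_lit 157) (nat_lit 73) (nat_lit 6) (nat_lit 4) (nat_lit 9) (nat_lit 5) (nat_lit 5) (nat_lit 4) (by decide +kernel)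
theorem L51244 : W_7 (nat_lit 3) (nat_lit 0x2000140013000d0000c00000000000000000000000000) (nat_lit 0x0) (nat_lit 0x80002000000008000000040002000000000000000000) := T_7 (nat_lit 123) (nat_lit 175) (nat_lit 4) (nat_lit 5) (nat_lit 10) L51243 (by decide +kernel)
theorem L51245 : W_7 (nat_lit 4) (nat_lit 0x2000140013000d0000800000000000000000000000000) (nat_lit 0x0) (nat_lit 0x80002000000008000400060002000000000000000000) := T_7 (nat_lit 106) (nat_lit 89) (nat_lit 4) (nat_lit 5) (nat_lit 9) L51244 (by decide +kernel)
theorem L51246 : W_7 (nat_lit 5) (nat_lit 0x200014001300090000800000000000000000000000000) (nat_lit 0x0) (nat_lit 0x80002000000068000400060002000000000000000000) := T_7 (nat_lit 126) (nat_lit 125) (nat_lit 1) (nat_lit 8) (nat_lit 7) L51245 (by decide +kernel)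
theorem L51247 : W_7 (nat_lit 3) (nat_lit 0x200014001300090000800000000000000000000000000) (nat_lit 0x0) (nat_lit 0x2000000000000400060001000000000000000000) := T_7 (nat_lit 90) (nat_lit 157) (nat_lit 5) (nat_lit 5) (nat_lit 5) L43223 (by decide +kernel)
theorem L51248 : W_7 (nat_lit 5) (nat_lit 0x2000140013000d0000800000000000000000000000000) (nat_lit 0x0) (nat_lit 0x80004000e0007000200000000000000) := T_7 (nat_lit 89) (nat_lit 106) (nat_lit 4) (nat_lit 5) (nat_lit 9) L40669 (by decide +kernel)
theorem L51249 : W_7 (nat_lit 6) (nat_lit 0x200014001300090000800000000000000000000000000) (nat_lit 0x0) (nat_lit 0x680004000e0007000200000000000000) := T_7 (nat_lit 126) (nat_lit 125) (nat_lit 1) (nat_lit 8) (nat_lit 7) L51248 (by decide +kernel)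
theorem L51250 : W_7 (nat_lit 9) (nat_lit 0x200014001300090000000000000000000000000000000) (nat_lit 0x0) (nat_lit 0x200070003800180002000000068000c000e0007000280000000000000) := Q_7 (nat_lit 107) (C_7 L51246 (C_7 L51247 (C_7 L51249 (C_7 L40666 (C_7 L40678 (C_7 L40683 N_7)))))) (by decide +kernel)
theorem L51251 : W_7 (nat_lit 7) (nat_lit 0x200014001300090000000000000000000000000000000) (nat_lit 0x0) (nat_lit 0xa000700038001c0023000000060000800000000000000000000000000) := Q_7 (nat_lit 175) (C_7 L50168 (C_7 L50177 (C_7 L38639 (C_7 L50172 (C_7 L50182 (C_7 L50185 N_7)))))) (by decide +kernel)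
theorem L51252 : W_7 (nat_lit 2) (nat_lit 0x2000170013400b8000e00000000000000000000000000) (nat_lit 0x0) (nat_lit 0xc00020000000000000000000000000000000000) := D_7 (nat_lit 155) (nat_lit 154) (nat_lit 137) (nat_lit 2) (nat_lit 1) (nat_lit 9) (nat_lit 0) (nat_lit 5) (nat_lit 9) (by decide +kernel)
theorem L51253 : W_7 (nat_lit 3) (nat_lit 0x2000160013400b8000e00000000000000000000000000) (nat_lit 0x0) (nat_lit 0x20001c00020000000000000000000000000000000000) := T_7 (nat_lit 156) (nat_lit 173) (nat_lit 5) (nat_lit 4) (nat_lit 6) L51252 (by decide +kernel)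
theorem L51254 : W_7 (nat_lit 4) (nat_lit 0x2000160013400b0000e00000000000000000000000000) (nat_lit 0x0) (nat_lit 0x20001c00020008000000010000000000000000000000) := T_7 (nat_lit 123) (nat_lit 88) (nat_lit 4) (nat_lit 4) (nat_lit 9) L51253 (by decide +kernel)
theorem L51255 : W_7 (nat_lit 5) (nat_lit 0x2000160013400b0000c00000000000000000000000000) (nat_lit 0x0) (nat_lit 0x20001c00020008000300010000000000000000000000) := T_7 (nat_lit 105) (nat_lit 104) (nat_lit 3) (nat_lit 2) (nat_lit 6) L51254 (by decide +kernel)
theorem L51256 : W_7 (nat_lit 6) (nat_lit 0x2000160013400b0000800000000000000000000000000) (nat_lit 0x0) (nat_lit 0x20001c00020008000700030000000000000000000000) := T_7 (nat_lit 106) (nat_lit 89) (nat_lit 4) (nat_lit 5) (nat_lit 9) L51255 (by decide +kernel)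
theorem L51257 : W_7 (nat_lit 7) (nat_lit 0x2000160013000b0000800000000000000000000000000) (nat_lit 0x0) (nat_lit 0x20001c000e0008000700030000000000000000000000) := T_7 (nat_lit 138) (nat_lit 139) (nat_lit 2) (nat_lit 2) (nat_lit 8) L51256 (by decide +kernel)
theorem L51258 : W_7 (nat_lit 8) (nat_lit 0x2000140013000b0000800000000000000000000000000) (nat_lit 0x0) (nat_lit 0x60003c000e0008000700030000000000000000000000) := T_7 (nat_lit 157) (nat_lit 174) (nat_lit 5) (nat_lit 5) (nat_lit 6) L51257 (by decide +kernel)
theorem L51259 : W_7 (nat_lit 9) (nat_lit 0x200014001300090000800000000000000000000000000) (nat_lit 0x0) (nat_lit 0x60003c000e0068000700030000000000000000000000) := T_7 (nat_lit 125) (nat_lit 126) (nat_lit 1) (nat_lit 8) (nat_lit 7) L51258 (by decide +kernel)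
theorem L51260 : W_7 (nat_lit 2) (nat_lit 0x200014001300090000800000000000000000000000000) (nat_lit 0x0) (nat_lit 0x40002000000000000000040000000000000000000000) := D_7 (nat_lit 157) (nat_lit 90) (nat_lit 174) (nat_lit 5) (nat_lit 5) (nat_lit 5) (nat_lit 5) (nat_lit 5) (nat_lit 6) (by decide +kernel)
theorem L51261 : W_7 (nat_lit 10) (nat_lit 0x200014001300090000000000000000000000000000000) (nat_lit 0x0) (nat_lit 0x60003c000e0068000f000f0007000280000000000000) := Q_7 (nat_lit 107) (C_7 L40666 (C_7 L51247 (C_7 L51249 (C_7 L51259 (C_7 L51260 N_7))))) (by decide +kernel)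
theorem L51262 : W_7 (nat_lit 5) (nat_lit 0x200014001300090000000000000000000000000000000) (nat_lit 0x0) (nat_lit 0x500038001c0023000000008000800000000000000000000000000) := Q_7 (nat_lit 175) (C_7 L50185 (C_7 L51239 (C_7 L51241 N_7))) (by decide +kernel)
theorem L51263 : W_7 (nat_lit 11) (nat_lit 0x200014001300080000000000000000000000000000000) (nat_lit 0x0) (nat_lit 0xa000700038001e0023c000e0078000f000f0007000280000000000000) := Q_7 (nat_lit 124) (C_7 L51242 (C_7 L51250 (C_7 L51251 (C_7 L51261 (C_7 L51262 N_7))))) (by decide +kernel)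
theorem L51264 : W_7 (nat_lit 2) (nat_lit 0x38001c001300098000000000000000000000000000000) (nat_lit 0x0) (nat_lit 0x800060000000000000000000000000000000000000000000) := D_7 (nat_lit 174) (nat_lit 191) (nat_lit 173) (nat_lit 5) (nat_lit 5) (nat_lit 7) (nat_lit 2) (nat_lit 3) (nat_lit 10) (by decide +kernel)
theorem L51265 : W_7 (nat_lit 3) (nat_lit 0x380014001300098000000000000000000000000000000) (nat_lit 0x0) (nat_lit 0x800060008000000000000800000000000000000000000000) := T_7 (nat_lit 159) (nat_lit 107) (nat_lit 7) (nat_lit 5) (nat_lit 6) L51264 (by decide +kernel)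
theorem L51266 : W_7 (nat_lit 4) (nat_lit 0x380014001300090000000000000000000000000000000) (nat_lit 0x0) (nat_lit 0x800060008000000008000c00000000000000000000000000) := T_7 (nat_lit 123) (nat_lit 106) (nat_lit 4) (nat_lit 5) (nat_lit 10) L51265 (by decide +kernel)
theorem L51267 : W_7 (nat_lit 5) (nat_lit 0x380014001300080000000000000000000000000000000) (nat_lit 0x0) (nat_lit 0x2800060008000000018000c00000000000000000000000000) := T_7 (nat_lit 124) (nat_lit 193) (nat_lit 7) (nat_lit 5) (nat_lit 7) L51266 (by decide +kernel)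
theorem L51268 : W_7 (nat_lit 6) (nat_lit 0x280014001300080000000000000000000000000000000) (nat_lit 0x0) (nat_lit 0x2800160028000000018000c00000000000000000000000000) := Q_7 (nat_lit 176) (C_7 L36915 (C_7 L51154 (C_7 L51152 (C_7 L51267 N_7)))) (by decide +kernel)
theorem L51269 : W_7 (nat_lit 11) (nat_lit 0x200014001300080000000000000000000000000000000) (nat_lit 0x0) (nat_lit 0xa0007e003e001f00290000c0018000c00000000000000000000000000) := Q_7 (nat_lit 175) (C_7 L50082 (C_7 L51210 (C_7 L51146 (C_7 L51151 (C_7 L50086 (C_7 L51268 N_7)))))) (by decide +kernel)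
theorem L51270 : W_7 (nat_lit 2) (nat_lit 0x200014001300088000400000000000000000000000000) (nat_lit 0x0) (nat_lit 0x1000080002000000000000000000000000000000000000000) := D_7 (nat_lit 175) (nat_lit 192) (nat_lit 157) (nat_lit 4) (nat_lit 5) (nat_lit 11) (nat_lit 7) (nat_lit 4) (nat_lit 6) (by decide +kernel)
theorem L51271 : W_7 (nat_lit 3) (nat_lit 0x200014001300088000000000000000000000000000000) (nat_lit 0x0) (nat_lit 0x1000080002000000000000400020000000000000000000000) := T_7 (nat_lit 106) (nat_lit 89) (nat_lit 7) (nat_lit 4) (nat_lit 5) L51270 (by decide +kernel)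
theorem L51272 : W_7 (nat_lit 2) (nat_lit 0x240016001300088000600000000000000000000000000) (nat_lit 0x0) (nat_lit 0x10000800040000000000000000000000) := D_7 (nat_lit 107) (nat_lit 124) (nat_lit 90) (nat_lit 6) (nat_lit 4) (nat_lit 10) (nat_lit 6) (nat_lit 4) (nat_lit 9) (by decide +kernel)
theorem L51273 : W_7 (nat_lit 3) (nat_lit 0x200016001300088000600000000000000000000000000) (nat_lit 0x0) (nat_lit 0x40000000000014000800040000000000000000000000) := T_7 (nat_lit 174) (nat_lit 122) (nat_lit 4) (nat_lit 4) (nat_lit 10) L51272 (by decide +kernel)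
theorem L51274 : W_7 (nat_lit 4) (nat_lit 0x200016001300088000400000000000000000000000000) (nat_lit 0x0) (nat_lit 0x40000000000014000a00050000000000000000000000) := T_7 (nat_lit 105) (nat_lit 88) (nat_lit 4) (nat_lit 4) (nat_lit 9) L51273 (by decide +kernel)
theorem L51275 : W_7 (nat_lit 5) (nat_lit 0x200016001300088000000000000000000000000000000) (nat_lit 0x0) (nat_lit 0x40000000000014000e00070000000000000000000000) := T_7 (nat_lit 106) (nat_lit 89) (nat_lit 7) (nat_lit 4) (nat_lit 5) L51274 (by decide +kernel)
theorem L51276 : W_7 (nat_lit 6) (nat_lit 0x200014001300088000000000000000000000000000000) (nat_lit 0x0) (nat_lit 0x4000a000880014000e00070000000000000000000000) := Q_7 (nat_lit 157) (C_7 L51218 (C_7 L51275 N_7)) (by decide +kernel)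
theorem L51277 : W_7 (nat_lit 2) (nat_lit 0x30001c0013800b8000000000000000000000000000000) (nat_lit 0x0) (nat_lit 0x40002000080000000000000000000000000000000000000000000) := D_7 (nat_lit 193) (nat_lit 175) (nat_lit 210) (nat_lit 7) (nat_lit 5) (nat_lit 7) (nat_lit 4) (nat_lit 6) (nat_lit 12) (by decide +kernel)
theorem L51278 : W_7 (nat_lit 3) (nat_lit 0x20001c0013800b8000000000000000000000000000000) (nat_lit 0x0) (nat_lit 0x40002000180000000000000000800000000000000000000000000) := T_7 (nat_lit 176) (nat_lit 107) (nat_lit 7) (nat_lit 5) (nat_lit 6) L51277 (by decide +kernel)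
theorem L51279 : W_7 (nat_lit 4) (nat_lit 0x2000140013800b8000000000000000000000000000000) (nat_lit 0x0) (nat_lit 0x4000200018000a000000000000800000000000000000000000000) := T_7 (nat_lit 159) (nat_lit 157) (nat_lit 0) (nat_lit 7) (nat_lit 9) L51278 (by decide +kernel)
theorem L51280 : W_7 (nat_lit 5) (nat_lit 0x2000140013000b8000000000000000000000000000000) (nat_lit 0x0) (nat_lit 0x4000200018000a0000c0000000800000000000000000000000000) := T_7 (nat_lit 139) (nat_lit 138) (nat_lit 2) (nat_lit 2) (nat_lit 8) L51279 (by decide +kernel)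
theorem L51281 : W_7 (nat_lit 6) (nat_lit 0x200014001300098000000000000000000000000000000) (nat_lit 0x0) (nat_lit 0x4000200018000a0000c0060000800000000000000000000000000) := T_7 (nat_lit 125) (nat_lit 126) (nat_lit 1) (nat_lit 8) (nat_lit 7) L51280 (by decide +kernel)
theorem L51282 : W_7 (nat_lit 2) (nat_lit 0x3c00140013000d8000000000000000000000000000000) (nat_lit 0x0) (nat_lit 0x3000000000000800000000000000000000000000) := D_7 (nat_lit 157) (nat_lit 156) (nat_lit 107) (nat_lit 0) (nat_lit 7) (nat_lit 10) (nat_lit 6) (nat_lit 4) (nat_lit 10) (by decide +kernel)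
theorem L51283 : W_7 (nat_lit 3) (nat_lit 0x2c00140013000d8000000000000000000000000000000) (nat_lit 0x0) (nat_lit 0x2000100003000000000000800000000000000000000000000) := T_7 (nat_lit 176) (nat_lit 193) (nat_lit 7) (nat_lit 5) (nat_lit 7) L51282 (by decide +kernel)
theorem L51284 : W_7 (nat_lit 4) (nat_lit 0x2800140013000d8000000000000000000000000000000) (nat_lit 0x0) (nat_lit 0x2800140003000000000000800000000000000000000000000) := T_7 (nat_lit 174) (nat_lit 191) (nat_lit 5) (nat_lit 5) (nat_lit 7) L51283 (by decide +kernel)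
theorem L51285 : W_7 (nat_lit 5) (nat_lit 0x2000140013000d8000000000000000000000000000000) (nat_lit 0x0) (nat_lit 0x38001c0003000000000000800000000000000000000000000) := T_7 (nat_lit 175) (nat_lit 192) (nat_lit 4) (nat_lit 5) (nat_lit 11) L51284 (by decide +kernel)
theorem L51286 : W_7 (nat_lit 6) (nat_lit 0x200014001300098000000000000000000000000000000) (nat_lit 0x0) (nat_lit 0x38001c0003000000060000800000000000000000000000000) := T_7 (nat_lit 126) (nat_lit 125) (nat_lit 1) (nat_lit 8) (nat_lit 7) L51285 (by decide +kernel)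
theorem L51287 : W_7 (nat_lit 2) (nat_lit 0x2000160013800b8000000000000000000000000000000) (nat_lit 0x0) (nat_lit 0x800040000000000000000800000000000000000000000000) := D_7 (nat_lit 174) (nat_lit 107) (nat_lit 191) (nat_lit 6) (nat_lit 4) (nat_lit 10) (nat_lit 6) (nat_lit 4) (nat_lit 11) (by decide +kernel)
theorem L51288 : W_7 (nat_lit 3) (nat_lit 0x2000140013800b8000000000000000000000000000000) (nat_lit 0x0) (nat_lit 0x80004000a000000000000800000000000000000000000000) := T_7 (nat_lit 157) (nat_lit 159) (nat_lit 0) (nat_lit 7) (nat_lit 9) L51287 (by decide +kernel)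
theorem L51289 : W_7 (nat_lit 4) (nat_lit 0x2000140013000b8000000000000000000000000000000) (nat_lit 0x0) (nat_lit 0x80004000a0000c0000000800000000000000000000000000) := T_7 (nat_lit 139) (nat_lit 138) (nat_lit 2) (nat_lit 2) (nat_lit 8) L51288 (by decide +kernel)
theorem L51290 : W_7 (nat_lit 5) (nat_lit 0x200014001300098000000000000000000000000000000) (nat_lit 0x0) (nat_lit 0x80004000a0000c0060000800000000000000000000000000) := T_7 (nat_lit 125) (nat_lit 126) (nat_lit 1) (nat_lit 8) (nat_lit 7) L51289 (by decide +kernel)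
theorem L51291 : W_7 (nat_lit 2) (nat_lit 0x3c00140013000d8000000000000000000000000000000) (nat_lit 0x0) (nat_lit 0x20008000000000000800000000000000000000000000) := D_7 (nat_lit 159) (nat_lit 107) (nat_lit 173) (nat_lit 7) (nat_lit 5) (nat_lit 6) (nat_lit 2) (nat_lit 3) (nat_lit 10) (by decide +kernel)
theorem L51292 : W_7 (nat_lit 3) (nat_lit 0x2c00140013000d8000000000000000000000000000000) (nat_lit 0x0) (nat_lit 0x2000120008000000000000800000000000000000000000000) := T_7 (nat_lit 176) (nat_lit 193) (nat_lit 7) (nat_lit 5) (nat_lit 7) L51291 (by decide +kernel)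
theorem L51293 : W_7 (nat_lit 4) (nat_lit 0x2800140013000d8000000000000000000000000000000) (nat_lit 0x0) (nat_lit 0x2800160008000000000000800000000000000000000000000) := T_7 (nat_lit 174) (nat_lit 191) (nat_lit 5) (nat_lit 5) (nat_lit 7) L51292 (by decide +kernel)
theorem L51294 : W_7 (nat_lit 5) (nat_lit 0x2000140013000d8000000000000000000000000000000) (nat_lit 0x0) (nat_lit 0x38001e0008000000000000800000000000000000000000000) := T_7 (nat_lit 175) (nat_lit 192) (nat_lit 4) (nat_lit 5) (nat_lit 11) L51293 (by decide +kernel)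
theorem L51295 : W_7 (nat_lit 6) (nat_lit 0x200014001300098000000000000000000000000000000) (nat_lit 0x0) (nat_lit 0x38001e0008000000060000800000000000000000000000000) := T_7 (nat_lit 126) (nat_lit 125) (nat_lit 1) (nat_lit 8) (nat_lit 7) L51294 (by decide +kernel)
theorem L51296 : W_7 (nat_lit 2) (nat_lit 0x3c0014001300098000000000000000000000000000000) (nat_lit 0x0) (nat_lit 0x20008000000000000800000000000000000000000000) := D_7 (nat_lit 159) (nat_lit 173) (nat_lit 107) (nat_lit 2) (nat_lit 3) (nat_lit 10) (nat_lit 7) (nat_lit 5) (nat_lit 6) (by decide +kernel)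
theorem L51297 : W_7 (nat_lit 3) (nat_lit 0x2c0014001300098000000000000000000000000000000) (nat_lit 0x0) (nat_lit 0x2000120008000000000000800000000000000000000000000) := T_7 (nat_lit 176) (nat_lit 193) (nat_lit 7) (nat_lit 5) (nat_lit 7) L51296 (by decide +kernel)
theorem L51298 : W_7 (nat_lit 4) (nat_lit 0x280014001300098000000000000000000000000000000) (nat_lit 0x0) (nat_lit 0x2800160008000000000000800000000000000000000000000) := T_7 (nat_lit 174) (nat_lit 191) (nat_lit 5) (nat_lit 5) (nat_lit 7) L51297 (by decide +kernel)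
theorem L51299 : W_7 (nat_lit 5) (nat_lit 0x200014001300098000000000000000000000000000000) (nat_lit 0x0) (nat_lit 0x38001e0008000000000000800000000000000000000000000) := T_7 (nat_lit 175) (nat_lit 192) (nat_lit 4) (nat_lit 5) (nat_lit 11) L51298 (by decide +kernel)
theorem L51300 : W_7 (nat_lit 2) (nat_lit 0x10002600160013800be000000000000000000000000000000) (nat_lit 0x0) (nat_lit 0x1000000000000180000000000000000000000000) := D_7 (nat_lit 104) (nat_lit 103) (nat_lit 156) (nat_lit 0) (nat_lit 5) (nat_lit 7) (nat_lit 4) (nat_lit 3) (nat_lit 10) (by decide +kernel)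
theorem L51301 : W_7 (nat_lit 3) (nat_lit 0x10002400160013800be000000000000000000000000000000) (nat_lit 0x0) (nat_lit 0x400020001000000000000180000000000000000000000000) := T_7 (nat_lit 173) (nat_lit 190) (nat_lit 5) (nat_lit 4) (nat_lit 7) L51300 (by decide +kernel)
theorem L51302 : W_7 (nat_lit 4) (nat_lit 0x10002400160013800bc000000000000000000000000000000) (nat_lit 0x0) (nat_lit 0x400020001000000003000180000000000000000000000000) := T_7 (nat_lit 121) (nat_lit 120) (nat_lit 3) (nat_lit 1) (nat_lit 7) L51301 (by decide +kernel)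
theorem L51303 : W_7 (nat_lit 5) (nat_lit 0x10002400160013800b8000000000000000000000000000000) (nat_lit 0x0) (nat_lit 0x400020001000000007000380000000000000000000000000) := T_7 (nat_lit 122) (nat_lit 105) (nat_lit 4) (nat_lit 4) (nat_lit 10) L51302 (by decide +kernel)
theorem L51304 : W_7 (nat_lit 6) (nat_lit 0x10002000160013800b8000000000000000000000000000000) (nat_lit 0x0) (nat_lit 0xc00060001000000007000380000000000000000000000000) := T_7 (nat_lit 174) (nat_lit 191) (nat_lit 6) (nat_lit 4) (nat_lit 11) L51303 (by decide +kernel)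
theorem L51305 : W_7 (nat_lit 7) (nat_lit 0x10002000140013800b8000000000000000000000000000000) (nat_lit 0x0) (nat_lit 0xc0006000b000000007000380000000000000000000000000) := T_7 (nat_lit 157) (nat_lit 159) (nat_lit 0) (nat_lit 7) (nat_lit 9) L51304 (by decide +kernel)
theorem L51306 : W_7 (nat_lit 8) (nat_lit 0x10002000140013000b8000000000000000000000000000000) (nat_lit 0x0) (nat_lit 0xc0006000b0000c0007000380000000000000000000000000) := T_7 (nat_lit 139) (nat_lit 138) (nat_lit 2) (nat_lit 2) (nat_lit 8) L51305 (by decide +kernel)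
theorem L51307 : W_7 (nat_lit 9) (nat_lit 0x1000200014001300098000000000000000000000000000000) (nat_lit 0x0) (nat_lit 0xc0006000b0000c0067000380000000000000000000000000) := T_7 (nat_lit 125) (nat_lit 126) (nat_lit 1) (nat_lit 8) (nat_lit 7) L51306 (by decide +kernel)
theorem L51308 : W_7 (nat_lit 10) (nat_lit 0x200014001300098000000000000000000000000000000) (nat_lit 0x0) (nat_lit 0x1c000e000b0000c0067000380000000000000000000000000) := T_7 (nat_lit 192) (nat_lit 175) (nat_lit 4) (nat_lit 5) (nat_lit 11) L51307 (by decide +kernel)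
theorem L51309 : W_7 (nat_lit 11) (nat_lit 0x200014001300088000000000000000000000000000000) (nat_lit 0x0) (nat_lit 0x40003c001e000b0000c0077000b80000000000000000000000000) := Q_7 (nat_lit 124) (C_7 L51281 (C_7 L51286 (C_7 L51290 (C_7 L51295 (C_7 L51299 (C_7 L51308 N_7)))))) (by decide +kernel)
theorem L51310 : W_7 (nat_lit 12) (nat_lit 0x200014001300080000000000000000000000000000000) (nat_lit 0x0) (nat_lit 0x40003c001e000b0008c007f000f80070000000000000000000000) := Q_7 (nat_lit 123) (C_7 L51217 (C_7 L51271 (C_7 L51276 (C_7 L51309 N_7)))) (by decide +kernel)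
theorem L51311 : W_7 (nat_lit 13) (nat_lit 0x200010001300080000000000000000000000000000000) (nat_lit 0x0) (nat_lit 0xa0007e003e001f002fc008e007f000f800f0007000280000000000000) := Q_7 (nat_lit 158) (C_7 L51263 (C_7 L38631 (C_7 L51269 (C_7 L51310 (C_7 L40522 N_7))))) (by decide +kernel)
theorem L51312 : W_7 (nat_lit 16) (nat_lit 0x200010001200080000000000000000000000000000000) (nat_lit 0x4000400000002400000004000000000000000000000000000) (nat_lit 0xe000fc00ff007f807fc0ffe03ff03ff83ffc07fe07ff003f001f800f00000) := Q_7 (nat_lit 140) (C_7 L40523 (C_7 L40567 (C_7 L40596 (C_7 L40621 (C_7 L40696 (C_7 L41688 (C_7 L42036 (C_7 L42043 (C_7 L43686 (C_7 L48980 (C_7 L49865 (C_7 L50061 (C_7 L50104 (C_7 L50140 (C_7 L50196 (C_7 L51127 (C_7 L51178 (C_7 L51199 (C_7 L51237 (C_7 L51311 N_7)))))))))))))))))))) (by decide +kernel)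
end Crest.Agent.Helper32.Snaky.R1_0
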