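import Crest.Agent.Helper32.Snaky.Gen.R1_0_p4
set_option autoImplicit false
set_option maxRecDepth 100000
set_option linter.all false
set_option Elab.async false
namespace Crest.Agent.Helper32.Snaky.R1_0
@[reducible] def W_8 (d M Bz Z : Nat) : Prop := Crest.Agent.Helper32.Snaky.Wins (nat_lit 17) d M Bz Z
theorem D_8 {d M Bz Z : Nat} (m t1 t2 o1 x1 y1 o2 x2 y2 : Nat) (h : Crest.Agent.Helper32.Snaky.chkDoubleC (nat_lit 17) d M Bz Z m t1 t2 o1 x1 y1 o2 x2 y2 = true) : W_8 d M Bz Z := Crest.Agent.Helper32.Snaky.doubleC m t1 t2 o1 x1 y1 o2 x2 y2 h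
theorem T_8 {d M Bz Z cd cM cBz cZ : Nat} (m t o x y : Nat) (child : W_8 cd cM cBz cZ) (h : Crest.Agent.Helper32.Snaky.chkThreatC (nat_lit 17) d M Bz Z cd cM cBz cZ m t o x y = true) : W_8 d M Bz Z := Crest.Agent.Helper32.Snaky.threatC m t o x y child h
theorem Q_8 {d M Bz Z : Nat} (m : Nat) {l : List Crest.Agent.Helper32.Snaky.Spec} (kids : Crest.Agent.Helper32.Snaky.AllWins (nat_lit 17) l) (h : Crest.Agent.Helper32.Snaky.chkQuiet d M Bz Z m l = true) : W_8 d M Bz Z := Crest.Agent.Helper32.Snaky.quiet m kids h
theorem C_8 {cd cM cBz cZ : Nat} {l : List Crest.Agent.Helper32.Snaky.Spec} (h : W_8 cd cM cBz cZ) (hl : Crest.Agent.Helper32.Snaky.AllWins (nat_lit 17) l) : Crest.Agent.Helper32.Snaky.AllWins (nat_lit 17) ((cd, cM, cBz, cZ) :: l) := Crest.Agent.Helper32.Snaky.AllWins.cons h hl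
theorem N_8 : Crest.Agent.Helper32.Snaky.AllWins (nat_lit 17) [] := Crest.Agent.Helper32.Snaky.AllWins.nil
theorem L51313 : W_8 (nat_lit 2) (nat_lit 0x2800080004000200010001200080000000000000000000000000000000) (nat_lit 0x0) (nat_lit 0x50001000000000000000000000000000000000000000000000000000000000) := D_8 (nat_lit 228) (nat_lit 246) (nat_lit 244) (nat_lit 7) (nat_lit 7) (nat_lit 10) (nat_lit 5) (nat_lit 7) (nat_lit 10) (by decide +kernel)
theorem L51314 : W_8 (nat_lit 3) (nat_lit 0x2000080004000200010001200080000000000000000000000000000000) (nat_lit 0x0) (nat_lit 0x50001800040000000000000000000000000000000000000000000000000000) := T_8 (nat_lit 227) (nat_lit 210) (nat_lit 5) (nat_lit 7) (nat_lit 9) L51313 (by decide +kernel)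
theorem L51315 : W_8 (nat_lit 4) (nat_lit 0x80004000200010001200080000000000000000000000000000000) (nat_lit 0x0) (nat_lit 0x50003800140000000000000000000000000000000000000000000000000000) := T_8 (nat_lit 229) (nat_lit 212) (nat_lit 7) (nat_lit 7) (nat_lit 9) L51314 (by decide +kernel)
theorem L51316 : W_8 (nat_lit 5) (nat_lit 0x4000200010001200080000000000000000000000000000000) (nat_lit 0x0) (nat_lit 0x500038001c0000000000020000000000000000000000000000000000000000) := T_8 (nat_lit 211) (nat_lit 161) (nat_lit 6) (nat_lit 7) (nat_lit 12) L51315 (by decide +kernel)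
theorem L51317 : W_8 (nat_lit 6) (nat_lit 0x200010001200080000000000000000000000000000000) (nat_lit 0x0) (nat_lit 0x500038001c0004000000020000800000000000000000000000000000000000) := T_8 (nat_lit 194) (nat_lit 143) (nat_lit 6) (nat_lit 7) (nat_lit 11) L51316 (by decide +kernel)
theorem L51327 : W_8 (nat_lit 7) (nat_lit 0x200010001a00080000000000000000000000000000000) (nat_lit 0x0) (nat_lit 0x200010000e00010007800380018000c000000000000000000) := Q_8 (nat_lit 126) (C_8 L51321 (C_8 L31808 (C_8 L51326 N_8))) (by decide +kernel)
theorem L51328 : W_8 (nat_lit 8) (nat_lit 0x200010001200080000000000000000000000000000000) (nat_lit 0x0) (nat_lit 0x600010000e00090007800380018000c000000000000000000) := T_8 (nat_lit 143) (nat_lit 194) (nat_lit 6) (nat_lit 7) (nat_lit 11) L51327 (by decide +kernel)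
theorem L51329 : W_8 (nat_lit 2) (nat_lit 0x6800e0001000280014001300080000000000000000000000000000000) (nat_lit 0x0) (nat_lit 0x4000000028000000000000000000000000000000000000000) := D_8 (nat_lit 161) (nat_lit 159) (nat_lit 194) (nat_lit 0) (nat_lit 8) (nat_lit 9) (nat_lit 6) (nat_lit 7) (nat_lit 12) (by decide +kernel)
theorem L51330 : W_8 (nat_lit 3) (nat_lit 0x680060001000280014001300080000000000000000000000000000000) (nat_lit 0x0) (nat_lit 0x180004000000028000000000000000000000000000000000000000) := T_8 (nat_lit 211) (nat_lit 212) (nat_lit 1) (nat_lit 8) (nat_lit 12) L51329 (by decide +kernel)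
theorem L51331 : W_8 (nat_lit 4) (nat_lit 0x600060001000280014001300080000000000000000000000000000000) (nat_lit 0x0) (nat_lit 0x180180004000000028000000000000000000000000000000000000000) := T_8 (nat_lit 223) (nat_lit 224) (nat_lit 2) (nat_lit 2) (nat_lit 13) L51330 (by decide +kernel)
theorem L51332 : W_8 (nat_lit 5) (nat_lit 0x200060001000280014001300080000000000000000000000000000000) (nat_lit 0x0) (nat_lit 0x4000580180004000000028000000000000000000000000000000000000000) := T_8 (nat_lit 226) (nat_lit 242) (nat_lit 5) (nat_lit 5) (nat_lit 10) L51331 (by decide +kernel)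
theorem L51333 : W_8 (nat_lit 6) (nat_lit 0x200020001000280014001300080000000000000000000000000000000) (nat_lit 0x0) (nat_lit 0x4000d801c0004000000028000000000000000000000000000000000000000) := T_8 (nat_lit 210) (nat_lit 227) (nat_lit 7) (nat_lit 5) (nat_lit 9) L51332 (by decide +kernel)
theorem L51334 : W_8 (nat_lit 7) (nat_lit 0x20001000280014001300080000000000000000000000000000000) (nat_lit 0x0) (nat_lit 0x4000f801d0004000000028000000000000000000000000000000000000000) := T_8 (nat_lit 225) (nat_lit 208) (nat_lit 5) (nat_lit 5) (nat_lit 9) L51333 (by decide +kernel)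
theorem L51335 : W_8 (nat_lit 8) (nat_lit 0x1000280014001300080000000000000000000000000000000) (nat_lit 0x0) (nat_lit 0x4000f801f000400000002a000000000000000000000000000000000000000) := T_8 (nat_lit 209) (nat_lit 157) (nat_lit 4) (nat_lit 5) (nat_lit 12) L51334 (by decide +kernel)
theorem L51336 : W_8 (nat_lit 9) (nat_lit 0x280014001300080000000000000000000000000000000) (nat_lit 0x0) (nat_lit 0x4000f801f000500000002a000000008000000000000000000000000000000) := T_8 (nat_lit 192) (nat_lit 123) (nat_lit 4) (nat_lit 5) (nat_lit 11) L51335 (by decide +kernel)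
theorem L51337 : W_8 (nat_lit 2) (nat_lit 0x80000000280034001300088000000000000000000000000000000) (nat_lit 0x0) (nat_lit 0x2000000010000400000000000000000000000000) := D_8 (nat_lit 106) (nat_lit 124) (nat_lit 157) (nat_lit 4) (nat_lit 5) (nat_lit 10) (nat_lit 7) (nat_lit 4) (nat_lit 6) (by decide +kernel)
theorem L51338 : W_8 (nat_lit 3) (nat_lit 0x80000000280034001300080000000000000000000000000000000) (nat_lit 0x0) (nat_lit 0x1000000002000000018000400000000000000000000000000) := T_8 (nat_lit 123) (nat_lit 192) (nat_lit 4) (nat_lit 5) (nat_lit 11) L51337 (by decide +kernel)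
theorem L51339 : W_8 (nat_lit 4) (nat_lit 0x280034001300080000000000000000000000000000000) (nat_lit 0x0) (nat_lit 0x80005000000002000000018000400000000000000000000000000) := T_8 (nat_lit 211) (nat_lit 194) (nat_lit 6) (nat_lit 7) (nat_lit 12) L51338 (by decide +kernel)
theorem L51340 : W_8 (nat_lit 5) (nat_lit 0x280014001300080000000000000000000000000000000) (nat_lit 0x0) (nat_lit 0x8000500000002a000000018000400000000000000000000000000) := T_8 (nat_lit 161) (nat_lit 159) (nat_lit 0) (nat_lit 8) (nat_lit 9) L51339 (by decide +kernel)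
theorem L51341 : W_8 (nat_lit 2) (nat_lit 0x2000e0001000280034001300080000000000000000000000000000000) (nat_lit 0x0) (nat_lit 0x4000400100000000000000000000000000000000000000000000000000000) := D_8 (nat_lit 226) (nat_lit 242) (nat_lit 212) (nat_lit 5) (nat_lit 5) (nat_lit 10) (nat_lit 1) (nat_lit 8) (nat_lit 12) (by decide +kernel)
theorem L51342 : W_8 (nat_lit 3) (nat_lit 0xe0001000280034001300080000000000000000000000000000000) (nat_lit 0x0) (nat_lit 0x4000600110000000000000000000000000000000000000000000000000000) := T_8 (nat_lit 225) (nat_lit 208) (nat_lit 5) (nat_lit 5) (nat_lit 9) L51341 (by decide +kernel)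
theorem L51343 : W_8 (nat_lit 4) (nat_lit 0xc0001000280034001300080000000000000000000000000000000) (nat_lit 0x0) (nat_lit 0x4000e00130000000000000000000000000000000000000000000000000000) := T_8 (nat_lit 209) (nat_lit 227) (nat_lit 7) (nat_lit 5) (nat_lit 9) L51342 (by decide +kernel)
theorem L51344 : W_8 (nat_lit 5) (nat_lit 0x80001000280034001300080000000000000000000000000000000) (nat_lit 0x0) (nat_lit 0x4000e00170002000000000000000000000000000000000000000000000000) := T_8 (nat_lit 210) (nat_lit 193) (nat_lit 7) (nat_lit 5) (nat_lit 8) L51343 (by decide +kernel)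
theorem L51345 : W_8 (nat_lit 6) (nat_lit 0x80000000280034001300080000000000000000000000000000000) (nat_lit 0x0) (nat_lit 0x4000e00170003000000000000000008000000000000000000000000000000) := T_8 (nat_lit 192) (nat_lit 123) (nat_lit 4) (nat_lit 5) (nat_lit 11) L51344 (by decide +kernel)
theorem L51346 : W_8 (nat_lit 7) (nat_lit 0x280034001300080000000000000000000000000000000) (nat_lit 0x0) (nat_lit 0x4000e001f0007000000000000000008000000000000000000000000000000) := T_8 (nat_lit 211) (nat_lit 194) (nat_lit 6) (nat_lit 7) (nat_lit 12) L51345 (by decide +kernel)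
theorem L51347 : W_8 (nat_lit 8) (nat_lit 0x280014001300080000000000000000000000000000000) (nat_lit 0x0) (nat_lit 0x4000e001f0007000000028000000008000000000000000000000000000000) := T_8 (nat_lit 161) (nat_lit 159) (nat_lit 0) (nat_lit 8) (nat_lit 9) L51346 (by decide +kernel)
theorem L51348 : W_8 (nat_lit 10) (nat_lit 0x280014001200080000000000000000000000000000000) (nat_lit 0x0) (nat_lit 0x4000f801f000700000002a0001c0018000400000000000000000000000000) := Q_8 (nat_lit 140) (C_8 L36340 (C_8 L51336 (C_8 L51340 (C_8 L35820 (C_8 L51347 N_8))))) (by decide +kernel)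
theorem L51349 : W_8 (nat_lit 2) (nat_lit 0x1000280014001200098000000000000000000000000000000) (nat_lit 0x0) (nat_lit 0x40002000100000000000000000000000000000000000000000000) := D_8 (nat_lit 193) (nat_lit 176) (nat_lit 210) (nat_lit 7) (nat_lit 5) (nat_lit 7) (nat_lit 7) (nat_lit 5) (nat_lit 8) (by decide +kernel)
theorem L51350 : W_8 (nat_lit 3) (nat_lit 0x280014001200098000000000000000000000000000000) (nat_lit 0x0) (nat_lit 0x40003000100000000100000000000000000000000000000000000) := T_8 (nat_lit 192) (nat_lit 140) (nat_lit 4) (nat_lit 5) (nat_lit 11) L51349 (by decide +kernel)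
theorem L51351 : W_8 (nat_lit 4) (nat_lit 0x280014001200090000000000000000000000000000000) (nat_lit 0x0) (nat_lit 0x40003000100000000100008000400000000000000000000000000) := T_8 (nat_lit 123) (nat_lit 106) (nat_lit 4) (nat_lit 5) (nat_lit 10) L51350 (by decide +kernel)
theorem L51352 : W_8 (nat_lit 2) (nat_lit 0x2800140012000f0000000000000000000000000000000) (nat_lit 0x0) (nat_lit 0x8000c00000000000000000000000000) := D_8 (nat_lit 106) (nat_lit 123) (nat_lit 107) (nat_lit 4) (nat_lit 5) (nat_lit 10) (nat_lit 0) (nat_lit 8) (nat_lit 7) (by decide +kernel)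
theorem L51353 : W_8 (nat_lit 3) (nat_lit 0x2800140012000b0000000000000000000000000000000) (nat_lit 0x0) (nat_lit 0x100048000c00000000000000000000000000) := T_8 (nat_lit 126) (nat_lit 140) (nat_lit 1) (nat_lit 8) (nat_lit 7) L51352 (by decide +kernel)
theorem L51354 : W_8 (nat_lit 4) (nat_lit 0x280014001200090000000000000000000000000000000) (nat_lit 0x0) (nat_lit 0x100068001c00000000000000000000000000) := T_8 (nat_lit 125) (nat_lit 108) (nat_lit 6) (nat_lit 5) (nat_lit 10) L51353 (by decide +kernel)
theorem L51355 : W_8 (nat_lit 2) (nat_lit 0x380014001200098001000000000000000000000000000) (nat_lit 0x0) (nat_lit 0x8000000000000800080000000000000000000000) := D_8 (nat_lit 107) (nat_lit 159) (nat_lit 91) (nat_lit 7) (nat_lit 5) (nat_lit 6) (nat_lit 6) (nat_lit 5) (nat_lit 9) (by decide +kernel)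
theorem L51356 : W_8 (nat_lit 3) (nat_lit 0x380014001200098000000000000000000000000000000) (nat_lit 0x0) (nat_lit 0x8000000020001800080000000000000000000000) := T_8 (nat_lit 108) (nat_lit 125) (nat_lit 6) (nat_lit 5) (nat_lit 10) L51355 (by decide +kernel)
theorem L51357 : W_8 (nat_lit 4) (nat_lit 0x280014001200098000000000000000000000000000000) (nat_lit 0x0) (nat_lit 0x2000100008000000020001800080000000000000000000000) := T_8 (nat_lit 176) (nat_lit 193) (nat_lit 7) (nat_lit 5) (nat_lit 7) L51356 (by decide +kernel)
theorem L51358 : W_8 (nat_lit 5) (nat_lit 0x280014001200090000000000000000000000000000000) (nat_lit 0x0) (nat_lit 0x2000100008000000028001c00080000000000000000000000) := T_8 (nat_lit 123) (nat_lit 106) (nat_lit 4) (nat_lit 5) (nat_lit 10) L51357 (by decide +kernel)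
theorem L51359 : W_8 (nat_lit 2) (nat_lit 0x3800140012000f0000000000000000000000000000000) (nat_lit 0x0) (nat_lit 0x8000000000000c00000000000000000000000000) := D_8 (nat_lit 107) (nat_lit 159) (nat_lit 106) (nat_lit 7) (nat_lit 5) (nat_lit 6) (nat_lit 0) (nat_lit 8) (nat_lit 7) (by decide +kernel)
theorem L51360 : W_8 (nat_lit 3) (nat_lit 0x3800140012000b0000000000000000000000000000000) (nat_lit 0x0) (nat_lit 0x8000100040000c00000000000000000000000000) := T_8 (nat_lit 126) (nat_lit 140) (nat_lit 1) (nat_lit 8) (nat_lit 7) L51359 (by decide +kernel)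
theorem L51361 : W_8 (nat_lit 4) (nat_lit 0x380014001200090000000000000000000000000000000) (nat_lit 0x0) (nat_lit 0x8000100060001c00000000000000000000000000) := T_8 (nat_lit 125) (nat_lit 108) (nat_lit 6) (nat_lit 5) (nat_lit 10) L51360 (by decide +kernel)
theorem L51362 : W_8 (nat_lit 5) (nat_lit 0x280014001200090000000000000000000000000000000) (nat_lit 0x0) (nat_lit 0x2000100008000100060001c00000000000000000000000000) := T_8 (nat_lit 176) (nat_lit 193) (nat_lit 7) (nat_lit 5) (nat_lit 7) L51361 (by decide +kernel)
theorem L51363 : W_8 (nat_lit 2) (nat_lit 0x3800140013000b0000800000000000000000000000000) (nat_lit 0x0) (nat_lit 0x40002000000000000000040000000000000000000000) := D_8 (nat_lit 157) (nat_lit 90) (nat_lit 174) (nat_lit 5) (nat_lit 5) (nat_lit 5) (nat_lit 5) (nat_lit 5) (nat_lit 6) (by decide +kernel)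
theorem L51364 : W_8 (nat_lit 3) (nat_lit 0x3800140013000b0000000000000000000000000000000) (nat_lit 0x0) (nat_lit 0x4000a000000000000800040000000000000000000000) := T_8 (nat_lit 107) (nat_lit 159) (nat_lit 7) (nat_lit 5) (nat_lit 6) L51363 (by decide +kernel)
theorem L51365 : W_8 (nat_lit 4) (nat_lit 0x3800140012000b0000000000000000000000000000000) (nat_lit 0x0) (nat_lit 0x4000a000100040000800040000000000000000000000) := T_8 (nat_lit 140) (nat_lit 126) (nat_lit 1) (nat_lit 8) (nat_lit 7) L51364 (by decide +kernel)
theorem L51366 : W_8 (nat_lit 5) (nat_lit 0x380014001200090000000000000000000000000000000) (nat_lit 0x0) (nat_lit 0x4000a000100060001800040000000000000000000000) := T_8 (nat_lit 125) (nat_lit 108) (nat_lit 6) (nat_lit 5) (nat_lit 10) L51365 (by decide +kernel)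
theorem L51367 : W_8 (nat_lit 6) (nat_lit 0x280014001200090000000000000000000000000000000) (nat_lit 0x0) (nat_lit 0x200014000a000100060001800040000000000000000000000) := T_8 (nat_lit 176) (nat_lit 193) (nat_lit 7) (nat_lit 5) (nat_lit 7) L51366 (by decide +kernel)
theorem L51368 : W_8 (nat_lit 7) (nat_lit 0x280014001200080000000000000000000000000000000) (nat_lit 0x0) (nat_lit 0x4000300014000a000100078001c000c0000000000000000000000) := Q_8 (nat_lit 124) (C_8 L51351 (C_8 L51354 (C_8 L51358 (C_8 L51362 (C_8 L51367 N_8))))) (by decide +kernel)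
theorem L51369 : W_8 (nat_lit 2) (nat_lit 0xa00020001000280014001300080000000000000000000000000000000) (nat_lit 0x0) (nat_lit 0x14000400000000000000000000000000000000000000000000000000000000) := D_8 (nat_lit 226) (nat_lit 242) (nat_lit 244) (nat_lit 5) (nat_lit 5) (nat_lit 10) (nat_lit 7) (nat_lit 5) (nat_lit 10) (by decide +kernel)
theorem L51370 : W_8 (nat_lit 3) (nat_lit 0x200020001000280014001300080000000000000000000000000000000) (nat_lit 0x0) (nat_lit 0x14000c00040000000000000000000000000000000000000000000000000000) := T_8 (nat_lit 227) (nat_lit 210) (nat_lit 7) (nat_lit 5) (nat_lit 9) L51369 (by decide +kernel)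
theorem L51371 : W_8 (nat_lit 4) (nat_lit 0x20001000280014001300080000000000000000000000000000000) (nat_lit 0x0) (nat_lit 0x14000e00050000000000000000000000000000000000000000000000000000) := T_8 (nat_lit 225) (nat_lit 208) (nat_lit 5) (nat_lit 5) (nat_lit 9) L51370 (by decide +kernel)
theorem L51372 : W_8 (nat_lit 5) (nat_lit 0x1000280014001300080000000000000000000000000000000) (nat_lit 0x0) (nat_lit 0x14000e00070000000000002000000000000000000000000000000000000000) := T_8 (nat_lit 209) (nat_lit 157) (nat_lit 4) (nat_lit 5) (nat_lit 12) L51371 (by decide +kernel)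
theorem L51373 : W_8 (nat_lit 6) (nat_lit 0x280014001300080000000000000000000000000000000) (nat_lit 0x0) (nat_lit 0x14000e00070001000000002000000008000000000000000000000000000000) := T_8 (nat_lit 192) (nat_lit 123) (nat_lit 4) (nat_lit 5) (nat_lit 11) L51372 (by decide +kernel)
theorem L51374 : W_8 (nat_lit 2) (nat_lit 0x280014001300088000000000000000000000000000000) (nat_lit 0x0) (nat_lit 0x10000400020000000000000000000000) := D_8 (nat_lit 106) (nat_lit 124) (nat_lit 89) (nat_lit 4) (nat_lit 5) (nat_lit 10) (nat_lit 7) (nat_lit 4) (nat_lit 5) (by decide +kernel)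
theorem L51375 : W_8 (nat_lit 3) (nat_lit 0x280014001300080000000000000000000000000000000) (nat_lit 0x0) (nat_lit 0x1000000000000000018000400020000000000000000000000) := T_8 (nat_lit 123) (nat_lit 192) (nat_lit 4) (nat_lit 5) (nat_lit 11) L51374 (by decide +kernel)
theorem L51376 : W_8 (nat_lit 7) (nat_lit 0x280014001200080000000000000000000000000000000) (nat_lit 0x0) (nat_lit 0x14000e0007000100000002a0001c0018000400020000000000000000000000) := Q_8 (nat_lit 140) (C_8 L51373 (C_8 L35820 (C_8 L51375 N_8))) (by decide +kernel)
theorem L51377 : W_8 (nat_lit 2) (nat_lit 0x3c00140012000b8000000000000000000000000000000) (nat_lit 0x0) (nat_lit 0x3000000000000800000000000000000000000000) := D_8 (nat_lit 157) (nat_lit 156) (nat_lit 107) (nat_lit 0) (nat_lit 7) (nat_lit 10) (nat_lit 5) (nat_lit 5) (nat_lit 6) (by decide +kernel)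
theorem L51378 : W_8 (nat_lit 3) (nat_lit 0x3800140012000b8000000000000000000000000000000) (nat_lit 0x0) (nat_lit 0x40023000000000000800000000000000000000000000) := T_8 (nat_lit 174) (nat_lit 161) (nat_lit 2) (nat_lit 4) (nat_lit 10) L51377 (by decide +kernel)
theorem L51379 : W_8 (nat_lit 4) (nat_lit 0x2800140012000b8000000000000000000000000000000) (nat_lit 0x0) (nat_lit 0x2000140023000000000000800000000000000000000000000) := T_8 (nat_lit 176) (nat_lit 193) (nat_lit 7) (nat_lit 5) (nat_lit 7) L51378 (by decide +kernel)
theorem L51380 : W_8 (nat_lit 5) (nat_lit 0x280014001200098000000000000000000000000000000) (nat_lit 0x0) (nat_lit 0x2000140023000000020001800000000000000000000000000) := T_8 (nat_lit 125) (nat_lit 108) (nat_lit 6) (nat_lit 5) (nat_lit 10) L51379 (by decide +kernel)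
theorem L51381 : W_8 (nat_lit 6) (nat_lit 0x280014001200090000000000000000000000000000000) (nat_lit 0x0) (nat_lit 0x2000140023000000028001c00000000000000000000000000) := T_8 (nat_lit 123) (nat_lit 106) (nat_lit 4) (nat_lit 5) (nat_lit 10) L51380 (by decide +kernel)
theorem L51382 : W_8 (nat_lit 2) (nat_lit 0x3c0014001200090000000000000000000000000000000) (nat_lit 0x0) (nat_lit 0x3000000000000800000000000000000000000000) := D_8 (nat_lit 157) (nat_lit 156) (nat_lit 107) (nat_lit 0) (nat_lit 7) (nat_lit 10) (nat_lit 5) (nat_lit 5) (nat_lit 6) (by decide +kernel)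
theorem L51383 : W_8 (nat_lit 3) (nat_lit 0x380014001200090000000000000000000000000000000) (nat_lit 0x0) (nat_lit 0x40023000000000000800000000000000000000000000) := T_8 (nat_lit 174) (nat_lit 161) (nat_lit 2) (nat_lit 4) (nat_lit 10) L51382 (by decide +kernel)
theorem L51384 : W_8 (nat_lit 4) (nat_lit 0x280014001200090000000000000000000000000000000) (nat_lit 0x0) (nat_lit 0x2000140023000000000000800000000000000000000000000) := T_8 (nat_lit 176) (nat_lit 193) (nat_lit 7) (nat_lit 5) (nat_lit 7) L51383 (by decide +kernel)
theorem L51385 : W_8 (nat_lit 7) (nat_lit 0x280014001200080000000000000000000000000000000) (nat_lit 0x0) (nat_lit 0x40003000140023000100078001c00000000000000000000000000) := Q_8 (nat_lit 124) (C_8 L51354 (C_8 L51381 (C_8 L51384 (C_8 L51351 N_8)))) (by decide +kernel)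
theorem L51386 : W_8 (nat_lit 4) (nat_lit 0x380014001200090000000000000000000000000000000) (nat_lit 0x0) (nat_lit 0x8000000028001c00080000000000000000000000) := T_8 (nat_lit 123) (nat_lit 106) (nat_lit 4) (nat_lit 5) (nat_lit 10) L51356 (by decide +kernel)
theorem L51387 : W_8 (nat_lit 5) (nat_lit 0x380014001200080000000000000000000000000000000) (nat_lit 0x0) (nat_lit 0x2000000008000000038001c00080000000000000000000000) := T_8 (nat_lit 124) (nat_lit 193) (nat_lit 7) (nat_lit 5) (nat_lit 7) L51386 (by decide +kernel)
theorem L51388 : W_8 (nat_lit 4) (nat_lit 0x380014001200080000000000000000000000000000000) (nat_lit 0x0) (nat_lit 0x2000040023000000010000800000000000000000000000000) := T_8 (nat_lit 124) (nat_lit 193) (nat_lit 7) (nat_lit 5) (nat_lit 7) L51383 (by decide +kernel)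
theorem L51389 : W_8 (nat_lit 2) (nat_lit 0x3e0014001200080000000000000000000000000000000) (nat_lit 0x0) (nat_lit 0x3800000000000000000000000000000000000000) := D_8 (nat_lit 156) (nat_lit 155) (nat_lit 157) (nat_lit 0) (nat_lit 6) (nat_lit 10) (nat_lit 0) (nat_lit 7) (nat_lit 10) (by decide +kernel)
theorem L51390 : W_8 (nat_lit 3) (nat_lit 0x3c0014001200080000000000000000000000000000000) (nat_lit 0x0) (nat_lit 0x2000b800000000000000000000000000000000000000) := T_8 (nat_lit 173) (nat_lit 159) (nat_lit 2) (nat_lit 3) (nat_lit 10) L51389 (by decide +kernel)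
theorem L51391 : W_8 (nat_lit 4) (nat_lit 0x380014001200080000000000000000000000000000000) (nat_lit 0x0) (nat_lit 0x6002b800000000000000000000000000000000000000) := T_8 (nat_lit 174) (nat_lit 161) (nat_lit 2) (nat_lit 4) (nat_lit 10) L51390 (by decide +kernel)
theorem L51392 : W_8 (nat_lit 6) (nat_lit 0x280014001200080000000000000000000000000000000) (nat_lit 0x0) (nat_lit 0x200016002b800000038001c00080000000000000000000000) := Q_8 (nat_lit 176) (C_8 L51387 (C_8 L51388 (C_8 L51391 N_8))) (by decide +kernel)
theorem L51393 : W_8 (nat_lit 9) (nat_lit 0x280014001200080000000000000000000000000000000) (nat_lit 0x0) (nat_lit 0x14000e001f000700000002a0001c0008000000000000000000000000000000) := Q_8 (nat_lit 140) (C_8 L51373 (C_8 L35820 (C_8 L51347 N_8))) (by decide +kernel)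
theorem L51394 : W_8 (nat_lit 6) (nat_lit 0x380014001200080000000000000000000000000000000) (nat_lit 0x0) (nat_lit 0x200004000a000100070001800040000000000000000000000) := T_8 (nat_lit 124) (nat_lit 193) (nat_lit 7) (nat_lit 5) (nat_lit 7) L51366 (by decide +kernel)
theorem L51395 : W_8 (nat_lit 5) (nat_lit 0x380014001200080000000000000000000000000000000) (nat_lit 0x0) (nat_lit 0x2000000008000100070001c00000000000000000000000000) := T_8 (nat_lit 124) (nat_lit 193) (nat_lit 7) (nat_lit 5) (nat_lit 7) L51361 (by decide +kernel)
theorem L51396 : W_8 (nat_lit 7) (nat_lit 0x280014001200080000000000000000000000000000000) (nat_lit 0x0) (nat_lit 0x200016002b800100070001c00040000000000000000000000) := Q_8 (nat_lit 176) (C_8 L51394 (C_8 L51388 (C_8 L51391 (C_8 L51395 N_8)))) (by decide +kernel)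
theorem L51397 : W_8 (nat_lit 2) (nat_lit 0x800000003800b4001300098000000000000000000000000000000) (nat_lit 0x0) (nat_lit 0x60001000000000000000000000000000) := D_8 (nat_lit 125) (nat_lit 108) (nat_lit 126) (nat_lit 6) (nat_lit 5) (nat_lit 10) (nat_lit 1) (nat_lit 8) (nat_lit 7) (by decide +kernel)
theorem L51398 : W_8 (nat_lit 3) (nat_lit 0x800000003800b4001200098000000000000000000000000000000) (nat_lit 0x0) (nat_lit 0x1000000000000100060001000000000000000000000000000) := T_8 (nat_lit 140) (nat_lit 192) (nat_lit 4) (nat_lit 5) (nat_lit 11) L51397 (by decide +kernel)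
theorem L51399 : W_8 (nat_lit 4) (nat_lit 0x800000003800b4001200090000000000000000000000000000000) (nat_lit 0x0) (nat_lit 0x1000000000000100068001400000000000000000000000000) := T_8 (nat_lit 123) (nat_lit 106) (nat_lit 4) (nat_lit 5) (nat_lit 10) L51398 (by decide +kernel)
theorem L51400 : W_8 (nat_lit 5) (nat_lit 0x800000003800b4001200080000000000000000000000000000000) (nat_lit 0x0) (nat_lit 0x3000000000000100078001400000000000000000000000000) := T_8 (nat_lit 124) (nat_lit 193) (nat_lit 7) (nat_lit 5) (nat_lit 7) L51399 (by decide +kernel)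
theorem L51401 : W_8 (nat_lit 6) (nat_lit 0x80000000380034001200080000000000000000000000000000000) (nat_lit 0x0) (nat_lit 0x30000000c0000100078001400000000000000000000000000) := T_8 (nat_lit 163) (nat_lit 162) (nat_lit 1) (nat_lit 10) (nat_lit 9) L51400 (by decide +kernel)
theorem L51402 : W_8 (nat_lit 7) (nat_lit 0x80000000280034001200080000000000000000000000000000000) (nat_lit 0x0) (nat_lit 0x30001400c0000100078001400000000000000000000000000) := T_8 (nat_lit 176) (nat_lit 174) (nat_lit 2) (nat_lit 4) (nat_lit 10) L51401 (by decide +kernel)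
theorem L51403 : W_8 (nat_lit 8) (nat_lit 0x280034001200080000000000000000000000000000000) (nat_lit 0x0) (nat_lit 0x800070001400c0000100078001400000000000000000000000000) := T_8 (nat_lit 211) (nat_lit 194) (nat_lit 6) (nat_lit 7) (nat_lit 12) L51402 (by decide +kernel)
theorem L51405 : W_8 (nat_lit 2) (nat_lit 0x38003c001200080000000000000000000000000000000) (nat_lit 0x0) (nat_lit 0x2000000000000000010000800000000000000000000000000) := D_8 (nat_lit 124) (nat_lit 107) (nat_lit 193) (nat_lit 7) (nat_lit 5) (nat_lit 6) (nat_lit 7) (nat_lit 5) (nat_lit 7) (by decide +kernel)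
theorem L51406 : W_8 (nat_lit 3) (nat_lit 0x28003c001200080000000000000000000000000000000) (nat_lit 0x0) (nat_lit 0x2000100040000000010000800000000000000000000000000) := T_8 (nat_lit 176) (nat_lit 162) (nat_lit 1) (nat_lit 9) (nat_lit 9) L51405 (by decide +kernel)
theorem L51407 : W_8 (nat_lit 4) (nat_lit 0x280034001200080000000000000000000000000000000) (nat_lit 0x0) (nat_lit 0x2000100048000100010000800000000000000000000000000) := T_8 (nat_lit 159) (nat_lit 140) (nat_lit 0) (nat_lit 8) (nat_lit 9) L51406 (by decide +kernel)
theorem L51409 : W_8 (nat_lit 9) (nat_lit 0x280014001200080000000000000000000000000000000) (nat_lit 0x0) (nat_lit 0x800070001400e8000100078001c00000000000000000000000000) := Q_8 (nat_lit 161) (C_8 L51403 (C_8 L51404 (C_8 L51407 (C_8 L51408 N_8)))) (by decide +kernel)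
theorem L51410 : W_8 (nat_lit 11) (nat_lit 0x280010001200080000000000000000000000000000000) (nat_lit 0x0) (nat_lit 0x14000f801f00070001600ef8001c0078001c000e0000000000000000000000) := Q_8 (nat_lit 158) (C_8 L51348 (C_8 L51368 (C_8 L51376 (C_8 L51385 (C_8 L51392 (C_8 L51393 (C_8 L51396 (C_8 L51409 N_8)))))))) (by decide +kernel)
theorem L51411 : W_8 (nat_lit 2) (nat_lit 0x2c001c001200080000000000000000000000000000000) (nat_lit 0x0) (nat_lit 0x30002000000000000000000000000000000000000000) := D_8 (nat_lit 173) (nat_lit 157) (nat_lit 172) (nat_lit 1) (nat_lit 7) (nat_lit 9) (nat_lit 2) (nat_lit 2) (nat_lit 10) (by decide +kernel)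
theorem L51412 : W_8 (nat_lit 3) (nat_lit 0x2c0014001200080000000000000000000000000000000) (nat_lit 0x0) (nat_lit 0x3002a000000000000000000000000000000000000000) := T_8 (nat_lit 159) (nat_lit 161) (nat_lit 1) (nat_lit 8) (nat_lit 9) L51411 (by decide +kernel)
theorem L51415 : W_8 (nat_lit 4) (nat_lit 0x2c0014001200080000000000000000000000000000000) (nat_lit 0x0) (nat_lit 0x800000002000000030001800080000000000000000000000) := T_8 (nat_lit 124) (nat_lit 191) (nat_lit 5) (nat_lit 5) (nat_lit 7) L51414 (by decide +kernel)
theorem L51416 : W_8 (nat_lit 2) (nat_lit 0x2c00340012000f0000000000000000000000000000000) (nat_lit 0x0) (nat_lit 0x8000c00000000000000000000000000) := D_8 (nat_lit 106) (nat_lit 123) (nat_lit 107) (nat_lit 4) (nat_lit 5) (nat_lit 10) (nat_lit 0) (nat_lit 8) (nat_lit 7) (by decide +kernel)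
theorem L51417 : W_8 (nat_lit 3) (nat_lit 0x2c00340012000b0000000000000000000000000000000) (nat_lit 0x0) (nat_lit 0x100048000c00000000000000000000000000) := T_8 (nat_lit 126) (nat_lit 140) (nat_lit 1) (nat_lit 8) (nat_lit 7) L51416 (by decide +kernel)
theorem L51418 : W_8 (nat_lit 4) (nat_lit 0x2c0034001200090000000000000000000000000000000) (nat_lit 0x0) (nat_lit 0x100068001c00000000000000000000000000) := T_8 (nat_lit 125) (nat_lit 108) (nat_lit 6) (nat_lit 5) (nat_lit 10) L51417 (by decide +kernel)
theorem L51419 : W_8 (nat_lit 5) (nat_lit 0x2c0014001200090000000000000000000000000000000) (nat_lit 0x0) (nat_lit 0x28000100068001c00000000000000000000000000) := T_8 (nat_lit 161) (nat_lit 159) (nat_lit 1) (nat_lit 8) (nat_lit 9) L51418 (by decide +kernel)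
theorem L51420 : W_8 (nat_lit 6) (nat_lit 0x2c0014001200080000000000000000000000000000000) (nat_lit 0x0) (nat_lit 0x800000028000100078001c00000000000000000000000000) := T_8 (nat_lit 124) (nat_lit 191) (nat_lit 5) (nat_lit 5) (nat_lit 7) L51419 (by decide +kernel)
theorem L51421 : W_8 (nat_lit 7) (nat_lit 0x2c0010001200080000000000000000000000000000000) (nat_lit 0x0) (nat_lit 0x80003002e000100078001c00080000000000000000000000) := Q_8 (nat_lit 158) (C_8 L51412 (C_8 L51415 (C_8 L51420 N_8))) (by decide +kernel)
theorem L51422 : W_8 (nat_lit 4) (nat_lit 0x2c0010001200080000000000000000000000000000000) (nat_lit 0x0) (nat_lit 0x12002b800000000000000000000000000000000000000) := T_8 (nat_lit 176) (nat_lit 161) (nat_lit 2) (nat_lit 4) (nat_lit 10) L33513 (by decide +kernel)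
theorem L51423 : W_8 (nat_lit 2) (nat_lit 0x8003c0012001200080000000000000000000000000000000) (nat_lit 0x0) (nat_lit 0x4000100010000000000000000000000000000000) := D_8 (nat_lit 124) (nat_lit 158) (nat_lit 140) (nat_lit 5) (nat_lit 5) (nat_lit 7) (nat_lit 6) (nat_lit 4) (nat_lit 11) (by decide +kernel)
theorem L51424 : W_8 (nat_lit 3) (nat_lit 0x8003c0010001200080000000000000000000000000000000) (nat_lit 0x0) (nat_lit 0x7000100010000000000000000000000000000000) := T_8 (nat_lit 157) (nat_lit 156) (nat_lit 0) (nat_lit 7) (nat_lit 10) L51423 (by decide +kernel)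
theorem L51425 : W_8 (nat_lit 4) (nat_lit 0x3c0010001200080000000000000000000000000000000) (nat_lit 0x0) (nat_lit 0xc00000007000100010000000000000000000000000000000) := T_8 (nat_lit 191) (nat_lit 190) (nat_lit 1) (nat_lit 7) (nat_lit 10) L51424 (by decide +kernel)
theorem L51426 : W_8 (nat_lit 6) (nat_lit 0x3c0010001200080000000000000000000000000000000) (nat_lit 0x0) (nat_lit 0x200010001c0002000d800000010000000000000000000000000000000) := T_8 (nat_lit 191) (nat_lit 190) (nat_lit 1) (nat_lit 7) (nat_lit 10) L38772 (by decide +kernel)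
theorem L51427 : W_8 (nat_lit 2) (nat_lit 0x8003e0014001200080000000000000000000000000000000) (nat_lit 0x0) (nat_lit 0x10001000000002000000000000000000000000000000000000000) := D_8 (nat_lit 208) (nat_lit 192) (nat_lit 157) (nat_lit 5) (nat_lit 5) (nat_lit 8) (nat_lit 6) (nat_lit 4) (nat_lit 12) (by decide +kernel)
theorem L51428 : W_8 (nat_lit 3) (nat_lit 0x8003e0010001200080000000000000000000000000000000) (nat_lit 0x0) (nat_lit 0x10001000000006000000010000000000000000000000000000000) := T_8 (nat_lit 158) (nat_lit 124) (nat_lit 5) (nat_lit 5) (nat_lit 7) L51427 (by decide +kernel)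
theorem L51429 : W_8 (nat_lit 4) (nat_lit 0x8003c0010001200080000000000000000000000000000000) (nat_lit 0x0) (nat_lit 0x1000100002000e000000010000000000000000000000000000000) := T_8 (nat_lit 173) (nat_lit 159) (nat_lit 2) (nat_lit 3) (nat_lit 10) L51428 (by decide +kernel)
theorem L51430 : W_8 (nat_lit 5) (nat_lit 0x3c0010001200080000000000000000000000000000000) (nat_lit 0x0) (nat_lit 0x10001c0002000e000000010000000000000000000000000000000) := T_8 (nat_lit 191) (nat_lit 190) (nat_lit 1) (nat_lit 7) (nat_lit 10) L51429 (by decide +kernel)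
theorem L51431 : W_8 (nat_lit 7) (nat_lit 0x2c0010001200080000000000000000000000000000000) (nat_lit 0x0) (nat_lit 0x200010001c0012000f800100010000000000000000000000000000000) := Q_8 (nat_lit 176) (C_8 L33513 (C_8 L51425 (C_8 L51426 (C_8 L51430 N_8)))) (by decide +kernel)
theorem L51432 : W_8 (nat_lit 7) (nat_lit 0x2c0010001200080000000000000000000000000000000) (nat_lit 0x0) (nat_lit 0x200010001c0012002d800000010000000000000000000000000000000) := T_8 (nat_lit 176) (nat_lit 161) (nat_lit 2) (nat_lit 4) (nat_lit 10) L51426 (by decide +kernel)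
theorem L51433 : W_8 (nat_lit 5) (nat_lit 0x2c0010001200080000000000000000000000000000000) (nat_lit 0x0) (nat_lit 0xc00100027000100010000000000000000000000000000000) := T_8 (nat_lit 176) (nat_lit 161) (nat_lit 2) (nat_lit 4) (nat_lit 10) L51425 (by decide +kernel)
theorem L51434 : W_8 (nat_lit 8) (nat_lit 0x280010001200080000000000000000000000000000000) (nat_lit 0x0) (nat_lit 0x200010001c0017002f800100078001c00080000000000000000000000) := Q_8 (nat_lit 174) (C_8 L51421 (C_8 L51422 (C_8 L51431 (C_8 L51432 (C_8 L51433 N_8))))) (by decide +kernel)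
theorem L51435 : W_8 (nat_lit 2) (nat_lit 0x3800140013000b0000000000000000000000000000000) (nat_lit 0x0) (nat_lit 0x28000000000000800000000000000000000000000) := D_8 (nat_lit 159) (nat_lit 107) (nat_lit 161) (nat_lit 7) (nat_lit 5) (nat_lit 6) (nat_lit 0) (nat_lit 8) (nat_lit 9) (by decide +kernel)
theorem L51436 : W_8 (nat_lit 3) (nat_lit 0x3800140012000b0000000000000000000000000000000) (nat_lit 0x0) (nat_lit 0x28000100040000800000000000000000000000000) := T_8 (nat_lit 140) (nat_lit 126) (nat_lit 1) (nat_lit 8) (nat_lit 7) L51435 (by decide +kernel)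
theorem L51437 : W_8 (nat_lit 4) (nat_lit 0x380014001200090000000000000000000000000000000) (nat_lit 0x0) (nat_lit 0x28000100060001800000000000000000000000000) := T_8 (nat_lit 125) (nat_lit 108) (nat_lit 6) (nat_lit 5) (nat_lit 10) L51436 (by decide +kernel)
theorem L51438 : W_8 (nat_lit 5) (nat_lit 0x280014001200090000000000000000000000000000000) (nat_lit 0x0) (nat_lit 0x2000100028000100060001800000000000000000000000000) := T_8 (nat_lit 176) (nat_lit 193) (nat_lit 7) (nat_lit 5) (nat_lit 7) L51437 (by decide +kernel)
theorem L51439 : W_8 (nat_lit 2) (nat_lit 0x380014001200098000800000000000000000000000000) (nat_lit 0x0) (nat_lit 0x20001000080000000000000000000000) := D_8 (nat_lit 108) (nat_lit 125) (nat_lit 91) (nat_lit 6) (nat_lit 5) (nat_lit 10) (nat_lit 6) (nat_lit 5) (nat_lit 9) (by decide +kernel)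
theorem L51440 : W_8 (nat_lit 3) (nat_lit 0x380014001200098000000000000000000000000000000) (nat_lit 0x0) (nat_lit 0x8000000020001800080000000000000000000000) := T_8 (nat_lit 107) (nat_lit 159) (nat_lit 7) (nat_lit 5) (nat_lit 6) L51439 (by decide +kernel)
theorem L51441 : W_8 (nat_lit 4) (nat_lit 0x380014001200090000000000000000000000000000000) (nat_lit 0x0) (nat_lit 0x8000000028001c00080000000000000000000000) := T_8 (nat_lit 123) (nat_lit 106) (nat_lit 4) (nat_lit 5) (nat_lit 10) L51440 (by decide +kernel)
theorem L51442 : W_8 (nat_lit 5) (nat_lit 0x280014001200090000000000000000000000000000000) (nat_lit 0x0) (nat_lit 0x2000100008000000028001c00080000000000000000000000) := T_8 (nat_lit 176) (nat_lit 193) (nat_lit 7) (nat_lit 5) (nat_lit 7) L51441 (by decide +kernel)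
theorem L51443 : W_8 (nat_lit 6) (nat_lit 0x280014001200080000000000000000000000000000000) (nat_lit 0x0) (nat_lit 0x40003000100028000100078001c00080000000000000000000000) := Q_8 (nat_lit 124) (C_8 L51351 (C_8 L51354 (C_8 L51438 (C_8 L51442 N_8)))) (by decide +kernel)
theorem L51444 : W_8 (nat_lit 2) (nat_lit 0x3c0014001200090000000000000000000000000000000) (nat_lit 0x0) (nat_lit 0xa000000000000800000000000000000000000000) := D_8 (nat_lit 107) (nat_lit 157) (nat_lit 159) (nat_lit 5) (nat_lit 5) (nat_lit 6) (nat_lit 7) (nat_lit 5) (nat_lit 6) (by decide +kernel)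
theorem L51445 : W_8 (nat_lit 3) (nat_lit 0x2c0014001200090000000000000000000000000000000) (nat_lit 0x0) (nat_lit 0x200010000a000000000000800000000000000000000000000) := T_8 (nat_lit 176) (nat_lit 193) (nat_lit 7) (nat_lit 5) (nat_lit 7) L51444 (by decide +kernel)
theorem L51446 : W_8 (nat_lit 4) (nat_lit 0x280014001200090000000000000000000000000000000) (nat_lit 0x0) (nat_lit 0x280014000a000000000000800000000000000000000000000) := T_8 (nat_lit 174) (nat_lit 191) (nat_lit 5) (nat_lit 5) (nat_lit 7) L51445 (by decide +kernel)
theorem L51447 : W_8 (nat_lit 6) (nat_lit 0x280014001200080000000000000000000000000000000) (nat_lit 0x0) (nat_lit 0x4000380014000a000100078001c00080000000000000000000000) := Q_8 (nat_lit 124) (C_8 L51354 (C_8 L51442 (C_8 L51446 (C_8 L51351 N_8)))) (by decide +kernel)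
theorem L51448 : W_8 (nat_lit 2) (nat_lit 0x2c0014001200090000000000000000000000000000000) (nat_lit 0x0) (nat_lit 0x100028000000000000000000000000000000000000000) := D_8 (nat_lit 161) (nat_lit 176) (nat_lit 159) (nat_lit 2) (nat_lit 4) (nat_lit 10) (nat_lit 1) (nat_lit 8) (nat_lit 9) (by decide +kernel)
theorem L51449 : W_8 (nat_lit 3) (nat_lit 0x280014001200090000000000000000000000000000000) (nat_lit 0x0) (nat_lit 0x800140028000000000000000000000000000000000000000) := T_8 (nat_lit 174) (nat_lit 191) (nat_lit 5) (nat_lit 5) (nat_lit 7) L51448 (by decide +kernel)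
theorem L51450 : W_8 (nat_lit 5) (nat_lit 0x280014001200080000000000000000000000000000000) (nat_lit 0x0) (nat_lit 0x800140028000100078001c00000000000000000000000000) := Q_8 (nat_lit 124) (C_8 L51354 (C_8 L51449 N_8)) (by decide +kernel)
theorem L51453 : W_8 (nat_lit 4) (nat_lit 0x2c0014001200090000000000000000000000000000000) (nat_lit 0x0) (nat_lit 0x2a000000020001800080000000000000000000000) := T_8 (nat_lit 161) (nat_lit 159) (nat_lit 1) (nat_lit 8) (nat_lit 9) L51452 (by decide +kernel)
theorem L51454 : W_8 (nat_lit 5) (nat_lit 0x280014001200090000000000000000000000000000000) (nat_lit 0x0) (nat_lit 0x80004002a000000020001800080000000000000000000000) := T_8 (nat_lit 174) (nat_lit 191) (nat_lit 5) (nat_lit 5) (nat_lit 7) L51453 (by decide +kernel)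
theorem L51455 : W_8 (nat_lit 2) (nat_lit 0x2c0034001200090000800000000000000000000000000) (nat_lit 0x0) (nat_lit 0x8000400020000000000000000000000) := D_8 (nat_lit 106) (nat_lit 123) (nat_lit 89) (nat_lit 4) (nat_lit 5) (nat_lit 10) (nat_lit 4) (nat_lit 5) (nat_lit 9) (by decide +kernel)
theorem L51456 : W_8 (nat_lit 3) (nat_lit 0x2c0034001200090000000000000000000000000000000) (nat_lit 0x0) (nat_lit 0x2000000008000c00020000000000000000000000) := T_8 (nat_lit 107) (nat_lit 157) (nat_lit 5) (nat_lit 5) (nat_lit 6) L51455 (by decide +kernel)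
theorem L51457 : W_8 (nat_lit 4) (nat_lit 0x2c0014001200090000000000000000000000000000000) (nat_lit 0x0) (nat_lit 0x2a000000008000c00020000000000000000000000) := T_8 (nat_lit 161) (nat_lit 159) (nat_lit 1) (nat_lit 8) (nat_lit 9) L51456 (by decide +kernel)
theorem L51458 : W_8 (nat_lit 5) (nat_lit 0x280014001200090000000000000000000000000000000) (nat_lit 0x0) (nat_lit 0x80004002a000000008000c00020000000000000000000000) := T_8 (nat_lit 174) (nat_lit 191) (nat_lit 5) (nat_lit 5) (nat_lit 7) L51457 (by decide +kernel)
theorem L51459 : W_8 (nat_lit 2) (nat_lit 0x2c00340013000b0000000000000000000000000000000) (nat_lit 0x0) (nat_lit 0x1000000000000000008000400000000000000000000000000) := D_8 (nat_lit 123) (nat_lit 106) (nat_lit 192) (nat_lit 4) (nat_lit 5) (nat_lit 10) (nat_lit 4) (nat_lit 5) (nat_lit 11) (by decide +kernel)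
theorem L51460 : W_8 (nat_lit 3) (nat_lit 0x2c00340012000b0000000000000000000000000000000) (nat_lit 0x0) (nat_lit 0x1000000000000100048000400000000000000000000000000) := T_8 (nat_lit 140) (nat_lit 126) (nat_lit 1) (nat_lit 8) (nat_lit 7) L51459 (by decide +kernel)
theorem L51461 : W_8 (nat_lit 4) (nat_lit 0x2c0034001200090000000000000000000000000000000) (nat_lit 0x0) (nat_lit 0x1000000000000100068001400000000000000000000000000) := T_8 (nat_lit 125) (nat_lit 108) (nat_lit 6) (nat_lit 5) (nat_lit 10) L51460 (by decide +kernel)
theorem L51462 : W_8 (nat_lit 5) (nat_lit 0x2c0014001200090000000000000000000000000000000) (nat_lit 0x0) (nat_lit 0x1000000028000100068001400000000000000000000000000) := T_8 (nat_lit 161) (nat_lit 159) (nat_lit 1) (nat_lit 8) (nat_lit 9) L51461 (by decide +kernel)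
theorem L51463 : W_8 (nat_lit 6) (nat_lit 0x280014001200090000000000000000000000000000000) (nat_lit 0x0) (nat_lit 0x1800040028000100068001400000000000000000000000000) := T_8 (nat_lit 174) (nat_lit 191) (nat_lit 5) (nat_lit 5) (nat_lit 7) L51462 (by decide +kernel)
theorem L51464 : W_8 (nat_lit 7) (nat_lit 0x280014001200080000000000000000000000000000000) (nat_lit 0x0) (nat_lit 0x180004002a000100078001c000a0000000000000000000000) := Q_8 (nat_lit 124) (C_8 L51354 (C_8 L51454 (C_8 L51458 (C_8 L51463 N_8)))) (by decide +kernel)
theorem L51465 : W_8 (nat_lit 2) (nat_lit 0x2c0014001200090000000000000000000000000000000) (nat_lit 0x0) (nat_lit 0x2000100020000000000000000000000000000000000000000) := D_8 (nat_lit 176) (nat_lit 161) (nat_lit 193) (nat_lit 2) (nat_lit 4) (nat_lit 10) (nat_lit 7) (nat_lit 5) (nat_lit 7) (by decide +kernel)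
theorem L51466 : W_8 (nat_lit 3) (nat_lit 0x280014001200090000000000000000000000000000000) (nat_lit 0x0) (nat_lit 0x2800140020000000000000000000000000000000000000000) := T_8 (nat_lit 174) (nat_lit 191) (nat_lit 5) (nat_lit 5) (nat_lit 7) L51465 (by decide +kernel)
theorem L51467 : W_8 (nat_lit 5) (nat_lit 0x280014001200080000000000000000000000000000000) (nat_lit 0x0) (nat_lit 0x2800140020000100078001c00000000000000000000000000) := Q_8 (nat_lit 124) (C_8 L51354 (C_8 L51466 N_8)) (by decide +kernel)
theorem L51468 : W_8 (nat_lit 2) (nat_lit 0x8003c00280014001300080000000000000000000000000000000) (nat_lit 0x0) (nat_lit 0x20000000040002000000000000000000000000000000000000000) := D_8 (nat_lit 157) (nat_lit 209) (nat_lit 174) (nat_lit 4) (nat_lit 5) (nat_lit 12) (nat_lit 5) (nat_lit 4) (nat_lit 8) (by decide +kernel)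
theorem L51469 : W_8 (nat_lit 3) (nat_lit 0x8003c00280014001200080000000000000000000000000000000) (nat_lit 0x0) (nat_lit 0x20000000040002000100008000000000000000000000000000000) := T_8 (nat_lit 140) (nat_lit 123) (nat_lit 4) (nat_lit 5) (nat_lit 11) L51468 (by decide +kernel)
theorem L51470 : W_8 (nat_lit 4) (nat_lit 0x3c00280014001200080000000000000000000000000000000) (nat_lit 0x0) (nat_lit 0x2c000000040002000100008000000000000000000000000000000) := T_8 (nat_lit 207) (nat_lit 206) (nat_lit 1) (nat_lit 6) (nat_lit 11) L51469 (by decide +kernel)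
theorem L51471 : W_8 (nat_lit 5) (nat_lit 0x3800280014001200080000000000000000000000000000000) (nat_lit 0x0) (nat_lit 0x2c000400140002000100008000000000000000000000000000000) := T_8 (nat_lit 190) (nat_lit 176) (nat_lit 2) (nat_lit 3) (nat_lit 11) L51470 (by decide +kernel)
theorem L51472 : W_8 (nat_lit 6) (nat_lit 0x1800280014001200080000000000000000000000000000000) (nat_lit 0x0) (nat_lit 0x6c002400140002000100008000000000000000000000000000000) := T_8 (nat_lit 193) (nat_lit 210) (nat_lit 7) (nat_lit 5) (nat_lit 8) L51471 (by decide +kernel)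
theorem L51473 : W_8 (nat_lit 7) (nat_lit 0x1000280014001200080000000000000000000000000000000) (nat_lit 0x0) (nat_lit 0x7c002c00140002000100008000000000000000000000000000000) := T_8 (nat_lit 191) (nat_lit 208) (nat_lit 5) (nat_lit 5) (nat_lit 8) L51472 (by decide +kernel)
theorem L51474 : W_8 (nat_lit 4) (nat_lit 0x1000280014001200080000000000000000000000000000000) (nat_lit 0x0) (nat_lit 0x200030000800000002000100008000000000000000000000000000000) := T_8 (nat_lit 140) (nat_lit 123) (nat_lit 4) (nat_lit 5) (nat_lit 11) L50071 (by decide +kernel)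
theorem L51475 : W_8 (nat_lit 2) (nat_lit 0x4007e002d0014001200080000000000000000000000000000000) (nat_lit 0x0) (nat_lit 0x80000000000028000000000000000000000000000000000000000) := D_8 (nat_lit 161) (nat_lit 159) (nat_lit 211) (nat_lit 1) (nat_lit 8) (nat_lit 9) (nat_lit 6) (nat_lit 7) (nat_lit 12) (by decide +kernel)
theorem L51476 : W_8 (nat_lit 3) (nat_lit 0x4003e002d0014001200080000000000000000000000000000000) (nat_lit 0x0) (nat_lit 0x8000c000000028000000000000000000000000000000000000000) := T_8 (nat_lit 194) (nat_lit 195) (nat_lit 0) (nat_lit 8) (nat_lit 11) L51475 (by decide +kernel)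
theorem L51477 : W_8 (nat_lit 4) (nat_lit 0x4003e00290014001200080000000000000000000000000000000) (nat_lit 0x0) (nat_lit 0x8000c100040028000000000000000000000000000000000000000) := T_8 (nat_lit 174) (nat_lit 188) (nat_lit 2) (nat_lit 1) (nat_lit 11) L51476 (by decide +kernel)
theorem L51478 : W_8 (nat_lit 5) (nat_lit 0x4003e00280014001200080000000000000000000000000000000) (nat_lit 0x0) (nat_lit 0x8000c100058028000000000000000000000000000000000000000) := T_8 (nat_lit 172) (nat_lit 171) (nat_lit 0) (nat_lit 5) (nat_lit 11) L51477 (by decide +kernel)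
theorem L51479 : W_8 (nat_lit 6) (nat_lit 0x4003c00280014001200080000000000000000000000000000000) (nat_lit 0x0) (nat_lit 0x8200c300058028000000000000000000000000000000000000000) := T_8 (nat_lit 189) (nat_lit 205) (nat_lit 1) (nat_lit 5) (nat_lit 11) L51478 (by decide +kernel)
theorem L51480 : W_8 (nat_lit 7) (nat_lit 0x3c00280014001200080000000000000000000000000000000) (nat_lit 0x0) (nat_lit 0x8e00c300058028000000000000000000000000000000000000000) := T_8 (nat_lit 206) (nat_lit 207) (nat_lit 1) (nat_lit 6) (nat_lit 11) L51479 (by decide +kernel)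
theorem L51481 : W_8 (nat_lit 8) (nat_lit 0x3800280014001200080000000000000000000000000000000) (nat_lit 0x0) (nat_lit 0x8e00c700158028000000000000000000000000000000000000000) := T_8 (nat_lit 190) (nat_lit 176) (nat_lit 2) (nat_lit 3) (nat_lit 11) L51480 (by decide +kernel)
theorem L51482 : W_8 (nat_lit 9) (nat_lit 0x1800280014001200080000000000000000000000000000000) (nat_lit 0x0) (nat_lit 0xce00e700158028000000000000000000000000000000000000000) := T_8 (nat_lit 193) (nat_lit 210) (nat_lit 7) (nat_lit 5) (nat_lit 8) L51481 (by decide +kernel)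
theorem L51483 : W_8 (nat_lit 10) (nat_lit 0x1000280014001200080000000000000000000000000000000) (nat_lit 0x0) (nat_lit 0xde00ef00158028000000000000000000000000000000000000000) := T_8 (nat_lit 191) (nat_lit 208) (nat_lit 5) (nat_lit 5) (nat_lit 8) L51482 (by decide +kernel)
theorem L51484 : W_8 (nat_lit 2) (nat_lit 0x20007000280034001300080000000000000000000000000000000) (nat_lit 0x0) (nat_lit 0x8000140000000000000000000000000000000000000000000) := D_8 (nat_lit 174) (nat_lit 176) (nat_lit 195) (nat_lit 2) (nat_lit 4) (nat_lit 10) (nat_lit 0) (nat_lit 8) (nat_lit 11) (by decide +kernel)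
theorem L51485 : W_8 (nat_lit 3) (nat_lit 0x20003000280034001300080000000000000000000000000000000) (nat_lit 0x0) (nat_lit 0x8000c000140000000000000000000000000000000000000000000) := T_8 (nat_lit 194) (nat_lit 211) (nat_lit 6) (nat_lit 7) (nat_lit 12) L51484 (by decide +kernel)
theorem L51486 : W_8 (nat_lit 4) (nat_lit 0x20003000280014001300080000000000000000000000000000000) (nat_lit 0x0) (nat_lit 0x8000c000140028000000000000000000000000000000000000000) := T_8 (nat_lit 161) (nat_lit 159) (nat_lit 0) (nat_lit 8) (nat_lit 9) L51485 (by decide +kernel)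
theorem L51487 : W_8 (nat_lit 5) (nat_lit 0x3000280014001300080000000000000000000000000000000) (nat_lit 0x0) (nat_lit 0xa000c00014002a000000000000000000000000000000000000000) := T_8 (nat_lit 209) (nat_lit 157) (nat_lit 4) (nat_lit 5) (nat_lit 12) L51486 (by decide +kernel)
theorem L51488 : W_8 (nat_lit 6) (nat_lit 0x3000280014001200080000000000000000000000000000000) (nat_lit 0x0) (nat_lit 0xa000c00014002a000100008000000000000000000000000000000) := T_8 (nat_lit 140) (nat_lit 123) (nat_lit 4) (nat_lit 5) (nat_lit 11) L51487 (by decide +kernel)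
theorem L51489 : W_8 (nat_lit 7) (nat_lit 0x1000280014001200080000000000000000000000000000000) (nat_lit 0x0) (nat_lit 0xe000e00014002a000100008000000000000000000000000000000) := T_8 (nat_lit 193) (nat_lit 210) (nat_lit 7) (nat_lit 5) (nat_lit 8) L51488 (by decide +kernel)
theorem L51490 : W_8 (nat_lit 11) (nat_lit 0x280014001200080000000000000000000000000000000) (nat_lit 0x0) (nat_lit 0x2000fe00ff0015802a000100008000000000000000000000000000000) := Q_8 (nat_lit 192) (C_8 L51473 (C_8 L51474 (C_8 L51483 (C_8 L51489 N_8)))) (by decide +kernel)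
theorem L51491 : W_8 (nat_lit 6) (nat_lit 0x280014001200080000000000000000000000000000000) (nat_lit 0x0) (nat_lit 0x280014002a000000038001c000a0000000000000000000000) := Q_8 (nat_lit 124) (C_8 L51466 (C_8 L51446 (C_8 L51442 (C_8 L51458 N_8)))) (by decide +kernel)
theorem L51492 : W_8 (nat_lit 2) (nat_lit 0x3c0014001200080000000000000000000000000000000) (nat_lit 0x0) (nat_lit 0x2800000000000000010000000000000000000000000000000) := D_8 (nat_lit 124) (nat_lit 193) (nat_lit 191) (nat_lit 7) (nat_lit 5) (nat_lit 7) (nat_lit 5) (nat_lit 5) (nat_lit 7) (by decide +kernel)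
theorem L51493 : W_8 (nat_lit 3) (nat_lit 0x380014001200080000000000000000000000000000000) (nat_lit 0x0) (nat_lit 0x2800040020000000010000000000000000000000000000000) := T_8 (nat_lit 174) (nat_lit 161) (nat_lit 2) (nat_lit 4) (nat_lit 10) L51492 (by decide +kernel)
theorem L51494 : W_8 (nat_lit 3) (nat_lit 0x380014001200090000000000000000000000000000000) (nat_lit 0x0) (nat_lit 0x80004000a000000000000800000000000000000000000000) := T_8 (nat_lit 174) (nat_lit 191) (nat_lit 5) (nat_lit 5) (nat_lit 7) L51444 (by decide +kernel)
theorem L51495 : W_8 (nat_lit 4) (nat_lit 0x380014001200080000000000000000000000000000000) (nat_lit 0x0) (nat_lit 0x280004000a000000010000800000000000000000000000000) := T_8 (nat_lit 124) (nat_lit 193) (nat_lit 7) (nat_lit 5) (nat_lit 7) L51494 (by decide +kernel)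
theorem L51496 : W_8 (nat_lit 5) (nat_lit 0x380014001200080000000000000000000000000000000) (nat_lit 0x0) (nat_lit 0x2000000028000100070001800000000000000000000000000) := T_8 (nat_lit 124) (nat_lit 193) (nat_lit 7) (nat_lit 5) (nat_lit 7) L51437 (by decide +kernel)
theorem L51497 : W_8 (nat_lit 2) (nat_lit 0x3c0014001200080000000000000000000000000000000) (nat_lit 0x0) (nat_lit 0xc00000000000000010000000000000000000000000000000) := D_8 (nat_lit 191) (nat_lit 190) (nat_lit 124) (nat_lit 1) (nat_lit 7) (nat_lit 10) (nat_lit 5) (nat_lit 5) (nat_lit 7) (by decide +kernel)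
theorem L51498 : W_8 (nat_lit 3) (nat_lit 0x380014001200080000000000000000000000000000000) (nat_lit 0x0) (nat_lit 0xc00040020000000010000000000000000000000000000000) := T_8 (nat_lit 174) (nat_lit 161) (nat_lit 2) (nat_lit 4) (nat_lit 10) L51497 (by decide +kernel)
theorem L51499 : W_8 (nat_lit 2) (nat_lit 0x40003c0016001200080000000000000000000000000000000) (nat_lit 0x0) (nat_lit 0x10000c00000000000000000000000000000000000000000000000) := D_8 (nat_lit 191) (nat_lit 190) (nat_lit 208) (nat_lit 1) (nat_lit 7) (nat_lit 10) (nat_lit 6) (nat_lit 4) (nat_lit 12) (by decide +kernel)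
theorem L51500 : W_8 (nat_lit 3) (nat_lit 0x40003c0014001200080000000000000000000000000000000) (nat_lit 0x0) (nat_lit 0x10000c00000003000000000000000000000000000000000000000) := T_8 (nat_lit 157) (nat_lit 156) (nat_lit 0) (nat_lit 7) (nat_lit 10) L51499 (by decide +kernel)
theorem L51501 : W_8 (nat_lit 4) (nat_lit 0x3c0014001200080000000000000000000000000000000) (nat_lit 0x0) (nat_lit 0x1000cc00000003000000000000000000000000000000000000000) := T_8 (nat_lit 194) (nat_lit 195) (nat_lit 3) (nat_lit 4) (nat_lit 10) L51500 (by decide +kernel)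
theorem L51502 : W_8 (nat_lit 5) (nat_lit 0x380014001200080000000000000000000000000000000) (nat_lit 0x0) (nat_lit 0x1000cc00040023000000000000000000000000000000000000000) := T_8 (nat_lit 174) (nat_lit 161) (nat_lit 2) (nat_lit 4) (nat_lit 10) L51501 (by decide +kernel)
theorem L51503 : W_8 (nat_lit 6) (nat_lit 0x280014001200080000000000000000000000000000000) (nat_lit 0x0) (nat_lit 0x1000ec0014002b000100070001800000000000000000000000000) := Q_8 (nat_lit 176) (C_8 L51493 (C_8 L51495 (C_8 L51496 (C_8 L51498 (C_8 L51502 N_8))))) (by decide +kernel)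
theorem L51504 : W_8 (nat_lit 12) (nat_lit 0x280010001200080000000000000000000000000000000) (nat_lit 0x0) (nat_lit 0x2000fe00ff0015802f000100078001c000a0000000000000000000000) := Q_8 (nat_lit 158) (C_8 L51443 (C_8 L51447 (C_8 L51450 (C_8 L51464 (C_8 L51467 (C_8 L51490 (C_8 L51491 (C_8 L51503 N_8)))))))) (by decide +kernel)
theorem L51505 : W_8 (nat_lit 6) (nat_lit 0x280014001200080000000000000000000000000000000) (nat_lit 0x0) (nat_lit 0x40003000100028000100078001c00080000000000000000000000) := Q_8 (nat_lit 124) (C_8 L51351 (C_8 L51354 (C_8 L51438 (C_8 L51442 N_8)))) (by decide +kernel)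
theorem L51506 : W_8 (nat_lit 2) (nat_lit 0x20001000280034001300080000000000000000000000000000000) (nat_lit 0x0) (nat_lit 0x200010000800000000000000000000000000000000000000000000000) := D_8 (nat_lit 208) (nat_lit 225) (nat_lit 191) (nat_lit 5) (nat_lit 5) (nat_lit 9) (nat_lit 5) (nat_lit 5) (nat_lit 8) (by decide +kernel)
theorem L51507 : W_8 (nat_lit 3) (nat_lit 0x1000280034001300080000000000000000000000000000000) (nat_lit 0x0) (nat_lit 0x200030000800000002000000000000000000000000000000000000000) := T_8 (nat_lit 209) (nat_lit 157) (nat_lit 4) (nat_lit 5) (nat_lit 12) L51506 (by decide +kernel)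
theorem L51508 : W_8 (nat_lit 4) (nat_lit 0x280034001300080000000000000000000000000000000) (nat_lit 0x0) (nat_lit 0x200030001800000002000000008000000000000000000000000000000) := T_8 (nat_lit 192) (nat_lit 123) (nat_lit 4) (nat_lit 5) (nat_lit 11) L51507 (by decide +kernel)
theorem L51509 : W_8 (nat_lit 5) (nat_lit 0x280014001300080000000000000000000000000000000) (nat_lit 0x0) (nat_lit 0x20003000180000002a000000008000000000000000000000000000000) := T_8 (nat_lit 161) (nat_lit 159) (nat_lit 0) (nat_lit 8) (nat_lit 9) L51508 (by decide +kernel)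
theorem L51510 : W_8 (nat_lit 11) (nat_lit 0x280014001200080000000000000000000000000000000) (nat_lit 0x0) (nat_lit 0x20007e003e0013002b0001c0008000000000000000000000000000000) := Q_8 (nat_lit 140) (C_8 L51509 (C_8 L35820 (C_8 L50072 (C_8 L51210 N_8)))) (by decide +kernel)
theorem L51511 : W_8 (nat_lit 2) (nat_lit 0x3800140012000980008000c0000000000000000000000) (nat_lit 0x0) (nat_lit 0x2000100000000000000002000000000000000000) := D_8 (nat_lit 140) (nat_lit 157) (nat_lit 73) (nat_lit 5) (nat_lit 5) (nat_lit 5) (nat_lit 5) (nat_lit 5) (nat_lit 4) (by decide +kernel)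
theorem L51512 : W_8 (nat_lit 3) (nat_lit 0x380014001200098000800080000000000000000000000) (nat_lit 0x0) (nat_lit 0x2000100000000000040006000000000000000000) := T_8 (nat_lit 90) (nat_lit 74) (nat_lit 6) (nat_lit 5) (nat_lit 8) L51511 (by decide +kernel)
theorem L51513 : W_8 (nat_lit 4) (nat_lit 0x380014001200098000800000000000000000000000000) (nat_lit 0x0) (nat_lit 0x20001000000010000c0006000000000000000000) := T_8 (nat_lit 91) (nat_lit 108) (nat_lit 6) (nat_lit 5) (nat_lit 9) L51512 (by decide +kernel)
theorem L51514 : W_8 (nat_lit 5) (nat_lit 0x380014001200098000000000000000000000000000000) (nat_lit 0x0) (nat_lit 0xa0001000000018000c0006000000000000000000) := T_8 (nat_lit 107) (nat_lit 159) (nat_lit 7) (nat_lit 5) (nat_lit 6) L51513 (by decide +kernel)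
theorem L51515 : W_8 (nat_lit 6) (nat_lit 0x380014001200090000000000000000000000000000000) (nat_lit 0x0) (nat_lit 0xa000100008001c000c0006000000000000000000) := T_8 (nat_lit 123) (nat_lit 106) (nat_lit 4) (nat_lit 5) (nat_lit 10) L51514 (by decide +kernel)
theorem L51516 : W_8 (nat_lit 7) (nat_lit 0x280014001200090000000000000000000000000000000) (nat_lit 0x0) (nat_lit 0x200010000a000100008001c000c0006000000000000000000) := T_8 (nat_lit 176) (nat_lit 193) (nat_lit 7) (nat_lit 5) (nat_lit 7) L51515 (by decide +kernel)
theorem L51517 : W_8 (nat_lit 2) (nat_lit 0x38001c001200098000000000000000000000000000000) (nat_lit 0x0) (nat_lit 0x60000100000000000000000000000000000000000) := D_8 (nat_lit 161) (nat_lit 162) (nat_lit 140) (nat_lit 1) (nat_lit 9) (nat_lit 9) (nat_lit 0) (nat_lit 8) (nat_lit 9) (by decide +kernel)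
theorem L51518 : W_8 (nat_lit 3) (nat_lit 0x380014001200098000000000000000000000000000000) (nat_lit 0x0) (nat_lit 0x68000100000000800000000000000000000000000) := T_8 (nat_lit 159) (nat_lit 107) (nat_lit 7) (nat_lit 5) (nat_lit 6) L51517 (by decide +kernel)
theorem L51519 : W_8 (nat_lit 4) (nat_lit 0x380014001200090000000000000000000000000000000) (nat_lit 0x0) (nat_lit 0x68000100008000c00000000000000000000000000) := T_8 (nat_lit 123) (nat_lit 106) (nat_lit 4) (nat_lit 5) (nat_lit 10) L51518 (by decide +kernel)
theorem L51520 : W_8 (nat_lit 5) (nat_lit 0x280014001200090000000000000000000000000000000) (nat_lit 0x0) (nat_lit 0x2000100068000100008000c00000000000000000000000000) := T_8 (nat_lit 176) (nat_lit 193) (nat_lit 7) (nat_lit 5) (nat_lit 7) L51519 (by decide +kernel)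
theorem L51521 : W_8 (nat_lit 2) (nat_lit 0x3800140013800b8000000000000000000000000000000) (nat_lit 0x0) (nat_lit 0x2a000000000000000000000000000000000000000) := D_8 (nat_lit 159) (nat_lit 161) (nat_lit 157) (nat_lit 0) (nat_lit 8) (nat_lit 9) (nat_lit 0) (nat_lit 7) (nat_lit 9) (by decide +kernel)
theorem L51522 : W_8 (nat_lit 3) (nat_lit 0x3800140013000b8000000000000000000000000000000) (nat_lit 0x0) (nat_lit 0x2a0000c0000000000000000000000000000000000) := T_8 (nat_lit 139) (nat_lit 138) (nat_lit 2) (nat_lit 2) (nat_lit 8) L51521 (by decide +kernel)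
theorem L51523 : W_8 (nat_lit 4) (nat_lit 0x3800140013000b0000000000000000000000000000000) (nat_lit 0x0) (nat_lit 0x2a0000c0008000400000000000000000000000000) := T_8 (nat_lit 123) (nat_lit 106) (nat_lit 4) (nat_lit 5) (nat_lit 10) L51522 (by decide +kernel)
theorem L51524 : W_8 (nat_lit 5) (nat_lit 0x3800140012000b0000000000000000000000000000000) (nat_lit 0x0) (nat_lit 0x2a0001c0048000400000000000000000000000000) := T_8 (nat_lit 140) (nat_lit 126) (nat_lit 1) (nat_lit 8) (nat_lit 7) L51523 (by decide +kernel)
theorem L51525 : W_8 (nat_lit 6) (nat_lit 0x380014001200090000000000000000000000000000000) (nat_lit 0x0) (nat_lit 0x2a0001c0068001400000000000000000000000000) := T_8 (nat_lit 125) (nat_lit 108) (nat_lit 6) (nat_lit 5) (nat_lit 10) L51524 (by decide +kernel)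
theorem L51526 : W_8 (nat_lit 7) (nat_lit 0x280014001200090000000000000000000000000000000) (nat_lit 0x0) (nat_lit 0x200010002a0001c0068001400000000000000000000000000) := T_8 (nat_lit 176) (nat_lit 193) (nat_lit 7) (nat_lit 5) (nat_lit 7) L51525 (by decide +kernel)
theorem L51527 : W_8 (nat_lit 8) (nat_lit 0x280014001200080000000000000000000000000000000) (nat_lit 0x0) (nat_lit 0x200010006a0001c0078001c000c0006000000000000000000) := Q_8 (nat_lit 124) (C_8 L51442 (C_8 L51354 (C_8 L51438 (C_8 L51516 (C_8 L51520 (C_8 L51526 N_8)))))) (by decide +kernel)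
theorem L51528 : W_8 (nat_lit 2) (nat_lit 0x2800140012000b0000400000000000000000000000000) (nat_lit 0x0) (nat_lit 0x40000800020000000000000000000000) := D_8 (nat_lit 107) (nat_lit 126) (nat_lit 89) (nat_lit 0) (nat_lit 8) (nat_lit 7) (nat_lit 4) (nat_lit 5) (nat_lit 9) (by decide +kernel)
theorem L51529 : W_8 (nat_lit 3) (nat_lit 0x280014001200090000400000000000000000000000000) (nat_lit 0x0) (nat_lit 0x60001800020000000000000000000000) := T_8 (nat_lit 125) (nat_lit 108) (nat_lit 6) (nat_lit 5) (nat_lit 10) L51528 (by decide +kernel)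
theorem L51530 : W_8 (nat_lit 4) (nat_lit 0x280014001200090000000000000000000000000000000) (nat_lit 0x0) (nat_lit 0x68001c00020000000000000000000000) := T_8 (nat_lit 106) (nat_lit 123) (nat_lit 4) (nat_lit 5) (nat_lit 10) L51529 (by decide +kernel)
theorem L51531 : W_8 (nat_lit 2) (nat_lit 0x380014001200090001000000000000000000000000000) (nat_lit 0x0) (nat_lit 0x8000000000000800080000000000000000000000) := D_8 (nat_lit 107) (nat_lit 159) (nat_lit 91) (nat_lit 7) (nat_lit 5) (nat_lit 6) (nat_lit 6) (nat_lit 5) (nat_lit 9) (by decide +kernel)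
theorem L51532 : W_8 (nat_lit 3) (nat_lit 0x380014001200090000000000000000000000000000000) (nat_lit 0x0) (nat_lit 0x8000000020001800080000000000000000000000) := T_8 (nat_lit 108) (nat_lit 125) (nat_lit 6) (nat_lit 5) (nat_lit 10) L51531 (by decide +kernel)
theorem L51533 : W_8 (nat_lit 4) (nat_lit 0x280014001200090000000000000000000000000000000) (nat_lit 0x0) (nat_lit 0x2000100008000000020001800080000000000000000000000) := T_8 (nat_lit 176) (nat_lit 193) (nat_lit 7) (nat_lit 5) (nat_lit 7) L51532 (by decide +kernel)
theorem L51534 : W_8 (nat_lit 2) (nat_lit 0x380014001200090000400000000000000000000000000) (nat_lit 0x0) (nat_lit 0x8000000000000800020000000000000000000000) := D_8 (nat_lit 107) (nat_lit 159) (nat_lit 89) (nat_lit 7) (nat_lit 5) (nat_lit 6) (nat_lit 4) (nat_lit 5) (nat_lit 9) (by decide +kernel)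
theorem L51535 : W_8 (nat_lit 3) (nat_lit 0x380014001200090000000000000000000000000000000) (nat_lit 0x0) (nat_lit 0x8000000008000c00020000000000000000000000) := T_8 (nat_lit 106) (nat_lit 123) (nat_lit 4) (nat_lit 5) (nat_lit 10) L51534 (by decide +kernel)
theorem L51536 : W_8 (nat_lit 4) (nat_lit 0x280014001200090000000000000000000000000000000) (nat_lit 0x0) (nat_lit 0x2000100008000000008000c00020000000000000000000000) := T_8 (nat_lit 176) (nat_lit 193) (nat_lit 7) (nat_lit 5) (nat_lit 7) L51535 (by decide +kernel)
theorem L51537 : W_8 (nat_lit 2) (nat_lit 0x30000b40070002800140012000b8000000000000000000000000000000) (nat_lit 0x0) (nat_lit 0x10000c00000000000000000000000000000000000000000000000000000000) := D_8 (nat_lit 227) (nat_lit 244) (nat_lit 226) (nat_lit 5) (nat_lit 7) (nat_lit 10) (nat_lit 0) (nat_lit 8) (nat_lit 13) (by decide +kernel)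
theorem L51538 : W_8 (nat_lit 3) (nat_lit 0x20000b40070002800140012000b8000000000000000000000000000000) (nat_lit 0x0) (nat_lit 0x50001c00000000000000000000000000000000000000000000000000000000) := T_8 (nat_lit 228) (nat_lit 246) (nat_lit 7) (nat_lit 7) (nat_lit 10) L51537 (by decide +kernel)
theorem L51539 : W_8 (nat_lit 4) (nat_lit 0xb40070002800140012000b8000000000000000000000000000000) (nat_lit 0x0) (nat_lit 0x50003c00100000000000000000000000000000000000000000000000000000) := T_8 (nat_lit 229) (nat_lit 212) (nat_lit 7) (nat_lit 7) (nat_lit 9) L51538 (by decide +kernel)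
theorem L51540 : W_8 (nat_lit 5) (nat_lit 0x340070002800140012000b8000000000000000000000000000000) (nat_lit 0x0) (nat_lit 0x50003c00180000000000020000000000000000000000000000000000000000) := T_8 (nat_lit 211) (nat_lit 161) (nat_lit 6) (nat_lit 7) (nat_lit 12) L51539 (by decide +kernel)
theorem L51541 : W_8 (nat_lit 6) (nat_lit 0x340030002800140012000b8000000000000000000000000000000) (nat_lit 0x0) (nat_lit 0x50003c0018000c000000020000000000000000000000000000000000000000) := T_8 (nat_lit 194) (nat_lit 195) (nat_lit 1) (nat_lit 8) (nat_lit 11) L51540 (by decide +kernel)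
theorem L51542 : W_8 (nat_lit 7) (nat_lit 0x300030002800140012000b8000000000000000000000000000000) (nat_lit 0x0) (nat_lit 0x50003c0018c00c000000020000000000000000000000000000000000000000) := T_8 (nat_lit 206) (nat_lit 207) (nat_lit 2) (nat_lit 2) (nat_lit 12) L51541 (by decide +kernel)
theorem L51543 : W_8 (nat_lit 8) (nat_lit 0x100030002800140012000b8000000000000000000000000000000) (nat_lit 0x0) (nat_lit 0x50003e001ac00c000000020000000000000000000000000000000000000000) := T_8 (nat_lit 209) (nat_lit 225) (nat_lit 5) (nat_lit 5) (nat_lit 9) L51542 (by decide +kernel)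
theorem L51544 : W_8 (nat_lit 9) (nat_lit 0x100030002800140012000b0000000000000000000000000000000) (nat_lit 0x0) (nat_lit 0x50003e001ac00c000000020000000008000400000000000000000000000000) := T_8 (nat_lit 123) (nat_lit 106) (nat_lit 4) (nat_lit 5) (nat_lit 10) L51543 (by decide +kernel)
theorem L51545 : W_8 (nat_lit 10) (nat_lit 0x30002800140012000b0000000000000000000000000000000) (nat_lit 0x0) (nat_lit 0x50003e001bc00c800000020000000008000400000000000000000000000000) := T_8 (nat_lit 208) (nat_lit 191) (nat_lit 5) (nat_lit 5) (nat_lit 8) L51544 (by decide +kernel)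
theorem L51546 : W_8 (nat_lit 11) (nat_lit 0x20002800140012000b0000000000000000000000000000000) (nat_lit 0x0) (nat_lit 0x50003e001fc00d800000020000000008000400000000000000000000000000) := T_8 (nat_lit 192) (nat_lit 210) (nat_lit 7) (nat_lit 5) (nat_lit 8) L51545 (by decide +kernel)
theorem L51547 : W_8 (nat_lit 12) (nat_lit 0x2000280014001200090000000000000000000000000000000) (nat_lit 0x0) (nat_lit 0x50003e001fc00d800000020000000028001400000000000000000000000000) := T_8 (nat_lit 125) (nat_lit 108) (nat_lit 6) (nat_lit 5) (nat_lit 10) L51546 (by decide +kernel)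
theorem L51548 : W_8 (nat_lit 13) (nat_lit 0x280014001200090000000000000000000000000000000) (nat_lit 0x0) (nat_lit 0x50003e001fc00f800100020000000028001400000000000000000000000000) := T_8 (nat_lit 193) (nat_lit 176) (nat_lit 7) (nat_lit 5) (nat_lit 7) L51547 (by decide +kernel)
theorem L51549 : W_8 (nat_lit 14) (nat_lit 0x280014001200080000000000000000000000000000000) (nat_lit 0x0) (nat_lit 0x50003e001fc00f800100028000000078001c000a0000000000000000000000) := Q_8 (nat_lit 124) (C_8 L51442 (C_8 L51530 (C_8 L51533 (C_8 L51536 (C_8 L51548 N_8))))) (by decide +kernel)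
theorem L51550 : W_8 (nat_lit 2) (nat_lit 0x3800280016001300080000000000000000000000000000000) (nat_lit 0x0) (nat_lit 0x28000080000000000000000000000000000000000) := D_8 (nat_lit 159) (nat_lit 161) (nat_lit 139) (nat_lit 0) (nat_lit 8) (nat_lit 9) (nat_lit 0) (nat_lit 7) (nat_lit 9) (by decide +kernel)
theorem L51551 : W_8 (nat_lit 3) (nat_lit 0x3800280014001300080000000000000000000000000000000) (nat_lit 0x0) (nat_lit 0x2000000000002a000080000000000000000000000000000000000) := T_8 (nat_lit 157) (nat_lit 209) (nat_lit 4) (nat_lit 5) (nat_lit 12) L51550 (by decide +kernel)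
theorem L51552 : W_8 (nat_lit 4) (nat_lit 0x3800280014001200080000000000000000000000000000000) (nat_lit 0x0) (nat_lit 0x2000000000002a000180008000000000000000000000000000000) := T_8 (nat_lit 140) (nat_lit 123) (nat_lit 4) (nat_lit 5) (nat_lit 11) L51551 (by decide +kernel)
theorem L51553 : W_8 (nat_lit 5) (nat_lit 0x1800280014001200080000000000000000000000000000000) (nat_lit 0x0) (nat_lit 0x6000200000002a000180008000000000000000000000000000000) := T_8 (nat_lit 193) (nat_lit 210) (nat_lit 7) (nat_lit 5) (nat_lit 8) L51552 (by decide +kernel)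
theorem L51554 : W_8 (nat_lit 6) (nat_lit 0x1000280014001200080000000000000000000000000000000) (nat_lit 0x0) (nat_lit 0x7000280000002a000180008000000000000000000000000000000) := T_8 (nat_lit 191) (nat_lit 208) (nat_lit 5) (nat_lit 5) (nat_lit 8) L51553 (by decide +kernel)
theorem L51555 : W_8 (nat_lit 2) (nat_lit 0x30000b4007000280014001200080000000000000000000000000000000) (nat_lit 0x0) (nat_lit 0x10000c00000000000000000000000000000000000000000000000000000000) := D_8 (nat_lit 227) (nat_lit 244) (nat_lit 226) (nat_lit 5) (nat_lit 7) (nat_lit 10) (nat_lit 0) (nat_lit 8) (nat_lit 13) (by decide +kernel)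
theorem L51556 : W_8 (nat_lit 3) (nat_lit 0x20000b4007000280014001200080000000000000000000000000000000) (nat_lit 0x0) (nat_lit 0x50001c00000000000000000000000000000000000000000000000000000000) := T_8 (nat_lit 228) (nat_lit 246) (nat_lit 7) (nat_lit 7) (nat_lit 10) L51555 (by decide +kernel)
theorem L51557 : W_8 (nat_lit 4) (nat_lit 0xb4007000280014001200080000000000000000000000000000000) (nat_lit 0x0) (nat_lit 0x50003c00100000000000000000000000000000000000000000000000000000) := T_8 (nat_lit 229) (nat_lit 212) (nat_lit 7) (nat_lit 7) (nat_lit 9) L51556 (by decide +kernel)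
theorem L51558 : W_8 (nat_lit 5) (nat_lit 0x34007000280014001200080000000000000000000000000000000) (nat_lit 0x0) (nat_lit 0x50003c00180000000000020000000000000000000000000000000000000000) := T_8 (nat_lit 211) (nat_lit 161) (nat_lit 6) (nat_lit 7) (nat_lit 12) L51557 (by decide +kernel)
theorem L51559 : W_8 (nat_lit 6) (nat_lit 0x34003000280014001200080000000000000000000000000000000) (nat_lit 0x0) (nat_lit 0x50003c0018000c000000020000000000000000000000000000000000000000) := T_8 (nat_lit 194) (nat_lit 195) (nat_lit 1) (nat_lit 8) (nat_lit 11) L51558 (by decide +kernel)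
theorem L51560 : W_8 (nat_lit 7) (nat_lit 0x30003000280014001200080000000000000000000000000000000) (nat_lit 0x0) (nat_lit 0x50003c0018c00c000000020000000000000000000000000000000000000000) := T_8 (nat_lit 206) (nat_lit 207) (nat_lit 2) (nat_lit 2) (nat_lit 12) L51559 (by decide +kernel)
theorem L51561 : W_8 (nat_lit 8) (nat_lit 0x10003000280014001200080000000000000000000000000000000) (nat_lit 0x0) (nat_lit 0x50003e001ac00c000000020000000000000000000000000000000000000000) := T_8 (nat_lit 209) (nat_lit 225) (nat_lit 5) (nat_lit 5) (nat_lit 9) L51560 (by decide +kernel)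
theorem L51562 : W_8 (nat_lit 9) (nat_lit 0x10001000280014001200080000000000000000000000000000000) (nat_lit 0x0) (nat_lit 0x50003e001ec00e000000020000000000000000000000000000000000000000) := T_8 (nat_lit 193) (nat_lit 210) (nat_lit 7) (nat_lit 5) (nat_lit 8) L51561 (by decide +kernel)
theorem L51563 : W_8 (nat_lit 10) (nat_lit 0x1000280014001200080000000000000000000000000000000) (nat_lit 0x0) (nat_lit 0x50003e001fc00e800000020000000000000000000000000000000000000000) := T_8 (nat_lit 208) (nat_lit 191) (nat_lit 5) (nat_lit 5) (nat_lit 8) L51562 (by decide +kernel)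
theorem L51564 : W_8 (nat_lit 2) (nat_lit 0x3000280016001300080000000000000000000000000000000) (nat_lit 0x0) (nat_lit 0x28000080000000000000000000000000000000000) := D_8 (nat_lit 159) (nat_lit 161) (nat_lit 139) (nat_lit 0) (nat_lit 8) (nat_lit 9) (nat_lit 0) (nat_lit 7) (nat_lit 9) (by decide +kernel)
theorem L51565 : W_8 (nat_lit 3) (nat_lit 0x3000280014001300080000000000000000000000000000000) (nat_lit 0x0) (nat_lit 0x2000000000002a000080000000000000000000000000000000000) := T_8 (nat_lit 157) (nat_lit 209) (nat_lit 4) (nat_lit 5) (nat_lit 12) L51564 (by decide +kernel)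
theorem L51566 : W_8 (nat_lit 4) (nat_lit 0x3000280014001200080000000000000000000000000000000) (nat_lit 0x0) (nat_lit 0x2000000000002a000180008000000000000000000000000000000) := T_8 (nat_lit 140) (nat_lit 123) (nat_lit 4) (nat_lit 5) (nat_lit 11) L51565 (by decide +kernel)
theorem L51567 : W_8 (nat_lit 5) (nat_lit 0x1000280014001200080000000000000000000000000000000) (nat_lit 0x0) (nat_lit 0x6000200000002a000180008000000000000000000000000000000) := T_8 (nat_lit 193) (nat_lit 210) (nat_lit 7) (nat_lit 5) (nat_lit 8) L51566 (by decide +kernel)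
theorem L51568 : W_8 (nat_lit 2) (nat_lit 0x100028001c001300080000000000000000000000000000000) (nat_lit 0x0) (nat_lit 0x20000c0000000000000000000000000000000000) := D_8 (nat_lit 139) (nat_lit 157) (nat_lit 138) (nat_lit 0) (nat_lit 7) (nat_lit 9) (nat_lit 3) (nat_lit 2) (nat_lit 8) (by decide +kernel)
theorem L51569 : W_8 (nat_lit 3) (nat_lit 0x1000280014001300080000000000000000000000000000000) (nat_lit 0x0) (nat_lit 0x2a0000c0000000000000000000000000000000000) := T_8 (nat_lit 159) (nat_lit 161) (nat_lit 0) (nat_lit 8) (nat_lit 9) L51568 (by decide +kernel)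
theorem L51570 : W_8 (nat_lit 4) (nat_lit 0x1000280014001200080000000000000000000000000000000) (nat_lit 0x0) (nat_lit 0x2a0001c0008000000000000000000000000000000) := T_8 (nat_lit 140) (nat_lit 123) (nat_lit 4) (nat_lit 5) (nat_lit 11) L51569 (by decide +kernel)
theorem L51571 : W_8 (nat_lit 11) (nat_lit 0x280014001200080000000000000000000000000000000) (nat_lit 0x0) (nat_lit 0x50003e001fc00f80000002a0001c0008000000000000000000000000000000) := Q_8 (nat_lit 192) (C_8 L51554 (C_8 L51563 (C_8 L51474 (C_8 L51567 (C_8 L51570 N_8))))) (by decide +kernel)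
theorem L51572 : W_8 (nat_lit 2) (nat_lit 0x280034001300088000000000000000000000000000000) (nat_lit 0x0) (nat_lit 0x10000400020000000000000000000000) := D_8 (nat_lit 106) (nat_lit 124) (nat_lit 89) (nat_lit 4) (nat_lit 5) (nat_lit 10) (nat_lit 7) (nat_lit 4) (nat_lit 5) (by decide +kernel)
theorem L51573 : W_8 (nat_lit 3) (nat_lit 0x280034001300080000000000000000000000000000000) (nat_lit 0x0) (nat_lit 0x1000000000000000018000400020000000000000000000000) := T_8 (nat_lit 123) (nat_lit 192) (nat_lit 4) (nat_lit 5) (nat_lit 11) L51572 (by decide +kernel)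
theorem L51574 : W_8 (nat_lit 4) (nat_lit 0x280014001300080000000000000000000000000000000) (nat_lit 0x0) (nat_lit 0x1000000028000000018000400020000000000000000000000) := T_8 (nat_lit 161) (nat_lit 159) (nat_lit 0) (nat_lit 8) (nat_lit 9) L51573 (by decide +kernel)
theorem L51575 : W_8 (nat_lit 5) (nat_lit 0x280014001200080000000000000000000000000000000) (nat_lit 0x0) (nat_lit 0x20003000180000002a0001c0018000400020000000000000000000000) := Q_8 (nat_lit 140) (C_8 L50072 (C_8 L35820 (C_8 L51574 N_8))) (by decide +kernel)
theorem L51577 : W_8 (nat_lit 3) (nat_lit 0x1800280014001200080000000000000000000000000000000) (nat_lit 0x0) (nat_lit 0x40002400100000000000010000000000000000000000000000000) := T_8 (nat_lit 193) (nat_lit 210) (nat_lit 7) (nat_lit 5) (nat_lit 8) L51576 (by decide +kernel)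
theorem L51578 : W_8 (nat_lit 4) (nat_lit 0x1000280014001200080000000000000000000000000000000) (nat_lit 0x0) (nat_lit 0x50002c00100000000000010000000000000000000000000000000) := T_8 (nat_lit 191) (nat_lit 208) (nat_lit 5) (nat_lit 5) (nat_lit 8) L51577 (by decide +kernel)
theorem L51579 : W_8 (nat_lit 2) (nat_lit 0x7000100038001c001340090000000000000000000000000000000) (nat_lit 0x0) (nat_lit 0x60001000000000000000000000000000) := D_8 (nat_lit 125) (nat_lit 126) (nat_lit 108) (nat_lit 1) (nat_lit 8) (nat_lit 7) (nat_lit 6) (nat_lit 5) (nat_lit 10) (by decide +kernel)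
theorem L51580 : W_8 (nat_lit 3) (nat_lit 0x7000100038001c001340080000000000000000000000000000000) (nat_lit 0x0) (nat_lit 0x70001800000000000000000000000000) := T_8 (nat_lit 124) (nat_lit 107) (nat_lit 7) (nat_lit 5) (nat_lit 6) L51579 (by decide +kernel)
theorem L51581 : W_8 (nat_lit 4) (nat_lit 0x7000100028001c001340080000000000000000000000000000000) (nat_lit 0x0) (nat_lit 0x400000000000100000000000070001800000000000000000000000000) := T_8 (nat_lit 176) (nat_lit 226) (nat_lit 6) (nat_lit 5) (nat_lit 13) L51580 (by decide +kernel)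
theorem L51582 : W_8 (nat_lit 5) (nat_lit 0x7000100028001c001300080000000000000000000000000000000) (nat_lit 0x0) (nat_lit 0x4000000000001000000000c0070001800000000000000000000000000) := T_8 (nat_lit 138) (nat_lit 139) (nat_lit 3) (nat_lit 2) (nat_lit 8) L51581 (by decide +kernel)
theorem L51583 : W_8 (nat_lit 6) (nat_lit 0x70001000280014001300080000000000000000000000000000000) (nat_lit 0x0) (nat_lit 0x4000000000001000280000c0070001800000000000000000000000000) := T_8 (nat_lit 159) (nat_lit 161) (nat_lit 0) (nat_lit 8) (nat_lit 9) L51582 (by decide +kernel)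
theorem L51584 : W_8 (nat_lit 7) (nat_lit 0x30001000280014001300080000000000000000000000000000000) (nat_lit 0x0) (nat_lit 0xc000400000001000280000c0070001800000000000000000000000000) := T_8 (nat_lit 210) (nat_lit 227) (nat_lit 7) (nat_lit 5) (nat_lit 9) L51583 (by decide +kernel)
theorem L51585 : W_8 (nat_lit 8) (nat_lit 0x30001000280014001200080000000000000000000000000000000) (nat_lit 0x0) (nat_lit 0xc0004000000010002a0001c0070001800000000000000000000000000) := T_8 (nat_lit 140) (nat_lit 157) (nat_lit 4) (nat_lit 5) (nat_lit 12) L51584 (by decide +kernel)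
theorem L51586 : W_8 (nat_lit 9) (nat_lit 0x10001000280014001200080000000000000000000000000000000) (nat_lit 0x0) (nat_lit 0xe0006000000010002a0001c0070001800000000000000000000000000) := T_8 (nat_lit 209) (nat_lit 225) (nat_lit 5) (nat_lit 5) (nat_lit 9) L51585 (by decide +kernel)
theorem L51587 : W_8 (nat_lit 10) (nat_lit 0x1000280014001200080000000000000000000000000000000) (nat_lit 0x0) (nat_lit 0xe0007000080010002a0001c0070001800000000000000000000000000) := T_8 (nat_lit 208) (nat_lit 191) (nat_lit 5) (nat_lit 5) (nat_lit 8) L51586 (by decide +kernel)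
theorem L51588 : W_8 (nat_lit 2) (nat_lit 0x34007000280034001300090000000000000000000000000000000) (nat_lit 0x0) (nat_lit 0x60001000000000000000000000000000) := D_8 (nat_lit 125) (nat_lit 126) (nat_lit 108) (nat_lit 1) (nat_lit 8) (nat_lit 7) (nat_lit 6) (nat_lit 5) (nat_lit 10) (by decide +kernel)
theorem L51589 : W_8 (nat_lit 3) (nat_lit 0x34007000280034001300080000000000000000000000000000000) (nat_lit 0x0) (nat_lit 0x100000000000070001000000000000000000000000000) := T_8 (nat_lit 124) (nat_lit 176) (nat_lit 7) (nat_lit 5) (nat_lit 7) L51588 (by decide +kernel)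
theorem L51590 : W_8 (nat_lit 4) (nat_lit 0x30007000280034001300080000000000000000000000000000000) (nat_lit 0x0) (nat_lit 0xc000000100000000000070001000000000000000000000000000) := T_8 (nat_lit 206) (nat_lit 207) (nat_lit 2) (nat_lit 2) (nat_lit 12) L51589 (by decide +kernel)
theorem L51591 : W_8 (nat_lit 5) (nat_lit 0x30005000280034001300080000000000000000000000000000000) (nat_lit 0x0) (nat_lit 0xc00a000100000000000070001000000000000000000000000000) := T_8 (nat_lit 193) (nat_lit 195) (nat_lit 1) (nat_lit 8) (nat_lit 11) L51590 (by decide +kernel)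
theorem L51592 : W_8 (nat_lit 6) (nat_lit 0x30001000280034001300080000000000000000000000000000000) (nat_lit 0x0) (nat_lit 0x8c00e000100000000000070001000000000000000000000000000) := T_8 (nat_lit 194) (nat_lit 211) (nat_lit 6) (nat_lit 7) (nat_lit 12) L51591 (by decide +kernel)
theorem L51593 : W_8 (nat_lit 7) (nat_lit 0x30001000280014001300080000000000000000000000000000000) (nat_lit 0x0) (nat_lit 0x8c00e000100028000000070001000000000000000000000000000) := T_8 (nat_lit 161) (nat_lit 159) (nat_lit 0) (nat_lit 8) (nat_lit 9) L51592 (by decide +kernel)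
theorem L51594 : W_8 (nat_lit 8) (nat_lit 0x30001000280014001200080000000000000000000000000000000) (nat_lit 0x0) (nat_lit 0x8c00e00010002a000100070001000000000000000000000000000) := T_8 (nat_lit 140) (nat_lit 157) (nat_lit 4) (nat_lit 5) (nat_lit 12) L51593 (by decide +kernel)
theorem L51595 : W_8 (nat_lit 9) (nat_lit 0x10001000280014001200080000000000000000000000000000000) (nat_lit 0x0) (nat_lit 0x2000ac00e00010002a000100070001000000000000000000000000000) := T_8 (nat_lit 209) (nat_lit 225) (nat_lit 5) (nat_lit 5) (nat_lit 9) L51594 (by decide +kernel)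
theorem L51596 : W_8 (nat_lit 10) (nat_lit 0x1000280014001200080000000000000000000000000000000) (nat_lit 0x0) (nat_lit 0x2000bc00e80010002a000100070001000000000000000000000000000) := T_8 (nat_lit 208) (nat_lit 191) (nat_lit 5) (nat_lit 5) (nat_lit 8) L51595 (by decide +kernel)
theorem L51597 : W_8 (nat_lit 2) (nat_lit 0x300028001c0013000b0000000000000000000000000000000) (nat_lit 0x0) (nat_lit 0x20000000000002000080000000000000000000000000000000000) := D_8 (nat_lit 157) (nat_lit 209) (nat_lit 139) (nat_lit 4) (nat_lit 5) (nat_lit 12) (nat_lit 0) (nat_lit 7) (nat_lit 9) (by decide +kernel)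
theorem L51598 : W_8 (nat_lit 3) (nat_lit 0x30002800140013000b0000000000000000000000000000000) (nat_lit 0x0) (nat_lit 0x2000000000002a000080000000000000000000000000000000000) := T_8 (nat_lit 159) (nat_lit 161) (nat_lit 0) (nat_lit 8) (nat_lit 9) L51597 (by decide +kernel)
theorem L51599 : W_8 (nat_lit 4) (nat_lit 0x30002800140012000b0000000000000000000000000000000) (nat_lit 0x0) (nat_lit 0x2000000000002a000180040000000000000000000000000000000) := T_8 (nat_lit 140) (nat_lit 126) (nat_lit 1) (nat_lit 8) (nat_lit 7) L51598 (by decide +kernel)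
theorem L51600 : W_8 (nat_lit 5) (nat_lit 0x3000280014001200090000000000000000000000000000000) (nat_lit 0x0) (nat_lit 0x2000000000002a000180060001000000000000000000000000000) := T_8 (nat_lit 125) (nat_lit 108) (nat_lit 6) (nat_lit 5) (nat_lit 10) L51599 (by decide +kernel)
theorem L51601 : W_8 (nat_lit 6) (nat_lit 0x3000280014001200080000000000000000000000000000000) (nat_lit 0x0) (nat_lit 0x2000000010002a000180070001000000000000000000000000000) := T_8 (nat_lit 124) (nat_lit 176) (nat_lit 7) (nat_lit 5) (nat_lit 7) L51600 (by decide +kernel)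
theorem L51602 : W_8 (nat_lit 7) (nat_lit 0x1000280014001200080000000000000000000000000000000) (nat_lit 0x0) (nat_lit 0x6000200010002a000180070001000000000000000000000000000) := T_8 (nat_lit 193) (nat_lit 210) (nat_lit 7) (nat_lit 5) (nat_lit 8) L51601 (by decide +kernel)
theorem L51603 : W_8 (nat_lit 11) (nat_lit 0x280014001200080000000000000000000000000000000) (nat_lit 0x0) (nat_lit 0x50003e001fc00fc0010002a0001c0070001800000000000000000000000000) := Q_8 (nat_lit 192) (C_8 L51563 (C_8 L51578 (C_8 L51587 (C_8 L51596 (C_8 L51602 N_8))))) (by decide +kernel)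
theorem L51604 : W_8 (nat_lit 2) (nat_lit 0x30000b40070002800140012000f0000000000000000000000000000000) (nat_lit 0x0) (nat_lit 0x10000c00000000000000000000000000000000000000000000000000000000) := D_8 (nat_lit 227) (nat_lit 244) (nat_lit 226) (nat_lit 5) (nat_lit 7) (nat_lit 10) (nat_lit 0) (nat_lit 8) (nat_lit 13) (by decide +kernel)
theorem L51605 : W_8 (nat_lit 3) (nat_lit 0x20000b40070002800140012000f0000000000000000000000000000000) (nat_lit 0x0) (nat_lit 0x50001c00000000000000000000000000000000000000000000000000000000) := T_8 (nat_lit 228) (nat_lit 246) (nat_lit 7) (nat_lit 7) (nat_lit 10) L51604 (by decide +kernel)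
theorem L51606 : W_8 (nat_lit 4) (nat_lit 0xb40070002800140012000f0000000000000000000000000000000) (nat_lit 0x0) (nat_lit 0x50003c00100000000000000000000000000000000000000000000000000000) := T_8 (nat_lit 229) (nat_lit 212) (nat_lit 7) (nat_lit 7) (nat_lit 9) L51605 (by decide +kernel)
theorem L51607 : W_8 (nat_lit 5) (nat_lit 0x340070002800140012000f0000000000000000000000000000000) (nat_lit 0x0) (nat_lit 0x50003c00180000000000020000000000000000000000000000000000000000) := T_8 (nat_lit 211) (nat_lit 161) (nat_lit 6) (nat_lit 7) (nat_lit 12) L51606 (by decide +kernel)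
theorem L51608 : W_8 (nat_lit 6) (nat_lit 0x340030002800140012000f0000000000000000000000000000000) (nat_lit 0x0) (nat_lit 0x50003c0018000c000000020000000000000000000000000000000000000000) := T_8 (nat_lit 194) (nat_lit 195) (nat_lit 1) (nat_lit 8) (nat_lit 11) L51607 (by decide +kernel)
theorem L51609 : W_8 (nat_lit 7) (nat_lit 0x300030002800140012000f0000000000000000000000000000000) (nat_lit 0x0) (nat_lit 0x50003c0018c00c000000020000000000000000000000000000000000000000) := T_8 (nat_lit 206) (nat_lit 207) (nat_lit 2) (nat_lit 2) (nat_lit 12) L51608 (by decide +kernel)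
theorem L51610 : W_8 (nat_lit 8) (nat_lit 0x100030002800140012000f0000000000000000000000000000000) (nat_lit 0x0) (nat_lit 0x50003e001ac00c000000020000000000000000000000000000000000000000) := T_8 (nat_lit 209) (nat_lit 225) (nat_lit 5) (nat_lit 5) (nat_lit 9) L51609 (by decide +kernel)
theorem L51611 : W_8 (nat_lit 9) (nat_lit 0x30002800140012000f0000000000000000000000000000000) (nat_lit 0x0) (nat_lit 0x50003e001bc00c800000020000000000000000000000000000000000000000) := T_8 (nat_lit 208) (nat_lit 191) (nat_lit 5) (nat_lit 5) (nat_lit 8) L51610 (by decide +kernel)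
theorem L51612 : W_8 (nat_lit 10) (nat_lit 0x20002800140012000f0000000000000000000000000000000) (nat_lit 0x0) (nat_lit 0x50003e001fc00d800000020000000000000000000000000000000000000000) := T_8 (nat_lit 192) (nat_lit 210) (nat_lit 7) (nat_lit 5) (nat_lit 8) L51611 (by decide +kernel)
theorem L51613 : W_8 (nat_lit 11) (nat_lit 0x2800140012000f0000000000000000000000000000000) (nat_lit 0x0) (nat_lit 0x50003e001fc00f800100020000000000000000000000000000000000000000) := T_8 (nat_lit 193) (nat_lit 176) (nat_lit 7) (nat_lit 5) (nat_lit 7) L51612 (by decide +kernel)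
theorem L51614 : W_8 (nat_lit 12) (nat_lit 0x2800140012000b0000000000000000000000000000000) (nat_lit 0x0) (nat_lit 0x50003e001fc00f800100020000100040000000000000000000000000000000) := T_8 (nat_lit 126) (nat_lit 140) (nat_lit 1) (nat_lit 8) (nat_lit 7) L51613 (by decide +kernel)
theorem L51615 : W_8 (nat_lit 13) (nat_lit 0x280014001200090000000000000000000000000000000) (nat_lit 0x0) (nat_lit 0x50003e001fc00f800100020000100060001000000000000000000000000000) := T_8 (nat_lit 125) (nat_lit 108) (nat_lit 6) (nat_lit 5) (nat_lit 10) L51614 (by decide +kernel)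
theorem L51616 : W_8 (nat_lit 14) (nat_lit 0x280014001200080000000000000000000000000000000) (nat_lit 0x0) (nat_lit 0x50003e001fc00f800100020000100078001c00020000000000000000000000) := Q_8 (nat_lit 124) (C_8 L51548 (C_8 L51530 (C_8 L51615 (C_8 L51351 N_8)))) (by decide +kernel)
theorem L51617 : W_8 (nat_lit 5) (nat_lit 0x280014001200080000000000000000000000000000000) (nat_lit 0x0) (nat_lit 0x40003000100008000100078001c000a0000000000000000000000) := Q_8 (nat_lit 124) (C_8 L51536 (C_8 L51533 (C_8 L51530 (C_8 L51351 N_8)))) (by decide +kernel)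
theorem L51618 : W_8 (nat_lit 15) (nat_lit 0x280010001200080000000000000000000000000000000) (nat_lit 0x0) (nat_lit 0x50003e001fe00fe0013006f0001c0078001c000e0006000000000000000000) := Q_8 (nat_lit 158) (C_8 L51505 (C_8 L51510 (C_8 L51527 (C_8 L51549 (C_8 L51571 (C_8 L51575 (C_8 L51603 (C_8 L51616 (C_8 L51617 N_8))))))))) (by decide +kernel)
theorem L51619 : W_8 (nat_lit 4) (nat_lit 0x2c0034001200080000000000000000000000000000000) (nat_lit 0x0) (nat_lit 0x800000002000000030001800080000000000000000000000) := T_8 (nat_lit 124) (nat_lit 191) (nat_lit 5) (nat_lit 5) (nat_lit 7) L51452 (by decide +kernel)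
theorem L51620 : W_8 (nat_lit 5) (nat_lit 0x2c0014001200080000000000000000000000000000000) (nat_lit 0x0) (nat_lit 0x80000002a000000030001800080000000000000000000000) := T_8 (nat_lit 161) (nat_lit 159) (nat_lit 1) (nat_lit 8) (nat_lit 9) L51619 (by decide +kernel)
theorem L51621 : W_8 (nat_lit 7) (nat_lit 0x280014001200080000000000000000000000000000000) (nat_lit 0x0) (nat_lit 0x80007002a000100078001c00080000000000000000000000) := Q_8 (nat_lit 174) (C_8 L51620 (C_8 L51412 (C_8 L51415 (C_8 L51420 N_8)))) (by decide +kernel)
theorem L51622 : W_8 (nat_lit 2) (nat_lit 0xa0001000280034001300080000000000000000000000000000000) (nat_lit 0x0) (nat_lit 0x200010000800000000000000000000000000000000000000000000000) := D_8 (nat_lit 208) (nat_lit 225) (nat_lit 191) (nat_lit 5) (nat_lit 5) (nat_lit 9) (nat_lit 5) (nat_lit 5) (nat_lit 8) (by decide +kernel)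
theorem L51623 : W_8 (nat_lit 3) (nat_lit 0x80001000280034001300080000000000000000000000000000000) (nat_lit 0x0) (nat_lit 0x200030000800000002000000000000000000000000000000000000000) := T_8 (nat_lit 209) (nat_lit 157) (nat_lit 4) (nat_lit 5) (nat_lit 12) L51622 (by decide +kernel)
theorem L51624 : W_8 (nat_lit 4) (nat_lit 0x80000000280034001300080000000000000000000000000000000) (nat_lit 0x0) (nat_lit 0x200030001800000002000000008000000000000000000000000000000) := T_8 (nat_lit 192) (nat_lit 123) (nat_lit 4) (nat_lit 5) (nat_lit 11) L51623 (by decide +kernel)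
theorem L51625 : W_8 (nat_lit 5) (nat_lit 0x280034001300080000000000000000000000000000000) (nat_lit 0x0) (nat_lit 0x2000b0005800000002000000008000000000000000000000000000000) := T_8 (nat_lit 211) (nat_lit 194) (nat_lit 6) (nat_lit 7) (nat_lit 12) L51624 (by decide +kernel)
theorem L51626 : W_8 (nat_lit 6) (nat_lit 0x280014001300080000000000000000000000000000000) (nat_lit 0x0) (nat_lit 0x2000b000580000002a000000008000000000000000000000000000000) := T_8 (nat_lit 161) (nat_lit 159) (nat_lit 0) (nat_lit 8) (nat_lit 9) L51625 (by decide +kernel)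
theorem L51627 : W_8 (nat_lit 2) (nat_lit 0xc0001800280034001300080000000000000000000000000000000) (nat_lit 0x0) (nat_lit 0x800120000000000000000000000000000000000000000000000000000) := D_8 (nat_lit 209) (nat_lit 227) (nat_lit 212) (nat_lit 7) (nat_lit 5) (nat_lit 9) (nat_lit 0) (nat_lit 8) (nat_lit 12) (by decide +kernel)
theorem L51628 : W_8 (nat_lit 3) (nat_lit 0x80001800280034001300080000000000000000000000000000000) (nat_lit 0x0) (nat_lit 0x800160002000000000000000000000000000000000000000000000000) := T_8 (nat_lit 210) (nat_lit 193) (nat_lit 7) (nat_lit 5) (nat_lit 8) L51627 (by decide +kernel)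
theorem L51629 : W_8 (nat_lit 4) (nat_lit 0x80001000280034001300080000000000000000000000000000000) (nat_lit 0x0) (nat_lit 0x800170002800000000000000000000000000000000000000000000000) := T_8 (nat_lit 191) (nat_lit 208) (nat_lit 5) (nat_lit 5) (nat_lit 8) L51628 (by decide +kernel)
theorem L51630 : W_8 (nat_lit 5) (nat_lit 0x80000000280034001300080000000000000000000000000000000) (nat_lit 0x0) (nat_lit 0x800170003800000000000000008000000000000000000000000000000) := T_8 (nat_lit 192) (nat_lit 123) (nat_lit 4) (nat_lit 5) (nat_lit 11) L51629 (by decide +kernel)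
theorem L51631 : W_8 (nat_lit 6) (nat_lit 0x280034001300080000000000000000000000000000000) (nat_lit 0x0) (nat_lit 0x8001f0007800000000000000008000000000000000000000000000000) := T_8 (nat_lit 211) (nat_lit 194) (nat_lit 6) (nat_lit 7) (nat_lit 12) L51630 (by decide +kernel)
theorem L51632 : W_8 (nat_lit 7) (nat_lit 0x280014001300080000000000000000000000000000000) (nat_lit 0x0) (nat_lit 0x8001f0007800000028000000008000000000000000000000000000000) := T_8 (nat_lit 161) (nat_lit 159) (nat_lit 0) (nat_lit 8) (nat_lit 9) L51631 (by decide +kernel)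
theorem L51633 : W_8 (nat_lit 8) (nat_lit 0x280014001200080000000000000000000000000000000) (nat_lit 0x0) (nat_lit 0xa001f000780000002a0001c0008000000000000000000000000000000) := Q_8 (nat_lit 140) (C_8 L51626 (C_8 L50072 (C_8 L35820 (C_8 L51632 N_8)))) (by decide +kernel)
theorem L51635 : W_8 (nat_lit 3) (nat_lit 0x2800140012000b0000000000000000000000000000000) (nat_lit 0x0) (nat_lit 0x48000c00020000000000000000000000) := T_8 (nat_lit 106) (nat_lit 123) (nat_lit 4) (nat_lit 5) (nat_lit 10) L51528 (by decide +kernel)
theorem L51636 : W_8 (nat_lit 4) (nat_lit 0x280014001200090000000000000000000000000000000) (nat_lit 0x0) (nat_lit 0x68001c00020000000000000000000000) := T_8 (nat_lit 125) (nat_lit 108) (nat_lit 6) (nat_lit 5) (nat_lit 10) L51635 (by decide +kernel)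
theorem L51637 : W_8 (nat_lit 2) (nat_lit 0x2c001c001200098000000000000000000000000000000) (nat_lit 0x0) (nat_lit 0x20002000000000000800000000000000000000000000) := D_8 (nat_lit 157) (nat_lit 107) (nat_lit 173) (nat_lit 5) (nat_lit 5) (nat_lit 6) (nat_lit 1) (nat_lit 7) (nat_lit 9) (by decide +kernel)
theorem L51638 : W_8 (nat_lit 3) (nat_lit 0x2c0014001200098000000000000000000000000000000) (nat_lit 0x0) (nat_lit 0x2002a000000000000800000000000000000000000000) := T_8 (nat_lit 159) (nat_lit 161) (nat_lit 1) (nat_lit 8) (nat_lit 9) L51637 (by decide +kernel)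
theorem L51639 : W_8 (nat_lit 4) (nat_lit 0x280014001200098000000000000000000000000000000) (nat_lit 0x0) (nat_lit 0x80006002a000000000000800000000000000000000000000) := T_8 (nat_lit 174) (nat_lit 191) (nat_lit 5) (nat_lit 5) (nat_lit 7) L51638 (by decide +kernel)
theorem L51640 : W_8 (nat_lit 5) (nat_lit 0x280014001200090000000000000000000000000000000) (nat_lit 0x0) (nat_lit 0x80006002a000000008000c00000000000000000000000000) := T_8 (nat_lit 123) (nat_lit 106) (nat_lit 4) (nat_lit 5) (nat_lit 10) L51639 (by decide +kernel)
theorem L51641 : W_8 (nat_lit 2) (nat_lit 0x2c001c001200090000000000000000000000000000000) (nat_lit 0x0) (nat_lit 0x30002000000000000000000000000000000000000000) := D_8 (nat_lit 173) (nat_lit 157) (nat_lit 172) (nat_lit 1) (nat_lit 7) (nat_lit 9) (nat_lit 2) (nat_lit 2) (nat_lit 10) (by decide +kernel)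
theorem L51642 : W_8 (nat_lit 3) (nat_lit 0x2c0014001200090000000000000000000000000000000) (nat_lit 0x0) (nat_lit 0x3002a000000000000000000000000000000000000000) := T_8 (nat_lit 159) (nat_lit 161) (nat_lit 1) (nat_lit 8) (nat_lit 9) L51641 (by decide +kernel)
theorem L51643 : W_8 (nat_lit 4) (nat_lit 0x280014001200090000000000000000000000000000000) (nat_lit 0x0) (nat_lit 0x80007002a000000000000000000000000000000000000000) := T_8 (nat_lit 174) (nat_lit 191) (nat_lit 5) (nat_lit 5) (nat_lit 7) L51642 (by decide +kernel)
theorem L51644 : W_8 (nat_lit 6) (nat_lit 0x280014001200080000000000000000000000000000000) (nat_lit 0x0) (nat_lit 0x80007002a000000078001c000a0000000000000000000000) := Q_8 (nat_lit 124) (C_8 L51634 (C_8 L51636 (C_8 L51640 (C_8 L51643 N_8)))) (by decide +kernel)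
theorem L51645 : W_8 (nat_lit 2) (nat_lit 0x30002c0016001200098000000000000000000000000000000) (nat_lit 0x0) (nat_lit 0x30008000000000000000000000000000000000000000) := D_8 (nat_lit 173) (nat_lit 172) (nat_lit 159) (nat_lit 3) (nat_lit 2) (nat_lit 10) (nat_lit 1) (nat_lit 7) (nat_lit 9) (by decide +kernel)
theorem L51646 : W_8 (nat_lit 3) (nat_lit 0x10002c0016001200098000000000000000000000000000000) (nat_lit 0x0) (nat_lit 0x40002000030008000000000000000000000000000000000000000) := T_8 (nat_lit 193) (nat_lit 210) (nat_lit 7) (nat_lit 5) (nat_lit 8) L51645 (by decide +kernel)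
theorem L51647 : W_8 (nat_lit 4) (nat_lit 0x10002c0014001200098000000000000000000000000000000) (nat_lit 0x0) (nat_lit 0x4000200003000a000000000000800000000000000000000000000) := T_8 (nat_lit 157) (nat_lit 107) (nat_lit 5) (nat_lit 5) (nat_lit 6) L51646 (by decide +kernel)
theorem L51648 : W_8 (nat_lit 5) (nat_lit 0x2c0014001200098000000000000000000000000000000) (nat_lit 0x0) (nat_lit 0x4000300003000a000100000000800000000000000000000000000) := T_8 (nat_lit 192) (nat_lit 140) (nat_lit 4) (nat_lit 5) (nat_lit 11) L51647 (by decide +kernel)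
theorem L51649 : W_8 (nat_lit 6) (nat_lit 0x2c0014001200090000000000000000000000000000000) (nat_lit 0x0) (nat_lit 0x4000300003000a000100008000c00000000000000000000000000) := T_8 (nat_lit 123) (nat_lit 106) (nat_lit 4) (nat_lit 5) (nat_lit 10) L51648 (by decide +kernel)
theorem L51650 : W_8 (nat_lit 7) (nat_lit 0x280014001200090000000000000000000000000000000) (nat_lit 0x0) (nat_lit 0x4000380007000a000100008000c00000000000000000000000000) := T_8 (nat_lit 174) (nat_lit 191) (nat_lit 5) (nat_lit 5) (nat_lit 7) L51649 (by decide +kernel)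
theorem L51651 : W_8 (nat_lit 2) (nat_lit 0x2c00140013000b0000000000000000000000000000000) (nat_lit 0x0) (nat_lit 0x1000000000000000008000400000000000000000000000000) := D_8 (nat_lit 123) (nat_lit 106) (nat_lit 192) (nat_lit 4) (nat_lit 5) (nat_lit 10) (nat_lit 4) (nat_lit 5) (nat_lit 11) (by decide +kernel)
theorem L51652 : W_8 (nat_lit 3) (nat_lit 0x2c00140012000b0000000000000000000000000000000) (nat_lit 0x0) (nat_lit 0x1000000000000100048000400000000000000000000000000) := T_8 (nat_lit 140) (nat_lit 126) (nat_lit 1) (nat_lit 8) (nat_lit 7) L51651 (by decide +kernel)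
theorem L51653 : W_8 (nat_lit 4) (nat_lit 0x2c0014001200090000000000000000000000000000000) (nat_lit 0x0) (nat_lit 0x1000000000000100068001400000000000000000000000000) := T_8 (nat_lit 125) (nat_lit 108) (nat_lit 6) (nat_lit 5) (nat_lit 10) L51652 (by decide +kernel)
theorem L51654 : W_8 (nat_lit 5) (nat_lit 0x280014001200090000000000000000000000000000000) (nat_lit 0x0) (nat_lit 0x1800040000000100068001400000000000000000000000000) := T_8 (nat_lit 174) (nat_lit 191) (nat_lit 5) (nat_lit 5) (nat_lit 7) L51653 (by decide +kernel)
theorem L51655 : W_8 (nat_lit 8) (nat_lit 0x280014001200080000000000000000000000000000000) (nat_lit 0x0) (nat_lit 0x4000380007000a000100078001c000a0000000000000000000000) := Q_8 (nat_lit 124) (C_8 L51636 (C_8 L51634 (C_8 L51650 (C_8 L51654 N_8)))) (by decide +kernel)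
theorem L51656 : W_8 (nat_lit 6) (nat_lit 0x1000280034001300080000000000000000000000000000000) (nat_lit 0x0) (nat_lit 0x4000e001f0006000000000000000000000000000000000000000000000000) := T_8 (nat_lit 211) (nat_lit 194) (nat_lit 6) (nat_lit 7) (nat_lit 12) L51344 (by decide +kernel)
theorem L51657 : W_8 (nat_lit 7) (nat_lit 0x1000280014001300080000000000000000000000000000000) (nat_lit 0x0) (nat_lit 0x4000e001f0006000000028000000000000000000000000000000000000000) := T_8 (nat_lit 161) (nat_lit 159) (nat_lit 0) (nat_lit 8) (nat_lit 9) L51656 (by decide +kernel)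
theorem L51658 : W_8 (nat_lit 8) (nat_lit 0x280014001300080000000000000000000000000000000) (nat_lit 0x0) (nat_lit 0x4000e001f0007000000028000000008000000000000000000000000000000) := T_8 (nat_lit 192) (nat_lit 123) (nat_lit 4) (nat_lit 5) (nat_lit 11) L51657 (by decide +kernel)
theorem L51659 : W_8 (nat_lit 9) (nat_lit 0x280014001200080000000000000000000000000000000) (nat_lit 0x0) (nat_lit 0x4000e001f000700000002a0001c0008000000000000000000000000000000) := Q_8 (nat_lit 140) (C_8 L35820 (C_8 L36340 (C_8 L51658 N_8))) (by decide +kernel)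
theorem L51662 : W_8 (nat_lit 4) (nat_lit 0x2c0014001200080000000000000000000000000000000) (nat_lit 0x0) (nat_lit 0x200010001800000028000000010000000000000000000000000000000) := T_8 (nat_lit 161) (nat_lit 159) (nat_lit 1) (nat_lit 8) (nat_lit 9) L51661 (by decide +kernel)
theorem L51663 : W_8 (nat_lit 5) (nat_lit 0x280014001200080000000000000000000000000000000) (nat_lit 0x0) (nat_lit 0x20001000180007002a000000030001800080000000000000000000000) := Q_8 (nat_lit 174) (C_8 L51415 (C_8 L51412 (C_8 L51662 N_8))) (by decide +kernel)
theorem L51664 : W_8 (nat_lit 2) (nat_lit 0x1000280014001200098000000000000000000000000000000) (nat_lit 0x0) (nat_lit 0x10000800040000000000000000000000000000000000000000000) := D_8 (nat_lit 191) (nat_lit 208) (nat_lit 174) (nat_lit 5) (nat_lit 5) (nat_lit 8) (nat_lit 5) (nat_lit 5) (nat_lit 7) (by decide +kernel)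
theorem L51665 : W_8 (nat_lit 3) (nat_lit 0x280014001200098000000000000000000000000000000) (nat_lit 0x0) (nat_lit 0x10001800040000000100000000000000000000000000000000000) := T_8 (nat_lit 192) (nat_lit 140) (nat_lit 4) (nat_lit 5) (nat_lit 11) L51664 (by decide +kernel)
theorem L51666 : W_8 (nat_lit 4) (nat_lit 0x280014001200090000000000000000000000000000000) (nat_lit 0x0) (nat_lit 0x10001800040000000100008000400000000000000000000000000) := T_8 (nat_lit 123) (nat_lit 106) (nat_lit 4) (nat_lit 5) (nat_lit 10) L51665 (by decide +kernel)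
theorem L51667 : W_8 (nat_lit 6) (nat_lit 0x280014001200080000000000000000000000000000000) (nat_lit 0x0) (nat_lit 0x10001800040002000100078001c000a0000000000000000000000) := Q_8 (nat_lit 124) (C_8 L51654 (C_8 L51634 (C_8 L51636 (C_8 L51666 N_8)))) (by decide +kernel)
theorem L51668 : W_8 (nat_lit 2) (nat_lit 0x2000e00010002c00340013400b0000000000000000000000000000000) (nat_lit 0x0) (nat_lit 0x4000400100000000000000000000000000000000000000000000000000000) := D_8 (nat_lit 226) (nat_lit 242) (nat_lit 212) (nat_lit 5) (nat_lit 5) (nat_lit 10) (nat_lit 1) (nat_lit 8) (nat_lit 12) (by decide +kernel)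
theorem L51669 : W_8 (nat_lit 3) (nat_lit 0xe00010002c00340013400b0000000000000000000000000000000) (nat_lit 0x0) (nat_lit 0x4000600110000000000000000000000000000000000000000000000000000) := T_8 (nat_lit 225) (nat_lit 208) (nat_lit 5) (nat_lit 5) (nat_lit 9) L51668 (by decide +kernel)
theorem L51670 : W_8 (nat_lit 4) (nat_lit 0xc00010002c00340013400b0000000000000000000000000000000) (nat_lit 0x0) (nat_lit 0x4000e00130000000000000000000000000000000000000000000000000000) := T_8 (nat_lit 209) (nat_lit 227) (nat_lit 7) (nat_lit 5) (nat_lit 9) L51669 (by decide +kernel)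
theorem L51671 : W_8 (nat_lit 5) (nat_lit 0x800010002c00340013400b0000000000000000000000000000000) (nat_lit 0x0) (nat_lit 0x4000e00170002000000000000000000000000000000000000000000000000) := T_8 (nat_lit 210) (nat_lit 193) (nat_lit 7) (nat_lit 5) (nat_lit 8) L51670 (by decide +kernel)
theorem L51672 : W_8 (nat_lit 6) (nat_lit 0x800010002c00340013000b0000000000000000000000000000000) (nat_lit 0x0) (nat_lit 0x4000e001700020000000000000c0000000000000000000000000000000000) := T_8 (nat_lit 138) (nat_lit 139) (nat_lit 2) (nat_lit 2) (nat_lit 8) L51671 (by decide +kernel)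
theorem L51673 : W_8 (nat_lit 7) (nat_lit 0x800000002c00340013000b0000000000000000000000000000000) (nat_lit 0x0) (nat_lit 0x4000e001700030000000000000c0008000000000000000000000000000000) := T_8 (nat_lit 192) (nat_lit 123) (nat_lit 4) (nat_lit 5) (nat_lit 11) L51672 (by decide +kernel)
theorem L51674 : W_8 (nat_lit 8) (nat_lit 0x2c00340013000b0000000000000000000000000000000) (nat_lit 0x0) (nat_lit 0x4000e001f00070000000000000c0008000000000000000000000000000000) := T_8 (nat_lit 211) (nat_lit 194) (nat_lit 6) (nat_lit 7) (nat_lit 12) L51673 (by decide +kernel)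
theorem L51675 : W_8 (nat_lit 9) (nat_lit 0x2c00340012000b0000000000000000000000000000000) (nat_lit 0x0) (nat_lit 0x4000e001f00070000000000001c0048000000000000000000000000000000) := T_8 (nat_lit 140) (nat_lit 126) (nat_lit 1) (nat_lit 8) (nat_lit 7) L51674 (by decide +kernel)
theorem L51676 : W_8 (nat_lit 10) (nat_lit 0x2c0034001200090000000000000000000000000000000) (nat_lit 0x0) (nat_lit 0x4000e001f00070000000000001c0068001000000000000000000000000000) := T_8 (nat_lit 125) (nat_lit 108) (nat_lit 6) (nat_lit 5) (nat_lit 10) L51675 (by decide +kernel)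
theorem L51677 : W_8 (nat_lit 11) (nat_lit 0x2c0014001200090000000000000000000000000000000) (nat_lit 0x0) (nat_lit 0x4000e001f00070000000280001c0068001000000000000000000000000000) := T_8 (nat_lit 161) (nat_lit 159) (nat_lit 1) (nat_lit 8) (nat_lit 9) L51676 (by decide +kernel)
theorem L51678 : W_8 (nat_lit 12) (nat_lit 0x280014001200090000000000000000000000000000000) (nat_lit 0x0) (nat_lit 0x4000e001f00078000400280001c0068001000000000000000000000000000) := T_8 (nat_lit 174) (nat_lit 191) (nat_lit 5) (nat_lit 5) (nat_lit 7) L51677 (by decide +kernel)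
theorem L51679 : W_8 (nat_lit 2) (nat_lit 0xc00018002800340013400b0000000000000000000000000000000) (nat_lit 0x0) (nat_lit 0x800120000000000000000000000000000000000000000000000000000) := D_8 (nat_lit 209) (nat_lit 212) (nat_lit 227) (nat_lit 0) (nat_lit 8) (nat_lit 12) (nat_lit 7) (nat_lit 5) (nat_lit 9) (by decide +kernel)
theorem L51680 : W_8 (nat_lit 3) (nat_lit 0x400018002800340013400b0000000000000000000000000000000) (nat_lit 0x0) (nat_lit 0x8001a0004000000000000000000000000000000000000000000000000) := T_8 (nat_lit 211) (nat_lit 194) (nat_lit 6) (nat_lit 7) (nat_lit 12) L51679 (by decide +kernel)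
theorem L51681 : W_8 (nat_lit 4) (nat_lit 0x18002800340013400b0000000000000000000000000000000) (nat_lit 0x0) (nat_lit 0x8001e0006000000000000000000000000000000000000000000000000) := T_8 (nat_lit 210) (nat_lit 193) (nat_lit 7) (nat_lit 5) (nat_lit 8) L51680 (by decide +kernel)
theorem L51682 : W_8 (nat_lit 5) (nat_lit 0x18002800140013400b0000000000000000000000000000000) (nat_lit 0x0) (nat_lit 0x8001e0006000000028000000000000000000000000000000000000000) := T_8 (nat_lit 161) (nat_lit 159) (nat_lit 0) (nat_lit 8) (nat_lit 9) L51681 (by decide +kernel)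
theorem L51683 : W_8 (nat_lit 6) (nat_lit 0x8002800140013400b0000000000000000000000000000000) (nat_lit 0x0) (nat_lit 0x8001f0007000000028000000000000000000000000000000000000000) := T_8 (nat_lit 192) (nat_lit 208) (nat_lit 5) (nat_lit 5) (nat_lit 8) L51682 (by decide +kernel)
theorem L51684 : W_8 (nat_lit 7) (nat_lit 0x8002800140013000b0000000000000000000000000000000) (nat_lit 0x0) (nat_lit 0x8001f00070000000280000c0000000000000000000000000000000000) := T_8 (nat_lit 138) (nat_lit 139) (nat_lit 2) (nat_lit 2) (nat_lit 8) L51683 (by decide +kernel)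
theorem L51685 : W_8 (nat_lit 8) (nat_lit 0x2800140013000b0000000000000000000000000000000) (nat_lit 0x0) (nat_lit 0x8001f00078000400280000c0000000000000000000000000000000000) := T_8 (nat_lit 191) (nat_lit 174) (nat_lit 5) (nat_lit 5) (nat_lit 7) L51684 (by decide +kernel)
theorem L51686 : W_8 (nat_lit 9) (nat_lit 0x2800140012000b0000000000000000000000000000000) (nat_lit 0x0) (nat_lit 0x8001f00078000400280001c0040000000000000000000000000000000) := T_8 (nat_lit 140) (nat_lit 126) (nat_lit 1) (nat_lit 8) (nat_lit 7) L51685 (by decide +kernel)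
theorem L51687 : W_8 (nat_lit 10) (nat_lit 0x280014001200090000000000000000000000000000000) (nat_lit 0x0) (nat_lit 0x8001f00078000400280001c0060001000000000000000000000000000) := T_8 (nat_lit 125) (nat_lit 108) (nat_lit 6) (nat_lit 5) (nat_lit 10) L51686 (by decide +kernel)
theorem L51688 : W_8 (nat_lit 13) (nat_lit 0x280014001200080000000000000000000000000000000) (nat_lit 0x0) (nat_lit 0x4000e001f00078000400280001c0078001c00020000000000000000000000) := Q_8 (nat_lit 124) (C_8 L51666 (C_8 L51678 (C_8 L51687 (C_8 L51636 N_8)))) (by decide +kernel)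
theorem L51689 : W_8 (nat_lit 14) (nat_lit 0x280010001200080000000000000000000000000000000) (nat_lit 0x0) (nat_lit 0x4000e001f000780007002e0001c0078001c000a0000000000000000000000) := Q_8 (nat_lit 158) (C_8 L51621 (C_8 L51633 (C_8 L51644 (C_8 L51655 (C_8 L51659 (C_8 L51663 (C_8 L51667 (C_8 L51688 N_8)))))))) (by decide +kernel)
theorem L51690 : W_8 (nat_lit 2) (nat_lit 0x2c00140012000f0000000000000000000000000000000) (nat_lit 0x0) (nat_lit 0x8000c00000000000000000000000000) := D_8 (nat_lit 106) (nat_lit 123) (nat_lit 107) (nat_lit 4) (nat_lit 5) (nat_lit 10) (nat_lit 0) (nat_lit 8) (nat_lit 7) (by decide +kernel)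
theorem L51691 : W_8 (nat_lit 3) (nat_lit 0x2c00140012000b0000000000000000000000000000000) (nat_lit 0x0) (nat_lit 0x100048000c00000000000000000000000000) := T_8 (nat_lit 126) (nat_lit 140) (nat_lit 1) (nat_lit 8) (nat_lit 7) L51690 (by decide +kernel)
theorem L51692 : W_8 (nat_lit 4) (nat_lit 0x2c0014001200090000000000000000000000000000000) (nat_lit 0x0) (nat_lit 0x100068001c00000000000000000000000000) := T_8 (nat_lit 125) (nat_lit 108) (nat_lit 6) (nat_lit 5) (nat_lit 10) L51691 (by decide +kernel)
theorem L51693 : W_8 (nat_lit 5) (nat_lit 0x280014001200090000000000000000000000000000000) (nat_lit 0x0) (nat_lit 0x800040000000100068001c00000000000000000000000000) := T_8 (nat_lit 174) (nat_lit 191) (nat_lit 5) (nat_lit 5) (nat_lit 7) L51692 (by decide +kernel)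
theorem L51694 : W_8 (nat_lit 6) (nat_lit 0x34007000280014001200098000000000000000000000000000000) (nat_lit 0x0) (nat_lit 0x50003c00180000000000020000000020001000000000000000000000000000) := T_8 (nat_lit 125) (nat_lit 108) (nat_lit 6) (nat_lit 5) (nat_lit 10) L51540 (by decide +kernel)
theorem L51695 : W_8 (nat_lit 7) (nat_lit 0x34003000280014001200098000000000000000000000000000000) (nat_lit 0x0) (nat_lit 0x50003c0018000c000000020000000020001000000000000000000000000000) := T_8 (nat_lit 194) (nat_lit 195) (nat_lit 1) (nat_lit 8) (nat_lit 11) L51694 (by decide +kernel)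
theorem L51696 : W_8 (nat_lit 8) (nat_lit 0x30003000280014001200098000000000000000000000000000000) (nat_lit 0x0) (nat_lit 0x50003c0018c00c000000020000000020001000000000000000000000000000) := T_8 (nat_lit 206) (nat_lit 207) (nat_lit 2) (nat_lit 2) (nat_lit 12) L51695 (by decide +kernel)
theorem L51697 : W_8 (nat_lit 9) (nat_lit 0x10003000280014001200098000000000000000000000000000000) (nat_lit 0x0) (nat_lit 0x50003e001ac00c000000020000000020001000000000000000000000000000) := T_8 (nat_lit 209) (nat_lit 225) (nat_lit 5) (nat_lit 5) (nat_lit 9) L51696 (by decide +kernel)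
theorem L51698 : W_8 (nat_lit 10) (nat_lit 0x10001000280014001200098000000000000000000000000000000) (nat_lit 0x0) (nat_lit 0x50003e001ec00e000000020000000020001000000000000000000000000000) := T_8 (nat_lit 193) (nat_lit 210) (nat_lit 7) (nat_lit 5) (nat_lit 8) L51697 (by decide +kernel)
theorem L51699 : W_8 (nat_lit 11) (nat_lit 0x1000280014001200098000000000000000000000000000000) (nat_lit 0x0) (nat_lit 0x50003e001fc00e800000020000000020001000000000000000000000000000) := T_8 (nat_lit 208) (nat_lit 191) (nat_lit 5) (nat_lit 5) (nat_lit 8) L51698 (by decide +kernel)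
theorem L51700 : W_8 (nat_lit 12) (nat_lit 0x280014001200098000000000000000000000000000000) (nat_lit 0x0) (nat_lit 0x50003e001fc00f800000020000100020001000000000000000000000000000) := T_8 (nat_lit 192) (nat_lit 140) (nat_lit 4) (nat_lit 5) (nat_lit 11) L51699 (by decide +kernel)
theorem L51701 : W_8 (nat_lit 13) (nat_lit 0x280014001200090000000000000000000000000000000) (nat_lit 0x0) (nat_lit 0x50003e001fc00f800000020000100028001400000000000000000000000000) := T_8 (nat_lit 123) (nat_lit 106) (nat_lit 4) (nat_lit 5) (nat_lit 10) L51700 (by decide +kernel)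
theorem L51702 : W_8 (nat_lit 2) (nat_lit 0x2c00340012000b0000400000000000000000000000000) (nat_lit 0x0) (nat_lit 0x40000800020000000000000000000000) := D_8 (nat_lit 107) (nat_lit 126) (nat_lit 89) (nat_lit 0) (nat_lit 8) (nat_lit 7) (nat_lit 4) (nat_lit 5) (nat_lit 9) (by decide +kernel)
theorem L51703 : W_8 (nat_lit 3) (nat_lit 0x2c00340012000b0000000000000000000000000000000) (nat_lit 0x0) (nat_lit 0x48000c00020000000000000000000000) := T_8 (nat_lit 106) (nat_lit 123) (nat_lit 4) (nat_lit 5) (nat_lit 10) L51702 (by decide +kernel)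
theorem L51704 : W_8 (nat_lit 4) (nat_lit 0x2c00140012000b0000000000000000000000000000000) (nat_lit 0x0) (nat_lit 0x28000000048000c00020000000000000000000000) := T_8 (nat_lit 161) (nat_lit 159) (nat_lit 1) (nat_lit 8) (nat_lit 9) L51703 (by decide +kernel)
theorem L51705 : W_8 (nat_lit 5) (nat_lit 0x2800140012000b0000000000000000000000000000000) (nat_lit 0x0) (nat_lit 0x800040028000000048000c00020000000000000000000000) := T_8 (nat_lit 174) (nat_lit 191) (nat_lit 5) (nat_lit 5) (nat_lit 7) L51704 (by decide +kernel)
theorem L51706 : W_8 (nat_lit 6) (nat_lit 0x280014001200090000000000000000000000000000000) (nat_lit 0x0) (nat_lit 0x800040028000000068001c00020000000000000000000000) := T_8 (nat_lit 125) (nat_lit 108) (nat_lit 6) (nat_lit 5) (nat_lit 10) L51705 (by decide +kernel)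
theorem L51707 : W_8 (nat_lit 5) (nat_lit 0xc00010002c00340013000b0000000000000000000000000000000) (nat_lit 0x0) (nat_lit 0x4000e001300000000000000000c0000000000000000000000000000000000) := T_8 (nat_lit 138) (nat_lit 139) (nat_lit 2) (nat_lit 2) (nat_lit 8) L51670 (by decide +kernel)
theorem L51708 : W_8 (nat_lit 6) (nat_lit 0x800010002c00340013000b0000000000000000000000000000000) (nat_lit 0x0) (nat_lit 0x4000e001700020000000000000c0000000000000000000000000000000000) := T_8 (nat_lit 210) (nat_lit 193) (nat_lit 7) (nat_lit 5) (nat_lit 8) L51707 (by decide +kernel)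
theorem L51709 : W_8 (nat_lit 7) (nat_lit 0x10002c00340013000b0000000000000000000000000000000) (nat_lit 0x0) (nat_lit 0x4000e001f00060000000000000c0000000000000000000000000000000000) := T_8 (nat_lit 211) (nat_lit 194) (nat_lit 6) (nat_lit 7) (nat_lit 12) L51708 (by decide +kernel)
theorem L51710 : W_8 (nat_lit 8) (nat_lit 0x2c00340013000b0000000000000000000000000000000) (nat_lit 0x0) (nat_lit 0x4000e001f00070000000000000c0008000000000000000000000000000000) := T_8 (nat_lit 192) (nat_lit 123) (nat_lit 4) (nat_lit 5) (nat_lit 11) L51709 (by decide +kernel)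
theorem L51711 : W_8 (nat_lit 9) (nat_lit 0x2c00140013000b0000000000000000000000000000000) (nat_lit 0x0) (nat_lit 0x4000e001f00070000000280000c0008000000000000000000000000000000) := T_8 (nat_lit 161) (nat_lit 159) (nat_lit 1) (nat_lit 8) (nat_lit 9) L51710 (by decide +kernel)
theorem L51712 : W_8 (nat_lit 10) (nat_lit 0x2800140013000b0000000000000000000000000000000) (nat_lit 0x0) (nat_lit 0x4000e001f00078000400280000c0008000000000000000000000000000000) := T_8 (nat_lit 174) (nat_lit 191) (nat_lit 5) (nat_lit 5) (nat_lit 7) L51711 (by decide +kernel)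
theorem L51713 : W_8 (nat_lit 11) (nat_lit 0x2800140012000b0000000000000000000000000000000) (nat_lit 0x0) (nat_lit 0x4000e001f00078000400280001c0048000000000000000000000000000000) := T_8 (nat_lit 140) (nat_lit 126) (nat_lit 1) (nat_lit 8) (nat_lit 7) L51712 (by decide +kernel)
theorem L51714 : W_8 (nat_lit 12) (nat_lit 0x280014001200090000000000000000000000000000000) (nat_lit 0x0) (nat_lit 0x4000e001f00078000400280001c0068001000000000000000000000000000) := T_8 (nat_lit 125) (nat_lit 108) (nat_lit 6) (nat_lit 5) (nat_lit 10) L51713 (by decide +kernel)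
theorem L51715 : W_8 (nat_lit 2) (nat_lit 0x600018002800340013400b0000000000000000000000000000000) (nat_lit 0x0) (nat_lit 0x180004000000000000000000000000000000000000000000000000) := D_8 (nat_lit 211) (nat_lit 194) (nat_lit 212) (nat_lit 6) (nat_lit 7) (nat_lit 12) (nat_lit 0) (nat_lit 8) (nat_lit 12) (by decide +kernel)
theorem L51716 : W_8 (nat_lit 3) (nat_lit 0x400018002800340013400b0000000000000000000000000000000) (nat_lit 0x0) (nat_lit 0x8001a0004000000000000000000000000000000000000000000000000) := T_8 (nat_lit 209) (nat_lit 227) (nat_lit 7) (nat_lit 5) (nat_lit 9) L51715 (by decide +kernel)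
theorem L51717 : W_8 (nat_lit 4) (nat_lit 0x400018002800140013400b0000000000000000000000000000000) (nat_lit 0x0) (nat_lit 0x8001a0004000000028000000000000000000000000000000000000000) := T_8 (nat_lit 161) (nat_lit 159) (nat_lit 0) (nat_lit 8) (nat_lit 9) L51716 (by decide +kernel)
theorem L51718 : W_8 (nat_lit 5) (nat_lit 0x18002800140013400b0000000000000000000000000000000) (nat_lit 0x0) (nat_lit 0x8001e0006000000028000000000000000000000000000000000000000) := T_8 (nat_lit 210) (nat_lit 193) (nat_lit 7) (nat_lit 5) (nat_lit 8) L51717 (by decide +kernel)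
theorem L51719 : W_8 (nat_lit 6) (nat_lit 0x18002800140013000b0000000000000000000000000000000) (nat_lit 0x0) (nat_lit 0x8001e00060000000280000c0000000000000000000000000000000000) := T_8 (nat_lit 138) (nat_lit 139) (nat_lit 2) (nat_lit 2) (nat_lit 8) L51718 (by decide +kernel)
theorem L51720 : W_8 (nat_lit 7) (nat_lit 0x8002800140013000b0000000000000000000000000000000) (nat_lit 0x0) (nat_lit 0x8001f00070000000280000c0000000000000000000000000000000000) := T_8 (nat_lit 192) (nat_lit 208) (nat_lit 5) (nat_lit 5) (nat_lit 8) L51719 (by decide +kernel)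
theorem L51721 : W_8 (nat_lit 8) (nat_lit 0x8002800140012000b0000000000000000000000000000000) (nat_lit 0x0) (nat_lit 0x8001f00070000000280001c0040000000000000000000000000000000) := T_8 (nat_lit 140) (nat_lit 126) (nat_lit 1) (nat_lit 8) (nat_lit 7) L51720 (by decide +kernel)
theorem L51722 : W_8 (nat_lit 9) (nat_lit 0x800280014001200090000000000000000000000000000000) (nat_lit 0x0) (nat_lit 0x8001f00070000000280001c0060001000000000000000000000000000) := T_8 (nat_lit 125) (nat_lit 108) (nat_lit 6) (nat_lit 5) (nat_lit 10) L51721 (by decide +kernel)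
theorem L51723 : W_8 (nat_lit 10) (nat_lit 0x280014001200090000000000000000000000000000000) (nat_lit 0x0) (nat_lit 0x8001f00078000400280001c0060001000000000000000000000000000) := T_8 (nat_lit 191) (nat_lit 174) (nat_lit 5) (nat_lit 5) (nat_lit 7) L51722 (by decide +kernel)
theorem L51724 : W_8 (nat_lit 14) (nat_lit 0x280014001200080000000000000000000000000000000) (nat_lit 0x0) (nat_lit 0x54003e001fc00f8000400280001c0078001c00020000000000000000000000) := Q_8 (nat_lit 124) (C_8 L51693 (C_8 L51701 (C_8 L51706 (C_8 L51714 (C_8 L51723 (C_8 L51666 (C_8 L51354 N_8))))))) (by decide +kernel)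
theorem L51725 : W_8 (nat_lit 9) (nat_lit 0x30002800140012000b8000000000000000000000000000000) (nat_lit 0x0) (nat_lit 0x50003e001bc00c800000020000000000000000000000000000000000000000) := T_8 (nat_lit 208) (nat_lit 191) (nat_lit 5) (nat_lit 5) (nat_lit 8) L51543 (by decide +kernel)
theorem L51726 : W_8 (nat_lit 10) (nat_lit 0x20002800140012000b8000000000000000000000000000000) (nat_lit 0x0) (nat_lit 0x50003e001fc00d800000020000000000000000000000000000000000000000) := T_8 (nat_lit 192) (nat_lit 210) (nat_lit 7) (nat_lit 5) (nat_lit 8) L51725 (by decide +kernel)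
theorem L51727 : W_8 (nat_lit 11) (nat_lit 0x2800140012000b8000000000000000000000000000000) (nat_lit 0x0) (nat_lit 0x50003e001fc00f800100020000000000000000000000000000000000000000) := T_8 (nat_lit 193) (nat_lit 176) (nat_lit 7) (nat_lit 5) (nat_lit 7) L51726 (by decide +kernel)
theorem L51728 : W_8 (nat_lit 12) (nat_lit 0x280014001200098000000000000000000000000000000) (nat_lit 0x0) (nat_lit 0x50003e001fc00f800100020000000020001000000000000000000000000000) := T_8 (nat_lit 125) (nat_lit 108) (nat_lit 6) (nat_lit 5) (nat_lit 10) L51727 (by decide +kernel)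
theorem L51729 : W_8 (nat_lit 13) (nat_lit 0x280014001200090000000000000000000000000000000) (nat_lit 0x0) (nat_lit 0x50003e001fc00f800100020000000028001400000000000000000000000000) := T_8 (nat_lit 123) (nat_lit 106) (nat_lit 4) (nat_lit 5) (nat_lit 10) L51728 (by decide +kernel)
theorem L51730 : W_8 (nat_lit 2) (nat_lit 0xa0001a0038003c001200098000000000000000000000000000000) (nat_lit 0x0) (nat_lit 0x800140000000000000000000000000000000000000000000000000000) := D_8 (nat_lit 210) (nat_lit 212) (nat_lit 227) (nat_lit 0) (nat_lit 8) (nat_lit 12) (nat_lit 7) (nat_lit 5) (nat_lit 9) (by decide +kernel)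
theorem L51731 : W_8 (nat_lit 3) (nat_lit 0x20001a0038003c001200098000000000000000000000000000000) (nat_lit 0x0) (nat_lit 0x8001c0004000000000000000000000000000000000000000000000000) := T_8 (nat_lit 211) (nat_lit 194) (nat_lit 6) (nat_lit 7) (nat_lit 12) L51730 (by decide +kernel)
theorem L51732 : W_8 (nat_lit 4) (nat_lit 0x1a0038003c001200098000000000000000000000000000000) (nat_lit 0x0) (nat_lit 0xc001e0004000000000000000000000000000000000000000000000000) := T_8 (nat_lit 209) (nat_lit 226) (nat_lit 6) (nat_lit 5) (nat_lit 13) L51731 (by decide +kernel)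
theorem L51733 : W_8 (nat_lit 5) (nat_lit 0x1a0038001c001200098000000000000000000000000000000) (nat_lit 0x0) (nat_lit 0xc001e0004000000060000000000000000000000000000000000000000) := T_8 (nat_lit 161) (nat_lit 162) (nat_lit 1) (nat_lit 9) (nat_lit 9) L51732 (by decide +kernel)
theorem L51734 : W_8 (nat_lit 6) (nat_lit 0x1a00380014001200098000000000000000000000000000000) (nat_lit 0x0) (nat_lit 0xc001e0004000000068000000000000800000000000000000000000000) := T_8 (nat_lit 159) (nat_lit 107) (nat_lit 7) (nat_lit 5) (nat_lit 6) L51733 (by decide +kernel)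
theorem L51735 : W_8 (nat_lit 7) (nat_lit 0x1800380014001200098000000000000000000000000000000) (nat_lit 0x0) (nat_lit 0xc001e0004600000068000000000000800000000000000000000000000) := T_8 (nat_lit 189) (nat_lit 190) (nat_lit 2) (nat_lit 2) (nat_lit 11) L51734 (by decide +kernel)
theorem L51736 : W_8 (nat_lit 8) (nat_lit 0x1000380014001200098000000000000000000000000000000) (nat_lit 0x0) (nat_lit 0xc001f0004e00000068000000000000800000000000000000000000000) := T_8 (nat_lit 191) (nat_lit 208) (nat_lit 5) (nat_lit 5) (nat_lit 8) L51735 (by decide +kernel)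
theorem L51737 : W_8 (nat_lit 9) (nat_lit 0x380014001200098000000000000000000000000000000) (nat_lit 0x0) (nat_lit 0xc001f0005e00000068000100000000800000000000000000000000000) := T_8 (nat_lit 192) (nat_lit 140) (nat_lit 4) (nat_lit 5) (nat_lit 11) L51736 (by decide +kernel)
theorem L51738 : W_8 (nat_lit 10) (nat_lit 0x380014001200090000000000000000000000000000000) (nat_lit 0x0) (nat_lit 0xc001f0005e00000068000100008000c00000000000000000000000000) := T_8 (nat_lit 123) (nat_lit 106) (nat_lit 4) (nat_lit 5) (nat_lit 10) L51737 (by decide +kernel)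
theorem L51739 : W_8 (nat_lit 11) (nat_lit 0x280014001200090000000000000000000000000000000) (nat_lit 0x0) (nat_lit 0xc001f0007e00100068000100008000c00000000000000000000000000) := T_8 (nat_lit 176) (nat_lit 193) (nat_lit 7) (nat_lit 5) (nat_lit 7) L51738 (by decide +kernel)
theorem L51740 : W_8 (nat_lit 14) (nat_lit 0x280014001200080000000000000000000000000000000) (nat_lit 0x0) (nat_lit 0x50003e001fc00fe00100068000100078001c00000000000000000000000000) := Q_8 (nat_lit 124) (C_8 L51354 (C_8 L51729 (C_8 L51438 (C_8 L51739 N_8)))) (by decide +kernel)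
theorem L51741 : W_8 (nat_lit 2) (nat_lit 0x3c00140012000b0000000000000000000000000000000) (nat_lit 0x0) (nat_lit 0x20008000000000000800000000000000000000000000) := D_8 (nat_lit 159) (nat_lit 173) (nat_lit 107) (nat_lit 2) (nat_lit 3) (nat_lit 10) (nat_lit 7) (nat_lit 5) (nat_lit 6) (by decide +kernel)
theorem L51742 : W_8 (nat_lit 3) (nat_lit 0x2c00140012000b0000000000000000000000000000000) (nat_lit 0x0) (nat_lit 0x2000120008000000000000800000000000000000000000000) := T_8 (nat_lit 176) (nat_lit 193) (nat_lit 7) (nat_lit 5) (nat_lit 7) L51741 (by decide +kernel)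
theorem L51743 : W_8 (nat_lit 4) (nat_lit 0x2c0014001200090000000000000000000000000000000) (nat_lit 0x0) (nat_lit 0x2000120008000000020001800000000000000000000000000) := T_8 (nat_lit 125) (nat_lit 108) (nat_lit 6) (nat_lit 5) (nat_lit 10) L51742 (by decide +kernel)
theorem L51744 : W_8 (nat_lit 5) (nat_lit 0x280014001200090000000000000000000000000000000) (nat_lit 0x0) (nat_lit 0x2800160008000000020001800000000000000000000000000) := T_8 (nat_lit 174) (nat_lit 191) (nat_lit 5) (nat_lit 5) (nat_lit 7) L51743 (by decide +kernel)
theorem L51745 : W_8 (nat_lit 6) (nat_lit 0x280014001200080000000000000000000000000000000) (nat_lit 0x0) (nat_lit 0x10003800160008000100078001c00000000000000000000000000) := Q_8 (nat_lit 124) (C_8 L51354 (C_8 L51744 (C_8 L51666 N_8))) (by decide +kernel)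
theorem L51746 : W_8 (nat_lit 2) (nat_lit 0x800000002c0034001300098000000000000000000000000000000) (nat_lit 0x0) (nat_lit 0x60001000000000000000000000000000) := D_8 (nat_lit 125) (nat_lit 108) (nat_lit 126) (nat_lit 6) (nat_lit 5) (nat_lit 10) (nat_lit 1) (nat_lit 8) (nat_lit 7) (by decide +kernel)
theorem L51747 : W_8 (nat_lit 3) (nat_lit 0x800000002c0034001200098000000000000000000000000000000) (nat_lit 0x0) (nat_lit 0x1000000000000100060001000000000000000000000000000) := T_8 (nat_lit 140) (nat_lit 192) (nat_lit 4) (nat_lit 5) (nat_lit 11) L51746 (by decide +kernel)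
theorem L51748 : W_8 (nat_lit 4) (nat_lit 0x800000002c0034001200090000000000000000000000000000000) (nat_lit 0x0) (nat_lit 0x1000000000000100068001400000000000000000000000000) := T_8 (nat_lit 123) (nat_lit 106) (nat_lit 4) (nat_lit 5) (nat_lit 10) L51747 (by decide +kernel)
theorem L51749 : W_8 (nat_lit 5) (nat_lit 0x800000002c0034001200080000000000000000000000000000000) (nat_lit 0x0) (nat_lit 0x1800000000000100078001400000000000000000000000000) := T_8 (nat_lit 124) (nat_lit 191) (nat_lit 5) (nat_lit 5) (nat_lit 7) L51748 (by decide +kernel)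
theorem L51750 : W_8 (nat_lit 6) (nat_lit 0x80000000280034001200080000000000000000000000000000000) (nat_lit 0x0) (nat_lit 0x1800140000000100078001400000000000000000000000000) := T_8 (nat_lit 174) (nat_lit 176) (nat_lit 2) (nat_lit 4) (nat_lit 10) L51749 (by decide +kernel)
theorem L51751 : W_8 (nat_lit 7) (nat_lit 0x280034001200080000000000000000000000000000000) (nat_lit 0x0) (nat_lit 0x80005800140000000100078001400000000000000000000000000) := T_8 (nat_lit 211) (nat_lit 194) (nat_lit 6) (nat_lit 7) (nat_lit 12) L51750 (by decide +kernel)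
theorem L51752 : W_8 (nat_lit 2) (nat_lit 0x80000000280034001300088000000000000000000000000000000) (nat_lit 0x0) (nat_lit 0x10000400020000000000000000000000) := D_8 (nat_lit 106) (nat_lit 124) (nat_lit 89) (nat_lit 4) (nat_lit 5) (nat_lit 10) (nat_lit 7) (nat_lit 4) (nat_lit 5) (by decide +kernel)
theorem L51753 : W_8 (nat_lit 3) (nat_lit 0x80000000280034001300080000000000000000000000000000000) (nat_lit 0x0) (nat_lit 0x1000000000000000018000400020000000000000000000000) := T_8 (nat_lit 123) (nat_lit 192) (nat_lit 4) (nat_lit 5) (nat_lit 11) L51752 (by decide +kernel)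
theorem L51754 : W_8 (nat_lit 4) (nat_lit 0x80000000280034001200080000000000000000000000000000000) (nat_lit 0x0) (nat_lit 0x1000000008000100018000400020000000000000000000000) := T_8 (nat_lit 140) (nat_lit 159) (nat_lit 0) (nat_lit 8) (nat_lit 9) L51753 (by decide +kernel)
theorem L51755 : W_8 (nat_lit 5) (nat_lit 0x280034001200080000000000000000000000000000000) (nat_lit 0x0) (nat_lit 0x80005000000008000100018000400020000000000000000000000) := T_8 (nat_lit 211) (nat_lit 194) (nat_lit 6) (nat_lit 7) (nat_lit 12) L51754 (by decide +kernel)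
theorem L51756 : W_8 (nat_lit 8) (nat_lit 0x280014001200080000000000000000000000000000000) (nat_lit 0x0) (nat_lit 0x80005800140028000100078001400020000000000000000000000) := Q_8 (nat_lit 161) (C_8 L51751 (C_8 L51404 (C_8 L51755 N_8))) (by decide +kernel)
theorem L51757 : W_8 (nat_lit 2) (nat_lit 0x8007c002a0014001200080000000000000000000000000000000) (nat_lit 0x0) (nat_lit 0x180000000000020000000000000000000000000000000000000000) := D_8 (nat_lit 211) (nat_lit 161) (nat_lit 212) (nat_lit 6) (nat_lit 7) (nat_lit 12) (nat_lit 3) (nat_lit 4) (nat_lit 11) (by decide +kernel)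
theorem L51758 : W_8 (nat_lit 3) (nat_lit 0x8003c002a0014001200080000000000000000000000000000000) (nat_lit 0x0) (nat_lit 0x180004000040020000000000000000000000000000000000000000) := T_8 (nat_lit 194) (nat_lit 174) (nat_lit 0) (nat_lit 7) (nat_lit 11) L51757 (by decide +kernel)
theorem L51759 : W_8 (nat_lit 4) (nat_lit 0x3c002a0014001200080000000000000000000000000000000) (nat_lit 0x0) (nat_lit 0x18c004000040020000000000000000000000000000000000000000) := T_8 (nat_lit 207) (nat_lit 206) (nat_lit 1) (nat_lit 6) (nat_lit 11) L51758 (by decide +kernel)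
theorem L51760 : W_8 (nat_lit 5) (nat_lit 0x3c00280014001200080000000000000000000000000000000) (nat_lit 0x0) (nat_lit 0x18c004000070020000000000000000000000000000000000000000) := T_8 (nat_lit 173) (nat_lit 172) (nat_lit 0) (nat_lit 6) (nat_lit 11) L51759 (by decide +kernel)
theorem L51761 : W_8 (nat_lit 6) (nat_lit 0x3800280014001200080000000000000000000000000000000) (nat_lit 0x0) (nat_lit 0x18c004400170020000000000000000000000000000000000000000) := T_8 (nat_lit 190) (nat_lit 176) (nat_lit 2) (nat_lit 3) (nat_lit 11) L51760 (by decide +kernel)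
theorem L51762 : W_8 (nat_lit 7) (nat_lit 0x1800280014001200080000000000000000000000000000000) (nat_lit 0x0) (nat_lit 0x1cc006400170020000000000000000000000000000000000000000) := T_8 (nat_lit 193) (nat_lit 210) (nat_lit 7) (nat_lit 5) (nat_lit 8) L51761 (by decide +kernel)
theorem L51763 : W_8 (nat_lit 8) (nat_lit 0x1000280014001200080000000000000000000000000000000) (nat_lit 0x0) (nat_lit 0x1dc006c00170020000000000000000000000000000000000000000) := T_8 (nat_lit 191) (nat_lit 208) (nat_lit 5) (nat_lit 5) (nat_lit 8) L51762 (by decide +kernel)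
theorem L51764 : W_8 (nat_lit 2) (nat_lit 0x4003c002e0014001300080000000000000000000000000000000) (nat_lit 0x0) (nat_lit 0x2000300000000000000000000000000000000000000000000000) := D_8 (nat_lit 189) (nat_lit 205) (nat_lit 188) (nat_lit 1) (nat_lit 5) (nat_lit 11) (nat_lit 2) (nat_lit 1) (nat_lit 11) (by decide +kernel)
theorem L51765 : W_8 (nat_lit 3) (nat_lit 0x4003c002a0014001300080000000000000000000000000000000) (nat_lit 0x0) (nat_lit 0x2004300040000000000000000000000000000000000000000000) := T_8 (nat_lit 174) (nat_lit 194) (nat_lit 0) (nat_lit 7) (nat_lit 11) L51764 (by decide +kernel)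
theorem L51766 : W_8 (nat_lit 4) (nat_lit 0x3c002a0014001300080000000000000000000000000000000) (nat_lit 0x0) (nat_lit 0xe004300040000000000000000000000000000000000000000000) := T_8 (nat_lit 206) (nat_lit 207) (nat_lit 1) (nat_lit 6) (nat_lit 11) L51765 (by decide +kernel)
theorem L51767 : W_8 (nat_lit 5) (nat_lit 0x3c00280014001300080000000000000000000000000000000) (nat_lit 0x0) (nat_lit 0xe004300070000000000000000000000000000000000000000000) := T_8 (nat_lit 173) (nat_lit 172) (nat_lit 0) (nat_lit 6) (nat_lit 11) L51766 (by decide +kernel)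
theorem L51768 : W_8 (nat_lit 6) (nat_lit 0x3800280014001300080000000000000000000000000000000) (nat_lit 0x0) (nat_lit 0xe004700170000000000000000000000000000000000000000000) := T_8 (nat_lit 190) (nat_lit 176) (nat_lit 2) (nat_lit 3) (nat_lit 11) L51767 (by decide +kernel)
theorem L51769 : W_8 (nat_lit 7) (nat_lit 0x1800280014001300080000000000000000000000000000000) (nat_lit 0x0) (nat_lit 0x4e006700170000000000000000000000000000000000000000000) := T_8 (nat_lit 193) (nat_lit 210) (nat_lit 7) (nat_lit 5) (nat_lit 8) L51768 (by decide +kernel)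
theorem L51770 : W_8 (nat_lit 8) (nat_lit 0x1000280014001300080000000000000000000000000000000) (nat_lit 0x0) (nat_lit 0x5e006f00170000000000000000000000000000000000000000000) := T_8 (nat_lit 191) (nat_lit 208) (nat_lit 5) (nat_lit 5) (nat_lit 8) L51769 (by decide +kernel)
theorem L51771 : W_8 (nat_lit 9) (nat_lit 0x1000280014001200080000000000000000000000000000000) (nat_lit 0x0) (nat_lit 0x5e006f00170000000100008000000000000000000000000000000) := T_8 (nat_lit 140) (nat_lit 123) (nat_lit 4) (nat_lit 5) (nat_lit 11) L51770 (by decide +kernel)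
theorem L51772 : W_8 (nat_lit 3) (nat_lit 0x3000280034001300080000000000000000000000000000000) (nat_lit 0x0) (nat_lit 0x10000c00140000000000000000000000000000000000000000000) := T_8 (nat_lit 176) (nat_lit 174) (nat_lit 2) (nat_lit 4) (nat_lit 10) L36903 (by decide +kernel)
theorem L51773 : W_8 (nat_lit 4) (nat_lit 0x3000280014001300080000000000000000000000000000000) (nat_lit 0x0) (nat_lit 0x10000c00140028000000000000000000000000000000000000000) := T_8 (nat_lit 161) (nat_lit 159) (nat_lit 0) (nat_lit 8) (nat_lit 9) L51772 (by decide +kernel)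
theorem L51774 : W_8 (nat_lit 5) (nat_lit 0x3000280014001200080000000000000000000000000000000) (nat_lit 0x0) (nat_lit 0x10000c00140028000100008000000000000000000000000000000) := T_8 (nat_lit 140) (nat_lit 123) (nat_lit 4) (nat_lit 5) (nat_lit 11) L51773 (by decide +kernel)
theorem L51775 : W_8 (nat_lit 6) (nat_lit 0x1000280014001200080000000000000000000000000000000) (nat_lit 0x0) (nat_lit 0x50002c00140028000100008000000000000000000000000000000) := T_8 (nat_lit 193) (nat_lit 210) (nat_lit 7) (nat_lit 5) (nat_lit 8) L51774 (by decide +kernel)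
theorem L51776 : W_8 (nat_lit 2) (nat_lit 0x20001f0011000380074001300080000000000000000000000000000000) (nat_lit 0x0) (nat_lit 0x200020000800000000000000000000000000000000000000000000) := D_8 (nat_lit 213) (nat_lit 197) (nat_lit 179) (nat_lit 2) (nat_lit 6) (nat_lit 12) (nat_lit 5) (nat_lit 9) (nat_lit 9) (by decide +kernel)
theorem L51777 : W_8 (nat_lit 3) (nat_lit 0x20001f0001000380074001300080000000000000000000000000000000) (nat_lit 0x0) (nat_lit 0x200038000800000000000000000000000000000000000000000000) := T_8 (nat_lit 196) (nat_lit 195) (nat_lit 2) (nat_lit 5) (nat_lit 12) L51776 (by decide +kernel)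
theorem L51778 : W_8 (nat_lit 4) (nat_lit 0x20000f0001000380074001300080000000000000000000000000000000) (nat_lit 0x0) (nat_lit 0x4000300038000800000000000000000000000000000000000000000000) := T_8 (nat_lit 212) (nat_lit 230) (nat_lit 3) (nat_lit 5) (nat_lit 12) L51777 (by decide +kernel)
theorem L51779 : W_8 (nat_lit 5) (nat_lit 0xf0001000380074001300080000000000000000000000000000000) (nat_lit 0x0) (nat_lit 0x7000300038000800000000000000000000000000000000000000000000) := T_8 (nat_lit 229) (nat_lit 228) (nat_lit 3) (nat_lit 4) (nat_lit 12) L51778 (by decide +kernel)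
theorem L51780 : W_8 (nat_lit 6) (nat_lit 0xb0001000380074001300080000000000000000000000000000000) (nat_lit 0x0) (nat_lit 0x7800340038000800000000000000000000000000000000000000000000) := T_8 (nat_lit 210) (nat_lit 227) (nat_lit 7) (nat_lit 5) (nat_lit 9) L51779 (by decide +kernel)
theorem L51781 : W_8 (nat_lit 7) (nat_lit 0xb0001000380034001300080000000000000000000000000000000) (nat_lit 0x0) (nat_lit 0x78003400380008000c0000000000000000000000000000000000000000) := T_8 (nat_lit 162) (nat_lit 163) (nat_lit 1) (nat_lit 10) (nat_lit 9) L51780 (by decide +kernel)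
theorem L51782 : W_8 (nat_lit 8) (nat_lit 0x90001000380034001300080000000000000000000000000000000) (nat_lit 0x0) (nat_lit 0x7a003600380008000c0000000000000000000000000000000000000000) := T_8 (nat_lit 209) (nat_lit 225) (nat_lit 5) (nat_lit 5) (nat_lit 9) L51781 (by decide +kernel)
theorem L51783 : W_8 (nat_lit 9) (nat_lit 0x90001000280034001300080000000000000000000000000000000) (nat_lit 0x0) (nat_lit 0x7a003600380009400c0000000000000000000000000000000000000000) := T_8 (nat_lit 176) (nat_lit 174) (nat_lit 2) (nat_lit 4) (nat_lit 10) L51782 (by decide +kernel)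
theorem L51784 : W_8 (nat_lit 10) (nat_lit 0x10001000280034001300080000000000000000000000000000000) (nat_lit 0x0) (nat_lit 0x7a003e003c0009400c0000000000000000000000000000000000000000) := T_8 (nat_lit 211) (nat_lit 194) (nat_lit 6) (nat_lit 7) (nat_lit 12) L51783 (by decide +kernel)
theorem L51785 : W_8 (nat_lit 11) (nat_lit 0x10001000280014001300080000000000000000000000000000000) (nat_lit 0x0) (nat_lit 0x7a003e003c0009400e8000000000000000000000000000000000000000) := T_8 (nat_lit 161) (nat_lit 159) (nat_lit 0) (nat_lit 8) (nat_lit 9) L51784 (by decide +kernel)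
theorem L51786 : W_8 (nat_lit 12) (nat_lit 0x10001000280014001200080000000000000000000000000000000) (nat_lit 0x0) (nat_lit 0x7a003e003c0009400e8000100008000000000000000000000000000000) := T_8 (nat_lit 140) (nat_lit 123) (nat_lit 4) (nat_lit 5) (nat_lit 11) L51785 (by decide +kernel)
theorem L51787 : W_8 (nat_lit 13) (nat_lit 0x1000280014001200080000000000000000000000000000000) (nat_lit 0x0) (nat_lit 0x7a003f003c8009400e8000100008000000000000000000000000000000) := T_8 (nat_lit 208) (nat_lit 191) (nat_lit 5) (nat_lit 5) (nat_lit 8) L51786 (by decide +kernel)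
theorem L51788 : W_8 (nat_lit 2) (nat_lit 0x84003c00290034001300080000000000000000000000000000000) (nat_lit 0x0) (nat_lit 0x2000200008000000000000000000000000000000000000000000) := D_8 (nat_lit 189) (nat_lit 171) (nat_lit 205) (nat_lit 0) (nat_lit 5) (nat_lit 11) (nat_lit 1) (nat_lit 5) (nat_lit 11) (by decide +kernel)
theorem L51789 : W_8 (nat_lit 3) (nat_lit 0x80003c00290034001300080000000000000000000000000000000) (nat_lit 0x0) (nat_lit 0xe000200008000000000000000000000000000000000000000000) := T_8 (nat_lit 206) (nat_lit 207) (nat_lit 1) (nat_lit 6) (nat_lit 11) L51788 (by decide +kernel)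
theorem L51790 : W_8 (nat_lit 4) (nat_lit 0x80003c00280034001300080000000000000000000000000000000) (nat_lit 0x0) (nat_lit 0xe000200038000000000000000000000000000000000000000000) := T_8 (nat_lit 172) (nat_lit 173) (nat_lit 0) (nat_lit 6) (nat_lit 11) L51789 (by decide +kernel)
theorem L51791 : W_8 (nat_lit 5) (nat_lit 0x80003800280034001300080000000000000000000000000000000) (nat_lit 0x0) (nat_lit 0xe000600138000000000000000000000000000000000000000000) := T_8 (nat_lit 190) (nat_lit 176) (nat_lit 2) (nat_lit 3) (nat_lit 11) L51790 (by decide +kernel)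
theorem L51792 : W_8 (nat_lit 6) (nat_lit 0x80003000280034001300080000000000000000000000000000000) (nat_lit 0x0) (nat_lit 0x1e000e00138000000000000000000000000000000000000000000) := T_8 (nat_lit 191) (nat_lit 208) (nat_lit 5) (nat_lit 5) (nat_lit 8) L51791 (by decide +kernel)
theorem L51793 : W_8 (nat_lit 7) (nat_lit 0x3000280034001300080000000000000000000000000000000) (nat_lit 0x0) (nat_lit 0x9e004e00138000000000000000000000000000000000000000000) := T_8 (nat_lit 211) (nat_lit 194) (nat_lit 6) (nat_lit 7) (nat_lit 12) L51792 (by decide +kernel)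
theorem L51794 : W_8 (nat_lit 8) (nat_lit 0x1000280034001300080000000000000000000000000000000) (nat_lit 0x0) (nat_lit 0xde006e00138000000000000000000000000000000000000000000) := T_8 (nat_lit 193) (nat_lit 210) (nat_lit 7) (nat_lit 5) (nat_lit 8) L51793 (by decide +kernel)
theorem L51795 : W_8 (nat_lit 9) (nat_lit 0x1000280014001300080000000000000000000000000000000) (nat_lit 0x0) (nat_lit 0xde006e00138028000000000000000000000000000000000000000) := T_8 (nat_lit 161) (nat_lit 159) (nat_lit 0) (nat_lit 8) (nat_lit 9) L51794 (by decide +kernel)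
theorem L51796 : W_8 (nat_lit 10) (nat_lit 0x1000280014001200080000000000000000000000000000000) (nat_lit 0x0) (nat_lit 0xde006e00138028000100008000000000000000000000000000000) := T_8 (nat_lit 140) (nat_lit 123) (nat_lit 4) (nat_lit 5) (nat_lit 11) L51795 (by decide +kernel)
theorem L51797 : W_8 (nat_lit 4) (nat_lit 0x1800280034001300080000000000000000000000000000000) (nat_lit 0x0) (nat_lit 0x8001e0006000000000000000000000000000000000000000000000000) := T_8 (nat_lit 211) (nat_lit 194) (nat_lit 6) (nat_lit 7) (nat_lit 12) L51628 (by decide +kernel)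
theorem L51798 : W_8 (nat_lit 5) (nat_lit 0x1800280014001300080000000000000000000000000000000) (nat_lit 0x0) (nat_lit 0x8001e0006000000028000000000000000000000000000000000000000) := T_8 (nat_lit 161) (nat_lit 159) (nat_lit 0) (nat_lit 8) (nat_lit 9) L51797 (by decide +kernel)
theorem L51799 : W_8 (nat_lit 6) (nat_lit 0x1800280014001200080000000000000000000000000000000) (nat_lit 0x0) (nat_lit 0x8001e0006000000028000100008000000000000000000000000000000) := T_8 (nat_lit 140) (nat_lit 123) (nat_lit 4) (nat_lit 5) (nat_lit 11) L51798 (by decide +kernel)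
theorem L51800 : W_8 (nat_lit 7) (nat_lit 0x1000280014001200080000000000000000000000000000000) (nat_lit 0x0) (nat_lit 0x8001f0006800000028000100008000000000000000000000000000000) := T_8 (nat_lit 191) (nat_lit 208) (nat_lit 5) (nat_lit 5) (nat_lit 8) L51799 (by decide +kernel)
theorem L51801 : W_8 (nat_lit 2) (nat_lit 0x80001800380034001300080000000000000000000000000000000) (nat_lit 0x0) (nat_lit 0x2600000000000000000000000000000000000000000000000) := D_8 (nat_lit 190) (nat_lit 193) (nat_lit 189) (nat_lit 2) (nat_lit 3) (nat_lit 11) (nat_lit 2) (nat_lit 2) (nat_lit 11) (by decide +kernel)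
theorem L51802 : W_8 (nat_lit 3) (nat_lit 0x80001800280034001300080000000000000000000000000000000) (nat_lit 0x0) (nat_lit 0x2600140000000000000000000000000000000000000000000) := T_8 (nat_lit 176) (nat_lit 174) (nat_lit 2) (nat_lit 4) (nat_lit 10) L51801 (by decide +kernel)
theorem L51803 : W_8 (nat_lit 4) (nat_lit 0x1800280034001300080000000000000000000000000000000) (nat_lit 0x0) (nat_lit 0x80006600140000000000000000000000000000000000000000000) := T_8 (nat_lit 211) (nat_lit 194) (nat_lit 6) (nat_lit 7) (nat_lit 12) L51802 (by decide +kernel)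
theorem L51804 : W_8 (nat_lit 5) (nat_lit 0x1800280014001300080000000000000000000000000000000) (nat_lit 0x0) (nat_lit 0x80006600140028000000000000000000000000000000000000000) := T_8 (nat_lit 161) (nat_lit 159) (nat_lit 0) (nat_lit 8) (nat_lit 9) L51803 (by decide +kernel)
theorem L51805 : W_8 (nat_lit 6) (nat_lit 0x1800280014001200080000000000000000000000000000000) (nat_lit 0x0) (nat_lit 0x80006600140028000100008000000000000000000000000000000) := T_8 (nat_lit 140) (nat_lit 123) (nat_lit 4) (nat_lit 5) (nat_lit 11) L51804 (by decide +kernel)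
theorem L51806 : W_8 (nat_lit 7) (nat_lit 0x1000280014001200080000000000000000000000000000000) (nat_lit 0x0) (nat_lit 0x90006e00140028000100008000000000000000000000000000000) := T_8 (nat_lit 191) (nat_lit 208) (nat_lit 5) (nat_lit 5) (nat_lit 8) L51805 (by decide +kernel)
theorem L51807 : W_8 (nat_lit 2) (nat_lit 0x2000e00010002c0034001300080000000000000000000000000000000) (nat_lit 0x0) (nat_lit 0x4000400100000000000000000000000000000000000000000000000000000) := D_8 (nat_lit 226) (nat_lit 242) (nat_lit 212) (nat_lit 5) (nat_lit 5) (nat_lit 10) (nat_lit 1) (nat_lit 8) (nat_lit 12) (by decide +kernel)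
theorem L51808 : W_8 (nat_lit 3) (nat_lit 0xe00010002c0034001300080000000000000000000000000000000) (nat_lit 0x0) (nat_lit 0x4000600110000000000000000000000000000000000000000000000000000) := T_8 (nat_lit 225) (nat_lit 208) (nat_lit 5) (nat_lit 5) (nat_lit 9) L51807 (by decide +kernel)
theorem L51809 : W_8 (nat_lit 4) (nat_lit 0xc00010002c0034001300080000000000000000000000000000000) (nat_lit 0x0) (nat_lit 0x4000e00130000000000000000000000000000000000000000000000000000) := T_8 (nat_lit 209) (nat_lit 227) (nat_lit 7) (nat_lit 5) (nat_lit 9) L51808 (by decide +kernel)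
theorem L51810 : W_8 (nat_lit 5) (nat_lit 0x800010002c0034001300080000000000000000000000000000000) (nat_lit 0x0) (nat_lit 0x4000e00170002000000000000000000000000000000000000000000000000) := T_8 (nat_lit 210) (nat_lit 193) (nat_lit 7) (nat_lit 5) (nat_lit 8) L51809 (by decide +kernel)
theorem L51811 : W_8 (nat_lit 6) (nat_lit 0x80001000280034001300080000000000000000000000000000000) (nat_lit 0x0) (nat_lit 0x4000e00170002000140000000000000000000000000000000000000000000) := T_8 (nat_lit 174) (nat_lit 176) (nat_lit 2) (nat_lit 4) (nat_lit 10) L51810 (by decide +kernel)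
theorem L51812 : W_8 (nat_lit 7) (nat_lit 0x1000280034001300080000000000000000000000000000000) (nat_lit 0x0) (nat_lit 0x4000e001f0006000140000000000000000000000000000000000000000000) := T_8 (nat_lit 211) (nat_lit 194) (nat_lit 6) (nat_lit 7) (nat_lit 12) L51811 (by decide +kernel)
theorem L51813 : W_8 (nat_lit 8) (nat_lit 0x1000280014001300080000000000000000000000000000000) (nat_lit 0x0) (nat_lit 0x4000e001f0006000140028000000000000000000000000000000000000000) := T_8 (nat_lit 161) (nat_lit 159) (nat_lit 0) (nat_lit 8) (nat_lit 9) L51812 (by decide +kernel)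
theorem L51814 : W_8 (nat_lit 9) (nat_lit 0x1000280014001200080000000000000000000000000000000) (nat_lit 0x0) (nat_lit 0x4000e001f0006000140028000100008000000000000000000000000000000) := T_8 (nat_lit 140) (nat_lit 123) (nat_lit 4) (nat_lit 5) (nat_lit 11) L51813 (by decide +kernel)
theorem L51815 : W_8 (nat_lit 2) (nat_lit 0x7000280034001300080000000000000000000000000000000) (nat_lit 0x0) (nat_lit 0x8000140000000000000000000000000000000000000000000) := D_8 (nat_lit 174) (nat_lit 176) (nat_lit 195) (nat_lit 2) (nat_lit 4) (nat_lit 10) (nat_lit 0) (nat_lit 8) (nat_lit 11) (by decide +kernel)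
theorem L51816 : W_8 (nat_lit 3) (nat_lit 0x3000280034001300080000000000000000000000000000000) (nat_lit 0x0) (nat_lit 0x8000c000140000000000000000000000000000000000000000000) := T_8 (nat_lit 194) (nat_lit 211) (nat_lit 6) (nat_lit 7) (nat_lit 12) L51815 (by decide +kernel)
theorem L51817 : W_8 (nat_lit 4) (nat_lit 0x3000280014001300080000000000000000000000000000000) (nat_lit 0x0) (nat_lit 0x8000c000140028000000000000000000000000000000000000000) := T_8 (nat_lit 161) (nat_lit 159) (nat_lit 0) (nat_lit 8) (nat_lit 9) L51816 (by decide +kernel)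
theorem L51818 : W_8 (nat_lit 5) (nat_lit 0x3000280014001200080000000000000000000000000000000) (nat_lit 0x0) (nat_lit 0x8000c000140028000100008000000000000000000000000000000) := T_8 (nat_lit 140) (nat_lit 123) (nat_lit 4) (nat_lit 5) (nat_lit 11) L51817 (by decide +kernel)
theorem L51819 : W_8 (nat_lit 6) (nat_lit 0x1000280014001200080000000000000000000000000000000) (nat_lit 0x0) (nat_lit 0xc000e000140028000100008000000000000000000000000000000) := T_8 (nat_lit 193) (nat_lit 210) (nat_lit 7) (nat_lit 5) (nat_lit 8) L51818 (by decide +kernel)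
theorem L51820 : W_8 (nat_lit 14) (nat_lit 0x280014001200080000000000000000000000000000000) (nat_lit 0x0) (nat_lit 0x4007e003fe03ff009780e8000100008000000000000000000000000000000) := Q_8 (nat_lit 192) (C_8 L51763 (C_8 L51771 (C_8 L51775 (C_8 L51787 (C_8 L51796 (C_8 L51800 (C_8 L51806 (C_8 L51814 (C_8 L51819 N_8))))))))) (by decide +kernel)
theorem L51821 : W_8 (nat_lit 2) (nat_lit 0x3c0014001200090000000000000000000000000000000) (nat_lit 0x0) (nat_lit 0x20008000000000000800000000000000000000000000) := D_8 (nat_lit 159) (nat_lit 173) (nat_lit 107) (nat_lit 2) (nat_lit 3) (nat_lit 10) (nat_lit 7) (nat_lit 5) (nat_lit 6) (by decide +kernel)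
theorem L51822 : W_8 (nat_lit 3) (nat_lit 0x380014001200090000000000000000000000000000000) (nat_lit 0x0) (nat_lit 0x60028000000000000800000000000000000000000000) := T_8 (nat_lit 174) (nat_lit 161) (nat_lit 2) (nat_lit 4) (nat_lit 10) L51821 (by decide +kernel)
theorem L51823 : W_8 (nat_lit 4) (nat_lit 0x280014001200090000000000000000000000000000000) (nat_lit 0x0) (nat_lit 0x2000160028000000000000800000000000000000000000000) := T_8 (nat_lit 176) (nat_lit 193) (nat_lit 7) (nat_lit 5) (nat_lit 7) L51822 (by decide +kernel)
theorem L51824 : W_8 (nat_lit 14) (nat_lit 0x280014001200080000000000000000000000000000000) (nat_lit 0x0) (nat_lit 0x50003e001fc00f800160028000000078001c00020000000000000000000000) := Q_8 (nat_lit 124) (C_8 L51729 (C_8 L51744 (C_8 L51706 (C_8 L51823 N_8)))) (by decide +kernel)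
theorem L51825 : W_8 (nat_lit 14) (nat_lit 0x280014001200080000000000000000000000000000000) (nat_lit 0x0) (nat_lit 0x50003e001fc00f800140020000100078001c00000000000000000000000000) := Q_8 (nat_lit 124) (C_8 L51354 (C_8 L51729 (C_8 L51466 N_8))) (by decide +kernel)
theorem L51826 : W_8 (nat_lit 6) (nat_lit 0x280014001200080000000000000000000000000000000) (nat_lit 0x0) (nat_lit 0x2800160028000100078001c00000000000000000000000000) := Q_8 (nat_lit 124) (C_8 L51466 (C_8 L51744 (C_8 L51354 N_8))) (by decide +kernel)
theorem L51827 : W_8 (nat_lit 9) (nat_lit 0x280014001200080000000000000000000000000000000) (nat_lit 0x0) (nat_lit 0x800070001400e8000100078001400020000000000000000000000) := Q_8 (nat_lit 161) (C_8 L51403 (C_8 L51404 (C_8 L51755 N_8))) (by decide +kernel)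
theorem L51828 : W_8 (nat_lit 3) (nat_lit 0x2c0014001200080000000000000000000000000000000) (nat_lit 0x0) (nat_lit 0x2800100020000000010000000000000000000000000000000) := T_8 (nat_lit 124) (nat_lit 191) (nat_lit 5) (nat_lit 5) (nat_lit 7) L51465 (by decide +kernel)
theorem L51829 : W_8 (nat_lit 5) (nat_lit 0x2c0014001200080000000000000000000000000000000) (nat_lit 0x0) (nat_lit 0x2800120008000000030001800000000000000000000000000) := T_8 (nat_lit 124) (nat_lit 191) (nat_lit 5) (nat_lit 5) (nat_lit 7) L51743 (by decide +kernel)
theorem L51831 : W_8 (nat_lit 2) (nat_lit 0x8002c0014001200080000000000000000000000000000000) (nat_lit 0x0) (nat_lit 0x200010001000000000000000000000000000000000000000000000000) := D_8 (nat_lit 208) (nat_lit 192) (nat_lit 225) (nat_lit 5) (nat_lit 5) (nat_lit 8) (nat_lit 6) (nat_lit 4) (nat_lit 13) (by decide +kernel)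
theorem L51832 : W_8 (nat_lit 3) (nat_lit 0x2c0014001200080000000000000000000000000000000) (nat_lit 0x0) (nat_lit 0x200010001800000000000000010000000000000000000000000000000) := T_8 (nat_lit 191) (nat_lit 124) (nat_lit 5) (nat_lit 5) (nat_lit 7) L51831 (by decide +kernel)
theorem L51833 : W_8 (nat_lit 6) (nat_lit 0x280014001200080000000000000000000000000000000) (nat_lit 0x0) (nat_lit 0x200010003800160028000000030001800000000000000000000000000) := Q_8 (nat_lit 174) (C_8 L51828 (C_8 L51829 (C_8 L51830 (C_8 L51832 N_8)))) (by decide +kernel)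
theorem L51834 : W_8 (nat_lit 15) (nat_lit 0x280010001200080000000000000000000000000000000) (nat_lit 0x0) (nat_lit 0x54007e003fe03ff009780ec0001c0078001c00020000000000000000000000) := Q_8 (nat_lit 158) (C_8 L51724 (C_8 L51740 (C_8 L51745 (C_8 L51756 (C_8 L51820 (C_8 L51824 (C_8 L51825 (C_8 L51826 (C_8 L51827 (C_8 L51833 N_8)))))))))) (by decide +kernel)
theorem L51835 : W_8 (nat_lit 2) (nat_lit 0xa002d0010001200080000000000000000000000000000000) (nat_lit 0x0) (nat_lit 0x500020000000000000000000000000000000000000000000) := D_8 (nat_lit 188) (nat_lit 190) (nat_lit 173) (nat_lit 2) (nat_lit 1) (nat_lit 11) (nat_lit 1) (nat_lit 5) (nat_lit 10) (by decide +kernel)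
theorem L51836 : W_8 (nat_lit 2) (nat_lit 0x2c001e002d0010001200080000000000000000000000000000000) (nat_lit 0x0) (nat_lit 0x2000100000000000000000800000000000000000000000000000000000000) := D_8 (nat_lit 224) (nat_lit 241) (nat_lit 155) (nat_lit 6) (nat_lit 3) (nat_lit 14) (nat_lit 7) (nat_lit 2) (nat_lit 9) (by decide +kernel)
theorem L51837 : W_8 (nat_lit 3) (nat_lit 0x24001e002d0010001200080000000000000000000000000000000) (nat_lit 0x0) (nat_lit 0x2000100008002000000000800000000000000000000000000000000000000) := T_8 (nat_lit 207) (nat_lit 193) (nat_lit 1) (nat_lit 6) (nat_lit 11) L51836 (by decide +kernel)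
theorem L51838 : W_8 (nat_lit 4) (nat_lit 0x4001e002d0010001200080000000000000000000000000000000) (nat_lit 0x0) (nat_lit 0x2000100068002000000000800000000000000000000000000000000000000) := T_8 (nat_lit 209) (nat_lit 210) (nat_lit 3) (nat_lit 2) (nat_lit 11) L51837 (by decide +kernel)
theorem L51839 : W_8 (nat_lit 5) (nat_lit 0x1e002d0010001200080000000000000000000000000000000) (nat_lit 0x0) (nat_lit 0x200010006e002000000000800000000000000000000000000000000000000) := T_8 (nat_lit 206) (nat_lit 205) (nat_lit 1) (nat_lit 5) (nat_lit 11) L51838 (by decide +kernel)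
theorem L51840 : W_8 (nat_lit 6) (nat_lit 0xe002d0010001200080000000000000000000000000000000) (nat_lit 0x0) (nat_lit 0x200010006e003000008000800000000000000000000000000000000000000) := T_8 (nat_lit 192) (nat_lit 171) (nat_lit 0) (nat_lit 5) (nat_lit 11) L51839 (by decide +kernel)
theorem L51841 : W_8 (nat_lit 7) (nat_lit 0xa002d0010001200080000000000000000000000000000000) (nat_lit 0x0) (nat_lit 0x200010006e003500008000800000000000000000000000000000000000000) := T_8 (nat_lit 190) (nat_lit 188) (nat_lit 2) (nat_lit 1) (nat_lit 11) L51840 (by decide +kernel)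
theorem L51842 : W_8 (nat_lit 2) (nat_lit 0xa002f0010001200080000000000000000000000000000000) (nat_lit 0x0) (nat_lit 0x3000008000000000000000000000000000000000000000000) := D_8 (nat_lit 192) (nat_lit 171) (nat_lit 193) (nat_lit 3) (nat_lit 1) (nat_lit 10) (nat_lit 3) (nat_lit 2) (nat_lit 10) (by decide +kernel)
theorem L51843 : W_8 (nat_lit 3) (nat_lit 0xa002d0010001200080000000000000000000000000000000) (nat_lit 0x0) (nat_lit 0x3100028000000000000000000000000000000000000000000) := T_8 (nat_lit 173) (nat_lit 188) (nat_lit 1) (nat_lit 5) (nat_lit 10) L51842 (by decide +kernel)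
theorem L51844 : W_8 (nat_lit 2) (nat_lit 0xe002f8010801200080000000000000000000000000000000) (nat_lit 0x0) (nat_lit 0x100008000000000000000040000000000000000000000000000000000) := D_8 (nat_lit 207) (nat_lit 224) (nat_lit 138) (nat_lit 4) (nat_lit 3) (nat_lit 13) (nat_lit 7) (nat_lit 2) (nat_lit 8) (by decide +kernel)
theorem L51845 : W_8 (nat_lit 3) (nat_lit 0xa002f8010801200080000000000000000000000000000000) (nat_lit 0x0) (nat_lit 0x100008000400004000000040000000000000000000000000000000000) := T_8 (nat_lit 190) (nat_lit 170) (nat_lit 3) (nat_lit 0) (nat_lit 10) L51844 (by decide +kernel)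
theorem L51846 : W_8 (nat_lit 4) (nat_lit 0xa002f0010801200080000000000000000000000000000000) (nat_lit 0x0) (nat_lit 0x10000800140000c000000040000000000000000000000000000000000) := T_8 (nat_lit 171) (nat_lit 192) (nat_lit 3) (nat_lit 1) (nat_lit 10) L51845 (by decide +kernel)
theorem L51847 : W_8 (nat_lit 5) (nat_lit 0xa002f0010001200080000000000000000000000000000000) (nat_lit 0x0) (nat_lit 0x10000800140000c000c00040000000000000000000000000000000000) := T_8 (nat_lit 155) (nat_lit 154) (nat_lit 0) (nat_lit 5) (nat_lit 10) L51846 (by decide +kernel)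
theorem L51848 : W_8 (nat_lit 2) (nat_lit 0x80000000a002f0011001280080000000000000000000000000000000) (nat_lit 0x0) (nat_lit 0x200010000400000000000000000000000000000000000000000000000) := D_8 (nat_lit 208) (nat_lit 225) (nat_lit 190) (nat_lit 4) (nat_lit 4) (nat_lit 13) (nat_lit 7) (nat_lit 3) (nat_lit 8) (by decide +kernel)
theorem L51849 : W_8 (nat_lit 3) (nat_lit 0x80000000a002f0011001200080000000000000000000000000000000) (nat_lit 0x0) (nat_lit 0x200010000400000000000080004000000000000000000000000000000) := T_8 (nat_lit 139) (nat_lit 122) (nat_lit 7) (nat_lit 3) (nat_lit 7) L51848 (by decide +kernel)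
theorem L51850 : W_8 (nat_lit 4) (nat_lit 0xa002f0011001200080000000000000000000000000000000) (nat_lit 0x0) (nat_lit 0x280014000400000000000080004000000000000000000000000000000) := T_8 (nat_lit 223) (nat_lit 206) (nat_lit 6) (nat_lit 2) (nat_lit 13) L51849 (by decide +kernel)
theorem L51851 : W_8 (nat_lit 2) (nat_lit 0xa002f0011801200080000000000000000000000000000000) (nat_lit 0x0) (nat_lit 0x80004000000000000000080000000000000000000000000000000000) := D_8 (nat_lit 206) (nat_lit 223) (nat_lit 139) (nat_lit 6) (nat_lit 2) (nat_lit 13) (nat_lit 6) (nat_lit 2) (nat_lit 12) (by decide +kernel)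
theorem L51852 : W_8 (nat_lit 3) (nat_lit 0xa002f0011001200080000000000000000000000000000000) (nat_lit 0x0) (nat_lit 0x80004000000000000c00080000000000000000000000000000000000) := T_8 (nat_lit 155) (nat_lit 154) (nat_lit 0) (nat_lit 5) (nat_lit 10) L51851 (by decide +kernel)
theorem L51853 : W_8 (nat_lit 2) (nat_lit 0x20000e000a002f0011801200080000000000000000000000000000000) (nat_lit 0x0) (nat_lit 0x1000400000000000040000000000000000000000000000000000) := D_8 (nat_lit 190) (nat_lit 138) (nat_lit 204) (nat_lit 7) (nat_lit 2) (nat_lit 8) (nat_lit 2) (nat_lit 0) (nat_lit 12) (by decide +kernel)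
theorem L51854 : W_8 (nat_lit 3) (nat_lit 0x200006000a002f0011801200080000000000000000000000000000000) (nat_lit 0x0) (nat_lit 0x100009000400000000000040000000000000000000000000000000000) := T_8 (nat_lit 207) (nat_lit 224) (nat_lit 7) (nat_lit 2) (nat_lit 9) L51853 (by decide +kernel)
theorem L51855 : W_8 (nat_lit 4) (nat_lit 0x200004000a002f0011801200080000000000000000000000000000000) (nat_lit 0x0) (nat_lit 0x14000b000400000000000040000000000000000000000000000000000) := T_8 (nat_lit 205) (nat_lit 222) (nat_lit 5) (nat_lit 2) (nat_lit 9) L51854 (by decide +kernel)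
theorem L51856 : W_8 (nat_lit 5) (nat_lit 0x4000a002f0011801200080000000000000000000000000000000) (nat_lit 0x0) (nat_lit 0x34001b000400000000000040000000000000000000000000000000000) := T_8 (nat_lit 225) (nat_lit 208) (nat_lit 4) (nat_lit 4) (nat_lit 13) L51855 (by decide +kernel)
theorem L51857 : W_8 (nat_lit 6) (nat_lit 0x4000a002f0011001200080000000000000000000000000000000) (nat_lit 0x0) (nat_lit 0x34001b000400000000c00040000000000000000000000000000000000) := T_8 (nat_lit 155) (nat_lit 154) (nat_lit 0) (nat_lit 5) (nat_lit 10) L51856 (by decide +kernel)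
theorem L51858 : W_8 (nat_lit 7) (nat_lit 0xa002f0011001200080000000000000000000000000000000) (nat_lit 0x0) (nat_lit 0x3c001f000400000000c00040000000000000000000000000000000000) := T_8 (nat_lit 206) (nat_lit 223) (nat_lit 6) (nat_lit 2) (nat_lit 13) L51857 (by decide +kernel)
theorem L51859 : W_8 (nat_lit 2) (nat_lit 0x10000a002f0011001200080000000000000000000000000000000) (nat_lit 0x0) (nat_lit 0x400000000000080004000000000000000000000000000000) := D_8 (nat_lit 139) (nat_lit 122) (nat_lit 190) (nat_lit 7) (nat_lit 3) (nat_lit 7) (nat_lit 7) (nat_lit 3) (nat_lit 8) (by decide +kernel)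
theorem L51860 : W_8 (nat_lit 3) (nat_lit 0xa002f0011001200080000000000000000000000000000000) (nat_lit 0x0) (nat_lit 0x200010000400000000000080004000000000000000000000000000000) := T_8 (nat_lit 208) (nat_lit 225) (nat_lit 4) (nat_lit 4) (nat_lit 13) L51859 (by decide +kernel)
theorem L51861 : W_8 (nat_lit 8) (nat_lit 0xa002f0010001200080000000000000000000000000000000) (nat_lit 0x0) (nat_lit 0x3c001f000400000001c000c0004000000000000000000000000000000) := Q_8 (nat_lit 156) (C_8 L51850 (C_8 L51852 (C_8 L51858 (C_8 L51860 N_8)))) (by decide +kernel)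
theorem L51862 : W_8 (nat_lit 9) (nat_lit 0xa002d0010001200080000000000000000000000000000000) (nat_lit 0x0) (nat_lit 0x3c001f00340002c001c000c0004000000000000000000000000000000) := Q_8 (nat_lit 173) (C_8 L51842 (C_8 L51847 (C_8 L51861 N_8))) (by decide +kernel)
theorem L51863 : W_8 (nat_lit 10) (nat_lit 0xa002c0010001200080000000000000000000000000000000) (nat_lit 0x0) (nat_lit 0x20003c007f00350003c001c000c0004000000000000000000000000000000) := Q_8 (nat_lit 172) (C_8 L51835 (C_8 L51841 (C_8 L51843 (C_8 L51862 N_8)))) (by decide +kernel)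
theorem L51864 : W_8 (nat_lit 2) (nat_lit 0x1000080004000a002f0010001200080000000000000000000000000000000) (nat_lit 0x0) (nat_lit 0x40002000100000000000000000000000000000000000000000000000000000000) := D_8 (nat_lit 241) (nat_lit 258) (nat_lit 224) (nat_lit 7) (nat_lit 2) (nat_lit 11) (nat_lit 7) (nat_lit 2) (nat_lit 10) (by decide +kernel)
theorem L51865 : W_8 (nat_lit 3) (nat_lit 0x80004000a002f0010001200080000000000000000000000000000000) (nat_lit 0x0) (nat_lit 0x40003000100000000400000000000000000000000000000000000000000000000) := T_8 (nat_lit 240) (nat_lit 190) (nat_lit 6) (nat_lit 2) (nat_lit 14) L51864 (by decide +kernel)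
theorem L51866 : W_8 (nat_lit 4) (nat_lit 0x4000a002f0010001200080000000000000000000000000000000) (nat_lit 0x0) (nat_lit 0x40003000180000000400000001000000000000000000000000000000000000000) := T_8 (nat_lit 223) (nat_lit 156) (nat_lit 6) (nat_lit 2) (nat_lit 13) L51865 (by decide +kernel)
theorem L51867 : W_8 (nat_lit 2) (nat_lit 0x80004000a002f0010001200080000000000000000000000000000000) (nat_lit 0x0) (nat_lit 0x1000008000400000000000000000000000000000000000000) := D_8 (nat_lit 171) (nat_lit 192) (nat_lit 154) (nat_lit 3) (nat_lit 1) (nat_lit 10) (nat_lit 4) (nat_lit 2) (nat_lit 13) (by decide +kernel)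
theorem L51868 : W_8 (nat_lit 3) (nat_lit 0x4000a002f0010001200080000000000000000000000000000000) (nat_lit 0x0) (nat_lit 0x80000001000008001400000000000000000000000000000000000000) := T_8 (nat_lit 223) (nat_lit 156) (nat_lit 6) (nat_lit 2) (nat_lit 13) L51867 (by decide +kernel)
theorem L51869 : W_8 (nat_lit 2) (nat_lit 0x4000a002f8010001200080000000000000000000000000000000) (nat_lit 0x0) (nat_lit 0x80000000000000000600000000000000000000000000000000000000) := D_8 (nat_lit 154) (nat_lit 223) (nat_lit 153) (nat_lit 4) (nat_lit 2) (nat_lit 13) (nat_lit 0) (nat_lit 4) (nat_lit 10) (by decide +kernel)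
theorem L51870 : W_8 (nat_lit 3) (nat_lit 0x4000a002f0010001200080000000000000000000000000000000) (nat_lit 0x0) (nat_lit 0x80000001000008000600000000000000000000000000000000000000) := T_8 (nat_lit 171) (nat_lit 192) (nat_lit 3) (nat_lit 1) (nat_lit 10) L51869 (by decide +kernel)
theorem L51871 : W_8 (nat_lit 2) (nat_lit 0xe00024001e002f0010001280080000000000000000000000000000000) (nat_lit 0x0) (nat_lit 0x100018000000000000000000000000000000000000000000000000000) := D_8 (nat_lit 207) (nat_lit 208) (nat_lit 224) (nat_lit 3) (nat_lit 2) (nat_lit 12) (nat_lit 0) (nat_lit 6) (nat_lit 13) (by decide +kernel)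
theorem L51872 : W_8 (nat_lit 3) (nat_lit 0x600024001e002f0010001280080000000000000000000000000000000) (nat_lit 0x0) (nat_lit 0x10000900018000000000000000000000000000000000000000000000000000) := T_8 (nat_lit 227) (nat_lit 244) (nat_lit 7) (nat_lit 5) (nat_lit 10) L51871 (by decide +kernel)
theorem L51873 : W_8 (nat_lit 4) (nat_lit 0x400024001e002f0010001280080000000000000000000000000000000) (nat_lit 0x0) (nat_lit 0x14000b00018000000000000000000000000000000000000000000000000000) := T_8 (nat_lit 225) (nat_lit 242) (nat_lit 5) (nat_lit 5) (nat_lit 10) L51872 (by decide +kernel)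
theorem L51874 : W_8 (nat_lit 5) (nat_lit 0x24001e002f0010001280080000000000000000000000000000000) (nat_lit 0x0) (nat_lit 0x1c000f00018000000000000000000000000000000000000000000000000000) := T_8 (nat_lit 226) (nat_lit 243) (nat_lit 4) (nat_lit 5) (nat_lit 14) L51873 (by decide +kernel)
theorem L51875 : W_8 (nat_lit 6) (nat_lit 0x24001e002f0010001200080000000000000000000000000000000) (nat_lit 0x0) (nat_lit 0x1c000f00018000000000001000080000000000000000000000000000000000) := T_8 (nat_lit 139) (nat_lit 156) (nat_lit 5) (nat_lit 3) (nat_lit 8) L51874 (by decide +kernel)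
theorem L51876 : W_8 (nat_lit 7) (nat_lit 0x4001e002f0010001200080000000000000000000000000000000) (nat_lit 0x0) (nat_lit 0x1c000f00078000000000001000080000000000000000000000000000000000) := T_8 (nat_lit 209) (nat_lit 210) (nat_lit 3) (nat_lit 2) (nat_lit 11) L51875 (by decide +kernel)
theorem L51877 : W_8 (nat_lit 8) (nat_lit 0x4001a002f0010001200080000000000000000000000000000000) (nat_lit 0x0) (nat_lit 0x1c000f0007a000400000001000080000000000000000000000000000000000) := T_8 (nat_lit 190) (nat_lit 205) (nat_lit 1) (nat_lit 5) (nat_lit 11) L51876 (by decide +kernel)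
theorem L51878 : W_8 (nat_lit 9) (nat_lit 0x4000a002f0010001200080000000000000000000000000000000) (nat_lit 0x0) (nat_lit 0x1c000f0007a001400008001000080000000000000000000000000000000000) := T_8 (nat_lit 192) (nat_lit 171) (nat_lit 3) (nat_lit 1) (nat_lit 10) L51877 (by decide +kernel)
theorem L51879 : W_8 (nat_lit 10) (nat_lit 0xa002f0010001200080000000000000000000000000000000) (nat_lit 0x0) (nat_lit 0x4001f000f8007e001400008001600080000000000000000000000000000000000) := Q_8 (nat_lit 206) (C_8 L51866 (C_8 L51868 (C_8 L51870 (C_8 L51878 N_8)))) (by decide +kernel)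
theorem L51880 : W_8 (nat_lit 2) (nat_lit 0xa002f8010001200080000000000000000000000000000000) (nat_lit 0x0) (nat_lit 0xe00000000000000000000000000000000000000) := D_8 (nat_lit 154) (nat_lit 153) (nat_lit 155) (nat_lit 0) (nat_lit 4) (nat_lit 10) (nat_lit 0) (nat_lit 5) (nat_lit 10) (by decide +kernel)
theorem L51881 : W_8 (nat_lit 3) (nat_lit 0xa002f0010001200080000000000000000000000000000000) (nat_lit 0x0) (nat_lit 0x1000008000e00000000000000000000000000000000000000) := T_8 (nat_lit 171) (nat_lit 192) (nat_lit 3) (nat_lit 1) (nat_lit 10) L51880 (by decide +kernel)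
theorem L51882 : W_8 (nat_lit 2) (nat_lit 0x4000a002f0011001200080000000000000000000000000000000) (nat_lit 0x0) (nat_lit 0x800080004000000000000000000000000000000) := D_8 (nat_lit 139) (nat_lit 122) (nat_lit 155) (nat_lit 7) (nat_lit 3) (nat_lit 7) (nat_lit 6) (nat_lit 2) (nat_lit 12) (by decide +kernel)
theorem L51883 : W_8 (nat_lit 3) (nat_lit 0xa002f0011001200080000000000000000000000000000000) (nat_lit 0x0) (nat_lit 0x80004000000000000800080004000000000000000000000000000000) := T_8 (nat_lit 206) (nat_lit 223) (nat_lit 6) (nat_lit 2) (nat_lit 13) L51882 (by decide +kernel)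
theorem L51884 : W_8 (nat_lit 2) (nat_lit 0x200024001e002f0011001200080000000000000000000000000000000) (nat_lit 0x0) (nat_lit 0xc000400000000000000000000000000000000000000000000000000000000) := D_8 (nat_lit 226) (nat_lit 242) (nat_lit 243) (nat_lit 5) (nat_lit 5) (nat_lit 10) (nat_lit 4) (nat_lit 5) (nat_lit 14) (by decide +kernel)
theorem L51885 : W_8 (nat_lit 3) (nat_lit 0x200004001e002f0011001200080000000000000000000000000000000) (nat_lit 0x0) (nat_lit 0xc000400060000000000000000000000000000000000000000000000000000) := T_8 (nat_lit 209) (nat_lit 210) (nat_lit 3) (nat_lit 2) (nat_lit 11) L51884 (by decide +kernel)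
theorem L51886 : W_8 (nat_lit 4) (nat_lit 0x200004001a002f0011001200080000000000000000000000000000000) (nat_lit 0x0) (nat_lit 0xc000400062000400000000000000000000000000000000000000000000000) := T_8 (nat_lit 190) (nat_lit 205) (nat_lit 1) (nat_lit 5) (nat_lit 11) L51885 (by decide +kernel)
theorem L51887 : W_8 (nat_lit 5) (nat_lit 0x200000001a002f0011001200080000000000000000000000000000000) (nat_lit 0x0) (nat_lit 0xc000480066000400000000000000000000000000000000000000000000000) := T_8 (nat_lit 206) (nat_lit 223) (nat_lit 6) (nat_lit 2) (nat_lit 13) L51886 (by decide +kernel)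
theorem L51888 : W_8 (nat_lit 6) (nat_lit 0x1a002f0011001200080000000000000000000000000000000) (nat_lit 0x0) (nat_lit 0xc000680076000400000000000000000000000000000000000000000000000) := T_8 (nat_lit 225) (nat_lit 208) (nat_lit 4) (nat_lit 4) (nat_lit 13) L51887 (by decide +kernel)
theorem L51889 : W_8 (nat_lit 7) (nat_lit 0xa002f0011001200080000000000000000000000000000000) (nat_lit 0x0) (nat_lit 0xc000680076001400008000000000000000000000000000000000000000000) := T_8 (nat_lit 192) (nat_lit 171) (nat_lit 3) (nat_lit 1) (nat_lit 10) L51888 (by decide +kernel)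
theorem L51890 : W_8 (nat_lit 8) (nat_lit 0xa002f0010001200080000000000000000000000000000000) (nat_lit 0x0) (nat_lit 0xc000680076001400008001800080004000000000000000000000000000000) := Q_8 (nat_lit 156) (C_8 L51860 (C_8 L51883 (C_8 L51889 N_8))) (by decide +kernel)
theorem L51891 : W_8 (nat_lit 11) (nat_lit 0xa002d0010001200080000000000000000000000000000000) (nat_lit 0x0) (nat_lit 0x4001f000fc007f00140002c001e000c0004000000000000000000000000000000) := Q_8 (nat_lit 173) (C_8 L51861 (C_8 L51847 (C_8 L51879 (C_8 L51881 (C_8 L51890 N_8))))) (by decide +kernel)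
theorem L51892 : W_8 (nat_lit 2) (nat_lit 0xe00024001e002d0010001200080000000000000000000000000000000) (nat_lit 0x0) (nat_lit 0x100018000000000000000000000000000000000000000000000000000) := D_8 (nat_lit 207) (nat_lit 208) (nat_lit 224) (nat_lit 3) (nat_lit 2) (nat_lit 12) (nat_lit 0) (nat_lit 6) (nat_lit 13) (by decide +kernel)
theorem L51893 : W_8 (nat_lit 3) (nat_lit 0x600024001e002d0010001200080000000000000000000000000000000) (nat_lit 0x0) (nat_lit 0x10000900018000000000000000000000000000000000000000000000000000) := T_8 (nat_lit 227) (nat_lit 244) (nat_lit 7) (nat_lit 5) (nat_lit 10) L51892 (by decide +kernel)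
theorem L51894 : W_8 (nat_lit 4) (nat_lit 0x400024001e002d0010001200080000000000000000000000000000000) (nat_lit 0x0) (nat_lit 0x14000b00018000000000000000000000000000000000000000000000000000) := T_8 (nat_lit 225) (nat_lit 242) (nat_lit 5) (nat_lit 5) (nat_lit 10) L51893 (by decide +kernel)
theorem L51895 : W_8 (nat_lit 5) (nat_lit 0x24001e002d0010001200080000000000000000000000000000000) (nat_lit 0x0) (nat_lit 0x1c000f00018000000000000000000000000000000000000000000000000000) := T_8 (nat_lit 226) (nat_lit 243) (nat_lit 4) (nat_lit 5) (nat_lit 14) L51894 (by decide +kernel)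
theorem L51896 : W_8 (nat_lit 6) (nat_lit 0x4001e002d0010001200080000000000000000000000000000000) (nat_lit 0x0) (nat_lit 0x1c000f00078000000000000000000000000000000000000000000000000000) := T_8 (nat_lit 209) (nat_lit 210) (nat_lit 3) (nat_lit 2) (nat_lit 11) L51895 (by decide +kernel)
theorem L51897 : W_8 (nat_lit 7) (nat_lit 0x1e002d0010001200080000000000000000000000000000000) (nat_lit 0x0) (nat_lit 0x1c000f0007e000000000000000000000000000000000000000000000000000) := T_8 (nat_lit 206) (nat_lit 205) (nat_lit 1) (nat_lit 5) (nat_lit 11) L51896 (by decide +kernel)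
theorem L51898 : W_8 (nat_lit 8) (nat_lit 0xe002d0010001200080000000000000000000000000000000) (nat_lit 0x0) (nat_lit 0x1c000f0007e001000008000000000000000000000000000000000000000000) := T_8 (nat_lit 192) (nat_lit 171) (nat_lit 0) (nat_lit 5) (nat_lit 11) L51897 (by decide +kernel)
theorem L51899 : W_8 (nat_lit 9) (nat_lit 0xa002d0010001200080000000000000000000000000000000) (nat_lit 0x0) (nat_lit 0x1c000f0007e001500008000000000000000000000000000000000000000000) := T_8 (nat_lit 190) (nat_lit 188) (nat_lit 2) (nat_lit 1) (nat_lit 11) L51898 (by decide +kernel)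
theorem L51900 : W_8 (nat_lit 4) (nat_lit 0xa002d0010001200080000000000000000000000000000000) (nat_lit 0x0) (nat_lit 0x1100028000e00000000000000000000000000000000000000) := T_8 (nat_lit 173) (nat_lit 188) (nat_lit 1) (nat_lit 5) (nat_lit 10) L51881 (by decide +kernel)
theorem L51901 : W_8 (nat_lit 12) (nat_lit 0xa002c0010001200080000000000000000000000000000000) (nat_lit 0x0) (nat_lit 0x4001f000fc007f00150003c001e000c0004000000000000000000000000000000) := Q_8 (nat_lit 172) (C_8 L51891 (C_8 L51835 (C_8 L51899 (C_8 L51900 N_8)))) (by decide +kernel)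
theorem L51902 : W_8 (nat_lit 2) (nat_lit 0x4000300010000a002e0010001200080000000000000000000000000000000) (nat_lit 0x0) (nat_lit 0x100008000400000000000000000000000000000000000000000000000000000000) := D_8 (nat_lit 243) (nat_lit 260) (nat_lit 226) (nat_lit 7) (nat_lit 4) (nat_lit 11) (nat_lit 7) (nat_lit 4) (nat_lit 10) (by decide +kernel)
theorem L51903 : W_8 (nat_lit 3) (nat_lit 0x300010000a002e0010001200080000000000000000000000000000000) (nat_lit 0x0) (nat_lit 0x10000c000400000001000000000000000000000000000000000000000000000000) := T_8 (nat_lit 242) (nat_lit 192) (nat_lit 6) (nat_lit 4) (nat_lit 14) L51902 (by decide +kernel)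
theorem L51904 : W_8 (nat_lit 4) (nat_lit 0x200010000a002e0010001200080000000000000000000000000000000) (nat_lit 0x0) (nat_lit 0x10000e000500000001000000000000000000000000000000000000000000000000) := T_8 (nat_lit 224) (nat_lit 241) (nat_lit 5) (nat_lit 4) (nat_lit 10) L51903 (by decide +kernel)
theorem L51905 : W_8 (nat_lit 2) (nat_lit 0x200010000a002e0010001200080000000000000000000000000000000) (nat_lit 0x0) (nat_lit 0x4000000000000500000000000000000000000000000000000000000000000) := D_8 (nat_lit 190) (nat_lit 242) (nat_lit 188) (nat_lit 4) (nat_lit 4) (nat_lit 14) (nat_lit 2) (nat_lit 1) (nat_lit 11) (by decide +kernel)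
theorem L51906 : W_8 (nat_lit 2) (nat_lit 0x8003400090005a002e0010001200080000000000000000000000000000000) (nat_lit 0x0) (nat_lit 0x14000800000000000000000000000000000000000000000000000000000000) := D_8 (nat_lit 227) (nat_lit 244) (nat_lit 242) (nat_lit 5) (nat_lit 7) (nat_lit 10) (nat_lit 1) (nat_lit 8) (nat_lit 13) (by decide +kernel)
theorem L51907 : W_8 (nat_lit 3) (nat_lit 0x8002400090005a002e0010001200080000000000000000000000000000000) (nat_lit 0x0) (nat_lit 0x54001800000000000000000000000000000000000000000000000000000000) := T_8 (nat_lit 228) (nat_lit 246) (nat_lit 7) (nat_lit 7) (nat_lit 10) L51906 (by decide +kernel)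
theorem L51908 : W_8 (nat_lit 4) (nat_lit 0x8002400080005a002e0010001200080000000000000000000000000000000) (nat_lit 0x0) (nat_lit 0x54001a00010000000000000000000000000000000000000000000000000000) := T_8 (nat_lit 208) (nat_lit 225) (nat_lit 7) (nat_lit 4) (nat_lit 10) L51907 (by decide +kernel)
theorem L51909 : W_8 (nat_lit 5) (nat_lit 0x8000400080005a002e0010001200080000000000000000000000000000000) (nat_lit 0x0) (nat_lit 0x54003a00110000000000000000000000000000000000000000000000000000) := T_8 (nat_lit 229) (nat_lit 212) (nat_lit 7) (nat_lit 7) (nat_lit 9) L51908 (by decide +kernel)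
theorem L51910 : W_8 (nat_lit 6) (nat_lit 0x8000400000005a002e0010001200080000000000000000000000000000000) (nat_lit 0x0) (nat_lit 0x54003a00190000000000020000000000000000000000000000000000000000) := T_8 (nat_lit 211) (nat_lit 161) (nat_lit 6) (nat_lit 7) (nat_lit 12) L51909 (by decide +kernel)
theorem L51911 : W_8 (nat_lit 7) (nat_lit 0x400000005a002e0010001200080000000000000000000000000000000) (nat_lit 0x0) (nat_lit 0x5c003a001b0000000000020000000000000000000000000000000000000000) := T_8 (nat_lit 243) (nat_lit 209) (nat_lit 4) (nat_lit 5) (nat_lit 14) L51910 (by decide +kernel)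
theorem L51912 : W_8 (nat_lit 8) (nat_lit 0x400000001a002e0010001200080000000000000000000000000000000) (nat_lit 0x0) (nat_lit 0x5c003a001b0006000000020000000000000000000000000000000000000000) := T_8 (nat_lit 194) (nat_lit 193) (nat_lit 0) (nat_lit 7) (nat_lit 11) L51911 (by decide +kernel)
theorem L51913 : W_8 (nat_lit 2) (nat_lit 0x4003c00080005a002e0010001200080000000000000000000000000000000) (nat_lit 0x0) (nat_lit 0x2000200010000000000000000000000000000000000000000000000000000) := D_8 (nat_lit 225) (nat_lit 241) (nat_lit 208) (nat_lit 1) (nat_lit 7) (nat_lit 13) (nat_lit 6) (nat_lit 4) (nat_lit 14) (by decide +kernel)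
theorem L51914 : W_8 (nat_lit 3) (nat_lit 0x3c00080005a002e0010001200080000000000000000000000000000000) (nat_lit 0x0) (nat_lit 0xe000200010000000000000000000000000000000000000000000000000000) := T_8 (nat_lit 242) (nat_lit 243) (nat_lit 1) (nat_lit 8) (nat_lit 13) L51913 (by decide +kernel)
theorem L51915 : W_8 (nat_lit 4) (nat_lit 0x3400080005a002e0010001200080000000000000000000000000000000) (nat_lit 0x0) (nat_lit 0x1e000a00010000000000000000000000000000000000000000000000000000) := T_8 (nat_lit 227) (nat_lit 244) (nat_lit 5) (nat_lit 7) (nat_lit 10) L51914 (by decide +kernel)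
theorem L51916 : W_8 (nat_lit 5) (nat_lit 0x2400080005a002e0010001200080000000000000000000000000000000) (nat_lit 0x0) (nat_lit 0x5e001a00010000000000000000000000000000000000000000000000000000) := T_8 (nat_lit 228) (nat_lit 246) (nat_lit 7) (nat_lit 7) (nat_lit 10) L51915 (by decide +kernel)
theorem L51917 : W_8 (nat_lit 6) (nat_lit 0x400080005a002e0010001200080000000000000000000000000000000) (nat_lit 0x0) (nat_lit 0x5e003a00110000000000000000000000000000000000000000000000000000) := T_8 (nat_lit 229) (nat_lit 212) (nat_lit 7) (nat_lit 7) (nat_lit 9) L51916 (by decide +kernel)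
theorem L51918 : W_8 (nat_lit 7) (nat_lit 0x400000005a002e0010001200080000000000000000000000000000000) (nat_lit 0x0) (nat_lit 0x5e003a00190000000000020000000000000000000000000000000000000000) := T_8 (nat_lit 211) (nat_lit 161) (nat_lit 6) (nat_lit 7) (nat_lit 12) L51917 (by decide +kernel)
theorem L51919 : W_8 (nat_lit 8) (nat_lit 0x400000001a002e0010001200080000000000000000000000000000000) (nat_lit 0x0) (nat_lit 0x5e003a00190006000000020000000000000000000000000000000000000000) := T_8 (nat_lit 194) (nat_lit 193) (nat_lit 0) (nat_lit 7) (nat_lit 11) L51918 (by decide +kernel)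
theorem L51920 : W_8 (nat_lit 2) (nat_lit 0xe00030001a002e0010001200080000000000000000000000000000000) (nat_lit 0x0) (nat_lit 0x3000008000000000000000000000000000000000000000000000000000) := D_8 (nat_lit 228) (nat_lit 207) (nat_lit 229) (nat_lit 0) (nat_lit 7) (nat_lit 13) (nat_lit 0) (nat_lit 8) (nat_lit 13) (by decide +kernel)
theorem L51921 : W_8 (nat_lit 3) (nat_lit 0xe00020001a002e0010001200080000000000000000000000000000000) (nat_lit 0x0) (nat_lit 0x3000018000000000001000000000000000000000000000000000000000) := T_8 (nat_lit 208) (nat_lit 156) (nat_lit 4) (nat_lit 4) (nat_lit 13) L51920 (by decide +kernel)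
theorem L51922 : W_8 (nat_lit 4) (nat_lit 0x600020001a002e0010001200080000000000000000000000000000000) (nat_lit 0x0) (nat_lit 0x10003800018000000000001000000000000000000000000000000000000000) := T_8 (nat_lit 227) (nat_lit 244) (nat_lit 7) (nat_lit 5) (nat_lit 10) L51921 (by decide +kernel)
theorem L51923 : W_8 (nat_lit 5) (nat_lit 0x400020001a002e0010001200080000000000000000000000000000000) (nat_lit 0x0) (nat_lit 0x14003a00018000000000001000000000000000000000000000000000000000) := T_8 (nat_lit 225) (nat_lit 242) (nat_lit 5) (nat_lit 5) (nat_lit 10) L51922 (by decide +kernel)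
theorem L51924 : W_8 (nat_lit 6) (nat_lit 0x400000001a002e0010001200080000000000000000000000000000000) (nat_lit 0x0) (nat_lit 0x1c003a00038000000000001000000000000000000000000000000000000000) := T_8 (nat_lit 209) (nat_lit 243) (nat_lit 4) (nat_lit 5) (nat_lit 14) L51923 (by decide +kernel)
theorem L51925 : W_8 (nat_lit 2) (nat_lit 0x8003400080005a002e0010001200080000000000000000000000000000000) (nat_lit 0x0) (nat_lit 0x14000800000000000000000000000000000000000000000000000000000000) := D_8 (nat_lit 227) (nat_lit 244) (nat_lit 242) (nat_lit 5) (nat_lit 7) (nat_lit 10) (nat_lit 1) (nat_lit 8) (nat_lit 13) (by decide +kernel)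
theorem L51926 : W_8 (nat_lit 3) (nat_lit 0x8002400080005a002e0010001200080000000000000000000000000000000) (nat_lit 0x0) (nat_lit 0x54001800000000000000000000000000000000000000000000000000000000) := T_8 (nat_lit 228) (nat_lit 246) (nat_lit 7) (nat_lit 7) (nat_lit 10) L51925 (by decide +kernel)
theorem L51927 : W_8 (nat_lit 4) (nat_lit 0x8000400080005a002e0010001200080000000000000000000000000000000) (nat_lit 0x0) (nat_lit 0x54003800100000000000000000000000000000000000000000000000000000) := T_8 (nat_lit 229) (nat_lit 212) (nat_lit 7) (nat_lit 7) (nat_lit 9) L51926 (by decide +kernel)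
theorem L51928 : W_8 (nat_lit 5) (nat_lit 0x8000400000005a002e0010001200080000000000000000000000000000000) (nat_lit 0x0) (nat_lit 0x54003800180000000000020000000000000000000000000000000000000000) := T_8 (nat_lit 211) (nat_lit 161) (nat_lit 6) (nat_lit 7) (nat_lit 12) L51927 (by decide +kernel)
theorem L51929 : W_8 (nat_lit 6) (nat_lit 0x8000400000001a002e0010001200080000000000000000000000000000000) (nat_lit 0x0) (nat_lit 0x54003800180006000000020000000000000000000000000000000000000000) := T_8 (nat_lit 194) (nat_lit 193) (nat_lit 0) (nat_lit 7) (nat_lit 11) L51928 (by decide +kernel)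
theorem L51930 : W_8 (nat_lit 7) (nat_lit 0x400000001a002e0010001200080000000000000000000000000000000) (nat_lit 0x0) (nat_lit 0x5c0038001a0006000000020000000000000000000000000000000000000000) := T_8 (nat_lit 243) (nat_lit 209) (nat_lit 4) (nat_lit 5) (nat_lit 14) L51929 (by decide +kernel)
theorem L51931 : W_8 (nat_lit 2) (nat_lit 0xf80030005a002e0010001200080000000000000000000000000000000) (nat_lit 0x0) (nat_lit 0xe000000000000000000000000000000000000000000000000000) := D_8 (nat_lit 206) (nat_lit 207) (nat_lit 205) (nat_lit 3) (nat_lit 2) (nat_lit 12) (nat_lit 0) (nat_lit 5) (nat_lit 13) (by decide +kernel)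
theorem L51932 : W_8 (nat_lit 3) (nat_lit 0xf00030005a002e0010001200080000000000000000000000000000000) (nat_lit 0x0) (nat_lit 0xc000e000000000000000000000000000000000000000000000000000) := T_8 (nat_lit 223) (nat_lit 222) (nat_lit 2) (nat_lit 1) (nat_lit 13) L51931 (by decide +kernel)
theorem L51933 : W_8 (nat_lit 4) (nat_lit 0xe00030005a002e0010001200080000000000000000000000000000000) (nat_lit 0x0) (nat_lit 0x20001c000e000000000000000000000000000000000000000000000000000) := T_8 (nat_lit 224) (nat_lit 241) (nat_lit 5) (nat_lit 4) (nat_lit 10) L51932 (by decide +kernel)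
theorem L51934 : W_8 (nat_lit 5) (nat_lit 0xe00020005a002e0010001200080000000000000000000000000000000) (nat_lit 0x0) (nat_lit 0x20001c001e000000000001000000000000000000000000000000000000000) := T_8 (nat_lit 208) (nat_lit 156) (nat_lit 4) (nat_lit 4) (nat_lit 13) L51933 (by decide +kernel)
theorem L51935 : W_8 (nat_lit 6) (nat_lit 0x600020005a002e0010001200080000000000000000000000000000000) (nat_lit 0x0) (nat_lit 0x120009c001e000000000001000000000000000000000000000000000000000) := T_8 (nat_lit 227) (nat_lit 244) (nat_lit 7) (nat_lit 5) (nat_lit 10) L51934 (by decide +kernel)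
theorem L51936 : W_8 (nat_lit 7) (nat_lit 0x400020005a002e0010001200080000000000000000000000000000000) (nat_lit 0x0) (nat_lit 0x16000bc001e000000000001000000000000000000000000000000000000000) := T_8 (nat_lit 225) (nat_lit 242) (nat_lit 5) (nat_lit 5) (nat_lit 10) L51935 (by decide +kernel)
theorem L51937 : W_8 (nat_lit 8) (nat_lit 0x400000005a002e0010001200080000000000000000000000000000000) (nat_lit 0x0) (nat_lit 0x1e000bc003e000000000001000000000000000000000000000000000000000) := T_8 (nat_lit 209) (nat_lit 243) (nat_lit 4) (nat_lit 5) (nat_lit 14) L51936 (by decide +kernel)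
theorem L51938 : W_8 (nat_lit 9) (nat_lit 0x400000001a002e0010001200080000000000000000000000000000000) (nat_lit 0x0) (nat_lit 0x1e000bc003e006000000001000000000000000000000000000000000000000) := T_8 (nat_lit 194) (nat_lit 193) (nat_lit 0) (nat_lit 7) (nat_lit 11) L51937 (by decide +kernel)
theorem L51939 : W_8 (nat_lit 2) (nat_lit 0x780030003a002e0010001200080000000000000000000000000000000) (nat_lit 0x0) (nat_lit 0xe000000000000000000000000000000000000000000000000000) := D_8 (nat_lit 206) (nat_lit 207) (nat_lit 205) (nat_lit 2) (nat_lit 2) (nat_lit 12) (nat_lit 0) (nat_lit 5) (nat_lit 13) (by decide +kernel)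
theorem L51940 : W_8 (nat_lit 3) (nat_lit 0x700030003a002e0010001200080000000000000000000000000000000) (nat_lit 0x0) (nat_lit 0xc000e000000000000000000000000000000000000000000000000000) := T_8 (nat_lit 223) (nat_lit 222) (nat_lit 2) (nat_lit 1) (nat_lit 13) L51939 (by decide +kernel)
theorem L51941 : W_8 (nat_lit 4) (nat_lit 0x600030003a002e0010001200080000000000000000000000000000000) (nat_lit 0x0) (nat_lit 0x20001c000e000000000000000000000000000000000000000000000000000) := T_8 (nat_lit 224) (nat_lit 241) (nat_lit 5) (nat_lit 4) (nat_lit 10) L51940 (by decide +kernel)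
theorem L51942 : W_8 (nat_lit 5) (nat_lit 0x600020003a002e0010001200080000000000000000000000000000000) (nat_lit 0x0) (nat_lit 0x20001c001e000000000001000000000000000000000000000000000000000) := T_8 (nat_lit 208) (nat_lit 156) (nat_lit 4) (nat_lit 4) (nat_lit 13) L51941 (by decide +kernel)
theorem L51943 : W_8 (nat_lit 6) (nat_lit 0x400020003a002e0010001200080000000000000000000000000000000) (nat_lit 0x0) (nat_lit 0x60003c001e000000000001000000000000000000000000000000000000000) := T_8 (nat_lit 225) (nat_lit 242) (nat_lit 5) (nat_lit 5) (nat_lit 10) L51942 (by decide +kernel)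
theorem L51944 : W_8 (nat_lit 7) (nat_lit 0x400000003a002e0010001200080000000000000000000000000000000) (nat_lit 0x0) (nat_lit 0xe0003c003e000000000001000000000000000000000000000000000000000) := T_8 (nat_lit 209) (nat_lit 243) (nat_lit 4) (nat_lit 5) (nat_lit 14) L51943 (by decide +kernel)
theorem L51945 : W_8 (nat_lit 8) (nat_lit 0x400000001a002e0010001200080000000000000000000000000000000) (nat_lit 0x0) (nat_lit 0xe0003c003e006000000001000000000000000000000000000000000000000) := T_8 (nat_lit 193) (nat_lit 194) (nat_lit 0) (nat_lit 7) (nat_lit 11) L51944 (by decide +kernel)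
theorem L51946 : W_8 (nat_lit 2) (nat_lit 0x3c00090005a002e0010001200080000000000000000000000000000000) (nat_lit 0x0) (nat_lit 0x200008000000000001000000000000000000000000000000000000000) := D_8 (nat_lit 225) (nat_lit 207) (nat_lit 156) (nat_lit 0) (nat_lit 7) (nat_lit 13) (nat_lit 4) (nat_lit 4) (nat_lit 13) (by decide +kernel)
theorem L51947 : W_8 (nat_lit 3) (nat_lit 0x3c00080005a002e0010001200080000000000000000000000000000000) (nat_lit 0x0) (nat_lit 0x200038000000000001000000000000000000000000000000000000000) := T_8 (nat_lit 208) (nat_lit 209) (nat_lit 0) (nat_lit 8) (nat_lit 13) L51946 (by decide +kernel)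
theorem L51948 : W_8 (nat_lit 4) (nat_lit 0x3400080005a002e0010001200080000000000000000000000000000000) (nat_lit 0x0) (nat_lit 0x10000a00038000000000001000000000000000000000000000000000000000) := T_8 (nat_lit 227) (nat_lit 244) (nat_lit 5) (nat_lit 7) (nat_lit 10) L51947 (by decide +kernel)
theorem L51949 : W_8 (nat_lit 5) (nat_lit 0x2400080005a002e0010001200080000000000000000000000000000000) (nat_lit 0x0) (nat_lit 0x50001a00038000000000001000000000000000000000000000000000000000) := T_8 (nat_lit 228) (nat_lit 246) (nat_lit 7) (nat_lit 7) (nat_lit 10) L51948 (by decide +kernel)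
theorem L51950 : W_8 (nat_lit 6) (nat_lit 0x400080005a002e0010001200080000000000000000000000000000000) (nat_lit 0x0) (nat_lit 0x50003a00138000000000001000000000000000000000000000000000000000) := T_8 (nat_lit 229) (nat_lit 212) (nat_lit 7) (nat_lit 7) (nat_lit 9) L51949 (by decide +kernel)
theorem L51951 : W_8 (nat_lit 7) (nat_lit 0x400000005a002e0010001200080000000000000000000000000000000) (nat_lit 0x0) (nat_lit 0x50003a001b8000000000021000000000000000000000000000000000000000) := T_8 (nat_lit 211) (nat_lit 161) (nat_lit 6) (nat_lit 7) (nat_lit 12) L51950 (by decide +kernel)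
theorem L51952 : W_8 (nat_lit 8) (nat_lit 0x400000001a002e0010001200080000000000000000000000000000000) (nat_lit 0x0) (nat_lit 0x50003a001b8006000000021000000000000000000000000000000000000000) := T_8 (nat_lit 194) (nat_lit 193) (nat_lit 0) (nat_lit 7) (nat_lit 11) L51951 (by decide +kernel)
theorem L51953 : W_8 (nat_lit 10) (nat_lit 0x1a002e0010001200080000000000000000000000000000000) (nat_lit 0x0) (nat_lit 0x5e003fc01be006000000021000000000000000000000000000000000000000) := Q_8 (nat_lit 226) (C_8 L51912 (C_8 L51919 (C_8 L51924 (C_8 L51930 (C_8 L51938 (C_8 L51945 (C_8 L51952 N_8))))))) (by decide +kernel)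
theorem L51954 : W_8 (nat_lit 2) (nat_lit 0x184005e002e0011001200080000000000000000000000000000000) (nat_lit 0x0) (nat_lit 0x1000080008000000000000000000000000000000000000000000000000000) := D_8 (nat_lit 223) (nat_lit 240) (nat_lit 207) (nat_lit 6) (nat_lit 2) (nat_lit 14) (nat_lit 5) (nat_lit 3) (nat_lit 9) (by decide +kernel)
theorem L51955 : W_8 (nat_lit 3) (nat_lit 0x184005e002e0010001200080000000000000000000000000000000) (nat_lit 0x0) (nat_lit 0x1000080008000000000001000080000000000000000000000000000000000) := T_8 (nat_lit 156) (nat_lit 139) (nat_lit 5) (nat_lit 3) (nat_lit 8) L51954 (by decide +kernel)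
theorem L51956 : W_8 (nat_lit 4) (nat_lit 0x180005e002e0010001200080000000000000000000000000000000) (nat_lit 0x0) (nat_lit 0x100008000e000000000001000080000000000000000000000000000000000) := T_8 (nat_lit 206) (nat_lit 205) (nat_lit 1) (nat_lit 5) (nat_lit 11) L51955 (by decide +kernel)
theorem L51957 : W_8 (nat_lit 5) (nat_lit 0x80005e002e0010001200080000000000000000000000000000000) (nat_lit 0x0) (nat_lit 0x100208010e000000000001000080000000000000000000000000000000000) := T_8 (nat_lit 212) (nat_lit 229) (nat_lit 7) (nat_lit 7) (nat_lit 9) L51956 (by decide +kernel)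
theorem L51958 : W_8 (nat_lit 6) (nat_lit 0x5e002e0010001200080000000000000000000000000000000) (nat_lit 0x0) (nat_lit 0x100208018e000000000021000080000000000000000000000000000000000) := T_8 (nat_lit 211) (nat_lit 161) (nat_lit 6) (nat_lit 7) (nat_lit 12) L51957 (by decide +kernel)
theorem L51959 : W_8 (nat_lit 7) (nat_lit 0x5a002e0010001200080000000000000000000000000000000) (nat_lit 0x0) (nat_lit 0x100208018e000500000021000080000000000000000000000000000000000) := T_8 (nat_lit 190) (nat_lit 188) (nat_lit 2) (nat_lit 1) (nat_lit 11) L51958 (by decide +kernel)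
theorem L51960 : W_8 (nat_lit 8) (nat_lit 0x1a002e0010001200080000000000000000000000000000000) (nat_lit 0x0) (nat_lit 0x100208018e006500000021000080000000000000000000000000000000000) := T_8 (nat_lit 194) (nat_lit 193) (nat_lit 0) (nat_lit 7) (nat_lit 11) L51959 (by decide +kernel)
theorem L51961 : W_8 (nat_lit 2) (nat_lit 0x4001e002e0011001200080000000000000000000000000000000) (nat_lit 0x0) (nat_lit 0x1000080008000000000000000000000000000000000000000000000000000) := D_8 (nat_lit 223) (nat_lit 240) (nat_lit 207) (nat_lit 6) (nat_lit 2) (nat_lit 14) (nat_lit 5) (nat_lit 3) (nat_lit 9) (by decide +kernel)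
theorem L51962 : W_8 (nat_lit 3) (nat_lit 0x4001e002e0010001200080000000000000000000000000000000) (nat_lit 0x0) (nat_lit 0x1000080008000000000001000080000000000000000000000000000000000) := T_8 (nat_lit 156) (nat_lit 139) (nat_lit 5) (nat_lit 3) (nat_lit 8) L51961 (by decide +kernel)
theorem L51963 : W_8 (nat_lit 4) (nat_lit 0x1e002e0010001200080000000000000000000000000000000) (nat_lit 0x0) (nat_lit 0x100008000e000000000001000080000000000000000000000000000000000) := T_8 (nat_lit 206) (nat_lit 205) (nat_lit 1) (nat_lit 5) (nat_lit 11) L51962 (by decide +kernel)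
theorem L51964 : W_8 (nat_lit 5) (nat_lit 0x1a002e0010001200080000000000000000000000000000000) (nat_lit 0x0) (nat_lit 0x100008000e000500000001000080000000000000000000000000000000000) := T_8 (nat_lit 190) (nat_lit 188) (nat_lit 2) (nat_lit 1) (nat_lit 11) L51963 (by decide +kernel)
theorem L51965 : W_8 (nat_lit 2) (nat_lit 0x3e002e0010001200080000000000000000000000000000000) (nat_lit 0x0) (nat_lit 0xe000000000000000000000000000000000000000000000000000) := D_8 (nat_lit 206) (nat_lit 205) (nat_lit 207) (nat_lit 1) (nat_lit 5) (nat_lit 11) (nat_lit 1) (nat_lit 6) (nat_lit 11) (by decide +kernel)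
theorem L51966 : W_8 (nat_lit 3) (nat_lit 0x1e002e0010001200080000000000000000000000000000000) (nat_lit 0x0) (nat_lit 0xe006000000000000000000000000000000000000000000000000) := T_8 (nat_lit 193) (nat_lit 194) (nat_lit 0) (nat_lit 7) (nat_lit 11) L51965 (by decide +kernel)
theorem L51967 : W_8 (nat_lit 4) (nat_lit 0x1a002e0010001200080000000000000000000000000000000) (nat_lit 0x0) (nat_lit 0xe006500000000000000000000000000000000000000000000000) := T_8 (nat_lit 190) (nat_lit 188) (nat_lit 2) (nat_lit 1) (nat_lit 11) L51966 (by decide +kernel)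
theorem L51968 : W_8 (nat_lit 2) (nat_lit 0x780034001b002e0010001200080000000000000000000000000000000) (nat_lit 0x0) (nat_lit 0x1800000000000000008000000000000000000000000000000000000000000) := D_8 (nat_lit 240) (nat_lit 239) (nat_lit 171) (nat_lit 1) (nat_lit 5) (nat_lit 13) (nat_lit 4) (nat_lit 2) (nat_lit 14) (by decide +kernel)
theorem L51969 : W_8 (nat_lit 3) (nat_lit 0x780030001b002e0010001200080000000000000000000000000000000) (nat_lit 0x0) (nat_lit 0x1800000006000000008000000000000000000000000000000000000000000) := T_8 (nat_lit 206) (nat_lit 205) (nat_lit 0) (nat_lit 5) (nat_lit 13) L51968 (by decide +kernel)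
theorem L51970 : W_8 (nat_lit 4) (nat_lit 0x700030001b002e0010001200080000000000000000000000000000000) (nat_lit 0x0) (nat_lit 0x18000c0006000000008000000000000000000000000000000000000000000) := T_8 (nat_lit 223) (nat_lit 222) (nat_lit 2) (nat_lit 1) (nat_lit 13) L51969 (by decide +kernel)
theorem L51971 : W_8 (nat_lit 5) (nat_lit 0x600030001b002e0010001200080000000000000000000000000000000) (nat_lit 0x0) (nat_lit 0x38001c0006000000008000000000000000000000000000000000000000000) := T_8 (nat_lit 224) (nat_lit 241) (nat_lit 5) (nat_lit 4) (nat_lit 10) L51970 (by decide +kernel)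
theorem L51972 : W_8 (nat_lit 6) (nat_lit 0x600020001b002e0010001200080000000000000000000000000000000) (nat_lit 0x0) (nat_lit 0x38001c0016000000008001000000000000000000000000000000000000000) := T_8 (nat_lit 208) (nat_lit 156) (nat_lit 4) (nat_lit 4) (nat_lit 13) L51971 (by decide +kernel)
theorem L51973 : W_8 (nat_lit 7) (nat_lit 0x400020001b002e0010001200080000000000000000000000000000000) (nat_lit 0x0) (nat_lit 0x78003c0016000000008001000000000000000000000000000000000000000) := T_8 (nat_lit 225) (nat_lit 242) (nat_lit 5) (nat_lit 5) (nat_lit 10) L51972 (by decide +kernel)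
theorem L51974 : W_8 (nat_lit 8) (nat_lit 0x400000001b002e0010001200080000000000000000000000000000000) (nat_lit 0x0) (nat_lit 0xf8003c0036000000008001000000000000000000000000000000000000000) := T_8 (nat_lit 209) (nat_lit 243) (nat_lit 4) (nat_lit 5) (nat_lit 14) L51973 (by decide +kernel)
theorem L51975 : W_8 (nat_lit 9) (nat_lit 0x400000001a002e0010001200080000000000000000000000000000000) (nat_lit 0x0) (nat_lit 0xf8003c0036000500008001000000000000000000000000000000000000000) := T_8 (nat_lit 188) (nat_lit 190) (nat_lit 2) (nat_lit 1) (nat_lit 11) L51974 (by decide +kernel)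
theorem L51976 : W_8 (nat_lit 2) (nat_lit 0x3c00090005b002e0010001200080000000000000000000000000000000) (nat_lit 0x0) (nat_lit 0x4000200000000000000001000000000000000000000000000000000000000) := D_8 (nat_lit 225) (nat_lit 156) (nat_lit 242) (nat_lit 4) (nat_lit 4) (nat_lit 13) (nat_lit 6) (nat_lit 4) (nat_lit 14) (by decide +kernel)
theorem L51977 : W_8 (nat_lit 3) (nat_lit 0x3c00080005b002e0010001200080000000000000000000000000000000) (nat_lit 0x0) (nat_lit 0x4000200030000000000001000000000000000000000000000000000000000) := T_8 (nat_lit 208) (nat_lit 209) (nat_lit 0) (nat_lit 8) (nat_lit 13) L51976 (by decide +kernel)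
theorem L51978 : W_8 (nat_lit 4) (nat_lit 0x3400080005b002e0010001200080000000000000000000000000000000) (nat_lit 0x0) (nat_lit 0x14000a00030000000000001000000000000000000000000000000000000000) := T_8 (nat_lit 227) (nat_lit 244) (nat_lit 5) (nat_lit 7) (nat_lit 10) L51977 (by decide +kernel)
theorem L51979 : W_8 (nat_lit 5) (nat_lit 0x2400080005b002e0010001200080000000000000000000000000000000) (nat_lit 0x0) (nat_lit 0x54001a00030000000000001000000000000000000000000000000000000000) := T_8 (nat_lit 228) (nat_lit 246) (nat_lit 7) (nat_lit 7) (nat_lit 10) L51978 (by decide +kernel)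
theorem L51980 : W_8 (nat_lit 6) (nat_lit 0x400080005b002e0010001200080000000000000000000000000000000) (nat_lit 0x0) (nat_lit 0x54003a00130000000000001000000000000000000000000000000000000000) := T_8 (nat_lit 229) (nat_lit 212) (nat_lit 7) (nat_lit 7) (nat_lit 9) L51979 (by decide +kernel)
theorem L51981 : W_8 (nat_lit 7) (nat_lit 0x400000005b002e0010001200080000000000000000000000000000000) (nat_lit 0x0) (nat_lit 0x54003a001b0000000000021000000000000000000000000000000000000000) := T_8 (nat_lit 211) (nat_lit 161) (nat_lit 6) (nat_lit 7) (nat_lit 12) L51980 (by decide +kernel)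
theorem L51982 : W_8 (nat_lit 8) (nat_lit 0x400000005a002e0010001200080000000000000000000000000000000) (nat_lit 0x0) (nat_lit 0x54003a001b0000500000021000000000000000000000000000000000000000) := T_8 (nat_lit 188) (nat_lit 190) (nat_lit 2) (nat_lit 1) (nat_lit 11) L51981 (by decide +kernel)
theorem L51983 : W_8 (nat_lit 9) (nat_lit 0x400000001a002e0010001200080000000000000000000000000000000) (nat_lit 0x0) (nat_lit 0x54003a001b0006500000021000000000000000000000000000000000000000) := T_8 (nat_lit 194) (nat_lit 193) (nat_lit 0) (nat_lit 7) (nat_lit 11) L51982 (by decide +kernel)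
theorem L51984 : W_8 (nat_lit 2) (nat_lit 0x2c000a0005a002e0010001200080000000000000000000000000000000) (nat_lit 0x0) (nat_lit 0x40001000010000000000000000000000000000000000000000000000000000) := D_8 (nat_lit 228) (nat_lit 208) (nat_lit 246) (nat_lit 0) (nat_lit 8) (nat_lit 13) (nat_lit 7) (nat_lit 7) (nat_lit 10) (by decide +kernel)
theorem L51985 : W_8 (nat_lit 3) (nat_lit 0x24000a0005a002e0010001200080000000000000000000000000000000) (nat_lit 0x0) (nat_lit 0x50001800010000000000000000000000000000000000000000000000000000) := T_8 (nat_lit 227) (nat_lit 244) (nat_lit 7) (nat_lit 5) (nat_lit 10) L51984 (by decide +kernel)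
theorem L51986 : W_8 (nat_lit 4) (nat_lit 0x4000a0005a002e0010001200080000000000000000000000000000000) (nat_lit 0x0) (nat_lit 0x50003800110000000000000000000000000000000000000000000000000000) := T_8 (nat_lit 229) (nat_lit 212) (nat_lit 7) (nat_lit 7) (nat_lit 9) L51985 (by decide +kernel)
theorem L51987 : W_8 (nat_lit 5) (nat_lit 0x400020005a002e0010001200080000000000000000000000000000000) (nat_lit 0x0) (nat_lit 0x50003800190000000000020000000000000000000000000000000000000000) := T_8 (nat_lit 211) (nat_lit 161) (nat_lit 6) (nat_lit 7) (nat_lit 12) L51986 (by decide +kernel)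
theorem L51988 : W_8 (nat_lit 6) (nat_lit 0x400000005a002e0010001200080000000000000000000000000000000) (nat_lit 0x0) (nat_lit 0x580038001b0000000000020000000000000000000000000000000000000000) := T_8 (nat_lit 209) (nat_lit 243) (nat_lit 4) (nat_lit 5) (nat_lit 14) L51987 (by decide +kernel)
theorem L51989 : W_8 (nat_lit 7) (nat_lit 0x400000001a002e0010001200080000000000000000000000000000000) (nat_lit 0x0) (nat_lit 0x580038001b0006000000020000000000000000000000000000000000000000) := T_8 (nat_lit 194) (nat_lit 193) (nat_lit 0) (nat_lit 7) (nat_lit 11) L51988 (by decide +kernel)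
theorem L51990 : W_8 (nat_lit 10) (nat_lit 0x1a002e0010001200080000000000000000000000000000000) (nat_lit 0x0) (nat_lit 0x5f803fc01b6006500008021000000000000000000000000000000000000000) := Q_8 (nat_lit 226) (C_8 L51930 (C_8 L51919 (C_8 L51975 (C_8 L51983 (C_8 L51989 N_8))))) (by decide +kernel)
theorem L51991 : W_8 (nat_lit 2) (nat_lit 0x780030005e002e0010001200080000000000000000000000000000000) (nat_lit 0x0) (nat_lit 0x1800000008000000000000000000000000000000000000000000000000000) := D_8 (nat_lit 240) (nat_lit 239) (nat_lit 207) (nat_lit 1) (nat_lit 5) (nat_lit 13) (nat_lit 5) (nat_lit 3) (nat_lit 10) (by decide +kernel)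
theorem L51992 : W_8 (nat_lit 3) (nat_lit 0x700030005e002e0010001200080000000000000000000000000000000) (nat_lit 0x0) (nat_lit 0x18000c0008000000000000000000000000000000000000000000000000000) := T_8 (nat_lit 223) (nat_lit 222) (nat_lit 2) (nat_lit 1) (nat_lit 13) L51991 (by decide +kernel)
theorem L51993 : W_8 (nat_lit 4) (nat_lit 0x600030005e002e0010001200080000000000000000000000000000000) (nat_lit 0x0) (nat_lit 0x38001c0008000000000000000000000000000000000000000000000000000) := T_8 (nat_lit 224) (nat_lit 241) (nat_lit 5) (nat_lit 4) (nat_lit 10) L51992 (by decide +kernel)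
theorem L51994 : W_8 (nat_lit 5) (nat_lit 0x600020005e002e0010001200080000000000000000000000000000000) (nat_lit 0x0) (nat_lit 0x38001c0018000000000001000000000000000000000000000000000000000) := T_8 (nat_lit 208) (nat_lit 156) (nat_lit 4) (nat_lit 4) (nat_lit 13) L51993 (by decide +kernel)
theorem L51995 : W_8 (nat_lit 6) (nat_lit 0x400020005e002e0010001200080000000000000000000000000000000) (nat_lit 0x0) (nat_lit 0x78003c0018000000000001000000000000000000000000000000000000000) := T_8 (nat_lit 225) (nat_lit 242) (nat_lit 5) (nat_lit 5) (nat_lit 10) L51994 (by decide +kernel)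
theorem L51996 : W_8 (nat_lit 7) (nat_lit 0x400020001e002e0010001200080000000000000000000000000000000) (nat_lit 0x0) (nat_lit 0x78003c0018006000000001000000000000000000000000000000000000000) := T_8 (nat_lit 194) (nat_lit 193) (nat_lit 0) (nat_lit 7) (nat_lit 11) L51995 (by decide +kernel)
theorem L51997 : W_8 (nat_lit 8) (nat_lit 0x400000001e002e0010001200080000000000000000000000000000000) (nat_lit 0x0) (nat_lit 0xf8003c0038006000000001000000000000000000000000000000000000000) := T_8 (nat_lit 209) (nat_lit 243) (nat_lit 4) (nat_lit 5) (nat_lit 14) L51996 (by decide +kernel)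
theorem L51998 : W_8 (nat_lit 9) (nat_lit 0x400000001a002e0010001200080000000000000000000000000000000) (nat_lit 0x0) (nat_lit 0xf8003c0038006500000001000000000000000000000000000000000000000) := T_8 (nat_lit 190) (nat_lit 188) (nat_lit 2) (nat_lit 1) (nat_lit 11) L51997 (by decide +kernel)
theorem L51999 : W_8 (nat_lit 10) (nat_lit 0x1a002e0010001200080000000000000000000000000000000) (nat_lit 0x0) (nat_lit 0x5f803fc01b8006500000021000000000000000000000000000000000000000) := Q_8 (nat_lit 226) (C_8 L51924 (C_8 L51989 (C_8 L51919 (C_8 L51930 (C_8 L51998 (C_8 L51983 N_8)))))) (by decide +kernel)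
theorem L52000 : W_8 (nat_lit 11) (nat_lit 0xa002e0010001200080000000000000000000000000000000) (nat_lit 0x0) (nat_lit 0x5f803fc01be007500008021000080000000000000000000000000000000000) := Q_8 (nat_lit 192) (C_8 L51953 (C_8 L51960 (C_8 L51964 (C_8 L51967 (C_8 L51990 (C_8 L51999 N_8)))))) (by decide +kernel)
theorem L52001 : W_8 (nat_lit 2) (nat_lit 0xa002e0010001200080000000000000000000000000000000) (nat_lit 0x0) (nat_lit 0x500010000000000000000000000000000000000000000000) := D_8 (nat_lit 188) (nat_lit 190) (nat_lit 172) (nat_lit 2) (nat_lit 1) (nat_lit 11) (nat_lit 1) (nat_lit 5) (nat_lit 10) (by decide +kernel)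
theorem L52002 : W_8 (nat_lit 4) (nat_lit 0xa002e0010001200080000000000000000000000000000000) (nat_lit 0x0) (nat_lit 0x1100018000e00000000000000000000000000000000000000) := T_8 (nat_lit 172) (nat_lit 188) (nat_lit 1) (nat_lit 5) (nat_lit 10) L51881 (by decide +kernel)
theorem L52003 : W_8 (nat_lit 9) (nat_lit 0xa002e0010001200080000000000000000000000000000000) (nat_lit 0x0) (nat_lit 0x3c001f003400018001e000c0004000000000000000000000000000000) := Q_8 (nat_lit 172) (C_8 L51861 (C_8 L51881 (C_8 L51842 N_8))) (by decide +kernel)
theorem L52004 : W_8 (nat_lit 12) (nat_lit 0xa002c0010001200080000000000000000000000000000000) (nat_lit 0x0) (nat_lit 0x5f803fc01bf007500038021e000c0004000000000000000000000000000000) := Q_8 (nat_lit 173) (C_8 L52000 (C_8 L52001 (C_8 L52002 (C_8 L52003 N_8)))) (by decide +kernel)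
theorem L52005 : W_8 (nat_lit 2) (nat_lit 0x1a00180005a002e0010001200080000000000000000000000000000000) (nat_lit 0x0) (nat_lit 0x4000000010000000000001000000000000000000000000000000000000000) := D_8 (nat_lit 208) (nat_lit 156) (nat_lit 242) (nat_lit 4) (nat_lit 4) (nat_lit 13) (nat_lit 6) (nat_lit 4) (nat_lit 14) (by decide +kernel)
theorem L52006 : W_8 (nat_lit 3) (nat_lit 0x1800180005a002e0010001200080000000000000000000000000000000) (nat_lit 0x0) (nat_lit 0x4000600010000000000001000000000000000000000000000000000000000) := T_8 (nat_lit 225) (nat_lit 226) (nat_lit 2) (nat_lit 4) (nat_lit 13) L52005 (by decide +kernel)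
theorem L52007 : W_8 (nat_lit 4) (nat_lit 0x800180005a002e0010001200080000000000000000000000000000000) (nat_lit 0x0) (nat_lit 0x14001600010000000000001000000000000000000000000000000000000000) := T_8 (nat_lit 228) (nat_lit 244) (nat_lit 5) (nat_lit 7) (nat_lit 10) L52006 (by decide +kernel)
theorem L52008 : W_8 (nat_lit 5) (nat_lit 0x180005a002e0010001200080000000000000000000000000000000) (nat_lit 0x0) (nat_lit 0x14001e00050000000000001000000000000000000000000000000000000000) := T_8 (nat_lit 227) (nat_lit 210) (nat_lit 5) (nat_lit 7) (nat_lit 9) L52007 (by decide +kernel)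
theorem L52009 : W_8 (nat_lit 6) (nat_lit 0x180004a002e0010001200080000000000000000000000000000000) (nat_lit 0x0) (nat_lit 0x14001e00050003000000001000000000000000000000000000000000000000) := T_8 (nat_lit 192) (nat_lit 193) (nat_lit 3) (nat_lit 4) (nat_lit 11) L52008 (by decide +kernel)
theorem L52010 : W_8 (nat_lit 7) (nat_lit 0x80004a002e0010001200080000000000000000000000000000000) (nat_lit 0x0) (nat_lit 0x14003e00150003000000001000000000000000000000000000000000000000) := T_8 (nat_lit 212) (nat_lit 229) (nat_lit 7) (nat_lit 7) (nat_lit 9) L52009 (by decide +kernel)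
theorem L52011 : W_8 (nat_lit 8) (nat_lit 0x4a002e0010001200080000000000000000000000000000000) (nat_lit 0x0) (nat_lit 0x14003e001d0003000000021000000000000000000000000000000000000000) := T_8 (nat_lit 211) (nat_lit 161) (nat_lit 6) (nat_lit 7) (nat_lit 12) L52010 (by decide +kernel)
theorem L52012 : W_8 (nat_lit 2) (nat_lit 0x2800080006b002e0010001200080000000000000000000000000000000) (nat_lit 0x0) (nat_lit 0x50001000000000000000000000000000000000000000000000000000000000) := D_8 (nat_lit 228) (nat_lit 246) (nat_lit 244) (nat_lit 7) (nat_lit 7) (nat_lit 10) (nat_lit 5) (nat_lit 7) (nat_lit 10) (by decide +kernel)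
theorem L52013 : W_8 (nat_lit 3) (nat_lit 0x2000080006b002e0010001200080000000000000000000000000000000) (nat_lit 0x0) (nat_lit 0x50001800040000000000000000000000000000000000000000000000000000) := T_8 (nat_lit 227) (nat_lit 210) (nat_lit 5) (nat_lit 7) (nat_lit 9) L52012 (by decide +kernel)
theorem L52014 : W_8 (nat_lit 4) (nat_lit 0x80006b002e0010001200080000000000000000000000000000000) (nat_lit 0x0) (nat_lit 0x50003800140000000000000000000000000000000000000000000000000000) := T_8 (nat_lit 229) (nat_lit 212) (nat_lit 7) (nat_lit 7) (nat_lit 9) L52013 (by decide +kernel)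
theorem L52015 : W_8 (nat_lit 5) (nat_lit 0x6b002e0010001200080000000000000000000000000000000) (nat_lit 0x0) (nat_lit 0x500038001c0000000000020000000000000000000000000000000000000000) := T_8 (nat_lit 211) (nat_lit 161) (nat_lit 6) (nat_lit 7) (nat_lit 12) L52014 (by decide +kernel)
theorem L52016 : W_8 (nat_lit 6) (nat_lit 0x6a002e0010001200080000000000000000000000000000000) (nat_lit 0x0) (nat_lit 0x500038001c0000500000020000000000000000000000000000000000000000) := T_8 (nat_lit 188) (nat_lit 190) (nat_lit 2) (nat_lit 1) (nat_lit 11) L52015 (by decide +kernel)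
theorem L52017 : W_8 (nat_lit 7) (nat_lit 0x4a002e0010001200080000000000000000000000000000000) (nat_lit 0x0) (nat_lit 0x500038001c0003500000020000000000000000000000000000000000000000) := T_8 (nat_lit 193) (nat_lit 192) (nat_lit 0) (nat_lit 7) (nat_lit 11) L52016 (by decide +kernel)
theorem L52018 : W_8 (nat_lit 5) (nat_lit 0x180005a002e0010001200080000000000000000000000000000000) (nat_lit 0x0) (nat_lit 0x100008000e000500000001000080000000000000000000000000000000000) := T_8 (nat_lit 190) (nat_lit 188) (nat_lit 2) (nat_lit 1) (nat_lit 11) L51956 (by decide +kernel)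
theorem L52019 : W_8 (nat_lit 6) (nat_lit 0x180004a002e0010001200080000000000000000000000000000000) (nat_lit 0x0) (nat_lit 0x100008000e003500000001000080000000000000000000000000000000000) := T_8 (nat_lit 192) (nat_lit 193) (nat_lit 3) (nat_lit 4) (nat_lit 11) L52018 (by decide +kernel)
theorem L52020 : W_8 (nat_lit 7) (nat_lit 0x80004a002e0010001200080000000000000000000000000000000) (nat_lit 0x0) (nat_lit 0x100208010e003500000001000080000000000000000000000000000000000) := T_8 (nat_lit 212) (nat_lit 229) (nat_lit 7) (nat_lit 7) (nat_lit 9) L52019 (by decide +kernel)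
theorem L52021 : W_8 (nat_lit 8) (nat_lit 0x4a002e0010001200080000000000000000000000000000000) (nat_lit 0x0) (nat_lit 0x100208018e003500000021000080000000000000000000000000000000000) := T_8 (nat_lit 211) (nat_lit 161) (nat_lit 6) (nat_lit 7) (nat_lit 12) L52020 (by decide +kernel)
theorem L52022 : W_8 (nat_lit 2) (nat_lit 0x2001a00190004b002e0010001200080000000000000000000000000000000) (nat_lit 0x0) (nat_lit 0x40004000000000001000000000000000000000000000000000000000000000000) := D_8 (nat_lit 242) (nat_lit 192) (nat_lit 258) (nat_lit 6) (nat_lit 4) (nat_lit 14) (nat_lit 5) (nat_lit 4) (nat_lit 11) (by decide +kernel)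
theorem L52023 : W_8 (nat_lit 3) (nat_lit 0x1a00190004b002e0010001200080000000000000000000000000000000) (nat_lit 0x0) (nat_lit 0x40006000100000001000000000000000000000000000000000000000000000000) := T_8 (nat_lit 241) (nat_lit 224) (nat_lit 5) (nat_lit 4) (nat_lit 10) L52022 (by decide +kernel)
theorem L52024 : W_8 (nat_lit 4) (nat_lit 0x1a00180004b002e0010001200080000000000000000000000000000000) (nat_lit 0x0) (nat_lit 0x40006000100010001000000001000000000000000000000000000000000000000) := T_8 (nat_lit 208) (nat_lit 156) (nat_lit 4) (nat_lit 4) (nat_lit 13) L52023 (by decide +kernel)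
theorem L52025 : W_8 (nat_lit 5) (nat_lit 0x1800180004b002e0010001200080000000000000000000000000000000) (nat_lit 0x0) (nat_lit 0x40006000700010001000000001000000000000000000000000000000000000000) := T_8 (nat_lit 225) (nat_lit 226) (nat_lit 2) (nat_lit 4) (nat_lit 13) L52024 (by decide +kernel)
theorem L52026 : W_8 (nat_lit 6) (nat_lit 0x800180004b002e0010001200080000000000000000000000000000000) (nat_lit 0x0) (nat_lit 0x40016001700010001000000001000000000000000000000000000000000000000) := T_8 (nat_lit 228) (nat_lit 244) (nat_lit 5) (nat_lit 7) (nat_lit 10) L52025 (by decide +kernel)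
theorem L52027 : W_8 (nat_lit 7) (nat_lit 0x180004b002e0010001200080000000000000000000000000000000) (nat_lit 0x0) (nat_lit 0x40016001f00050001000000001000000000000000000000000000000000000000) := T_8 (nat_lit 227) (nat_lit 210) (nat_lit 5) (nat_lit 7) (nat_lit 9) L52026 (by decide +kernel)
theorem L52028 : W_8 (nat_lit 8) (nat_lit 0x80004b002e0010001200080000000000000000000000000000000) (nat_lit 0x0) (nat_lit 0x40016003f00150001000000001000000000000000000000000000000000000000) := T_8 (nat_lit 212) (nat_lit 229) (nat_lit 7) (nat_lit 7) (nat_lit 9) L52027 (by decide +kernel)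
theorem L52029 : W_8 (nat_lit 9) (nat_lit 0x4b002e0010001200080000000000000000000000000000000) (nat_lit 0x0) (nat_lit 0x40016003f001d0001000000021000000000000000000000000000000000000000) := T_8 (nat_lit 211) (nat_lit 161) (nat_lit 6) (nat_lit 7) (nat_lit 12) L52028 (by decide +kernel)
theorem L52030 : W_8 (nat_lit 10) (nat_lit 0x4a002e0010001200080000000000000000000000000000000) (nat_lit 0x0) (nat_lit 0x40016003f001d0001500000021000000000000000000000000000000000000000) := T_8 (nat_lit 188) (nat_lit 190) (nat_lit 2) (nat_lit 1) (nat_lit 11) L52029 (by decide +kernel)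
theorem L52031 : W_8 (nat_lit 2) (nat_lit 0x1a00180004e002e0010001200080000000000000000000000000000000) (nat_lit 0x0) (nat_lit 0x4000000010000000000001000000000000000000000000000000000000000) := D_8 (nat_lit 208) (nat_lit 242) (nat_lit 156) (nat_lit 4) (nat_lit 4) (nat_lit 14) (nat_lit 4) (nat_lit 4) (nat_lit 13) (by decide +kernel)
theorem L52032 : W_8 (nat_lit 3) (nat_lit 0x1800180004e002e0010001200080000000000000000000000000000000) (nat_lit 0x0) (nat_lit 0x4000600010000000000001000000000000000000000000000000000000000) := T_8 (nat_lit 225) (nat_lit 226) (nat_lit 2) (nat_lit 4) (nat_lit 13) L52031 (by decide +kernel)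
theorem L52033 : W_8 (nat_lit 4) (nat_lit 0x800180004e002e0010001200080000000000000000000000000000000) (nat_lit 0x0) (nat_lit 0x14001600010000000000001000000000000000000000000000000000000000) := T_8 (nat_lit 228) (nat_lit 244) (nat_lit 5) (nat_lit 7) (nat_lit 10) L52032 (by decide +kernel)
theorem L52034 : W_8 (nat_lit 5) (nat_lit 0x800180004a002e0010001200080000000000000000000000000000000) (nat_lit 0x0) (nat_lit 0x14001600010000500000001000000000000000000000000000000000000000) := T_8 (nat_lit 190) (nat_lit 188) (nat_lit 2) (nat_lit 1) (nat_lit 11) L52033 (by decide +kernel)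
theorem L52035 : W_8 (nat_lit 6) (nat_lit 0x180004a002e0010001200080000000000000000000000000000000) (nat_lit 0x0) (nat_lit 0x14001e00050000500000001000000000000000000000000000000000000000) := T_8 (nat_lit 227) (nat_lit 210) (nat_lit 5) (nat_lit 7) (nat_lit 9) L52034 (by decide +kernel)
theorem L52036 : W_8 (nat_lit 7) (nat_lit 0x80004a002e0010001200080000000000000000000000000000000) (nat_lit 0x0) (nat_lit 0x14003e00150000500000001000000000000000000000000000000000000000) := T_8 (nat_lit 212) (nat_lit 229) (nat_lit 7) (nat_lit 7) (nat_lit 9) L52035 (by decide +kernel)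
theorem L52037 : W_8 (nat_lit 8) (nat_lit 0x4a002e0010001200080000000000000000000000000000000) (nat_lit 0x0) (nat_lit 0x14003e001d0000500000021000000000000000000000000000000000000000) := T_8 (nat_lit 211) (nat_lit 161) (nat_lit 6) (nat_lit 7) (nat_lit 12) L52036 (by decide +kernel)
theorem L52038 : W_8 (nat_lit 2) (nat_lit 0x4005e002e0011001200080000000000000000000000000000000) (nat_lit 0x0) (nat_lit 0x1000080008000000000000000000000000000000000000000000000000000) := D_8 (nat_lit 223) (nat_lit 240) (nat_lit 207) (nat_lit 6) (nat_lit 2) (nat_lit 14) (nat_lit 5) (nat_lit 3) (nat_lit 9) (by decide +kernel)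
theorem L52039 : W_8 (nat_lit 3) (nat_lit 0x4005e002e0010001200080000000000000000000000000000000) (nat_lit 0x0) (nat_lit 0x1000080008000000000001000080000000000000000000000000000000000) := T_8 (nat_lit 156) (nat_lit 139) (nat_lit 5) (nat_lit 3) (nat_lit 8) L52038 (by decide +kernel)
theorem L52040 : W_8 (nat_lit 4) (nat_lit 0x5e002e0010001200080000000000000000000000000000000) (nat_lit 0x0) (nat_lit 0x100008000e000000000001000080000000000000000000000000000000000) := T_8 (nat_lit 206) (nat_lit 205) (nat_lit 1) (nat_lit 5) (nat_lit 11) L52039 (by decide +kernel)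
theorem L52041 : W_8 (nat_lit 5) (nat_lit 0x4e002e0010001200080000000000000000000000000000000) (nat_lit 0x0) (nat_lit 0x100008000e003000000001000080000000000000000000000000000000000) := T_8 (nat_lit 192) (nat_lit 193) (nat_lit 0) (nat_lit 7) (nat_lit 11) L52040 (by decide +kernel)
theorem L52042 : W_8 (nat_lit 6) (nat_lit 0x4a002e0010001200080000000000000000000000000000000) (nat_lit 0x0) (nat_lit 0x100008000e003500000001000080000000000000000000000000000000000) := T_8 (nat_lit 190) (nat_lit 188) (nat_lit 2) (nat_lit 1) (nat_lit 11) L52041 (by decide +kernel)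
theorem L52043 : W_8 (nat_lit 11) (nat_lit 0xa002e0010001200080000000000000000000000000000000) (nat_lit 0x0) (nat_lit 0x40057003f801de007500000021000080000000000000000000000000000000000) := Q_8 (nat_lit 194) (C_8 L52011 (C_8 L52017 (C_8 L52021 (C_8 L52030 (C_8 L52037 (C_8 L52042 N_8)))))) (by decide +kernel)
theorem L52044 : W_8 (nat_lit 12) (nat_lit 0xa002c0010001200080000000000000000000000000000000) (nat_lit 0x0) (nat_lit 0x40057003fc01df007500038021e000c0004000000000000000000000000000000) := Q_8 (nat_lit 173) (C_8 L52003 (C_8 L52001 (C_8 L52043 (C_8 L52002 N_8)))) (by decide +kernel)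
theorem L52045 : W_8 (nat_lit 2) (nat_lit 0x6000a002d0011801240080000000000000000000000000000000) (nat_lit 0x0) (nat_lit 0x400020001000000000000000000000000000000) := D_8 (nat_lit 137) (nat_lit 154) (nat_lit 120) (nat_lit 4) (nat_lit 2) (nat_lit 12) (nat_lit 4) (nat_lit 2) (nat_lit 11) (by decide +kernel)
theorem L52046 : W_8 (nat_lit 3) (nat_lit 0x6000a002d0011801200080000000000000000000000000000000) (nat_lit 0x0) (nat_lit 0x100000000400060001000000000000000000000000000000) := T_8 (nat_lit 138) (nat_lit 188) (nat_lit 5) (nat_lit 2) (nat_lit 8) L52045 (by decide +kernel)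
theorem L52047 : W_8 (nat_lit 4) (nat_lit 0x6000a002d0010801200080000000000000000000000000000000) (nat_lit 0x0) (nat_lit 0x1000000014000e0001000000000000000000000000000000) := T_8 (nat_lit 156) (nat_lit 139) (nat_lit 6) (nat_lit 2) (nat_lit 12) L52046 (by decide +kernel)
theorem L52048 : W_8 (nat_lit 5) (nat_lit 0x4000a002d0010801200080000000000000000000000000000000) (nat_lit 0x0) (nat_lit 0x400020001000000014000e0001000000000000000000000000000000) := T_8 (nat_lit 205) (nat_lit 222) (nat_lit 5) (nat_lit 2) (nat_lit 9) L52047 (by decide +kernel)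
theorem L52049 : W_8 (nat_lit 2) (nat_lit 0x4000c000a002d0011c01200080000000000000000000000000000000) (nat_lit 0x0) (nat_lit 0x800080000000000008000000000000000000000000000000000000000000) := D_8 (nat_lit 223) (nat_lit 171) (nat_lit 239) (nat_lit 4) (nat_lit 2) (nat_lit 13) (nat_lit 5) (nat_lit 2) (nat_lit 10) (by decide +kernel)
theorem L52050 : W_8 (nat_lit 3) (nat_lit 0x4000c000a002d0011801200080000000000000000000000000000000) (nat_lit 0x0) (nat_lit 0x800080000000000008000400020000000000000000000000000000000000) := T_8 (nat_lit 154) (nat_lit 137) (nat_lit 4) (nat_lit 2) (nat_lit 12) L52049 (by decide +kernel)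
theorem L52051 : W_8 (nat_lit 4) (nat_lit 0xc000a002d0011801200080000000000000000000000000000000) (nat_lit 0x0) (nat_lit 0x8000c0002000000008000400020000000000000000000000000000000000) := T_8 (nat_lit 222) (nat_lit 205) (nat_lit 5) (nat_lit 2) (nat_lit 9) L52050 (by decide +kernel)
theorem L52052 : W_8 (nat_lit 5) (nat_lit 0xc000a002d0010801200080000000000000000000000000000000) (nat_lit 0x0) (nat_lit 0x8000c00020000000080014000a0000000000000000000000000000000000) := T_8 (nat_lit 156) (nat_lit 139) (nat_lit 6) (nat_lit 2) (nat_lit 12) L52051 (by decide +kernel)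
theorem L52053 : W_8 (nat_lit 6) (nat_lit 0x4000a002d0010801200080000000000000000000000000000000) (nat_lit 0x0) (nat_lit 0x8001c000a0000000080014000a0000000000000000000000000000000000) := T_8 (nat_lit 207) (nat_lit 224) (nat_lit 7) (nat_lit 2) (nat_lit 9) L52052 (by decide +kernel)
theorem L52054 : W_8 (nat_lit 2) (nat_lit 0x80004000a002d0010c01200080000000000000000000000000000000) (nat_lit 0x0) (nat_lit 0x800040002000000000000000000000000000000000000000000000000000) := D_8 (nat_lit 222) (nat_lit 239) (nat_lit 205) (nat_lit 5) (nat_lit 2) (nat_lit 10) (nat_lit 5) (nat_lit 2) (nat_lit 9) (by decide +kernel)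
theorem L52055 : W_8 (nat_lit 3) (nat_lit 0x4000a002d0010c01200080000000000000000000000000000000) (nat_lit 0x0) (nat_lit 0x8000c0002000000008000000000000000000000000000000000000000000) := T_8 (nat_lit 223) (nat_lit 171) (nat_lit 4) (nat_lit 2) (nat_lit 13) L52054 (by decide +kernel)
theorem L52056 : W_8 (nat_lit 4) (nat_lit 0x4000a002d0010801200080000000000000000000000000000000) (nat_lit 0x0) (nat_lit 0x8000c0002000000008000400020000000000000000000000000000000000) := T_8 (nat_lit 154) (nat_lit 137) (nat_lit 4) (nat_lit 2) (nat_lit 12) L52055 (by decide +kernel)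
theorem L52057 : W_8 (nat_lit 2) (nat_lit 0xe000b002d0011801200080000000000000000000000000000000) (nat_lit 0x0) (nat_lit 0x30000080000000000000000000000000000000000000000000000) := D_8 (nat_lit 208) (nat_lit 209) (nat_lit 187) (nat_lit 0) (nat_lit 5) (nat_lit 12) (nat_lit 0) (nat_lit 4) (nat_lit 12) (by decide +kernel)
theorem L52058 : W_8 (nat_lit 3) (nat_lit 0xe000a002d0011801200080000000000000000000000000000000) (nat_lit 0x0) (nat_lit 0x30000180000000000040000000000000000000000000000000000) := T_8 (nat_lit 188) (nat_lit 138) (nat_lit 5) (nat_lit 2) (nat_lit 8) L52057 (by decide +kernel)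
theorem L52059 : W_8 (nat_lit 4) (nat_lit 0xc000a002d0011801200080000000000000000000000000000000) (nat_lit 0x0) (nat_lit 0x40032000180000000000040000000000000000000000000000000000) := T_8 (nat_lit 205) (nat_lit 222) (nat_lit 5) (nat_lit 2) (nat_lit 9) L52058 (by decide +kernel)
theorem L52060 : W_8 (nat_lit 5) (nat_lit 0xc000a002d0010801200080000000000000000000000000000000) (nat_lit 0x0) (nat_lit 0x400320001800000010000c0000000000000000000000000000000000) := T_8 (nat_lit 156) (nat_lit 139) (nat_lit 6) (nat_lit 2) (nat_lit 12) L52059 (by decide +kernel)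
theorem L52061 : W_8 (nat_lit 6) (nat_lit 0x4000a002d0010801200080000000000000000000000000000000) (nat_lit 0x0) (nat_lit 0x14003a0001800000010000c0000000000000000000000000000000000) := T_8 (nat_lit 207) (nat_lit 224) (nat_lit 7) (nat_lit 2) (nat_lit 9) L52060 (by decide +kernel)
theorem L52062 : W_8 (nat_lit 2) (nat_lit 0x80004000a002d0010c01200080000000000000000000000000000000) (nat_lit 0x0) (nat_lit 0x2000100008000000000000000000000000000000000000000000000000000) := D_8 (nat_lit 224) (nat_lit 207) (nat_lit 241) (nat_lit 7) (nat_lit 2) (nat_lit 9) (nat_lit 7) (nat_lit 2) (nat_lit 10) (by decide +kernel)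
theorem L52063 : W_8 (nat_lit 3) (nat_lit 0x4000a002d0010c01200080000000000000000000000000000000) (nat_lit 0x0) (nat_lit 0x2000180008000000008000000000000000000000000000000000000000000) := T_8 (nat_lit 223) (nat_lit 171) (nat_lit 4) (nat_lit 2) (nat_lit 13) L52062 (by decide +kernel)
theorem L52064 : W_8 (nat_lit 4) (nat_lit 0x4000a002d0010801200080000000000000000000000000000000) (nat_lit 0x0) (nat_lit 0x2000180008000000008000400020000000000000000000000000000000000) := T_8 (nat_lit 154) (nat_lit 137) (nat_lit 4) (nat_lit 2) (nat_lit 12) L52063 (by decide +kernel)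
theorem L52065 : W_8 (nat_lit 7) (nat_lit 0xa002d0010801200080000000000000000000000000000000) (nat_lit 0x0) (nat_lit 0x28001c003e0001800080014000e0001000000000000000000000000000000) := Q_8 (nat_lit 206) (C_8 L52048 (C_8 L52053 (C_8 L52056 (C_8 L52061 (C_8 L52064 N_8))))) (by decide +kernel)
theorem L52066 : W_8 (nat_lit 2) (nat_lit 0xb002d0010801240082000000000000000000000000000000) (nat_lit 0x0) (nat_lit 0x80004000200000000000000000000000000) := D_8 (nat_lit 122) (nat_lit 139) (nat_lit 105) (nat_lit 6) (nat_lit 2) (nat_lit 11) (nat_lit 6) (nat_lit 2) (nat_lit 10) (by decide +kernel)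
theorem L52067 : W_8 (nat_lit 3) (nat_lit 0xb002d0010801240080000000000000000000000000000000) (nat_lit 0x0) (nat_lit 0x8000000080006000200000000000000000000000000) := T_8 (nat_lit 121) (nat_lit 171) (nat_lit 5) (nat_lit 2) (nat_lit 7) L52066 (by decide +kernel)
theorem L52068 : W_8 (nat_lit 4) (nat_lit 0xb002d0010801200080000000000000000000000000000000) (nat_lit 0x0) (nat_lit 0x20000000080000000c0006000200000000000000000000000000) := T_8 (nat_lit 138) (nat_lit 205) (nat_lit 5) (nat_lit 2) (nat_lit 8) L52067 (by decide +kernel)
theorem L52069 : W_8 (nat_lit 5) (nat_lit 0xa002d0010801200080000000000000000000000000000000) (nat_lit 0x0) (nat_lit 0x20005000080000000c0006000200000000000000000000000000) := T_8 (nat_lit 188) (nat_lit 190) (nat_lit 2) (nat_lit 1) (nat_lit 11) L52068 (by decide +kernel)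
theorem L52070 : W_8 (nat_lit 2) (nat_lit 0x1c000b002d0010801200080000000000000000000000000000000) (nat_lit 0x0) (nat_lit 0x40002000080000000000000000000000000000000000000000000000) := D_8 (nat_lit 205) (nat_lit 222) (nat_lit 187) (nat_lit 5) (nat_lit 2) (nat_lit 9) (nat_lit 0) (nat_lit 4) (nat_lit 12) (by decide +kernel)
theorem L52071 : W_8 (nat_lit 3) (nat_lit 0xc000b002d0010801200080000000000000000000000000000000) (nat_lit 0x0) (nat_lit 0x40032000080000000000000000000000000000000000000000000000) := T_8 (nat_lit 208) (nat_lit 209) (nat_lit 0) (nat_lit 5) (nat_lit 12) L52070 (by decide +kernel)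
theorem L52072 : W_8 (nat_lit 4) (nat_lit 0x4000b002d0010801200080000000000000000000000000000000) (nat_lit 0x0) (nat_lit 0x14003a000080000000000000000000000000000000000000000000000) := T_8 (nat_lit 207) (nat_lit 224) (nat_lit 7) (nat_lit 2) (nat_lit 9) L52071 (by decide +kernel)
theorem L52073 : W_8 (nat_lit 5) (nat_lit 0x4000a002d0010801200080000000000000000000000000000000) (nat_lit 0x0) (nat_lit 0x14003a000580000000000000000000000000000000000000000000000) := T_8 (nat_lit 188) (nat_lit 190) (nat_lit 2) (nat_lit 1) (nat_lit 11) L52072 (by decide +kernel)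
theorem L52074 : W_8 (nat_lit 6) (nat_lit 0xa002d0010801200080000000000000000000000000000000) (nat_lit 0x0) (nat_lit 0x28001c003e000580008000400020000000000000000000000000000000000) := Q_8 (nat_lit 206) (C_8 L52064 (C_8 L52056 (C_8 L52073 N_8))) (by decide +kernel)
theorem L52075 : W_8 (nat_lit 2) (nat_lit 0x4000b002d0010801260080000000000000000000000000000000) (nat_lit 0x0) (nat_lit 0x1000080004000000000000000000000000000000) := D_8 (nat_lit 139) (nat_lit 122) (nat_lit 156) (nat_lit 6) (nat_lit 2) (nat_lit 11) (nat_lit 6) (nat_lit 2) (nat_lit 12) (by decide +kernel)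
theorem L52076 : W_8 (nat_lit 3) (nat_lit 0xb002d0010801260080000000000000000000000000000000) (nat_lit 0x0) (nat_lit 0x4000000000001400080004000000000000000000000000000000) := T_8 (nat_lit 206) (nat_lit 154) (nat_lit 4) (nat_lit 2) (nat_lit 12) L52075 (by decide +kernel)
theorem L52077 : W_8 (nat_lit 4) (nat_lit 0xb002d0010801240080000000000000000000000000000000) (nat_lit 0x0) (nat_lit 0x40000000000014000a0005000000000000000000000000000000) := T_8 (nat_lit 137) (nat_lit 120) (nat_lit 4) (nat_lit 2) (nat_lit 11) L52076 (by decide +kernel)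
theorem L52078 : W_8 (nat_lit 5) (nat_lit 0xb002d0010801200080000000000000000000000000000000) (nat_lit 0x0) (nat_lit 0x60000000000014000e0005000000000000000000000000000000) := T_8 (nat_lit 138) (nat_lit 205) (nat_lit 5) (nat_lit 2) (nat_lit 8) L52077 (by decide +kernel)
theorem L52079 : W_8 (nat_lit 6) (nat_lit 0xa002d0010801200080000000000000000000000000000000) (nat_lit 0x0) (nat_lit 0x60005000000014000e0005000000000000000000000000000000) := T_8 (nat_lit 188) (nat_lit 190) (nat_lit 2) (nat_lit 1) (nat_lit 11) L52078 (by decide +kernel)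
theorem L52080 : W_8 (nat_lit 2) (nat_lit 0xe000a002d0010801200080000000000000000000000000000000) (nat_lit 0x0) (nat_lit 0x1000400000000000040000000000000000000000000000000000) := D_8 (nat_lit 190) (nat_lit 204) (nat_lit 138) (nat_lit 2) (nat_lit 0) (nat_lit 12) (nat_lit 7) (nat_lit 2) (nat_lit 8) (by decide +kernel)
theorem L52081 : W_8 (nat_lit 3) (nat_lit 0x6000a002d0010801200080000000000000000000000000000000) (nat_lit 0x0) (nat_lit 0x100009000400000000000040000000000000000000000000000000000) := T_8 (nat_lit 207) (nat_lit 224) (nat_lit 7) (nat_lit 2) (nat_lit 9) L52080 (by decide +kernel)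
theorem L52082 : W_8 (nat_lit 4) (nat_lit 0x4000a002d0010801200080000000000000000000000000000000) (nat_lit 0x0) (nat_lit 0x14000b000400000000000040000000000000000000000000000000000) := T_8 (nat_lit 205) (nat_lit 222) (nat_lit 5) (nat_lit 2) (nat_lit 9) L52081 (by decide +kernel)
theorem L52083 : W_8 (nat_lit 5) (nat_lit 0xa002d0010801200080000000000000000000000000000000) (nat_lit 0x0) (nat_lit 0x28001c000f000400008000400060000000000000000000000000000000000) := Q_8 (nat_lit 206) (C_8 L52064 (C_8 L52056 (C_8 L52082 N_8))) (by decide +kernel)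
theorem L52084 : W_8 (nat_lit 2) (nat_lit 0x4000e002d0010801260080000000000000000000000000000000) (nat_lit 0x0) (nat_lit 0x1000080004000000000000000000000000000000) := D_8 (nat_lit 139) (nat_lit 122) (nat_lit 156) (nat_lit 6) (nat_lit 2) (nat_lit 11) (nat_lit 6) (nat_lit 2) (nat_lit 12) (by decide +kernel)
theorem L52085 : W_8 (nat_lit 3) (nat_lit 0xe002d0010801260080000000000000000000000000000000) (nat_lit 0x0) (nat_lit 0x4000000000001400080004000000000000000000000000000000) := T_8 (nat_lit 206) (nat_lit 154) (nat_lit 4) (nat_lit 2) (nat_lit 12) L52084 (by decide +kernel)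
theorem L52086 : W_8 (nat_lit 4) (nat_lit 0xe002d0010801240080000000000000000000000000000000) (nat_lit 0x0) (nat_lit 0x40000000000014000a0005000000000000000000000000000000) := T_8 (nat_lit 137) (nat_lit 120) (nat_lit 4) (nat_lit 2) (nat_lit 11) L52085 (by decide +kernel)
theorem L52087 : W_8 (nat_lit 5) (nat_lit 0xe002d0010801200080000000000000000000000000000000) (nat_lit 0x0) (nat_lit 0xc0000000000014000e0005000000000000000000000000000000) := T_8 (nat_lit 138) (nat_lit 207) (nat_lit 7) (nat_lit 2) (nat_lit 8) L52086 (by decide +kernel)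
theorem L52088 : W_8 (nat_lit 6) (nat_lit 0xa002d0010801200080000000000000000000000000000000) (nat_lit 0x0) (nat_lit 0xc0005000000014000e0005000000000000000000000000000000) := T_8 (nat_lit 190) (nat_lit 188) (nat_lit 2) (nat_lit 1) (nat_lit 11) L52087 (by decide +kernel)
theorem L52089 : W_8 (nat_lit 8) (nat_lit 0xa002d0010001200080000000000000000000000000000000) (nat_lit 0x0) (nat_lit 0x28001c003f000580008001c000e0007000200000000000000000000000000) := Q_8 (nat_lit 155) (C_8 L52065 (C_8 L52069 (C_8 L52074 (C_8 L52079 (C_8 L52083 (C_8 L52088 N_8)))))) (by decide +kernel)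
theorem L52090 : W_8 (nat_lit 2) (nat_lit 0xa002d0010801200080000000000000000000000000000000) (nat_lit 0x0) (nat_lit 0x100020000400000000000000000000000000000000000000) := D_8 (nat_lit 173) (nat_lit 188) (nat_lit 154) (nat_lit 1) (nat_lit 5) (nat_lit 10) (nat_lit 0) (nat_lit 5) (nat_lit 10) (by decide +kernel)
theorem L52091 : W_8 (nat_lit 4) (nat_lit 0xa002d0010c01200080000000000000000000000000000000) (nat_lit 0x0) (nat_lit 0x200018000c000000008000000020000000000000000000000000000000000) := T_8 (nat_lit 206) (nat_lit 137) (nat_lit 4) (nat_lit 2) (nat_lit 12) L52063 (by decide +kernel)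
theorem L52092 : W_8 (nat_lit 5) (nat_lit 0xa002d0010801200080000000000000000000000000000000) (nat_lit 0x0) (nat_lit 0x200018000c000000028000400020000000000000000000000000000000000) := T_8 (nat_lit 154) (nat_lit 173) (nat_lit 0) (nat_lit 5) (nat_lit 10) L52091 (by decide +kernel)
theorem L52093 : W_8 (nat_lit 5) (nat_lit 0xa002d0010801200080000000000000000000000000000000) (nat_lit 0x0) (nat_lit 0x20001000280000000c0006000200000000000000000000000000) := T_8 (nat_lit 188) (nat_lit 173) (nat_lit 1) (nat_lit 5) (nat_lit 10) L52068 (by decide +kernel)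
theorem L52094 : W_8 (nat_lit 8) (nat_lit 0xa002d0010001200080000000000000000000000000000000) (nat_lit 0x0) (nat_lit 0x28001c003e000180028001c000e0007000200000000000000000000000000) := Q_8 (nat_lit 155) (C_8 L52090 (C_8 L52065 (C_8 L52092 (C_8 L52093 N_8)))) (by decide +kernel)
theorem L52095 : W_8 (nat_lit 4) (nat_lit 0xa002d0010c01200080000000000000000000000000000000) (nat_lit 0x0) (nat_lit 0x8000c0006000000008000000020000000000000000000000000000000000) := T_8 (nat_lit 206) (nat_lit 137) (nat_lit 4) (nat_lit 2) (nat_lit 12) L52055 (by decide +kernel)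
theorem L52096 : W_8 (nat_lit 5) (nat_lit 0xa002d0010801200080000000000000000000000000000000) (nat_lit 0x0) (nat_lit 0x8000c0006000000028000400020000000000000000000000000000000000) := T_8 (nat_lit 154) (nat_lit 173) (nat_lit 0) (nat_lit 5) (nat_lit 10) L52095 (by decide +kernel)
theorem L52097 : W_8 (nat_lit 2) (nat_lit 0xe000a002d0011c01200080000000000000000000000000000000) (nat_lit 0x0) (nat_lit 0x1000400000000000040000000000000000000000000000000000) := D_8 (nat_lit 190) (nat_lit 204) (nat_lit 138) (nat_lit 2) (nat_lit 0) (nat_lit 12) (nat_lit 7) (nat_lit 2) (nat_lit 8) (by decide +kernel)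
theorem L52098 : W_8 (nat_lit 3) (nat_lit 0x6000a002d0011c01200080000000000000000000000000000000) (nat_lit 0x0) (nat_lit 0x100009000400000000000040000000000000000000000000000000000) := T_8 (nat_lit 207) (nat_lit 224) (nat_lit 7) (nat_lit 2) (nat_lit 9) L52097 (by decide +kernel)
theorem L52099 : W_8 (nat_lit 4) (nat_lit 0x6000a002d0010c01200080000000000000000000000000000000) (nat_lit 0x0) (nat_lit 0x1000090004000000010000c0000000000000000000000000000000000) := T_8 (nat_lit 156) (nat_lit 139) (nat_lit 6) (nat_lit 2) (nat_lit 12) L52098 (by decide +kernel)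
theorem L52100 : W_8 (nat_lit 5) (nat_lit 0x4000a002d0010c01200080000000000000000000000000000000) (nat_lit 0x0) (nat_lit 0x14000b0004000000010000c0000000000000000000000000000000000) := T_8 (nat_lit 205) (nat_lit 222) (nat_lit 5) (nat_lit 2) (nat_lit 9) L52099 (by decide +kernel)
theorem L52101 : W_8 (nat_lit 6) (nat_lit 0xa002d0010c01200080000000000000000000000000000000) (nat_lit 0x0) (nat_lit 0x14000f0004000000010000e0000000000000000000000000000000000) := T_8 (nat_lit 206) (nat_lit 137) (nat_lit 4) (nat_lit 2) (nat_lit 12) L52100 (by decide +kernel)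
theorem L52102 : W_8 (nat_lit 7) (nat_lit 0xa002d0010801200080000000000000000000000000000000) (nat_lit 0x0) (nat_lit 0x14000f0004000200014000e0000000000000000000000000000000000) := T_8 (nat_lit 154) (nat_lit 173) (nat_lit 0) (nat_lit 5) (nat_lit 10) L52101 (by decide +kernel)
theorem L52103 : W_8 (nat_lit 2) (nat_lit 0xa002f0010801240080000000000000000000000000000000) (nat_lit 0x0) (nat_lit 0x8000400000000000000002000000000000000000000000000000) := D_8 (nat_lit 190) (nat_lit 207) (nat_lit 121) (nat_lit 7) (nat_lit 2) (nat_lit 8) (nat_lit 7) (nat_lit 2) (nat_lit 7) (by decide +kernel)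
theorem L52104 : W_8 (nat_lit 3) (nat_lit 0xa002d0010801240080000000000000000000000000000000) (nat_lit 0x0) (nat_lit 0x8000400020000400000002000000000000000000000000000000) := T_8 (nat_lit 173) (nat_lit 154) (nat_lit 0) (nat_lit 5) (nat_lit 10) L52103 (by decide +kernel)
theorem L52105 : W_8 (nat_lit 2) (nat_lit 0xa002d00108013c0080000000000000000000000000000000) (nat_lit 0x0) (nat_lit 0x20003000000000000000000000000000000) := D_8 (nat_lit 120) (nat_lit 137) (nat_lit 121) (nat_lit 4) (nat_lit 2) (nat_lit 11) (nat_lit 0) (nat_lit 5) (nat_lit 8) (by decide +kernel)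
theorem L52106 : W_8 (nat_lit 3) (nat_lit 0xa002d00108012c0080000000000000000000000000000000) (nat_lit 0x0) (nat_lit 0x400120003000000000000000000000000000000) := T_8 (nat_lit 140) (nat_lit 154) (nat_lit 1) (nat_lit 5) (nat_lit 8) L52105 (by decide +kernel)
theorem L52107 : W_8 (nat_lit 4) (nat_lit 0xa002d0010801240080000000000000000000000000000000) (nat_lit 0x0) (nat_lit 0x4001a0007000000000000000000000000000000) := T_8 (nat_lit 139) (nat_lit 122) (nat_lit 6) (nat_lit 2) (nat_lit 11) L52106 (by decide +kernel)
theorem L52108 : W_8 (nat_lit 2) (nat_lit 0xe002d00108012c0082000000000000000000000000000000) (nat_lit 0x0) (nat_lit 0x20001000080000000000000000000000000) := D_8 (nat_lit 120) (nat_lit 103) (nat_lit 137) (nat_lit 4) (nat_lit 2) (nat_lit 10) (nat_lit 4) (nat_lit 2) (nat_lit 11) (by decide +kernel)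
theorem L52109 : W_8 (nat_lit 3) (nat_lit 0xe002d00108012c0080000000000000000000000000000000) (nat_lit 0x0) (nat_lit 0x20000000020003000080000000000000000000000000) := T_8 (nat_lit 121) (nat_lit 173) (nat_lit 7) (nat_lit 2) (nat_lit 7) L52108 (by decide +kernel)
theorem L52110 : W_8 (nat_lit 4) (nat_lit 0xe002d0010801240080000000000000000000000000000000) (nat_lit 0x0) (nat_lit 0x200000000a0007000080000000000000000000000000) := T_8 (nat_lit 139) (nat_lit 122) (nat_lit 6) (nat_lit 2) (nat_lit 11) L52109 (by decide +kernel)
theorem L52111 : W_8 (nat_lit 5) (nat_lit 0xa002d0010801240080000000000000000000000000000000) (nat_lit 0x0) (nat_lit 0x80004000200000000a0007000080000000000000000000000000) := T_8 (nat_lit 190) (nat_lit 207) (nat_lit 7) (nat_lit 2) (nat_lit 8) L52110 (by decide +kernel)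
theorem L52112 : W_8 (nat_lit 2) (nat_lit 0xa002d0010c01260080000000000000000000000000000000) (nat_lit 0x0) (nat_lit 0x180004000000000000000000000000000000) := D_8 (nat_lit 139) (nat_lit 122) (nat_lit 140) (nat_lit 6) (nat_lit 2) (nat_lit 11) (nat_lit 1) (nat_lit 5) (nat_lit 8) (by decide +kernel)
theorem L52113 : W_8 (nat_lit 3) (nat_lit 0xa002d0010801260080000000000000000000000000000000) (nat_lit 0x0) (nat_lit 0x20000400180004000000000000000000000000000000) := T_8 (nat_lit 154) (nat_lit 173) (nat_lit 0) (nat_lit 5) (nat_lit 10) L52112 (by decide +kernel)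
theorem L52114 : W_8 (nat_lit 4) (nat_lit 0xa002d0010801240080000000000000000000000000000000) (nat_lit 0x0) (nat_lit 0x200004001a0005000000000000000000000000000000) := T_8 (nat_lit 137) (nat_lit 120) (nat_lit 4) (nat_lit 2) (nat_lit 11) L52113 (by decide +kernel)
theorem L52115 : W_8 (nat_lit 6) (nat_lit 0xa002d0010801200080000000000000000000000000000000) (nat_lit 0x0) (nat_lit 0x80004000200004001e0007000080000000000000000000000000) := Q_8 (nat_lit 138) (C_8 L52104 (C_8 L52107 (C_8 L52111 (C_8 L52114 N_8)))) (by decide +kernel)
theorem L52116 : W_8 (nat_lit 2) (nat_lit 0x4000a002f0010801200080000000000000000000000000000000) (nat_lit 0x0) (nat_lit 0x80000000000000001000080000000000000000000000000000000000) := D_8 (nat_lit 156) (nat_lit 139) (nat_lit 223) (nat_lit 6) (nat_lit 2) (nat_lit 12) (nat_lit 6) (nat_lit 2) (nat_lit 13) (by decide +kernel)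
theorem L52117 : W_8 (nat_lit 3) (nat_lit 0x4000a002d0010801200080000000000000000000000000000000) (nat_lit 0x0) (nat_lit 0x80000000000020001400080000000000000000000000000000000000) := T_8 (nat_lit 173) (nat_lit 154) (nat_lit 0) (nat_lit 5) (nat_lit 10) L52116 (by decide +kernel)
theorem L52118 : W_8 (nat_lit 5) (nat_lit 0xa002d0010801200080000000000000000000000000000000) (nat_lit 0x0) (nat_lit 0x1c000f0004000200014000c0000000000000000000000000000000000) := Q_8 (nat_lit 206) (C_8 L52082 (C_8 L52117 N_8)) (by decide +kernel)
theorem L52119 : W_8 (nat_lit 2) (nat_lit 0x4000a002d00108012e0080000000000000000000000000000000) (nat_lit 0x0) (nat_lit 0x100008000400000000000000000000000000000000000000000000000) := D_8 (nat_lit 207) (nat_lit 224) (nat_lit 190) (nat_lit 7) (nat_lit 2) (nat_lit 9) (nat_lit 7) (nat_lit 2) (nat_lit 8) (by decide +kernel)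
theorem L52120 : W_8 (nat_lit 3) (nat_lit 0xa002d00108012e0080000000000000000000000000000000) (nat_lit 0x0) (nat_lit 0x10000c000400000001000000000000000000000000000000000000000) := T_8 (nat_lit 206) (nat_lit 156) (nat_lit 6) (nat_lit 2) (nat_lit 12) L52119 (by decide +kernel)
theorem L52121 : W_8 (nat_lit 4) (nat_lit 0xa002d0010801260080000000000000000000000000000000) (nat_lit 0x0) (nat_lit 0x10000c000400000001000080004000000000000000000000000000000) := T_8 (nat_lit 139) (nat_lit 122) (nat_lit 6) (nat_lit 2) (nat_lit 11) L52120 (by decide +kernel)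
theorem L52122 : W_8 (nat_lit 5) (nat_lit 0xa002d0010801240080000000000000000000000000000000) (nat_lit 0x0) (nat_lit 0x10000c0004000000010000a0005000000000000000000000000000000) := T_8 (nat_lit 137) (nat_lit 120) (nat_lit 4) (nat_lit 2) (nat_lit 11) L52121 (by decide +kernel)
theorem L52123 : W_8 (nat_lit 2) (nat_lit 0x140004000a002d00108012e0080000000000000000000000000000000) (nat_lit 0x0) (nat_lit 0x2800080000000000000000000000000000000000000000000000000000000) := D_8 (nat_lit 223) (nat_lit 241) (nat_lit 239) (nat_lit 7) (nat_lit 2) (nat_lit 10) (nat_lit 5) (nat_lit 2) (nat_lit 10) (by decide +kernel)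
theorem L52124 : W_8 (nat_lit 3) (nat_lit 0x100004000a002d00108012e0080000000000000000000000000000000) (nat_lit 0x0) (nat_lit 0x28000c0002000000000000000000000000000000000000000000000000000) := T_8 (nat_lit 222) (nat_lit 205) (nat_lit 5) (nat_lit 2) (nat_lit 9) L52123 (by decide +kernel)
theorem L52125 : W_8 (nat_lit 4) (nat_lit 0x4000a002d00108012e0080000000000000000000000000000000) (nat_lit 0x0) (nat_lit 0x28001c000a000000000000000000000000000000000000000000000000000) := T_8 (nat_lit 224) (nat_lit 207) (nat_lit 7) (nat_lit 2) (nat_lit 9) L52124 (by decide +kernel)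
theorem L52126 : W_8 (nat_lit 5) (nat_lit 0xa002d00108012e0080000000000000000000000000000000) (nat_lit 0x0) (nat_lit 0x28001c000e000000000001000000000000000000000000000000000000000) := T_8 (nat_lit 206) (nat_lit 156) (nat_lit 6) (nat_lit 2) (nat_lit 12) L52125 (by decide +kernel)
theorem L52127 : W_8 (nat_lit 6) (nat_lit 0xa002d0010801260080000000000000000000000000000000) (nat_lit 0x0) (nat_lit 0x28001c000e000000000001000080004000000000000000000000000000000) := T_8 (nat_lit 139) (nat_lit 122) (nat_lit 6) (nat_lit 2) (nat_lit 11) L52126 (by decide +kernel)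
theorem L52128 : W_8 (nat_lit 7) (nat_lit 0xa002d0010801240080000000000000000000000000000000) (nat_lit 0x0) (nat_lit 0x28001c000e0000000000010000a0005000000000000000000000000000000) := T_8 (nat_lit 137) (nat_lit 120) (nat_lit 4) (nat_lit 2) (nat_lit 11) L52127 (by decide +kernel)
theorem L52129 : W_8 (nat_lit 2) (nat_lit 0xe002d0010801240081000000000000000000000000000000) (nat_lit 0x0) (nat_lit 0x20000000000002000080000000000000000000000000) := D_8 (nat_lit 121) (nat_lit 173) (nat_lit 103) (nat_lit 7) (nat_lit 2) (nat_lit 7) (nat_lit 4) (nat_lit 2) (nat_lit 10) (by decide +kernel)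
theorem L52130 : W_8 (nat_lit 3) (nat_lit 0xe002d0010801240080000000000000000000000000000000) (nat_lit 0x0) (nat_lit 0x20000000020003000080000000000000000000000000) := T_8 (nat_lit 120) (nat_lit 137) (nat_lit 4) (nat_lit 2) (nat_lit 11) L52129 (by decide +kernel)
theorem L52131 : W_8 (nat_lit 4) (nat_lit 0xa002d0010801240080000000000000000000000000000000) (nat_lit 0x0) (nat_lit 0x8000400020000000020003000080000000000000000000000000) := T_8 (nat_lit 190) (nat_lit 207) (nat_lit 7) (nat_lit 2) (nat_lit 8) L52130 (by decide +kernel)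
theorem L52132 : W_8 (nat_lit 2) (nat_lit 0x6000a002d00108012c0081000000000000000000000000000000) (nat_lit 0x0) (nat_lit 0x100002000080000000000000000000000000) := D_8 (nat_lit 121) (nat_lit 140) (nat_lit 103) (nat_lit 0) (nat_lit 5) (nat_lit 8) (nat_lit 4) (nat_lit 2) (nat_lit 10) (by decide +kernel)
theorem L52133 : W_8 (nat_lit 3) (nat_lit 0x6000a002d00108012c0080000000000000000000000000000000) (nat_lit 0x0) (nat_lit 0x120003000080000000000000000000000000) := T_8 (nat_lit 120) (nat_lit 137) (nat_lit 4) (nat_lit 2) (nat_lit 11) L52132 (by decide +kernel)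
theorem L52134 : W_8 (nat_lit 4) (nat_lit 0x4000a002d00108012c0080000000000000000000000000000000) (nat_lit 0x0) (nat_lit 0x40002000000000000000120003000080000000000000000000000000) := T_8 (nat_lit 205) (nat_lit 222) (nat_lit 5) (nat_lit 2) (nat_lit 9) L52133 (by decide +kernel)
theorem L52135 : W_8 (nat_lit 5) (nat_lit 0xa002d00108012c0080000000000000000000000000000000) (nat_lit 0x0) (nat_lit 0x40006000000000001000120003000080000000000000000000000000) := T_8 (nat_lit 206) (nat_lit 156) (nat_lit 6) (nat_lit 2) (nat_lit 12) L52134 (by decide +kernel)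
theorem L52136 : W_8 (nat_lit 6) (nat_lit 0xa002d0010801240080000000000000000000000000000000) (nat_lit 0x0) (nat_lit 0x400060000000000010001a0007000080000000000000000000000000) := T_8 (nat_lit 139) (nat_lit 122) (nat_lit 6) (nat_lit 2) (nat_lit 11) L52135 (by decide +kernel)
theorem L52137 : W_8 (nat_lit 2) (nat_lit 0x6000e002d00108012c0082000000000000000000000000000000) (nat_lit 0x0) (nat_lit 0x100001000080000000000000000000000000) := D_8 (nat_lit 120) (nat_lit 103) (nat_lit 140) (nat_lit 4) (nat_lit 2) (nat_lit 10) (nat_lit 0) (nat_lit 5) (nat_lit 8) (by decide +kernel)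
theorem L52138 : W_8 (nat_lit 3) (nat_lit 0x6000e002d00108012c0080000000000000000000000000000000) (nat_lit 0x0) (nat_lit 0x20000000100003000080000000000000000000000000) := T_8 (nat_lit 121) (nat_lit 173) (nat_lit 7) (nat_lit 2) (nat_lit 7) L52137 (by decide +kernel)
theorem L52139 : W_8 (nat_lit 4) (nat_lit 0x4000e002d00108012c0080000000000000000000000000000000) (nat_lit 0x0) (nat_lit 0x40002000000020000000100003000080000000000000000000000000) := T_8 (nat_lit 205) (nat_lit 222) (nat_lit 5) (nat_lit 2) (nat_lit 9) L52138 (by decide +kernel)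
theorem L52140 : W_8 (nat_lit 5) (nat_lit 0xe002d00108012c0080000000000000000000000000000000) (nat_lit 0x0) (nat_lit 0x40006000000020001000100003000080000000000000000000000000) := T_8 (nat_lit 206) (nat_lit 156) (nat_lit 6) (nat_lit 2) (nat_lit 12) L52139 (by decide +kernel)
theorem L52141 : W_8 (nat_lit 6) (nat_lit 0xe002d0010801240080000000000000000000000000000000) (nat_lit 0x0) (nat_lit 0x40006000000020001000180007000080000000000000000000000000) := T_8 (nat_lit 139) (nat_lit 122) (nat_lit 6) (nat_lit 2) (nat_lit 11) L52140 (by decide +kernel)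
theorem L52142 : W_8 (nat_lit 7) (nat_lit 0xa002d0010801240080000000000000000000000000000000) (nat_lit 0x0) (nat_lit 0x4000e000400020001000180007000080000000000000000000000000) := T_8 (nat_lit 190) (nat_lit 207) (nat_lit 7) (nat_lit 2) (nat_lit 8) L52141 (by decide +kernel)
theorem L52143 : W_8 (nat_lit 2) (nat_lit 0x40004000e002f00108012c0080000000000000000000000000000000) (nat_lit 0x0) (nat_lit 0x1800080000000000000000000000000000000000000000000000000000000) := D_8 (nat_lit 223) (nat_lit 239) (nat_lit 240) (nat_lit 5) (nat_lit 2) (nat_lit 10) (nat_lit 6) (nat_lit 2) (nat_lit 14) (by decide +kernel)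
theorem L52144 : W_8 (nat_lit 3) (nat_lit 0x40004000e002d00108012c0080000000000000000000000000000000) (nat_lit 0x0) (nat_lit 0x1800080000000000020000000000002000000000000000000000000000000) := T_8 (nat_lit 173) (nat_lit 121) (nat_lit 7) (nat_lit 2) (nat_lit 7) L52143 (by decide +kernel)
theorem L52145 : W_8 (nat_lit 4) (nat_lit 0x4000e002d00108012c0080000000000000000000000000000000) (nat_lit 0x0) (nat_lit 0x18000c0002000000020000000000002000000000000000000000000000000) := T_8 (nat_lit 222) (nat_lit 205) (nat_lit 5) (nat_lit 2) (nat_lit 9) L52144 (by decide +kernel)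
theorem L52146 : W_8 (nat_lit 5) (nat_lit 0xe002d00108012c0080000000000000000000000000000000) (nat_lit 0x0) (nat_lit 0x18000c0006000000020001000000002000000000000000000000000000000) := T_8 (nat_lit 206) (nat_lit 156) (nat_lit 6) (nat_lit 2) (nat_lit 12) L52145 (by decide +kernel)
theorem L52147 : W_8 (nat_lit 6) (nat_lit 0xe002d0010801240080000000000000000000000000000000) (nat_lit 0x0) (nat_lit 0x18000c0006000000020001000080006000000000000000000000000000000) := T_8 (nat_lit 139) (nat_lit 122) (nat_lit 6) (nat_lit 2) (nat_lit 11) L52146 (by decide +kernel)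
theorem L52148 : W_8 (nat_lit 7) (nat_lit 0xa002d0010801240080000000000000000000000000000000) (nat_lit 0x0) (nat_lit 0x18000c000e000400020001000080006000000000000000000000000000000) := T_8 (nat_lit 190) (nat_lit 207) (nat_lit 7) (nat_lit 2) (nat_lit 8) L52147 (by decide +kernel)
theorem L52149 : W_8 (nat_lit 8) (nat_lit 0xa002d0010801200080000000000000000000000000000000) (nat_lit 0x0) (nat_lit 0x38001c000e0004000200010001e0007000080000000000000000000000000) := Q_8 (nat_lit 138) (C_8 L52111 (C_8 L52122 (C_8 L52128 (C_8 L52131 (C_8 L52136 (C_8 L52142 (C_8 L52148 N_8))))))) (by decide +kernel)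
theorem L52150 : W_8 (nat_lit 9) (nat_lit 0xa002d0010001200080000000000000000000000000000000) (nat_lit 0x0) (nat_lit 0x38001c000f000400028001c001e0007000080000000000000000000000000) := Q_8 (nat_lit 155) (C_8 L52092 (C_8 L52083 (C_8 L52096 (C_8 L52102 (C_8 L52115 (C_8 L52118 (C_8 L52149 N_8))))))) (by decide +kernel)
theorem L52151 : W_8 (nat_lit 10) (nat_lit 0xa002c0010001200080000000000000000000000000000000) (nat_lit 0x0) (nat_lit 0x38001c003f000580038001c001e0007000280000000000000000000000000) := Q_8 (nat_lit 172) (C_8 L52089 (C_8 L51835 (C_8 L52094 (C_8 L52150 N_8)))) (by decide +kernel)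
theorem L52152 : W_8 (nat_lit 2) (nat_lit 0x4000200010000a002c0010001200080000000000000000000000000000000) (nat_lit 0x0) (nat_lit 0x100008000400000000000000000000000000000000000000000000000000000000) := D_8 (nat_lit 243) (nat_lit 260) (nat_lit 226) (nat_lit 7) (nat_lit 4) (nat_lit 11) (nat_lit 7) (nat_lit 4) (nat_lit 10) (by decide +kernel)
theorem L52153 : W_8 (nat_lit 3) (nat_lit 0x200010000a002c0010001200080000000000000000000000000000000) (nat_lit 0x0) (nat_lit 0x10000c000400000001000000000000000000000000000000000000000000000000) := T_8 (nat_lit 242) (nat_lit 192) (nat_lit 6) (nat_lit 4) (nat_lit 14) L52152 (by decide +kernel)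
theorem L52154 : W_8 (nat_lit 2) (nat_lit 0x600010000e002c0010001200080000000000000000000000000000000) (nat_lit 0x0) (nat_lit 0x4000000000000000020001000000000000000000000000000000000000000) := D_8 (nat_lit 173) (nat_lit 156) (nat_lit 242) (nat_lit 4) (nat_lit 4) (nat_lit 13) (nat_lit 4) (nat_lit 4) (nat_lit 14) (by decide +kernel)
theorem L52155 : W_8 (nat_lit 3) (nat_lit 0x600010000a002c0010001200080000000000000000000000000000000) (nat_lit 0x0) (nat_lit 0x4000000000000500020001000000000000000000000000000000000000000) := T_8 (nat_lit 190) (nat_lit 188) (nat_lit 2) (nat_lit 1) (nat_lit 11) L52154 (by decide +kernel)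
theorem L52156 : W_8 (nat_lit 4) (nat_lit 0x200010000a002c0010001200080000000000000000000000000000000) (nat_lit 0x0) (nat_lit 0xc000400000000500020001000000000000000000000000000000000000000) := T_8 (nat_lit 226) (nat_lit 243) (nat_lit 7) (nat_lit 4) (nat_lit 10) L52155 (by decide +kernel)
theorem L52157 : W_8 (nat_lit 3) (nat_lit 0x200010000a002c0010001200080000000000000000000000000000000) (nat_lit 0x0) (nat_lit 0x4000000000000500020001000000000000000000000000000000000000000) := T_8 (nat_lit 173) (nat_lit 156) (nat_lit 4) (nat_lit 4) (nat_lit 13) L51905 (by decide +kernel)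
theorem L52158 : W_8 (nat_lit 2) (nat_lit 0x700034000b002e0010001200080000000000000000000000000000000) (nat_lit 0x0) (nat_lit 0xc0002000000000000000000000000000000000000000000000000000) := D_8 (nat_lit 223) (nat_lit 222) (nat_lit 205) (nat_lit 2) (nat_lit 1) (nat_lit 13) (nat_lit 0) (nat_lit 5) (nat_lit 13) (by decide +kernel)
theorem L52159 : W_8 (nat_lit 3) (nat_lit 0x600034000b002e0010001200080000000000000000000000000000000) (nat_lit 0x0) (nat_lit 0x20001c0002000000000000000000000000000000000000000000000000000) := T_8 (nat_lit 224) (nat_lit 241) (nat_lit 5) (nat_lit 4) (nat_lit 10) L52158 (by decide +kernel)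
theorem L52160 : W_8 (nat_lit 4) (nat_lit 0x600034000b002c0010001200080000000000000000000000000000000) (nat_lit 0x0) (nat_lit 0x20001c0002000000020001000000000000000000000000000000000000000) := T_8 (nat_lit 173) (nat_lit 156) (nat_lit 4) (nat_lit 4) (nat_lit 13) L52159 (by decide +kernel)
theorem L52161 : W_8 (nat_lit 5) (nat_lit 0x600030000b002c0010001200080000000000000000000000000000000) (nat_lit 0x0) (nat_lit 0x20001c000e000000020001000000000000000000000000000000000000000) := T_8 (nat_lit 206) (nat_lit 207) (nat_lit 0) (nat_lit 5) (nat_lit 12) L52160 (by decide +kernel)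
theorem L52162 : W_8 (nat_lit 6) (nat_lit 0x600030000a002c0010001200080000000000000000000000000000000) (nat_lit 0x0) (nat_lit 0x20001c000e000500020001000000000000000000000000000000000000000) := T_8 (nat_lit 188) (nat_lit 190) (nat_lit 3) (nat_lit 1) (nat_lit 11) L52161 (by decide +kernel)
theorem L52163 : W_8 (nat_lit 7) (nat_lit 0x200030000a002c0010001200080000000000000000000000000000000) (nat_lit 0x0) (nat_lit 0xa0005c000e000500020001000000000000000000000000000000000000000) := T_8 (nat_lit 226) (nat_lit 243) (nat_lit 7) (nat_lit 4) (nat_lit 10) L52162 (by decide +kernel)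
theorem L52164 : W_8 (nat_lit 2) (nat_lit 0x340070000a002c0010001200080000000000000000000000000000000) (nat_lit 0x0) (nat_lit 0x8000500000000000000000000000000000000000000000000000) := D_8 (nat_lit 190) (nat_lit 188) (nat_lit 207) (nat_lit 3) (nat_lit 1) (nat_lit 11) (nat_lit 0) (nat_lit 6) (nat_lit 12) (by decide +kernel)
theorem L52165 : W_8 (nat_lit 3) (nat_lit 0x340030000a002c0010001200080000000000000000000000000000000) (nat_lit 0x0) (nat_lit 0xc8000500000000000000000000000000000000000000000000000) := T_8 (nat_lit 210) (nat_lit 211) (nat_lit 1) (nat_lit 7) (nat_lit 12) L52164 (by decide +kernel)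
theorem L52166 : W_8 (nat_lit 4) (nat_lit 0x300030000a002c0010001200080000000000000000000000000000000) (nat_lit 0x0) (nat_lit 0xc00c8000500000000000000000000000000000000000000000000000) := T_8 (nat_lit 222) (nat_lit 223) (nat_lit 2) (nat_lit 1) (nat_lit 13) L52165 (by decide +kernel)
theorem L52167 : W_8 (nat_lit 5) (nat_lit 0x200030000a002c0010001200080000000000000000000000000000000) (nat_lit 0x0) (nat_lit 0x20001c00c8000500000000000000000000000000000000000000000000000) := T_8 (nat_lit 224) (nat_lit 241) (nat_lit 5) (nat_lit 4) (nat_lit 10) L52166 (by decide +kernel)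
theorem L52168 : W_8 (nat_lit 2) (nat_lit 0x380030000a002c0010001200080000000000000000000000000000000) (nat_lit 0x0) (nat_lit 0x8000400040000000000000000000000000000000000000000000000000000) := D_8 (nat_lit 226) (nat_lit 243) (nat_lit 210) (nat_lit 7) (nat_lit 4) (nat_lit 10) (nat_lit 2) (nat_lit 2) (nat_lit 13) (by decide +kernel)
theorem L52169 : W_8 (nat_lit 3) (nat_lit 0x300030000a002c0010001200080000000000000000000000000000000) (nat_lit 0x0) (nat_lit 0x80004c0040000000000000000000000000000000000000000000000000000) := T_8 (nat_lit 223) (nat_lit 222) (nat_lit 2) (nat_lit 1) (nat_lit 13) L52168 (by decide +kernel)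
theorem L52170 : W_8 (nat_lit 4) (nat_lit 0x200030000a002c0010001200080000000000000000000000000000000) (nat_lit 0x0) (nat_lit 0xa0005c0040000000000000000000000000000000000000000000000000000) := T_8 (nat_lit 224) (nat_lit 241) (nat_lit 5) (nat_lit 4) (nat_lit 10) L52169 (by decide +kernel)
theorem L52171 : W_8 (nat_lit 2) (nat_lit 0x600030000e002c0010001200080000000000000000000000000000000) (nat_lit 0x0) (nat_lit 0xc0001000000000000000000000000000000000000000000000000) := D_8 (nat_lit 210) (nat_lit 211) (nat_lit 192) (nat_lit 0) (nat_lit 7) (nat_lit 12) (nat_lit 3) (nat_lit 2) (nat_lit 11) (by decide +kernel)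
theorem L52172 : W_8 (nat_lit 3) (nat_lit 0x600030000a002c0010001200080000000000000000000000000000000) (nat_lit 0x0) (nat_lit 0xc0001500000000000000000000000000000000000000000000000) := T_8 (nat_lit 190) (nat_lit 188) (nat_lit 3) (nat_lit 1) (nat_lit 11) L52171 (by decide +kernel)
theorem L52173 : W_8 (nat_lit 4) (nat_lit 0x200030000a002c0010001200080000000000000000000000000000000) (nat_lit 0x0) (nat_lit 0x80004000c0001500000000000000000000000000000000000000000000000) := T_8 (nat_lit 226) (nat_lit 243) (nat_lit 7) (nat_lit 4) (nat_lit 10) L52172 (by decide +kernel)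
theorem L52174 : W_8 (nat_lit 8) (nat_lit 0x200010000a002c0010001200080000000000000000000000000000000) (nat_lit 0x0) (nat_lit 0xa0005c00ee001500020001000000000000000000000000000000000000000) := Q_8 (nat_lit 209) (C_8 L52163 (C_8 L52167 (C_8 L52170 (C_8 L52173 N_8)))) (by decide +kernel)
theorem L52175 : W_8 (nat_lit 9) (nat_lit 0x10000a002c0010001200080000000000000000000000000000000) (nat_lit 0x0) (nat_lit 0x10000e0007c00ee001500020001000000000000000000000000000000000000000) := Q_8 (nat_lit 225) (C_8 L52153 (C_8 L52156 (C_8 L52157 (C_8 L52174 N_8)))) (by decide +kernel)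
theorem L52176 : W_8 (nat_lit 2) (nat_lit 0x10000e00038000b002e0010001200080000000000000000000000000000000) (nat_lit 0x0) (nat_lit 0x22000100000000000000000000000000000000000000000000000000000000) := D_8 (nat_lit 224) (nat_lit 241) (nat_lit 245) (nat_lit 5) (nat_lit 4) (nat_lit 10) (nat_lit 3) (nat_lit 3) (nat_lit 13) (by decide +kernel)
theorem L52177 : W_8 (nat_lit 3) (nat_lit 0xe00038000b002e0010001200080000000000000000000000000000000) (nat_lit 0x0) (nat_lit 0x32000100000001000000000000000000000000000000000000000000000000) := T_8 (nat_lit 244) (nat_lit 192) (nat_lit 7) (nat_lit 5) (nat_lit 10) L52176 (by decide +kernel)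
theorem L52178 : W_8 (nat_lit 4) (nat_lit 0xe00038000b002c0010001200080000000000000000000000000000000) (nat_lit 0x0) (nat_lit 0x32000100000001000020001000000000000000000000000000000000000000) := T_8 (nat_lit 173) (nat_lit 156) (nat_lit 4) (nat_lit 4) (nat_lit 13) L52177 (by decide +kernel)
theorem L52179 : W_8 (nat_lit 5) (nat_lit 0x600038000b002c0010001200080000000000000000000000000000000) (nat_lit 0x0) (nat_lit 0x32001900000001000020001000000000000000000000000000000000000000) := T_8 (nat_lit 227) (nat_lit 228) (nat_lit 0) (nat_lit 7) (nat_lit 13) L52178 (by decide +kernel)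
theorem L52180 : W_8 (nat_lit 6) (nat_lit 0x200038000b002c0010001200080000000000000000000000000000000) (nat_lit 0x0) (nat_lit 0x3a001d00000001000020001000000000000000000000000000000000000000) := T_8 (nat_lit 226) (nat_lit 243) (nat_lit 7) (nat_lit 4) (nat_lit 10) L52179 (by decide +kernel)
theorem L52181 : W_8 (nat_lit 7) (nat_lit 0x200018000b002c0010001200080000000000000000000000000000000) (nat_lit 0x0) (nat_lit 0x3a001d00024001000020001000000000000000000000000000000000000000) := T_8 (nat_lit 209) (nat_lit 206) (nat_lit 0) (nat_lit 5) (nat_lit 12) L52180 (by decide +kernel)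
theorem L52182 : W_8 (nat_lit 8) (nat_lit 0x200018000a002c0010001200080000000000000000000000000000000) (nat_lit 0x0) (nat_lit 0x3a001d00024001500020001000000000000000000000000000000000000000) := T_8 (nat_lit 188) (nat_lit 190) (nat_lit 2) (nat_lit 1) (nat_lit 11) L52181 (by decide +kernel)
theorem L52183 : W_8 (nat_lit 2) (nat_lit 0x700018000b002c0010001200080000000000000000000000000000000) (nat_lit 0x0) (nat_lit 0x800006000000000000000000000000000000000000000000000000000) := D_8 (nat_lit 206) (nat_lit 205) (nat_lit 227) (nat_lit 3) (nat_lit 1) (nat_lit 12) (nat_lit 0) (nat_lit 6) (nat_lit 13) (by decide +kernel)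
theorem L52184 : W_8 (nat_lit 3) (nat_lit 0x300018000b002c0010001200080000000000000000000000000000000) (nat_lit 0x0) (nat_lit 0x8000c00006000000000000000000000000000000000000000000000000000) := T_8 (nat_lit 226) (nat_lit 243) (nat_lit 7) (nat_lit 4) (nat_lit 10) L52183 (by decide +kernel)
theorem L52185 : W_8 (nat_lit 4) (nat_lit 0x300018000a002c0010001200080000000000000000000000000000000) (nat_lit 0x0) (nat_lit 0x8000c00006000500000000000000000000000000000000000000000000000) := T_8 (nat_lit 188) (nat_lit 190) (nat_lit 2) (nat_lit 1) (nat_lit 11) L52184 (by decide +kernel)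
theorem L52186 : W_8 (nat_lit 5) (nat_lit 0x200018000a002c0010001200080000000000000000000000000000000) (nat_lit 0x0) (nat_lit 0xa000d00006000500000000000000000000000000000000000000000000000) := T_8 (nat_lit 224) (nat_lit 241) (nat_lit 5) (nat_lit 4) (nat_lit 10) L52185 (by decide +kernel)
theorem L52187 : W_8 (nat_lit 2) (nat_lit 0x20001c000b002e0010001200080000000000000000000000000000000) (nat_lit 0x0) (nat_lit 0x2001080000000000000000000000000000000000000000000000) := D_8 (nat_lit 205) (nat_lit 187) (nat_lit 192) (nat_lit 0) (nat_lit 4) (nat_lit 12) (nat_lit 2) (nat_lit 1) (nat_lit 12) (by decide +kernel)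
theorem L52188 : W_8 (nat_lit 3) (nat_lit 0x200018000b002e0010001200080000000000000000000000000000000) (nat_lit 0x0) (nat_lit 0x26001080000000000000000000000000000000000000000000000) := T_8 (nat_lit 206) (nat_lit 209) (nat_lit 0) (nat_lit 5) (nat_lit 12) L52187 (by decide +kernel)
theorem L52189 : W_8 (nat_lit 4) (nat_lit 0x200018000a002e0010001200080000000000000000000000000000000) (nat_lit 0x0) (nat_lit 0x26001580000000000000000000000000000000000000000000000) := T_8 (nat_lit 188) (nat_lit 190) (nat_lit 2) (nat_lit 1) (nat_lit 11) L52188 (by decide +kernel)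
theorem L52190 : W_8 (nat_lit 5) (nat_lit 0x200018000a002c0010001200080000000000000000000000000000000) (nat_lit 0x0) (nat_lit 0x26001580020001000000000000000000000000000000000000000) := T_8 (nat_lit 173) (nat_lit 156) (nat_lit 4) (nat_lit 4) (nat_lit 13) L52189 (by decide +kernel)
theorem L52191 : W_8 (nat_lit 2) (nat_lit 0x700018000a002e0010001200080000000000000000000000000000000) (nat_lit 0x0) (nat_lit 0x800006000000000000000000000000000000000000000000000000000) := D_8 (nat_lit 206) (nat_lit 205) (nat_lit 227) (nat_lit 3) (nat_lit 1) (nat_lit 12) (nat_lit 0) (nat_lit 6) (nat_lit 13) (by decide +kernel)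
theorem L52192 : W_8 (nat_lit 3) (nat_lit 0x300018000a002e0010001200080000000000000000000000000000000) (nat_lit 0x0) (nat_lit 0x8000c00006000000000000000000000000000000000000000000000000000) := T_8 (nat_lit 226) (nat_lit 243) (nat_lit 7) (nat_lit 4) (nat_lit 10) L52191 (by decide +kernel)
theorem L52193 : W_8 (nat_lit 4) (nat_lit 0x300018000a002c0010001200080000000000000000000000000000000) (nat_lit 0x0) (nat_lit 0x8000c00006000000020001000000000000000000000000000000000000000) := T_8 (nat_lit 173) (nat_lit 156) (nat_lit 4) (nat_lit 4) (nat_lit 13) L52192 (by decide +kernel)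
theorem L52194 : W_8 (nat_lit 5) (nat_lit 0x200018000a002c0010001200080000000000000000000000000000000) (nat_lit 0x0) (nat_lit 0xa000d00006000000020001000000000000000000000000000000000000000) := T_8 (nat_lit 224) (nat_lit 241) (nat_lit 5) (nat_lit 4) (nat_lit 10) L52193 (by decide +kernel)
theorem L52195 : W_8 (nat_lit 2) (nat_lit 0x1780018000e002e0010001200080000000000000000000000000000000) (nat_lit 0x0) (nat_lit 0x60020000000000000000000000000000000000000000000000000000) := D_8 (nat_lit 222) (nat_lit 209) (nat_lit 221) (nat_lit 2) (nat_lit 1) (nat_lit 13) (nat_lit 2) (nat_lit 0) (nat_lit 13) (by decide +kernel)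
theorem L52196 : W_8 (nat_lit 3) (nat_lit 0x1700018000e002e0010001200080000000000000000000000000000000) (nat_lit 0x0) (nat_lit 0x10000e0020000000000000000000000000000000000000000000000000000) := T_8 (nat_lit 223) (nat_lit 240) (nat_lit 5) (nat_lit 3) (nat_lit 10) L52195 (by decide +kernel)
theorem L52197 : W_8 (nat_lit 4) (nat_lit 0x1700018000e002c0010001200080000000000000000000000000000000) (nat_lit 0x0) (nat_lit 0x10000e0020000000020001000000000000000000000000000000000000000) := T_8 (nat_lit 173) (nat_lit 156) (nat_lit 7) (nat_lit 3) (nat_lit 9) L52196 (by decide +kernel)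
theorem L52198 : W_8 (nat_lit 5) (nat_lit 0x1600018000e002c0010001200080000000000000000000000000000000) (nat_lit 0x0) (nat_lit 0x30001e0020000000020001000000000000000000000000000000000000000) := T_8 (nat_lit 224) (nat_lit 241) (nat_lit 6) (nat_lit 3) (nat_lit 14) L52197 (by decide +kernel)
theorem L52199 : W_8 (nat_lit 6) (nat_lit 0x1600018000a002c0010001200080000000000000000000000000000000) (nat_lit 0x0) (nat_lit 0x30001e0020000500020001000000000000000000000000000000000000000) := T_8 (nat_lit 190) (nat_lit 188) (nat_lit 2) (nat_lit 1) (nat_lit 11) L52198 (by decide +kernel)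
theorem L52200 : W_8 (nat_lit 7) (nat_lit 0x600018000a002c0010001200080000000000000000000000000000000) (nat_lit 0x0) (nat_lit 0x30019e0020000500020001000000000000000000000000000000000000000) := T_8 (nat_lit 228) (nat_lit 227) (nat_lit 0) (nat_lit 7) (nat_lit 13) L52199 (by decide +kernel)
theorem L52201 : W_8 (nat_lit 8) (nat_lit 0x200018000a002c0010001200080000000000000000000000000000000) (nat_lit 0x0) (nat_lit 0xb001de0020000500020001000000000000000000000000000000000000000) := T_8 (nat_lit 226) (nat_lit 243) (nat_lit 7) (nat_lit 4) (nat_lit 10) L52200 (by decide +kernel)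
theorem L52202 : W_8 (nat_lit 9) (nat_lit 0x200010000a002c0010001200080000000000000000000000000000000) (nat_lit 0x0) (nat_lit 0x3b001de002e001580020001000000000000000000000000000000000000000) := Q_8 (nat_lit 207) (C_8 L52182 (C_8 L52186 (C_8 L52190 (C_8 L52194 (C_8 L52201 N_8))))) (by decide +kernel)
theorem L52203 : W_8 (nat_lit 10) (nat_lit 0x10000a002c0010001200080000000000000000000000000000000) (nat_lit 0x0) (nat_lit 0x10003f001fe002e001580020001000000000000000000000000000000000000000) := Q_8 (nat_lit 225) (C_8 L52153 (C_8 L52157 (C_8 L52202 N_8))) (by decide +kernel)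
theorem L52204 : W_8 (nat_lit 2) (nat_lit 0x700014000b002e0010001200080000000000000000000000000000000) (nat_lit 0x0) (nat_lit 0x8000a000000000000000000000000000000000000000000000000000) := D_8 (nat_lit 205) (nat_lit 207) (nat_lit 223) (nat_lit 3) (nat_lit 1) (nat_lit 12) (nat_lit 0) (nat_lit 5) (nat_lit 13) (by decide +kernel)
theorem L52205 : W_8 (nat_lit 3) (nat_lit 0x300014000b002e0010001200080000000000000000000000000000000) (nat_lit 0x0) (nat_lit 0x800048000a000000000000000000000000000000000000000000000000000) := T_8 (nat_lit 226) (nat_lit 243) (nat_lit 7) (nat_lit 4) (nat_lit 10) L52204 (by decide +kernel)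
theorem L52206 : W_8 (nat_lit 4) (nat_lit 0x300014000b002c0010001200080000000000000000000000000000000) (nat_lit 0x0) (nat_lit 0x800048000a000000020001000000000000000000000000000000000000000) := T_8 (nat_lit 173) (nat_lit 156) (nat_lit 4) (nat_lit 4) (nat_lit 13) L52205 (by decide +kernel)
theorem L52207 : W_8 (nat_lit 5) (nat_lit 0x200014000b002c0010001200080000000000000000000000000000000) (nat_lit 0x0) (nat_lit 0xa00058000a000000020001000000000000000000000000000000000000000) := T_8 (nat_lit 224) (nat_lit 241) (nat_lit 5) (nat_lit 4) (nat_lit 10) L52206 (by decide +kernel)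
theorem L52208 : W_8 (nat_lit 6) (nat_lit 0x200014000a002c0010001200080000000000000000000000000000000) (nat_lit 0x0) (nat_lit 0xa00058000a000500020001000000000000000000000000000000000000000) := T_8 (nat_lit 188) (nat_lit 190) (nat_lit 2) (nat_lit 1) (nat_lit 11) L52207 (by decide +kernel)
theorem L52209 : W_8 (nat_lit 2) (nat_lit 0x600016000a002c0010001200080000000000000000000000000000000) (nat_lit 0x0) (nat_lit 0x1500000000000000000000000000000000000000000000000) := D_8 (nat_lit 190) (nat_lit 192) (nat_lit 188) (nat_lit 1) (nat_lit 5) (nat_lit 11) (nat_lit 2) (nat_lit 1) (nat_lit 11) (by decide +kernel)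
theorem L52210 : W_8 (nat_lit 3) (nat_lit 0x600014000a002c0010001200080000000000000000000000000000000) (nat_lit 0x0) (nat_lit 0xa001500000000000000000000000000000000000000000000000) := T_8 (nat_lit 205) (nat_lit 207) (nat_lit 3) (nat_lit 1) (nat_lit 12) L52209 (by decide +kernel)
theorem L52211 : W_8 (nat_lit 4) (nat_lit 0x200014000a002c0010001200080000000000000000000000000000000) (nat_lit 0x0) (nat_lit 0x800040000a001500000000000000000000000000000000000000000000000) := T_8 (nat_lit 226) (nat_lit 243) (nat_lit 7) (nat_lit 4) (nat_lit 10) L52210 (by decide +kernel)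
theorem L52212 : W_8 (nat_lit 2) (nat_lit 0x300014001e002e0010001200080000000000000000000000000000000) (nat_lit 0x0) (nat_lit 0x8006000000000000000000000000000000000000000000000000) := D_8 (nat_lit 193) (nat_lit 207) (nat_lit 194) (nat_lit 1) (nat_lit 6) (nat_lit 11) (nat_lit 0) (nat_lit 7) (nat_lit 11) (by decide +kernel)
theorem L52213 : W_8 (nat_lit 3) (nat_lit 0x300014001e002c0010001200080000000000000000000000000000000) (nat_lit 0x0) (nat_lit 0x8006000020001000000000000000000000000000000000000000) := T_8 (nat_lit 173) (nat_lit 156) (nat_lit 4) (nat_lit 4) (nat_lit 13) L52212 (by decide +kernel)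
theorem L52214 : W_8 (nat_lit 4) (nat_lit 0x300014000e002c0010001200080000000000000000000000000000000) (nat_lit 0x0) (nat_lit 0xa007000020001000000000000000000000000000000000000000) := T_8 (nat_lit 192) (nat_lit 205) (nat_lit 1) (nat_lit 5) (nat_lit 11) L52213 (by decide +kernel)
theorem L52215 : W_8 (nat_lit 5) (nat_lit 0x200014000e002c0010001200080000000000000000000000000000000) (nat_lit 0x0) (nat_lit 0x200010000a007000020001000000000000000000000000000000000000000) := T_8 (nat_lit 224) (nat_lit 241) (nat_lit 5) (nat_lit 4) (nat_lit 10) L52214 (by decide +kernel)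
theorem L52216 : W_8 (nat_lit 6) (nat_lit 0x200014000a002c0010001200080000000000000000000000000000000) (nat_lit 0x0) (nat_lit 0x200010000a007500020001000000000000000000000000000000000000000) := T_8 (nat_lit 190) (nat_lit 188) (nat_lit 2) (nat_lit 1) (nat_lit 11) L52215 (by decide +kernel)
theorem L52217 : W_8 (nat_lit 2) (nat_lit 0x600016000a002e0010001200080000000000000000000000000000000) (nat_lit 0x0) (nat_lit 0x2000180000000000000000000000000000000000000000000000000000000) := D_8 (nat_lit 224) (nat_lit 223) (nat_lit 241) (nat_lit 0) (nat_lit 5) (nat_lit 13) (nat_lit 5) (nat_lit 4) (nat_lit 10) (by decide +kernel)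
theorem L52218 : W_8 (nat_lit 3) (nat_lit 0x600014000a002e0010001200080000000000000000000000000000000) (nat_lit 0x0) (nat_lit 0x200018000a000000000000000000000000000000000000000000000000000) := T_8 (nat_lit 205) (nat_lit 207) (nat_lit 3) (nat_lit 1) (nat_lit 12) L52217 (by decide +kernel)
theorem L52219 : W_8 (nat_lit 4) (nat_lit 0x200014000a002e0010001200080000000000000000000000000000000) (nat_lit 0x0) (nat_lit 0xa00058000a000000000000000000000000000000000000000000000000000) := T_8 (nat_lit 226) (nat_lit 243) (nat_lit 7) (nat_lit 4) (nat_lit 10) L52218 (by decide +kernel)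
theorem L52220 : W_8 (nat_lit 5) (nat_lit 0x200014000a002c0010001200080000000000000000000000000000000) (nat_lit 0x0) (nat_lit 0xa00058000a000000020001000000000000000000000000000000000000000) := T_8 (nat_lit 173) (nat_lit 156) (nat_lit 4) (nat_lit 4) (nat_lit 13) L52219 (by decide +kernel)
theorem L52221 : W_8 (nat_lit 2) (nat_lit 0x780014000b002e0010001200080000000000000000000000000000000) (nat_lit 0x0) (nat_lit 0x1800000000000000008000000000000000000000000000000000000000000) := D_8 (nat_lit 240) (nat_lit 239) (nat_lit 171) (nat_lit 1) (nat_lit 5) (nat_lit 13) (nat_lit 4) (nat_lit 2) (nat_lit 14) (by decide +kernel)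
theorem L52222 : W_8 (nat_lit 3) (nat_lit 0x700014000b002e0010001200080000000000000000000000000000000) (nat_lit 0x0) (nat_lit 0x1800080002000000008000000000000000000000000000000000000000000) := T_8 (nat_lit 223) (nat_lit 205) (nat_lit 0) (nat_lit 5) (nat_lit 13) L52221 (by decide +kernel)
theorem L52223 : W_8 (nat_lit 4) (nat_lit 0x300014000b002e0010001200080000000000000000000000000000000) (nat_lit 0x0) (nat_lit 0x9800480002000000008000000000000000000000000000000000000000000) := T_8 (nat_lit 226) (nat_lit 243) (nat_lit 7) (nat_lit 4) (nat_lit 10) L52222 (by decide +kernel)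
theorem L52224 : W_8 (nat_lit 5) (nat_lit 0x300014000b002c0010001200080000000000000000000000000000000) (nat_lit 0x0) (nat_lit 0x9800480002000000028001000000000000000000000000000000000000000) := T_8 (nat_lit 173) (nat_lit 156) (nat_lit 4) (nat_lit 4) (nat_lit 13) L52223 (by decide +kernel)
theorem L52225 : W_8 (nat_lit 6) (nat_lit 0x300014000a002c0010001200080000000000000000000000000000000) (nat_lit 0x0) (nat_lit 0x9800480002000500028001000000000000000000000000000000000000000) := T_8 (nat_lit 188) (nat_lit 190) (nat_lit 2) (nat_lit 1) (nat_lit 11) L52224 (by decide +kernel)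
theorem L52226 : W_8 (nat_lit 7) (nat_lit 0x200014000a002c0010001200080000000000000000000000000000000) (nat_lit 0x0) (nat_lit 0xb800580002000500028001000000000000000000000000000000000000000) := T_8 (nat_lit 224) (nat_lit 241) (nat_lit 5) (nat_lit 4) (nat_lit 10) L52225 (by decide +kernel)
theorem L52227 : W_8 (nat_lit 2) (nat_lit 0x10000f00054000b002c0010001200080000000000000000000000000000000) (nat_lit 0x0) (nat_lit 0x7000000000000000000000000000000000000000000000000) := D_8 (nat_lit 193) (nat_lit 194) (nat_lit 192) (nat_lit 6) (nat_lit 6) (nat_lit 14) (nat_lit 4) (nat_lit 6) (nat_lit 14) (by decide +kernel)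
theorem L52228 : W_8 (nat_lit 3) (nat_lit 0x10000f00014000b002c0010001200080000000000000000000000000000000) (nat_lit 0x0) (nat_lit 0xc0007000000000000000000000000000000000000000000000000) := T_8 (nat_lit 210) (nat_lit 211) (nat_lit 2) (nat_lit 3) (nat_lit 13) L52227 (by decide +kernel)
theorem L52229 : W_8 (nat_lit 4) (nat_lit 0xf00014000b002c0010001200080000000000000000000000000000000) (nat_lit 0x0) (nat_lit 0x300000000c0007000000000000000000000000000000000000000000000000) := T_8 (nat_lit 244) (nat_lit 245) (nat_lit 3) (nat_lit 3) (nat_lit 13) L52228 (by decide +kernel)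
theorem L52230 : W_8 (nat_lit 5) (nat_lit 0xf00014000a002c0010001200080000000000000000000000000000000) (nat_lit 0x0) (nat_lit 0x300000000c0007500000000000000000000000000000000000000000000000) := T_8 (nat_lit 188) (nat_lit 190) (nat_lit 2) (nat_lit 1) (nat_lit 11) L52229 (by decide +kernel)
theorem L52231 : W_8 (nat_lit 6) (nat_lit 0x700014000a002c0010001200080000000000000000000000000000000) (nat_lit 0x0) (nat_lit 0x300008000c8007500000000000000000000000000000000000000000000000) := T_8 (nat_lit 227) (nat_lit 207) (nat_lit 0) (nat_lit 6) (nat_lit 13) L52230 (by decide +kernel)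
theorem L52232 : W_8 (nat_lit 7) (nat_lit 0x600014000a002c0010001200080000000000000000000000000000000) (nat_lit 0x0) (nat_lit 0x320009000c8007500000000000000000000000000000000000000000000000) := T_8 (nat_lit 224) (nat_lit 241) (nat_lit 5) (nat_lit 4) (nat_lit 10) L52231 (by decide +kernel)
theorem L52233 : W_8 (nat_lit 8) (nat_lit 0x200014000a002c0010001200080000000000000000000000000000000) (nat_lit 0x0) (nat_lit 0x3a000d000c8007500000000000000000000000000000000000000000000000) := T_8 (nat_lit 226) (nat_lit 243) (nat_lit 7) (nat_lit 4) (nat_lit 10) L52232 (by decide +kernel)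
theorem L52234 : W_8 (nat_lit 9) (nat_lit 0x200010000a002c0010001200080000000000000000000000000000000) (nat_lit 0x0) (nat_lit 0x3b800d800ce007500028001000000000000000000000000000000000000000) := Q_8 (nat_lit 206) (C_8 L52208 (C_8 L52211 (C_8 L52216 (C_8 L52220 (C_8 L52226 (C_8 L52233 N_8)))))) (by decide +kernel)
theorem L52235 : W_8 (nat_lit 10) (nat_lit 0x10000a002c0010001200080000000000000000000000000000000) (nat_lit 0x0) (nat_lit 0x10003f800f800ce007500028001000000000000000000000000000000000000000) := Q_8 (nat_lit 225) (C_8 L52153 (C_8 L52157 (C_8 L52234 N_8))) (by decide +kernel)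
theorem L52236 : W_8 (nat_lit 2) (nat_lit 0xc000200010000a002e0010001200080000000000000000000000000000000) (nat_lit 0x0) (nat_lit 0x40002000100000000000000000000000000000000000000000000000000000000) := D_8 (nat_lit 241) (nat_lit 258) (nat_lit 224) (nat_lit 5) (nat_lit 4) (nat_lit 11) (nat_lit 5) (nat_lit 4) (nat_lit 10) (by decide +kernel)
theorem L52237 : W_8 (nat_lit 3) (nat_lit 0x8000200010000a002e0010001200080000000000000000000000000000000) (nat_lit 0x0) (nat_lit 0x140006000100000000000000000000000000000000000000000000000000000000) := T_8 (nat_lit 242) (nat_lit 260) (nat_lit 7) (nat_lit 4) (nat_lit 11) L52236 (by decide +kernel)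
theorem L52238 : W_8 (nat_lit 4) (nat_lit 0x8000200010000a002c0010001200080000000000000000000000000000000) (nat_lit 0x0) (nat_lit 0x140006000100000000000020001000000000000000000000000000000000000000) := T_8 (nat_lit 173) (nat_lit 156) (nat_lit 4) (nat_lit 4) (nat_lit 13) L52237 (by decide +kernel)
theorem L52239 : W_8 (nat_lit 5) (nat_lit 0x200010000a002c0010001200080000000000000000000000000000000) (nat_lit 0x0) (nat_lit 0x14000e000500000000000020001000000000000000000000000000000000000000) := T_8 (nat_lit 243) (nat_lit 226) (nat_lit 7) (nat_lit 4) (nat_lit 10) L52238 (by decide +kernel)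
theorem L52240 : W_8 (nat_lit 2) (nat_lit 0x6000200010000b002c0010001200080000000000000000000000000000000) (nat_lit 0x0) (nat_lit 0x100008000400000000000000000000000000000000000000000000000000000000) := D_8 (nat_lit 243) (nat_lit 226) (nat_lit 260) (nat_lit 7) (nat_lit 4) (nat_lit 10) (nat_lit 7) (nat_lit 4) (nat_lit 11) (by decide +kernel)
theorem L52241 : W_8 (nat_lit 3) (nat_lit 0x2000200010000b002c0010001200080000000000000000000000000000000) (nat_lit 0x0) (nat_lit 0x14000c000400000000000000000000000000000000000000000000000000000000) := T_8 (nat_lit 242) (nat_lit 258) (nat_lit 5) (nat_lit 4) (nat_lit 11) L52240 (by decide +kernel)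
theorem L52242 : W_8 (nat_lit 4) (nat_lit 0x2000200010000a002c0010001200080000000000000000000000000000000) (nat_lit 0x0) (nat_lit 0x14000c000400000000500000000000000000000000000000000000000000000000) := T_8 (nat_lit 188) (nat_lit 190) (nat_lit 2) (nat_lit 1) (nat_lit 11) L52241 (by decide +kernel)
theorem L52243 : W_8 (nat_lit 5) (nat_lit 0x200010000a002c0010001200080000000000000000000000000000000) (nat_lit 0x0) (nat_lit 0x14000e000500000000500000000000000000000000000000000000000000000000) := T_8 (nat_lit 241) (nat_lit 224) (nat_lit 5) (nat_lit 4) (nat_lit 10) L52242 (by decide +kernel)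
theorem L52244 : W_8 (nat_lit 2) (nat_lit 0x600030000e002e0010001200080000000000000000000000000000000) (nat_lit 0x0) (nat_lit 0xc8000000000000000000000000000000000000000000000000000) := D_8 (nat_lit 210) (nat_lit 211) (nat_lit 207) (nat_lit 0) (nat_lit 7) (nat_lit 12) (nat_lit 0) (nat_lit 6) (nat_lit 12) (by decide +kernel)
theorem L52245 : W_8 (nat_lit 3) (nat_lit 0x600030000a002e0010001200080000000000000000000000000000000) (nat_lit 0x0) (nat_lit 0xc8000500000000000000000000000000000000000000000000000) := T_8 (nat_lit 190) (nat_lit 188) (nat_lit 3) (nat_lit 1) (nat_lit 11) L52244 (by decide +kernel)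
theorem L52246 : W_8 (nat_lit 4) (nat_lit 0x600030000a002c0010001200080000000000000000000000000000000) (nat_lit 0x0) (nat_lit 0xc8000500020001000000000000000000000000000000000000000) := T_8 (nat_lit 173) (nat_lit 156) (nat_lit 4) (nat_lit 4) (nat_lit 13) L52245 (by decide +kernel)
theorem L52247 : W_8 (nat_lit 5) (nat_lit 0x200030000a002c0010001200080000000000000000000000000000000) (nat_lit 0x0) (nat_lit 0x80004000c8000500020001000000000000000000000000000000000000000) := T_8 (nat_lit 226) (nat_lit 243) (nat_lit 7) (nat_lit 4) (nat_lit 10) L52246 (by decide +kernel)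
theorem L52248 : W_8 (nat_lit 8) (nat_lit 0x200010000a002c0010001200080000000000000000000000000000000) (nat_lit 0x0) (nat_lit 0xa0005c00ee000500020001000000000000000000000000000000000000000) := Q_8 (nat_lit 209) (C_8 L52170 (C_8 L52247 (C_8 L52163 (C_8 L52167 N_8)))) (by decide +kernel)
theorem L52249 : W_8 (nat_lit 9) (nat_lit 0x10000a002c0010001200080000000000000000000000000000000) (nat_lit 0x0) (nat_lit 0x14000e0007c00ee000500020001000000000000000000000000000000000000000) := Q_8 (nat_lit 225) (C_8 L52239 (C_8 L52157 (C_8 L52243 (C_8 L52248 N_8)))) (by decide +kernel)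
theorem L52250 : W_8 (nat_lit 2) (nat_lit 0x4000200010000a002c0010001200080000000000000000000000000000000) (nat_lit 0x0) (nat_lit 0x40002000100000000000000000000000000000000000000000000000000000000) := D_8 (nat_lit 241) (nat_lit 224) (nat_lit 258) (nat_lit 5) (nat_lit 4) (nat_lit 10) (nat_lit 5) (nat_lit 4) (nat_lit 11) (by decide +kernel)
theorem L52251 : W_8 (nat_lit 3) (nat_lit 0x200010000a002c0010001200080000000000000000000000000000000) (nat_lit 0x0) (nat_lit 0x40006000100000001000000000000000000000000000000000000000000000000) := T_8 (nat_lit 242) (nat_lit 192) (nat_lit 6) (nat_lit 4) (nat_lit 14) L52250 (by decide +kernel)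
theorem L52252 : W_8 (nat_lit 2) (nat_lit 0x200030000e002e0010001200080000000000000000000000000000000) (nat_lit 0x0) (nat_lit 0xc0001000000000000000000000000000000000000000000000000) := D_8 (nat_lit 210) (nat_lit 211) (nat_lit 192) (nat_lit 0) (nat_lit 7) (nat_lit 12) (nat_lit 3) (nat_lit 2) (nat_lit 11) (by decide +kernel)
theorem L52253 : W_8 (nat_lit 3) (nat_lit 0x200030000a002e0010001200080000000000000000000000000000000) (nat_lit 0x0) (nat_lit 0xc0001500000000000000000000000000000000000000000000000) := T_8 (nat_lit 190) (nat_lit 188) (nat_lit 3) (nat_lit 1) (nat_lit 11) L52252 (by decide +kernel)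
theorem L52254 : W_8 (nat_lit 4) (nat_lit 0x200030000a002c0010001200080000000000000000000000000000000) (nat_lit 0x0) (nat_lit 0xc0001500020001000000000000000000000000000000000000000) := T_8 (nat_lit 173) (nat_lit 156) (nat_lit 4) (nat_lit 4) (nat_lit 13) L52253 (by decide +kernel)
theorem L52255 : W_8 (nat_lit 2) (nat_lit 0x20001000380034000b002e0010001200080000000000000000000000000000000) (nat_lit 0x0) (nat_lit 0x200010000800000000000000000000000000000000000000000000000000000000000) := D_8 (nat_lit 256) (nat_lit 273) (nat_lit 239) (nat_lit 5) (nat_lit 2) (nat_lit 12) (nat_lit 5) (nat_lit 2) (nat_lit 11) (by decide +kernel)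
theorem L52256 : W_8 (nat_lit 3) (nat_lit 0x1000380034000b002e0010001200080000000000000000000000000000000) (nat_lit 0x0) (nat_lit 0x200030000800000002000000000000000000000000000000000000000000000000000) := T_8 (nat_lit 257) (nat_lit 205) (nat_lit 4) (nat_lit 2) (nat_lit 15) L52255 (by decide +kernel)
theorem L52257 : W_8 (nat_lit 4) (nat_lit 0x380034000b002e0010001200080000000000000000000000000000000) (nat_lit 0x0) (nat_lit 0x200030001800000002000000008000000000000000000000000000000000000000000) := T_8 (nat_lit 240) (nat_lit 171) (nat_lit 4) (nat_lit 2) (nat_lit 14) L52256 (by decide +kernel)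
theorem L52258 : W_8 (nat_lit 5) (nat_lit 0x300034000b002e0010001200080000000000000000000000000000000) (nat_lit 0x0) (nat_lit 0x2000300018000c0002000000008000000000000000000000000000000000000000000) := T_8 (nat_lit 223) (nat_lit 222) (nat_lit 2) (nat_lit 1) (nat_lit 13) L52257 (by decide +kernel)
theorem L52259 : W_8 (nat_lit 6) (nat_lit 0x200034000b002e0010001200080000000000000000000000000000000) (nat_lit 0x0) (nat_lit 0x2000300038001c0002000000008000000000000000000000000000000000000000000) := T_8 (nat_lit 224) (nat_lit 241) (nat_lit 5) (nat_lit 4) (nat_lit 10) L52258 (by decide +kernel)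
theorem L52260 : W_8 (nat_lit 7) (nat_lit 0x200034000b002c0010001200080000000000000000000000000000000) (nat_lit 0x0) (nat_lit 0x2000300038001c0002000000028001000000000000000000000000000000000000000) := T_8 (nat_lit 173) (nat_lit 156) (nat_lit 4) (nat_lit 4) (nat_lit 13) L52259 (by decide +kernel)
theorem L52261 : W_8 (nat_lit 8) (nat_lit 0x200030000b002c0010001200080000000000000000000000000000000) (nat_lit 0x0) (nat_lit 0x2000300038001c000e000000028001000000000000000000000000000000000000000) := T_8 (nat_lit 206) (nat_lit 207) (nat_lit 0) (nat_lit 5) (nat_lit 12) L52260 (by decide +kernel)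
theorem L52262 : W_8 (nat_lit 9) (nat_lit 0x200030000a002c0010001200080000000000000000000000000000000) (nat_lit 0x0) (nat_lit 0x2000300038001c000e000500028001000000000000000000000000000000000000000) := T_8 (nat_lit 188) (nat_lit 190) (nat_lit 3) (nat_lit 1) (nat_lit 11) L52261 (by decide +kernel)
theorem L52263 : W_8 (nat_lit 2) (nat_lit 0x380030000a002c0010001200080000000000000000000000000000000) (nat_lit 0x0) (nat_lit 0xc8000000000000000000000000000000000000000000000000000) := D_8 (nat_lit 210) (nat_lit 211) (nat_lit 207) (nat_lit 1) (nat_lit 7) (nat_lit 12) (nat_lit 1) (nat_lit 6) (nat_lit 12) (by decide +kernel)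
theorem L52264 : W_8 (nat_lit 3) (nat_lit 0x300030000a002c0010001200080000000000000000000000000000000) (nat_lit 0x0) (nat_lit 0xc00c8000000000000000000000000000000000000000000000000000) := T_8 (nat_lit 223) (nat_lit 222) (nat_lit 2) (nat_lit 1) (nat_lit 13) L52263 (by decide +kernel)
theorem L52265 : W_8 (nat_lit 4) (nat_lit 0x200030000a002c0010001200080000000000000000000000000000000) (nat_lit 0x0) (nat_lit 0x20001c00c8000000000000000000000000000000000000000000000000000) := T_8 (nat_lit 224) (nat_lit 241) (nat_lit 5) (nat_lit 4) (nat_lit 10) L52264 (by decide +kernel)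
theorem L52266 : W_8 (nat_lit 10) (nat_lit 0x200010000a002c0010001200080000000000000000000000000000000) (nat_lit 0x0) (nat_lit 0x2000300038001c00ee001500028001000000000000000000000000000000000000000) := Q_8 (nat_lit 209) (C_8 L52167 (C_8 L52254 (C_8 L52262 (C_8 L52265 N_8)))) (by decide +kernel)
theorem L52267 : W_8 (nat_lit 11) (nat_lit 0x10000a002c0010001200080000000000000000000000000000000) (nat_lit 0x0) (nat_lit 0x2000700078003c00ee001500028001000000000000000000000000000000000000000) := Q_8 (nat_lit 225) (C_8 L52251 (C_8 L52157 (C_8 L52266 N_8))) (by decide +kernel)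
theorem L52268 : W_8 (nat_lit 2) (nat_lit 0xf40038000b002c0010001200080000000000000000000000000000000) (nat_lit 0x0) (nat_lit 0x30000000000001000000000000000000000000000000000000000000000000) := D_8 (nat_lit 244) (nat_lit 192) (nat_lit 245) (nat_lit 7) (nat_lit 5) (nat_lit 10) (nat_lit 3) (nat_lit 3) (nat_lit 13) (by decide +kernel)
theorem L52269 : W_8 (nat_lit 3) (nat_lit 0x740038000b002c0010001200080000000000000000000000000000000) (nat_lit 0x0) (nat_lit 0x30001800000001000000000000000000000000000000000000000000000000) := T_8 (nat_lit 227) (nat_lit 228) (nat_lit 0) (nat_lit 7) (nat_lit 13) L52268 (by decide +kernel)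
theorem L52270 : W_8 (nat_lit 4) (nat_lit 0x740030000b002c0010001200080000000000000000000000000000000) (nat_lit 0x0) (nat_lit 0x3000180000c001000000000000000000000000000000000000000000000000) := T_8 (nat_lit 207) (nat_lit 206) (nat_lit 0) (nat_lit 5) (nat_lit 12) L52269 (by decide +kernel)
theorem L52271 : W_8 (nat_lit 5) (nat_lit 0x340030000b002c0010001200080000000000000000000000000000000) (nat_lit 0x0) (nat_lit 0x38001c0000c001000000000000000000000000000000000000000000000000) := T_8 (nat_lit 226) (nat_lit 243) (nat_lit 7) (nat_lit 4) (nat_lit 10) L52270 (by decide +kernel)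
theorem L52272 : W_8 (nat_lit 6) (nat_lit 0x300030000b002c0010001200080000000000000000000000000000000) (nat_lit 0x0) (nat_lit 0x38001cc000c001000000000000000000000000000000000000000000000000) := T_8 (nat_lit 222) (nat_lit 223) (nat_lit 2) (nat_lit 1) (nat_lit 13) L52271 (by decide +kernel)
theorem L52273 : W_8 (nat_lit 7) (nat_lit 0x200030000b002c0010001200080000000000000000000000000000000) (nat_lit 0x0) (nat_lit 0x3a001dc000c001000000000000000000000000000000000000000000000000) := T_8 (nat_lit 224) (nat_lit 241) (nat_lit 5) (nat_lit 4) (nat_lit 10) L52272 (by decide +kernel)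
theorem L52274 : W_8 (nat_lit 8) (nat_lit 0x200030000a002c0010001200080000000000000000000000000000000) (nat_lit 0x0) (nat_lit 0x3a001dc000c001500000000000000000000000000000000000000000000000) := T_8 (nat_lit 188) (nat_lit 190) (nat_lit 3) (nat_lit 1) (nat_lit 11) L52273 (by decide +kernel)
theorem L52275 : W_8 (nat_lit 9) (nat_lit 0x200010000a002c0010001200080000000000000000000000000000000) (nat_lit 0x0) (nat_lit 0x3a001dc00ec001500000000000000000000000000000000000000000000000) := Q_8 (nat_lit 209) (C_8 L52265 (C_8 L52173 (C_8 L52274 N_8))) (by decide +kernel)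
theorem L52276 : W_8 (nat_lit 10) (nat_lit 0x10000a002c0010001200080000000000000000000000000000000) (nat_lit 0x0) (nat_lit 0x14003e001fc00ec001500000000000000000000000000000000000000000000000) := Q_8 (nat_lit 225) (C_8 L52251 (C_8 L52243 (C_8 L52153 (C_8 L52275 N_8)))) (by decide +kernel)
theorem L52277 : W_8 (nat_lit 2) (nat_lit 0x1bc005a002c0010001200080000000000000000000000000000000) (nat_lit 0x0) (nat_lit 0x8000c00000000000000000000000000000000000000000000000000000000) := D_8 (nat_lit 226) (nat_lit 227) (nat_lit 243) (nat_lit 3) (nat_lit 2) (nat_lit 12) (nat_lit 4) (nat_lit 5) (nat_lit 14) (by decide +kernel)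
theorem L52278 : W_8 (nat_lit 3) (nat_lit 0x19c005a002c0010001200080000000000000000000000000000000) (nat_lit 0x0) (nat_lit 0x8000c00020000100000000000000000000000000000000000000000000000) := T_8 (nat_lit 209) (nat_lit 188) (nat_lit 0) (nat_lit 5) (nat_lit 12) L52277 (by decide +kernel)
theorem L52279 : W_8 (nat_lit 4) (nat_lit 0x194005a002c0010001200080000000000000000000000000000000) (nat_lit 0x0) (nat_lit 0x8000c0002a000100000000000000000000000000000000000000000000000) := T_8 (nat_lit 207) (nat_lit 205) (nat_lit 2) (nat_lit 1) (nat_lit 12) L52278 (by decide +kernel)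
theorem L52280 : W_8 (nat_lit 5) (nat_lit 0x194004a002c0010001200080000000000000000000000000000000) (nat_lit 0x0) (nat_lit 0x8000c0002a003100000000000000000000000000000000000000000000000) := T_8 (nat_lit 192) (nat_lit 193) (nat_lit 3) (nat_lit 4) (nat_lit 11) L52279 (by decide +kernel)
theorem L52281 : W_8 (nat_lit 6) (nat_lit 0x94004a002c0010001200080000000000000000000000000000000) (nat_lit 0x0) (nat_lit 0x8002c0012a003100000000000000000000000000000000000000000000000) := T_8 (nat_lit 212) (nat_lit 229) (nat_lit 7) (nat_lit 7) (nat_lit 9) L52280 (by decide +kernel)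
theorem L52282 : W_8 (nat_lit 7) (nat_lit 0x14004a002c0010001200080000000000000000000000000000000) (nat_lit 0x0) (nat_lit 0x8002c001aa003100000020000000000000000000000000000000000000000) := T_8 (nat_lit 211) (nat_lit 161) (nat_lit 6) (nat_lit 7) (nat_lit 12) L52281 (by decide +kernel)
theorem L52283 : W_8 (nat_lit 2) (nat_lit 0x1c004b002c0010001200080000000000000000000000000000000) (nat_lit 0x0) (nat_lit 0x2001080000000000000000000000000000000000000000000000) := D_8 (nat_lit 205) (nat_lit 187) (nat_lit 192) (nat_lit 0) (nat_lit 4) (nat_lit 12) (nat_lit 2) (nat_lit 1) (nat_lit 12) (by decide +kernel)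
theorem L52284 : W_8 (nat_lit 3) (nat_lit 0x14004b002c0010001200080000000000000000000000000000000) (nat_lit 0x0) (nat_lit 0x2a001080000000000000000000000000000000000000000000000) := T_8 (nat_lit 207) (nat_lit 209) (nat_lit 0) (nat_lit 5) (nat_lit 12) L52283 (by decide +kernel)
theorem L52285 : W_8 (nat_lit 4) (nat_lit 0x14004a002c0010001200080000000000000000000000000000000) (nat_lit 0x0) (nat_lit 0x2a001580000000000000000000000000000000000000000000000) := T_8 (nat_lit 188) (nat_lit 190) (nat_lit 2) (nat_lit 1) (nat_lit 11) L52284 (by decide +kernel)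
theorem L52286 : W_8 (nat_lit 2) (nat_lit 0x194004e002c0010001200080000000000000000000000000000000) (nat_lit 0x0) (nat_lit 0x2003000000000000000000000000000000000000000000000000) := D_8 (nat_lit 192) (nat_lit 193) (nat_lit 205) (nat_lit 3) (nat_lit 4) (nat_lit 11) (nat_lit 1) (nat_lit 5) (nat_lit 11) (by decide +kernel)
theorem L52287 : W_8 (nat_lit 3) (nat_lit 0x94004e002c0010001200080000000000000000000000000000000) (nat_lit 0x0) (nat_lit 0x2000102003000000000000000000000000000000000000000000000000) := T_8 (nat_lit 212) (nat_lit 229) (nat_lit 7) (nat_lit 7) (nat_lit 9) L52286 (by decide +kernel)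
theorem L52288 : W_8 (nat_lit 4) (nat_lit 0x14004e002c0010001200080000000000000000000000000000000) (nat_lit 0x0) (nat_lit 0x2000182003000000020000000000000000000000000000000000000000) := T_8 (nat_lit 211) (nat_lit 161) (nat_lit 6) (nat_lit 7) (nat_lit 12) L52287 (by decide +kernel)
theorem L52289 : W_8 (nat_lit 5) (nat_lit 0x14004a002c0010001200080000000000000000000000000000000) (nat_lit 0x0) (nat_lit 0x2000182003500000020000000000000000000000000000000000000000) := T_8 (nat_lit 190) (nat_lit 188) (nat_lit 2) (nat_lit 1) (nat_lit 11) L52288 (by decide +kernel)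
theorem L52290 : W_8 (nat_lit 2) (nat_lit 0x30000b4004b002c0010001200080000000000000000000000000000000) (nat_lit 0x0) (nat_lit 0x10000c00000000000000000000000000000000000000000000000000000000) := D_8 (nat_lit 227) (nat_lit 244) (nat_lit 226) (nat_lit 5) (nat_lit 7) (nat_lit 10) (nat_lit 0) (nat_lit 8) (nat_lit 13) (by decide +kernel)
theorem L52291 : W_8 (nat_lit 3) (nat_lit 0x20000b4004b002c0010001200080000000000000000000000000000000) (nat_lit 0x0) (nat_lit 0x50001c00000000000000000000000000000000000000000000000000000000) := T_8 (nat_lit 228) (nat_lit 246) (nat_lit 7) (nat_lit 7) (nat_lit 10) L52290 (by decide +kernel)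
theorem L52292 : W_8 (nat_lit 4) (nat_lit 0x2000094004b002c0010001200080000000000000000000000000000000) (nat_lit 0x0) (nat_lit 0x50001c00028000000000000000000000000000000000000000000000000000) := T_8 (nat_lit 209) (nat_lit 207) (nat_lit 0) (nat_lit 5) (nat_lit 12) L52291 (by decide +kernel)
theorem L52293 : W_8 (nat_lit 5) (nat_lit 0x2000094004a002c0010001200080000000000000000000000000000000) (nat_lit 0x0) (nat_lit 0x50001c00028000500000000000000000000000000000000000000000000000) := T_8 (nat_lit 188) (nat_lit 190) (nat_lit 2) (nat_lit 1) (nat_lit 11) L52292 (by decide +kernel)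
theorem L52294 : W_8 (nat_lit 6) (nat_lit 0x94004a002c0010001200080000000000000000000000000000000) (nat_lit 0x0) (nat_lit 0x50003c00128000500000000000000000000000000000000000000000000000) := T_8 (nat_lit 229) (nat_lit 212) (nat_lit 7) (nat_lit 7) (nat_lit 9) L52293 (by decide +kernel)
theorem L52295 : W_8 (nat_lit 7) (nat_lit 0x14004a002c0010001200080000000000000000000000000000000) (nat_lit 0x0) (nat_lit 0x50003c001a8000500000020000000000000000000000000000000000000000) := T_8 (nat_lit 211) (nat_lit 161) (nat_lit 6) (nat_lit 7) (nat_lit 12) L52294 (by decide +kernel)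
theorem L52296 : W_8 (nat_lit 2) (nat_lit 0x194005a002c0010001200080000000000000000000000000000000) (nat_lit 0x0) (nat_lit 0xa000400000000000000000000000000000000000000000000000) := D_8 (nat_lit 205) (nat_lit 207) (nat_lit 190) (nat_lit 2) (nat_lit 1) (nat_lit 12) (nat_lit 1) (nat_lit 5) (nat_lit 11) (by decide +kernel)
theorem L52297 : W_8 (nat_lit 3) (nat_lit 0x194004a002c0010001200080000000000000000000000000000000) (nat_lit 0x0) (nat_lit 0xa003400000000000000000000000000000000000000000000000) := T_8 (nat_lit 192) (nat_lit 193) (nat_lit 3) (nat_lit 4) (nat_lit 11) L52296 (by decide +kernel)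
theorem L52298 : W_8 (nat_lit 4) (nat_lit 0x94004a002c0010001200080000000000000000000000000000000) (nat_lit 0x0) (nat_lit 0x200010a003400000000000000000000000000000000000000000000000) := T_8 (nat_lit 212) (nat_lit 229) (nat_lit 7) (nat_lit 7) (nat_lit 9) L52297 (by decide +kernel)
theorem L52299 : W_8 (nat_lit 5) (nat_lit 0x14004a002c0010001200080000000000000000000000000000000) (nat_lit 0x0) (nat_lit 0x200018a003400000020000000000000000000000000000000000000000) := T_8 (nat_lit 211) (nat_lit 161) (nat_lit 6) (nat_lit 7) (nat_lit 12) L52298 (by decide +kernel)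
theorem L52300 : W_8 (nat_lit 8) (nat_lit 0x10004a002c0010001200080000000000000000000000000000000) (nat_lit 0x0) (nat_lit 0x58003c001ae003580000020000000000000000000000000000000000000000) := Q_8 (nat_lit 206) (C_8 L52282 (C_8 L52285 (C_8 L52289 (C_8 L52295 (C_8 L52299 N_8))))) (by decide +kernel)
theorem L52301 : W_8 (nat_lit 2) (nat_lit 0x190005a002c0010001200080000000000000000000000000000000) (nat_lit 0x0) (nat_lit 0x800060000000000000000000000000000000000000000000000000000) := D_8 (nat_lit 210) (nat_lit 209) (nat_lit 227) (nat_lit 0) (nat_lit 8) (nat_lit 12) (nat_lit 5) (nat_lit 7) (nat_lit 9) (by decide +kernel)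
theorem L52302 : W_8 (nat_lit 3) (nat_lit 0x190004a002c0010001200080000000000000000000000000000000) (nat_lit 0x0) (nat_lit 0x800060003000000000000000000000000000000000000000000000000) := T_8 (nat_lit 192) (nat_lit 193) (nat_lit 3) (nat_lit 4) (nat_lit 11) L52301 (by decide +kernel)
theorem L52303 : W_8 (nat_lit 4) (nat_lit 0x90004a002c0010001200080000000000000000000000000000000) (nat_lit 0x0) (nat_lit 0x2800160003000000000000000000000000000000000000000000000000) := T_8 (nat_lit 212) (nat_lit 229) (nat_lit 7) (nat_lit 7) (nat_lit 9) L52302 (by decide +kernel)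
theorem L52304 : W_8 (nat_lit 5) (nat_lit 0x10004a002c0010001200080000000000000000000000000000000) (nat_lit 0x0) (nat_lit 0x28001e0003000000020000000000000000000000000000000000000000) := T_8 (nat_lit 211) (nat_lit 161) (nat_lit 6) (nat_lit 7) (nat_lit 12) L52303 (by decide +kernel)
theorem L52305 : W_8 (nat_lit 2) (nat_lit 0x2800090004a002c0010001200080000000000000000000000000000000) (nat_lit 0x0) (nat_lit 0x50001000000000000000000000000000000000000000000000000000000000) := D_8 (nat_lit 228) (nat_lit 246) (nat_lit 244) (nat_lit 7) (nat_lit 7) (nat_lit 10) (nat_lit 5) (nat_lit 7) (nat_lit 10) (by decide +kernel)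
theorem L52306 : W_8 (nat_lit 3) (nat_lit 0x2000090004a002c0010001200080000000000000000000000000000000) (nat_lit 0x0) (nat_lit 0x50001800040000000000000000000000000000000000000000000000000000) := T_8 (nat_lit 227) (nat_lit 210) (nat_lit 5) (nat_lit 7) (nat_lit 9) L52305 (by decide +kernel)
theorem L52307 : W_8 (nat_lit 4) (nat_lit 0x90004a002c0010001200080000000000000000000000000000000) (nat_lit 0x0) (nat_lit 0x50003800140000000000000000000000000000000000000000000000000000) := T_8 (nat_lit 229) (nat_lit 212) (nat_lit 7) (nat_lit 7) (nat_lit 9) L52306 (by decide +kernel)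
theorem L52308 : W_8 (nat_lit 5) (nat_lit 0x10004a002c0010001200080000000000000000000000000000000) (nat_lit 0x0) (nat_lit 0x500038001c0000000000020000000000000000000000000000000000000000) := T_8 (nat_lit 211) (nat_lit 161) (nat_lit 6) (nat_lit 7) (nat_lit 12) L52307 (by decide +kernel)
theorem L52309 : W_8 (nat_lit 2) (nat_lit 0x10005a002c0010001200080000000000000000000000000000000) (nat_lit 0x0) (nat_lit 0x800a000000000000000000000000000000000000000000000000) := D_8 (nat_lit 193) (nat_lit 195) (nat_lit 207) (nat_lit 0) (nat_lit 8) (nat_lit 11) (nat_lit 1) (nat_lit 7) (nat_lit 11) (by decide +kernel)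
theorem L52310 : W_8 (nat_lit 2) (nat_lit 0x400034005e002c0010001200080000000000000000000000000000000) (nat_lit 0x0) (nat_lit 0x10000800008000000000000000000000000000000000000000000000000000) := D_8 (nat_lit 227) (nat_lit 244) (nat_lit 207) (nat_lit 7) (nat_lit 5) (nat_lit 10) (nat_lit 3) (nat_lit 2) (nat_lit 12) (by decide +kernel)
theorem L52311 : W_8 (nat_lit 3) (nat_lit 0x400030005e002c0010001200080000000000000000000000000000000) (nat_lit 0x0) (nat_lit 0x1000080000e000000000000000000000000000000000000000000000000000) := T_8 (nat_lit 206) (nat_lit 205) (nat_lit 1) (nat_lit 5) (nat_lit 11) L52310 (by decide +kernel)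
theorem L52312 : W_8 (nat_lit 4) (nat_lit 0x30005e002c0010001200080000000000000000000000000000000) (nat_lit 0x0) (nat_lit 0x18000c0000e000000000000000000000000000000000000000000000000000) := T_8 (nat_lit 226) (nat_lit 243) (nat_lit 4) (nat_lit 5) (nat_lit 14) L52311 (by decide +kernel)
theorem L52313 : W_8 (nat_lit 5) (nat_lit 0x10005e002c0010001200080000000000000000000000000000000) (nat_lit 0x0) (nat_lit 0x18000c0006e000000000000000000000000000000000000000000000000000) := T_8 (nat_lit 209) (nat_lit 210) (nat_lit 3) (nat_lit 2) (nat_lit 11) L52312 (by decide +kernel)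
theorem L52314 : W_8 (nat_lit 6) (nat_lit 0x10005a002c0010001200080000000000000000000000000000000) (nat_lit 0x0) (nat_lit 0x18000c0006e000500000000000000000000000000000000000000000000000) := T_8 (nat_lit 190) (nat_lit 188) (nat_lit 2) (nat_lit 1) (nat_lit 11) L52313 (by decide +kernel)
theorem L52315 : W_8 (nat_lit 2) (nat_lit 0x10005a002c0010001200080000000000000000000000000000000) (nat_lit 0x0) (nat_lit 0xa000020000000000000000000000000000000000000000000) := D_8 (nat_lit 193) (nat_lit 195) (nat_lit 173) (nat_lit 0) (nat_lit 8) (nat_lit 11) (nat_lit 0) (nat_lit 7) (nat_lit 11) (by decide +kernel)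
theorem L52316 : W_8 (nat_lit 7) (nat_lit 0x10004a002c0010001200080000000000000000000000000000000) (nat_lit 0x0) (nat_lit 0x18000c0006e00b500020000000000000000000000000000000000000000000) := Q_8 (nat_lit 192) (C_8 L52309 (C_8 L52314 (C_8 L52315 N_8))) (by decide +kernel)
theorem L52317 : W_8 (nat_lit 2) (nat_lit 0x1b4005a002c0010001200080000000000000000000000000000000) (nat_lit 0x0) (nat_lit 0xa000100000000000000000000000000000000000000000000000) := D_8 (nat_lit 207) (nat_lit 205) (nat_lit 188) (nat_lit 2) (nat_lit 1) (nat_lit 12) (nat_lit 0) (nat_lit 5) (nat_lit 12) (by decide +kernel)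
theorem L52318 : W_8 (nat_lit 3) (nat_lit 0x194005a002c0010001200080000000000000000000000000000000) (nat_lit 0x0) (nat_lit 0x6a000100000000000000000000000000000000000000000000000) := T_8 (nat_lit 209) (nat_lit 210) (nat_lit 0) (nat_lit 8) (nat_lit 12) L52317 (by decide +kernel)
theorem L52319 : W_8 (nat_lit 4) (nat_lit 0x194004a002c0010001200080000000000000000000000000000000) (nat_lit 0x0) (nat_lit 0x6a003100000000000000000000000000000000000000000000000) := T_8 (nat_lit 192) (nat_lit 193) (nat_lit 3) (nat_lit 4) (nat_lit 11) L52318 (by decide +kernel)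
theorem L52320 : W_8 (nat_lit 5) (nat_lit 0x94004a002c0010001200080000000000000000000000000000000) (nat_lit 0x0) (nat_lit 0x200016a003100000000000000000000000000000000000000000000000) := T_8 (nat_lit 212) (nat_lit 229) (nat_lit 7) (nat_lit 7) (nat_lit 9) L52319 (by decide +kernel)
theorem L52321 : W_8 (nat_lit 6) (nat_lit 0x14004a002c0010001200080000000000000000000000000000000) (nat_lit 0x0) (nat_lit 0x20001ea003100000020000000000000000000000000000000000000000) := T_8 (nat_lit 211) (nat_lit 161) (nat_lit 6) (nat_lit 7) (nat_lit 12) L52320 (by decide +kernel)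
theorem L52322 : W_8 (nat_lit 2) (nat_lit 0x20000b4004b002c0010001200080000000000000000000000000000000) (nat_lit 0x0) (nat_lit 0x1000040008000000000000000000000000000000000000000000000000) := D_8 (nat_lit 210) (nat_lit 195) (nat_lit 228) (nat_lit 2) (nat_lit 4) (nat_lit 12) (nat_lit 3) (nat_lit 4) (nat_lit 12) (by decide +kernel)
theorem L52323 : W_8 (nat_lit 3) (nat_lit 0xb4004b002c0010001200080000000000000000000000000000000) (nat_lit 0x0) (nat_lit 0x3000140008000000000000000000000000000000000000000000000000) := T_8 (nat_lit 229) (nat_lit 212) (nat_lit 7) (nat_lit 7) (nat_lit 9) L52322 (by decide +kernel)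
theorem L52324 : W_8 (nat_lit 4) (nat_lit 0x34004b002c0010001200080000000000000000000000000000000) (nat_lit 0x0) (nat_lit 0x30001c0008000000020000000000000000000000000000000000000000) := T_8 (nat_lit 211) (nat_lit 161) (nat_lit 6) (nat_lit 7) (nat_lit 12) L52323 (by decide +kernel)
theorem L52325 : W_8 (nat_lit 5) (nat_lit 0x14004b002c0010001200080000000000000000000000000000000) (nat_lit 0x0) (nat_lit 0x30001e8008000000020000000000000000000000000000000000000000) := T_8 (nat_lit 209) (nat_lit 207) (nat_lit 0) (nat_lit 5) (nat_lit 12) L52324 (by decide +kernel)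
theorem L52326 : W_8 (nat_lit 6) (nat_lit 0x14004a002c0010001200080000000000000000000000000000000) (nat_lit 0x0) (nat_lit 0x30001e8008500000020000000000000000000000000000000000000000) := T_8 (nat_lit 188) (nat_lit 190) (nat_lit 2) (nat_lit 1) (nat_lit 11) L52325 (by decide +kernel)
theorem L52327 : W_8 (nat_lit 7) (nat_lit 0x10004a002c0010001200080000000000000000000000000000000) (nat_lit 0x0) (nat_lit 0x30001ee00b580000020000000000000000000000000000000000000000) := Q_8 (nat_lit 206) (C_8 L52321 (C_8 L52285 (C_8 L52299 (C_8 L52326 (C_8 L52289 N_8))))) (by decide +kernel)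
theorem L52328 : W_8 (nat_lit 9) (nat_lit 0x10000a002c0010001200080000000000000000000000000000000) (nat_lit 0x0) (nat_lit 0x58003c001ee00f580020020000000000000000000000000000000000000000) := Q_8 (nat_lit 194) (C_8 L52300 (C_8 L52304 (C_8 L52308 (C_8 L52316 (C_8 L52327 N_8))))) (by decide +kernel)
theorem L52329 : W_8 (nat_lit 2) (nat_lit 0x3000d0000a002c0010001200080000000000000000000000000000000) (nat_lit 0x0) (nat_lit 0x800000004000000020000000000000000000000000000000000000000) := D_8 (nat_lit 194) (nat_lit 161) (nat_lit 227) (nat_lit 6) (nat_lit 7) (nat_lit 12) (nat_lit 5) (nat_lit 7) (nat_lit 9) (by decide +kernel)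
theorem L52330 : W_8 (nat_lit 3) (nat_lit 0x300090000a002c0010001200080000000000000000000000000000000) (nat_lit 0x0) (nat_lit 0x800060004000000020000000000000000000000000000000000000000) := T_8 (nat_lit 210) (nat_lit 209) (nat_lit 1) (nat_lit 7) (nat_lit 12) L52329 (by decide +kernel)
theorem L52331 : W_8 (nat_lit 4) (nat_lit 0x200090000a002c0010001200080000000000000000000000000000000) (nat_lit 0x0) (nat_lit 0x2000900060004000000020000000000000000000000000000000000000000) := T_8 (nat_lit 224) (nat_lit 241) (nat_lit 5) (nat_lit 4) (nat_lit 10) L52330 (by decide +kernel)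
theorem L52332 : W_8 (nat_lit 2) (nat_lit 0xf00190005a002c0010001200080000000000000000000000000000000) (nat_lit 0x0) (nat_lit 0x30000000020000000000000000000000000000000000000000000000000000) := D_8 (nat_lit 244) (nat_lit 245) (nat_lit 209) (nat_lit 3) (nat_lit 3) (nat_lit 13) (nat_lit 7) (nat_lit 5) (nat_lit 10) (by decide +kernel)
theorem L52333 : W_8 (nat_lit 3) (nat_lit 0x700190005a002c0010001200080000000000000000000000000000000) (nat_lit 0x0) (nat_lit 0x30001800020000000000000000000000000000000000000000000000000000) := T_8 (nat_lit 227) (nat_lit 228) (nat_lit 2) (nat_lit 4) (nat_lit 13) L52332 (by decide +kernel)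
theorem L52334 : W_8 (nat_lit 4) (nat_lit 0x300190005a002c0010001200080000000000000000000000000000000) (nat_lit 0x0) (nat_lit 0x38001c00020000000000000000000000000000000000000000000000000000) := T_8 (nat_lit 226) (nat_lit 243) (nat_lit 7) (nat_lit 4) (nat_lit 10) L52333 (by decide +kernel)
theorem L52335 : W_8 (nat_lit 5) (nat_lit 0x200190005a002c0010001200080000000000000000000000000000000) (nat_lit 0x0) (nat_lit 0x3a001d00020000000000000000000000000000000000000000000000000000) := T_8 (nat_lit 224) (nat_lit 241) (nat_lit 5) (nat_lit 4) (nat_lit 10) L52334 (by decide +kernel)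
theorem L52336 : W_8 (nat_lit 6) (nat_lit 0x200190004a002c0010001200080000000000000000000000000000000) (nat_lit 0x0) (nat_lit 0x3a001d00020003000000000000000000000000000000000000000000000000) := T_8 (nat_lit 192) (nat_lit 193) (nat_lit 3) (nat_lit 4) (nat_lit 11) L52335 (by decide +kernel)
theorem L52337 : W_8 (nat_lit 7) (nat_lit 0x200090004a002c0010001200080000000000000000000000000000000) (nat_lit 0x0) (nat_lit 0x3a003d00120003000000000000000000000000000000000000000000000000) := T_8 (nat_lit 212) (nat_lit 229) (nat_lit 7) (nat_lit 7) (nat_lit 9) L52336 (by decide +kernel)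
theorem L52338 : W_8 (nat_lit 8) (nat_lit 0x200090000a002c0010001200080000000000000000000000000000000) (nat_lit 0x0) (nat_lit 0x3a003d00120007000000020000000000000000000000000000000000000000) := T_8 (nat_lit 194) (nat_lit 161) (nat_lit 6) (nat_lit 7) (nat_lit 12) L52337 (by decide +kernel)
theorem L52339 : W_8 (nat_lit 2) (nat_lit 0xa00190005a002e0010001200080000000000000000000000000000000) (nat_lit 0x0) (nat_lit 0x8001400000000000000000000000000000000000000000000000000000000) := D_8 (nat_lit 226) (nat_lit 243) (nat_lit 228) (nat_lit 7) (nat_lit 4) (nat_lit 10) (nat_lit 2) (nat_lit 4) (nat_lit 13) (by decide +kernel)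
theorem L52340 : W_8 (nat_lit 3) (nat_lit 0x200190005a002e0010001200080000000000000000000000000000000) (nat_lit 0x0) (nat_lit 0x8001c00040000000000000000000000000000000000000000000000000000) := T_8 (nat_lit 227) (nat_lit 210) (nat_lit 5) (nat_lit 7) (nat_lit 9) L52339 (by decide +kernel)
theorem L52341 : W_8 (nat_lit 4) (nat_lit 0x200190004a002e0010001200080000000000000000000000000000000) (nat_lit 0x0) (nat_lit 0x8001c00040003000000000000000000000000000000000000000000000000) := T_8 (nat_lit 192) (nat_lit 193) (nat_lit 3) (nat_lit 4) (nat_lit 11) L52340 (by decide +kernel)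
theorem L52342 : W_8 (nat_lit 5) (nat_lit 0x200090004a002e0010001200080000000000000000000000000000000) (nat_lit 0x0) (nat_lit 0x8003c00140003000000000000000000000000000000000000000000000000) := T_8 (nat_lit 212) (nat_lit 229) (nat_lit 7) (nat_lit 7) (nat_lit 9) L52341 (by decide +kernel)
theorem L52343 : W_8 (nat_lit 6) (nat_lit 0x200090000a002e0010001200080000000000000000000000000000000) (nat_lit 0x0) (nat_lit 0x8003c00140007000000020000000000000000000000000000000000000000) := T_8 (nat_lit 194) (nat_lit 161) (nat_lit 6) (nat_lit 7) (nat_lit 12) L52342 (by decide +kernel)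
theorem L52344 : W_8 (nat_lit 7) (nat_lit 0x200090000a002c0010001200080000000000000000000000000000000) (nat_lit 0x0) (nat_lit 0x8003c00140007000020021000000000000000000000000000000000000000) := T_8 (nat_lit 173) (nat_lit 156) (nat_lit 4) (nat_lit 4) (nat_lit 13) L52343 (by decide +kernel)
theorem L52345 : W_8 (nat_lit 2) (nat_lit 0x3000d0000a002c0010001200080000000000000000000000000000000) (nat_lit 0x0) (nat_lit 0x8000c00000000000000000000000000000000000000000000000000000000) := D_8 (nat_lit 226) (nat_lit 243) (nat_lit 227) (nat_lit 7) (nat_lit 4) (nat_lit 10) (nat_lit 2) (nat_lit 3) (nat_lit 13) (by decide +kernel)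
theorem L52346 : W_8 (nat_lit 3) (nat_lit 0x300090000a002c0010001200080000000000000000000000000000000) (nat_lit 0x0) (nat_lit 0x8000c00060000000000000000000000000000000000000000000000000000) := T_8 (nat_lit 210) (nat_lit 209) (nat_lit 1) (nat_lit 7) (nat_lit 12) L52345 (by decide +kernel)
theorem L52347 : W_8 (nat_lit 4) (nat_lit 0x200090000a002c0010001200080000000000000000000000000000000) (nat_lit 0x0) (nat_lit 0xa000d00060000000000000000000000000000000000000000000000000000) := T_8 (nat_lit 224) (nat_lit 241) (nat_lit 5) (nat_lit 4) (nat_lit 10) L52346 (by decide +kernel)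
theorem L52348 : W_8 (nat_lit 2) (nat_lit 0x10007800b4000a002e0010001200080000000000000000000000000000000) (nat_lit 0x0) (nat_lit 0x8000100008000000000000000000000000000000000000000000) := D_8 (nat_lit 188) (nat_lit 207) (nat_lit 171) (nat_lit 0) (nat_lit 5) (nat_lit 12) (nat_lit 4) (nat_lit 2) (nat_lit 14) (by decide +kernel)
theorem L52349 : W_8 (nat_lit 3) (nat_lit 0x7800b4000a002e0010001200080000000000000000000000000000000) (nat_lit 0x0) (nat_lit 0x1800000008000100008000000000000000000000000000000000000000000) := T_8 (nat_lit 240) (nat_lit 239) (nat_lit 1) (nat_lit 5) (nat_lit 13) L52348 (by decide +kernel)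
theorem L52350 : W_8 (nat_lit 4) (nat_lit 0x7800b0000a002e0010001200080000000000000000000000000000000) (nat_lit 0x0) (nat_lit 0x180000000e000100008000000000000000000000000000000000000000000) := T_8 (nat_lit 206) (nat_lit 205) (nat_lit 0) (nat_lit 5) (nat_lit 13) L52349 (by decide +kernel)
theorem L52351 : W_8 (nat_lit 5) (nat_lit 0x7000b0000a002e0010001200080000000000000000000000000000000) (nat_lit 0x0) (nat_lit 0x18000c000e000100008000000000000000000000000000000000000000000) := T_8 (nat_lit 223) (nat_lit 222) (nat_lit 2) (nat_lit 1) (nat_lit 13) L52350 (by decide +kernel)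
theorem L52352 : W_8 (nat_lit 6) (nat_lit 0x700090000a002e0010001200080000000000000000000000000000000) (nat_lit 0x0) (nat_lit 0x18000c006e000100008000000000000000000000000000000000000000000) := T_8 (nat_lit 209) (nat_lit 210) (nat_lit 1) (nat_lit 7) (nat_lit 12) L52351 (by decide +kernel)
theorem L52353 : W_8 (nat_lit 7) (nat_lit 0x600090000a002e0010001200080000000000000000000000000000000) (nat_lit 0x0) (nat_lit 0x38001c006e000100008000000000000000000000000000000000000000000) := T_8 (nat_lit 224) (nat_lit 241) (nat_lit 5) (nat_lit 4) (nat_lit 10) L52352 (by decide +kernel)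
theorem L52354 : W_8 (nat_lit 8) (nat_lit 0x200090000a002e0010001200080000000000000000000000000000000) (nat_lit 0x0) (nat_lit 0xb8005c006e000100008000000000000000000000000000000000000000000) := T_8 (nat_lit 226) (nat_lit 243) (nat_lit 7) (nat_lit 4) (nat_lit 10) L52353 (by decide +kernel)
theorem L52355 : W_8 (nat_lit 9) (nat_lit 0x200090000a002c0010001200080000000000000000000000000000000) (nat_lit 0x0) (nat_lit 0xb8005c006e000100028001000000000000000000000000000000000000000) := T_8 (nat_lit 173) (nat_lit 156) (nat_lit 4) (nat_lit 4) (nat_lit 13) L52354 (by decide +kernel)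
theorem L52356 : W_8 (nat_lit 10) (nat_lit 0x200010000a002c0010001200080000000000000000000000000000000) (nat_lit 0x0) (nat_lit 0x3b803dc01ee007100028021000000000000000000000000000000000000000) := Q_8 (nat_lit 211) (C_8 L52331 (C_8 L52338 (C_8 L52344 (C_8 L52347 (C_8 L52355 N_8))))) (by decide +kernel)
theorem L52357 : W_8 (nat_lit 11) (nat_lit 0x10000a002c0010001200080000000000000000000000000000000) (nat_lit 0x0) (nat_lit 0x14003f803fc01ee007100028021000000000000000000000000000000000000000) := Q_8 (nat_lit 225) (C_8 L52251 (C_8 L52239 (C_8 L52153 (C_8 L52356 N_8)))) (by decide +kernel)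
theorem L52358 : W_8 (nat_lit 2) (nat_lit 0x780034000b002e0010001200080000000000000000000000000000000) (nat_lit 0x0) (nat_lit 0x1800000000000000008000000000000000000000000000000000000000000) := D_8 (nat_lit 240) (nat_lit 239) (nat_lit 171) (nat_lit 1) (nat_lit 5) (nat_lit 13) (nat_lit 4) (nat_lit 2) (nat_lit 14) (by decide +kernel)
theorem L52359 : W_8 (nat_lit 3) (nat_lit 0x780030000b002e0010001200080000000000000000000000000000000) (nat_lit 0x0) (nat_lit 0x1800000006000000008000000000000000000000000000000000000000000) := T_8 (nat_lit 206) (nat_lit 205) (nat_lit 0) (nat_lit 5) (nat_lit 13) L52358 (by decide +kernel)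
theorem L52360 : W_8 (nat_lit 4) (nat_lit 0x700030000b002e0010001200080000000000000000000000000000000) (nat_lit 0x0) (nat_lit 0x18000c0006000000008000000000000000000000000000000000000000000) := T_8 (nat_lit 223) (nat_lit 222) (nat_lit 2) (nat_lit 1) (nat_lit 13) L52359 (by decide +kernel)
theorem L52361 : W_8 (nat_lit 5) (nat_lit 0x600030000b002e0010001200080000000000000000000000000000000) (nat_lit 0x0) (nat_lit 0x38001c0006000000008000000000000000000000000000000000000000000) := T_8 (nat_lit 224) (nat_lit 241) (nat_lit 5) (nat_lit 4) (nat_lit 10) L52360 (by decide +kernel)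
theorem L52362 : W_8 (nat_lit 6) (nat_lit 0x600030000b002c0010001200080000000000000000000000000000000) (nat_lit 0x0) (nat_lit 0x38001c0006000000028001000000000000000000000000000000000000000) := T_8 (nat_lit 173) (nat_lit 156) (nat_lit 4) (nat_lit 4) (nat_lit 13) L52361 (by decide +kernel)
theorem L52363 : W_8 (nat_lit 7) (nat_lit 0x200030000b002c0010001200080000000000000000000000000000000) (nat_lit 0x0) (nat_lit 0xb8005c0006000000028001000000000000000000000000000000000000000) := T_8 (nat_lit 226) (nat_lit 243) (nat_lit 7) (nat_lit 4) (nat_lit 10) L52362 (by decide +kernel)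
theorem L52364 : W_8 (nat_lit 8) (nat_lit 0x200030000a002c0010001200080000000000000000000000000000000) (nat_lit 0x0) (nat_lit 0xb8005c0006000500028001000000000000000000000000000000000000000) := T_8 (nat_lit 188) (nat_lit 190) (nat_lit 3) (nat_lit 1) (nat_lit 11) L52363 (by decide +kernel)
theorem L52365 : W_8 (nat_lit 9) (nat_lit 0x200010000a002c0010001200080000000000000000000000000000000) (nat_lit 0x0) (nat_lit 0xb8005c00e6001500028001000000000000000000000000000000000000000) := Q_8 (nat_lit 209) (C_8 L52170 (C_8 L52254 (C_8 L52364 N_8))) (by decide +kernel)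
theorem L52366 : W_8 (nat_lit 10) (nat_lit 0x10000a002c0010001200080000000000000000000000000000000) (nat_lit 0x0) (nat_lit 0x14000f8007c00e6001500028001000000000000000000000000000000000000000) := Q_8 (nat_lit 225) (C_8 L52251 (C_8 L52243 (C_8 L52157 (C_8 L52365 N_8)))) (by decide +kernel)
theorem L52367 : W_8 (nat_lit 2) (nat_lit 0x780030000e002e0010001200080000000000000000000000000000000) (nat_lit 0x0) (nat_lit 0x1800000008000000000000000000000000000000000000000000000000000) := D_8 (nat_lit 240) (nat_lit 239) (nat_lit 207) (nat_lit 1) (nat_lit 5) (nat_lit 13) (nat_lit 5) (nat_lit 3) (nat_lit 10) (by decide +kernel)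
theorem L52368 : W_8 (nat_lit 3) (nat_lit 0x700030000e002e0010001200080000000000000000000000000000000) (nat_lit 0x0) (nat_lit 0x18000c0008000000000000000000000000000000000000000000000000000) := T_8 (nat_lit 223) (nat_lit 222) (nat_lit 2) (nat_lit 1) (nat_lit 13) L52367 (by decide +kernel)
theorem L52369 : W_8 (nat_lit 4) (nat_lit 0x600030000e002e0010001200080000000000000000000000000000000) (nat_lit 0x0) (nat_lit 0x38001c0008000000000000000000000000000000000000000000000000000) := T_8 (nat_lit 224) (nat_lit 241) (nat_lit 5) (nat_lit 4) (nat_lit 10) L52368 (by decide +kernel)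
theorem L52370 : W_8 (nat_lit 5) (nat_lit 0x600030000e002c0010001200080000000000000000000000000000000) (nat_lit 0x0) (nat_lit 0x38001c0008000000020001000000000000000000000000000000000000000) := T_8 (nat_lit 173) (nat_lit 156) (nat_lit 4) (nat_lit 4) (nat_lit 13) L52369 (by decide +kernel)
theorem L52371 : W_8 (nat_lit 6) (nat_lit 0x200030000e002c0010001200080000000000000000000000000000000) (nat_lit 0x0) (nat_lit 0xb8005c0008000000020001000000000000000000000000000000000000000) := T_8 (nat_lit 226) (nat_lit 243) (nat_lit 7) (nat_lit 4) (nat_lit 10) L52370 (by decide +kernel)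
theorem L52372 : W_8 (nat_lit 7) (nat_lit 0x200030000a002c0010001200080000000000000000000000000000000) (nat_lit 0x0) (nat_lit 0xb8005c0008000500020001000000000000000000000000000000000000000) := T_8 (nat_lit 190) (nat_lit 188) (nat_lit 3) (nat_lit 1) (nat_lit 11) L52371 (by decide +kernel)
theorem L52373 : W_8 (nat_lit 8) (nat_lit 0x200010000a002c0010001200080000000000000000000000000000000) (nat_lit 0x0) (nat_lit 0xb8005c00e8001500020001000000000000000000000000000000000000000) := Q_8 (nat_lit 209) (C_8 L52170 (C_8 L52265 (C_8 L52372 (C_8 L52254 N_8)))) (by decide +kernel)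
theorem L52374 : W_8 (nat_lit 9) (nat_lit 0x10000a002c0010001200080000000000000000000000000000000) (nat_lit 0x0) (nat_lit 0x14000f8007c00e8001500020001000000000000000000000000000000000000000) := Q_8 (nat_lit 225) (C_8 L52251 (C_8 L52243 (C_8 L52157 (C_8 L52373 N_8)))) (by decide +kernel)
theorem L52375 : W_8 (nat_lit 2) (nat_lit 0x7800b4004a002e0010001200080000000000000000000000000000000) (nat_lit 0x0) (nat_lit 0x1800000000000400000000000000000000000000000000000000000000000) := D_8 (nat_lit 240) (nat_lit 239) (nat_lit 190) (nat_lit 1) (nat_lit 5) (nat_lit 13) (nat_lit 6) (nat_lit 2) (nat_lit 14) (by decide +kernel)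
theorem L52376 : W_8 (nat_lit 3) (nat_lit 0x7800b0004a002e0010001200080000000000000000000000000000000) (nat_lit 0x0) (nat_lit 0x1800000006000400000000000000000000000000000000000000000000000) := T_8 (nat_lit 206) (nat_lit 205) (nat_lit 0) (nat_lit 5) (nat_lit 13) L52375 (by decide +kernel)
theorem L52377 : W_8 (nat_lit 4) (nat_lit 0x3800b0004a002e0010001200080000000000000000000000000000000) (nat_lit 0x0) (nat_lit 0x9800400006000400000000000000000000000000000000000000000000000) := T_8 (nat_lit 226) (nat_lit 243) (nat_lit 7) (nat_lit 4) (nat_lit 10) L52376 (by decide +kernel)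
theorem L52378 : W_8 (nat_lit 5) (nat_lit 0x3800b0000a002e0010001200080000000000000000000000000000000) (nat_lit 0x0) (nat_lit 0x9800400006004400000020000000000000000000000000000000000000000) := T_8 (nat_lit 194) (nat_lit 161) (nat_lit 6) (nat_lit 7) (nat_lit 12) L52377 (by decide +kernel)
theorem L52379 : W_8 (nat_lit 6) (nat_lit 0x3000b0000a002e0010001200080000000000000000000000000000000) (nat_lit 0x0) (nat_lit 0x98004c0006004400000020000000000000000000000000000000000000000) := T_8 (nat_lit 223) (nat_lit 222) (nat_lit 2) (nat_lit 1) (nat_lit 13) L52378 (by decide +kernel)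
theorem L52380 : W_8 (nat_lit 7) (nat_lit 0x3000b0000a002c0010001200080000000000000000000000000000000) (nat_lit 0x0) (nat_lit 0x98004c0006004400020021000000000000000000000000000000000000000) := T_8 (nat_lit 173) (nat_lit 156) (nat_lit 4) (nat_lit 4) (nat_lit 13) L52379 (by decide +kernel)
theorem L52381 : W_8 (nat_lit 8) (nat_lit 0x300090000a002c0010001200080000000000000000000000000000000) (nat_lit 0x0) (nat_lit 0x98004c0066004400020021000000000000000000000000000000000000000) := T_8 (nat_lit 209) (nat_lit 210) (nat_lit 1) (nat_lit 7) (nat_lit 12) L52380 (by decide +kernel)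
theorem L52382 : W_8 (nat_lit 9) (nat_lit 0x200090000a002c0010001200080000000000000000000000000000000) (nat_lit 0x0) (nat_lit 0xb8005c0066004400020021000000000000000000000000000000000000000) := T_8 (nat_lit 224) (nat_lit 241) (nat_lit 5) (nat_lit 4) (nat_lit 10) L52381 (by decide +kernel)
theorem L52383 : W_8 (nat_lit 10) (nat_lit 0x200010000a002c0010001200080000000000000000000000000000000) (nat_lit 0x0) (nat_lit 0x3b803dc01e6007400020021000000000000000000000000000000000000000) := Q_8 (nat_lit 211) (C_8 L52347 (C_8 L52338 (C_8 L52344 (C_8 L52331 (C_8 L52382 N_8))))) (by decide +kernel)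
theorem L52384 : W_8 (nat_lit 11) (nat_lit 0x10000a002c0010001200080000000000000000000000000000000) (nat_lit 0x0) (nat_lit 0x14003f803fc01e6007400020021000000000000000000000000000000000000000) := Q_8 (nat_lit 225) (C_8 L52251 (C_8 L52239 (C_8 L52153 (C_8 L52383 N_8)))) (by decide +kernel)
theorem L52385 : W_8 (nat_lit 12) (nat_lit 0xa002c0010001200080000000000000000000000000000000) (nat_lit 0x0) (nat_lit 0x20017007f803fe01fe00f580028021000000000000000000000000000000000000000) := Q_8 (nat_lit 208) (C_8 L52175 (C_8 L52203 (C_8 L52235 (C_8 L52249 (C_8 L52267 (C_8 L52276 (C_8 L52328 (C_8 L52357 (C_8 L52366 (C_8 L52374 (C_8 L52384 N_8))))))))))) (by decide +kernel)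
theorem L52386 : W_8 (nat_lit 2) (nat_lit 0x8000000024007e002d0010001200080000000000000000000000000000000) (nat_lit 0x0) (nat_lit 0x180000000000020000000000000000000000000000000000000000) := D_8 (nat_lit 211) (nat_lit 161) (nat_lit 212) (nat_lit 6) (nat_lit 7) (nat_lit 12) (nat_lit 3) (nat_lit 4) (nat_lit 11) (by decide +kernel)
theorem L52387 : W_8 (nat_lit 3) (nat_lit 0x8000000024003e002d0010001200080000000000000000000000000000000) (nat_lit 0x0) (nat_lit 0x18000c000000020000000000000000000000000000000000000000) := T_8 (nat_lit 194) (nat_lit 195) (nat_lit 0) (nat_lit 8) (nat_lit 11) L52386 (by decide +kernel)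
theorem L52388 : W_8 (nat_lit 4) (nat_lit 0x8000000024001e002d0010001200080000000000000000000000000000000) (nat_lit 0x0) (nat_lit 0x18800e000000020000000000000000000000000000000000000000) := T_8 (nat_lit 193) (nat_lit 207) (nat_lit 1) (nat_lit 6) (nat_lit 11) L52387 (by decide +kernel)
theorem L52389 : W_8 (nat_lit 5) (nat_lit 0x8000000020001e002d0010001200080000000000000000000000000000000) (nat_lit 0x0) (nat_lit 0x18e00e000000020000000000000000000000000000000000000000) := T_8 (nat_lit 206) (nat_lit 205) (nat_lit 1) (nat_lit 5) (nat_lit 11) L52388 (by decide +kernel)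
theorem L52390 : W_8 (nat_lit 6) (nat_lit 0x20001e002d0010001200080000000000000000000000000000000) (nat_lit 0x0) (nat_lit 0x800040018e00e000000020000000000000000000000000000000000000000) := T_8 (nat_lit 243) (nat_lit 226) (nat_lit 4) (nat_lit 5) (nat_lit 14) L52389 (by decide +kernel)
theorem L52391 : W_8 (nat_lit 7) (nat_lit 0x20001e002c0010001200080000000000000000000000000000000) (nat_lit 0x0) (nat_lit 0x800040018e00e000018020000000000000000000000000000000000000000) := T_8 (nat_lit 172) (nat_lit 171) (nat_lit 0) (nat_lit 5) (nat_lit 11) L52390 (by decide +kernel)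
theorem L52392 : W_8 (nat_lit 8) (nat_lit 0x1e002c0010001200080000000000000000000000000000000) (nat_lit 0x0) (nat_lit 0x80004001ee00e000018020000000000000000000000000000000000000000) := T_8 (nat_lit 209) (nat_lit 210) (nat_lit 3) (nat_lit 2) (nat_lit 11) L52391 (by decide +kernel)
theorem L52393 : W_8 (nat_lit 9) (nat_lit 0x1a002c0010001200080000000000000000000000000000000) (nat_lit 0x0) (nat_lit 0x80004001ee00e500018020000000000000000000000000000000000000000) := T_8 (nat_lit 190) (nat_lit 188) (nat_lit 2) (nat_lit 1) (nat_lit 11) L52392 (by decide +kernel)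
theorem L52394 : W_8 (nat_lit 2) (nat_lit 0x8000000024007e002c0010001200080000000000000000000000000000000) (nat_lit 0x0) (nat_lit 0x180000000000020000000000000000000000000000000000000000) := D_8 (nat_lit 211) (nat_lit 161) (nat_lit 212) (nat_lit 6) (nat_lit 7) (nat_lit 12) (nat_lit 3) (nat_lit 4) (nat_lit 11) (by decide +kernel)
theorem L52395 : W_8 (nat_lit 3) (nat_lit 0x8000000024003e002c0010001200080000000000000000000000000000000) (nat_lit 0x0) (nat_lit 0x18000c000000020000000000000000000000000000000000000000) := T_8 (nat_lit 194) (nat_lit 195) (nat_lit 0) (nat_lit 8) (nat_lit 11) L52394 (by decide +kernel)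
theorem L52396 : W_8 (nat_lit 4) (nat_lit 0x8000000024001e002c0010001200080000000000000000000000000000000) (nat_lit 0x0) (nat_lit 0x18800e000000020000000000000000000000000000000000000000) := T_8 (nat_lit 193) (nat_lit 207) (nat_lit 1) (nat_lit 6) (nat_lit 11) L52395 (by decide +kernel)
theorem L52397 : W_8 (nat_lit 5) (nat_lit 0x24001e002c0010001200080000000000000000000000000000000) (nat_lit 0x0) (nat_lit 0x800040018800e000000020000000000000000000000000000000000000000) := T_8 (nat_lit 243) (nat_lit 226) (nat_lit 4) (nat_lit 5) (nat_lit 14) L52396 (by decide +kernel)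
theorem L52398 : W_8 (nat_lit 6) (nat_lit 0x20001e002c0010001200080000000000000000000000000000000) (nat_lit 0x0) (nat_lit 0x800040018e00e000000020000000000000000000000000000000000000000) := T_8 (nat_lit 206) (nat_lit 205) (nat_lit 1) (nat_lit 5) (nat_lit 11) L52397 (by decide +kernel)
theorem L52399 : W_8 (nat_lit 7) (nat_lit 0x1e002c0010001200080000000000000000000000000000000) (nat_lit 0x0) (nat_lit 0x80004001ee00e000000020000000000000000000000000000000000000000) := T_8 (nat_lit 209) (nat_lit 210) (nat_lit 3) (nat_lit 2) (nat_lit 11) L52398 (by decide +kernel)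
theorem L52400 : W_8 (nat_lit 8) (nat_lit 0x1a002c0010001200080000000000000000000000000000000) (nat_lit 0x0) (nat_lit 0x80004001ee00e500000020000000000000000000000000000000000000000) := T_8 (nat_lit 190) (nat_lit 188) (nat_lit 2) (nat_lit 1) (nat_lit 11) L52399 (by decide +kernel)
theorem L52401 : W_8 (nat_lit 2) (nat_lit 0x4007e002d0010001200080000000000000000000000000000000) (nat_lit 0x0) (nat_lit 0x180000000000020000000000000000000000000000000000000000) := D_8 (nat_lit 211) (nat_lit 212) (nat_lit 161) (nat_lit 3) (nat_lit 4) (nat_lit 11) (nat_lit 6) (nat_lit 7) (nat_lit 12) (by decide +kernel)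
theorem L52402 : W_8 (nat_lit 3) (nat_lit 0x4003e002d0010001200080000000000000000000000000000000) (nat_lit 0x0) (nat_lit 0x18000c000000020000000000000000000000000000000000000000) := T_8 (nat_lit 194) (nat_lit 195) (nat_lit 0) (nat_lit 8) (nat_lit 11) L52401 (by decide +kernel)
theorem L52403 : W_8 (nat_lit 4) (nat_lit 0x4001e002d0010001200080000000000000000000000000000000) (nat_lit 0x0) (nat_lit 0x18800e000000020000000000000000000000000000000000000000) := T_8 (nat_lit 193) (nat_lit 207) (nat_lit 1) (nat_lit 6) (nat_lit 11) L52402 (by decide +kernel)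
theorem L52404 : W_8 (nat_lit 5) (nat_lit 0x1e002d0010001200080000000000000000000000000000000) (nat_lit 0x0) (nat_lit 0x18e00e000000020000000000000000000000000000000000000000) := T_8 (nat_lit 206) (nat_lit 205) (nat_lit 1) (nat_lit 5) (nat_lit 11) L52403 (by decide +kernel)
theorem L52405 : W_8 (nat_lit 6) (nat_lit 0x1e002c0010001200080000000000000000000000000000000) (nat_lit 0x0) (nat_lit 0x18e00e000018020000000000000000000000000000000000000000) := T_8 (nat_lit 172) (nat_lit 171) (nat_lit 0) (nat_lit 5) (nat_lit 11) L52404 (by decide +kernel)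
theorem L52406 : W_8 (nat_lit 7) (nat_lit 0x1a002c0010001200080000000000000000000000000000000) (nat_lit 0x0) (nat_lit 0x18e00e500018020000000000000000000000000000000000000000) := T_8 (nat_lit 190) (nat_lit 188) (nat_lit 2) (nat_lit 1) (nat_lit 11) L52405 (by decide +kernel)
theorem L52407 : W_8 (nat_lit 5) (nat_lit 0x400020001e002d0010001200080000000000000000000000000000000) (nat_lit 0x0) (nat_lit 0x14000b0001e000000000000000000000000000000000000000000000000000) := T_8 (nat_lit 206) (nat_lit 205) (nat_lit 1) (nat_lit 5) (nat_lit 11) L51894 (by decide +kernel)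
theorem L52408 : W_8 (nat_lit 6) (nat_lit 0x20001e002d0010001200080000000000000000000000000000000) (nat_lit 0x0) (nat_lit 0x1c000f0001e000000000000000000000000000000000000000000000000000) := T_8 (nat_lit 226) (nat_lit 243) (nat_lit 4) (nat_lit 5) (nat_lit 14) L52407 (by decide +kernel)
theorem L52409 : W_8 (nat_lit 7) (nat_lit 0x20001e002c0010001200080000000000000000000000000000000) (nat_lit 0x0) (nat_lit 0x1c000f0001e000000018000000000000000000000000000000000000000000) := T_8 (nat_lit 172) (nat_lit 171) (nat_lit 0) (nat_lit 5) (nat_lit 11) L52408 (by decide +kernel)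
theorem L52410 : W_8 (nat_lit 8) (nat_lit 0x1e002c0010001200080000000000000000000000000000000) (nat_lit 0x0) (nat_lit 0x1c000f0007e000000018000000000000000000000000000000000000000000) := T_8 (nat_lit 209) (nat_lit 210) (nat_lit 3) (nat_lit 2) (nat_lit 11) L52409 (by decide +kernel)
theorem L52411 : W_8 (nat_lit 9) (nat_lit 0x1a002c0010001200080000000000000000000000000000000) (nat_lit 0x0) (nat_lit 0x1c000f0007e000500018000000000000000000000000000000000000000000) := T_8 (nat_lit 190) (nat_lit 188) (nat_lit 2) (nat_lit 1) (nat_lit 11) L52410 (by decide +kernel)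
theorem L52412 : W_8 (nat_lit 2) (nat_lit 0x400000001c001a002c0010001200080000000000000000000000000000000) (nat_lit 0x0) (nat_lit 0x20006000000000000000000000000000000000000000000000000) := D_8 (nat_lit 193) (nat_lit 194) (nat_lit 209) (nat_lit 1) (nat_lit 7) (nat_lit 11) (nat_lit 2) (nat_lit 2) (nat_lit 12) (by decide +kernel)
theorem L52413 : W_8 (nat_lit 3) (nat_lit 0x4000000018001a002c0010001200080000000000000000000000000000000) (nat_lit 0x0) (nat_lit 0x26006000000000000000000000000000000000000000000000000) := T_8 (nat_lit 206) (nat_lit 205) (nat_lit 2) (nat_lit 1) (nat_lit 12) L52412 (by decide +kernel)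
theorem L52414 : W_8 (nat_lit 4) (nat_lit 0x18001a002c0010001200080000000000000000000000000000000) (nat_lit 0x0) (nat_lit 0x4000200026006000000000000000000000000000000000000000000000000) := T_8 (nat_lit 242) (nat_lit 225) (nat_lit 6) (nat_lit 4) (nat_lit 14) L52413 (by decide +kernel)
theorem L52415 : W_8 (nat_lit 2) (nat_lit 0x30001c005a002c0010001200080000000000000000000000000000000) (nat_lit 0x0) (nat_lit 0x8000c00000000000000000000000000000000000000000000000000000000) := D_8 (nat_lit 226) (nat_lit 227) (nat_lit 243) (nat_lit 0) (nat_lit 6) (nat_lit 13) (nat_lit 7) (nat_lit 4) (nat_lit 10) (by decide +kernel)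
theorem L52416 : W_8 (nat_lit 3) (nat_lit 0x20001c005a002c0010001200080000000000000000000000000000000) (nat_lit 0x0) (nat_lit 0xa000d00000000000000000000000000000000000000000000000000000000) := T_8 (nat_lit 224) (nat_lit 241) (nat_lit 5) (nat_lit 4) (nat_lit 10) L52415 (by decide +kernel)
theorem L52417 : W_8 (nat_lit 4) (nat_lit 0x200018005a002c0010001200080000000000000000000000000000000) (nat_lit 0x0) (nat_lit 0xa000d00006000000000000000000000000000000000000000000000000000) := T_8 (nat_lit 206) (nat_lit 205) (nat_lit 2) (nat_lit 1) (nat_lit 12) L52416 (by decide +kernel)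
theorem L52418 : W_8 (nat_lit 5) (nat_lit 0x18005a002c0010001200080000000000000000000000000000000) (nat_lit 0x0) (nat_lit 0xe000f00006000000000000000000000000000000000000000000000000000) := T_8 (nat_lit 225) (nat_lit 242) (nat_lit 6) (nat_lit 4) (nat_lit 14) L52417 (by decide +kernel)
theorem L52419 : W_8 (nat_lit 6) (nat_lit 0x18001a002c0010001200080000000000000000000000000000000) (nat_lit 0x0) (nat_lit 0xe000f00006006000000000000000000000000000000000000000000000000) := T_8 (nat_lit 194) (nat_lit 193) (nat_lit 1) (nat_lit 7) (nat_lit 11) L52418 (by decide +kernel)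
theorem L52420 : W_8 (nat_lit 2) (nat_lit 0xf0001a001a002c0010001200080000000000000000000000000000000) (nat_lit 0x0) (nat_lit 0x30000000020000000000000000000000000000000000000000000000000000) := D_8 (nat_lit 244) (nat_lit 245) (nat_lit 209) (nat_lit 3) (nat_lit 3) (nat_lit 13) (nat_lit 7) (nat_lit 5) (nat_lit 10) (by decide +kernel)
theorem L52421 : W_8 (nat_lit 3) (nat_lit 0xe0001a001a002c0010001200080000000000000000000000000000000) (nat_lit 0x0) (nat_lit 0x32000100020000000000000000000000000000000000000000000000000000) := T_8 (nat_lit 224) (nat_lit 241) (nat_lit 5) (nat_lit 4) (nat_lit 10) L52420 (by decide +kernel)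
theorem L52422 : W_8 (nat_lit 4) (nat_lit 0x60001a001a002c0010001200080000000000000000000000000000000) (nat_lit 0x0) (nat_lit 0x32001900020000000000000000000000000000000000000000000000000000) := T_8 (nat_lit 227) (nat_lit 228) (nat_lit 0) (nat_lit 7) (nat_lit 13) L52421 (by decide +kernel)
theorem L52423 : W_8 (nat_lit 5) (nat_lit 0x20001a001a002c0010001200080000000000000000000000000000000) (nat_lit 0x0) (nat_lit 0x3a001d00020000000000000000000000000000000000000000000000000000) := T_8 (nat_lit 226) (nat_lit 243) (nat_lit 7) (nat_lit 4) (nat_lit 10) L52422 (by decide +kernel)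
theorem L52424 : W_8 (nat_lit 6) (nat_lit 0x1a001a002c0010001200080000000000000000000000000000000) (nat_lit 0x0) (nat_lit 0x3e001f00020000000000000000000000000000000000000000000000000000) := T_8 (nat_lit 225) (nat_lit 242) (nat_lit 6) (nat_lit 4) (nat_lit 14) L52423 (by decide +kernel)
theorem L52425 : W_8 (nat_lit 7) (nat_lit 0x18001a002c0010001200080000000000000000000000000000000) (nat_lit 0x0) (nat_lit 0x3e001f00026000000000000000000000000000000000000000000000000000) := T_8 (nat_lit 205) (nat_lit 206) (nat_lit 2) (nat_lit 1) (nat_lit 12) L52424 (by decide +kernel)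
theorem L52426 : W_8 (nat_lit 2) (nat_lit 0x3c005a002c0010001200080000000000000000000000000000000) (nat_lit 0x0) (nat_lit 0x8000c00000000000000000000000000000000000000000000000000000000) := D_8 (nat_lit 226) (nat_lit 227) (nat_lit 243) (nat_lit 3) (nat_lit 2) (nat_lit 12) (nat_lit 4) (nat_lit 5) (nat_lit 14) (by decide +kernel)
theorem L52427 : W_8 (nat_lit 3) (nat_lit 0x1c005a002c0010001200080000000000000000000000000000000) (nat_lit 0x0) (nat_lit 0x8000c00020000100000000000000000000000000000000000000000000000) := T_8 (nat_lit 209) (nat_lit 188) (nat_lit 0) (nat_lit 5) (nat_lit 12) L52426 (by decide +kernel)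
theorem L52428 : W_8 (nat_lit 4) (nat_lit 0x18005a002c0010001200080000000000000000000000000000000) (nat_lit 0x0) (nat_lit 0x8000c00026000100000000000000000000000000000000000000000000000) := T_8 (nat_lit 206) (nat_lit 205) (nat_lit 2) (nat_lit 1) (nat_lit 12) L52427 (by decide +kernel)
theorem L52429 : W_8 (nat_lit 5) (nat_lit 0x18001a002c0010001200080000000000000000000000000000000) (nat_lit 0x0) (nat_lit 0x8000c00026006100000000000000000000000000000000000000000000000) := T_8 (nat_lit 194) (nat_lit 193) (nat_lit 1) (nat_lit 7) (nat_lit 11) L52428 (by decide +kernel)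
theorem L52430 : W_8 (nat_lit 2) (nat_lit 0xf00018005a002c0010001200080000000000000000000000000000000) (nat_lit 0x0) (nat_lit 0x30000000020000000000000000000000000000000000000000000000000000) := D_8 (nat_lit 244) (nat_lit 245) (nat_lit 209) (nat_lit 3) (nat_lit 3) (nat_lit 13) (nat_lit 7) (nat_lit 5) (nat_lit 10) (by decide +kernel)
theorem L52431 : W_8 (nat_lit 3) (nat_lit 0x700018005a002c0010001200080000000000000000000000000000000) (nat_lit 0x0) (nat_lit 0x30001800020000000000000000000000000000000000000000000000000000) := T_8 (nat_lit 227) (nat_lit 228) (nat_lit 0) (nat_lit 7) (nat_lit 13) L52430 (by decide +kernel)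
theorem L52432 : W_8 (nat_lit 4) (nat_lit 0x300018005a002c0010001200080000000000000000000000000000000) (nat_lit 0x0) (nat_lit 0x38001c00020000000000000000000000000000000000000000000000000000) := T_8 (nat_lit 226) (nat_lit 243) (nat_lit 7) (nat_lit 4) (nat_lit 10) L52431 (by decide +kernel)
theorem L52433 : W_8 (nat_lit 5) (nat_lit 0x200018005a002c0010001200080000000000000000000000000000000) (nat_lit 0x0) (nat_lit 0x3a001d00020000000000000000000000000000000000000000000000000000) := T_8 (nat_lit 224) (nat_lit 241) (nat_lit 5) (nat_lit 4) (nat_lit 10) L52432 (by decide +kernel)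
theorem L52434 : W_8 (nat_lit 6) (nat_lit 0x200018001a002c0010001200080000000000000000000000000000000) (nat_lit 0x0) (nat_lit 0x3a001d00020006000000000000000000000000000000000000000000000000) := T_8 (nat_lit 194) (nat_lit 193) (nat_lit 1) (nat_lit 7) (nat_lit 11) L52433 (by decide +kernel)
theorem L52435 : W_8 (nat_lit 7) (nat_lit 0x18001a002c0010001200080000000000000000000000000000000) (nat_lit 0x0) (nat_lit 0x3e001f00020006000000000000000000000000000000000000000000000000) := T_8 (nat_lit 225) (nat_lit 242) (nat_lit 6) (nat_lit 4) (nat_lit 14) L52434 (by decide +kernel)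
theorem L52436 : W_8 (nat_lit 8) (nat_lit 0x10001a002c0010001200080000000000000000000000000000000) (nat_lit 0x0) (nat_lit 0x3e001f0002e006100000000000000000000000000000000000000000000000) := Q_8 (nat_lit 207) (C_8 L52414 (C_8 L52419 (C_8 L52425 (C_8 L52429 (C_8 L52435 N_8))))) (by decide +kernel)
theorem L52437 : W_8 (nat_lit 2) (nat_lit 0x4002800090005a002c0010001200080000000000000000000000000000000) (nat_lit 0x0) (nat_lit 0x50001000000000000000000000000000000000000000000000000000000000) := D_8 (nat_lit 228) (nat_lit 246) (nat_lit 244) (nat_lit 7) (nat_lit 7) (nat_lit 10) (nat_lit 5) (nat_lit 7) (nat_lit 10) (by decide +kernel)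
theorem L52438 : W_8 (nat_lit 3) (nat_lit 0x4002000090005a002c0010001200080000000000000000000000000000000) (nat_lit 0x0) (nat_lit 0x50001800040000000000000000000000000000000000000000000000000000) := T_8 (nat_lit 227) (nat_lit 210) (nat_lit 5) (nat_lit 7) (nat_lit 9) L52437 (by decide +kernel)
theorem L52439 : W_8 (nat_lit 4) (nat_lit 0x4000000090005a002c0010001200080000000000000000000000000000000) (nat_lit 0x0) (nat_lit 0x50003800140000000000000000000000000000000000000000000000000000) := T_8 (nat_lit 229) (nat_lit 212) (nat_lit 7) (nat_lit 7) (nat_lit 9) L52438 (by decide +kernel)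
theorem L52440 : W_8 (nat_lit 5) (nat_lit 0x4000000010005a002c0010001200080000000000000000000000000000000) (nat_lit 0x0) (nat_lit 0x500038001c0000000000020000000000000000000000000000000000000000) := T_8 (nat_lit 211) (nat_lit 161) (nat_lit 6) (nat_lit 7) (nat_lit 12) L52439 (by decide +kernel)
theorem L52441 : W_8 (nat_lit 6) (nat_lit 0x10005a002c0010001200080000000000000000000000000000000) (nat_lit 0x0) (nat_lit 0x54003a001c0000000000020000000000000000000000000000000000000000) := T_8 (nat_lit 242) (nat_lit 225) (nat_lit 6) (nat_lit 4) (nat_lit 14) L52440 (by decide +kernel)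
theorem L52442 : W_8 (nat_lit 7) (nat_lit 0x10001a002c0010001200080000000000000000000000000000000) (nat_lit 0x0) (nat_lit 0x54003a001c800e000000020000000000000000000000000000000000000000) := Q_8 (nat_lit 194) (C_8 L52309 (C_8 L52441 N_8)) (by decide +kernel)
theorem L52443 : W_8 (nat_lit 2) (nat_lit 0x33400b0005a002c0010001200080000000000000000000000000000000) (nat_lit 0x0) (nat_lit 0x10000c00000000000000000000000000000000000000000000000000000000) := D_8 (nat_lit 227) (nat_lit 244) (nat_lit 226) (nat_lit 5) (nat_lit 7) (nat_lit 10) (nat_lit 0) (nat_lit 8) (nat_lit 13) (by decide +kernel)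
theorem L52444 : W_8 (nat_lit 3) (nat_lit 0x23400b0005a002c0010001200080000000000000000000000000000000) (nat_lit 0x0) (nat_lit 0x50001c00000000000000000000000000000000000000000000000000000000) := T_8 (nat_lit 228) (nat_lit 246) (nat_lit 7) (nat_lit 7) (nat_lit 10) L52443 (by decide +kernel)
theorem L52445 : W_8 (nat_lit 4) (nat_lit 0x3400b0005a002c0010001200080000000000000000000000000000000) (nat_lit 0x0) (nat_lit 0x50003c00100000000000000000000000000000000000000000000000000000) := T_8 (nat_lit 229) (nat_lit 212) (nat_lit 7) (nat_lit 7) (nat_lit 9) L52444 (by decide +kernel)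
theorem L52446 : W_8 (nat_lit 5) (nat_lit 0x3400b0001a002c0010001200080000000000000000000000000000000) (nat_lit 0x0) (nat_lit 0x50003c00100004000000020000000000000000000000000000000000000000) := T_8 (nat_lit 194) (nat_lit 161) (nat_lit 6) (nat_lit 7) (nat_lit 12) L52445 (by decide +kernel)
theorem L52447 : W_8 (nat_lit 6) (nat_lit 0x340030001a002c0010001200080000000000000000000000000000000) (nat_lit 0x0) (nat_lit 0x50003c001c0004000000020000000000000000000000000000000000000000) := T_8 (nat_lit 211) (nat_lit 210) (nat_lit 1) (nat_lit 7) (nat_lit 12) L52446 (by decide +kernel)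
theorem L52448 : W_8 (nat_lit 7) (nat_lit 0x300030001a002c0010001200080000000000000000000000000000000) (nat_lit 0x0) (nat_lit 0x50003cc01c0004000000020000000000000000000000000000000000000000) := T_8 (nat_lit 222) (nat_lit 223) (nat_lit 2) (nat_lit 1) (nat_lit 13) L52447 (by decide +kernel)
theorem L52449 : W_8 (nat_lit 8) (nat_lit 0x200030001a002c0010001200080000000000000000000000000000000) (nat_lit 0x0) (nat_lit 0x52003dc01c0004000000020000000000000000000000000000000000000000) := T_8 (nat_lit 224) (nat_lit 241) (nat_lit 5) (nat_lit 4) (nat_lit 10) L52448 (by decide +kernel)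
theorem L52450 : W_8 (nat_lit 9) (nat_lit 0x30001a002c0010001200080000000000000000000000000000000) (nat_lit 0x0) (nat_lit 0x56003fc01c0004000000020000000000000000000000000000000000000000) := T_8 (nat_lit 225) (nat_lit 242) (nat_lit 6) (nat_lit 4) (nat_lit 14) L52449 (by decide +kernel)
theorem L52451 : W_8 (nat_lit 2) (nat_lit 0x4000c00038001a002c0010001200080000000000000000000000000000000) (nat_lit 0x0) (nat_lit 0x3000040000000000000000000000000000000000000000000000000000) := D_8 (nat_lit 228) (nat_lit 229) (nat_lit 210) (nat_lit 0) (nat_lit 8) (nat_lit 13) (nat_lit 3) (nat_lit 3) (nat_lit 12) (by decide +kernel)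
theorem L52452 : W_8 (nat_lit 3) (nat_lit 0x4000c00030001a002c0010001200080000000000000000000000000000000) (nat_lit 0x0) (nat_lit 0x300004c000000000000000000000000000000000000000000000000000) := T_8 (nat_lit 207) (nat_lit 206) (nat_lit 3) (nat_lit 2) (nat_lit 12) L52451 (by decide +kernel)
theorem L52453 : W_8 (nat_lit 4) (nat_lit 0x4000400030001a002c0010001200080000000000000000000000000000000) (nat_lit 0x0) (nat_lit 0x1000380004c000000000000000000000000000000000000000000000000000) := T_8 (nat_lit 227) (nat_lit 244) (nat_lit 7) (nat_lit 5) (nat_lit 10) L52452 (by decide +kernel)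
theorem L52454 : W_8 (nat_lit 5) (nat_lit 0x4000000030001a002c0010001200080000000000000000000000000000000) (nat_lit 0x0) (nat_lit 0x18003c0004c000000000000000000000000000000000000000000000000000) := T_8 (nat_lit 226) (nat_lit 243) (nat_lit 4) (nat_lit 5) (nat_lit 14) L52453 (by decide +kernel)
theorem L52455 : W_8 (nat_lit 6) (nat_lit 0x30001a002c0010001200080000000000000000000000000000000) (nat_lit 0x0) (nat_lit 0x1c003e0004c000000000000000000000000000000000000000000000000000) := T_8 (nat_lit 242) (nat_lit 225) (nat_lit 6) (nat_lit 4) (nat_lit 14) L52454 (by decide +kernel)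
theorem L52456 : W_8 (nat_lit 2) (nat_lit 0xe00030001a002c0010001200080000000000000000000000000000000) (nat_lit 0x0) (nat_lit 0x100000c000000000000000000000000000000000000000000000000000) := D_8 (nat_lit 207) (nat_lit 206) (nat_lit 228) (nat_lit 3) (nat_lit 2) (nat_lit 12) (nat_lit 0) (nat_lit 7) (nat_lit 13) (by decide +kernel)
theorem L52457 : W_8 (nat_lit 3) (nat_lit 0x600030001a002c0010001200080000000000000000000000000000000) (nat_lit 0x0) (nat_lit 0x1000180000c000000000000000000000000000000000000000000000000000) := T_8 (nat_lit 227) (nat_lit 244) (nat_lit 7) (nat_lit 5) (nat_lit 10) L52456 (by decide +kernel)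
theorem L52458 : W_8 (nat_lit 4) (nat_lit 0x400030001a002c0010001200080000000000000000000000000000000) (nat_lit 0x0) (nat_lit 0x14001a0000c000000000000000000000000000000000000000000000000000) := T_8 (nat_lit 225) (nat_lit 242) (nat_lit 6) (nat_lit 4) (nat_lit 14) L52457 (by decide +kernel)
theorem L52459 : W_8 (nat_lit 5) (nat_lit 0x30001a002c0010001200080000000000000000000000000000000) (nat_lit 0x0) (nat_lit 0x1c001e0000c000000000000000000000000000000000000000000000000000) := T_8 (nat_lit 226) (nat_lit 243) (nat_lit 4) (nat_lit 5) (nat_lit 14) L52458 (by decide +kernel)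
theorem L52460 : W_8 (nat_lit 2) (nat_lit 0x380030001a002c0010001200080000000000000000000000000000000) (nat_lit 0x0) (nat_lit 0xc8000000000000000000000000000000000000000000000000000) := D_8 (nat_lit 210) (nat_lit 211) (nat_lit 207) (nat_lit 1) (nat_lit 7) (nat_lit 12) (nat_lit 1) (nat_lit 6) (nat_lit 12) (by decide +kernel)
theorem L52461 : W_8 (nat_lit 3) (nat_lit 0x300030001a002c0010001200080000000000000000000000000000000) (nat_lit 0x0) (nat_lit 0xc00c8000000000000000000000000000000000000000000000000000) := T_8 (nat_lit 223) (nat_lit 222) (nat_lit 2) (nat_lit 1) (nat_lit 13) L52460 (by decide +kernel)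
theorem L52462 : W_8 (nat_lit 4) (nat_lit 0x200030001a002c0010001200080000000000000000000000000000000) (nat_lit 0x0) (nat_lit 0x20001c00c8000000000000000000000000000000000000000000000000000) := T_8 (nat_lit 224) (nat_lit 241) (nat_lit 5) (nat_lit 4) (nat_lit 10) L52461 (by decide +kernel)
theorem L52463 : W_8 (nat_lit 5) (nat_lit 0x30001a002c0010001200080000000000000000000000000000000) (nat_lit 0x0) (nat_lit 0x60003c00c8000000000000000000000000000000000000000000000000000) := T_8 (nat_lit 225) (nat_lit 242) (nat_lit 6) (nat_lit 4) (nat_lit 14) L52462 (by decide +kernel)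
theorem L52464 : W_8 (nat_lit 2) (nat_lit 0xc00038001a002c0010001200080000000000000000000000000000000) (nat_lit 0x0) (nat_lit 0x3000040000000000000000000000000000000000000000000000000000) := D_8 (nat_lit 228) (nat_lit 229) (nat_lit 210) (nat_lit 0) (nat_lit 8) (nat_lit 13) (nat_lit 3) (nat_lit 3) (nat_lit 12) (by decide +kernel)
theorem L52465 : W_8 (nat_lit 3) (nat_lit 0xc00030001a002c0010001200080000000000000000000000000000000) (nat_lit 0x0) (nat_lit 0x300004c000000000000000000000000000000000000000000000000000) := T_8 (nat_lit 207) (nat_lit 206) (nat_lit 3) (nat_lit 2) (nat_lit 12) L52464 (by decide +kernel)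
theorem L52466 : W_8 (nat_lit 4) (nat_lit 0x400030001a002c0010001200080000000000000000000000000000000) (nat_lit 0x0) (nat_lit 0x1000380004c000000000000000000000000000000000000000000000000000) := T_8 (nat_lit 227) (nat_lit 244) (nat_lit 7) (nat_lit 5) (nat_lit 10) L52465 (by decide +kernel)
theorem L52467 : W_8 (nat_lit 5) (nat_lit 0x30001a002c0010001200080000000000000000000000000000000) (nat_lit 0x0) (nat_lit 0x18003c0004c000000000000000000000000000000000000000000000000000) := T_8 (nat_lit 226) (nat_lit 243) (nat_lit 4) (nat_lit 5) (nat_lit 14) L52466 (by decide +kernel)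
theorem L52468 : W_8 (nat_lit 10) (nat_lit 0x10001a002c0010001200080000000000000000000000000000000) (nat_lit 0x0) (nat_lit 0x5e003fc01ec004000000020000000000000000000000000000000000000000) := Q_8 (nat_lit 209) (C_8 L52450 (C_8 L52455 (C_8 L52459 (C_8 L52463 (C_8 L52467 N_8))))) (by decide +kernel)
theorem L52469 : W_8 (nat_lit 2) (nat_lit 0x700030001a002c0010001200080000000000000000000000000000000) (nat_lit 0x0) (nat_lit 0xc0040000000000000000000000000000000000000000000000000000) := D_8 (nat_lit 223) (nat_lit 210) (nat_lit 222) (nat_lit 2) (nat_lit 2) (nat_lit 13) (nat_lit 2) (nat_lit 1) (nat_lit 13) (by decide +kernel)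
theorem L52470 : W_8 (nat_lit 3) (nat_lit 0x600030001a002c0010001200080000000000000000000000000000000) (nat_lit 0x0) (nat_lit 0x20001c0040000000000000000000000000000000000000000000000000000) := T_8 (nat_lit 224) (nat_lit 241) (nat_lit 5) (nat_lit 4) (nat_lit 10) L52469 (by decide +kernel)
theorem L52471 : W_8 (nat_lit 4) (nat_lit 0x200030001a002c0010001200080000000000000000000000000000000) (nat_lit 0x0) (nat_lit 0xa0005c0040000000000000000000000000000000000000000000000000000) := T_8 (nat_lit 226) (nat_lit 243) (nat_lit 7) (nat_lit 4) (nat_lit 10) L52470 (by decide +kernel)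
theorem L52472 : W_8 (nat_lit 5) (nat_lit 0x30001a002c0010001200080000000000000000000000000000000) (nat_lit 0x0) (nat_lit 0xe0007c0040000000000000000000000000000000000000000000000000000) := T_8 (nat_lit 225) (nat_lit 242) (nat_lit 6) (nat_lit 4) (nat_lit 14) L52471 (by decide +kernel)
theorem L52473 : W_8 (nat_lit 6) (nat_lit 0x10001a002c0010001200080000000000000000000000000000000) (nat_lit 0x0) (nat_lit 0x1e003fc00ec000000000000000000000000000000000000000000000000000) := Q_8 (nat_lit 209) (C_8 L52463 (C_8 L52467 (C_8 L52459 (C_8 L52472 N_8)))) (by decide +kernel)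
theorem L52474 : W_8 (nat_lit 2) (nat_lit 0x4000000090005a002c0010001200080000000000000000000000000000000) (nat_lit 0x0) (nat_lit 0x2000100002000000000000000000000000000000000000000000000000) := D_8 (nat_lit 212) (nat_lit 229) (nat_lit 193) (nat_lit 7) (nat_lit 7) (nat_lit 9) (nat_lit 3) (nat_lit 4) (nat_lit 11) (by decide +kernel)
theorem L52475 : W_8 (nat_lit 3) (nat_lit 0x4000000090001a002c0010001200080000000000000000000000000000000) (nat_lit 0x0) (nat_lit 0x2000100006000000020000000000000000000000000000000000000000) := T_8 (nat_lit 194) (nat_lit 161) (nat_lit 6) (nat_lit 7) (nat_lit 12) L52474 (by decide +kernel)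
theorem L52476 : W_8 (nat_lit 4) (nat_lit 0x90001a002c0010001200080000000000000000000000000000000) (nat_lit 0x0) (nat_lit 0x4002200100006000000020000000000000000000000000000000000000000) := T_8 (nat_lit 242) (nat_lit 225) (nat_lit 6) (nat_lit 4) (nat_lit 14) L52475 (by decide +kernel)
theorem L52477 : W_8 (nat_lit 3) (nat_lit 0x90005a002c0010001200080000000000000000000000000000000) (nat_lit 0x0) (nat_lit 0x2800160000000000000000000000000000000000000000000000000000) := T_8 (nat_lit 212) (nat_lit 229) (nat_lit 7) (nat_lit 7) (nat_lit 9) L52301 (by decide +kernel)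
theorem L52478 : W_8 (nat_lit 4) (nat_lit 0x90001a002c0010001200080000000000000000000000000000000) (nat_lit 0x0) (nat_lit 0x2800160004000000020000000000000000000000000000000000000000) := T_8 (nat_lit 194) (nat_lit 161) (nat_lit 6) (nat_lit 7) (nat_lit 12) L52477 (by decide +kernel)
theorem L52479 : W_8 (nat_lit 2) (nat_lit 0x700090001a002c0010001200080000000000000000000000000000000) (nat_lit 0x0) (nat_lit 0x800060000000000000000000000000000000000000000000000000000) := D_8 (nat_lit 210) (nat_lit 227) (nat_lit 209) (nat_lit 2) (nat_lit 3) (nat_lit 13) (nat_lit 1) (nat_lit 7) (nat_lit 12) (by decide +kernel)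
theorem L52480 : W_8 (nat_lit 3) (nat_lit 0x600090001a002c0010001200080000000000000000000000000000000) (nat_lit 0x0) (nat_lit 0x2000900060000000000000000000000000000000000000000000000000000) := T_8 (nat_lit 224) (nat_lit 241) (nat_lit 5) (nat_lit 4) (nat_lit 10) L52479 (by decide +kernel)
theorem L52481 : W_8 (nat_lit 4) (nat_lit 0x200090001a002c0010001200080000000000000000000000000000000) (nat_lit 0x0) (nat_lit 0xa000d00060000000000000000000000000000000000000000000000000000) := T_8 (nat_lit 226) (nat_lit 243) (nat_lit 7) (nat_lit 4) (nat_lit 10) L52480 (by decide +kernel)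
theorem L52482 : W_8 (nat_lit 5) (nat_lit 0x90001a002c0010001200080000000000000000000000000000000) (nat_lit 0x0) (nat_lit 0xe000f00060000000000000000000000000000000000000000000000000000) := T_8 (nat_lit 225) (nat_lit 242) (nat_lit 6) (nat_lit 4) (nat_lit 14) L52481 (by decide +kernel)
theorem L52483 : W_8 (nat_lit 6) (nat_lit 0x10001a002c0010001200080000000000000000000000000000000) (nat_lit 0x0) (nat_lit 0xe002f001e0006000000020000000000000000000000000000000000000000) := Q_8 (nat_lit 211) (C_8 L52476 (C_8 L52478 (C_8 L52482 N_8))) (by decide +kernel)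
theorem L52484 : W_8 (nat_lit 4) (nat_lit 0x10005a002c0010001200080000000000000000000000000000000) (nat_lit 0x0) (nat_lit 0x28001e0000000000020000000000000000000000000000000000000000) := T_8 (nat_lit 211) (nat_lit 161) (nat_lit 6) (nat_lit 7) (nat_lit 12) L52477 (by decide +kernel)
theorem L52485 : W_8 (nat_lit 5) (nat_lit 0x10001a002c0010001200080000000000000000000000000000000) (nat_lit 0x0) (nat_lit 0x28001e800e000000020000000000000000000000000000000000000000) := Q_8 (nat_lit 194) (C_8 L52309 (C_8 L52484 N_8)) (by decide +kernel)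
theorem L52486 : W_8 (nat_lit 2) (nat_lit 0x10007800b4001a002c0010001200080000000000000000000000000000000) (nat_lit 0x0) (nat_lit 0x8000100008000000000000000000000000000000000000000000) := D_8 (nat_lit 188) (nat_lit 207) (nat_lit 171) (nat_lit 0) (nat_lit 5) (nat_lit 12) (nat_lit 4) (nat_lit 2) (nat_lit 14) (by decide +kernel)
theorem L52487 : W_8 (nat_lit 3) (nat_lit 0x7800b4001a002c0010001200080000000000000000000000000000000) (nat_lit 0x0) (nat_lit 0x1800000008000100008000000000000000000000000000000000000000000) := T_8 (nat_lit 240) (nat_lit 239) (nat_lit 1) (nat_lit 5) (nat_lit 13) L52486 (by decide +kernel)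
theorem L52488 : W_8 (nat_lit 4) (nat_lit 0x7800b0001a002c0010001200080000000000000000000000000000000) (nat_lit 0x0) (nat_lit 0x180000000e000100008000000000000000000000000000000000000000000) := T_8 (nat_lit 206) (nat_lit 205) (nat_lit 0) (nat_lit 5) (nat_lit 13) L52487 (by decide +kernel)
theorem L52489 : W_8 (nat_lit 5) (nat_lit 0x7000b0001a002c0010001200080000000000000000000000000000000) (nat_lit 0x0) (nat_lit 0x18000c000e000100008000000000000000000000000000000000000000000) := T_8 (nat_lit 223) (nat_lit 222) (nat_lit 2) (nat_lit 1) (nat_lit 13) L52488 (by decide +kernel)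
theorem L52490 : W_8 (nat_lit 6) (nat_lit 0x700090001a002c0010001200080000000000000000000000000000000) (nat_lit 0x0) (nat_lit 0x18000c006e000100008000000000000000000000000000000000000000000) := T_8 (nat_lit 209) (nat_lit 210) (nat_lit 1) (nat_lit 7) (nat_lit 12) L52489 (by decide +kernel)
theorem L52491 : W_8 (nat_lit 7) (nat_lit 0x600090001a002c0010001200080000000000000000000000000000000) (nat_lit 0x0) (nat_lit 0x38001c006e000100008000000000000000000000000000000000000000000) := T_8 (nat_lit 224) (nat_lit 241) (nat_lit 5) (nat_lit 4) (nat_lit 10) L52490 (by decide +kernel)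
theorem L52492 : W_8 (nat_lit 8) (nat_lit 0x200090001a002c0010001200080000000000000000000000000000000) (nat_lit 0x0) (nat_lit 0xb8005c006e000100008000000000000000000000000000000000000000000) := T_8 (nat_lit 226) (nat_lit 243) (nat_lit 7) (nat_lit 4) (nat_lit 10) L52491 (by decide +kernel)
theorem L52493 : W_8 (nat_lit 9) (nat_lit 0x90001a002c0010001200080000000000000000000000000000000) (nat_lit 0x0) (nat_lit 0xf8007c006e000100008000000000000000000000000000000000000000000) := T_8 (nat_lit 225) (nat_lit 242) (nat_lit 6) (nat_lit 4) (nat_lit 14) L52492 (by decide +kernel)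
theorem L52494 : W_8 (nat_lit 2) (nat_lit 0x90005a002c0010001200080000000000000000000000000000000) (nat_lit 0x0) (nat_lit 0x2000100002000000000000000000000000000000000000000000000000) := D_8 (nat_lit 212) (nat_lit 229) (nat_lit 193) (nat_lit 7) (nat_lit 7) (nat_lit 9) (nat_lit 3) (nat_lit 4) (nat_lit 11) (by decide +kernel)
theorem L52495 : W_8 (nat_lit 3) (nat_lit 0x90001a002c0010001200080000000000000000000000000000000) (nat_lit 0x0) (nat_lit 0x2000100006000000020000000000000000000000000000000000000000) := T_8 (nat_lit 194) (nat_lit 161) (nat_lit 6) (nat_lit 7) (nat_lit 12) L52494 (by decide +kernel)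
theorem L52496 : W_8 (nat_lit 10) (nat_lit 0x10001a002c0010001200080000000000000000000000000000000) (nat_lit 0x0) (nat_lit 0xf8027c01ee006100008020000000000000000000000000000000000000000) := Q_8 (nat_lit 211) (C_8 L52476 (C_8 L52493 (C_8 L52495 N_8))) (by decide +kernel)
theorem L52497 : W_8 (nat_lit 11) (nat_lit 0x1a002c0010001200080000000000000000000000000000000) (nat_lit 0x0) (nat_lit 0x7f803fc01fe00e100008020000000000000000000000000000000000000000) := Q_8 (nat_lit 208) (C_8 L52436 (C_8 L52442 (C_8 L52468 (C_8 L52473 (C_8 L52483 (C_8 L52485 (C_8 L52496 N_8))))))) (by decide +kernel)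
theorem L52498 : W_8 (nat_lit 2) (nat_lit 0xc0001e002d0010001200080000000000000000000000000000000) (nat_lit 0x0) (nat_lit 0x800000004000000020000000000000000000000000000000000000000) := D_8 (nat_lit 194) (nat_lit 227) (nat_lit 161) (nat_lit 5) (nat_lit 7) (nat_lit 9) (nat_lit 6) (nat_lit 7) (nat_lit 12) (by decide +kernel)
theorem L52499 : W_8 (nat_lit 3) (nat_lit 0x40001e002d0010001200080000000000000000000000000000000) (nat_lit 0x0) (nat_lit 0x800080006000000020000000000000000000000000000000000000000) := T_8 (nat_lit 211) (nat_lit 193) (nat_lit 3) (nat_lit 3) (nat_lit 11) L52498 (by decide +kernel)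
theorem L52500 : W_8 (nat_lit 4) (nat_lit 0x40001e002c0010001200080000000000000000000000000000000) (nat_lit 0x0) (nat_lit 0x800080006000018020000000000000000000000000000000000000000) := T_8 (nat_lit 172) (nat_lit 171) (nat_lit 0) (nat_lit 5) (nat_lit 11) L52499 (by decide +kernel)
theorem L52501 : W_8 (nat_lit 5) (nat_lit 0x1e002c0010001200080000000000000000000000000000000) (nat_lit 0x0) (nat_lit 0x8000e0006000018020000000000000000000000000000000000000000) := T_8 (nat_lit 210) (nat_lit 209) (nat_lit 3) (nat_lit 2) (nat_lit 11) L52500 (by decide +kernel)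
theorem L52502 : W_8 (nat_lit 6) (nat_lit 0x1a002c0010001200080000000000000000000000000000000) (nat_lit 0x0) (nat_lit 0x8000e0006500018020000000000000000000000000000000000000000) := T_8 (nat_lit 190) (nat_lit 188) (nat_lit 2) (nat_lit 1) (nat_lit 11) L52501 (by decide +kernel)
theorem L52503 : W_8 (nat_lit 9) (nat_lit 0x1a002c0010001200080000000000000000000000000000000) (nat_lit 0x0) (nat_lit 0x1c000f001fe00e400018020000000000000000000000000000000000000000) := Q_8 (nat_lit 190) (C_8 L52410 (C_8 L52405 (C_8 L52501 (C_8 L52399 N_8)))) (by decide +kernel)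
theorem L52504 : W_8 (nat_lit 12) (nat_lit 0xa002c0010001200080000000000000000000000000000000) (nat_lit 0x0) (nat_lit 0x7f803fc01fe00f500018020000000000000000000000000000000000000000) := Q_8 (nat_lit 192) (C_8 L52393 (C_8 L52400 (C_8 L52406 (C_8 L52411 (C_8 L52497 (C_8 L52502 (C_8 L52503 N_8))))))) (by decide +kernel)
theorem L52505 : W_8 (nat_lit 10) (nat_lit 0xa002c0010001200080000000000000000000000000000000) (nat_lit 0x0) (nat_lit 0x38001c006f003500038001e001e0007000080000000000000000000000000) := Q_8 (nat_lit 172) (C_8 L52150 (C_8 L51900 (C_8 L51841 (C_8 L51843 (C_8 L51835 N_8))))) (by decide +kernel)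
theorem L52506 : W_8 (nat_lit 2) (nat_lit 0xe000b002d0011801200080000000000000000000000000000000) (nat_lit 0x0) (nat_lit 0x10001080000000000000000000000000000000000000000000000) := D_8 (nat_lit 208) (nat_lit 192) (nat_lit 187) (nat_lit 2) (nat_lit 1) (nat_lit 12) (nat_lit 0) (nat_lit 4) (nat_lit 12) (by decide +kernel)
theorem L52507 : W_8 (nat_lit 3) (nat_lit 0x6000b002d0011801200080000000000000000000000000000000) (nat_lit 0x0) (nat_lit 0x100018001080000000000000000000000000000000000000000000000) := T_8 (nat_lit 207) (nat_lit 224) (nat_lit 7) (nat_lit 2) (nat_lit 9) L52506 (by decide +kernel)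
theorem L52508 : W_8 (nat_lit 4) (nat_lit 0x6000a002d0011801200080000000000000000000000000000000) (nat_lit 0x0) (nat_lit 0x100018001180000000000040000000000000000000000000000000000) := T_8 (nat_lit 188) (nat_lit 138) (nat_lit 5) (nat_lit 2) (nat_lit 8) L52507 (by decide +kernel)
theorem L52509 : W_8 (nat_lit 5) (nat_lit 0x6000a002d0010801200080000000000000000000000000000000) (nat_lit 0x0) (nat_lit 0x1000180011800000010000c0000000000000000000000000000000000) := T_8 (nat_lit 156) (nat_lit 139) (nat_lit 6) (nat_lit 2) (nat_lit 12) L52508 (by decide +kernel)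
theorem L52510 : W_8 (nat_lit 6) (nat_lit 0x4000a002d0010801200080000000000000000000000000000000) (nat_lit 0x0) (nat_lit 0x14001a0011800000010000c0000000000000000000000000000000000) := T_8 (nat_lit 205) (nat_lit 222) (nat_lit 5) (nat_lit 2) (nat_lit 9) L52509 (by decide +kernel)
theorem L52511 : W_8 (nat_lit 7) (nat_lit 0xa002d0010801200080000000000000000000000000000000) (nat_lit 0x0) (nat_lit 0x28001c001e0011800080014000e0001000000000000000000000000000000) := Q_8 (nat_lit 206) (C_8 L52064 (C_8 L52056 (C_8 L52048 (C_8 L52510 N_8)))) (by decide +kernel)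
theorem L52512 : W_8 (nat_lit 2) (nat_lit 0x180006000b002d0011801200080000000000000000000000000000000) (nat_lit 0x0) (nat_lit 0x1000000000000000008000400000000000000000000000000000000000000) := D_8 (nat_lit 171) (nat_lit 154) (nat_lit 240) (nat_lit 7) (nat_lit 1) (nat_lit 9) (nat_lit 4) (nat_lit 2) (nat_lit 14) (by decide +kernel)
theorem L52513 : W_8 (nat_lit 3) (nat_lit 0x100006000b002d0011801200080000000000000000000000000000000) (nat_lit 0x0) (nat_lit 0x3000080000000000008000400000000000000000000000000000000000000) := T_8 (nat_lit 223) (nat_lit 241) (nat_lit 7) (nat_lit 2) (nat_lit 10) L52512 (by decide +kernel)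
theorem L52514 : W_8 (nat_lit 4) (nat_lit 0x6000b002d0011801200080000000000000000000000000000000) (nat_lit 0x0) (nat_lit 0x3000180008000000008000400000000000000000000000000000000000000) := T_8 (nat_lit 224) (nat_lit 207) (nat_lit 7) (nat_lit 2) (nat_lit 9) L52513 (by decide +kernel)
theorem L52515 : W_8 (nat_lit 5) (nat_lit 0x6000a002d0011801200080000000000000000000000000000000) (nat_lit 0x0) (nat_lit 0x3000180008000100008000400040000000000000000000000000000000000) := T_8 (nat_lit 188) (nat_lit 138) (nat_lit 5) (nat_lit 2) (nat_lit 8) L52514 (by decide +kernel)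
theorem L52516 : W_8 (nat_lit 6) (nat_lit 0x6000a002d0010801200080000000000000000000000000000000) (nat_lit 0x0) (nat_lit 0x30001800080001000080014000c0000000000000000000000000000000000) := T_8 (nat_lit 156) (nat_lit 139) (nat_lit 6) (nat_lit 2) (nat_lit 12) L52515 (by decide +kernel)
theorem L52517 : W_8 (nat_lit 7) (nat_lit 0x4000a002d0010801200080000000000000000000000000000000) (nat_lit 0x0) (nat_lit 0x30001c000a0001000080014000c0000000000000000000000000000000000) := T_8 (nat_lit 205) (nat_lit 222) (nat_lit 5) (nat_lit 2) (nat_lit 9) L52516 (by decide +kernel)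
theorem L52518 : W_8 (nat_lit 2) (nat_lit 0xe000a002d0010801280080000000000000000000000000000000) (nat_lit 0x0) (nat_lit 0x100000000000040004000000000000000000000000000000) := D_8 (nat_lit 138) (nat_lit 122) (nat_lit 188) (nat_lit 6) (nat_lit 2) (nat_lit 11) (nat_lit 5) (nat_lit 2) (nat_lit 8) (by decide +kernel)
theorem L52519 : W_8 (nat_lit 3) (nat_lit 0xc000a002d0010801280080000000000000000000000000000000) (nat_lit 0x0) (nat_lit 0x40002000100000000000040004000000000000000000000000000000) := T_8 (nat_lit 205) (nat_lit 222) (nat_lit 5) (nat_lit 2) (nat_lit 9) L52518 (by decide +kernel)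
theorem L52520 : W_8 (nat_lit 4) (nat_lit 0xc000a002d0010801200080000000000000000000000000000000) (nat_lit 0x0) (nat_lit 0x400020001000000010000c0004000000000000000000000000000000) := T_8 (nat_lit 139) (nat_lit 156) (nat_lit 6) (nat_lit 2) (nat_lit 12) L52519 (by decide +kernel)
theorem L52521 : W_8 (nat_lit 5) (nat_lit 0x4000a002d0010801200080000000000000000000000000000000) (nat_lit 0x0) (nat_lit 0x14000a0001000000010000c0004000000000000000000000000000000) := T_8 (nat_lit 207) (nat_lit 224) (nat_lit 7) (nat_lit 2) (nat_lit 9) L52520 (by decide +kernel)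
theorem L52522 : W_8 (nat_lit 8) (nat_lit 0xa002d0010801200080000000000000000000000000000000) (nat_lit 0x0) (nat_lit 0x38001c000e0001000080014000e0005000000000000000000000000000000) := Q_8 (nat_lit 206) (C_8 L52064 (C_8 L52056 (C_8 L52048 (C_8 L52517 (C_8 L52521 N_8))))) (by decide +kernel)
theorem L52523 : W_8 (nat_lit 2) (nat_lit 0x1e000a002d0010801200080000000000000000000000000000000) (nat_lit 0x0) (nat_lit 0x20000180000000000000000000000000000000000000000000000) := D_8 (nat_lit 188) (nat_lit 187) (nat_lit 209) (nat_lit 0) (nat_lit 4) (nat_lit 12) (nat_lit 0) (nat_lit 5) (nat_lit 12) (by decide +kernel)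
theorem L52524 : W_8 (nat_lit 3) (nat_lit 0xe000a002d0010801200080000000000000000000000000000000) (nat_lit 0x0) (nat_lit 0x30001180000000000000000000000000000000000000000000000) := T_8 (nat_lit 208) (nat_lit 192) (nat_lit 2) (nat_lit 1) (nat_lit 12) L52523 (by decide +kernel)
theorem L52525 : W_8 (nat_lit 4) (nat_lit 0x6000a002d0010801200080000000000000000000000000000000) (nat_lit 0x0) (nat_lit 0x100038001180000000000000000000000000000000000000000000000) := T_8 (nat_lit 207) (nat_lit 224) (nat_lit 7) (nat_lit 2) (nat_lit 9) L52524 (by decide +kernel)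
theorem L52526 : W_8 (nat_lit 5) (nat_lit 0x4000a002d0010801200080000000000000000000000000000000) (nat_lit 0x0) (nat_lit 0x14003a001180000000000000000000000000000000000000000000000) := T_8 (nat_lit 205) (nat_lit 222) (nat_lit 5) (nat_lit 2) (nat_lit 9) L52525 (by decide +kernel)
theorem L52527 : W_8 (nat_lit 6) (nat_lit 0xa002d0010801200080000000000000000000000000000000) (nat_lit 0x0) (nat_lit 0x28001c003e001180008000400020000000000000000000000000000000000) := Q_8 (nat_lit 206) (C_8 L52064 (C_8 L52056 (C_8 L52526 N_8))) (by decide +kernel)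
theorem L52528 : W_8 (nat_lit 5) (nat_lit 0xa002d0010801240080000000000000000000000000000000) (nat_lit 0x0) (nat_lit 0x60001000000014000a0005000000000000000000000000000000) := T_8 (nat_lit 188) (nat_lit 205) (nat_lit 5) (nat_lit 2) (nat_lit 8) L52077 (by decide +kernel)
theorem L52529 : W_8 (nat_lit 2) (nat_lit 0xb002d0010c01260082000100000000000000000000000000) (nat_lit 0x0) (nat_lit 0x4000200010000000000000000000000) := D_8 (nat_lit 105) (nat_lit 122) (nat_lit 88) (nat_lit 6) (nat_lit 2) (nat_lit 10) (nat_lit 6) (nat_lit 2) (nat_lit 9) (by decide +kernel)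
theorem L52530 : W_8 (nat_lit 3) (nat_lit 0xb002d0010c01260082000000000000000000000000000000) (nat_lit 0x0) (nat_lit 0x4000300018000000000000000000000) := T_8 (nat_lit 104) (nat_lit 87) (nat_lit 5) (nat_lit 2) (nat_lit 5) L52529 (by decide +kernel)
theorem L52531 : W_8 (nat_lit 4) (nat_lit 0xb002d0010c01260080000000000000000000000000000000) (nat_lit 0x0) (nat_lit 0x8000000000006000300018000000000000000000000) := T_8 (nat_lit 121) (nat_lit 171) (nat_lit 6) (nat_lit 1) (nat_lit 11) L52530 (by decide +kernel)
theorem L52532 : W_8 (nat_lit 5) (nat_lit 0xb002d0010801260080000000000000000000000000000000) (nat_lit 0x0) (nat_lit 0x4000000008000400000006000300018000000000000000000000) := T_8 (nat_lit 154) (nat_lit 206) (nat_lit 4) (nat_lit 2) (nat_lit 12) L52531 (by decide +kernel)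
theorem L52533 : W_8 (nat_lit 6) (nat_lit 0xb002d0010801240080000000000000000000000000000000) (nat_lit 0x0) (nat_lit 0x4000000008000400020007000300018000000000000000000000) := T_8 (nat_lit 137) (nat_lit 120) (nat_lit 4) (nat_lit 2) (nat_lit 11) L52532 (by decide +kernel)
theorem L52534 : W_8 (nat_lit 7) (nat_lit 0xa002d0010801240080000000000000000000000000000000) (nat_lit 0x0) (nat_lit 0x6000100008000400020007000300018000000000000000000000) := T_8 (nat_lit 188) (nat_lit 205) (nat_lit 5) (nat_lit 2) (nat_lit 8) L52533 (by decide +kernel)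
theorem L52535 : W_8 (nat_lit 4) (nat_lit 0xa002d0010801240080000000000000000000000000000000) (nat_lit 0x0) (nat_lit 0x2000100008000000080006000200000000000000000000000000) := T_8 (nat_lit 188) (nat_lit 205) (nat_lit 5) (nat_lit 2) (nat_lit 8) L52067 (by decide +kernel)
theorem L52536 : W_8 (nat_lit 2) (nat_lit 0x4000a002d0010801260080000000000000000000000000000000) (nat_lit 0x0) (nat_lit 0x40002000100000000000000000000000000000000000000000000000) := D_8 (nat_lit 205) (nat_lit 222) (nat_lit 188) (nat_lit 5) (nat_lit 2) (nat_lit 9) (nat_lit 5) (nat_lit 2) (nat_lit 8) (by decide +kernel)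
theorem L52537 : W_8 (nat_lit 3) (nat_lit 0xa002d0010801260080000000000000000000000000000000) (nat_lit 0x0) (nat_lit 0x40006000100000000400000000000000000000000000000000000000) := T_8 (nat_lit 206) (nat_lit 154) (nat_lit 4) (nat_lit 2) (nat_lit 12) L52536 (by decide +kernel)
theorem L52538 : W_8 (nat_lit 4) (nat_lit 0xa002d0010801240080000000000000000000000000000000) (nat_lit 0x0) (nat_lit 0x40006000100000000400020001000000000000000000000000000000) := T_8 (nat_lit 137) (nat_lit 120) (nat_lit 4) (nat_lit 2) (nat_lit 11) L52537 (by decide +kernel)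
theorem L52539 : W_8 (nat_lit 8) (nat_lit 0xa002d0010801200080000000000000000000000000000000) (nat_lit 0x0) (nat_lit 0x400060001000080014001e0007000380018000000000000000000000) := Q_8 (nat_lit 138) (C_8 L52136 (C_8 L52528 (C_8 L52534 (C_8 L52107 (C_8 L52535 (C_8 L52538 N_8)))))) (by decide +kernel)
theorem L52540 : W_8 (nat_lit 2) (nat_lit 0x20001e000a002d0010c01280080000000000000000000000000000000) (nat_lit 0x0) (nat_lit 0x140004000000000000000000000000000000) := D_8 (nat_lit 138) (nat_lit 140) (nat_lit 122) (nat_lit 1) (nat_lit 5) (nat_lit 8) (nat_lit 6) (nat_lit 2) (nat_lit 11) (by decide +kernel)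
theorem L52541 : W_8 (nat_lit 3) (nat_lit 0x20001e000a002d0010801280080000000000000000000000000000000) (nat_lit 0x0) (nat_lit 0x400160004000000000000000000000000000000) := T_8 (nat_lit 154) (nat_lit 137) (nat_lit 4) (nat_lit 2) (nat_lit 12) L52540 (by decide +kernel)
theorem L52542 : W_8 (nat_lit 4) (nat_lit 0x20001e000a002d0010801200080000000000000000000000000000000) (nat_lit 0x0) (nat_lit 0x14001e0004000000000000000000000000000000) := T_8 (nat_lit 139) (nat_lit 156) (nat_lit 6) (nat_lit 2) (nat_lit 12) L52541 (by decide +kernel)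
theorem L52543 : W_8 (nat_lit 5) (nat_lit 0x1e000a002d0010801200080000000000000000000000000000000) (nat_lit 0x0) (nat_lit 0x6000000000000000014001e0004000000000000000000000000000000) := T_8 (nat_lit 225) (nat_lit 226) (nat_lit 3) (nat_lit 1) (nat_lit 12) L52542 (by decide +kernel)
theorem L52544 : W_8 (nat_lit 6) (nat_lit 0xe000a002d0010801200080000000000000000000000000000000) (nat_lit 0x0) (nat_lit 0x6000100010000000014001e0004000000000000000000000000000000) := T_8 (nat_lit 208) (nat_lit 192) (nat_lit 2) (nat_lit 1) (nat_lit 12) L52543 (by decide +kernel)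
theorem L52545 : W_8 (nat_lit 7) (nat_lit 0x6000a002d0010801200080000000000000000000000000000000) (nat_lit 0x0) (nat_lit 0x7000180010000000014001e0004000000000000000000000000000000) := T_8 (nat_lit 207) (nat_lit 224) (nat_lit 7) (nat_lit 2) (nat_lit 9) L52544 (by decide +kernel)
theorem L52546 : W_8 (nat_lit 8) (nat_lit 0x4000a002d0010801200080000000000000000000000000000000) (nat_lit 0x0) (nat_lit 0x74001a0010000000014001e0004000000000000000000000000000000) := T_8 (nat_lit 205) (nat_lit 222) (nat_lit 5) (nat_lit 2) (nat_lit 9) L52545 (by decide +kernel)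
theorem L52547 : W_8 (nat_lit 2) (nat_lit 0xc000a002d00108012c0080000000000000000000000000000000) (nat_lit 0x0) (nat_lit 0x400020001000000000000000000000000000000) := D_8 (nat_lit 137) (nat_lit 120) (nat_lit 154) (nat_lit 4) (nat_lit 2) (nat_lit 11) (nat_lit 4) (nat_lit 2) (nat_lit 12) (by decide +kernel)
theorem L52548 : W_8 (nat_lit 3) (nat_lit 0xc000a002d0010801280080000000000000000000000000000000) (nat_lit 0x0) (nat_lit 0x400060005000000000000000000000000000000) := T_8 (nat_lit 138) (nat_lit 122) (nat_lit 6) (nat_lit 2) (nat_lit 11) L52547 (by decide +kernel)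
theorem L52549 : W_8 (nat_lit 4) (nat_lit 0x4000a002d0010801280080000000000000000000000000000000) (nat_lit 0x0) (nat_lit 0x100008000000000000400060005000000000000000000000000000000) := T_8 (nat_lit 207) (nat_lit 224) (nat_lit 7) (nat_lit 2) (nat_lit 9) L52548 (by decide +kernel)
theorem L52550 : W_8 (nat_lit 5) (nat_lit 0x4000a002d0010801200080000000000000000000000000000000) (nat_lit 0x0) (nat_lit 0x1000080000000000014000e0005000000000000000000000000000000) := T_8 (nat_lit 139) (nat_lit 156) (nat_lit 6) (nat_lit 2) (nat_lit 12) L52549 (by decide +kernel)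
theorem L52551 : W_8 (nat_lit 9) (nat_lit 0xa002d0010801200080000000000000000000000000000000) (nat_lit 0x0) (nat_lit 0x74003e0011800000014001e0005000000000000000000000000000000) := Q_8 (nat_lit 206) (C_8 L52526 (C_8 L52521 (C_8 L52048 (C_8 L52546 (C_8 L52550 N_8))))) (by decide +kernel)
theorem L52552 : W_8 (nat_lit 2) (nat_lit 0xb002d0010801260082000300004000000000000000000000) (nat_lit 0x0) (nat_lit 0x400000000000000008000200000000000000000) := D_8 (nat_lit 87) (nat_lit 154) (nat_lit 69) (nat_lit 5) (nat_lit 2) (nat_lit 5) (nat_lit 4) (nat_lit 2) (nat_lit 8) (by decide +kernel)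
theorem L52553 : W_8 (nat_lit 3) (nat_lit 0xb002d0010801260082000300000000000000000000000000) (nat_lit 0x0) (nat_lit 0x40000000000008000c000200000000000000000) := T_8 (nat_lit 86) (nat_lit 103) (nat_lit 4) (nat_lit 2) (nat_lit 9) L52552 (by decide +kernel)
theorem L52554 : W_8 (nat_lit 4) (nat_lit 0xb002d0010801260082000200000000000000000000000000) (nat_lit 0x0) (nat_lit 0x40000000000018001c000200000000000000000) := T_8 (nat_lit 104) (nat_lit 88) (nat_lit 6) (nat_lit 2) (nat_lit 9) L52553 (by decide +kernel)
theorem L52555 : W_8 (nat_lit 5) (nat_lit 0xb002d0010801260082000000000000000000000000000000) (nat_lit 0x0) (nat_lit 0x40000000400038001c000200000000000000000) := T_8 (nat_lit 105) (nat_lit 122) (nat_lit 6) (nat_lit 2) (nat_lit 10) L52554 (by decide +kernel)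
theorem L52556 : W_8 (nat_lit 6) (nat_lit 0xb002d0010801260080000000000000000000000000000000) (nat_lit 0x0) (nat_lit 0x800040000000600038001c000200000000000000000) := T_8 (nat_lit 121) (nat_lit 171) (nat_lit 5) (nat_lit 2) (nat_lit 7) L52555 (by decide +kernel)
theorem L52557 : W_8 (nat_lit 7) (nat_lit 0xb002d0010801240080000000000000000000000000000000) (nat_lit 0x0) (nat_lit 0x800040002000700038001c000200000000000000000) := T_8 (nat_lit 137) (nat_lit 120) (nat_lit 4) (nat_lit 2) (nat_lit 11) L52556 (by decide +kernel)
theorem L52558 : W_8 (nat_lit 8) (nat_lit 0xa002d0010801240080000000000000000000000000000000) (nat_lit 0x0) (nat_lit 0x200010000800040002000700038001c000200000000000000000) := T_8 (nat_lit 188) (nat_lit 205) (nat_lit 5) (nat_lit 2) (nat_lit 8) L52557 (by decide +kernel)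
theorem L52559 : W_8 (nat_lit 2) (nat_lit 0xb002d0010801240081000000000000000000000000000000) (nat_lit 0x0) (nat_lit 0x8000000000002000080000000000000000000000000) := D_8 (nat_lit 121) (nat_lit 171) (nat_lit 103) (nat_lit 5) (nat_lit 2) (nat_lit 7) (nat_lit 4) (nat_lit 2) (nat_lit 10) (by decide +kernel)
theorem L52560 : W_8 (nat_lit 3) (nat_lit 0xb002d0010801240080000000000000000000000000000000) (nat_lit 0x0) (nat_lit 0x8000000020003000080000000000000000000000000) := T_8 (nat_lit 120) (nat_lit 137) (nat_lit 4) (nat_lit 2) (nat_lit 11) L52559 (by decide +kernel)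
theorem L52561 : W_8 (nat_lit 4) (nat_lit 0xa002d0010801240080000000000000000000000000000000) (nat_lit 0x0) (nat_lit 0x2000100008000000020003000080000000000000000000000000) := T_8 (nat_lit 188) (nat_lit 205) (nat_lit 5) (nat_lit 2) (nat_lit 8) L52560 (by decide +kernel)
theorem L52562 : W_8 (nat_lit 2) (nat_lit 0xb002d00108013e0080000000000000000000000000000000) (nat_lit 0x0) (nat_lit 0x38000000000000000000000000000000) := D_8 (nat_lit 124) (nat_lit 123) (nat_lit 125) (nat_lit 2) (nat_lit 1) (nat_lit 8) (nat_lit 2) (nat_lit 2) (nat_lit 8) (by decide +kernel)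
theorem L52563 : W_8 (nat_lit 3) (nat_lit 0xb002d00108013c0080000000000000000000000000000000) (nat_lit 0x0) (nat_lit 0x20039000000000000000000000000000000) := T_8 (nat_lit 137) (nat_lit 120) (nat_lit 4) (nat_lit 2) (nat_lit 11) L52562 (by decide +kernel)
theorem L52564 : W_8 (nat_lit 4) (nat_lit 0xb002d00108012c0080000000000000000000000000000000) (nat_lit 0x0) (nat_lit 0x400120039000000000000000000000000000000) := T_8 (nat_lit 140) (nat_lit 154) (nat_lit 1) (nat_lit 5) (nat_lit 8) L52563 (by decide +kernel)
theorem L52565 : W_8 (nat_lit 5) (nat_lit 0xb002d0010801240080000000000000000000000000000000) (nat_lit 0x0) (nat_lit 0x4001a003d000000000000000000000000000000) := T_8 (nat_lit 139) (nat_lit 122) (nat_lit 6) (nat_lit 2) (nat_lit 11) L52564 (by decide +kernel)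
theorem L52566 : W_8 (nat_lit 6) (nat_lit 0xa002d0010801240080000000000000000000000000000000) (nat_lit 0x0) (nat_lit 0x20001000000004001a003d000000000000000000000000000000) := T_8 (nat_lit 188) (nat_lit 205) (nat_lit 5) (nat_lit 2) (nat_lit 8) L52565 (by decide +kernel)
theorem L52567 : W_8 (nat_lit 9) (nat_lit 0xa002d0010801200080000000000000000000000000000000) (nat_lit 0x0) (nat_lit 0x20001000080004001e003f00038001c000200000000000000000) := Q_8 (nat_lit 138) (C_8 L52535 (C_8 L52558 (C_8 L52107 (C_8 L52561 (C_8 L52566 N_8))))) (by decide +kernel)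
theorem L52568 : W_8 (nat_lit 2) (nat_lit 0x100006000a002d0010c012c0080000000000000000000000000000000) (nat_lit 0x0) (nat_lit 0x2000080000000000008000000000000000000000000000000000000000000) := D_8 (nat_lit 223) (nat_lit 241) (nat_lit 171) (nat_lit 7) (nat_lit 2) (nat_lit 10) (nat_lit 4) (nat_lit 2) (nat_lit 13) (by decide +kernel)
theorem L52569 : W_8 (nat_lit 3) (nat_lit 0x100006000a002d00108012c0080000000000000000000000000000000) (nat_lit 0x0) (nat_lit 0x2000080000000000008000400100000000000000000000000000000000000) := T_8 (nat_lit 154) (nat_lit 140) (nat_lit 1) (nat_lit 5) (nat_lit 8) L52568 (by decide +kernel)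
theorem L52570 : W_8 (nat_lit 4) (nat_lit 0x100006000a002d0010801280080000000000000000000000000000000) (nat_lit 0x0) (nat_lit 0x2000080000000000008000400140004000000000000000000000000000000) := T_8 (nat_lit 138) (nat_lit 122) (nat_lit 6) (nat_lit 2) (nat_lit 11) L52569 (by decide +kernel)
theorem L52571 : W_8 (nat_lit 5) (nat_lit 0x6000a002d0010801280080000000000000000000000000000000) (nat_lit 0x0) (nat_lit 0x2000180008000000008000400140004000000000000000000000000000000) := T_8 (nat_lit 224) (nat_lit 207) (nat_lit 7) (nat_lit 2) (nat_lit 9) L52570 (by decide +kernel)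
theorem L52572 : W_8 (nat_lit 6) (nat_lit 0x6000a002d0010801200080000000000000000000000000000000) (nat_lit 0x0) (nat_lit 0x20001800080000000080014001c0004000000000000000000000000000000) := T_8 (nat_lit 139) (nat_lit 156) (nat_lit 6) (nat_lit 2) (nat_lit 12) L52571 (by decide +kernel)
theorem L52573 : W_8 (nat_lit 7) (nat_lit 0x4000a002d0010801200080000000000000000000000000000000) (nat_lit 0x0) (nat_lit 0x20001c000a0000000080014001c0004000000000000000000000000000000) := T_8 (nat_lit 205) (nat_lit 222) (nat_lit 5) (nat_lit 2) (nat_lit 9) L52572 (by decide +kernel)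
theorem L52574 : W_8 (nat_lit 2) (nat_lit 0x140004000a002d0011801200080000000000000000000000000000000) (nat_lit 0x0) (nat_lit 0x2800080000000000000000000000000000000000000000000000000000000) := D_8 (nat_lit 223) (nat_lit 239) (nat_lit 241) (nat_lit 5) (nat_lit 2) (nat_lit 10) (nat_lit 7) (nat_lit 2) (nat_lit 10) (by decide +kernel)
theorem L52575 : W_8 (nat_lit 3) (nat_lit 0x40004000a002d0011801200080000000000000000000000000000000) (nat_lit 0x0) (nat_lit 0x2800180008000000000000000000000000000000000000000000000000000) := T_8 (nat_lit 224) (nat_lit 207) (nat_lit 7) (nat_lit 2) (nat_lit 9) L52574 (by decide +kernel)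
theorem L52576 : W_8 (nat_lit 4) (nat_lit 0x4000a002d0011801200080000000000000000000000000000000) (nat_lit 0x0) (nat_lit 0x28001c000a000000000000000000000000000000000000000000000000000) := T_8 (nat_lit 222) (nat_lit 205) (nat_lit 5) (nat_lit 2) (nat_lit 9) L52575 (by decide +kernel)
theorem L52577 : W_8 (nat_lit 5) (nat_lit 0x4000a002d0010801200080000000000000000000000000000000) (nat_lit 0x0) (nat_lit 0x28001c000a000000000001000080000000000000000000000000000000000) := T_8 (nat_lit 156) (nat_lit 139) (nat_lit 6) (nat_lit 2) (nat_lit 12) L52576 (by decide +kernel)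
theorem L52578 : W_8 (nat_lit 8) (nat_lit 0xa002d0010801200080000000000000000000000000000000) (nat_lit 0x0) (nat_lit 0x28001c000e0000000080014001e0005000000000000000000000000000000) := Q_8 (nat_lit 206) (C_8 L52550 (C_8 L52064 (C_8 L52056 (C_8 L52573 (C_8 L52577 N_8))))) (by decide +kernel)
theorem L52579 : W_8 (nat_lit 2) (nat_lit 0x6000a002d0010801280080000000000000000000000000000000) (nat_lit 0x0) (nat_lit 0x100000000000040004000000000000000000000000000000) := D_8 (nat_lit 138) (nat_lit 188) (nat_lit 122) (nat_lit 5) (nat_lit 2) (nat_lit 8) (nat_lit 6) (nat_lit 2) (nat_lit 11) (by decide +kernel)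
theorem L52580 : W_8 (nat_lit 3) (nat_lit 0x6000a002d0010801200080000000000000000000000000000000) (nat_lit 0x0) (nat_lit 0x1000000010000c0004000000000000000000000000000000) := T_8 (nat_lit 139) (nat_lit 156) (nat_lit 6) (nat_lit 2) (nat_lit 12) L52579 (by decide +kernel)
theorem L52581 : W_8 (nat_lit 4) (nat_lit 0x4000a002d0010801200080000000000000000000000000000000) (nat_lit 0x0) (nat_lit 0x400020001000000010000c0004000000000000000000000000000000) := T_8 (nat_lit 205) (nat_lit 222) (nat_lit 5) (nat_lit 2) (nat_lit 9) L52580 (by decide +kernel)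
theorem L52582 : W_8 (nat_lit 2) (nat_lit 0xc000a002d8010c012c0080000000000000000000000000000000) (nat_lit 0x0) (nat_lit 0x100000000000000002000100000000000000000000000000) := D_8 (nat_lit 121) (nat_lit 104) (nat_lit 188) (nat_lit 5) (nat_lit 2) (nat_lit 6) (nat_lit 5) (nat_lit 2) (nat_lit 7) (by decide +kernel)
theorem L52583 : W_8 (nat_lit 3) (nat_lit 0xc000a002d0010c012c0080000000000000000000000000000000) (nat_lit 0x0) (nat_lit 0x80000000100008000000000002000100000000000000000000000000) := T_8 (nat_lit 171) (nat_lit 223) (nat_lit 4) (nat_lit 2) (nat_lit 13) L52582 (by decide +kernel)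
theorem L52584 : W_8 (nat_lit 4) (nat_lit 0xc000a002d00108012c0080000000000000000000000000000000) (nat_lit 0x0) (nat_lit 0x80000000100008000400100002000100000000000000000000000000) := T_8 (nat_lit 154) (nat_lit 140) (nat_lit 1) (nat_lit 5) (nat_lit 8) L52583 (by decide +kernel)
theorem L52585 : W_8 (nat_lit 5) (nat_lit 0xc000a002d0010801280080000000000000000000000000000000) (nat_lit 0x0) (nat_lit 0x80000000100008000400140006000100000000000000000000000000) := T_8 (nat_lit 138) (nat_lit 122) (nat_lit 6) (nat_lit 2) (nat_lit 11) L52584 (by decide +kernel)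
theorem L52586 : W_8 (nat_lit 6) (nat_lit 0xc000a002d0010801200080000000000000000000000000000000) (nat_lit 0x0) (nat_lit 0x800000001000080014001c0006000100000000000000000000000000) := T_8 (nat_lit 139) (nat_lit 156) (nat_lit 6) (nat_lit 2) (nat_lit 12) L52585 (by decide +kernel)
theorem L52587 : W_8 (nat_lit 7) (nat_lit 0x4000a002d0010801200080000000000000000000000000000000) (nat_lit 0x0) (nat_lit 0x1800080001000080014001c0006000100000000000000000000000000) := T_8 (nat_lit 207) (nat_lit 224) (nat_lit 7) (nat_lit 2) (nat_lit 9) L52586 (by decide +kernel)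
theorem L52588 : W_8 (nat_lit 8) (nat_lit 0xa002d0010801200080000000000000000000000000000000) (nat_lit 0x0) (nat_lit 0x28001c003e0011800080014001c0006000100000000000000000000000000) := Q_8 (nat_lit 206) (C_8 L52577 (C_8 L52526 (C_8 L52581 (C_8 L52587 N_8)))) (by decide +kernel)
theorem L52589 : W_8 (nat_lit 2) (nat_lit 0xa002d00108012c0081000000000000000000000000000000) (nat_lit 0x0) (nat_lit 0x100002000080000000000000000000000000) := D_8 (nat_lit 121) (nat_lit 103) (nat_lit 140) (nat_lit 4) (nat_lit 2) (nat_lit 10) (nat_lit 0) (nat_lit 5) (nat_lit 8) (by decide +kernel)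
theorem L52590 : W_8 (nat_lit 3) (nat_lit 0xa002d0010801240081000000000000000000000000000000) (nat_lit 0x0) (nat_lit 0x180006000080000000000000000000000000) := T_8 (nat_lit 139) (nat_lit 122) (nat_lit 6) (nat_lit 2) (nat_lit 11) L52589 (by decide +kernel)
theorem L52591 : W_8 (nat_lit 4) (nat_lit 0xa002d0010801240080000000000000000000000000000000) (nat_lit 0x0) (nat_lit 0x1a0007000080000000000000000000000000) := T_8 (nat_lit 120) (nat_lit 137) (nat_lit 4) (nat_lit 2) (nat_lit 11) L52590 (by decide +kernel)
theorem L52592 : W_8 (nat_lit 8) (nat_lit 0xa002d0010801200080000000000000000000000000000000) (nat_lit 0x0) (nat_lit 0x28001c000e0001000080010001e0007000280000000000000000000000000) := Q_8 (nat_lit 138) (C_8 L52561 (C_8 L52136 (C_8 L52535 (C_8 L52591 (C_8 L52128 N_8))))) (by decide +kernel)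
theorem L52593 : W_8 (nat_lit 2) (nat_lit 0x1c0004000a002d0010c01280080000000000000000000000000000000) (nat_lit 0x0) (nat_lit 0x140004000000000000000000000000000000) := D_8 (nat_lit 138) (nat_lit 140) (nat_lit 122) (nat_lit 1) (nat_lit 5) (nat_lit 8) (nat_lit 6) (nat_lit 2) (nat_lit 11) (by decide +kernel)
theorem L52594 : W_8 (nat_lit 3) (nat_lit 0x1c0004000a002d0010c01200080000000000000000000000000000000) (nat_lit 0x0) (nat_lit 0x10001c0004000000000000000000000000000000) := T_8 (nat_lit 139) (nat_lit 156) (nat_lit 6) (nat_lit 2) (nat_lit 12) L52593 (by decide +kernel)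
theorem L52595 : W_8 (nat_lit 4) (nat_lit 0xc0004000a002d0010c01200080000000000000000000000000000000) (nat_lit 0x0) (nat_lit 0x20001000000000000000010001c0004000000000000000000000000000000) := T_8 (nat_lit 224) (nat_lit 241) (nat_lit 7) (nat_lit 2) (nat_lit 10) L52594 (by decide +kernel)
theorem L52596 : W_8 (nat_lit 5) (nat_lit 0x80004000a002d0010c01200080000000000000000000000000000000) (nat_lit 0x0) (nat_lit 0x28001400000000000000010001c0004000000000000000000000000000000) := T_8 (nat_lit 222) (nat_lit 239) (nat_lit 5) (nat_lit 2) (nat_lit 10) L52595 (by decide +kernel)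
theorem L52597 : W_8 (nat_lit 6) (nat_lit 0x4000a002d0010c01200080000000000000000000000000000000) (nat_lit 0x0) (nat_lit 0x28001c00000000000080010001c0004000000000000000000000000000000) := T_8 (nat_lit 223) (nat_lit 171) (nat_lit 4) (nat_lit 2) (nat_lit 13) L52596 (by decide +kernel)
theorem L52598 : W_8 (nat_lit 7) (nat_lit 0x4000a002d0010801200080000000000000000000000000000000) (nat_lit 0x0) (nat_lit 0x28001c00000000000080014001e0004000000000000000000000000000000) := T_8 (nat_lit 154) (nat_lit 137) (nat_lit 4) (nat_lit 2) (nat_lit 12) L52597 (by decide +kernel)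
theorem L52599 : W_8 (nat_lit 2) (nat_lit 0x4000a002d0010c01280080000000000000000000000000000000) (nat_lit 0x0) (nat_lit 0x140004000000000000000000000000000000) := D_8 (nat_lit 138) (nat_lit 122) (nat_lit 140) (nat_lit 6) (nat_lit 2) (nat_lit 11) (nat_lit 1) (nat_lit 5) (nat_lit 8) (by decide +kernel)
theorem L52600 : W_8 (nat_lit 3) (nat_lit 0x4000a002d0010801280080000000000000000000000000000000) (nat_lit 0x0) (nat_lit 0x400160004000000000000000000000000000000) := T_8 (nat_lit 154) (nat_lit 137) (nat_lit 4) (nat_lit 2) (nat_lit 12) L52599 (by decide +kernel)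
theorem L52601 : W_8 (nat_lit 4) (nat_lit 0x4000a002d0010801200080000000000000000000000000000000) (nat_lit 0x0) (nat_lit 0x14001e0004000000000000000000000000000000) := T_8 (nat_lit 139) (nat_lit 156) (nat_lit 6) (nat_lit 2) (nat_lit 12) L52600 (by decide +kernel)
theorem L52602 : W_8 (nat_lit 2) (nat_lit 0xc000a002d00108012c0081000000000000000000000000000000) (nat_lit 0x0) (nat_lit 0x100002000080000000000000000000000000) := D_8 (nat_lit 121) (nat_lit 140) (nat_lit 103) (nat_lit 0) (nat_lit 5) (nat_lit 8) (nat_lit 4) (nat_lit 2) (nat_lit 10) (by decide +kernel)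
theorem L52603 : W_8 (nat_lit 3) (nat_lit 0xc000a002d00108012c0080000000000000000000000000000000) (nat_lit 0x0) (nat_lit 0x120003000080000000000000000000000000) := T_8 (nat_lit 120) (nat_lit 137) (nat_lit 4) (nat_lit 2) (nat_lit 11) L52602 (by decide +kernel)
theorem L52604 : W_8 (nat_lit 4) (nat_lit 0xc000a002d0010801280080000000000000000000000000000000) (nat_lit 0x0) (nat_lit 0x160007000080000000000000000000000000) := T_8 (nat_lit 138) (nat_lit 122) (nat_lit 6) (nat_lit 2) (nat_lit 11) L52603 (by decide +kernel)
theorem L52605 : W_8 (nat_lit 5) (nat_lit 0x4000a002d0010801280080000000000000000000000000000000) (nat_lit 0x0) (nat_lit 0x100008000000000000000160007000080000000000000000000000000) := T_8 (nat_lit 207) (nat_lit 224) (nat_lit 7) (nat_lit 2) (nat_lit 9) L52604 (by decide +kernel)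
theorem L52606 : W_8 (nat_lit 6) (nat_lit 0x4000a002d0010801200080000000000000000000000000000000) (nat_lit 0x0) (nat_lit 0x1000080000000000010001e0007000080000000000000000000000000) := T_8 (nat_lit 139) (nat_lit 156) (nat_lit 6) (nat_lit 2) (nat_lit 12) L52605 (by decide +kernel)
theorem L52607 : W_8 (nat_lit 8) (nat_lit 0xa002d0010801200080000000000000000000000000000000) (nat_lit 0x0) (nat_lit 0x28001c000c0001000080014001e0007000180000000000000000000000000) := Q_8 (nat_lit 206) (C_8 L52587 (C_8 L52550 (C_8 L52064 (C_8 L52598 (C_8 L52601 (C_8 L52606 N_8)))))) (by decide +kernel)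
theorem L52608 : W_8 (nat_lit 10) (nat_lit 0xa002d0010001200080000000000000000000000000000000) (nat_lit 0x0) (nat_lit 0x38007c003e001180008001c001e003f00038001c000200000000000000000) := Q_8 (nat_lit 155) (C_8 L52065 (C_8 L52511 (C_8 L52522 (C_8 L52527 (C_8 L52539 (C_8 L52551 (C_8 L52567 (C_8 L52578 (C_8 L52588 (C_8 L52592 (C_8 L52607 N_8))))))))))) (by decide +kernel)
theorem L52609 : W_8 (nat_lit 2) (nat_lit 0x6000a002d0010c01280080000000000000000000000000000000) (nat_lit 0x0) (nat_lit 0x140004000000000000000000000000000000) := D_8 (nat_lit 138) (nat_lit 140) (nat_lit 122) (nat_lit 1) (nat_lit 5) (nat_lit 8) (nat_lit 6) (nat_lit 2) (nat_lit 11) (by decide +kernel)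
theorem L52610 : W_8 (nat_lit 3) (nat_lit 0x6000a002d0010c01200080000000000000000000000000000000) (nat_lit 0x0) (nat_lit 0x10001c0004000000000000000000000000000000) := T_8 (nat_lit 139) (nat_lit 156) (nat_lit 6) (nat_lit 2) (nat_lit 12) L52609 (by decide +kernel)
theorem L52611 : W_8 (nat_lit 4) (nat_lit 0x4000a002d0010c01200080000000000000000000000000000000) (nat_lit 0x0) (nat_lit 0x400020000000000010001c0004000000000000000000000000000000) := T_8 (nat_lit 205) (nat_lit 222) (nat_lit 5) (nat_lit 2) (nat_lit 9) L52610 (by decide +kernel)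
theorem L52612 : W_8 (nat_lit 5) (nat_lit 0xa002d0010c01200080000000000000000000000000000000) (nat_lit 0x0) (nat_lit 0x400060000000000010001e0004000000000000000000000000000000) := T_8 (nat_lit 206) (nat_lit 137) (nat_lit 4) (nat_lit 2) (nat_lit 12) L52611 (by decide +kernel)
theorem L52613 : W_8 (nat_lit 6) (nat_lit 0xa002d0010801200080000000000000000000000000000000) (nat_lit 0x0) (nat_lit 0x400060000000200014001e0004000000000000000000000000000000) := T_8 (nat_lit 154) (nat_lit 173) (nat_lit 0) (nat_lit 5) (nat_lit 10) L52612 (by decide +kernel)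
theorem L52614 : W_8 (nat_lit 2) (nat_lit 0xb002d00108012c0081000000000000000000000000000000) (nat_lit 0x0) (nat_lit 0x100002000080000000000000000000000000) := D_8 (nat_lit 121) (nat_lit 103) (nat_lit 140) (nat_lit 4) (nat_lit 2) (nat_lit 10) (nat_lit 0) (nat_lit 5) (nat_lit 8) (by decide +kernel)
theorem L52615 : W_8 (nat_lit 3) (nat_lit 0xb002d0010801240081000000000000000000000000000000) (nat_lit 0x0) (nat_lit 0x180006000080000000000000000000000000) := T_8 (nat_lit 139) (nat_lit 122) (nat_lit 6) (nat_lit 2) (nat_lit 11) L52614 (by decide +kernel)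
theorem L52616 : W_8 (nat_lit 4) (nat_lit 0xb002d0010801240080000000000000000000000000000000) (nat_lit 0x0) (nat_lit 0x1a0007000080000000000000000000000000) := T_8 (nat_lit 120) (nat_lit 137) (nat_lit 4) (nat_lit 2) (nat_lit 11) L52615 (by decide +kernel)
theorem L52617 : W_8 (nat_lit 5) (nat_lit 0xb002d0010801200080000000000000000000000000000000) (nat_lit 0x0) (nat_lit 0x20000000000000001e0007000080000000000000000000000000) := T_8 (nat_lit 138) (nat_lit 205) (nat_lit 5) (nat_lit 2) (nat_lit 8) L52616 (by decide +kernel)
theorem L52618 : W_8 (nat_lit 6) (nat_lit 0xa002d0010801200080000000000000000000000000000000) (nat_lit 0x0) (nat_lit 0x20001000200000001e0007000080000000000000000000000000) := T_8 (nat_lit 188) (nat_lit 173) (nat_lit 1) (nat_lit 5) (nat_lit 10) L52617 (by decide +kernel)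
theorem L52619 : W_8 (nat_lit 10) (nat_lit 0xa002d0010001200080000000000000000000000000000000) (nat_lit 0x0) (nat_lit 0x74003e001180020001c001e0007000080000000000000000000000000) := Q_8 (nat_lit 155) (C_8 L52551 (C_8 L52090 (C_8 L52613 (C_8 L52618 N_8)))) (by decide +kernel)
theorem L52620 : W_8 (nat_lit 2) (nat_lit 0x3000080004000a002f8010001200080000000000000000000000000000000) (nat_lit 0x0) (nat_lit 0x10000800040000000000000000000000000000000000000000000000000000000) := D_8 (nat_lit 239) (nat_lit 256) (nat_lit 222) (nat_lit 5) (nat_lit 2) (nat_lit 11) (nat_lit 5) (nat_lit 2) (nat_lit 10) (by decide +kernel)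
theorem L52621 : W_8 (nat_lit 3) (nat_lit 0x2000080004000a002f8010001200080000000000000000000000000000000) (nat_lit 0x0) (nat_lit 0x50001800040000000000000000000000000000000000000000000000000000000) := T_8 (nat_lit 240) (nat_lit 258) (nat_lit 7) (nat_lit 2) (nat_lit 11) L52620 (by decide +kernel)
theorem L52622 : W_8 (nat_lit 4) (nat_lit 0x2000080004000a002f0010001200080000000000000000000000000000000) (nat_lit 0x0) (nat_lit 0x50001800040000000000008000400000000000000000000000000000000000000) := T_8 (nat_lit 171) (nat_lit 154) (nat_lit 4) (nat_lit 2) (nat_lit 13) L52621 (by decide +kernel)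
theorem L52623 : W_8 (nat_lit 5) (nat_lit 0x80004000a002f0010001200080000000000000000000000000000000) (nat_lit 0x0) (nat_lit 0x50003800140000000000008000400000000000000000000000000000000000000) := T_8 (nat_lit 241) (nat_lit 224) (nat_lit 7) (nat_lit 2) (nat_lit 10) L52622 (by decide +kernel)
theorem L52624 : W_8 (nat_lit 6) (nat_lit 0x4000a002f0010001200080000000000000000000000000000000) (nat_lit 0x0) (nat_lit 0x500038001c0000000000008001400000000000000000000000000000000000000) := T_8 (nat_lit 223) (nat_lit 156) (nat_lit 6) (nat_lit 2) (nat_lit 13) L52623 (by decide +kernel)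
theorem L52625 : W_8 (nat_lit 2) (nat_lit 0x140004000a002f0010801200080000000000000000000000000000000) (nat_lit 0x0) (nat_lit 0x2800080000000000000000000000000000000000000000000000000000000) := D_8 (nat_lit 223) (nat_lit 239) (nat_lit 241) (nat_lit 5) (nat_lit 2) (nat_lit 10) (nat_lit 7) (nat_lit 2) (nat_lit 10) (by decide +kernel)
theorem L52626 : W_8 (nat_lit 3) (nat_lit 0x40004000a002f0010801200080000000000000000000000000000000) (nat_lit 0x0) (nat_lit 0x2800180008000000000000000000000000000000000000000000000000000) := T_8 (nat_lit 224) (nat_lit 207) (nat_lit 7) (nat_lit 2) (nat_lit 9) L52625 (by decide +kernel)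
theorem L52627 : W_8 (nat_lit 4) (nat_lit 0x4000a002f0010801200080000000000000000000000000000000) (nat_lit 0x0) (nat_lit 0x28001c000a000000000000000000000000000000000000000000000000000) := T_8 (nat_lit 222) (nat_lit 205) (nat_lit 5) (nat_lit 2) (nat_lit 9) L52626 (by decide +kernel)
theorem L52628 : W_8 (nat_lit 5) (nat_lit 0x4000a002f0010001200080000000000000000000000000000000) (nat_lit 0x0) (nat_lit 0x28001c000a000000000000c00000000000000000000000000000000000000) := T_8 (nat_lit 155) (nat_lit 154) (nat_lit 0) (nat_lit 5) (nat_lit 10) L52627 (by decide +kernel)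
theorem L52629 : W_8 (nat_lit 3) (nat_lit 0x4000a002f0010001200080000000000000000000000000000000) (nat_lit 0x0) (nat_lit 0x80000000000000001c00080000000000000000000000000000000000) := T_8 (nat_lit 155) (nat_lit 154) (nat_lit 0) (nat_lit 5) (nat_lit 10) L52116 (by decide +kernel)
theorem L52630 : W_8 (nat_lit 2) (nat_lit 0xe000a002f00108012c0081000000000000000000000000000000) (nat_lit 0x0) (nat_lit 0x100002000080000000000000000000000000) := D_8 (nat_lit 121) (nat_lit 140) (nat_lit 103) (nat_lit 0) (nat_lit 5) (nat_lit 8) (nat_lit 4) (nat_lit 2) (nat_lit 10) (by decide +kernel)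
theorem L52631 : W_8 (nat_lit 3) (nat_lit 0xe000a002f00108012c0080000000000000000000000000000000) (nat_lit 0x0) (nat_lit 0x120003000080000000000000000000000000) := T_8 (nat_lit 120) (nat_lit 137) (nat_lit 4) (nat_lit 2) (nat_lit 11) L52630 (by decide +kernel)
theorem L52632 : W_8 (nat_lit 4) (nat_lit 0xe000a002f0010801280080000000000000000000000000000000) (nat_lit 0x0) (nat_lit 0x160007000080000000000000000000000000) := T_8 (nat_lit 138) (nat_lit 122) (nat_lit 6) (nat_lit 2) (nat_lit 11) L52631 (by decide +kernel)
theorem L52633 : W_8 (nat_lit 5) (nat_lit 0xe000a002f0010801200080000000000000000000000000000000) (nat_lit 0x0) (nat_lit 0x10001e0007000080000000000000000000000000) := T_8 (nat_lit 139) (nat_lit 156) (nat_lit 6) (nat_lit 2) (nat_lit 12) L52632 (by decide +kernel)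
theorem L52634 : W_8 (nat_lit 6) (nat_lit 0x6000a002f0010801200080000000000000000000000000000000) (nat_lit 0x0) (nat_lit 0x1000080000000000010001e0007000080000000000000000000000000) := T_8 (nat_lit 207) (nat_lit 224) (nat_lit 7) (nat_lit 2) (nat_lit 9) L52633 (by decide +kernel)
theorem L52635 : W_8 (nat_lit 7) (nat_lit 0x4000a002f0010801200080000000000000000000000000000000) (nat_lit 0x0) (nat_lit 0x14000a0000000000010001e0007000080000000000000000000000000) := T_8 (nat_lit 205) (nat_lit 222) (nat_lit 5) (nat_lit 2) (nat_lit 9) L52634 (by decide +kernel)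
theorem L52636 : W_8 (nat_lit 8) (nat_lit 0x4000a002f0010001200080000000000000000000000000000000) (nat_lit 0x0) (nat_lit 0x14000a000000000001c001e0007000080000000000000000000000000) := T_8 (nat_lit 155) (nat_lit 154) (nat_lit 0) (nat_lit 5) (nat_lit 10) L52635 (by decide +kernel)
theorem L52637 : W_8 (nat_lit 2) (nat_lit 0x1c0004000a002f0010001200080000000000000000000000000000000) (nat_lit 0x0) (nat_lit 0xa000000000000800000000000000000000000000000000000000) := D_8 (nat_lit 155) (nat_lit 207) (nat_lit 205) (nat_lit 7) (nat_lit 2) (nat_lit 9) (nat_lit 5) (nat_lit 2) (nat_lit 9) (by decide +kernel)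
theorem L52638 : W_8 (nat_lit 3) (nat_lit 0x180004000a002f0010001200080000000000000000000000000000000) (nat_lit 0x0) (nat_lit 0x80004000a000000000000800000000000000000000000000000000000000) := T_8 (nat_lit 222) (nat_lit 239) (nat_lit 5) (nat_lit 2) (nat_lit 10) L52637 (by decide +kernel)
theorem L52639 : W_8 (nat_lit 4) (nat_lit 0x80004000a002f0010001200080000000000000000000000000000000) (nat_lit 0x0) (nat_lit 0x280014000a000000000000800000000000000000000000000000000000000) := T_8 (nat_lit 224) (nat_lit 241) (nat_lit 7) (nat_lit 2) (nat_lit 10) L52638 (by decide +kernel)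
theorem L52640 : W_8 (nat_lit 5) (nat_lit 0x4000a002f0010001200080000000000000000000000000000000) (nat_lit 0x0) (nat_lit 0x28001c000a000000000001800000000000000000000000000000000000000) := T_8 (nat_lit 223) (nat_lit 156) (nat_lit 6) (nat_lit 2) (nat_lit 13) L52639 (by decide +kernel)
theorem L52641 : W_8 (nat_lit 9) (nat_lit 0xa002f0010001200080000000000000000000000000000000) (nat_lit 0x0) (nat_lit 0x500038001c000e000000008001c001e0007000080000000000000000000000000) := Q_8 (nat_lit 206) (C_8 L52624 (C_8 L52628 (C_8 L52629 (C_8 L52636 (C_8 L52640 N_8))))) (by decide +kernel)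
theorem L52642 : W_8 (nat_lit 2) (nat_lit 0x70000c0014001a002f0010001200080000000000000000000000000000000) (nat_lit 0x0) (nat_lit 0x2a000000000000000000000000000000000000000000000000000) := D_8 (nat_lit 207) (nat_lit 205) (nat_lit 209) (nat_lit 2) (nat_lit 1) (nat_lit 12) (nat_lit 1) (nat_lit 5) (nat_lit 12) (by decide +kernel)
theorem L52643 : W_8 (nat_lit 3) (nat_lit 0x70000c0004001a002f0010001200080000000000000000000000000000000) (nat_lit 0x0) (nat_lit 0x20003a000000000000000000000000000000000000000000000000000) := T_8 (nat_lit 208) (nat_lit 225) (nat_lit 6) (nat_lit 4) (nat_lit 14) L52642 (by decide +kernel)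
theorem L52644 : W_8 (nat_lit 4) (nat_lit 0x70000c0004000a002f0010001200080000000000000000000000000000000) (nat_lit 0x0) (nat_lit 0x20003a003000000000000000000000000000000000000000000000000) := T_8 (nat_lit 192) (nat_lit 193) (nat_lit 3) (nat_lit 2) (nat_lit 10) L52643 (by decide +kernel)
theorem L52645 : W_8 (nat_lit 5) (nat_lit 0x30000c0004000a002f0010001200080000000000000000000000000000000) (nat_lit 0x0) (nat_lit 0xc00020003a003000000000000000000000000000000000000000000000000) := T_8 (nat_lit 242) (nat_lit 243) (nat_lit 0) (nat_lit 5) (nat_lit 14) L52644 (by decide +kernel)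
theorem L52646 : W_8 (nat_lit 6) (nat_lit 0x20000c0004000a002f0010001200080000000000000000000000000000000) (nat_lit 0x0) (nat_lit 0x4000d00020003a003000000000000000000000000000000000000000000000000) := T_8 (nat_lit 240) (nat_lit 258) (nat_lit 7) (nat_lit 2) (nat_lit 11) L52645 (by decide +kernel)
theorem L52647 : W_8 (nat_lit 7) (nat_lit 0x2000080004000a002f0010001200080000000000000000000000000000000) (nat_lit 0x0) (nat_lit 0x4000d80024003a003000000000000000000000000000000000000000000000000) := T_8 (nat_lit 222) (nat_lit 239) (nat_lit 5) (nat_lit 2) (nat_lit 10) L52646 (by decide +kernel)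
theorem L52648 : W_8 (nat_lit 8) (nat_lit 0x80004000a002f0010001200080000000000000000000000000000000) (nat_lit 0x0) (nat_lit 0x4000f80034003a003000000000000000000000000000000000000000000000000) := T_8 (nat_lit 241) (nat_lit 224) (nat_lit 7) (nat_lit 2) (nat_lit 10) L52647 (by decide +kernel)
theorem L52649 : W_8 (nat_lit 9) (nat_lit 0x4000a002f0010001200080000000000000000000000000000000) (nat_lit 0x0) (nat_lit 0x4000f8003c003a003000000001000000000000000000000000000000000000000) := T_8 (nat_lit 223) (nat_lit 156) (nat_lit 6) (nat_lit 2) (nat_lit 13) L52648 (by decide +kernel)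
theorem L52650 : W_8 (nat_lit 10) (nat_lit 0xa002f0010001200080000000000000000000000000000000) (nat_lit 0x0) (nat_lit 0x4000f8003c003e003000000001c001e0007000080000000000000000000000000) := Q_8 (nat_lit 206) (C_8 L52649 (C_8 L52640 (C_8 L52628 (C_8 L52629 (C_8 L52636 N_8))))) (by decide +kernel)
theorem L52651 : W_8 (nat_lit 11) (nat_lit 0xa002d0010001200080000000000000000000000000000000) (nat_lit 0x0) (nat_lit 0x5000f8003c003e003000028001e001e0007000080000000000000000000000000) := Q_8 (nat_lit 173) (C_8 L51881 (C_8 L51842 (C_8 L52641 (C_8 L52650 N_8)))) (by decide +kernel)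
theorem L52652 : W_8 (nat_lit 12) (nat_lit 0xa002c0010001200080000000000000000000000000000000) (nat_lit 0x0) (nat_lit 0x5000f8007c003e003180038001e001e003f00038001c000200000000000000000) := Q_8 (nat_lit 172) (C_8 L52094 (C_8 L51900 (C_8 L52608 (C_8 L51843 (C_8 L52619 (C_8 L52651 N_8)))))) (by decide +kernel)
theorem L52653 : W_8 (nat_lit 2) (nat_lit 0x6001a0005b002e0010001200080000000000000000000000000000000) (nat_lit 0x0) (nat_lit 0x10001800000000000000000000000000000000000000000000000000000000) := D_8 (nat_lit 227) (nat_lit 228) (nat_lit 244) (nat_lit 2) (nat_lit 4) (nat_lit 13) (nat_lit 7) (nat_lit 5) (nat_lit 10) (by decide +kernel)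
theorem L52654 : W_8 (nat_lit 3) (nat_lit 0x4001a0005b002e0010001200080000000000000000000000000000000) (nat_lit 0x0) (nat_lit 0x14001a00000000000000000000000000000000000000000000000000000000) := T_8 (nat_lit 225) (nat_lit 242) (nat_lit 5) (nat_lit 5) (nat_lit 10) L52653 (by decide +kernel)
theorem L52655 : W_8 (nat_lit 4) (nat_lit 0x400180005b002e0010001200080000000000000000000000000000000) (nat_lit 0x0) (nat_lit 0x1c001a00020000000000000000000000000000000000000000000000000000) := T_8 (nat_lit 209) (nat_lit 243) (nat_lit 4) (nat_lit 5) (nat_lit 14) L52654 (by decide +kernel)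
theorem L52656 : W_8 (nat_lit 5) (nat_lit 0x400180004b002e0010001200080000000000000000000000000000000) (nat_lit 0x0) (nat_lit 0x1c001a00020003000000000000000000000000000000000000000000000000) := T_8 (nat_lit 192) (nat_lit 193) (nat_lit 3) (nat_lit 4) (nat_lit 11) L52655 (by decide +kernel)
theorem L52657 : W_8 (nat_lit 6) (nat_lit 0x400080004b002e0010001200080000000000000000000000000000000) (nat_lit 0x0) (nat_lit 0x1c003a00120003000000000000000000000000000000000000000000000000) := T_8 (nat_lit 212) (nat_lit 229) (nat_lit 7) (nat_lit 7) (nat_lit 9) L52656 (by decide +kernel)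
theorem L52658 : W_8 (nat_lit 7) (nat_lit 0x400000004b002e0010001200080000000000000000000000000000000) (nat_lit 0x0) (nat_lit 0x1c003a001a0003000000020000000000000000000000000000000000000000) := T_8 (nat_lit 211) (nat_lit 161) (nat_lit 6) (nat_lit 7) (nat_lit 12) L52657 (by decide +kernel)
theorem L52659 : W_8 (nat_lit 8) (nat_lit 0x400000004a002e0010001200080000000000000000000000000000000) (nat_lit 0x0) (nat_lit 0x1c003a001a0003500000020000000000000000000000000000000000000000) := T_8 (nat_lit 188) (nat_lit 190) (nat_lit 2) (nat_lit 1) (nat_lit 11) L52658 (by decide +kernel)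
theorem L52660 : W_8 (nat_lit 2) (nat_lit 0x3c00090006e002e0010001200080000000000000000000000000000000) (nat_lit 0x0) (nat_lit 0x4000200000000000000001000000000000000000000000000000000000000) := D_8 (nat_lit 225) (nat_lit 242) (nat_lit 156) (nat_lit 4) (nat_lit 4) (nat_lit 14) (nat_lit 4) (nat_lit 4) (nat_lit 13) (by decide +kernel)
theorem L52661 : W_8 (nat_lit 3) (nat_lit 0x3c00080006e002e0010001200080000000000000000000000000000000) (nat_lit 0x0) (nat_lit 0x4000200030000000000001000000000000000000000000000000000000000) := T_8 (nat_lit 208) (nat_lit 209) (nat_lit 0) (nat_lit 8) (nat_lit 13) L52660 (by decide +kernel)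
theorem L52662 : W_8 (nat_lit 4) (nat_lit 0x3400080006e002e0010001200080000000000000000000000000000000) (nat_lit 0x0) (nat_lit 0x14000a00030000000000001000000000000000000000000000000000000000) := T_8 (nat_lit 227) (nat_lit 244) (nat_lit 5) (nat_lit 7) (nat_lit 10) L52661 (by decide +kernel)
theorem L52663 : W_8 (nat_lit 5) (nat_lit 0x2400080006e002e0010001200080000000000000000000000000000000) (nat_lit 0x0) (nat_lit 0x54001a00030000000000001000000000000000000000000000000000000000) := T_8 (nat_lit 228) (nat_lit 246) (nat_lit 7) (nat_lit 7) (nat_lit 10) L52662 (by decide +kernel)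
theorem L52664 : W_8 (nat_lit 6) (nat_lit 0x400080006e002e0010001200080000000000000000000000000000000) (nat_lit 0x0) (nat_lit 0x54003a00130000000000001000000000000000000000000000000000000000) := T_8 (nat_lit 229) (nat_lit 212) (nat_lit 7) (nat_lit 7) (nat_lit 9) L52663 (by decide +kernel)
theorem L52665 : W_8 (nat_lit 7) (nat_lit 0x400000006e002e0010001200080000000000000000000000000000000) (nat_lit 0x0) (nat_lit 0x54003a001b0000000000021000000000000000000000000000000000000000) := T_8 (nat_lit 211) (nat_lit 161) (nat_lit 6) (nat_lit 7) (nat_lit 12) L52664 (by decide +kernel)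
theorem L52666 : W_8 (nat_lit 8) (nat_lit 0x400000006a002e0010001200080000000000000000000000000000000) (nat_lit 0x0) (nat_lit 0x54003a001b0000500000021000000000000000000000000000000000000000) := T_8 (nat_lit 190) (nat_lit 188) (nat_lit 2) (nat_lit 1) (nat_lit 11) L52665 (by decide +kernel)
theorem L52667 : W_8 (nat_lit 9) (nat_lit 0x400000004a002e0010001200080000000000000000000000000000000) (nat_lit 0x0) (nat_lit 0x54003a001b0003500000021000000000000000000000000000000000000000) := T_8 (nat_lit 193) (nat_lit 192) (nat_lit 0) (nat_lit 7) (nat_lit 11) L52666 (by decide +kernel)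
theorem L52668 : W_8 (nat_lit 2) (nat_lit 0x4003c00080006e002e0010001200080000000000000000000000000000000) (nat_lit 0x0) (nat_lit 0x2000200010000000000000000000000000000000000000000000000000000) := D_8 (nat_lit 225) (nat_lit 241) (nat_lit 208) (nat_lit 1) (nat_lit 7) (nat_lit 13) (nat_lit 4) (nat_lit 4) (nat_lit 14) (by decide +kernel)
theorem L52669 : W_8 (nat_lit 3) (nat_lit 0x4003c00080006a002e0010001200080000000000000000000000000000000) (nat_lit 0x0) (nat_lit 0x2000200010000500000000000000000000000000000000000000000000000) := T_8 (nat_lit 190) (nat_lit 188) (nat_lit 2) (nat_lit 1) (nat_lit 11) L52668 (by decide +kernel)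
theorem L52670 : W_8 (nat_lit 4) (nat_lit 0x3c00080006a002e0010001200080000000000000000000000000000000) (nat_lit 0x0) (nat_lit 0xe000200010000500000000000000000000000000000000000000000000000) := T_8 (nat_lit 242) (nat_lit 243) (nat_lit 1) (nat_lit 8) (nat_lit 13) L52669 (by decide +kernel)
theorem L52671 : W_8 (nat_lit 5) (nat_lit 0x3400080006a002e0010001200080000000000000000000000000000000) (nat_lit 0x0) (nat_lit 0x1e000a00010000500000000000000000000000000000000000000000000000) := T_8 (nat_lit 227) (nat_lit 244) (nat_lit 5) (nat_lit 7) (nat_lit 10) L52670 (by decide +kernel)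
theorem L52672 : W_8 (nat_lit 6) (nat_lit 0x2400080006a002e0010001200080000000000000000000000000000000) (nat_lit 0x0) (nat_lit 0x5e001a00010000500000000000000000000000000000000000000000000000) := T_8 (nat_lit 228) (nat_lit 246) (nat_lit 7) (nat_lit 7) (nat_lit 10) L52671 (by decide +kernel)
theorem L52673 : W_8 (nat_lit 7) (nat_lit 0x2400080004a002e0010001200080000000000000000000000000000000) (nat_lit 0x0) (nat_lit 0x5e001a00010003500000000000000000000000000000000000000000000000) := T_8 (nat_lit 193) (nat_lit 192) (nat_lit 0) (nat_lit 7) (nat_lit 11) L52672 (by decide +kernel)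
theorem L52674 : W_8 (nat_lit 8) (nat_lit 0x400080004a002e0010001200080000000000000000000000000000000) (nat_lit 0x0) (nat_lit 0x5e003a00110003500000000000000000000000000000000000000000000000) := T_8 (nat_lit 229) (nat_lit 212) (nat_lit 7) (nat_lit 7) (nat_lit 9) L52673 (by decide +kernel)
theorem L52675 : W_8 (nat_lit 9) (nat_lit 0x400000004a002e0010001200080000000000000000000000000000000) (nat_lit 0x0) (nat_lit 0x5e003a00190003500000020000000000000000000000000000000000000000) := T_8 (nat_lit 211) (nat_lit 161) (nat_lit 6) (nat_lit 7) (nat_lit 12) L52674 (by decide +kernel)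
theorem L52676 : W_8 (nat_lit 2) (nat_lit 0x3c000a0004b002e0010001200080000000000000000000000000000000) (nat_lit 0x0) (nat_lit 0xc000000000001000000000000000000000000000000000000000000000000) := D_8 (nat_lit 243) (nat_lit 242) (nat_lit 192) (nat_lit 1) (nat_lit 8) (nat_lit 13) (nat_lit 4) (nat_lit 5) (nat_lit 14) (by decide +kernel)
theorem L52677 : W_8 (nat_lit 3) (nat_lit 0x3c00080004b002e0010001200080000000000000000000000000000000) (nat_lit 0x0) (nat_lit 0xc000000030001000000000000000000000000000000000000000000000000) := T_8 (nat_lit 209) (nat_lit 208) (nat_lit 0) (nat_lit 8) (nat_lit 13) L52676 (by decide +kernel)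
theorem L52678 : W_8 (nat_lit 4) (nat_lit 0x3400080004b002e0010001200080000000000000000000000000000000) (nat_lit 0x0) (nat_lit 0x1c000800030001000000000000000000000000000000000000000000000000) := T_8 (nat_lit 227) (nat_lit 244) (nat_lit 5) (nat_lit 7) (nat_lit 10) L52677 (by decide +kernel)
theorem L52679 : W_8 (nat_lit 5) (nat_lit 0x2400080004b002e0010001200080000000000000000000000000000000) (nat_lit 0x0) (nat_lit 0x5c001800030001000000000000000000000000000000000000000000000000) := T_8 (nat_lit 228) (nat_lit 246) (nat_lit 7) (nat_lit 7) (nat_lit 10) L52678 (by decide +kernel)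
theorem L52680 : W_8 (nat_lit 6) (nat_lit 0x400080004b002e0010001200080000000000000000000000000000000) (nat_lit 0x0) (nat_lit 0x5c003800130001000000000000000000000000000000000000000000000000) := T_8 (nat_lit 229) (nat_lit 212) (nat_lit 7) (nat_lit 7) (nat_lit 9) L52679 (by decide +kernel)
theorem L52681 : W_8 (nat_lit 7) (nat_lit 0x400000004b002e0010001200080000000000000000000000000000000) (nat_lit 0x0) (nat_lit 0x5c0038001b0001000000020000000000000000000000000000000000000000) := T_8 (nat_lit 211) (nat_lit 161) (nat_lit 6) (nat_lit 7) (nat_lit 12) L52680 (by decide +kernel)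
theorem L52682 : W_8 (nat_lit 8) (nat_lit 0x400000004a002e0010001200080000000000000000000000000000000) (nat_lit 0x0) (nat_lit 0x5c0038001b0001500000020000000000000000000000000000000000000000) := T_8 (nat_lit 188) (nat_lit 190) (nat_lit 2) (nat_lit 1) (nat_lit 11) L52681 (by decide +kernel)
theorem L52683 : W_8 (nat_lit 2) (nat_lit 0x3c00090004b002e0010001200080000000000000000000000000000000) (nat_lit 0x0) (nat_lit 0xc000200000000000000000000000000000000000000000000000000000000) := D_8 (nat_lit 243) (nat_lit 242) (nat_lit 225) (nat_lit 1) (nat_lit 8) (nat_lit 13) (nat_lit 7) (nat_lit 4) (nat_lit 10) (by decide +kernel)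
theorem L52684 : W_8 (nat_lit 3) (nat_lit 0x3c00080004b002e0010001200080000000000000000000000000000000) (nat_lit 0x0) (nat_lit 0xc000200030000000000000000000000000000000000000000000000000000) := T_8 (nat_lit 208) (nat_lit 209) (nat_lit 0) (nat_lit 8) (nat_lit 13) L52683 (by decide +kernel)
theorem L52685 : W_8 (nat_lit 4) (nat_lit 0x3400080004b002e0010001200080000000000000000000000000000000) (nat_lit 0x0) (nat_lit 0x1c000a00030000000000000000000000000000000000000000000000000000) := T_8 (nat_lit 227) (nat_lit 244) (nat_lit 5) (nat_lit 7) (nat_lit 10) L52684 (by decide +kernel)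
theorem L52686 : W_8 (nat_lit 5) (nat_lit 0x2400080004b002e0010001200080000000000000000000000000000000) (nat_lit 0x0) (nat_lit 0x5c001a00030000000000000000000000000000000000000000000000000000) := T_8 (nat_lit 228) (nat_lit 246) (nat_lit 7) (nat_lit 7) (nat_lit 10) L52685 (by decide +kernel)
theorem L52687 : W_8 (nat_lit 6) (nat_lit 0x2400080004a002e0010001200080000000000000000000000000000000) (nat_lit 0x0) (nat_lit 0x5c001a00030000500000000000000000000000000000000000000000000000) := T_8 (nat_lit 188) (nat_lit 190) (nat_lit 2) (nat_lit 1) (nat_lit 11) L52686 (by decide +kernel)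
theorem L52688 : W_8 (nat_lit 7) (nat_lit 0x400080004a002e0010001200080000000000000000000000000000000) (nat_lit 0x0) (nat_lit 0x5c003a00130000500000000000000000000000000000000000000000000000) := T_8 (nat_lit 229) (nat_lit 212) (nat_lit 7) (nat_lit 7) (nat_lit 9) L52687 (by decide +kernel)
theorem L52689 : W_8 (nat_lit 8) (nat_lit 0x400000004a002e0010001200080000000000000000000000000000000) (nat_lit 0x0) (nat_lit 0x5c003a001b0000500000020000000000000000000000000000000000000000) := T_8 (nat_lit 211) (nat_lit 161) (nat_lit 6) (nat_lit 7) (nat_lit 12) L52688 (by decide +kernel)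
theorem L52690 : W_8 (nat_lit 2) (nat_lit 0x1000e00024005e002e0010001200080000000000000000000000000000000) (nat_lit 0x0) (nat_lit 0x10000000000001000080000000000000000000000000000000000) := D_8 (nat_lit 156) (nat_lit 139) (nat_lit 208) (nat_lit 5) (nat_lit 3) (nat_lit 8) (nat_lit 4) (nat_lit 4) (nat_lit 13) (by decide +kernel)
theorem L52691 : W_8 (nat_lit 3) (nat_lit 0x1000c00024005e002e0010001200080000000000000000000000000000000) (nat_lit 0x0) (nat_lit 0x4000200010000000000001000080000000000000000000000000000000000) := T_8 (nat_lit 225) (nat_lit 242) (nat_lit 5) (nat_lit 5) (nat_lit 10) L52690 (by decide +kernel)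
theorem L52692 : W_8 (nat_lit 4) (nat_lit 0x1000400024005e002e0010001200080000000000000000000000000000000) (nat_lit 0x0) (nat_lit 0x14000a00010000000000001000080000000000000000000000000000000000) := T_8 (nat_lit 227) (nat_lit 244) (nat_lit 7) (nat_lit 5) (nat_lit 10) L52691 (by decide +kernel)
theorem L52693 : W_8 (nat_lit 5) (nat_lit 0x400024005e002e0010001200080000000000000000000000000000000) (nat_lit 0x0) (nat_lit 0x15000a80010000000000001000080000000000000000000000000000000000) := T_8 (nat_lit 240) (nat_lit 223) (nat_lit 6) (nat_lit 2) (nat_lit 14) L52692 (by decide +kernel)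
theorem L52694 : W_8 (nat_lit 6) (nat_lit 0x400004005e002e0010001200080000000000000000000000000000000) (nat_lit 0x0) (nat_lit 0x1d000a80030000000000001000080000000000000000000000000000000000) := T_8 (nat_lit 209) (nat_lit 243) (nat_lit 4) (nat_lit 5) (nat_lit 14) L52693 (by decide +kernel)
theorem L52695 : W_8 (nat_lit 7) (nat_lit 0x400000005e002e0010001200080000000000000000000000000000000) (nat_lit 0x0) (nat_lit 0x1d000a80036000000000001000080000000000000000000000000000000000) := T_8 (nat_lit 206) (nat_lit 205) (nat_lit 1) (nat_lit 5) (nat_lit 11) L52694 (by decide +kernel)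
theorem L52696 : W_8 (nat_lit 8) (nat_lit 0x400000004e002e0010001200080000000000000000000000000000000) (nat_lit 0x0) (nat_lit 0x1d000a80036003000000001000080000000000000000000000000000000000) := T_8 (nat_lit 192) (nat_lit 193) (nat_lit 0) (nat_lit 7) (nat_lit 11) L52695 (by decide +kernel)
theorem L52697 : W_8 (nat_lit 9) (nat_lit 0x400000004a002e0010001200080000000000000000000000000000000) (nat_lit 0x0) (nat_lit 0x1d000a80036003500000001000080000000000000000000000000000000000) := T_8 (nat_lit 190) (nat_lit 188) (nat_lit 2) (nat_lit 1) (nat_lit 11) L52696 (by decide +kernel)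
theorem L52698 : W_8 (nat_lit 2) (nat_lit 0x6001a4005e002e0010001200080000000000000000000000000000000) (nat_lit 0x0) (nat_lit 0x10000000000001000080000000000000000000000000000000000) := D_8 (nat_lit 156) (nat_lit 208) (nat_lit 139) (nat_lit 4) (nat_lit 4) (nat_lit 13) (nat_lit 5) (nat_lit 3) (nat_lit 8) (by decide +kernel)
theorem L52699 : W_8 (nat_lit 3) (nat_lit 0x6001a0005e002e0010001200080000000000000000000000000000000) (nat_lit 0x0) (nat_lit 0x16000000000001000080000000000000000000000000000000000) := T_8 (nat_lit 206) (nat_lit 205) (nat_lit 1) (nat_lit 5) (nat_lit 11) L52698 (by decide +kernel)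
theorem L52700 : W_8 (nat_lit 4) (nat_lit 0x4001a0005e002e0010001200080000000000000000000000000000000) (nat_lit 0x0) (nat_lit 0x4000200016000000000001000080000000000000000000000000000000000) := T_8 (nat_lit 225) (nat_lit 242) (nat_lit 5) (nat_lit 5) (nat_lit 10) L52699 (by decide +kernel)
theorem L52701 : W_8 (nat_lit 5) (nat_lit 0x4001a0005a002e0010001200080000000000000000000000000000000) (nat_lit 0x0) (nat_lit 0x4000200016000500000001000080000000000000000000000000000000000) := T_8 (nat_lit 190) (nat_lit 188) (nat_lit 2) (nat_lit 1) (nat_lit 11) L52700 (by decide +kernel)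
theorem L52702 : W_8 (nat_lit 6) (nat_lit 0x400180005a002e0010001200080000000000000000000000000000000) (nat_lit 0x0) (nat_lit 0xc000200036000500000001000080000000000000000000000000000000000) := T_8 (nat_lit 209) (nat_lit 243) (nat_lit 4) (nat_lit 5) (nat_lit 14) L52701 (by decide +kernel)
theorem L52703 : W_8 (nat_lit 7) (nat_lit 0x400080005a002e0010001200080000000000000000000000000000000) (nat_lit 0x0) (nat_lit 0xc002200136000500000001000080000000000000000000000000000000000) := T_8 (nat_lit 212) (nat_lit 229) (nat_lit 7) (nat_lit 7) (nat_lit 9) L52702 (by decide +kernel)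
theorem L52704 : W_8 (nat_lit 8) (nat_lit 0x400000005a002e0010001200080000000000000000000000000000000) (nat_lit 0x0) (nat_lit 0xc0022001b6000500000021000080000000000000000000000000000000000) := T_8 (nat_lit 211) (nat_lit 161) (nat_lit 6) (nat_lit 7) (nat_lit 12) L52703 (by decide +kernel)
theorem L52705 : W_8 (nat_lit 9) (nat_lit 0x400000004a002e0010001200080000000000000000000000000000000) (nat_lit 0x0) (nat_lit 0xc0022001b6003500000021000080000000000000000000000000000000000) := T_8 (nat_lit 192) (nat_lit 193) (nat_lit 0) (nat_lit 7) (nat_lit 11) L52704 (by decide +kernel)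
theorem L52706 : W_8 (nat_lit 2) (nat_lit 0x6001a0005a002e0010001200080000000000000000000000000000000) (nat_lit 0x0) (nat_lit 0x10001800000000000000000000000000000000000000000000000000000000) := D_8 (nat_lit 227) (nat_lit 228) (nat_lit 244) (nat_lit 2) (nat_lit 4) (nat_lit 13) (nat_lit 7) (nat_lit 5) (nat_lit 10) (by decide +kernel)
theorem L52707 : W_8 (nat_lit 3) (nat_lit 0x4001a0005a002e0010001200080000000000000000000000000000000) (nat_lit 0x0) (nat_lit 0x14001a00000000000000000000000000000000000000000000000000000000) := T_8 (nat_lit 225) (nat_lit 242) (nat_lit 5) (nat_lit 5) (nat_lit 10) L52706 (by decide +kernel)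
theorem L52708 : W_8 (nat_lit 4) (nat_lit 0x400180005a002e0010001200080000000000000000000000000000000) (nat_lit 0x0) (nat_lit 0x1c001a00020000000000000000000000000000000000000000000000000000) := T_8 (nat_lit 209) (nat_lit 243) (nat_lit 4) (nat_lit 5) (nat_lit 14) L52707 (by decide +kernel)
theorem L52709 : W_8 (nat_lit 5) (nat_lit 0x400180004a002e0010001200080000000000000000000000000000000) (nat_lit 0x0) (nat_lit 0x1c001a00020003000000000000000000000000000000000000000000000000) := T_8 (nat_lit 192) (nat_lit 193) (nat_lit 3) (nat_lit 4) (nat_lit 11) L52708 (by decide +kernel)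
theorem L52710 : W_8 (nat_lit 6) (nat_lit 0x400080004a002e0010001200080000000000000000000000000000000) (nat_lit 0x0) (nat_lit 0x1c003a00120003000000000000000000000000000000000000000000000000) := T_8 (nat_lit 212) (nat_lit 229) (nat_lit 7) (nat_lit 7) (nat_lit 9) L52709 (by decide +kernel)
theorem L52711 : W_8 (nat_lit 7) (nat_lit 0x400000004a002e0010001200080000000000000000000000000000000) (nat_lit 0x0) (nat_lit 0x1c003a001a0003000000020000000000000000000000000000000000000000) := T_8 (nat_lit 211) (nat_lit 161) (nat_lit 6) (nat_lit 7) (nat_lit 12) L52710 (by decide +kernel)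
theorem L52712 : W_8 (nat_lit 2) (nat_lit 0x3c00090006b002e0010001200080000000000000000000000000000000) (nat_lit 0x0) (nat_lit 0x8000200000000000000001000000000000000000000000000000000000000) := D_8 (nat_lit 225) (nat_lit 156) (nat_lit 243) (nat_lit 4) (nat_lit 4) (nat_lit 13) (nat_lit 7) (nat_lit 4) (nat_lit 10) (by decide +kernel)
theorem L52713 : W_8 (nat_lit 3) (nat_lit 0x3c00080006b002e0010001200080000000000000000000000000000000) (nat_lit 0x0) (nat_lit 0x8000200030000000000001000000000000000000000000000000000000000) := T_8 (nat_lit 208) (nat_lit 209) (nat_lit 0) (nat_lit 8) (nat_lit 13) L52712 (by decide +kernel)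
theorem L52714 : W_8 (nat_lit 4) (nat_lit 0x3400080006b002e0010001200080000000000000000000000000000000) (nat_lit 0x0) (nat_lit 0x18000a00030000000000001000000000000000000000000000000000000000) := T_8 (nat_lit 227) (nat_lit 244) (nat_lit 5) (nat_lit 7) (nat_lit 10) L52713 (by decide +kernel)
theorem L52715 : W_8 (nat_lit 5) (nat_lit 0x2400080006b002e0010001200080000000000000000000000000000000) (nat_lit 0x0) (nat_lit 0x58001a00030000000000001000000000000000000000000000000000000000) := T_8 (nat_lit 228) (nat_lit 246) (nat_lit 7) (nat_lit 7) (nat_lit 10) L52714 (by decide +kernel)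
theorem L52716 : W_8 (nat_lit 6) (nat_lit 0x400080006b002e0010001200080000000000000000000000000000000) (nat_lit 0x0) (nat_lit 0x58003a00130000000000001000000000000000000000000000000000000000) := T_8 (nat_lit 229) (nat_lit 212) (nat_lit 7) (nat_lit 7) (nat_lit 9) L52715 (by decide +kernel)
theorem L52717 : W_8 (nat_lit 7) (nat_lit 0x400000006b002e0010001200080000000000000000000000000000000) (nat_lit 0x0) (nat_lit 0x58003a001b0000000000021000000000000000000000000000000000000000) := T_8 (nat_lit 211) (nat_lit 161) (nat_lit 6) (nat_lit 7) (nat_lit 12) L52716 (by decide +kernel)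
theorem L52718 : W_8 (nat_lit 8) (nat_lit 0x400000006a002e0010001200080000000000000000000000000000000) (nat_lit 0x0) (nat_lit 0x58003a001b0000500000021000000000000000000000000000000000000000) := T_8 (nat_lit 188) (nat_lit 190) (nat_lit 2) (nat_lit 1) (nat_lit 11) L52717 (by decide +kernel)
theorem L52719 : W_8 (nat_lit 9) (nat_lit 0x400000004a002e0010001200080000000000000000000000000000000) (nat_lit 0x0) (nat_lit 0x58003a001b0003500000021000000000000000000000000000000000000000) := T_8 (nat_lit 193) (nat_lit 192) (nat_lit 0) (nat_lit 7) (nat_lit 11) L52718 (by decide +kernel)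
theorem L52720 : W_8 (nat_lit 10) (nat_lit 0x4a002e0010001200080000000000000000000000000000000) (nat_lit 0x0) (nat_lit 0x5f003e801b6003500000021000080000000000000000000000000000000000) := Q_8 (nat_lit 226) (C_8 L52659 (C_8 L52667 (C_8 L52675 (C_8 L52682 (C_8 L52689 (C_8 L52697 (C_8 L52705 (C_8 L52711 (C_8 L52719 N_8))))))))) (by decide +kernel)
theorem L52721 : W_8 (nat_lit 6) (nat_lit 0x24005e002e0010001200080000000000000000000000000000000) (nat_lit 0x0) (nat_lit 0x1d000e80010000000000001000080000000000000000000000000000000000) := T_8 (nat_lit 226) (nat_lit 243) (nat_lit 4) (nat_lit 5) (nat_lit 14) L52693 (by decide +kernel)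
theorem L52722 : W_8 (nat_lit 7) (nat_lit 0x20005e002e0010001200080000000000000000000000000000000) (nat_lit 0x0) (nat_lit 0x1d000e80016000000000001000080000000000000000000000000000000000) := T_8 (nat_lit 206) (nat_lit 205) (nat_lit 1) (nat_lit 5) (nat_lit 11) L52721 (by decide +kernel)
theorem L52723 : W_8 (nat_lit 8) (nat_lit 0x5e002e0010001200080000000000000000000000000000000) (nat_lit 0x0) (nat_lit 0x1d000e80076000000000001000080000000000000000000000000000000000) := T_8 (nat_lit 209) (nat_lit 210) (nat_lit 3) (nat_lit 2) (nat_lit 11) L52722 (by decide +kernel)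
theorem L52724 : W_8 (nat_lit 9) (nat_lit 0x5a002e0010001200080000000000000000000000000000000) (nat_lit 0x0) (nat_lit 0x1d000e80076000500000001000080000000000000000000000000000000000) := T_8 (nat_lit 190) (nat_lit 188) (nat_lit 2) (nat_lit 1) (nat_lit 11) L52723 (by decide +kernel)
theorem L52725 : W_8 (nat_lit 10) (nat_lit 0x4a002e0010001200080000000000000000000000000000000) (nat_lit 0x0) (nat_lit 0x1d000e80076003500000001000080000000000000000000000000000000000) := T_8 (nat_lit 192) (nat_lit 193) (nat_lit 0) (nat_lit 7) (nat_lit 11) L52724 (by decide +kernel)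
theorem L52726 : W_8 (nat_lit 2) (nat_lit 0x4001a4005e002e0011001200080000000000000000000000000000000) (nat_lit 0x0) (nat_lit 0x4000200010000000000000000000000000000000000000000000000000000) := D_8 (nat_lit 225) (nat_lit 242) (nat_lit 208) (nat_lit 5) (nat_lit 5) (nat_lit 10) (nat_lit 4) (nat_lit 4) (nat_lit 13) (by decide +kernel)
theorem L52727 : W_8 (nat_lit 3) (nat_lit 0x4001a4005e002e0010001200080000000000000000000000000000000) (nat_lit 0x0) (nat_lit 0x4000200010000000000001000080000000000000000000000000000000000) := T_8 (nat_lit 156) (nat_lit 139) (nat_lit 5) (nat_lit 3) (nat_lit 8) L52726 (by decide +kernel)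
theorem L52728 : W_8 (nat_lit 4) (nat_lit 0x1a4005e002e0010001200080000000000000000000000000000000) (nat_lit 0x0) (nat_lit 0xc000600010000000000001000080000000000000000000000000000000000) := T_8 (nat_lit 226) (nat_lit 243) (nat_lit 4) (nat_lit 5) (nat_lit 14) L52727 (by decide +kernel)
theorem L52729 : W_8 (nat_lit 5) (nat_lit 0x1a0005e002e0010001200080000000000000000000000000000000) (nat_lit 0x0) (nat_lit 0xc000600016000000000001000080000000000000000000000000000000000) := T_8 (nat_lit 206) (nat_lit 205) (nat_lit 1) (nat_lit 5) (nat_lit 11) L52728 (by decide +kernel)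
theorem L52730 : W_8 (nat_lit 6) (nat_lit 0x180005e002e0010001200080000000000000000000000000000000) (nat_lit 0x0) (nat_lit 0xc000600076000000000001000080000000000000000000000000000000000) := T_8 (nat_lit 209) (nat_lit 210) (nat_lit 3) (nat_lit 2) (nat_lit 11) L52729 (by decide +kernel)
theorem L52731 : W_8 (nat_lit 7) (nat_lit 0x180004e002e0010001200080000000000000000000000000000000) (nat_lit 0x0) (nat_lit 0xc000600076003000000001000080000000000000000000000000000000000) := T_8 (nat_lit 192) (nat_lit 193) (nat_lit 3) (nat_lit 4) (nat_lit 11) L52730 (by decide +kernel)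
theorem L52732 : W_8 (nat_lit 8) (nat_lit 0x80004e002e0010001200080000000000000000000000000000000) (nat_lit 0x0) (nat_lit 0xc002600176003000000001000080000000000000000000000000000000000) := T_8 (nat_lit 212) (nat_lit 229) (nat_lit 7) (nat_lit 7) (nat_lit 9) L52731 (by decide +kernel)
theorem L52733 : W_8 (nat_lit 9) (nat_lit 0x4e002e0010001200080000000000000000000000000000000) (nat_lit 0x0) (nat_lit 0xc0026001f6003000000021000080000000000000000000000000000000000) := T_8 (nat_lit 211) (nat_lit 161) (nat_lit 6) (nat_lit 7) (nat_lit 12) L52732 (by decide +kernel)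
theorem L52734 : W_8 (nat_lit 10) (nat_lit 0x4a002e0010001200080000000000000000000000000000000) (nat_lit 0x0) (nat_lit 0xc0026001f6003500000021000080000000000000000000000000000000000) := T_8 (nat_lit 190) (nat_lit 188) (nat_lit 2) (nat_lit 1) (nat_lit 11) L52733 (by decide +kernel)
theorem L52735 : W_8 (nat_lit 11) (nat_lit 0xa002e0010001200080000000000000000000000000000000) (nat_lit 0x0) (nat_lit 0x5f003e801f6007500000021000080000000000000000000000000000000000) := Q_8 (nat_lit 194) (C_8 L52720 (C_8 L52037 (C_8 L52725 (C_8 L52017 (C_8 L52734 (C_8 L52011 N_8)))))) (by decide +kernel)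
theorem L52736 : W_8 (nat_lit 2) (nat_lit 0x1a002e0010001200080000000000000000000000000000000) (nat_lit 0x0) (nat_lit 0x6000010000000000000000000000000000000000000000000) := D_8 (nat_lit 193) (nat_lit 194) (nat_lit 172) (nat_lit 0) (nat_lit 7) (nat_lit 11) (nat_lit 3) (nat_lit 2) (nat_lit 10) (by decide +kernel)
theorem L52737 : W_8 (nat_lit 2) (nat_lit 0x1a002e8011001280080000000000000000000000000000000) (nat_lit 0x0) (nat_lit 0x200010000400000000000000000000000000000000000000000000000) := D_8 (nat_lit 208) (nat_lit 225) (nat_lit 190) (nat_lit 4) (nat_lit 4) (nat_lit 13) (nat_lit 7) (nat_lit 3) (nat_lit 8) (by decide +kernel)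
theorem L52738 : W_8 (nat_lit 3) (nat_lit 0x1a002e8011001200080000000000000000000000000000000) (nat_lit 0x0) (nat_lit 0x200010000400000000000080004000000000000000000000000000000) := T_8 (nat_lit 139) (nat_lit 122) (nat_lit 7) (nat_lit 3) (nat_lit 7) L52737 (by decide +kernel)
theorem L52739 : W_8 (nat_lit 4) (nat_lit 0x1a002e0011001200080000000000000000000000000000000) (nat_lit 0x0) (nat_lit 0x200010000400018000000080004000000000000000000000000000000) := T_8 (nat_lit 171) (nat_lit 172) (nat_lit 3) (nat_lit 1) (nat_lit 10) L52738 (by decide +kernel)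
theorem L52740 : W_8 (nat_lit 2) (nat_lit 0x200020001e002e0011001280080000000000000000000000000000000) (nat_lit 0x0) (nat_lit 0xc000400000000000000000000000000000000000000000000000000000000) := D_8 (nat_lit 226) (nat_lit 242) (nat_lit 243) (nat_lit 5) (nat_lit 5) (nat_lit 10) (nat_lit 4) (nat_lit 5) (nat_lit 14) (by decide +kernel)
theorem L52741 : W_8 (nat_lit 3) (nat_lit 0x200000001e002e0011001280080000000000000000000000000000000) (nat_lit 0x0) (nat_lit 0xc000400060000000000000000000000000000000000000000000000000000) := T_8 (nat_lit 209) (nat_lit 210) (nat_lit 3) (nat_lit 2) (nat_lit 11) L52740 (by decide +kernel)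
theorem L52742 : W_8 (nat_lit 4) (nat_lit 0x200000001a002e0011001280080000000000000000000000000000000) (nat_lit 0x0) (nat_lit 0xc000400064000400000000000000000000000000000000000000000000000) := T_8 (nat_lit 190) (nat_lit 206) (nat_lit 5) (nat_lit 3) (nat_lit 8) L52741 (by decide +kernel)
theorem L52743 : W_8 (nat_lit 5) (nat_lit 0x200000001a002e0011001200080000000000000000000000000000000) (nat_lit 0x0) (nat_lit 0xc000400064000400000000000080004000000000000000000000000000000) := T_8 (nat_lit 139) (nat_lit 122) (nat_lit 7) (nat_lit 3) (nat_lit 7) L52742 (by decide +kernel)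
theorem L52744 : W_8 (nat_lit 6) (nat_lit 0x1a002e0011001200080000000000000000000000000000000) (nat_lit 0x0) (nat_lit 0xc000600074000400000000000080004000000000000000000000000000000) := T_8 (nat_lit 225) (nat_lit 208) (nat_lit 4) (nat_lit 4) (nat_lit 13) L52743 (by decide +kernel)
theorem L52745 : W_8 (nat_lit 2) (nat_lit 0x4001a002f0011801200084000000000000000000000000000000) (nat_lit 0x0) (nat_lit 0x40002000400000000000000000000000000000000000000000000000) := D_8 (nat_lit 205) (nat_lit 222) (nat_lit 190) (nat_lit 5) (nat_lit 2) (nat_lit 9) (nat_lit 1) (nat_lit 5) (nat_lit 11) (by decide +kernel)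
theorem L52746 : W_8 (nat_lit 3) (nat_lit 0x1a002f0011801200084000000000000000000000000000000) (nat_lit 0x0) (nat_lit 0xc0006000400000000000000000000000000000000000000000000000) := T_8 (nat_lit 206) (nat_lit 223) (nat_lit 6) (nat_lit 2) (nat_lit 13) L52745 (by decide +kernel)
theorem L52747 : W_8 (nat_lit 4) (nat_lit 0x1a002f0011001200084000000000000000000000000000000) (nat_lit 0x0) (nat_lit 0xc0006000400000000c00000000000000000000000000000000000000) := T_8 (nat_lit 155) (nat_lit 154) (nat_lit 0) (nat_lit 5) (nat_lit 10) L52746 (by decide +kernel)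
theorem L52748 : W_8 (nat_lit 5) (nat_lit 0x1a002e0011001200084000000000000000000000000000000) (nat_lit 0x0) (nat_lit 0xc0006000400018000c00000000000000000000000000000000000000) := T_8 (nat_lit 172) (nat_lit 171) (nat_lit 3) (nat_lit 1) (nat_lit 10) L52747 (by decide +kernel)
theorem L52749 : W_8 (nat_lit 6) (nat_lit 0x1a002e0011001200080000000000000000000000000000000) (nat_lit 0x0) (nat_lit 0xc0006000400018000c00080004000000000000000000000000000000) := T_8 (nat_lit 122) (nat_lit 139) (nat_lit 7) (nat_lit 3) (nat_lit 7) L52748 (by decide +kernel)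
theorem L52750 : W_8 (nat_lit 2) (nat_lit 0x200004001a002f0011001200080000000000000000000000000000000) (nat_lit 0x0) (nat_lit 0x800080004000000000000000000000000000000) := D_8 (nat_lit 139) (nat_lit 122) (nat_lit 155) (nat_lit 7) (nat_lit 3) (nat_lit 7) (nat_lit 6) (nat_lit 2) (nat_lit 12) (by decide +kernel)
theorem L52751 : W_8 (nat_lit 3) (nat_lit 0x200000001a002f0011001200080000000000000000000000000000000) (nat_lit 0x0) (nat_lit 0x80004000000000000800080004000000000000000000000000000000) := T_8 (nat_lit 206) (nat_lit 223) (nat_lit 6) (nat_lit 2) (nat_lit 13) L52750 (by decide +kernel)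
theorem L52752 : W_8 (nat_lit 4) (nat_lit 0x1a002f0011001200080000000000000000000000000000000) (nat_lit 0x0) (nat_lit 0x280014000000000000800080004000000000000000000000000000000) := T_8 (nat_lit 225) (nat_lit 208) (nat_lit 4) (nat_lit 4) (nat_lit 13) L52751 (by decide +kernel)
theorem L52753 : W_8 (nat_lit 5) (nat_lit 0x1a002e0011001200080000000000000000000000000000000) (nat_lit 0x0) (nat_lit 0x280014000000018000800080004000000000000000000000000000000) := T_8 (nat_lit 172) (nat_lit 171) (nat_lit 3) (nat_lit 1) (nat_lit 10) L52752 (by decide +kernel)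
theorem L52754 : W_8 (nat_lit 7) (nat_lit 0x1a002e0011001200080000000000000000000000000000000) (nat_lit 0x0) (nat_lit 0xc000680076000400018000000000000000000000000000000000000000000) := T_8 (nat_lit 172) (nat_lit 171) (nat_lit 3) (nat_lit 1) (nat_lit 10) L51888 (by decide +kernel)
theorem L52755 : W_8 (nat_lit 8) (nat_lit 0x1a002e0010001200080000000000000000000000000000000) (nat_lit 0x0) (nat_lit 0xc0006c0076000400018001c00080004000000000000000000000000000000) := Q_8 (nat_lit 156) (C_8 L52739 (C_8 L52744 (C_8 L52749 (C_8 L52753 (C_8 L52754 N_8))))) (by decide +kernel)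
theorem L52756 : W_8 (nat_lit 6) (nat_lit 0x80005a002e0010001200080000000000000000000000000000000) (nat_lit 0x0) (nat_lit 0x14003e00150000000000001000000000000000000000000000000000000000) := T_8 (nat_lit 212) (nat_lit 229) (nat_lit 7) (nat_lit 7) (nat_lit 9) L52008 (by decide +kernel)
theorem L52757 : W_8 (nat_lit 7) (nat_lit 0x5a002e0010001200080000000000000000000000000000000) (nat_lit 0x0) (nat_lit 0x14003e001d0000000000021000000000000000000000000000000000000000) := T_8 (nat_lit 211) (nat_lit 161) (nat_lit 6) (nat_lit 7) (nat_lit 12) L52756 (by decide +kernel)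
theorem L52758 : W_8 (nat_lit 8) (nat_lit 0x1a002e0010001200080000000000000000000000000000000) (nat_lit 0x0) (nat_lit 0x14003e001d0006000000021000000000000000000000000000000000000000) := T_8 (nat_lit 194) (nat_lit 193) (nat_lit 0) (nat_lit 7) (nat_lit 11) L52757 (by decide +kernel)
theorem L52759 : W_8 (nat_lit 9) (nat_lit 0xa002e0010001200080000000000000000000000000000000) (nat_lit 0x0) (nat_lit 0x1c003ec01f6007400018021c00080004000000000000000000000000000000) := Q_8 (nat_lit 192) (C_8 L52736 (C_8 L52755 (C_8 L52758 N_8))) (by decide +kernel)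
theorem L52760 : W_8 (nat_lit 12) (nat_lit 0xa002c0010001200080000000000000000000000000000000) (nat_lit 0x0) (nat_lit 0x5f003ec01f6007500038021e00080004000000000000000000000000000000) := Q_8 (nat_lit 173) (C_8 L52735 (C_8 L52002 (C_8 L52001 (C_8 L52759 N_8)))) (by decide +kernel)
theorem L52761 : W_8 (nat_lit 11) (nat_lit 0xa002e0010001200080000000000000000000000000000000) (nat_lit 0x0) (nat_lit 0x4000f8003c003e003100010001c001e0007000080000000000000000000000000) := T_8 (nat_lit 172) (nat_lit 188) (nat_lit 1) (nat_lit 5) (nat_lit 10) L52650 (by decide +kernel)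
theorem L52762 : W_8 (nat_lit 2) (nat_lit 0x1000e00024001e002e0010001200080000000000000000000000000000000) (nat_lit 0x0) (nat_lit 0x100018000000000000000000000000000000000000000000000000000) := D_8 (nat_lit 207) (nat_lit 208) (nat_lit 224) (nat_lit 3) (nat_lit 2) (nat_lit 12) (nat_lit 0) (nat_lit 6) (nat_lit 13) (by decide +kernel)
theorem L52763 : W_8 (nat_lit 3) (nat_lit 0x1000600024001e002e0010001200080000000000000000000000000000000) (nat_lit 0x0) (nat_lit 0x10000900018000000000000000000000000000000000000000000000000000) := T_8 (nat_lit 227) (nat_lit 244) (nat_lit 7) (nat_lit 5) (nat_lit 10) L52762 (by decide +kernel)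
theorem L52764 : W_8 (nat_lit 4) (nat_lit 0x1000400024001e002e0010001200080000000000000000000000000000000) (nat_lit 0x0) (nat_lit 0x14000b00018000000000000000000000000000000000000000000000000000) := T_8 (nat_lit 225) (nat_lit 242) (nat_lit 5) (nat_lit 5) (nat_lit 10) L52763 (by decide +kernel)
theorem L52765 : W_8 (nat_lit 5) (nat_lit 0x1000000024001e002e0010001200080000000000000000000000000000000) (nat_lit 0x0) (nat_lit 0x1c000f00018000000000000000000000000000000000000000000000000000) := T_8 (nat_lit 226) (nat_lit 243) (nat_lit 4) (nat_lit 5) (nat_lit 14) L52764 (by decide +kernel)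
theorem L52766 : W_8 (nat_lit 6) (nat_lit 0x24001e002e0010001200080000000000000000000000000000000) (nat_lit 0x0) (nat_lit 0x1d000f80018000000000000000000000000000000000000000000000000000) := T_8 (nat_lit 240) (nat_lit 223) (nat_lit 6) (nat_lit 2) (nat_lit 14) L52765 (by decide +kernel)
theorem L52767 : W_8 (nat_lit 7) (nat_lit 0x4001e002e0010001200080000000000000000000000000000000) (nat_lit 0x0) (nat_lit 0x1d000f80078000000000000000000000000000000000000000000000000000) := T_8 (nat_lit 209) (nat_lit 210) (nat_lit 3) (nat_lit 2) (nat_lit 11) L52766 (by decide +kernel)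
theorem L52768 : W_8 (nat_lit 8) (nat_lit 0x1e002e0010001200080000000000000000000000000000000) (nat_lit 0x0) (nat_lit 0x1d000f8007e000000000000000000000000000000000000000000000000000) := T_8 (nat_lit 206) (nat_lit 205) (nat_lit 1) (nat_lit 5) (nat_lit 11) L52767 (by decide +kernel)
theorem L52769 : W_8 (nat_lit 2) (nat_lit 0x8000080024001e002e0010001200080000000000000000000000000000000) (nat_lit 0x0) (nat_lit 0x10001000080000000000000000000000000000000000) := D_8 (nat_lit 156) (nat_lit 139) (nat_lit 172) (nat_lit 5) (nat_lit 3) (nat_lit 8) (nat_lit 6) (nat_lit 2) (nat_lit 13) (by decide +kernel)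
theorem L52770 : W_8 (nat_lit 3) (nat_lit 0x8000000024001e002e0010001200080000000000000000000000000000000) (nat_lit 0x0) (nat_lit 0x1000080000000000010001000080000000000000000000000000000000000) := T_8 (nat_lit 223) (nat_lit 240) (nat_lit 6) (nat_lit 2) (nat_lit 14) L52769 (by decide +kernel)
theorem L52771 : W_8 (nat_lit 4) (nat_lit 0x24001e002e0010001200080000000000000000000000000000000) (nat_lit 0x0) (nat_lit 0x9000480000000000010001000080000000000000000000000000000000000) := T_8 (nat_lit 243) (nat_lit 226) (nat_lit 4) (nat_lit 5) (nat_lit 14) L52770 (by decide +kernel)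
theorem L52772 : W_8 (nat_lit 5) (nat_lit 0x20001e002e0010001200080000000000000000000000000000000) (nat_lit 0x0) (nat_lit 0x9000480006000000010001000080000000000000000000000000000000000) := T_8 (nat_lit 206) (nat_lit 205) (nat_lit 1) (nat_lit 5) (nat_lit 11) L52771 (by decide +kernel)
theorem L52773 : W_8 (nat_lit 6) (nat_lit 0x1e002e0010001200080000000000000000000000000000000) (nat_lit 0x0) (nat_lit 0x9000480066000000010001000080000000000000000000000000000000000) := T_8 (nat_lit 209) (nat_lit 210) (nat_lit 3) (nat_lit 2) (nat_lit 11) L52772 (by decide +kernel)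
theorem L52774 : W_8 (nat_lit 2) (nat_lit 0xe00030001e002e0010001200080000000000000000000000000000000) (nat_lit 0x0) (nat_lit 0x3000008000000000000000000000000000000000000000000000000000) := D_8 (nat_lit 228) (nat_lit 207) (nat_lit 229) (nat_lit 0) (nat_lit 7) (nat_lit 13) (nat_lit 0) (nat_lit 8) (nat_lit 13) (by decide +kernel)
theorem L52775 : W_8 (nat_lit 3) (nat_lit 0xe00020001e002e0010001200080000000000000000000000000000000) (nat_lit 0x0) (nat_lit 0x3000018000000000001000000000000000000000000000000000000000) := T_8 (nat_lit 208) (nat_lit 156) (nat_lit 4) (nat_lit 4) (nat_lit 13) L52774 (by decide +kernel)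
theorem L52776 : W_8 (nat_lit 4) (nat_lit 0x600020001e002e0010001200080000000000000000000000000000000) (nat_lit 0x0) (nat_lit 0x10003800018000000000001000000000000000000000000000000000000000) := T_8 (nat_lit 227) (nat_lit 244) (nat_lit 7) (nat_lit 5) (nat_lit 10) L52775 (by decide +kernel)
theorem L52777 : W_8 (nat_lit 5) (nat_lit 0x400020001e002e0010001200080000000000000000000000000000000) (nat_lit 0x0) (nat_lit 0x14003a00018000000000001000000000000000000000000000000000000000) := T_8 (nat_lit 225) (nat_lit 242) (nat_lit 5) (nat_lit 5) (nat_lit 10) L52776 (by decide +kernel)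
theorem L52778 : W_8 (nat_lit 6) (nat_lit 0x20001e002e0010001200080000000000000000000000000000000) (nat_lit 0x0) (nat_lit 0x1c003e00018000000000001000000000000000000000000000000000000000) := T_8 (nat_lit 226) (nat_lit 243) (nat_lit 4) (nat_lit 5) (nat_lit 14) L52777 (by decide +kernel)
theorem L52779 : W_8 (nat_lit 7) (nat_lit 0x1e002e0010001200080000000000000000000000000000000) (nat_lit 0x0) (nat_lit 0x1c003e00078000000000001000000000000000000000000000000000000000) := T_8 (nat_lit 209) (nat_lit 210) (nat_lit 3) (nat_lit 2) (nat_lit 11) L52778 (by decide +kernel)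
theorem L52780 : W_8 (nat_lit 9) (nat_lit 0x1a002e0010001200080000000000000000000000000000000) (nat_lit 0x0) (nat_lit 0x1d003f8007e000400010001000080000000000000000000000000000000000) := Q_8 (nat_lit 190) (C_8 L51963 (C_8 L52768 (C_8 L52773 (C_8 L52779 N_8)))) (by decide +kernel)
theorem L52781 : W_8 (nat_lit 10) (nat_lit 0xa002e0010001200080000000000000000000000000000000) (nat_lit 0x0) (nat_lit 0x1d003f801fe007400010021000080000000000000000000000000000000000) := Q_8 (nat_lit 192) (C_8 L52736 (C_8 L52758 (C_8 L52780 N_8))) (by decide +kernel)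
theorem L52782 : W_8 (nat_lit 12) (nat_lit 0xa002c0010001200080000000000000000000000000000000) (nat_lit 0x0) (nat_lit 0x4005f803fc01fe007500030021c001e0007000080000000000000000000000000) := Q_8 (nat_lit 173) (C_8 L52735 (C_8 L52001 (C_8 L52761 (C_8 L52781 N_8)))) (by decide +kernel)
theorem L52783 : W_8 (nat_lit 2) (nat_lit 0xe00030005b002e0010001200080000000000000000000000000000000) (nat_lit 0x0) (nat_lit 0x3000008000000000000000000000000000000000000000000000000000) := D_8 (nat_lit 228) (nat_lit 207) (nat_lit 229) (nat_lit 0) (nat_lit 7) (nat_lit 13) (nat_lit 0) (nat_lit 8) (nat_lit 13) (by decide +kernel)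
theorem L52784 : W_8 (nat_lit 3) (nat_lit 0xe00020005b002e0010001200080000000000000000000000000000000) (nat_lit 0x0) (nat_lit 0x3000018000000000001000000000000000000000000000000000000000) := T_8 (nat_lit 208) (nat_lit 156) (nat_lit 4) (nat_lit 4) (nat_lit 13) L52783 (by decide +kernel)
theorem L52785 : W_8 (nat_lit 4) (nat_lit 0x600020005b002e0010001200080000000000000000000000000000000) (nat_lit 0x0) (nat_lit 0x10003800018000000000001000000000000000000000000000000000000000) := T_8 (nat_lit 227) (nat_lit 244) (nat_lit 7) (nat_lit 5) (nat_lit 10) L52784 (by decide +kernel)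
theorem L52786 : W_8 (nat_lit 5) (nat_lit 0x400020005b002e0010001200080000000000000000000000000000000) (nat_lit 0x0) (nat_lit 0x14003a00018000000000001000000000000000000000000000000000000000) := T_8 (nat_lit 225) (nat_lit 242) (nat_lit 5) (nat_lit 5) (nat_lit 10) L52785 (by decide +kernel)
theorem L52787 : W_8 (nat_lit 6) (nat_lit 0x400000005b002e0010001200080000000000000000000000000000000) (nat_lit 0x0) (nat_lit 0x1c003a00038000000000001000000000000000000000000000000000000000) := T_8 (nat_lit 209) (nat_lit 243) (nat_lit 4) (nat_lit 5) (nat_lit 14) L52786 (by decide +kernel)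
theorem L52788 : W_8 (nat_lit 7) (nat_lit 0x400000005a002e0010001200080000000000000000000000000000000) (nat_lit 0x0) (nat_lit 0x1c003a00038000500000001000000000000000000000000000000000000000) := T_8 (nat_lit 188) (nat_lit 190) (nat_lit 2) (nat_lit 1) (nat_lit 11) L52787 (by decide +kernel)
theorem L52789 : W_8 (nat_lit 8) (nat_lit 0x400000004a002e0010001200080000000000000000000000000000000) (nat_lit 0x0) (nat_lit 0x1c003a00038003500000001000000000000000000000000000000000000000) := T_8 (nat_lit 192) (nat_lit 193) (nat_lit 0) (nat_lit 7) (nat_lit 11) L52788 (by decide +kernel)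
theorem L52790 : W_8 (nat_lit 7) (nat_lit 0x400000005e002e0010001200080000000000000000000000000000000) (nat_lit 0x0) (nat_lit 0xf8003c0038000000000001000000000000000000000000000000000000000) := T_8 (nat_lit 209) (nat_lit 243) (nat_lit 4) (nat_lit 5) (nat_lit 14) L51995 (by decide +kernel)
theorem L52791 : W_8 (nat_lit 8) (nat_lit 0x400000005a002e0010001200080000000000000000000000000000000) (nat_lit 0x0) (nat_lit 0xf8003c0038000500000001000000000000000000000000000000000000000) := T_8 (nat_lit 190) (nat_lit 188) (nat_lit 2) (nat_lit 1) (nat_lit 11) L52790 (by decide +kernel)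
theorem L52792 : W_8 (nat_lit 9) (nat_lit 0x400000004a002e0010001200080000000000000000000000000000000) (nat_lit 0x0) (nat_lit 0xf8003c0038003500000001000000000000000000000000000000000000000) := T_8 (nat_lit 192) (nat_lit 193) (nat_lit 0) (nat_lit 7) (nat_lit 11) L52791 (by decide +kernel)
theorem L52793 : W_8 (nat_lit 10) (nat_lit 0x4a002e0010001200080000000000000000000000000000000) (nat_lit 0x0) (nat_lit 0x5f803fc01b8003500000021000000000000000000000000000000000000000) := Q_8 (nat_lit 226) (C_8 L52719 (C_8 L52667 (C_8 L52675 (C_8 L52689 (C_8 L52789 (C_8 L52711 (C_8 L52792 (C_8 L52682 N_8)))))))) (by decide +kernel)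
theorem L52794 : W_8 (nat_lit 7) (nat_lit 0x20005e002e0010001200080000000000000000000000000000000) (nat_lit 0x0) (nat_lit 0xf8007c0018000000000001000000000000000000000000000000000000000) := T_8 (nat_lit 226) (nat_lit 243) (nat_lit 4) (nat_lit 5) (nat_lit 14) L51995 (by decide +kernel)
theorem L52795 : W_8 (nat_lit 8) (nat_lit 0x5e002e0010001200080000000000000000000000000000000) (nat_lit 0x0) (nat_lit 0xf8007c0078000000000001000000000000000000000000000000000000000) := T_8 (nat_lit 209) (nat_lit 210) (nat_lit 3) (nat_lit 2) (nat_lit 11) L52794 (by decide +kernel)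
theorem L52796 : W_8 (nat_lit 9) (nat_lit 0x4e002e0010001200080000000000000000000000000000000) (nat_lit 0x0) (nat_lit 0xf8007c0078003000000001000000000000000000000000000000000000000) := T_8 (nat_lit 192) (nat_lit 193) (nat_lit 0) (nat_lit 7) (nat_lit 11) L52795 (by decide +kernel)
theorem L52797 : W_8 (nat_lit 10) (nat_lit 0x4a002e0010001200080000000000000000000000000000000) (nat_lit 0x0) (nat_lit 0xf8007c0078003500000001000000000000000000000000000000000000000) := T_8 (nat_lit 190) (nat_lit 188) (nat_lit 2) (nat_lit 1) (nat_lit 11) L52796 (by decide +kernel)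
theorem L52798 : W_8 (nat_lit 11) (nat_lit 0xa002e0010001200080000000000000000000000000000000) (nat_lit 0x0) (nat_lit 0x5f803fc01f8007500000021000000000000000000000000000000000000000) := Q_8 (nat_lit 194) (C_8 L52793 (C_8 L52037 (C_8 L52797 (C_8 L52017 (C_8 L52011 N_8))))) (by decide +kernel)
theorem L52799 : W_8 (nat_lit 2) (nat_lit 0x80000000e0001a002e8010001200080000000000000000000000000000000) (nat_lit 0x0) (nat_lit 0x800000004000000020000000000000000000000000000000000000000) := D_8 (nat_lit 194) (nat_lit 227) (nat_lit 161) (nat_lit 5) (nat_lit 7) (nat_lit 9) (nat_lit 6) (nat_lit 7) (nat_lit 12) (by decide +kernel)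
theorem L52800 : W_8 (nat_lit 3) (nat_lit 0x8000000060001a002e8010001200080000000000000000000000000000000) (nat_lit 0x0) (nat_lit 0x800180004000000020000000000000000000000000000000000000000) := T_8 (nat_lit 211) (nat_lit 212) (nat_lit 0) (nat_lit 8) (nat_lit 12) L52799 (by decide +kernel)
theorem L52801 : W_8 (nat_lit 4) (nat_lit 0x8000000020001a002e8010001200080000000000000000000000000000000) (nat_lit 0x0) (nat_lit 0x8001c0004400000020000000000000000000000000000000000000000) := T_8 (nat_lit 210) (nat_lit 190) (nat_lit 3) (nat_lit 2) (nat_lit 11) L52800 (by decide +kernel)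
theorem L52802 : W_8 (nat_lit 5) (nat_lit 0x20001a002e8010001200080000000000000000000000000000000) (nat_lit 0x0) (nat_lit 0x8000c001c0004400000020000000000000000000000000000000000000000) := T_8 (nat_lit 243) (nat_lit 226) (nat_lit 4) (nat_lit 5) (nat_lit 14) L52801 (by decide +kernel)
theorem L52803 : W_8 (nat_lit 6) (nat_lit 0x20001a002e0010001200080000000000000000000000000000000) (nat_lit 0x0) (nat_lit 0x8000c001c0004400018020000000000000000000000000000000000000000) := T_8 (nat_lit 171) (nat_lit 172) (nat_lit 3) (nat_lit 1) (nat_lit 10) L52802 (by decide +kernel)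
theorem L52804 : W_8 (nat_lit 2) (nat_lit 0x20001e002f0010801200080000000000000000000000000000000) (nat_lit 0x0) (nat_lit 0x100008000000000000000040000000000000000000000000000000000) := D_8 (nat_lit 207) (nat_lit 224) (nat_lit 138) (nat_lit 4) (nat_lit 3) (nat_lit 13) (nat_lit 7) (nat_lit 2) (nat_lit 8) (by decide +kernel)
theorem L52805 : W_8 (nat_lit 3) (nat_lit 0x20001e002f0010001200080000000000000000000000000000000) (nat_lit 0x0) (nat_lit 0x100008000000000000c00040000000000000000000000000000000000) := T_8 (nat_lit 155) (nat_lit 154) (nat_lit 0) (nat_lit 5) (nat_lit 10) L52804 (by decide +kernel)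
theorem L52806 : W_8 (nat_lit 4) (nat_lit 0x20001e002e0010001200080000000000000000000000000000000) (nat_lit 0x0) (nat_lit 0x100008000000018000c00040000000000000000000000000000000000) := T_8 (nat_lit 172) (nat_lit 171) (nat_lit 3) (nat_lit 1) (nat_lit 10) L52805 (by decide +kernel)
theorem L52807 : W_8 (nat_lit 5) (nat_lit 0x20001a002e0010001200080000000000000000000000000000000) (nat_lit 0x0) (nat_lit 0x100048000400018000c00040000000000000000000000000000000000) := T_8 (nat_lit 190) (nat_lit 210) (nat_lit 3) (nat_lit 2) (nat_lit 11) L52806 (by decide +kernel)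
theorem L52808 : W_8 (nat_lit 2) (nat_lit 0xe00030001a002e8010001200080000000000000000000000000000000) (nat_lit 0x0) (nat_lit 0x3000008000000000000000000000000000000000000000000000000000) := D_8 (nat_lit 228) (nat_lit 207) (nat_lit 229) (nat_lit 0) (nat_lit 7) (nat_lit 13) (nat_lit 0) (nat_lit 8) (nat_lit 13) (by decide +kernel)
theorem L52809 : W_8 (nat_lit 3) (nat_lit 0xe00020001a002e8010001200080000000000000000000000000000000) (nat_lit 0x0) (nat_lit 0x3000018000000000001000000000000000000000000000000000000000) := T_8 (nat_lit 208) (nat_lit 156) (nat_lit 4) (nat_lit 4) (nat_lit 13) L52808 (by decide +kernel)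
theorem L52810 : W_8 (nat_lit 4) (nat_lit 0x600020001a002e8010001200080000000000000000000000000000000) (nat_lit 0x0) (nat_lit 0x10003800018000000000001000000000000000000000000000000000000000) := T_8 (nat_lit 227) (nat_lit 244) (nat_lit 7) (nat_lit 5) (nat_lit 10) L52809 (by decide +kernel)
theorem L52811 : W_8 (nat_lit 5) (nat_lit 0x400020001a002e8010001200080000000000000000000000000000000) (nat_lit 0x0) (nat_lit 0x14003a00018000000000001000000000000000000000000000000000000000) := T_8 (nat_lit 225) (nat_lit 242) (nat_lit 5) (nat_lit 5) (nat_lit 10) L52810 (by decide +kernel)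
theorem L52812 : W_8 (nat_lit 6) (nat_lit 0x20001a002e8010001200080000000000000000000000000000000) (nat_lit 0x0) (nat_lit 0x1c003e00018000000000001000000000000000000000000000000000000000) := T_8 (nat_lit 226) (nat_lit 243) (nat_lit 4) (nat_lit 5) (nat_lit 14) L52811 (by decide +kernel)
theorem L52813 : W_8 (nat_lit 7) (nat_lit 0x20001a002e0010001200080000000000000000000000000000000) (nat_lit 0x0) (nat_lit 0x1c003e00018000000018001000000000000000000000000000000000000000) := T_8 (nat_lit 171) (nat_lit 172) (nat_lit 3) (nat_lit 1) (nat_lit 10) L52812 (by decide +kernel)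
theorem L52814 : W_8 (nat_lit 2) (nat_lit 0x80000000e0001a002e0010001200080000000000000000000000000000000) (nat_lit 0x0) (nat_lit 0x800000004000000020000000000000000000000000000000000000000) := D_8 (nat_lit 194) (nat_lit 227) (nat_lit 161) (nat_lit 5) (nat_lit 7) (nat_lit 9) (nat_lit 6) (nat_lit 7) (nat_lit 12) (by decide +kernel)
theorem L52815 : W_8 (nat_lit 3) (nat_lit 0x8000000060001a002e0010001200080000000000000000000000000000000) (nat_lit 0x0) (nat_lit 0x800180004000000020000000000000000000000000000000000000000) := T_8 (nat_lit 211) (nat_lit 212) (nat_lit 0) (nat_lit 8) (nat_lit 12) L52814 (by decide +kernel)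
theorem L52816 : W_8 (nat_lit 4) (nat_lit 0x8000000020001a002e0010001200080000000000000000000000000000000) (nat_lit 0x0) (nat_lit 0x8001c0004400000020000000000000000000000000000000000000000) := T_8 (nat_lit 210) (nat_lit 190) (nat_lit 3) (nat_lit 2) (nat_lit 11) L52815 (by decide +kernel)
theorem L52817 : W_8 (nat_lit 5) (nat_lit 0x20001a002e0010001200080000000000000000000000000000000) (nat_lit 0x0) (nat_lit 0x8000c001c0004400000020000000000000000000000000000000000000000) := T_8 (nat_lit 243) (nat_lit 226) (nat_lit 4) (nat_lit 5) (nat_lit 14) L52816 (by decide +kernel)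
theorem L52818 : W_8 (nat_lit 8) (nat_lit 0x1a002e0010001200080000000000000000000000000000000) (nat_lit 0x0) (nat_lit 0x1c003f001f8004400018021c00040000000000000000000000000000000000) := Q_8 (nat_lit 209) (C_8 L52803 (C_8 L52807 (C_8 L52813 (C_8 L52817 N_8)))) (by decide +kernel)
theorem L52819 : W_8 (nat_lit 2) (nat_lit 0x1a002e0010001200080000000000000000000000000000000) (nat_lit 0x0) (nat_lit 0x2000018000000000000000000000000000000000000000000) := D_8 (nat_lit 172) (nat_lit 171) (nat_lit 193) (nat_lit 3) (nat_lit 1) (nat_lit 10) (nat_lit 3) (nat_lit 2) (nat_lit 10) (by decide +kernel)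
theorem L52820 : W_8 (nat_lit 9) (nat_lit 0xa002e0010001200080000000000000000000000000000000) (nat_lit 0x0) (nat_lit 0x1c003f001f8007400018021c00040000000000000000000000000000000000) := Q_8 (nat_lit 192) (C_8 L52736 (C_8 L52758 (C_8 L52818 (C_8 L52819 N_8)))) (by decide +kernel)
theorem L52821 : W_8 (nat_lit 12) (nat_lit 0xa002c0010001200080000000000000000000000000000000) (nat_lit 0x0) (nat_lit 0x5f803fc01f8007500038021e00040000000000000000000000000000000000) := Q_8 (nat_lit 173) (C_8 L52798 (C_8 L52002 (C_8 L52001 (C_8 L52820 N_8)))) (by decide +kernel)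
theorem L52822 : W_8 (nat_lit 2) (nat_lit 0x5a002c0010001200080000000000000000000000000000000) (nat_lit 0x0) (nat_lit 0xa000020000000000000000000000000000000000000000000) := D_8 (nat_lit 193) (nat_lit 173) (nat_lit 195) (nat_lit 0) (nat_lit 7) (nat_lit 11) (nat_lit 0) (nat_lit 8) (nat_lit 11) (by decide +kernel)
theorem L52823 : W_8 (nat_lit 2) (nat_lit 0x180005a002c0010001200080000000000000000000000000000000) (nat_lit 0x0) (nat_lit 0x800060000000000000000000000000000000000000000000000000000) := D_8 (nat_lit 210) (nat_lit 209) (nat_lit 227) (nat_lit 0) (nat_lit 8) (nat_lit 12) (nat_lit 5) (nat_lit 7) (nat_lit 9) (by decide +kernel)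
theorem L52824 : W_8 (nat_lit 3) (nat_lit 0x80005a002c0010001200080000000000000000000000000000000) (nat_lit 0x0) (nat_lit 0x2800160000000000000000000000000000000000000000000000000000) := T_8 (nat_lit 212) (nat_lit 229) (nat_lit 7) (nat_lit 7) (nat_lit 9) L52823 (by decide +kernel)
theorem L52825 : W_8 (nat_lit 4) (nat_lit 0x5a002c0010001200080000000000000000000000000000000) (nat_lit 0x0) (nat_lit 0x28001e0000000000020000000000000000000000000000000000000000) := T_8 (nat_lit 211) (nat_lit 161) (nat_lit 6) (nat_lit 7) (nat_lit 12) L52824 (by decide +kernel)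
theorem L52826 : W_8 (nat_lit 5) (nat_lit 0x1a002c0010001200080000000000000000000000000000000) (nat_lit 0x0) (nat_lit 0x28001e000e000020020000000000000000000000000000000000000000) := Q_8 (nat_lit 194) (C_8 L52822 (C_8 L52825 N_8)) (by decide +kernel)
theorem L52827 : W_8 (nat_lit 2) (nat_lit 0x1a002d0010001200080000000000000000000000000000000) (nat_lit 0x0) (nat_lit 0x400028000000000000000000000000000000000000000000) := D_8 (nat_lit 171) (nat_lit 190) (nat_lit 173) (nat_lit 0) (nat_lit 5) (nat_lit 11) (nat_lit 3) (nat_lit 1) (nat_lit 10) (by decide +kernel)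
theorem L52828 : W_8 (nat_lit 6) (nat_lit 0x1a002d0010001200080000000000000000000000000000000) (nat_lit 0x0) (nat_lit 0x18e00e400008020000000000000000000000000000000000000000) := T_8 (nat_lit 190) (nat_lit 171) (nat_lit 0) (nat_lit 5) (nat_lit 11) L52404 (by decide +kernel)
theorem L52829 : W_8 (nat_lit 2) (nat_lit 0x1a002d0010001200080000000000000000000000000000000) (nat_lit 0x0) (nat_lit 0x2000028000000000000000000000000000000000000000000) := D_8 (nat_lit 173) (nat_lit 193) (nat_lit 171) (nat_lit 3) (nat_lit 2) (nat_lit 10) (nat_lit 3) (nat_lit 1) (nat_lit 10) (by decide +kernel)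
theorem L52830 : W_8 (nat_lit 2) (nat_lit 0x7a002d0010001200080000000000000000000000000000000) (nat_lit 0x0) (nat_lit 0x180000000000020000000000000000000000000000000000000000) := D_8 (nat_lit 211) (nat_lit 212) (nat_lit 161) (nat_lit 3) (nat_lit 4) (nat_lit 11) (nat_lit 6) (nat_lit 7) (nat_lit 12) (by decide +kernel)
theorem L52831 : W_8 (nat_lit 3) (nat_lit 0x3a002d0010001200080000000000000000000000000000000) (nat_lit 0x0) (nat_lit 0x18000c000000020000000000000000000000000000000000000000) := T_8 (nat_lit 194) (nat_lit 195) (nat_lit 0) (nat_lit 8) (nat_lit 11) L52830 (by decide +kernel)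
theorem L52832 : W_8 (nat_lit 4) (nat_lit 0x1a002d0010001200080000000000000000000000000000000) (nat_lit 0x0) (nat_lit 0x18000e000020020000000000000000000000000000000000000000) := T_8 (nat_lit 193) (nat_lit 173) (nat_lit 3) (nat_lit 2) (nat_lit 10) L52831 (by decide +kernel)
theorem L52833 : W_8 (nat_lit 7) (nat_lit 0x1a002c0010001200080000000000000000000000000000000) (nat_lit 0x0) (nat_lit 0x18e00e400038020000000000000000000000000000000000000000) := Q_8 (nat_lit 172) (C_8 L52827 (C_8 L52828 (C_8 L52829 (C_8 L52832 N_8)))) (by decide +kernel)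
theorem L52834 : W_8 (nat_lit 2) (nat_lit 0x80000000e0001a002c0010001200080000000000000000000000000000000) (nat_lit 0x0) (nat_lit 0x800000004000000020000000000000000000000000000000000000000) := D_8 (nat_lit 194) (nat_lit 227) (nat_lit 161) (nat_lit 5) (nat_lit 7) (nat_lit 9) (nat_lit 6) (nat_lit 7) (nat_lit 12) (by decide +kernel)
theorem L52835 : W_8 (nat_lit 3) (nat_lit 0x8000000060001a002c0010001200080000000000000000000000000000000) (nat_lit 0x0) (nat_lit 0x800180004000000020000000000000000000000000000000000000000) := T_8 (nat_lit 211) (nat_lit 212) (nat_lit 0) (nat_lit 8) (nat_lit 12) L52834 (by decide +kernel)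
theorem L52836 : W_8 (nat_lit 4) (nat_lit 0x60001a002c0010001200080000000000000000000000000000000) (nat_lit 0x0) (nat_lit 0x8000c00180004000000020000000000000000000000000000000000000000) := T_8 (nat_lit 243) (nat_lit 226) (nat_lit 4) (nat_lit 5) (nat_lit 14) L52835 (by decide +kernel)
theorem L52837 : W_8 (nat_lit 5) (nat_lit 0x20001a002c0010001200080000000000000000000000000000000) (nat_lit 0x0) (nat_lit 0x8000c001c0004400000020000000000000000000000000000000000000000) := T_8 (nat_lit 210) (nat_lit 190) (nat_lit 3) (nat_lit 2) (nat_lit 11) L52836 (by decide +kernel)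
theorem L52838 : W_8 (nat_lit 2) (nat_lit 0xc0002c001e002c0010001200080000000000000000000000000000000) (nat_lit 0x0) (nat_lit 0x4000300000000000000000000000000000000000000000000000000000000) := D_8 (nat_lit 225) (nat_lit 224) (nat_lit 242) (nat_lit 0) (nat_lit 6) (nat_lit 13) (nat_lit 5) (nat_lit 5) (nat_lit 10) (by decide +kernel)
theorem L52839 : W_8 (nat_lit 3) (nat_lit 0xc00024001e002c0010001200080000000000000000000000000000000) (nat_lit 0x0) (nat_lit 0x4000300018000000000000000000000000000000000000000000000000000) := T_8 (nat_lit 207) (nat_lit 208) (nat_lit 3) (nat_lit 2) (nat_lit 12) L52838 (by decide +kernel)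
theorem L52840 : W_8 (nat_lit 4) (nat_lit 0x400024001e002c0010001200080000000000000000000000000000000) (nat_lit 0x0) (nat_lit 0x14000b00018000000000000000000000000000000000000000000000000000) := T_8 (nat_lit 227) (nat_lit 244) (nat_lit 7) (nat_lit 5) (nat_lit 10) L52839 (by decide +kernel)
theorem L52841 : W_8 (nat_lit 5) (nat_lit 0x400024001a002c0010001200080000000000000000000000000000000) (nat_lit 0x0) (nat_lit 0x14000b0001a000400000000000000000000000000000000000000000000000) := T_8 (nat_lit 190) (nat_lit 205) (nat_lit 1) (nat_lit 5) (nat_lit 11) L52840 (by decide +kernel)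
theorem L52842 : W_8 (nat_lit 6) (nat_lit 0x24001a002c0010001200080000000000000000000000000000000) (nat_lit 0x0) (nat_lit 0x1c000f0001a000400000000000000000000000000000000000000000000000) := T_8 (nat_lit 226) (nat_lit 243) (nat_lit 4) (nat_lit 5) (nat_lit 14) L52841 (by decide +kernel)
theorem L52843 : W_8 (nat_lit 2) (nat_lit 0x300036001a002e8010001200080000000000000000000000000000000) (nat_lit 0x0) (nat_lit 0x4c0000000000000000000000000000000000000000000000000000000) := D_8 (nat_lit 223) (nat_lit 222) (nat_lit 226) (nat_lit 2) (nat_lit 1) (nat_lit 13) (nat_lit 0) (nat_lit 5) (nat_lit 13) (by decide +kernel)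
theorem L52844 : W_8 (nat_lit 3) (nat_lit 0x200036001a002e8010001200080000000000000000000000000000000) (nat_lit 0x0) (nat_lit 0x20005c0000000000000000000000000000000000000000000000000000000) := T_8 (nat_lit 224) (nat_lit 241) (nat_lit 5) (nat_lit 4) (nat_lit 10) L52843 (by decide +kernel)
theorem L52845 : W_8 (nat_lit 4) (nat_lit 0x200036001a002e0010001200080000000000000000000000000000000) (nat_lit 0x0) (nat_lit 0x20005c0000000000018000000000000000000000000000000000000000000) := T_8 (nat_lit 171) (nat_lit 172) (nat_lit 3) (nat_lit 1) (nat_lit 10) L52844 (by decide +kernel)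
theorem L52846 : W_8 (nat_lit 5) (nat_lit 0x200036001a002c0010001200080000000000000000000000000000000) (nat_lit 0x0) (nat_lit 0x20005c0000000000038001000000000000000000000000000000000000000) := T_8 (nat_lit 173) (nat_lit 156) (nat_lit 4) (nat_lit 4) (nat_lit 13) L52845 (by decide +kernel)
theorem L52847 : W_8 (nat_lit 6) (nat_lit 0x36001a002c0010001200080000000000000000000000000000000) (nat_lit 0x0) (nat_lit 0x60007c0000000000038001000000000000000000000000000000000000000) := T_8 (nat_lit 225) (nat_lit 242) (nat_lit 6) (nat_lit 4) (nat_lit 14) L52846 (by decide +kernel)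
theorem L52848 : W_8 (nat_lit 7) (nat_lit 0x26001a002c0010001200080000000000000000000000000000000) (nat_lit 0x0) (nat_lit 0x60007c0018000000038001000000000000000000000000000000000000000) := T_8 (nat_lit 208) (nat_lit 207) (nat_lit 2) (nat_lit 1) (nat_lit 12) L52847 (by decide +kernel)
theorem L52849 : W_8 (nat_lit 8) (nat_lit 0x24001a002c0010001200080000000000000000000000000000000) (nat_lit 0x0) (nat_lit 0x60007c001a000400038001000000000000000000000000000000000000000) := T_8 (nat_lit 205) (nat_lit 190) (nat_lit 1) (nat_lit 5) (nat_lit 11) L52848 (by decide +kernel)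
theorem L52850 : W_8 (nat_lit 2) (nat_lit 0x200036001a002f0010001200080000000000000000000000000000000) (nat_lit 0x0) (nat_lit 0x40000000000000000c00000000000000000000000000000000000000) := D_8 (nat_lit 155) (nat_lit 154) (nat_lit 222) (nat_lit 0) (nat_lit 5) (nat_lit 10) (nat_lit 5) (nat_lit 2) (nat_lit 9) (by decide +kernel)
theorem L52851 : W_8 (nat_lit 3) (nat_lit 0x200036001a002e0010001200080000000000000000000000000000000) (nat_lit 0x0) (nat_lit 0x40000000000018000c00000000000000000000000000000000000000) := T_8 (nat_lit 172) (nat_lit 171) (nat_lit 3) (nat_lit 1) (nat_lit 10) L52850 (by decide +kernel)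
theorem L52852 : W_8 (nat_lit 4) (nat_lit 0x200036001a002c0010001200080000000000000000000000000000000) (nat_lit 0x0) (nat_lit 0x40000000000038001c00000000000000000000000000000000000000) := T_8 (nat_lit 173) (nat_lit 156) (nat_lit 4) (nat_lit 4) (nat_lit 13) L52851 (by decide +kernel)
theorem L52853 : W_8 (nat_lit 5) (nat_lit 0x36001a002c0010001200080000000000000000000000000000000) (nat_lit 0x0) (nat_lit 0x4000240000000000038001c00000000000000000000000000000000000000) := T_8 (nat_lit 225) (nat_lit 242) (nat_lit 6) (nat_lit 4) (nat_lit 14) L52852 (by decide +kernel)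
theorem L52854 : W_8 (nat_lit 6) (nat_lit 0x26001a002c0010001200080000000000000000000000000000000) (nat_lit 0x0) (nat_lit 0x4000240018000000038001c00000000000000000000000000000000000000) := T_8 (nat_lit 208) (nat_lit 207) (nat_lit 2) (nat_lit 1) (nat_lit 12) L52853 (by decide +kernel)
theorem L52855 : W_8 (nat_lit 7) (nat_lit 0x24001a002c0010001200080000000000000000000000000000000) (nat_lit 0x0) (nat_lit 0x400024001a000400038001c00000000000000000000000000000000000000) := T_8 (nat_lit 205) (nat_lit 190) (nat_lit 1) (nat_lit 5) (nat_lit 11) L52854 (by decide +kernel)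
theorem L52856 : W_8 (nat_lit 2) (nat_lit 0xf00024001e002d0010001200080000000000000000000000000000000) (nat_lit 0x0) (nat_lit 0x3000080000000000000000000000000000000000000000000000000000000) := D_8 (nat_lit 241) (nat_lit 240) (nat_lit 223) (nat_lit 1) (nat_lit 6) (nat_lit 13) (nat_lit 7) (nat_lit 2) (nat_lit 10) (by decide +kernel)
theorem L52857 : W_8 (nat_lit 3) (nat_lit 0xe00024001e002d0010001200080000000000000000000000000000000) (nat_lit 0x0) (nat_lit 0x3000180008000000000000000000000000000000000000000000000000000) := T_8 (nat_lit 224) (nat_lit 207) (nat_lit 0) (nat_lit 6) (nat_lit 13) L52856 (by decide +kernel)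
theorem L52858 : W_8 (nat_lit 4) (nat_lit 0xc00024001e002d0010001200080000000000000000000000000000000) (nat_lit 0x0) (nat_lit 0x7000380008000000000000000000000000000000000000000000000000000) := T_8 (nat_lit 225) (nat_lit 242) (nat_lit 5) (nat_lit 5) (nat_lit 10) L52857 (by decide +kernel)
theorem L52859 : W_8 (nat_lit 5) (nat_lit 0x400024001e002d0010001200080000000000000000000000000000000) (nat_lit 0x0) (nat_lit 0x17000b80008000000000000000000000000000000000000000000000000000) := T_8 (nat_lit 227) (nat_lit 244) (nat_lit 7) (nat_lit 5) (nat_lit 10) L52858 (by decide +kernel)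
theorem L52860 : W_8 (nat_lit 6) (nat_lit 0x400024001e002c0010001200080000000000000000000000000000000) (nat_lit 0x0) (nat_lit 0x17000b80008000000018000000000000000000000000000000000000000000) := T_8 (nat_lit 172) (nat_lit 171) (nat_lit 0) (nat_lit 5) (nat_lit 11) L52859 (by decide +kernel)
theorem L52861 : W_8 (nat_lit 7) (nat_lit 0x24001e002c0010001200080000000000000000000000000000000) (nat_lit 0x0) (nat_lit 0x1f000f80008000000018000000000000000000000000000000000000000000) := T_8 (nat_lit 226) (nat_lit 243) (nat_lit 4) (nat_lit 5) (nat_lit 14) L52860 (by decide +kernel)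
theorem L52862 : W_8 (nat_lit 8) (nat_lit 0x24001a002c0010001200080000000000000000000000000000000) (nat_lit 0x0) (nat_lit 0x1f000f8000a000400018000000000000000000000000000000000000000000) := T_8 (nat_lit 190) (nat_lit 205) (nat_lit 1) (nat_lit 5) (nat_lit 11) L52861 (by decide +kernel)
theorem L52863 : W_8 (nat_lit 2) (nat_lit 0xc0002c001e002d0010001200080000000000000000000000000000000) (nat_lit 0x0) (nat_lit 0x2000100000000000000000800000000000000000000000000000000000000) := D_8 (nat_lit 224) (nat_lit 241) (nat_lit 155) (nat_lit 6) (nat_lit 3) (nat_lit 14) (nat_lit 7) (nat_lit 2) (nat_lit 9) (by decide +kernel)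
theorem L52864 : W_8 (nat_lit 3) (nat_lit 0xc00024001e002d0010001200080000000000000000000000000000000) (nat_lit 0x0) (nat_lit 0x2000100018000000000000800000000000000000000000000000000000000) := T_8 (nat_lit 207) (nat_lit 208) (nat_lit 3) (nat_lit 2) (nat_lit 12) L52863 (by decide +kernel)
theorem L52865 : W_8 (nat_lit 4) (nat_lit 0x400024001e002d0010001200080000000000000000000000000000000) (nat_lit 0x0) (nat_lit 0x12000900018000000000000800000000000000000000000000000000000000) := T_8 (nat_lit 227) (nat_lit 244) (nat_lit 7) (nat_lit 5) (nat_lit 10) L52864 (by decide +kernel)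
theorem L52866 : W_8 (nat_lit 5) (nat_lit 0x400024001e002c0010001200080000000000000000000000000000000) (nat_lit 0x0) (nat_lit 0x12000900018000000018000800000000000000000000000000000000000000) := T_8 (nat_lit 172) (nat_lit 171) (nat_lit 0) (nat_lit 5) (nat_lit 11) L52865 (by decide +kernel)
theorem L52867 : W_8 (nat_lit 6) (nat_lit 0x24001e002c0010001200080000000000000000000000000000000) (nat_lit 0x0) (nat_lit 0x1a000d00018000000018000800000000000000000000000000000000000000) := T_8 (nat_lit 226) (nat_lit 243) (nat_lit 4) (nat_lit 5) (nat_lit 14) L52866 (by decide +kernel)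
theorem L52868 : W_8 (nat_lit 7) (nat_lit 0x24001a002c0010001200080000000000000000000000000000000) (nat_lit 0x0) (nat_lit 0x1a000d0001a000400018000800000000000000000000000000000000000000) := T_8 (nat_lit 190) (nat_lit 205) (nat_lit 1) (nat_lit 5) (nat_lit 11) L52867 (by decide +kernel)
theorem L52869 : W_8 (nat_lit 2) (nat_lit 0xe00024001a002c0010001200080000000000000000000000000000000) (nat_lit 0x0) (nat_lit 0x100018000000000000000000000000000000000000000000000000000) := D_8 (nat_lit 207) (nat_lit 208) (nat_lit 224) (nat_lit 3) (nat_lit 2) (nat_lit 12) (nat_lit 0) (nat_lit 6) (nat_lit 13) (by decide +kernel)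
theorem L52870 : W_8 (nat_lit 3) (nat_lit 0x600024001a002c0010001200080000000000000000000000000000000) (nat_lit 0x0) (nat_lit 0x10000900018000000000000000000000000000000000000000000000000000) := T_8 (nat_lit 227) (nat_lit 244) (nat_lit 7) (nat_lit 5) (nat_lit 10) L52869 (by decide +kernel)
theorem L52871 : W_8 (nat_lit 4) (nat_lit 0x400024001a002c0010001200080000000000000000000000000000000) (nat_lit 0x0) (nat_lit 0x14000b00018000000000000000000000000000000000000000000000000000) := T_8 (nat_lit 225) (nat_lit 242) (nat_lit 5) (nat_lit 5) (nat_lit 10) L52870 (by decide +kernel)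
theorem L52872 : W_8 (nat_lit 5) (nat_lit 0x24001a002c0010001200080000000000000000000000000000000) (nat_lit 0x0) (nat_lit 0x1c000f00018000000000000000000000000000000000000000000000000000) := T_8 (nat_lit 226) (nat_lit 243) (nat_lit 4) (nat_lit 5) (nat_lit 14) L52871 (by decide +kernel)
theorem L52873 : W_8 (nat_lit 2) (nat_lit 0xf00026001a002c0010001200080000000000000000000000000000000) (nat_lit 0x0) (nat_lit 0x3000000010000000000000000000000000000000000000000000000000000) := D_8 (nat_lit 241) (nat_lit 240) (nat_lit 208) (nat_lit 1) (nat_lit 6) (nat_lit 13) (nat_lit 5) (nat_lit 4) (nat_lit 10) (by decide +kernel)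
theorem L52874 : W_8 (nat_lit 3) (nat_lit 0xe00026001a002c0010001200080000000000000000000000000000000) (nat_lit 0x0) (nat_lit 0x3000180010000000000000000000000000000000000000000000000000000) := T_8 (nat_lit 224) (nat_lit 223) (nat_lit 0) (nat_lit 5) (nat_lit 13) L52873 (by decide +kernel)
theorem L52875 : W_8 (nat_lit 4) (nat_lit 0xc00026001a002c0010001200080000000000000000000000000000000) (nat_lit 0x0) (nat_lit 0x7000380010000000000000000000000000000000000000000000000000000) := T_8 (nat_lit 225) (nat_lit 242) (nat_lit 5) (nat_lit 5) (nat_lit 10) L52874 (by decide +kernel)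
theorem L52876 : W_8 (nat_lit 5) (nat_lit 0x400026001a002c0010001200080000000000000000000000000000000) (nat_lit 0x0) (nat_lit 0x17000b80010000000000000000000000000000000000000000000000000000) := T_8 (nat_lit 227) (nat_lit 244) (nat_lit 7) (nat_lit 5) (nat_lit 10) L52875 (by decide +kernel)
theorem L52877 : W_8 (nat_lit 6) (nat_lit 0x400024001a002c0010001200080000000000000000000000000000000) (nat_lit 0x0) (nat_lit 0x17000b80012000400000000000000000000000000000000000000000000000) := T_8 (nat_lit 205) (nat_lit 190) (nat_lit 1) (nat_lit 5) (nat_lit 11) L52876 (by decide +kernel)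
theorem L52878 : W_8 (nat_lit 7) (nat_lit 0x24001a002c0010001200080000000000000000000000000000000) (nat_lit 0x0) (nat_lit 0x1f000f80012000400000000000000000000000000000000000000000000000) := T_8 (nat_lit 226) (nat_lit 243) (nat_lit 4) (nat_lit 5) (nat_lit 14) L52877 (by decide +kernel)
theorem L52879 : W_8 (nat_lit 9) (nat_lit 0x20001a002c0010001200080000000000000000000000000000000) (nat_lit 0x0) (nat_lit 0x1f000fc001e000400038001c00000000000000000000000000000000000000) := Q_8 (nat_lit 206) (C_8 L52842 (C_8 L52849 (C_8 L52855 (C_8 L52862 (C_8 L52868 (C_8 L52872 (C_8 L52878 N_8))))))) (by decide +kernel)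
theorem L52880 : W_8 (nat_lit 2) (nat_lit 0xe0001a002c0010001200080000000000000000000000000000000) (nat_lit 0x0) (nat_lit 0x800000004000000020000000000000000000000000000000000000000) := D_8 (nat_lit 194) (nat_lit 227) (nat_lit 161) (nat_lit 5) (nat_lit 7) (nat_lit 9) (nat_lit 6) (nat_lit 7) (nat_lit 12) (by decide +kernel)
theorem L52881 : W_8 (nat_lit 3) (nat_lit 0x60001a002c0010001200080000000000000000000000000000000) (nat_lit 0x0) (nat_lit 0x800180004000000020000000000000000000000000000000000000000) := T_8 (nat_lit 211) (nat_lit 212) (nat_lit 0) (nat_lit 8) (nat_lit 12) L52880 (by decide +kernel)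
theorem L52882 : W_8 (nat_lit 4) (nat_lit 0x20001a002c0010001200080000000000000000000000000000000) (nat_lit 0x0) (nat_lit 0x8001c0004400000020000000000000000000000000000000000000000) := T_8 (nat_lit 210) (nat_lit 190) (nat_lit 3) (nat_lit 2) (nat_lit 11) L52881 (by decide +kernel)
theorem L52883 : W_8 (nat_lit 2) (nat_lit 0x80000000f0005a002c0010001200080000000000000000000000000000000) (nat_lit 0x0) (nat_lit 0x4000300000000000000000000000000000000000000000000000000000000) := D_8 (nat_lit 225) (nat_lit 224) (nat_lit 242) (nat_lit 1) (nat_lit 7) (nat_lit 12) (nat_lit 6) (nat_lit 4) (nat_lit 14) (by decide +kernel)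
theorem L52884 : W_8 (nat_lit 3) (nat_lit 0x80000000e0005a002c0010001200080000000000000000000000000000000) (nat_lit 0x0) (nat_lit 0x4000300010008000000000000000000000000000000000000000000000000) := T_8 (nat_lit 208) (nat_lit 195) (nat_lit 2) (nat_lit 4) (nat_lit 12) L52883 (by decide +kernel)
theorem L52885 : W_8 (nat_lit 4) (nat_lit 0x80000000e0001a002c0010001200080000000000000000000000000000000) (nat_lit 0x0) (nat_lit 0x400030001000c000000020000000000000000000000000000000000000000) := T_8 (nat_lit 194) (nat_lit 161) (nat_lit 6) (nat_lit 7) (nat_lit 12) L52884 (by decide +kernel)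
theorem L52886 : W_8 (nat_lit 5) (nat_lit 0x8000000060001a002c0010001200080000000000000000000000000000000) (nat_lit 0x0) (nat_lit 0x400030019000c000000020000000000000000000000000000000000000000) := T_8 (nat_lit 211) (nat_lit 212) (nat_lit 0) (nat_lit 8) (nat_lit 12) L52885 (by decide +kernel)
theorem L52887 : W_8 (nat_lit 6) (nat_lit 0x60001a002c0010001200080000000000000000000000000000000) (nat_lit 0x0) (nat_lit 0xc00070019000c000000020000000000000000000000000000000000000000) := T_8 (nat_lit 243) (nat_lit 226) (nat_lit 4) (nat_lit 5) (nat_lit 14) L52886 (by decide +kernel)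
theorem L52888 : W_8 (nat_lit 7) (nat_lit 0x20001a002c0010001200080000000000000000000000000000000) (nat_lit 0x0) (nat_lit 0xc0007001d000c400000020000000000000000000000000000000000000000) := T_8 (nat_lit 210) (nat_lit 190) (nat_lit 3) (nat_lit 2) (nat_lit 11) L52887 (by decide +kernel)
theorem L52889 : W_8 (nat_lit 6) (nat_lit 0x20001a002c0010001200080000000000000000000000000000000) (nat_lit 0x0) (nat_lit 0x1e003fc00dc000000000000000000000000000000000000000000000000000) := Q_8 (nat_lit 208) (C_8 L52472 (C_8 L52463 (C_8 L52459 (C_8 L52467 N_8)))) (by decide +kernel)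
theorem L52890 : W_8 (nat_lit 10) (nat_lit 0x1a002c0010001200080000000000000000000000000000000) (nat_lit 0x0) (nat_lit 0x1f003fc01fe00c400038021c00000000000000000000000000000000000000) := Q_8 (nat_lit 209) (C_8 L52837 (C_8 L52879 (C_8 L52882 (C_8 L52888 (C_8 L52889 N_8))))) (by decide +kernel)
theorem L52891 : W_8 (nat_lit 9) (nat_lit 0x1e002e0010001200080000000000000000000000000000000) (nat_lit 0x0) (nat_lit 0x1d000e80076006000000001000080000000000000000000000000000000000) := T_8 (nat_lit 194) (nat_lit 193) (nat_lit 0) (nat_lit 7) (nat_lit 11) L52723 (by decide +kernel)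
theorem L52892 : W_8 (nat_lit 10) (nat_lit 0x1a002e0010001200080000000000000000000000000000000) (nat_lit 0x0) (nat_lit 0x1d003e8007e006400000001000080000000000000000000000000000000000) := Q_8 (nat_lit 190) (C_8 L52779 (C_8 L51966 (C_8 L52891 N_8))) (by decide +kernel)
theorem L52893 : W_8 (nat_lit 11) (nat_lit 0x1a002c0010001200080000000000000000000000000000000) (nat_lit 0x0) (nat_lit 0x1d003f8007e006400038001000080000000000000000000000000000000000) := Q_8 (nat_lit 173) (C_8 L52819 (C_8 L52780 (C_8 L52892 N_8))) (by decide +kernel)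
theorem L52894 : W_8 (nat_lit 2) (nat_lit 0x8000000024001e002f0010001200080000000000000000000000000000000) (nat_lit 0x0) (nat_lit 0x80000000000000001000080000000000000000000000000000000000) := D_8 (nat_lit 156) (nat_lit 139) (nat_lit 223) (nat_lit 5) (nat_lit 3) (nat_lit 8) (nat_lit 6) (nat_lit 2) (nat_lit 13) (by decide +kernel)
theorem L52895 : W_8 (nat_lit 3) (nat_lit 0x8000000024001e002d0010001200080000000000000000000000000000000) (nat_lit 0x0) (nat_lit 0x80000002000020001000080000000000000000000000000000000000) := T_8 (nat_lit 173) (nat_lit 193) (nat_lit 3) (nat_lit 2) (nat_lit 10) L52894 (by decide +kernel)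
theorem L52896 : W_8 (nat_lit 4) (nat_lit 0x24001e002d0010001200080000000000000000000000000000000) (nat_lit 0x0) (nat_lit 0x8000480000002000020001000080000000000000000000000000000000000) := T_8 (nat_lit 243) (nat_lit 226) (nat_lit 4) (nat_lit 5) (nat_lit 14) L52895 (by decide +kernel)
theorem L52897 : W_8 (nat_lit 5) (nat_lit 0x24001e002c0010001200080000000000000000000000000000000) (nat_lit 0x0) (nat_lit 0x8000480000002000038001000080000000000000000000000000000000000) := T_8 (nat_lit 172) (nat_lit 171) (nat_lit 0) (nat_lit 5) (nat_lit 11) L52896 (by decide +kernel)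
theorem L52898 : W_8 (nat_lit 6) (nat_lit 0x4001e002c0010001200080000000000000000000000000000000) (nat_lit 0x0) (nat_lit 0x8000480060002000038001000080000000000000000000000000000000000) := T_8 (nat_lit 209) (nat_lit 210) (nat_lit 3) (nat_lit 2) (nat_lit 11) L52897 (by decide +kernel)
theorem L52899 : W_8 (nat_lit 7) (nat_lit 0x1e002c0010001200080000000000000000000000000000000) (nat_lit 0x0) (nat_lit 0x8000480066002000038001000080000000000000000000000000000000000) := T_8 (nat_lit 206) (nat_lit 205) (nat_lit 1) (nat_lit 5) (nat_lit 11) L52898 (by decide +kernel)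
theorem L52900 : W_8 (nat_lit 2) (nat_lit 0x4001e002d0010001200080000000000000000000000000000000) (nat_lit 0x0) (nat_lit 0x8002000020000000000000000000000000000000000000000000) := D_8 (nat_lit 193) (nat_lit 173) (nat_lit 207) (nat_lit 3) (nat_lit 2) (nat_lit 10) (nat_lit 1) (nat_lit 6) (nat_lit 11) (by decide +kernel)
theorem L52901 : W_8 (nat_lit 3) (nat_lit 0x1e002d0010001200080000000000000000000000000000000) (nat_lit 0x0) (nat_lit 0xe002000020000000000000000000000000000000000000000000) := T_8 (nat_lit 206) (nat_lit 205) (nat_lit 1) (nat_lit 5) (nat_lit 11) L52900 (by decide +kernel)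
theorem L52902 : W_8 (nat_lit 4) (nat_lit 0x1e002c0010001200080000000000000000000000000000000) (nat_lit 0x0) (nat_lit 0xe002000038000000000000000000000000000000000000000000) := T_8 (nat_lit 172) (nat_lit 171) (nat_lit 0) (nat_lit 5) (nat_lit 11) L52901 (by decide +kernel)
theorem L52903 : W_8 (nat_lit 2) (nat_lit 0x40002c001e002c0010001200080000000000000000000000000000000) (nat_lit 0x0) (nat_lit 0x10000800010000000000000000000000000000000000000000000000000000) := D_8 (nat_lit 227) (nat_lit 208) (nat_lit 244) (nat_lit 3) (nat_lit 2) (nat_lit 12) (nat_lit 7) (nat_lit 5) (nat_lit 10) (by decide +kernel)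
theorem L52904 : W_8 (nat_lit 3) (nat_lit 0x2c001e002c0010001200080000000000000000000000000000000) (nat_lit 0x0) (nat_lit 0x18000c00010000000000000000000000000000000000000000000000000000) := T_8 (nat_lit 226) (nat_lit 243) (nat_lit 4) (nat_lit 5) (nat_lit 14) L52903 (by decide +kernel)
theorem L52905 : W_8 (nat_lit 4) (nat_lit 0x24001e002c0010001200080000000000000000000000000000000) (nat_lit 0x0) (nat_lit 0x18000c00018002000000000000000000000000000000000000000000000000) := T_8 (nat_lit 207) (nat_lit 193) (nat_lit 1) (nat_lit 6) (nat_lit 11) L52904 (by decide +kernel)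
theorem L52906 : W_8 (nat_lit 5) (nat_lit 0x4001e002c0010001200080000000000000000000000000000000) (nat_lit 0x0) (nat_lit 0x18000c00078002000000000000000000000000000000000000000000000000) := T_8 (nat_lit 209) (nat_lit 210) (nat_lit 3) (nat_lit 2) (nat_lit 11) L52905 (by decide +kernel)
theorem L52907 : W_8 (nat_lit 6) (nat_lit 0x1e002c0010001200080000000000000000000000000000000) (nat_lit 0x0) (nat_lit 0x18000c0007e002000000000000000000000000000000000000000000000000) := T_8 (nat_lit 206) (nat_lit 205) (nat_lit 1) (nat_lit 5) (nat_lit 11) L52906 (by decide +kernel)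
theorem L52908 : W_8 (nat_lit 4) (nat_lit 0x20001e002d0010001200080000000000000000000000000000000) (nat_lit 0x0) (nat_lit 0x100008002000020000c00040000000000000000000000000000000000) := T_8 (nat_lit 173) (nat_lit 193) (nat_lit 3) (nat_lit 2) (nat_lit 10) L52805 (by decide +kernel)
theorem L52909 : W_8 (nat_lit 5) (nat_lit 0x1e002d0010001200080000000000000000000000000000000) (nat_lit 0x0) (nat_lit 0x100068002000020000c00040000000000000000000000000000000000) := T_8 (nat_lit 209) (nat_lit 210) (nat_lit 3) (nat_lit 2) (nat_lit 11) L52908 (by decide +kernel)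
theorem L52910 : W_8 (nat_lit 6) (nat_lit 0x1e002c0010001200080000000000000000000000000000000) (nat_lit 0x0) (nat_lit 0x100068002000038000c00040000000000000000000000000000000000) := T_8 (nat_lit 172) (nat_lit 171) (nat_lit 0) (nat_lit 5) (nat_lit 11) L52909 (by decide +kernel)
theorem L52911 : W_8 (nat_lit 9) (nat_lit 0x1a002c0010001200080000000000000000000000000000000) (nat_lit 0x0) (nat_lit 0x1c000f8007e002400038001c000c0000000000000000000000000000000000) := Q_8 (nat_lit 190) (C_8 L52899 (C_8 L52902 (C_8 L52410 (C_8 L52907 (C_8 L52910 N_8))))) (by decide +kernel)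
theorem L52912 : W_8 (nat_lit 12) (nat_lit 0xa002c0010001200080000000000000000000000000000000) (nat_lit 0x0) (nat_lit 0x1f003fc01fe00f400038021c000c0000000000000000000000000000000000) := Q_8 (nat_lit 192) (C_8 L52826 (C_8 L52833 (C_8 L52890 (C_8 L52893 (C_8 L52911 (C_8 L52503 N_8)))))) (by decide +kernel)
theorem L52913 : W_8 (nat_lit 2) (nat_lit 0x4000300010000b002e0010001200080000000000000000000000000000000) (nat_lit 0x0) (nat_lit 0x100008000400000000000000000000000000000000000000000000000000000000) := D_8 (nat_lit 243) (nat_lit 260) (nat_lit 226) (nat_lit 7) (nat_lit 4) (nat_lit 11) (nat_lit 7) (nat_lit 4) (nat_lit 10) (by decide +kernel)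
theorem L52914 : W_8 (nat_lit 3) (nat_lit 0x300010000b002e0010001200080000000000000000000000000000000) (nat_lit 0x0) (nat_lit 0x10000c000400000001000000000000000000000000000000000000000000000000) := T_8 (nat_lit 242) (nat_lit 192) (nat_lit 6) (nat_lit 4) (nat_lit 14) L52913 (by decide +kernel)
theorem L52915 : W_8 (nat_lit 4) (nat_lit 0x200010000b002e0010001200080000000000000000000000000000000) (nat_lit 0x0) (nat_lit 0x10000e000500000001000000000000000000000000000000000000000000000000) := T_8 (nat_lit 224) (nat_lit 241) (nat_lit 5) (nat_lit 4) (nat_lit 10) L52914 (by decide +kernel)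
theorem L52916 : W_8 (nat_lit 5) (nat_lit 0x10000b002e0010001200080000000000000000000000000000000) (nat_lit 0x0) (nat_lit 0x10000e000700000001000000001000000000000000000000000000000000000000) := T_8 (nat_lit 225) (nat_lit 156) (nat_lit 4) (nat_lit 4) (nat_lit 13) L52915 (by decide +kernel)
theorem L52917 : W_8 (nat_lit 6) (nat_lit 0x10000a002e0010001200080000000000000000000000000000000) (nat_lit 0x0) (nat_lit 0x10000e000700000001500000001000000000000000000000000000000000000000) := T_8 (nat_lit 188) (nat_lit 190) (nat_lit 2) (nat_lit 1) (nat_lit 11) L52916 (by decide +kernel)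
theorem L52918 : W_8 (nat_lit 3) (nat_lit 0x10000a002e0010001200080000000000000000000000000000000) (nat_lit 0x0) (nat_lit 0x4000200000000500000001000000000000000000000000000000000000000) := T_8 (nat_lit 225) (nat_lit 156) (nat_lit 4) (nat_lit 4) (nat_lit 13) L51905 (by decide +kernel)
theorem L52919 : W_8 (nat_lit 2) (nat_lit 0x10003e002e0010001200080000000000000000000000000000000) (nat_lit 0x0) (nat_lit 0xe000000000000000000000000000000000000000000000000000) := D_8 (nat_lit 206) (nat_lit 207) (nat_lit 205) (nat_lit 1) (nat_lit 6) (nat_lit 11) (nat_lit 1) (nat_lit 5) (nat_lit 11) (by decide +kernel)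
theorem L52920 : W_8 (nat_lit 3) (nat_lit 0x10001e002e0010001200080000000000000000000000000000000) (nat_lit 0x0) (nat_lit 0xe006000000000000000000000000000000000000000000000000) := T_8 (nat_lit 193) (nat_lit 194) (nat_lit 0) (nat_lit 7) (nat_lit 11) L52919 (by decide +kernel)
theorem L52921 : W_8 (nat_lit 4) (nat_lit 0x10001a002e0010001200080000000000000000000000000000000) (nat_lit 0x0) (nat_lit 0xe006500000000000000000000000000000000000000000000000) := T_8 (nat_lit 190) (nat_lit 188) (nat_lit 2) (nat_lit 1) (nat_lit 11) L52920 (by decide +kernel)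
theorem L52922 : W_8 (nat_lit 2) (nat_lit 0xc00030001e002e0010001280080000000000000000000000000000000) (nat_lit 0x0) (nat_lit 0xe000000000000000000000000000000000000000000000000000) := D_8 (nat_lit 206) (nat_lit 207) (nat_lit 205) (nat_lit 3) (nat_lit 2) (nat_lit 12) (nat_lit 1) (nat_lit 5) (nat_lit 11) (by decide +kernel)
theorem L52923 : W_8 (nat_lit 3) (nat_lit 0x400030001e002e0010001280080000000000000000000000000000000) (nat_lit 0x0) (nat_lit 0x1000080000e000000000000000000000000000000000000000000000000000) := T_8 (nat_lit 227) (nat_lit 244) (nat_lit 7) (nat_lit 5) (nat_lit 10) L52922 (by decide +kernel)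
theorem L52924 : W_8 (nat_lit 4) (nat_lit 0x400030001e002e0010001200080000000000000000000000000000000) (nat_lit 0x0) (nat_lit 0x1000080000e000000000001000080000000000000000000000000000000000) := T_8 (nat_lit 139) (nat_lit 156) (nat_lit 7) (nat_lit 3) (nat_lit 8) L52923 (by decide +kernel)
theorem L52925 : W_8 (nat_lit 5) (nat_lit 0x30001e002e0010001200080000000000000000000000000000000) (nat_lit 0x0) (nat_lit 0x18000c0000e000000000001000080000000000000000000000000000000000) := T_8 (nat_lit 226) (nat_lit 243) (nat_lit 4) (nat_lit 5) (nat_lit 14) L52924 (by decide +kernel)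
theorem L52926 : W_8 (nat_lit 6) (nat_lit 0x10001e002e0010001200080000000000000000000000000000000) (nat_lit 0x0) (nat_lit 0x18000c0006e000000000001000080000000000000000000000000000000000) := T_8 (nat_lit 209) (nat_lit 210) (nat_lit 3) (nat_lit 2) (nat_lit 11) L52925 (by decide +kernel)
theorem L52927 : W_8 (nat_lit 7) (nat_lit 0x10001a002e0010001200080000000000000000000000000000000) (nat_lit 0x0) (nat_lit 0x18000c0006e000500000001000080000000000000000000000000000000000) := T_8 (nat_lit 190) (nat_lit 188) (nat_lit 2) (nat_lit 1) (nat_lit 11) L52926 (by decide +kernel)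
theorem L52928 : W_8 (nat_lit 2) (nat_lit 0x190005a002e0010001200080000000000000000000000000000000) (nat_lit 0x0) (nat_lit 0x800060000000000000000000000000000000000000000000000000000) := D_8 (nat_lit 210) (nat_lit 209) (nat_lit 227) (nat_lit 0) (nat_lit 8) (nat_lit 12) (nat_lit 5) (nat_lit 7) (nat_lit 9) (by decide +kernel)
theorem L52929 : W_8 (nat_lit 3) (nat_lit 0x90005a002e0010001200080000000000000000000000000000000) (nat_lit 0x0) (nat_lit 0x2800160000000000000000000000000000000000000000000000000000) := T_8 (nat_lit 212) (nat_lit 229) (nat_lit 7) (nat_lit 7) (nat_lit 9) L52928 (by decide +kernel)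
theorem L52930 : W_8 (nat_lit 4) (nat_lit 0x10005a002e0010001200080000000000000000000000000000000) (nat_lit 0x0) (nat_lit 0x28001e0000000000020000000000000000000000000000000000000000) := T_8 (nat_lit 211) (nat_lit 161) (nat_lit 6) (nat_lit 7) (nat_lit 12) L52929 (by decide +kernel)
theorem L52931 : W_8 (nat_lit 5) (nat_lit 0x10001a002e0010001200080000000000000000000000000000000) (nat_lit 0x0) (nat_lit 0x28001e0006000000020000000000000000000000000000000000000000) := T_8 (nat_lit 194) (nat_lit 193) (nat_lit 0) (nat_lit 7) (nat_lit 11) L52930 (by decide +kernel)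
theorem L52932 : W_8 (nat_lit 8) (nat_lit 0x10000a002e0010001200080000000000000000000000000000000) (nat_lit 0x0) (nat_lit 0x18002c001ee007500000021000080000000000000000000000000000000000) := Q_8 (nat_lit 192) (C_8 L52921 (C_8 L52927 (C_8 L52931 N_8))) (by decide +kernel)
theorem L52933 : W_8 (nat_lit 5) (nat_lit 0x10000a002e0010001200080000000000000000000000000000000) (nat_lit 0x0) (nat_lit 0x10000e000700000001000000001000000000000000000000000000000000000000) := T_8 (nat_lit 225) (nat_lit 156) (nat_lit 4) (nat_lit 4) (nat_lit 13) L51904 (by decide +kernel)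
theorem L52934 : W_8 (nat_lit 2) (nat_lit 0x4000400034001e002e0010001200080000000000000000000000000000000) (nat_lit 0x0) (nat_lit 0x10000800008000000000000000000000000000000000000000000000000000) := D_8 (nat_lit 227) (nat_lit 244) (nat_lit 207) (nat_lit 7) (nat_lit 5) (nat_lit 10) (nat_lit 3) (nat_lit 2) (nat_lit 12) (by decide +kernel)
theorem L52935 : W_8 (nat_lit 3) (nat_lit 0x4000000034001e002e0010001200080000000000000000000000000000000) (nat_lit 0x0) (nat_lit 0x18000c00008000000000000000000000000000000000000000000000000000) := T_8 (nat_lit 226) (nat_lit 243) (nat_lit 4) (nat_lit 5) (nat_lit 14) L52934 (by decide +kernel)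
theorem L52936 : W_8 (nat_lit 4) (nat_lit 0x4000000014001e002e0010001200080000000000000000000000000000000) (nat_lit 0x0) (nat_lit 0x18000c00068000000000000000000000000000000000000000000000000000) := T_8 (nat_lit 209) (nat_lit 210) (nat_lit 3) (nat_lit 2) (nat_lit 11) L52935 (by decide +kernel)
theorem L52937 : W_8 (nat_lit 5) (nat_lit 0x4000000010001e002e0010001200080000000000000000000000000000000) (nat_lit 0x0) (nat_lit 0x18000c0006e000000000000000000000000000000000000000000000000000) := T_8 (nat_lit 206) (nat_lit 205) (nat_lit 1) (nat_lit 5) (nat_lit 11) L52936 (by decide +kernel)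
theorem L52938 : W_8 (nat_lit 6) (nat_lit 0x10001e002e0010001200080000000000000000000000000000000) (nat_lit 0x0) (nat_lit 0x1c000e0006e000000000000000000000000000000000000000000000000000) := T_8 (nat_lit 242) (nat_lit 225) (nat_lit 6) (nat_lit 4) (nat_lit 14) L52937 (by decide +kernel)
theorem L52939 : W_8 (nat_lit 7) (nat_lit 0x10001a002e0010001200080000000000000000000000000000000) (nat_lit 0x0) (nat_lit 0x1c000e0006e000500000000000000000000000000000000000000000000000) := T_8 (nat_lit 190) (nat_lit 188) (nat_lit 2) (nat_lit 1) (nat_lit 11) L52938 (by decide +kernel)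
theorem L52940 : W_8 (nat_lit 8) (nat_lit 0x10000a002e0010001200080000000000000000000000000000000) (nat_lit 0x0) (nat_lit 0x1c002e001ee007500000020000000000000000000000000000000000000000) := Q_8 (nat_lit 192) (C_8 L52931 (C_8 L52921 (C_8 L52939 N_8))) (by decide +kernel)
theorem L52941 : W_8 (nat_lit 9) (nat_lit 0xa002e0010001200080000000000000000000000000000000) (nat_lit 0x0) (nat_lit 0x10001e002f001fe007500000021000080000000000000000000000000000000000) := Q_8 (nat_lit 208) (C_8 L52917 (C_8 L52918 (C_8 L52932 (C_8 L52933 (C_8 L52940 N_8))))) (by decide +kernel)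
theorem L52942 : W_8 (nat_lit 10) (nat_lit 0xa002c0010001200080000000000000000000000000000000) (nat_lit 0x0) (nat_lit 0x10001e003f001fe007500038021e000c0000000000000000000000000000000000) := Q_8 (nat_lit 173) (C_8 L52941 (C_8 L52002 (C_8 L52001 (C_8 L52820 N_8)))) (by decide +kernel)
theorem L52943 : W_8 (nat_lit 11) (nat_lit 0xa002e0010001200080000000000000000000000000000000) (nat_lit 0x0) (nat_lit 0x5d003e801fe007500000021000080000000000000000000000000000000000) := Q_8 (nat_lit 194) (C_8 L52734 (C_8 L52042 (C_8 L52037 (C_8 L52011 (C_8 L52017 N_8))))) (by decide +kernel)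
theorem L52944 : W_8 (nat_lit 12) (nat_lit 0xa002c0010001200080000000000000000000000000000000) (nat_lit 0x0) (nat_lit 0x5d003fc01ff007500038021e000c0004000000000000000000000000000000) := Q_8 (nat_lit 173) (C_8 L52943 (C_8 L52003 (C_8 L52002 (C_8 L52001 N_8)))) (by decide +kernel)
theorem L52945 : W_8 (nat_lit 13) (nat_lit 0x8002c0010001200080000000000000000000000000000000) (nat_lit 0x0) (nat_lit 0x20017007f803fe01ff00f78003c021e001e003f00038001c000200000000000000000) := Q_8 (nat_lit 189) (C_8 L51863 (C_8 L51901 (C_8 L52004 (C_8 L52044 (C_8 L52151 (C_8 L52385 (C_8 L52504 (C_8 L52505 (C_8 L52652 (C_8 L52760 (C_8 L52782 (C_8 L52821 (C_8 L52912 (C_8 L52942 (C_8 L52944 N_8))))))))))))))) (by decide +kernel)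
theorem L52946 : W_8 (nat_lit 2) (nat_lit 0x30000e002c0012001200080000000000000000000000000000000) (nat_lit 0x0) (nat_lit 0xc0001000000000000000000000000000000000000000000000000) := D_8 (nat_lit 210) (nat_lit 192) (nat_lit 211) (nat_lit 3) (nat_lit 2) (nat_lit 11) (nat_lit 0) (nat_lit 7) (nat_lit 12) (by decide +kernel)
theorem L52947 : W_8 (nat_lit 3) (nat_lit 0x10000e002c0012001200080000000000000000000000000000000) (nat_lit 0x0) (nat_lit 0x4000e0001000000000000000000000000000000000000000000000000) := T_8 (nat_lit 209) (nat_lit 226) (nat_lit 7) (nat_lit 4) (nat_lit 9) L52946 (by decide +kernel)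
theorem L52948 : W_8 (nat_lit 4) (nat_lit 0x10000c002c0012001200080000000000000000000000000000000) (nat_lit 0x0) (nat_lit 0x4000e0001300000000000000000000000000000000000000000000000) := T_8 (nat_lit 189) (nat_lit 188) (nat_lit 2) (nat_lit 1) (nat_lit 11) L52947 (by decide +kernel)
theorem L52949 : W_8 (nat_lit 2) (nat_lit 0x3c000d002e0013801200080000000000000000000000000000000) (nat_lit 0x0) (nat_lit 0x2003000000000000000000000000000000000000000000000000) := D_8 (nat_lit 192) (nat_lit 193) (nat_lit 205) (nat_lit 2) (nat_lit 2) (nat_lit 12) (nat_lit 2) (nat_lit 1) (nat_lit 12) (by decide +kernel)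
theorem L52950 : W_8 (nat_lit 3) (nat_lit 0x38000d002e0013801200080000000000000000000000000000000) (nat_lit 0x0) (nat_lit 0x80006003000000000000000000000000000000000000000000000000) := T_8 (nat_lit 206) (nat_lit 223) (nat_lit 5) (nat_lit 3) (nat_lit 9) L52949 (by decide +kernel)
theorem L52951 : W_8 (nat_lit 4) (nat_lit 0x38000d002c0013801200080000000000000000000000000000000) (nat_lit 0x0) (nat_lit 0x80006003000020000000040000000000000000000000000000000000) := T_8 (nat_lit 173) (nat_lit 138) (nat_lit 4) (nat_lit 3) (nat_lit 12) L52950 (by decide +kernel)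
theorem L52952 : W_8 (nat_lit 5) (nat_lit 0x30000d002c0013801200080000000000000000000000000000000) (nat_lit 0x0) (nat_lit 0x18000e003000020000000040000000000000000000000000000000000) := T_8 (nat_lit 207) (nat_lit 224) (nat_lit 5) (nat_lit 4) (nat_lit 9) L52951 (by decide +kernel)
theorem L52953 : W_8 (nat_lit 6) (nat_lit 0x30000c002c0013801200080000000000000000000000000000000) (nat_lit 0x0) (nat_lit 0x18000e003300020000000040000000000000000000000000000000000) := T_8 (nat_lit 188) (nat_lit 189) (nat_lit 3) (nat_lit 1) (nat_lit 11) L52952 (by decide +kernel)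
theorem L52954 : W_8 (nat_lit 7) (nat_lit 0x10000c002c0013801200080000000000000000000000000000000) (nat_lit 0x0) (nat_lit 0x58002e003300020000000040000000000000000000000000000000000) := T_8 (nat_lit 209) (nat_lit 226) (nat_lit 7) (nat_lit 4) (nat_lit 9) L52953 (by decide +kernel)
theorem L52955 : W_8 (nat_lit 8) (nat_lit 0x10000c002c0013001200080000000000000000000000000000000) (nat_lit 0x0) (nat_lit 0x58002e003300020000c00040000000000000000000000000000000000) := T_8 (nat_lit 155) (nat_lit 154) (nat_lit 3) (nat_lit 1) (nat_lit 9) L52954 (by decide +kernel)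
theorem L52956 : W_8 (nat_lit 9) (nat_lit 0x10000c002c0012001200080000000000000000000000000000000) (nat_lit 0x0) (nat_lit 0x58002e003300020001c000c0000000000000000000000000000000000) := T_8 (nat_lit 156) (nat_lit 139) (nat_lit 4) (nat_lit 4) (nat_lit 12) L52955 (by decide +kernel)
theorem L52957 : W_8 (nat_lit 2) (nat_lit 0x1c000d002e0013801200080000000000000000000000000000000) (nat_lit 0x0) (nat_lit 0x2001080000000000000000000000000000000000000000000000) := D_8 (nat_lit 205) (nat_lit 192) (nat_lit 187) (nat_lit 2) (nat_lit 1) (nat_lit 12) (nat_lit 0) (nat_lit 4) (nat_lit 12) (by decide +kernel)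
theorem L52958 : W_8 (nat_lit 3) (nat_lit 0x18000d002e0013801200080000000000000000000000000000000) (nat_lit 0x0) (nat_lit 0x80006001080000000000000000000000000000000000000000000000) := T_8 (nat_lit 206) (nat_lit 223) (nat_lit 5) (nat_lit 3) (nat_lit 9) L52957 (by decide +kernel)
theorem L52959 : W_8 (nat_lit 4) (nat_lit 0x18000d002c0013801200080000000000000000000000000000000) (nat_lit 0x0) (nat_lit 0x80006001080020000000040000000000000000000000000000000000) := T_8 (nat_lit 173) (nat_lit 138) (nat_lit 4) (nat_lit 3) (nat_lit 12) L52958 (by decide +kernel)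
theorem L52960 : W_8 (nat_lit 5) (nat_lit 0x18000c002c0013801200080000000000000000000000000000000) (nat_lit 0x0) (nat_lit 0x80006001380020000000040000000000000000000000000000000000) := T_8 (nat_lit 188) (nat_lit 189) (nat_lit 2) (nat_lit 1) (nat_lit 11) L52959 (by decide +kernel)
theorem L52961 : W_8 (nat_lit 6) (nat_lit 0x18000c002c0013001200080000000000000000000000000000000) (nat_lit 0x0) (nat_lit 0x80006001380020000c00040000000000000000000000000000000000) := T_8 (nat_lit 155) (nat_lit 154) (nat_lit 3) (nat_lit 1) (nat_lit 9) L52960 (by decide +kernel)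
theorem L52962 : W_8 (nat_lit 7) (nat_lit 0x18000c002c0012001200080000000000000000000000000000000) (nat_lit 0x0) (nat_lit 0x80006001380020001c000c0000000000000000000000000000000000) := T_8 (nat_lit 156) (nat_lit 139) (nat_lit 4) (nat_lit 4) (nat_lit 12) L52961 (by decide +kernel)
theorem L52963 : W_8 (nat_lit 8) (nat_lit 0x10000c002c0012001200080000000000000000000000000000000) (nat_lit 0x0) (nat_lit 0x18000e001380020001c000c0000000000000000000000000000000000) := T_8 (nat_lit 207) (nat_lit 224) (nat_lit 5) (nat_lit 4) (nat_lit 9) L52962 (by decide +kernel)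
theorem L52964 : W_8 (nat_lit 2) (nat_lit 0x30000e002c0013401200080000000000000000000000000000000) (nat_lit 0x0) (nat_lit 0xc8000000000000000000000000000000000000000000000000000) := D_8 (nat_lit 210) (nat_lit 211) (nat_lit 207) (nat_lit 0) (nat_lit 7) (nat_lit 12) (nat_lit 0) (nat_lit 6) (nat_lit 12) (by decide +kernel)
theorem L52965 : W_8 (nat_lit 3) (nat_lit 0x30000c002c0013401200080000000000000000000000000000000) (nat_lit 0x0) (nat_lit 0xc8000300000000000000000000000000000000000000000000000) := T_8 (nat_lit 189) (nat_lit 188) (nat_lit 3) (nat_lit 1) (nat_lit 11) L52964 (by decide +kernel)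
theorem L52966 : W_8 (nat_lit 4) (nat_lit 0x10000c002c0013401200080000000000000000000000000000000) (nat_lit 0x0) (nat_lit 0x4000e8000300000000000000000000000000000000000000000000000) := T_8 (nat_lit 209) (nat_lit 226) (nat_lit 7) (nat_lit 4) (nat_lit 9) L52965 (by decide +kernel)
theorem L52967 : W_8 (nat_lit 5) (nat_lit 0x10000c002c0013001200080000000000000000000000000000000) (nat_lit 0x0) (nat_lit 0x4000e8000300000000c00000000000000000000000000000000000000) := T_8 (nat_lit 154) (nat_lit 155) (nat_lit 3) (nat_lit 1) (nat_lit 9) L52966 (by decide +kernel)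
theorem L52968 : W_8 (nat_lit 6) (nat_lit 0x10000c002c0012001200080000000000000000000000000000000) (nat_lit 0x0) (nat_lit 0x4000e8000300000001c00080000000000000000000000000000000000) := T_8 (nat_lit 156) (nat_lit 139) (nat_lit 4) (nat_lit 4) (nat_lit 12) L52967 (by decide +kernel)
theorem L52969 : W_8 (nat_lit 2) (nat_lit 0xbc000c002e0013801200080000000000000000000000000000000) (nat_lit 0x0) (nat_lit 0x2003000000000000000000000000000000000000000000000000) := D_8 (nat_lit 192) (nat_lit 193) (nat_lit 205) (nat_lit 2) (nat_lit 2) (nat_lit 12) (nat_lit 2) (nat_lit 1) (nat_lit 12) (by decide +kernel)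
theorem L52970 : W_8 (nat_lit 3) (nat_lit 0xb8000c002e0013801200080000000000000000000000000000000) (nat_lit 0x0) (nat_lit 0x80006003000000000000000000000000000000000000000000000000) := T_8 (nat_lit 206) (nat_lit 223) (nat_lit 5) (nat_lit 3) (nat_lit 9) L52969 (by decide +kernel)
theorem L52971 : W_8 (nat_lit 4) (nat_lit 0xb8000c002c0013801200080000000000000000000000000000000) (nat_lit 0x0) (nat_lit 0x80006003000020000000040000000000000000000000000000000000) := T_8 (nat_lit 173) (nat_lit 138) (nat_lit 4) (nat_lit 3) (nat_lit 12) L52970 (by decide +kernel)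
theorem L52972 : W_8 (nat_lit 5) (nat_lit 0xb0000c002c0013801200080000000000000000000000000000000) (nat_lit 0x0) (nat_lit 0x18000e003000020000000040000000000000000000000000000000000) := T_8 (nat_lit 207) (nat_lit 224) (nat_lit 5) (nat_lit 4) (nat_lit 9) L52971 (by decide +kernel)
theorem L52973 : W_8 (nat_lit 6) (nat_lit 0x30000c002c0013801200080000000000000000000000000000000) (nat_lit 0x0) (nat_lit 0x1800ce003000020000000040000000000000000000000000000000000) := T_8 (nat_lit 211) (nat_lit 210) (nat_lit 0) (nat_lit 7) (nat_lit 12) L52972 (by decide +kernel)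
theorem L52974 : W_8 (nat_lit 7) (nat_lit 0x10000c002c0013801200080000000000000000000000000000000) (nat_lit 0x0) (nat_lit 0x5800ee003000020000000040000000000000000000000000000000000) := T_8 (nat_lit 209) (nat_lit 226) (nat_lit 7) (nat_lit 4) (nat_lit 9) L52973 (by decide +kernel)
theorem L52975 : W_8 (nat_lit 8) (nat_lit 0x10000c002c0013001200080000000000000000000000000000000) (nat_lit 0x0) (nat_lit 0x5800ee003000020000c00040000000000000000000000000000000000) := T_8 (nat_lit 155) (nat_lit 154) (nat_lit 3) (nat_lit 1) (nat_lit 9) L52974 (by decide +kernel)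
theorem L52976 : W_8 (nat_lit 9) (nat_lit 0x10000c002c0012001200080000000000000000000000000000000) (nat_lit 0x0) (nat_lit 0x5800ee003000020001c000c0000000000000000000000000000000000) := T_8 (nat_lit 156) (nat_lit 139) (nat_lit 4) (nat_lit 4) (nat_lit 12) L52975 (by decide +kernel)
theorem L52977 : W_8 (nat_lit 10) (nat_lit 0x100008002c0012001200080000000000000000000000000000000) (nat_lit 0x0) (nat_lit 0x5800ee003780020001c000c0000000000000000000000000000000000) := Q_8 (nat_lit 190) (C_8 L52948 (C_8 L52956 (C_8 L52963 (C_8 L52968 (C_8 L52976 N_8))))) (by decide +kernel)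
theorem L52978 : W_8 (nat_lit 2) (nat_lit 0x2000180008002c0013001200080000000000000000000000000000000) (nat_lit 0x0) (nat_lit 0x8000400020000000000000000000000000000000000000000000000000000) := D_8 (nat_lit 226) (nat_lit 209) (nat_lit 243) (nat_lit 7) (nat_lit 4) (nat_lit 9) (nat_lit 7) (nat_lit 4) (nat_lit 10) (by decide +kernel)
theorem L52979 : W_8 (nat_lit 3) (nat_lit 0x180008002c0013001200080000000000000000000000000000000) (nat_lit 0x0) (nat_lit 0x8000600020000000020000000000000000000000000000000000000000000) := T_8 (nat_lit 225) (nat_lit 173) (nat_lit 4) (nat_lit 4) (nat_lit 13) L52978 (by decide +kernel)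
theorem L52980 : W_8 (nat_lit 4) (nat_lit 0x180008002c0012001200080000000000000000000000000000000) (nat_lit 0x0) (nat_lit 0x8000600020000000020001000080000000000000000000000000000000000) := T_8 (nat_lit 156) (nat_lit 139) (nat_lit 4) (nat_lit 4) (nat_lit 12) L52979 (by decide +kernel)
theorem L52981 : W_8 (nat_lit 5) (nat_lit 0x100008002c0012001200080000000000000000000000000000000) (nat_lit 0x0) (nat_lit 0x8000700028000000020001000080000000000000000000000000000000000) := T_8 (nat_lit 207) (nat_lit 224) (nat_lit 5) (nat_lit 4) (nat_lit 9) L52980 (by decide +kernel)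
theorem L52982 : W_8 (nat_lit 2) (nat_lit 0x40002000180008002c0013401200080000000000000000000000000000000) (nat_lit 0x0) (nat_lit 0x100008000400000000000000000000000000000000000000000000000000000000) := D_8 (nat_lit 243) (nat_lit 260) (nat_lit 226) (nat_lit 7) (nat_lit 4) (nat_lit 11) (nat_lit 7) (nat_lit 4) (nat_lit 10) (by decide +kernel)
theorem L52983 : W_8 (nat_lit 3) (nat_lit 0x2000180008002c0013401200080000000000000000000000000000000) (nat_lit 0x0) (nat_lit 0x10000c000400000001000000000000000000000000000000000000000000000000) := T_8 (nat_lit 242) (nat_lit 192) (nat_lit 6) (nat_lit 4) (nat_lit 14) L52982 (by decide +kernel)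
theorem L52984 : W_8 (nat_lit 4) (nat_lit 0x2000180008002c0013001200080000000000000000000000000000000) (nat_lit 0x0) (nat_lit 0x10000c000400000001000000000c00000000000000000000000000000000000000) := T_8 (nat_lit 154) (nat_lit 155) (nat_lit 3) (nat_lit 1) (nat_lit 9) L52983 (by decide +kernel)
theorem L52985 : W_8 (nat_lit 5) (nat_lit 0x180008002c0013001200080000000000000000000000000000000) (nat_lit 0x0) (nat_lit 0x10000c000600000001000020000c00000000000000000000000000000000000000) := T_8 (nat_lit 225) (nat_lit 173) (nat_lit 4) (nat_lit 4) (nat_lit 13) L52984 (by decide +kernel)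
theorem L52986 : W_8 (nat_lit 6) (nat_lit 0x180008002c0012001200080000000000000000000000000000000) (nat_lit 0x0) (nat_lit 0x10000c000600000001000020001c00080000000000000000000000000000000000) := T_8 (nat_lit 156) (nat_lit 139) (nat_lit 4) (nat_lit 4) (nat_lit 12) L52985 (by decide +kernel)
theorem L52987 : W_8 (nat_lit 7) (nat_lit 0x100008002c0012001200080000000000000000000000000000000) (nat_lit 0x0) (nat_lit 0x10000c000700008001000020001c00080000000000000000000000000000000000) := T_8 (nat_lit 207) (nat_lit 224) (nat_lit 5) (nat_lit 4) (nat_lit 9) L52986 (by decide +kernel)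
theorem L52988 : W_8 (nat_lit 2) (nat_lit 0x2000100008002c0013001200080000000000000000000000000000000) (nat_lit 0x0) (nat_lit 0x2000100008000000000000000000000000000000000000000000000000000) := D_8 (nat_lit 224) (nat_lit 241) (nat_lit 207) (nat_lit 5) (nat_lit 4) (nat_lit 10) (nat_lit 5) (nat_lit 4) (nat_lit 9) (by decide +kernel)
theorem L52989 : W_8 (nat_lit 3) (nat_lit 0x100008002c0013001200080000000000000000000000000000000) (nat_lit 0x0) (nat_lit 0x2000300008000000020000000000000000000000000000000000000000000) := T_8 (nat_lit 225) (nat_lit 173) (nat_lit 4) (nat_lit 4) (nat_lit 13) L52988 (by decide +kernel)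
theorem L52990 : W_8 (nat_lit 4) (nat_lit 0x100008002c0012001200080000000000000000000000000000000) (nat_lit 0x0) (nat_lit 0x2000300008000000020001000080000000000000000000000000000000000) := T_8 (nat_lit 156) (nat_lit 139) (nat_lit 4) (nat_lit 4) (nat_lit 12) L52989 (by decide +kernel)
theorem L52991 : W_8 (nat_lit 2) (nat_lit 0x8000400060001a0008002c0013401200080000000000000000000000000000000) (nat_lit 0x0) (nat_lit 0x800040002000000000000000000000000000000000000000000000000000000000000) := D_8 (nat_lit 258) (nat_lit 275) (nat_lit 241) (nat_lit 5) (nat_lit 4) (nat_lit 12) (nat_lit 5) (nat_lit 4) (nat_lit 11) (by decide +kernel)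
theorem L52992 : W_8 (nat_lit 3) (nat_lit 0x400060001a0008002c0013401200080000000000000000000000000000000) (nat_lit 0x0) (nat_lit 0x8000c0002000000000000400000000000000000000000000000000000000000000000) := T_8 (nat_lit 259) (nat_lit 190) (nat_lit 4) (nat_lit 4) (nat_lit 15) L52991 (by decide +kernel)
theorem L52993 : W_8 (nat_lit 4) (nat_lit 0x60001a0008002c0013401200080000000000000000000000000000000) (nat_lit 0x0) (nat_lit 0x8000c0006000000000001400000000000000000000000000000000000000000000000) := T_8 (nat_lit 242) (nat_lit 192) (nat_lit 6) (nat_lit 4) (nat_lit 14) L52992 (by decide +kernel)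
theorem L52994 : W_8 (nat_lit 5) (nat_lit 0x6000180008002c0013401200080000000000000000000000000000000) (nat_lit 0x0) (nat_lit 0x8000c0006000000006001400000000000000000000000000000000000000000000000) := T_8 (nat_lit 205) (nat_lit 206) (nat_lit 3) (nat_lit 1) (nat_lit 12) L52993 (by decide +kernel)
theorem L52995 : W_8 (nat_lit 6) (nat_lit 0x4000180008002c0013401200080000000000000000000000000000000) (nat_lit 0x0) (nat_lit 0x8000c000e000200006001400000000000000000000000000000000000000000000000) := T_8 (nat_lit 225) (nat_lit 243) (nat_lit 7) (nat_lit 4) (nat_lit 10) L52994 (by decide +kernel)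
theorem L52996 : W_8 (nat_lit 7) (nat_lit 0x4000180008002c0013001200080000000000000000000000000000000) (nat_lit 0x0) (nat_lit 0x8000c000e000200006001400000000c00000000000000000000000000000000000000) := T_8 (nat_lit 154) (nat_lit 155) (nat_lit 3) (nat_lit 1) (nat_lit 9) L52995 (by decide +kernel)
theorem L52997 : W_8 (nat_lit 8) (nat_lit 0x4000180008002c0012001200080000000000000000000000000000000) (nat_lit 0x0) (nat_lit 0x8000c000e000200006001400000001c00080000000000000000000000000000000000) := T_8 (nat_lit 156) (nat_lit 139) (nat_lit 4) (nat_lit 4) (nat_lit 12) L52996 (by decide +kernel)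
theorem L52998 : W_8 (nat_lit 9) (nat_lit 0x180008002c0012001200080000000000000000000000000000000) (nat_lit 0x0) (nat_lit 0x8000c000e000600026001400000001c00080000000000000000000000000000000000) := T_8 (nat_lit 226) (nat_lit 209) (nat_lit 7) (nat_lit 4) (nat_lit 9) L52997 (by decide +kernel)
theorem L52999 : W_8 (nat_lit 10) (nat_lit 0x100008002c0012001200080000000000000000000000000000000) (nat_lit 0x0) (nat_lit 0x8000c000e00070002e001400000001c00080000000000000000000000000000000000) := T_8 (nat_lit 207) (nat_lit 224) (nat_lit 5) (nat_lit 4) (nat_lit 9) L52998 (by decide +kernel)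
theorem L53000 : W_8 (nat_lit 2) (nat_lit 0x6000180008002e0012001200080000000000000000000000000000000) (nat_lit 0x0) (nat_lit 0x4000000000001400000000000000000000000000000000000000000000000) := D_8 (nat_lit 242) (nat_lit 190) (nat_lit 192) (nat_lit 4) (nat_lit 4) (nat_lit 14) (nat_lit 6) (nat_lit 4) (nat_lit 14) (by decide +kernel)
theorem L53001 : W_8 (nat_lit 3) (nat_lit 0x6000180008002c0012001200080000000000000000000000000000000) (nat_lit 0x0) (nat_lit 0x4000000000001400020001000000000000000000000000000000000000000) := T_8 (nat_lit 173) (nat_lit 156) (nat_lit 4) (nat_lit 4) (nat_lit 13) L53000 (by decide +kernel)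
theorem L53002 : W_8 (nat_lit 4) (nat_lit 0x4000180008002c0012001200080000000000000000000000000000000) (nat_lit 0x0) (nat_lit 0xc000200000001400020001000000000000000000000000000000000000000) := T_8 (nat_lit 225) (nat_lit 243) (nat_lit 7) (nat_lit 4) (nat_lit 10) L53001 (by decide +kernel)
theorem L53003 : W_8 (nat_lit 5) (nat_lit 0x180008002c0012001200080000000000000000000000000000000) (nat_lit 0x0) (nat_lit 0xc000600020001400020001000000000000000000000000000000000000000) := T_8 (nat_lit 226) (nat_lit 209) (nat_lit 7) (nat_lit 4) (nat_lit 9) L53002 (by decide +kernel)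
theorem L53004 : W_8 (nat_lit 6) (nat_lit 0x100008002c0012001200080000000000000000000000000000000) (nat_lit 0x0) (nat_lit 0xc000700028001400020001000000000000000000000000000000000000000) := T_8 (nat_lit 207) (nat_lit 224) (nat_lit 5) (nat_lit 4) (nat_lit 9) L53003 (by decide +kernel)
theorem L53005 : W_8 (nat_lit 2) (nat_lit 0x400060001a0008002c0012001200080000000000000000000000000000000) (nat_lit 0x0) (nat_lit 0x80000000000000000400020000000000000000000000000000000000000000000) := D_8 (nat_lit 190) (nat_lit 173) (nat_lit 259) (nat_lit 4) (nat_lit 4) (nat_lit 14) (nat_lit 4) (nat_lit 4) (nat_lit 15) (by decide +kernel)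
theorem L53006 : W_8 (nat_lit 3) (nat_lit 0x60001a0008002c0012001200080000000000000000000000000000000) (nat_lit 0x0) (nat_lit 0x80004000000000001400020000000000000000000000000000000000000000000) := T_8 (nat_lit 242) (nat_lit 192) (nat_lit 6) (nat_lit 4) (nat_lit 14) L53005 (by decide +kernel)
theorem L53007 : W_8 (nat_lit 4) (nat_lit 0x6000180008002c0012001200080000000000000000000000000000000) (nat_lit 0x0) (nat_lit 0x80004000000006001400020000000000000000000000000000000000000000000) := T_8 (nat_lit 205) (nat_lit 206) (nat_lit 3) (nat_lit 1) (nat_lit 12) L53006 (by decide +kernel)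
theorem L53008 : W_8 (nat_lit 5) (nat_lit 0x4000180008002c0012001200080000000000000000000000000000000) (nat_lit 0x0) (nat_lit 0x8000c000200006001400020000000000000000000000000000000000000000000) := T_8 (nat_lit 225) (nat_lit 243) (nat_lit 7) (nat_lit 4) (nat_lit 10) L53007 (by decide +kernel)
theorem L53009 : W_8 (nat_lit 6) (nat_lit 0x4000100008002c0012001200080000000000000000000000000000000) (nat_lit 0x0) (nat_lit 0x8000c00030000e001400020000000000000000000000000000000000000000000) := T_8 (nat_lit 207) (nat_lit 224) (nat_lit 5) (nat_lit 4) (nat_lit 9) L53008 (by decide +kernel)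
theorem L53010 : W_8 (nat_lit 7) (nat_lit 0x100008002c0012001200080000000000000000000000000000000) (nat_lit 0x0) (nat_lit 0x8000c00070002e001400020000000000000000000000000000000000000000000) := T_8 (nat_lit 226) (nat_lit 209) (nat_lit 7) (nat_lit 4) (nat_lit 9) L53009 (by decide +kernel)
theorem L53011 : W_8 (nat_lit 2) (nat_lit 0x2000100008002c0013001200080000000000000000000000000000000) (nat_lit 0x0) (nat_lit 0x8000400020000000000000000000000000000000000000000000000000000) := D_8 (nat_lit 226) (nat_lit 209) (nat_lit 243) (nat_lit 7) (nat_lit 4) (nat_lit 9) (nat_lit 7) (nat_lit 4) (nat_lit 10) (by decide +kernel)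
theorem L53012 : W_8 (nat_lit 3) (nat_lit 0x100008002c0013001200080000000000000000000000000000000) (nat_lit 0x0) (nat_lit 0x8000600020000000020000000000000000000000000000000000000000000) := T_8 (nat_lit 225) (nat_lit 173) (nat_lit 4) (nat_lit 4) (nat_lit 13) L53011 (by decide +kernel)
theorem L53013 : W_8 (nat_lit 4) (nat_lit 0x100008002c0012001200080000000000000000000000000000000) (nat_lit 0x0) (nat_lit 0x8000600020000000020001000080000000000000000000000000000000000) := T_8 (nat_lit 156) (nat_lit 139) (nat_lit 4) (nat_lit 4) (nat_lit 12) L53012 (by decide +kernel)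
theorem L53014 : W_8 (nat_lit 11) (nat_lit 0x8002c0012001200080000000000000000000000000000000) (nat_lit 0x0) (nat_lit 0x8001c000e0007800fe003780020001c000c0000000000000000000000000000000000) := Q_8 (nat_lit 208) (C_8 L52977 (C_8 L52981 (C_8 L52987 (C_8 L52990 (C_8 L52999 (C_8 L53004 (C_8 L53010 (C_8 L53013 N_8)))))))) (by decide +kernel)
theorem L53015 : W_8 (nat_lit 2) (nat_lit 0x8002c0012001300080000000000000000000000000000000) (nat_lit 0x0) (nat_lit 0x20001000000000000000008000000000000000000000000000000) := D_8 (nat_lit 192) (nat_lit 123) (nat_lit 209) (nat_lit 7) (nat_lit 4) (nat_lit 7) (nat_lit 7) (nat_lit 4) (nat_lit 8) (by decide +kernel)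
theorem L53016 : W_8 (nat_lit 3) (nat_lit 0x8002c0012001200080000000000000000000000000000000) (nat_lit 0x0) (nat_lit 0x20001000000000000100018000000000000000000000000000000) := T_8 (nat_lit 140) (nat_lit 124) (nat_lit 6) (nat_lit 4) (nat_lit 11) L53015 (by decide +kernel)
theorem L53017 : W_8 (nat_lit 2) (nat_lit 0x8002c0012001300088000000000000000000000000000000) (nat_lit 0x0) (nat_lit 0x80004000200000000000000000000000000) := D_8 (nat_lit 122) (nat_lit 105) (nat_lit 139) (nat_lit 4) (nat_lit 4) (nat_lit 10) (nat_lit 4) (nat_lit 4) (nat_lit 11) (by decide +kernel)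
theorem L53018 : W_8 (nat_lit 3) (nat_lit 0x8002c0012001300080000000000000000000000000000000) (nat_lit 0x0) (nat_lit 0x100000000000008000c000200000000000000000000000000) := T_8 (nat_lit 123) (nat_lit 192) (nat_lit 7) (nat_lit 4) (nat_lit 7) L53017 (by decide +kernel)
theorem L53019 : W_8 (nat_lit 4) (nat_lit 0x8002c0012001200080000000000000000000000000000000) (nat_lit 0x0) (nat_lit 0x100000000000018001c000200000000000000000000000000) := T_8 (nat_lit 140) (nat_lit 124) (nat_lit 6) (nat_lit 4) (nat_lit 11) L53018 (by decide +kernel)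
theorem L53020 : W_8 (nat_lit 2) (nat_lit 0x100008002c0012001380080000000000000000000000000000000) (nat_lit 0x0) (nat_lit 0x100008000400000000000000000000000000000000000000000000000) := D_8 (nat_lit 207) (nat_lit 224) (nat_lit 190) (nat_lit 5) (nat_lit 4) (nat_lit 9) (nat_lit 5) (nat_lit 4) (nat_lit 8) (by decide +kernel)
theorem L53021 : W_8 (nat_lit 3) (nat_lit 0x8002c0012001380080000000000000000000000000000000) (nat_lit 0x0) (nat_lit 0x100018000400000001000000000000000000000000000000000000000) := T_8 (nat_lit 208) (nat_lit 156) (nat_lit 4) (nat_lit 4) (nat_lit 12) L53020 (by decide +kernel)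
theorem L53022 : W_8 (nat_lit 4) (nat_lit 0x8002c0012001300080000000000000000000000000000000) (nat_lit 0x0) (nat_lit 0x100018000400000001000080004000000000000000000000000000000) := T_8 (nat_lit 139) (nat_lit 122) (nat_lit 4) (nat_lit 4) (nat_lit 11) L53021 (by decide +kernel)
theorem L53023 : W_8 (nat_lit 5) (nat_lit 0x8002c0012001200080000000000000000000000000000000) (nat_lit 0x0) (nat_lit 0x100018000400000001000180014000000000000000000000000000000) := T_8 (nat_lit 140) (nat_lit 124) (nat_lit 6) (nat_lit 4) (nat_lit 11) L53022 (by decide +kernel)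
theorem L53024 : W_8 (nat_lit 12) (nat_lit 0x8002c0010001200080000000000000000000000000000000) (nat_lit 0x0) (nat_lit 0x8001c000e0007800fe003780020003c001c001c000200000000000000000000000000) := Q_8 (nat_lit 157) (C_8 L53014 (C_8 L53016 (C_8 L53019 (C_8 L53023 N_8)))) (by decide +kernel)
theorem L53025 : W_8 (nat_lit 2) (nat_lit 0x400014001a002f0013401200080000000000000000000000000000000) (nat_lit 0x0) (nat_lit 0xa000400000000000000000000000000000000000000000000000) := D_8 (nat_lit 205) (nat_lit 207) (nat_lit 190) (nat_lit 2) (nat_lit 1) (nat_lit 12) (nat_lit 1) (nat_lit 5) (nat_lit 11) (by decide +kernel)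
theorem L53026 : W_8 (nat_lit 3) (nat_lit 0x400010001a002f0013401200080000000000000000000000000000000) (nat_lit 0x0) (nat_lit 0x8000e000400000000000000000000000000000000000000000000000) := T_8 (nat_lit 206) (nat_lit 223) (nat_lit 6) (nat_lit 2) (nat_lit 13) L53025 (by decide +kernel)
theorem L53027 : W_8 (nat_lit 2) (nat_lit 0x100018002e0012001200080000000000000000000000000000000) (nat_lit 0x0) (nat_lit 0x2000018000000000000000000000000000000000000000000) := D_8 (nat_lit 172) (nat_lit 171) (nat_lit 193) (nat_lit 3) (nat_lit 1) (nat_lit 10) (nat_lit 3) (nat_lit 2) (nat_lit 10) (by decide +kernel)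
theorem L53028 : W_8 (nat_lit 2) (nat_lit 0x100008002f0012001200080000000000000000000000000000000) (nat_lit 0x0) (nat_lit 0x3000008000000000000000000000000000000000000000000) := D_8 (nat_lit 192) (nat_lit 193) (nat_lit 171) (nat_lit 3) (nat_lit 2) (nat_lit 10) (nat_lit 3) (nat_lit 1) (nat_lit 10) (by decide +kernel)
theorem L53029 : W_8 (nat_lit 2) (nat_lit 0x300008002f8012001200080000000000000000000000000000000) (nat_lit 0x0) (nat_lit 0x400004001000000000000000000000000000000000000000) := D_8 (nat_lit 170) (nat_lit 190) (nat_lit 156) (nat_lit 3) (nat_lit 0) (nat_lit 10) (nat_lit 2) (nat_lit 0) (nat_lit 10) (by decide +kernel)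
theorem L53030 : W_8 (nat_lit 3) (nat_lit 0x300008002f0012001200080000000000000000000000000000000) (nat_lit 0x0) (nat_lit 0x140000c001000000000000000000000000000000000000000) := T_8 (nat_lit 171) (nat_lit 192) (nat_lit 3) (nat_lit 1) (nat_lit 10) L53029 (by decide +kernel)
theorem L53031 : W_8 (nat_lit 4) (nat_lit 0x100008002f0012001200080000000000000000000000000000000) (nat_lit 0x0) (nat_lit 0x40002000140000c001000000000000000000000000000000000000000) := T_8 (nat_lit 209) (nat_lit 226) (nat_lit 7) (nat_lit 4) (nat_lit 9) L53030 (by decide +kernel)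
theorem L53032 : W_8 (nat_lit 2) (nat_lit 0x30000a002f00128012c0080000000000000000000000000000000) (nat_lit 0x0) (nat_lit 0x8000400000000000000002000000000000000000000000000000) := D_8 (nat_lit 190) (nat_lit 121) (nat_lit 207) (nat_lit 7) (nat_lit 2) (nat_lit 7) (nat_lit 7) (nat_lit 2) (nat_lit 8) (by decide +kernel)
theorem L53033 : W_8 (nat_lit 3) (nat_lit 0x30000a002f0012801280080000000000000000000000000000000) (nat_lit 0x0) (nat_lit 0x8000400000000000040006000000000000000000000000000000) := T_8 (nat_lit 138) (nat_lit 122) (nat_lit 6) (nat_lit 2) (nat_lit 11) L53032 (by decide +kernel)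
theorem L53034 : W_8 (nat_lit 4) (nat_lit 0x30000a002f0012801200080000000000000000000000000000000) (nat_lit 0x0) (nat_lit 0x80004000000010000c0006000000000000000000000000000000) := T_8 (nat_lit 139) (nat_lit 156) (nat_lit 4) (nat_lit 4) (nat_lit 12) L53033 (by decide +kernel)
theorem L53035 : W_8 (nat_lit 5) (nat_lit 0x300008002f0012801200080000000000000000000000000000000) (nat_lit 0x0) (nat_lit 0x80007000000010000c0006000000000000000000000000000000) := T_8 (nat_lit 189) (nat_lit 188) (nat_lit 1) (nat_lit 5) (nat_lit 10) L53034 (by decide +kernel)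
theorem L53036 : W_8 (nat_lit 6) (nat_lit 0x300008002f0012001200080000000000000000000000000000000) (nat_lit 0x0) (nat_lit 0x8000700000001c000c0006000000000000000000000000000000) := T_8 (nat_lit 155) (nat_lit 154) (nat_lit 0) (nat_lit 5) (nat_lit 10) L53035 (by decide +kernel)
theorem L53037 : W_8 (nat_lit 7) (nat_lit 0x100008002f0012001200080000000000000000000000000000000) (nat_lit 0x0) (nat_lit 0x400028000700000001c000c0006000000000000000000000000000000) := T_8 (nat_lit 209) (nat_lit 226) (nat_lit 7) (nat_lit 4) (nat_lit 9) L53036 (by decide +kernel)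
theorem L53038 : W_8 (nat_lit 8) (nat_lit 0x100008002e0012001200080000000000000000000000000000000) (nat_lit 0x0) (nat_lit 0x40002800370001c001c000c0006000000000000000000000000000000) := Q_8 (nat_lit 172) (C_8 L53028 (C_8 L53031 (C_8 L53037 N_8))) (by decide +kernel)
theorem L53039 : W_8 (nat_lit 2) (nat_lit 0x30000a002f00128012c0082000000000000000000000000000000) (nat_lit 0x0) (nat_lit 0x20001000080000000000000000000000000) := D_8 (nat_lit 120) (nat_lit 103) (nat_lit 137) (nat_lit 4) (nat_lit 2) (nat_lit 10) (nat_lit 4) (nat_lit 2) (nat_lit 11) (by decide +kernel)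
theorem L53040 : W_8 (nat_lit 3) (nat_lit 0x30000a002f00128012c0080000000000000000000000000000000) (nat_lit 0x0) (nat_lit 0x400000000000020003000080000000000000000000000000) := T_8 (nat_lit 121) (nat_lit 190) (nat_lit 7) (nat_lit 2) (nat_lit 7) L53039 (by decide +kernel)
theorem L53041 : W_8 (nat_lit 4) (nat_lit 0x30000a002f0012801280080000000000000000000000000000000) (nat_lit 0x0) (nat_lit 0x400000000000060007000080000000000000000000000000) := T_8 (nat_lit 138) (nat_lit 122) (nat_lit 6) (nat_lit 2) (nat_lit 11) L53040 (by decide +kernel)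
theorem L53042 : W_8 (nat_lit 5) (nat_lit 0x30000a002f0012801200080000000000000000000000000000000) (nat_lit 0x0) (nat_lit 0x4000000010000e0007000080000000000000000000000000) := T_8 (nat_lit 139) (nat_lit 156) (nat_lit 4) (nat_lit 4) (nat_lit 12) L53041 (by decide +kernel)
theorem L53043 : W_8 (nat_lit 6) (nat_lit 0x300008002f0012801200080000000000000000000000000000000) (nat_lit 0x0) (nat_lit 0x7000000010000e0007000080000000000000000000000000) := T_8 (nat_lit 189) (nat_lit 188) (nat_lit 1) (nat_lit 5) (nat_lit 10) L53042 (by decide +kernel)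
theorem L53044 : W_8 (nat_lit 7) (nat_lit 0x300008002f0012001200080000000000000000000000000000000) (nat_lit 0x0) (nat_lit 0x700000001c000e0007000080000000000000000000000000) := T_8 (nat_lit 155) (nat_lit 154) (nat_lit 0) (nat_lit 5) (nat_lit 10) L53043 (by decide +kernel)
theorem L53045 : W_8 (nat_lit 8) (nat_lit 0x100008002f0012001200080000000000000000000000000000000) (nat_lit 0x0) (nat_lit 0x400020000700000001c000e0007000080000000000000000000000000) := T_8 (nat_lit 209) (nat_lit 226) (nat_lit 7) (nat_lit 4) (nat_lit 9) L53044 (by decide +kernel)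
theorem L53046 : W_8 (nat_lit 9) (nat_lit 0x100008002e0012001200080000000000000000000000000000000) (nat_lit 0x0) (nat_lit 0x40002000370001c001c000e0007000080000000000000000000000000) := Q_8 (nat_lit 172) (C_8 L53031 (C_8 L53028 (C_8 L53045 N_8))) (by decide +kernel)
theorem L53047 : W_8 (nat_lit 2) (nat_lit 0x1c000c002e0013801200080000000000000000000000000000000) (nat_lit 0x0) (nat_lit 0x3001000000000000000000000000000000000000000000000000) := D_8 (nat_lit 205) (nat_lit 192) (nat_lit 204) (nat_lit 2) (nat_lit 1) (nat_lit 12) (nat_lit 2) (nat_lit 0) (nat_lit 12) (by decide +kernel)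
theorem L53048 : W_8 (nat_lit 3) (nat_lit 0x18000c002e0013801200080000000000000000000000000000000) (nat_lit 0x0) (nat_lit 0x80007001000000000000000000000000000000000000000000000000) := T_8 (nat_lit 206) (nat_lit 223) (nat_lit 5) (nat_lit 3) (nat_lit 9) L53047 (by decide +kernel)
theorem L53049 : W_8 (nat_lit 4) (nat_lit 0x180008002e0013801200080000000000000000000000000000000) (nat_lit 0x0) (nat_lit 0x80007001400000000000040000000000000000000000000000000000) := T_8 (nat_lit 190) (nat_lit 138) (nat_lit 4) (nat_lit 3) (nat_lit 12) L53048 (by decide +kernel)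
theorem L53050 : W_8 (nat_lit 5) (nat_lit 0x100008002e0013801200080000000000000000000000000000000) (nat_lit 0x0) (nat_lit 0x18000f001400000000000040000000000000000000000000000000000) := T_8 (nat_lit 207) (nat_lit 224) (nat_lit 5) (nat_lit 4) (nat_lit 9) L53049 (by decide +kernel)
theorem L53051 : W_8 (nat_lit 6) (nat_lit 0x100008002e0013001200080000000000000000000000000000000) (nat_lit 0x0) (nat_lit 0x18000f001400000000c00040000000000000000000000000000000000) := T_8 (nat_lit 155) (nat_lit 154) (nat_lit 3) (nat_lit 1) (nat_lit 9) L53050 (by decide +kernel)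
theorem L53052 : W_8 (nat_lit 7) (nat_lit 0x100008002e0012001200080000000000000000000000000000000) (nat_lit 0x0) (nat_lit 0x18000f001400000001c000c0000000000000000000000000000000000) := T_8 (nat_lit 156) (nat_lit 139) (nat_lit 4) (nat_lit 4) (nat_lit 12) L53051 (by decide +kernel)
theorem L53053 : W_8 (nat_lit 2) (nat_lit 0x3e000c002e0013801200080000000000000000000000000000000) (nat_lit 0x0) (nat_lit 0x380000000000000000000000000000000000000000000000) := D_8 (nat_lit 188) (nat_lit 189) (nat_lit 187) (nat_lit 3) (nat_lit 1) (nat_lit 11) (nat_lit 0) (nat_lit 4) (nat_lit 12) (by decide +kernel)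
theorem L53054 : W_8 (nat_lit 3) (nat_lit 0x3c000c002e0013801200080000000000000000000000000000000) (nat_lit 0x0) (nat_lit 0x3000380000000000000000000000000000000000000000000000) := T_8 (nat_lit 205) (nat_lit 204) (nat_lit 2) (nat_lit 0) (nat_lit 12) L53053 (by decide +kernel)
theorem L53055 : W_8 (nat_lit 4) (nat_lit 0x38000c002e0013801200080000000000000000000000000000000) (nat_lit 0x0) (nat_lit 0x80007000380000000000000000000000000000000000000000000000) := T_8 (nat_lit 206) (nat_lit 223) (nat_lit 5) (nat_lit 3) (nat_lit 9) L53054 (by decide +kernel)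
theorem L53056 : W_8 (nat_lit 5) (nat_lit 0x380008002e0013801200080000000000000000000000000000000) (nat_lit 0x0) (nat_lit 0x80007000780000000000040000000000000000000000000000000000) := T_8 (nat_lit 190) (nat_lit 138) (nat_lit 4) (nat_lit 3) (nat_lit 12) L53055 (by decide +kernel)
theorem L53057 : W_8 (nat_lit 6) (nat_lit 0x380008002e0013001200080000000000000000000000000000000) (nat_lit 0x0) (nat_lit 0x80007000780000000c00040000000000000000000000000000000000) := T_8 (nat_lit 155) (nat_lit 154) (nat_lit 3) (nat_lit 1) (nat_lit 9) L53056 (by decide +kernel)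
theorem L53058 : W_8 (nat_lit 7) (nat_lit 0x380008002e0012001200080000000000000000000000000000000) (nat_lit 0x0) (nat_lit 0x80007000780000001c000c0000000000000000000000000000000000) := T_8 (nat_lit 156) (nat_lit 139) (nat_lit 4) (nat_lit 4) (nat_lit 12) L53057 (by decide +kernel)
theorem L53059 : W_8 (nat_lit 8) (nat_lit 0x180008002e0012001200080000000000000000000000000000000) (nat_lit 0x0) (nat_lit 0x480027000780000001c000c0000000000000000000000000000000000) := T_8 (nat_lit 209) (nat_lit 226) (nat_lit 7) (nat_lit 4) (nat_lit 9) L53058 (by decide +kernel)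
theorem L53060 : W_8 (nat_lit 9) (nat_lit 0x100008002e0012001200080000000000000000000000000000000) (nat_lit 0x0) (nat_lit 0x58002f000780000001c000c0000000000000000000000000000000000) := T_8 (nat_lit 207) (nat_lit 224) (nat_lit 5) (nat_lit 4) (nat_lit 9) L53059 (by decide +kernel)
theorem L53061 : W_8 (nat_lit 2) (nat_lit 0x3c0018002e8013001200080000000000000000000000000000000) (nat_lit 0x0) (nat_lit 0xc0000000400000000000000000000000000000000000000000000000) := D_8 (nat_lit 223) (nat_lit 190) (nat_lit 222) (nat_lit 5) (nat_lit 3) (nat_lit 9) (nat_lit 1) (nat_lit 5) (nat_lit 12) (by decide +kernel)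
theorem L53062 : W_8 (nat_lit 3) (nat_lit 0x3c0018002e8012001200080000000000000000000000000000000) (nat_lit 0x0) (nat_lit 0xc0000000400000001000080000000000000000000000000000000000) := T_8 (nat_lit 156) (nat_lit 139) (nat_lit 4) (nat_lit 4) (nat_lit 12) L53061 (by decide +kernel)
theorem L53063 : W_8 (nat_lit 4) (nat_lit 0x380018002e8012001200080000000000000000000000000000000) (nat_lit 0x0) (nat_lit 0xc0006000400000001000080000000000000000000000000000000000) := T_8 (nat_lit 206) (nat_lit 205) (nat_lit 2) (nat_lit 1) (nat_lit 12) L53062 (by decide +kernel)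
theorem L53064 : W_8 (nat_lit 5) (nat_lit 0x300018002e8012001200080000000000000000000000000000000) (nat_lit 0x0) (nat_lit 0x1c000e000400000001000080000000000000000000000000000000000) := T_8 (nat_lit 207) (nat_lit 224) (nat_lit 5) (nat_lit 4) (nat_lit 9) L53063 (by decide +kernel)
theorem L53065 : W_8 (nat_lit 6) (nat_lit 0x300018002e0012001200080000000000000000000000000000000) (nat_lit 0x0) (nat_lit 0x1c000e000400018001000080000000000000000000000000000000000) := T_8 (nat_lit 171) (nat_lit 172) (nat_lit 3) (nat_lit 1) (nat_lit 10) L53064 (by decide +kernel)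
theorem L53066 : W_8 (nat_lit 7) (nat_lit 0x100018002e0012001200080000000000000000000000000000000) (nat_lit 0x0) (nat_lit 0x5c002e000400018001000080000000000000000000000000000000000) := T_8 (nat_lit 209) (nat_lit 226) (nat_lit 7) (nat_lit 4) (nat_lit 9) L53065 (by decide +kernel)
theorem L53067 : W_8 (nat_lit 2) (nat_lit 0x1bc0058002e0013001200080000000000000000000000000000000) (nat_lit 0x0) (nat_lit 0xc0000000400000000000000000000000000000000000000000000000) := D_8 (nat_lit 223) (nat_lit 222) (nat_lit 190) (nat_lit 1) (nat_lit 5) (nat_lit 12) (nat_lit 5) (nat_lit 3) (nat_lit 9) (by decide +kernel)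
theorem L53068 : W_8 (nat_lit 3) (nat_lit 0x1b80058002e0013001200080000000000000000000000000000000) (nat_lit 0x0) (nat_lit 0xc0006000400000000000000000000000000000000000000000000000) := T_8 (nat_lit 206) (nat_lit 205) (nat_lit 2) (nat_lit 1) (nat_lit 12) L53067 (by decide +kernel)
theorem L53069 : W_8 (nat_lit 4) (nat_lit 0x1b00058002e0013001200080000000000000000000000000000000) (nat_lit 0x0) (nat_lit 0x1c000e000400000000000000000000000000000000000000000000000) := T_8 (nat_lit 207) (nat_lit 224) (nat_lit 5) (nat_lit 4) (nat_lit 9) L53068 (by decide +kernel)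
theorem L53070 : W_8 (nat_lit 5) (nat_lit 0xb00058002e0013001200080000000000000000000000000000000) (nat_lit 0x0) (nat_lit 0x21c010e000400000000000000000000000000000000000000000000000) := T_8 (nat_lit 212) (nat_lit 229) (nat_lit 7) (nat_lit 7) (nat_lit 9) L53069 (by decide +kernel)
theorem L53071 : W_8 (nat_lit 6) (nat_lit 0x300058002e0013001200080000000000000000000000000000000) (nat_lit 0x0) (nat_lit 0x21c018e000400000020000000000000000000000000000000000000000) := T_8 (nat_lit 211) (nat_lit 161) (nat_lit 6) (nat_lit 7) (nat_lit 12) L53070 (by decide +kernel)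
theorem L53072 : W_8 (nat_lit 7) (nat_lit 0x300018002e0013001200080000000000000000000000000000000) (nat_lit 0x0) (nat_lit 0x21c018e006400000020000000000000000000000000000000000000000) := T_8 (nat_lit 194) (nat_lit 193) (nat_lit 0) (nat_lit 7) (nat_lit 11) L53071 (by decide +kernel)
theorem L53073 : W_8 (nat_lit 8) (nat_lit 0x100018002e0013001200080000000000000000000000000000000) (nat_lit 0x0) (nat_lit 0x25c01ae006400000020000000000000000000000000000000000000000) := T_8 (nat_lit 209) (nat_lit 226) (nat_lit 7) (nat_lit 4) (nat_lit 9) L53072 (by decide +kernel)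
theorem L53074 : W_8 (nat_lit 9) (nat_lit 0x100018002e0012001200080000000000000000000000000000000) (nat_lit 0x0) (nat_lit 0x25c01ae006400000021000080000000000000000000000000000000000) := T_8 (nat_lit 156) (nat_lit 139) (nat_lit 4) (nat_lit 4) (nat_lit 12) L53073 (by decide +kernel)
theorem L53075 : W_8 (nat_lit 10) (nat_lit 0x100008002e0012001200080000000000000000000000000000000) (nat_lit 0x0) (nat_lit 0x25c01ae007400018021000080000000000000000000000000000000000) := Q_8 (nat_lit 192) (C_8 L53027 (C_8 L53066 (C_8 L53074 N_8))) (by decide +kernel)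
theorem L53076 : W_8 (nat_lit 2) (nat_lit 0x3c001a002e0013001200080000000000000000000000000000000) (nat_lit 0x0) (nat_lit 0xc0000000000010000000000000000000000000000000000000000000) := D_8 (nat_lit 223) (nat_lit 222) (nat_lit 172) (nat_lit 1) (nat_lit 5) (nat_lit 12) (nat_lit 6) (nat_lit 2) (nat_lit 13) (by decide +kernel)
theorem L53077 : W_8 (nat_lit 3) (nat_lit 0x3c001a002e0012001200080000000000000000000000000000000) (nat_lit 0x0) (nat_lit 0xc0000000000010001000080000000000000000000000000000000000) := T_8 (nat_lit 156) (nat_lit 139) (nat_lit 4) (nat_lit 4) (nat_lit 12) L53076 (by decide +kernel)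
theorem L53078 : W_8 (nat_lit 4) (nat_lit 0x3c0018002e0012001200080000000000000000000000000000000) (nat_lit 0x0) (nat_lit 0xc0000000300010001000080000000000000000000000000000000000) := T_8 (nat_lit 189) (nat_lit 188) (nat_lit 0) (nat_lit 5) (nat_lit 12) L53077 (by decide +kernel)
theorem L53079 : W_8 (nat_lit 5) (nat_lit 0x1c0018002e0012001200080000000000000000000000000000000) (nat_lit 0x0) (nat_lit 0x4c0020000300010001000080000000000000000000000000000000000) := T_8 (nat_lit 209) (nat_lit 226) (nat_lit 7) (nat_lit 4) (nat_lit 9) L53078 (by decide +kernel)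
theorem L53080 : W_8 (nat_lit 6) (nat_lit 0x180018002e0012001200080000000000000000000000000000000) (nat_lit 0x0) (nat_lit 0x4c0026000300010001000080000000000000000000000000000000000) := T_8 (nat_lit 206) (nat_lit 205) (nat_lit 2) (nat_lit 1) (nat_lit 12) L53079 (by decide +kernel)
theorem L53081 : W_8 (nat_lit 7) (nat_lit 0x100018002e0012001200080000000000000000000000000000000) (nat_lit 0x0) (nat_lit 0x5c002e000300010001000080000000000000000000000000000000000) := T_8 (nat_lit 207) (nat_lit 224) (nat_lit 5) (nat_lit 4) (nat_lit 9) L53080 (by decide +kernel)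
theorem L53082 : W_8 (nat_lit 2) (nat_lit 0x1c0018002e0013401200080000000000000000000000000000000) (nat_lit 0x0) (nat_lit 0x20006000000000000000000000000000000000000000000000000) := D_8 (nat_lit 193) (nat_lit 194) (nat_lit 209) (nat_lit 1) (nat_lit 7) (nat_lit 11) (nat_lit 2) (nat_lit 2) (nat_lit 12) (by decide +kernel)
theorem L53083 : W_8 (nat_lit 3) (nat_lit 0x180018002e0013401200080000000000000000000000000000000) (nat_lit 0x0) (nat_lit 0x26006000000000000000000000000000000000000000000000000) := T_8 (nat_lit 206) (nat_lit 205) (nat_lit 2) (nat_lit 1) (nat_lit 12) L53082 (by decide +kernel)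
theorem L53084 : W_8 (nat_lit 4) (nat_lit 0x100018002e0013401200080000000000000000000000000000000) (nat_lit 0x0) (nat_lit 0x10002e006000000000000000000000000000000000000000000000000) := T_8 (nat_lit 207) (nat_lit 224) (nat_lit 5) (nat_lit 4) (nat_lit 9) L53083 (by decide +kernel)
theorem L53085 : W_8 (nat_lit 5) (nat_lit 0x100018002e0013001200080000000000000000000000000000000) (nat_lit 0x0) (nat_lit 0x10002e006000000000c00000000000000000000000000000000000000) := T_8 (nat_lit 154) (nat_lit 155) (nat_lit 3) (nat_lit 1) (nat_lit 9) L53084 (by decide +kernel)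
theorem L53086 : W_8 (nat_lit 6) (nat_lit 0x100018002e0012001200080000000000000000000000000000000) (nat_lit 0x0) (nat_lit 0x10002e006000000001c00080000000000000000000000000000000000) := T_8 (nat_lit 156) (nat_lit 139) (nat_lit 4) (nat_lit 4) (nat_lit 12) L53085 (by decide +kernel)
theorem L53087 : W_8 (nat_lit 8) (nat_lit 0x100008002e0012001200080000000000000000000000000000000) (nat_lit 0x0) (nat_lit 0x5c002e007300018001c00080000000000000000000000000000000000) := Q_8 (nat_lit 192) (C_8 L53027 (C_8 L53081 (C_8 L53086 N_8))) (by decide +kernel)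
theorem L53088 : W_8 (nat_lit 2) (nat_lit 0x380009002f8012801200080000000000000000000000000000000) (nat_lit 0x0) (nat_lit 0x400004001000000000000000000000000000000000000000) := D_8 (nat_lit 170) (nat_lit 190) (nat_lit 156) (nat_lit 3) (nat_lit 0) (nat_lit 10) (nat_lit 2) (nat_lit 0) (nat_lit 10) (by decide +kernel)
theorem L53089 : W_8 (nat_lit 3) (nat_lit 0x380009002f0012801200080000000000000000000000000000000) (nat_lit 0x0) (nat_lit 0x48000c001000000000000000000000000000000000000000) := T_8 (nat_lit 171) (nat_lit 187) (nat_lit 1) (nat_lit 4) (nat_lit 10) L53088 (by decide +kernel)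
theorem L53090 : W_8 (nat_lit 4) (nat_lit 0x300009002f0012801200080000000000000000000000000000000) (nat_lit 0x0) (nat_lit 0x10000800048000c001000000000000000000000000000000000000000) := T_8 (nat_lit 207) (nat_lit 224) (nat_lit 5) (nat_lit 4) (nat_lit 9) L53089 (by decide +kernel)
theorem L53091 : W_8 (nat_lit 5) (nat_lit 0x300008002f0012801200080000000000000000000000000000000) (nat_lit 0x0) (nat_lit 0x10000800078000c001000000000000000000000000000000000000000) := T_8 (nat_lit 188) (nat_lit 189) (nat_lit 1) (nat_lit 5) (nat_lit 10) L53090 (by decide +kernel)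
theorem L53092 : W_8 (nat_lit 6) (nat_lit 0x300008002f0012001200080000000000000000000000000000000) (nat_lit 0x0) (nat_lit 0x10000800078000c001c00000000000000000000000000000000000000) := T_8 (nat_lit 155) (nat_lit 154) (nat_lit 0) (nat_lit 5) (nat_lit 10) L53091 (by decide +kernel)
theorem L53093 : W_8 (nat_lit 7) (nat_lit 0x100008002f0012001200080000000000000000000000000000000) (nat_lit 0x0) (nat_lit 0x50002800078000c001c00000000000000000000000000000000000000) := T_8 (nat_lit 209) (nat_lit 226) (nat_lit 7) (nat_lit 4) (nat_lit 9) L53092 (by decide +kernel)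
theorem L53094 : W_8 (nat_lit 2) (nat_lit 0x40001c001e002f0012801200080000000000000000000000000000000) (nat_lit 0x0) (nat_lit 0x1000080000000000000001000000000000000000000000000000000000000) := D_8 (nat_lit 223) (nat_lit 240) (nat_lit 156) (nat_lit 6) (nat_lit 2) (nat_lit 14) (nat_lit 6) (nat_lit 2) (nat_lit 13) (by decide +kernel)
theorem L53095 : W_8 (nat_lit 3) (nat_lit 0x40001c001a002f0012801200080000000000000000000000000000000) (nat_lit 0x0) (nat_lit 0x1000080000000400000001000040000000000000000000000000000000000) := T_8 (nat_lit 190) (nat_lit 138) (nat_lit 7) (nat_lit 2) (nat_lit 8) L53094 (by decide +kernel)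
theorem L53096 : W_8 (nat_lit 4) (nat_lit 0x400018001a002f0012801200080000000000000000000000000000000) (nat_lit 0x0) (nat_lit 0x1000080006000400000001000040000000000000000000000000000000000) := T_8 (nat_lit 206) (nat_lit 205) (nat_lit 2) (nat_lit 1) (nat_lit 12) L53095 (by decide +kernel)
theorem L53097 : W_8 (nat_lit 5) (nat_lit 0x400010001a002f0012801200080000000000000000000000000000000) (nat_lit 0x0) (nat_lit 0x100018000e000400000001000040000000000000000000000000000000000) := T_8 (nat_lit 207) (nat_lit 224) (nat_lit 5) (nat_lit 4) (nat_lit 9) L53096 (by decide +kernel)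
theorem L53098 : W_8 (nat_lit 6) (nat_lit 0x400010001a002f0012001200080000000000000000000000000000000) (nat_lit 0x0) (nat_lit 0x100018000e000400000001c00040000000000000000000000000000000000) := T_8 (nat_lit 155) (nat_lit 154) (nat_lit 0) (nat_lit 5) (nat_lit 10) L53097 (by decide +kernel)
theorem L53099 : W_8 (nat_lit 7) (nat_lit 0x10001a002f0012001200080000000000000000000000000000000) (nat_lit 0x0) (nat_lit 0x100058002e000400000001c00040000000000000000000000000000000000) := T_8 (nat_lit 226) (nat_lit 209) (nat_lit 7) (nat_lit 4) (nat_lit 9) L53098 (by decide +kernel)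
theorem L53100 : W_8 (nat_lit 8) (nat_lit 0x10000a002f0012001200080000000000000000000000000000000) (nat_lit 0x0) (nat_lit 0x100058002e003400000001c00040000000000000000000000000000000000) := T_8 (nat_lit 192) (nat_lit 193) (nat_lit 3) (nat_lit 2) (nat_lit 10) L53099 (by decide +kernel)
theorem L53101 : W_8 (nat_lit 9) (nat_lit 0x100008002f0012001200080000000000000000000000000000000) (nat_lit 0x0) (nat_lit 0x100058002e003700000001c00040000000000000000000000000000000000) := T_8 (nat_lit 189) (nat_lit 188) (nat_lit 1) (nat_lit 5) (nat_lit 10) L53100 (by decide +kernel)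
theorem L53102 : W_8 (nat_lit 10) (nat_lit 0x100008002e0012001200080000000000000000000000000000000) (nat_lit 0x0) (nat_lit 0x100058002e00378001c001c00040000000000000000000000000000000000) := Q_8 (nat_lit 172) (C_8 L53031 (C_8 L53028 (C_8 L53093 (C_8 L53101 N_8)))) (by decide +kernel)
theorem L53103 : W_8 (nat_lit 2) (nat_lit 0x8003c001a002f0012801200080000000000000000000000000000000) (nat_lit 0x0) (nat_lit 0x1000000000000400000000000040000000000000000000000000000000000) := D_8 (nat_lit 190) (nat_lit 138) (nat_lit 240) (nat_lit 7) (nat_lit 2) (nat_lit 8) (nat_lit 6) (nat_lit 2) (nat_lit 14) (by decide +kernel)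
theorem L53104 : W_8 (nat_lit 3) (nat_lit 0x3c001a002f0012801200080000000000000000000000000000000) (nat_lit 0x0) (nat_lit 0x10000c0000000400000000000040000000000000000000000000000000000) := T_8 (nat_lit 223) (nat_lit 222) (nat_lit 1) (nat_lit 5) (nat_lit 12) L53103 (by decide +kernel)
theorem L53105 : W_8 (nat_lit 4) (nat_lit 0x3c0018002f0012801200080000000000000000000000000000000) (nat_lit 0x0) (nat_lit 0x10000c0000000700000000000040000000000000000000000000000000000) := T_8 (nat_lit 189) (nat_lit 188) (nat_lit 1) (nat_lit 5) (nat_lit 10) L53104 (by decide +kernel)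
theorem L53106 : W_8 (nat_lit 5) (nat_lit 0x3c0018002f0012001200080000000000000000000000000000000) (nat_lit 0x0) (nat_lit 0x10000c0000000700000000c00040000000000000000000000000000000000) := T_8 (nat_lit 155) (nat_lit 154) (nat_lit 0) (nat_lit 5) (nat_lit 10) L53105 (by decide +kernel)
theorem L53107 : W_8 (nat_lit 6) (nat_lit 0x1c0018002f0012001200080000000000000000000000000000000) (nat_lit 0x0) (nat_lit 0x10004c0020000700000000c00040000000000000000000000000000000000) := T_8 (nat_lit 209) (nat_lit 226) (nat_lit 7) (nat_lit 4) (nat_lit 9) L53106 (by decide +kernel)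
theorem L53108 : W_8 (nat_lit 7) (nat_lit 0x1c0018002e0012001200080000000000000000000000000000000) (nat_lit 0x0) (nat_lit 0x10004c0020000700018000c00040000000000000000000000000000000000) := T_8 (nat_lit 172) (nat_lit 171) (nat_lit 3) (nat_lit 1) (nat_lit 10) L53107 (by decide +kernel)
theorem L53109 : W_8 (nat_lit 8) (nat_lit 0x180018002e0012001200080000000000000000000000000000000) (nat_lit 0x0) (nat_lit 0x10004c0026000700018000c00040000000000000000000000000000000000) := T_8 (nat_lit 206) (nat_lit 205) (nat_lit 2) (nat_lit 1) (nat_lit 12) L53108 (by decide +kernel)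
theorem L53110 : W_8 (nat_lit 9) (nat_lit 0x100018002e0012001200080000000000000000000000000000000) (nat_lit 0x0) (nat_lit 0x10005c002e000700018000c00040000000000000000000000000000000000) := T_8 (nat_lit 207) (nat_lit 224) (nat_lit 5) (nat_lit 4) (nat_lit 9) L53109 (by decide +kernel)
theorem L53111 : W_8 (nat_lit 2) (nat_lit 0x380018002e0012001200080000000000000000000000000000000) (nat_lit 0x0) (nat_lit 0x6002000000000000000000000000000000000000000000000000) := D_8 (nat_lit 206) (nat_lit 193) (nat_lit 205) (nat_lit 2) (nat_lit 2) (nat_lit 12) (nat_lit 2) (nat_lit 1) (nat_lit 12) (by decide +kernel)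
theorem L53112 : W_8 (nat_lit 3) (nat_lit 0x300018002e0012001200080000000000000000000000000000000) (nat_lit 0x0) (nat_lit 0x10000e002000000000000000000000000000000000000000000000000) := T_8 (nat_lit 207) (nat_lit 224) (nat_lit 5) (nat_lit 4) (nat_lit 9) L53111 (by decide +kernel)
theorem L53113 : W_8 (nat_lit 4) (nat_lit 0x100018002e0012001200080000000000000000000000000000000) (nat_lit 0x0) (nat_lit 0x50002e002000000000000000000000000000000000000000000000000) := T_8 (nat_lit 209) (nat_lit 226) (nat_lit 7) (nat_lit 4) (nat_lit 9) L53112 (by decide +kernel)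
theorem L53114 : W_8 (nat_lit 10) (nat_lit 0x100008002e0012001200080000000000000000000000000000000) (nat_lit 0x0) (nat_lit 0x10005c002e003700018000c00040000000000000000000000000000000000) := Q_8 (nat_lit 192) (C_8 L53027 (C_8 L53110 (C_8 L53113 N_8))) (by decide +kernel)
theorem L53115 : W_8 (nat_lit 11) (nat_lit 0x100008002c0012001200080000000000000000000000000000000) (nat_lit 0x0) (nat_lit 0x10025c01af00778003c021c000e0007000080000000000000000000000000) := Q_8 (nat_lit 173) (C_8 L53038 (C_8 L53046 (C_8 L53052 (C_8 L53060 (C_8 L53075 (C_8 L53087 (C_8 L53102 (C_8 L53114 N_8)))))))) (by decide +kernel)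
theorem L53116 : W_8 (nat_lit 12) (nat_lit 0x8002c0012001200080000000000000000000000000000000) (nat_lit 0x0) (nat_lit 0x8000c000f0027c01bf00778003c021c000e0007000080000000000000000000000000) := Q_8 (nat_lit 208) (C_8 L53115 (C_8 L53013 (C_8 L52990 (C_8 L52999 (C_8 L53010 N_8))))) (by decide +kernel)
theorem L53117 : W_8 (nat_lit 13) (nat_lit 0x8002c0010001200080000000000000000000000000000000) (nat_lit 0x0) (nat_lit 0x8000c000f0027c01bf00778003c023c001e001f000280000000000000000000000000) := Q_8 (nat_lit 157) (C_8 L53116 (C_8 L53023 (C_8 L53019 (C_8 L53016 N_8)))) (by decide +kernel)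
theorem L53118 : W_8 (nat_lit 2) (nat_lit 0x100008002f0013001200080000000000000000000000000000000) (nat_lit 0x0) (nat_lit 0x100000c000000000000000000000000000000000000000000) := D_8 (nat_lit 171) (nat_lit 170) (nat_lit 192) (nat_lit 2) (nat_lit 0) (nat_lit 10) (nat_lit 3) (nat_lit 1) (nat_lit 10) (by decide +kernel)
theorem L53119 : W_8 (nat_lit 3) (nat_lit 0x100008002f0012001200080000000000000000000000000000000) (nat_lit 0x0) (nat_lit 0x100000c001000080000000000000000000000000000000000) := T_8 (nat_lit 156) (nat_lit 139) (nat_lit 4) (nat_lit 4) (nat_lit 12) L53118 (by decide +kernel)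
theorem L53120 : W_8 (nat_lit 2) (nat_lit 0x100008002f8013001200080000000000000000000000000000000) (nat_lit 0x0) (nat_lit 0xe00000000000000000000000000000000000000) := D_8 (nat_lit 154) (nat_lit 155) (nat_lit 153) (nat_lit 3) (nat_lit 1) (nat_lit 9) (nat_lit 0) (nat_lit 4) (nat_lit 10) (by decide +kernel)
theorem L53121 : W_8 (nat_lit 3) (nat_lit 0x100008002f0013001200080000000000000000000000000000000) (nat_lit 0x0) (nat_lit 0xc000e00000000000000000000000000000000000000) := T_8 (nat_lit 171) (nat_lit 170) (nat_lit 2) (nat_lit 0) (nat_lit 10) L53120 (by decide +kernel)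
theorem L53122 : W_8 (nat_lit 4) (nat_lit 0x100008002f0012001200080000000000000000000000000000000) (nat_lit 0x0) (nat_lit 0xc001e00080000000000000000000000000000000000) := T_8 (nat_lit 156) (nat_lit 139) (nat_lit 4) (nat_lit 4) (nat_lit 12) L53121 (by decide +kernel)
theorem L53123 : W_8 (nat_lit 2) (nat_lit 0x14001a002f0013401200080000000000000000000000000000000) (nat_lit 0x0) (nat_lit 0xa000400000000000000000000000000000000000000000000000) := D_8 (nat_lit 205) (nat_lit 207) (nat_lit 190) (nat_lit 2) (nat_lit 1) (nat_lit 12) (nat_lit 1) (nat_lit 5) (nat_lit 11) (by decide +kernel)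
theorem L53124 : W_8 (nat_lit 3) (nat_lit 0x10001a002f0013401200080000000000000000000000000000000) (nat_lit 0x0) (nat_lit 0x8000e000400000000000000000000000000000000000000000000000) := T_8 (nat_lit 206) (nat_lit 223) (nat_lit 6) (nat_lit 2) (nat_lit 13) L53123 (by decide +kernel)
theorem L53125 : W_8 (nat_lit 4) (nat_lit 0x100018002f0013401200080000000000000000000000000000000) (nat_lit 0x0) (nat_lit 0x8000e000700000000000000000000000000000000000000000000000) := T_8 (nat_lit 189) (nat_lit 188) (nat_lit 1) (nat_lit 5) (nat_lit 10) L53124 (by decide +kernel)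
theorem L53126 : W_8 (nat_lit 5) (nat_lit 0x100008002f0013401200080000000000000000000000000000000) (nat_lit 0x0) (nat_lit 0x8000e003700000000000000000000000000000000000000000000000) := T_8 (nat_lit 192) (nat_lit 193) (nat_lit 3) (nat_lit 2) (nat_lit 10) L53125 (by decide +kernel)
theorem L53127 : W_8 (nat_lit 6) (nat_lit 0x100008002f0013001200080000000000000000000000000000000) (nat_lit 0x0) (nat_lit 0x8000e003700000000c00000000000000000000000000000000000000) := T_8 (nat_lit 154) (nat_lit 155) (nat_lit 3) (nat_lit 1) (nat_lit 9) L53126 (by decide +kernel)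
theorem L53128 : W_8 (nat_lit 7) (nat_lit 0x100008002f0012001200080000000000000000000000000000000) (nat_lit 0x0) (nat_lit 0x8000e003700000001c00080000000000000000000000000000000000) := T_8 (nat_lit 156) (nat_lit 139) (nat_lit 4) (nat_lit 4) (nat_lit 12) L53127 (by decide +kernel)
theorem L53129 : W_8 (nat_lit 8) (nat_lit 0x100008002e0012001200080000000000000000000000000000000) (nat_lit 0x0) (nat_lit 0x8000e00370001c001e00080000000000000000000000000000000000) := Q_8 (nat_lit 172) (C_8 L53028 (C_8 L53119 (C_8 L53122 (C_8 L53128 N_8)))) (by decide +kernel)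
theorem L53130 : W_8 (nat_lit 2) (nat_lit 0x1e000c002e0013801200080000000000000000000000000000000) (nat_lit 0x0) (nat_lit 0x380000000000000000000000000000000000000000000000) := D_8 (nat_lit 188) (nat_lit 189) (nat_lit 187) (nat_lit 2) (nat_lit 1) (nat_lit 11) (nat_lit 0) (nat_lit 4) (nat_lit 12) (by decide +kernel)
theorem L53131 : W_8 (nat_lit 3) (nat_lit 0x1c000c002e0013801200080000000000000000000000000000000) (nat_lit 0x0) (nat_lit 0x3000380000000000000000000000000000000000000000000000) := T_8 (nat_lit 205) (nat_lit 204) (nat_lit 2) (nat_lit 0) (nat_lit 12) L53130 (by decide +kernel)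
theorem L53132 : W_8 (nat_lit 4) (nat_lit 0x18000c002e0013801200080000000000000000000000000000000) (nat_lit 0x0) (nat_lit 0x80007000380000000000000000000000000000000000000000000000) := T_8 (nat_lit 206) (nat_lit 223) (nat_lit 5) (nat_lit 3) (nat_lit 9) L53131 (by decide +kernel)
theorem L53133 : W_8 (nat_lit 5) (nat_lit 0x180008002e0013801200080000000000000000000000000000000) (nat_lit 0x0) (nat_lit 0x80007000780000000000040000000000000000000000000000000000) := T_8 (nat_lit 190) (nat_lit 138) (nat_lit 4) (nat_lit 3) (nat_lit 12) L53132 (by decide +kernel)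
theorem L53134 : W_8 (nat_lit 6) (nat_lit 0x100008002e0013801200080000000000000000000000000000000) (nat_lit 0x0) (nat_lit 0x18000f000780000000000040000000000000000000000000000000000) := T_8 (nat_lit 207) (nat_lit 224) (nat_lit 5) (nat_lit 4) (nat_lit 9) L53133 (by decide +kernel)
theorem L53135 : W_8 (nat_lit 7) (nat_lit 0x100008002e0013001200080000000000000000000000000000000) (nat_lit 0x0) (nat_lit 0x18000f000780000000c00040000000000000000000000000000000000) := T_8 (nat_lit 155) (nat_lit 154) (nat_lit 3) (nat_lit 1) (nat_lit 9) L53134 (by decide +kernel)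
theorem L53136 : W_8 (nat_lit 8) (nat_lit 0x100008002e0012001200080000000000000000000000000000000) (nat_lit 0x0) (nat_lit 0x18000f000780000001c000c0000000000000000000000000000000000) := T_8 (nat_lit 156) (nat_lit 139) (nat_lit 4) (nat_lit 4) (nat_lit 12) L53135 (by decide +kernel)
theorem L53137 : W_8 (nat_lit 2) (nat_lit 0x180009002f0013001200080000000000000000000000000000000) (nat_lit 0x0) (nat_lit 0x8000c000000000000000000000000000000000000000000) := D_8 (nat_lit 171) (nat_lit 170) (nat_lit 187) (nat_lit 2) (nat_lit 0) (nat_lit 10) (nat_lit 1) (nat_lit 4) (nat_lit 10) (by decide +kernel)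
theorem L53138 : W_8 (nat_lit 3) (nat_lit 0x180009002f0012001200080000000000000000000000000000000) (nat_lit 0x0) (nat_lit 0x8000c001000080000000000000000000000000000000000) := T_8 (nat_lit 156) (nat_lit 139) (nat_lit 4) (nat_lit 4) (nat_lit 12) L53137 (by decide +kernel)
theorem L53139 : W_8 (nat_lit 4) (nat_lit 0x180008002f0012001200080000000000000000000000000000000) (nat_lit 0x0) (nat_lit 0x38000c001000080000000000000000000000000000000000) := T_8 (nat_lit 188) (nat_lit 189) (nat_lit 1) (nat_lit 5) (nat_lit 10) L53138 (by decide +kernel)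
theorem L53140 : W_8 (nat_lit 5) (nat_lit 0x100008002f0012001200080000000000000000000000000000000) (nat_lit 0x0) (nat_lit 0x10000800038000c001000080000000000000000000000000000000000) := T_8 (nat_lit 207) (nat_lit 224) (nat_lit 5) (nat_lit 4) (nat_lit 9) L53139 (by decide +kernel)
theorem L53141 : W_8 (nat_lit 2) (nat_lit 0x1c0018002f0013001200080000000000000000000000000000000) (nat_lit 0x0) (nat_lit 0x80000000300000000000000000000000000000000000000000000000) := D_8 (nat_lit 189) (nat_lit 188) (nat_lit 223) (nat_lit 1) (nat_lit 5) (nat_lit 10) (nat_lit 6) (nat_lit 2) (nat_lit 13) (by decide +kernel)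
theorem L53142 : W_8 (nat_lit 3) (nat_lit 0x180018002f0013001200080000000000000000000000000000000) (nat_lit 0x0) (nat_lit 0x80006000300000000000000000000000000000000000000000000000) := T_8 (nat_lit 206) (nat_lit 205) (nat_lit 2) (nat_lit 1) (nat_lit 12) L53141 (by decide +kernel)
theorem L53143 : W_8 (nat_lit 4) (nat_lit 0x100018002f0013001200080000000000000000000000000000000) (nat_lit 0x0) (nat_lit 0x18000e000300000000000000000000000000000000000000000000000) := T_8 (nat_lit 207) (nat_lit 224) (nat_lit 5) (nat_lit 4) (nat_lit 9) L53142 (by decide +kernel)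
theorem L53144 : W_8 (nat_lit 5) (nat_lit 0x100008002f0013001200080000000000000000000000000000000) (nat_lit 0x0) (nat_lit 0x18000e003300000000000000000000000000000000000000000000000) := T_8 (nat_lit 192) (nat_lit 193) (nat_lit 3) (nat_lit 2) (nat_lit 10) L53143 (by decide +kernel)
theorem L53145 : W_8 (nat_lit 6) (nat_lit 0x100008002f0012001200080000000000000000000000000000000) (nat_lit 0x0) (nat_lit 0x18000e003300000001000080000000000000000000000000000000000) := T_8 (nat_lit 156) (nat_lit 139) (nat_lit 4) (nat_lit 4) (nat_lit 12) L53144 (by decide +kernel)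
theorem L53146 : W_8 (nat_lit 7) (nat_lit 0x100008002e0012001200080000000000000000000000000000000) (nat_lit 0x0) (nat_lit 0x18000e00338001c001000080000000000000000000000000000000000) := Q_8 (nat_lit 172) (C_8 L53028 (C_8 L53119 (C_8 L53140 (C_8 L53145 N_8)))) (by decide +kernel)
theorem L53147 : W_8 (nat_lit 2) (nat_lit 0x180008002f8012001200080000000000000000000000000000000) (nat_lit 0x0) (nat_lit 0x400004001000000000000000000000000000000000000000) := D_8 (nat_lit 170) (nat_lit 190) (nat_lit 156) (nat_lit 3) (nat_lit 0) (nat_lit 10) (nat_lit 2) (nat_lit 0) (nat_lit 10) (by decide +kernel)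
theorem L53148 : W_8 (nat_lit 3) (nat_lit 0x180008002f0012001200080000000000000000000000000000000) (nat_lit 0x0) (nat_lit 0x140000c001000000000000000000000000000000000000000) := T_8 (nat_lit 171) (nat_lit 192) (nat_lit 3) (nat_lit 1) (nat_lit 10) L53147 (by decide +kernel)
theorem L53149 : W_8 (nat_lit 4) (nat_lit 0x100008002f0012001200080000000000000000000000000000000) (nat_lit 0x0) (nat_lit 0x10000800140000c001000000000000000000000000000000000000000) := T_8 (nat_lit 207) (nat_lit 224) (nat_lit 5) (nat_lit 4) (nat_lit 9) L53148 (by decide +kernel)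
theorem L53150 : W_8 (nat_lit 2) (nat_lit 0x18000a002f0012801240083000100000000000000000000000000) (nat_lit 0x0) (nat_lit 0x4000200010000000000000000000000) := D_8 (nat_lit 105) (nat_lit 122) (nat_lit 88) (nat_lit 6) (nat_lit 2) (nat_lit 10) (nat_lit 6) (nat_lit 2) (nat_lit 9) (by decide +kernel)
theorem L53151 : W_8 (nat_lit 3) (nat_lit 0x18000a002f0012801240083000000000000000000000000000000) (nat_lit 0x0) (nat_lit 0x1000000004000300010000000000000000000000) := T_8 (nat_lit 104) (nat_lit 156) (nat_lit 7) (nat_lit 2) (nat_lit 6) L53150 (by decide +kernel)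
theorem L53152 : W_8 (nat_lit 4) (nat_lit 0x18000a002f0012801240081000000000000000000000000000000) (nat_lit 0x0) (nat_lit 0x1000000006000380010000000000000000000000) := T_8 (nat_lit 121) (nat_lit 103) (nat_lit 4) (nat_lit 2) (nat_lit 10) L53151 (by decide +kernel)
theorem L53153 : W_8 (nat_lit 5) (nat_lit 0x18000a002f0012801240080000000000000000000000000000000) (nat_lit 0x0) (nat_lit 0x1000020007000380010000000000000000000000) := T_8 (nat_lit 120) (nat_lit 137) (nat_lit 4) (nat_lit 2) (nat_lit 11) L53152 (by decide +kernel)
theorem L53154 : W_8 (nat_lit 6) (nat_lit 0x18000a002f0012801200080000000000000000000000000000000) (nat_lit 0x0) (nat_lit 0x400000001000060007000380010000000000000000000000) := T_8 (nat_lit 138) (nat_lit 190) (nat_lit 7) (nat_lit 2) (nat_lit 8) L53153 (by decide +kernel)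
theorem L53155 : W_8 (nat_lit 7) (nat_lit 0x180008002f0012801200080000000000000000000000000000000) (nat_lit 0x0) (nat_lit 0x700000001000060007000380010000000000000000000000) := T_8 (nat_lit 189) (nat_lit 188) (nat_lit 1) (nat_lit 5) (nat_lit 10) L53154 (by decide +kernel)
theorem L53156 : W_8 (nat_lit 8) (nat_lit 0x180008002f0012001200080000000000000000000000000000000) (nat_lit 0x0) (nat_lit 0x700000001c00060007000380010000000000000000000000) := T_8 (nat_lit 155) (nat_lit 154) (nat_lit 0) (nat_lit 5) (nat_lit 10) L53155 (by decide +kernel)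
theorem L53157 : W_8 (nat_lit 9) (nat_lit 0x100008002f0012001200080000000000000000000000000000000) (nat_lit 0x0) (nat_lit 0x100008000700000001c00060007000380010000000000000000000000) := T_8 (nat_lit 207) (nat_lit 224) (nat_lit 5) (nat_lit 4) (nat_lit 9) L53156 (by decide +kernel)
theorem L53158 : W_8 (nat_lit 10) (nat_lit 0x100008002e0012001200080000000000000000000000000000000) (nat_lit 0x0) (nat_lit 0x10000800370001c001c00060007000380010000000000000000000000) := Q_8 (nat_lit 172) (C_8 L53028 (C_8 L53149 (C_8 L53157 N_8))) (by decide +kernel)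
theorem L53159 : W_8 (nat_lit 2) (nat_lit 0x180008002f8012001200080000000000000000000000000000000) (nat_lit 0x0) (nat_lit 0x380000000000000000000000000000000000000000000000) := D_8 (nat_lit 188) (nat_lit 189) (nat_lit 187) (nat_lit 1) (nat_lit 5) (nat_lit 10) (nat_lit 1) (nat_lit 4) (nat_lit 10) (by decide +kernel)
theorem L53160 : W_8 (nat_lit 3) (nat_lit 0x180008002f0012001200080000000000000000000000000000000) (nat_lit 0x0) (nat_lit 0x1380008000000000000000000000000000000000000000000) := T_8 (nat_lit 171) (nat_lit 192) (nat_lit 3) (nat_lit 1) (nat_lit 10) L53159 (by decide +kernel)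
theorem L53161 : W_8 (nat_lit 4) (nat_lit 0x100008002f0012001200080000000000000000000000000000000) (nat_lit 0x0) (nat_lit 0x100008001380008000000000000000000000000000000000000000000) := T_8 (nat_lit 207) (nat_lit 224) (nat_lit 5) (nat_lit 4) (nat_lit 9) L53160 (by decide +kernel)
theorem L53162 : W_8 (nat_lit 2) (nat_lit 0x18000a002f0012801240085000000000000000000000000000000) (nat_lit 0x0) (nat_lit 0x2000280000000000000000000000000) := D_8 (nat_lit 121) (nat_lit 103) (nat_lit 105) (nat_lit 4) (nat_lit 2) (nat_lit 10) (nat_lit 6) (nat_lit 2) (nat_lit 10) (by decide +kernel)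
theorem L53163 : W_8 (nat_lit 3) (nat_lit 0x18000a002f0012801240081000000000000000000000000000000) (nat_lit 0x0) (nat_lit 0x80006000280000000000000000000000000) := T_8 (nat_lit 122) (nat_lit 139) (nat_lit 6) (nat_lit 2) (nat_lit 11) L53162 (by decide +kernel)
theorem L53164 : W_8 (nat_lit 4) (nat_lit 0x18000a002f0012801240080000000000000000000000000000000) (nat_lit 0x0) (nat_lit 0xa0007000280000000000000000000000000) := T_8 (nat_lit 120) (nat_lit 137) (nat_lit 4) (nat_lit 2) (nat_lit 11) L53163 (by decide +kernel)
theorem L53165 : W_8 (nat_lit 5) (nat_lit 0x18000a002f0012801200080000000000000000000000000000000) (nat_lit 0x0) (nat_lit 0x4000000000000e0007000280000000000000000000000000) := T_8 (nat_lit 138) (nat_lit 190) (nat_lit 7) (nat_lit 2) (nat_lit 8) L53164 (by decide +kernel)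
theorem L53166 : W_8 (nat_lit 6) (nat_lit 0x180008002f0012801200080000000000000000000000000000000) (nat_lit 0x0) (nat_lit 0x7000000000000e0007000280000000000000000000000000) := T_8 (nat_lit 189) (nat_lit 188) (nat_lit 1) (nat_lit 5) (nat_lit 10) L53165 (by decide +kernel)
theorem L53167 : W_8 (nat_lit 7) (nat_lit 0x100008002f0012801200080000000000000000000000000000000) (nat_lit 0x0) (nat_lit 0x1000080007000000000000e0007000280000000000000000000000000) := T_8 (nat_lit 207) (nat_lit 224) (nat_lit 5) (nat_lit 4) (nat_lit 9) L53166 (by decide +kernel)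
theorem L53168 : W_8 (nat_lit 8) (nat_lit 0x100008002f0012001200080000000000000000000000000000000) (nat_lit 0x0) (nat_lit 0x100008000700000000c000e0007000280000000000000000000000000) := T_8 (nat_lit 155) (nat_lit 154) (nat_lit 0) (nat_lit 5) (nat_lit 10) L53167 (by decide +kernel)
theorem L53169 : W_8 (nat_lit 9) (nat_lit 0x100008002e0012001200080000000000000000000000000000000) (nat_lit 0x0) (nat_lit 0x100008003780018000c000e0007000280000000000000000000000000) := Q_8 (nat_lit 172) (C_8 L53028 (C_8 L53161 (C_8 L53168 N_8))) (by decide +kernel)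
theorem L53170 : W_8 (nat_lit 2) (nat_lit 0x14001a002f0013801200080000000000000000000000000000000) (nat_lit 0x0) (nat_lit 0x40002000400000000000000000000000000000000000000000000000) := D_8 (nat_lit 205) (nat_lit 222) (nat_lit 190) (nat_lit 5) (nat_lit 2) (nat_lit 9) (nat_lit 1) (nat_lit 5) (nat_lit 11) (by decide +kernel)
theorem L53171 : W_8 (nat_lit 3) (nat_lit 0x10001a002f0013801200080000000000000000000000000000000) (nat_lit 0x0) (nat_lit 0xc0006000400000000000000000000000000000000000000000000000) := T_8 (nat_lit 206) (nat_lit 223) (nat_lit 6) (nat_lit 2) (nat_lit 13) L53170 (by decide +kernel)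
theorem L53172 : W_8 (nat_lit 4) (nat_lit 0x100018002f0013801200080000000000000000000000000000000) (nat_lit 0x0) (nat_lit 0xc0006000700000000000000000000000000000000000000000000000) := T_8 (nat_lit 189) (nat_lit 188) (nat_lit 1) (nat_lit 5) (nat_lit 10) L53171 (by decide +kernel)
theorem L53173 : W_8 (nat_lit 5) (nat_lit 0x100018002f0013001200080000000000000000000000000000000) (nat_lit 0x0) (nat_lit 0xc0006000700000000c00000000000000000000000000000000000000) := T_8 (nat_lit 155) (nat_lit 154) (nat_lit 3) (nat_lit 1) (nat_lit 9) L53172 (by decide +kernel)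
theorem L53174 : W_8 (nat_lit 6) (nat_lit 0x100018002f0012001200080000000000000000000000000000000) (nat_lit 0x0) (nat_lit 0xc0006000700000001c00080000000000000000000000000000000000) := T_8 (nat_lit 156) (nat_lit 139) (nat_lit 4) (nat_lit 4) (nat_lit 12) L53173 (by decide +kernel)
theorem L53175 : W_8 (nat_lit 7) (nat_lit 0x100008002f0012001200080000000000000000000000000000000) (nat_lit 0x0) (nat_lit 0xc0006003700000001c00080000000000000000000000000000000000) := T_8 (nat_lit 192) (nat_lit 193) (nat_lit 3) (nat_lit 2) (nat_lit 10) L53174 (by decide +kernel)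
theorem L53176 : W_8 (nat_lit 8) (nat_lit 0x100008002e0012001200080000000000000000000000000000000) (nat_lit 0x0) (nat_lit 0xc000600370001c001e00080000000000000000000000000000000000) := Q_8 (nat_lit 172) (C_8 L53028 (C_8 L53122 (C_8 L53175 N_8))) (by decide +kernel)
theorem L53177 : W_8 (nat_lit 11) (nat_lit 0x100008002c0012001200080000000000000000000000000000000) (nat_lit 0x0) (nat_lit 0x1c000f00378003c001e000e0007000380010000000000000000000000) := Q_8 (nat_lit 173) (C_8 L53129 (C_8 L53052 (C_8 L53136 (C_8 L53146 (C_8 L53158 (C_8 L53169 (C_8 L53176 N_8))))))) (by decide +kernel)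
theorem L53178 : W_8 (nat_lit 2) (nat_lit 0x80003000100008002c0013401200080000000000000000000000000000000) (nat_lit 0x0) (nat_lit 0x100004000000000001000000000000000000000000000000000000000000000000) := D_8 (nat_lit 242) (nat_lit 192) (nat_lit 260) (nat_lit 6) (nat_lit 4) (nat_lit 14) (nat_lit 7) (nat_lit 4) (nat_lit 11) (by decide +kernel)
theorem L53179 : W_8 (nat_lit 3) (nat_lit 0x3000100008002c0013401200080000000000000000000000000000000) (nat_lit 0x0) (nat_lit 0x10000c000400000001000000000000000000000000000000000000000000000000) := T_8 (nat_lit 243) (nat_lit 226) (nat_lit 7) (nat_lit 4) (nat_lit 10) L53178 (by decide +kernel)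
theorem L53180 : W_8 (nat_lit 4) (nat_lit 0x1000100008002c0013401200080000000000000000000000000000000) (nat_lit 0x0) (nat_lit 0x10000e000600000001000000000000000000000000000000000000000000000000) := T_8 (nat_lit 225) (nat_lit 241) (nat_lit 5) (nat_lit 4) (nat_lit 10) L53179 (by decide +kernel)
theorem L53181 : W_8 (nat_lit 5) (nat_lit 0x100008002c0013401200080000000000000000000000000000000) (nat_lit 0x0) (nat_lit 0x10000e000700008001000000000000000000000000000000000000000000000000) := T_8 (nat_lit 224) (nat_lit 207) (nat_lit 5) (nat_lit 4) (nat_lit 9) L53180 (by decide +kernel)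
theorem L53182 : W_8 (nat_lit 6) (nat_lit 0x100008002c0013001200080000000000000000000000000000000) (nat_lit 0x0) (nat_lit 0x10000e000700008001000000000c00000000000000000000000000000000000000) := T_8 (nat_lit 154) (nat_lit 155) (nat_lit 3) (nat_lit 1) (nat_lit 9) L53181 (by decide +kernel)
theorem L53183 : W_8 (nat_lit 7) (nat_lit 0x100008002c0012001200080000000000000000000000000000000) (nat_lit 0x0) (nat_lit 0x10000e000700008001000000001c00080000000000000000000000000000000000) := T_8 (nat_lit 156) (nat_lit 139) (nat_lit 4) (nat_lit 4) (nat_lit 12) L53182 (by decide +kernel)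
theorem L53184 : W_8 (nat_lit 2) (nat_lit 0x3000100008002e0012001200080000000000000000000000000000000) (nat_lit 0x0) (nat_lit 0x4000000000001400000000000000000000000000000000000000000000000) := D_8 (nat_lit 242) (nat_lit 190) (nat_lit 192) (nat_lit 4) (nat_lit 4) (nat_lit 14) (nat_lit 6) (nat_lit 4) (nat_lit 14) (by decide +kernel)
theorem L53185 : W_8 (nat_lit 3) (nat_lit 0x3000100008002c0012001200080000000000000000000000000000000) (nat_lit 0x0) (nat_lit 0x4000000000001400020001000000000000000000000000000000000000000) := T_8 (nat_lit 173) (nat_lit 156) (nat_lit 4) (nat_lit 4) (nat_lit 13) L53184 (by decide +kernel)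
theorem L53186 : W_8 (nat_lit 4) (nat_lit 0x1000100008002c0012001200080000000000000000000000000000000) (nat_lit 0x0) (nat_lit 0x6000200000001400020001000000000000000000000000000000000000000) := T_8 (nat_lit 225) (nat_lit 241) (nat_lit 5) (nat_lit 4) (nat_lit 10) L53185 (by decide +kernel)
theorem L53187 : W_8 (nat_lit 5) (nat_lit 0x100008002c0012001200080000000000000000000000000000000) (nat_lit 0x0) (nat_lit 0x6000300008001400020001000000000000000000000000000000000000000) := T_8 (nat_lit 224) (nat_lit 207) (nat_lit 5) (nat_lit 4) (nat_lit 9) L53186 (by decide +kernel)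
theorem L53188 : W_8 (nat_lit 2) (nat_lit 0x80003000100008002c0012001200080000000000000000000000000000000) (nat_lit 0x0) (nat_lit 0x100004000000000001000000000000000000000000000000000000000000000000) := D_8 (nat_lit 242) (nat_lit 192) (nat_lit 260) (nat_lit 6) (nat_lit 4) (nat_lit 14) (nat_lit 7) (nat_lit 4) (nat_lit 11) (by decide +kernel)
theorem L53189 : W_8 (nat_lit 3) (nat_lit 0x3000100008002c0012001200080000000000000000000000000000000) (nat_lit 0x0) (nat_lit 0x10000c000400000001000000000000000000000000000000000000000000000000) := T_8 (nat_lit 243) (nat_lit 226) (nat_lit 7) (nat_lit 4) (nat_lit 10) L53188 (by decide +kernel)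
theorem L53190 : W_8 (nat_lit 4) (nat_lit 0x1000100008002c0012001200080000000000000000000000000000000) (nat_lit 0x0) (nat_lit 0x10000e000600000001000000000000000000000000000000000000000000000000) := T_8 (nat_lit 225) (nat_lit 241) (nat_lit 5) (nat_lit 4) (nat_lit 10) L53189 (by decide +kernel)
theorem L53191 : W_8 (nat_lit 5) (nat_lit 0x100008002c0012001200080000000000000000000000000000000) (nat_lit 0x0) (nat_lit 0x10000e000700008001000000000000000000000000000000000000000000000000) := T_8 (nat_lit 224) (nat_lit 207) (nat_lit 5) (nat_lit 4) (nat_lit 9) L53190 (by decide +kernel)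
theorem L53192 : W_8 (nat_lit 2) (nat_lit 0x40003000100008002c0013001200080000000000000000000000000000000) (nat_lit 0x0) (nat_lit 0x100008000400000000000000000000000000000000000000000000000000000000) := D_8 (nat_lit 243) (nat_lit 260) (nat_lit 226) (nat_lit 7) (nat_lit 4) (nat_lit 11) (nat_lit 7) (nat_lit 4) (nat_lit 10) (by decide +kernel)
theorem L53193 : W_8 (nat_lit 3) (nat_lit 0x3000100008002c0013001200080000000000000000000000000000000) (nat_lit 0x0) (nat_lit 0x10000c000400000001000000000000000000000000000000000000000000000000) := T_8 (nat_lit 242) (nat_lit 192) (nat_lit 6) (nat_lit 4) (nat_lit 14) L53192 (by decide +kernel)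
theorem L53194 : W_8 (nat_lit 4) (nat_lit 0x2000100008002c0013001200080000000000000000000000000000000) (nat_lit 0x0) (nat_lit 0x10000e000500000001000000000000000000000000000000000000000000000000) := T_8 (nat_lit 224) (nat_lit 241) (nat_lit 5) (nat_lit 4) (nat_lit 10) L53193 (by decide +kernel)
theorem L53195 : W_8 (nat_lit 5) (nat_lit 0x100008002c0013001200080000000000000000000000000000000) (nat_lit 0x0) (nat_lit 0x10000e000700000001000020000000000000000000000000000000000000000000) := T_8 (nat_lit 225) (nat_lit 173) (nat_lit 4) (nat_lit 4) (nat_lit 13) L53194 (by decide +kernel)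
theorem L53196 : W_8 (nat_lit 6) (nat_lit 0x100008002c0012001200080000000000000000000000000000000) (nat_lit 0x0) (nat_lit 0x10000e000700000001000020001000080000000000000000000000000000000000) := T_8 (nat_lit 156) (nat_lit 139) (nat_lit 4) (nat_lit 4) (nat_lit 12) L53195 (by decide +kernel)
theorem L53197 : W_8 (nat_lit 2) (nat_lit 0x40002000100008002c0013401200080000000000000000000000000000000) (nat_lit 0x0) (nat_lit 0x100008000400000000000000000000000000000000000000000000000000000000) := D_8 (nat_lit 243) (nat_lit 260) (nat_lit 226) (nat_lit 7) (nat_lit 4) (nat_lit 11) (nat_lit 7) (nat_lit 4) (nat_lit 10) (by decide +kernel)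
theorem L53198 : W_8 (nat_lit 3) (nat_lit 0x2000100008002c0013401200080000000000000000000000000000000) (nat_lit 0x0) (nat_lit 0x10000c000400000001000000000000000000000000000000000000000000000000) := T_8 (nat_lit 242) (nat_lit 192) (nat_lit 6) (nat_lit 4) (nat_lit 14) L53197 (by decide +kernel)
theorem L53199 : W_8 (nat_lit 4) (nat_lit 0x2000100008002c0013001200080000000000000000000000000000000) (nat_lit 0x0) (nat_lit 0x10000c000400000001000000000c00000000000000000000000000000000000000) := T_8 (nat_lit 154) (nat_lit 155) (nat_lit 3) (nat_lit 1) (nat_lit 9) L53198 (by decide +kernel)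
theorem L53200 : W_8 (nat_lit 5) (nat_lit 0x100008002c0013001200080000000000000000000000000000000) (nat_lit 0x0) (nat_lit 0x10000c000600000001000020000c00000000000000000000000000000000000000) := T_8 (nat_lit 225) (nat_lit 173) (nat_lit 4) (nat_lit 4) (nat_lit 13) L53199 (by decide +kernel)
theorem L53201 : W_8 (nat_lit 6) (nat_lit 0x100008002c0012001200080000000000000000000000000000000) (nat_lit 0x0) (nat_lit 0x10000c000600000001000020001c00080000000000000000000000000000000000) := T_8 (nat_lit 156) (nat_lit 139) (nat_lit 4) (nat_lit 4) (nat_lit 12) L53200 (by decide +kernel)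
theorem L53202 : W_8 (nat_lit 12) (nat_lit 0x8002c0012001200080000000000000000000000000000000) (nat_lit 0x0) (nat_lit 0x10000e0007c001f00378003c001e000e0007000380010000000000000000000000) := Q_8 (nat_lit 208) (C_8 L53177 (C_8 L52990 (C_8 L53183 (C_8 L53187 (C_8 L53191 (C_8 L53196 (C_8 L53201 N_8))))))) (by decide +kernel)
theorem L53203 : W_8 (nat_lit 2) (nat_lit 0x8002c0012001300088000000000000000000000000000000) (nat_lit 0x0) (nat_lit 0x8000400020000000000000000000000000000000000000000000) := D_8 (nat_lit 190) (nat_lit 207) (nat_lit 173) (nat_lit 5) (nat_lit 4) (nat_lit 8) (nat_lit 5) (nat_lit 4) (nat_lit 7) (by decide +kernel)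
theorem L53204 : W_8 (nat_lit 3) (nat_lit 0x8002c0012001300080000000000000000000000000000000) (nat_lit 0x0) (nat_lit 0x8001400020000000000008000000000000000000000000000000) := T_8 (nat_lit 123) (nat_lit 192) (nat_lit 7) (nat_lit 4) (nat_lit 7) L53203 (by decide +kernel)
theorem L53205 : W_8 (nat_lit 4) (nat_lit 0x8002c0012001200080000000000000000000000000000000) (nat_lit 0x0) (nat_lit 0x8001400020000000100018000000000000000000000000000000) := T_8 (nat_lit 140) (nat_lit 124) (nat_lit 6) (nat_lit 4) (nat_lit 11) L53204 (by decide +kernel)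
theorem L53206 : W_8 (nat_lit 13) (nat_lit 0x8002c0010001200080000000000000000000000000000000) (nat_lit 0x0) (nat_lit 0x10000e0007c001f00378003c003e001e001f000380010000000000000000000000) := Q_8 (nat_lit 157) (C_8 L53202 (C_8 L53023 (C_8 L53019 (C_8 L53205 N_8)))) (by decide +kernel)
theorem L53207 : W_8 (nat_lit 2) (nat_lit 0xbc004c002e0013801200080000000000000000000000000000000) (nat_lit 0x0) (nat_lit 0x3001000000000000000000000000000000000000000000000000) := D_8 (nat_lit 205) (nat_lit 192) (nat_lit 204) (nat_lit 2) (nat_lit 1) (nat_lit 12) (nat_lit 2) (nat_lit 0) (nat_lit 12) (by decide +kernel)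
theorem L53208 : W_8 (nat_lit 3) (nat_lit 0xb8004c002e0013801200080000000000000000000000000000000) (nat_lit 0x0) (nat_lit 0x80007001000000000000000000000000000000000000000000000000) := T_8 (nat_lit 206) (nat_lit 223) (nat_lit 5) (nat_lit 3) (nat_lit 9) L53207 (by decide +kernel)
theorem L53209 : W_8 (nat_lit 4) (nat_lit 0xb8004c002c0013801200080000000000000000000000000000000) (nat_lit 0x0) (nat_lit 0x80007001000020000000040000000000000000000000000000000000) := T_8 (nat_lit 173) (nat_lit 138) (nat_lit 4) (nat_lit 3) (nat_lit 12) L53208 (by decide +kernel)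
theorem L53210 : W_8 (nat_lit 5) (nat_lit 0xb8000c002c0013801200080000000000000000000000000000000) (nat_lit 0x0) (nat_lit 0x80007005000020020000040000000000000000000000000000000000) := T_8 (nat_lit 194) (nat_lit 161) (nat_lit 6) (nat_lit 7) (nat_lit 12) L53209 (by decide +kernel)
theorem L53211 : W_8 (nat_lit 6) (nat_lit 0xb0000c002c0013801200080000000000000000000000000000000) (nat_lit 0x0) (nat_lit 0x18000f005000020020000040000000000000000000000000000000000) := T_8 (nat_lit 207) (nat_lit 224) (nat_lit 5) (nat_lit 4) (nat_lit 9) L53210 (by decide +kernel)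
theorem L53212 : W_8 (nat_lit 7) (nat_lit 0x30000c002c0013801200080000000000000000000000000000000) (nat_lit 0x0) (nat_lit 0x1800cf005000020020000040000000000000000000000000000000000) := T_8 (nat_lit 211) (nat_lit 210) (nat_lit 0) (nat_lit 7) (nat_lit 12) L53211 (by decide +kernel)
theorem L53213 : W_8 (nat_lit 8) (nat_lit 0x10000c002c0013801200080000000000000000000000000000000) (nat_lit 0x0) (nat_lit 0x5800ef005000020020000040000000000000000000000000000000000) := T_8 (nat_lit 209) (nat_lit 226) (nat_lit 7) (nat_lit 4) (nat_lit 9) L53212 (by decide +kernel)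
theorem L53214 : W_8 (nat_lit 9) (nat_lit 0x10000c002c0013001200080000000000000000000000000000000) (nat_lit 0x0) (nat_lit 0x5800ef005000020020c00040000000000000000000000000000000000) := T_8 (nat_lit 155) (nat_lit 154) (nat_lit 3) (nat_lit 1) (nat_lit 9) L53213 (by decide +kernel)
theorem L53215 : W_8 (nat_lit 10) (nat_lit 0x10000c002c0012001200080000000000000000000000000000000) (nat_lit 0x0) (nat_lit 0x5800ef005000020021c000c0000000000000000000000000000000000) := T_8 (nat_lit 156) (nat_lit 139) (nat_lit 4) (nat_lit 4) (nat_lit 12) L53214 (by decide +kernel)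
theorem L53216 : W_8 (nat_lit 11) (nat_lit 0x100008002c0012001200080000000000000000000000000000000) (nat_lit 0x0) (nat_lit 0x5800ef005780020021c000c0000000000000000000000000000000000) := Q_8 (nat_lit 190) (C_8 L52968 (C_8 L52963 (C_8 L52948 (C_8 L53215 N_8)))) (by decide +kernel)
theorem L53217 : W_8 (nat_lit 12) (nat_lit 0x8002c0012001200080000000000000000000000000000000) (nat_lit 0x0) (nat_lit 0x10000e0007800ff005780020021c000c0000000000000000000000000000000000) := Q_8 (nat_lit 208) (C_8 L53201 (C_8 L53013 (C_8 L53187 (C_8 L53191 (C_8 L53216 N_8))))) (by decide +kernel)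
theorem L53218 : W_8 (nat_lit 13) (nat_lit 0x8002c0010001200080000000000000000000000000000000) (nat_lit 0x0) (nat_lit 0x10000e0007800ff005780020023c001c001c000200000000000000000000000000) := Q_8 (nat_lit 157) (C_8 L53205 (C_8 L53023 (C_8 L53217 (C_8 L53019 N_8)))) (by decide +kernel)
theorem L53219 : W_8 (nat_lit 2) (nat_lit 0x18000b002c0012001200080000000000000000000000000000000) (nat_lit 0x0) (nat_lit 0x400024000000000000000000000000000000000000000000000000000) := D_8 (nat_lit 209) (nat_lit 206) (nat_lit 226) (nat_lit 0) (nat_lit 5) (nat_lit 12) (nat_lit 7) (nat_lit 4) (nat_lit 9) (by decide +kernel)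
theorem L53220 : W_8 (nat_lit 3) (nat_lit 0x18000a002c0012001200080000000000000000000000000000000) (nat_lit 0x0) (nat_lit 0x400024000500000000000000000000000000000000000000000000000) := T_8 (nat_lit 188) (nat_lit 190) (nat_lit 2) (nat_lit 1) (nat_lit 11) L53219 (by decide +kernel)
theorem L53221 : W_8 (nat_lit 4) (nat_lit 0x10000a002c0012001200080000000000000000000000000000000) (nat_lit 0x0) (nat_lit 0x50002c000500000000000000000000000000000000000000000000000) := T_8 (nat_lit 207) (nat_lit 224) (nat_lit 5) (nat_lit 4) (nat_lit 9) L53220 (by decide +kernel)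
theorem L53222 : W_8 (nat_lit 2) (nat_lit 0x18000b002d0013801240082000000000000000000000000000000) (nat_lit 0x0) (nat_lit 0x20001000080000000000000000000000000) := D_8 (nat_lit 120) (nat_lit 137) (nat_lit 103) (nat_lit 4) (nat_lit 2) (nat_lit 11) (nat_lit 4) (nat_lit 2) (nat_lit 10) (by decide +kernel)
theorem L53223 : W_8 (nat_lit 3) (nat_lit 0x18000b002d0013801240080000000000000000000000000000000) (nat_lit 0x0) (nat_lit 0x8000000020003000080000000000000000000000000) := T_8 (nat_lit 121) (nat_lit 171) (nat_lit 5) (nat_lit 2) (nat_lit 7) L53222 (by decide +kernel)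
theorem L53224 : W_8 (nat_lit 4) (nat_lit 0x18000b002d0013801200080000000000000000000000000000000) (nat_lit 0x0) (nat_lit 0x2000000008000000060003000080000000000000000000000000) := T_8 (nat_lit 138) (nat_lit 205) (nat_lit 5) (nat_lit 2) (nat_lit 8) L53223 (by decide +kernel)
theorem L53225 : W_8 (nat_lit 5) (nat_lit 0x18000b002d0013001200080000000000000000000000000000000) (nat_lit 0x0) (nat_lit 0x2000000008000c00060003000080000000000000000000000000) := T_8 (nat_lit 155) (nat_lit 154) (nat_lit 3) (nat_lit 1) (nat_lit 9) L53224 (by decide +kernel)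
theorem L53226 : W_8 (nat_lit 6) (nat_lit 0x18000b002d0012001200080000000000000000000000000000000) (nat_lit 0x0) (nat_lit 0x2000000008001c000e0003000080000000000000000000000000) := T_8 (nat_lit 156) (nat_lit 139) (nat_lit 4) (nat_lit 4) (nat_lit 12) L53225 (by decide +kernel)
theorem L53227 : W_8 (nat_lit 7) (nat_lit 0x18000b002c0012001200080000000000000000000000000000000) (nat_lit 0x0) (nat_lit 0x2000000038001c000e0003000080000000000000000000000000) := T_8 (nat_lit 172) (nat_lit 173) (nat_lit 1) (nat_lit 5) (nat_lit 10) L53226 (by decide +kernel)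
theorem L53228 : W_8 (nat_lit 8) (nat_lit 0x18000a002c0012001200080000000000000000000000000000000) (nat_lit 0x0) (nat_lit 0x2000500038001c000e0003000080000000000000000000000000) := T_8 (nat_lit 188) (nat_lit 190) (nat_lit 2) (nat_lit 1) (nat_lit 11) L53227 (by decide +kernel)
theorem L53229 : W_8 (nat_lit 9) (nat_lit 0x10000a002c0012001200080000000000000000000000000000000) (nat_lit 0x0) (nat_lit 0x10000a000500038001c000e0003000080000000000000000000000000) := T_8 (nat_lit 207) (nat_lit 224) (nat_lit 5) (nat_lit 4) (nat_lit 9) L53228 (by decide +kernel)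
theorem L53230 : W_8 (nat_lit 2) (nat_lit 0x8003c000a002c0013401200080000000000000000000000000000000) (nat_lit 0x0) (nat_lit 0x38000000000000000000000000000000000000000000) := D_8 (nat_lit 172) (nat_lit 171) (nat_lit 173) (nat_lit 4) (nat_lit 2) (nat_lit 13) (nat_lit 6) (nat_lit 2) (nat_lit 13) (by decide +kernel)
theorem L53231 : W_8 (nat_lit 3) (nat_lit 0x3c000a002c0013401200080000000000000000000000000000000) (nat_lit 0x0) (nat_lit 0xc0000000000038000000000000000000000000000000000000000000) := T_8 (nat_lit 223) (nat_lit 222) (nat_lit 1) (nat_lit 5) (nat_lit 12) L53230 (by decide +kernel)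
theorem L53232 : W_8 (nat_lit 4) (nat_lit 0x38000a002c0013401200080000000000000000000000000000000) (nat_lit 0x0) (nat_lit 0xc0004000100038000000000000000000000000000000000000000000) := T_8 (nat_lit 206) (nat_lit 188) (nat_lit 0) (nat_lit 5) (nat_lit 12) L53231 (by decide +kernel)
theorem L53233 : W_8 (nat_lit 5) (nat_lit 0x18000a002c0013401200080000000000000000000000000000000) (nat_lit 0x0) (nat_lit 0x4c0024000100038000000000000000000000000000000000000000000) := T_8 (nat_lit 209) (nat_lit 226) (nat_lit 7) (nat_lit 4) (nat_lit 9) L53232 (by decide +kernel)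
theorem L53234 : W_8 (nat_lit 6) (nat_lit 0x10000a002c0013401200080000000000000000000000000000000) (nat_lit 0x0) (nat_lit 0x5c002c000100038000000000000000000000000000000000000000000) := T_8 (nat_lit 207) (nat_lit 224) (nat_lit 5) (nat_lit 4) (nat_lit 9) L53233 (by decide +kernel)
theorem L53235 : W_8 (nat_lit 7) (nat_lit 0x10000a002c0013001200080000000000000000000000000000000) (nat_lit 0x0) (nat_lit 0x5c002c000100038000c00000000000000000000000000000000000000) := T_8 (nat_lit 154) (nat_lit 155) (nat_lit 3) (nat_lit 1) (nat_lit 9) L53234 (by decide +kernel)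
theorem L53236 : W_8 (nat_lit 8) (nat_lit 0x10000a002c0012001200080000000000000000000000000000000) (nat_lit 0x0) (nat_lit 0x5c002c000100038001c00080000000000000000000000000000000000) := T_8 (nat_lit 156) (nat_lit 139) (nat_lit 4) (nat_lit 4) (nat_lit 12) L53235 (by decide +kernel)
theorem L53237 : W_8 (nat_lit 2) (nat_lit 0x30000b002d0013801240082000000000000000000000000000000) (nat_lit 0x0) (nat_lit 0x20001000080000000000000000000000000) := D_8 (nat_lit 120) (nat_lit 137) (nat_lit 103) (nat_lit 4) (nat_lit 2) (nat_lit 11) (nat_lit 4) (nat_lit 2) (nat_lit 10) (by decide +kernel)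
theorem L53238 : W_8 (nat_lit 3) (nat_lit 0x30000b002d0013801240080000000000000000000000000000000) (nat_lit 0x0) (nat_lit 0x8000000020003000080000000000000000000000000) := T_8 (nat_lit 121) (nat_lit 171) (nat_lit 5) (nat_lit 2) (nat_lit 7) L53237 (by decide +kernel)
theorem L53239 : W_8 (nat_lit 4) (nat_lit 0x30000b002d0013801200080000000000000000000000000000000) (nat_lit 0x0) (nat_lit 0x2000000008000000060003000080000000000000000000000000) := T_8 (nat_lit 138) (nat_lit 205) (nat_lit 5) (nat_lit 2) (nat_lit 8) L53238 (by decide +kernel)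
theorem L53240 : W_8 (nat_lit 5) (nat_lit 0x30000b002d0013001200080000000000000000000000000000000) (nat_lit 0x0) (nat_lit 0x2000000008000c00060003000080000000000000000000000000) := T_8 (nat_lit 155) (nat_lit 154) (nat_lit 3) (nat_lit 1) (nat_lit 9) L53239 (by decide +kernel)
theorem L53241 : W_8 (nat_lit 6) (nat_lit 0x30000b002d0012001200080000000000000000000000000000000) (nat_lit 0x0) (nat_lit 0x2000000008001c000e0003000080000000000000000000000000) := T_8 (nat_lit 156) (nat_lit 139) (nat_lit 4) (nat_lit 4) (nat_lit 12) L53240 (by decide +kernel)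
theorem L53242 : W_8 (nat_lit 7) (nat_lit 0x30000b002c0012001200080000000000000000000000000000000) (nat_lit 0x0) (nat_lit 0x2000000038001c000e0003000080000000000000000000000000) := T_8 (nat_lit 172) (nat_lit 173) (nat_lit 1) (nat_lit 5) (nat_lit 10) L53241 (by decide +kernel)
theorem L53243 : W_8 (nat_lit 8) (nat_lit 0x30000a002c0012001200080000000000000000000000000000000) (nat_lit 0x0) (nat_lit 0x2000500038001c000e0003000080000000000000000000000000) := T_8 (nat_lit 188) (nat_lit 190) (nat_lit 3) (nat_lit 1) (nat_lit 11) L53242 (by decide +kernel)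
theorem L53244 : W_8 (nat_lit 9) (nat_lit 0x10000a002c0012001200080000000000000000000000000000000) (nat_lit 0x0) (nat_lit 0x400022000500038001c000e0003000080000000000000000000000000) := T_8 (nat_lit 209) (nat_lit 226) (nat_lit 7) (nat_lit 4) (nat_lit 9) L53243 (by decide +kernel)
theorem L53245 : W_8 (nat_lit 2) (nat_lit 0x78004a002c0013401200080000000000000000000000000000000) (nat_lit 0x0) (nat_lit 0x1800080000000000000000000000000000000000000000000000000000) := D_8 (nat_lit 227) (nat_lit 228) (nat_lit 211) (nat_lit 3) (nat_lit 3) (nat_lit 12) (nat_lit 5) (nat_lit 7) (nat_lit 9) (by decide +kernel)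
theorem L53246 : W_8 (nat_lit 3) (nat_lit 0x78000a002c0013401200080000000000000000000000000000000) (nat_lit 0x0) (nat_lit 0x1800080006000000000000000000000000000000000000000000000000) := T_8 (nat_lit 194) (nat_lit 193) (nat_lit 2) (nat_lit 3) (nat_lit 12) L53245 (by decide +kernel)
theorem L53247 : W_8 (nat_lit 4) (nat_lit 0x38000a002c0013401200080000000000000000000000000000000) (nat_lit 0x0) (nat_lit 0x18000c0006400000000000000000000000000000000000000000000000) := T_8 (nat_lit 210) (nat_lit 190) (nat_lit 0) (nat_lit 6) (nat_lit 12) L53246 (by decide +kernel)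
theorem L53248 : W_8 (nat_lit 5) (nat_lit 0x30000a002c0013401200080000000000000000000000000000000) (nat_lit 0x0) (nat_lit 0x19000c8006400000000000000000000000000000000000000000000000) := T_8 (nat_lit 207) (nat_lit 224) (nat_lit 5) (nat_lit 4) (nat_lit 9) L53247 (by decide +kernel)
theorem L53249 : W_8 (nat_lit 6) (nat_lit 0x10000a002c0013401200080000000000000000000000000000000) (nat_lit 0x0) (nat_lit 0x1d000e8006400000000000000000000000000000000000000000000000) := T_8 (nat_lit 209) (nat_lit 226) (nat_lit 7) (nat_lit 4) (nat_lit 9) L53248 (by decide +kernel)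
theorem L53250 : W_8 (nat_lit 7) (nat_lit 0x10000a002c0013001200080000000000000000000000000000000) (nat_lit 0x0) (nat_lit 0x1d000e8006400000000c00000000000000000000000000000000000000) := T_8 (nat_lit 154) (nat_lit 155) (nat_lit 3) (nat_lit 1) (nat_lit 9) L53249 (by decide +kernel)
theorem L53251 : W_8 (nat_lit 8) (nat_lit 0x10000a002c0012001200080000000000000000000000000000000) (nat_lit 0x0) (nat_lit 0x1d000e8006400000001c00080000000000000000000000000000000000) := T_8 (nat_lit 156) (nat_lit 139) (nat_lit 4) (nat_lit 4) (nat_lit 12) L53250 (by decide +kernel)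
theorem L53252 : W_8 (nat_lit 10) (nat_lit 0x100008002c0012001200080000000000000000000000000000000) (nat_lit 0x0) (nat_lit 0x1dc00ee006700038001c000e0003000080000000000000000000000000) := Q_8 (nat_lit 189) (C_8 L53221 (C_8 L53229 (C_8 L53236 (C_8 L53244 (C_8 L53251 N_8))))) (by decide +kernel)
theorem L53253 : W_8 (nat_lit 2) (nat_lit 0x5000100008002c0012001200080000000000000000000000000000000) (nat_lit 0x0) (nat_lit 0xa000200000000000000000000000000000000000000000000000000000000) := D_8 (nat_lit 225) (nat_lit 241) (nat_lit 243) (nat_lit 5) (nat_lit 4) (nat_lit 10) (nat_lit 7) (nat_lit 4) (nat_lit 10) (by decide +kernel)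
theorem L53254 : W_8 (nat_lit 3) (nat_lit 0x1000100008002c0012001200080000000000000000000000000000000) (nat_lit 0x0) (nat_lit 0xa000600020000000000000000000000000000000000000000000000000000) := T_8 (nat_lit 226) (nat_lit 209) (nat_lit 7) (nat_lit 4) (nat_lit 9) L53253 (by decide +kernel)
theorem L53255 : W_8 (nat_lit 4) (nat_lit 0x100008002c0012001200080000000000000000000000000000000) (nat_lit 0x0) (nat_lit 0xa000700028000000000000000000000000000000000000000000000000000) := T_8 (nat_lit 224) (nat_lit 207) (nat_lit 5) (nat_lit 4) (nat_lit 9) L53254 (by decide +kernel)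
theorem L53256 : W_8 (nat_lit 11) (nat_lit 0x8002c0012001200080000000000000000000000000000000) (nat_lit 0x0) (nat_lit 0xa001fc00fe006700038001c000e0003000080000000000000000000000000) := Q_8 (nat_lit 208) (C_8 L53252 (C_8 L53013 (C_8 L52990 (C_8 L53255 N_8)))) (by decide +kernel)
theorem L53257 : W_8 (nat_lit 2) (nat_lit 0xe002e00134013c0080000000000000000000000000000000) (nat_lit 0x0) (nat_lit 0x200030000000000000000000000000000000000) := D_8 (nat_lit 137) (nat_lit 136) (nat_lit 153) (nat_lit 3) (nat_lit 0) (nat_lit 8) (nat_lit 1) (nat_lit 4) (nat_lit 8) (by decide +kernel)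
theorem L53258 : W_8 (nat_lit 3) (nat_lit 0xe002e0013401380080000000000000000000000000000000) (nat_lit 0x0) (nat_lit 0x200070002000000000000000000000000000000) := T_8 (nat_lit 138) (nat_lit 121) (nat_lit 4) (nat_lit 3) (nat_lit 11) L53257 (by decide +kernel)
theorem L53259 : W_8 (nat_lit 4) (nat_lit 0xe002e0013001380080000000000000000000000000000000) (nat_lit 0x0) (nat_lit 0xe00070002000000000000000000000000000000) := T_8 (nat_lit 154) (nat_lit 155) (nat_lit 3) (nat_lit 1) (nat_lit 9) L53258 (by decide +kernel)
theorem L53260 : W_8 (nat_lit 5) (nat_lit 0xe002e0012001380080000000000000000000000000000000) (nat_lit 0x0) (nat_lit 0x4000000000001e00070002000000000000000000000000000000) := T_8 (nat_lit 156) (nat_lit 206) (nat_lit 5) (nat_lit 3) (nat_lit 8) L53259 (by decide +kernel)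
theorem L53261 : W_8 (nat_lit 6) (nat_lit 0xe002c0012001380080000000000000000000000000000000) (nat_lit 0x0) (nat_lit 0x4000000020001e0007000a000000000000000000000000000000) := T_8 (nat_lit 173) (nat_lit 123) (nat_lit 5) (nat_lit 4) (nat_lit 7) L53260 (by decide +kernel)
theorem L53262 : W_8 (nat_lit 7) (nat_lit 0xc002c0012001380080000000000000000000000000000000) (nat_lit 0x0) (nat_lit 0x4000300020001e0007000a000000000000000000000000000000) := T_8 (nat_lit 189) (nat_lit 188) (nat_lit 2) (nat_lit 1) (nat_lit 11) L53261 (by decide +kernel)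
theorem L53263 : W_8 (nat_lit 8) (nat_lit 0x8002c0012001380080000000000000000000000000000000) (nat_lit 0x0) (nat_lit 0xc000700020001e0007000a000000000000000000000000000000) := T_8 (nat_lit 190) (nat_lit 207) (nat_lit 5) (nat_lit 4) (nat_lit 8) L53262 (by decide +kernel)
theorem L53264 : W_8 (nat_lit 9) (nat_lit 0x8002c0012001300080000000000000000000000000000000) (nat_lit 0x0) (nat_lit 0xc000700020001e000f000e000000000000000000000000000000) := T_8 (nat_lit 139) (nat_lit 122) (nat_lit 4) (nat_lit 4) (nat_lit 11) L53263 (by decide +kernel)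
theorem L53265 : W_8 (nat_lit 10) (nat_lit 0x8002c0012001200080000000000000000000000000000000) (nat_lit 0x0) (nat_lit 0xc000700020001e001f001e000000000000000000000000000000) := T_8 (nat_lit 140) (nat_lit 124) (nat_lit 6) (nat_lit 4) (nat_lit 11) L53264 (by decide +kernel)
theorem L53266 : W_8 (nat_lit 2) (nat_lit 0x5000100008002c0012001380080000000000000000000000000000000) (nat_lit 0x0) (nat_lit 0xa000200000000000000000000000000000000000000000000000000000000) := D_8 (nat_lit 225) (nat_lit 241) (nat_lit 243) (nat_lit 5) (nat_lit 4) (nat_lit 10) (nat_lit 7) (nat_lit 4) (nat_lit 10) (by decide +kernel)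
theorem L53267 : W_8 (nat_lit 3) (nat_lit 0x1000100008002c0012001380080000000000000000000000000000000) (nat_lit 0x0) (nat_lit 0xa000600020000000000000000000000000000000000000000000000000000) := T_8 (nat_lit 226) (nat_lit 209) (nat_lit 7) (nat_lit 4) (nat_lit 9) L53266 (by decide +kernel)
theorem L53268 : W_8 (nat_lit 4) (nat_lit 0x100008002c0012001380080000000000000000000000000000000) (nat_lit 0x0) (nat_lit 0xa000700028000000000000000000000000000000000000000000000000000) := T_8 (nat_lit 224) (nat_lit 207) (nat_lit 5) (nat_lit 4) (nat_lit 9) L53267 (by decide +kernel)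
theorem L53269 : W_8 (nat_lit 5) (nat_lit 0x8002c0012001380080000000000000000000000000000000) (nat_lit 0x0) (nat_lit 0xa000700038000000000001000000000000000000000000000000000000000) := T_8 (nat_lit 208) (nat_lit 156) (nat_lit 4) (nat_lit 4) (nat_lit 12) L53268 (by decide +kernel)
theorem L53270 : W_8 (nat_lit 6) (nat_lit 0x8002c0012001300080000000000000000000000000000000) (nat_lit 0x0) (nat_lit 0xa000700038000000000001000080004000000000000000000000000000000) := T_8 (nat_lit 139) (nat_lit 122) (nat_lit 4) (nat_lit 4) (nat_lit 11) L53269 (by decide +kernel)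
theorem L53271 : W_8 (nat_lit 7) (nat_lit 0x8002c0012001200080000000000000000000000000000000) (nat_lit 0x0) (nat_lit 0xa000700038000000000001000180014000000000000000000000000000000) := T_8 (nat_lit 140) (nat_lit 124) (nat_lit 6) (nat_lit 4) (nat_lit 11) L53270 (by decide +kernel)
theorem L53272 : W_8 (nat_lit 2) (nat_lit 0x100008002c0012001300080000000000000000000000000000000) (nat_lit 0x0) (nat_lit 0x100008000400000000000000000000000000000000000000000000000) := D_8 (nat_lit 207) (nat_lit 190) (nat_lit 224) (nat_lit 5) (nat_lit 4) (nat_lit 8) (nat_lit 5) (nat_lit 4) (nat_lit 9) (by decide +kernel)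
theorem L53273 : W_8 (nat_lit 3) (nat_lit 0x100008002c0012001200080000000000000000000000000000000) (nat_lit 0x0) (nat_lit 0x100008000400000000000100010000000000000000000000000000000) := T_8 (nat_lit 140) (nat_lit 124) (nat_lit 6) (nat_lit 4) (nat_lit 11) L53272 (by decide +kernel)
theorem L53274 : W_8 (nat_lit 2) (nat_lit 0x6000100008002e0012001300080000000000000000000000000000000) (nat_lit 0x0) (nat_lit 0x4000000000000400000000000000008000000000000000000000000000000) := D_8 (nat_lit 190) (nat_lit 242) (nat_lit 123) (nat_lit 4) (nat_lit 4) (nat_lit 14) (nat_lit 5) (nat_lit 4) (nat_lit 7) (by decide +kernel)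
theorem L53275 : W_8 (nat_lit 3) (nat_lit 0x6000100008002c0012001300080000000000000000000000000000000) (nat_lit 0x0) (nat_lit 0x4000000000000400020001000000008000000000000000000000000000000) := T_8 (nat_lit 173) (nat_lit 156) (nat_lit 4) (nat_lit 4) (nat_lit 13) L53274 (by decide +kernel)
theorem L53276 : W_8 (nat_lit 4) (nat_lit 0x4000100008002c0012001300080000000000000000000000000000000) (nat_lit 0x0) (nat_lit 0xc000200000000400020001000000008000000000000000000000000000000) := T_8 (nat_lit 225) (nat_lit 243) (nat_lit 7) (nat_lit 4) (nat_lit 10) L53275 (by decide +kernel)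
theorem L53277 : W_8 (nat_lit 5) (nat_lit 0x4000100008002c0012001200080000000000000000000000000000000) (nat_lit 0x0) (nat_lit 0xc000200000000400020001000100018000000000000000000000000000000) := T_8 (nat_lit 140) (nat_lit 124) (nat_lit 6) (nat_lit 4) (nat_lit 11) L53276 (by decide +kernel)
theorem L53278 : W_8 (nat_lit 6) (nat_lit 0x100008002c0012001200080000000000000000000000000000000) (nat_lit 0x0) (nat_lit 0xc000600020000400020001000100018000000000000000000000000000000) := T_8 (nat_lit 226) (nat_lit 209) (nat_lit 7) (nat_lit 4) (nat_lit 9) L53277 (by decide +kernel)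
theorem L53279 : W_8 (nat_lit 7) (nat_lit 0x8002c0012001200080000000000000000000000000000000) (nat_lit 0x0) (nat_lit 0xe000700038000400020001000100018000000000000000000000000000000) := Q_8 (nat_lit 208) (C_8 L53255 (C_8 L53273 (C_8 L53278 N_8))) (by decide +kernel)
theorem L53280 : W_8 (nat_lit 2) (nat_lit 0xc002c0012001300084000000000000000000000000000000) (nat_lit 0x0) (nat_lit 0x20000000000008000200000000000000000000000000) := D_8 (nat_lit 123) (nat_lit 105) (nat_lit 173) (nat_lit 4) (nat_lit 4) (nat_lit 10) (nat_lit 5) (nat_lit 4) (nat_lit 7) (by decide +kernel)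
theorem L53281 : W_8 (nat_lit 3) (nat_lit 0x8002c0012001300084000000000000000000000000000000) (nat_lit 0x0) (nat_lit 0x8000400020000000000008000200000000000000000000000000) := T_8 (nat_lit 190) (nat_lit 207) (nat_lit 5) (nat_lit 4) (nat_lit 8) L53280 (by decide +kernel)
theorem L53282 : W_8 (nat_lit 4) (nat_lit 0x8002c0012001300080000000000000000000000000000000) (nat_lit 0x0) (nat_lit 0x800040002000000008000c000200000000000000000000000000) := T_8 (nat_lit 122) (nat_lit 139) (nat_lit 4) (nat_lit 4) (nat_lit 11) L53281 (by decide +kernel)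
theorem L53283 : W_8 (nat_lit 5) (nat_lit 0x8002c0012001200080000000000000000000000000000000) (nat_lit 0x0) (nat_lit 0x800040002000000018001c000200000000000000000000000000) := T_8 (nat_lit 140) (nat_lit 124) (nat_lit 6) (nat_lit 4) (nat_lit 11) L53282 (by decide +kernel)
theorem L53284 : W_8 (nat_lit 2) (nat_lit 0xa0032000d00048002c0013001200080000000000000000000000000000000) (nat_lit 0x0) (nat_lit 0x140004000000000000000000000000000000000000000000000000000000000000) := D_8 (nat_lit 242) (nat_lit 258) (nat_lit 260) (nat_lit 5) (nat_lit 4) (nat_lit 11) (nat_lit 7) (nat_lit 4) (nat_lit 11) (by decide +kernel)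
theorem L53285 : W_8 (nat_lit 3) (nat_lit 0x20032000d00048002c0013001200080000000000000000000000000000000) (nat_lit 0x0) (nat_lit 0x14000c000400000000000000000000000000000000000000000000000000000000) := T_8 (nat_lit 243) (nat_lit 226) (nat_lit 7) (nat_lit 4) (nat_lit 10) L53284 (by decide +kernel)
theorem L53286 : W_8 (nat_lit 4) (nat_lit 0x32000d00048002c0013001200080000000000000000000000000000000) (nat_lit 0x0) (nat_lit 0x14000e000500000000000000000000000000000000000000000000000000000000) := T_8 (nat_lit 241) (nat_lit 224) (nat_lit 5) (nat_lit 4) (nat_lit 10) L53285 (by decide +kernel)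
theorem L53287 : W_8 (nat_lit 5) (nat_lit 0x30000d00048002c0013001200080000000000000000000000000000000) (nat_lit 0x0) (nat_lit 0x14000e000700000000000020000000000000000000000000000000000000000000) := T_8 (nat_lit 225) (nat_lit 173) (nat_lit 4) (nat_lit 4) (nat_lit 13) L53286 (by decide +kernel)
theorem L53288 : W_8 (nat_lit 2) (nat_lit 0x100008002c0012001300080000000000000000000000000000000) (nat_lit 0x0) (nat_lit 0x1000080004000000000000000000000000000000) := D_8 (nat_lit 139) (nat_lit 122) (nat_lit 156) (nat_lit 4) (nat_lit 4) (nat_lit 11) (nat_lit 4) (nat_lit 4) (nat_lit 12) (by decide +kernel)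
theorem L53289 : W_8 (nat_lit 3) (nat_lit 0x100008002c0012001200080000000000000000000000000000000) (nat_lit 0x0) (nat_lit 0x1000180014000000000000000000000000000000) := T_8 (nat_lit 140) (nat_lit 124) (nat_lit 6) (nat_lit 4) (nat_lit 11) L53288 (by decide +kernel)
theorem L53290 : W_8 (nat_lit 2) (nat_lit 0x40002000100008002c0012001200080000000000000000000000000000000) (nat_lit 0x0) (nat_lit 0x40002000100000000000000000000000000000000000000000000000000000000) := D_8 (nat_lit 241) (nat_lit 224) (nat_lit 258) (nat_lit 5) (nat_lit 4) (nat_lit 10) (nat_lit 5) (nat_lit 4) (nat_lit 11) (by decide +kernel)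
theorem L53291 : W_8 (nat_lit 2) (nat_lit 0x1d00048002c0012001380080000000000000000000000000000000) (nat_lit 0x0) (nat_lit 0x20008400000000000000000000000000000000000000000000000) := D_8 (nat_lit 209) (nat_lit 195) (nat_lit 190) (nat_lit 2) (nat_lit 4) (nat_lit 12) (nat_lit 0) (nat_lit 7) (nat_lit 12) (by decide +kernel)
theorem L53292 : W_8 (nat_lit 3) (nat_lit 0x1900048002c0012001380080000000000000000000000000000000) (nat_lit 0x0) (nat_lit 0x800060008400000000000000000000000000000000000000000000000) := T_8 (nat_lit 210) (nat_lit 227) (nat_lit 5) (nat_lit 7) (nat_lit 9) L53291 (by decide +kernel)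
theorem L53293 : W_8 (nat_lit 4) (nat_lit 0x900048002c0012001380080000000000000000000000000000000) (nat_lit 0x0) (nat_lit 0x2800160008400000000000000000000000000000000000000000000000) := T_8 (nat_lit 212) (nat_lit 229) (nat_lit 7) (nat_lit 7) (nat_lit 9) L53292 (by decide +kernel)
theorem L53294 : W_8 (nat_lit 5) (nat_lit 0x900008002c0012001380080000000000000000000000000000000) (nat_lit 0x0) (nat_lit 0x280016000c400000020000000000000000000000000000000000000000) := T_8 (nat_lit 194) (nat_lit 161) (nat_lit 6) (nat_lit 7) (nat_lit 12) L53293 (by decide +kernel)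
theorem L53295 : W_8 (nat_lit 6) (nat_lit 0x900008002c0012001300080000000000000000000000000000000) (nat_lit 0x0) (nat_lit 0x280016000c400000020000080004000000000000000000000000000000) := T_8 (nat_lit 139) (nat_lit 122) (nat_lit 4) (nat_lit 4) (nat_lit 11) L53294 (by decide +kernel)
theorem L53296 : W_8 (nat_lit 7) (nat_lit 0x900008002c0012001200080000000000000000000000000000000) (nat_lit 0x0) (nat_lit 0x280016000c400000020000180014000000000000000000000000000000) := T_8 (nat_lit 140) (nat_lit 124) (nat_lit 6) (nat_lit 4) (nat_lit 11) L53295 (by decide +kernel)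
theorem L53297 : W_8 (nat_lit 2) (nat_lit 0x3c000900048002c0012001200080000000000000000000000000000000) (nat_lit 0x0) (nat_lit 0xc000200000000000000000000000000000000000000000000000000000000) := D_8 (nat_lit 243) (nat_lit 242) (nat_lit 225) (nat_lit 1) (nat_lit 8) (nat_lit 13) (nat_lit 7) (nat_lit 4) (nat_lit 10) (by decide +kernel)
theorem L53298 : W_8 (nat_lit 3) (nat_lit 0x34000900048002c0012001200080000000000000000000000000000000) (nat_lit 0x0) (nat_lit 0x1c000a00000000000000000000000000000000000000000000000000000000) := T_8 (nat_lit 227) (nat_lit 244) (nat_lit 5) (nat_lit 7) (nat_lit 10) L53297 (by decide +kernel)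
theorem L53299 : W_8 (nat_lit 4) (nat_lit 0x24000900048002c0012001200080000000000000000000000000000000) (nat_lit 0x0) (nat_lit 0x5c001a00000000000000000000000000000000000000000000000000000000) := T_8 (nat_lit 228) (nat_lit 246) (nat_lit 7) (nat_lit 7) (nat_lit 10) L53298 (by decide +kernel)
theorem L53300 : W_8 (nat_lit 5) (nat_lit 0x20000900048002c0012001200080000000000000000000000000000000) (nat_lit 0x0) (nat_lit 0x5c001e00020000000000000000000000000000000000000000000000000000) := T_8 (nat_lit 226) (nat_lit 209) (nat_lit 7) (nat_lit 4) (nat_lit 9) L53299 (by decide +kernel)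
theorem L53301 : W_8 (nat_lit 6) (nat_lit 0x900048002c0012001200080000000000000000000000000000000) (nat_lit 0x0) (nat_lit 0x5c003e00120000000000000000000000000000000000000000000000000000) := T_8 (nat_lit 229) (nat_lit 212) (nat_lit 7) (nat_lit 7) (nat_lit 9) L53300 (by decide +kernel)
theorem L53302 : W_8 (nat_lit 7) (nat_lit 0x900008002c0012001200080000000000000000000000000000000) (nat_lit 0x0) (nat_lit 0x5c003e00120004000000020000000000000000000000000000000000000000) := T_8 (nat_lit 194) (nat_lit 161) (nat_lit 6) (nat_lit 7) (nat_lit 12) L53301 (by decide +kernel)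
theorem L53303 : W_8 (nat_lit 2) (nat_lit 0x28000900048002c0012001200080000000000000000000000000000000) (nat_lit 0x0) (nat_lit 0x50001000000000000000000000000000000000000000000000000000000000) := D_8 (nat_lit 228) (nat_lit 246) (nat_lit 244) (nat_lit 7) (nat_lit 7) (nat_lit 10) (nat_lit 5) (nat_lit 7) (nat_lit 10) (by decide +kernel)
theorem L53304 : W_8 (nat_lit 3) (nat_lit 0x20000900048002c0012001200080000000000000000000000000000000) (nat_lit 0x0) (nat_lit 0x50001800040000000000000000000000000000000000000000000000000000) := T_8 (nat_lit 227) (nat_lit 210) (nat_lit 5) (nat_lit 7) (nat_lit 9) L53303 (by decide +kernel)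
theorem L53305 : W_8 (nat_lit 4) (nat_lit 0x900048002c0012001200080000000000000000000000000000000) (nat_lit 0x0) (nat_lit 0x50003800140000000000000000000000000000000000000000000000000000) := T_8 (nat_lit 229) (nat_lit 212) (nat_lit 7) (nat_lit 7) (nat_lit 9) L53304 (by decide +kernel)
theorem L53306 : W_8 (nat_lit 5) (nat_lit 0x900008002c0012001200080000000000000000000000000000000) (nat_lit 0x0) (nat_lit 0x50003800140004000000020000000000000000000000000000000000000000) := T_8 (nat_lit 194) (nat_lit 161) (nat_lit 6) (nat_lit 7) (nat_lit 12) L53305 (by decide +kernel)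
theorem L53307 : W_8 (nat_lit 2) (nat_lit 0x20000f000900008002c0012001380080000000000000000000000000000000) (nat_lit 0x0) (nat_lit 0x40001000100000000000000000000000000000000000000000000000000000) := D_8 (nat_lit 228) (nat_lit 212) (nat_lit 246) (nat_lit 2) (nat_lit 4) (nat_lit 13) (nat_lit 3) (nat_lit 4) (nat_lit 13) (by decide +kernel)
theorem L53308 : W_8 (nat_lit 3) (nat_lit 0xf000900008002c0012001380080000000000000000000000000000000) (nat_lit 0x0) (nat_lit 0x70001000100000000000000000000000000000000000000000000000000000) := T_8 (nat_lit 245) (nat_lit 244) (nat_lit 3) (nat_lit 3) (nat_lit 13) L53307 (by decide +kernel)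
theorem L53309 : W_8 (nat_lit 4) (nat_lit 0x7000900008002c0012001380080000000000000000000000000000000) (nat_lit 0x0) (nat_lit 0x70001800140000000000000000000000000000000000000000000000000000) := T_8 (nat_lit 227) (nat_lit 210) (nat_lit 2) (nat_lit 3) (nat_lit 13) L53308 (by decide +kernel)
theorem L53310 : W_8 (nat_lit 5) (nat_lit 0x6000900008002c0012001380080000000000000000000000000000000) (nat_lit 0x0) (nat_lit 0x72001900140000000000000000000000000000000000000000000000000000) := T_8 (nat_lit 224) (nat_lit 241) (nat_lit 5) (nat_lit 4) (nat_lit 10) L53309 (by decide +kernel)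
theorem L53311 : W_8 (nat_lit 6) (nat_lit 0x4000900008002c0012001380080000000000000000000000000000000) (nat_lit 0x0) (nat_lit 0x7a001b00140000000000000000000000000000000000000000000000000000) := T_8 (nat_lit 225) (nat_lit 243) (nat_lit 7) (nat_lit 4) (nat_lit 10) L53310 (by decide +kernel)
theorem L53312 : W_8 (nat_lit 7) (nat_lit 0x900008002c0012001380080000000000000000000000000000000) (nat_lit 0x0) (nat_lit 0x7a001f00160000000000000000000000000000000000000000000000000000) := T_8 (nat_lit 226) (nat_lit 209) (nat_lit 7) (nat_lit 4) (nat_lit 9) L53311 (by decide +kernel)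
theorem L53313 : W_8 (nat_lit 8) (nat_lit 0x900008002c0012001300080000000000000000000000000000000) (nat_lit 0x0) (nat_lit 0x7a001f00160000000000000000080004000000000000000000000000000000) := T_8 (nat_lit 139) (nat_lit 122) (nat_lit 4) (nat_lit 4) (nat_lit 11) L53312 (by decide +kernel)
theorem L53314 : W_8 (nat_lit 9) (nat_lit 0x900008002c0012001200080000000000000000000000000000000) (nat_lit 0x0) (nat_lit 0x7a001f00160000000000000000180014000000000000000000000000000000) := T_8 (nat_lit 140) (nat_lit 124) (nat_lit 6) (nat_lit 4) (nat_lit 11) L53313 (by decide +kernel)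
theorem L53315 : W_8 (nat_lit 2) (nat_lit 0xf00008002c0012001200080000000000000000000000000000000) (nat_lit 0x0) (nat_lit 0xc000000020000000000000000000000000000000000000000) := D_8 (nat_lit 194) (nat_lit 161) (nat_lit 195) (nat_lit 6) (nat_lit 7) (nat_lit 12) (nat_lit 2) (nat_lit 4) (nat_lit 12) (by decide +kernel)
theorem L53316 : W_8 (nat_lit 3) (nat_lit 0xb00008002c0012001200080000000000000000000000000000000) (nat_lit 0x0) (nat_lit 0x4000c400000020000000000000000000000000000000000000000) := T_8 (nat_lit 210) (nat_lit 190) (nat_lit 0) (nat_lit 7) (nat_lit 12) L53315 (by decide +kernel)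
theorem L53317 : W_8 (nat_lit 4) (nat_lit 0x900008002c0012001200080000000000000000000000000000000) (nat_lit 0x0) (nat_lit 0x40006000c400000020000000000000000000000000000000000000000) := T_8 (nat_lit 209) (nat_lit 226) (nat_lit 7) (nat_lit 4) (nat_lit 9) L53316 (by decide +kernel)
theorem L53318 : W_8 (nat_lit 10) (nat_lit 0x100008002c0012001200080000000000000000000000000000000) (nat_lit 0x0) (nat_lit 0x7e003f001e000c400000020000180014000000000000000000000000000000) := Q_8 (nat_lit 211) (C_8 L53296 (C_8 L53302 (C_8 L53306 (C_8 L53314 (C_8 L53317 N_8))))) (by decide +kernel)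
theorem L53319 : W_8 (nat_lit 11) (nat_lit 0x8002c0012001200080000000000000000000000000000000) (nat_lit 0x0) (nat_lit 0x7e003f001f000c40002002100018001c000000000000000000000000000000) := Q_8 (nat_lit 208) (C_8 L53278 (C_8 L53289 (C_8 L53013 (C_8 L53318 N_8)))) (by decide +kernel)
theorem L53320 : W_8 (nat_lit 12) (nat_lit 0x8002c0010001200080000000000000000000000000000000) (nat_lit 0x0) (nat_lit 0x7e003fc01fe00e700038023e001f001f000280000000000000000000000000) := Q_8 (nat_lit 157) (C_8 L53256 (C_8 L53023 (C_8 L53265 (C_8 L53271 (C_8 L53279 (C_8 L53283 (C_8 L53319 N_8))))))) (by decide +kernel)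
theorem L53321 : W_8 (nat_lit 2) (nat_lit 0x2000100008002c0012001200080000000000000000000000000000000) (nat_lit 0x0) (nat_lit 0x2000100008000000000000000000000000000000000000000000000000000) := D_8 (nat_lit 224) (nat_lit 207) (nat_lit 241) (nat_lit 5) (nat_lit 4) (nat_lit 9) (nat_lit 5) (nat_lit 4) (nat_lit 10) (by decide +kernel)
theorem L53322 : W_8 (nat_lit 3) (nat_lit 0x2000100008002c0012001200080000000000000000000000000000000) (nat_lit 0x0) (nat_lit 0x40006000100000001000000000000000000000000000000000000000000000000) := T_8 (nat_lit 242) (nat_lit 192) (nat_lit 6) (nat_lit 4) (nat_lit 14) L53290 (by decide +kernel)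
theorem L53323 : W_8 (nat_lit 2) (nat_lit 0x1400040002000100008002c0012001200080000000000000000000000000000000) (nat_lit 0x0) (nat_lit 0x2800080000000000000000000000000000000000000000000000000000000000000000) := D_8 (nat_lit 259) (nat_lit 277) (nat_lit 275) (nat_lit 7) (nat_lit 4) (nat_lit 12) (nat_lit 5) (nat_lit 4) (nat_lit 12) (by decide +kernel)
theorem L53324 : W_8 (nat_lit 3) (nat_lit 0x1000040002000100008002c0012001200080000000000000000000000000000000) (nat_lit 0x0) (nat_lit 0x28000c0002000000000000000000000000000000000000000000000000000000000000) := T_8 (nat_lit 258) (nat_lit 241) (nat_lit 5) (nat_lit 4) (nat_lit 11) L53323 (by decide +kernel)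
theorem L53325 : W_8 (nat_lit 4) (nat_lit 0x40002000100008002c0012001200080000000000000000000000000000000) (nat_lit 0x0) (nat_lit 0x28001c000a000000000000000000000000000000000000000000000000000000000000) := T_8 (nat_lit 260) (nat_lit 243) (nat_lit 7) (nat_lit 4) (nat_lit 11) L53324 (by decide +kernel)
theorem L53326 : W_8 (nat_lit 5) (nat_lit 0x2000100008002c0012001200080000000000000000000000000000000) (nat_lit 0x0) (nat_lit 0x28001c000e000000000001000000000000000000000000000000000000000000000000) := T_8 (nat_lit 242) (nat_lit 192) (nat_lit 6) (nat_lit 4) (nat_lit 14) L53325 (by decide +kernel)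
theorem L53327 : W_8 (nat_lit 2) (nat_lit 0x1000040002000180008002c0013401200080000000000000000000000000000000) (nat_lit 0x0) (nat_lit 0x2000080000000000000000400000000000000000000000000000000000000000000000) := D_8 (nat_lit 259) (nat_lit 190) (nat_lit 277) (nat_lit 4) (nat_lit 4) (nat_lit 15) (nat_lit 7) (nat_lit 4) (nat_lit 12) (by decide +kernel)
theorem L53328 : W_8 (nat_lit 3) (nat_lit 0x40002000180008002c0013401200080000000000000000000000000000000) (nat_lit 0x0) (nat_lit 0x2000180008000000000000400000000000000000000000000000000000000000000000) := T_8 (nat_lit 260) (nat_lit 243) (nat_lit 7) (nat_lit 4) (nat_lit 11) L53327 (by decide +kernel)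
theorem L53329 : W_8 (nat_lit 4) (nat_lit 0x2000180008002c0013401200080000000000000000000000000000000) (nat_lit 0x0) (nat_lit 0x200018000c000000000001400000000000000000000000000000000000000000000000) := T_8 (nat_lit 242) (nat_lit 192) (nat_lit 6) (nat_lit 4) (nat_lit 14) L53328 (by decide +kernel)
theorem L53330 : W_8 (nat_lit 5) (nat_lit 0x2000100008002c0013401200080000000000000000000000000000000) (nat_lit 0x0) (nat_lit 0x200018000c000100008001400000000000000000000000000000000000000000000000) := T_8 (nat_lit 207) (nat_lit 224) (nat_lit 5) (nat_lit 4) (nat_lit 9) L53329 (by decide +kernel)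
theorem L53331 : W_8 (nat_lit 6) (nat_lit 0x2000100008002c0013001200080000000000000000000000000000000) (nat_lit 0x0) (nat_lit 0x200018000c000100008001400000000c00000000000000000000000000000000000000) := T_8 (nat_lit 154) (nat_lit 155) (nat_lit 3) (nat_lit 1) (nat_lit 9) L53330 (by decide +kernel)
theorem L53332 : W_8 (nat_lit 7) (nat_lit 0x2000100008002c0012001200080000000000000000000000000000000) (nat_lit 0x0) (nat_lit 0x200018000c000100008001400000001c00080000000000000000000000000000000000) := T_8 (nat_lit 156) (nat_lit 139) (nat_lit 4) (nat_lit 4) (nat_lit 12) L53331 (by decide +kernel)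
theorem L53333 : W_8 (nat_lit 8) (nat_lit 0x100008002c0012001200080000000000000000000000000000000) (nat_lit 0x0) (nat_lit 0x28001c000e000300008001400000001c00080000000000000000000000000000000000) := Q_8 (nat_lit 225) (C_8 L53321 (C_8 L53322 (C_8 L53326 (C_8 L53332 N_8)))) (by decide +kernel)
theorem L53334 : W_8 (nat_lit 2) (nat_lit 0x40002000180008002c0012001200080000000000000000000000000000000) (nat_lit 0x0) (nat_lit 0x80000000000000000400020000000000000000000000000000000000000000000) := D_8 (nat_lit 190) (nat_lit 259) (nat_lit 173) (nat_lit 4) (nat_lit 4) (nat_lit 15) (nat_lit 4) (nat_lit 4) (nat_lit 14) (by decide +kernel)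
theorem L53335 : W_8 (nat_lit 3) (nat_lit 0x2000180008002c0012001200080000000000000000000000000000000) (nat_lit 0x0) (nat_lit 0x80004000000000001400020000000000000000000000000000000000000000000) := T_8 (nat_lit 242) (nat_lit 192) (nat_lit 6) (nat_lit 4) (nat_lit 14) L53334 (by decide +kernel)
theorem L53336 : W_8 (nat_lit 4) (nat_lit 0x2000100008002c0012001200080000000000000000000000000000000) (nat_lit 0x0) (nat_lit 0x80004000100008001400020000000000000000000000000000000000000000000) := T_8 (nat_lit 207) (nat_lit 224) (nat_lit 5) (nat_lit 4) (nat_lit 9) L53335 (by decide +kernel)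
theorem L53337 : W_8 (nat_lit 6) (nat_lit 0x100008002c0012001200080000000000000000000000000000000) (nat_lit 0x0) (nat_lit 0x28001c000e000300008001400020000000000000000000000000000000000000000000) := Q_8 (nat_lit 225) (C_8 L53326 (C_8 L53321 (C_8 L53336 N_8))) (by decide +kernel)
theorem L53338 : W_8 (nat_lit 2) (nat_lit 0x20002000100008002c0013001200080000000000000000000000000000000) (nat_lit 0x0) (nat_lit 0x40004000000000001000000000000000000000000000000000000000000000000) := D_8 (nat_lit 242) (nat_lit 192) (nat_lit 258) (nat_lit 6) (nat_lit 4) (nat_lit 14) (nat_lit 5) (nat_lit 4) (nat_lit 11) (by decide +kernel)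
theorem L53339 : W_8 (nat_lit 3) (nat_lit 0x2000100008002c0013001200080000000000000000000000000000000) (nat_lit 0x0) (nat_lit 0x40006000100000001000000000000000000000000000000000000000000000000) := T_8 (nat_lit 241) (nat_lit 224) (nat_lit 5) (nat_lit 4) (nat_lit 10) L53338 (by decide +kernel)
theorem L53340 : W_8 (nat_lit 4) (nat_lit 0x100008002c0013001200080000000000000000000000000000000) (nat_lit 0x0) (nat_lit 0x40006000300000001000020000000000000000000000000000000000000000000) := T_8 (nat_lit 225) (nat_lit 173) (nat_lit 4) (nat_lit 4) (nat_lit 13) L53339 (by decide +kernel)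
theorem L53341 : W_8 (nat_lit 5) (nat_lit 0x100008002c0012001200080000000000000000000000000000000) (nat_lit 0x0) (nat_lit 0x40006000300000001000020001000080000000000000000000000000000000000) := T_8 (nat_lit 156) (nat_lit 139) (nat_lit 4) (nat_lit 4) (nat_lit 12) L53340 (by decide +kernel)
theorem L53342 : W_8 (nat_lit 2) (nat_lit 0x1400040002000100008002c0013401200080000000000000000000000000000000) (nat_lit 0x0) (nat_lit 0x2800080000000000000000000000000000000000000000000000000000000000000000) := D_8 (nat_lit 259) (nat_lit 277) (nat_lit 275) (nat_lit 7) (nat_lit 4) (nat_lit 12) (nat_lit 5) (nat_lit 4) (nat_lit 12) (by decide +kernel)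
theorem L53343 : W_8 (nat_lit 3) (nat_lit 0x1000040002000100008002c0013401200080000000000000000000000000000000) (nat_lit 0x0) (nat_lit 0x28000c0002000000000000000000000000000000000000000000000000000000000000) := T_8 (nat_lit 258) (nat_lit 241) (nat_lit 5) (nat_lit 4) (nat_lit 11) L53342 (by decide +kernel)
theorem L53344 : W_8 (nat_lit 4) (nat_lit 0x40002000100008002c0013401200080000000000000000000000000000000) (nat_lit 0x0) (nat_lit 0x28001c000a000000000000000000000000000000000000000000000000000000000000) := T_8 (nat_lit 260) (nat_lit 243) (nat_lit 7) (nat_lit 4) (nat_lit 11) L53343 (by decide +kernel)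
theorem L53345 : W_8 (nat_lit 5) (nat_lit 0x2000100008002c0013401200080000000000000000000000000000000) (nat_lit 0x0) (nat_lit 0x28001c000e000000000001000000000000000000000000000000000000000000000000) := T_8 (nat_lit 242) (nat_lit 192) (nat_lit 6) (nat_lit 4) (nat_lit 14) L53344 (by decide +kernel)
theorem L53346 : W_8 (nat_lit 6) (nat_lit 0x2000100008002c0013001200080000000000000000000000000000000) (nat_lit 0x0) (nat_lit 0x28001c000e000000000001000000000c00000000000000000000000000000000000000) := T_8 (nat_lit 154) (nat_lit 155) (nat_lit 3) (nat_lit 1) (nat_lit 9) L53345 (by decide +kernel)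
theorem L53347 : W_8 (nat_lit 7) (nat_lit 0x100008002c0013001200080000000000000000000000000000000) (nat_lit 0x0) (nat_lit 0x28001c000e000200000001000020000c00000000000000000000000000000000000000) := T_8 (nat_lit 225) (nat_lit 173) (nat_lit 4) (nat_lit 4) (nat_lit 13) L53346 (by decide +kernel)
theorem L53348 : W_8 (nat_lit 8) (nat_lit 0x100008002c0012001200080000000000000000000000000000000) (nat_lit 0x0) (nat_lit 0x28001c000e000200000001000020001c00080000000000000000000000000000000000) := T_8 (nat_lit 156) (nat_lit 139) (nat_lit 4) (nat_lit 4) (nat_lit 12) L53347 (by decide +kernel)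
theorem L53349 : W_8 (nat_lit 12) (nat_lit 0x8002c0012001200080000000000000000000000000000000) (nat_lit 0x0) (nat_lit 0x28001c000e0003c001f00378003c001e000e0007000380010000000000000000000000) := Q_8 (nat_lit 208) (C_8 L53177 (C_8 L53187 (C_8 L52990 (C_8 L53333 (C_8 L53337 (C_8 L53341 (C_8 L53348 N_8))))))) (by decide +kernel)
theorem L53350 : W_8 (nat_lit 13) (nat_lit 0x8002c0010001200080000000000000000000000000000000) (nat_lit 0x0) (nat_lit 0x28001c000e0003c001f00378003c003e001e001f000380010000000000000000000000) := Q_8 (nat_lit 157) (C_8 L53349 (C_8 L53283 (C_8 L53023 (C_8 L53019 (C_8 L53205 N_8))))) (by decide +kernel)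
theorem L53351 : W_8 (nat_lit 2) (nat_lit 0x40003000100008002c0010001200080000000000000000000000000000000) (nat_lit 0x0) (nat_lit 0x100008000400000000000000000000000000000000000000000000000000000000) := D_8 (nat_lit 243) (nat_lit 260) (nat_lit 226) (nat_lit 7) (nat_lit 4) (nat_lit 11) (nat_lit 7) (nat_lit 4) (nat_lit 10) (by decide +kernel)
theorem L53352 : W_8 (nat_lit 3) (nat_lit 0x3000100008002c0010001200080000000000000000000000000000000) (nat_lit 0x0) (nat_lit 0x10000c000400000001000000000000000000000000000000000000000000000000) := T_8 (nat_lit 242) (nat_lit 192) (nat_lit 6) (nat_lit 4) (nat_lit 14) L53351 (by decide +kernel)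
theorem L53353 : W_8 (nat_lit 4) (nat_lit 0x2000100008002c0010001200080000000000000000000000000000000) (nat_lit 0x0) (nat_lit 0x10000e000500000001000000000000000000000000000000000000000000000000) := T_8 (nat_lit 224) (nat_lit 241) (nat_lit 5) (nat_lit 4) (nat_lit 10) L53352 (by decide +kernel)
theorem L53354 : W_8 (nat_lit 2) (nat_lit 0x7000100008002c0010001200080000000000000000000000000000000) (nat_lit 0x0) (nat_lit 0x28000000000002000000000000000000000000000000000000000) := D_8 (nat_lit 157) (nat_lit 207) (nat_lit 209) (nat_lit 5) (nat_lit 4) (nat_lit 9) (nat_lit 7) (nat_lit 4) (nat_lit 9) (by decide +kernel)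
theorem L53355 : W_8 (nat_lit 3) (nat_lit 0x3000100008002c0010001200080000000000000000000000000000000) (nat_lit 0x0) (nat_lit 0x8000400028000000000002000000000000000000000000000000000000000) := T_8 (nat_lit 226) (nat_lit 243) (nat_lit 7) (nat_lit 4) (nat_lit 10) L53354 (by decide +kernel)
theorem L53356 : W_8 (nat_lit 4) (nat_lit 0x2000100008002c0010001200080000000000000000000000000000000) (nat_lit 0x0) (nat_lit 0xa000500028000000000002000000000000000000000000000000000000000) := T_8 (nat_lit 224) (nat_lit 241) (nat_lit 5) (nat_lit 4) (nat_lit 10) L53355 (by decide +kernel)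
theorem L53357 : W_8 (nat_lit 2) (nat_lit 0x40003000100008002c0010001200080000000000000000000000000000000) (nat_lit 0x0) (nat_lit 0x400020001000000000000000000000000000000000000000) := D_8 (nat_lit 173) (nat_lit 156) (nat_lit 190) (nat_lit 4) (nat_lit 4) (nat_lit 13) (nat_lit 4) (nat_lit 4) (nat_lit 14) (by decide +kernel)
theorem L53358 : W_8 (nat_lit 3) (nat_lit 0x3000100008002c0010001200080000000000000000000000000000000) (nat_lit 0x0) (nat_lit 0x4000000000001400020001000000000000000000000000000000000000000) := T_8 (nat_lit 242) (nat_lit 192) (nat_lit 6) (nat_lit 4) (nat_lit 14) L53357 (by decide +kernel)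
theorem L53359 : W_8 (nat_lit 4) (nat_lit 0x2000100008002c0010001200080000000000000000000000000000000) (nat_lit 0x0) (nat_lit 0x6000100000001400020001000000000000000000000000000000000000000) := T_8 (nat_lit 224) (nat_lit 241) (nat_lit 5) (nat_lit 4) (nat_lit 10) L53358 (by decide +kernel)
theorem L53360 : W_8 (nat_lit 2) (nat_lit 0x40006000100008002c0010001200080000000000000000000000000000000) (nat_lit 0x0) (nat_lit 0x400020001000000000000000000000000000000000000000) := D_8 (nat_lit 173) (nat_lit 190) (nat_lit 156) (nat_lit 4) (nat_lit 4) (nat_lit 14) (nat_lit 4) (nat_lit 4) (nat_lit 13) (by decide +kernel)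
theorem L53361 : W_8 (nat_lit 3) (nat_lit 0x6000100008002c0010001200080000000000000000000000000000000) (nat_lit 0x0) (nat_lit 0x4000000000001400020001000000000000000000000000000000000000000) := T_8 (nat_lit 242) (nat_lit 192) (nat_lit 6) (nat_lit 4) (nat_lit 14) L53360 (by decide +kernel)
theorem L53362 : W_8 (nat_lit 4) (nat_lit 0x2000100008002c0010001200080000000000000000000000000000000) (nat_lit 0x0) (nat_lit 0xc000400000001400020001000000000000000000000000000000000000000) := T_8 (nat_lit 226) (nat_lit 243) (nat_lit 7) (nat_lit 4) (nat_lit 10) L53361 (by decide +kernel)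
theorem L53363 : W_8 (nat_lit 5) (nat_lit 0x100008002c0010001200080000000000000000000000000000000) (nat_lit 0x0) (nat_lit 0x10000e000700028001400020003000000000000000000000000000000000000000) := Q_8 (nat_lit 225) (C_8 L53353 (C_8 L53356 (C_8 L53359 (C_8 L53362 N_8)))) (by decide +kernel)
theorem L53364 : W_8 (nat_lit 2) (nat_lit 0x7000100008002c0012001200080000000000000000000000000000000) (nat_lit 0x0) (nat_lit 0x20001000080000000000000000000000000000000000) := D_8 (nat_lit 156) (nat_lit 173) (nat_lit 139) (nat_lit 4) (nat_lit 4) (nat_lit 13) (nat_lit 4) (nat_lit 4) (nat_lit 12) (by decide +kernel)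
theorem L53365 : W_8 (nat_lit 3) (nat_lit 0x7000100008002c0010001200080000000000000000000000000000000) (nat_lit 0x0) (nat_lit 0x8000000020003000080000000000000000000000000000000000) := T_8 (nat_lit 157) (nat_lit 207) (nat_lit 5) (nat_lit 4) (nat_lit 9) L53364 (by decide +kernel)
theorem L53366 : W_8 (nat_lit 4) (nat_lit 0x3000100008002c0010001200080000000000000000000000000000000) (nat_lit 0x0) (nat_lit 0x8000400008000000020003000080000000000000000000000000000000000) := T_8 (nat_lit 226) (nat_lit 243) (nat_lit 7) (nat_lit 4) (nat_lit 10) L53365 (by decide +kernel)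
theorem L53367 : W_8 (nat_lit 5) (nat_lit 0x2000100008002c0010001200080000000000000000000000000000000) (nat_lit 0x0) (nat_lit 0xa000500008000000020003000080000000000000000000000000000000000) := T_8 (nat_lit 224) (nat_lit 241) (nat_lit 5) (nat_lit 4) (nat_lit 10) L53366 (by decide +kernel)
theorem L53368 : W_8 (nat_lit 6) (nat_lit 0x100008002c0010001200080000000000000000000000000000000) (nat_lit 0x0) (nat_lit 0x10000e000700008001400020003000080000000000000000000000000000000000) := Q_8 (nat_lit 225) (C_8 L53362 (C_8 L53367 (C_8 L53359 (C_8 L53353 N_8)))) (by decide +kernel)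
theorem L53369 : W_8 (nat_lit 2) (nat_lit 0x1000040003000180008002e0010001200080000000000000000000000000000000) (nat_lit 0x0) (nat_lit 0x3000080000000000000000000000000000000000000000000000000000000000000000) := D_8 (nat_lit 259) (nat_lit 276) (nat_lit 277) (nat_lit 4) (nat_lit 4) (nat_lit 16) (nat_lit 7) (nat_lit 4) (nat_lit 12) (by decide +kernel)
theorem L53370 : W_8 (nat_lit 3) (nat_lit 0x40003000180008002e0010001200080000000000000000000000000000000) (nat_lit 0x0) (nat_lit 0x3000180008000000000000000000000000000000000000000000000000000000000000) := T_8 (nat_lit 260) (nat_lit 243) (nat_lit 7) (nat_lit 4) (nat_lit 11) L53369 (by decide +kernel)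
theorem L53371 : W_8 (nat_lit 4) (nat_lit 0x40003000100008002e0010001200080000000000000000000000000000000) (nat_lit 0x0) (nat_lit 0x3000180008000000008000000000002000000000000000000000000000000000000000) := T_8 (nat_lit 207) (nat_lit 157) (nat_lit 5) (nat_lit 4) (nat_lit 9) L53370 (by decide +kernel)
theorem L53372 : W_8 (nat_lit 5) (nat_lit 0x3000100008002e0010001200080000000000000000000000000000000) (nat_lit 0x0) (nat_lit 0x300018000c000000008000400000002000000000000000000000000000000000000000) := T_8 (nat_lit 242) (nat_lit 190) (nat_lit 4) (nat_lit 4) (nat_lit 14) L53371 (by decide +kernel)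
theorem L53373 : W_8 (nat_lit 6) (nat_lit 0x3000100008002c0010001200080000000000000000000000000000000) (nat_lit 0x0) (nat_lit 0x300018000c000000008000400020003000000000000000000000000000000000000000) := T_8 (nat_lit 173) (nat_lit 156) (nat_lit 4) (nat_lit 4) (nat_lit 13) L53372 (by decide +kernel)
theorem L53374 : W_8 (nat_lit 7) (nat_lit 0x2000100008002c0010001200080000000000000000000000000000000) (nat_lit 0x0) (nat_lit 0x300018000e000100008000400020003000000000000000000000000000000000000000) := T_8 (nat_lit 224) (nat_lit 241) (nat_lit 5) (nat_lit 4) (nat_lit 10) L53373 (by decide +kernel)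
theorem L53375 : W_8 (nat_lit 2) (nat_lit 0x80003000100008002e0010001200080000000000000000000000000000000) (nat_lit 0x0) (nat_lit 0x100004000000000000400000000000000000000000000000000000000000000000) := D_8 (nat_lit 242) (nat_lit 190) (nat_lit 260) (nat_lit 4) (nat_lit 4) (nat_lit 14) (nat_lit 7) (nat_lit 4) (nat_lit 11) (by decide +kernel)
theorem L53376 : W_8 (nat_lit 3) (nat_lit 0x80003000100008002c0010001200080000000000000000000000000000000) (nat_lit 0x0) (nat_lit 0x100004000000000000400020001000000000000000000000000000000000000000) := T_8 (nat_lit 173) (nat_lit 156) (nat_lit 4) (nat_lit 4) (nat_lit 13) L53375 (by decide +kernel)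
theorem L53377 : W_8 (nat_lit 4) (nat_lit 0x3000100008002c0010001200080000000000000000000000000000000) (nat_lit 0x0) (nat_lit 0x10000c000400000000400020001000000000000000000000000000000000000000) := T_8 (nat_lit 243) (nat_lit 226) (nat_lit 7) (nat_lit 4) (nat_lit 10) L53376 (by decide +kernel)
theorem L53378 : W_8 (nat_lit 5) (nat_lit 0x2000100008002c0010001200080000000000000000000000000000000) (nat_lit 0x0) (nat_lit 0x10000e000500000000400020001000000000000000000000000000000000000000) := T_8 (nat_lit 224) (nat_lit 241) (nat_lit 5) (nat_lit 4) (nat_lit 10) L53377 (by decide +kernel)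
theorem L53379 : W_8 (nat_lit 2) (nat_lit 0x40002000100008002e0010001200080000000000000000000000000000000) (nat_lit 0x0) (nat_lit 0x100008000400000000000000000000000000000000000000000000000000000000) := D_8 (nat_lit 243) (nat_lit 226) (nat_lit 260) (nat_lit 7) (nat_lit 4) (nat_lit 10) (nat_lit 7) (nat_lit 4) (nat_lit 11) (by decide +kernel)
theorem L53380 : W_8 (nat_lit 3) (nat_lit 0x2000100008002e0010001200080000000000000000000000000000000) (nat_lit 0x0) (nat_lit 0x10000c000400000000400000000000000000000000000000000000000000000000) := T_8 (nat_lit 242) (nat_lit 190) (nat_lit 4) (nat_lit 4) (nat_lit 14) L53379 (by decide +kernel)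
theorem L53381 : W_8 (nat_lit 4) (nat_lit 0x2000100008002c0010001200080000000000000000000000000000000) (nat_lit 0x0) (nat_lit 0x10000c000400000000400020001000000000000000000000000000000000000000) := T_8 (nat_lit 173) (nat_lit 156) (nat_lit 4) (nat_lit 4) (nat_lit 13) L53380 (by decide +kernel)
theorem L53382 : W_8 (nat_lit 2) (nat_lit 0x380018000c002e0010001200080000000000000000000000000000000) (nat_lit 0x0) (nat_lit 0x60020000000000000000000000000000000000000000000000000000) := D_8 (nat_lit 222) (nat_lit 209) (nat_lit 221) (nat_lit 2) (nat_lit 1) (nat_lit 13) (nat_lit 2) (nat_lit 0) (nat_lit 13) (by decide +kernel)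
theorem L53383 : W_8 (nat_lit 3) (nat_lit 0x300018000c002e0010001200080000000000000000000000000000000) (nat_lit 0x0) (nat_lit 0x10000e0020000000000000000000000000000000000000000000000000000) := T_8 (nat_lit 223) (nat_lit 240) (nat_lit 5) (nat_lit 3) (nat_lit 10) L53382 (by decide +kernel)
theorem L53384 : W_8 (nat_lit 4) (nat_lit 0x300010000c002e0010001200080000000000000000000000000000000) (nat_lit 0x0) (nat_lit 0x10000e0028000000000002000000000000000000000000000000000000000) := T_8 (nat_lit 207) (nat_lit 157) (nat_lit 6) (nat_lit 3) (nat_lit 13) L53383 (by decide +kernel)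
theorem L53385 : W_8 (nat_lit 5) (nat_lit 0x3000100008002e0010001200080000000000000000000000000000000) (nat_lit 0x0) (nat_lit 0x50000e0028000400000002000000000000000000000000000000000000000) := T_8 (nat_lit 190) (nat_lit 242) (nat_lit 4) (nat_lit 4) (nat_lit 14) L53384 (by decide +kernel)
theorem L53386 : W_8 (nat_lit 6) (nat_lit 0x3000100008002c0010001200080000000000000000000000000000000) (nat_lit 0x0) (nat_lit 0x50000e0028000400020003000000000000000000000000000000000000000) := T_8 (nat_lit 173) (nat_lit 156) (nat_lit 4) (nat_lit 4) (nat_lit 13) L53385 (by decide +kernel)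
theorem L53387 : W_8 (nat_lit 7) (nat_lit 0x2000100008002c0010001200080000000000000000000000000000000) (nat_lit 0x0) (nat_lit 0x70001e0028000400020003000000000000000000000000000000000000000) := T_8 (nat_lit 224) (nat_lit 241) (nat_lit 5) (nat_lit 4) (nat_lit 10) L53386 (by decide +kernel)
theorem L53388 : W_8 (nat_lit 8) (nat_lit 0x100008002c0010001200080000000000000000000000000000000) (nat_lit 0x0) (nat_lit 0x300018000f0007e0028000400020003000080000000000000000000000000000000000) := Q_8 (nat_lit 225) (C_8 L53356 (C_8 L53367 (C_8 L53374 (C_8 L53378 (C_8 L53381 (C_8 L53387 N_8)))))) (by decide +kernel)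
theorem L53389 : W_8 (nat_lit 2) (nat_lit 0x2c0003400180008002c0010001200080000000000000000000000000000000) (nat_lit 0x0) (nat_lit 0x1000080000000000000000400000000000000000000000000000000000000000000000) := D_8 (nat_lit 259) (nat_lit 276) (nat_lit 190) (nat_lit 4) (nat_lit 4) (nat_lit 16) (nat_lit 4) (nat_lit 4) (nat_lit 15) (by decide +kernel)
theorem L53390 : W_8 (nat_lit 3) (nat_lit 0x2c0003400100008002c0010001200080000000000000000000000000000000) (nat_lit 0x0) (nat_lit 0x1000080000000000008000400000002000000000000000000000000000000000000000) := T_8 (nat_lit 207) (nat_lit 157) (nat_lit 5) (nat_lit 4) (nat_lit 9) L53389 (by decide +kernel)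
theorem L53391 : W_8 (nat_lit 4) (nat_lit 0xc0003400100008002c0010001200080000000000000000000000000000000) (nat_lit 0x0) (nat_lit 0x1000080030000000008000400000002000000000000000000000000000000000000000) := T_8 (nat_lit 245) (nat_lit 244) (nat_lit 0) (nat_lit 7) (nat_lit 14) L53390 (by decide +kernel)
theorem L53392 : W_8 (nat_lit 5) (nat_lit 0xc0003000100008002c0010001200080000000000000000000000000000000) (nat_lit 0x0) (nat_lit 0x10000800300000c0008000400000002000000000000000000000000000000000000000) := T_8 (nat_lit 222) (nat_lit 223) (nat_lit 3) (nat_lit 1) (nat_lit 13) L53391 (by decide +kernel)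
theorem L53393 : W_8 (nat_lit 6) (nat_lit 0x40003000100008002c0010001200080000000000000000000000000000000) (nat_lit 0x0) (nat_lit 0x10001800380000c0008000400000002000000000000000000000000000000000000000) := T_8 (nat_lit 243) (nat_lit 260) (nat_lit 7) (nat_lit 4) (nat_lit 11) L53392 (by decide +kernel)
theorem L53394 : W_8 (nat_lit 7) (nat_lit 0x3000100008002c0010001200080000000000000000000000000000000) (nat_lit 0x0) (nat_lit 0x100018003c0000c0008001400000002000000000000000000000000000000000000000) := T_8 (nat_lit 242) (nat_lit 192) (nat_lit 6) (nat_lit 4) (nat_lit 14) L53393 (by decide +kernel)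
theorem L53395 : W_8 (nat_lit 8) (nat_lit 0x2000100008002c0010001200080000000000000000000000000000000) (nat_lit 0x0) (nat_lit 0x100018003e0001c0008001400000002000000000000000000000000000000000000000) := T_8 (nat_lit 224) (nat_lit 241) (nat_lit 5) (nat_lit 4) (nat_lit 10) L53394 (by decide +kernel)
theorem L53396 : W_8 (nat_lit 2) (nat_lit 0x3000100018002e0012001200080000000000000000000000000000000) (nat_lit 0x0) (nat_lit 0x2000018000000000000000000000000000000000000000000) := D_8 (nat_lit 172) (nat_lit 193) (nat_lit 171) (nat_lit 3) (nat_lit 2) (nat_lit 10) (nat_lit 3) (nat_lit 1) (nat_lit 10) (by decide +kernel)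
theorem L53397 : W_8 (nat_lit 3) (nat_lit 0x3000100008002e0012001200080000000000000000000000000000000) (nat_lit 0x0) (nat_lit 0x4000000000003000018000000000000000000000000000000000000000000) := T_8 (nat_lit 192) (nat_lit 242) (nat_lit 6) (nat_lit 4) (nat_lit 14) L53396 (by decide +kernel)
theorem L53398 : W_8 (nat_lit 4) (nat_lit 0x3000100008002e0010001200080000000000000000000000000000000) (nat_lit 0x0) (nat_lit 0x4000000008003000018002000000000000000000000000000000000000000) := T_8 (nat_lit 157) (nat_lit 207) (nat_lit 5) (nat_lit 4) (nat_lit 9) L53397 (by decide +kernel)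
theorem L53399 : W_8 (nat_lit 5) (nat_lit 0x3000100008002c0010001200080000000000000000000000000000000) (nat_lit 0x0) (nat_lit 0x4000000008003000038003000000000000000000000000000000000000000) := T_8 (nat_lit 173) (nat_lit 156) (nat_lit 4) (nat_lit 4) (nat_lit 13) L53398 (by decide +kernel)
theorem L53400 : W_8 (nat_lit 6) (nat_lit 0x2000100008002c0010001200080000000000000000000000000000000) (nat_lit 0x0) (nat_lit 0x6000100008003000038003000000000000000000000000000000000000000) := T_8 (nat_lit 224) (nat_lit 241) (nat_lit 5) (nat_lit 4) (nat_lit 10) L53399 (by decide +kernel)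
theorem L53401 : W_8 (nat_lit 2) (nat_lit 0x40002000100008002c0010001200080000000000000000000000000000000) (nat_lit 0x0) (nat_lit 0x400020001000000000000000000000000000000000000000) := D_8 (nat_lit 173) (nat_lit 156) (nat_lit 190) (nat_lit 4) (nat_lit 4) (nat_lit 13) (nat_lit 4) (nat_lit 4) (nat_lit 14) (by decide +kernel)
theorem L53402 : W_8 (nat_lit 3) (nat_lit 0x2000100008002c0010001200080000000000000000000000000000000) (nat_lit 0x0) (nat_lit 0x4000000000001400020001000000000000000000000000000000000000000) := T_8 (nat_lit 242) (nat_lit 192) (nat_lit 6) (nat_lit 4) (nat_lit 14) L53401 (by decide +kernel)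
theorem L53403 : W_8 (nat_lit 2) (nat_lit 0x3000100008002c0011001200080000000000000000000000000000000) (nat_lit 0x0) (nat_lit 0x8000000000002000080000000000000000000000000000000000) := D_8 (nat_lit 157) (nat_lit 139) (nat_lit 207) (nat_lit 4) (nat_lit 4) (nat_lit 12) (nat_lit 5) (nat_lit 4) (nat_lit 9) (by decide +kernel)
theorem L53404 : W_8 (nat_lit 3) (nat_lit 0x2000100008002c0011001200080000000000000000000000000000000) (nat_lit 0x0) (nat_lit 0x2000100008000000000002000080000000000000000000000000000000000) := T_8 (nat_lit 224) (nat_lit 241) (nat_lit 5) (nat_lit 4) (nat_lit 10) L53403 (by decide +kernel)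
theorem L53405 : W_8 (nat_lit 4) (nat_lit 0x2000100008002c0010001200080000000000000000000000000000000) (nat_lit 0x0) (nat_lit 0x2000100008000000020003000080000000000000000000000000000000000) := T_8 (nat_lit 156) (nat_lit 173) (nat_lit 4) (nat_lit 4) (nat_lit 13) L53404 (by decide +kernel)
theorem L53406 : W_8 (nat_lit 9) (nat_lit 0x100008002c0010001200080000000000000000000000000000000) (nat_lit 0x0) (nat_lit 0x300018003f0003e0028003400038003000080000000000000000000000000000000000) := Q_8 (nat_lit 225) (C_8 L53387 (C_8 L53374 (C_8 L53359 (C_8 L53395 (C_8 L53400 (C_8 L53402 (C_8 L53405 N_8))))))) (by decide +kernel)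
theorem L53407 : W_8 (nat_lit 2) (nat_lit 0x2001900058002e0010001200080000000000000000000000000000000) (nat_lit 0x0) (nat_lit 0x800060000000000000000000000000000000000000000000000000000) := D_8 (nat_lit 210) (nat_lit 209) (nat_lit 227) (nat_lit 0) (nat_lit 8) (nat_lit 12) (nat_lit 5) (nat_lit 7) (nat_lit 9) (by decide +kernel)
theorem L53408 : W_8 (nat_lit 3) (nat_lit 0x2001900048002e0010001200080000000000000000000000000000000) (nat_lit 0x0) (nat_lit 0x800060003000000000000000000000000000000000000000000000000) := T_8 (nat_lit 192) (nat_lit 193) (nat_lit 3) (nat_lit 4) (nat_lit 11) L53407 (by decide +kernel)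
theorem L53409 : W_8 (nat_lit 4) (nat_lit 0x2000900048002e0010001200080000000000000000000000000000000) (nat_lit 0x0) (nat_lit 0x2800160003000000000000000000000000000000000000000000000000) := T_8 (nat_lit 212) (nat_lit 229) (nat_lit 7) (nat_lit 7) (nat_lit 9) L53408 (by decide +kernel)
theorem L53410 : W_8 (nat_lit 5) (nat_lit 0x2000900008002e0010001200080000000000000000000000000000000) (nat_lit 0x0) (nat_lit 0x2800160007000000020000000000000000000000000000000000000000) := T_8 (nat_lit 194) (nat_lit 161) (nat_lit 6) (nat_lit 7) (nat_lit 12) L53409 (by decide +kernel)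
theorem L53411 : W_8 (nat_lit 6) (nat_lit 0x2000900008002c0010001200080000000000000000000000000000000) (nat_lit 0x0) (nat_lit 0x2800160007000020021000000000000000000000000000000000000000) := T_8 (nat_lit 173) (nat_lit 156) (nat_lit 4) (nat_lit 4) (nat_lit 13) L53410 (by decide +kernel)
theorem L53412 : W_8 (nat_lit 2) (nat_lit 0x3000d00008002c0010001200080000000000000000000000000000000) (nat_lit 0x0) (nat_lit 0x8000c00000000000000000000000000000000000000000000000000000000) := D_8 (nat_lit 226) (nat_lit 243) (nat_lit 227) (nat_lit 7) (nat_lit 4) (nat_lit 10) (nat_lit 2) (nat_lit 3) (nat_lit 13) (by decide +kernel)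
theorem L53413 : W_8 (nat_lit 3) (nat_lit 0x3000900008002c0010001200080000000000000000000000000000000) (nat_lit 0x0) (nat_lit 0x8000c00060000000000000000000000000000000000000000000000000000) := T_8 (nat_lit 210) (nat_lit 209) (nat_lit 1) (nat_lit 7) (nat_lit 12) L53412 (by decide +kernel)
theorem L53414 : W_8 (nat_lit 4) (nat_lit 0x2000900008002c0010001200080000000000000000000000000000000) (nat_lit 0x0) (nat_lit 0xa000d00060000000000000000000000000000000000000000000000000000) := T_8 (nat_lit 224) (nat_lit 241) (nat_lit 5) (nat_lit 4) (nat_lit 10) L53413 (by decide +kernel)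
theorem L53415 : W_8 (nat_lit 2) (nat_lit 0x10000f001900048002e0010001200080000000000000000000000000000000) (nat_lit 0x0) (nat_lit 0x20003000000000000000000000000000000000000000000000000) := D_8 (nat_lit 192) (nat_lit 193) (nat_lit 209) (nat_lit 3) (nat_lit 4) (nat_lit 11) (nat_lit 7) (nat_lit 5) (nat_lit 10) (by decide +kernel)
theorem L53416 : W_8 (nat_lit 3) (nat_lit 0xf001900048002e0010001200080000000000000000000000000000000) (nat_lit 0x0) (nat_lit 0x30000000020003000000000000000000000000000000000000000000000000) := T_8 (nat_lit 244) (nat_lit 245) (nat_lit 3) (nat_lit 3) (nat_lit 13) L53415 (by decide +kernel)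
theorem L53417 : W_8 (nat_lit 4) (nat_lit 0x7001900048002e0010001200080000000000000000000000000000000) (nat_lit 0x0) (nat_lit 0x30001800020003000000000000000000000000000000000000000000000000) := T_8 (nat_lit 227) (nat_lit 228) (nat_lit 2) (nat_lit 4) (nat_lit 13) L53416 (by decide +kernel)
theorem L53418 : W_8 (nat_lit 5) (nat_lit 0x7000900048002e0010001200080000000000000000000000000000000) (nat_lit 0x0) (nat_lit 0x30003800120003000000000000000000000000000000000000000000000000) := T_8 (nat_lit 212) (nat_lit 229) (nat_lit 7) (nat_lit 7) (nat_lit 9) L53417 (by decide +kernel)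
theorem L53419 : W_8 (nat_lit 6) (nat_lit 0x7000900008002e0010001200080000000000000000000000000000000) (nat_lit 0x0) (nat_lit 0x30003800120007000000020000000000000000000000000000000000000000) := T_8 (nat_lit 194) (nat_lit 161) (nat_lit 6) (nat_lit 7) (nat_lit 12) L53418 (by decide +kernel)
theorem L53420 : W_8 (nat_lit 7) (nat_lit 0x6000900008002e0010001200080000000000000000000000000000000) (nat_lit 0x0) (nat_lit 0x32003900120007000000020000000000000000000000000000000000000000) := T_8 (nat_lit 224) (nat_lit 241) (nat_lit 5) (nat_lit 4) (nat_lit 10) L53419 (by decide +kernel)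
theorem L53421 : W_8 (nat_lit 8) (nat_lit 0x6000900008002c0010001200080000000000000000000000000000000) (nat_lit 0x0) (nat_lit 0x32003900120007000020021000000000000000000000000000000000000000) := T_8 (nat_lit 173) (nat_lit 156) (nat_lit 4) (nat_lit 4) (nat_lit 13) L53420 (by decide +kernel)
theorem L53422 : W_8 (nat_lit 9) (nat_lit 0x2000900008002c0010001200080000000000000000000000000000000) (nat_lit 0x0) (nat_lit 0x3a003d00120007000020021000000000000000000000000000000000000000) := T_8 (nat_lit 226) (nat_lit 243) (nat_lit 7) (nat_lit 4) (nat_lit 10) L53421 (by decide +kernel)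
theorem L53423 : W_8 (nat_lit 2) (nat_lit 0xa001900058002c0010001200080000000000000000000000000000000) (nat_lit 0x0) (nat_lit 0x8001400000000000000000000000000000000000000000000000000000000) := D_8 (nat_lit 226) (nat_lit 243) (nat_lit 228) (nat_lit 7) (nat_lit 4) (nat_lit 10) (nat_lit 2) (nat_lit 4) (nat_lit 13) (by decide +kernel)
theorem L53424 : W_8 (nat_lit 3) (nat_lit 0x2001900058002c0010001200080000000000000000000000000000000) (nat_lit 0x0) (nat_lit 0x8001c00040000000000000000000000000000000000000000000000000000) := T_8 (nat_lit 227) (nat_lit 210) (nat_lit 5) (nat_lit 7) (nat_lit 9) L53423 (by decide +kernel)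
theorem L53425 : W_8 (nat_lit 4) (nat_lit 0x2001900048002c0010001200080000000000000000000000000000000) (nat_lit 0x0) (nat_lit 0x8001c00040003000000000000000000000000000000000000000000000000) := T_8 (nat_lit 192) (nat_lit 193) (nat_lit 3) (nat_lit 4) (nat_lit 11) L53424 (by decide +kernel)
theorem L53426 : W_8 (nat_lit 5) (nat_lit 0x2000900048002c0010001200080000000000000000000000000000000) (nat_lit 0x0) (nat_lit 0x8003c00140003000000000000000000000000000000000000000000000000) := T_8 (nat_lit 212) (nat_lit 229) (nat_lit 7) (nat_lit 7) (nat_lit 9) L53425 (by decide +kernel)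
theorem L53427 : W_8 (nat_lit 6) (nat_lit 0x2000900008002c0010001200080000000000000000000000000000000) (nat_lit 0x0) (nat_lit 0x8003c00140007000000020000000000000000000000000000000000000000) := T_8 (nat_lit 194) (nat_lit 161) (nat_lit 6) (nat_lit 7) (nat_lit 12) L53426 (by decide +kernel)
theorem L53428 : W_8 (nat_lit 2) (nat_lit 0x3000d0005a002f0010801200080000000000000000000000000000000) (nat_lit 0x0) (nat_lit 0xc000400000000000000000000000000000000000000000000000) := D_8 (nat_lit 207) (nat_lit 190) (nat_lit 206) (nat_lit 4) (nat_lit 3) (nat_lit 13) (nat_lit 7) (nat_lit 2) (nat_lit 9) (by decide +kernel)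
theorem L53429 : W_8 (nat_lit 3) (nat_lit 0x3000d00058002f0010801200080000000000000000000000000000000) (nat_lit 0x0) (nat_lit 0xc000700000000000000000000000000000000000000000000000) := T_8 (nat_lit 189) (nat_lit 188) (nat_lit 1) (nat_lit 5) (nat_lit 10) L53428 (by decide +kernel)
theorem L53430 : W_8 (nat_lit 4) (nat_lit 0x3000d00058002f0010001200080000000000000000000000000000000) (nat_lit 0x0) (nat_lit 0xc000700000000c00000000000000000000000000000000000000) := T_8 (nat_lit 155) (nat_lit 154) (nat_lit 0) (nat_lit 5) (nat_lit 10) L53429 (by decide +kernel)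
theorem L53431 : W_8 (nat_lit 5) (nat_lit 0x3000d00058002e0010001200080000000000000000000000000000000) (nat_lit 0x0) (nat_lit 0xc000700018000c00000000000000000000000000000000000000) := T_8 (nat_lit 172) (nat_lit 171) (nat_lit 3) (nat_lit 1) (nat_lit 10) L53430 (by decide +kernel)
theorem L53432 : W_8 (nat_lit 6) (nat_lit 0x3000d00048002e0010001200080000000000000000000000000000000) (nat_lit 0x0) (nat_lit 0xc003700018000c00000000000000000000000000000000000000) := T_8 (nat_lit 192) (nat_lit 193) (nat_lit 0) (nat_lit 7) (nat_lit 11) L53431 (by decide +kernel)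
theorem L53433 : W_8 (nat_lit 7) (nat_lit 0x3000d00048002c0010001200080000000000000000000000000000000) (nat_lit 0x0) (nat_lit 0xc003700038001c00000000000000000000000000000000000000) := T_8 (nat_lit 173) (nat_lit 156) (nat_lit 4) (nat_lit 4) (nat_lit 13) L53432 (by decide +kernel)
theorem L53434 : W_8 (nat_lit 8) (nat_lit 0x3000d00008002c0010001200080000000000000000000000000000000) (nat_lit 0x0) (nat_lit 0xc007700038021c00000000000000000000000000000000000000) := T_8 (nat_lit 194) (nat_lit 161) (nat_lit 6) (nat_lit 7) (nat_lit 12) L53433 (by decide +kernel)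
theorem L53435 : W_8 (nat_lit 9) (nat_lit 0x3000900008002c0010001200080000000000000000000000000000000) (nat_lit 0x0) (nat_lit 0x6c007700038021c00000000000000000000000000000000000000) := T_8 (nat_lit 210) (nat_lit 209) (nat_lit 1) (nat_lit 7) (nat_lit 12) L53434 (by decide +kernel)
theorem L53436 : W_8 (nat_lit 10) (nat_lit 0x2000900008002c0010001200080000000000000000000000000000000) (nat_lit 0x0) (nat_lit 0x200010006c007700038021c00000000000000000000000000000000000000) := T_8 (nat_lit 224) (nat_lit 241) (nat_lit 5) (nat_lit 4) (nat_lit 10) L53435 (by decide +kernel)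
theorem L53437 : W_8 (nat_lit 11) (nat_lit 0x2000100008002c0010001200080000000000000000000000000000000) (nat_lit 0x0) (nat_lit 0x3a003d001ec007700038021c00000000000000000000000000000000000000) := Q_8 (nat_lit 211) (C_8 L53411 (C_8 L53414 (C_8 L53422 (C_8 L53427 (C_8 L53436 N_8))))) (by decide +kernel)
theorem L53438 : W_8 (nat_lit 12) (nat_lit 0x100008002c0010001200080000000000000000000000000000000) (nat_lit 0x0) (nat_lit 0x10003e003f001ec007700038021c00000000000000000000000000000000000000) := Q_8 (nat_lit 225) (C_8 L53402 (C_8 L53381 (C_8 L53353 (C_8 L53437 N_8)))) (by decide +kernel)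
theorem L53439 : W_8 (nat_lit 2) (nat_lit 0x40002000100008002c0010001200080000000000000000000000000000000) (nat_lit 0x0) (nat_lit 0x100008000400000000000000000000000000000000000000000000000000000000) := D_8 (nat_lit 243) (nat_lit 260) (nat_lit 226) (nat_lit 7) (nat_lit 4) (nat_lit 11) (nat_lit 7) (nat_lit 4) (nat_lit 10) (by decide +kernel)
theorem L53440 : W_8 (nat_lit 3) (nat_lit 0x2000100008002c0010001200080000000000000000000000000000000) (nat_lit 0x0) (nat_lit 0x10000c000400000001000000000000000000000000000000000000000000000000) := T_8 (nat_lit 242) (nat_lit 192) (nat_lit 6) (nat_lit 4) (nat_lit 14) L53439 (by decide +kernel)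
theorem L53441 : W_8 (nat_lit 2) (nat_lit 0x40003000180008002c0010001200080000000000000000000000000000000) (nat_lit 0x0) (nat_lit 0x1000080000000000000000400000000000000000000000000000000000000000000000) := D_8 (nat_lit 259) (nat_lit 276) (nat_lit 190) (nat_lit 4) (nat_lit 4) (nat_lit 16) (nat_lit 4) (nat_lit 4) (nat_lit 15) (by decide +kernel)
theorem L53442 : W_8 (nat_lit 3) (nat_lit 0x40003000100008002c0010001200080000000000000000000000000000000) (nat_lit 0x0) (nat_lit 0x1000080000000000008000400000002000000000000000000000000000000000000000) := T_8 (nat_lit 207) (nat_lit 157) (nat_lit 5) (nat_lit 4) (nat_lit 9) L53441 (by decide +kernel)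
theorem L53443 : W_8 (nat_lit 4) (nat_lit 0x3000100008002c0010001200080000000000000000000000000000000) (nat_lit 0x0) (nat_lit 0x1000080004000000008001400000002000000000000000000000000000000000000000) := T_8 (nat_lit 242) (nat_lit 192) (nat_lit 6) (nat_lit 4) (nat_lit 14) L53442 (by decide +kernel)
theorem L53444 : W_8 (nat_lit 5) (nat_lit 0x2000100008002c0010001200080000000000000000000000000000000) (nat_lit 0x0) (nat_lit 0x1000080006000100008001400000002000000000000000000000000000000000000000) := T_8 (nat_lit 224) (nat_lit 241) (nat_lit 5) (nat_lit 4) (nat_lit 10) L53443 (by decide +kernel)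
theorem L53445 : W_8 (nat_lit 9) (nat_lit 0x100008002c0010001200080000000000000000000000000000000) (nat_lit 0x0) (nat_lit 0x100018003e0007c0028001400000002000000000000000000000000000000000000000) := Q_8 (nat_lit 225) (C_8 L53395 (C_8 L53356 (C_8 L53353 (C_8 L53440 (C_8 L53444 N_8))))) (by decide +kernel)
theorem L53446 : W_8 (nat_lit 2) (nat_lit 0x4000300008002c0010001200080000000000000000000000000000000) (nat_lit 0x0) (nat_lit 0x100008000000000001000000000000000000000000000000000000000000000000) := D_8 (nat_lit 243) (nat_lit 192) (nat_lit 260) (nat_lit 4) (nat_lit 5) (nat_lit 14) (nat_lit 4) (nat_lit 5) (nat_lit 15) (by decide +kernel)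
theorem L53447 : W_8 (nat_lit 3) (nat_lit 0x300008002c0010001200080000000000000000000000000000000) (nat_lit 0x0) (nat_lit 0x100008000400000001000000002000000000000000000000000000000000000000) := T_8 (nat_lit 226) (nat_lit 157) (nat_lit 7) (nat_lit 4) (nat_lit 9) L53446 (by decide +kernel)
theorem L53448 : W_8 (nat_lit 2) (nat_lit 0x30000e002c0010001200080000000000000000000000000000000) (nat_lit 0x0) (nat_lit 0xc8000000000000000000000000000000000000000000000000000) := D_8 (nat_lit 210) (nat_lit 211) (nat_lit 207) (nat_lit 0) (nat_lit 7) (nat_lit 12) (nat_lit 0) (nat_lit 6) (nat_lit 12) (by decide +kernel)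
theorem L53449 : W_8 (nat_lit 3) (nat_lit 0x30000c002c0010001200080000000000000000000000000000000) (nat_lit 0x0) (nat_lit 0xc8000300000000000000000000000000000000000000000000000) := T_8 (nat_lit 189) (nat_lit 188) (nat_lit 3) (nat_lit 1) (nat_lit 11) L53448 (by decide +kernel)
theorem L53450 : W_8 (nat_lit 2) (nat_lit 0x3c000d002e0013801200080000000000000000000000000000000) (nat_lit 0x0) (nat_lit 0x3000080000000000000000000000000000000000000000000000) := D_8 (nat_lit 205) (nat_lit 204) (nat_lit 187) (nat_lit 2) (nat_lit 0) (nat_lit 12) (nat_lit 0) (nat_lit 4) (nat_lit 12) (by decide +kernel)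
theorem L53451 : W_8 (nat_lit 3) (nat_lit 0x38000d002e0013801200080000000000000000000000000000000) (nat_lit 0x0) (nat_lit 0x80007000080000000000000000000000000000000000000000000000) := T_8 (nat_lit 206) (nat_lit 223) (nat_lit 5) (nat_lit 3) (nat_lit 9) L53450 (by decide +kernel)
theorem L53452 : W_8 (nat_lit 4) (nat_lit 0x38000d002c0013801200080000000000000000000000000000000) (nat_lit 0x0) (nat_lit 0x80007000080020000000040000000000000000000000000000000000) := T_8 (nat_lit 173) (nat_lit 138) (nat_lit 4) (nat_lit 3) (nat_lit 12) L53451 (by decide +kernel)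
theorem L53453 : W_8 (nat_lit 5) (nat_lit 0x38000c002c0013801200080000000000000000000000000000000) (nat_lit 0x0) (nat_lit 0x80007000380020000000040000000000000000000000000000000000) := T_8 (nat_lit 188) (nat_lit 189) (nat_lit 3) (nat_lit 1) (nat_lit 11) L53452 (by decide +kernel)
theorem L53454 : W_8 (nat_lit 6) (nat_lit 0x30000c002c0013801200080000000000000000000000000000000) (nat_lit 0x0) (nat_lit 0x18000f000380020000000040000000000000000000000000000000000) := T_8 (nat_lit 207) (nat_lit 224) (nat_lit 5) (nat_lit 4) (nat_lit 9) L53453 (by decide +kernel)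
theorem L53455 : W_8 (nat_lit 7) (nat_lit 0x30000c002c0013001200080000000000000000000000000000000) (nat_lit 0x0) (nat_lit 0x18000f000380020000c00040000000000000000000000000000000000) := T_8 (nat_lit 155) (nat_lit 154) (nat_lit 3) (nat_lit 1) (nat_lit 9) L53454 (by decide +kernel)
theorem L53456 : W_8 (nat_lit 8) (nat_lit 0x30000c002c0012001200080000000000000000000000000000000) (nat_lit 0x0) (nat_lit 0x18000f000380020001c000c0000000000000000000000000000000000) := T_8 (nat_lit 156) (nat_lit 139) (nat_lit 4) (nat_lit 4) (nat_lit 12) L53455 (by decide +kernel)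
theorem L53457 : W_8 (nat_lit 9) (nat_lit 0x30000c002c0010001200080000000000000000000000000000000) (nat_lit 0x0) (nat_lit 0x58000f000380020003c000c0000000000000000000000000000000000) := T_8 (nat_lit 157) (nat_lit 226) (nat_lit 7) (nat_lit 4) (nat_lit 9) L53456 (by decide +kernel)
theorem L53458 : W_8 (nat_lit 2) (nat_lit 0x1000000024000b0004c002c0010001200080000000000000000000000000000000) (nat_lit 0x0) (nat_lit 0x40001800000000000000000000000000000000000000000000000000000000) := D_8 (nat_lit 228) (nat_lit 246) (nat_lit 227) (nat_lit 7) (nat_lit 7) (nat_lit 10) (nat_lit 0) (nat_lit 8) (nat_lit 13) (by decide +kernel)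
theorem L53459 : W_8 (nat_lit 3) (nat_lit 0x1000000004000b0004c002c0010001200080000000000000000000000000000000) (nat_lit 0x0) (nat_lit 0x40003800100000000000000000000000000000000000000000000000000000) := T_8 (nat_lit 229) (nat_lit 212) (nat_lit 7) (nat_lit 7) (nat_lit 9) L53458 (by decide +kernel)
theorem L53460 : W_8 (nat_lit 4) (nat_lit 0x1000000004000b0000c002c0010001200080000000000000000000000000000000) (nat_lit 0x0) (nat_lit 0x40003800100004000000020000000000000000000000000000000000000000) := T_8 (nat_lit 194) (nat_lit 161) (nat_lit 6) (nat_lit 7) (nat_lit 12) L53459 (by decide +kernel)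
theorem L53461 : W_8 (nat_lit 5) (nat_lit 0x4000b0000c002c0010001200080000000000000000000000000000000) (nat_lit 0x0) (nat_lit 0x100048003800100004000000020000000000000000000000000000000000000000) := T_8 (nat_lit 260) (nat_lit 243) (nat_lit 4) (nat_lit 5) (nat_lit 15) L53460 (by decide +kernel)
theorem L53462 : W_8 (nat_lit 6) (nat_lit 0x400030000c002c0010001200080000000000000000000000000000000) (nat_lit 0x0) (nat_lit 0x1000480038001c0004000000020000000000000000000000000000000000000000) := T_8 (nat_lit 211) (nat_lit 210) (nat_lit 0) (nat_lit 7) (nat_lit 12) L53461 (by decide +kernel)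
theorem L53463 : W_8 (nat_lit 7) (nat_lit 0x30000c002c0010001200080000000000000000000000000000000) (nat_lit 0x0) (nat_lit 0x100048003c001c0004000000022000000000000000000000000000000000000000) := T_8 (nat_lit 226) (nat_lit 157) (nat_lit 7) (nat_lit 4) (nat_lit 9) L53462 (by decide +kernel)
theorem L53464 : W_8 (nat_lit 10) (nat_lit 0x300008002c0010001200080000000000000000000000000000000) (nat_lit 0x0) (nat_lit 0x100048003d801cf004780020023c000c0000000000000000000000000000000000) := Q_8 (nat_lit 190) (C_8 L53449 (C_8 L53457 (C_8 L53463 N_8))) (by decide +kernel)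
theorem L53465 : W_8 (nat_lit 2) (nat_lit 0x1000380008002c0010001200080000000000000000000000000000000) (nat_lit 0x0) (nat_lit 0x40002000000000000400000000000000000000000000000000000000000000000) := D_8 (nat_lit 241) (nat_lit 258) (nat_lit 190) (nat_lit 6) (nat_lit 3) (nat_lit 15) (nat_lit 6) (nat_lit 3) (nat_lit 14) (by decide +kernel)
theorem L53466 : W_8 (nat_lit 3) (nat_lit 0x380008002c0010001200080000000000000000000000000000000) (nat_lit 0x0) (nat_lit 0x40002000100000000400000002000000000000000000000000000000000000000) := T_8 (nat_lit 224) (nat_lit 157) (nat_lit 5) (nat_lit 4) (nat_lit 9) L53465 (by decide +kernel)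
theorem L53467 : W_8 (nat_lit 2) (nat_lit 0x780008002c0010001200080000000000000000000000000000000) (nat_lit 0x0) (nat_lit 0x80000600000000000000000000000000000000000000000000000) := D_8 (nat_lit 190) (nat_lit 189) (nat_lit 211) (nat_lit 0) (nat_lit 6) (nat_lit 12) (nat_lit 0) (nat_lit 7) (nat_lit 12) (by decide +kernel)
theorem L53468 : W_8 (nat_lit 2) (nat_lit 0x1000780008002c0010001200080000000000000000000000000000000) (nat_lit 0x0) (nat_lit 0x2000000000000600000000000000000000000000000000000000000000000) := D_8 (nat_lit 190) (nat_lit 189) (nat_lit 241) (nat_lit 0) (nat_lit 6) (nat_lit 12) (nat_lit 6) (nat_lit 3) (nat_lit 14) (by decide +kernel)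
theorem L53469 : W_8 (nat_lit 3) (nat_lit 0x780008002c0010001200080000000000000000000000000000000) (nat_lit 0x0) (nat_lit 0x2000180000000600000000000000000000000000000000000000000000000) := T_8 (nat_lit 224) (nat_lit 223) (nat_lit 1) (nat_lit 6) (nat_lit 12) L53468 (by decide +kernel)
theorem L53470 : W_8 (nat_lit 2) (nat_lit 0x8000780008002c0010001200080000000000000000000000000000000) (nat_lit 0x0) (nat_lit 0x80006000000000000000000000000000000000000000000000000) := D_8 (nat_lit 194) (nat_lit 193) (nat_lit 211) (nat_lit 2) (nat_lit 3) (nat_lit 12) (nat_lit 5) (nat_lit 7) (nat_lit 9) (by decide +kernel)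
theorem L53471 : W_8 (nat_lit 3) (nat_lit 0x780008002c0010001200080000000000000000000000000000000) (nat_lit 0x0) (nat_lit 0x1800080006000000000000000000000000000000000000000000000000) := T_8 (nat_lit 227) (nat_lit 228) (nat_lit 3) (nat_lit 3) (nat_lit 12) L53470 (by decide +kernel)
theorem L53472 : W_8 (nat_lit 4) (nat_lit 0x380008002c0010001200080000000000000000000000000000000) (nat_lit 0x0) (nat_lit 0x20019800c0006600000000000000000000000000000000000000000000000) := Q_8 (nat_lit 210) (C_8 L53467 (C_8 L53469 (C_8 L53471 N_8))) (by decide +kernel)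
theorem L53473 : W_8 (nat_lit 2) (nat_lit 0x400000001000780038002c0010001200080000000000000000000000000000000) (nat_lit 0x0) (nat_lit 0x10001800000000000000000000000000000000000000000000000000000000) := D_8 (nat_lit 227) (nat_lit 228) (nat_lit 244) (nat_lit 3) (nat_lit 3) (nat_lit 12) (nat_lit 4) (nat_lit 6) (nat_lit 14) (by decide +kernel)
theorem L53474 : W_8 (nat_lit 3) (nat_lit 0x400000001000780028002c0010001200080000000000000000000000000000000) (nat_lit 0x0) (nat_lit 0x10001800004001000000000000000000000000000000000000000000000000) := T_8 (nat_lit 192) (nat_lit 206) (nat_lit 2) (nat_lit 2) (nat_lit 12) L53473 (by decide +kernel)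
theorem L53475 : W_8 (nat_lit 4) (nat_lit 0x400000001000780008002c0010001200080000000000000000000000000000000) (nat_lit 0x0) (nat_lit 0x10001800004007000000000000000000000000000000000000000000000000) := T_8 (nat_lit 193) (nat_lit 194) (nat_lit 2) (nat_lit 3) (nat_lit 12) L53474 (by decide +kernel)
theorem L53476 : W_8 (nat_lit 5) (nat_lit 0x1000780008002c0010001200080000000000000000000000000000000) (nat_lit 0x0) (nat_lit 0x40012001800004007000000000000000000000000000000000000000000000000) := T_8 (nat_lit 258) (nat_lit 241) (nat_lit 6) (nat_lit 3) (nat_lit 15) L53475 (by decide +kernel)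
theorem L53477 : W_8 (nat_lit 6) (nat_lit 0x1000380008002c0010001200080000000000000000000000000000000) (nat_lit 0x0) (nat_lit 0x40012001880044007000000000000000000000000000000000000000000000000) := T_8 (nat_lit 210) (nat_lit 223) (nat_lit 1) (nat_lit 6) (nat_lit 12) L53476 (by decide +kernel)
theorem L53478 : W_8 (nat_lit 7) (nat_lit 0x380008002c0010001200080000000000000000000000000000000) (nat_lit 0x0) (nat_lit 0x40012001980044007000000002000000000000000000000000000000000000000) := T_8 (nat_lit 224) (nat_lit 157) (nat_lit 5) (nat_lit 4) (nat_lit 9) L53477 (by decide +kernel)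
theorem L53479 : W_8 (nat_lit 2) (nat_lit 0x800078002c002c0010001200080000000000000000000000000000000) (nat_lit 0x0) (nat_lit 0x10000000004001000000000000000000000000000000000000000000000000) := D_8 (nat_lit 192) (nat_lit 206) (nat_lit 244) (nat_lit 2) (nat_lit 2) (nat_lit 12) (nat_lit 4) (nat_lit 6) (nat_lit 14) (by decide +kernel)
theorem L53480 : W_8 (nat_lit 3) (nat_lit 0x800078000c002c0010001200080000000000000000000000000000000) (nat_lit 0x0) (nat_lit 0x10000000004007000000000000000000000000000000000000000000000000) := T_8 (nat_lit 193) (nat_lit 194) (nat_lit 2) (nat_lit 3) (nat_lit 12) L53479 (by decide +kernel)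
theorem L53481 : W_8 (nat_lit 4) (nat_lit 0x78000c002c0010001200080000000000000000000000000000000) (nat_lit 0x0) (nat_lit 0x10001800004007000000000000000000000000000000000000000000000000) := T_8 (nat_lit 227) (nat_lit 228) (nat_lit 3) (nat_lit 3) (nat_lit 12) L53480 (by decide +kernel)
theorem L53482 : W_8 (nat_lit 5) (nat_lit 0x780008002c0010001200080000000000000000000000000000000) (nat_lit 0x0) (nat_lit 0x10001800004007600000000000000000000000000000000000000000000000) := T_8 (nat_lit 190) (nat_lit 189) (nat_lit 0) (nat_lit 6) (nat_lit 12) L53481 (by decide +kernel)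
theorem L53483 : W_8 (nat_lit 6) (nat_lit 0x380008002c0010001200080000000000000000000000000000000) (nat_lit 0x0) (nat_lit 0x100018000c4007600000000000000000000000000000000000000000000000) := Q_8 (nat_lit 210) (C_8 L53471 (C_8 L53467 (C_8 L53482 N_8))) (by decide +kernel)
theorem L53484 : W_8 (nat_lit 8) (nat_lit 0x300008002c0010001200080000000000000000000000000000000) (nat_lit 0x0) (nat_lit 0x400120019800cc007600000002000000000000000000000000000000000000000) := Q_8 (nat_lit 207) (C_8 L53466 (C_8 L53472 (C_8 L53478 (C_8 L53483 N_8)))) (by decide +kernel)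
theorem L53485 : W_8 (nat_lit 2) (nat_lit 0x2002c00038005d002c0010001200080000000000000000000000000000000) (nat_lit 0x0) (nat_lit 0x180000000000020000000000000000000000000000000000000000) := D_8 (nat_lit 211) (nat_lit 161) (nat_lit 212) (nat_lit 6) (nat_lit 7) (nat_lit 12) (nat_lit 7) (nat_lit 7) (nat_lit 9) (by decide +kernel)
theorem L53486 : W_8 (nat_lit 3) (nat_lit 0x2002c00038001d002c0010001200080000000000000000000000000000000) (nat_lit 0x0) (nat_lit 0x180006000000020000000000000000000000000000000000000000) := T_8 (nat_lit 194) (nat_lit 193) (nat_lit 1) (nat_lit 7) (nat_lit 11) L53485 (by decide +kernel)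
theorem L53487 : W_8 (nat_lit 4) (nat_lit 0x2c00038001d002c0010001200080000000000000000000000000000000) (nat_lit 0x0) (nat_lit 0x2000100180006000000020000000000000000000000000000000000000000) := T_8 (nat_lit 241) (nat_lit 224) (nat_lit 6) (nat_lit 3) (nat_lit 14) L53486 (by decide +kernel)
theorem L53488 : W_8 (nat_lit 5) (nat_lit 0xc00038001d002c0010001200080000000000000000000000000000000) (nat_lit 0x0) (nat_lit 0x2003100180006000000020000000000000000000000000000000000000000) := T_8 (nat_lit 229) (nat_lit 228) (nat_lit 0) (nat_lit 8) (nat_lit 13) L53487 (by decide +kernel)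
theorem L53489 : W_8 (nat_lit 6) (nat_lit 0xc00030001d002c0010001200080000000000000000000000000000000) (nat_lit 0x0) (nat_lit 0x200310018c006000000020000000000000000000000000000000000000000) := T_8 (nat_lit 207) (nat_lit 206) (nat_lit 3) (nat_lit 2) (nat_lit 12) L53488 (by decide +kernel)
theorem L53490 : W_8 (nat_lit 7) (nat_lit 0x400030001d002c0010001200080000000000000000000000000000000) (nat_lit 0x0) (nat_lit 0x1200390018c006000000020000000000000000000000000000000000000000) := T_8 (nat_lit 227) (nat_lit 244) (nat_lit 7) (nat_lit 5) (nat_lit 10) L53489 (by decide +kernel)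
theorem L53491 : W_8 (nat_lit 8) (nat_lit 0x30001d002c0010001200080000000000000000000000000000000) (nat_lit 0x0) (nat_lit 0x1a003d0018c006000000020000000000000000000000000000000000000000) := T_8 (nat_lit 226) (nat_lit 243) (nat_lit 4) (nat_lit 5) (nat_lit 14) L53490 (by decide +kernel)
theorem L53492 : W_8 (nat_lit 9) (nat_lit 0x30001c002c0010001200080000000000000000000000000000000) (nat_lit 0x0) (nat_lit 0x1a003d0018c006300000020000000000000000000000000000000000000000) := T_8 (nat_lit 188) (nat_lit 189) (nat_lit 3) (nat_lit 1) (nat_lit 11) L53491 (by decide +kernel)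
theorem L53493 : W_8 (nat_lit 2) (nat_lit 0xc00030001e002c0010001200080000000000000000000000000000000) (nat_lit 0x0) (nat_lit 0xe000000000000000000000000000000000000000000000000000) := D_8 (nat_lit 206) (nat_lit 207) (nat_lit 205) (nat_lit 3) (nat_lit 2) (nat_lit 12) (nat_lit 1) (nat_lit 5) (nat_lit 11) (by decide +kernel)
theorem L53494 : W_8 (nat_lit 3) (nat_lit 0x400030001e002c0010001200080000000000000000000000000000000) (nat_lit 0x0) (nat_lit 0x1000080000e000000000000000000000000000000000000000000000000000) := T_8 (nat_lit 227) (nat_lit 244) (nat_lit 7) (nat_lit 5) (nat_lit 10) L53493 (by decide +kernel)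
theorem L53495 : W_8 (nat_lit 4) (nat_lit 0x400030001c002c0010001200080000000000000000000000000000000) (nat_lit 0x0) (nat_lit 0x1000080000e000300000000000000000000000000000000000000000000000) := T_8 (nat_lit 189) (nat_lit 188) (nat_lit 3) (nat_lit 1) (nat_lit 11) L53494 (by decide +kernel)
theorem L53496 : W_8 (nat_lit 5) (nat_lit 0x30001c002c0010001200080000000000000000000000000000000) (nat_lit 0x0) (nat_lit 0x18000c0000e000300000000000000000000000000000000000000000000000) := T_8 (nat_lit 226) (nat_lit 243) (nat_lit 4) (nat_lit 5) (nat_lit 14) L53495 (by decide +kernel)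
theorem L53497 : W_8 (nat_lit 2) (nat_lit 0x34001e002d0010001200080000000000000000000000000000000) (nat_lit 0x0) (nat_lit 0x8002000020000000000000000000000000000000000000000000) := D_8 (nat_lit 193) (nat_lit 173) (nat_lit 207) (nat_lit 3) (nat_lit 2) (nat_lit 10) (nat_lit 2) (nat_lit 2) (nat_lit 12) (by decide +kernel)
theorem L53498 : W_8 (nat_lit 3) (nat_lit 0x30001e002d0010001200080000000000000000000000000000000) (nat_lit 0x0) (nat_lit 0xe002000020000000000000000000000000000000000000000000) := T_8 (nat_lit 206) (nat_lit 205) (nat_lit 1) (nat_lit 5) (nat_lit 11) L53497 (by decide +kernel)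
theorem L53499 : W_8 (nat_lit 4) (nat_lit 0x30001e002c0010001200080000000000000000000000000000000) (nat_lit 0x0) (nat_lit 0xe002000038000000000000000000000000000000000000000000) := T_8 (nat_lit 172) (nat_lit 171) (nat_lit 0) (nat_lit 5) (nat_lit 11) L53498 (by decide +kernel)
theorem L53500 : W_8 (nat_lit 5) (nat_lit 0x30001c002c0010001200080000000000000000000000000000000) (nat_lit 0x0) (nat_lit 0xe002300038000000000000000000000000000000000000000000) := T_8 (nat_lit 189) (nat_lit 188) (nat_lit 3) (nat_lit 1) (nat_lit 11) L53499 (by decide +kernel)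
theorem L53501 : W_8 (nat_lit 2) (nat_lit 0x2002c00038005c002c0010001200080000000000000000000000000000000) (nat_lit 0x0) (nat_lit 0x180000000000020000000000000000000000000000000000000000) := D_8 (nat_lit 211) (nat_lit 161) (nat_lit 212) (nat_lit 6) (nat_lit 7) (nat_lit 12) (nat_lit 7) (nat_lit 7) (nat_lit 9) (by decide +kernel)
theorem L53502 : W_8 (nat_lit 3) (nat_lit 0x2002c00038001c002c0010001200080000000000000000000000000000000) (nat_lit 0x0) (nat_lit 0x180006000000020000000000000000000000000000000000000000) := T_8 (nat_lit 194) (nat_lit 193) (nat_lit 1) (nat_lit 7) (nat_lit 11) L53501 (by decide +kernel)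
theorem L53503 : W_8 (nat_lit 4) (nat_lit 0x2c00038001c002c0010001200080000000000000000000000000000000) (nat_lit 0x0) (nat_lit 0x2000100180006000000020000000000000000000000000000000000000000) := T_8 (nat_lit 241) (nat_lit 224) (nat_lit 6) (nat_lit 3) (nat_lit 14) L53502 (by decide +kernel)
theorem L53504 : W_8 (nat_lit 5) (nat_lit 0xc00038001c002c0010001200080000000000000000000000000000000) (nat_lit 0x0) (nat_lit 0x2003100180006000000020000000000000000000000000000000000000000) := T_8 (nat_lit 229) (nat_lit 228) (nat_lit 0) (nat_lit 8) (nat_lit 13) L53503 (by decide +kernel)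
theorem L53505 : W_8 (nat_lit 6) (nat_lit 0xc00030001c002c0010001200080000000000000000000000000000000) (nat_lit 0x0) (nat_lit 0x200310018c006000000020000000000000000000000000000000000000000) := T_8 (nat_lit 207) (nat_lit 206) (nat_lit 3) (nat_lit 2) (nat_lit 12) L53504 (by decide +kernel)
theorem L53506 : W_8 (nat_lit 7) (nat_lit 0x400030001c002c0010001200080000000000000000000000000000000) (nat_lit 0x0) (nat_lit 0x1200390018c006000000020000000000000000000000000000000000000000) := T_8 (nat_lit 227) (nat_lit 244) (nat_lit 7) (nat_lit 5) (nat_lit 10) L53505 (by decide +kernel)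
theorem L53507 : W_8 (nat_lit 8) (nat_lit 0x30001c002c0010001200080000000000000000000000000000000) (nat_lit 0x0) (nat_lit 0x1a003d0018c006000000020000000000000000000000000000000000000000) := T_8 (nat_lit 226) (nat_lit 243) (nat_lit 4) (nat_lit 5) (nat_lit 14) L53506 (by decide +kernel)
theorem L53508 : W_8 (nat_lit 2) (nat_lit 0x8000000034001e002f0010001200080000000000000000000000000000000) (nat_lit 0x0) (nat_lit 0x1000080000000000000001000000000000000000000000000000000000000) := D_8 (nat_lit 223) (nat_lit 156) (nat_lit 240) (nat_lit 6) (nat_lit 2) (nat_lit 13) (nat_lit 6) (nat_lit 2) (nat_lit 14) (by decide +kernel)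
theorem L53509 : W_8 (nat_lit 3) (nat_lit 0x8000000034001e002d0010001200080000000000000000000000000000000) (nat_lit 0x0) (nat_lit 0x1000080000002000020001000000000000000000000000000000000000000) := T_8 (nat_lit 173) (nat_lit 193) (nat_lit 3) (nat_lit 2) (nat_lit 10) L53508 (by decide +kernel)
theorem L53510 : W_8 (nat_lit 4) (nat_lit 0x8000000030001e002d0010001200080000000000000000000000000000000) (nat_lit 0x0) (nat_lit 0x1000080006002000020001000000000000000000000000000000000000000) := T_8 (nat_lit 206) (nat_lit 205) (nat_lit 1) (nat_lit 5) (nat_lit 11) L53509 (by decide +kernel)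
theorem L53511 : W_8 (nat_lit 5) (nat_lit 0x8000000030001e002c0010001200080000000000000000000000000000000) (nat_lit 0x0) (nat_lit 0x1000080006002000038001000000000000000000000000000000000000000) := T_8 (nat_lit 172) (nat_lit 171) (nat_lit 0) (nat_lit 5) (nat_lit 11) L53510 (by decide +kernel)
theorem L53512 : W_8 (nat_lit 6) (nat_lit 0x8000000030001c002c0010001200080000000000000000000000000000000) (nat_lit 0x0) (nat_lit 0x1000080006002300038001000000000000000000000000000000000000000) := T_8 (nat_lit 189) (nat_lit 188) (nat_lit 3) (nat_lit 1) (nat_lit 11) L53511 (by decide +kernel)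
theorem L53513 : W_8 (nat_lit 7) (nat_lit 0x30001c002c0010001200080000000000000000000000000000000) (nat_lit 0x0) (nat_lit 0x9000480006002300038001000000000000000000000000000000000000000) := T_8 (nat_lit 243) (nat_lit 226) (nat_lit 4) (nat_lit 5) (nat_lit 14) L53512 (by decide +kernel)
theorem L53514 : W_8 (nat_lit 2) (nat_lit 0x8000000030003e002d0010001200080000000000000000000000000000000) (nat_lit 0x0) (nat_lit 0x800c000000000000000000000000000000000000000000000000) := D_8 (nat_lit 194) (nat_lit 195) (nat_lit 207) (nat_lit 1) (nat_lit 8) (nat_lit 11) (nat_lit 1) (nat_lit 7) (nat_lit 11) (by decide +kernel)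
theorem L53515 : W_8 (nat_lit 3) (nat_lit 0x8000000030001e002d0010001200080000000000000000000000000000000) (nat_lit 0x0) (nat_lit 0x800e000020000000000000000000000000000000000000000000) := T_8 (nat_lit 193) (nat_lit 173) (nat_lit 3) (nat_lit 2) (nat_lit 10) L53514 (by decide +kernel)
theorem L53516 : W_8 (nat_lit 4) (nat_lit 0x8000000030001e002c0010001200080000000000000000000000000000000) (nat_lit 0x0) (nat_lit 0x800e000038000000000000000000000000000000000000000000) := T_8 (nat_lit 172) (nat_lit 171) (nat_lit 0) (nat_lit 5) (nat_lit 11) L53515 (by decide +kernel)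
theorem L53517 : W_8 (nat_lit 5) (nat_lit 0x30001e002c0010001200080000000000000000000000000000000) (nat_lit 0x0) (nat_lit 0x800040000800e000038000000000000000000000000000000000000000000) := T_8 (nat_lit 243) (nat_lit 226) (nat_lit 4) (nat_lit 5) (nat_lit 14) L53516 (by decide +kernel)
theorem L53518 : W_8 (nat_lit 6) (nat_lit 0x30001c002c0010001200080000000000000000000000000000000) (nat_lit 0x0) (nat_lit 0x800040000800e300038000000000000000000000000000000000000000000) := T_8 (nat_lit 189) (nat_lit 188) (nat_lit 3) (nat_lit 1) (nat_lit 11) L53517 (by decide +kernel)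
theorem L53519 : W_8 (nat_lit 10) (nat_lit 0x30000c002c0010001200080000000000000000000000000000000) (nat_lit 0x0) (nat_lit 0x1b003d8018e00f300038021000000000000000000000000000000000000000) := Q_8 (nat_lit 192) (C_8 L53492 (C_8 L53496 (C_8 L53500 (C_8 L53507 (C_8 L53513 (C_8 L53518 N_8)))))) (by decide +kernel)
theorem L53520 : W_8 (nat_lit 2) (nat_lit 0x30000e002c0010001200080000000000000000000000000000000) (nat_lit 0x0) (nat_lit 0x48001000000000000000000000000000000000000000000000000) := D_8 (nat_lit 210) (nat_lit 207) (nat_lit 192) (nat_lit 0) (nat_lit 6) (nat_lit 12) (nat_lit 3) (nat_lit 2) (nat_lit 11) (by decide +kernel)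
theorem L53521 : W_8 (nat_lit 3) (nat_lit 0x30000c002c0010001200080000000000000000000000000000000) (nat_lit 0x0) (nat_lit 0x48001300000000000000000000000000000000000000000000000) := T_8 (nat_lit 189) (nat_lit 188) (nat_lit 3) (nat_lit 1) (nat_lit 11) L53520 (by decide +kernel)
theorem L53522 : W_8 (nat_lit 2) (nat_lit 0x30000b0004c002c0010001200080000000000000000000000000000000) (nat_lit 0x0) (nat_lit 0x10000c00000000000000000000000000000000000000000000000000000000) := D_8 (nat_lit 227) (nat_lit 244) (nat_lit 226) (nat_lit 5) (nat_lit 7) (nat_lit 10) (nat_lit 0) (nat_lit 8) (nat_lit 13) (by decide +kernel)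
theorem L53523 : W_8 (nat_lit 3) (nat_lit 0x20000b0004c002c0010001200080000000000000000000000000000000) (nat_lit 0x0) (nat_lit 0x50001c00000000000000000000000000000000000000000000000000000000) := T_8 (nat_lit 228) (nat_lit 246) (nat_lit 7) (nat_lit 7) (nat_lit 10) L53522 (by decide +kernel)
theorem L53524 : W_8 (nat_lit 4) (nat_lit 0xb0004c002c0010001200080000000000000000000000000000000) (nat_lit 0x0) (nat_lit 0x50003c00100000000000000000000000000000000000000000000000000000) := T_8 (nat_lit 229) (nat_lit 212) (nat_lit 7) (nat_lit 7) (nat_lit 9) L53523 (by decide +kernel)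
theorem L53525 : W_8 (nat_lit 5) (nat_lit 0xb0000c002c0010001200080000000000000000000000000000000) (nat_lit 0x0) (nat_lit 0x50003c00100004000000020000000000000000000000000000000000000000) := T_8 (nat_lit 194) (nat_lit 161) (nat_lit 6) (nat_lit 7) (nat_lit 12) L53524 (by decide +kernel)
theorem L53526 : W_8 (nat_lit 6) (nat_lit 0x30000c002c0010001200080000000000000000000000000000000) (nat_lit 0x0) (nat_lit 0x50003c001c0004000000020000000000000000000000000000000000000000) := T_8 (nat_lit 211) (nat_lit 210) (nat_lit 0) (nat_lit 7) (nat_lit 12) L53525 (by decide +kernel)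
theorem L53527 : W_8 (nat_lit 11) (nat_lit 0x300008002c0010001200080000000000000000000000000000000) (nat_lit 0x0) (nat_lit 0x5b003d801ce00f700038021000000000000000000000000000000000000000) := Q_8 (nat_lit 190) (C_8 L53449 (C_8 L53519 (C_8 L53521 (C_8 L53526 N_8)))) (by decide +kernel)
theorem L53528 : W_8 (nat_lit 12) (nat_lit 0x100008002c0010001200080000000000000000000000000000000) (nat_lit 0x0) (nat_lit 0x14005b003d801ef00f780038023c000c0000000000000000000000000000000000) := Q_8 (nat_lit 209) (C_8 L53447 (C_8 L53464 (C_8 L53484 (C_8 L53527 N_8)))) (by decide +kernel)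
theorem L53529 : W_8 (nat_lit 5) (nat_lit 0x100008002c0010001200080000000000000000000000000000000) (nat_lit 0x0) (nat_lit 0x10000e000700008001000020003000080000000000000000000000000000000000) := Q_8 (nat_lit 225) (C_8 L53440 (C_8 L53405 N_8)) (by decide +kernel)
theorem L53530 : W_8 (nat_lit 2) (nat_lit 0x7000300008002e0010001200080000000000000000000000000000000) (nat_lit 0x0) (nat_lit 0xc0040000000000000000000000000000000000000000000000000000) := D_8 (nat_lit 223) (nat_lit 210) (nat_lit 222) (nat_lit 2) (nat_lit 2) (nat_lit 13) (nat_lit 2) (nat_lit 1) (nat_lit 13) (by decide +kernel)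
theorem L53531 : W_8 (nat_lit 3) (nat_lit 0x7000100008002e0010001200080000000000000000000000000000000) (nat_lit 0x0) (nat_lit 0xc0060000000000002000000000000000000000000000000000000000) := T_8 (nat_lit 209) (nat_lit 157) (nat_lit 7) (nat_lit 4) (nat_lit 9) L53530 (by decide +kernel)
theorem L53532 : W_8 (nat_lit 4) (nat_lit 0x7000100008002c0010001200080000000000000000000000000000000) (nat_lit 0x0) (nat_lit 0xc0060000000020003000000000000000000000000000000000000000) := T_8 (nat_lit 173) (nat_lit 156) (nat_lit 4) (nat_lit 4) (nat_lit 13) L53531 (by decide +kernel)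
theorem L53533 : W_8 (nat_lit 5) (nat_lit 0x3000100008002c0010001200080000000000000000000000000000000) (nat_lit 0x0) (nat_lit 0x80004c0060000000020003000000000000000000000000000000000000000) := T_8 (nat_lit 226) (nat_lit 243) (nat_lit 7) (nat_lit 4) (nat_lit 10) L53532 (by decide +kernel)
theorem L53534 : W_8 (nat_lit 6) (nat_lit 0x2000100008002c0010001200080000000000000000000000000000000) (nat_lit 0x0) (nat_lit 0xa0005c0060000000020003000000000000000000000000000000000000000) := T_8 (nat_lit 224) (nat_lit 241) (nat_lit 5) (nat_lit 4) (nat_lit 10) L53533 (by decide +kernel)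
theorem L53535 : W_8 (nat_lit 7) (nat_lit 0x100008002c0010001200080000000000000000000000000000000) (nat_lit 0x0) (nat_lit 0x10000e0007c0060001400020003000000000000000000000000000000000000000) := Q_8 (nat_lit 225) (C_8 L53440 (C_8 L53381 (C_8 L53402 (C_8 L53534 N_8)))) (by decide +kernel)
theorem L53536 : W_8 (nat_lit 2) (nat_lit 0x6000100008002c0011001200080000000000000000000000000000000) (nat_lit 0x0) (nat_lit 0x20000000000002000080000000000000000000000000000000000) := D_8 (nat_lit 157) (nat_lit 139) (nat_lit 209) (nat_lit 4) (nat_lit 4) (nat_lit 12) (nat_lit 7) (nat_lit 4) (nat_lit 9) (by decide +kernel)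
theorem L53537 : W_8 (nat_lit 3) (nat_lit 0x2000100008002c0011001200080000000000000000000000000000000) (nat_lit 0x0) (nat_lit 0x8000400020000000000002000080000000000000000000000000000000000) := T_8 (nat_lit 226) (nat_lit 243) (nat_lit 7) (nat_lit 4) (nat_lit 10) L53536 (by decide +kernel)
theorem L53538 : W_8 (nat_lit 4) (nat_lit 0x2000100008002c0010001200080000000000000000000000000000000) (nat_lit 0x0) (nat_lit 0x8000400020000000020003000080000000000000000000000000000000000) := T_8 (nat_lit 156) (nat_lit 173) (nat_lit 4) (nat_lit 4) (nat_lit 13) L53537 (by decide +kernel)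
theorem L53539 : W_8 (nat_lit 5) (nat_lit 0x100008002c0010001200080000000000000000000000000000000) (nat_lit 0x0) (nat_lit 0x10000c000600020001400020003000080000000000000000000000000000000000) := Q_8 (nat_lit 225) (C_8 L53440 (C_8 L53381 (C_8 L53402 (C_8 L53538 N_8)))) (by decide +kernel)
theorem L53540 : W_8 (nat_lit 6) (nat_lit 0x100008002c0010001200080000000000000000000000000000000) (nat_lit 0x0) (nat_lit 0x1000080006000300008001400020003000080000000000000000000000000000000000) := Q_8 (nat_lit 225) (C_8 L53402 (C_8 L53444 (C_8 L53405 N_8))) (by decide +kernel)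
theorem L53541 : W_8 (nat_lit 13) (nat_lit 0x8002c0010001200080000000000000000000000000000000) (nat_lit 0x0) (nat_lit 0x30001c007f003fe01ff00f780038023c000c0000000000000000000000000000000000) := Q_8 (nat_lit 208) (C_8 L53363 (C_8 L53368 (C_8 L53388 (C_8 L53406 (C_8 L53438 (C_8 L53445 (C_8 L53528 (C_8 L53529 (C_8 L53535 (C_8 L53539 (C_8 L53540 N_8))))))))))) (by decide +kernel)
theorem L53542 : W_8 (nat_lit 2) (nat_lit 0x20006000100008002c0013401200080000000000000000000000000000000) (nat_lit 0x0) (nat_lit 0x40004000000000001000000000000000000000000000000000000000000000000) := D_8 (nat_lit 242) (nat_lit 192) (nat_lit 258) (nat_lit 6) (nat_lit 4) (nat_lit 14) (nat_lit 5) (nat_lit 4) (nat_lit 11) (by decide +kernel)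
theorem L53543 : W_8 (nat_lit 3) (nat_lit 0x6000100008002c0013401200080000000000000000000000000000000) (nat_lit 0x0) (nat_lit 0x40006000100000001000000000000000000000000000000000000000000000000) := T_8 (nat_lit 241) (nat_lit 224) (nat_lit 5) (nat_lit 4) (nat_lit 10) L53542 (by decide +kernel)
theorem L53544 : W_8 (nat_lit 4) (nat_lit 0x4000100008002c0013401200080000000000000000000000000000000) (nat_lit 0x0) (nat_lit 0x4000e000300000001000000000000000000000000000000000000000000000000) := T_8 (nat_lit 225) (nat_lit 243) (nat_lit 7) (nat_lit 4) (nat_lit 10) L53543 (by decide +kernel)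
theorem L53545 : W_8 (nat_lit 5) (nat_lit 0x4000100008002c0013001200080000000000000000000000000000000) (nat_lit 0x0) (nat_lit 0x4000e000300000001000000000c00000000000000000000000000000000000000) := T_8 (nat_lit 154) (nat_lit 155) (nat_lit 3) (nat_lit 1) (nat_lit 9) L53544 (by decide +kernel)
theorem L53546 : W_8 (nat_lit 6) (nat_lit 0x4000100008002c0012001200080000000000000000000000000000000) (nat_lit 0x0) (nat_lit 0x4000e000300000001000000001c00080000000000000000000000000000000000) := T_8 (nat_lit 156) (nat_lit 139) (nat_lit 4) (nat_lit 4) (nat_lit 12) L53545 (by decide +kernel)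
theorem L53547 : W_8 (nat_lit 7) (nat_lit 0x100008002c0012001200080000000000000000000000000000000) (nat_lit 0x0) (nat_lit 0x4000e000700020001000000001c00080000000000000000000000000000000000) := T_8 (nat_lit 226) (nat_lit 209) (nat_lit 7) (nat_lit 4) (nat_lit 9) L53546 (by decide +kernel)
theorem L53548 : W_8 (nat_lit 2) (nat_lit 0x19a0058002c0013401200080000000000000000000000000000000) (nat_lit 0x0) (nat_lit 0x800060000000000000000000000000000000000000000000000000000) := D_8 (nat_lit 210) (nat_lit 209) (nat_lit 227) (nat_lit 0) (nat_lit 8) (nat_lit 12) (nat_lit 5) (nat_lit 7) (nat_lit 9) (by decide +kernel)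
theorem L53549 : W_8 (nat_lit 3) (nat_lit 0x9a0058002c0013401200080000000000000000000000000000000) (nat_lit 0x0) (nat_lit 0x2800160000000000000000000000000000000000000000000000000000) := T_8 (nat_lit 212) (nat_lit 229) (nat_lit 7) (nat_lit 7) (nat_lit 9) L53548 (by decide +kernel)
theorem L53550 : W_8 (nat_lit 4) (nat_lit 0x1a0058002c0013401200080000000000000000000000000000000) (nat_lit 0x0) (nat_lit 0x28001e0000000000020000000000000000000000000000000000000000) := T_8 (nat_lit 211) (nat_lit 161) (nat_lit 6) (nat_lit 7) (nat_lit 12) L53549 (by decide +kernel)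
theorem L53551 : W_8 (nat_lit 5) (nat_lit 0x1a0058002c0013001200080000000000000000000000000000000) (nat_lit 0x0) (nat_lit 0x28001e0000000000020c00000000000000000000000000000000000000) := T_8 (nat_lit 154) (nat_lit 155) (nat_lit 3) (nat_lit 1) (nat_lit 9) L53550 (by decide +kernel)
theorem L53552 : W_8 (nat_lit 6) (nat_lit 0x1a0058002c0012001200080000000000000000000000000000000) (nat_lit 0x0) (nat_lit 0x28001e0000000000021c00080000000000000000000000000000000000) := T_8 (nat_lit 156) (nat_lit 139) (nat_lit 4) (nat_lit 4) (nat_lit 12) L53551 (by decide +kernel)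
theorem L53553 : W_8 (nat_lit 7) (nat_lit 0x1a0018002c0012001200080000000000000000000000000000000) (nat_lit 0x0) (nat_lit 0x28001e0006000000021c00080000000000000000000000000000000000) := T_8 (nat_lit 194) (nat_lit 193) (nat_lit 1) (nat_lit 7) (nat_lit 11) L53552 (by decide +kernel)
theorem L53554 : W_8 (nat_lit 8) (nat_lit 0x180018002c0012001200080000000000000000000000000000000) (nat_lit 0x0) (nat_lit 0x28001e6006000000021c00080000000000000000000000000000000000) := T_8 (nat_lit 205) (nat_lit 206) (nat_lit 2) (nat_lit 1) (nat_lit 12) L53553 (by decide +kernel)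
theorem L53555 : W_8 (nat_lit 9) (nat_lit 0x100018002c0012001200080000000000000000000000000000000) (nat_lit 0x0) (nat_lit 0x29001ee006000000021c00080000000000000000000000000000000000) := T_8 (nat_lit 207) (nat_lit 224) (nat_lit 5) (nat_lit 4) (nat_lit 9) L53554 (by decide +kernel)
theorem L53556 : W_8 (nat_lit 2) (nat_lit 0x380018002c0013401200080000000000000000000000000000000) (nat_lit 0x0) (nat_lit 0x6002000000000000000000000000000000000000000000000000) := D_8 (nat_lit 206) (nat_lit 193) (nat_lit 205) (nat_lit 2) (nat_lit 2) (nat_lit 12) (nat_lit 2) (nat_lit 1) (nat_lit 12) (by decide +kernel)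
theorem L53557 : W_8 (nat_lit 3) (nat_lit 0x300018002c0013401200080000000000000000000000000000000) (nat_lit 0x0) (nat_lit 0x10000e002000000000000000000000000000000000000000000000000) := T_8 (nat_lit 207) (nat_lit 224) (nat_lit 5) (nat_lit 4) (nat_lit 9) L53556 (by decide +kernel)
theorem L53558 : W_8 (nat_lit 4) (nat_lit 0x100018002c0013401200080000000000000000000000000000000) (nat_lit 0x0) (nat_lit 0x50002e002000000000000000000000000000000000000000000000000) := T_8 (nat_lit 209) (nat_lit 226) (nat_lit 7) (nat_lit 4) (nat_lit 9) L53557 (by decide +kernel)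
theorem L53559 : W_8 (nat_lit 5) (nat_lit 0x100018002c0013001200080000000000000000000000000000000) (nat_lit 0x0) (nat_lit 0x50002e002000000000c00000000000000000000000000000000000000) := T_8 (nat_lit 154) (nat_lit 155) (nat_lit 3) (nat_lit 1) (nat_lit 9) L53558 (by decide +kernel)
theorem L53560 : W_8 (nat_lit 6) (nat_lit 0x100018002c0012001200080000000000000000000000000000000) (nat_lit 0x0) (nat_lit 0x50002e002000000001c00080000000000000000000000000000000000) := T_8 (nat_lit 156) (nat_lit 139) (nat_lit 4) (nat_lit 4) (nat_lit 12) L53559 (by decide +kernel)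
theorem L53561 : W_8 (nat_lit 2) (nat_lit 0x280009a0058002c0013401200080000000000000000000000000000000) (nat_lit 0x0) (nat_lit 0x50001000000000000000000000000000000000000000000000000000000000) := D_8 (nat_lit 228) (nat_lit 246) (nat_lit 244) (nat_lit 7) (nat_lit 7) (nat_lit 10) (nat_lit 5) (nat_lit 7) (nat_lit 10) (by decide +kernel)
theorem L53562 : W_8 (nat_lit 3) (nat_lit 0x200009a0058002c0013401200080000000000000000000000000000000) (nat_lit 0x0) (nat_lit 0x50001800040000000000000000000000000000000000000000000000000000) := T_8 (nat_lit 227) (nat_lit 210) (nat_lit 5) (nat_lit 7) (nat_lit 9) L53561 (by decide +kernel)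
theorem L53563 : W_8 (nat_lit 4) (nat_lit 0x9a0058002c0013401200080000000000000000000000000000000) (nat_lit 0x0) (nat_lit 0x50003800140000000000000000000000000000000000000000000000000000) := T_8 (nat_lit 229) (nat_lit 212) (nat_lit 7) (nat_lit 7) (nat_lit 9) L53562 (by decide +kernel)
theorem L53564 : W_8 (nat_lit 5) (nat_lit 0x1a0058002c0013401200080000000000000000000000000000000) (nat_lit 0x0) (nat_lit 0x500038001c0000000000020000000000000000000000000000000000000000) := T_8 (nat_lit 211) (nat_lit 161) (nat_lit 6) (nat_lit 7) (nat_lit 12) L53563 (by decide +kernel)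
theorem L53565 : W_8 (nat_lit 6) (nat_lit 0x1a0058002c0013001200080000000000000000000000000000000) (nat_lit 0x0) (nat_lit 0x500038001c0000000000020c00000000000000000000000000000000000000) := T_8 (nat_lit 154) (nat_lit 155) (nat_lit 3) (nat_lit 1) (nat_lit 9) L53564 (by decide +kernel)
theorem L53566 : W_8 (nat_lit 7) (nat_lit 0x1a0058002c0012001200080000000000000000000000000000000) (nat_lit 0x0) (nat_lit 0x500038001c0000000000021c00080000000000000000000000000000000000) := T_8 (nat_lit 156) (nat_lit 139) (nat_lit 4) (nat_lit 4) (nat_lit 12) L53565 (by decide +kernel)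
theorem L53567 : W_8 (nat_lit 8) (nat_lit 0x1a0018002c0012001200080000000000000000000000000000000) (nat_lit 0x0) (nat_lit 0x500038001c0006000000021c00080000000000000000000000000000000000) := T_8 (nat_lit 194) (nat_lit 193) (nat_lit 1) (nat_lit 7) (nat_lit 11) L53566 (by decide +kernel)
theorem L53568 : W_8 (nat_lit 9) (nat_lit 0x180018002c0012001200080000000000000000000000000000000) (nat_lit 0x0) (nat_lit 0x500038001c6006000000021c00080000000000000000000000000000000000) := T_8 (nat_lit 205) (nat_lit 206) (nat_lit 2) (nat_lit 1) (nat_lit 12) L53567 (by decide +kernel)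
theorem L53569 : W_8 (nat_lit 10) (nat_lit 0x100018002c0012001200080000000000000000000000000000000) (nat_lit 0x0) (nat_lit 0x500039001ce006000000021c00080000000000000000000000000000000000) := T_8 (nat_lit 207) (nat_lit 224) (nat_lit 5) (nat_lit 4) (nat_lit 9) L53568 (by decide +kernel)
theorem L53570 : W_8 (nat_lit 2) (nat_lit 0x80007c001a002c0013401200080000000000000000000000000000000) (nat_lit 0x0) (nat_lit 0x180004000000000000000000000000000000000000000000000000) := D_8 (nat_lit 211) (nat_lit 212) (nat_lit 194) (nat_lit 0) (nat_lit 8) (nat_lit 12) (nat_lit 5) (nat_lit 7) (nat_lit 9) (by decide +kernel)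
theorem L53571 : W_8 (nat_lit 3) (nat_lit 0x7c001a002c0013401200080000000000000000000000000000000) (nat_lit 0x0) (nat_lit 0x1800180004000000000000000000000000000000000000000000000000) := T_8 (nat_lit 227) (nat_lit 228) (nat_lit 3) (nat_lit 3) (nat_lit 12) L53570 (by decide +kernel)
theorem L53572 : W_8 (nat_lit 4) (nat_lit 0x3c001a002c0013401200080000000000000000000000000000000) (nat_lit 0x0) (nat_lit 0x18001c0004400000000000000000000000000000000000000000000000) := T_8 (nat_lit 210) (nat_lit 190) (nat_lit 3) (nat_lit 2) (nat_lit 11) L53571 (by decide +kernel)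
theorem L53573 : W_8 (nat_lit 5) (nat_lit 0x3c0018002c0013401200080000000000000000000000000000000) (nat_lit 0x0) (nat_lit 0x18001c0004700000000000000000000000000000000000000000000000) := T_8 (nat_lit 189) (nat_lit 188) (nat_lit 0) (nat_lit 5) (nat_lit 12) L53572 (by decide +kernel)
theorem L53574 : W_8 (nat_lit 6) (nat_lit 0x380018002c0013401200080000000000000000000000000000000) (nat_lit 0x0) (nat_lit 0x18001c6004700000000000000000000000000000000000000000000000) := T_8 (nat_lit 206) (nat_lit 205) (nat_lit 2) (nat_lit 1) (nat_lit 12) L53573 (by decide +kernel)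
theorem L53575 : W_8 (nat_lit 7) (nat_lit 0x300018002c0013401200080000000000000000000000000000000) (nat_lit 0x0) (nat_lit 0x19001ce004700000000000000000000000000000000000000000000000) := T_8 (nat_lit 207) (nat_lit 224) (nat_lit 5) (nat_lit 4) (nat_lit 9) L53574 (by decide +kernel)
theorem L53576 : W_8 (nat_lit 8) (nat_lit 0x100018002c0013401200080000000000000000000000000000000) (nat_lit 0x0) (nat_lit 0x1d001ee004700000000000000000000000000000000000000000000000) := T_8 (nat_lit 209) (nat_lit 226) (nat_lit 7) (nat_lit 4) (nat_lit 9) L53575 (by decide +kernel)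
theorem L53577 : W_8 (nat_lit 9) (nat_lit 0x100018002c0013001200080000000000000000000000000000000) (nat_lit 0x0) (nat_lit 0x1d001ee004700000000c00000000000000000000000000000000000000) := T_8 (nat_lit 154) (nat_lit 155) (nat_lit 3) (nat_lit 1) (nat_lit 9) L53576 (by decide +kernel)
theorem L53578 : W_8 (nat_lit 10) (nat_lit 0x100018002c0012001200080000000000000000000000000000000) (nat_lit 0x0) (nat_lit 0x1d001ee004700000001c00080000000000000000000000000000000000) := T_8 (nat_lit 156) (nat_lit 139) (nat_lit 4) (nat_lit 4) (nat_lit 12) L53577 (by decide +kernel)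
theorem L53579 : W_8 (nat_lit 2) (nat_lit 0x19a0058002c0013001200080000000000000000000000000000000) (nat_lit 0x0) (nat_lit 0x800060000000000000000000000000000000000000000000000000000) := D_8 (nat_lit 210) (nat_lit 209) (nat_lit 227) (nat_lit 0) (nat_lit 8) (nat_lit 12) (nat_lit 5) (nat_lit 7) (nat_lit 9) (by decide +kernel)
theorem L53580 : W_8 (nat_lit 3) (nat_lit 0x9a0058002c0013001200080000000000000000000000000000000) (nat_lit 0x0) (nat_lit 0x2800160000000000000000000000000000000000000000000000000000) := T_8 (nat_lit 212) (nat_lit 229) (nat_lit 7) (nat_lit 7) (nat_lit 9) L53579 (by decide +kernel)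
theorem L53581 : W_8 (nat_lit 4) (nat_lit 0x1a0058002c0013001200080000000000000000000000000000000) (nat_lit 0x0) (nat_lit 0x28001e0000000000020000000000000000000000000000000000000000) := T_8 (nat_lit 211) (nat_lit 161) (nat_lit 6) (nat_lit 7) (nat_lit 12) L53580 (by decide +kernel)
theorem L53582 : W_8 (nat_lit 5) (nat_lit 0x1a0058002c0012001200080000000000000000000000000000000) (nat_lit 0x0) (nat_lit 0x28001e0000000000021000080000000000000000000000000000000000) := T_8 (nat_lit 156) (nat_lit 139) (nat_lit 4) (nat_lit 4) (nat_lit 12) L53581 (by decide +kernel)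
theorem L53583 : W_8 (nat_lit 6) (nat_lit 0x1a0018002c0012001200080000000000000000000000000000000) (nat_lit 0x0) (nat_lit 0x28001e0006000000021000080000000000000000000000000000000000) := T_8 (nat_lit 194) (nat_lit 193) (nat_lit 1) (nat_lit 7) (nat_lit 11) L53582 (by decide +kernel)
theorem L53584 : W_8 (nat_lit 7) (nat_lit 0x180018002c0012001200080000000000000000000000000000000) (nat_lit 0x0) (nat_lit 0x28001e6006000000021000080000000000000000000000000000000000) := T_8 (nat_lit 205) (nat_lit 206) (nat_lit 2) (nat_lit 1) (nat_lit 12) L53583 (by decide +kernel)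
theorem L53585 : W_8 (nat_lit 8) (nat_lit 0x100018002c0012001200080000000000000000000000000000000) (nat_lit 0x0) (nat_lit 0x29001ee006000000021000080000000000000000000000000000000000) := T_8 (nat_lit 207) (nat_lit 224) (nat_lit 5) (nat_lit 4) (nat_lit 9) L53584 (by decide +kernel)
theorem L53586 : W_8 (nat_lit 2) (nat_lit 0x380018002c0012001200080000000000000000000000000000000) (nat_lit 0x0) (nat_lit 0x6002000000000000000000000000000000000000000000000000) := D_8 (nat_lit 206) (nat_lit 193) (nat_lit 205) (nat_lit 2) (nat_lit 2) (nat_lit 12) (nat_lit 2) (nat_lit 1) (nat_lit 12) (by decide +kernel)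
theorem L53587 : W_8 (nat_lit 3) (nat_lit 0x300018002c0012001200080000000000000000000000000000000) (nat_lit 0x0) (nat_lit 0x10000e002000000000000000000000000000000000000000000000000) := T_8 (nat_lit 207) (nat_lit 224) (nat_lit 5) (nat_lit 4) (nat_lit 9) L53586 (by decide +kernel)
theorem L53588 : W_8 (nat_lit 4) (nat_lit 0x100018002c0012001200080000000000000000000000000000000) (nat_lit 0x0) (nat_lit 0x50002e002000000000000000000000000000000000000000000000000) := T_8 (nat_lit 209) (nat_lit 226) (nat_lit 7) (nat_lit 4) (nat_lit 9) L53587 (by decide +kernel)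
theorem L53589 : W_8 (nat_lit 2) (nat_lit 0x900058002c0013401200080000000000000000000000000000000) (nat_lit 0x0) (nat_lit 0x2000100002000000000000000000000000000000000000000000000000) := D_8 (nat_lit 212) (nat_lit 229) (nat_lit 193) (nat_lit 7) (nat_lit 7) (nat_lit 9) (nat_lit 3) (nat_lit 4) (nat_lit 11) (by decide +kernel)
theorem L53590 : W_8 (nat_lit 3) (nat_lit 0x900018002c0013401200080000000000000000000000000000000) (nat_lit 0x0) (nat_lit 0x2000100006000000020000000000000000000000000000000000000000) := T_8 (nat_lit 194) (nat_lit 161) (nat_lit 6) (nat_lit 7) (nat_lit 12) L53589 (by decide +kernel)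
theorem L53591 : W_8 (nat_lit 4) (nat_lit 0x900018002c0013001200080000000000000000000000000000000) (nat_lit 0x0) (nat_lit 0x2000100006000000020c00000000000000000000000000000000000000) := T_8 (nat_lit 154) (nat_lit 155) (nat_lit 3) (nat_lit 1) (nat_lit 9) L53590 (by decide +kernel)
theorem L53592 : W_8 (nat_lit 5) (nat_lit 0x900018002c0012001200080000000000000000000000000000000) (nat_lit 0x0) (nat_lit 0x2000100006000000021c00080000000000000000000000000000000000) := T_8 (nat_lit 156) (nat_lit 139) (nat_lit 4) (nat_lit 4) (nat_lit 12) L53591 (by decide +kernel)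
theorem L53593 : W_8 (nat_lit 2) (nat_lit 0xb00018002c0012001200080000000000000000000000000000000) (nat_lit 0x0) (nat_lit 0x140000400000000000000000000000000000000000000000000000) := D_8 (nat_lit 210) (nat_lit 212) (nat_lit 190) (nat_lit 0) (nat_lit 8) (nat_lit 12) (nat_lit 0) (nat_lit 7) (nat_lit 12) (by decide +kernel)
theorem L53594 : W_8 (nat_lit 3) (nat_lit 0x900018002c0012001200080000000000000000000000000000000) (nat_lit 0x0) (nat_lit 0x400160000400000000000000000000000000000000000000000000000) := T_8 (nat_lit 209) (nat_lit 226) (nat_lit 7) (nat_lit 4) (nat_lit 9) L53593 (by decide +kernel)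
theorem L53595 : W_8 (nat_lit 2) (nat_lit 0xf00018002c0013401200080000000000000000000000000000000) (nat_lit 0x0) (nat_lit 0x800000004000000020000000000000000000000000000000000000000) := D_8 (nat_lit 194) (nat_lit 161) (nat_lit 227) (nat_lit 6) (nat_lit 7) (nat_lit 12) (nat_lit 5) (nat_lit 7) (nat_lit 9) (by decide +kernel)
theorem L53596 : W_8 (nat_lit 3) (nat_lit 0xb00018002c0013401200080000000000000000000000000000000) (nat_lit 0x0) (nat_lit 0x800040004400000020000000000000000000000000000000000000000) := T_8 (nat_lit 210) (nat_lit 190) (nat_lit 0) (nat_lit 7) (nat_lit 12) L53595 (by decide +kernel)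
theorem L53597 : W_8 (nat_lit 4) (nat_lit 0x900018002c0013401200080000000000000000000000000000000) (nat_lit 0x0) (nat_lit 0xc00060004400000020000000000000000000000000000000000000000) := T_8 (nat_lit 209) (nat_lit 226) (nat_lit 7) (nat_lit 4) (nat_lit 9) L53596 (by decide +kernel)
theorem L53598 : W_8 (nat_lit 5) (nat_lit 0x900018002c0013001200080000000000000000000000000000000) (nat_lit 0x0) (nat_lit 0xc00060004400000020c00000000000000000000000000000000000000) := T_8 (nat_lit 154) (nat_lit 155) (nat_lit 3) (nat_lit 1) (nat_lit 9) L53597 (by decide +kernel)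
theorem L53599 : W_8 (nat_lit 6) (nat_lit 0x900018002c0012001200080000000000000000000000000000000) (nat_lit 0x0) (nat_lit 0xc00060004400000021c00080000000000000000000000000000000000) := T_8 (nat_lit 156) (nat_lit 139) (nat_lit 4) (nat_lit 4) (nat_lit 12) L53598 (by decide +kernel)
theorem L53600 : W_8 (nat_lit 7) (nat_lit 0x100018002c0012001200080000000000000000000000000000000) (nat_lit 0x0) (nat_lit 0x2c001e0006400000021c00080000000000000000000000000000000000) := Q_8 (nat_lit 211) (C_8 L53592 (C_8 L53594 (C_8 L53599 N_8))) (by decide +kernel)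
theorem L53601 : W_8 (nat_lit 11) (nat_lit 0x100008002c0012001200080000000000000000000000000000000) (nat_lit 0x0) (nat_lit 0x50003d001ee007700000021c00080000000000000000000000000000000000) := Q_8 (nat_lit 192) (C_8 L53555 (C_8 L53560 (C_8 L53569 (C_8 L53578 (C_8 L53585 (C_8 L53588 (C_8 L53600 N_8))))))) (by decide +kernel)
theorem L53602 : W_8 (nat_lit 2) (nat_lit 0x100058002c0012001200080000000000000000000000000000000) (nat_lit 0x0) (nat_lit 0x800a000000000000000000000000000000000000000000000000) := D_8 (nat_lit 193) (nat_lit 207) (nat_lit 195) (nat_lit 1) (nat_lit 7) (nat_lit 11) (nat_lit 0) (nat_lit 8) (nat_lit 11) (by decide +kernel)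
theorem L53603 : W_8 (nat_lit 2) (nat_lit 0x1900058002c0013401200080000000000000000000000000000000) (nat_lit 0x0) (nat_lit 0x800060000000000000000000000000000000000000000000000000000) := D_8 (nat_lit 210) (nat_lit 209) (nat_lit 227) (nat_lit 0) (nat_lit 8) (nat_lit 12) (nat_lit 5) (nat_lit 7) (nat_lit 9) (by decide +kernel)
theorem L53604 : W_8 (nat_lit 3) (nat_lit 0x900058002c0013401200080000000000000000000000000000000) (nat_lit 0x0) (nat_lit 0x2800160000000000000000000000000000000000000000000000000000) := T_8 (nat_lit 212) (nat_lit 229) (nat_lit 7) (nat_lit 7) (nat_lit 9) L53603 (by decide +kernel)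
theorem L53605 : W_8 (nat_lit 4) (nat_lit 0x100058002c0013401200080000000000000000000000000000000) (nat_lit 0x0) (nat_lit 0x28001e0000000000020000000000000000000000000000000000000000) := T_8 (nat_lit 211) (nat_lit 161) (nat_lit 6) (nat_lit 7) (nat_lit 12) L53604 (by decide +kernel)
theorem L53606 : W_8 (nat_lit 5) (nat_lit 0x100058002c0013001200080000000000000000000000000000000) (nat_lit 0x0) (nat_lit 0x28001e0000000000020c00000000000000000000000000000000000000) := T_8 (nat_lit 154) (nat_lit 155) (nat_lit 3) (nat_lit 1) (nat_lit 9) L53605 (by decide +kernel)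
theorem L53607 : W_8 (nat_lit 6) (nat_lit 0x100058002c0012001200080000000000000000000000000000000) (nat_lit 0x0) (nat_lit 0x28001e0000000000021c00080000000000000000000000000000000000) := T_8 (nat_lit 156) (nat_lit 139) (nat_lit 4) (nat_lit 4) (nat_lit 12) L53606 (by decide +kernel)
theorem L53608 : W_8 (nat_lit 7) (nat_lit 0x100018002c0012001200080000000000000000000000000000000) (nat_lit 0x0) (nat_lit 0x28001e800e000000021c00080000000000000000000000000000000000) := Q_8 (nat_lit 194) (C_8 L53602 (C_8 L53607 N_8)) (by decide +kernel)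
theorem L53609 : W_8 (nat_lit 2) (nat_lit 0x2000100018002c0012001200080000000000000000000000000000000) (nat_lit 0x0) (nat_lit 0x8000400020000000000000000000000000000000000000000000000000000) := D_8 (nat_lit 226) (nat_lit 209) (nat_lit 243) (nat_lit 7) (nat_lit 4) (nat_lit 9) (nat_lit 7) (nat_lit 4) (nat_lit 10) (by decide +kernel)
theorem L53610 : W_8 (nat_lit 3) (nat_lit 0x100018002c0012001200080000000000000000000000000000000) (nat_lit 0x0) (nat_lit 0xc000600020000000000000000000000000000000000000000000000000000) := T_8 (nat_lit 225) (nat_lit 242) (nat_lit 6) (nat_lit 4) (nat_lit 14) L53609 (by decide +kernel)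
theorem L53611 : W_8 (nat_lit 2) (nat_lit 0x40028000900058002c0012001200080000000000000000000000000000000) (nat_lit 0x0) (nat_lit 0x50001000000000000000000000000000000000000000000000000000000000) := D_8 (nat_lit 228) (nat_lit 246) (nat_lit 244) (nat_lit 7) (nat_lit 7) (nat_lit 10) (nat_lit 5) (nat_lit 7) (nat_lit 10) (by decide +kernel)
theorem L53612 : W_8 (nat_lit 3) (nat_lit 0x40020000900058002c0012001200080000000000000000000000000000000) (nat_lit 0x0) (nat_lit 0x50001800040000000000000000000000000000000000000000000000000000) := T_8 (nat_lit 227) (nat_lit 210) (nat_lit 5) (nat_lit 7) (nat_lit 9) L53611 (by decide +kernel)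
theorem L53613 : W_8 (nat_lit 4) (nat_lit 0x40000000900058002c0012001200080000000000000000000000000000000) (nat_lit 0x0) (nat_lit 0x50003800140000000000000000000000000000000000000000000000000000) := T_8 (nat_lit 229) (nat_lit 212) (nat_lit 7) (nat_lit 7) (nat_lit 9) L53612 (by decide +kernel)
theorem L53614 : W_8 (nat_lit 5) (nat_lit 0x40000000100058002c0012001200080000000000000000000000000000000) (nat_lit 0x0) (nat_lit 0x500038001c0000000000020000000000000000000000000000000000000000) := T_8 (nat_lit 211) (nat_lit 161) (nat_lit 6) (nat_lit 7) (nat_lit 12) L53613 (by decide +kernel)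
theorem L53615 : W_8 (nat_lit 6) (nat_lit 0x100058002c0012001200080000000000000000000000000000000) (nat_lit 0x0) (nat_lit 0x54003a001c0000000000020000000000000000000000000000000000000000) := T_8 (nat_lit 242) (nat_lit 225) (nat_lit 6) (nat_lit 4) (nat_lit 14) L53614 (by decide +kernel)
theorem L53616 : W_8 (nat_lit 7) (nat_lit 0x100018002c0012001200080000000000000000000000000000000) (nat_lit 0x0) (nat_lit 0x54003a001c800e000000020000000000000000000000000000000000000000) := Q_8 (nat_lit 194) (C_8 L53602 (C_8 L53615 N_8)) (by decide +kernel)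
theorem L53617 : W_8 (nat_lit 8) (nat_lit 0x100008002c0012001200080000000000000000000000000000000) (nat_lit 0x0) (nat_lit 0x5c003e001e800f000000021c00080000000000000000000000000000000000) := Q_8 (nat_lit 192) (C_8 L53608 (C_8 L53610 (C_8 L53616 N_8))) (by decide +kernel)
theorem L53618 : W_8 (nat_lit 12) (nat_lit 0x8002c0012001200080000000000000000000000000000000) (nat_lit 0x0) (nat_lit 0x28001c005e003f001fe00f700000021c00080000000000000000000000000000000000) := Q_8 (nat_lit 208) (C_8 L53547 (C_8 L53255 (C_8 L53333 (C_8 L53601 (C_8 L53617 N_8))))) (by decide +kernel)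
theorem L53619 : W_8 (nat_lit 13) (nat_lit 0x8002c0010001200080000000000000000000000000000000) (nat_lit 0x0) (nat_lit 0x28001c005e003f001fe00f700000023c0018001c000200000000000000000000000000) := Q_8 (nat_lit 157) (C_8 L53271 (C_8 L53023 (C_8 L53618 (C_8 L53019 (C_8 L53016 N_8))))) (by decide +kernel)
theorem L53620 : W_8 (nat_lit 6) (nat_lit 0xe002d0010001200080000000000000000000000000000000) (nat_lit 0x0) (nat_lit 0x18e00f000008020000000000000000000000000000000000000000) := T_8 (nat_lit 192) (nat_lit 171) (nat_lit 0) (nat_lit 5) (nat_lit 11) L52404 (by decide +kernel)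
theorem L53621 : W_8 (nat_lit 7) (nat_lit 0xa002d0010001200080000000000000000000000000000000) (nat_lit 0x0) (nat_lit 0x18e00f500008020000000000000000000000000000000000000000) := T_8 (nat_lit 190) (nat_lit 188) (nat_lit 2) (nat_lit 1) (nat_lit 11) L53620 (by decide +kernel)
theorem L53622 : W_8 (nat_lit 10) (nat_lit 0xa002c0010001200080000000000000000000000000000000) (nat_lit 0x0) (nat_lit 0x38001c018f00f500038021e001e0007000080000000000000000000000000) := Q_8 (nat_lit 172) (C_8 L51900 (C_8 L52150 (C_8 L53621 (C_8 L51835 N_8)))) (by decide +kernel)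
theorem L53623 : W_8 (nat_lit 2) (nat_lit 0xb002c0012001300080000000000000000000000000000000) (nat_lit 0x0) (nat_lit 0x20001000000000000000008000000000000000000000000000000) := D_8 (nat_lit 192) (nat_lit 123) (nat_lit 209) (nat_lit 7) (nat_lit 4) (nat_lit 7) (nat_lit 7) (nat_lit 4) (nat_lit 8) (by decide +kernel)
theorem L53624 : W_8 (nat_lit 3) (nat_lit 0xb002c0010001300080000000000000000000000000000000) (nat_lit 0x0) (nat_lit 0x20001000000002000000018000000000000000000000000000000) := T_8 (nat_lit 157) (nat_lit 124) (nat_lit 6) (nat_lit 4) (nat_lit 11) L53623 (by decide +kernel)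
theorem L53625 : W_8 (nat_lit 4) (nat_lit 0xa002c0010001300080000000000000000000000000000000) (nat_lit 0x0) (nat_lit 0x20001500000002000000018000000000000000000000000000000) := T_8 (nat_lit 188) (nat_lit 190) (nat_lit 2) (nat_lit 1) (nat_lit 11) L53624 (by decide +kernel)
theorem L53626 : W_8 (nat_lit 2) (nat_lit 0xa002c0012001300080000000000000000000000000000000) (nat_lit 0x0) (nat_lit 0x8000500000000000000000000000000000000000000000000000) := D_8 (nat_lit 190) (nat_lit 188) (nat_lit 207) (nat_lit 2) (nat_lit 1) (nat_lit 11) (nat_lit 5) (nat_lit 4) (nat_lit 8) (by decide +kernel)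
theorem L53627 : W_8 (nat_lit 3) (nat_lit 0xa002c0010001300080000000000000000000000000000000) (nat_lit 0x0) (nat_lit 0x8000500000002000000010000000000000000000000000000000) := T_8 (nat_lit 157) (nat_lit 124) (nat_lit 6) (nat_lit 4) (nat_lit 11) L53626 (by decide +kernel)
theorem L53628 : W_8 (nat_lit 2) (nat_lit 0x24003e002c0010001300080000000000000000000000000000000) (nat_lit 0x0) (nat_lit 0xc000020000000000000000000000000000000000000000000) := D_8 (nat_lit 194) (nat_lit 173) (nat_lit 195) (nat_lit 0) (nat_lit 7) (nat_lit 11) (nat_lit 0) (nat_lit 8) (nat_lit 11) (by decide +kernel)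
theorem L53629 : W_8 (nat_lit 3) (nat_lit 0x24001e002c0010001300080000000000000000000000000000000) (nat_lit 0x0) (nat_lit 0x800e000020000000000000000000000000000000000000000000) := T_8 (nat_lit 193) (nat_lit 207) (nat_lit 1) (nat_lit 6) (nat_lit 11) L53628 (by decide +kernel)
theorem L53630 : W_8 (nat_lit 4) (nat_lit 0x20001e002c0010001300080000000000000000000000000000000) (nat_lit 0x0) (nat_lit 0xe00e000020000000000000000000000000000000000000000000) := T_8 (nat_lit 206) (nat_lit 205) (nat_lit 1) (nat_lit 5) (nat_lit 11) L53629 (by decide +kernel)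
theorem L53631 : W_8 (nat_lit 5) (nat_lit 0x1e002c0010001300080000000000000000000000000000000) (nat_lit 0x0) (nat_lit 0x6e00e000020000000000000000000000000000000000000000000) := T_8 (nat_lit 209) (nat_lit 210) (nat_lit 3) (nat_lit 2) (nat_lit 11) L53630 (by decide +kernel)
theorem L53632 : W_8 (nat_lit 6) (nat_lit 0x1a002c0010001300080000000000000000000000000000000) (nat_lit 0x0) (nat_lit 0x6e00e500020000000000000000000000000000000000000000000) := T_8 (nat_lit 190) (nat_lit 188) (nat_lit 2) (nat_lit 1) (nat_lit 11) L53631 (by decide +kernel)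
theorem L53633 : W_8 (nat_lit 2) (nat_lit 0x8000000024007e002c0010001300080000000000000000000000000000000) (nat_lit 0x0) (nat_lit 0x180000000000020000000000000000000000000000000000000000) := D_8 (nat_lit 211) (nat_lit 212) (nat_lit 161) (nat_lit 3) (nat_lit 4) (nat_lit 11) (nat_lit 6) (nat_lit 7) (nat_lit 12) (by decide +kernel)
theorem L53634 : W_8 (nat_lit 3) (nat_lit 0x8000000024003e002c0010001300080000000000000000000000000000000) (nat_lit 0x0) (nat_lit 0x18000c000000020000000000000000000000000000000000000000) := T_8 (nat_lit 194) (nat_lit 195) (nat_lit 0) (nat_lit 8) (nat_lit 11) L53633 (by decide +kernel)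
theorem L53635 : W_8 (nat_lit 4) (nat_lit 0x8000000024001e002c0010001300080000000000000000000000000000000) (nat_lit 0x0) (nat_lit 0x18800e000000020000000000000000000000000000000000000000) := T_8 (nat_lit 193) (nat_lit 207) (nat_lit 1) (nat_lit 6) (nat_lit 11) L53634 (by decide +kernel)
theorem L53636 : W_8 (nat_lit 5) (nat_lit 0x24001e002c0010001300080000000000000000000000000000000) (nat_lit 0x0) (nat_lit 0x800040018800e000000020000000000000000000000000000000000000000) := T_8 (nat_lit 243) (nat_lit 226) (nat_lit 4) (nat_lit 5) (nat_lit 14) L53635 (by decide +kernel)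
theorem L53637 : W_8 (nat_lit 6) (nat_lit 0x20001e002c0010001300080000000000000000000000000000000) (nat_lit 0x0) (nat_lit 0x800040018e00e000000020000000000000000000000000000000000000000) := T_8 (nat_lit 206) (nat_lit 205) (nat_lit 1) (nat_lit 5) (nat_lit 11) L53636 (by decide +kernel)
theorem L53638 : W_8 (nat_lit 7) (nat_lit 0x1e002c0010001300080000000000000000000000000000000) (nat_lit 0x0) (nat_lit 0x80004001ee00e000000020000000000000000000000000000000000000000) := T_8 (nat_lit 209) (nat_lit 210) (nat_lit 3) (nat_lit 2) (nat_lit 11) L53637 (by decide +kernel)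
theorem L53639 : W_8 (nat_lit 8) (nat_lit 0x1a002c0010001300080000000000000000000000000000000) (nat_lit 0x0) (nat_lit 0x80004001ee00e500000020000000000000000000000000000000000000000) := T_8 (nat_lit 190) (nat_lit 188) (nat_lit 2) (nat_lit 1) (nat_lit 11) L53638 (by decide +kernel)
theorem L53640 : W_8 (nat_lit 2) (nat_lit 0x4003e002c0010001300080000000000000000000000000000000) (nat_lit 0x0) (nat_lit 0xc000020000000000000000000000000000000000000000000) := D_8 (nat_lit 194) (nat_lit 173) (nat_lit 195) (nat_lit 0) (nat_lit 7) (nat_lit 11) (nat_lit 0) (nat_lit 8) (nat_lit 11) (by decide +kernel)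
theorem L53641 : W_8 (nat_lit 3) (nat_lit 0x4001e002c0010001300080000000000000000000000000000000) (nat_lit 0x0) (nat_lit 0x800e000020000000000000000000000000000000000000000000) := T_8 (nat_lit 193) (nat_lit 207) (nat_lit 1) (nat_lit 6) (nat_lit 11) L53640 (by decide +kernel)
theorem L53642 : W_8 (nat_lit 4) (nat_lit 0x1e002c0010001300080000000000000000000000000000000) (nat_lit 0x0) (nat_lit 0xe00e000020000000000000000000000000000000000000000000) := T_8 (nat_lit 206) (nat_lit 205) (nat_lit 1) (nat_lit 5) (nat_lit 11) L53641 (by decide +kernel)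
theorem L53643 : W_8 (nat_lit 5) (nat_lit 0x1a002c0010001300080000000000000000000000000000000) (nat_lit 0x0) (nat_lit 0xe00e500020000000000000000000000000000000000000000000) := T_8 (nat_lit 190) (nat_lit 188) (nat_lit 2) (nat_lit 1) (nat_lit 11) L53642 (by decide +kernel)
theorem L53644 : W_8 (nat_lit 2) (nat_lit 0x1000f00024001e002c0010001300080000000000000000000000000000000) (nat_lit 0x0) (nat_lit 0x800080000000000020000000000000000000000000000000000000000000) := D_8 (nat_lit 223) (nat_lit 239) (nat_lit 173) (nat_lit 1) (nat_lit 5) (nat_lit 13) (nat_lit 6) (nat_lit 2) (nat_lit 14) (by decide +kernel)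
theorem L53645 : W_8 (nat_lit 3) (nat_lit 0xf00024001e002c0010001300080000000000000000000000000000000) (nat_lit 0x0) (nat_lit 0x3800080000000000020000000000000000000000000000000000000000000) := T_8 (nat_lit 240) (nat_lit 241) (nat_lit 1) (nat_lit 6) (nat_lit 13) L53644 (by decide +kernel)
theorem L53646 : W_8 (nat_lit 4) (nat_lit 0xe00024001e002c0010001300080000000000000000000000000000000) (nat_lit 0x0) (nat_lit 0x3800180008000000020000000000000000000000000000000000000000000) := T_8 (nat_lit 224) (nat_lit 207) (nat_lit 0) (nat_lit 6) (nat_lit 13) L53645 (by decide +kernel)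
theorem L53647 : W_8 (nat_lit 5) (nat_lit 0x600024001e002c0010001300080000000000000000000000000000000) (nat_lit 0x0) (nat_lit 0x13800980008000000020000000000000000000000000000000000000000000) := T_8 (nat_lit 227) (nat_lit 244) (nat_lit 7) (nat_lit 5) (nat_lit 10) L53646 (by decide +kernel)
theorem L53648 : W_8 (nat_lit 6) (nat_lit 0x400024001e002c0010001300080000000000000000000000000000000) (nat_lit 0x0) (nat_lit 0x17800b80008000000020000000000000000000000000000000000000000000) := T_8 (nat_lit 225) (nat_lit 242) (nat_lit 5) (nat_lit 5) (nat_lit 10) L53647 (by decide +kernel)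
theorem L53649 : W_8 (nat_lit 7) (nat_lit 0x24001e002c0010001300080000000000000000000000000000000) (nat_lit 0x0) (nat_lit 0x1f800f80008000000020000000000000000000000000000000000000000000) := T_8 (nat_lit 226) (nat_lit 243) (nat_lit 4) (nat_lit 5) (nat_lit 14) L53648 (by decide +kernel)
theorem L53650 : W_8 (nat_lit 8) (nat_lit 0x20001e002c0010001300080000000000000000000000000000000) (nat_lit 0x0) (nat_lit 0x1f800f8000e000000020000000000000000000000000000000000000000000) := T_8 (nat_lit 206) (nat_lit 205) (nat_lit 1) (nat_lit 5) (nat_lit 11) L53649 (by decide +kernel)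
theorem L53651 : W_8 (nat_lit 9) (nat_lit 0x1e002c0010001300080000000000000000000000000000000) (nat_lit 0x0) (nat_lit 0x1f800f8006e000000020000000000000000000000000000000000000000000) := T_8 (nat_lit 209) (nat_lit 210) (nat_lit 3) (nat_lit 2) (nat_lit 11) L53650 (by decide +kernel)
theorem L53652 : W_8 (nat_lit 10) (nat_lit 0x1a002c0010001300080000000000000000000000000000000) (nat_lit 0x0) (nat_lit 0x1f800f8006e000500020000000000000000000000000000000000000000000) := T_8 (nat_lit 190) (nat_lit 188) (nat_lit 2) (nat_lit 1) (nat_lit 11) L53651 (by decide +kernel)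
theorem L53653 : W_8 (nat_lit 2) (nat_lit 0x5a002c0010001300080000000000000000000000000000000) (nat_lit 0x0) (nat_lit 0xa000020000000000000000000000000000000000000000000) := D_8 (nat_lit 193) (nat_lit 173) (nat_lit 195) (nat_lit 0) (nat_lit 7) (nat_lit 11) (nat_lit 0) (nat_lit 8) (nat_lit 11) (by decide +kernel)
theorem L53654 : W_8 (nat_lit 2) (nat_lit 0x180005a002c0010001300080000000000000000000000000000000) (nat_lit 0x0) (nat_lit 0x800060000000000000000000000000000000000000000000000000000) := D_8 (nat_lit 210) (nat_lit 209) (nat_lit 227) (nat_lit 0) (nat_lit 8) (nat_lit 12) (nat_lit 5) (nat_lit 7) (nat_lit 9) (by decide +kernel)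
theorem L53655 : W_8 (nat_lit 3) (nat_lit 0x80005a002c0010001300080000000000000000000000000000000) (nat_lit 0x0) (nat_lit 0x2800160000000000000000000000000000000000000000000000000000) := T_8 (nat_lit 212) (nat_lit 229) (nat_lit 7) (nat_lit 7) (nat_lit 9) L53654 (by decide +kernel)
theorem L53656 : W_8 (nat_lit 4) (nat_lit 0x5a002c0010001300080000000000000000000000000000000) (nat_lit 0x0) (nat_lit 0x28001e0000000000020000000000000000000000000000000000000000) := T_8 (nat_lit 211) (nat_lit 161) (nat_lit 6) (nat_lit 7) (nat_lit 12) L53655 (by decide +kernel)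
theorem L53657 : W_8 (nat_lit 5) (nat_lit 0x1a002c0010001300080000000000000000000000000000000) (nat_lit 0x0) (nat_lit 0x28001e000e000020020000000000000000000000000000000000000000) := Q_8 (nat_lit 194) (C_8 L53653 (C_8 L53656 N_8)) (by decide +kernel)
theorem L53658 : W_8 (nat_lit 11) (nat_lit 0xa002c0010001300080000000000000000000000000000000) (nat_lit 0x0) (nat_lit 0x1f802f801ee00f500020020000000000000000000000000000000000000000) := Q_8 (nat_lit 192) (C_8 L53632 (C_8 L53639 (C_8 L53643 (C_8 L53652 (C_8 L53657 N_8))))) (by decide +kernel)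
theorem L53659 : W_8 (nat_lit 2) (nat_lit 0xa002c0012001300080000000000000000000000000000000) (nat_lit 0x0) (nat_lit 0x20001000000000000000008000000000000000000000000000000) := D_8 (nat_lit 192) (nat_lit 123) (nat_lit 209) (nat_lit 7) (nat_lit 4) (nat_lit 7) (nat_lit 7) (nat_lit 4) (nat_lit 8) (by decide +kernel)
theorem L53660 : W_8 (nat_lit 3) (nat_lit 0xa002c0010001300080000000000000000000000000000000) (nat_lit 0x0) (nat_lit 0x20001000000002000000018000000000000000000000000000000) := T_8 (nat_lit 157) (nat_lit 124) (nat_lit 6) (nat_lit 4) (nat_lit 11) L53659 (by decide +kernel)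
theorem L53661 : W_8 (nat_lit 12) (nat_lit 0xa002c0010001200080000000000000000000000000000000) (nat_lit 0x0) (nat_lit 0x1f802f801ee00f500020022000100018000000000000000000000000000000) := Q_8 (nat_lit 140) (C_8 L53625 (C_8 L53627 (C_8 L53658 (C_8 L53660 N_8)))) (by decide +kernel)
theorem L53662 : W_8 (nat_lit 2) (nat_lit 0x24001e002d0010001200080000000000000000000000000000000) (nat_lit 0x0) (nat_lit 0x8000400000000000000002000000000000000000000000000000000000000) := D_8 (nat_lit 226) (nat_lit 243) (nat_lit 157) (nat_lit 4) (nat_lit 5) (nat_lit 14) (nat_lit 4) (nat_lit 5) (nat_lit 13) (by decide +kernel)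
theorem L53663 : W_8 (nat_lit 3) (nat_lit 0x4001e002d0010001200080000000000000000000000000000000) (nat_lit 0x0) (nat_lit 0x8000400060000000000002000000000000000000000000000000000000000) := T_8 (nat_lit 209) (nat_lit 210) (nat_lit 3) (nat_lit 2) (nat_lit 11) L53662 (by decide +kernel)
theorem L53664 : W_8 (nat_lit 4) (nat_lit 0x1e002d0010001200080000000000000000000000000000000) (nat_lit 0x0) (nat_lit 0x8000400066000000000002000000000000000000000000000000000000000) := T_8 (nat_lit 206) (nat_lit 205) (nat_lit 1) (nat_lit 5) (nat_lit 11) L53663 (by decide +kernel)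
theorem L53665 : W_8 (nat_lit 5) (nat_lit 0xe002d0010001200080000000000000000000000000000000) (nat_lit 0x0) (nat_lit 0x8000400066001000008002000000000000000000000000000000000000000) := T_8 (nat_lit 192) (nat_lit 171) (nat_lit 0) (nat_lit 5) (nat_lit 11) L53664 (by decide +kernel)
theorem L53666 : W_8 (nat_lit 6) (nat_lit 0xa002d0010001200080000000000000000000000000000000) (nat_lit 0x0) (nat_lit 0x8000400066001500008002000000000000000000000000000000000000000) := T_8 (nat_lit 190) (nat_lit 188) (nat_lit 2) (nat_lit 1) (nat_lit 11) L53665 (by decide +kernel)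
theorem L53667 : W_8 (nat_lit 10) (nat_lit 0xa002c0010001200080000000000000000000000000000000) (nat_lit 0x0) (nat_lit 0xb8005c006f001500038003e001e0007000080000000000000000000000000) := Q_8 (nat_lit 172) (C_8 L51900 (C_8 L52150 (C_8 L53666 (C_8 L51835 N_8)))) (by decide +kernel)
theorem L53668 : W_8 (nat_lit 2) (nat_lit 0xc000b002d0011801200080000000000000000000000000000000) (nat_lit 0x0) (nat_lit 0x2400020000000000000000000000000000000000) := D_8 (nat_lit 154) (nat_lit 157) (nat_lit 137) (nat_lit 3) (nat_lit 1) (nat_lit 9) (nat_lit 4) (nat_lit 2) (nat_lit 12) (by decide +kernel)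
theorem L53669 : W_8 (nat_lit 3) (nat_lit 0xc000b002d0010801200080000000000000000000000000000000) (nat_lit 0x0) (nat_lit 0x34000a0000000000000000000000000000000000) := T_8 (nat_lit 156) (nat_lit 139) (nat_lit 6) (nat_lit 2) (nat_lit 12) L53668 (by decide +kernel)
theorem L53670 : W_8 (nat_lit 4) (nat_lit 0x4000b002d0010801200080000000000000000000000000000000) (nat_lit 0x0) (nat_lit 0x1000080000000000034000a0000000000000000000000000000000000) := T_8 (nat_lit 207) (nat_lit 224) (nat_lit 7) (nat_lit 2) (nat_lit 9) L53669 (by decide +kernel)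
theorem L53671 : W_8 (nat_lit 5) (nat_lit 0x4000a002d0010801200080000000000000000000000000000000) (nat_lit 0x0) (nat_lit 0x1000080005000000034000a0000000000000000000000000000000000) := T_8 (nat_lit 188) (nat_lit 190) (nat_lit 2) (nat_lit 1) (nat_lit 11) L53670 (by decide +kernel)
theorem L53672 : W_8 (nat_lit 6) (nat_lit 0xa002d0010801200080000000000000000000000000000000) (nat_lit 0x0) (nat_lit 0x28001c000e0005000080034000a0000000000000000000000000000000000) := Q_8 (nat_lit 206) (C_8 L52577 (C_8 L52064 (C_8 L52056 (C_8 L53671 N_8)))) (by decide +kernel)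
theorem L53673 : W_8 (nat_lit 10) (nat_lit 0xa002d0010001200080000000000000000000000000000000) (nat_lit 0x0) (nat_lit 0x38001c000f000500008003c001e003f00038001c000200000000000000000) := Q_8 (nat_lit 155) (C_8 L52607 (C_8 L52522 (C_8 L53672 (C_8 L52083 (C_8 L52567 (C_8 L52088 (C_8 L52069 N_8))))))) (by decide +kernel)
theorem L53674 : W_8 (nat_lit 10) (nat_lit 0xa002d0010001200080000000000000000000000000000000) (nat_lit 0x0) (nat_lit 0x500038001c000e000100028001c001e0007000080000000000000000000000000) := T_8 (nat_lit 173) (nat_lit 188) (nat_lit 1) (nat_lit 5) (nat_lit 10) L52641 (by decide +kernel)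
theorem L53675 : W_8 (nat_lit 11) (nat_lit 0xa002c0010001200080000000000000000000000000000000) (nat_lit 0x0) (nat_lit 0x500038001c000f000500038003c001e003f00038001c000200000000000000000) := Q_8 (nat_lit 172) (C_8 L51835 (C_8 L52150 (C_8 L53673 (C_8 L53674 N_8)))) (by decide +kernel)
theorem L53676 : W_8 (nat_lit 2) (nat_lit 0x4000a002f0011001200080000000000000000000000000000000) (nat_lit 0x0) (nat_lit 0x400000000000080004000000000000000000000000000000) := D_8 (nat_lit 139) (nat_lit 122) (nat_lit 190) (nat_lit 7) (nat_lit 3) (nat_lit 7) (nat_lit 5) (nat_lit 3) (nat_lit 8) (by decide +kernel)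
theorem L53677 : W_8 (nat_lit 3) (nat_lit 0xa002f0011001200080000000000000000000000000000000) (nat_lit 0x0) (nat_lit 0x80004000400000000000080004000000000000000000000000000000) := T_8 (nat_lit 206) (nat_lit 223) (nat_lit 6) (nat_lit 2) (nat_lit 13) L53676 (by decide +kernel)
theorem L53678 : W_8 (nat_lit 2) (nat_lit 0xc000e002f0011801200080000000000000000000000000000000) (nat_lit 0x0) (nat_lit 0x40003000000000000000000000000000000000000000000000000000) := D_8 (nat_lit 205) (nat_lit 204) (nat_lit 222) (nat_lit 2) (nat_lit 0) (nat_lit 12) (nat_lit 5) (nat_lit 2) (nat_lit 9) (by decide +kernel)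
theorem L53679 : W_8 (nat_lit 3) (nat_lit 0xc000a002f0011801200080000000000000000000000000000000) (nat_lit 0x0) (nat_lit 0x40003000400000000000040000000000000000000000000000000000) := T_8 (nat_lit 190) (nat_lit 138) (nat_lit 7) (nat_lit 2) (nat_lit 8) L53678 (by decide +kernel)
theorem L53680 : W_8 (nat_lit 4) (nat_lit 0x4000a002f0011801200080000000000000000000000000000000) (nat_lit 0x0) (nat_lit 0x14000b000400000000000040000000000000000000000000000000000) := T_8 (nat_lit 207) (nat_lit 224) (nat_lit 7) (nat_lit 2) (nat_lit 9) L53679 (by decide +kernel)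
theorem L53681 : W_8 (nat_lit 5) (nat_lit 0xa002f0011801200080000000000000000000000000000000) (nat_lit 0x0) (nat_lit 0x1c000f000400000000000040000000000000000000000000000000000) := T_8 (nat_lit 206) (nat_lit 223) (nat_lit 6) (nat_lit 2) (nat_lit 13) L53680 (by decide +kernel)
theorem L53682 : W_8 (nat_lit 6) (nat_lit 0xa002f0011001200080000000000000000000000000000000) (nat_lit 0x0) (nat_lit 0x1c000f000400000000c00040000000000000000000000000000000000) := T_8 (nat_lit 155) (nat_lit 154) (nat_lit 0) (nat_lit 5) (nat_lit 10) L53681 (by decide +kernel)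
theorem L53683 : W_8 (nat_lit 2) (nat_lit 0xa002f8011401200084000000000000000000000000000000) (nat_lit 0x0) (nat_lit 0x400004002000000000000000000000000000000000000000) := D_8 (nat_lit 170) (nat_lit 190) (nat_lit 157) (nat_lit 3) (nat_lit 0) (nat_lit 10) (nat_lit 2) (nat_lit 0) (nat_lit 10) (by decide +kernel)
theorem L53684 : W_8 (nat_lit 3) (nat_lit 0xa002f0011401200084000000000000000000000000000000) (nat_lit 0x0) (nat_lit 0x40000c002200000000000000000000000000000000000000) := T_8 (nat_lit 171) (nat_lit 153) (nat_lit 0) (nat_lit 4) (nat_lit 10) L53683 (by decide +kernel)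
theorem L53685 : W_8 (nat_lit 4) (nat_lit 0xa002f0011001200084000000000000000000000000000000) (nat_lit 0x0) (nat_lit 0x40000c002e00000000000000000000000000000000000000) := T_8 (nat_lit 154) (nat_lit 155) (nat_lit 0) (nat_lit 5) (nat_lit 10) L53684 (by decide +kernel)
theorem L53686 : W_8 (nat_lit 5) (nat_lit 0xa002f0011001200080000000000000000000000000000000) (nat_lit 0x0) (nat_lit 0x40000c002e00080004000000000000000000000000000000) := T_8 (nat_lit 122) (nat_lit 139) (nat_lit 7) (nat_lit 3) (nat_lit 7) L53685 (by decide +kernel)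
theorem L53687 : W_8 (nat_lit 7) (nat_lit 0xa002f0010001200080000000000000000000000000000000) (nat_lit 0x0) (nat_lit 0x1c000f00040000c003e000c0004000000000000000000000000000000) := Q_8 (nat_lit 156) (C_8 L51883 (C_8 L53677 (C_8 L53682 (C_8 L53686 N_8)))) (by decide +kernel)
theorem L53688 : W_8 (nat_lit 4) (nat_lit 0x1e002f0010001200080000000000000000000000000000000) (nat_lit 0x0) (nat_lit 0x100068000000000000c00040000000000000000000000000000000000) := T_8 (nat_lit 209) (nat_lit 210) (nat_lit 3) (nat_lit 2) (nat_lit 11) L52805 (by decide +kernel)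
theorem L53689 : W_8 (nat_lit 5) (nat_lit 0xe002f0010001200080000000000000000000000000000000) (nat_lit 0x0) (nat_lit 0x100068003000000000c00040000000000000000000000000000000000) := T_8 (nat_lit 192) (nat_lit 193) (nat_lit 3) (nat_lit 2) (nat_lit 10) L53688 (by decide +kernel)
theorem L53690 : W_8 (nat_lit 2) (nat_lit 0x2e002f0010801200080000000000000000000000000000000) (nat_lit 0x0) (nat_lit 0x100008000000000000000040000000000000000000000000000000000) := D_8 (nat_lit 207) (nat_lit 224) (nat_lit 138) (nat_lit 4) (nat_lit 3) (nat_lit 13) (nat_lit 7) (nat_lit 2) (nat_lit 8) (by decide +kernel)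
theorem L53691 : W_8 (nat_lit 3) (nat_lit 0x2e002f0010001200080000000000000000000000000000000) (nat_lit 0x0) (nat_lit 0x100008000000000000c00040000000000000000000000000000000000) := T_8 (nat_lit 155) (nat_lit 154) (nat_lit 0) (nat_lit 5) (nat_lit 10) L53690 (by decide +kernel)
theorem L53692 : W_8 (nat_lit 4) (nat_lit 0xe002f0010001200080000000000000000000000000000000) (nat_lit 0x0) (nat_lit 0x100008003000000000c00040000000000000000000000000000000000) := T_8 (nat_lit 193) (nat_lit 192) (nat_lit 3) (nat_lit 2) (nat_lit 10) L53691 (by decide +kernel)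
theorem L53693 : W_8 (nat_lit 2) (nat_lit 0xe002f0010801200080000000000000000000000000000000) (nat_lit 0x0) (nat_lit 0x100008000000000000000040000000000000000000000000000000000) := D_8 (nat_lit 207) (nat_lit 224) (nat_lit 138) (nat_lit 4) (nat_lit 3) (nat_lit 13) (nat_lit 7) (nat_lit 2) (nat_lit 8) (by decide +kernel)
theorem L53694 : W_8 (nat_lit 3) (nat_lit 0xe002f0010001200080000000000000000000000000000000) (nat_lit 0x0) (nat_lit 0x100008000000000000c00040000000000000000000000000000000000) := T_8 (nat_lit 155) (nat_lit 154) (nat_lit 0) (nat_lit 5) (nat_lit 10) L53693 (by decide +kernel)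
theorem L53695 : W_8 (nat_lit 2) (nat_lit 0x20001e002f0010001200080000000000000000000000000000000) (nat_lit 0x0) (nat_lit 0x8000400000000000000002000000000000000000000000000000000000000) := D_8 (nat_lit 226) (nat_lit 243) (nat_lit 157) (nat_lit 4) (nat_lit 5) (nat_lit 14) (nat_lit 4) (nat_lit 5) (nat_lit 13) (by decide +kernel)
theorem L53696 : W_8 (nat_lit 3) (nat_lit 0x1e002f0010001200080000000000000000000000000000000) (nat_lit 0x0) (nat_lit 0x8000400060000000000002000000000000000000000000000000000000000) := T_8 (nat_lit 209) (nat_lit 210) (nat_lit 3) (nat_lit 2) (nat_lit 11) L53695 (by decide +kernel)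
theorem L53697 : W_8 (nat_lit 4) (nat_lit 0xe002f0010001200080000000000000000000000000000000) (nat_lit 0x0) (nat_lit 0x8000400060003000000002000000000000000000000000000000000000000) := T_8 (nat_lit 192) (nat_lit 193) (nat_lit 3) (nat_lit 2) (nat_lit 10) L53696 (by decide +kernel)
theorem L53698 : W_8 (nat_lit 6) (nat_lit 0xa002f0010001200080000000000000000000000000000000) (nat_lit 0x0) (nat_lit 0x8000500068003400000002c00040000000000000000000000000000000000) := Q_8 (nat_lit 190) (C_8 L53689 (C_8 L53692 (C_8 L53694 (C_8 L53697 N_8)))) (by decide +kernel)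
theorem L53699 : W_8 (nat_lit 8) (nat_lit 0xa002d0010001200080000000000000000000000000000000) (nat_lit 0x0) (nat_lit 0x80005c006f00340002c003e000c0004000000000000000000000000000000) := Q_8 (nat_lit 173) (C_8 L51881 (C_8 L53687 (C_8 L51842 (C_8 L53698 N_8)))) (by decide +kernel)
theorem L53700 : W_8 (nat_lit 9) (nat_lit 0xa002c0010001200080000000000000000000000000000000) (nat_lit 0x0) (nat_lit 0x80005c01ef00f50003c023e000c0004000000000000000000000000000000) := Q_8 (nat_lit 172) (C_8 L53666 (C_8 L53621 (C_8 L51835 (C_8 L51900 (C_8 L53699 N_8))))) (by decide +kernel)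
theorem L53701 : W_8 (nat_lit 2) (nat_lit 0x800010002c001e002c0010001300080000000000000000000000000000000) (nat_lit 0x0) (nat_lit 0x18000800000000000000000000000000000000000000) := D_8 (nat_lit 172) (nat_lit 171) (nat_lit 155) (nat_lit 0) (nat_lit 5) (nat_lit 11) (nat_lit 7) (nat_lit 2) (nat_lit 9) (by decide +kernel)
theorem L53702 : W_8 (nat_lit 3) (nat_lit 0x800000002c001e002c0010001300080000000000000000000000000000000) (nat_lit 0x0) (nat_lit 0x2000100000000000018000800000000000000000000000000000000000000) := T_8 (nat_lit 224) (nat_lit 241) (nat_lit 6) (nat_lit 3) (nat_lit 14) L53701 (by decide +kernel)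
theorem L53703 : W_8 (nat_lit 4) (nat_lit 0x2c001e002c0010001300080000000000000000000000000000000) (nat_lit 0x0) (nat_lit 0xa000500000000000018000800000000000000000000000000000000000000) := T_8 (nat_lit 243) (nat_lit 226) (nat_lit 4) (nat_lit 5) (nat_lit 14) L53702 (by decide +kernel)
theorem L53704 : W_8 (nat_lit 5) (nat_lit 0x24001e002c0010001300080000000000000000000000000000000) (nat_lit 0x0) (nat_lit 0xa000500008002000018000800000000000000000000000000000000000000) := T_8 (nat_lit 207) (nat_lit 193) (nat_lit 1) (nat_lit 6) (nat_lit 11) L53703 (by decide +kernel)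
theorem L53705 : W_8 (nat_lit 6) (nat_lit 0x4001e002c0010001300080000000000000000000000000000000) (nat_lit 0x0) (nat_lit 0xa000500068002000018000800000000000000000000000000000000000000) := T_8 (nat_lit 209) (nat_lit 210) (nat_lit 3) (nat_lit 2) (nat_lit 11) L53704 (by decide +kernel)
theorem L53706 : W_8 (nat_lit 7) (nat_lit 0x1e002c0010001300080000000000000000000000000000000) (nat_lit 0x0) (nat_lit 0xa00050006e002000018000800000000000000000000000000000000000000) := T_8 (nat_lit 206) (nat_lit 205) (nat_lit 1) (nat_lit 5) (nat_lit 11) L53705 (by decide +kernel)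
theorem L53707 : W_8 (nat_lit 2) (nat_lit 0x4007e002d0010001300080000000000000000000000000000000) (nat_lit 0x0) (nat_lit 0x180000000000020000000000000000000000000000000000000000) := D_8 (nat_lit 211) (nat_lit 212) (nat_lit 161) (nat_lit 3) (nat_lit 4) (nat_lit 11) (nat_lit 6) (nat_lit 7) (nat_lit 12) (by decide +kernel)
theorem L53708 : W_8 (nat_lit 3) (nat_lit 0x4003e002d0010001300080000000000000000000000000000000) (nat_lit 0x0) (nat_lit 0x18000c000000020000000000000000000000000000000000000000) := T_8 (nat_lit 194) (nat_lit 195) (nat_lit 0) (nat_lit 8) (nat_lit 11) L53707 (by decide +kernel)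
theorem L53709 : W_8 (nat_lit 4) (nat_lit 0x4001e002d0010001300080000000000000000000000000000000) (nat_lit 0x0) (nat_lit 0x18800e000000020000000000000000000000000000000000000000) := T_8 (nat_lit 193) (nat_lit 207) (nat_lit 1) (nat_lit 6) (nat_lit 11) L53708 (by decide +kernel)
theorem L53710 : W_8 (nat_lit 5) (nat_lit 0x1e002d0010001300080000000000000000000000000000000) (nat_lit 0x0) (nat_lit 0x18e00e000000020000000000000000000000000000000000000000) := T_8 (nat_lit 206) (nat_lit 205) (nat_lit 1) (nat_lit 5) (nat_lit 11) L53709 (by decide +kernel)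
theorem L53711 : W_8 (nat_lit 6) (nat_lit 0x1e002c0010001300080000000000000000000000000000000) (nat_lit 0x0) (nat_lit 0x18e00e000018020000000000000000000000000000000000000000) := T_8 (nat_lit 172) (nat_lit 171) (nat_lit 0) (nat_lit 5) (nat_lit 11) L53710 (by decide +kernel)
theorem L53712 : W_8 (nat_lit 2) (nat_lit 0xf00024001e002d0010001300080000000000000000000000000000000) (nat_lit 0x0) (nat_lit 0x3000080000000000000000000000000000000000000000000000000000000) := D_8 (nat_lit 241) (nat_lit 240) (nat_lit 223) (nat_lit 1) (nat_lit 6) (nat_lit 13) (nat_lit 7) (nat_lit 2) (nat_lit 10) (by decide +kernel)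
theorem L53713 : W_8 (nat_lit 3) (nat_lit 0xe00024001e002d0010001300080000000000000000000000000000000) (nat_lit 0x0) (nat_lit 0x3000180008000000000000000000000000000000000000000000000000000) := T_8 (nat_lit 224) (nat_lit 207) (nat_lit 0) (nat_lit 6) (nat_lit 13) L53712 (by decide +kernel)
theorem L53714 : W_8 (nat_lit 4) (nat_lit 0x600024001e002d0010001300080000000000000000000000000000000) (nat_lit 0x0) (nat_lit 0x13000980008000000000000000000000000000000000000000000000000000) := T_8 (nat_lit 227) (nat_lit 244) (nat_lit 7) (nat_lit 5) (nat_lit 10) L53713 (by decide +kernel)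
theorem L53715 : W_8 (nat_lit 5) (nat_lit 0x400024001e002d0010001300080000000000000000000000000000000) (nat_lit 0x0) (nat_lit 0x17000b80008000000000000000000000000000000000000000000000000000) := T_8 (nat_lit 225) (nat_lit 242) (nat_lit 5) (nat_lit 5) (nat_lit 10) L53714 (by decide +kernel)
theorem L53716 : W_8 (nat_lit 6) (nat_lit 0x24001e002d0010001300080000000000000000000000000000000) (nat_lit 0x0) (nat_lit 0x1f000f80008000000000000000000000000000000000000000000000000000) := T_8 (nat_lit 226) (nat_lit 243) (nat_lit 4) (nat_lit 5) (nat_lit 14) L53715 (by decide +kernel)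
theorem L53717 : W_8 (nat_lit 7) (nat_lit 0x24001e002c0010001300080000000000000000000000000000000) (nat_lit 0x0) (nat_lit 0x1f000f80008000000018000000000000000000000000000000000000000000) := T_8 (nat_lit 172) (nat_lit 171) (nat_lit 0) (nat_lit 5) (nat_lit 11) L53716 (by decide +kernel)
theorem L53718 : W_8 (nat_lit 8) (nat_lit 0x4001e002c0010001300080000000000000000000000000000000) (nat_lit 0x0) (nat_lit 0x1f000f80068000000018000000000000000000000000000000000000000000) := T_8 (nat_lit 209) (nat_lit 210) (nat_lit 3) (nat_lit 2) (nat_lit 11) L53717 (by decide +kernel)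
theorem L53719 : W_8 (nat_lit 9) (nat_lit 0x1e002c0010001300080000000000000000000000000000000) (nat_lit 0x0) (nat_lit 0x1f000f8006e000000018000000000000000000000000000000000000000000) := T_8 (nat_lit 206) (nat_lit 205) (nat_lit 1) (nat_lit 5) (nat_lit 11) L53718 (by decide +kernel)
theorem L53720 : W_8 (nat_lit 2) (nat_lit 0xc0001e002d0010001300080000000000000000000000000000000) (nat_lit 0x0) (nat_lit 0x800000004000000020000000000000000000000000000000000000000) := D_8 (nat_lit 194) (nat_lit 227) (nat_lit 161) (nat_lit 5) (nat_lit 7) (nat_lit 9) (nat_lit 6) (nat_lit 7) (nat_lit 12) (by decide +kernel)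
theorem L53721 : W_8 (nat_lit 3) (nat_lit 0x40001e002d0010001300080000000000000000000000000000000) (nat_lit 0x0) (nat_lit 0x800080006000000020000000000000000000000000000000000000000) := T_8 (nat_lit 211) (nat_lit 193) (nat_lit 3) (nat_lit 3) (nat_lit 11) L53720 (by decide +kernel)
theorem L53722 : W_8 (nat_lit 4) (nat_lit 0x40001e002c0010001300080000000000000000000000000000000) (nat_lit 0x0) (nat_lit 0x800080006000018020000000000000000000000000000000000000000) := T_8 (nat_lit 172) (nat_lit 171) (nat_lit 0) (nat_lit 5) (nat_lit 11) L53721 (by decide +kernel)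
theorem L53723 : W_8 (nat_lit 5) (nat_lit 0x1e002c0010001300080000000000000000000000000000000) (nat_lit 0x0) (nat_lit 0x8000e0006000018020000000000000000000000000000000000000000) := T_8 (nat_lit 210) (nat_lit 209) (nat_lit 3) (nat_lit 2) (nat_lit 11) L53722 (by decide +kernel)
theorem L53724 : W_8 (nat_lit 10) (nat_lit 0xe002c0010001300080000000000000000000000000000000) (nat_lit 0x0) (nat_lit 0x1f000f801ee00f000018020800000000000000000000000000000000000000) := Q_8 (nat_lit 192) (C_8 L53706 (C_8 L53711 (C_8 L53719 (C_8 L53638 (C_8 L53723 N_8))))) (by decide +kernel)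
theorem L53725 : W_8 (nat_lit 11) (nat_lit 0xa002c0010001300080000000000000000000000000000000) (nat_lit 0x0) (nat_lit 0x1f000f801ee00f500018020800000000000000000000000000000000000000) := T_8 (nat_lit 190) (nat_lit 188) (nat_lit 2) (nat_lit 1) (nat_lit 11) L53724 (by decide +kernel)
theorem L53726 : W_8 (nat_lit 12) (nat_lit 0xa002c0010001200080000000000000000000000000000000) (nat_lit 0x0) (nat_lit 0x1f000f801ee00f500018022800100018000000000000000000000000000000) := Q_8 (nat_lit 140) (C_8 L53660 (C_8 L53627 (C_8 L53725 N_8))) (by decide +kernel)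
theorem L53727 : W_8 (nat_lit 2) (nat_lit 0xe000a002d0011801200080000000000000000000000000000000) (nat_lit 0x0) (nat_lit 0x2400020000000000000000000000000000000000) := D_8 (nat_lit 154) (nat_lit 157) (nat_lit 137) (nat_lit 3) (nat_lit 1) (nat_lit 9) (nat_lit 4) (nat_lit 2) (nat_lit 12) (by decide +kernel)
theorem L53728 : W_8 (nat_lit 3) (nat_lit 0xe000a002d0010801200080000000000000000000000000000000) (nat_lit 0x0) (nat_lit 0x34000a0000000000000000000000000000000000) := T_8 (nat_lit 156) (nat_lit 139) (nat_lit 6) (nat_lit 2) (nat_lit 12) L53727 (by decide +kernel)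
theorem L53729 : W_8 (nat_lit 4) (nat_lit 0x6000a002d0010801200080000000000000000000000000000000) (nat_lit 0x0) (nat_lit 0x1000080000000000034000a0000000000000000000000000000000000) := T_8 (nat_lit 207) (nat_lit 224) (nat_lit 7) (nat_lit 2) (nat_lit 9) L53728 (by decide +kernel)
theorem L53730 : W_8 (nat_lit 5) (nat_lit 0x4000a002d0010801200080000000000000000000000000000000) (nat_lit 0x0) (nat_lit 0x14000a0000000000034000a0000000000000000000000000000000000) := T_8 (nat_lit 205) (nat_lit 222) (nat_lit 5) (nat_lit 2) (nat_lit 9) L53729 (by decide +kernel)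
theorem L53731 : W_8 (nat_lit 6) (nat_lit 0xa002d0010801200080000000000000000000000000000000) (nat_lit 0x0) (nat_lit 0x28001c000e0000000080034000a0000000000000000000000000000000000) := Q_8 (nat_lit 206) (C_8 L52577 (C_8 L52064 (C_8 L52056 (C_8 L53730 N_8)))) (by decide +kernel)
theorem L53732 : W_8 (nat_lit 2) (nat_lit 0xe000a002d0010801240080000000000000000000000000000000) (nat_lit 0x0) (nat_lit 0x400020001000000000000000000000000000000) := D_8 (nat_lit 137) (nat_lit 154) (nat_lit 120) (nat_lit 4) (nat_lit 2) (nat_lit 12) (nat_lit 4) (nat_lit 2) (nat_lit 11) (by decide +kernel)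
theorem L53733 : W_8 (nat_lit 3) (nat_lit 0xe000a002d0010801200080000000000000000000000000000000) (nat_lit 0x0) (nat_lit 0x100000000400060001000000000000000000000000000000) := T_8 (nat_lit 138) (nat_lit 188) (nat_lit 5) (nat_lit 2) (nat_lit 8) L53732 (by decide +kernel)
theorem L53734 : W_8 (nat_lit 4) (nat_lit 0x6000a002d0010801200080000000000000000000000000000000) (nat_lit 0x0) (nat_lit 0x100008000100000000400060001000000000000000000000000000000) := T_8 (nat_lit 207) (nat_lit 224) (nat_lit 7) (nat_lit 2) (nat_lit 9) L53733 (by decide +kernel)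
theorem L53735 : W_8 (nat_lit 5) (nat_lit 0x4000a002d0010801200080000000000000000000000000000000) (nat_lit 0x0) (nat_lit 0x14000a000100000000400060001000000000000000000000000000000) := T_8 (nat_lit 205) (nat_lit 222) (nat_lit 5) (nat_lit 2) (nat_lit 9) L53734 (by decide +kernel)
theorem L53736 : W_8 (nat_lit 2) (nat_lit 0xc000c000a002d0012c01300080000000000000000000000000000000) (nat_lit 0x0) (nat_lit 0x20001000000000000000008000000000000000000000000000000) := D_8 (nat_lit 192) (nat_lit 123) (nat_lit 209) (nat_lit 7) (nat_lit 4) (nat_lit 7) (nat_lit 7) (nat_lit 4) (nat_lit 8) (by decide +kernel)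
theorem L53737 : W_8 (nat_lit 3) (nat_lit 0xc000c000a002d0012c01200080000000000000000000000000000000) (nat_lit 0x0) (nat_lit 0x20001000000000000100018000000000000000000000000000000) := T_8 (nat_lit 140) (nat_lit 124) (nat_lit 6) (nat_lit 4) (nat_lit 11) L53736 (by decide +kernel)
theorem L53738 : W_8 (nat_lit 4) (nat_lit 0xc000c000a002d0010c01200080000000000000000000000000000000) (nat_lit 0x0) (nat_lit 0x20001000000003000100018000000000000000000000000000000) := T_8 (nat_lit 157) (nat_lit 156) (nat_lit 3) (nat_lit 1) (nat_lit 9) L53737 (by decide +kernel)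
theorem L53739 : W_8 (nat_lit 5) (nat_lit 0xc000c000a002d0010801200080000000000000000000000000000000) (nat_lit 0x0) (nat_lit 0x20001000008003400100018000000000000000000000000000000) := T_8 (nat_lit 154) (nat_lit 171) (nat_lit 4) (nat_lit 2) (nat_lit 13) L53738 (by decide +kernel)
theorem L53740 : W_8 (nat_lit 6) (nat_lit 0x4000c000a002d0010801200080000000000000000000000000000000) (nat_lit 0x0) (nat_lit 0x800080020001000008003400100018000000000000000000000000000000) := T_8 (nat_lit 223) (nat_lit 239) (nat_lit 5) (nat_lit 2) (nat_lit 10) L53739 (by decide +kernel)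
theorem L53741 : W_8 (nat_lit 7) (nat_lit 0xc000a002d0010801200080000000000000000000000000000000) (nat_lit 0x0) (nat_lit 0x8000c0022001000008003400100018000000000000000000000000000000) := T_8 (nat_lit 222) (nat_lit 205) (nat_lit 5) (nat_lit 2) (nat_lit 9) L53740 (by decide +kernel)
theorem L53742 : W_8 (nat_lit 8) (nat_lit 0x4000a002d0010801200080000000000000000000000000000000) (nat_lit 0x0) (nat_lit 0x8001c002a001000008003400100018000000000000000000000000000000) := T_8 (nat_lit 207) (nat_lit 224) (nat_lit 7) (nat_lit 2) (nat_lit 9) L53741 (by decide +kernel)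
theorem L53743 : W_8 (nat_lit 2) (nat_lit 0x180006000b002d0010801200080000000000000000000000000000000) (nat_lit 0x0) (nat_lit 0x20001000000000000000008000000000000000000000000000000000000000000) := D_8 (nat_lit 240) (nat_lit 171) (nat_lit 257) (nat_lit 4) (nat_lit 2) (nat_lit 14) (nat_lit 4) (nat_lit 2) (nat_lit 15) (by decide +kernel)
theorem L53744 : W_8 (nat_lit 3) (nat_lit 0x100006000b002d0010801200080000000000000000000000000000000) (nat_lit 0x0) (nat_lit 0x20003000080000000000008000000000000000000000000000000000000000000) := T_8 (nat_lit 223) (nat_lit 241) (nat_lit 7) (nat_lit 2) (nat_lit 10) L53743 (by decide +kernel)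
theorem L53745 : W_8 (nat_lit 4) (nat_lit 0x100006000a002d0010801200080000000000000000000000000000000) (nat_lit 0x0) (nat_lit 0x20003000080000000100008000000040000000000000000000000000000000000) := T_8 (nat_lit 188) (nat_lit 138) (nat_lit 5) (nat_lit 2) (nat_lit 8) L53744 (by decide +kernel)
theorem L53746 : W_8 (nat_lit 5) (nat_lit 0x6000a002d0010801200080000000000000000000000000000000) (nat_lit 0x0) (nat_lit 0x20003000180008000100008000000040000000000000000000000000000000000) := T_8 (nat_lit 224) (nat_lit 207) (nat_lit 7) (nat_lit 2) (nat_lit 9) L53745 (by decide +kernel)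
theorem L53747 : W_8 (nat_lit 6) (nat_lit 0x4000a002d0010801200080000000000000000000000000000000) (nat_lit 0x0) (nat_lit 0x200030001c000a000100008000000040000000000000000000000000000000000) := T_8 (nat_lit 205) (nat_lit 222) (nat_lit 5) (nat_lit 2) (nat_lit 9) L53746 (by decide +kernel)
theorem L53748 : W_8 (nat_lit 9) (nat_lit 0xa002d0010801200080000000000000000000000000000000) (nat_lit 0x0) (nat_lit 0x200038001c002e001100008003400160019000000000000000000000000000000) := Q_8 (nat_lit 206) (C_8 L52064 (C_8 L52056 (C_8 L53735 (C_8 L53742 (C_8 L53747 N_8))))) (by decide +kernel)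
theorem L53749 : W_8 (nat_lit 6) (nat_lit 0xa002d0010801200080000000000000000000000000000000) (nat_lit 0x0) (nat_lit 0x14000e0001000000034001e0005000000000000000000000000000000) := Q_8 (nat_lit 206) (C_8 L53735 (C_8 L53730 (C_8 L52601 (C_8 L52581 N_8)))) (by decide +kernel)
theorem L53750 : W_8 (nat_lit 9) (nat_lit 0xa002d0010801200080000000000000000000000000000000) (nat_lit 0x0) (nat_lit 0x200038001c002e0011000080034001c001e000100000000000000000000000000) := Q_8 (nat_lit 206) (C_8 L53747 (C_8 L53742 (C_8 L52581 (C_8 L52587 N_8)))) (by decide +kernel)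
theorem L53751 : W_8 (nat_lit 10) (nat_lit 0xa002d0010001200080000000000000000000000000000000) (nat_lit 0x0) (nat_lit 0x200038001c002e001100008003c001e003f00038001c000200000000000000000) := Q_8 (nat_lit 155) (C_8 L52607 (C_8 L52522 (C_8 L53731 (C_8 L53748 (C_8 L52567 (C_8 L53749 (C_8 L53750 (C_8 L52592 N_8)))))))) (by decide +kernel)
theorem L53752 : W_8 (nat_lit 7) (nat_lit 0xa002d0010001200080000000000000000000000000000000) (nat_lit 0x0) (nat_lit 0x14000e000100020003c001e0007000080000000000000000000000000) := Q_8 (nat_lit 155) (C_8 L53749 (C_8 L52618 (C_8 L52090 (C_8 L52613 N_8)))) (by decide +kernel)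
theorem L53753 : W_8 (nat_lit 2) (nat_lit 0x1800580004001a002f0010001200080000000000000000000000000000000) (nat_lit 0x0) (nat_lit 0x8000000020000000000002000000000000000000000000000000000000000) := D_8 (nat_lit 209) (nat_lit 157) (nat_lit 243) (nat_lit 4) (nat_lit 5) (nat_lit 13) (nat_lit 4) (nat_lit 5) (nat_lit 14) (by decide +kernel)
theorem L53754 : W_8 (nat_lit 3) (nat_lit 0x1800180004001a002f0010001200080000000000000000000000000000000) (nat_lit 0x0) (nat_lit 0x8000600020000000000002000000000000000000000000000000000000000) := T_8 (nat_lit 226) (nat_lit 225) (nat_lit 1) (nat_lit 5) (nat_lit 13) L53753 (by decide +kernel)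
theorem L53755 : W_8 (nat_lit 4) (nat_lit 0x800180004001a002f0010001200080000000000000000000000000000000) (nat_lit 0x0) (nat_lit 0x10009000600020000000000002000000000000000000000000000000000000000) := T_8 (nat_lit 240) (nat_lit 256) (nat_lit 5) (nat_lit 2) (nat_lit 11) L53754 (by decide +kernel)
theorem L53756 : W_8 (nat_lit 5) (nat_lit 0x180004001a002f0010001200080000000000000000000000000000000) (nat_lit 0x0) (nat_lit 0x10009800640020000000000002000000000000000000000000000000000000000) := T_8 (nat_lit 239) (nat_lit 222) (nat_lit 5) (nat_lit 2) (nat_lit 10) L53755 (by decide +kernel)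
theorem L53757 : W_8 (nat_lit 6) (nat_lit 0x80004001a002f0010001200080000000000000000000000000000000) (nat_lit 0x0) (nat_lit 0x1000b800740020000000000002000000000000000000000000000000000000000) := T_8 (nat_lit 224) (nat_lit 241) (nat_lit 7) (nat_lit 2) (nat_lit 10) L53756 (by decide +kernel)
theorem L53758 : W_8 (nat_lit 7) (nat_lit 0x4001a002f0010001200080000000000000000000000000000000) (nat_lit 0x0) (nat_lit 0x1000b8007c0020000000000003000000000000000000000000000000000000000) := T_8 (nat_lit 223) (nat_lit 156) (nat_lit 6) (nat_lit 2) (nat_lit 13) L53757 (by decide +kernel)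
theorem L53759 : W_8 (nat_lit 8) (nat_lit 0x4000a002f0010001200080000000000000000000000000000000) (nat_lit 0x0) (nat_lit 0x1000b8007c0020003000000003000000000000000000000000000000000000000) := T_8 (nat_lit 192) (nat_lit 193) (nat_lit 3) (nat_lit 2) (nat_lit 10) L53758 (by decide +kernel)
theorem L53760 : W_8 (nat_lit 9) (nat_lit 0xa002f0010001200080000000000000000000000000000000) (nat_lit 0x0) (nat_lit 0x1000b8007c002e003000000003c001e0007000080000000000000000000000000) := Q_8 (nat_lit 206) (C_8 L52640 (C_8 L53759 (C_8 L52628 (C_8 L52629 (C_8 L52636 N_8))))) (by decide +kernel)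
theorem L53761 : W_8 (nat_lit 10) (nat_lit 0xa002d0010001200080000000000000000000000000000000) (nat_lit 0x0) (nat_lit 0x5000b8007c002e003000028003e001e0007000080000000000000000000000000) := Q_8 (nat_lit 173) (C_8 L52641 (C_8 L51881 (C_8 L51842 (C_8 L53760 N_8)))) (by decide +kernel)
theorem L53762 : W_8 (nat_lit 11) (nat_lit 0xa002c0010001200080000000000000000000000000000000) (nat_lit 0x0) (nat_lit 0x7000b8007c002e003100038003e001e003f00038001c000200000000000000000) := Q_8 (nat_lit 172) (C_8 L51900 (C_8 L53674 (C_8 L53751 (C_8 L51843 (C_8 L53752 (C_8 L53761 N_8)))))) (by decide +kernel)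
theorem L53763 : W_8 (nat_lit 2) (nat_lit 0x4001e002f0010001200080000000000000000000000000000000) (nat_lit 0x0) (nat_lit 0x1000080000000000000001000000000000000000000000000000000000000) := D_8 (nat_lit 223) (nat_lit 156) (nat_lit 240) (nat_lit 6) (nat_lit 2) (nat_lit 13) (nat_lit 6) (nat_lit 2) (nat_lit 14) (by decide +kernel)
theorem L53764 : W_8 (nat_lit 3) (nat_lit 0x4001e002d0010001200080000000000000000000000000000000) (nat_lit 0x0) (nat_lit 0x1000080000002000020001000000000000000000000000000000000000000) := T_8 (nat_lit 173) (nat_lit 193) (nat_lit 3) (nat_lit 2) (nat_lit 10) L53763 (by decide +kernel)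
theorem L53765 : W_8 (nat_lit 4) (nat_lit 0x1e002d0010001200080000000000000000000000000000000) (nat_lit 0x0) (nat_lit 0x1000080006002000020001000000000000000000000000000000000000000) := T_8 (nat_lit 206) (nat_lit 205) (nat_lit 1) (nat_lit 5) (nat_lit 11) L53764 (by decide +kernel)
theorem L53766 : W_8 (nat_lit 5) (nat_lit 0x1e002c0010001200080000000000000000000000000000000) (nat_lit 0x0) (nat_lit 0x1000080006002000038001000000000000000000000000000000000000000) := T_8 (nat_lit 172) (nat_lit 171) (nat_lit 0) (nat_lit 5) (nat_lit 11) L53765 (by decide +kernel)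
theorem L53767 : W_8 (nat_lit 6) (nat_lit 0x1a002c0010001200080000000000000000000000000000000) (nat_lit 0x0) (nat_lit 0x1000080006002500038001000000000000000000000000000000000000000) := T_8 (nat_lit 190) (nat_lit 188) (nat_lit 2) (nat_lit 1) (nat_lit 11) L53766 (by decide +kernel)
theorem L53768 : W_8 (nat_lit 2) (nat_lit 0x20001e002c0010001200080000000000000000000000000000000) (nat_lit 0x0) (nat_lit 0x8000400000000000000002000000000000000000000000000000000000000) := D_8 (nat_lit 226) (nat_lit 243) (nat_lit 157) (nat_lit 4) (nat_lit 5) (nat_lit 14) (nat_lit 4) (nat_lit 5) (nat_lit 13) (by decide +kernel)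
theorem L53769 : W_8 (nat_lit 3) (nat_lit 0x1e002c0010001200080000000000000000000000000000000) (nat_lit 0x0) (nat_lit 0x8000400060000000000002000000000000000000000000000000000000000) := T_8 (nat_lit 209) (nat_lit 210) (nat_lit 3) (nat_lit 2) (nat_lit 11) L53768 (by decide +kernel)
theorem L53770 : W_8 (nat_lit 4) (nat_lit 0x1a002c0010001200080000000000000000000000000000000) (nat_lit 0x0) (nat_lit 0x8000400060000500000002000000000000000000000000000000000000000) := T_8 (nat_lit 190) (nat_lit 188) (nat_lit 2) (nat_lit 1) (nat_lit 11) L53769 (by decide +kernel)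
theorem L53771 : W_8 (nat_lit 7) (nat_lit 0xa002c0010001200080000000000000000000000000000000) (nat_lit 0x0) (nat_lit 0x9002c801e600f500038023000000000000000000000000000000000000000) := Q_8 (nat_lit 192) (C_8 L52826 (C_8 L53767 (C_8 L53770 N_8))) (by decide +kernel)
theorem L53772 : W_8 (nat_lit 3) (nat_lit 0xb002c0012001200080000000000000000000000000000000) (nat_lit 0x0) (nat_lit 0x20001000000000000100018000000000000000000000000000000) := T_8 (nat_lit 140) (nat_lit 124) (nat_lit 6) (nat_lit 4) (nat_lit 11) L53623 (by decide +kernel)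
theorem L53773 : W_8 (nat_lit 4) (nat_lit 0xa002c0012001200080000000000000000000000000000000) (nat_lit 0x0) (nat_lit 0x20001500000000000100018000000000000000000000000000000) := T_8 (nat_lit 188) (nat_lit 190) (nat_lit 2) (nat_lit 1) (nat_lit 11) L53772 (by decide +kernel)
theorem L53774 : W_8 (nat_lit 3) (nat_lit 0xa002c0012001200080000000000000000000000000000000) (nat_lit 0x0) (nat_lit 0x8000500000000000100010000000000000000000000000000000) := T_8 (nat_lit 140) (nat_lit 124) (nat_lit 6) (nat_lit 4) (nat_lit 11) L53626 (by decide +kernel)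
theorem L53775 : W_8 (nat_lit 2) (nat_lit 0x1e002c0012001200080000000000000000000000000000000) (nat_lit 0x0) (nat_lit 0x400060000000000000000000000000000000000000000000000000000) := D_8 (nat_lit 209) (nat_lit 226) (nat_lit 210) (nat_lit 4) (nat_lit 5) (nat_lit 13) (nat_lit 3) (nat_lit 2) (nat_lit 11) (by decide +kernel)
theorem L53776 : W_8 (nat_lit 3) (nat_lit 0x1a002c0012001200080000000000000000000000000000000) (nat_lit 0x0) (nat_lit 0x400060000500000000000000000000000000000000000000000000000) := T_8 (nat_lit 190) (nat_lit 188) (nat_lit 2) (nat_lit 1) (nat_lit 11) L53775 (by decide +kernel)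
theorem L53777 : W_8 (nat_lit 2) (nat_lit 0x180005b002e0012001200080000000000000000000000000000000) (nat_lit 0x0) (nat_lit 0x800060000000000000000000000000000000000000000000000000000) := D_8 (nat_lit 210) (nat_lit 209) (nat_lit 227) (nat_lit 0) (nat_lit 8) (nat_lit 12) (nat_lit 5) (nat_lit 7) (nat_lit 9) (by decide +kernel)
theorem L53778 : W_8 (nat_lit 3) (nat_lit 0x80005b002e0012001200080000000000000000000000000000000) (nat_lit 0x0) (nat_lit 0x2800160000000000000000000000000000000000000000000000000000) := T_8 (nat_lit 212) (nat_lit 229) (nat_lit 7) (nat_lit 7) (nat_lit 9) L53777 (by decide +kernel)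
theorem L53779 : W_8 (nat_lit 4) (nat_lit 0x5b002e0012001200080000000000000000000000000000000) (nat_lit 0x0) (nat_lit 0x28001e0000000000020000000000000000000000000000000000000000) := T_8 (nat_lit 211) (nat_lit 161) (nat_lit 6) (nat_lit 7) (nat_lit 12) L53778 (by decide +kernel)
theorem L53780 : W_8 (nat_lit 5) (nat_lit 0x1b002e0012001200080000000000000000000000000000000) (nat_lit 0x0) (nat_lit 0x28001e0006000000020000000000000000000000000000000000000000) := T_8 (nat_lit 194) (nat_lit 193) (nat_lit 0) (nat_lit 7) (nat_lit 11) L53779 (by decide +kernel)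
theorem L53781 : W_8 (nat_lit 6) (nat_lit 0x1b002c0012001200080000000000000000000000000000000) (nat_lit 0x0) (nat_lit 0x28001e0006000030020000000000000000000000000000000000000000) := T_8 (nat_lit 173) (nat_lit 172) (nat_lit 1) (nat_lit 5) (nat_lit 10) L53780 (by decide +kernel)
theorem L53782 : W_8 (nat_lit 7) (nat_lit 0x1a002c0012001200080000000000000000000000000000000) (nat_lit 0x0) (nat_lit 0x28001e0006500030020000000000000000000000000000000000000000) := T_8 (nat_lit 188) (nat_lit 190) (nat_lit 2) (nat_lit 1) (nat_lit 11) L53781 (by decide +kernel)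
theorem L53783 : W_8 (nat_lit 2) (nat_lit 0x400000007e002d0012001200080000000000000000000000000000000) (nat_lit 0x0) (nat_lit 0x180000000000020000000000000000000000000000000000000000) := D_8 (nat_lit 211) (nat_lit 212) (nat_lit 161) (nat_lit 3) (nat_lit 4) (nat_lit 11) (nat_lit 6) (nat_lit 7) (nat_lit 12) (by decide +kernel)
theorem L53784 : W_8 (nat_lit 3) (nat_lit 0x400000003e002d0012001200080000000000000000000000000000000) (nat_lit 0x0) (nat_lit 0x18000c000000020000000000000000000000000000000000000000) := T_8 (nat_lit 194) (nat_lit 195) (nat_lit 0) (nat_lit 8) (nat_lit 11) L53783 (by decide +kernel)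
theorem L53785 : W_8 (nat_lit 4) (nat_lit 0x400000001e002d0012001200080000000000000000000000000000000) (nat_lit 0x0) (nat_lit 0x18000e000020020000000000000000000000000000000000000000) := T_8 (nat_lit 193) (nat_lit 173) (nat_lit 3) (nat_lit 2) (nat_lit 10) L53784 (by decide +kernel)
theorem L53786 : W_8 (nat_lit 5) (nat_lit 0x400000001e002c0012001200080000000000000000000000000000000) (nat_lit 0x0) (nat_lit 0x18000e000038020000000000000000000000000000000000000000) := T_8 (nat_lit 172) (nat_lit 171) (nat_lit 0) (nat_lit 5) (nat_lit 11) L53785 (by decide +kernel)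
theorem L53787 : W_8 (nat_lit 6) (nat_lit 0x1e002c0012001200080000000000000000000000000000000) (nat_lit 0x0) (nat_lit 0x4001a000e000038020000000000000000000000000000000000000000) := T_8 (nat_lit 226) (nat_lit 209) (nat_lit 4) (nat_lit 5) (nat_lit 13) L53786 (by decide +kernel)
theorem L53788 : W_8 (nat_lit 7) (nat_lit 0x1a002c0012001200080000000000000000000000000000000) (nat_lit 0x0) (nat_lit 0x4001a000e500038020000000000000000000000000000000000000000) := T_8 (nat_lit 190) (nat_lit 188) (nat_lit 2) (nat_lit 1) (nat_lit 11) L53787 (by decide +kernel)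
theorem L53789 : W_8 (nat_lit 2) (nat_lit 0x2800080005b002e0012001200080000000000000000000000000000000) (nat_lit 0x0) (nat_lit 0x50001000000000000000000000000000000000000000000000000000000000) := D_8 (nat_lit 228) (nat_lit 246) (nat_lit 244) (nat_lit 7) (nat_lit 7) (nat_lit 10) (nat_lit 5) (nat_lit 7) (nat_lit 10) (by decide +kernel)
theorem L53790 : W_8 (nat_lit 3) (nat_lit 0x2000080005b002e0012001200080000000000000000000000000000000) (nat_lit 0x0) (nat_lit 0x50001800040000000000000000000000000000000000000000000000000000) := T_8 (nat_lit 227) (nat_lit 210) (nat_lit 5) (nat_lit 7) (nat_lit 9) L53789 (by decide +kernel)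
theorem L53791 : W_8 (nat_lit 4) (nat_lit 0x80005b002e0012001200080000000000000000000000000000000) (nat_lit 0x0) (nat_lit 0x50003800140000000000000000000000000000000000000000000000000000) := T_8 (nat_lit 229) (nat_lit 212) (nat_lit 7) (nat_lit 7) (nat_lit 9) L53790 (by decide +kernel)
theorem L53792 : W_8 (nat_lit 5) (nat_lit 0x5b002e0012001200080000000000000000000000000000000) (nat_lit 0x0) (nat_lit 0x500038001c0000000000020000000000000000000000000000000000000000) := T_8 (nat_lit 211) (nat_lit 161) (nat_lit 6) (nat_lit 7) (nat_lit 12) L53791 (by decide +kernel)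
theorem L53793 : W_8 (nat_lit 6) (nat_lit 0x1b002e0012001200080000000000000000000000000000000) (nat_lit 0x0) (nat_lit 0x500038001c0006000000020000000000000000000000000000000000000000) := T_8 (nat_lit 194) (nat_lit 193) (nat_lit 0) (nat_lit 7) (nat_lit 11) L53792 (by decide +kernel)
theorem L53794 : W_8 (nat_lit 7) (nat_lit 0x1b002c0012001200080000000000000000000000000000000) (nat_lit 0x0) (nat_lit 0x500038001c0006000030020000000000000000000000000000000000000000) := T_8 (nat_lit 173) (nat_lit 172) (nat_lit 1) (nat_lit 5) (nat_lit 10) L53793 (by decide +kernel)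
theorem L53795 : W_8 (nat_lit 8) (nat_lit 0x1a002c0012001200080000000000000000000000000000000) (nat_lit 0x0) (nat_lit 0x500038001c0006500030020000000000000000000000000000000000000000) := T_8 (nat_lit 188) (nat_lit 190) (nat_lit 2) (nat_lit 1) (nat_lit 11) L53794 (by decide +kernel)
theorem L53796 : W_8 (nat_lit 2) (nat_lit 0x1a002e0012001200080000000000000000000000000000000) (nat_lit 0x0) (nat_lit 0x100018000000000000000000000000000000000000000000) := D_8 (nat_lit 172) (nat_lit 188) (nat_lit 171) (nat_lit 1) (nat_lit 5) (nat_lit 10) (nat_lit 3) (nat_lit 1) (nat_lit 10) (by decide +kernel)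
theorem L53797 : W_8 (nat_lit 2) (nat_lit 0xc00180005a002e0012001200080000000000000000000000000000000) (nat_lit 0x0) (nat_lit 0x10001200000000000000000000000000000000000000000000000000000000) := D_8 (nat_lit 228) (nat_lit 244) (nat_lit 225) (nat_lit 5) (nat_lit 7) (nat_lit 10) (nat_lit 2) (nat_lit 4) (nat_lit 13) (by decide +kernel)
theorem L53798 : W_8 (nat_lit 3) (nat_lit 0x400180005a002e0012001200080000000000000000000000000000000) (nat_lit 0x0) (nat_lit 0x10001a00040000000000000000000000000000000000000000000000000000) := T_8 (nat_lit 227) (nat_lit 210) (nat_lit 5) (nat_lit 7) (nat_lit 9) L53797 (by decide +kernel)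
theorem L53799 : W_8 (nat_lit 4) (nat_lit 0x400080005a002e0012001200080000000000000000000000000000000) (nat_lit 0x0) (nat_lit 0x10003a00140000000000000000000000000000000000000000000000000000) := T_8 (nat_lit 212) (nat_lit 229) (nat_lit 7) (nat_lit 7) (nat_lit 9) L53798 (by decide +kernel)
theorem L53800 : W_8 (nat_lit 5) (nat_lit 0x400000005a002e0012001200080000000000000000000000000000000) (nat_lit 0x0) (nat_lit 0x10003a001c0000000000020000000000000000000000000000000000000000) := T_8 (nat_lit 211) (nat_lit 161) (nat_lit 6) (nat_lit 7) (nat_lit 12) L53799 (by decide +kernel)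
theorem L53801 : W_8 (nat_lit 6) (nat_lit 0x400000001a002e0012001200080000000000000000000000000000000) (nat_lit 0x0) (nat_lit 0x10003a001c0006000000020000000000000000000000000000000000000000) := T_8 (nat_lit 194) (nat_lit 193) (nat_lit 0) (nat_lit 7) (nat_lit 11) L53800 (by decide +kernel)
theorem L53802 : W_8 (nat_lit 7) (nat_lit 0x1a002e0012001200080000000000000000000000000000000) (nat_lit 0x0) (nat_lit 0x10003e001e0006000000020000000000000000000000000000000000000000) := T_8 (nat_lit 226) (nat_lit 209) (nat_lit 4) (nat_lit 5) (nat_lit 13) L53801 (by decide +kernel)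
theorem L53803 : W_8 (nat_lit 8) (nat_lit 0x1a002c0012001200080000000000000000000000000000000) (nat_lit 0x0) (nat_lit 0x10003e001e0006100038020000000000000000000000000000000000000000) := Q_8 (nat_lit 173) (C_8 L53796 (C_8 L53802 N_8)) (by decide +kernel)
theorem L53804 : W_8 (nat_lit 2) (nat_lit 0x20007e002d0012001200080000000000000000000000000000000) (nat_lit 0x0) (nat_lit 0x180000000000020000000000000000000000000000000000000000) := D_8 (nat_lit 211) (nat_lit 212) (nat_lit 161) (nat_lit 3) (nat_lit 4) (nat_lit 11) (nat_lit 6) (nat_lit 7) (nat_lit 12) (by decide +kernel)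
theorem L53805 : W_8 (nat_lit 3) (nat_lit 0x20003e002d0012001200080000000000000000000000000000000) (nat_lit 0x0) (nat_lit 0x18000c000000020000000000000000000000000000000000000000) := T_8 (nat_lit 194) (nat_lit 195) (nat_lit 0) (nat_lit 8) (nat_lit 11) L53804 (by decide +kernel)
theorem L53806 : W_8 (nat_lit 4) (nat_lit 0x20001e002d0012001200080000000000000000000000000000000) (nat_lit 0x0) (nat_lit 0x18000e000020020000000000000000000000000000000000000000) := T_8 (nat_lit 193) (nat_lit 173) (nat_lit 3) (nat_lit 2) (nat_lit 10) L53805 (by decide +kernel)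
theorem L53807 : W_8 (nat_lit 5) (nat_lit 0x20001e002c0012001200080000000000000000000000000000000) (nat_lit 0x0) (nat_lit 0x18000e000038020000000000000000000000000000000000000000) := T_8 (nat_lit 172) (nat_lit 171) (nat_lit 0) (nat_lit 5) (nat_lit 11) L53806 (by decide +kernel)
theorem L53808 : W_8 (nat_lit 6) (nat_lit 0x20001a002c0012001200080000000000000000000000000000000) (nat_lit 0x0) (nat_lit 0x1c000e400038020000000000000000000000000000000000000000) := T_8 (nat_lit 190) (nat_lit 210) (nat_lit 3) (nat_lit 2) (nat_lit 11) L53807 (by decide +kernel)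
theorem L53809 : W_8 (nat_lit 7) (nat_lit 0x1a002c0012001200080000000000000000000000000000000) (nat_lit 0x0) (nat_lit 0x4001e000e400038020000000000000000000000000000000000000000) := T_8 (nat_lit 209) (nat_lit 226) (nat_lit 4) (nat_lit 5) (nat_lit 13) L53808 (by decide +kernel)
theorem L53810 : W_8 (nat_lit 9) (nat_lit 0xa002c0012001200080000000000000000000000000000000) (nat_lit 0x0) (nat_lit 0x50003e001e000f500038020000000000000000000000000000000000000000) := Q_8 (nat_lit 192) (C_8 L53776 (C_8 L53782 (C_8 L53788 (C_8 L53795 (C_8 L53803 (C_8 L53809 N_8)))))) (by decide +kernel)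
theorem L53811 : W_8 (nat_lit 3) (nat_lit 0xa002c0012001200080000000000000000000000000000000) (nat_lit 0x0) (nat_lit 0x20001000000000000100018000000000000000000000000000000) := T_8 (nat_lit 140) (nat_lit 124) (nat_lit 6) (nat_lit 4) (nat_lit 11) L53659 (by decide +kernel)
theorem L53812 : W_8 (nat_lit 10) (nat_lit 0xa002c0010001200080000000000000000000000000000000) (nat_lit 0x0) (nat_lit 0x50003e001e800f500038022000100018000000000000000000000000000000) := Q_8 (nat_lit 157) (C_8 L53773 (C_8 L53774 (C_8 L53810 (C_8 L53811 N_8)))) (by decide +kernel)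
theorem L53813 : W_8 (nat_lit 2) (nat_lit 0x1a002c0012001200080000000000000000000000000000000) (nat_lit 0x0) (nat_lit 0x400020000000000000000100000000000000000000000000000000000) := D_8 (nat_lit 209) (nat_lit 226) (nat_lit 140) (nat_lit 4) (nat_lit 5) (nat_lit 13) (nat_lit 7) (nat_lit 4) (nat_lit 8) (by decide +kernel)
theorem L53814 : W_8 (nat_lit 2) (nat_lit 0x1a002c0012001200080000000000000000000000000000000) (nat_lit 0x0) (nat_lit 0x20000000000000000100010000000000000000000000000000000) := D_8 (nat_lit 140) (nat_lit 124) (nat_lit 209) (nat_lit 6) (nat_lit 4) (nat_lit 11) (nat_lit 7) (nat_lit 4) (nat_lit 8) (by decide +kernel)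
theorem L53815 : W_8 (nat_lit 2) (nat_lit 0x1a002c0012001200080000000000000000000000000000000) (nat_lit 0x0) (nat_lit 0x100018000000000000000000000000000000) := D_8 (nat_lit 140) (nat_lit 124) (nat_lit 123) (nat_lit 6) (nat_lit 4) (nat_lit 11) (nat_lit 7) (nat_lit 4) (nat_lit 7) (by decide +kernel)
theorem L53816 : W_8 (nat_lit 2) (nat_lit 0xe0001a002c0012001200080000000000000000000000000000000) (nat_lit 0x0) (nat_lit 0x800000004000000020000000000000000000000000000000000000000) := D_8 (nat_lit 194) (nat_lit 227) (nat_lit 161) (nat_lit 5) (nat_lit 7) (nat_lit 9) (nat_lit 6) (nat_lit 7) (nat_lit 12) (by decide +kernel)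
theorem L53817 : W_8 (nat_lit 3) (nat_lit 0x60001a002c0012001200080000000000000000000000000000000) (nat_lit 0x0) (nat_lit 0x800180004000000020000000000000000000000000000000000000000) := T_8 (nat_lit 211) (nat_lit 212) (nat_lit 0) (nat_lit 8) (nat_lit 12) L53816 (by decide +kernel)
theorem L53818 : W_8 (nat_lit 4) (nat_lit 0x20001a002c0012001200080000000000000000000000000000000) (nat_lit 0x0) (nat_lit 0x8001c0004400000020000000000000000000000000000000000000000) := T_8 (nat_lit 210) (nat_lit 190) (nat_lit 3) (nat_lit 2) (nat_lit 11) L53817 (by decide +kernel)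
theorem L53819 : W_8 (nat_lit 5) (nat_lit 0x1a002c0012001200080000000000000000000000000000000) (nat_lit 0x0) (nat_lit 0xc001e0004400000020000000000000000000000000000000000000000) := T_8 (nat_lit 209) (nat_lit 226) (nat_lit 4) (nat_lit 5) (nat_lit 13) L53818 (by decide +kernel)
theorem L53820 : W_8 (nat_lit 6) (nat_lit 0x1a002c0010001200080000000000000000000000000000000) (nat_lit 0x0) (nat_lit 0xc001e0004400000022000100018000000000000000000000000000000) := Q_8 (nat_lit 157) (C_8 L53813 (C_8 L53814 (C_8 L53815 (C_8 L53819 N_8)))) (by decide +kernel)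
theorem L53821 : W_8 (nat_lit 2) (nat_lit 0x24001e002d0012001200080000000000000000000000000000000) (nat_lit 0x0) (nat_lit 0x8002000020000000000000000000000000000000000000000000) := D_8 (nat_lit 193) (nat_lit 173) (nat_lit 207) (nat_lit 3) (nat_lit 2) (nat_lit 10) (nat_lit 1) (nat_lit 6) (nat_lit 11) (by decide +kernel)
theorem L53822 : W_8 (nat_lit 3) (nat_lit 0x20001e002d0012001200080000000000000000000000000000000) (nat_lit 0x0) (nat_lit 0xe002000020000000000000000000000000000000000000000000) := T_8 (nat_lit 206) (nat_lit 205) (nat_lit 1) (nat_lit 5) (nat_lit 11) L53821 (by decide +kernel)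
theorem L53823 : W_8 (nat_lit 4) (nat_lit 0x20001e002c0012001200080000000000000000000000000000000) (nat_lit 0x0) (nat_lit 0xe002000038000000000000000000000000000000000000000000) := T_8 (nat_lit 172) (nat_lit 171) (nat_lit 0) (nat_lit 5) (nat_lit 11) L53822 (by decide +kernel)
theorem L53824 : W_8 (nat_lit 5) (nat_lit 0x20001a002c0012001200080000000000000000000000000000000) (nat_lit 0x0) (nat_lit 0x4e002400038000000000000000000000000000000000000000000) := T_8 (nat_lit 190) (nat_lit 210) (nat_lit 3) (nat_lit 2) (nat_lit 11) L53823 (by decide +kernel)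
theorem L53825 : W_8 (nat_lit 6) (nat_lit 0x1a002c0012001200080000000000000000000000000000000) (nat_lit 0x0) (nat_lit 0x40006e002400038000000000000000000000000000000000000000000) := T_8 (nat_lit 209) (nat_lit 226) (nat_lit 4) (nat_lit 5) (nat_lit 13) L53824 (by decide +kernel)
theorem L53826 : W_8 (nat_lit 7) (nat_lit 0x1a002c0010001200080000000000000000000000000000000) (nat_lit 0x0) (nat_lit 0x40006e002400038002000100018000000000000000000000000000000) := Q_8 (nat_lit 157) (C_8 L53815 (C_8 L53825 N_8)) (by decide +kernel)
theorem L53827 : W_8 (nat_lit 8) (nat_lit 0xa002c0010001200080000000000000000000000000000000) (nat_lit 0x0) (nat_lit 0x2c001ee00f400038022000100018000000000000000000000000000000) := Q_8 (nat_lit 192) (C_8 L52826 (C_8 L52833 (C_8 L53820 (C_8 L53826 N_8)))) (by decide +kernel)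
theorem L53828 : W_8 (nat_lit 13) (nat_lit 0x8002c0010001200080000000000000000000000000000000) (nat_lit 0x0) (nat_lit 0x7005f803fc01ef00f70003c023e001e003f00038001c000200000000000000000) := Q_8 (nat_lit 189) (C_8 L53622 (C_8 L53661 (C_8 L53667 (C_8 L53675 (C_8 L53700 (C_8 L53726 (C_8 L53762 (C_8 L53771 (C_8 L53812 (C_8 L53827 N_8)))))))))) (by decide +kernel)
theorem L53829 : W_8 (nat_lit 2) (nat_lit 0xc002c0012001200080000000000000000000000000000000) (nat_lit 0x0) (nat_lit 0x8000000000000000100010000000000000000000000000000000) := D_8 (nat_lit 140) (nat_lit 207) (nat_lit 124) (nat_lit 5) (nat_lit 4) (nat_lit 8) (nat_lit 6) (nat_lit 4) (nat_lit 11) (by decide +kernel)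
theorem L53830 : W_8 (nat_lit 2) (nat_lit 0xd002c0012001300080000000000000000000000000000000) (nat_lit 0x0) (nat_lit 0x1000020000000000008000000000000000000000000000000) := D_8 (nat_lit 123) (nat_lit 192) (nat_lit 173) (nat_lit 7) (nat_lit 4) (nat_lit 7) (nat_lit 5) (nat_lit 4) (nat_lit 7) (by decide +kernel)
theorem L53831 : W_8 (nat_lit 3) (nat_lit 0xd002c0012001200080000000000000000000000000000000) (nat_lit 0x0) (nat_lit 0x1000020000000100018000000000000000000000000000000) := T_8 (nat_lit 140) (nat_lit 124) (nat_lit 6) (nat_lit 4) (nat_lit 11) L53830 (by decide +kernel)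
theorem L53832 : W_8 (nat_lit 4) (nat_lit 0xc002c0012001200080000000000000000000000000000000) (nat_lit 0x0) (nat_lit 0x1300020000000100018000000000000000000000000000000) := T_8 (nat_lit 188) (nat_lit 189) (nat_lit 2) (nat_lit 1) (nat_lit 11) L53831 (by decide +kernel)
theorem L53833 : W_8 (nat_lit 2) (nat_lit 0x8000c002c0012001200080000000000000000000000000000000) (nat_lit 0x0) (nat_lit 0x2000100010000000000000000000000000000000000000000000000000000) := D_8 (nat_lit 224) (nat_lit 208) (nat_lit 241) (nat_lit 5) (nat_lit 4) (nat_lit 9) (nat_lit 6) (nat_lit 3) (nat_lit 14) (by decide +kernel)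
theorem L53834 : W_8 (nat_lit 2) (nat_lit 0x8000c002c0012001200080000000000000000000000000000000) (nat_lit 0x0) (nat_lit 0x2000100000000000020000000000000000000000000000000000000000000) := D_8 (nat_lit 224) (nat_lit 173) (nat_lit 241) (nat_lit 6) (nat_lit 3) (nat_lit 13) (nat_lit 6) (nat_lit 3) (nat_lit 14) (by decide +kernel)
theorem L53835 : W_8 (nat_lit 5) (nat_lit 0x18000d002c0013001200080000000000000000000000000000000) (nat_lit 0x0) (nat_lit 0x80006001080020000c00040000000000000000000000000000000000) := T_8 (nat_lit 155) (nat_lit 154) (nat_lit 3) (nat_lit 1) (nat_lit 9) L52959 (by decide +kernel)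
theorem L53836 : W_8 (nat_lit 6) (nat_lit 0x8000d002c0013001200080000000000000000000000000000000) (nat_lit 0x0) (nat_lit 0x80016001080020000c000c0000000000000000000000000000000000) := T_8 (nat_lit 208) (nat_lit 139) (nat_lit 4) (nat_lit 4) (nat_lit 12) L53835 (by decide +kernel)
theorem L53837 : W_8 (nat_lit 7) (nat_lit 0x8000c002c0013001200080000000000000000000000000000000) (nat_lit 0x0) (nat_lit 0x80016001380020000c000c0000000000000000000000000000000000) := T_8 (nat_lit 188) (nat_lit 189) (nat_lit 2) (nat_lit 1) (nat_lit 11) L53836 (by decide +kernel)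
theorem L53838 : W_8 (nat_lit 2) (nat_lit 0xbc000d002e0013801200080000000000000000000000000000000) (nat_lit 0x0) (nat_lit 0x3000080000000000000000000000000000000000000000000000) := D_8 (nat_lit 205) (nat_lit 204) (nat_lit 187) (nat_lit 2) (nat_lit 0) (nat_lit 12) (nat_lit 0) (nat_lit 4) (nat_lit 12) (by decide +kernel)
theorem L53839 : W_8 (nat_lit 3) (nat_lit 0xb8000d002e0013801200080000000000000000000000000000000) (nat_lit 0x0) (nat_lit 0x80007000080000000000000000000000000000000000000000000000) := T_8 (nat_lit 206) (nat_lit 223) (nat_lit 5) (nat_lit 3) (nat_lit 9) L53838 (by decide +kernel)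
theorem L53840 : W_8 (nat_lit 4) (nat_lit 0xb8000d002c0013801200080000000000000000000000000000000) (nat_lit 0x0) (nat_lit 0x80007000080020000000040000000000000000000000000000000000) := T_8 (nat_lit 173) (nat_lit 138) (nat_lit 4) (nat_lit 3) (nat_lit 12) L53839 (by decide +kernel)
theorem L53841 : W_8 (nat_lit 5) (nat_lit 0xb8000d002c0013001200080000000000000000000000000000000) (nat_lit 0x0) (nat_lit 0x80007000080020000c00040000000000000000000000000000000000) := T_8 (nat_lit 155) (nat_lit 154) (nat_lit 3) (nat_lit 1) (nat_lit 9) L53840 (by decide +kernel)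
theorem L53842 : W_8 (nat_lit 6) (nat_lit 0x38000d002c0013001200080000000000000000000000000000000) (nat_lit 0x0) (nat_lit 0x800c7000080020000c00040000000000000000000000000000000000) := T_8 (nat_lit 211) (nat_lit 210) (nat_lit 0) (nat_lit 7) (nat_lit 12) L53841 (by decide +kernel)
theorem L53843 : W_8 (nat_lit 7) (nat_lit 0x18000d002c0013001200080000000000000000000000000000000) (nat_lit 0x0) (nat_lit 0x4800e7000080020000c00040000000000000000000000000000000000) := T_8 (nat_lit 209) (nat_lit 226) (nat_lit 7) (nat_lit 4) (nat_lit 9) L53842 (by decide +kernel)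
theorem L53844 : W_8 (nat_lit 8) (nat_lit 0x18000c002c0013001200080000000000000000000000000000000) (nat_lit 0x0) (nat_lit 0x4800e7000380020000c00040000000000000000000000000000000000) := T_8 (nat_lit 188) (nat_lit 189) (nat_lit 2) (nat_lit 1) (nat_lit 11) L53843 (by decide +kernel)
theorem L53845 : W_8 (nat_lit 9) (nat_lit 0x8000c002c0013001200080000000000000000000000000000000) (nat_lit 0x0) (nat_lit 0x4800f7000380020000c000c0000000000000000000000000000000000) := T_8 (nat_lit 208) (nat_lit 139) (nat_lit 4) (nat_lit 4) (nat_lit 12) L53844 (by decide +kernel)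
theorem L53846 : W_8 (nat_lit 2) (nat_lit 0x18000e002c0013401200080000000000000000000000000000000) (nat_lit 0x0) (nat_lit 0x400060000000000000000000000000000000000000000000000000000) := D_8 (nat_lit 209) (nat_lit 210) (nat_lit 226) (nat_lit 0) (nat_lit 6) (nat_lit 12) (nat_lit 7) (nat_lit 4) (nat_lit 9) (by decide +kernel)
theorem L53847 : W_8 (nat_lit 3) (nat_lit 0x8000e002c0013401200080000000000000000000000000000000) (nat_lit 0x0) (nat_lit 0x400070000000000000000080000000000000000000000000000000000) := T_8 (nat_lit 208) (nat_lit 139) (nat_lit 4) (nat_lit 4) (nat_lit 12) L53846 (by decide +kernel)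
theorem L53848 : W_8 (nat_lit 4) (nat_lit 0x8000c002c0013401200080000000000000000000000000000000) (nat_lit 0x0) (nat_lit 0x400070000300000000000080000000000000000000000000000000000) := T_8 (nat_lit 189) (nat_lit 188) (nat_lit 2) (nat_lit 1) (nat_lit 11) L53847 (by decide +kernel)
theorem L53849 : W_8 (nat_lit 5) (nat_lit 0x8000c002c0013001200080000000000000000000000000000000) (nat_lit 0x0) (nat_lit 0x400070000300000000c00080000000000000000000000000000000000) := T_8 (nat_lit 154) (nat_lit 155) (nat_lit 3) (nat_lit 1) (nat_lit 9) L53848 (by decide +kernel)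
theorem L53850 : W_8 (nat_lit 2) (nat_lit 0x8000e002c0013801200080000000000000000000000000000000) (nat_lit 0x0) (nat_lit 0x30000000040000000000000000000000000000000000) := D_8 (nat_lit 138) (nat_lit 173) (nat_lit 172) (nat_lit 4) (nat_lit 3) (nat_lit 12) (nat_lit 7) (nat_lit 2) (nat_lit 8) (by decide +kernel)
theorem L53851 : W_8 (nat_lit 3) (nat_lit 0x8000c002c0013801200080000000000000000000000000000000) (nat_lit 0x0) (nat_lit 0x300030000000040000000000000000000000000000000000) := T_8 (nat_lit 189) (nat_lit 188) (nat_lit 2) (nat_lit 1) (nat_lit 11) L53850 (by decide +kernel)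
theorem L53852 : W_8 (nat_lit 4) (nat_lit 0x8000c002c0013001200080000000000000000000000000000000) (nat_lit 0x0) (nat_lit 0x300030000c00040000000000000000000000000000000000) := T_8 (nat_lit 155) (nat_lit 154) (nat_lit 3) (nat_lit 1) (nat_lit 9) L53851 (by decide +kernel)
theorem L53853 : W_8 (nat_lit 2) (nat_lit 0x18000e002c0013001200080000000000000000000000000000000) (nat_lit 0x0) (nat_lit 0x400060000000000000000000000000000000000000000000000000000) := D_8 (nat_lit 209) (nat_lit 226) (nat_lit 210) (nat_lit 7) (nat_lit 4) (nat_lit 9) (nat_lit 0) (nat_lit 6) (nat_lit 12) (by decide +kernel)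
theorem L53854 : W_8 (nat_lit 3) (nat_lit 0x18000c002c0013001200080000000000000000000000000000000) (nat_lit 0x0) (nat_lit 0x400060000300000000000000000000000000000000000000000000000) := T_8 (nat_lit 189) (nat_lit 188) (nat_lit 2) (nat_lit 1) (nat_lit 11) L53853 (by decide +kernel)
theorem L53855 : W_8 (nat_lit 4) (nat_lit 0x8000c002c0013001200080000000000000000000000000000000) (nat_lit 0x0) (nat_lit 0x400070000300000000000080000000000000000000000000000000000) := T_8 (nat_lit 208) (nat_lit 139) (nat_lit 4) (nat_lit 4) (nat_lit 12) L53854 (by decide +kernel)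
theorem L53856 : W_8 (nat_lit 6) (nat_lit 0x38000c002c0013801200080000000000000000000000000000000) (nat_lit 0x0) (nat_lit 0x800c7005000020020000040000000000000000000000000000000000) := T_8 (nat_lit 211) (nat_lit 210) (nat_lit 0) (nat_lit 7) (nat_lit 12) L53210 (by decide +kernel)
theorem L53857 : W_8 (nat_lit 7) (nat_lit 0x18000c002c0013801200080000000000000000000000000000000) (nat_lit 0x0) (nat_lit 0x4800e7005000020020000040000000000000000000000000000000000) := T_8 (nat_lit 209) (nat_lit 226) (nat_lit 7) (nat_lit 4) (nat_lit 9) L53856 (by decide +kernel)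
theorem L53858 : W_8 (nat_lit 8) (nat_lit 0x18000c002c0013001200080000000000000000000000000000000) (nat_lit 0x0) (nat_lit 0x4800e7005000020020c00040000000000000000000000000000000000) := T_8 (nat_lit 155) (nat_lit 154) (nat_lit 3) (nat_lit 1) (nat_lit 9) L53857 (by decide +kernel)
theorem L53859 : W_8 (nat_lit 9) (nat_lit 0x8000c002c0013001200080000000000000000000000000000000) (nat_lit 0x0) (nat_lit 0x4800f7005000020020c000c0000000000000000000000000000000000) := T_8 (nat_lit 208) (nat_lit 139) (nat_lit 4) (nat_lit 4) (nat_lit 12) L53858 (by decide +kernel)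
theorem L53860 : W_8 (nat_lit 10) (nat_lit 0x8000c002c0012001200080000000000000000000000000000000) (nat_lit 0x0) (nat_lit 0x4800f7005380030021c000c0000000000000000000000000000000000) := Q_8 (nat_lit 156) (C_8 L53837 (C_8 L53845 (C_8 L53849 (C_8 L53852 (C_8 L53855 (C_8 L53859 N_8)))))) (by decide +kernel)
theorem L53861 : W_8 (nat_lit 11) (nat_lit 0xc002c0012001200080000000000000000000000000000000) (nat_lit 0x0) (nat_lit 0x20005800ff005380030021c000c0000000000000000000000000000000000) := Q_8 (nat_lit 207) (C_8 L53833 (C_8 L53834 (C_8 L53860 N_8))) (by decide +kernel)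
theorem L53862 : W_8 (nat_lit 12) (nat_lit 0xc002c0010001200080000000000000000000000000000000) (nat_lit 0x0) (nat_lit 0x20005800ff005380030023c001c0018000000000000000000000000000000) := Q_8 (nat_lit 157) (C_8 L53829 (C_8 L53832 (C_8 L53861 N_8))) (by decide +kernel)
theorem L53863 : W_8 (nat_lit 2) (nat_lit 0xc002e0011001200080000000000000000000000000000000) (nat_lit 0x0) (nat_lit 0x10000000000000000080004000000000000000000000000000000) := D_8 (nat_lit 139) (nat_lit 208) (nat_lit 122) (nat_lit 7) (nat_lit 3) (nat_lit 8) (nat_lit 7) (nat_lit 3) (nat_lit 7) (by decide +kernel)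
theorem L53864 : W_8 (nat_lit 2) (nat_lit 0x80008000d002e00110012c0080000000000000000000000000000000) (nat_lit 0x0) (nat_lit 0x3000100000000000000000000000000000000000000000000000000000000) := D_8 (nat_lit 224) (nat_lit 241) (nat_lit 240) (nat_lit 6) (nat_lit 3) (nat_lit 14) (nat_lit 5) (nat_lit 3) (nat_lit 10) (by decide +kernel)
theorem L53865 : W_8 (nat_lit 3) (nat_lit 0x8000d002e00110012c0080000000000000000000000000000000) (nat_lit 0x0) (nat_lit 0x3000180004000000000000000000000000000000000000000000000000000) := T_8 (nat_lit 223) (nat_lit 206) (nat_lit 5) (nat_lit 3) (nat_lit 9) L53864 (by decide +kernel)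
theorem L53866 : W_8 (nat_lit 4) (nat_lit 0xd002e00110012c0080000000000000000000000000000000) (nat_lit 0x0) (nat_lit 0x300018000c000000000000800000000000000000000000000000000000000) := T_8 (nat_lit 207) (nat_lit 155) (nat_lit 4) (nat_lit 3) (nat_lit 12) L53865 (by decide +kernel)
theorem L53867 : W_8 (nat_lit 5) (nat_lit 0xd002e0011001280080000000000000000000000000000000) (nat_lit 0x0) (nat_lit 0x300018000c000000000000800040002000000000000000000000000000000) := T_8 (nat_lit 138) (nat_lit 121) (nat_lit 4) (nat_lit 3) (nat_lit 11) L53866 (by decide +kernel)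
theorem L53868 : W_8 (nat_lit 6) (nat_lit 0xd002e0011001200080000000000000000000000000000000) (nat_lit 0x0) (nat_lit 0x300018000c0000000000008000c0006000000000000000000000000000000) := T_8 (nat_lit 139) (nat_lit 122) (nat_lit 7) (nat_lit 3) (nat_lit 7) L53867 (by decide +kernel)
theorem L53869 : W_8 (nat_lit 7) (nat_lit 0xc002e0011001200080000000000000000000000000000000) (nat_lit 0x0) (nat_lit 0x300018000c0003000000008000c0006000000000000000000000000000000) := T_8 (nat_lit 188) (nat_lit 189) (nat_lit 2) (nat_lit 1) (nat_lit 11) L53868 (by decide +kernel)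
theorem L53870 : W_8 (nat_lit 3) (nat_lit 0x5e002e0011001200080000000000000000000000000000000) (nat_lit 0x0) (nat_lit 0x100008000e000000000000000000000000000000000000000000000000000) := T_8 (nat_lit 206) (nat_lit 205) (nat_lit 1) (nat_lit 5) (nat_lit 11) L52038 (by decide +kernel)
theorem L53871 : W_8 (nat_lit 4) (nat_lit 0x4e002e0011001200080000000000000000000000000000000) (nat_lit 0x0) (nat_lit 0x100008000e003000000000000000000000000000000000000000000000000) := T_8 (nat_lit 192) (nat_lit 193) (nat_lit 0) (nat_lit 7) (nat_lit 11) L53870 (by decide +kernel)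
theorem L53872 : W_8 (nat_lit 5) (nat_lit 0x4c002e0011001200080000000000000000000000000000000) (nat_lit 0x0) (nat_lit 0x100008000e003300000000000000000000000000000000000000000000000) := T_8 (nat_lit 189) (nat_lit 188) (nat_lit 2) (nat_lit 1) (nat_lit 11) L53871 (by decide +kernel)
theorem L53873 : W_8 (nat_lit 2) (nat_lit 0x1c0004c002e0011001200080000000000000000000000000000000) (nat_lit 0x0) (nat_lit 0x30001000000000000000000000000000000000000000000000000) := D_8 (nat_lit 209) (nat_lit 192) (nat_lit 208) (nat_lit 0) (nat_lit 8) (nat_lit 12) (nat_lit 0) (nat_lit 7) (nat_lit 12) (by decide +kernel)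
theorem L53874 : W_8 (nat_lit 3) (nat_lit 0x180004c002e0011001200080000000000000000000000000000000) (nat_lit 0x0) (nat_lit 0x800070001000000000000000000000000000000000000000000000000) := T_8 (nat_lit 210) (nat_lit 227) (nat_lit 5) (nat_lit 7) (nat_lit 9) L53873 (by decide +kernel)
theorem L53875 : W_8 (nat_lit 4) (nat_lit 0x80004c002e0011001200080000000000000000000000000000000) (nat_lit 0x0) (nat_lit 0x2800170001000000000000000000000000000000000000000000000000) := T_8 (nat_lit 212) (nat_lit 229) (nat_lit 7) (nat_lit 7) (nat_lit 9) L53874 (by decide +kernel)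
theorem L53876 : W_8 (nat_lit 5) (nat_lit 0x4c002e0011001200080000000000000000000000000000000) (nat_lit 0x0) (nat_lit 0x28001f0001000000020000000000000000000000000000000000000000) := T_8 (nat_lit 211) (nat_lit 161) (nat_lit 6) (nat_lit 7) (nat_lit 12) L53875 (by decide +kernel)
theorem L53877 : W_8 (nat_lit 2) (nat_lit 0x2800080004d002e0011001200080000000000000000000000000000000) (nat_lit 0x0) (nat_lit 0x50001000000000000000000000000000000000000000000000000000000000) := D_8 (nat_lit 228) (nat_lit 246) (nat_lit 244) (nat_lit 7) (nat_lit 7) (nat_lit 10) (nat_lit 5) (nat_lit 7) (nat_lit 10) (by decide +kernel)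
theorem L53878 : W_8 (nat_lit 3) (nat_lit 0x2000080004d002e0011001200080000000000000000000000000000000) (nat_lit 0x0) (nat_lit 0x50001800040000000000000000000000000000000000000000000000000000) := T_8 (nat_lit 227) (nat_lit 210) (nat_lit 5) (nat_lit 7) (nat_lit 9) L53877 (by decide +kernel)
theorem L53879 : W_8 (nat_lit 4) (nat_lit 0x80004d002e0011001200080000000000000000000000000000000) (nat_lit 0x0) (nat_lit 0x50003800140000000000000000000000000000000000000000000000000000) := T_8 (nat_lit 229) (nat_lit 212) (nat_lit 7) (nat_lit 7) (nat_lit 9) L53878 (by decide +kernel)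
theorem L53880 : W_8 (nat_lit 5) (nat_lit 0x4d002e0011001200080000000000000000000000000000000) (nat_lit 0x0) (nat_lit 0x500038001c0000000000020000000000000000000000000000000000000000) := T_8 (nat_lit 211) (nat_lit 161) (nat_lit 6) (nat_lit 7) (nat_lit 12) L53879 (by decide +kernel)
theorem L53881 : W_8 (nat_lit 6) (nat_lit 0x4c002e0011001200080000000000000000000000000000000) (nat_lit 0x0) (nat_lit 0x500038001c0000300000020000000000000000000000000000000000000000) := T_8 (nat_lit 188) (nat_lit 189) (nat_lit 2) (nat_lit 1) (nat_lit 11) L53880 (by decide +kernel)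
theorem L53882 : W_8 (nat_lit 7) (nat_lit 0xc002e0011001200080000000000000000000000000000000) (nat_lit 0x0) (nat_lit 0x510038801fe007300000020000000000000000000000000000000000000000) := Q_8 (nat_lit 194) (C_8 L53872 (C_8 L53876 (C_8 L53881 N_8))) (by decide +kernel)
theorem L53883 : W_8 (nat_lit 8) (nat_lit 0xc002e0010001200080000000000000000000000000000000) (nat_lit 0x0) (nat_lit 0x530039801fe0073000000218000c0006000000000000000000000000000000) := Q_8 (nat_lit 156) (C_8 L53863 (C_8 L53869 (C_8 L53882 N_8))) (by decide +kernel)
theorem L53884 : W_8 (nat_lit 2) (nat_lit 0xc002f0010001200080000000000000000000000000000000) (nat_lit 0x0) (nat_lit 0x3000008000000000000000000000000000000000000000000) := D_8 (nat_lit 192) (nat_lit 193) (nat_lit 171) (nat_lit 3) (nat_lit 2) (nat_lit 10) (nat_lit 3) (nat_lit 1) (nat_lit 10) (by decide +kernel)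
theorem L53885 : W_8 (nat_lit 2) (nat_lit 0xc002f0010001200080000000000000000000000000000000) (nat_lit 0x0) (nat_lit 0x100000c000000000000000000000000000000000000000000) := D_8 (nat_lit 171) (nat_lit 192) (nat_lit 170) (nat_lit 3) (nat_lit 1) (nat_lit 10) (nat_lit 3) (nat_lit 0) (nat_lit 10) (by decide +kernel)
theorem L53886 : W_8 (nat_lit 2) (nat_lit 0xd002f0010001200080000000000000000000000000000000) (nat_lit 0x0) (nat_lit 0x8000c000000000000000000000000000000000000000000) := D_8 (nat_lit 171) (nat_lit 187) (nat_lit 170) (nat_lit 1) (nat_lit 4) (nat_lit 10) (nat_lit 3) (nat_lit 0) (nat_lit 10) (by decide +kernel)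
theorem L53887 : W_8 (nat_lit 3) (nat_lit 0xc002f0010001200080000000000000000000000000000000) (nat_lit 0x0) (nat_lit 0x38000c000000000000000000000000000000000000000000) := T_8 (nat_lit 188) (nat_lit 189) (nat_lit 2) (nat_lit 1) (nat_lit 11) L53886 (by decide +kernel)
theorem L53888 : W_8 (nat_lit 2) (nat_lit 0x2e002f00108012c0080000000000000000000000000000000) (nat_lit 0x0) (nat_lit 0x14000000000001000000000000000000000000000000000000000) := D_8 (nat_lit 156) (nat_lit 206) (nat_lit 208) (nat_lit 6) (nat_lit 2) (nat_lit 12) (nat_lit 7) (nat_lit 3) (nat_lit 8) (by decide +kernel)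
theorem L53889 : W_8 (nat_lit 3) (nat_lit 0x2e002f0010801240080000000000000000000000000000000) (nat_lit 0x0) (nat_lit 0x14000000000001000080004000000000000000000000000000000) := T_8 (nat_lit 139) (nat_lit 122) (nat_lit 6) (nat_lit 2) (nat_lit 11) L53888 (by decide +kernel)
theorem L53890 : W_8 (nat_lit 4) (nat_lit 0x2c002f0010801240080000000000000000000000000000000) (nat_lit 0x0) (nat_lit 0x14000300000001000080004000000000000000000000000000000) := T_8 (nat_lit 189) (nat_lit 188) (nat_lit 2) (nat_lit 1) (nat_lit 11) L53889 (by decide +kernel)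
theorem L53891 : W_8 (nat_lit 5) (nat_lit 0x2c002f0010801200080000000000000000000000000000000) (nat_lit 0x0) (nat_lit 0x140003000000010000c0006000000000000000000000000000000) := T_8 (nat_lit 138) (nat_lit 121) (nat_lit 7) (nat_lit 2) (nat_lit 7) L53890 (by decide +kernel)
theorem L53892 : W_8 (nat_lit 6) (nat_lit 0xc002f0010801200080000000000000000000000000000000) (nat_lit 0x0) (nat_lit 0x140033000000010000c0006000000000000000000000000000000) := T_8 (nat_lit 193) (nat_lit 192) (nat_lit 3) (nat_lit 2) (nat_lit 10) L53891 (by decide +kernel)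
theorem L53893 : W_8 (nat_lit 7) (nat_lit 0xc002f0010001200080000000000000000000000000000000) (nat_lit 0x0) (nat_lit 0x14003300000001c000c0006000000000000000000000000000000) := T_8 (nat_lit 155) (nat_lit 154) (nat_lit 0) (nat_lit 5) (nat_lit 10) L53892 (by decide +kernel)
theorem L53894 : W_8 (nat_lit 8) (nat_lit 0xc002e0010001200080000000000000000000000000000000) (nat_lit 0x0) (nat_lit 0x1400338001c001c000c0006000000000000000000000000000000) := Q_8 (nat_lit 172) (C_8 L53884 (C_8 L53885 (C_8 L53887 (C_8 L53893 N_8)))) (by decide +kernel)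
theorem L53895 : W_8 (nat_lit 2) (nat_lit 0x8000d002f0010801200080000000000000000000000000000000) (nat_lit 0x0) (nat_lit 0x1000040002000000000000000000000000000000) := D_8 (nat_lit 138) (nat_lit 121) (nat_lit 156) (nat_lit 7) (nat_lit 2) (nat_lit 7) (nat_lit 4) (nat_lit 3) (nat_lit 12) (by decide +kernel)
theorem L53896 : W_8 (nat_lit 3) (nat_lit 0xd002f0010801200080000000000000000000000000000000) (nat_lit 0x0) (nat_lit 0x100008000000000001000040002000000000000000000000000000000) := T_8 (nat_lit 207) (nat_lit 224) (nat_lit 4) (nat_lit 3) (nat_lit 13) L53895 (by decide +kernel)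
theorem L53897 : W_8 (nat_lit 4) (nat_lit 0xd002f0010001200080000000000000000000000000000000) (nat_lit 0x0) (nat_lit 0x100008000000000001c00040002000000000000000000000000000000) := T_8 (nat_lit 155) (nat_lit 154) (nat_lit 0) (nat_lit 5) (nat_lit 10) L53896 (by decide +kernel)
theorem L53898 : W_8 (nat_lit 5) (nat_lit 0xc002f0010001200080000000000000000000000000000000) (nat_lit 0x0) (nat_lit 0x100008000300000001c00040002000000000000000000000000000000) := T_8 (nat_lit 188) (nat_lit 189) (nat_lit 2) (nat_lit 1) (nat_lit 11) L53897 (by decide +kernel)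
theorem L53899 : W_8 (nat_lit 6) (nat_lit 0xc002e0010001200080000000000000000000000000000000) (nat_lit 0x0) (nat_lit 0x10000800138001c001c00040002000000000000000000000000000000) := Q_8 (nat_lit 172) (C_8 L53887 (C_8 L53885 (C_8 L53898 N_8))) (by decide +kernel)
theorem L53900 : W_8 (nat_lit 2) (nat_lit 0x8000c002f4010801200080000000000000000000000000000000) (nat_lit 0x0) (nat_lit 0x1000040002000000000000000000000000000000) := D_8 (nat_lit 138) (nat_lit 121) (nat_lit 156) (nat_lit 7) (nat_lit 2) (nat_lit 7) (nat_lit 4) (nat_lit 3) (nat_lit 12) (by decide +kernel)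
theorem L53901 : W_8 (nat_lit 3) (nat_lit 0xc002f4010801200080000000000000000000000000000000) (nat_lit 0x0) (nat_lit 0x100008000000000001000040002000000000000000000000000000000) := T_8 (nat_lit 207) (nat_lit 224) (nat_lit 4) (nat_lit 3) (nat_lit 13) L53900 (by decide +kernel)
theorem L53902 : W_8 (nat_lit 4) (nat_lit 0xc002f4010001200080000000000000000000000000000000) (nat_lit 0x0) (nat_lit 0x100008000000000001c00040002000000000000000000000000000000) := T_8 (nat_lit 155) (nat_lit 154) (nat_lit 0) (nat_lit 5) (nat_lit 10) L53901 (by decide +kernel)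
theorem L53903 : W_8 (nat_lit 5) (nat_lit 0xc002f0010001200080000000000000000000000000000000) (nat_lit 0x0) (nat_lit 0x10000800000000c001c00040002000000000000000000000000000000) := T_8 (nat_lit 170) (nat_lit 171) (nat_lit 3) (nat_lit 0) (nat_lit 10) L53902 (by decide +kernel)
theorem L53904 : W_8 (nat_lit 6) (nat_lit 0xc002e0010001200080000000000000000000000000000000) (nat_lit 0x0) (nat_lit 0x10000800038001c001c00040002000000000000000000000000000000) := Q_8 (nat_lit 172) (C_8 L53898 (C_8 L53887 (C_8 L53903 N_8))) (by decide +kernel)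
theorem L53905 : W_8 (nat_lit 3) (nat_lit 0x1e002f0010001200080000000000000000000000000000000) (nat_lit 0x0) (nat_lit 0x1000080006000000000001000000000000000000000000000000000000000) := T_8 (nat_lit 206) (nat_lit 205) (nat_lit 1) (nat_lit 5) (nat_lit 11) L53763 (by decide +kernel)
theorem L53906 : W_8 (nat_lit 4) (nat_lit 0xe002f0010001200080000000000000000000000000000000) (nat_lit 0x0) (nat_lit 0x1000080006003000000001000000000000000000000000000000000000000) := T_8 (nat_lit 192) (nat_lit 193) (nat_lit 3) (nat_lit 2) (nat_lit 10) L53905 (by decide +kernel)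
theorem L53907 : W_8 (nat_lit 5) (nat_lit 0xc002f0010001200080000000000000000000000000000000) (nat_lit 0x0) (nat_lit 0x1000080006003300000001000000000000000000000000000000000000000) := T_8 (nat_lit 189) (nat_lit 188) (nat_lit 2) (nat_lit 1) (nat_lit 11) L53906 (by decide +kernel)
theorem L53908 : W_8 (nat_lit 6) (nat_lit 0xc002e0010001200080000000000000000000000000000000) (nat_lit 0x0) (nat_lit 0x100008000600338001c001000000000000000000000000000000000000000) := Q_8 (nat_lit 172) (C_8 L53887 (C_8 L53885 (C_8 L53907 N_8))) (by decide +kernel)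
theorem L53909 : W_8 (nat_lit 4) (nat_lit 0xc002f0010001200080000000000000000000000000000000) (nat_lit 0x0) (nat_lit 0x100008000300000000c00040000000000000000000000000000000000) := T_8 (nat_lit 189) (nat_lit 188) (nat_lit 2) (nat_lit 1) (nat_lit 11) L53694 (by decide +kernel)
theorem L53910 : W_8 (nat_lit 5) (nat_lit 0xc002e0010001200080000000000000000000000000000000) (nat_lit 0x0) (nat_lit 0x10000800138001c000c00040000000000000000000000000000000000) := Q_8 (nat_lit 172) (C_8 L53887 (C_8 L53885 (C_8 L53909 N_8))) (by decide +kernel)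
theorem L53911 : W_8 (nat_lit 2) (nat_lit 0x8002c002f0010801200080000000000000000000000000000000) (nat_lit 0x0) (nat_lit 0x1000040002000000000000000000000000000000) := D_8 (nat_lit 138) (nat_lit 121) (nat_lit 156) (nat_lit 7) (nat_lit 2) (nat_lit 7) (nat_lit 4) (nat_lit 3) (nat_lit 12) (by decide +kernel)
theorem L53912 : W_8 (nat_lit 3) (nat_lit 0x2c002f0010801200080000000000000000000000000000000) (nat_lit 0x0) (nat_lit 0x100008000000000001000040002000000000000000000000000000000) := T_8 (nat_lit 207) (nat_lit 224) (nat_lit 4) (nat_lit 3) (nat_lit 13) L53911 (by decide +kernel)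
theorem L53913 : W_8 (nat_lit 4) (nat_lit 0x2c002f0010001200080000000000000000000000000000000) (nat_lit 0x0) (nat_lit 0x100008000000000001c00040002000000000000000000000000000000) := T_8 (nat_lit 155) (nat_lit 154) (nat_lit 0) (nat_lit 5) (nat_lit 10) L53912 (by decide +kernel)
theorem L53914 : W_8 (nat_lit 5) (nat_lit 0xc002f0010001200080000000000000000000000000000000) (nat_lit 0x0) (nat_lit 0x100008003000000001c00040002000000000000000000000000000000) := T_8 (nat_lit 193) (nat_lit 192) (nat_lit 3) (nat_lit 2) (nat_lit 10) L53913 (by decide +kernel)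
theorem L53915 : W_8 (nat_lit 6) (nat_lit 0xc002e0010001200080000000000000000000000000000000) (nat_lit 0x0) (nat_lit 0x10000800300001c001c00040002000000000000000000000000000000) := Q_8 (nat_lit 172) (C_8 L53903 (C_8 L53885 (C_8 L53914 N_8))) (by decide +kernel)
theorem L53916 : W_8 (nat_lit 9) (nat_lit 0xc002c0010001200080000000000000000000000000000000) (nat_lit 0x0) (nat_lit 0x530039801fe00738003c021c000c0006000000000000000000000000000000) := Q_8 (nat_lit 173) (C_8 L53883 (C_8 L53894 (C_8 L53899 (C_8 L53904 (C_8 L53908 (C_8 L53910 (C_8 L53915 N_8))))))) (by decide +kernel)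
theorem L53917 : W_8 (nat_lit 2) (nat_lit 0x400008003d002c0012001200080000000000000000000000000000000) (nat_lit 0x0) (nat_lit 0x10004000020000000000000000000000000000000000000000000) := D_8 (nat_lit 194) (nat_lit 208) (nat_lit 173) (nat_lit 1) (nat_lit 7) (nat_lit 11) (nat_lit 0) (nat_lit 7) (nat_lit 11) (by decide +kernel)
theorem L53918 : W_8 (nat_lit 3) (nat_lit 0x400008001d002c0012001200080000000000000000000000000000000) (nat_lit 0x0) (nat_lit 0x14006000020000000000000000000000000000000000000000000) := T_8 (nat_lit 193) (nat_lit 206) (nat_lit 1) (nat_lit 6) (nat_lit 11) L53917 (by decide +kernel)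
theorem L53919 : W_8 (nat_lit 4) (nat_lit 0x8001d002c0012001200080000000000000000000000000000000) (nat_lit 0x0) (nat_lit 0x400034006000020000000000000000000000000000000000000000000) := T_8 (nat_lit 226) (nat_lit 209) (nat_lit 4) (nat_lit 5) (nat_lit 13) L53918 (by decide +kernel)
theorem L53920 : W_8 (nat_lit 5) (nat_lit 0x8001c002c0012001200080000000000000000000000000000000) (nat_lit 0x0) (nat_lit 0x400034006300020000000000000000000000000000000000000000000) := T_8 (nat_lit 188) (nat_lit 189) (nat_lit 2) (nat_lit 1) (nat_lit 11) L53919 (by decide +kernel)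
theorem L53921 : W_8 (nat_lit 2) (nat_lit 0x8003c002c0012001200080000000000000000000000000000000) (nat_lit 0x0) (nat_lit 0x10004000020000000000000000000000000000000000000000000) := D_8 (nat_lit 194) (nat_lit 208) (nat_lit 173) (nat_lit 1) (nat_lit 7) (nat_lit 11) (nat_lit 0) (nat_lit 7) (nat_lit 11) (by decide +kernel)
theorem L53922 : W_8 (nat_lit 3) (nat_lit 0x8001c002c0012001200080000000000000000000000000000000) (nat_lit 0x0) (nat_lit 0x14006000020000000000000000000000000000000000000000000) := T_8 (nat_lit 193) (nat_lit 206) (nat_lit 1) (nat_lit 6) (nat_lit 11) L53921 (by decide +kernel)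
theorem L53923 : W_8 (nat_lit 2) (nat_lit 0x40000c001e002d0012801200080000000000000000000000000000000) (nat_lit 0x0) (nat_lit 0x20000400020000000000000000000000000000000000) := D_8 (nat_lit 154) (nat_lit 137) (nat_lit 173) (nat_lit 4) (nat_lit 2) (nat_lit 12) (nat_lit 0) (nat_lit 5) (nat_lit 10) (by decide +kernel)
theorem L53924 : W_8 (nat_lit 3) (nat_lit 0x40000c001e002d0012001200080000000000000000000000000000000) (nat_lit 0x0) (nat_lit 0x20000c00060000000000000000000000000000000000) := T_8 (nat_lit 155) (nat_lit 138) (nat_lit 7) (nat_lit 2) (nat_lit 8) L53923 (by decide +kernel)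
theorem L53925 : W_8 (nat_lit 4) (nat_lit 0x40000c001e002c0012001200080000000000000000000000000000000) (nat_lit 0x0) (nat_lit 0x38000c00060000000000000000000000000000000000) := T_8 (nat_lit 172) (nat_lit 171) (nat_lit 0) (nat_lit 5) (nat_lit 11) L53924 (by decide +kernel)
theorem L53926 : W_8 (nat_lit 5) (nat_lit 0x400008001e002c0012001200080000000000000000000000000000000) (nat_lit 0x0) (nat_lit 0x6000000038000c00060000000000000000000000000000000000) := T_8 (nat_lit 206) (nat_lit 205) (nat_lit 1) (nat_lit 5) (nat_lit 11) L53925 (by decide +kernel)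
theorem L53927 : W_8 (nat_lit 6) (nat_lit 0x8001e002c0012001200080000000000000000000000000000000) (nat_lit 0x0) (nat_lit 0x400026000000038000c00060000000000000000000000000000000000) := T_8 (nat_lit 226) (nat_lit 209) (nat_lit 4) (nat_lit 5) (nat_lit 13) L53926 (by decide +kernel)
theorem L53928 : W_8 (nat_lit 7) (nat_lit 0x8001c002c0012001200080000000000000000000000000000000) (nat_lit 0x0) (nat_lit 0x400026000300038000c00060000000000000000000000000000000000) := T_8 (nat_lit 189) (nat_lit 188) (nat_lit 2) (nat_lit 1) (nat_lit 11) L53927 (by decide +kernel)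
theorem L53929 : W_8 (nat_lit 2) (nat_lit 0x400008003c002c0012001200080000000000000000000000000000000) (nat_lit 0x0) (nat_lit 0x1000c000000000000000000000000000000000000000000000000) := D_8 (nat_lit 194) (nat_lit 208) (nat_lit 195) (nat_lit 1) (nat_lit 7) (nat_lit 11) (nat_lit 0) (nat_lit 8) (nat_lit 11) (by decide +kernel)
theorem L53930 : W_8 (nat_lit 3) (nat_lit 0x400008001c002c0012001200080000000000000000000000000000000) (nat_lit 0x0) (nat_lit 0x1400e000000000000000000000000000000000000000000000000) := T_8 (nat_lit 193) (nat_lit 206) (nat_lit 1) (nat_lit 6) (nat_lit 11) L53929 (by decide +kernel)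
theorem L53931 : W_8 (nat_lit 4) (nat_lit 0x8001c002c0012001200080000000000000000000000000000000) (nat_lit 0x0) (nat_lit 0x40003400e000000000000000000000000000000000000000000000000) := T_8 (nat_lit 226) (nat_lit 209) (nat_lit 4) (nat_lit 5) (nat_lit 13) L53930 (by decide +kernel)
theorem L53932 : W_8 (nat_lit 2) (nat_lit 0x400008003e002d0012001200080000000000000000000000000000000) (nat_lit 0x0) (nat_lit 0x1000c000000000000000000000000000000000000000000000000) := D_8 (nat_lit 194) (nat_lit 208) (nat_lit 195) (nat_lit 1) (nat_lit 7) (nat_lit 11) (nat_lit 0) (nat_lit 8) (nat_lit 11) (by decide +kernel)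
theorem L53933 : W_8 (nat_lit 3) (nat_lit 0x400008001e002d0012001200080000000000000000000000000000000) (nat_lit 0x0) (nat_lit 0x1000e000020000000000000000000000000000000000000000000) := T_8 (nat_lit 193) (nat_lit 173) (nat_lit 3) (nat_lit 2) (nat_lit 10) L53932 (by decide +kernel)
theorem L53934 : W_8 (nat_lit 4) (nat_lit 0x400008001e002c0012001200080000000000000000000000000000000) (nat_lit 0x0) (nat_lit 0x1000e000038000000000000000000000000000000000000000000) := T_8 (nat_lit 172) (nat_lit 171) (nat_lit 0) (nat_lit 5) (nat_lit 11) L53933 (by decide +kernel)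
theorem L53935 : W_8 (nat_lit 5) (nat_lit 0x8001e002c0012001200080000000000000000000000000000000) (nat_lit 0x0) (nat_lit 0x40003000e000038000000000000000000000000000000000000000000) := T_8 (nat_lit 226) (nat_lit 209) (nat_lit 4) (nat_lit 5) (nat_lit 13) L53934 (by decide +kernel)
theorem L53936 : W_8 (nat_lit 6) (nat_lit 0x8001c002c0012001200080000000000000000000000000000000) (nat_lit 0x0) (nat_lit 0x40003000e300038000000000000000000000000000000000000000000) := T_8 (nat_lit 189) (nat_lit 188) (nat_lit 2) (nat_lit 1) (nat_lit 11) L53935 (by decide +kernel)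
theorem L53937 : W_8 (nat_lit 8) (nat_lit 0x8000c002c0012001200080000000000000000000000000000000) (nat_lit 0x0) (nat_lit 0x40003600f300038000c00060000000000000000000000000000000000) := Q_8 (nat_lit 192) (C_8 L53920 (C_8 L53922 (C_8 L53928 (C_8 L53931 (C_8 L53936 N_8))))) (by decide +kernel)
theorem L53938 : W_8 (nat_lit 9) (nat_lit 0xc002c0012001200080000000000000000000000000000000) (nat_lit 0x0) (nat_lit 0x200050003e00f300038000c00060000000000000000000000000000000000) := Q_8 (nat_lit 207) (C_8 L53834 (C_8 L53833 (C_8 L53937 N_8))) (by decide +kernel)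
theorem L53939 : W_8 (nat_lit 10) (nat_lit 0xc002c0010001200080000000000000000000000000000000) (nat_lit 0x0) (nat_lit 0x200050003e00f300038002c00160018000000000000000000000000000000) := Q_8 (nat_lit 157) (C_8 L53832 (C_8 L53829 (C_8 L53938 N_8))) (by decide +kernel)
theorem L53940 : W_8 (nat_lit 2) (nat_lit 0x18001e002d0013801200080000000000000000000000000000000) (nat_lit 0x0) (nat_lit 0x4006000000000000000000000000000000000000000000000000) := D_8 (nat_lit 193) (nat_lit 194) (nat_lit 206) (nat_lit 1) (nat_lit 7) (nat_lit 11) (nat_lit 1) (nat_lit 6) (nat_lit 11) (by decide +kernel)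
theorem L53941 : W_8 (nat_lit 3) (nat_lit 0x18000e002d0013801200080000000000000000000000000000000) (nat_lit 0x0) (nat_lit 0x4007000008000000000000000000000000000000000000000000) := T_8 (nat_lit 192) (nat_lit 171) (nat_lit 0) (nat_lit 5) (nat_lit 11) L53940 (by decide +kernel)
theorem L53942 : W_8 (nat_lit 4) (nat_lit 0x18000e002c0013801200080000000000000000000000000000000) (nat_lit 0x0) (nat_lit 0x4007000018000000040000000000000000000000000000000000) := T_8 (nat_lit 172) (nat_lit 138) (nat_lit 7) (nat_lit 2) (nat_lit 8) L53941 (by decide +kernel)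
theorem L53943 : W_8 (nat_lit 5) (nat_lit 0x18000e002c0013001200080000000000000000000000000000000) (nat_lit 0x0) (nat_lit 0x4007000018000c00040000000000000000000000000000000000) := T_8 (nat_lit 155) (nat_lit 154) (nat_lit 3) (nat_lit 1) (nat_lit 9) L53942 (by decide +kernel)
theorem L53944 : W_8 (nat_lit 6) (nat_lit 0x8000e002c0013001200080000000000000000000000000000000) (nat_lit 0x0) (nat_lit 0x14007000018000c000c0000000000000000000000000000000000) := T_8 (nat_lit 208) (nat_lit 139) (nat_lit 4) (nat_lit 4) (nat_lit 12) L53943 (by decide +kernel)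
theorem L53945 : W_8 (nat_lit 7) (nat_lit 0x8000c002c0013001200080000000000000000000000000000000) (nat_lit 0x0) (nat_lit 0x14007300018000c000c0000000000000000000000000000000000) := T_8 (nat_lit 189) (nat_lit 188) (nat_lit 2) (nat_lit 1) (nat_lit 11) L53944 (by decide +kernel)
theorem L53946 : W_8 (nat_lit 2) (nat_lit 0x8000d002c0013001280080000000000000000000000000000000) (nat_lit 0x0) (nat_lit 0x20000000000004000200000000000000000000000000) := D_8 (nat_lit 122) (nat_lit 105) (nat_lit 173) (nat_lit 7) (nat_lit 3) (nat_lit 6) (nat_lit 7) (nat_lit 3) (nat_lit 7) (by decide +kernel)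
theorem L53947 : W_8 (nat_lit 3) (nat_lit 0x8000d002c0013001200080000000000000000000000000000000) (nat_lit 0x0) (nat_lit 0x10000000020000000080004000200000000000000000000000000) := T_8 (nat_lit 139) (nat_lit 208) (nat_lit 4) (nat_lit 4) (nat_lit 12) L53946 (by decide +kernel)
theorem L53948 : W_8 (nat_lit 4) (nat_lit 0x8000c002c0013001200080000000000000000000000000000000) (nat_lit 0x0) (nat_lit 0x10000300020000000080004000200000000000000000000000000) := T_8 (nat_lit 188) (nat_lit 189) (nat_lit 2) (nat_lit 1) (nat_lit 11) L53947 (by decide +kernel)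
theorem L53949 : W_8 (nat_lit 4) (nat_lit 0x18000c002c0013801200080000000000000000000000000000000) (nat_lit 0x0) (nat_lit 0x80007001000020000000040000000000000000000000000000000000) := T_8 (nat_lit 173) (nat_lit 138) (nat_lit 4) (nat_lit 3) (nat_lit 12) L53048 (by decide +kernel)
theorem L53950 : W_8 (nat_lit 5) (nat_lit 0x18000c002c0013001200080000000000000000000000000000000) (nat_lit 0x0) (nat_lit 0x80007001000020000c00040000000000000000000000000000000000) := T_8 (nat_lit 155) (nat_lit 154) (nat_lit 3) (nat_lit 1) (nat_lit 9) L53949 (by decide +kernel)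
theorem L53951 : W_8 (nat_lit 6) (nat_lit 0x8000c002c0013001200080000000000000000000000000000000) (nat_lit 0x0) (nat_lit 0x80017001000020000c000c0000000000000000000000000000000000) := T_8 (nat_lit 208) (nat_lit 139) (nat_lit 4) (nat_lit 4) (nat_lit 12) L53950 (by decide +kernel)
theorem L53952 : W_8 (nat_lit 8) (nat_lit 0x8000c002c0012001200080000000000000000000000000000000) (nat_lit 0x0) (nat_lit 0x80017007380038001c000c0004000200000000000000000000000000) := Q_8 (nat_lit 156) (C_8 L53852 (C_8 L53837 (C_8 L53945 (C_8 L53948 (C_8 L53951 N_8))))) (by decide +kernel)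
theorem L53953 : W_8 (nat_lit 9) (nat_lit 0xc002c0012001200080000000000000000000000000000000) (nat_lit 0x0) (nat_lit 0x200018001f007380038001c000c0004000200000000000000000000000000) := Q_8 (nat_lit 207) (C_8 L53834 (C_8 L53833 (C_8 L53952 N_8))) (by decide +kernel)
theorem L53954 : W_8 (nat_lit 10) (nat_lit 0xc002c0010001200080000000000000000000000000000000) (nat_lit 0x0) (nat_lit 0x200018001f007380038003c001c001c000200000000000000000000000000) := Q_8 (nat_lit 157) (C_8 L53832 (C_8 L53829 (C_8 L53953 N_8))) (by decide +kernel)
theorem L53955 : W_8 (nat_lit 2) (nat_lit 0xd002e00130013e0080000000000000000000000000000000) (nat_lit 0x0) (nat_lit 0xe00000000000000000000000000000000000000) := D_8 (nat_lit 154) (nat_lit 155) (nat_lit 153) (nat_lit 3) (nat_lit 1) (nat_lit 9) (nat_lit 1) (nat_lit 4) (nat_lit 8) (by decide +kernel)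
theorem L53956 : W_8 (nat_lit 3) (nat_lit 0xd002e00130013c0080000000000000000000000000000000) (nat_lit 0x0) (nat_lit 0xe00030000000000000000000000000000000000) := T_8 (nat_lit 137) (nat_lit 136) (nat_lit 3) (nat_lit 0) (nat_lit 8) L53955 (by decide +kernel)
theorem L53957 : W_8 (nat_lit 4) (nat_lit 0xd002e0013001380080000000000000000000000000000000) (nat_lit 0x0) (nat_lit 0xe00070002000000000000000000000000000000) := T_8 (nat_lit 138) (nat_lit 121) (nat_lit 4) (nat_lit 3) (nat_lit 11) L53956 (by decide +kernel)
theorem L53958 : W_8 (nat_lit 5) (nat_lit 0xd002c0013001380080000000000000000000000000000000) (nat_lit 0x0) (nat_lit 0x20000e0007000a000000000000000000000000000000) := T_8 (nat_lit 173) (nat_lit 123) (nat_lit 6) (nat_lit 3) (nat_lit 11) L53957 (by decide +kernel)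
theorem L53959 : W_8 (nat_lit 6) (nat_lit 0xd002c0012001380080000000000000000000000000000000) (nat_lit 0x0) (nat_lit 0x10000000020001e0007000a000000000000000000000000000000) := T_8 (nat_lit 156) (nat_lit 208) (nat_lit 4) (nat_lit 4) (nat_lit 12) L53958 (by decide +kernel)
theorem L53960 : W_8 (nat_lit 7) (nat_lit 0xd002c0012001300080000000000000000000000000000000) (nat_lit 0x0) (nat_lit 0x10000000020001e000f000e000000000000000000000000000000) := T_8 (nat_lit 139) (nat_lit 122) (nat_lit 4) (nat_lit 4) (nat_lit 11) L53959 (by decide +kernel)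
theorem L53961 : W_8 (nat_lit 8) (nat_lit 0xd002c0012001200080000000000000000000000000000000) (nat_lit 0x0) (nat_lit 0x10000000020001e001f001e000000000000000000000000000000) := T_8 (nat_lit 140) (nat_lit 124) (nat_lit 6) (nat_lit 4) (nat_lit 11) L53960 (by decide +kernel)
theorem L53962 : W_8 (nat_lit 9) (nat_lit 0xc002c0012001200080000000000000000000000000000000) (nat_lit 0x0) (nat_lit 0x10000300020001e001f001e000000000000000000000000000000) := T_8 (nat_lit 188) (nat_lit 189) (nat_lit 2) (nat_lit 1) (nat_lit 11) L53961 (by decide +kernel)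
theorem L53963 : W_8 (nat_lit 2) (nat_lit 0x8000c002c0013001280080000000000000000000000000000000) (nat_lit 0x0) (nat_lit 0x20000000000004000200000000000000000000000000) := D_8 (nat_lit 122) (nat_lit 105) (nat_lit 173) (nat_lit 7) (nat_lit 3) (nat_lit 6) (nat_lit 7) (nat_lit 3) (nat_lit 7) (by decide +kernel)
theorem L53964 : W_8 (nat_lit 3) (nat_lit 0x8000c002c0013001200080000000000000000000000000000000) (nat_lit 0x0) (nat_lit 0x10000000020000000080004000200000000000000000000000000) := T_8 (nat_lit 139) (nat_lit 208) (nat_lit 4) (nat_lit 4) (nat_lit 12) L53963 (by decide +kernel)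
theorem L53965 : W_8 (nat_lit 5) (nat_lit 0x8000c002c0012001200080000000000000000000000000000000) (nat_lit 0x0) (nat_lit 0x400070000300030001c000c0004000200000000000000000000000000) := Q_8 (nat_lit 156) (C_8 L53948 (C_8 L53855 (C_8 L53852 (C_8 L53964 N_8)))) (by decide +kernel)
theorem L53966 : W_8 (nat_lit 6) (nat_lit 0xc002c0012001200080000000000000000000000000000000) (nat_lit 0x0) (nat_lit 0x2000500078000300030001c000c0004000200000000000000000000000000) := Q_8 (nat_lit 207) (C_8 L53834 (C_8 L53833 (C_8 L53965 N_8))) (by decide +kernel)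
theorem L53967 : W_8 (nat_lit 10) (nat_lit 0xc002c0010001200080000000000000000000000000000000) (nat_lit 0x0) (nat_lit 0x2000500078000300030003e001f001e000200000000000000000000000000) := Q_8 (nat_lit 157) (C_8 L53829 (C_8 L53962 (C_8 L53966 N_8))) (by decide +kernel)
theorem L53968 : W_8 (nat_lit 6) (nat_lit 0xb8000d002c0012001200080000000000000000000000000000000) (nat_lit 0x0) (nat_lit 0x80007000080020001c000c0000000000000000000000000000000000) := T_8 (nat_lit 156) (nat_lit 139) (nat_lit 4) (nat_lit 4) (nat_lit 12) L53841 (by decide +kernel)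
theorem L53969 : W_8 (nat_lit 7) (nat_lit 0x38000d002c0012001200080000000000000000000000000000000) (nat_lit 0x0) (nat_lit 0x800c7000080020001c000c0000000000000000000000000000000000) := T_8 (nat_lit 211) (nat_lit 210) (nat_lit 0) (nat_lit 7) (nat_lit 12) L53968 (by decide +kernel)
theorem L53970 : W_8 (nat_lit 8) (nat_lit 0x18000d002c0012001200080000000000000000000000000000000) (nat_lit 0x0) (nat_lit 0x4800e7000080020001c000c0000000000000000000000000000000000) := T_8 (nat_lit 209) (nat_lit 226) (nat_lit 7) (nat_lit 4) (nat_lit 9) L53969 (by decide +kernel)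
theorem L53971 : W_8 (nat_lit 9) (nat_lit 0x18000c002c0012001200080000000000000000000000000000000) (nat_lit 0x0) (nat_lit 0x4800e7000380020001c000c0000000000000000000000000000000000) := T_8 (nat_lit 188) (nat_lit 189) (nat_lit 2) (nat_lit 1) (nat_lit 11) L53970 (by decide +kernel)
theorem L53972 : W_8 (nat_lit 4) (nat_lit 0x18000c002c0012001200080000000000000000000000000000000) (nat_lit 0x0) (nat_lit 0x400060000300000001000080000000000000000000000000000000000) := T_8 (nat_lit 156) (nat_lit 139) (nat_lit 4) (nat_lit 4) (nat_lit 12) L53854 (by decide +kernel)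
theorem L53973 : W_8 (nat_lit 2) (nat_lit 0x800078002d002c0012001200080000000000000000000000000000000) (nat_lit 0x0) (nat_lit 0x10000000004001000000000000000000000000000000000000000000000000) := D_8 (nat_lit 192) (nat_lit 206) (nat_lit 244) (nat_lit 2) (nat_lit 2) (nat_lit 12) (nat_lit 4) (nat_lit 6) (nat_lit 14) (by decide +kernel)
theorem L53974 : W_8 (nat_lit 3) (nat_lit 0x800078000d002c0012001200080000000000000000000000000000000) (nat_lit 0x0) (nat_lit 0x10000000004007000000000000000000000000000000000000000000000000) := T_8 (nat_lit 193) (nat_lit 194) (nat_lit 2) (nat_lit 3) (nat_lit 12) L53973 (by decide +kernel)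
theorem L53975 : W_8 (nat_lit 4) (nat_lit 0x78000d002c0012001200080000000000000000000000000000000) (nat_lit 0x0) (nat_lit 0x10001800004007000000000000000000000000000000000000000000000000) := T_8 (nat_lit 227) (nat_lit 228) (nat_lit 3) (nat_lit 3) (nat_lit 12) L53974 (by decide +kernel)
theorem L53976 : W_8 (nat_lit 5) (nat_lit 0x38000d002c0012001200080000000000000000000000000000000) (nat_lit 0x0) (nat_lit 0x100018000c4007000000000000000000000000000000000000000000000000) := T_8 (nat_lit 210) (nat_lit 211) (nat_lit 0) (nat_lit 7) (nat_lit 12) L53975 (by decide +kernel)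
theorem L53977 : W_8 (nat_lit 6) (nat_lit 0x18000d002c0012001200080000000000000000000000000000000) (nat_lit 0x0) (nat_lit 0x10001c000e4007000000000000000000000000000000000000000000000000) := T_8 (nat_lit 209) (nat_lit 226) (nat_lit 7) (nat_lit 4) (nat_lit 9) L53976 (by decide +kernel)
theorem L53978 : W_8 (nat_lit 7) (nat_lit 0x18000c002c0012001200080000000000000000000000000000000) (nat_lit 0x0) (nat_lit 0x10001c000e4007300000000000000000000000000000000000000000000000) := T_8 (nat_lit 188) (nat_lit 189) (nat_lit 2) (nat_lit 1) (nat_lit 11) L53977 (by decide +kernel)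
theorem L53979 : W_8 (nat_lit 2) (nat_lit 0xbc005c002c0013401200080000000000000000000000000000000) (nat_lit 0x0) (nat_lit 0xc0000000000020000000000000000000000000000000000000000000) := D_8 (nat_lit 223) (nat_lit 173) (nat_lit 222) (nat_lit 5) (nat_lit 3) (nat_lit 9) (nat_lit 1) (nat_lit 5) (nat_lit 12) (by decide +kernel)
theorem L53980 : W_8 (nat_lit 3) (nat_lit 0xb8005c002c0013401200080000000000000000000000000000000) (nat_lit 0x0) (nat_lit 0xc0006000000020000000000000000000000000000000000000000000) := T_8 (nat_lit 206) (nat_lit 205) (nat_lit 2) (nat_lit 1) (nat_lit 12) L53979 (by decide +kernel)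
theorem L53981 : W_8 (nat_lit 4) (nat_lit 0xb8004c002c0013401200080000000000000000000000000000000) (nat_lit 0x0) (nat_lit 0xc0006003000020000000000000000000000000000000000000000000) := T_8 (nat_lit 192) (nat_lit 193) (nat_lit 1) (nat_lit 7) (nat_lit 11) L53980 (by decide +kernel)
theorem L53982 : W_8 (nat_lit 5) (nat_lit 0xb8000c002c0013401200080000000000000000000000000000000) (nat_lit 0x0) (nat_lit 0xc0006007000020020000000000000000000000000000000000000000) := T_8 (nat_lit 194) (nat_lit 161) (nat_lit 6) (nat_lit 7) (nat_lit 12) L53981 (by decide +kernel)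
theorem L53983 : W_8 (nat_lit 6) (nat_lit 0xb8000c002c0013001200080000000000000000000000000000000) (nat_lit 0x0) (nat_lit 0xc0006007000020020c00000000000000000000000000000000000000) := T_8 (nat_lit 154) (nat_lit 155) (nat_lit 3) (nat_lit 1) (nat_lit 9) L53982 (by decide +kernel)
theorem L53984 : W_8 (nat_lit 7) (nat_lit 0xb8000c002c0012001200080000000000000000000000000000000) (nat_lit 0x0) (nat_lit 0xc0006007000020021c00080000000000000000000000000000000000) := T_8 (nat_lit 156) (nat_lit 139) (nat_lit 4) (nat_lit 4) (nat_lit 12) L53983 (by decide +kernel)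
theorem L53985 : W_8 (nat_lit 8) (nat_lit 0x38000c002c0012001200080000000000000000000000000000000) (nat_lit 0x0) (nat_lit 0xc00c6007000020021c00080000000000000000000000000000000000) := T_8 (nat_lit 211) (nat_lit 210) (nat_lit 0) (nat_lit 7) (nat_lit 12) L53984 (by decide +kernel)
theorem L53986 : W_8 (nat_lit 9) (nat_lit 0x18000c002c0012001200080000000000000000000000000000000) (nat_lit 0x0) (nat_lit 0x4c00e6007000020021c00080000000000000000000000000000000000) := T_8 (nat_lit 209) (nat_lit 226) (nat_lit 7) (nat_lit 4) (nat_lit 9) L53985 (by decide +kernel)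
theorem L53987 : W_8 (nat_lit 10) (nat_lit 0x8000c002c0012001200080000000000000000000000000000000) (nat_lit 0x0) (nat_lit 0x10001cc00f7007380020021c000c0000000000000000000000000000000000) := Q_8 (nat_lit 208) (C_8 L52962 (C_8 L53971 (C_8 L53972 (C_8 L53978 (C_8 L53986 N_8))))) (by decide +kernel)
theorem L53988 : W_8 (nat_lit 11) (nat_lit 0xc002c0012001200080000000000000000000000000000000) (nat_lit 0x0) (nat_lit 0x12001dc00ff007380020021c000c0000000000000000000000000000000000) := Q_8 (nat_lit 207) (C_8 L53834 (C_8 L53833 (C_8 L53987 N_8))) (by decide +kernel)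
theorem L53989 : W_8 (nat_lit 12) (nat_lit 0xc002c0010001200080000000000000000000000000000000) (nat_lit 0x0) (nat_lit 0x12001dc00ff007380020023e001f001e000000000000000000000000000000) := Q_8 (nat_lit 157) (C_8 L53962 (C_8 L53988 (C_8 L53829 N_8))) (by decide +kernel)
theorem L53990 : W_8 (nat_lit 2) (nat_lit 0xd002c0012001300080000000000000000000000000000000) (nat_lit 0x0) (nat_lit 0x20001000000000000000008000000000000000000000000000000) := D_8 (nat_lit 192) (nat_lit 123) (nat_lit 209) (nat_lit 7) (nat_lit 4) (nat_lit 7) (nat_lit 7) (nat_lit 4) (nat_lit 8) (by decide +kernel)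
theorem L53991 : W_8 (nat_lit 3) (nat_lit 0xd002c0012001200080000000000000000000000000000000) (nat_lit 0x0) (nat_lit 0x20001000000000000100018000000000000000000000000000000) := T_8 (nat_lit 140) (nat_lit 124) (nat_lit 6) (nat_lit 4) (nat_lit 11) L53990 (by decide +kernel)
theorem L53992 : W_8 (nat_lit 4) (nat_lit 0xc002c0012001200080000000000000000000000000000000) (nat_lit 0x0) (nat_lit 0x20001300000000000100018000000000000000000000000000000) := T_8 (nat_lit 188) (nat_lit 189) (nat_lit 2) (nat_lit 1) (nat_lit 11) L53991 (by decide +kernel)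
theorem L53993 : W_8 (nat_lit 5) (nat_lit 0x10000e002c0013801200080000000000000000000000000000000) (nat_lit 0x0) (nat_lit 0x10000c007000018000000040000000000000000000000000000000000) := T_8 (nat_lit 207) (nat_lit 224) (nat_lit 5) (nat_lit 4) (nat_lit 9) L53942 (by decide +kernel)
theorem L53994 : W_8 (nat_lit 6) (nat_lit 0x10000e002c0013001200080000000000000000000000000000000) (nat_lit 0x0) (nat_lit 0x10000c007000018000c00040000000000000000000000000000000000) := T_8 (nat_lit 155) (nat_lit 154) (nat_lit 3) (nat_lit 1) (nat_lit 9) L53993 (by decide +kernel)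
theorem L53995 : W_8 (nat_lit 7) (nat_lit 0x10000e002c0012001200080000000000000000000000000000000) (nat_lit 0x0) (nat_lit 0x10000c007000018001c000c0000000000000000000000000000000000) := T_8 (nat_lit 156) (nat_lit 139) (nat_lit 4) (nat_lit 4) (nat_lit 12) L53994 (by decide +kernel)
theorem L53996 : W_8 (nat_lit 8) (nat_lit 0x10000c002c0012001200080000000000000000000000000000000) (nat_lit 0x0) (nat_lit 0x10000c007300018001c000c0000000000000000000000000000000000) := T_8 (nat_lit 189) (nat_lit 188) (nat_lit 2) (nat_lit 1) (nat_lit 11) L53995 (by decide +kernel)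
theorem L53997 : W_8 (nat_lit 2) (nat_lit 0x7e002c002c0013401200080000000000000000000000000000000) (nat_lit 0x0) (nat_lit 0xe0000000000000000000000000000000000000000000000000000000) := D_8 (nat_lit 222) (nat_lit 223) (nat_lit 221) (nat_lit 1) (nat_lit 5) (nat_lit 12) (nat_lit 1) (nat_lit 4) (nat_lit 12) (by decide +kernel)
theorem L53998 : W_8 (nat_lit 3) (nat_lit 0x7c002c002c0013401200080000000000000000000000000000000) (nat_lit 0x0) (nat_lit 0xe0003000000000000000000000000000000000000000000000000000) := T_8 (nat_lit 205) (nat_lit 204) (nat_lit 2) (nat_lit 0) (nat_lit 12) L53997 (by decide +kernel)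
theorem L53999 : W_8 (nat_lit 4) (nat_lit 0x78002c002c0013401200080000000000000000000000000000000) (nat_lit 0x0) (nat_lit 0xe0007001000000000000000000000000000000000000000000000000) := T_8 (nat_lit 206) (nat_lit 192) (nat_lit 2) (nat_lit 2) (nat_lit 12) L53998 (by decide +kernel)
theorem L54000 : W_8 (nat_lit 5) (nat_lit 0x78000c002c0013401200080000000000000000000000000000000) (nat_lit 0x0) (nat_lit 0xe0007007000000000000000000000000000000000000000000000000) := T_8 (nat_lit 193) (nat_lit 194) (nat_lit 2) (nat_lit 3) (nat_lit 12) L53999 (by decide +kernel)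
theorem L54001 : W_8 (nat_lit 6) (nat_lit 0x78000c002c0013001200080000000000000000000000000000000) (nat_lit 0x0) (nat_lit 0xe0007007000000000c00000000000000000000000000000000000000) := T_8 (nat_lit 154) (nat_lit 155) (nat_lit 3) (nat_lit 1) (nat_lit 9) L54000 (by decide +kernel)
theorem L54002 : W_8 (nat_lit 7) (nat_lit 0x78000c002c0012001200080000000000000000000000000000000) (nat_lit 0x0) (nat_lit 0xe0007007000000001c00080000000000000000000000000000000000) := T_8 (nat_lit 156) (nat_lit 139) (nat_lit 4) (nat_lit 4) (nat_lit 12) L54001 (by decide +kernel)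
theorem L54003 : W_8 (nat_lit 8) (nat_lit 0x38000c002c0012001200080000000000000000000000000000000) (nat_lit 0x0) (nat_lit 0xe00c7007000000001c00080000000000000000000000000000000000) := T_8 (nat_lit 210) (nat_lit 211) (nat_lit 0) (nat_lit 7) (nat_lit 12) L54002 (by decide +kernel)
theorem L54004 : W_8 (nat_lit 9) (nat_lit 0x18000c002c0012001200080000000000000000000000000000000) (nat_lit 0x0) (nat_lit 0x4e00e7007000000001c00080000000000000000000000000000000000) := T_8 (nat_lit 209) (nat_lit 226) (nat_lit 7) (nat_lit 4) (nat_lit 9) L54003 (by decide +kernel)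
theorem L54005 : W_8 (nat_lit 10) (nat_lit 0x10000c002c0012001200080000000000000000000000000000000) (nat_lit 0x0) (nat_lit 0x5e00ef007000000001c00080000000000000000000000000000000000) := T_8 (nat_lit 207) (nat_lit 224) (nat_lit 5) (nat_lit 4) (nat_lit 9) L54004 (by decide +kernel)
theorem L54006 : W_8 (nat_lit 11) (nat_lit 0xc002c0012001200080000000000000000000000000000000) (nat_lit 0x0) (nat_lit 0x5e00ff007300018001c000c0000000000000000000000000000000000) := Q_8 (nat_lit 208) (C_8 L52968 (C_8 L53996 (C_8 L52948 (C_8 L54005 N_8)))) (by decide +kernel)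
theorem L54007 : W_8 (nat_lit 12) (nat_lit 0xc002c0010001200080000000000000000000000000000000) (nat_lit 0x0) (nat_lit 0x5e00ff007300018003c001c0018000000000000000000000000000000) := Q_8 (nat_lit 157) (C_8 L53829 (C_8 L53992 (C_8 L54006 N_8))) (by decide +kernel)
theorem L54008 : W_8 (nat_lit 4) (nat_lit 0x1c002c0010001200080000000000000000000000000000000) (nat_lit 0x0) (nat_lit 0x8000400060000300000002000000000000000000000000000000000000000) := T_8 (nat_lit 189) (nat_lit 188) (nat_lit 2) (nat_lit 1) (nat_lit 11) L53769 (by decide +kernel)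
theorem L54009 : W_8 (nat_lit 6) (nat_lit 0x1c002c0010001200080000000000000000000000000000000) (nat_lit 0x0) (nat_lit 0x1000080006002300038001000000000000000000000000000000000000000) := T_8 (nat_lit 189) (nat_lit 188) (nat_lit 2) (nat_lit 1) (nat_lit 11) L53766 (by decide +kernel)
theorem L54010 : W_8 (nat_lit 2) (nat_lit 0x1c002c0012001200080000000000000000000000000000000) (nat_lit 0x0) (nat_lit 0x28000000000000000100000000000000000000000000000000000) := D_8 (nat_lit 140) (nat_lit 207) (nat_lit 209) (nat_lit 5) (nat_lit 4) (nat_lit 8) (nat_lit 7) (nat_lit 4) (nat_lit 8) (by decide +kernel)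
theorem L54011 : W_8 (nat_lit 2) (nat_lit 0x1c002c0012001200080000000000000000000000000000000) (nat_lit 0x0) (nat_lit 0x8000000000000000100010000000000000000000000000000000) := D_8 (nat_lit 140) (nat_lit 207) (nat_lit 124) (nat_lit 5) (nat_lit 4) (nat_lit 8) (nat_lit 6) (nat_lit 4) (nat_lit 11) (by decide +kernel)
theorem L54012 : W_8 (nat_lit 2) (nat_lit 0x5c002c0012001200080000000000000000000000000000000) (nat_lit 0x0) (nat_lit 0xa000020000000000000000000000000000000000000000000) := D_8 (nat_lit 193) (nat_lit 173) (nat_lit 195) (nat_lit 0) (nat_lit 7) (nat_lit 11) (nat_lit 0) (nat_lit 8) (nat_lit 11) (by decide +kernel)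
theorem L54013 : W_8 (nat_lit 2) (nat_lit 0x2c00080005c002c0012001200080000000000000000000000000000000) (nat_lit 0x0) (nat_lit 0x50001000000000000000000000000000000000000000000000000000000000) := D_8 (nat_lit 228) (nat_lit 246) (nat_lit 244) (nat_lit 7) (nat_lit 7) (nat_lit 10) (nat_lit 5) (nat_lit 7) (nat_lit 10) (by decide +kernel)
theorem L54014 : W_8 (nat_lit 3) (nat_lit 0x2400080005c002c0012001200080000000000000000000000000000000) (nat_lit 0x0) (nat_lit 0x50001800040000000000000000000000000000000000000000000000000000) := T_8 (nat_lit 227) (nat_lit 210) (nat_lit 5) (nat_lit 7) (nat_lit 9) L54013 (by decide +kernel)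
theorem L54015 : W_8 (nat_lit 4) (nat_lit 0x400080005c002c0012001200080000000000000000000000000000000) (nat_lit 0x0) (nat_lit 0x50003800140000000000000000000000000000000000000000000000000000) := T_8 (nat_lit 229) (nat_lit 212) (nat_lit 7) (nat_lit 7) (nat_lit 9) L54014 (by decide +kernel)
theorem L54016 : W_8 (nat_lit 5) (nat_lit 0x400000005c002c0012001200080000000000000000000000000000000) (nat_lit 0x0) (nat_lit 0x500038001c0000000000020000000000000000000000000000000000000000) := T_8 (nat_lit 211) (nat_lit 161) (nat_lit 6) (nat_lit 7) (nat_lit 12) L54015 (by decide +kernel)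
theorem L54017 : W_8 (nat_lit 6) (nat_lit 0x5c002c0012001200080000000000000000000000000000000) (nat_lit 0x0) (nat_lit 0x50003c001e0000000000020000000000000000000000000000000000000000) := T_8 (nat_lit 226) (nat_lit 209) (nat_lit 4) (nat_lit 5) (nat_lit 13) L54016 (by decide +kernel)
theorem L54018 : W_8 (nat_lit 7) (nat_lit 0x1c002c0012001200080000000000000000000000000000000) (nat_lit 0x0) (nat_lit 0x50003c001e000e000020020000000000000000000000000000000000000000) := Q_8 (nat_lit 194) (C_8 L54012 (C_8 L54017 N_8)) (by decide +kernel)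
theorem L54019 : W_8 (nat_lit 8) (nat_lit 0x1c002c0010001200080000000000000000000000000000000) (nat_lit 0x0) (nat_lit 0x50003c001e800e000020022000100010000000000000000000000000000000) := Q_8 (nat_lit 157) (C_8 L54010 (C_8 L54011 (C_8 L54018 N_8))) (by decide +kernel)
theorem L54020 : W_8 (nat_lit 9) (nat_lit 0xc002c0010001200080000000000000000000000000000000) (nat_lit 0x0) (nat_lit 0x59003c801ee00f300038023000100010000000000000000000000000000000) := Q_8 (nat_lit 192) (C_8 L54008 (C_8 L54009 (C_8 L54019 N_8))) (by decide +kernel)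
theorem L54021 : W_8 (nat_lit 3) (nat_lit 0x8000c002c0010001200080000000000000000000000000000000) (nat_lit 0x0) (nat_lit 0x2000100000000000020002000100000000000000000000000000000000000) := T_8 (nat_lit 157) (nat_lit 140) (nat_lit 5) (nat_lit 4) (nat_lit 8) L53834 (by decide +kernel)
theorem L54022 : W_8 (nat_lit 2) (nat_lit 0x2000000008003c002c0010001200080000000000000000000000000000000) (nat_lit 0x0) (nat_lit 0x10004000020000000000000000000000000000000000000000000) := D_8 (nat_lit 194) (nat_lit 208) (nat_lit 173) (nat_lit 1) (nat_lit 7) (nat_lit 11) (nat_lit 0) (nat_lit 7) (nat_lit 11) (by decide +kernel)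
theorem L54023 : W_8 (nat_lit 3) (nat_lit 0x2000000008001c002c0010001200080000000000000000000000000000000) (nat_lit 0x0) (nat_lit 0x14006000020000000000000000000000000000000000000000000) := T_8 (nat_lit 193) (nat_lit 206) (nat_lit 1) (nat_lit 6) (nat_lit 11) L54022 (by decide +kernel)
theorem L54024 : W_8 (nat_lit 4) (nat_lit 0x8001c002c0010001200080000000000000000000000000000000) (nat_lit 0x0) (nat_lit 0x2000100014006000020000000000000000000000000000000000000000000) := T_8 (nat_lit 241) (nat_lit 224) (nat_lit 6) (nat_lit 3) (nat_lit 14) L54023 (by decide +kernel)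
theorem L54025 : W_8 (nat_lit 2) (nat_lit 0x2000000008001c002f0010801200080000000000000000000000000000000) (nat_lit 0x0) (nat_lit 0x1000040002000000000000000000000000000000) := D_8 (nat_lit 138) (nat_lit 156) (nat_lit 121) (nat_lit 4) (nat_lit 3) (nat_lit 12) (nat_lit 7) (nat_lit 2) (nat_lit 7) (by decide +kernel)
theorem L54026 : W_8 (nat_lit 3) (nat_lit 0x2000000008001c002f0010001200080000000000000000000000000000000) (nat_lit 0x0) (nat_lit 0x1c00040002000000000000000000000000000000) := T_8 (nat_lit 155) (nat_lit 154) (nat_lit 0) (nat_lit 5) (nat_lit 10) L54025 (by decide +kernel)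
theorem L54027 : W_8 (nat_lit 4) (nat_lit 0x2000000008001c002e0010001200080000000000000000000000000000000) (nat_lit 0x0) (nat_lit 0x18001c00040002000000000000000000000000000000) := T_8 (nat_lit 172) (nat_lit 171) (nat_lit 3) (nat_lit 1) (nat_lit 10) L54026 (by decide +kernel)
theorem L54028 : W_8 (nat_lit 5) (nat_lit 0x8001c002e0010001200080000000000000000000000000000000) (nat_lit 0x0) (nat_lit 0x2000100000000000018001c00040002000000000000000000000000000000) := T_8 (nat_lit 241) (nat_lit 224) (nat_lit 6) (nat_lit 3) (nat_lit 14) L54027 (by decide +kernel)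
theorem L54029 : W_8 (nat_lit 2) (nat_lit 0x180008001c002e0011001200080000000000000000000000000000000) (nat_lit 0x0) (nat_lit 0x10000000000000000080004000000000000000000000000000000) := D_8 (nat_lit 139) (nat_lit 208) (nat_lit 122) (nat_lit 7) (nat_lit 3) (nat_lit 8) (nat_lit 7) (nat_lit 3) (nat_lit 7) (by decide +kernel)
theorem L54030 : W_8 (nat_lit 3) (nat_lit 0x180008001c002e0010001200080000000000000000000000000000000) (nat_lit 0x0) (nat_lit 0x14000000000001000080004000000000000000000000000000000) := T_8 (nat_lit 156) (nat_lit 206) (nat_lit 5) (nat_lit 3) (nat_lit 9) L54029 (by decide +kernel)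
theorem L54031 : W_8 (nat_lit 4) (nat_lit 0x100008001c002e0010001200080000000000000000000000000000000) (nat_lit 0x0) (nat_lit 0x1000080014000000000001000080004000000000000000000000000000000) := T_8 (nat_lit 223) (nat_lit 240) (nat_lit 5) (nat_lit 3) (nat_lit 10) L54030 (by decide +kernel)
theorem L54032 : W_8 (nat_lit 5) (nat_lit 0x8001c002e0010001200080000000000000000000000000000000) (nat_lit 0x0) (nat_lit 0x3000180014000000000001000080004000000000000000000000000000000) := T_8 (nat_lit 224) (nat_lit 241) (nat_lit 6) (nat_lit 3) (nat_lit 14) L54031 (by decide +kernel)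
theorem L54033 : W_8 (nat_lit 2) (nat_lit 0x100008001c002e0010001200080000000000000000000000000000000) (nat_lit 0x0) (nat_lit 0x18000800000000000000000000000000000000000000) := D_8 (nat_lit 172) (nat_lit 171) (nat_lit 155) (nat_lit 3) (nat_lit 1) (nat_lit 10) (nat_lit 4) (nat_lit 3) (nat_lit 13) (by decide +kernel)
theorem L54034 : W_8 (nat_lit 3) (nat_lit 0x8001c002e0010001200080000000000000000000000000000000) (nat_lit 0x0) (nat_lit 0x2000100000000000018000800000000000000000000000000000000000000) := T_8 (nat_lit 224) (nat_lit 241) (nat_lit 6) (nat_lit 3) (nat_lit 14) L54033 (by decide +kernel)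
theorem L54035 : W_8 (nat_lit 2) (nat_lit 0x8001c002f0010801200080000000000000000000000000000000) (nat_lit 0x0) (nat_lit 0x1000040002000000000000000000000000000000) := D_8 (nat_lit 138) (nat_lit 156) (nat_lit 121) (nat_lit 4) (nat_lit 3) (nat_lit 12) (nat_lit 7) (nat_lit 2) (nat_lit 7) (by decide +kernel)
theorem L54036 : W_8 (nat_lit 3) (nat_lit 0x8001c002f0010001200080000000000000000000000000000000) (nat_lit 0x0) (nat_lit 0x1c00040002000000000000000000000000000000) := T_8 (nat_lit 155) (nat_lit 154) (nat_lit 0) (nat_lit 5) (nat_lit 10) L54035 (by decide +kernel)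
theorem L54037 : W_8 (nat_lit 4) (nat_lit 0x8001c002e0010001200080000000000000000000000000000000) (nat_lit 0x0) (nat_lit 0x18001c00040002000000000000000000000000000000) := T_8 (nat_lit 172) (nat_lit 171) (nat_lit 3) (nat_lit 1) (nat_lit 10) L54036 (by decide +kernel)
theorem L54038 : W_8 (nat_lit 6) (nat_lit 0x8001c002c0010001200080000000000000000000000000000000) (nat_lit 0x0) (nat_lit 0x3000180014000000038001c000c0006000000000000000000000000000000) := Q_8 (nat_lit 173) (C_8 L54028 (C_8 L54032 (C_8 L54034 (C_8 L54037 N_8)))) (by decide +kernel)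
theorem L54039 : W_8 (nat_lit 2) (nat_lit 0x2000000008003c002c0010001200080000000000000000000000000000000) (nat_lit 0x0) (nat_lit 0x1000c000000000000000000000000000000000000000000000000) := D_8 (nat_lit 194) (nat_lit 208) (nat_lit 195) (nat_lit 1) (nat_lit 7) (nat_lit 11) (nat_lit 0) (nat_lit 8) (nat_lit 11) (by decide +kernel)
theorem L54040 : W_8 (nat_lit 3) (nat_lit 0x2000000008001c002c0010001200080000000000000000000000000000000) (nat_lit 0x0) (nat_lit 0x1400e000000000000000000000000000000000000000000000000) := T_8 (nat_lit 193) (nat_lit 206) (nat_lit 1) (nat_lit 6) (nat_lit 11) L54039 (by decide +kernel)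
theorem L54041 : W_8 (nat_lit 4) (nat_lit 0x8001c002c0010001200080000000000000000000000000000000) (nat_lit 0x0) (nat_lit 0x200010001400e000000000000000000000000000000000000000000000000) := T_8 (nat_lit 241) (nat_lit 224) (nat_lit 6) (nat_lit 3) (nat_lit 14) L54040 (by decide +kernel)
theorem L54042 : W_8 (nat_lit 2) (nat_lit 0x8003c002c0010001200080000000000000000000000000000000) (nat_lit 0x0) (nat_lit 0x4000030000000000000000000000000000000000000000000) := D_8 (nat_lit 173) (nat_lit 172) (nat_lit 194) (nat_lit 3) (nat_lit 2) (nat_lit 10) (nat_lit 0) (nat_lit 7) (nat_lit 11) (by decide +kernel)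
theorem L54043 : W_8 (nat_lit 3) (nat_lit 0x8001c002c0010001200080000000000000000000000000000000) (nat_lit 0x0) (nat_lit 0x4006000030000000000000000000000000000000000000000000) := T_8 (nat_lit 193) (nat_lit 206) (nat_lit 1) (nat_lit 6) (nat_lit 11) L54042 (by decide +kernel)
theorem L54044 : W_8 (nat_lit 2) (nat_lit 0x2000000188005c002e0010001200080000000000000000000000000000000) (nat_lit 0x0) (nat_lit 0x800060000000000000000000000000000000000000000000000000000) := D_8 (nat_lit 210) (nat_lit 209) (nat_lit 227) (nat_lit 0) (nat_lit 8) (nat_lit 12) (nat_lit 5) (nat_lit 7) (nat_lit 9) (by decide +kernel)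
theorem L54045 : W_8 (nat_lit 3) (nat_lit 0x2000000088005c002e0010001200080000000000000000000000000000000) (nat_lit 0x0) (nat_lit 0x2800160000000000000000000000000000000000000000000000000000) := T_8 (nat_lit 212) (nat_lit 229) (nat_lit 7) (nat_lit 7) (nat_lit 9) L54044 (by decide +kernel)
theorem L54046 : W_8 (nat_lit 4) (nat_lit 0x2000000008005c002e0010001200080000000000000000000000000000000) (nat_lit 0x0) (nat_lit 0x28001e0000000000020000000000000000000000000000000000000000) := T_8 (nat_lit 211) (nat_lit 161) (nat_lit 6) (nat_lit 7) (nat_lit 12) L54045 (by decide +kernel)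
theorem L54047 : W_8 (nat_lit 5) (nat_lit 0x2000000008001c002e0010001200080000000000000000000000000000000) (nat_lit 0x0) (nat_lit 0x28001e0006000000020000000000000000000000000000000000000000) := T_8 (nat_lit 194) (nat_lit 193) (nat_lit 0) (nat_lit 7) (nat_lit 11) L54046 (by decide +kernel)
theorem L54048 : W_8 (nat_lit 6) (nat_lit 0x8001c002e0010001200080000000000000000000000000000000) (nat_lit 0x0) (nat_lit 0x20029001e0006000000020000000000000000000000000000000000000000) := T_8 (nat_lit 241) (nat_lit 224) (nat_lit 6) (nat_lit 3) (nat_lit 14) L54047 (by decide +kernel)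
theorem L54049 : W_8 (nat_lit 7) (nat_lit 0x8001c002c0010001200080000000000000000000000000000000) (nat_lit 0x0) (nat_lit 0x20029001e0006000038021c00040002000000000000000000000000000000) := Q_8 (nat_lit 173) (C_8 L54037 (C_8 L54048 N_8)) (by decide +kernel)
theorem L54050 : W_8 (nat_lit 8) (nat_lit 0x8000c002c0010001200080000000000000000000000000000000) (nat_lit 0x0) (nat_lit 0x30029801f400f000038021c000c0006000000000000000000000000000000) := Q_8 (nat_lit 192) (C_8 L54024 (C_8 L54038 (C_8 L54041 (C_8 L54043 (C_8 L54049 N_8))))) (by decide +kernel)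
theorem L54051 : W_8 (nat_lit 2) (nat_lit 0x100008000c002c0010001200080000000000000000000000000000000) (nat_lit 0x0) (nat_lit 0x10000000000002000100000000000000000000000000000000000) := D_8 (nat_lit 157) (nat_lit 140) (nat_lit 208) (nat_lit 5) (nat_lit 4) (nat_lit 8) (nat_lit 5) (nat_lit 4) (nat_lit 9) (by decide +kernel)
theorem L54052 : W_8 (nat_lit 3) (nat_lit 0x8000c002c0010001200080000000000000000000000000000000) (nat_lit 0x0) (nat_lit 0x2000100010000000000002000100000000000000000000000000000000000) := T_8 (nat_lit 224) (nat_lit 241) (nat_lit 6) (nat_lit 3) (nat_lit 14) L54051 (by decide +kernel)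
theorem L54053 : W_8 (nat_lit 4) (nat_lit 0x8000c002c0011001200080000000000000000000000000000000) (nat_lit 0x0) (nat_lit 0x10000000020002000180004000200000000000000000000000000) := T_8 (nat_lit 157) (nat_lit 140) (nat_lit 5) (nat_lit 4) (nat_lit 8) L53964 (by decide +kernel)
theorem L54054 : W_8 (nat_lit 2) (nat_lit 0x8000c002e0011001200080000000000000000000000000000000) (nat_lit 0x0) (nat_lit 0x10000000000000000080004000000000000000000000000000000) := D_8 (nat_lit 139) (nat_lit 208) (nat_lit 122) (nat_lit 7) (nat_lit 3) (nat_lit 8) (nat_lit 7) (nat_lit 3) (nat_lit 7) (by decide +kernel)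
theorem L54055 : W_8 (nat_lit 2) (nat_lit 0xd002c002e0011801200084000000000000000000000000000000) (nat_lit 0x0) (nat_lit 0x10000600000000000000000000000000000000000000) := D_8 (nat_lit 154) (nat_lit 153) (nat_lit 172) (nat_lit 3) (nat_lit 0) (nat_lit 9) (nat_lit 0) (nat_lit 5) (nat_lit 10) (by decide +kernel)
theorem L54056 : W_8 (nat_lit 3) (nat_lit 0xd002c002e0011001200084000000000000000000000000000000) (nat_lit 0x0) (nat_lit 0x10000e00040000000000000000000000000000000000) := T_8 (nat_lit 155) (nat_lit 138) (nat_lit 4) (nat_lit 3) (nat_lit 12) L54055 (by decide +kernel)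
theorem L54057 : W_8 (nat_lit 4) (nat_lit 0xd002c002e0011001200080000000000000000000000000000000) (nat_lit 0x0) (nat_lit 0x10000e000c0004000000000000000000000000000000) := T_8 (nat_lit 122) (nat_lit 139) (nat_lit 7) (nat_lit 3) (nat_lit 7) L54056 (by decide +kernel)
theorem L54058 : W_8 (nat_lit 5) (nat_lit 0xd000c002e0011001200080000000000000000000000000000000) (nat_lit 0x0) (nat_lit 0x3000010000e000c0004000000000000000000000000000000) := T_8 (nat_lit 193) (nat_lit 192) (nat_lit 1) (nat_lit 6) (nat_lit 11) L54057 (by decide +kernel)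
theorem L54059 : W_8 (nat_lit 6) (nat_lit 0xc000c002e0011001200080000000000000000000000000000000) (nat_lit 0x0) (nat_lit 0x3003000010000e000c0004000000000000000000000000000000) := T_8 (nat_lit 204) (nat_lit 205) (nat_lit 2) (nat_lit 0) (nat_lit 12) L54058 (by decide +kernel)
theorem L54060 : W_8 (nat_lit 7) (nat_lit 0x8000c002e0011001200080000000000000000000000000000000) (nat_lit 0x0) (nat_lit 0x80007003000010000e000c0004000000000000000000000000000000) := T_8 (nat_lit 206) (nat_lit 223) (nat_lit 5) (nat_lit 3) (nat_lit 9) L54059 (by decide +kernel)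
theorem L54061 : W_8 (nat_lit 2) (nat_lit 0x8000c002e0011801200080000000000000000000000000000000) (nat_lit 0x0) (nat_lit 0x10000600000000000000000000000000000000000000) := D_8 (nat_lit 154) (nat_lit 153) (nat_lit 172) (nat_lit 3) (nat_lit 0) (nat_lit 9) (nat_lit 0) (nat_lit 5) (nat_lit 10) (by decide +kernel)
theorem L54062 : W_8 (nat_lit 3) (nat_lit 0x8000c002e0011001200080000000000000000000000000000000) (nat_lit 0x0) (nat_lit 0x10000e00040000000000000000000000000000000000) := T_8 (nat_lit 155) (nat_lit 138) (nat_lit 4) (nat_lit 3) (nat_lit 12) L54061 (by decide +kernel)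
theorem L54063 : W_8 (nat_lit 8) (nat_lit 0x8000c002c0011001200080000000000000000000000000000000) (nat_lit 0x0) (nat_lit 0x80017003000030000e000c0004000000000000000000000000000000) := Q_8 (nat_lit 173) (C_8 L54054 (C_8 L54060 (C_8 L54062 N_8))) (by decide +kernel)
theorem L54064 : W_8 (nat_lit 6) (nat_lit 0x38000c002c0013401200080000000000000000000000000000000) (nat_lit 0x0) (nat_lit 0xe00c7007000000000000000000000000000000000000000000000000) := T_8 (nat_lit 210) (nat_lit 211) (nat_lit 0) (nat_lit 7) (nat_lit 12) L54000 (by decide +kernel)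
theorem L54065 : W_8 (nat_lit 7) (nat_lit 0x18000c002c0013401200080000000000000000000000000000000) (nat_lit 0x0) (nat_lit 0x4e00e7007000000000000000000000000000000000000000000000000) := T_8 (nat_lit 209) (nat_lit 226) (nat_lit 7) (nat_lit 4) (nat_lit 9) L54064 (by decide +kernel)
theorem L54066 : W_8 (nat_lit 8) (nat_lit 0x8000c002c0013401200080000000000000000000000000000000) (nat_lit 0x0) (nat_lit 0x4e00f7007000000000000080000000000000000000000000000000000) := T_8 (nat_lit 208) (nat_lit 139) (nat_lit 4) (nat_lit 4) (nat_lit 12) L54065 (by decide +kernel)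
theorem L54067 : W_8 (nat_lit 9) (nat_lit 0x8000c002c0013001200080000000000000000000000000000000) (nat_lit 0x0) (nat_lit 0x4e00f7007000000000c00080000000000000000000000000000000000) := T_8 (nat_lit 154) (nat_lit 155) (nat_lit 3) (nat_lit 1) (nat_lit 9) L54066 (by decide +kernel)
theorem L54068 : W_8 (nat_lit 10) (nat_lit 0x8000c002c0011001200080000000000000000000000000000000) (nat_lit 0x0) (nat_lit 0x4e00f7007000000002c00180000000000000000000000000000000000) := T_8 (nat_lit 157) (nat_lit 140) (nat_lit 5) (nat_lit 4) (nat_lit 8) L54067 (by decide +kernel)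
theorem L54069 : W_8 (nat_lit 2) (nat_lit 0x8000c002e0011001300080000000000000000000000000000000) (nat_lit 0x0) (nat_lit 0x8000c000000000000000000000000000000) := D_8 (nat_lit 139) (nat_lit 123) (nat_lit 122) (nat_lit 6) (nat_lit 3) (nat_lit 11) (nat_lit 7) (nat_lit 3) (nat_lit 7) (by decide +kernel)
theorem L54070 : W_8 (nat_lit 3) (nat_lit 0x8000c002e0011001200080000000000000000000000000000000) (nat_lit 0x0) (nat_lit 0x200018000c000000000000000000000000000000) := T_8 (nat_lit 140) (nat_lit 157) (nat_lit 6) (nat_lit 3) (nat_lit 12) L54069 (by decide +kernel)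
theorem L54071 : W_8 (nat_lit 4) (nat_lit 0x8000c002c0011001200080000000000000000000000000000000) (nat_lit 0x0) (nat_lit 0x30002e001c000c000000000000000000000000000000) := Q_8 (nat_lit 173) (C_8 L54062 (C_8 L54070 N_8)) (by decide +kernel)
theorem L54072 : W_8 (nat_lit 2) (nat_lit 0xe000c002e0013801200080000000000000000000000000000000) (nat_lit 0x0) (nat_lit 0x10003000000000000000000000000000000000000000000000000) := D_8 (nat_lit 192) (nat_lit 193) (nat_lit 208) (nat_lit 1) (nat_lit 6) (nat_lit 11) (nat_lit 2) (nat_lit 1) (nat_lit 12) (by decide +kernel)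
theorem L54073 : W_8 (nat_lit 3) (nat_lit 0xc000c002e0013801200080000000000000000000000000000000) (nat_lit 0x0) (nat_lit 0x13003000000000000000000000000000000000000000000000000) := T_8 (nat_lit 205) (nat_lit 204) (nat_lit 2) (nat_lit 0) (nat_lit 12) L54072 (by decide +kernel)
theorem L54074 : W_8 (nat_lit 4) (nat_lit 0x8000c002e0013801200080000000000000000000000000000000) (nat_lit 0x0) (nat_lit 0x80017003000000000000000000000000000000000000000000000000) := T_8 (nat_lit 206) (nat_lit 223) (nat_lit 5) (nat_lit 3) (nat_lit 9) L54073 (by decide +kernel)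
theorem L54075 : W_8 (nat_lit 5) (nat_lit 0x8000c002c0013801200080000000000000000000000000000000) (nat_lit 0x0) (nat_lit 0x80017003000020000000040000000000000000000000000000000000) := T_8 (nat_lit 173) (nat_lit 138) (nat_lit 4) (nat_lit 3) (nat_lit 12) L54074 (by decide +kernel)
theorem L54076 : W_8 (nat_lit 6) (nat_lit 0x8000c002c0013001200080000000000000000000000000000000) (nat_lit 0x0) (nat_lit 0x80017003000020000c00040000000000000000000000000000000000) := T_8 (nat_lit 155) (nat_lit 154) (nat_lit 3) (nat_lit 1) (nat_lit 9) L54075 (by decide +kernel)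
theorem L54077 : W_8 (nat_lit 7) (nat_lit 0x8000c002c0011001200080000000000000000000000000000000) (nat_lit 0x0) (nat_lit 0x80017003000020002c00140000000000000000000000000000000000) := T_8 (nat_lit 157) (nat_lit 140) (nat_lit 5) (nat_lit 4) (nat_lit 8) L54076 (by decide +kernel)
theorem L54078 : W_8 (nat_lit 11) (nat_lit 0x8000c002c0010001200080000000000000000000000000000000) (nat_lit 0x0) (nat_lit 0x4e00f7007000030003e001c000c000200000000000000000000000000) := Q_8 (nat_lit 156) (C_8 L54053 (C_8 L54063 (C_8 L54068 (C_8 L54071 (C_8 L54077 N_8))))) (by decide +kernel)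
theorem L54079 : W_8 (nat_lit 12) (nat_lit 0xc002c0010001200080000000000000000000000000000000) (nat_lit 0x0) (nat_lit 0x3002de01ff00f000038023e001c000e000200000000000000000000000000) := Q_8 (nat_lit 207) (C_8 L54021 (C_8 L54050 (C_8 L54052 (C_8 L54078 N_8)))) (by decide +kernel)
theorem L54080 : W_8 (nat_lit 2) (nat_lit 0x1c002c0012001200080000000000000000000000000000000) (nat_lit 0x0) (nat_lit 0x20000000000000000100010000000000000000000000000000000) := D_8 (nat_lit 140) (nat_lit 124) (nat_lit 209) (nat_lit 6) (nat_lit 4) (nat_lit 11) (nat_lit 7) (nat_lit 4) (nat_lit 8) (by decide +kernel)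
theorem L54081 : W_8 (nat_lit 2) (nat_lit 0x1c002c0012001200080000000000000000000000000000000) (nat_lit 0x0) (nat_lit 0x100018000000000000000000000000000000) := D_8 (nat_lit 140) (nat_lit 124) (nat_lit 123) (nat_lit 6) (nat_lit 4) (nat_lit 11) (nat_lit 7) (nat_lit 4) (nat_lit 7) (by decide +kernel)
theorem L54082 : W_8 (nat_lit 8) (nat_lit 0x1c002c0010001200080000000000000000000000000000000) (nat_lit 0x0) (nat_lit 0x50003c001e000e000020022000100018000000000000000000000000000000) := Q_8 (nat_lit 157) (C_8 L54018 (C_8 L54080 (C_8 L54081 N_8))) (by decide +kernel)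
theorem L54083 : W_8 (nat_lit 9) (nat_lit 0xc002c0010001200080000000000000000000000000000000) (nat_lit 0x0) (nat_lit 0x59003c801e600f300038023000100018000000000000000000000000000000) := Q_8 (nat_lit 192) (C_8 L54008 (C_8 L54009 (C_8 L54082 N_8))) (by decide +kernel)
theorem L54084 : W_8 (nat_lit 13) (nat_lit 0x8002c0010001200080000000000000000000000000000000) (nat_lit 0x0) (nat_lit 0x5b003de01ff00f78003c023e001f001e000200000000000000000000000000) := Q_8 (nat_lit 190) (C_8 L53862 (C_8 L53916 (C_8 L53939 (C_8 L53954 (C_8 L53967 (C_8 L53989 (C_8 L54007 (C_8 L54020 (C_8 L54079 (C_8 L54083 N_8)))))))))) (by decide +kernel)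
theorem L54085 : W_8 (nat_lit 2) (nat_lit 0x280009a0058002c0013001200080000000000000000000000000000000) (nat_lit 0x0) (nat_lit 0x50001000000000000000000000000000000000000000000000000000000000) := D_8 (nat_lit 228) (nat_lit 246) (nat_lit 244) (nat_lit 7) (nat_lit 7) (nat_lit 10) (nat_lit 5) (nat_lit 7) (nat_lit 10) (by decide +kernel)
theorem L54086 : W_8 (nat_lit 3) (nat_lit 0x200009a0058002c0013001200080000000000000000000000000000000) (nat_lit 0x0) (nat_lit 0x50001800040000000000000000000000000000000000000000000000000000) := T_8 (nat_lit 227) (nat_lit 210) (nat_lit 5) (nat_lit 7) (nat_lit 9) L54085 (by decide +kernel)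
theorem L54087 : W_8 (nat_lit 4) (nat_lit 0x9a0058002c0013001200080000000000000000000000000000000) (nat_lit 0x0) (nat_lit 0x50003800140000000000000000000000000000000000000000000000000000) := T_8 (nat_lit 229) (nat_lit 212) (nat_lit 7) (nat_lit 7) (nat_lit 9) L54086 (by decide +kernel)
theorem L54088 : W_8 (nat_lit 5) (nat_lit 0x1a0058002c0013001200080000000000000000000000000000000) (nat_lit 0x0) (nat_lit 0x500038001c0000000000020000000000000000000000000000000000000000) := T_8 (nat_lit 211) (nat_lit 161) (nat_lit 6) (nat_lit 7) (nat_lit 12) L54087 (by decide +kernel)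
theorem L54089 : W_8 (nat_lit 6) (nat_lit 0x1a0058002c0012001200080000000000000000000000000000000) (nat_lit 0x0) (nat_lit 0x500038001c0000000000021000080000000000000000000000000000000000) := T_8 (nat_lit 156) (nat_lit 139) (nat_lit 4) (nat_lit 4) (nat_lit 12) L54088 (by decide +kernel)
theorem L54090 : W_8 (nat_lit 7) (nat_lit 0x1a0018002c0012001200080000000000000000000000000000000) (nat_lit 0x0) (nat_lit 0x500038001c0006000000021000080000000000000000000000000000000000) := T_8 (nat_lit 194) (nat_lit 193) (nat_lit 1) (nat_lit 7) (nat_lit 11) L54089 (by decide +kernel)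
theorem L54091 : W_8 (nat_lit 8) (nat_lit 0x180018002c0012001200080000000000000000000000000000000) (nat_lit 0x0) (nat_lit 0x500038001c6006000000021000080000000000000000000000000000000000) := T_8 (nat_lit 205) (nat_lit 206) (nat_lit 2) (nat_lit 1) (nat_lit 12) L54090 (by decide +kernel)
theorem L54092 : W_8 (nat_lit 9) (nat_lit 0x100018002c0012001200080000000000000000000000000000000) (nat_lit 0x0) (nat_lit 0x500039001ce006000000021000080000000000000000000000000000000000) := T_8 (nat_lit 207) (nat_lit 224) (nat_lit 5) (nat_lit 4) (nat_lit 9) L54091 (by decide +kernel)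
theorem L54093 : W_8 (nat_lit 2) (nat_lit 0x8003c001a002c0013001200080000000000000000000000000000000) (nat_lit 0x0) (nat_lit 0x40000400020000000000000000000000000000000000000000000) := D_8 (nat_lit 190) (nat_lit 210) (nat_lit 173) (nat_lit 3) (nat_lit 2) (nat_lit 11) (nat_lit 5) (nat_lit 3) (nat_lit 9) (by decide +kernel)
theorem L54094 : W_8 (nat_lit 3) (nat_lit 0x3c001a002c0013001200080000000000000000000000000000000) (nat_lit 0x0) (nat_lit 0xc0040000400020000000000000000000000000000000000000000000) := T_8 (nat_lit 223) (nat_lit 222) (nat_lit 1) (nat_lit 5) (nat_lit 12) L54093 (by decide +kernel)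
theorem L54095 : W_8 (nat_lit 4) (nat_lit 0x3c0018002c0013001200080000000000000000000000000000000) (nat_lit 0x0) (nat_lit 0xc0040000700020000000000000000000000000000000000000000000) := T_8 (nat_lit 189) (nat_lit 188) (nat_lit 0) (nat_lit 5) (nat_lit 12) L54094 (by decide +kernel)
theorem L54096 : W_8 (nat_lit 5) (nat_lit 0x380018002c0013001200080000000000000000000000000000000) (nat_lit 0x0) (nat_lit 0xc0046000700020000000000000000000000000000000000000000000) := T_8 (nat_lit 206) (nat_lit 205) (nat_lit 2) (nat_lit 1) (nat_lit 12) L54095 (by decide +kernel)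
theorem L54097 : W_8 (nat_lit 6) (nat_lit 0x300018002c0013001200080000000000000000000000000000000) (nat_lit 0x0) (nat_lit 0x1c004e000700020000000000000000000000000000000000000000000) := T_8 (nat_lit 207) (nat_lit 224) (nat_lit 5) (nat_lit 4) (nat_lit 9) L54096 (by decide +kernel)
theorem L54098 : W_8 (nat_lit 7) (nat_lit 0x100018002c0013001200080000000000000000000000000000000) (nat_lit 0x0) (nat_lit 0x5c006e000700020000000000000000000000000000000000000000000) := T_8 (nat_lit 209) (nat_lit 226) (nat_lit 7) (nat_lit 4) (nat_lit 9) L54097 (by decide +kernel)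
theorem L54099 : W_8 (nat_lit 8) (nat_lit 0x100018002c0012001200080000000000000000000000000000000) (nat_lit 0x0) (nat_lit 0x5c006e000700020001000080000000000000000000000000000000000) := T_8 (nat_lit 156) (nat_lit 139) (nat_lit 4) (nat_lit 4) (nat_lit 12) L54098 (by decide +kernel)
theorem L54100 : W_8 (nat_lit 2) (nat_lit 0x100058002c0012001200080000000000000000000000000000000) (nat_lit 0x0) (nat_lit 0xa000020000000000000000000000000000000000000000000) := D_8 (nat_lit 193) (nat_lit 173) (nat_lit 195) (nat_lit 0) (nat_lit 7) (nat_lit 11) (nat_lit 0) (nat_lit 8) (nat_lit 11) (by decide +kernel)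
theorem L54101 : W_8 (nat_lit 2) (nat_lit 0x1900058002c0013001200080000000000000000000000000000000) (nat_lit 0x0) (nat_lit 0x800060000000000000000000000000000000000000000000000000000) := D_8 (nat_lit 210) (nat_lit 209) (nat_lit 227) (nat_lit 0) (nat_lit 8) (nat_lit 12) (nat_lit 5) (nat_lit 7) (nat_lit 9) (by decide +kernel)
theorem L54102 : W_8 (nat_lit 3) (nat_lit 0x900058002c0013001200080000000000000000000000000000000) (nat_lit 0x0) (nat_lit 0x2800160000000000000000000000000000000000000000000000000000) := T_8 (nat_lit 212) (nat_lit 229) (nat_lit 7) (nat_lit 7) (nat_lit 9) L54101 (by decide +kernel)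
theorem L54103 : W_8 (nat_lit 4) (nat_lit 0x100058002c0013001200080000000000000000000000000000000) (nat_lit 0x0) (nat_lit 0x28001e0000000000020000000000000000000000000000000000000000) := T_8 (nat_lit 211) (nat_lit 161) (nat_lit 6) (nat_lit 7) (nat_lit 12) L54102 (by decide +kernel)
theorem L54104 : W_8 (nat_lit 5) (nat_lit 0x100058002c0012001200080000000000000000000000000000000) (nat_lit 0x0) (nat_lit 0x28001e0000000000021000080000000000000000000000000000000000) := T_8 (nat_lit 156) (nat_lit 139) (nat_lit 4) (nat_lit 4) (nat_lit 12) L54103 (by decide +kernel)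
theorem L54105 : W_8 (nat_lit 6) (nat_lit 0x100018002c0012001200080000000000000000000000000000000) (nat_lit 0x0) (nat_lit 0x28001e000e000020021000080000000000000000000000000000000000) := Q_8 (nat_lit 194) (C_8 L54100 (C_8 L54104 N_8)) (by decide +kernel)
theorem L54106 : W_8 (nat_lit 10) (nat_lit 0x100008002c0012001200080000000000000000000000000000000) (nat_lit 0x0) (nat_lit 0x50003dc01ee00f700020021000080000000000000000000000000000000000) := Q_8 (nat_lit 192) (C_8 L53588 (C_8 L53585 (C_8 L54092 (C_8 L54099 (C_8 L54105 N_8))))) (by decide +kernel)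
theorem L54107 : W_8 (nat_lit 11) (nat_lit 0x8002c0012001200080000000000000000000000000000000) (nat_lit 0x0) (nat_lit 0x4005e003fc01fe00f700020021000080000000000000000000000000000000000) := Q_8 (nat_lit 208) (C_8 L53341 (C_8 L53255 (C_8 L54106 (C_8 L53013 N_8)))) (by decide +kernel)
theorem L54108 : W_8 (nat_lit 12) (nat_lit 0x8002c0010001200080000000000000000000000000000000) (nat_lit 0x0) (nat_lit 0x4007e003fc01fe00f70002002300018001c000200000000000000000000000000) := Q_8 (nat_lit 157) (C_8 L53319 (C_8 L53283 (C_8 L54107 (C_8 L53271 (C_8 L53279 N_8))))) (by decide +kernel)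
theorem L54109 : W_8 (nat_lit 2) (nat_lit 0x8003c001a002c0013401200080000000000000000000000000000000) (nat_lit 0x0) (nat_lit 0x38000000000000000000000000000000000000000000) := D_8 (nat_lit 172) (nat_lit 173) (nat_lit 171) (nat_lit 6) (nat_lit 2) (nat_lit 13) (nat_lit 4) (nat_lit 2) (nat_lit 13) (by decide +kernel)
theorem L54110 : W_8 (nat_lit 3) (nat_lit 0x8003c001a002c0013001200080000000000000000000000000000000) (nat_lit 0x0) (nat_lit 0x38000c00000000000000000000000000000000000000) := T_8 (nat_lit 154) (nat_lit 155) (nat_lit 3) (nat_lit 1) (nat_lit 9) L54109 (by decide +kernel)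
theorem L54111 : W_8 (nat_lit 4) (nat_lit 0x8003c001a002c0012001200080000000000000000000000000000000) (nat_lit 0x0) (nat_lit 0x38001c00080000000000000000000000000000000000) := T_8 (nat_lit 156) (nat_lit 139) (nat_lit 4) (nat_lit 4) (nat_lit 12) L54110 (by decide +kernel)
theorem L54112 : W_8 (nat_lit 5) (nat_lit 0x3c001a002c0012001200080000000000000000000000000000000) (nat_lit 0x0) (nat_lit 0xc0000000000038001c00080000000000000000000000000000000000) := T_8 (nat_lit 223) (nat_lit 222) (nat_lit 1) (nat_lit 5) (nat_lit 12) L54111 (by decide +kernel)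
theorem L54113 : W_8 (nat_lit 6) (nat_lit 0x3c0018002c0012001200080000000000000000000000000000000) (nat_lit 0x0) (nat_lit 0xc0000000300038001c00080000000000000000000000000000000000) := T_8 (nat_lit 189) (nat_lit 188) (nat_lit 0) (nat_lit 5) (nat_lit 12) L54112 (by decide +kernel)
theorem L54114 : W_8 (nat_lit 7) (nat_lit 0x1c0018002c0012001200080000000000000000000000000000000) (nat_lit 0x0) (nat_lit 0x4c0020000300038001c00080000000000000000000000000000000000) := T_8 (nat_lit 209) (nat_lit 226) (nat_lit 7) (nat_lit 4) (nat_lit 9) L54113 (by decide +kernel)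
theorem L54115 : W_8 (nat_lit 8) (nat_lit 0x180018002c0012001200080000000000000000000000000000000) (nat_lit 0x0) (nat_lit 0x4c0026000300038001c00080000000000000000000000000000000000) := T_8 (nat_lit 206) (nat_lit 205) (nat_lit 2) (nat_lit 1) (nat_lit 12) L54114 (by decide +kernel)
theorem L54116 : W_8 (nat_lit 9) (nat_lit 0x100018002c0012001200080000000000000000000000000000000) (nat_lit 0x0) (nat_lit 0x5c002e000300038001c00080000000000000000000000000000000000) := T_8 (nat_lit 207) (nat_lit 224) (nat_lit 5) (nat_lit 4) (nat_lit 9) L54115 (by decide +kernel)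
theorem L54117 : W_8 (nat_lit 10) (nat_lit 0x100008002c0012001200080000000000000000000000000000000) (nat_lit 0x0) (nat_lit 0x50003dc01ee00f300038021c00080000000000000000000000000000000000) := Q_8 (nat_lit 192) (C_8 L54105 (C_8 L53588 (C_8 L54092 (C_8 L54116 N_8)))) (by decide +kernel)
theorem L54118 : W_8 (nat_lit 11) (nat_lit 0x8002c0012001200080000000000000000000000000000000) (nat_lit 0x0) (nat_lit 0x28001c005e003fc01fe00f300038021c00080000000000000000000000000000000000) := Q_8 (nat_lit 208) (C_8 L53617 (C_8 L53547 (C_8 L53348 (C_8 L53255 (C_8 L54117 N_8))))) (by decide +kernel)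
theorem L54119 : W_8 (nat_lit 12) (nat_lit 0x8002c0010001200080000000000000000000000000000000) (nat_lit 0x0) (nat_lit 0x28001c005e003fc01fe00f300038023c0018001c000200000000000000000000000000) := Q_8 (nat_lit 157) (C_8 L53271 (C_8 L53019 (C_8 L54118 (C_8 L53016 N_8)))) (by decide +kernel)
theorem L54120 : W_8 (nat_lit 2) (nat_lit 0x6000100008002e0012001200080000000000000000000000000000000) (nat_lit 0x0) (nat_lit 0x4000000000001400000000000000000000000000000000000000000000000) := D_8 (nat_lit 242) (nat_lit 190) (nat_lit 192) (nat_lit 4) (nat_lit 4) (nat_lit 14) (nat_lit 6) (nat_lit 4) (nat_lit 14) (by decide +kernel)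
theorem L54121 : W_8 (nat_lit 3) (nat_lit 0x6000100008002c0012001200080000000000000000000000000000000) (nat_lit 0x0) (nat_lit 0x4000000000001400020001000000000000000000000000000000000000000) := T_8 (nat_lit 173) (nat_lit 156) (nat_lit 4) (nat_lit 4) (nat_lit 13) L54120 (by decide +kernel)
theorem L54122 : W_8 (nat_lit 4) (nat_lit 0x4000100008002c0012001200080000000000000000000000000000000) (nat_lit 0x0) (nat_lit 0xc000200000001400020001000000000000000000000000000000000000000) := T_8 (nat_lit 225) (nat_lit 243) (nat_lit 7) (nat_lit 4) (nat_lit 10) L54121 (by decide +kernel)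
theorem L54123 : W_8 (nat_lit 5) (nat_lit 0x100008002c0012001200080000000000000000000000000000000) (nat_lit 0x0) (nat_lit 0xc000600020001400020001000000000000000000000000000000000000000) := T_8 (nat_lit 226) (nat_lit 209) (nat_lit 7) (nat_lit 4) (nat_lit 9) L54122 (by decide +kernel)
theorem L54124 : W_8 (nat_lit 2) (nat_lit 0x19a0058002c0012001200080000000000000000000000000000000) (nat_lit 0x0) (nat_lit 0x800060000000000000000000000000000000000000000000000000000) := D_8 (nat_lit 210) (nat_lit 209) (nat_lit 227) (nat_lit 0) (nat_lit 8) (nat_lit 12) (nat_lit 5) (nat_lit 7) (nat_lit 9) (by decide +kernel)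
theorem L54125 : W_8 (nat_lit 3) (nat_lit 0x9a0058002c0012001200080000000000000000000000000000000) (nat_lit 0x0) (nat_lit 0x2800160000000000000000000000000000000000000000000000000000) := T_8 (nat_lit 212) (nat_lit 229) (nat_lit 7) (nat_lit 7) (nat_lit 9) L54124 (by decide +kernel)
theorem L54126 : W_8 (nat_lit 4) (nat_lit 0x1a0058002c0012001200080000000000000000000000000000000) (nat_lit 0x0) (nat_lit 0x28001e0000000000020000000000000000000000000000000000000000) := T_8 (nat_lit 211) (nat_lit 161) (nat_lit 6) (nat_lit 7) (nat_lit 12) L54125 (by decide +kernel)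
theorem L54127 : W_8 (nat_lit 5) (nat_lit 0x1a0018002c0012001200080000000000000000000000000000000) (nat_lit 0x0) (nat_lit 0x28001e0006000000020000000000000000000000000000000000000000) := T_8 (nat_lit 194) (nat_lit 193) (nat_lit 1) (nat_lit 7) (nat_lit 11) L54126 (by decide +kernel)
theorem L54128 : W_8 (nat_lit 6) (nat_lit 0x180018002c0012001200080000000000000000000000000000000) (nat_lit 0x0) (nat_lit 0x28001e6006000000020000000000000000000000000000000000000000) := T_8 (nat_lit 205) (nat_lit 206) (nat_lit 2) (nat_lit 1) (nat_lit 12) L54127 (by decide +kernel)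
theorem L54129 : W_8 (nat_lit 7) (nat_lit 0x100018002c0012001200080000000000000000000000000000000) (nat_lit 0x0) (nat_lit 0x29001ee006000000020000000000000000000000000000000000000000) := T_8 (nat_lit 207) (nat_lit 224) (nat_lit 5) (nat_lit 4) (nat_lit 9) L54128 (by decide +kernel)
theorem L54130 : W_8 (nat_lit 2) (nat_lit 0x280009a0058002c0012001200080000000000000000000000000000000) (nat_lit 0x0) (nat_lit 0x50001000000000000000000000000000000000000000000000000000000000) := D_8 (nat_lit 228) (nat_lit 246) (nat_lit 244) (nat_lit 7) (nat_lit 7) (nat_lit 10) (nat_lit 5) (nat_lit 7) (nat_lit 10) (by decide +kernel)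
theorem L54131 : W_8 (nat_lit 3) (nat_lit 0x200009a0058002c0012001200080000000000000000000000000000000) (nat_lit 0x0) (nat_lit 0x50001800040000000000000000000000000000000000000000000000000000) := T_8 (nat_lit 227) (nat_lit 210) (nat_lit 5) (nat_lit 7) (nat_lit 9) L54130 (by decide +kernel)
theorem L54132 : W_8 (nat_lit 4) (nat_lit 0x9a0058002c0012001200080000000000000000000000000000000) (nat_lit 0x0) (nat_lit 0x50003800140000000000000000000000000000000000000000000000000000) := T_8 (nat_lit 229) (nat_lit 212) (nat_lit 7) (nat_lit 7) (nat_lit 9) L54131 (by decide +kernel)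
theorem L54133 : W_8 (nat_lit 5) (nat_lit 0x1a0058002c0012001200080000000000000000000000000000000) (nat_lit 0x0) (nat_lit 0x500038001c0000000000020000000000000000000000000000000000000000) := T_8 (nat_lit 211) (nat_lit 161) (nat_lit 6) (nat_lit 7) (nat_lit 12) L54132 (by decide +kernel)
theorem L54134 : W_8 (nat_lit 6) (nat_lit 0x1a0018002c0012001200080000000000000000000000000000000) (nat_lit 0x0) (nat_lit 0x500038001c0006000000020000000000000000000000000000000000000000) := T_8 (nat_lit 194) (nat_lit 193) (nat_lit 1) (nat_lit 7) (nat_lit 11) L54133 (by decide +kernel)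
theorem L54135 : W_8 (nat_lit 7) (nat_lit 0x180018002c0012001200080000000000000000000000000000000) (nat_lit 0x0) (nat_lit 0x500038001c6006000000020000000000000000000000000000000000000000) := T_8 (nat_lit 205) (nat_lit 206) (nat_lit 2) (nat_lit 1) (nat_lit 12) L54134 (by decide +kernel)
theorem L54136 : W_8 (nat_lit 8) (nat_lit 0x100018002c0012001200080000000000000000000000000000000) (nat_lit 0x0) (nat_lit 0x500039001ce006000000020000000000000000000000000000000000000000) := T_8 (nat_lit 207) (nat_lit 224) (nat_lit 5) (nat_lit 4) (nat_lit 9) L54135 (by decide +kernel)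
theorem L54137 : W_8 (nat_lit 2) (nat_lit 0x88007c001a002c0012001200080000000000000000000000000000000) (nat_lit 0x0) (nat_lit 0x180004000000000000000000000000000000000000000000000000) := D_8 (nat_lit 211) (nat_lit 212) (nat_lit 194) (nat_lit 0) (nat_lit 8) (nat_lit 12) (nat_lit 5) (nat_lit 7) (nat_lit 9) (by decide +kernel)
theorem L54138 : W_8 (nat_lit 3) (nat_lit 0x8007c001a002c0012001200080000000000000000000000000000000) (nat_lit 0x0) (nat_lit 0x1800180004000000000000000000000000000000000000000000000000) := T_8 (nat_lit 227) (nat_lit 228) (nat_lit 3) (nat_lit 3) (nat_lit 12) L54137 (by decide +kernel)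
theorem L54139 : W_8 (nat_lit 4) (nat_lit 0x8003c001a002c0012001200080000000000000000000000000000000) (nat_lit 0x0) (nat_lit 0x18001c0004400000000000000000000000000000000000000000000000) := T_8 (nat_lit 210) (nat_lit 190) (nat_lit 3) (nat_lit 2) (nat_lit 11) L54138 (by decide +kernel)
theorem L54140 : W_8 (nat_lit 5) (nat_lit 0x8003c0018002c0012001200080000000000000000000000000000000) (nat_lit 0x0) (nat_lit 0x18001c0004700000000000000000000000000000000000000000000000) := T_8 (nat_lit 189) (nat_lit 188) (nat_lit 0) (nat_lit 5) (nat_lit 12) L54139 (by decide +kernel)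
theorem L54141 : W_8 (nat_lit 6) (nat_lit 0x3c0018002c0012001200080000000000000000000000000000000) (nat_lit 0x0) (nat_lit 0x18c01c0004700000000000000000000000000000000000000000000000) := T_8 (nat_lit 223) (nat_lit 222) (nat_lit 1) (nat_lit 5) (nat_lit 12) L54140 (by decide +kernel)
theorem L54142 : W_8 (nat_lit 7) (nat_lit 0x1c0018002c0012001200080000000000000000000000000000000) (nat_lit 0x0) (nat_lit 0x1cc01e0004700000000000000000000000000000000000000000000000) := T_8 (nat_lit 209) (nat_lit 226) (nat_lit 7) (nat_lit 4) (nat_lit 9) L54141 (by decide +kernel)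
theorem L54143 : W_8 (nat_lit 8) (nat_lit 0x180018002c0012001200080000000000000000000000000000000) (nat_lit 0x0) (nat_lit 0x1cc01e6004700000000000000000000000000000000000000000000000) := T_8 (nat_lit 206) (nat_lit 205) (nat_lit 2) (nat_lit 1) (nat_lit 12) L54142 (by decide +kernel)
theorem L54144 : W_8 (nat_lit 9) (nat_lit 0x100018002c0012001200080000000000000000000000000000000) (nat_lit 0x0) (nat_lit 0x1dc01ee004700000000000000000000000000000000000000000000000) := T_8 (nat_lit 207) (nat_lit 224) (nat_lit 5) (nat_lit 4) (nat_lit 9) L54143 (by decide +kernel)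
theorem L54145 : W_8 (nat_lit 2) (nat_lit 0x2c000900058002c0012001200080000000000000000000000000000000) (nat_lit 0x0) (nat_lit 0x50001000000000000000000000000000000000000000000000000000000000) := D_8 (nat_lit 228) (nat_lit 246) (nat_lit 244) (nat_lit 7) (nat_lit 7) (nat_lit 10) (nat_lit 5) (nat_lit 7) (nat_lit 10) (by decide +kernel)
theorem L54146 : W_8 (nat_lit 3) (nat_lit 0x24000900058002c0012001200080000000000000000000000000000000) (nat_lit 0x0) (nat_lit 0x50001800040000000000000000000000000000000000000000000000000000) := T_8 (nat_lit 227) (nat_lit 210) (nat_lit 5) (nat_lit 7) (nat_lit 9) L54145 (by decide +kernel)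
theorem L54147 : W_8 (nat_lit 4) (nat_lit 0x4000900058002c0012001200080000000000000000000000000000000) (nat_lit 0x0) (nat_lit 0x50003800140000000000000000000000000000000000000000000000000000) := T_8 (nat_lit 229) (nat_lit 212) (nat_lit 7) (nat_lit 7) (nat_lit 9) L54146 (by decide +kernel)
theorem L54148 : W_8 (nat_lit 5) (nat_lit 0x4000100058002c0012001200080000000000000000000000000000000) (nat_lit 0x0) (nat_lit 0x500038001c0000000000020000000000000000000000000000000000000000) := T_8 (nat_lit 211) (nat_lit 161) (nat_lit 6) (nat_lit 7) (nat_lit 12) L54147 (by decide +kernel)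
theorem L54149 : W_8 (nat_lit 6) (nat_lit 0x100058002c0012001200080000000000000000000000000000000) (nat_lit 0x0) (nat_lit 0x50003c001e0000000000020000000000000000000000000000000000000000) := T_8 (nat_lit 226) (nat_lit 209) (nat_lit 7) (nat_lit 4) (nat_lit 9) L54148 (by decide +kernel)
theorem L54150 : W_8 (nat_lit 7) (nat_lit 0x100018002c0012001200080000000000000000000000000000000) (nat_lit 0x0) (nat_lit 0x50003c001e000e000020020000000000000000000000000000000000000000) := Q_8 (nat_lit 194) (C_8 L54100 (C_8 L54149 N_8)) (by decide +kernel)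
theorem L54151 : W_8 (nat_lit 10) (nat_lit 0x100008002c0012001200080000000000000000000000000000000) (nat_lit 0x0) (nat_lit 0x50003dc01ee00f700020020000000000000000000000000000000000000000) := Q_8 (nat_lit 192) (C_8 L53588 (C_8 L54129 (C_8 L54136 (C_8 L54144 (C_8 L54150 N_8))))) (by decide +kernel)
theorem L54152 : W_8 (nat_lit 11) (nat_lit 0x8002c0012001200080000000000000000000000000000000) (nat_lit 0x0) (nat_lit 0x28001c005e003fc01fe00f700020021000000000000000000000000000000000000000) := Q_8 (nat_lit 208) (C_8 L53337 (C_8 L54123 (C_8 L53255 (C_8 L54151 N_8)))) (by decide +kernel)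
theorem L54153 : W_8 (nat_lit 12) (nat_lit 0x8002c0010001200080000000000000000000000000000000) (nat_lit 0x0) (nat_lit 0x28001c005e003fc01fe00f700020023000100018000000000000000000000000000000) := Q_8 (nat_lit 157) (C_8 L53279 (C_8 L53205 (C_8 L54152 (C_8 L53016 N_8)))) (by decide +kernel)
theorem L54154 : W_8 (nat_lit 2) (nat_lit 0x18002c0012001200080000000000000000000000000000000) (nat_lit 0x0) (nat_lit 0x400020000000000000000100000000000000000000000000000000000) := D_8 (nat_lit 209) (nat_lit 226) (nat_lit 140) (nat_lit 4) (nat_lit 5) (nat_lit 13) (nat_lit 7) (nat_lit 4) (nat_lit 8) (by decide +kernel)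
theorem L54155 : W_8 (nat_lit 2) (nat_lit 0x18002c0012001200080000000000000000000000000000000) (nat_lit 0x0) (nat_lit 0x100018000000000000000000000000000000) := D_8 (nat_lit 140) (nat_lit 124) (nat_lit 123) (nat_lit 6) (nat_lit 4) (nat_lit 11) (nat_lit 7) (nat_lit 4) (nat_lit 7) (by decide +kernel)
theorem L54156 : W_8 (nat_lit 2) (nat_lit 0xc001800058002c0012001200080000000000000000000000000000000) (nat_lit 0x0) (nat_lit 0x10001200000000000000000000000000000000000000000000000000000000) := D_8 (nat_lit 228) (nat_lit 244) (nat_lit 225) (nat_lit 5) (nat_lit 7) (nat_lit 10) (nat_lit 2) (nat_lit 4) (nat_lit 13) (by decide +kernel)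
theorem L54157 : W_8 (nat_lit 3) (nat_lit 0x4001800058002c0012001200080000000000000000000000000000000) (nat_lit 0x0) (nat_lit 0x10001a00040000000000000000000000000000000000000000000000000000) := T_8 (nat_lit 227) (nat_lit 210) (nat_lit 5) (nat_lit 7) (nat_lit 9) L54156 (by decide +kernel)
theorem L54158 : W_8 (nat_lit 4) (nat_lit 0x4000800058002c0012001200080000000000000000000000000000000) (nat_lit 0x0) (nat_lit 0x10003a00140000000000000000000000000000000000000000000000000000) := T_8 (nat_lit 212) (nat_lit 229) (nat_lit 7) (nat_lit 7) (nat_lit 9) L54157 (by decide +kernel)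
theorem L54159 : W_8 (nat_lit 5) (nat_lit 0x4000800018002c0012001200080000000000000000000000000000000) (nat_lit 0x0) (nat_lit 0x10003a00140004000000020000000000000000000000000000000000000000) := T_8 (nat_lit 194) (nat_lit 161) (nat_lit 6) (nat_lit 7) (nat_lit 12) L54158 (by decide +kernel)
theorem L54160 : W_8 (nat_lit 6) (nat_lit 0x800018002c0012001200080000000000000000000000000000000) (nat_lit 0x0) (nat_lit 0x10003e00160004000000020000000000000000000000000000000000000000) := T_8 (nat_lit 226) (nat_lit 209) (nat_lit 4) (nat_lit 5) (nat_lit 13) L54159 (by decide +kernel)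
theorem L54161 : W_8 (nat_lit 2) (nat_lit 0x1800058002c0012001200080000000000000000000000000000000) (nat_lit 0x0) (nat_lit 0x800060000000000000000000000000000000000000000000000000000) := D_8 (nat_lit 210) (nat_lit 209) (nat_lit 227) (nat_lit 0) (nat_lit 8) (nat_lit 12) (nat_lit 5) (nat_lit 7) (nat_lit 9) (by decide +kernel)
theorem L54162 : W_8 (nat_lit 3) (nat_lit 0x800058002c0012001200080000000000000000000000000000000) (nat_lit 0x0) (nat_lit 0x2800160000000000000000000000000000000000000000000000000000) := T_8 (nat_lit 212) (nat_lit 229) (nat_lit 7) (nat_lit 7) (nat_lit 9) L54161 (by decide +kernel)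
theorem L54163 : W_8 (nat_lit 4) (nat_lit 0x800018002c0012001200080000000000000000000000000000000) (nat_lit 0x0) (nat_lit 0x2800160004000000020000000000000000000000000000000000000000) := T_8 (nat_lit 194) (nat_lit 161) (nat_lit 6) (nat_lit 7) (nat_lit 12) L54162 (by decide +kernel)
theorem L54164 : W_8 (nat_lit 2) (nat_lit 0x4003c000800058002c0012001200080000000000000000000000000000000) (nat_lit 0x0) (nat_lit 0x2000200010000000000000000000000000000000000000000000000000000) := D_8 (nat_lit 225) (nat_lit 241) (nat_lit 208) (nat_lit 1) (nat_lit 7) (nat_lit 13) (nat_lit 6) (nat_lit 4) (nat_lit 14) (by decide +kernel)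
theorem L54165 : W_8 (nat_lit 3) (nat_lit 0x3c000800058002c0012001200080000000000000000000000000000000) (nat_lit 0x0) (nat_lit 0xe000200010000000000000000000000000000000000000000000000000000) := T_8 (nat_lit 242) (nat_lit 243) (nat_lit 1) (nat_lit 8) (nat_lit 13) L54164 (by decide +kernel)
theorem L54166 : W_8 (nat_lit 4) (nat_lit 0x34000800058002c0012001200080000000000000000000000000000000) (nat_lit 0x0) (nat_lit 0x1e000a00010000000000000000000000000000000000000000000000000000) := T_8 (nat_lit 227) (nat_lit 244) (nat_lit 5) (nat_lit 7) (nat_lit 10) L54165 (by decide +kernel)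
theorem L54167 : W_8 (nat_lit 5) (nat_lit 0x24000800058002c0012001200080000000000000000000000000000000) (nat_lit 0x0) (nat_lit 0x5e001a00010000000000000000000000000000000000000000000000000000) := T_8 (nat_lit 228) (nat_lit 246) (nat_lit 7) (nat_lit 7) (nat_lit 10) L54166 (by decide +kernel)
theorem L54168 : W_8 (nat_lit 6) (nat_lit 0x20000800058002c0012001200080000000000000000000000000000000) (nat_lit 0x0) (nat_lit 0x5e001e00030000000000000000000000000000000000000000000000000000) := T_8 (nat_lit 226) (nat_lit 209) (nat_lit 4) (nat_lit 5) (nat_lit 13) L54167 (by decide +kernel)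
theorem L54169 : W_8 (nat_lit 7) (nat_lit 0x800058002c0012001200080000000000000000000000000000000) (nat_lit 0x0) (nat_lit 0x5e003e00130000000000000000000000000000000000000000000000000000) := T_8 (nat_lit 229) (nat_lit 212) (nat_lit 7) (nat_lit 7) (nat_lit 9) L54168 (by decide +kernel)
theorem L54170 : W_8 (nat_lit 8) (nat_lit 0x800018002c0012001200080000000000000000000000000000000) (nat_lit 0x0) (nat_lit 0x5e003e00130004000000020000000000000000000000000000000000000000) := T_8 (nat_lit 194) (nat_lit 161) (nat_lit 6) (nat_lit 7) (nat_lit 12) L54169 (by decide +kernel)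
theorem L54171 : W_8 (nat_lit 2) (nat_lit 0x1a005900058002c0012001200080000000000000000000000000000000) (nat_lit 0x0) (nat_lit 0x2000100008000000000000000000000000000000000000000000000000000) := D_8 (nat_lit 224) (nat_lit 207) (nat_lit 241) (nat_lit 5) (nat_lit 4) (nat_lit 9) (nat_lit 5) (nat_lit 4) (nat_lit 10) (by decide +kernel)
theorem L54172 : W_8 (nat_lit 3) (nat_lit 0x1a005800058002c0012001200080000000000000000000000000000000) (nat_lit 0x0) (nat_lit 0x6000100018000000000000000000000000000000000000000000000000000) := T_8 (nat_lit 208) (nat_lit 242) (nat_lit 6) (nat_lit 4) (nat_lit 14) L54171 (by decide +kernel)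
theorem L54173 : W_8 (nat_lit 4) (nat_lit 0x1a001800058002c0012001200080000000000000000000000000000000) (nat_lit 0x0) (nat_lit 0x6000100618000000000000000000000000000000000000000000000000000) := T_8 (nat_lit 214) (nat_lit 213) (nat_lit 1) (nat_lit 10) (nat_lit 12) L54172 (by decide +kernel)
theorem L54174 : W_8 (nat_lit 5) (nat_lit 0x18001800058002c0012001200080000000000000000000000000000000) (nat_lit 0x0) (nat_lit 0x6000700618000000000000000000000000000000000000000000000000000) := T_8 (nat_lit 225) (nat_lit 226) (nat_lit 2) (nat_lit 4) (nat_lit 13) L54173 (by decide +kernel)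
theorem L54175 : W_8 (nat_lit 6) (nat_lit 0x8001800058002c0012001200080000000000000000000000000000000) (nat_lit 0x0) (nat_lit 0x16001700618000000000000000000000000000000000000000000000000000) := T_8 (nat_lit 228) (nat_lit 244) (nat_lit 5) (nat_lit 7) (nat_lit 10) L54174 (by decide +kernel)
theorem L54176 : W_8 (nat_lit 7) (nat_lit 0x1800058002c0012001200080000000000000000000000000000000) (nat_lit 0x0) (nat_lit 0x16001f00658000000000000000000000000000000000000000000000000000) := T_8 (nat_lit 227) (nat_lit 210) (nat_lit 5) (nat_lit 7) (nat_lit 9) L54175 (by decide +kernel)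
theorem L54177 : W_8 (nat_lit 8) (nat_lit 0x800058002c0012001200080000000000000000000000000000000) (nat_lit 0x0) (nat_lit 0x16003f00758000000000000000000000000000000000000000000000000000) := T_8 (nat_lit 212) (nat_lit 229) (nat_lit 7) (nat_lit 7) (nat_lit 9) L54176 (by decide +kernel)
theorem L54178 : W_8 (nat_lit 9) (nat_lit 0x800018002c0012001200080000000000000000000000000000000) (nat_lit 0x0) (nat_lit 0x16003f00758004000000020000000000000000000000000000000000000000) := T_8 (nat_lit 194) (nat_lit 161) (nat_lit 6) (nat_lit 7) (nat_lit 12) L54177 (by decide +kernel)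
theorem L54179 : W_8 (nat_lit 2) (nat_lit 0xe00018002c0012001200080000000000000000000000000000000) (nat_lit 0x0) (nat_lit 0x10000600000000000000000000000000000000000000000000000) := D_8 (nat_lit 190) (nat_lit 208) (nat_lit 189) (nat_lit 0) (nat_lit 7) (nat_lit 12) (nat_lit 3) (nat_lit 2) (nat_lit 11) (by decide +kernel)
theorem L54180 : W_8 (nat_lit 3) (nat_lit 0xa00018002c0012001200080000000000000000000000000000000) (nat_lit 0x0) (nat_lit 0x150000600000000000000000000000000000000000000000000000) := T_8 (nat_lit 210) (nat_lit 212) (nat_lit 0) (nat_lit 8) (nat_lit 12) L54179 (by decide +kernel)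
theorem L54181 : W_8 (nat_lit 4) (nat_lit 0x800018002c0012001200080000000000000000000000000000000) (nat_lit 0x0) (nat_lit 0x400170000600000000000000000000000000000000000000000000000) := T_8 (nat_lit 209) (nat_lit 226) (nat_lit 4) (nat_lit 5) (nat_lit 13) L54180 (by decide +kernel)
theorem L54182 : W_8 (nat_lit 4) (nat_lit 0x1c000800058002c0012001200080000000000000000000000000000000) (nat_lit 0x0) (nat_lit 0x4e002200010000000000000000000000000000000000000000000000000000) := T_8 (nat_lit 229) (nat_lit 246) (nat_lit 7) (nat_lit 7) (nat_lit 10) L54165 (by decide +kernel)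
theorem L54183 : W_8 (nat_lit 5) (nat_lit 0xc000800058002c0012001200080000000000000000000000000000000) (nat_lit 0x0) (nat_lit 0x5e003200010000000000000000000000000000000000000000000000000000) := T_8 (nat_lit 228) (nat_lit 244) (nat_lit 5) (nat_lit 7) (nat_lit 10) L54182 (by decide +kernel)
theorem L54184 : W_8 (nat_lit 6) (nat_lit 0x4000800058002c0012001200080000000000000000000000000000000) (nat_lit 0x0) (nat_lit 0x5e003a00050000000000000000000000000000000000000000000000000000) := T_8 (nat_lit 227) (nat_lit 210) (nat_lit 5) (nat_lit 7) (nat_lit 9) L54183 (by decide +kernel)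
theorem L54185 : W_8 (nat_lit 7) (nat_lit 0x4000800018002c0012001200080000000000000000000000000000000) (nat_lit 0x0) (nat_lit 0x5e003a00050004000000020000000000000000000000000000000000000000) := T_8 (nat_lit 194) (nat_lit 161) (nat_lit 6) (nat_lit 7) (nat_lit 12) L54184 (by decide +kernel)
theorem L54186 : W_8 (nat_lit 8) (nat_lit 0x800018002c0012001200080000000000000000000000000000000) (nat_lit 0x0) (nat_lit 0x5e003e00070004000000020000000000000000000000000000000000000000) := T_8 (nat_lit 226) (nat_lit 209) (nat_lit 4) (nat_lit 5) (nat_lit 13) L54185 (by decide +kernel)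
theorem L54187 : W_8 (nat_lit 10) (nat_lit 0x18002c0012001200080000000000000000000000000000000) (nat_lit 0x0) (nat_lit 0x5e003f007f8004600000020000000000000000000000000000000000000000) := Q_8 (nat_lit 211) (C_8 L54160 (C_8 L54163 (C_8 L54170 (C_8 L54178 (C_8 L54181 (C_8 L54186 N_8)))))) (by decide +kernel)
theorem L54188 : W_8 (nat_lit 11) (nat_lit 0x18002c0010001200080000000000000000000000000000000) (nat_lit 0x0) (nat_lit 0x5e003f007f8004600000022000100018000000000000000000000000000000) := Q_8 (nat_lit 157) (C_8 L54154 (C_8 L54155 (C_8 L54187 N_8))) (by decide +kernel)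
theorem L54189 : W_8 (nat_lit 2) (nat_lit 0x38002c0010001200080000000000000000000000000000000) (nat_lit 0x0) (nat_lit 0xc000020000000000000000000000000000000000000000000) := D_8 (nat_lit 194) (nat_lit 173) (nat_lit 195) (nat_lit 0) (nat_lit 7) (nat_lit 11) (nat_lit 0) (nat_lit 8) (nat_lit 11) (by decide +kernel)
theorem L54190 : W_8 (nat_lit 2) (nat_lit 0x40003c002c0010001200080000000000000000000000000000000) (nat_lit 0x0) (nat_lit 0x20000300000000000000000000000000000000000000000000000) := D_8 (nat_lit 189) (nat_lit 209) (nat_lit 188) (nat_lit 3) (nat_lit 2) (nat_lit 11) (nat_lit 2) (nat_lit 1) (nat_lit 11) (by decide +kernel)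
theorem L54191 : W_8 (nat_lit 3) (nat_lit 0x3c002c0010001200080000000000000000000000000000000) (nat_lit 0x0) (nat_lit 0xe0000300000000000000000000000000000000000000000000000) := T_8 (nat_lit 210) (nat_lit 211) (nat_lit 3) (nat_lit 3) (nat_lit 11) L54190 (by decide +kernel)
theorem L54192 : W_8 (nat_lit 2) (nat_lit 0x3c002d0010001200080000000000000000000000000000000) (nat_lit 0x0) (nat_lit 0x300008000000000000000000000000000000000000000000) := D_8 (nat_lit 189) (nat_lit 171) (nat_lit 188) (nat_lit 0) (nat_lit 5) (nat_lit 11) (nat_lit 2) (nat_lit 1) (nat_lit 11) (by decide +kernel)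
theorem L54193 : W_8 (nat_lit 3) (nat_lit 0x3c002c0010001200080000000000000000000000000000000) (nat_lit 0x0) (nat_lit 0x300038000000000000000000000000000000000000000000) := T_8 (nat_lit 172) (nat_lit 173) (nat_lit 3) (nat_lit 2) (nat_lit 10) L54192 (by decide +kernel)
theorem L54194 : W_8 (nat_lit 2) (nat_lit 0x10000380048003c002e0010001200080000000000000000000000000000000) (nat_lit 0x0) (nat_lit 0x8000400020000000000000000000000000000000000000000000000000000) := D_8 (nat_lit 226) (nat_lit 209) (nat_lit 243) (nat_lit 2) (nat_lit 2) (nat_lit 13) (nat_lit 3) (nat_lit 2) (nat_lit 13) (by decide +kernel)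
theorem L54195 : W_8 (nat_lit 3) (nat_lit 0x10000300048003c002e0010001200080000000000000000000000000000000) (nat_lit 0x0) (nat_lit 0x9000480020000000000000000000000000000000000000000000000000000) := T_8 (nat_lit 223) (nat_lit 240) (nat_lit 5) (nat_lit 3) (nat_lit 10) L54194 (by decide +kernel)
theorem L54196 : W_8 (nat_lit 4) (nat_lit 0x10000100048003c002e0010001200080000000000000000000000000000000) (nat_lit 0x0) (nat_lit 0xd000680020000000000000000000000000000000000000000000000000000) := T_8 (nat_lit 225) (nat_lit 242) (nat_lit 7) (nat_lit 3) (nat_lit 10) L54195 (by decide +kernel)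
theorem L54197 : W_8 (nat_lit 5) (nat_lit 0x10000000048003c002e0010001200080000000000000000000000000000000) (nat_lit 0x0) (nat_lit 0xf000780020000000000000000000000000000000000000000000000000000) := T_8 (nat_lit 224) (nat_lit 241) (nat_lit 6) (nat_lit 3) (nat_lit 14) L54196 (by decide +kernel)
theorem L54198 : W_8 (nat_lit 6) (nat_lit 0x48003c002e0010001200080000000000000000000000000000000) (nat_lit 0x0) (nat_lit 0x1f000f80020000000000000000000000000000000000000000000000000000) := T_8 (nat_lit 244) (nat_lit 227) (nat_lit 4) (nat_lit 6) (nat_lit 14) L54197 (by decide +kernel)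
theorem L54199 : W_8 (nat_lit 7) (nat_lit 0x40003c002e0010001200080000000000000000000000000000000) (nat_lit 0x0) (nat_lit 0x1f000f8002c000000000000000000000000000000000000000000000000000) := T_8 (nat_lit 207) (nat_lit 206) (nat_lit 1) (nat_lit 6) (nat_lit 11) L54198 (by decide +kernel)
theorem L54200 : W_8 (nat_lit 8) (nat_lit 0x3c002e0010001200080000000000000000000000000000000) (nat_lit 0x0) (nat_lit 0x1f000f800ec000000000000000000000000000000000000000000000000000) := T_8 (nat_lit 210) (nat_lit 211) (nat_lit 3) (nat_lit 3) (nat_lit 11) L54199 (by decide +kernel)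
theorem L54201 : W_8 (nat_lit 9) (nat_lit 0x3c002c0010001200080000000000000000000000000000000) (nat_lit 0x0) (nat_lit 0x1f000f800ec000000030000000000000000000000000000000000000000000) := T_8 (nat_lit 173) (nat_lit 172) (nat_lit 3) (nat_lit 2) (nat_lit 10) L54200 (by decide +kernel)
theorem L54202 : W_8 (nat_lit 10) (nat_lit 0x38002c0010001200080000000000000000000000000000000) (nat_lit 0x0) (nat_lit 0x1f000f800ec000700038000000000000000000000000000000000000000000) := Q_8 (nat_lit 190) (C_8 L54191 (C_8 L54193 (C_8 L54201 N_8))) (by decide +kernel)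
theorem L54203 : W_8 (nat_lit 2) (nat_lit 0x78002c0010001200080000000000000000000000000000000) (nat_lit 0x0) (nat_lit 0x180000000000020000000000000000000000000000000000000000) := D_8 (nat_lit 211) (nat_lit 212) (nat_lit 161) (nat_lit 3) (nat_lit 4) (nat_lit 11) (nat_lit 6) (nat_lit 7) (nat_lit 12) (by decide +kernel)
theorem L54204 : W_8 (nat_lit 3) (nat_lit 0x38002c0010001200080000000000000000000000000000000) (nat_lit 0x0) (nat_lit 0x18000c000000020000000000000000000000000000000000000000) := T_8 (nat_lit 194) (nat_lit 195) (nat_lit 0) (nat_lit 8) (nat_lit 11) L54203 (by decide +kernel)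
theorem L54205 : W_8 (nat_lit 11) (nat_lit 0x18002c0010001200080000000000000000000000000000000) (nat_lit 0x0) (nat_lit 0x1f000f801ec00e700038020000000000000000000000000000000000000000) := Q_8 (nat_lit 193) (C_8 L54189 (C_8 L54202 (C_8 L54204 N_8))) (by decide +kernel)
theorem L54206 : W_8 (nat_lit 2) (nat_lit 0x1400300009a0058002c0012001200080000000000000000000000000000000) (nat_lit 0x0) (nat_lit 0x200028000000000000000000000000000000000000000000000000000000000000) := D_8 (nat_lit 245) (nat_lit 261) (nat_lit 243) (nat_lit 5) (nat_lit 7) (nat_lit 11) (nat_lit 2) (nat_lit 4) (nat_lit 14) (by decide +kernel)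
theorem L54207 : W_8 (nat_lit 3) (nat_lit 0x400300009a0058002c0012001200080000000000000000000000000000000) (nat_lit 0x0) (nat_lit 0x200038000800000000000000000000000000000000000000000000000000000000) := T_8 (nat_lit 244) (nat_lit 227) (nat_lit 5) (nat_lit 7) (nat_lit 10) L54206 (by decide +kernel)
theorem L54208 : W_8 (nat_lit 4) (nat_lit 0x400200009a0058002c0012001200080000000000000000000000000000000) (nat_lit 0x0) (nat_lit 0x200078001800000000000000000000000000000000000000000000000000000000) := T_8 (nat_lit 228) (nat_lit 246) (nat_lit 7) (nat_lit 7) (nat_lit 10) L54207 (by decide +kernel)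
theorem L54209 : W_8 (nat_lit 5) (nat_lit 0x400000009a0058002c0012001200080000000000000000000000000000000) (nat_lit 0x0) (nat_lit 0x200078003800100000000000000000000000000000000000000000000000000000) := T_8 (nat_lit 229) (nat_lit 212) (nat_lit 7) (nat_lit 7) (nat_lit 9) L54208 (by decide +kernel)
theorem L54210 : W_8 (nat_lit 6) (nat_lit 0x400000001a0058002c0012001200080000000000000000000000000000000) (nat_lit 0x0) (nat_lit 0x200078003800180000000000020000000000000000000000000000000000000000) := T_8 (nat_lit 211) (nat_lit 161) (nat_lit 6) (nat_lit 7) (nat_lit 12) L54209 (by decide +kernel)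
theorem L54211 : W_8 (nat_lit 7) (nat_lit 0x400000001a0018002c0012001200080000000000000000000000000000000) (nat_lit 0x0) (nat_lit 0x200078003800180006000000020000000000000000000000000000000000000000) := T_8 (nat_lit 194) (nat_lit 193) (nat_lit 1) (nat_lit 7) (nat_lit 11) L54210 (by decide +kernel)
theorem L54212 : W_8 (nat_lit 8) (nat_lit 0x40000000180018002c0012001200080000000000000000000000000000000) (nat_lit 0x0) (nat_lit 0x200078003800186006000000020000000000000000000000000000000000000000) := T_8 (nat_lit 205) (nat_lit 206) (nat_lit 2) (nat_lit 1) (nat_lit 12) L54211 (by decide +kernel)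
theorem L54213 : W_8 (nat_lit 9) (nat_lit 0x40000000100018002c0012001200080000000000000000000000000000000) (nat_lit 0x0) (nat_lit 0x20007800390018e006000000020000000000000000000000000000000000000000) := T_8 (nat_lit 207) (nat_lit 224) (nat_lit 5) (nat_lit 4) (nat_lit 9) L54212 (by decide +kernel)
theorem L54214 : W_8 (nat_lit 10) (nat_lit 0x100018002c0012001200080000000000000000000000000000000) (nat_lit 0x0) (nat_lit 0x20007c003b0018e006000000020000000000000000000000000000000000000000) := T_8 (nat_lit 242) (nat_lit 225) (nat_lit 6) (nat_lit 4) (nat_lit 14) L54213 (by decide +kernel)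
theorem L54215 : W_8 (nat_lit 11) (nat_lit 0x18002c0012001200080000000000000000000000000000000) (nat_lit 0x0) (nat_lit 0x20007c003f001be006000000020000000000000000000000000000000000000000) := Q_8 (nat_lit 208) (C_8 L53610 (C_8 L54214 (C_8 L53588 N_8))) (by decide +kernel)
theorem L54216 : W_8 (nat_lit 12) (nat_lit 0x18002c0010001200080000000000000000000000000000000) (nat_lit 0x0) (nat_lit 0x20007c003f001be006000000022000100018000000000000000000000000000000) := Q_8 (nat_lit 157) (C_8 L54155 (C_8 L54215 N_8)) (by decide +kernel)
theorem L54217 : W_8 (nat_lit 2) (nat_lit 0x10000000048003d002c0012001200080000000000000000000000000000000) (nat_lit 0x0) (nat_lit 0x2000100010000000000000000000000000000000000000000000000000000) := D_8 (nat_lit 224) (nat_lit 241) (nat_lit 208) (nat_lit 6) (nat_lit 3) (nat_lit 14) (nat_lit 5) (nat_lit 4) (nat_lit 9) (by decide +kernel)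
theorem L54218 : W_8 (nat_lit 3) (nat_lit 0x10000000048003d002c0010001200080000000000000000000000000000000) (nat_lit 0x0) (nat_lit 0x2000100010000000000002000100000000000000000000000000000000000) := T_8 (nat_lit 157) (nat_lit 140) (nat_lit 5) (nat_lit 4) (nat_lit 8) L54217 (by decide +kernel)
theorem L54219 : W_8 (nat_lit 4) (nat_lit 0x10000000040003d002c0010001200080000000000000000000000000000000) (nat_lit 0x0) (nat_lit 0x200010001c000000000002000100000000000000000000000000000000000) := T_8 (nat_lit 207) (nat_lit 206) (nat_lit 1) (nat_lit 6) (nat_lit 11) L54218 (by decide +kernel)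
theorem L54220 : W_8 (nat_lit 5) (nat_lit 0x40003d002c0010001200080000000000000000000000000000000) (nat_lit 0x0) (nat_lit 0x1200090001c000000000002000100000000000000000000000000000000000) := T_8 (nat_lit 244) (nat_lit 227) (nat_lit 4) (nat_lit 6) (nat_lit 14) L54219 (by decide +kernel)
theorem L54221 : W_8 (nat_lit 6) (nat_lit 0x40003c002c0010001200080000000000000000000000000000000) (nat_lit 0x0) (nat_lit 0x1200090001c000300000002000100000000000000000000000000000000000) := T_8 (nat_lit 188) (nat_lit 189) (nat_lit 2) (nat_lit 1) (nat_lit 11) L54220 (by decide +kernel)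
theorem L54222 : W_8 (nat_lit 7) (nat_lit 0x3c002c0010001200080000000000000000000000000000000) (nat_lit 0x0) (nat_lit 0x120009000dc000300000002000100000000000000000000000000000000000) := T_8 (nat_lit 210) (nat_lit 211) (nat_lit 3) (nat_lit 3) (nat_lit 11) L54221 (by decide +kernel)
theorem L54223 : W_8 (nat_lit 2) (nat_lit 0x8003c002e0010001200080000000000000000000000000000000) (nat_lit 0x0) (nat_lit 0x2000100000000000000002000000000000000000000000000000000000000) := D_8 (nat_lit 224) (nat_lit 241) (nat_lit 157) (nat_lit 6) (nat_lit 3) (nat_lit 14) (nat_lit 6) (nat_lit 3) (nat_lit 13) (by decide +kernel)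
theorem L54224 : W_8 (nat_lit 3) (nat_lit 0x8003c002c0010001200080000000000000000000000000000000) (nat_lit 0x0) (nat_lit 0x2000100000000000030002000000000000000000000000000000000000000) := T_8 (nat_lit 173) (nat_lit 172) (nat_lit 3) (nat_lit 2) (nat_lit 10) L54223 (by decide +kernel)
theorem L54225 : W_8 (nat_lit 4) (nat_lit 0x3c002c0010001200080000000000000000000000000000000) (nat_lit 0x0) (nat_lit 0x200010000c000000030002000000000000000000000000000000000000000) := T_8 (nat_lit 207) (nat_lit 206) (nat_lit 1) (nat_lit 6) (nat_lit 11) L54224 (by decide +kernel)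
theorem L54226 : W_8 (nat_lit 8) (nat_lit 0x38002c0010001200080000000000000000000000000000000) (nat_lit 0x0) (nat_lit 0x120009000dc000700038002000100000000000000000000000000000000000) := Q_8 (nat_lit 190) (C_8 L54222 (C_8 L54193 (C_8 L54225 N_8))) (by decide +kernel)
theorem L54227 : W_8 (nat_lit 9) (nat_lit 0x18002c0010001200080000000000000000000000000000000) (nat_lit 0x0) (nat_lit 0x120009001dc00e700038022000100000000000000000000000000000000000) := Q_8 (nat_lit 193) (C_8 L54204 (C_8 L54189 (C_8 L54226 N_8))) (by decide +kernel)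
theorem L54228 : W_8 (nat_lit 2) (nat_lit 0x400000001c0018002c0012001200080000000000000000000000000000000) (nat_lit 0x0) (nat_lit 0x6400000000000000000000000000000000000000000000000) := D_8 (nat_lit 193) (nat_lit 194) (nat_lit 190) (nat_lit 1) (nat_lit 7) (nat_lit 11) (nat_lit 1) (nat_lit 6) (nat_lit 11) (by decide +kernel)
theorem L54229 : W_8 (nat_lit 3) (nat_lit 0x40000000180018002c0012001200080000000000000000000000000000000) (nat_lit 0x0) (nat_lit 0x6006400000000000000000000000000000000000000000000000) := T_8 (nat_lit 206) (nat_lit 205) (nat_lit 2) (nat_lit 1) (nat_lit 12) L54228 (by decide +kernel)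
theorem L54230 : W_8 (nat_lit 4) (nat_lit 0x40000000100018002c0012001200080000000000000000000000000000000) (nat_lit 0x0) (nat_lit 0x10000e006400000000000000000000000000000000000000000000000) := T_8 (nat_lit 207) (nat_lit 224) (nat_lit 5) (nat_lit 4) (nat_lit 9) L54229 (by decide +kernel)
theorem L54231 : W_8 (nat_lit 5) (nat_lit 0x100018002c0012001200080000000000000000000000000000000) (nat_lit 0x0) (nat_lit 0x400030000e006400000000000000000000000000000000000000000000000) := T_8 (nat_lit 242) (nat_lit 225) (nat_lit 6) (nat_lit 4) (nat_lit 14) L54230 (by decide +kernel)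
theorem L54232 : W_8 (nat_lit 6) (nat_lit 0x18002c0012001200080000000000000000000000000000000) (nat_lit 0x0) (nat_lit 0xc00070003e006400000000000000000000000000000000000000000000000) := Q_8 (nat_lit 208) (C_8 L53610 (C_8 L54231 (C_8 L53588 N_8))) (by decide +kernel)
theorem L54233 : W_8 (nat_lit 7) (nat_lit 0x18002c0010001200080000000000000000000000000000000) (nat_lit 0x0) (nat_lit 0xc00070003e006400000002000100018000000000000000000000000000000) := Q_8 (nat_lit 157) (C_8 L54155 (C_8 L54232 N_8)) (by decide +kernel)
theorem L54234 : W_8 (nat_lit 2) (nat_lit 0x400000001c0018002c0012001200080000000000000000000000000000000) (nat_lit 0x0) (nat_lit 0x20002400000000000000000000000000000000000000000000000) := D_8 (nat_lit 193) (nat_lit 190) (nat_lit 209) (nat_lit 1) (nat_lit 6) (nat_lit 11) (nat_lit 2) (nat_lit 2) (nat_lit 12) (by decide +kernel)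
theorem L54235 : W_8 (nat_lit 3) (nat_lit 0x40000000180018002c0012001200080000000000000000000000000000000) (nat_lit 0x0) (nat_lit 0x26002400000000000000000000000000000000000000000000000) := T_8 (nat_lit 206) (nat_lit 205) (nat_lit 2) (nat_lit 1) (nat_lit 12) L54234 (by decide +kernel)
theorem L54236 : W_8 (nat_lit 4) (nat_lit 0x40000000100018002c0012001200080000000000000000000000000000000) (nat_lit 0x0) (nat_lit 0x10002e002400000000000000000000000000000000000000000000000) := T_8 (nat_lit 207) (nat_lit 224) (nat_lit 5) (nat_lit 4) (nat_lit 9) L54235 (by decide +kernel)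
theorem L54237 : W_8 (nat_lit 5) (nat_lit 0x100018002c0012001200080000000000000000000000000000000) (nat_lit 0x0) (nat_lit 0x400030002e002400000000000000000000000000000000000000000000000) := T_8 (nat_lit 242) (nat_lit 225) (nat_lit 6) (nat_lit 4) (nat_lit 14) L54236 (by decide +kernel)
theorem L54238 : W_8 (nat_lit 2) (nat_lit 0x400000001c001e002d0012801200080000000000000000000000000000000) (nat_lit 0x0) (nat_lit 0x20000400020000000000000000000000000000000000) := D_8 (nat_lit 154) (nat_lit 137) (nat_lit 173) (nat_lit 4) (nat_lit 2) (nat_lit 12) (nat_lit 0) (nat_lit 5) (nat_lit 10) (by decide +kernel)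
theorem L54239 : W_8 (nat_lit 3) (nat_lit 0x400000001c001e002d0012001200080000000000000000000000000000000) (nat_lit 0x0) (nat_lit 0x20000c00060000000000000000000000000000000000) := T_8 (nat_lit 155) (nat_lit 138) (nat_lit 7) (nat_lit 2) (nat_lit 8) L54238 (by decide +kernel)
theorem L54240 : W_8 (nat_lit 4) (nat_lit 0x400000001c001e002c0012001200080000000000000000000000000000000) (nat_lit 0x0) (nat_lit 0x38000c00060000000000000000000000000000000000) := T_8 (nat_lit 172) (nat_lit 171) (nat_lit 0) (nat_lit 5) (nat_lit 11) L54239 (by decide +kernel)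
theorem L54241 : W_8 (nat_lit 5) (nat_lit 0x400000001c001c002c0012001200080000000000000000000000000000000) (nat_lit 0x0) (nat_lit 0x300038000c00060000000000000000000000000000000000) := T_8 (nat_lit 189) (nat_lit 188) (nat_lit 2) (nat_lit 1) (nat_lit 11) L54240 (by decide +kernel)
theorem L54242 : W_8 (nat_lit 6) (nat_lit 0x400000001c0018002c0012001200080000000000000000000000000000000) (nat_lit 0x0) (nat_lit 0x2700038000c00060000000000000000000000000000000000) := T_8 (nat_lit 190) (nat_lit 193) (nat_lit 1) (nat_lit 6) (nat_lit 11) L54241 (by decide +kernel)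
theorem L54243 : W_8 (nat_lit 7) (nat_lit 0x1c0018002c0012001200080000000000000000000000000000000) (nat_lit 0x0) (nat_lit 0x4000200000002700038000c00060000000000000000000000000000000000) := T_8 (nat_lit 242) (nat_lit 225) (nat_lit 6) (nat_lit 4) (nat_lit 14) L54242 (by decide +kernel)
theorem L54244 : W_8 (nat_lit 8) (nat_lit 0x180018002c0012001200080000000000000000000000000000000) (nat_lit 0x0) (nat_lit 0x4000200006002700038000c00060000000000000000000000000000000000) := T_8 (nat_lit 206) (nat_lit 205) (nat_lit 2) (nat_lit 1) (nat_lit 12) L54243 (by decide +kernel)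
theorem L54245 : W_8 (nat_lit 9) (nat_lit 0x100018002c0012001200080000000000000000000000000000000) (nat_lit 0x0) (nat_lit 0x400030000e002700038000c00060000000000000000000000000000000000) := T_8 (nat_lit 207) (nat_lit 224) (nat_lit 5) (nat_lit 4) (nat_lit 9) L54244 (by decide +kernel)
theorem L54246 : W_8 (nat_lit 10) (nat_lit 0x18002c0012001200080000000000000000000000000000000) (nat_lit 0x0) (nat_lit 0xc00070003e002700038000c00060000000000000000000000000000000000) := Q_8 (nat_lit 208) (C_8 L53610 (C_8 L54237 (C_8 L54245 (C_8 L53588 N_8)))) (by decide +kernel)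
theorem L54247 : W_8 (nat_lit 11) (nat_lit 0x18002c0010001200080000000000000000000000000000000) (nat_lit 0x0) (nat_lit 0xc00070003e002700038002c00160018000000000000000000000000000000) := Q_8 (nat_lit 157) (C_8 L54155 (C_8 L54246 N_8)) (by decide +kernel)
theorem L54248 : W_8 (nat_lit 2) (nat_lit 0x200018002c0010001200080000000000000000000000000000000) (nat_lit 0x0) (nat_lit 0x8000400000000000000002000000000000000000000000000000000000000) := D_8 (nat_lit 226) (nat_lit 243) (nat_lit 157) (nat_lit 4) (nat_lit 5) (nat_lit 14) (nat_lit 4) (nat_lit 5) (nat_lit 13) (by decide +kernel)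
theorem L54249 : W_8 (nat_lit 2) (nat_lit 0x200058002c0010001200080000000000000000000000000000000) (nat_lit 0x0) (nat_lit 0xa000020000000000000000000000000000000000000000000) := D_8 (nat_lit 193) (nat_lit 173) (nat_lit 195) (nat_lit 0) (nat_lit 7) (nat_lit 11) (nat_lit 0) (nat_lit 8) (nat_lit 11) (by decide +kernel)
theorem L54250 : W_8 (nat_lit 2) (nat_lit 0xa00058002c0010001300080000000000000000000000000000000) (nat_lit 0x0) (nat_lit 0x2000140000000000000000000000000000000000000000000000000000) := D_8 (nat_lit 212) (nat_lit 229) (nat_lit 210) (nat_lit 7) (nat_lit 7) (nat_lit 9) (nat_lit 0) (nat_lit 8) (nat_lit 12) (by decide +kernel)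
theorem L54251 : W_8 (nat_lit 3) (nat_lit 0x200058002c0010001300080000000000000000000000000000000) (nat_lit 0x0) (nat_lit 0x20001c0000000000020000000000000000000000000000000000000000) := T_8 (nat_lit 211) (nat_lit 161) (nat_lit 6) (nat_lit 7) (nat_lit 12) L54250 (by decide +kernel)
theorem L54252 : W_8 (nat_lit 4) (nat_lit 0x200058002c0010001200080000000000000000000000000000000) (nat_lit 0x0) (nat_lit 0x20001c0000000000022000100000000000000000000000000000000000) := T_8 (nat_lit 140) (nat_lit 157) (nat_lit 7) (nat_lit 4) (nat_lit 8) L54251 (by decide +kernel)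
theorem L54253 : W_8 (nat_lit 5) (nat_lit 0x200018002c0010001200080000000000000000000000000000000) (nat_lit 0x0) (nat_lit 0x20001c000e000020022000100000000000000000000000000000000000) := Q_8 (nat_lit 194) (C_8 L54249 (C_8 L54252 N_8)) (by decide +kernel)
theorem L54254 : W_8 (nat_lit 2) (nat_lit 0x80000000a00058002c0010001200080000000000000000000000000000000) (nat_lit 0x0) (nat_lit 0x2000140000000000000000000000000000000000000000000000000000) := D_8 (nat_lit 212) (nat_lit 229) (nat_lit 210) (nat_lit 7) (nat_lit 7) (nat_lit 9) (nat_lit 0) (nat_lit 8) (nat_lit 12) (by decide +kernel)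
theorem L54255 : W_8 (nat_lit 3) (nat_lit 0x80000000a00018002c0010001200080000000000000000000000000000000) (nat_lit 0x0) (nat_lit 0x2000140004000000020000000000000000000000000000000000000000) := T_8 (nat_lit 194) (nat_lit 161) (nat_lit 6) (nat_lit 7) (nat_lit 12) L54254 (by decide +kernel)
theorem L54256 : W_8 (nat_lit 4) (nat_lit 0xa00018002c0010001200080000000000000000000000000000000) (nat_lit 0x0) (nat_lit 0x8002400140004000000020000000000000000000000000000000000000000) := T_8 (nat_lit 243) (nat_lit 226) (nat_lit 4) (nat_lit 5) (nat_lit 14) L54255 (by decide +kernel)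
theorem L54257 : W_8 (nat_lit 2) (nat_lit 0x1a00018002c0010001200080000000000000000000000000000000) (nat_lit 0x0) (nat_lit 0x6000000020000000000000000000000000000000000000000) := D_8 (nat_lit 194) (nat_lit 161) (nat_lit 193) (nat_lit 6) (nat_lit 7) (nat_lit 12) (nat_lit 3) (nat_lit 4) (nat_lit 11) (by decide +kernel)
theorem L54258 : W_8 (nat_lit 3) (nat_lit 0xa00018002c0010001200080000000000000000000000000000000) (nat_lit 0x0) (nat_lit 0x140006000000020000000000000000000000000000000000000000) := T_8 (nat_lit 212) (nat_lit 210) (nat_lit 0) (nat_lit 8) (nat_lit 12) L54257 (by decide +kernel)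
theorem L54259 : W_8 (nat_lit 2) (nat_lit 0xa00058002c0010001200080000000000000000000000000000000) (nat_lit 0x0) (nat_lit 0x2000100002000000000000000000000000000000000000000000000000) := D_8 (nat_lit 212) (nat_lit 229) (nat_lit 193) (nat_lit 7) (nat_lit 7) (nat_lit 9) (nat_lit 3) (nat_lit 4) (nat_lit 11) (by decide +kernel)
theorem L54260 : W_8 (nat_lit 3) (nat_lit 0xa00018002c0010001200080000000000000000000000000000000) (nat_lit 0x0) (nat_lit 0x2000100006000000020000000000000000000000000000000000000000) := T_8 (nat_lit 194) (nat_lit 161) (nat_lit 6) (nat_lit 7) (nat_lit 12) L54259 (by decide +kernel)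
theorem L54261 : W_8 (nat_lit 2) (nat_lit 0x80000000e00018002c0010001200080000000000000000000000000000000) (nat_lit 0x0) (nat_lit 0x10000600000000000000000000000000000000000000000000000) := D_8 (nat_lit 190) (nat_lit 208) (nat_lit 189) (nat_lit 0) (nat_lit 7) (nat_lit 12) (nat_lit 3) (nat_lit 2) (nat_lit 11) (by decide +kernel)
theorem L54262 : W_8 (nat_lit 3) (nat_lit 0x80000000a00018002c0010001200080000000000000000000000000000000) (nat_lit 0x0) (nat_lit 0x150000600000000000000000000000000000000000000000000000) := T_8 (nat_lit 210) (nat_lit 212) (nat_lit 0) (nat_lit 8) (nat_lit 12) L54261 (by decide +kernel)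
theorem L54263 : W_8 (nat_lit 4) (nat_lit 0xa00018002c0010001200080000000000000000000000000000000) (nat_lit 0x0) (nat_lit 0x8000400150000600000000000000000000000000000000000000000000000) := T_8 (nat_lit 243) (nat_lit 226) (nat_lit 4) (nat_lit 5) (nat_lit 14) L54262 (by decide +kernel)
theorem L54264 : W_8 (nat_lit 2) (nat_lit 0xa00058002c0010001200080000000000000000000000000000000) (nat_lit 0x0) (nat_lit 0xa000020000000000000000000000000000000000000000000) := D_8 (nat_lit 193) (nat_lit 173) (nat_lit 195) (nat_lit 0) (nat_lit 7) (nat_lit 11) (nat_lit 0) (nat_lit 8) (nat_lit 11) (by decide +kernel)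
theorem L54265 : W_8 (nat_lit 3) (nat_lit 0xa00018002c0010001200080000000000000000000000000000000) (nat_lit 0x0) (nat_lit 0xe000020020000000000000000000000000000000000000000) := T_8 (nat_lit 194) (nat_lit 161) (nat_lit 6) (nat_lit 7) (nat_lit 12) L54264 (by decide +kernel)
theorem L54266 : W_8 (nat_lit 5) (nat_lit 0x200018002c0010001200080000000000000000000000000000000) (nat_lit 0x0) (nat_lit 0x80024001d000e600020020000000000000000000000000000000000000000) := Q_8 (nat_lit 211) (C_8 L54256 (C_8 L54258 (C_8 L54260 (C_8 L54263 (C_8 L54265 N_8))))) (by decide +kernel)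
theorem L54267 : W_8 (nat_lit 6) (nat_lit 0x18002c0010001200080000000000000000000000000000000) (nat_lit 0x0) (nat_lit 0x80024001f000e600020022000100000000000000000000000000000000000) := Q_8 (nat_lit 209) (C_8 L54248 (C_8 L54253 (C_8 L54266 N_8))) (by decide +kernel)
theorem L54268 : W_8 (nat_lit 13) (nat_lit 0x8002c0010001200080000000000000000000000000000000) (nat_lit 0x0) (nat_lit 0x20007f003f807fe00f700038022c00160018000000000000000000000000000000) := Q_8 (nat_lit 192) (C_8 L54188 (C_8 L54205 (C_8 L54216 (C_8 L54227 (C_8 L54233 (C_8 L54247 (C_8 L54267 N_8))))))) (by decide +kernel)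
theorem L54269 : W_8 (nat_lit 8) (nat_lit 0x1800048002c0012001200080000000000000000000000000000000) (nat_lit 0x0) (nat_lit 0x16001f00658003000000000000000000000000000000000000000000000000) := T_8 (nat_lit 192) (nat_lit 193) (nat_lit 3) (nat_lit 4) (nat_lit 11) L54176 (by decide +kernel)
theorem L54270 : W_8 (nat_lit 9) (nat_lit 0x800048002c0012001200080000000000000000000000000000000) (nat_lit 0x0) (nat_lit 0x16003f00758003000000000000000000000000000000000000000000000000) := T_8 (nat_lit 212) (nat_lit 229) (nat_lit 7) (nat_lit 7) (nat_lit 9) L54269 (by decide +kernel)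
theorem L54271 : W_8 (nat_lit 10) (nat_lit 0x800008002c0012001200080000000000000000000000000000000) (nat_lit 0x0) (nat_lit 0x16003f00758007000000020000000000000000000000000000000000000000) := T_8 (nat_lit 194) (nat_lit 161) (nat_lit 6) (nat_lit 7) (nat_lit 12) L54270 (by decide +kernel)
theorem L54272 : W_8 (nat_lit 3) (nat_lit 0x1800048002c0012001200080000000000000000000000000000000) (nat_lit 0x0) (nat_lit 0x800060003000000000000000000000000000000000000000000000000) := T_8 (nat_lit 192) (nat_lit 193) (nat_lit 3) (nat_lit 4) (nat_lit 11) L54161 (by decide +kernel)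
theorem L54273 : W_8 (nat_lit 4) (nat_lit 0x800048002c0012001200080000000000000000000000000000000) (nat_lit 0x0) (nat_lit 0x2800160003000000000000000000000000000000000000000000000000) := T_8 (nat_lit 212) (nat_lit 229) (nat_lit 7) (nat_lit 7) (nat_lit 9) L54272 (by decide +kernel)
theorem L54274 : W_8 (nat_lit 5) (nat_lit 0x800008002c0012001200080000000000000000000000000000000) (nat_lit 0x0) (nat_lit 0x2800160007000000020000000000000000000000000000000000000000) := T_8 (nat_lit 194) (nat_lit 161) (nat_lit 6) (nat_lit 7) (nat_lit 12) L54273 (by decide +kernel)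
theorem L54275 : W_8 (nat_lit 2) (nat_lit 0x4000800008002c0012001200080000000000000000000000000000000) (nat_lit 0x0) (nat_lit 0x30001000000000000000000000000000000000000000000000000) := D_8 (nat_lit 209) (nat_lit 192) (nat_lit 208) (nat_lit 4) (nat_lit 5) (nat_lit 13) (nat_lit 7) (nat_lit 4) (nat_lit 9) (by decide +kernel)
theorem L54276 : W_8 (nat_lit 2) (nat_lit 0x4003e000800048002c0012001200080000000000000000000000000000000) (nat_lit 0x0) (nat_lit 0x18001000000000000000000000000000000000000000000000000) := D_8 (nat_lit 208) (nat_lit 207) (nat_lit 192) (nat_lit 0) (nat_lit 7) (nat_lit 13) (nat_lit 6) (nat_lit 4) (nat_lit 14) (by decide +kernel)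
theorem L54277 : W_8 (nat_lit 3) (nat_lit 0x4003c000800048002c0012001200080000000000000000000000000000000) (nat_lit 0x0) (nat_lit 0x2000200018001000000000000000000000000000000000000000000000000) := T_8 (nat_lit 225) (nat_lit 241) (nat_lit 1) (nat_lit 7) (nat_lit 13) L54276 (by decide +kernel)
theorem L54278 : W_8 (nat_lit 4) (nat_lit 0x3c000800048002c0012001200080000000000000000000000000000000) (nat_lit 0x0) (nat_lit 0xe000200018001000000000000000000000000000000000000000000000000) := T_8 (nat_lit 242) (nat_lit 243) (nat_lit 1) (nat_lit 8) (nat_lit 13) L54277 (by decide +kernel)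
theorem L54279 : W_8 (nat_lit 5) (nat_lit 0x34000800048002c0012001200080000000000000000000000000000000) (nat_lit 0x0) (nat_lit 0x1e000a00018001000000000000000000000000000000000000000000000000) := T_8 (nat_lit 227) (nat_lit 244) (nat_lit 5) (nat_lit 7) (nat_lit 10) L54278 (by decide +kernel)
theorem L54280 : W_8 (nat_lit 6) (nat_lit 0x24000800048002c0012001200080000000000000000000000000000000) (nat_lit 0x0) (nat_lit 0x5e001a00018001000000000000000000000000000000000000000000000000) := T_8 (nat_lit 228) (nat_lit 246) (nat_lit 7) (nat_lit 7) (nat_lit 10) L54279 (by decide +kernel)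
theorem L54281 : W_8 (nat_lit 7) (nat_lit 0x4000800048002c0012001200080000000000000000000000000000000) (nat_lit 0x0) (nat_lit 0x5e003a00118001000000000000000000000000000000000000000000000000) := T_8 (nat_lit 229) (nat_lit 212) (nat_lit 7) (nat_lit 7) (nat_lit 9) L54280 (by decide +kernel)
theorem L54282 : W_8 (nat_lit 8) (nat_lit 0x4000800008002c0012001200080000000000000000000000000000000) (nat_lit 0x0) (nat_lit 0x5e003a00118005000000020000000000000000000000000000000000000000) := T_8 (nat_lit 194) (nat_lit 161) (nat_lit 6) (nat_lit 7) (nat_lit 12) L54281 (by decide +kernel)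
theorem L54283 : W_8 (nat_lit 2) (nat_lit 0x6001900048002c0012001200080000000000000000000000000000000) (nat_lit 0x0) (nat_lit 0x20001000080000000000000000000000000000000000) := D_8 (nat_lit 156) (nat_lit 173) (nat_lit 139) (nat_lit 4) (nat_lit 4) (nat_lit 13) (nat_lit 4) (nat_lit 4) (nat_lit 12) (by decide +kernel)
theorem L54284 : W_8 (nat_lit 3) (nat_lit 0x4001900048002c0012001200080000000000000000000000000000000) (nat_lit 0x0) (nat_lit 0x8000200000000000020001000080000000000000000000000000000000000) := T_8 (nat_lit 225) (nat_lit 243) (nat_lit 7) (nat_lit 4) (nat_lit 10) L54283 (by decide +kernel)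
theorem L54285 : W_8 (nat_lit 4) (nat_lit 0x4001800048002c0012001200080000000000000000000000000000000) (nat_lit 0x0) (nat_lit 0x8000200030000000020001000080000000000000000000000000000000000) := T_8 (nat_lit 208) (nat_lit 209) (nat_lit 7) (nat_lit 4) (nat_lit 9) L54284 (by decide +kernel)
theorem L54286 : W_8 (nat_lit 5) (nat_lit 0x4000800048002c0012001200080000000000000000000000000000000) (nat_lit 0x0) (nat_lit 0x8002200130000000020001000080000000000000000000000000000000000) := T_8 (nat_lit 212) (nat_lit 229) (nat_lit 7) (nat_lit 7) (nat_lit 9) L54285 (by decide +kernel)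
theorem L54287 : W_8 (nat_lit 6) (nat_lit 0x4000800008002c0012001200080000000000000000000000000000000) (nat_lit 0x0) (nat_lit 0x8002200130004000020021000080000000000000000000000000000000000) := T_8 (nat_lit 194) (nat_lit 161) (nat_lit 6) (nat_lit 7) (nat_lit 12) L54286 (by decide +kernel)
theorem L54288 : W_8 (nat_lit 2) (nat_lit 0x4000800058002c0012001200080000000000000000000000000000000) (nat_lit 0x0) (nat_lit 0x2000100002000000000000000000000000000000000000000000000000) := D_8 (nat_lit 212) (nat_lit 229) (nat_lit 193) (nat_lit 7) (nat_lit 7) (nat_lit 9) (nat_lit 3) (nat_lit 4) (nat_lit 11) (by decide +kernel)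
theorem L54289 : W_8 (nat_lit 3) (nat_lit 0x4000800018002c0012001200080000000000000000000000000000000) (nat_lit 0x0) (nat_lit 0x2000100006000000020000000000000000000000000000000000000000) := T_8 (nat_lit 194) (nat_lit 161) (nat_lit 6) (nat_lit 7) (nat_lit 12) L54288 (by decide +kernel)
theorem L54290 : W_8 (nat_lit 4) (nat_lit 0x4000800008002c0012001200080000000000000000000000000000000) (nat_lit 0x0) (nat_lit 0x2000120007000000020000000000000000000000000000000000000000) := T_8 (nat_lit 192) (nat_lit 209) (nat_lit 4) (nat_lit 5) (nat_lit 13) L54289 (by decide +kernel)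
theorem L54291 : W_8 (nat_lit 9) (nat_lit 0x800008002c0012001200080000000000000000000000000000000) (nat_lit 0x0) (nat_lit 0x5e003e00138007000020021000080000000000000000000000000000000000) := Q_8 (nat_lit 226) (C_8 L54275 (C_8 L54282 (C_8 L54287 (C_8 L54290 N_8)))) (by decide +kernel)
theorem L54292 : W_8 (nat_lit 2) (nat_lit 0x1e00048002c0012001200080000000000000000000000000000000) (nat_lit 0x0) (nat_lit 0x10008400000000000000000000000000000000000000000000000) := D_8 (nat_lit 208) (nat_lit 190) (nat_lit 195) (nat_lit 0) (nat_lit 7) (nat_lit 12) (nat_lit 2) (nat_lit 4) (nat_lit 12) (by decide +kernel)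
theorem L54293 : W_8 (nat_lit 3) (nat_lit 0x1c00048002c0012001200080000000000000000000000000000000) (nat_lit 0x0) (nat_lit 0x30009400000000000000000000000000000000000000000000000) := T_8 (nat_lit 209) (nat_lit 192) (nat_lit 0) (nat_lit 8) (nat_lit 12) L54292 (by decide +kernel)
theorem L54294 : W_8 (nat_lit 4) (nat_lit 0x1800048002c0012001200080000000000000000000000000000000) (nat_lit 0x0) (nat_lit 0x800070009400000000000000000000000000000000000000000000000) := T_8 (nat_lit 210) (nat_lit 227) (nat_lit 5) (nat_lit 7) (nat_lit 9) L54293 (by decide +kernel)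
theorem L54295 : W_8 (nat_lit 5) (nat_lit 0x800048002c0012001200080000000000000000000000000000000) (nat_lit 0x0) (nat_lit 0x2800170009400000000000000000000000000000000000000000000000) := T_8 (nat_lit 212) (nat_lit 229) (nat_lit 7) (nat_lit 7) (nat_lit 9) L54294 (by decide +kernel)
theorem L54296 : W_8 (nat_lit 6) (nat_lit 0x800008002c0012001200080000000000000000000000000000000) (nat_lit 0x0) (nat_lit 0x280017000d400000020000000000000000000000000000000000000000) := T_8 (nat_lit 194) (nat_lit 161) (nat_lit 6) (nat_lit 7) (nat_lit 12) L54295 (by decide +kernel)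
theorem L54297 : W_8 (nat_lit 2) (nat_lit 0x31000d00048002c0013001200080000000000000000000000000000000) (nat_lit 0x0) (nat_lit 0x2000200000000000020000000000000000000000000000000000000000000) := D_8 (nat_lit 225) (nat_lit 173) (nat_lit 241) (nat_lit 4) (nat_lit 4) (nat_lit 13) (nat_lit 5) (nat_lit 4) (nat_lit 10) (by decide +kernel)
theorem L54298 : W_8 (nat_lit 3) (nat_lit 0x31000d00048002c0012001200080000000000000000000000000000000) (nat_lit 0x0) (nat_lit 0x2000200000000000020001000080000000000000000000000000000000000) := T_8 (nat_lit 156) (nat_lit 139) (nat_lit 4) (nat_lit 4) (nat_lit 12) L54297 (by decide +kernel)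
theorem L54299 : W_8 (nat_lit 4) (nat_lit 0x30000d00048002c0012001200080000000000000000000000000000000) (nat_lit 0x0) (nat_lit 0x2000300008000000020001000080000000000000000000000000000000000) := T_8 (nat_lit 224) (nat_lit 207) (nat_lit 5) (nat_lit 4) (nat_lit 9) L54298 (by decide +kernel)
theorem L54300 : W_8 (nat_lit 5) (nat_lit 0x30000c00048002c0012001200080000000000000000000000000000000) (nat_lit 0x0) (nat_lit 0x2000300038000000020001000080000000000000000000000000000000000) := T_8 (nat_lit 208) (nat_lit 209) (nat_lit 3) (nat_lit 4) (nat_lit 12) L54299 (by decide +kernel)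
theorem L54301 : W_8 (nat_lit 6) (nat_lit 0x20000c00048002c0012001200080000000000000000000000000000000) (nat_lit 0x0) (nat_lit 0x42001300038000000020001000080000000000000000000000000000000000) := T_8 (nat_lit 228) (nat_lit 246) (nat_lit 7) (nat_lit 7) (nat_lit 10) L54300 (by decide +kernel)
theorem L54302 : W_8 (nat_lit 7) (nat_lit 0x20000800048002c0012001200080000000000000000000000000000000) (nat_lit 0x0) (nat_lit 0x42001b00078000000020001000080000000000000000000000000000000000) := T_8 (nat_lit 210) (nat_lit 227) (nat_lit 5) (nat_lit 7) (nat_lit 9) L54301 (by decide +kernel)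
theorem L54303 : W_8 (nat_lit 8) (nat_lit 0x800048002c0012001200080000000000000000000000000000000) (nat_lit 0x0) (nat_lit 0x42003b00178000000020001000080000000000000000000000000000000000) := T_8 (nat_lit 229) (nat_lit 212) (nat_lit 7) (nat_lit 7) (nat_lit 9) L54302 (by decide +kernel)
theorem L54304 : W_8 (nat_lit 9) (nat_lit 0x800008002c0012001200080000000000000000000000000000000) (nat_lit 0x0) (nat_lit 0x42003b00178004000020021000080000000000000000000000000000000000) := T_8 (nat_lit 194) (nat_lit 161) (nat_lit 6) (nat_lit 7) (nat_lit 12) L54303 (by decide +kernel)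
theorem L54305 : W_8 (nat_lit 2) (nat_lit 0xf80008002c0012001200080000000000000000000000000000000) (nat_lit 0x0) (nat_lit 0x3800000000000000000000000000000000000000000000000000000000) := D_8 (nat_lit 228) (nat_lit 227) (nat_lit 229) (nat_lit 3) (nat_lit 3) (nat_lit 12) (nat_lit 3) (nat_lit 4) (nat_lit 12) (by decide +kernel)
theorem L54306 : W_8 (nat_lit 3) (nat_lit 0xb80008002c0012001200080000000000000000000000000000000) (nat_lit 0x0) (nat_lit 0x3800040000400000000000000000000000000000000000000000000000) := T_8 (nat_lit 210) (nat_lit 190) (nat_lit 0) (nat_lit 7) (nat_lit 12) L54305 (by decide +kernel)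
theorem L54307 : W_8 (nat_lit 4) (nat_lit 0x980008002c0012001200080000000000000000000000000000000) (nat_lit 0x0) (nat_lit 0x3c00060000400000000000000000000000000000000000000000000000) := T_8 (nat_lit 209) (nat_lit 226) (nat_lit 7) (nat_lit 4) (nat_lit 9) L54306 (by decide +kernel)
theorem L54308 : W_8 (nat_lit 5) (nat_lit 0x900008002c0012001200080000000000000000000000000000000) (nat_lit 0x0) (nat_lit 0x3d00068000400000000000000000000000000000000000000000000000) := T_8 (nat_lit 207) (nat_lit 224) (nat_lit 5) (nat_lit 4) (nat_lit 9) L54307 (by decide +kernel)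
theorem L54309 : W_8 (nat_lit 2) (nat_lit 0x2000900008002c0013001200080000000000000000000000000000000) (nat_lit 0x0) (nat_lit 0x2000100008000000000000000000000000000000000000000000000000000) := D_8 (nat_lit 224) (nat_lit 241) (nat_lit 207) (nat_lit 5) (nat_lit 4) (nat_lit 10) (nat_lit 5) (nat_lit 4) (nat_lit 9) (by decide +kernel)
theorem L54310 : W_8 (nat_lit 3) (nat_lit 0x900008002c0013001200080000000000000000000000000000000) (nat_lit 0x0) (nat_lit 0x2000300008000000020000000000000000000000000000000000000000000) := T_8 (nat_lit 225) (nat_lit 173) (nat_lit 4) (nat_lit 4) (nat_lit 13) L54309 (by decide +kernel)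
theorem L54311 : W_8 (nat_lit 4) (nat_lit 0x900008002c0012001200080000000000000000000000000000000) (nat_lit 0x0) (nat_lit 0x2000300008000000020001000080000000000000000000000000000000000) := T_8 (nat_lit 156) (nat_lit 139) (nat_lit 4) (nat_lit 4) (nat_lit 12) L54310 (by decide +kernel)
theorem L54312 : W_8 (nat_lit 2) (nat_lit 0x2000f00008002c0012001200080000000000000000000000000000000) (nat_lit 0x0) (nat_lit 0x20001000080000000000000000000000000000000000) := D_8 (nat_lit 156) (nat_lit 139) (nat_lit 173) (nat_lit 4) (nat_lit 4) (nat_lit 12) (nat_lit 4) (nat_lit 4) (nat_lit 13) (by decide +kernel)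
theorem L54313 : W_8 (nat_lit 3) (nat_lit 0xf00008002c0012001200080000000000000000000000000000000) (nat_lit 0x0) (nat_lit 0x300000000000020001000080000000000000000000000000000000000) := T_8 (nat_lit 225) (nat_lit 224) (nat_lit 1) (nat_lit 7) (nat_lit 12) L54312 (by decide +kernel)
theorem L54314 : W_8 (nat_lit 4) (nat_lit 0xb00008002c0012001200080000000000000000000000000000000) (nat_lit 0x0) (nat_lit 0x300040000400020001000080000000000000000000000000000000000) := T_8 (nat_lit 210) (nat_lit 190) (nat_lit 0) (nat_lit 7) (nat_lit 12) L54313 (by decide +kernel)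
theorem L54315 : W_8 (nat_lit 5) (nat_lit 0x900008002c0012001200080000000000000000000000000000000) (nat_lit 0x0) (nat_lit 0x700060000400020001000080000000000000000000000000000000000) := T_8 (nat_lit 209) (nat_lit 226) (nat_lit 7) (nat_lit 4) (nat_lit 9) L54314 (by decide +kernel)
theorem L54316 : W_8 (nat_lit 2) (nat_lit 0x2000900008002c0013001200080000000000000000000000000000000) (nat_lit 0x0) (nat_lit 0x8000400020000000000000000000000000000000000000000000000000000) := D_8 (nat_lit 226) (nat_lit 209) (nat_lit 243) (nat_lit 7) (nat_lit 4) (nat_lit 9) (nat_lit 7) (nat_lit 4) (nat_lit 10) (by decide +kernel)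
theorem L54317 : W_8 (nat_lit 3) (nat_lit 0x900008002c0013001200080000000000000000000000000000000) (nat_lit 0x0) (nat_lit 0x8000600020000000020000000000000000000000000000000000000000000) := T_8 (nat_lit 225) (nat_lit 173) (nat_lit 4) (nat_lit 4) (nat_lit 13) L54316 (by decide +kernel)
theorem L54318 : W_8 (nat_lit 4) (nat_lit 0x900008002c0012001200080000000000000000000000000000000) (nat_lit 0x0) (nat_lit 0x8000600020000000020001000080000000000000000000000000000000000) := T_8 (nat_lit 156) (nat_lit 139) (nat_lit 4) (nat_lit 4) (nat_lit 12) L54317 (by decide +kernel)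
theorem L54319 : W_8 (nat_lit 6) (nat_lit 0x800008002c0012001200080000000000000000000000000000000) (nat_lit 0x0) (nat_lit 0xa003f00078000400020001000080000000000000000000000000000000000) := Q_8 (nat_lit 208) (C_8 L54308 (C_8 L54311 (C_8 L54315 (C_8 L54318 N_8)))) (by decide +kernel)
theorem L54320 : W_8 (nat_lit 2) (nat_lit 0x1800058002c0012001200080000000000000000000000000000000) (nat_lit 0x0) (nat_lit 0x400060000000000000000000000000000000000000000000000000000) := D_8 (nat_lit 209) (nat_lit 226) (nat_lit 210) (nat_lit 4) (nat_lit 5) (nat_lit 13) (nat_lit 0) (nat_lit 8) (nat_lit 12) (by decide +kernel)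
theorem L54321 : W_8 (nat_lit 3) (nat_lit 0x1800048002c0012001200080000000000000000000000000000000) (nat_lit 0x0) (nat_lit 0x400060003000000000000000000000000000000000000000000000000) := T_8 (nat_lit 192) (nat_lit 193) (nat_lit 3) (nat_lit 4) (nat_lit 11) L54320 (by decide +kernel)
theorem L54322 : W_8 (nat_lit 4) (nat_lit 0x800048002c0012001200080000000000000000000000000000000) (nat_lit 0x0) (nat_lit 0x2400160003000000000000000000000000000000000000000000000000) := T_8 (nat_lit 212) (nat_lit 229) (nat_lit 7) (nat_lit 7) (nat_lit 9) L54321 (by decide +kernel)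
theorem L54323 : W_8 (nat_lit 5) (nat_lit 0x800008002c0012001200080000000000000000000000000000000) (nat_lit 0x0) (nat_lit 0x2400160007000000020000000000000000000000000000000000000000) := T_8 (nat_lit 194) (nat_lit 161) (nat_lit 6) (nat_lit 7) (nat_lit 12) L54322 (by decide +kernel)
theorem L54324 : W_8 (nat_lit 5) (nat_lit 0x800008002c0012001200080000000000000000000000000000000) (nat_lit 0x0) (nat_lit 0xa00070007800c400020021000080000000000000000000000000000000000) := Q_8 (nat_lit 208) (C_8 L54318 (C_8 L54311 (C_8 L53317 N_8))) (by decide +kernel)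
theorem L54325 : W_8 (nat_lit 11) (nat_lit 0x8002c0012001200080000000000000000000000000000000) (nat_lit 0x0) (nat_lit 0x5e003f007f800f400020021000080000000000000000000000000000000000) := Q_8 (nat_lit 211) (C_8 L54271 (C_8 L54274 (C_8 L54291 (C_8 L54296 (C_8 L54304 (C_8 L54319 (C_8 L54323 (C_8 L54324 N_8)))))))) (by decide +kernel)
theorem L54326 : W_8 (nat_lit 12) (nat_lit 0x8002c0010001200080000000000000000000000000000000) (nat_lit 0x0) (nat_lit 0x7e003f007f800f40002002300018001c000200000000000000000000000000) := Q_8 (nat_lit 157) (C_8 L53319 (C_8 L53283 (C_8 L54325 (C_8 L53271 (C_8 L53279 N_8))))) (by decide +kernel)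
theorem L54327 : W_8 (nat_lit 2) (nat_lit 0x4003e000900048002c0012001200080000000000000000000000000000000) (nat_lit 0x0) (nat_lit 0x20001000080000000000000000000000000000000000) := D_8 (nat_lit 156) (nat_lit 139) (nat_lit 173) (nat_lit 4) (nat_lit 4) (nat_lit 12) (nat_lit 4) (nat_lit 4) (nat_lit 13) (by decide +kernel)
theorem L54328 : W_8 (nat_lit 3) (nat_lit 0x4003e000800048002c0012001200080000000000000000000000000000000) (nat_lit 0x0) (nat_lit 0x10001000020001000080000000000000000000000000000000000) := T_8 (nat_lit 208) (nat_lit 192) (nat_lit 6) (nat_lit 4) (nat_lit 14) L54327 (by decide +kernel)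
theorem L54329 : W_8 (nat_lit 4) (nat_lit 0x4003c000800048002c0012001200080000000000000000000000000000000) (nat_lit 0x0) (nat_lit 0x2000200010001000020001000080000000000000000000000000000000000) := T_8 (nat_lit 225) (nat_lit 241) (nat_lit 1) (nat_lit 7) (nat_lit 13) L54328 (by decide +kernel)
theorem L54330 : W_8 (nat_lit 5) (nat_lit 0x3c000800048002c0012001200080000000000000000000000000000000) (nat_lit 0x0) (nat_lit 0xe000200010001000020001000080000000000000000000000000000000000) := T_8 (nat_lit 242) (nat_lit 243) (nat_lit 1) (nat_lit 8) (nat_lit 13) L54329 (by decide +kernel)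
theorem L54331 : W_8 (nat_lit 6) (nat_lit 0x34000800048002c0012001200080000000000000000000000000000000) (nat_lit 0x0) (nat_lit 0x1e000a00010001000020001000080000000000000000000000000000000000) := T_8 (nat_lit 227) (nat_lit 244) (nat_lit 5) (nat_lit 7) (nat_lit 10) L54330 (by decide +kernel)
theorem L54332 : W_8 (nat_lit 7) (nat_lit 0x24000800048002c0012001200080000000000000000000000000000000) (nat_lit 0x0) (nat_lit 0x5e001a00010001000020001000080000000000000000000000000000000000) := T_8 (nat_lit 228) (nat_lit 246) (nat_lit 7) (nat_lit 7) (nat_lit 10) L54331 (by decide +kernel)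
theorem L54333 : W_8 (nat_lit 8) (nat_lit 0x4000800048002c0012001200080000000000000000000000000000000) (nat_lit 0x0) (nat_lit 0x5e003a00110001000020001000080000000000000000000000000000000000) := T_8 (nat_lit 229) (nat_lit 212) (nat_lit 7) (nat_lit 7) (nat_lit 9) L54332 (by decide +kernel)
theorem L54334 : W_8 (nat_lit 9) (nat_lit 0x4000800008002c0012001200080000000000000000000000000000000) (nat_lit 0x0) (nat_lit 0x5e003a00110005000020021000080000000000000000000000000000000000) := T_8 (nat_lit 194) (nat_lit 161) (nat_lit 6) (nat_lit 7) (nat_lit 12) L54333 (by decide +kernel)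
theorem L54335 : W_8 (nat_lit 10) (nat_lit 0x800008002c0012001200080000000000000000000000000000000) (nat_lit 0x0) (nat_lit 0x5e003e00130007000020021000080000000000000000000000000000000000) := Q_8 (nat_lit 226) (C_8 L54290 (C_8 L54334 (C_8 L54287 (C_8 L54275 N_8)))) (by decide +kernel)
theorem L54336 : W_8 (nat_lit 2) (nat_lit 0x1a005900058002c0012001200080000000000000000000000000000000) (nat_lit 0x0) (nat_lit 0x20001000080000000000000000000000000000000000) := D_8 (nat_lit 156) (nat_lit 139) (nat_lit 173) (nat_lit 4) (nat_lit 4) (nat_lit 12) (nat_lit 4) (nat_lit 4) (nat_lit 13) (by decide +kernel)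
theorem L54337 : W_8 (nat_lit 3) (nat_lit 0x1a005800058002c0012001200080000000000000000000000000000000) (nat_lit 0x0) (nat_lit 0x4000000010000000020001000080000000000000000000000000000000000) := T_8 (nat_lit 208) (nat_lit 242) (nat_lit 6) (nat_lit 4) (nat_lit 14) L54336 (by decide +kernel)
theorem L54338 : W_8 (nat_lit 4) (nat_lit 0x1a001800058002c0012001200080000000000000000000000000000000) (nat_lit 0x0) (nat_lit 0x4000000610000000020001000080000000000000000000000000000000000) := T_8 (nat_lit 214) (nat_lit 213) (nat_lit 1) (nat_lit 10) (nat_lit 12) L54337 (by decide +kernel)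
theorem L54339 : W_8 (nat_lit 5) (nat_lit 0x18001800058002c0012001200080000000000000000000000000000000) (nat_lit 0x0) (nat_lit 0x4000600610000000020001000080000000000000000000000000000000000) := T_8 (nat_lit 225) (nat_lit 226) (nat_lit 2) (nat_lit 4) (nat_lit 13) L54338 (by decide +kernel)
theorem L54340 : W_8 (nat_lit 6) (nat_lit 0x8001800058002c0012001200080000000000000000000000000000000) (nat_lit 0x0) (nat_lit 0x14001600610000000020001000080000000000000000000000000000000000) := T_8 (nat_lit 228) (nat_lit 244) (nat_lit 5) (nat_lit 7) (nat_lit 10) L54339 (by decide +kernel)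
theorem L54341 : W_8 (nat_lit 7) (nat_lit 0x1800058002c0012001200080000000000000000000000000000000) (nat_lit 0x0) (nat_lit 0x14001e00650000000020001000080000000000000000000000000000000000) := T_8 (nat_lit 227) (nat_lit 210) (nat_lit 5) (nat_lit 7) (nat_lit 9) L54340 (by decide +kernel)
theorem L54342 : W_8 (nat_lit 8) (nat_lit 0x1800048002c0012001200080000000000000000000000000000000) (nat_lit 0x0) (nat_lit 0x14001e00650003000020001000080000000000000000000000000000000000) := T_8 (nat_lit 192) (nat_lit 193) (nat_lit 3) (nat_lit 4) (nat_lit 11) L54341 (by decide +kernel)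
theorem L54343 : W_8 (nat_lit 9) (nat_lit 0x800048002c0012001200080000000000000000000000000000000) (nat_lit 0x0) (nat_lit 0x14003e00750003000020001000080000000000000000000000000000000000) := T_8 (nat_lit 212) (nat_lit 229) (nat_lit 7) (nat_lit 7) (nat_lit 9) L54342 (by decide +kernel)
theorem L54344 : W_8 (nat_lit 10) (nat_lit 0x800008002c0012001200080000000000000000000000000000000) (nat_lit 0x0) (nat_lit 0x14003e00750007000020021000080000000000000000000000000000000000) := T_8 (nat_lit 194) (nat_lit 161) (nat_lit 6) (nat_lit 7) (nat_lit 12) L54343 (by decide +kernel)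
theorem L54345 : W_8 (nat_lit 6) (nat_lit 0x30000d00048002c0012001200080000000000000000000000000000000) (nat_lit 0x0) (nat_lit 0x14000e000700000000000020001000080000000000000000000000000000000000) := T_8 (nat_lit 156) (nat_lit 139) (nat_lit 4) (nat_lit 4) (nat_lit 12) L53287 (by decide +kernel)
theorem L54346 : W_8 (nat_lit 7) (nat_lit 0x30000c00048002c0012001200080000000000000000000000000000000) (nat_lit 0x0) (nat_lit 0x14000e000700030000000020001000080000000000000000000000000000000000) := T_8 (nat_lit 208) (nat_lit 209) (nat_lit 3) (nat_lit 4) (nat_lit 12) L54345 (by decide +kernel)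
theorem L54347 : W_8 (nat_lit 8) (nat_lit 0x20000c00048002c0012001200080000000000000000000000000000000) (nat_lit 0x0) (nat_lit 0x14004e001700030000000020001000080000000000000000000000000000000000) := T_8 (nat_lit 228) (nat_lit 246) (nat_lit 7) (nat_lit 7) (nat_lit 10) L54346 (by decide +kernel)
theorem L54348 : W_8 (nat_lit 9) (nat_lit 0x20000800048002c0012001200080000000000000000000000000000000) (nat_lit 0x0) (nat_lit 0x14004e001f00070000000020001000080000000000000000000000000000000000) := T_8 (nat_lit 210) (nat_lit 227) (nat_lit 5) (nat_lit 7) (nat_lit 9) L54347 (by decide +kernel)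
theorem L54349 : W_8 (nat_lit 10) (nat_lit 0x800048002c0012001200080000000000000000000000000000000) (nat_lit 0x0) (nat_lit 0x14004e003f00170000000020001000080000000000000000000000000000000000) := T_8 (nat_lit 229) (nat_lit 212) (nat_lit 7) (nat_lit 7) (nat_lit 9) L54348 (by decide +kernel)
theorem L54350 : W_8 (nat_lit 11) (nat_lit 0x800008002c0012001200080000000000000000000000000000000) (nat_lit 0x0) (nat_lit 0x14004e003f00170004000020021000080000000000000000000000000000000000) := T_8 (nat_lit 194) (nat_lit 161) (nat_lit 6) (nat_lit 7) (nat_lit 12) L54349 (by decide +kernel)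
theorem L54351 : W_8 (nat_lit 2) (nat_lit 0x20002000900008002c0013001200080000000000000000000000000000000) (nat_lit 0x0) (nat_lit 0x40004000000000001000000000000000000000000000000000000000000000000) := D_8 (nat_lit 242) (nat_lit 192) (nat_lit 258) (nat_lit 6) (nat_lit 4) (nat_lit 14) (nat_lit 5) (nat_lit 4) (nat_lit 11) (by decide +kernel)
theorem L54352 : W_8 (nat_lit 3) (nat_lit 0x2000900008002c0013001200080000000000000000000000000000000) (nat_lit 0x0) (nat_lit 0x40006000100000001000000000000000000000000000000000000000000000000) := T_8 (nat_lit 241) (nat_lit 224) (nat_lit 5) (nat_lit 4) (nat_lit 10) L54351 (by decide +kernel)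
theorem L54353 : W_8 (nat_lit 4) (nat_lit 0x900008002c0013001200080000000000000000000000000000000) (nat_lit 0x0) (nat_lit 0x40006000300000001000020000000000000000000000000000000000000000000) := T_8 (nat_lit 225) (nat_lit 173) (nat_lit 4) (nat_lit 4) (nat_lit 13) L54352 (by decide +kernel)
theorem L54354 : W_8 (nat_lit 5) (nat_lit 0x900008002c0012001200080000000000000000000000000000000) (nat_lit 0x0) (nat_lit 0x40006000300000001000020001000080000000000000000000000000000000000) := T_8 (nat_lit 156) (nat_lit 139) (nat_lit 4) (nat_lit 4) (nat_lit 12) L54353 (by decide +kernel)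
theorem L54355 : W_8 (nat_lit 2) (nat_lit 0x2000f00008002c0013401200080000000000000000000000000000000) (nat_lit 0x0) (nat_lit 0x4000000100001000000000000000000000000000000000000000000000000) := D_8 (nat_lit 192) (nat_lit 212) (nat_lit 242) (nat_lit 0) (nat_lit 8) (nat_lit 12) (nat_lit 6) (nat_lit 4) (nat_lit 14) (by decide +kernel)
theorem L54356 : W_8 (nat_lit 3) (nat_lit 0xf00008002c0013401200080000000000000000000000000000000) (nat_lit 0x0) (nat_lit 0x4000300100001000000000000000000000000000000000000000000000000) := T_8 (nat_lit 225) (nat_lit 224) (nat_lit 1) (nat_lit 7) (nat_lit 12) L54355 (by decide +kernel)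
theorem L54357 : W_8 (nat_lit 4) (nat_lit 0xb00008002c0013401200080000000000000000000000000000000) (nat_lit 0x0) (nat_lit 0x4000300140001400000000000000000000000000000000000000000000000) := T_8 (nat_lit 210) (nat_lit 190) (nat_lit 0) (nat_lit 7) (nat_lit 12) L54356 (by decide +kernel)
theorem L54358 : W_8 (nat_lit 5) (nat_lit 0x900008002c0013401200080000000000000000000000000000000) (nat_lit 0x0) (nat_lit 0x4000700160001400000000000000000000000000000000000000000000000) := T_8 (nat_lit 209) (nat_lit 226) (nat_lit 7) (nat_lit 4) (nat_lit 9) L54357 (by decide +kernel)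
theorem L54359 : W_8 (nat_lit 6) (nat_lit 0x900008002c0013001200080000000000000000000000000000000) (nat_lit 0x0) (nat_lit 0x4000700160001400000000c00000000000000000000000000000000000000) := T_8 (nat_lit 154) (nat_lit 155) (nat_lit 3) (nat_lit 1) (nat_lit 9) L54358 (by decide +kernel)
theorem L54360 : W_8 (nat_lit 7) (nat_lit 0x900008002c0012001200080000000000000000000000000000000) (nat_lit 0x0) (nat_lit 0x4000700160001400000001c00080000000000000000000000000000000000) := T_8 (nat_lit 156) (nat_lit 139) (nat_lit 4) (nat_lit 4) (nat_lit 12) L54359 (by decide +kernel)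
theorem L54361 : W_8 (nat_lit 2) (nat_lit 0x20000f00008002c0013401200080000000000000000000000000000000) (nat_lit 0x0) (nat_lit 0x4000100001000000000000000000000000000000000000000000000000) := D_8 (nat_lit 212) (nat_lit 192) (nat_lit 230) (nat_lit 0) (nat_lit 8) (nat_lit 12) (nat_lit 3) (nat_lit 5) (nat_lit 12) (by decide +kernel)
theorem L54362 : W_8 (nat_lit 3) (nat_lit 0xf00008002c0013401200080000000000000000000000000000000) (nat_lit 0x0) (nat_lit 0x7000100001000000000000000000000000000000000000000000000000) := T_8 (nat_lit 229) (nat_lit 228) (nat_lit 3) (nat_lit 4) (nat_lit 12) L54361 (by decide +kernel)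
theorem L54363 : W_8 (nat_lit 4) (nat_lit 0xf00008002c0013001200080000000000000000000000000000000) (nat_lit 0x0) (nat_lit 0x7000100001000000000c00000000000000000000000000000000000000) := T_8 (nat_lit 154) (nat_lit 155) (nat_lit 3) (nat_lit 1) (nat_lit 9) L54362 (by decide +kernel)
theorem L54364 : W_8 (nat_lit 5) (nat_lit 0xf00008002c0012001200080000000000000000000000000000000) (nat_lit 0x0) (nat_lit 0x7000100001000000001c00080000000000000000000000000000000000) := T_8 (nat_lit 156) (nat_lit 139) (nat_lit 4) (nat_lit 4) (nat_lit 12) L54363 (by decide +kernel)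
theorem L54365 : W_8 (nat_lit 6) (nat_lit 0xb00008002c0012001200080000000000000000000000000000000) (nat_lit 0x0) (nat_lit 0x7000140001400000001c00080000000000000000000000000000000000) := T_8 (nat_lit 210) (nat_lit 190) (nat_lit 0) (nat_lit 7) (nat_lit 12) L54364 (by decide +kernel)
theorem L54366 : W_8 (nat_lit 7) (nat_lit 0x900008002c0012001200080000000000000000000000000000000) (nat_lit 0x0) (nat_lit 0x7400160001400000001c00080000000000000000000000000000000000) := T_8 (nat_lit 209) (nat_lit 226) (nat_lit 7) (nat_lit 4) (nat_lit 9) L54365 (by decide +kernel)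
theorem L54367 : W_8 (nat_lit 2) (nat_lit 0x2000f00008002c0012001200080000000000000000000000000000000) (nat_lit 0x0) (nat_lit 0x4000000100001000000000000000000000000000000000000000000000000) := D_8 (nat_lit 192) (nat_lit 212) (nat_lit 242) (nat_lit 0) (nat_lit 8) (nat_lit 12) (nat_lit 6) (nat_lit 4) (nat_lit 14) (by decide +kernel)
theorem L54368 : W_8 (nat_lit 3) (nat_lit 0xf00008002c0012001200080000000000000000000000000000000) (nat_lit 0x0) (nat_lit 0x4000300100001000000000000000000000000000000000000000000000000) := T_8 (nat_lit 225) (nat_lit 224) (nat_lit 1) (nat_lit 7) (nat_lit 12) L54367 (by decide +kernel)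
theorem L54369 : W_8 (nat_lit 4) (nat_lit 0xb00008002c0012001200080000000000000000000000000000000) (nat_lit 0x0) (nat_lit 0x4000300140001400000000000000000000000000000000000000000000000) := T_8 (nat_lit 210) (nat_lit 190) (nat_lit 0) (nat_lit 7) (nat_lit 12) L54368 (by decide +kernel)
theorem L54370 : W_8 (nat_lit 5) (nat_lit 0x900008002c0012001200080000000000000000000000000000000) (nat_lit 0x0) (nat_lit 0x4000700160001400000000000000000000000000000000000000000000000) := T_8 (nat_lit 209) (nat_lit 226) (nat_lit 7) (nat_lit 4) (nat_lit 9) L54369 (by decide +kernel)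
theorem L54371 : W_8 (nat_lit 8) (nat_lit 0x800008002c0012001200080000000000000000000000000000000) (nat_lit 0x0) (nat_lit 0x4000e007700170001400020001c00080000000000000000000000000000000000) := Q_8 (nat_lit 208) (C_8 L54318 (C_8 L54354 (C_8 L54360 (C_8 L54366 (C_8 L54370 N_8))))) (by decide +kernel)
theorem L54372 : W_8 (nat_lit 6) (nat_lit 0x800008002c0012001200080000000000000000000000000000000) (nat_lit 0x0) (nat_lit 0x4000e00070017000d400020021000080000000000000000000000000000000000) := Q_8 (nat_lit 208) (C_8 L54370 (C_8 L54354 (C_8 L54318 (C_8 L53317 N_8)))) (by decide +kernel)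
theorem L54373 : W_8 (nat_lit 2) (nat_lit 0x60001c000800048002c0012001200080000000000000000000000000000000) (nat_lit 0x0) (nat_lit 0x30001000000000000000000000000000000000000000000000000) := D_8 (nat_lit 209) (nat_lit 192) (nat_lit 208) (nat_lit 4) (nat_lit 5) (nat_lit 13) (nat_lit 7) (nat_lit 4) (nat_lit 9) (by decide +kernel)
theorem L54374 : W_8 (nat_lit 3) (nat_lit 0x600018000800048002c0012001200080000000000000000000000000000000) (nat_lit 0x0) (nat_lit 0x600030001000000000000000000000000000000000000000000000000) := T_8 (nat_lit 226) (nat_lit 225) (nat_lit 3) (nat_lit 4) (nat_lit 13) L54373 (by decide +kernel)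
theorem L54375 : W_8 (nat_lit 4) (nat_lit 0x400018000800048002c0012001200080000000000000000000000000000000) (nat_lit 0x0) (nat_lit 0x800020000600030001000000000000000000000000000000000000000000000000) := T_8 (nat_lit 245) (nat_lit 263) (nat_lit 7) (nat_lit 7) (nat_lit 11) L54374 (by decide +kernel)
theorem L54376 : W_8 (nat_lit 5) (nat_lit 0x18000800048002c0012001200080000000000000000000000000000000) (nat_lit 0x0) (nat_lit 0x800060002600030001000000000000000000000000000000000000000000000000) := T_8 (nat_lit 246) (nat_lit 229) (nat_lit 7) (nat_lit 7) (nat_lit 10) L54375 (by decide +kernel)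
theorem L54377 : W_8 (nat_lit 6) (nat_lit 0x8000800048002c0012001200080000000000000000000000000000000) (nat_lit 0x0) (nat_lit 0x800070003600030001000000000000000000000000000000000000000000000000) := T_8 (nat_lit 228) (nat_lit 244) (nat_lit 5) (nat_lit 7) (nat_lit 10) L54376 (by decide +kernel)
theorem L54378 : W_8 (nat_lit 7) (nat_lit 0x800048002c0012001200080000000000000000000000000000000) (nat_lit 0x0) (nat_lit 0x800070003e00070001000000000000000000000000000000000000000000000000) := T_8 (nat_lit 227) (nat_lit 210) (nat_lit 5) (nat_lit 7) (nat_lit 9) L54377 (by decide +kernel)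
theorem L54379 : W_8 (nat_lit 8) (nat_lit 0x800008002c0012001200080000000000000000000000000000000) (nat_lit 0x0) (nat_lit 0x800070003e00070005000000020000000000000000000000000000000000000000) := T_8 (nat_lit 194) (nat_lit 161) (nat_lit 6) (nat_lit 7) (nat_lit 12) L54378 (by decide +kernel)
theorem L54380 : W_8 (nat_lit 12) (nat_lit 0x8002c0012001200080000000000000000000000000000000) (nat_lit 0x0) (nat_lit 0x94007e007f007f000f400020021c00080000000000000000000000000000000000) := Q_8 (nat_lit 211) (C_8 L54323 (C_8 L54335 (C_8 L54344 (C_8 L54296 (C_8 L54350 (C_8 L54371 (C_8 L54372 (C_8 L54379 N_8)))))))) (by decide +kernel)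
theorem L54381 : W_8 (nat_lit 13) (nat_lit 0x8002c0010001200080000000000000000000000000000000) (nat_lit 0x0) (nat_lit 0x94007e007f007f000f400020023c0018001c000200000000000000000000000000) := Q_8 (nat_lit 157) (C_8 L53319 (C_8 L53019 (C_8 L54380 (C_8 L53016 N_8)))) (by decide +kernel)
theorem L54382 : W_8 (nat_lit 2) (nat_lit 0x8002e0013001200080000000000000000000000000000000) (nat_lit 0x0) (nat_lit 0x200010000000000000000080000000000000000000000000000000000) := D_8 (nat_lit 208) (nat_lit 225) (nat_lit 139) (nat_lit 4) (nat_lit 4) (nat_lit 13) (nat_lit 4) (nat_lit 4) (nat_lit 12) (by decide +kernel)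
theorem L54383 : W_8 (nat_lit 2) (nat_lit 0xe002e0013401200080000000000000000000000000000000) (nat_lit 0x0) (nat_lit 0x4000000000000000080004000000000000000000000000000000) := D_8 (nat_lit 139) (nat_lit 122) (nat_lit 206) (nat_lit 7) (nat_lit 3) (nat_lit 7) (nat_lit 5) (nat_lit 3) (nat_lit 8) (by decide +kernel)
theorem L54384 : W_8 (nat_lit 3) (nat_lit 0xc002e0013401200080000000000000000000000000000000) (nat_lit 0x0) (nat_lit 0x4000300000000000080004000000000000000000000000000000) := T_8 (nat_lit 189) (nat_lit 188) (nat_lit 2) (nat_lit 1) (nat_lit 11) L54383 (by decide +kernel)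
theorem L54385 : W_8 (nat_lit 4) (nat_lit 0xc002e0013001200080000000000000000000000000000000) (nat_lit 0x0) (nat_lit 0x4000300000000c00080004000000000000000000000000000000) := T_8 (nat_lit 154) (nat_lit 155) (nat_lit 3) (nat_lit 1) (nat_lit 9) L54384 (by decide +kernel)
theorem L54386 : W_8 (nat_lit 2) (nat_lit 0xc002e0013001280080000000000000000000000000000000) (nat_lit 0x0) (nat_lit 0x4000300000000000000000000000000000000000000000000000) := D_8 (nat_lit 189) (nat_lit 188) (nat_lit 206) (nat_lit 2) (nat_lit 1) (nat_lit 11) (nat_lit 5) (nat_lit 3) (nat_lit 8) (by decide +kernel)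
theorem L54387 : W_8 (nat_lit 3) (nat_lit 0xc002e0013001200080000000000000000000000000000000) (nat_lit 0x0) (nat_lit 0x4000300000000000080004000000000000000000000000000000) := T_8 (nat_lit 139) (nat_lit 122) (nat_lit 7) (nat_lit 3) (nat_lit 7) L54386 (by decide +kernel)
theorem L54388 : W_8 (nat_lit 2) (nat_lit 0xc000e002e0013801200080000000000000000000000000000000) (nat_lit 0x0) (nat_lit 0x3001000000000000000000000000000000000000000000000000) := D_8 (nat_lit 205) (nat_lit 204) (nat_lit 192) (nat_lit 2) (nat_lit 0) (nat_lit 12) (nat_lit 1) (nat_lit 5) (nat_lit 11) (by decide +kernel)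
theorem L54389 : W_8 (nat_lit 3) (nat_lit 0x8000e002e0013801200080000000000000000000000000000000) (nat_lit 0x0) (nat_lit 0x80007001000000000000000000000000000000000000000000000000) := T_8 (nat_lit 206) (nat_lit 223) (nat_lit 5) (nat_lit 3) (nat_lit 9) L54388 (by decide +kernel)
theorem L54390 : W_8 (nat_lit 4) (nat_lit 0xe002e0013801200080000000000000000000000000000000) (nat_lit 0x0) (nat_lit 0x8000f001000000000000040000000000000000000000000000000000) := T_8 (nat_lit 207) (nat_lit 138) (nat_lit 4) (nat_lit 3) (nat_lit 12) L54389 (by decide +kernel)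
theorem L54391 : W_8 (nat_lit 5) (nat_lit 0xe002e0013001200080000000000000000000000000000000) (nat_lit 0x0) (nat_lit 0x8000f001000000000c00040000000000000000000000000000000000) := T_8 (nat_lit 155) (nat_lit 154) (nat_lit 3) (nat_lit 1) (nat_lit 9) L54390 (by decide +kernel)
theorem L54392 : W_8 (nat_lit 6) (nat_lit 0xc002e0013001200080000000000000000000000000000000) (nat_lit 0x0) (nat_lit 0x8000f001300000000c00040000000000000000000000000000000000) := T_8 (nat_lit 189) (nat_lit 188) (nat_lit 2) (nat_lit 1) (nat_lit 11) L54391 (by decide +kernel)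
theorem L54393 : W_8 (nat_lit 2) (nat_lit 0xc002e0013801280080000000000000000000000000000000) (nat_lit 0x0) (nat_lit 0x8000000000000000040002000000000000000000000000000000) := D_8 (nat_lit 138) (nat_lit 207) (nat_lit 121) (nat_lit 4) (nat_lit 3) (nat_lit 12) (nat_lit 4) (nat_lit 3) (nat_lit 11) (by decide +kernel)
theorem L54394 : W_8 (nat_lit 3) (nat_lit 0xc002e0013801200080000000000000000000000000000000) (nat_lit 0x0) (nat_lit 0x80000000000000000c0006000000000000000000000000000000) := T_8 (nat_lit 139) (nat_lit 122) (nat_lit 7) (nat_lit 3) (nat_lit 7) L54393 (by decide +kernel)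
theorem L54395 : W_8 (nat_lit 4) (nat_lit 0xc002e0013001200080000000000000000000000000000000) (nat_lit 0x0) (nat_lit 0x8000000000000c000c0006000000000000000000000000000000) := T_8 (nat_lit 155) (nat_lit 154) (nat_lit 3) (nat_lit 1) (nat_lit 9) L54394 (by decide +kernel)
theorem L54396 : W_8 (nat_lit 7) (nat_lit 0x8002e0013001200080000000000000000000000000000000) (nat_lit 0x0) (nat_lit 0x8000f001700000000c000c0006000000000000000000000000000000) := Q_8 (nat_lit 190) (C_8 L54385 (C_8 L54387 (C_8 L54392 (C_8 L54395 N_8)))) (by decide +kernel)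
theorem L54397 : W_8 (nat_lit 2) (nat_lit 0x30000e002e0013401200080000000000000000000000000000000) (nat_lit 0x0) (nat_lit 0xc8000000000000000000000000000000000000000000000000000) := D_8 (nat_lit 210) (nat_lit 211) (nat_lit 207) (nat_lit 0) (nat_lit 7) (nat_lit 12) (nat_lit 0) (nat_lit 6) (nat_lit 12) (by decide +kernel)
theorem L54398 : W_8 (nat_lit 3) (nat_lit 0x10000e002e0013401200080000000000000000000000000000000) (nat_lit 0x0) (nat_lit 0x4000e8000000000000000000000000000000000000000000000000000) := T_8 (nat_lit 209) (nat_lit 226) (nat_lit 7) (nat_lit 4) (nat_lit 9) L54397 (by decide +kernel)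
theorem L54399 : W_8 (nat_lit 4) (nat_lit 0xe002e0013401200080000000000000000000000000000000) (nat_lit 0x0) (nat_lit 0x6000f8000000000000000000000000000000000000000000000000000) := T_8 (nat_lit 208) (nat_lit 225) (nat_lit 4) (nat_lit 4) (nat_lit 13) L54398 (by decide +kernel)
theorem L54400 : W_8 (nat_lit 5) (nat_lit 0xc002e0013401200080000000000000000000000000000000) (nat_lit 0x0) (nat_lit 0x6000f8000300000000000000000000000000000000000000000000000) := T_8 (nat_lit 189) (nat_lit 188) (nat_lit 2) (nat_lit 1) (nat_lit 11) L54399 (by decide +kernel)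
theorem L54401 : W_8 (nat_lit 6) (nat_lit 0xc002e0013001200080000000000000000000000000000000) (nat_lit 0x0) (nat_lit 0x6000f8000300000000c00000000000000000000000000000000000000) := T_8 (nat_lit 154) (nat_lit 155) (nat_lit 3) (nat_lit 1) (nat_lit 9) L54400 (by decide +kernel)
theorem L54402 : W_8 (nat_lit 2) (nat_lit 0x30000e002e0013001200080000000000000000000000000000000) (nat_lit 0x0) (nat_lit 0x48001000000000000000000000000000000000000000000000000) := D_8 (nat_lit 210) (nat_lit 192) (nat_lit 207) (nat_lit 3) (nat_lit 2) (nat_lit 11) (nat_lit 0) (nat_lit 6) (nat_lit 12) (by decide +kernel)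
theorem L54403 : W_8 (nat_lit 3) (nat_lit 0x10000e002e0013001200080000000000000000000000000000000) (nat_lit 0x0) (nat_lit 0x400068001000000000000000000000000000000000000000000000000) := T_8 (nat_lit 209) (nat_lit 226) (nat_lit 7) (nat_lit 4) (nat_lit 9) L54402 (by decide +kernel)
theorem L54404 : W_8 (nat_lit 4) (nat_lit 0x10000c002e0013001200080000000000000000000000000000000) (nat_lit 0x0) (nat_lit 0x400068001300000000000000000000000000000000000000000000000) := T_8 (nat_lit 189) (nat_lit 188) (nat_lit 2) (nat_lit 1) (nat_lit 11) L54403 (by decide +kernel)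
theorem L54405 : W_8 (nat_lit 5) (nat_lit 0xc002e0013001200080000000000000000000000000000000) (nat_lit 0x0) (nat_lit 0x600078001300000000000000000000000000000000000000000000000) := T_8 (nat_lit 208) (nat_lit 225) (nat_lit 4) (nat_lit 4) (nat_lit 13) L54404 (by decide +kernel)
theorem L54406 : W_8 (nat_lit 4) (nat_lit 0xb0000c002e0013801200080000000000000000000000000000000) (nat_lit 0x0) (nat_lit 0x8000e003000000000000040000000000000000000000000000000000) := T_8 (nat_lit 207) (nat_lit 138) (nat_lit 4) (nat_lit 3) (nat_lit 12) L52970 (by decide +kernel)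
theorem L54407 : W_8 (nat_lit 5) (nat_lit 0x30000c002e0013801200080000000000000000000000000000000) (nat_lit 0x0) (nat_lit 0x800ce003000000000000040000000000000000000000000000000000) := T_8 (nat_lit 211) (nat_lit 210) (nat_lit 0) (nat_lit 7) (nat_lit 12) L54406 (by decide +kernel)
theorem L54408 : W_8 (nat_lit 6) (nat_lit 0x10000c002e0013801200080000000000000000000000000000000) (nat_lit 0x0) (nat_lit 0x4800ee003000000000000040000000000000000000000000000000000) := T_8 (nat_lit 209) (nat_lit 226) (nat_lit 7) (nat_lit 4) (nat_lit 9) L54407 (by decide +kernel)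
theorem L54409 : W_8 (nat_lit 7) (nat_lit 0x10000c002e0013001200080000000000000000000000000000000) (nat_lit 0x0) (nat_lit 0x4800ee003000000000c00040000000000000000000000000000000000) := T_8 (nat_lit 155) (nat_lit 154) (nat_lit 3) (nat_lit 1) (nat_lit 9) L54408 (by decide +kernel)
theorem L54410 : W_8 (nat_lit 8) (nat_lit 0xc002e0013001200080000000000000000000000000000000) (nat_lit 0x0) (nat_lit 0x6800fe003000000000c00040000000000000000000000000000000000) := T_8 (nat_lit 208) (nat_lit 225) (nat_lit 4) (nat_lit 4) (nat_lit 13) L54409 (by decide +kernel)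
theorem L54411 : W_8 (nat_lit 2) (nat_lit 0x30000e002e0013401200080000000000000000000000000000000) (nat_lit 0x0) (nat_lit 0xc0001000000000000000000000000000000000000000000000000) := D_8 (nat_lit 210) (nat_lit 192) (nat_lit 211) (nat_lit 3) (nat_lit 2) (nat_lit 11) (nat_lit 0) (nat_lit 7) (nat_lit 12) (by decide +kernel)
theorem L54412 : W_8 (nat_lit 3) (nat_lit 0x10000e002e0013401200080000000000000000000000000000000) (nat_lit 0x0) (nat_lit 0x4000e0001000000000000000000000000000000000000000000000000) := T_8 (nat_lit 209) (nat_lit 226) (nat_lit 7) (nat_lit 4) (nat_lit 9) L54411 (by decide +kernel)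
theorem L54413 : W_8 (nat_lit 4) (nat_lit 0xe002e0013401200080000000000000000000000000000000) (nat_lit 0x0) (nat_lit 0x6000f0001000000000000000000000000000000000000000000000000) := T_8 (nat_lit 208) (nat_lit 225) (nat_lit 4) (nat_lit 4) (nat_lit 13) L54412 (by decide +kernel)
theorem L54414 : W_8 (nat_lit 5) (nat_lit 0xc002e0013401200080000000000000000000000000000000) (nat_lit 0x0) (nat_lit 0x6000f0001300000000000000000000000000000000000000000000000) := T_8 (nat_lit 189) (nat_lit 188) (nat_lit 2) (nat_lit 1) (nat_lit 11) L54413 (by decide +kernel)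
theorem L54415 : W_8 (nat_lit 6) (nat_lit 0xc002e0013001200080000000000000000000000000000000) (nat_lit 0x0) (nat_lit 0x6000f0001300000000c00000000000000000000000000000000000000) := T_8 (nat_lit 154) (nat_lit 155) (nat_lit 3) (nat_lit 1) (nat_lit 9) L54414 (by decide +kernel)
theorem L54416 : W_8 (nat_lit 9) (nat_lit 0x8002e0013001200080000000000000000000000000000000) (nat_lit 0x0) (nat_lit 0x6800ff003700000000c00040000000000000000000000000000000000) := Q_8 (nat_lit 190) (C_8 L54392 (C_8 L54401 (C_8 L54405 (C_8 L54410 (C_8 L54415 N_8))))) (by decide +kernel)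
theorem L54417 : W_8 (nat_lit 10) (nat_lit 0x8002e0012001200080000000000000000000000000000000) (nat_lit 0x0) (nat_lit 0x6800ff003700000001c000c0006000000000000000000000000000000) := Q_8 (nat_lit 156) (C_8 L54382 (C_8 L54396 (C_8 L54416 N_8))) (by decide +kernel)
theorem L54418 : W_8 (nat_lit 2) (nat_lit 0x8002f0012001200080000000000000000000000000000000) (nat_lit 0x0) (nat_lit 0x3000008000000000000000000000000000000000000000000) := D_8 (nat_lit 192) (nat_lit 171) (nat_lit 193) (nat_lit 3) (nat_lit 1) (nat_lit 10) (nat_lit 3) (nat_lit 2) (nat_lit 10) (by decide +kernel)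
theorem L54419 : W_8 (nat_lit 2) (nat_lit 0xa002f8012001200080000000000000000000000000000000) (nat_lit 0x0) (nat_lit 0x400004001000000000000000000000000000000000000000) := D_8 (nat_lit 170) (nat_lit 190) (nat_lit 156) (nat_lit 3) (nat_lit 0) (nat_lit 10) (nat_lit 2) (nat_lit 0) (nat_lit 10) (by decide +kernel)
theorem L54420 : W_8 (nat_lit 3) (nat_lit 0xa002f0012001200080000000000000000000000000000000) (nat_lit 0x0) (nat_lit 0x140000c001000000000000000000000000000000000000000) := T_8 (nat_lit 171) (nat_lit 192) (nat_lit 3) (nat_lit 1) (nat_lit 10) L54419 (by decide +kernel)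
theorem L54421 : W_8 (nat_lit 4) (nat_lit 0x8002f0012001200080000000000000000000000000000000) (nat_lit 0x0) (nat_lit 0x170000c001000000000000000000000000000000000000000) := T_8 (nat_lit 189) (nat_lit 188) (nat_lit 1) (nat_lit 5) (nat_lit 10) L54420 (by decide +kernel)
theorem L54422 : W_8 (nat_lit 2) (nat_lit 0xa002f8012401200080000000000000000000000000000000) (nat_lit 0x0) (nat_lit 0x400004001000000000000000000000000000000000000000) := D_8 (nat_lit 170) (nat_lit 190) (nat_lit 156) (nat_lit 3) (nat_lit 0) (nat_lit 10) (nat_lit 2) (nat_lit 0) (nat_lit 10) (by decide +kernel)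
theorem L54423 : W_8 (nat_lit 3) (nat_lit 0xa002f0012401200080000000000000000000000000000000) (nat_lit 0x0) (nat_lit 0x40000c001200000000000000000000000000000000000000) := T_8 (nat_lit 171) (nat_lit 153) (nat_lit 0) (nat_lit 4) (nat_lit 10) L54422 (by decide +kernel)
theorem L54424 : W_8 (nat_lit 4) (nat_lit 0xa002f0012001200080000000000000000000000000000000) (nat_lit 0x0) (nat_lit 0x40000c001e00000000000000000000000000000000000000) := T_8 (nat_lit 154) (nat_lit 155) (nat_lit 0) (nat_lit 5) (nat_lit 10) L54423 (by decide +kernel)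
theorem L54425 : W_8 (nat_lit 5) (nat_lit 0x8002f0012001200080000000000000000000000000000000) (nat_lit 0x0) (nat_lit 0x70000c001e00000000000000000000000000000000000000) := T_8 (nat_lit 189) (nat_lit 188) (nat_lit 1) (nat_lit 5) (nat_lit 10) L54424 (by decide +kernel)
theorem L54426 : W_8 (nat_lit 2) (nat_lit 0x24001e002f0012801200080000000000000000000000000000000) (nat_lit 0x0) (nat_lit 0x80000000000000001000080000000000000000000000000000000000) := D_8 (nat_lit 156) (nat_lit 139) (nat_lit 223) (nat_lit 6) (nat_lit 2) (nat_lit 12) (nat_lit 6) (nat_lit 2) (nat_lit 13) (by decide +kernel)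
theorem L54427 : W_8 (nat_lit 3) (nat_lit 0x20001e002f0012801200080000000000000000000000000000000) (nat_lit 0x0) (nat_lit 0x80006000000000001000080000000000000000000000000000000000) := T_8 (nat_lit 206) (nat_lit 205) (nat_lit 1) (nat_lit 5) (nat_lit 11) L54426 (by decide +kernel)
theorem L54428 : W_8 (nat_lit 4) (nat_lit 0x20001a002f0012801200080000000000000000000000000000000) (nat_lit 0x0) (nat_lit 0x80046000400000001000080000000000000000000000000000000000) := T_8 (nat_lit 190) (nat_lit 210) (nat_lit 3) (nat_lit 2) (nat_lit 11) L54427 (by decide +kernel)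
theorem L54429 : W_8 (nat_lit 5) (nat_lit 0x200018002f0012801200080000000000000000000000000000000) (nat_lit 0x0) (nat_lit 0x80046000700000001000080000000000000000000000000000000000) := T_8 (nat_lit 189) (nat_lit 188) (nat_lit 1) (nat_lit 5) (nat_lit 10) L54428 (by decide +kernel)
theorem L54430 : W_8 (nat_lit 6) (nat_lit 0x18002f0012801200080000000000000000000000000000000) (nat_lit 0x0) (nat_lit 0x480066000700000001000080000000000000000000000000000000000) := T_8 (nat_lit 209) (nat_lit 226) (nat_lit 4) (nat_lit 5) (nat_lit 13) L54429 (by decide +kernel)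
theorem L54431 : W_8 (nat_lit 7) (nat_lit 0x8002f0012801200080000000000000000000000000000000) (nat_lit 0x0) (nat_lit 0x480066003700000001000080000000000000000000000000000000000) := T_8 (nat_lit 192) (nat_lit 193) (nat_lit 3) (nat_lit 2) (nat_lit 10) L54430 (by decide +kernel)
theorem L54432 : W_8 (nat_lit 8) (nat_lit 0x8002f0012001200080000000000000000000000000000000) (nat_lit 0x0) (nat_lit 0x480066003700000001c00080000000000000000000000000000000000) := T_8 (nat_lit 155) (nat_lit 154) (nat_lit 0) (nat_lit 5) (nat_lit 10) L54431 (by decide +kernel)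
theorem L54433 : W_8 (nat_lit 9) (nat_lit 0x8002e0012001200080000000000000000000000000000000) (nat_lit 0x0) (nat_lit 0x48006600370001c001e00080000000000000000000000000000000000) := Q_8 (nat_lit 172) (C_8 L54418 (C_8 L54421 (C_8 L54425 (C_8 L54432 N_8)))) (by decide +kernel)
theorem L54434 : W_8 (nat_lit 2) (nat_lit 0x8002f0013001200080000000000000000000000000000000) (nat_lit 0x0) (nat_lit 0x100000c000000000000000000000000000000000000000000) := D_8 (nat_lit 171) (nat_lit 192) (nat_lit 170) (nat_lit 3) (nat_lit 1) (nat_lit 10) (nat_lit 2) (nat_lit 0) (nat_lit 10) (by decide +kernel)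
theorem L54435 : W_8 (nat_lit 2) (nat_lit 0x8002f0013401200080000000000000000000000000000000) (nat_lit 0x0) (nat_lit 0xc000200000000000000000000000000000000000000) := D_8 (nat_lit 171) (nat_lit 170) (nat_lit 153) (nat_lit 2) (nat_lit 0) (nat_lit 10) (nat_lit 0) (nat_lit 4) (nat_lit 10) (by decide +kernel)
theorem L54436 : W_8 (nat_lit 3) (nat_lit 0x8002f0013001200080000000000000000000000000000000) (nat_lit 0x0) (nat_lit 0xc000e00000000000000000000000000000000000000) := T_8 (nat_lit 154) (nat_lit 155) (nat_lit 3) (nat_lit 1) (nat_lit 9) L54435 (by decide +kernel)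
theorem L54437 : W_8 (nat_lit 4) (nat_lit 0x400000001a002f0013401200080000000000000000000000000000000) (nat_lit 0x0) (nat_lit 0x28001e000400000000000000000000000000000000000000000000000) := T_8 (nat_lit 208) (nat_lit 225) (nat_lit 4) (nat_lit 4) (nat_lit 13) L53026 (by decide +kernel)
theorem L54438 : W_8 (nat_lit 5) (nat_lit 0x4000000018002f0013401200080000000000000000000000000000000) (nat_lit 0x0) (nat_lit 0x28001e000700000000000000000000000000000000000000000000000) := T_8 (nat_lit 189) (nat_lit 188) (nat_lit 1) (nat_lit 5) (nat_lit 10) L54437 (by decide +kernel)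
theorem L54439 : W_8 (nat_lit 6) (nat_lit 0x4000000018002f0013001200080000000000000000000000000000000) (nat_lit 0x0) (nat_lit 0x28001e000700000000c00000000000000000000000000000000000000) := T_8 (nat_lit 154) (nat_lit 155) (nat_lit 3) (nat_lit 1) (nat_lit 9) L54438 (by decide +kernel)
theorem L54440 : W_8 (nat_lit 7) (nat_lit 0x18002f0013001200080000000000000000000000000000000) (nat_lit 0x0) (nat_lit 0x68003e000700000000c00000000000000000000000000000000000000) := T_8 (nat_lit 226) (nat_lit 209) (nat_lit 4) (nat_lit 5) (nat_lit 13) L54439 (by decide +kernel)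
theorem L54441 : W_8 (nat_lit 8) (nat_lit 0x8002f0013001200080000000000000000000000000000000) (nat_lit 0x0) (nat_lit 0x68003e003700000000c00000000000000000000000000000000000000) := T_8 (nat_lit 192) (nat_lit 193) (nat_lit 3) (nat_lit 2) (nat_lit 10) L54440 (by decide +kernel)
theorem L54442 : W_8 (nat_lit 9) (nat_lit 0x8002e0013001200080000000000000000000000000000000) (nat_lit 0x0) (nat_lit 0x68003e00370001c000e00000000000000000000000000000000000000) := Q_8 (nat_lit 172) (C_8 L54434 (C_8 L54436 (C_8 L54441 N_8))) (by decide +kernel)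
theorem L54443 : W_8 (nat_lit 10) (nat_lit 0x8002e0012001200080000000000000000000000000000000) (nat_lit 0x0) (nat_lit 0x68003f00370001c001e000c0006000000000000000000000000000000) := Q_8 (nat_lit 156) (C_8 L54396 (C_8 L54382 (C_8 L54442 N_8))) (by decide +kernel)
theorem L54444 : W_8 (nat_lit 4) (nat_lit 0x1a002f0013401200080000000000000000000000000000000) (nat_lit 0x0) (nat_lit 0x28001e000400000000000000000000000000000000000000000000000) := T_8 (nat_lit 208) (nat_lit 225) (nat_lit 4) (nat_lit 4) (nat_lit 13) L53124 (by decide +kernel)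
theorem L54445 : W_8 (nat_lit 5) (nat_lit 0x18002f0013401200080000000000000000000000000000000) (nat_lit 0x0) (nat_lit 0x28001e000700000000000000000000000000000000000000000000000) := T_8 (nat_lit 189) (nat_lit 188) (nat_lit 1) (nat_lit 5) (nat_lit 10) L54444 (by decide +kernel)
theorem L54446 : W_8 (nat_lit 6) (nat_lit 0x18002f0013001200080000000000000000000000000000000) (nat_lit 0x0) (nat_lit 0x28001e000700000000c00000000000000000000000000000000000000) := T_8 (nat_lit 154) (nat_lit 155) (nat_lit 3) (nat_lit 1) (nat_lit 9) L54445 (by decide +kernel)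
theorem L54447 : W_8 (nat_lit 7) (nat_lit 0x8002f0013001200080000000000000000000000000000000) (nat_lit 0x0) (nat_lit 0x28001e003700000000c00000000000000000000000000000000000000) := T_8 (nat_lit 192) (nat_lit 193) (nat_lit 3) (nat_lit 2) (nat_lit 10) L54446 (by decide +kernel)
theorem L54448 : W_8 (nat_lit 8) (nat_lit 0x8002e0013001200080000000000000000000000000000000) (nat_lit 0x0) (nat_lit 0x28001e00370001c000e00000000000000000000000000000000000000) := Q_8 (nat_lit 172) (C_8 L54436 (C_8 L54434 (C_8 L54447 N_8))) (by decide +kernel)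
theorem L54449 : W_8 (nat_lit 9) (nat_lit 0x8002e0012001200080000000000000000000000000000000) (nat_lit 0x0) (nat_lit 0x28001f00370001c001e000c0006000000000000000000000000000000) := Q_8 (nat_lit 156) (C_8 L54396 (C_8 L54382 (C_8 L54448 N_8))) (by decide +kernel)
theorem L54450 : W_8 (nat_lit 2) (nat_lit 0x200006000e002f0013801200080000000000000000000000000000000) (nat_lit 0x0) (nat_lit 0x9000000000000000040000000000000000000000000000000000) := D_8 (nat_lit 207) (nat_lit 204) (nat_lit 138) (nat_lit 2) (nat_lit 0) (nat_lit 12) (nat_lit 7) (nat_lit 2) (nat_lit 8) (by decide +kernel)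
theorem L54451 : W_8 (nat_lit 3) (nat_lit 0x200006000a002f0013801200080000000000000000000000000000000) (nat_lit 0x0) (nat_lit 0x9001400000000000040000000000000000000000000000000000) := T_8 (nat_lit 190) (nat_lit 192) (nat_lit 1) (nat_lit 5) (nat_lit 11) L54450 (by decide +kernel)
theorem L54452 : W_8 (nat_lit 4) (nat_lit 0x200004000a002f0013801200080000000000000000000000000000000) (nat_lit 0x0) (nat_lit 0x4000b001400000000000040000000000000000000000000000000000) := T_8 (nat_lit 205) (nat_lit 222) (nat_lit 5) (nat_lit 2) (nat_lit 9) L54451 (by decide +kernel)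
theorem L54453 : W_8 (nat_lit 5) (nat_lit 0x200000000a002f0013801200080000000000000000000000000000000) (nat_lit 0x0) (nat_lit 0xc000f001400000000000040000000000000000000000000000000000) := T_8 (nat_lit 206) (nat_lit 223) (nat_lit 6) (nat_lit 2) (nat_lit 13) L54452 (by decide +kernel)
theorem L54454 : W_8 (nat_lit 6) (nat_lit 0xa002f0013801200080000000000000000000000000000000) (nat_lit 0x0) (nat_lit 0x2c001f001400000000000040000000000000000000000000000000000) := T_8 (nat_lit 225) (nat_lit 208) (nat_lit 4) (nat_lit 4) (nat_lit 13) L54453 (by decide +kernel)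
theorem L54455 : W_8 (nat_lit 7) (nat_lit 0x8002f0013801200080000000000000000000000000000000) (nat_lit 0x0) (nat_lit 0x2c001f001700000000000040000000000000000000000000000000000) := T_8 (nat_lit 189) (nat_lit 188) (nat_lit 1) (nat_lit 5) (nat_lit 10) L54454 (by decide +kernel)
theorem L54456 : W_8 (nat_lit 8) (nat_lit 0x8002f0013001200080000000000000000000000000000000) (nat_lit 0x0) (nat_lit 0x2c001f001700000000c00040000000000000000000000000000000000) := T_8 (nat_lit 155) (nat_lit 154) (nat_lit 3) (nat_lit 1) (nat_lit 9) L54455 (by decide +kernel)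
theorem L54457 : W_8 (nat_lit 9) (nat_lit 0x8002e0013001200080000000000000000000000000000000) (nat_lit 0x0) (nat_lit 0x2c001f00170001c000e00040000000000000000000000000000000000) := Q_8 (nat_lit 172) (C_8 L54436 (C_8 L54434 (C_8 L54456 N_8))) (by decide +kernel)
theorem L54458 : W_8 (nat_lit 10) (nat_lit 0x8002e0012001200080000000000000000000000000000000) (nat_lit 0x0) (nat_lit 0x2c001f00170001c001e000c0006000000000000000000000000000000) := Q_8 (nat_lit 156) (C_8 L54396 (C_8 L54382 (C_8 L54457 N_8))) (by decide +kernel)
theorem L54459 : W_8 (nat_lit 2) (nat_lit 0x2000100008002e0012001200080000000000000000000000000000000) (nat_lit 0x0) (nat_lit 0x8000400020000000000000000000000000000000000000000000000000000) := D_8 (nat_lit 226) (nat_lit 209) (nat_lit 243) (nat_lit 7) (nat_lit 4) (nat_lit 9) (nat_lit 7) (nat_lit 4) (nat_lit 10) (by decide +kernel)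
theorem L54460 : W_8 (nat_lit 3) (nat_lit 0x100008002e0012001200080000000000000000000000000000000) (nat_lit 0x0) (nat_lit 0x8000600020000000000001000000000000000000000000000000000000000) := T_8 (nat_lit 225) (nat_lit 156) (nat_lit 4) (nat_lit 4) (nat_lit 13) L54459 (by decide +kernel)
theorem L54461 : W_8 (nat_lit 2) (nat_lit 0x100008002e0012001200080000000000000000000000000000000) (nat_lit 0x0) (nat_lit 0x200000000000000001000080000000000000000000000000000000000) := D_8 (nat_lit 156) (nat_lit 225) (nat_lit 139) (nat_lit 4) (nat_lit 4) (nat_lit 13) (nat_lit 4) (nat_lit 4) (nat_lit 12) (by decide +kernel)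
theorem L54462 : W_8 (nat_lit 2) (nat_lit 0x300009002f0013001200080000000000000000000000000000000) (nat_lit 0x0) (nat_lit 0x8000c000000000000000000000000000000000000000000) := D_8 (nat_lit 171) (nat_lit 170) (nat_lit 187) (nat_lit 2) (nat_lit 0) (nat_lit 10) (nat_lit 1) (nat_lit 4) (nat_lit 10) (by decide +kernel)
theorem L54463 : W_8 (nat_lit 3) (nat_lit 0x300009002f0012001200080000000000000000000000000000000) (nat_lit 0x0) (nat_lit 0x8000c001000080000000000000000000000000000000000) := T_8 (nat_lit 156) (nat_lit 139) (nat_lit 4) (nat_lit 4) (nat_lit 12) L54462 (by decide +kernel)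
theorem L54464 : W_8 (nat_lit 4) (nat_lit 0x300008002f0012001200080000000000000000000000000000000) (nat_lit 0x0) (nat_lit 0x38000c001000080000000000000000000000000000000000) := T_8 (nat_lit 188) (nat_lit 189) (nat_lit 1) (nat_lit 5) (nat_lit 10) L54463 (by decide +kernel)
theorem L54465 : W_8 (nat_lit 5) (nat_lit 0x100008002f0012001200080000000000000000000000000000000) (nat_lit 0x0) (nat_lit 0x40002000038000c001000080000000000000000000000000000000000) := T_8 (nat_lit 209) (nat_lit 226) (nat_lit 7) (nat_lit 4) (nat_lit 9) L54464 (by decide +kernel)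
theorem L54466 : W_8 (nat_lit 2) (nat_lit 0x300009002f8012801200080000000000000000000000000000000) (nat_lit 0x0) (nat_lit 0x400004001000000000000000000000000000000000000000) := D_8 (nat_lit 170) (nat_lit 190) (nat_lit 156) (nat_lit 3) (nat_lit 0) (nat_lit 10) (nat_lit 2) (nat_lit 0) (nat_lit 10) (by decide +kernel)
theorem L54467 : W_8 (nat_lit 3) (nat_lit 0x300009002f0012801200080000000000000000000000000000000) (nat_lit 0x0) (nat_lit 0x48000c001000000000000000000000000000000000000000) := T_8 (nat_lit 171) (nat_lit 187) (nat_lit 1) (nat_lit 4) (nat_lit 10) L54466 (by decide +kernel)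
theorem L54468 : W_8 (nat_lit 4) (nat_lit 0x300008002f0012801200080000000000000000000000000000000) (nat_lit 0x0) (nat_lit 0x78000c001000000000000000000000000000000000000000) := T_8 (nat_lit 188) (nat_lit 189) (nat_lit 1) (nat_lit 5) (nat_lit 10) L54467 (by decide +kernel)
theorem L54469 : W_8 (nat_lit 5) (nat_lit 0x100008002f0012801200080000000000000000000000000000000) (nat_lit 0x0) (nat_lit 0x40002000078000c001000000000000000000000000000000000000000) := T_8 (nat_lit 209) (nat_lit 226) (nat_lit 7) (nat_lit 4) (nat_lit 9) L54468 (by decide +kernel)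
theorem L54470 : W_8 (nat_lit 6) (nat_lit 0x100008002f0012001200080000000000000000000000000000000) (nat_lit 0x0) (nat_lit 0x40002000078000c001c00000000000000000000000000000000000000) := T_8 (nat_lit 155) (nat_lit 154) (nat_lit 0) (nat_lit 5) (nat_lit 10) L54469 (by decide +kernel)
theorem L54471 : W_8 (nat_lit 2) (nat_lit 0x30000e002f8012401200080000000000000000000000000000000) (nat_lit 0x0) (nat_lit 0xc8000000000000000000000000000000000000000000000000000) := D_8 (nat_lit 210) (nat_lit 211) (nat_lit 207) (nat_lit 0) (nat_lit 7) (nat_lit 12) (nat_lit 0) (nat_lit 6) (nat_lit 12) (by decide +kernel)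
theorem L54472 : W_8 (nat_lit 3) (nat_lit 0x30000a002f8012401200080000000000000000000000000000000) (nat_lit 0x0) (nat_lit 0xc8000400004000000000000000000000000000000000000000000) := T_8 (nat_lit 190) (nat_lit 170) (nat_lit 3) (nat_lit 0) (nat_lit 10) L54471 (by decide +kernel)
theorem L54473 : W_8 (nat_lit 4) (nat_lit 0x30000a002f0012401200080000000000000000000000000000000) (nat_lit 0x0) (nat_lit 0xc800040000c000200000000000000000000000000000000000000) := T_8 (nat_lit 171) (nat_lit 153) (nat_lit 0) (nat_lit 4) (nat_lit 10) L54472 (by decide +kernel)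
theorem L54474 : W_8 (nat_lit 5) (nat_lit 0x10000a002f0012401200080000000000000000000000000000000) (nat_lit 0x0) (nat_lit 0x4000e800040000c000200000000000000000000000000000000000000) := T_8 (nat_lit 209) (nat_lit 226) (nat_lit 7) (nat_lit 4) (nat_lit 9) L54473 (by decide +kernel)
theorem L54475 : W_8 (nat_lit 6) (nat_lit 0x10000a002f0012001200080000000000000000000000000000000) (nat_lit 0x0) (nat_lit 0x4000e800040000c000e00000000000000000000000000000000000000) := T_8 (nat_lit 154) (nat_lit 155) (nat_lit 0) (nat_lit 5) (nat_lit 10) L54474 (by decide +kernel)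
theorem L54476 : W_8 (nat_lit 7) (nat_lit 0x100008002f0012001200080000000000000000000000000000000) (nat_lit 0x0) (nat_lit 0x4000e800070000c000e00000000000000000000000000000000000000) := T_8 (nat_lit 189) (nat_lit 188) (nat_lit 1) (nat_lit 5) (nat_lit 10) L54475 (by decide +kernel)
theorem L54477 : W_8 (nat_lit 9) (nat_lit 0x100008002e0012001200080000000000000000000000000000000) (nat_lit 0x0) (nat_lit 0x4000e800078001c001e000e0007000080000000000000000000000000) := Q_8 (nat_lit 172) (C_8 L53122 (C_8 L54465 (C_8 L54470 (C_8 L54476 (C_8 L53045 N_8))))) (by decide +kernel)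
theorem L54478 : W_8 (nat_lit 2) (nat_lit 0x100009002f0012401200080000000000000000000000000000000) (nat_lit 0x0) (nat_lit 0x80008000200000000000000000000000000000000000000) := D_8 (nat_lit 171) (nat_lit 153) (nat_lit 187) (nat_lit 0) (nat_lit 4) (nat_lit 10) (nat_lit 1) (nat_lit 4) (nat_lit 10) (by decide +kernel)
theorem L54479 : W_8 (nat_lit 3) (nat_lit 0x100008002f0012401200080000000000000000000000000000000) (nat_lit 0x0) (nat_lit 0x380008000200000000000000000000000000000000000000) := T_8 (nat_lit 188) (nat_lit 189) (nat_lit 1) (nat_lit 5) (nat_lit 10) L54478 (by decide +kernel)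
theorem L54480 : W_8 (nat_lit 4) (nat_lit 0x100008002f0012001200080000000000000000000000000000000) (nat_lit 0x0) (nat_lit 0x380008000e00000000000000000000000000000000000000) := T_8 (nat_lit 154) (nat_lit 155) (nat_lit 0) (nat_lit 5) (nat_lit 10) L54479 (by decide +kernel)
theorem L54481 : W_8 (nat_lit 2) (nat_lit 0x6000100009002f8012001200080000000000000000000000000000000) (nat_lit 0x0) (nat_lit 0x4000000000000400004000000000000000000000000000000000000000000) := D_8 (nat_lit 190) (nat_lit 242) (nat_lit 170) (nat_lit 4) (nat_lit 4) (nat_lit 14) (nat_lit 3) (nat_lit 0) (nat_lit 10) (by decide +kernel)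
theorem L54482 : W_8 (nat_lit 3) (nat_lit 0x4000100009002f8012001200080000000000000000000000000000000) (nat_lit 0x0) (nat_lit 0xc000200000000400004000000000000000000000000000000000000000000) := T_8 (nat_lit 225) (nat_lit 243) (nat_lit 7) (nat_lit 4) (nat_lit 10) L54481 (by decide +kernel)
theorem L54483 : W_8 (nat_lit 4) (nat_lit 0x4000100009002f0012001200080000000000000000000000000000000) (nat_lit 0x0) (nat_lit 0xc00020000000048000c000000000000000000000000000000000000000000) := T_8 (nat_lit 171) (nat_lit 187) (nat_lit 1) (nat_lit 4) (nat_lit 10) L54482 (by decide +kernel)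
theorem L54484 : W_8 (nat_lit 5) (nat_lit 0x100009002f0012001200080000000000000000000000000000000) (nat_lit 0x0) (nat_lit 0xc00060002000048000c000000000000000000000000000000000000000000) := T_8 (nat_lit 226) (nat_lit 209) (nat_lit 7) (nat_lit 4) (nat_lit 9) L54483 (by decide +kernel)
theorem L54485 : W_8 (nat_lit 6) (nat_lit 0x100008002f0012001200080000000000000000000000000000000) (nat_lit 0x0) (nat_lit 0xc00060002000078000c000000000000000000000000000000000000000000) := T_8 (nat_lit 188) (nat_lit 189) (nat_lit 1) (nat_lit 5) (nat_lit 10) L54484 (by decide +kernel)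
theorem L54486 : W_8 (nat_lit 2) (nat_lit 0x400010000d002f8012401200080000000000000000000000000000000) (nat_lit 0x0) (nat_lit 0xc000200000000000000000000000000000000000000000000000000000000) := D_8 (nat_lit 225) (nat_lit 243) (nat_lit 242) (nat_lit 7) (nat_lit 4) (nat_lit 10) (nat_lit 4) (nat_lit 4) (nat_lit 14) (by decide +kernel)
theorem L54487 : W_8 (nat_lit 3) (nat_lit 0x4000100009002f8012401200080000000000000000000000000000000) (nat_lit 0x0) (nat_lit 0xc000200000000400004000000000000000000000000000000000000000000) := T_8 (nat_lit 190) (nat_lit 170) (nat_lit 3) (nat_lit 0) (nat_lit 10) L54486 (by decide +kernel)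
theorem L54488 : W_8 (nat_lit 4) (nat_lit 0x4000100008002f8012401200080000000000000000000000000000000) (nat_lit 0x0) (nat_lit 0xc000200000000580004000000000000000000000000000000000000000000) := T_8 (nat_lit 188) (nat_lit 187) (nat_lit 1) (nat_lit 4) (nat_lit 10) L54487 (by decide +kernel)
theorem L54489 : W_8 (nat_lit 5) (nat_lit 0x4000100008002f0012401200080000000000000000000000000000000) (nat_lit 0x0) (nat_lit 0xc00020000000058000c000200000000000000000000000000000000000000) := T_8 (nat_lit 171) (nat_lit 153) (nat_lit 0) (nat_lit 4) (nat_lit 10) L54488 (by decide +kernel)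
theorem L54490 : W_8 (nat_lit 6) (nat_lit 0x100008002f0012401200080000000000000000000000000000000) (nat_lit 0x0) (nat_lit 0xc00060002000058000c000200000000000000000000000000000000000000) := T_8 (nat_lit 226) (nat_lit 209) (nat_lit 7) (nat_lit 4) (nat_lit 9) L54489 (by decide +kernel)
theorem L54491 : W_8 (nat_lit 7) (nat_lit 0x100008002f0012001200080000000000000000000000000000000) (nat_lit 0x0) (nat_lit 0xc00060002000058000c000e00000000000000000000000000000000000000) := T_8 (nat_lit 154) (nat_lit 155) (nat_lit 0) (nat_lit 5) (nat_lit 10) L54490 (by decide +kernel)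
theorem L54492 : W_8 (nat_lit 2) (nat_lit 0x600010000e002f0012801200080000000000000000000000000000000) (nat_lit 0x0) (nat_lit 0x8000000000000000040002000000000000000000000000000000) := D_8 (nat_lit 138) (nat_lit 207) (nat_lit 121) (nat_lit 7) (nat_lit 2) (nat_lit 8) (nat_lit 7) (nat_lit 2) (nat_lit 7) (by decide +kernel)
theorem L54493 : W_8 (nat_lit 3) (nat_lit 0x600010000e002f0012001200080000000000000000000000000000000) (nat_lit 0x0) (nat_lit 0x8000000000000c00040002000000000000000000000000000000) := T_8 (nat_lit 155) (nat_lit 154) (nat_lit 0) (nat_lit 5) (nat_lit 10) L54492 (by decide +kernel)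
theorem L54494 : W_8 (nat_lit 4) (nat_lit 0x600010000a002f0012001200080000000000000000000000000000000) (nat_lit 0x0) (nat_lit 0x4000000008000400000000c00040002000000000000000000000000000000) := T_8 (nat_lit 190) (nat_lit 242) (nat_lit 4) (nat_lit 4) (nat_lit 14) L54493 (by decide +kernel)
theorem L54495 : W_8 (nat_lit 5) (nat_lit 0x400010000a002f0012001200080000000000000000000000000000000) (nat_lit 0x0) (nat_lit 0xc000200008000400000000c00040002000000000000000000000000000000) := T_8 (nat_lit 225) (nat_lit 243) (nat_lit 7) (nat_lit 4) (nat_lit 10) L54494 (by decide +kernel)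
theorem L54496 : W_8 (nat_lit 6) (nat_lit 0x4000100008002f0012001200080000000000000000000000000000000) (nat_lit 0x0) (nat_lit 0xc000200008000700000000c00040002000000000000000000000000000000) := T_8 (nat_lit 189) (nat_lit 188) (nat_lit 1) (nat_lit 5) (nat_lit 10) L54495 (by decide +kernel)
theorem L54497 : W_8 (nat_lit 7) (nat_lit 0x100008002f0012001200080000000000000000000000000000000) (nat_lit 0x0) (nat_lit 0xc000600028000700000000c00040002000000000000000000000000000000) := T_8 (nat_lit 226) (nat_lit 209) (nat_lit 7) (nat_lit 4) (nat_lit 9) L54496 (by decide +kernel)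
theorem L54498 : W_8 (nat_lit 2) (nat_lit 0x6000100008002f8012401200080000000000000000000000000000000) (nat_lit 0x0) (nat_lit 0x4000000000000400004000000000000000000000000000000000000000000) := D_8 (nat_lit 190) (nat_lit 242) (nat_lit 170) (nat_lit 4) (nat_lit 4) (nat_lit 14) (nat_lit 3) (nat_lit 0) (nat_lit 10) (by decide +kernel)
theorem L54499 : W_8 (nat_lit 3) (nat_lit 0x4000100008002f8012401200080000000000000000000000000000000) (nat_lit 0x0) (nat_lit 0xc000200000000400004000000000000000000000000000000000000000000) := T_8 (nat_lit 225) (nat_lit 243) (nat_lit 7) (nat_lit 4) (nat_lit 10) L54498 (by decide +kernel)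
theorem L54500 : W_8 (nat_lit 4) (nat_lit 0x4000100008002f0012401200080000000000000000000000000000000) (nat_lit 0x0) (nat_lit 0xc00020000000040000c000200000000000000000000000000000000000000) := T_8 (nat_lit 171) (nat_lit 153) (nat_lit 0) (nat_lit 4) (nat_lit 10) L54499 (by decide +kernel)
theorem L54501 : W_8 (nat_lit 5) (nat_lit 0x100008002f0012401200080000000000000000000000000000000) (nat_lit 0x0) (nat_lit 0xc00060002000040000c000200000000000000000000000000000000000000) := T_8 (nat_lit 226) (nat_lit 209) (nat_lit 7) (nat_lit 4) (nat_lit 9) L54500 (by decide +kernel)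
theorem L54502 : W_8 (nat_lit 6) (nat_lit 0x100008002f0012001200080000000000000000000000000000000) (nat_lit 0x0) (nat_lit 0xc00060002000040000c000e00000000000000000000000000000000000000) := T_8 (nat_lit 154) (nat_lit 155) (nat_lit 0) (nat_lit 5) (nat_lit 10) L54501 (by decide +kernel)
theorem L54503 : W_8 (nat_lit 8) (nat_lit 0x100008002e0012001200080000000000000000000000000000000) (nat_lit 0x0) (nat_lit 0xc00060002800078001c000e00040002000000000000000000000000000000) := Q_8 (nat_lit 172) (C_8 L54480 (C_8 L54485 (C_8 L54491 (C_8 L54497 (C_8 L54502 N_8))))) (by decide +kernel)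
theorem L54504 : W_8 (nat_lit 10) (nat_lit 0x8002e0012001200080000000000000000000000000000000) (nat_lit 0x0) (nat_lit 0xc0006000f800078001c001e000e0007000080000000000000000000000000) := Q_8 (nat_lit 208) (C_8 L54460 (C_8 L54461 (C_8 L54477 (C_8 L54503 N_8)))) (by decide +kernel)
theorem L54505 : W_8 (nat_lit 2) (nat_lit 0x18002e0012001200080000000000000000000000000000000) (nat_lit 0x0) (nat_lit 0x6000010000000000000000000000000000000000000000000) := D_8 (nat_lit 193) (nat_lit 194) (nat_lit 172) (nat_lit 0) (nat_lit 7) (nat_lit 11) (nat_lit 3) (nat_lit 2) (nat_lit 10) (by decide +kernel)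
theorem L54506 : W_8 (nat_lit 2) (nat_lit 0xc001800058002e0012001200080000000000000000000000000000000) (nat_lit 0x0) (nat_lit 0x10001200000000000000000000000000000000000000000000000000000000) := D_8 (nat_lit 228) (nat_lit 244) (nat_lit 225) (nat_lit 5) (nat_lit 7) (nat_lit 10) (nat_lit 2) (nat_lit 4) (nat_lit 13) (by decide +kernel)
theorem L54507 : W_8 (nat_lit 3) (nat_lit 0x4001800058002e0012001200080000000000000000000000000000000) (nat_lit 0x0) (nat_lit 0x10001a00040000000000000000000000000000000000000000000000000000) := T_8 (nat_lit 227) (nat_lit 210) (nat_lit 5) (nat_lit 7) (nat_lit 9) L54506 (by decide +kernel)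
theorem L54508 : W_8 (nat_lit 4) (nat_lit 0x4000800058002e0012001200080000000000000000000000000000000) (nat_lit 0x0) (nat_lit 0x10003a00140000000000000000000000000000000000000000000000000000) := T_8 (nat_lit 212) (nat_lit 229) (nat_lit 7) (nat_lit 7) (nat_lit 9) L54507 (by decide +kernel)
theorem L54509 : W_8 (nat_lit 5) (nat_lit 0x4000000058002e0012001200080000000000000000000000000000000) (nat_lit 0x0) (nat_lit 0x10003a001c0000000000020000000000000000000000000000000000000000) := T_8 (nat_lit 211) (nat_lit 161) (nat_lit 6) (nat_lit 7) (nat_lit 12) L54508 (by decide +kernel)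
theorem L54510 : W_8 (nat_lit 6) (nat_lit 0x58002e0012001200080000000000000000000000000000000) (nat_lit 0x0) (nat_lit 0x10003e001e0000000000020000000000000000000000000000000000000000) := T_8 (nat_lit 226) (nat_lit 209) (nat_lit 4) (nat_lit 5) (nat_lit 13) L54509 (by decide +kernel)
theorem L54511 : W_8 (nat_lit 7) (nat_lit 0x18002e0012001200080000000000000000000000000000000) (nat_lit 0x0) (nat_lit 0x10003e001e0006000000020000000000000000000000000000000000000000) := T_8 (nat_lit 194) (nat_lit 193) (nat_lit 0) (nat_lit 7) (nat_lit 11) L54510 (by decide +kernel)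
theorem L54512 : W_8 (nat_lit 2) (nat_lit 0x24001e002f0012001200080000000000000000000000000000000) (nat_lit 0x0) (nat_lit 0x80000000000000001000080000000000000000000000000000000000) := D_8 (nat_lit 156) (nat_lit 139) (nat_lit 223) (nat_lit 5) (nat_lit 3) (nat_lit 8) (nat_lit 6) (nat_lit 2) (nat_lit 13) (by decide +kernel)
theorem L54513 : W_8 (nat_lit 3) (nat_lit 0x20001e002f0012001200080000000000000000000000000000000) (nat_lit 0x0) (nat_lit 0x80006000000000001000080000000000000000000000000000000000) := T_8 (nat_lit 206) (nat_lit 205) (nat_lit 1) (nat_lit 5) (nat_lit 11) L54512 (by decide +kernel)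
theorem L54514 : W_8 (nat_lit 4) (nat_lit 0x20001a002f0012001200080000000000000000000000000000000) (nat_lit 0x0) (nat_lit 0x80046000400000001000080000000000000000000000000000000000) := T_8 (nat_lit 190) (nat_lit 210) (nat_lit 3) (nat_lit 2) (nat_lit 11) L54513 (by decide +kernel)
theorem L54515 : W_8 (nat_lit 5) (nat_lit 0x200018002f0012001200080000000000000000000000000000000) (nat_lit 0x0) (nat_lit 0x80046000700000001000080000000000000000000000000000000000) := T_8 (nat_lit 189) (nat_lit 188) (nat_lit 1) (nat_lit 5) (nat_lit 10) L54514 (by decide +kernel)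
theorem L54516 : W_8 (nat_lit 6) (nat_lit 0x18002f0012001200080000000000000000000000000000000) (nat_lit 0x0) (nat_lit 0x480066000700000001000080000000000000000000000000000000000) := T_8 (nat_lit 209) (nat_lit 226) (nat_lit 4) (nat_lit 5) (nat_lit 13) L54515 (by decide +kernel)
theorem L54517 : W_8 (nat_lit 7) (nat_lit 0x18002e0012001200080000000000000000000000000000000) (nat_lit 0x0) (nat_lit 0x480066000700018001000080000000000000000000000000000000000) := T_8 (nat_lit 172) (nat_lit 171) (nat_lit 3) (nat_lit 1) (nat_lit 10) L54516 (by decide +kernel)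
theorem L54518 : W_8 (nat_lit 8) (nat_lit 0x8002e0012001200080000000000000000000000000000000) (nat_lit 0x0) (nat_lit 0x10003e801e6007700018021000080000000000000000000000000000000000) := Q_8 (nat_lit 192) (C_8 L54505 (C_8 L54511 (C_8 L54517 N_8))) (by decide +kernel)
theorem L54519 : W_8 (nat_lit 2) (nat_lit 0x400014001a002f0013801200080000000000000000000000000000000) (nat_lit 0x0) (nat_lit 0x4000a000000000000000000000000000000000000000000000000000) := D_8 (nat_lit 205) (nat_lit 222) (nat_lit 207) (nat_lit 5) (nat_lit 2) (nat_lit 9) (nat_lit 2) (nat_lit 1) (nat_lit 12) (by decide +kernel)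
theorem L54520 : W_8 (nat_lit 3) (nat_lit 0x400010001a002f0013801200080000000000000000000000000000000) (nat_lit 0x0) (nat_lit 0xc000e000000000000000000000000000000000000000000000000000) := T_8 (nat_lit 206) (nat_lit 223) (nat_lit 6) (nat_lit 2) (nat_lit 13) L54519 (by decide +kernel)
theorem L54521 : W_8 (nat_lit 4) (nat_lit 0x400000001a002f0013801200080000000000000000000000000000000) (nat_lit 0x0) (nat_lit 0x2c001e000000000000000000000000000000000000000000000000000) := T_8 (nat_lit 208) (nat_lit 225) (nat_lit 4) (nat_lit 4) (nat_lit 13) L54520 (by decide +kernel)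
theorem L54522 : W_8 (nat_lit 5) (nat_lit 0x4000000018002f0013801200080000000000000000000000000000000) (nat_lit 0x0) (nat_lit 0x2c001e000300000000000000000000000000000000000000000000000) := T_8 (nat_lit 189) (nat_lit 188) (nat_lit 1) (nat_lit 5) (nat_lit 10) L54521 (by decide +kernel)
theorem L54523 : W_8 (nat_lit 6) (nat_lit 0x4000000018002f0013001200080000000000000000000000000000000) (nat_lit 0x0) (nat_lit 0x2c001e000300000000c00000000000000000000000000000000000000) := T_8 (nat_lit 155) (nat_lit 154) (nat_lit 3) (nat_lit 1) (nat_lit 9) L54522 (by decide +kernel)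
theorem L54524 : W_8 (nat_lit 7) (nat_lit 0x18002f0013001200080000000000000000000000000000000) (nat_lit 0x0) (nat_lit 0x6c003e000300000000c00000000000000000000000000000000000000) := T_8 (nat_lit 226) (nat_lit 209) (nat_lit 4) (nat_lit 5) (nat_lit 13) L54523 (by decide +kernel)
theorem L54525 : W_8 (nat_lit 8) (nat_lit 0x8002f0013001200080000000000000000000000000000000) (nat_lit 0x0) (nat_lit 0x6c003e003300000000c00000000000000000000000000000000000000) := T_8 (nat_lit 192) (nat_lit 193) (nat_lit 3) (nat_lit 2) (nat_lit 10) L54524 (by decide +kernel)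
theorem L54526 : W_8 (nat_lit 9) (nat_lit 0x8002e0013001200080000000000000000000000000000000) (nat_lit 0x0) (nat_lit 0x6c003e00330001c000e00000000000000000000000000000000000000) := Q_8 (nat_lit 172) (C_8 L54436 (C_8 L54434 (C_8 L54525 N_8))) (by decide +kernel)
theorem L54527 : W_8 (nat_lit 2) (nat_lit 0x400000001a002f0013801200080000000000000000000000000000000) (nat_lit 0x0) (nat_lit 0x4000000000000000080004000000000000000000000000000000) := D_8 (nat_lit 139) (nat_lit 122) (nat_lit 206) (nat_lit 7) (nat_lit 3) (nat_lit 7) (nat_lit 6) (nat_lit 2) (nat_lit 12) (by decide +kernel)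
theorem L54528 : W_8 (nat_lit 3) (nat_lit 0x4000000018002f0013801200080000000000000000000000000000000) (nat_lit 0x0) (nat_lit 0x4000300000000000080004000000000000000000000000000000) := T_8 (nat_lit 189) (nat_lit 188) (nat_lit 1) (nat_lit 5) (nat_lit 10) L54527 (by decide +kernel)
theorem L54529 : W_8 (nat_lit 4) (nat_lit 0x4000000018002f0013001200080000000000000000000000000000000) (nat_lit 0x0) (nat_lit 0x4000300000000c00080004000000000000000000000000000000) := T_8 (nat_lit 155) (nat_lit 154) (nat_lit 3) (nat_lit 1) (nat_lit 9) L54528 (by decide +kernel)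
theorem L54530 : W_8 (nat_lit 5) (nat_lit 0x18002f0013001200080000000000000000000000000000000) (nat_lit 0x0) (nat_lit 0x400024000300000000c00080004000000000000000000000000000000) := T_8 (nat_lit 226) (nat_lit 209) (nat_lit 4) (nat_lit 5) (nat_lit 13) L54529 (by decide +kernel)
theorem L54531 : W_8 (nat_lit 6) (nat_lit 0x8002f0013001200080000000000000000000000000000000) (nat_lit 0x0) (nat_lit 0x400024003300000000c00080004000000000000000000000000000000) := T_8 (nat_lit 192) (nat_lit 193) (nat_lit 3) (nat_lit 2) (nat_lit 10) L54530 (by decide +kernel)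
theorem L54532 : W_8 (nat_lit 7) (nat_lit 0x8002e0013001200080000000000000000000000000000000) (nat_lit 0x0) (nat_lit 0x40002400330001c000e00080004000000000000000000000000000000) := Q_8 (nat_lit 172) (C_8 L54436 (C_8 L54434 (C_8 L54531 N_8))) (by decide +kernel)
theorem L54533 : W_8 (nat_lit 10) (nat_lit 0x8002e0012001200080000000000000000000000000000000) (nat_lit 0x0) (nat_lit 0x6c003e00330001c001e00080004000000000000000000000000000000) := Q_8 (nat_lit 156) (C_8 L54526 (C_8 L54382 (C_8 L54532 N_8))) (by decide +kernel)
theorem L54534 : W_8 (nat_lit 2) (nat_lit 0x20001e002f0012801200080000000000000000000000000000000) (nat_lit 0x0) (nat_lit 0x8000000000000000040002000000000000000000000000000000) := D_8 (nat_lit 138) (nat_lit 207) (nat_lit 121) (nat_lit 7) (nat_lit 2) (nat_lit 8) (nat_lit 7) (nat_lit 2) (nat_lit 7) (by decide +kernel)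
theorem L54535 : W_8 (nat_lit 3) (nat_lit 0x20001a002f0012801200080000000000000000000000000000000) (nat_lit 0x0) (nat_lit 0x48000400000000000040002000000000000000000000000000000) := T_8 (nat_lit 190) (nat_lit 210) (nat_lit 3) (nat_lit 2) (nat_lit 11) L54534 (by decide +kernel)
theorem L54536 : W_8 (nat_lit 4) (nat_lit 0x20001a002f0012001200080000000000000000000000000000000) (nat_lit 0x0) (nat_lit 0x48000400000000c00040002000000000000000000000000000000) := T_8 (nat_lit 155) (nat_lit 154) (nat_lit 0) (nat_lit 5) (nat_lit 10) L54535 (by decide +kernel)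
theorem L54537 : W_8 (nat_lit 5) (nat_lit 0x200018002f0012001200080000000000000000000000000000000) (nat_lit 0x0) (nat_lit 0x48000700000000c00040002000000000000000000000000000000) := T_8 (nat_lit 189) (nat_lit 188) (nat_lit 1) (nat_lit 5) (nat_lit 10) L54536 (by decide +kernel)
theorem L54538 : W_8 (nat_lit 6) (nat_lit 0x18002f0012001200080000000000000000000000000000000) (nat_lit 0x0) (nat_lit 0x400068000700000000c00040002000000000000000000000000000000) := T_8 (nat_lit 209) (nat_lit 226) (nat_lit 4) (nat_lit 5) (nat_lit 13) L54537 (by decide +kernel)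
theorem L54539 : W_8 (nat_lit 7) (nat_lit 0x18002e0012001200080000000000000000000000000000000) (nat_lit 0x0) (nat_lit 0x400068000700018000c00040002000000000000000000000000000000) := T_8 (nat_lit 172) (nat_lit 171) (nat_lit 3) (nat_lit 1) (nat_lit 10) L54538 (by decide +kernel)
theorem L54540 : W_8 (nat_lit 8) (nat_lit 0x8002e0012001200080000000000000000000000000000000) (nat_lit 0x0) (nat_lit 0x10003e001e8007700018020c00040002000000000000000000000000000000) := Q_8 (nat_lit 192) (C_8 L54511 (C_8 L54505 (C_8 L54539 N_8))) (by decide +kernel)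
theorem L54541 : W_8 (nat_lit 2) (nat_lit 0x1800058002e0012001200080000000000000000000000000000000) (nat_lit 0x0) (nat_lit 0x800060000000000000000000000000000000000000000000000000000) := D_8 (nat_lit 210) (nat_lit 209) (nat_lit 227) (nat_lit 0) (nat_lit 8) (nat_lit 12) (nat_lit 5) (nat_lit 7) (nat_lit 9) (by decide +kernel)
theorem L54542 : W_8 (nat_lit 3) (nat_lit 0x800058002e0012001200080000000000000000000000000000000) (nat_lit 0x0) (nat_lit 0x2800160000000000000000000000000000000000000000000000000000) := T_8 (nat_lit 212) (nat_lit 229) (nat_lit 7) (nat_lit 7) (nat_lit 9) L54541 (by decide +kernel)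
theorem L54543 : W_8 (nat_lit 4) (nat_lit 0x800018002e0012001200080000000000000000000000000000000) (nat_lit 0x0) (nat_lit 0x2800160004000000020000000000000000000000000000000000000000) := T_8 (nat_lit 194) (nat_lit 161) (nat_lit 6) (nat_lit 7) (nat_lit 12) L54542 (by decide +kernel)
theorem L54544 : W_8 (nat_lit 2) (nat_lit 0x1a001800058002e8012001200080000000000000000000000000000000) (nat_lit 0x0) (nat_lit 0x4000000010000000000001000000000000000000000000000000000000000) := D_8 (nat_lit 208) (nat_lit 156) (nat_lit 242) (nat_lit 4) (nat_lit 4) (nat_lit 13) (nat_lit 6) (nat_lit 4) (nat_lit 14) (by decide +kernel)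
theorem L54545 : W_8 (nat_lit 3) (nat_lit 0x18001800058002e8012001200080000000000000000000000000000000) (nat_lit 0x0) (nat_lit 0x4000600010000000000001000000000000000000000000000000000000000) := T_8 (nat_lit 225) (nat_lit 226) (nat_lit 2) (nat_lit 4) (nat_lit 13) L54544 (by decide +kernel)
theorem L54546 : W_8 (nat_lit 4) (nat_lit 0x8001800058002e8012001200080000000000000000000000000000000) (nat_lit 0x0) (nat_lit 0x14001600010000000000001000000000000000000000000000000000000000) := T_8 (nat_lit 228) (nat_lit 244) (nat_lit 5) (nat_lit 7) (nat_lit 10) L54545 (by decide +kernel)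
theorem L54547 : W_8 (nat_lit 5) (nat_lit 0x1800058002e8012001200080000000000000000000000000000000) (nat_lit 0x0) (nat_lit 0x14001e00050000000000001000000000000000000000000000000000000000) := T_8 (nat_lit 227) (nat_lit 210) (nat_lit 5) (nat_lit 7) (nat_lit 9) L54546 (by decide +kernel)
theorem L54548 : W_8 (nat_lit 6) (nat_lit 0x800058002e8012001200080000000000000000000000000000000) (nat_lit 0x0) (nat_lit 0x14003e00150000000000001000000000000000000000000000000000000000) := T_8 (nat_lit 212) (nat_lit 229) (nat_lit 7) (nat_lit 7) (nat_lit 9) L54547 (by decide +kernel)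
theorem L54549 : W_8 (nat_lit 7) (nat_lit 0x800018002e8012001200080000000000000000000000000000000) (nat_lit 0x0) (nat_lit 0x14003e00150004000000021000000000000000000000000000000000000000) := T_8 (nat_lit 194) (nat_lit 161) (nat_lit 6) (nat_lit 7) (nat_lit 12) L54548 (by decide +kernel)
theorem L54550 : W_8 (nat_lit 8) (nat_lit 0x800018002e0012001200080000000000000000000000000000000) (nat_lit 0x0) (nat_lit 0x14003e00150004000018021000000000000000000000000000000000000000) := T_8 (nat_lit 171) (nat_lit 172) (nat_lit 3) (nat_lit 1) (nat_lit 10) L54549 (by decide +kernel)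
theorem L54551 : W_8 (nat_lit 2) (nat_lit 0x4003c000800058002e0012001200080000000000000000000000000000000) (nat_lit 0x0) (nat_lit 0x2000200010000000000000000000000000000000000000000000000000000) := D_8 (nat_lit 225) (nat_lit 241) (nat_lit 208) (nat_lit 1) (nat_lit 7) (nat_lit 13) (nat_lit 6) (nat_lit 4) (nat_lit 14) (by decide +kernel)
theorem L54552 : W_8 (nat_lit 3) (nat_lit 0x3c000800058002e0012001200080000000000000000000000000000000) (nat_lit 0x0) (nat_lit 0xe000200010000000000000000000000000000000000000000000000000000) := T_8 (nat_lit 242) (nat_lit 243) (nat_lit 1) (nat_lit 8) (nat_lit 13) L54551 (by decide +kernel)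
theorem L54553 : W_8 (nat_lit 4) (nat_lit 0x34000800058002e0012001200080000000000000000000000000000000) (nat_lit 0x0) (nat_lit 0x1e000a00010000000000000000000000000000000000000000000000000000) := T_8 (nat_lit 227) (nat_lit 244) (nat_lit 5) (nat_lit 7) (nat_lit 10) L54552 (by decide +kernel)
theorem L54554 : W_8 (nat_lit 5) (nat_lit 0x24000800058002e0012001200080000000000000000000000000000000) (nat_lit 0x0) (nat_lit 0x5e001a00010000000000000000000000000000000000000000000000000000) := T_8 (nat_lit 228) (nat_lit 246) (nat_lit 7) (nat_lit 7) (nat_lit 10) L54553 (by decide +kernel)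
theorem L54555 : W_8 (nat_lit 6) (nat_lit 0x20000800058002e0012001200080000000000000000000000000000000) (nat_lit 0x0) (nat_lit 0x5e001e00030000000000000000000000000000000000000000000000000000) := T_8 (nat_lit 226) (nat_lit 209) (nat_lit 4) (nat_lit 5) (nat_lit 13) L54554 (by decide +kernel)
theorem L54556 : W_8 (nat_lit 7) (nat_lit 0x800058002e0012001200080000000000000000000000000000000) (nat_lit 0x0) (nat_lit 0x5e003e00130000000000000000000000000000000000000000000000000000) := T_8 (nat_lit 229) (nat_lit 212) (nat_lit 7) (nat_lit 7) (nat_lit 9) L54555 (by decide +kernel)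
theorem L54557 : W_8 (nat_lit 8) (nat_lit 0x800018002e0012001200080000000000000000000000000000000) (nat_lit 0x0) (nat_lit 0x5e003e00130004000000020000000000000000000000000000000000000000) := T_8 (nat_lit 194) (nat_lit 161) (nat_lit 6) (nat_lit 7) (nat_lit 12) L54556 (by decide +kernel)
theorem L54558 : W_8 (nat_lit 2) (nat_lit 0xf00018002e8012001200080000000000000000000000000000000) (nat_lit 0x0) (nat_lit 0x4000200000000000000001000000000000000000000000000000000000000) := D_8 (nat_lit 225) (nat_lit 156) (nat_lit 242) (nat_lit 4) (nat_lit 4) (nat_lit 13) (nat_lit 6) (nat_lit 4) (nat_lit 14) (by decide +kernel)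
theorem L54559 : W_8 (nat_lit 3) (nat_lit 0xe00018002e8012001200080000000000000000000000000000000) (nat_lit 0x0) (nat_lit 0x4000200010000400000001000000000000000000000000000000000000000) := T_8 (nat_lit 208) (nat_lit 190) (nat_lit 0) (nat_lit 7) (nat_lit 12) L54558 (by decide +kernel)
theorem L54560 : W_8 (nat_lit 4) (nat_lit 0xa00018002e8012001200080000000000000000000000000000000) (nat_lit 0x0) (nat_lit 0x4000200150000400000001000000000000000000000000000000000000000) := T_8 (nat_lit 210) (nat_lit 212) (nat_lit 0) (nat_lit 8) (nat_lit 12) L54559 (by decide +kernel)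
theorem L54561 : W_8 (nat_lit 5) (nat_lit 0x800018002e8012001200080000000000000000000000000000000) (nat_lit 0x0) (nat_lit 0x4000600170000400000001000000000000000000000000000000000000000) := T_8 (nat_lit 209) (nat_lit 226) (nat_lit 4) (nat_lit 5) (nat_lit 13) L54560 (by decide +kernel)
theorem L54562 : W_8 (nat_lit 6) (nat_lit 0x800018002e0012001200080000000000000000000000000000000) (nat_lit 0x0) (nat_lit 0x4000600170000400018001000000000000000000000000000000000000000) := T_8 (nat_lit 171) (nat_lit 172) (nat_lit 3) (nat_lit 1) (nat_lit 10) L54561 (by decide +kernel)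
theorem L54563 : W_8 (nat_lit 2) (nat_lit 0x4003c000800058002e8012001200080000000000000000000000000000000) (nat_lit 0x0) (nat_lit 0x2000200010000000000000000000000000000000000000000000000000000) := D_8 (nat_lit 225) (nat_lit 241) (nat_lit 208) (nat_lit 1) (nat_lit 7) (nat_lit 13) (nat_lit 6) (nat_lit 4) (nat_lit 14) (by decide +kernel)
theorem L54564 : W_8 (nat_lit 3) (nat_lit 0x3c000800058002e8012001200080000000000000000000000000000000) (nat_lit 0x0) (nat_lit 0xe000200010000000000000000000000000000000000000000000000000000) := T_8 (nat_lit 242) (nat_lit 243) (nat_lit 1) (nat_lit 8) (nat_lit 13) L54563 (by decide +kernel)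
theorem L54565 : W_8 (nat_lit 4) (nat_lit 0x1c000800058002e8012001200080000000000000000000000000000000) (nat_lit 0x0) (nat_lit 0x4e002200010000000000000000000000000000000000000000000000000000) := T_8 (nat_lit 229) (nat_lit 246) (nat_lit 7) (nat_lit 7) (nat_lit 10) L54564 (by decide +kernel)
theorem L54566 : W_8 (nat_lit 5) (nat_lit 0xc000800058002e8012001200080000000000000000000000000000000) (nat_lit 0x0) (nat_lit 0x5e003200010000000000000000000000000000000000000000000000000000) := T_8 (nat_lit 228) (nat_lit 244) (nat_lit 5) (nat_lit 7) (nat_lit 10) L54565 (by decide +kernel)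
theorem L54567 : W_8 (nat_lit 6) (nat_lit 0xc000800058002e0012001200080000000000000000000000000000000) (nat_lit 0x0) (nat_lit 0x5e003200010000000018000000000000000000000000000000000000000000) := T_8 (nat_lit 171) (nat_lit 172) (nat_lit 3) (nat_lit 1) (nat_lit 10) L54566 (by decide +kernel)
theorem L54568 : W_8 (nat_lit 7) (nat_lit 0x4000800058002e0012001200080000000000000000000000000000000) (nat_lit 0x0) (nat_lit 0x5e003a00050000000018000000000000000000000000000000000000000000) := T_8 (nat_lit 227) (nat_lit 210) (nat_lit 5) (nat_lit 7) (nat_lit 9) L54567 (by decide +kernel)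
theorem L54569 : W_8 (nat_lit 8) (nat_lit 0x4000800018002e0012001200080000000000000000000000000000000) (nat_lit 0x0) (nat_lit 0x5e003a00050004000018020000000000000000000000000000000000000000) := T_8 (nat_lit 194) (nat_lit 161) (nat_lit 6) (nat_lit 7) (nat_lit 12) L54568 (by decide +kernel)
theorem L54570 : W_8 (nat_lit 9) (nat_lit 0x800018002e0012001200080000000000000000000000000000000) (nat_lit 0x0) (nat_lit 0x5e003e00070004000018020000000000000000000000000000000000000000) := T_8 (nat_lit 226) (nat_lit 209) (nat_lit 4) (nat_lit 5) (nat_lit 13) L54569 (by decide +kernel)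
theorem L54571 : W_8 (nat_lit 10) (nat_lit 0x18002e0012001200080000000000000000000000000000000) (nat_lit 0x0) (nat_lit 0x5e003e001f0004400018021000000000000000000000000000000000000000) := Q_8 (nat_lit 211) (C_8 L54543 (C_8 L54550 (C_8 L54557 (C_8 L54562 (C_8 L54570 N_8))))) (by decide +kernel)
theorem L54572 : W_8 (nat_lit 2) (nat_lit 0x18002e0012001200080000000000000000000000000000000) (nat_lit 0x0) (nat_lit 0x2000018000000000000000000000000000000000000000000) := D_8 (nat_lit 172) (nat_lit 171) (nat_lit 193) (nat_lit 3) (nat_lit 1) (nat_lit 10) (nat_lit 3) (nat_lit 2) (nat_lit 10) (by decide +kernel)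
theorem L54573 : W_8 (nat_lit 11) (nat_lit 0x8002e0012001200080000000000000000000000000000000) (nat_lit 0x0) (nat_lit 0x5e003e001f0007400018021000000000000000000000000000000000000000) := Q_8 (nat_lit 192) (C_8 L54511 (C_8 L54505 (C_8 L54571 (C_8 L54572 N_8)))) (by decide +kernel)
theorem L54574 : W_8 (nat_lit 12) (nat_lit 0x8002c0012001200080000000000000000000000000000000) (nat_lit 0x0) (nat_lit 0x5e003ec01ff00778003c021e000e0007000080000000000000000000000000) := Q_8 (nat_lit 173) (C_8 L54417 (C_8 L54433 (C_8 L54443 (C_8 L54449 (C_8 L54458 (C_8 L54504 (C_8 L54518 (C_8 L54533 (C_8 L54540 (C_8 L54573 N_8)))))))))) (by decide +kernel)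
theorem L54575 : W_8 (nat_lit 13) (nat_lit 0x8002c0010001200080000000000000000000000000000000) (nat_lit 0x0) (nat_lit 0x5e003ec01ff00778003c023e001e001f000280000000000000000000000000) := Q_8 (nat_lit 157) (C_8 L53283 (C_8 L54574 (C_8 L53019 (C_8 L53205 N_8)))) (by decide +kernel)
theorem L54576 : W_8 (nat_lit 2) (nat_lit 0x300018002c0013001200080000000000000000000000000000000) (nat_lit 0x0) (nat_lit 0x4000200000000000020000000000000000000000000000000000000000000) := D_8 (nat_lit 225) (nat_lit 173) (nat_lit 242) (nat_lit 4) (nat_lit 4) (nat_lit 13) (nat_lit 6) (nat_lit 4) (nat_lit 14) (by decide +kernel)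
theorem L54577 : W_8 (nat_lit 3) (nat_lit 0x300018002c0012001200080000000000000000000000000000000) (nat_lit 0x0) (nat_lit 0x4000200000000000020001000080000000000000000000000000000000000) := T_8 (nat_lit 156) (nat_lit 139) (nat_lit 4) (nat_lit 4) (nat_lit 12) L54576 (by decide +kernel)
theorem L54578 : W_8 (nat_lit 4) (nat_lit 0x100018002c0012001200080000000000000000000000000000000) (nat_lit 0x0) (nat_lit 0x4000600020000000020001000080000000000000000000000000000000000) := T_8 (nat_lit 209) (nat_lit 226) (nat_lit 7) (nat_lit 4) (nat_lit 9) L54577 (by decide +kernel)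
theorem L54579 : W_8 (nat_lit 8) (nat_lit 0x100008002c0012001200080000000000000000000000000000000) (nat_lit 0x0) (nat_lit 0x54003e001e800f000020021000080000000000000000000000000000000000) := Q_8 (nat_lit 192) (C_8 L54150 (C_8 L54578 (C_8 L53616 N_8))) (by decide +kernel)
theorem L54580 : W_8 (nat_lit 12) (nat_lit 0x8002c0012001200080000000000000000000000000000000) (nat_lit 0x0) (nat_lit 0x40056003fc01fe00f700038021c000e0003000080000000000000000000000000) := Q_8 (nat_lit 208) (C_8 L54151 (C_8 L53341 (C_8 L53252 (C_8 L53601 (C_8 L54579 N_8))))) (by decide +kernel)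
theorem L54581 : W_8 (nat_lit 13) (nat_lit 0x8002c0010001200080000000000000000000000000000000) (nat_lit 0x0) (nat_lit 0x40056003fc01fe00f700038023c001e001f000280000000000000000000000000) := Q_8 (nat_lit 157) (C_8 L53283 (C_8 L54580 (C_8 L53023 (C_8 L53019 (C_8 L53205 N_8))))) (by decide +kernel)
theorem L54582 : W_8 (nat_lit 12) (nat_lit 0x8002c0012001200080000000000000000000000000000000) (nat_lit 0x0) (nat_lit 0x10005c003fc01ff00f78003c021e000e0007000380010000000000000000000000) := Q_8 (nat_lit 208) (C_8 L54579 (C_8 L54123 (C_8 L53201 (C_8 L53252 (C_8 L53177 (C_8 L53617 (C_8 L54151 N_8))))))) (by decide +kernel)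
theorem L54583 : W_8 (nat_lit 13) (nat_lit 0x8002c0010001200080000000000000000000000000000000) (nat_lit 0x0) (nat_lit 0x10005c003fc01ff00f78003c023e001e001f000380010000000000000000000000) := Q_8 (nat_lit 157) (C_8 L53283 (C_8 L54582 (C_8 L53023 (C_8 L53019 (C_8 L53205 N_8))))) (by decide +kernel)
theorem L54584 : W_8 (nat_lit 14) (nat_lit 0x2c0010001200080000000000000000000000000000000) (nat_lit 0x0) (nat_lit 0x3a00bf007f807fe07ff00ff8003c023e001f003f00038001c000200000000000000000) := Q_8 (nat_lit 191) (C_8 L52945 (C_8 L53024 (C_8 L53117 (C_8 L53206 (C_8 L53218 (C_8 L53320 (C_8 L53350 (C_8 L53541 (C_8 L53619 (C_8 L53828 (C_8 L54084 (C_8 L54108 (C_8 L54119 (C_8 L54153 (C_8 L54268 (C_8 L54326 (C_8 L54381 (C_8 L54575 (C_8 L54581 (C_8 L54583 N_8)))))))))))))))))))) (by decide +kernel)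
theorem L54585 : W_8 (nat_lit 2) (nat_lit 0x3e0010001200080000000000000000000000000000000) (nat_lit 0x0) (nat_lit 0xe000000000000000000000000000000000000000000000000) := D_8 (nat_lit 194) (nat_lit 193) (nat_lit 195) (nat_lit 3) (nat_lit 3) (nat_lit 10) (nat_lit 3) (nat_lit 4) (nat_lit 10) (by decide +kernel)
theorem L54586 : W_8 (nat_lit 3) (nat_lit 0x3c0010001200080000000000000000000000000000000) (nat_lit 0x0) (nat_lit 0xe000020008000000000000000000000000000000000000000) := T_8 (nat_lit 173) (nat_lit 159) (nat_lit 2) (nat_lit 3) (nat_lit 10) L54585 (by decide +kernel)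
theorem L54587 : W_8 (nat_lit 4) (nat_lit 0x2c0010001200080000000000000000000000000000000) (nat_lit 0x0) (nat_lit 0xe000120028000000000000000000000000000000000000000) := T_8 (nat_lit 176) (nat_lit 161) (nat_lit 2) (nat_lit 4) (nat_lit 10) L54586 (by decide +kernel)
theorem L54588 : W_8 (nat_lit 4) (nat_lit 0x40003c0012001200080000000000000000000000000000000) (nat_lit 0x0) (nat_lit 0x20001c00000000000100018000000000000000000000000000000) := T_8 (nat_lit 191) (nat_lit 190) (nat_lit 1) (nat_lit 7) (nat_lit 10) L38754 (by decide +kernel)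
theorem L54589 : W_8 (nat_lit 5) (nat_lit 0x40003c0010001200080000000000000000000000000000000) (nat_lit 0x0) (nat_lit 0x20001c00000003000100018000000000000000000000000000000) := T_8 (nat_lit 157) (nat_lit 156) (nat_lit 0) (nat_lit 7) (nat_lit 10) L54588 (by decide +kernel)
theorem L54590 : W_8 (nat_lit 6) (nat_lit 0x3c0010001200080000000000000000000000000000000) (nat_lit 0x0) (nat_lit 0x2000dc00000003000100018000000000000000000000000000000) := T_8 (nat_lit 194) (nat_lit 195) (nat_lit 3) (nat_lit 4) (nat_lit 10) L54589 (by decide +kernel)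
theorem L54591 : W_8 (nat_lit 7) (nat_lit 0x2c0010001200080000000000000000000000000000000) (nat_lit 0x0) (nat_lit 0x2000dc00100023000100018000000000000000000000000000000) := T_8 (nat_lit 176) (nat_lit 161) (nat_lit 2) (nat_lit 4) (nat_lit 10) L54590 (by decide +kernel)
theorem L54592 : W_8 (nat_lit 7) (nat_lit 0x2c0010001200080000000000000000000000000000000) (nat_lit 0x0) (nat_lit 0x2000fc0012000b800100018000000000000000000000000000000) := Q_8 (nat_lit 176) (C_8 L54586 (C_8 L33513 (C_8 L54590 N_8))) (by decide +kernel)
theorem L54593 : W_8 (nat_lit 15) (nat_lit 0x280010001200080000000000000000000000000000000) (nat_lit 0x0) (nat_lit 0x3a00bf007f807fe07ff00ff8017c02be001f003f00038001c000200000000000000000) := Q_8 (nat_lit 174) (C_8 L54584 (C_8 L51422 (C_8 L54587 (C_8 L54591 (C_8 L54592 N_8))))) (by decide +kernel)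
theorem L54594 : W_8 (nat_lit 2) (nat_lit 0x380014001200090000000000000000000000000000000) (nat_lit 0x0) (nat_lit 0x800040020000000000000000000000000000000000000000) := D_8 (nat_lit 174) (nat_lit 161) (nat_lit 191) (nat_lit 2) (nat_lit 4) (nat_lit 10) (nat_lit 5) (nat_lit 5) (nat_lit 7) (by decide +kernel)
theorem L54595 : W_8 (nat_lit 3) (nat_lit 0x280014001200090000000000000000000000000000000) (nat_lit 0x0) (nat_lit 0x2800140020000000000000000000000000000000000000000) := T_8 (nat_lit 176) (nat_lit 193) (nat_lit 7) (nat_lit 5) (nat_lit 7) L54594 (by decide +kernel)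
theorem L54596 : W_8 (nat_lit 5) (nat_lit 0x280014001200080000000000000000000000000000000) (nat_lit 0x0) (nat_lit 0x2800140020000100078001c00000000000000000000000000) := Q_8 (nat_lit 124) (C_8 L51354 (C_8 L54595 N_8)) (by decide +kernel)
theorem L54597 : W_8 (nat_lit 5) (nat_lit 0x3800140013000b0000000000000000000000000000000) (nat_lit 0x0) (nat_lit 0x2000300018000000020000c0008000000000000000000000000000000) := T_8 (nat_lit 138) (nat_lit 139) (nat_lit 2) (nat_lit 2) (nat_lit 8) L40633 (by decide +kernel)
theorem L54598 : W_8 (nat_lit 6) (nat_lit 0x3800140012000b0000000000000000000000000000000) (nat_lit 0x0) (nat_lit 0x2000300018000000020001c0048000000000000000000000000000000) := T_8 (nat_lit 140) (nat_lit 126) (nat_lit 1) (nat_lit 8) (nat_lit 7) L54597 (by decide +kernel)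
theorem L54599 : W_8 (nat_lit 7) (nat_lit 0x380014001200090000000000000000000000000000000) (nat_lit 0x0) (nat_lit 0x2000300018000000020001c0068001000000000000000000000000000) := T_8 (nat_lit 125) (nat_lit 108) (nat_lit 6) (nat_lit 5) (nat_lit 10) L54598 (by decide +kernel)
theorem L54600 : W_8 (nat_lit 8) (nat_lit 0x280014001200090000000000000000000000000000000) (nat_lit 0x0) (nat_lit 0x2000300038001000020001c0068001000000000000000000000000000) := T_8 (nat_lit 176) (nat_lit 193) (nat_lit 7) (nat_lit 5) (nat_lit 7) L54599 (by decide +kernel)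
theorem L54605 : W_8 (nat_lit 6) (nat_lit 0x300030002800140012000f0000800000000000000000000000000) (nat_lit 0x0) (nat_lit 0x50003c0018000c000000020000000000000000000000000000000000000000) := T_8 (nat_lit 194) (nat_lit 195) (nat_lit 1) (nat_lit 8) (nat_lit 11) L54604 (by decide +kernel)
theorem L54606 : W_8 (nat_lit 7) (nat_lit 0x100030002800140012000f0000800000000000000000000000000) (nat_lit 0x0) (nat_lit 0x50003e001a000c000000020000000000000000000000000000000000000000) := T_8 (nat_lit 209) (nat_lit 225) (nat_lit 5) (nat_lit 5) (nat_lit 9) L54605 (by decide +kernel)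
theorem L54607 : W_8 (nat_lit 8) (nat_lit 0x30002800140012000f0000800000000000000000000000000) (nat_lit 0x0) (nat_lit 0x50003e001b000c800000020000000000000000000000000000000000000000) := T_8 (nat_lit 208) (nat_lit 191) (nat_lit 5) (nat_lit 5) (nat_lit 8) L54606 (by decide +kernel)
theorem L54608 : W_8 (nat_lit 9) (nat_lit 0x20002800140012000f0000800000000000000000000000000) (nat_lit 0x0) (nat_lit 0x50003e001f000d800000020000000000000000000000000000000000000000) := T_8 (nat_lit 192) (nat_lit 210) (nat_lit 7) (nat_lit 5) (nat_lit 8) L54607 (by decide +kernel)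
theorem L54609 : W_8 (nat_lit 10) (nat_lit 0x20002800140012000f0000000000000000000000000000000) (nat_lit 0x0) (nat_lit 0x50003e001f000d800000020000000000000c00000000000000000000000000) := T_8 (nat_lit 107) (nat_lit 106) (nat_lit 0) (nat_lit 8) (nat_lit 7) L54608 (by decide +kernel)
theorem L54610 : W_8 (nat_lit 11) (nat_lit 0x2800140012000f0000000000000000000000000000000) (nat_lit 0x0) (nat_lit 0x50003e001f000f800100020000000000000c00000000000000000000000000) := T_8 (nat_lit 193) (nat_lit 176) (nat_lit 7) (nat_lit 5) (nat_lit 7) L54609 (by decide +kernel)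
theorem L54611 : W_8 (nat_lit 12) (nat_lit 0x2800140012000b0000000000000000000000000000000) (nat_lit 0x0) (nat_lit 0x50003e001f000f800100020000100040000c00000000000000000000000000) := T_8 (nat_lit 126) (nat_lit 140) (nat_lit 1) (nat_lit 8) (nat_lit 7) L54610 (by decide +kernel)
theorem L54612 : W_8 (nat_lit 13) (nat_lit 0x280014001200090000000000000000000000000000000) (nat_lit 0x0) (nat_lit 0x50003e001f000f800100020000100060001c00000000000000000000000000) := T_8 (nat_lit 125) (nat_lit 108) (nat_lit 6) (nat_lit 5) (nat_lit 10) L54611 (by decide +kernel)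
theorem L54613 : W_8 (nat_lit 2) (nat_lit 0x2000280014001200098000000000000000000000000000000) (nat_lit 0x0) (nat_lit 0x40001000000000000100000000000000000000000000000000000) := D_8 (nat_lit 192) (nat_lit 140) (nat_lit 210) (nat_lit 4) (nat_lit 5) (nat_lit 11) (nat_lit 7) (nat_lit 5) (nat_lit 8) (by decide +kernel)
theorem L54614 : W_8 (nat_lit 3) (nat_lit 0x2000280014001200090000000000000000000000000000000) (nat_lit 0x0) (nat_lit 0x40001000000000000100008000400000000000000000000000000) := T_8 (nat_lit 123) (nat_lit 106) (nat_lit 4) (nat_lit 5) (nat_lit 10) L54613 (by decide +kernel)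
theorem L54615 : W_8 (nat_lit 4) (nat_lit 0x280014001200090000000000000000000000000000000) (nat_lit 0x0) (nat_lit 0x40003000100000000100008000400000000000000000000000000) := T_8 (nat_lit 193) (nat_lit 176) (nat_lit 7) (nat_lit 5) (nat_lit 7) L54614 (by decide +kernel)
theorem L54616 : W_8 (nat_lit 14) (nat_lit 0x280014001200080000000000000000000000000000000) (nat_lit 0x0) (nat_lit 0x50003e001fc00f8001000220001c0078001c00000000000000000000000000) := Q_8 (nat_lit 124) (C_8 L51354 (C_8 L54600 (C_8 L54612 (C_8 L54615 (C_8 L51729 N_8))))) (by decide +kernel)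
theorem L54617 : W_8 (nat_lit 2) (nat_lit 0x2c00140012000f0000000000000000000000000000000) (nat_lit 0x0) (nat_lit 0x2000000000000c00000000000000000000000000) := D_8 (nat_lit 107) (nat_lit 106) (nat_lit 157) (nat_lit 0) (nat_lit 8) (nat_lit 7) (nat_lit 5) (nat_lit 5) (nat_lit 6) (by decide +kernel)
theorem L54618 : W_8 (nat_lit 3) (nat_lit 0x2800140012000f0000000000000000000000000000000) (nat_lit 0x0) (nat_lit 0x800040002000000000000c00000000000000000000000000) := T_8 (nat_lit 174) (nat_lit 191) (nat_lit 5) (nat_lit 5) (nat_lit 7) L54617 (by decide +kernel)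
theorem L54619 : W_8 (nat_lit 4) (nat_lit 0x2800140012000b0000000000000000000000000000000) (nat_lit 0x0) (nat_lit 0x800040002000100040000c00000000000000000000000000) := T_8 (nat_lit 126) (nat_lit 140) (nat_lit 1) (nat_lit 8) (nat_lit 7) L54618 (by decide +kernel)
theorem L54620 : W_8 (nat_lit 5) (nat_lit 0x280014001200090000000000000000000000000000000) (nat_lit 0x0) (nat_lit 0x800040002000100060001c00000000000000000000000000) := T_8 (nat_lit 125) (nat_lit 108) (nat_lit 6) (nat_lit 5) (nat_lit 10) L54619 (by decide +kernel)
theorem L54622 : W_8 (nat_lit 3) (nat_lit 0x2c0014001200090000000000000000000000000000000) (nat_lit 0x0) (nat_lit 0x100023000000000000800000000000000000000000000) := T_8 (nat_lit 176) (nat_lit 161) (nat_lit 2) (nat_lit 4) (nat_lit 10) L54621 (by decide +kernel)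
theorem L54623 : W_8 (nat_lit 4) (nat_lit 0x280014001200090000000000000000000000000000000) (nat_lit 0x0) (nat_lit 0x800140023000000000000800000000000000000000000000) := T_8 (nat_lit 174) (nat_lit 191) (nat_lit 5) (nat_lit 5) (nat_lit 7) L54622 (by decide +kernel)
theorem L54624 : W_8 (nat_lit 2) (nat_lit 0x40003c0016001300098000000000000000000000000000000) (nat_lit 0x0) (nat_lit 0x60001000000000000000000000000000) := D_8 (nat_lit 125) (nat_lit 108) (nat_lit 126) (nat_lit 6) (nat_lit 5) (nat_lit 10) (nat_lit 1) (nat_lit 8) (nat_lit 7) (by decide +kernel)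
theorem L54625 : W_8 (nat_lit 3) (nat_lit 0x40003c0016001200098000000000000000000000000000000) (nat_lit 0x0) (nat_lit 0x1000000000000100060001000000000000000000000000000) := T_8 (nat_lit 140) (nat_lit 192) (nat_lit 7) (nat_lit 4) (nat_lit 7) L54624 (by decide +kernel)
theorem L54626 : W_8 (nat_lit 4) (nat_lit 0x40003c0016001200090000000000000000000000000000000) (nat_lit 0x0) (nat_lit 0x1000000000000100068001400000000000000000000000000) := T_8 (nat_lit 123) (nat_lit 106) (nat_lit 4) (nat_lit 5) (nat_lit 10) L54625 (by decide +kernel)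
theorem L54627 : W_8 (nat_lit 5) (nat_lit 0x40003c0014001200090000000000000000000000000000000) (nat_lit 0x0) (nat_lit 0x1000000003000100068001400000000000000000000000000) := T_8 (nat_lit 157) (nat_lit 156) (nat_lit 0) (nat_lit 7) (nat_lit 10) L54626 (by decide +kernel)
theorem L54628 : W_8 (nat_lit 6) (nat_lit 0x3c0014001200090000000000000000000000000000000) (nat_lit 0x0) (nat_lit 0xd000000003000100068001400000000000000000000000000) := T_8 (nat_lit 194) (nat_lit 195) (nat_lit 3) (nat_lit 4) (nat_lit 10) L54627 (by decide +kernel)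
theorem L54629 : W_8 (nat_lit 7) (nat_lit 0x2c0014001200090000000000000000000000000000000) (nat_lit 0x0) (nat_lit 0xd000100023000100068001400000000000000000000000000) := T_8 (nat_lit 176) (nat_lit 161) (nat_lit 2) (nat_lit 4) (nat_lit 10) L54628 (by decide +kernel)
theorem L54630 : W_8 (nat_lit 8) (nat_lit 0x280014001200090000000000000000000000000000000) (nat_lit 0x0) (nat_lit 0xd800140023000100068001400000000000000000000000000) := T_8 (nat_lit 174) (nat_lit 191) (nat_lit 5) (nat_lit 5) (nat_lit 7) L54629 (by decide +kernel)
theorem L54631 : W_8 (nat_lit 9) (nat_lit 0x280014001200080000000000000000000000000000000) (nat_lit 0x0) (nat_lit 0xd800140023000100078001c00000000000000000000000000) := Q_8 (nat_lit 124) (C_8 L51354 (C_8 L54620 (C_8 L54623 (C_8 L54630 N_8)))) (by decide +kernel)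
theorem L54632 : W_8 (nat_lit 2) (nat_lit 0x10002c00140013000b0000000000000000000000000000000) (nat_lit 0x0) (nat_lit 0x20000000000002000000000000800000000000000000000000000) := D_8 (nat_lit 157) (nat_lit 209) (nat_lit 107) (nat_lit 4) (nat_lit 5) (nat_lit 12) (nat_lit 5) (nat_lit 5) (nat_lit 6) (by decide +kernel)
theorem L54633 : W_8 (nat_lit 3) (nat_lit 0x2c00140013000b0000000000000000000000000000000) (nat_lit 0x0) (nat_lit 0x20001000000002000000008000800000000000000000000000000) := T_8 (nat_lit 192) (nat_lit 123) (nat_lit 4) (nat_lit 5) (nat_lit 11) L54632 (by decide +kernel)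
theorem L54634 : W_8 (nat_lit 4) (nat_lit 0x2800140013000b0000000000000000000000000000000) (nat_lit 0x0) (nat_lit 0x20001800040002000000008000800000000000000000000000000) := T_8 (nat_lit 174) (nat_lit 191) (nat_lit 5) (nat_lit 5) (nat_lit 7) L54633 (by decide +kernel)
theorem L54635 : W_8 (nat_lit 5) (nat_lit 0x2800140012000b0000000000000000000000000000000) (nat_lit 0x0) (nat_lit 0x20001800040002000100048000800000000000000000000000000) := T_8 (nat_lit 140) (nat_lit 126) (nat_lit 1) (nat_lit 8) (nat_lit 7) L54634 (by decide +kernel)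
theorem L54636 : W_8 (nat_lit 6) (nat_lit 0x280014001200090000000000000000000000000000000) (nat_lit 0x0) (nat_lit 0x20001800040002000100068001800000000000000000000000000) := T_8 (nat_lit 125) (nat_lit 108) (nat_lit 6) (nat_lit 5) (nat_lit 10) L54635 (by decide +kernel)
theorem L54637 : W_8 (nat_lit 2) (nat_lit 0x400010002c0016001200098000000000000000000000000000000) (nat_lit 0x0) (nat_lit 0xc00020000000000000000000000000000000000000000000000000000) := D_8 (nat_lit 209) (nat_lit 226) (nat_lit 227) (nat_lit 4) (nat_lit 5) (nat_lit 13) (nat_lit 7) (nat_lit 5) (nat_lit 9) (by decide +kernel)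
theorem L54638 : W_8 (nat_lit 3) (nat_lit 0x10002c0016001200098000000000000000000000000000000) (nat_lit 0x0) (nat_lit 0xc00060002000000000000000000000000000000000000000000000000) := T_8 (nat_lit 210) (nat_lit 193) (nat_lit 7) (nat_lit 5) (nat_lit 8) L54637 (by decide +kernel)
theorem L54639 : W_8 (nat_lit 4) (nat_lit 0x10002c0014001200098000000000000000000000000000000) (nat_lit 0x0) (nat_lit 0xc00060002000000002000000000000800000000000000000000000000) := T_8 (nat_lit 157) (nat_lit 107) (nat_lit 5) (nat_lit 5) (nat_lit 6) L54638 (by decide +kernel)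
theorem L54640 : W_8 (nat_lit 5) (nat_lit 0x2c0014001200098000000000000000000000000000000) (nat_lit 0x0) (nat_lit 0xc00060003000000002000100000000800000000000000000000000000) := T_8 (nat_lit 192) (nat_lit 140) (nat_lit 4) (nat_lit 5) (nat_lit 11) L54639 (by decide +kernel)
theorem L54641 : W_8 (nat_lit 6) (nat_lit 0x2c0014001200090000000000000000000000000000000) (nat_lit 0x0) (nat_lit 0xc00060003000000002000100008000c00000000000000000000000000) := T_8 (nat_lit 123) (nat_lit 106) (nat_lit 4) (nat_lit 5) (nat_lit 10) L54640 (by decide +kernel)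
theorem L54642 : W_8 (nat_lit 7) (nat_lit 0x280014001200090000000000000000000000000000000) (nat_lit 0x0) (nat_lit 0xc00060003800040002000100008000c00000000000000000000000000) := T_8 (nat_lit 174) (nat_lit 191) (nat_lit 5) (nat_lit 5) (nat_lit 7) L54641 (by decide +kernel)
theorem L54643 : W_8 (nat_lit 2) (nat_lit 0x2c0014001200098001000000000000000000000000000) (nat_lit 0x0) (nat_lit 0x2000000000000800080000000000000000000000) := D_8 (nat_lit 107) (nat_lit 157) (nat_lit 91) (nat_lit 5) (nat_lit 5) (nat_lit 6) (nat_lit 6) (nat_lit 5) (nat_lit 9) (by decide +kernel)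
theorem L54644 : W_8 (nat_lit 3) (nat_lit 0x2c0014001200098000000000000000000000000000000) (nat_lit 0x0) (nat_lit 0x2000000020001800080000000000000000000000) := T_8 (nat_lit 108) (nat_lit 125) (nat_lit 6) (nat_lit 5) (nat_lit 10) L54643 (by decide +kernel)
theorem L54645 : W_8 (nat_lit 4) (nat_lit 0x280014001200098000000000000000000000000000000) (nat_lit 0x0) (nat_lit 0x800040002000000020001800080000000000000000000000) := T_8 (nat_lit 174) (nat_lit 191) (nat_lit 5) (nat_lit 5) (nat_lit 7) L54644 (by decide +kernel)
theorem L54646 : W_8 (nat_lit 5) (nat_lit 0x280014001200090000000000000000000000000000000) (nat_lit 0x0) (nat_lit 0x800040002000000028001c00080000000000000000000000) := T_8 (nat_lit 123) (nat_lit 106) (nat_lit 4) (nat_lit 5) (nat_lit 10) L54645 (by decide +kernel)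
theorem L54647 : W_8 (nat_lit 8) (nat_lit 0x280014001200080000000000000000000000000000000) (nat_lit 0x0) (nat_lit 0xc00060003800040002000100078001c00080000000000000000000000) := Q_8 (nat_lit 124) (C_8 L51354 (C_8 L54620 (C_8 L54636 (C_8 L54642 (C_8 L51654 (C_8 L54646 N_8)))))) (by decide +kernel)
theorem L54648 : W_8 (nat_lit 3) (nat_lit 0x380014001200090000000000000000000000000000000) (nat_lit 0x0) (nat_lit 0x40023000000000000800000000000000000000000000) := T_8 (nat_lit 174) (nat_lit 161) (nat_lit 2) (nat_lit 4) (nat_lit 10) L54621 (by decide +kernel)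
theorem L54649 : W_8 (nat_lit 4) (nat_lit 0x280014001200090000000000000000000000000000000) (nat_lit 0x0) (nat_lit 0x2000140023000000000000800000000000000000000000000) := T_8 (nat_lit 176) (nat_lit 193) (nat_lit 7) (nat_lit 5) (nat_lit 7) L54648 (by decide +kernel)
theorem L54650 : W_8 (nat_lit 5) (nat_lit 0x280014001200080000000000000000000000000000000) (nat_lit 0x0) (nat_lit 0x40003000140023000100078001c00000000000000000000000000) := Q_8 (nat_lit 124) (C_8 L54615 (C_8 L51354 (C_8 L54649 N_8))) (by decide +kernel)
theorem L54651 : W_8 (nat_lit 2) (nat_lit 0x8003c002a0014001300080000000000000000000000000000000) (nat_lit 0x0) (nat_lit 0x20000000000003000000000000000000000000000000000000000) := D_8 (nat_lit 157) (nat_lit 209) (nat_lit 156) (nat_lit 4) (nat_lit 5) (nat_lit 12) (nat_lit 6) (nat_lit 3) (nat_lit 12) (by decide +kernel)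
theorem L54652 : W_8 (nat_lit 3) (nat_lit 0x8003c002a0014001200080000000000000000000000000000000) (nat_lit 0x0) (nat_lit 0x20000000000003000100008000000000000000000000000000000) := T_8 (nat_lit 140) (nat_lit 123) (nat_lit 4) (nat_lit 5) (nat_lit 11) L54651 (by decide +kernel)
theorem L54653 : W_8 (nat_lit 4) (nat_lit 0x3c002a0014001200080000000000000000000000000000000) (nat_lit 0x0) (nat_lit 0x2c000000000003000100008000000000000000000000000000000) := T_8 (nat_lit 207) (nat_lit 206) (nat_lit 1) (nat_lit 6) (nat_lit 11) L54652 (by decide +kernel)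
theorem L54654 : W_8 (nat_lit 5) (nat_lit 0x3c00280014001200080000000000000000000000000000000) (nat_lit 0x0) (nat_lit 0x2c000000030003000100008000000000000000000000000000000) := T_8 (nat_lit 173) (nat_lit 172) (nat_lit 0) (nat_lit 6) (nat_lit 11) L54653 (by decide +kernel)
theorem L54655 : W_8 (nat_lit 6) (nat_lit 0x3800280014001200080000000000000000000000000000000) (nat_lit 0x0) (nat_lit 0x2c000400130003000100008000000000000000000000000000000) := T_8 (nat_lit 190) (nat_lit 176) (nat_lit 2) (nat_lit 3) (nat_lit 11) L54654 (by decide +kernel)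
theorem L54656 : W_8 (nat_lit 7) (nat_lit 0x1800280014001200080000000000000000000000000000000) (nat_lit 0x0) (nat_lit 0x6c002400130003000100008000000000000000000000000000000) := T_8 (nat_lit 193) (nat_lit 210) (nat_lit 7) (nat_lit 5) (nat_lit 8) L54655 (by decide +kernel)
theorem L54657 : W_8 (nat_lit 8) (nat_lit 0x1000280014001200080000000000000000000000000000000) (nat_lit 0x0) (nat_lit 0x7c002c00130003000100008000000000000000000000000000000) := T_8 (nat_lit 191) (nat_lit 208) (nat_lit 5) (nat_lit 5) (nat_lit 8) L54656 (by decide +kernel)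
theorem L54658 : W_8 (nat_lit 4) (nat_lit 0x1000280014001200080000000000000000000000000000000) (nat_lit 0x0) (nat_lit 0x800060002000000002000100008000000000000000000000000000000) := T_8 (nat_lit 140) (nat_lit 123) (nat_lit 4) (nat_lit 5) (nat_lit 11) L36339 (by decide +kernel)
theorem L54659 : W_8 (nat_lit 7) (nat_lit 0x3000280014001200080000000000000000000000000000000) (nat_lit 0x0) (nat_lit 0x19c004c00170020000000000000000000000000000000000000000) := T_8 (nat_lit 191) (nat_lit 208) (nat_lit 5) (nat_lit 5) (nat_lit 8) L51761 (by decide +kernel)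
theorem L54660 : W_8 (nat_lit 8) (nat_lit 0x1000280014001200080000000000000000000000000000000) (nat_lit 0x0) (nat_lit 0x1dc006c00170020000000000000000000000000000000000000000) := T_8 (nat_lit 193) (nat_lit 210) (nat_lit 7) (nat_lit 5) (nat_lit 8) L54659 (by decide +kernel)
theorem L54661 : W_8 (nat_lit 9) (nat_lit 0x280014001200080000000000000000000000000000000) (nat_lit 0x0) (nat_lit 0xa001fc007c00170023000100008000000000000000000000000000000) := Q_8 (nat_lit 192) (C_8 L54657 (C_8 L51474 (C_8 L54658 (C_8 L54660 N_8)))) (by decide +kernel)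
theorem L54663 : W_8 (nat_lit 3) (nat_lit 0x3c0014001200080000000000000000000000000000000) (nat_lit 0x0) (nat_lit 0xe000020000000000010000000000000000000000000000000) := T_8 (nat_lit 194) (nat_lit 195) (nat_lit 3) (nat_lit 4) (nat_lit 10) L54662 (by decide +kernel)
theorem L54664 : W_8 (nat_lit 4) (nat_lit 0x2c0014001200080000000000000000000000000000000) (nat_lit 0x0) (nat_lit 0xe000120020000000010000000000000000000000000000000) := T_8 (nat_lit 176) (nat_lit 161) (nat_lit 2) (nat_lit 4) (nat_lit 10) L54663 (by decide +kernel)
theorem L54665 : W_8 (nat_lit 2) (nat_lit 0x40003e0014001200080000000000000000000000000000000) (nat_lit 0x0) (nat_lit 0x3800000000000000000000000000000000000000) := D_8 (nat_lit 156) (nat_lit 155) (nat_lit 157) (nat_lit 0) (nat_lit 6) (nat_lit 10) (nat_lit 0) (nat_lit 7) (nat_lit 10) (by decide +kernel)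
theorem L54666 : W_8 (nat_lit 3) (nat_lit 0x40003c0014001200080000000000000000000000000000000) (nat_lit 0x0) (nat_lit 0x2000020003800000000000000000000000000000000000000) := T_8 (nat_lit 173) (nat_lit 193) (nat_lit 3) (nat_lit 3) (nat_lit 10) L54665 (by decide +kernel)
theorem L54667 : W_8 (nat_lit 4) (nat_lit 0x3c0014001200080000000000000000000000000000000) (nat_lit 0x0) (nat_lit 0xe000020003800000000000000000000000000000000000000) := T_8 (nat_lit 194) (nat_lit 195) (nat_lit 3) (nat_lit 4) (nat_lit 10) L54666 (by decide +kernel)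
theorem L54668 : W_8 (nat_lit 5) (nat_lit 0x2c0014001200080000000000000000000000000000000) (nat_lit 0x0) (nat_lit 0xe000120023800000000000000000000000000000000000000) := T_8 (nat_lit 176) (nat_lit 161) (nat_lit 2) (nat_lit 4) (nat_lit 10) L54667 (by decide +kernel)
theorem L54669 : W_8 (nat_lit 6) (nat_lit 0x280014001200080000000000000000000000000000000) (nat_lit 0x0) (nat_lit 0xe800160023800000030001800080000000000000000000000) := Q_8 (nat_lit 174) (C_8 L51415 (C_8 L54664 (C_8 L54668 N_8))) (by decide +kernel)
theorem L54670 : W_8 (nat_lit 15) (nat_lit 0x280010001200080000000000000000000000000000000) (nat_lit 0x0) (nat_lit 0x50003e001fc00fc001700278001c0078001c00080000000000000000000000) := Q_8 (nat_lit 158) (C_8 L54596 (C_8 L54616 (C_8 L54631 (C_8 L54647 (C_8 L54650 (C_8 L54661 (C_8 L54669 N_8))))))) (by decide +kernel)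
theorem L54671 : W_8 (nat_lit 2) (nat_lit 0x2c00140012000f0000000000000000000000000000000) (nat_lit 0x0) (nat_lit 0x2000000000000c00000000000000000000000000) := D_8 (nat_lit 107) (nat_lit 157) (nat_lit 106) (nat_lit 5) (nat_lit 5) (nat_lit 6) (nat_lit 0) (nat_lit 8) (nat_lit 7) (by decide +kernel)
theorem L54672 : W_8 (nat_lit 3) (nat_lit 0x2c00140012000b0000000000000000000000000000000) (nat_lit 0x0) (nat_lit 0x2000100040000c00000000000000000000000000) := T_8 (nat_lit 126) (nat_lit 140) (nat_lit 1) (nat_lit 8) (nat_lit 7) L54671 (by decide +kernel)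
theorem L54673 : W_8 (nat_lit 4) (nat_lit 0x2c0014001200090000000000000000000000000000000) (nat_lit 0x0) (nat_lit 0x2000100060001c00000000000000000000000000) := T_8 (nat_lit 125) (nat_lit 108) (nat_lit 6) (nat_lit 5) (nat_lit 10) L54672 (by decide +kernel)
theorem L54674 : W_8 (nat_lit 5) (nat_lit 0x280014001200090000000000000000000000000000000) (nat_lit 0x0) (nat_lit 0x800040002000100060001c00000000000000000000000000) := T_8 (nat_lit 174) (nat_lit 191) (nat_lit 5) (nat_lit 5) (nat_lit 7) L54673 (by decide +kernel)
theorem L54675 : W_8 (nat_lit 2) (nat_lit 0x3800140012000f0000800000000000000000000000000) (nat_lit 0x0) (nat_lit 0x800040002000000000000000000000000000000000000000) := D_8 (nat_lit 174) (nat_lit 157) (nat_lit 191) (nat_lit 5) (nat_lit 5) (nat_lit 6) (nat_lit 5) (nat_lit 5) (nat_lit 7) (by decide +kernel)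
theorem L54676 : W_8 (nat_lit 3) (nat_lit 0x3800140012000f0000000000000000000000000000000) (nat_lit 0x0) (nat_lit 0x80004000a000000000000800000000000000000000000000) := T_8 (nat_lit 107) (nat_lit 159) (nat_lit 7) (nat_lit 5) (nat_lit 6) L54675 (by decide +kernel)
theorem L54677 : W_8 (nat_lit 4) (nat_lit 0x3800140012000b0000000000000000000000000000000) (nat_lit 0x0) (nat_lit 0x80004000a000100040000800000000000000000000000000) := T_8 (nat_lit 126) (nat_lit 140) (nat_lit 1) (nat_lit 8) (nat_lit 7) L54676 (by decide +kernel)
theorem L54678 : W_8 (nat_lit 5) (nat_lit 0x380014001200090000000000000000000000000000000) (nat_lit 0x0) (nat_lit 0x80004000a000100060001800000000000000000000000000) := T_8 (nat_lit 125) (nat_lit 108) (nat_lit 6) (nat_lit 5) (nat_lit 10) L54677 (by decide +kernel)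
theorem L54679 : W_8 (nat_lit 6) (nat_lit 0x280014001200090000000000000000000000000000000) (nat_lit 0x0) (nat_lit 0x280014000a000100060001800000000000000000000000000) := T_8 (nat_lit 176) (nat_lit 193) (nat_lit 7) (nat_lit 5) (nat_lit 7) L54678 (by decide +kernel)
theorem L54680 : W_8 (nat_lit 2) (nat_lit 0x10002c0014001200098000000000000000000000000000000) (nat_lit 0x0) (nat_lit 0x40002000100000000000000000000000000000000000000000000) := D_8 (nat_lit 193) (nat_lit 176) (nat_lit 210) (nat_lit 7) (nat_lit 5) (nat_lit 7) (nat_lit 7) (nat_lit 5) (nat_lit 8) (by decide +kernel)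
theorem L54681 : W_8 (nat_lit 3) (nat_lit 0x2c0014001200098000000000000000000000000000000) (nat_lit 0x0) (nat_lit 0x40003000100000000100000000000000000000000000000000000) := T_8 (nat_lit 192) (nat_lit 140) (nat_lit 4) (nat_lit 5) (nat_lit 11) L54680 (by decide +kernel)
theorem L54682 : W_8 (nat_lit 4) (nat_lit 0x2c0014001200090000000000000000000000000000000) (nat_lit 0x0) (nat_lit 0x40003000100000000100008000400000000000000000000000000) := T_8 (nat_lit 123) (nat_lit 106) (nat_lit 4) (nat_lit 5) (nat_lit 10) L54681 (by decide +kernel)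
theorem L54683 : W_8 (nat_lit 5) (nat_lit 0x280014001200090000000000000000000000000000000) (nat_lit 0x0) (nat_lit 0x40003800140000000100008000400000000000000000000000000) := T_8 (nat_lit 174) (nat_lit 191) (nat_lit 5) (nat_lit 5) (nat_lit 7) L54682 (by decide +kernel)
theorem L54684 : W_8 (nat_lit 2) (nat_lit 0x2c00140012000b0000800000000000000000000000000) (nat_lit 0x0) (nat_lit 0x48000400000000000000000000000000) := D_8 (nat_lit 106) (nat_lit 126) (nat_lit 123) (nat_lit 0) (nat_lit 8) (nat_lit 7) (nat_lit 4) (nat_lit 5) (nat_lit 10) (by decide +kernel)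
theorem L54685 : W_8 (nat_lit 3) (nat_lit 0x2c00140012000b0000000000000000000000000000000) (nat_lit 0x0) (nat_lit 0x2000000048000c00000000000000000000000000) := T_8 (nat_lit 107) (nat_lit 157) (nat_lit 5) (nat_lit 5) (nat_lit 6) L54684 (by decide +kernel)
theorem L54686 : W_8 (nat_lit 4) (nat_lit 0x2c0014001200090000000000000000000000000000000) (nat_lit 0x0) (nat_lit 0x2000000068001c00000000000000000000000000) := T_8 (nat_lit 125) (nat_lit 108) (nat_lit 6) (nat_lit 5) (nat_lit 10) L54685 (by decide +kernel)
theorem L54687 : W_8 (nat_lit 5) (nat_lit 0x280014001200090000000000000000000000000000000) (nat_lit 0x0) (nat_lit 0x800040002000000068001c00000000000000000000000000) := T_8 (nat_lit 174) (nat_lit 191) (nat_lit 5) (nat_lit 5) (nat_lit 7) L54686 (by decide +kernel)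
theorem L54688 : W_8 (nat_lit 7) (nat_lit 0x280014001200080000000000000000000000000000000) (nat_lit 0x0) (nat_lit 0x4000380014000a000100078001c00000000000000000000000000) := Q_8 (nat_lit 124) (C_8 L54674 (C_8 L51354 (C_8 L54679 (C_8 L54683 (C_8 L54687 N_8))))) (by decide +kernel)
theorem L54689 : W_8 (nat_lit 2) (nat_lit 0x8007c002a0014001300080000000000000000000000000000000) (nat_lit 0x0) (nat_lit 0x20000000000003000000000000000000000000000000000000000) := D_8 (nat_lit 157) (nat_lit 209) (nat_lit 156) (nat_lit 4) (nat_lit 5) (nat_lit 12) (nat_lit 6) (nat_lit 3) (nat_lit 12) (by decide +kernel)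
theorem L54690 : W_8 (nat_lit 3) (nat_lit 0x8007c002a0014001200080000000000000000000000000000000) (nat_lit 0x0) (nat_lit 0x20000000000003000100008000000000000000000000000000000) := T_8 (nat_lit 140) (nat_lit 123) (nat_lit 4) (nat_lit 5) (nat_lit 11) L54689 (by decide +kernel)
theorem L54691 : W_8 (nat_lit 4) (nat_lit 0x8003c002a0014001200080000000000000000000000000000000) (nat_lit 0x0) (nat_lit 0x20004000040003000100008000000000000000000000000000000) := T_8 (nat_lit 194) (nat_lit 174) (nat_lit 0) (nat_lit 7) (nat_lit 11) L54690 (by decide +kernel)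
theorem L54692 : W_8 (nat_lit 5) (nat_lit 0x3c002a0014001200080000000000000000000000000000000) (nat_lit 0x0) (nat_lit 0x2c004000040003000100008000000000000000000000000000000) := T_8 (nat_lit 207) (nat_lit 206) (nat_lit 1) (nat_lit 6) (nat_lit 11) L54691 (by decide +kernel)
theorem L54693 : W_8 (nat_lit 6) (nat_lit 0x3c00280014001200080000000000000000000000000000000) (nat_lit 0x0) (nat_lit 0x2c004000070003000100008000000000000000000000000000000) := T_8 (nat_lit 173) (nat_lit 172) (nat_lit 0) (nat_lit 6) (nat_lit 11) L54692 (by decide +kernel)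
theorem L54694 : W_8 (nat_lit 7) (nat_lit 0x3800280014001200080000000000000000000000000000000) (nat_lit 0x0) (nat_lit 0x2c004400170003000100008000000000000000000000000000000) := T_8 (nat_lit 190) (nat_lit 176) (nat_lit 2) (nat_lit 3) (nat_lit 11) L54693 (by decide +kernel)
theorem L54695 : W_8 (nat_lit 8) (nat_lit 0x1800280014001200080000000000000000000000000000000) (nat_lit 0x0) (nat_lit 0x6c006400170003000100008000000000000000000000000000000) := T_8 (nat_lit 193) (nat_lit 210) (nat_lit 7) (nat_lit 5) (nat_lit 8) L54694 (by decide +kernel)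
theorem L54696 : W_8 (nat_lit 9) (nat_lit 0x1000280014001200080000000000000000000000000000000) (nat_lit 0x0) (nat_lit 0x7c006c00170003000100008000000000000000000000000000000) := T_8 (nat_lit 191) (nat_lit 208) (nat_lit 5) (nat_lit 5) (nat_lit 8) L54695 (by decide +kernel)
theorem L54697 : W_8 (nat_lit 2) (nat_lit 0x8003c002e0014001200080000000000000000000000000000000) (nat_lit 0x0) (nat_lit 0x10000000000000000a000000000000000000000000000000000000000) := D_8 (nat_lit 157) (nat_lit 159) (nat_lit 224) (nat_lit 1) (nat_lit 7) (nat_lit 9) (nat_lit 6) (nat_lit 3) (nat_lit 13) (by decide +kernel)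
theorem L54698 : W_8 (nat_lit 3) (nat_lit 0x8003c002a0014001200080000000000000000000000000000000) (nat_lit 0x0) (nat_lit 0x10000000400004000a000000000000000000000000000000000000000) := T_8 (nat_lit 174) (nat_lit 194) (nat_lit 0) (nat_lit 7) (nat_lit 11) L54697 (by decide +kernel)
theorem L54699 : W_8 (nat_lit 4) (nat_lit 0x3c002a0014001200080000000000000000000000000000000) (nat_lit 0x0) (nat_lit 0x10000c00400004000a000000000000000000000000000000000000000) := T_8 (nat_lit 207) (nat_lit 206) (nat_lit 1) (nat_lit 6) (nat_lit 11) L54698 (by decide +kernel)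
theorem L54700 : W_8 (nat_lit 5) (nat_lit 0x3c00280014001200080000000000000000000000000000000) (nat_lit 0x0) (nat_lit 0x10000c00400007000a000000000000000000000000000000000000000) := T_8 (nat_lit 173) (nat_lit 172) (nat_lit 0) (nat_lit 6) (nat_lit 11) L54699 (by decide +kernel)
theorem L54701 : W_8 (nat_lit 6) (nat_lit 0x3800280014001200080000000000000000000000000000000) (nat_lit 0x0) (nat_lit 0x10000c00440017000a000000000000000000000000000000000000000) := T_8 (nat_lit 190) (nat_lit 176) (nat_lit 2) (nat_lit 3) (nat_lit 11) L54700 (by decide +kernel)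
theorem L54702 : W_8 (nat_lit 7) (nat_lit 0x1800280014001200080000000000000000000000000000000) (nat_lit 0x0) (nat_lit 0x10004c00640017000a000000000000000000000000000000000000000) := T_8 (nat_lit 193) (nat_lit 210) (nat_lit 7) (nat_lit 5) (nat_lit 8) L54701 (by decide +kernel)
theorem L54703 : W_8 (nat_lit 8) (nat_lit 0x1000280014001200080000000000000000000000000000000) (nat_lit 0x0) (nat_lit 0x10005c006c0017000a000000000000000000000000000000000000000) := T_8 (nat_lit 191) (nat_lit 208) (nat_lit 5) (nat_lit 5) (nat_lit 8) L54702 (by decide +kernel)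
theorem L54704 : W_8 (nat_lit 2) (nat_lit 0x600020003000280014001300080000000000000000000000000000000) (nat_lit 0x0) (nat_lit 0x8000000000000000100008000000000000000000000000000000000000000) := D_8 (nat_lit 176) (nat_lit 243) (nat_lit 159) (nat_lit 6) (nat_lit 5) (nat_lit 14) (nat_lit 6) (nat_lit 5) (nat_lit 13) (by decide +kernel)
theorem L54705 : W_8 (nat_lit 3) (nat_lit 0x200020003000280014001300080000000000000000000000000000000) (nat_lit 0x0) (nat_lit 0xc000400000000000100008000000000000000000000000000000000000000) := T_8 (nat_lit 226) (nat_lit 242) (nat_lit 5) (nat_lit 5) (nat_lit 10) L54704 (by decide +kernel)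
theorem L54706 : W_8 (nat_lit 4) (nat_lit 0x20003000280014001300080000000000000000000000000000000) (nat_lit 0x0) (nat_lit 0xc000600010000000100008000000000000000000000000000000000000000) := T_8 (nat_lit 225) (nat_lit 208) (nat_lit 5) (nat_lit 5) (nat_lit 9) L54705 (by decide +kernel)
theorem L54707 : W_8 (nat_lit 5) (nat_lit 0x3000280014001300080000000000000000000000000000000) (nat_lit 0x0) (nat_lit 0xc00060003000000010000a000000000000000000000000000000000000000) := T_8 (nat_lit 209) (nat_lit 157) (nat_lit 4) (nat_lit 5) (nat_lit 12) L54706 (by decide +kernel)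
theorem L54708 : W_8 (nat_lit 6) (nat_lit 0x3000280014001200080000000000000000000000000000000) (nat_lit 0x0) (nat_lit 0xc00060003000000010000a000100008000000000000000000000000000000) := T_8 (nat_lit 140) (nat_lit 123) (nat_lit 4) (nat_lit 5) (nat_lit 11) L54707 (by decide +kernel)
theorem L54709 : W_8 (nat_lit 7) (nat_lit 0x1000280014001200080000000000000000000000000000000) (nat_lit 0x0) (nat_lit 0xc00060007000200010000a000100008000000000000000000000000000000) := T_8 (nat_lit 193) (nat_lit 210) (nat_lit 7) (nat_lit 5) (nat_lit 8) L54708 (by decide +kernel)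
theorem L54710 : W_8 (nat_lit 2) (nat_lit 0x4003c002e0014001200080000000000000000000000000000000) (nat_lit 0x0) (nat_lit 0x2000300000000000000000000000000000000000000000000000) := D_8 (nat_lit 189) (nat_lit 205) (nat_lit 188) (nat_lit 1) (nat_lit 5) (nat_lit 11) (nat_lit 2) (nat_lit 1) (nat_lit 11) (by decide +kernel)
theorem L54711 : W_8 (nat_lit 3) (nat_lit 0x4003c002a0014001200080000000000000000000000000000000) (nat_lit 0x0) (nat_lit 0x2004300040000000000000000000000000000000000000000000) := T_8 (nat_lit 174) (nat_lit 194) (nat_lit 0) (nat_lit 7) (nat_lit 11) L54710 (by decide +kernel)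
theorem L54712 : W_8 (nat_lit 4) (nat_lit 0x3c002a0014001200080000000000000000000000000000000) (nat_lit 0x0) (nat_lit 0xe004300040000000000000000000000000000000000000000000) := T_8 (nat_lit 206) (nat_lit 207) (nat_lit 1) (nat_lit 6) (nat_lit 11) L54711 (by decide +kernel)
theorem L54713 : W_8 (nat_lit 5) (nat_lit 0x3c00280014001200080000000000000000000000000000000) (nat_lit 0x0) (nat_lit 0xe004300070000000000000000000000000000000000000000000) := T_8 (nat_lit 173) (nat_lit 172) (nat_lit 0) (nat_lit 6) (nat_lit 11) L54712 (by decide +kernel)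
theorem L54714 : W_8 (nat_lit 6) (nat_lit 0x3800280014001200080000000000000000000000000000000) (nat_lit 0x0) (nat_lit 0xe004700170000000000000000000000000000000000000000000) := T_8 (nat_lit 190) (nat_lit 176) (nat_lit 2) (nat_lit 3) (nat_lit 11) L54713 (by decide +kernel)
theorem L54715 : W_8 (nat_lit 7) (nat_lit 0x3000280014001200080000000000000000000000000000000) (nat_lit 0x0) (nat_lit 0x1e004f00170000000000000000000000000000000000000000000) := T_8 (nat_lit 191) (nat_lit 208) (nat_lit 5) (nat_lit 5) (nat_lit 8) L54714 (by decide +kernel)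
theorem L54716 : W_8 (nat_lit 8) (nat_lit 0x1000280014001200080000000000000000000000000000000) (nat_lit 0x0) (nat_lit 0x5e006f00170000000000000000000000000000000000000000000) := T_8 (nat_lit 193) (nat_lit 210) (nat_lit 7) (nat_lit 5) (nat_lit 8) L54715 (by decide +kernel)
theorem L54717 : W_8 (nat_lit 10) (nat_lit 0x280014001200080000000000000000000000000000000) (nat_lit 0x0) (nat_lit 0xc000f0007e007f0017000b000100008000000000000000000000000000000) := Q_8 (nat_lit 192) (C_8 L54696 (C_8 L51474 (C_8 L54703 (C_8 L54709 (C_8 L54658 (C_8 L54716 N_8)))))) (by decide +kernel)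
theorem L54718 : W_8 (nat_lit 2) (nat_lit 0x3c0014001200098000000000000000000000000000000) (nat_lit 0x0) (nat_lit 0x20008000000000000800000000000000000000000000) := D_8 (nat_lit 159) (nat_lit 173) (nat_lit 107) (nat_lit 2) (nat_lit 3) (nat_lit 10) (nat_lit 7) (nat_lit 5) (nat_lit 6) (by decide +kernel)
theorem L54719 : W_8 (nat_lit 3) (nat_lit 0x380014001200098000000000000000000000000000000) (nat_lit 0x0) (nat_lit 0x800060008000000000000800000000000000000000000000) := T_8 (nat_lit 174) (nat_lit 191) (nat_lit 5) (nat_lit 5) (nat_lit 7) L54718 (by decide +kernel)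
theorem L54720 : W_8 (nat_lit 4) (nat_lit 0x280014001200098000000000000000000000000000000) (nat_lit 0x0) (nat_lit 0x2800160008000000000000800000000000000000000000000) := T_8 (nat_lit 176) (nat_lit 193) (nat_lit 7) (nat_lit 5) (nat_lit 7) L54719 (by decide +kernel)
theorem L54721 : W_8 (nat_lit 5) (nat_lit 0x280014001200090000000000000000000000000000000) (nat_lit 0x0) (nat_lit 0x2800160008000000008000c00000000000000000000000000) := T_8 (nat_lit 123) (nat_lit 106) (nat_lit 4) (nat_lit 5) (nat_lit 10) L54720 (by decide +kernel)
theorem L54722 : W_8 (nat_lit 2) (nat_lit 0x3e00140012000f8000000000000000000000000000000) (nat_lit 0x0) (nat_lit 0x3800000000000000000000000000000000000000) := D_8 (nat_lit 156) (nat_lit 155) (nat_lit 157) (nat_lit 0) (nat_lit 6) (nat_lit 10) (nat_lit 0) (nat_lit 7) (nat_lit 10) (by decide +kernel)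
theorem L54723 : W_8 (nat_lit 3) (nat_lit 0x3c00140012000f8000000000000000000000000000000) (nat_lit 0x0) (nat_lit 0x2000b800000000000000000000000000000000000000) := T_8 (nat_lit 173) (nat_lit 159) (nat_lit 2) (nat_lit 3) (nat_lit 10) L54722 (by decide +kernel)
theorem L54724 : W_8 (nat_lit 4) (nat_lit 0x2c00140012000f8000000000000000000000000000000) (nat_lit 0x0) (nat_lit 0x200012000b800000000000000000000000000000000000000) := T_8 (nat_lit 176) (nat_lit 193) (nat_lit 7) (nat_lit 5) (nat_lit 7) L54723 (by decide +kernel)
theorem L54725 : W_8 (nat_lit 5) (nat_lit 0x2c00140012000f0000000000000000000000000000000) (nat_lit 0x0) (nat_lit 0x200012000b800000008000400000000000000000000000000) := T_8 (nat_lit 123) (nat_lit 106) (nat_lit 4) (nat_lit 5) (nat_lit 10) L54724 (by decide +kernel)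
theorem L54726 : W_8 (nat_lit 6) (nat_lit 0x2c00140012000b0000000000000000000000000000000) (nat_lit 0x0) (nat_lit 0x200012000b800100048000400000000000000000000000000) := T_8 (nat_lit 126) (nat_lit 140) (nat_lit 1) (nat_lit 8) (nat_lit 7) L54725 (by decide +kernel)
theorem L54727 : W_8 (nat_lit 7) (nat_lit 0x2c0014001200090000000000000000000000000000000) (nat_lit 0x0) (nat_lit 0x200012000b800100068001400000000000000000000000000) := T_8 (nat_lit 125) (nat_lit 108) (nat_lit 6) (nat_lit 5) (nat_lit 10) L54726 (by decide +kernel)
theorem L54728 : W_8 (nat_lit 8) (nat_lit 0x280014001200090000000000000000000000000000000) (nat_lit 0x0) (nat_lit 0x280016000b800100068001400000000000000000000000000) := T_8 (nat_lit 174) (nat_lit 191) (nat_lit 5) (nat_lit 5) (nat_lit 7) L54727 (by decide +kernel)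
theorem L54729 : W_8 (nat_lit 9) (nat_lit 0x280014001200080000000000000000000000000000000) (nat_lit 0x0) (nat_lit 0x280016000b800100078001c00000000000000000000000000) := Q_8 (nat_lit 124) (C_8 L54687 (C_8 L51354 (C_8 L54679 (C_8 L54721 (C_8 L54728 N_8))))) (by decide +kernel)
theorem L54730 : W_8 (nat_lit 2) (nat_lit 0x200010003800140013000b0000000000000000000000000000000) (nat_lit 0x0) (nat_lit 0x200010000800000000000000000000000000000000000000000000000) := D_8 (nat_lit 208) (nat_lit 225) (nat_lit 191) (nat_lit 5) (nat_lit 5) (nat_lit 9) (nat_lit 5) (nat_lit 5) (nat_lit 8) (by decide +kernel)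
theorem L54731 : W_8 (nat_lit 3) (nat_lit 0x10003800140013000b0000000000000000000000000000000) (nat_lit 0x0) (nat_lit 0x200030000800000002000000000000000000000000000000000000000) := T_8 (nat_lit 209) (nat_lit 157) (nat_lit 4) (nat_lit 5) (nat_lit 12) L54730 (by decide +kernel)
theorem L54732 : W_8 (nat_lit 4) (nat_lit 0x3800140013000b0000000000000000000000000000000) (nat_lit 0x0) (nat_lit 0x200030001800000002000000008000000000000000000000000000000) := T_8 (nat_lit 192) (nat_lit 123) (nat_lit 4) (nat_lit 5) (nat_lit 11) L54731 (by decide +kernel)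
theorem L54733 : W_8 (nat_lit 5) (nat_lit 0x2800140013000b0000000000000000000000000000000) (nat_lit 0x0) (nat_lit 0x200030003800100002000000008000000000000000000000000000000) := T_8 (nat_lit 176) (nat_lit 193) (nat_lit 7) (nat_lit 5) (nat_lit 7) L54732 (by decide +kernel)
theorem L54734 : W_8 (nat_lit 6) (nat_lit 0x2800140012000b0000000000000000000000000000000) (nat_lit 0x0) (nat_lit 0x200030003800100002000100048000000000000000000000000000000) := T_8 (nat_lit 140) (nat_lit 126) (nat_lit 1) (nat_lit 8) (nat_lit 7) L54733 (by decide +kernel)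
theorem L54735 : W_8 (nat_lit 7) (nat_lit 0x280014001200090000000000000000000000000000000) (nat_lit 0x0) (nat_lit 0x200030003800100002000100068001000000000000000000000000000) := T_8 (nat_lit 125) (nat_lit 108) (nat_lit 6) (nat_lit 5) (nat_lit 10) L54734 (by decide +kernel)
theorem L54736 : W_8 (nat_lit 2) (nat_lit 0x1000100038001c001200098000000000000000000000000000000) (nat_lit 0x0) (nat_lit 0x600020000000000000000000000000000000000000000000000000000) := D_8 (nat_lit 209) (nat_lit 225) (nat_lit 226) (nat_lit 5) (nat_lit 5) (nat_lit 9) (nat_lit 6) (nat_lit 5) (nat_lit 13) (by decide +kernel)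
theorem L54737 : W_8 (nat_lit 3) (nat_lit 0x10001000380014001200098000000000000000000000000000000) (nat_lit 0x0) (nat_lit 0x600020000000000008000000000000800000000000000000000000000) := T_8 (nat_lit 159) (nat_lit 107) (nat_lit 7) (nat_lit 5) (nat_lit 6) L54736 (by decide +kernel)
theorem L54738 : W_8 (nat_lit 4) (nat_lit 0x1000380014001200098000000000000000000000000000000) (nat_lit 0x0) (nat_lit 0x600030000800000008000000000000800000000000000000000000000) := T_8 (nat_lit 208) (nat_lit 191) (nat_lit 5) (nat_lit 5) (nat_lit 8) L54737 (by decide +kernel)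
theorem L54739 : W_8 (nat_lit 5) (nat_lit 0x380014001200098000000000000000000000000000000) (nat_lit 0x0) (nat_lit 0x600030001800000008000100000000800000000000000000000000000) := T_8 (nat_lit 192) (nat_lit 140) (nat_lit 4) (nat_lit 5) (nat_lit 11) L54738 (by decide +kernel)
theorem L54740 : W_8 (nat_lit 6) (nat_lit 0x380014001200090000000000000000000000000000000) (nat_lit 0x0) (nat_lit 0x600030001800000008000100008000c00000000000000000000000000) := T_8 (nat_lit 123) (nat_lit 106) (nat_lit 4) (nat_lit 5) (nat_lit 10) L54739 (by decide +kernel)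
theorem L54741 : W_8 (nat_lit 7) (nat_lit 0x280014001200090000000000000000000000000000000) (nat_lit 0x0) (nat_lit 0x600030003800100008000100008000c00000000000000000000000000) := T_8 (nat_lit 176) (nat_lit 193) (nat_lit 7) (nat_lit 5) (nat_lit 7) L54740 (by decide +kernel)
theorem L54744 : W_8 (nat_lit 4) (nat_lit 0x380014001200090000000000000000000000000000000) (nat_lit 0x0) (nat_lit 0x8000000028001c00020000000000000000000000) := T_8 (nat_lit 125) (nat_lit 108) (nat_lit 6) (nat_lit 5) (nat_lit 10) L54743 (by decide +kernel)
theorem L54745 : W_8 (nat_lit 5) (nat_lit 0x280014001200090000000000000000000000000000000) (nat_lit 0x0) (nat_lit 0x2000100008000000028001c00020000000000000000000000) := T_8 (nat_lit 176) (nat_lit 193) (nat_lit 7) (nat_lit 5) (nat_lit 7) L54744 (by decide +kernel)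
theorem L54746 : W_8 (nat_lit 8) (nat_lit 0x280014001200080000000000000000000000000000000) (nat_lit 0x0) (nat_lit 0x60003000380010000a000100078001c00020000000000000000000000) := Q_8 (nat_lit 124) (C_8 L51354 (C_8 L54735 (C_8 L51362 (C_8 L54741 (C_8 L54745 N_8))))) (by decide +kernel)
theorem L54747 : W_8 (nat_lit 8) (nat_lit 0x280014001200080000000000000000000000000000000) (nat_lit 0x0) (nat_lit 0x6000380007000a000100078001c00000000000000000000000000) := Q_8 (nat_lit 124) (C_8 L54687 (C_8 L51354 (C_8 L54674 (C_8 L54636 (C_8 L51650 (C_8 L51654 N_8)))))) (by decide +kernel)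
theorem L54748 : W_8 (nat_lit 2) (nat_lit 0x380014001300098000800000000000000000000000000) (nat_lit 0x0) (nat_lit 0x2000000000000000040002000000000000000000) := D_8 (nat_lit 90) (nat_lit 73) (nat_lit 157) (nat_lit 5) (nat_lit 5) (nat_lit 4) (nat_lit 5) (nat_lit 5) (nat_lit 5) (by decide +kernel)
theorem L54749 : W_8 (nat_lit 3) (nat_lit 0x380014001300098000000000000000000000000000000) (nat_lit 0x0) (nat_lit 0xa000000000000800040002000000000000000000) := T_8 (nat_lit 107) (nat_lit 159) (nat_lit 7) (nat_lit 5) (nat_lit 6) L54748 (by decide +kernel)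
theorem L54750 : W_8 (nat_lit 4) (nat_lit 0x380014001200098000000000000000000000000000000) (nat_lit 0x0) (nat_lit 0x100000000a000100000000800040002000000000000000000) := T_8 (nat_lit 140) (nat_lit 192) (nat_lit 4) (nat_lit 5) (nat_lit 11) L54749 (by decide +kernel)
theorem L54751 : W_8 (nat_lit 5) (nat_lit 0x380014001200090000000000000000000000000000000) (nat_lit 0x0) (nat_lit 0x100000000a000100008000c00040002000000000000000000) := T_8 (nat_lit 123) (nat_lit 106) (nat_lit 4) (nat_lit 5) (nat_lit 10) L54750 (by decide +kernel)
theorem L54752 : W_8 (nat_lit 6) (nat_lit 0x280014001200090000000000000000000000000000000) (nat_lit 0x0) (nat_lit 0x300010000a000100008000c00040002000000000000000000) := T_8 (nat_lit 176) (nat_lit 193) (nat_lit 7) (nat_lit 5) (nat_lit 7) L54751 (by decide +kernel)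
theorem L54753 : W_8 (nat_lit 2) (nat_lit 0x3800140013000b0000000000000000000000000000000) (nat_lit 0x0) (nat_lit 0x1000000000000000008000400000000000000000000000000) := D_8 (nat_lit 123) (nat_lit 106) (nat_lit 192) (nat_lit 4) (nat_lit 5) (nat_lit 10) (nat_lit 4) (nat_lit 5) (nat_lit 11) (by decide +kernel)
theorem L54754 : W_8 (nat_lit 3) (nat_lit 0x3800140012000b0000000000000000000000000000000) (nat_lit 0x0) (nat_lit 0x1000000000000100048000400000000000000000000000000) := T_8 (nat_lit 140) (nat_lit 126) (nat_lit 1) (nat_lit 8) (nat_lit 7) L54753 (by decide +kernel)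
theorem L54755 : W_8 (nat_lit 4) (nat_lit 0x380014001200090000000000000000000000000000000) (nat_lit 0x0) (nat_lit 0x1000000000000100068001400000000000000000000000000) := T_8 (nat_lit 125) (nat_lit 108) (nat_lit 6) (nat_lit 5) (nat_lit 10) L54754 (by decide +kernel)
theorem L54756 : W_8 (nat_lit 5) (nat_lit 0x280014001200090000000000000000000000000000000) (nat_lit 0x0) (nat_lit 0x3000100000000100068001400000000000000000000000000) := T_8 (nat_lit 176) (nat_lit 193) (nat_lit 7) (nat_lit 5) (nat_lit 7) L54755 (by decide +kernel)
theorem L54757 : W_8 (nat_lit 7) (nat_lit 0x280014001200080000000000000000000000000000000) (nat_lit 0x0) (nat_lit 0x300014000a000100078001c00060002000000000000000000) := Q_8 (nat_lit 124) (C_8 L54745 (C_8 L51354 (C_8 L51362 (C_8 L51367 (C_8 L54752 (C_8 L54756 N_8)))))) (by decide +kernel)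
theorem L54758 : W_8 (nat_lit 7) (nat_lit 0x280014001200080000000000000000000000000000000) (nat_lit 0x0) (nat_lit 0x30001800040002000100078001c00000000000000000000000000) := Q_8 (nat_lit 124) (C_8 L51654 (C_8 L51354 (C_8 L54674 (C_8 L54636 (C_8 L51666 (C_8 L54687 N_8)))))) (by decide +kernel)
theorem L54759 : W_8 (nat_lit 2) (nat_lit 0x2c00140012000b0000800000000000000000000000000) (nat_lit 0x0) (nat_lit 0x2000100008000000000000000000000000000000000000000) := D_8 (nat_lit 176) (nat_lit 193) (nat_lit 159) (nat_lit 7) (nat_lit 5) (nat_lit 7) (nat_lit 7) (nat_lit 5) (nat_lit 6) (by decide +kernel)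
theorem L54760 : W_8 (nat_lit 3) (nat_lit 0x2c00140012000b0000000000000000000000000000000) (nat_lit 0x0) (nat_lit 0x200010000a000000000000800000000000000000000000000) := T_8 (nat_lit 107) (nat_lit 157) (nat_lit 5) (nat_lit 5) (nat_lit 6) L54759 (by decide +kernel)
theorem L54761 : W_8 (nat_lit 4) (nat_lit 0x2c0014001200090000000000000000000000000000000) (nat_lit 0x0) (nat_lit 0x200010000a000000020001800000000000000000000000000) := T_8 (nat_lit 125) (nat_lit 108) (nat_lit 6) (nat_lit 5) (nat_lit 10) L54760 (by decide +kernel)
theorem L54762 : W_8 (nat_lit 5) (nat_lit 0x280014001200090000000000000000000000000000000) (nat_lit 0x0) (nat_lit 0x280014000a000000020001800000000000000000000000000) := T_8 (nat_lit 174) (nat_lit 191) (nat_lit 5) (nat_lit 5) (nat_lit 7) L54761 (by decide +kernel)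
theorem L54763 : W_8 (nat_lit 2) (nat_lit 0x3e00140012000b8000000000000000000000000000000) (nat_lit 0x0) (nat_lit 0x3800000000000000000000000000000000000000) := D_8 (nat_lit 156) (nat_lit 155) (nat_lit 157) (nat_lit 0) (nat_lit 6) (nat_lit 10) (nat_lit 0) (nat_lit 7) (nat_lit 10) (by decide +kernel)
theorem L54764 : W_8 (nat_lit 3) (nat_lit 0x3c00140012000b8000000000000000000000000000000) (nat_lit 0x0) (nat_lit 0x2000b800000000000000000000000000000000000000) := T_8 (nat_lit 173) (nat_lit 159) (nat_lit 2) (nat_lit 3) (nat_lit 10) L54763 (by decide +kernel)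
theorem L54765 : W_8 (nat_lit 4) (nat_lit 0x3800140012000b8000000000000000000000000000000) (nat_lit 0x0) (nat_lit 0x80006000b800000000000000000000000000000000000000) := T_8 (nat_lit 174) (nat_lit 191) (nat_lit 5) (nat_lit 5) (nat_lit 7) L54764 (by decide +kernel)
theorem L54766 : W_8 (nat_lit 5) (nat_lit 0x3800140012000b0000000000000000000000000000000) (nat_lit 0x0) (nat_lit 0x80006000b800000008000400000000000000000000000000) := T_8 (nat_lit 123) (nat_lit 106) (nat_lit 4) (nat_lit 5) (nat_lit 10) L54765 (by decide +kernel)
theorem L54767 : W_8 (nat_lit 6) (nat_lit 0x380014001200090000000000000000000000000000000) (nat_lit 0x0) (nat_lit 0x80006000b800000028001400000000000000000000000000) := T_8 (nat_lit 125) (nat_lit 108) (nat_lit 6) (nat_lit 5) (nat_lit 10) L54766 (by decide +kernel)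
theorem L54768 : W_8 (nat_lit 7) (nat_lit 0x280014001200090000000000000000000000000000000) (nat_lit 0x0) (nat_lit 0x280016000b800000028001400000000000000000000000000) := T_8 (nat_lit 176) (nat_lit 193) (nat_lit 7) (nat_lit 5) (nat_lit 7) L54767 (by decide +kernel)
theorem L54769 : W_8 (nat_lit 8) (nat_lit 0x280014001200080000000000000000000000000000000) (nat_lit 0x0) (nat_lit 0x280016000b800000078001c00020000000000000000000000) := Q_8 (nat_lit 124) (C_8 L54745 (C_8 L54687 (C_8 L54762 (C_8 L54721 (C_8 L54768 N_8))))) (by decide +kernel)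
theorem L54770 : W_8 (nat_lit 3) (nat_lit 0x2c0014001200090000000000000000000000000000000) (nat_lit 0x0) (nat_lit 0x2000120008000000000000800000000000000000000000000) := T_8 (nat_lit 176) (nat_lit 193) (nat_lit 7) (nat_lit 5) (nat_lit 7) L51821 (by decide +kernel)
theorem L54771 : W_8 (nat_lit 4) (nat_lit 0x280014001200090000000000000000000000000000000) (nat_lit 0x0) (nat_lit 0x2800160008000000000000800000000000000000000000000) := T_8 (nat_lit 174) (nat_lit 191) (nat_lit 5) (nat_lit 5) (nat_lit 7) L54770 (by decide +kernel)
theorem L54772 : W_8 (nat_lit 6) (nat_lit 0x280014001200080000000000000000000000000000000) (nat_lit 0x0) (nat_lit 0x10003800160008000100078001c00000000000000000000000000) := Q_8 (nat_lit 124) (C_8 L51666 (C_8 L54771 (C_8 L54756 N_8))) (by decide +kernel)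
theorem L54773 : W_8 (nat_lit 2) (nat_lit 0x3e00140012000f0000000000000000000000000000000) (nat_lit 0x0) (nat_lit 0x3800000000000000000000000000000000000000) := D_8 (nat_lit 156) (nat_lit 155) (nat_lit 157) (nat_lit 0) (nat_lit 6) (nat_lit 10) (nat_lit 0) (nat_lit 7) (nat_lit 10) (by decide +kernel)
theorem L54774 : W_8 (nat_lit 3) (nat_lit 0x3c00140012000f0000000000000000000000000000000) (nat_lit 0x0) (nat_lit 0x2000b800000000000000000000000000000000000000) := T_8 (nat_lit 173) (nat_lit 159) (nat_lit 2) (nat_lit 3) (nat_lit 10) L54773 (by decide +kernel)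
theorem L54775 : W_8 (nat_lit 4) (nat_lit 0x3800140012000f0000000000000000000000000000000) (nat_lit 0x0) (nat_lit 0x80006000b800000000000000000000000000000000000000) := T_8 (nat_lit 174) (nat_lit 191) (nat_lit 5) (nat_lit 5) (nat_lit 7) L54774 (by decide +kernel)
theorem L54776 : W_8 (nat_lit 5) (nat_lit 0x2800140012000f0000000000000000000000000000000) (nat_lit 0x0) (nat_lit 0x280016000b800000000000000000000000000000000000000) := T_8 (nat_lit 176) (nat_lit 193) (nat_lit 7) (nat_lit 5) (nat_lit 7) L54775 (by decide +kernel)
theorem L54777 : W_8 (nat_lit 6) (nat_lit 0x2800140012000b0000000000000000000000000000000) (nat_lit 0x0) (nat_lit 0x280016000b800100040000000000000000000000000000000) := T_8 (nat_lit 126) (nat_lit 140) (nat_lit 1) (nat_lit 8) (nat_lit 7) L54776 (by decide +kernel)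
theorem L54778 : W_8 (nat_lit 7) (nat_lit 0x280014001200090000000000000000000000000000000) (nat_lit 0x0) (nat_lit 0x280016000b800100060001000000000000000000000000000) := T_8 (nat_lit 125) (nat_lit 108) (nat_lit 6) (nat_lit 5) (nat_lit 10) L54777 (by decide +kernel)
theorem L54779 : W_8 (nat_lit 8) (nat_lit 0x280014001200080000000000000000000000000000000) (nat_lit 0x0) (nat_lit 0x280016000b800100070001c00000000000000000000000000) := Q_8 (nat_lit 124) (C_8 L54771 (C_8 L51362 (C_8 L54674 (C_8 L54778 N_8)))) (by decide +kernel)
theorem L54780 : W_8 (nat_lit 11) (nat_lit 0x280010001200080000000000000000000000000000000) (nat_lit 0x0) (nat_lit 0xc000f0007e007f0017000f800100078001c00060002000000000000000000) := Q_8 (nat_lit 158) (C_8 L54688 (C_8 L54717 (C_8 L54729 (C_8 L54746 (C_8 L54747 (C_8 L54757 (C_8 L54758 (C_8 L54769 (C_8 L54772 (C_8 L54779 N_8)))))))))) (by decide +kernel)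
theorem L54781 : W_8 (nat_lit 2) (nat_lit 0x800000002c00340012000b0000400000000000000000000000000) (nat_lit 0x0) (nat_lit 0x2000000040000800000000000000000000000000) := D_8 (nat_lit 107) (nat_lit 157) (nat_lit 126) (nat_lit 5) (nat_lit 5) (nat_lit 6) (nat_lit 0) (nat_lit 8) (nat_lit 7) (by decide +kernel)
theorem L54782 : W_8 (nat_lit 3) (nat_lit 0x800000002c00340012000b0000000000000000000000000000000) (nat_lit 0x0) (nat_lit 0x2000000048000c00000000000000000000000000) := T_8 (nat_lit 106) (nat_lit 123) (nat_lit 4) (nat_lit 5) (nat_lit 10) L54781 (by decide +kernel)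
theorem L54783 : W_8 (nat_lit 4) (nat_lit 0x800000002c0034001200090000000000000000000000000000000) (nat_lit 0x0) (nat_lit 0x2000000068001c00000000000000000000000000) := T_8 (nat_lit 125) (nat_lit 108) (nat_lit 6) (nat_lit 5) (nat_lit 10) L54782 (by decide +kernel)
theorem L54784 : W_8 (nat_lit 5) (nat_lit 0x2c0034001200090000000000000000000000000000000) (nat_lit 0x0) (nat_lit 0x80004000000002000000068001c00000000000000000000000000) := T_8 (nat_lit 211) (nat_lit 194) (nat_lit 6) (nat_lit 7) (nat_lit 12) L54783 (by decide +kernel)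
theorem L54785 : W_8 (nat_lit 6) (nat_lit 0x2c0034001200080000000000000000000000000000000) (nat_lit 0x0) (nat_lit 0x80004800000002000000078001c00000000000000000000000000) := T_8 (nat_lit 124) (nat_lit 191) (nat_lit 5) (nat_lit 5) (nat_lit 7) L54784 (by decide +kernel)
theorem L54786 : W_8 (nat_lit 7) (nat_lit 0x2c0014001200080000000000000000000000000000000) (nat_lit 0x0) (nat_lit 0x8000480000002a000000078001c00000000000000000000000000) := T_8 (nat_lit 161) (nat_lit 159) (nat_lit 1) (nat_lit 8) (nat_lit 9) L54785 (by decide +kernel)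
theorem L54787 : W_8 (nat_lit 2) (nat_lit 0x800000002c00340012000b0000400000000000000000000000000) (nat_lit 0x0) (nat_lit 0x40000800020000000000000000000000) := D_8 (nat_lit 107) (nat_lit 126) (nat_lit 89) (nat_lit 0) (nat_lit 8) (nat_lit 7) (nat_lit 4) (nat_lit 5) (nat_lit 9) (by decide +kernel)
theorem L54788 : W_8 (nat_lit 3) (nat_lit 0x800000002c00340012000b0000000000000000000000000000000) (nat_lit 0x0) (nat_lit 0x48000c00020000000000000000000000) := T_8 (nat_lit 106) (nat_lit 123) (nat_lit 4) (nat_lit 5) (nat_lit 10) L54787 (by decide +kernel)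
theorem L54789 : W_8 (nat_lit 4) (nat_lit 0x800000002c0034001200090000000000000000000000000000000) (nat_lit 0x0) (nat_lit 0x68001c00020000000000000000000000) := T_8 (nat_lit 125) (nat_lit 108) (nat_lit 6) (nat_lit 5) (nat_lit 10) L54788 (by decide +kernel)
theorem L54790 : W_8 (nat_lit 5) (nat_lit 0x2c0034001200090000000000000000000000000000000) (nat_lit 0x0) (nat_lit 0x80004000000000000000068001c00020000000000000000000000) := T_8 (nat_lit 211) (nat_lit 194) (nat_lit 6) (nat_lit 7) (nat_lit 12) L54789 (by decide +kernel)
theorem L54791 : W_8 (nat_lit 6) (nat_lit 0x2c0034001200080000000000000000000000000000000) (nat_lit 0x0) (nat_lit 0x80004800000000000000078001c00020000000000000000000000) := T_8 (nat_lit 124) (nat_lit 191) (nat_lit 5) (nat_lit 5) (nat_lit 7) L54790 (by decide +kernel)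
theorem L54792 : W_8 (nat_lit 7) (nat_lit 0x2c0014001200080000000000000000000000000000000) (nat_lit 0x0) (nat_lit 0x80004800000028000000078001c00020000000000000000000000) := T_8 (nat_lit 161) (nat_lit 159) (nat_lit 1) (nat_lit 8) (nat_lit 9) L54791 (by decide +kernel)
theorem L54793 : W_8 (nat_lit 8) (nat_lit 0x2c0010001200080000000000000000000000000000000) (nat_lit 0x0) (nat_lit 0x8000480003002e000000078001c000a0000000000000000000000) := Q_8 (nat_lit 158) (C_8 L54786 (C_8 L51415 (C_8 L51412 (C_8 L54792 N_8)))) (by decide +kernel)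
theorem L54794 : W_8 (nat_lit 2) (nat_lit 0x48003c0014001200080000000000000000000000000000000) (nat_lit 0x0) (nat_lit 0x10000000000003000000000000000000000000000000000000000) := D_8 (nat_lit 157) (nat_lit 156) (nat_lit 208) (nat_lit 0) (nat_lit 7) (nat_lit 10) (nat_lit 6) (nat_lit 4) (nat_lit 12) (by decide +kernel)
theorem L54795 : W_8 (nat_lit 3) (nat_lit 0x48003c0010001200080000000000000000000000000000000) (nat_lit 0x0) (nat_lit 0x10000000000007000000010000000000000000000000000000000) := T_8 (nat_lit 158) (nat_lit 124) (nat_lit 5) (nat_lit 5) (nat_lit 7) L54794 (by decide +kernel)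
theorem L54796 : W_8 (nat_lit 4) (nat_lit 0x8003c0010001200080000000000000000000000000000000) (nat_lit 0x0) (nat_lit 0x1000c000000007000000010000000000000000000000000000000) := T_8 (nat_lit 194) (nat_lit 195) (nat_lit 3) (nat_lit 4) (nat_lit 10) L54795 (by decide +kernel)
theorem L54797 : W_8 (nat_lit 5) (nat_lit 0x3c0010001200080000000000000000000000000000000) (nat_lit 0x0) (nat_lit 0x1000cc00000007000000010000000000000000000000000000000) := T_8 (nat_lit 191) (nat_lit 190) (nat_lit 1) (nat_lit 7) (nat_lit 10) L54796 (by decide +kernel)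
theorem L54798 : W_8 (nat_lit 6) (nat_lit 0x2c0010001200080000000000000000000000000000000) (nat_lit 0x0) (nat_lit 0x1000ec0012000f800000010000000000000000000000000000000) := Q_8 (nat_lit 176) (C_8 L33513 (C_8 L54797 (C_8 L54586 N_8))) (by decide +kernel)
theorem L54799 : W_8 (nat_lit 6) (nat_lit 0x2c0010001200080000000000000000000000000000000) (nat_lit 0x0) (nat_lit 0x1000cc00100027000000010000000000000000000000000000000) := T_8 (nat_lit 176) (nat_lit 161) (nat_lit 2) (nat_lit 4) (nat_lit 10) L54797 (by decide +kernel)
theorem L54800 : W_8 (nat_lit 9) (nat_lit 0x280010001200080000000000000000000000000000000) (nat_lit 0x0) (nat_lit 0x9000ec0017002f800000078001c000a0000000000000000000000) := Q_8 (nat_lit 174) (C_8 L54793 (C_8 L51422 (C_8 L54798 (C_8 L54799 (C_8 L54587 N_8))))) (by decide +kernel)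
theorem L54801 : W_8 (nat_lit 2) (nat_lit 0x800000002c00340012000f0000000000000000000000000000000) (nat_lit 0x0) (nat_lit 0x2000000000000c00000000000000000000000000) := D_8 (nat_lit 107) (nat_lit 157) (nat_lit 106) (nat_lit 5) (nat_lit 5) (nat_lit 6) (nat_lit 0) (nat_lit 8) (nat_lit 7) (by decide +kernel)
theorem L54802 : W_8 (nat_lit 3) (nat_lit 0x800000002c00340012000b0000000000000000000000000000000) (nat_lit 0x0) (nat_lit 0x2000100040000c00000000000000000000000000) := T_8 (nat_lit 126) (nat_lit 140) (nat_lit 1) (nat_lit 8) (nat_lit 7) L54801 (by decide +kernel)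
theorem L54803 : W_8 (nat_lit 4) (nat_lit 0x800000002c0034001200090000000000000000000000000000000) (nat_lit 0x0) (nat_lit 0x2000100060001c00000000000000000000000000) := T_8 (nat_lit 125) (nat_lit 108) (nat_lit 6) (nat_lit 5) (nat_lit 10) L54802 (by decide +kernel)
theorem L54804 : W_8 (nat_lit 5) (nat_lit 0x2c0034001200090000000000000000000000000000000) (nat_lit 0x0) (nat_lit 0x80004000000002000100060001c00000000000000000000000000) := T_8 (nat_lit 211) (nat_lit 194) (nat_lit 6) (nat_lit 7) (nat_lit 12) L54803 (by decide +kernel)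
theorem L54805 : W_8 (nat_lit 6) (nat_lit 0x2c0034001200080000000000000000000000000000000) (nat_lit 0x0) (nat_lit 0x80004800000002000100070001c00000000000000000000000000) := T_8 (nat_lit 124) (nat_lit 191) (nat_lit 5) (nat_lit 5) (nat_lit 7) L54804 (by decide +kernel)
theorem L54806 : W_8 (nat_lit 7) (nat_lit 0x2c0014001200080000000000000000000000000000000) (nat_lit 0x0) (nat_lit 0x8000480000002a000100070001c00000000000000000000000000) := T_8 (nat_lit 161) (nat_lit 159) (nat_lit 1) (nat_lit 8) (nat_lit 9) L54805 (by decide +kernel)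
theorem L54807 : W_8 (nat_lit 8) (nat_lit 0x2c0010001200080000000000000000000000000000000) (nat_lit 0x0) (nat_lit 0x20009000580003002e000100070001c00080000000000000000000000) := Q_8 (nat_lit 158) (C_8 L54806 (C_8 L51415 (C_8 L51412 (C_8 L51662 N_8)))) (by decide +kernel)
theorem L54808 : W_8 (nat_lit 2) (nat_lit 0x48003c0010001200090000000000000000000000000000000) (nat_lit 0x0) (nat_lit 0x3000100000000000000000000000000000000000) := D_8 (nat_lit 157) (nat_lit 156) (nat_lit 140) (nat_lit 0) (nat_lit 7) (nat_lit 10) (nat_lit 6) (nat_lit 4) (nat_lit 11) (by decide +kernel)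
theorem L54809 : W_8 (nat_lit 3) (nat_lit 0x48003c0010001200080000000000000000000000000000000) (nat_lit 0x0) (nat_lit 0x7000100010000000000000000000000000000000) := T_8 (nat_lit 124) (nat_lit 158) (nat_lit 5) (nat_lit 5) (nat_lit 7) L54808 (by decide +kernel)
theorem L54810 : W_8 (nat_lit 4) (nat_lit 0x8003c0010001200080000000000000000000000000000000) (nat_lit 0x0) (nat_lit 0xc000000007000100010000000000000000000000000000000) := T_8 (nat_lit 194) (nat_lit 195) (nat_lit 3) (nat_lit 4) (nat_lit 10) L54809 (by decide +kernel)
theorem L54811 : W_8 (nat_lit 5) (nat_lit 0x3c0010001200080000000000000000000000000000000) (nat_lit 0x0) (nat_lit 0xcc00000007000100010000000000000000000000000000000) := T_8 (nat_lit 191) (nat_lit 190) (nat_lit 1) (nat_lit 7) (nat_lit 10) L54810 (by decide +kernel)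
theorem L54812 : W_8 (nat_lit 6) (nat_lit 0x2c0010001200080000000000000000000000000000000) (nat_lit 0x0) (nat_lit 0xec0012000f800100010000000000000000000000000000000) := Q_8 (nat_lit 176) (C_8 L33513 (C_8 L54811 (C_8 L54586 N_8))) (by decide +kernel)
theorem L54813 : W_8 (nat_lit 6) (nat_lit 0x2c0010001200080000000000000000000000000000000) (nat_lit 0x0) (nat_lit 0xcc00100027000100010000000000000000000000000000000) := T_8 (nat_lit 176) (nat_lit 161) (nat_lit 2) (nat_lit 4) (nat_lit 10) L54811 (by decide +kernel)
theorem L54814 : W_8 (nat_lit 9) (nat_lit 0x280010001200080000000000000000000000000000000) (nat_lit 0x0) (nat_lit 0x20009000fc0017002f800100070001c00080000000000000000000000) := Q_8 (nat_lit 174) (C_8 L54807 (C_8 L51422 (C_8 L54812 (C_8 L54813 (C_8 L54587 N_8))))) (by decide +kernel)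
theorem L54815 : W_8 (nat_lit 2) (nat_lit 0x7800280016001300080000000000000000000000000000000) (nat_lit 0x0) (nat_lit 0x28000080000000000000000000000000000000000) := D_8 (nat_lit 159) (nat_lit 161) (nat_lit 139) (nat_lit 0) (nat_lit 8) (nat_lit 9) (nat_lit 0) (nat_lit 7) (nat_lit 9) (by decide +kernel)
theorem L54816 : W_8 (nat_lit 3) (nat_lit 0x7800280014001300080000000000000000000000000000000) (nat_lit 0x0) (nat_lit 0x2000000000002a000080000000000000000000000000000000000) := T_8 (nat_lit 157) (nat_lit 209) (nat_lit 4) (nat_lit 5) (nat_lit 12) L54815 (by decide +kernel)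
theorem L54817 : W_8 (nat_lit 4) (nat_lit 0x7800280014001200080000000000000000000000000000000) (nat_lit 0x0) (nat_lit 0x2000000000002a000180008000000000000000000000000000000) := T_8 (nat_lit 140) (nat_lit 123) (nat_lit 4) (nat_lit 5) (nat_lit 11) L54816 (by decide +kernel)
theorem L54818 : W_8 (nat_lit 5) (nat_lit 0x5800280014001200080000000000000000000000000000000) (nat_lit 0x0) (nat_lit 0x6000200000002a000180008000000000000000000000000000000) := T_8 (nat_lit 193) (nat_lit 210) (nat_lit 7) (nat_lit 5) (nat_lit 8) L54817 (by decide +kernel)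
theorem L54819 : W_8 (nat_lit 6) (nat_lit 0x5000280014001200080000000000000000000000000000000) (nat_lit 0x0) (nat_lit 0x7000280000002a000180008000000000000000000000000000000) := T_8 (nat_lit 191) (nat_lit 208) (nat_lit 5) (nat_lit 5) (nat_lit 8) L54818 (by decide +kernel)
theorem L54820 : W_8 (nat_lit 2) (nat_lit 0x20005000280014001300080000000000000000000000000000000) (nat_lit 0x0) (nat_lit 0x200010000800000000000000000000000000000000000000000000000) := D_8 (nat_lit 208) (nat_lit 225) (nat_lit 191) (nat_lit 5) (nat_lit 5) (nat_lit 9) (nat_lit 5) (nat_lit 5) (nat_lit 8) (by decide +kernel)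
theorem L54821 : W_8 (nat_lit 3) (nat_lit 0x5000280014001300080000000000000000000000000000000) (nat_lit 0x0) (nat_lit 0x200030000800000002000000000000000000000000000000000000000) := T_8 (nat_lit 209) (nat_lit 157) (nat_lit 4) (nat_lit 5) (nat_lit 12) L54820 (by decide +kernel)
theorem L54822 : W_8 (nat_lit 4) (nat_lit 0x5000280014001200080000000000000000000000000000000) (nat_lit 0x0) (nat_lit 0x200030000800000002000100008000000000000000000000000000000) := T_8 (nat_lit 140) (nat_lit 123) (nat_lit 4) (nat_lit 5) (nat_lit 11) L54821 (by decide +kernel)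
theorem L54823 : W_8 (nat_lit 4) (nat_lit 0x5000280014001200080000000000000000000000000000000) (nat_lit 0x0) (nat_lit 0x800060002000000002000100008000000000000000000000000000000) := T_8 (nat_lit 140) (nat_lit 123) (nat_lit 4) (nat_lit 5) (nat_lit 11) L36334 (by decide +kernel)
theorem L54824 : W_8 (nat_lit 2) (nat_lit 0xf000280014001200080000000000000000000000000000000) (nat_lit 0x0) (nat_lit 0x30000800000000000000000000000000000000000000000000000) := D_8 (nat_lit 208) (nat_lit 209) (nat_lit 191) (nat_lit 1) (nat_lit 8) (nat_lit 11) (nat_lit 5) (nat_lit 5) (nat_lit 8) (by decide +kernel)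
theorem L54825 : W_8 (nat_lit 3) (nat_lit 0x7000280014001200080000000000000000000000000000000) (nat_lit 0x0) (nat_lit 0x30008800040000000000000000000000000000000000000000000) := T_8 (nat_lit 195) (nat_lit 174) (nat_lit 0) (nat_lit 8) (nat_lit 11) L54824 (by decide +kernel)
theorem L54826 : W_8 (nat_lit 4) (nat_lit 0x5000280014001200080000000000000000000000000000000) (nat_lit 0x0) (nat_lit 0x7000a800040000000000000000000000000000000000000000000) := T_8 (nat_lit 193) (nat_lit 210) (nat_lit 7) (nat_lit 5) (nat_lit 8) L54825 (by decide +kernel)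
theorem L54827 : W_8 (nat_lit 2) (nat_lit 0x7800280034001300080000000000000000000000000000000) (nat_lit 0x0) (nat_lit 0x8000060000000000000000000000000000000000000000000) := D_8 (nat_lit 174) (nat_lit 195) (nat_lit 173) (nat_lit 0) (nat_lit 8) (nat_lit 11) (nat_lit 0) (nat_lit 7) (nat_lit 11) (by decide +kernel)
theorem L54828 : W_8 (nat_lit 3) (nat_lit 0x5800280034001300080000000000000000000000000000000) (nat_lit 0x0) (nat_lit 0x4000a000060000000000000000000000000000000000000000000) := T_8 (nat_lit 193) (nat_lit 210) (nat_lit 7) (nat_lit 5) (nat_lit 8) L54827 (by decide +kernel)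
theorem L54829 : W_8 (nat_lit 4) (nat_lit 0x5800280014001300080000000000000000000000000000000) (nat_lit 0x0) (nat_lit 0x4000a000060028000000000000000000000000000000000000000) := T_8 (nat_lit 161) (nat_lit 159) (nat_lit 0) (nat_lit 8) (nat_lit 9) L54828 (by decide +kernel)
theorem L54830 : W_8 (nat_lit 5) (nat_lit 0x5800280014001200080000000000000000000000000000000) (nat_lit 0x0) (nat_lit 0x4000a000060028000100008000000000000000000000000000000) := T_8 (nat_lit 140) (nat_lit 123) (nat_lit 4) (nat_lit 5) (nat_lit 11) L54829 (by decide +kernel)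
theorem L54831 : W_8 (nat_lit 6) (nat_lit 0x5000280014001200080000000000000000000000000000000) (nat_lit 0x0) (nat_lit 0x5000a800060028000100008000000000000000000000000000000) := T_8 (nat_lit 191) (nat_lit 208) (nat_lit 5) (nat_lit 5) (nat_lit 8) L54830 (by decide +kernel)
theorem L54832 : W_8 (nat_lit 7) (nat_lit 0x5000280010001200080000000000000000000000000000000) (nat_lit 0x0) (nat_lit 0xa0007000a80006002e000180008000000000000000000000000000000) := Q_8 (nat_lit 158) (C_8 L54819 (C_8 L54822 (C_8 L54823 (C_8 L54826 (C_8 L54831 N_8))))) (by decide +kernel)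
theorem L54833 : W_8 (nat_lit 2) (nat_lit 0x4007c00290014001200080000000000000000000000000000000) (nat_lit 0x0) (nat_lit 0x2000200008000000000000000000000000000000000000000000) := D_8 (nat_lit 189) (nat_lit 171) (nat_lit 205) (nat_lit 0) (nat_lit 5) (nat_lit 11) (nat_lit 1) (nat_lit 5) (nat_lit 11) (by decide +kernel)
theorem L54834 : W_8 (nat_lit 3) (nat_lit 0x7c00290014001200080000000000000000000000000000000) (nat_lit 0x0) (nat_lit 0xe000200008000000000000000000000000000000000000000000) := T_8 (nat_lit 206) (nat_lit 207) (nat_lit 1) (nat_lit 6) (nat_lit 11) L54833 (by decide +kernel)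
theorem L54835 : W_8 (nat_lit 4) (nat_lit 0x7c00280014001200080000000000000000000000000000000) (nat_lit 0x0) (nat_lit 0xe000200038000000000000000000000000000000000000000000) := T_8 (nat_lit 172) (nat_lit 173) (nat_lit 0) (nat_lit 6) (nat_lit 11) L54834 (by decide +kernel)
theorem L54836 : W_8 (nat_lit 5) (nat_lit 0x7800280014001200080000000000000000000000000000000) (nat_lit 0x0) (nat_lit 0xe000600138000000000000000000000000000000000000000000) := T_8 (nat_lit 190) (nat_lit 176) (nat_lit 2) (nat_lit 3) (nat_lit 11) L54835 (by decide +kernel)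
theorem L54837 : W_8 (nat_lit 6) (nat_lit 0x5800280014001200080000000000000000000000000000000) (nat_lit 0x0) (nat_lit 0x4e002600138000000000000000000000000000000000000000000) := T_8 (nat_lit 193) (nat_lit 210) (nat_lit 7) (nat_lit 5) (nat_lit 8) L54836 (by decide +kernel)
theorem L54838 : W_8 (nat_lit 7) (nat_lit 0x5000280014001200080000000000000000000000000000000) (nat_lit 0x0) (nat_lit 0x5e002e00138000000000000000000000000000000000000000000) := T_8 (nat_lit 191) (nat_lit 208) (nat_lit 5) (nat_lit 5) (nat_lit 8) L54837 (by decide +kernel)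
theorem L54839 : W_8 (nat_lit 8) (nat_lit 0x5000280010001200080000000000000000000000000000000) (nat_lit 0x0) (nat_lit 0xa0007e002e00138006000100008000000000000000000000000000000) := Q_8 (nat_lit 158) (C_8 L54823 (C_8 L54822 (C_8 L54838 N_8))) (by decide +kernel)
theorem L54840 : W_8 (nat_lit 2) (nat_lit 0x70002c0010001200080000000000000000000000000000000) (nat_lit 0x0) (nat_lit 0x800030000000000000000000000000000000000000000000) := D_8 (nat_lit 173) (nat_lit 191) (nat_lit 172) (nat_lit 0) (nat_lit 7) (nat_lit 11) (nat_lit 3) (nat_lit 2) (nat_lit 10) (by decide +kernel)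
theorem L54841 : W_8 (nat_lit 3) (nat_lit 0x50002c0010001200080000000000000000000000000000000) (nat_lit 0x0) (nat_lit 0xa800030000000000000000000000000000000000000000000) := T_8 (nat_lit 193) (nat_lit 195) (nat_lit 0) (nat_lit 8) (nat_lit 11) L54840 (by decide +kernel)
theorem L54842 : W_8 (nat_lit 2) (nat_lit 0x50002c0010001200080000000000000000000000000000000) (nat_lit 0x0) (nat_lit 0x8000100020000000000000000000000000000000000000000) := D_8 (nat_lit 176) (nat_lit 161) (nat_lit 195) (nat_lit 2) (nat_lit 4) (nat_lit 10) (nat_lit 3) (nat_lit 4) (nat_lit 10) (by decide +kernel)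
theorem L54843 : W_8 (nat_lit 2) (nat_lit 0x50003c0010001200080000000000000000000000000000000) (nat_lit 0x0) (nat_lit 0x2000020008000000000000000000000000000000000000000) := D_8 (nat_lit 173) (nat_lit 159) (nat_lit 193) (nat_lit 2) (nat_lit 3) (nat_lit 10) (nat_lit 3) (nat_lit 3) (nat_lit 10) (by decide +kernel)
theorem L54844 : W_8 (nat_lit 3) (nat_lit 0x50002c0010001200080000000000000000000000000000000) (nat_lit 0x0) (nat_lit 0x2000120028000000000000000000000000000000000000000) := T_8 (nat_lit 176) (nat_lit 161) (nat_lit 2) (nat_lit 4) (nat_lit 10) L54843 (by decide +kernel)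
theorem L54845 : W_8 (nat_lit 4) (nat_lit 0x5000280010001200080000000000000000000000000000000) (nat_lit 0x0) (nat_lit 0xa800170028000000000000000000000000000000000000000) := Q_8 (nat_lit 174) (C_8 L54841 (C_8 L54842 (C_8 L54844 N_8))) (by decide +kernel)
theorem L54846 : W_8 (nat_lit 2) (nat_lit 0x8000c000200050002c0034001300080000000000000000000000000000000) (nat_lit 0x0) (nat_lit 0x80004000200000000000000000000000000000000000000000000000000000000) := D_8 (nat_lit 242) (nat_lit 259) (nat_lit 225) (nat_lit 5) (nat_lit 5) (nat_lit 11) (nat_lit 5) (nat_lit 5) (nat_lit 10) (by decide +kernel)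
theorem L54847 : W_8 (nat_lit 3) (nat_lit 0xc000200050002c0034001300080000000000000000000000000000000) (nat_lit 0x0) (nat_lit 0x8000c000200000000800000000000000000000000000000000000000000000000) := T_8 (nat_lit 243) (nat_lit 191) (nat_lit 4) (nat_lit 5) (nat_lit 14) L54846 (by decide +kernel)
theorem L54848 : W_8 (nat_lit 4) (nat_lit 0x8000200050002c0034001300080000000000000000000000000000000) (nat_lit 0x0) (nat_lit 0x8001c000600000000800000000000000000000000000000000000000000000000) := T_8 (nat_lit 226) (nat_lit 244) (nat_lit 7) (nat_lit 5) (nat_lit 10) L54847 (by decide +kernel)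
theorem L54849 : W_8 (nat_lit 5) (nat_lit 0x200050002c0034001300080000000000000000000000000000000) (nat_lit 0x0) (nat_lit 0x8001c000e00040000800000000000000000000000000000000000000000000000) := T_8 (nat_lit 227) (nat_lit 210) (nat_lit 7) (nat_lit 5) (nat_lit 9) L54848 (by decide +kernel)
theorem L54850 : W_8 (nat_lit 6) (nat_lit 0x20005000280034001300080000000000000000000000000000000) (nat_lit 0x0) (nat_lit 0x8001c000e00040000800140000000000000000000000000000000000000000000) := T_8 (nat_lit 174) (nat_lit 176) (nat_lit 2) (nat_lit 4) (nat_lit 10) L54849 (by decide +kernel)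
theorem L54851 : W_8 (nat_lit 7) (nat_lit 0x20005000280014001300080000000000000000000000000000000) (nat_lit 0x0) (nat_lit 0x8001c000e00040000800140028000000000000000000000000000000000000000) := T_8 (nat_lit 161) (nat_lit 159) (nat_lit 0) (nat_lit 8) (nat_lit 9) L54850 (by decide +kernel)
theorem L54852 : W_8 (nat_lit 8) (nat_lit 0x5000280014001300080000000000000000000000000000000) (nat_lit 0x0) (nat_lit 0x8001c000e0006000080014002a000000000000000000000000000000000000000) := T_8 (nat_lit 209) (nat_lit 157) (nat_lit 4) (nat_lit 5) (nat_lit 12) L54851 (by decide +kernel)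
theorem L54853 : W_8 (nat_lit 9) (nat_lit 0x5000280014001200080000000000000000000000000000000) (nat_lit 0x0) (nat_lit 0x8001c000e0006000080014002a000100008000000000000000000000000000000) := T_8 (nat_lit 140) (nat_lit 123) (nat_lit 4) (nat_lit 5) (nat_lit 11) L54852 (by decide +kernel)
theorem L54854 : W_8 (nat_lit 2) (nat_lit 0x7000500038001c001300080000000000000000000000000000000) (nat_lit 0x0) (nat_lit 0x8000060000000000000000000000000000000000000000000) := D_8 (nat_lit 174) (nat_lit 173) (nat_lit 195) (nat_lit 2) (nat_lit 3) (nat_lit 10) (nat_lit 3) (nat_lit 4) (nat_lit 10) (by decide +kernel)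
theorem L54855 : W_8 (nat_lit 3) (nat_lit 0x7000500028001c001300080000000000000000000000000000000) (nat_lit 0x0) (nat_lit 0x400000008000160000000000000000000000000000000000000000000) := T_8 (nat_lit 176) (nat_lit 226) (nat_lit 6) (nat_lit 5) (nat_lit 13) L54854 (by decide +kernel)
theorem L54856 : W_8 (nat_lit 4) (nat_lit 0x70005000280014001300080000000000000000000000000000000) (nat_lit 0x0) (nat_lit 0x400000008000160028000000000000000000000000000000000000000) := T_8 (nat_lit 159) (nat_lit 161) (nat_lit 0) (nat_lit 8) (nat_lit 9) L54855 (by decide +kernel)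
theorem L54857 : W_8 (nat_lit 5) (nat_lit 0x30005000280014001300080000000000000000000000000000000) (nat_lit 0x0) (nat_lit 0xc00040008000160028000000000000000000000000000000000000000) := T_8 (nat_lit 210) (nat_lit 227) (nat_lit 7) (nat_lit 5) (nat_lit 9) L54856 (by decide +kernel)
theorem L54858 : W_8 (nat_lit 6) (nat_lit 0x20005000280014001300080000000000000000000000000000000) (nat_lit 0x0) (nat_lit 0xe00050008000160028000000000000000000000000000000000000000) := T_8 (nat_lit 208) (nat_lit 225) (nat_lit 5) (nat_lit 5) (nat_lit 9) L54857 (by decide +kernel)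
theorem L54859 : W_8 (nat_lit 7) (nat_lit 0x5000280014001300080000000000000000000000000000000) (nat_lit 0x0) (nat_lit 0xe0007000800016002a000000000000000000000000000000000000000) := T_8 (nat_lit 209) (nat_lit 157) (nat_lit 4) (nat_lit 5) (nat_lit 12) L54858 (by decide +kernel)
theorem L54860 : W_8 (nat_lit 8) (nat_lit 0x5000280014001200080000000000000000000000000000000) (nat_lit 0x0) (nat_lit 0xe0007000800016002a000100008000000000000000000000000000000) := T_8 (nat_lit 140) (nat_lit 123) (nat_lit 4) (nat_lit 5) (nat_lit 11) L54859 (by decide +kernel)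
theorem L54861 : W_8 (nat_lit 2) (nat_lit 0xc000300050002c0014001200080000000000000000000000000000000) (nat_lit 0x0) (nat_lit 0x100028000000000000000000000000000000000000000) := D_8 (nat_lit 176) (nat_lit 161) (nat_lit 159) (nat_lit 2) (nat_lit 4) (nat_lit 10) (nat_lit 6) (nat_lit 5) (nat_lit 13) (by decide +kernel)
theorem L54862 : W_8 (nat_lit 3) (nat_lit 0xc00030005000280014001200080000000000000000000000000000000) (nat_lit 0x0) (nat_lit 0x14002a000000000000000000000000000000000000000) := T_8 (nat_lit 174) (nat_lit 157) (nat_lit 4) (nat_lit 5) (nat_lit 13) L54861 (by decide +kernel)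
theorem L54863 : W_8 (nat_lit 4) (nat_lit 0x800030005000280014001200080000000000000000000000000000000) (nat_lit 0x0) (nat_lit 0x1000040000000000014002a000000000000000000000000000000000000000) := T_8 (nat_lit 226) (nat_lit 244) (nat_lit 7) (nat_lit 5) (nat_lit 10) L54862 (by decide +kernel)
theorem L54864 : W_8 (nat_lit 5) (nat_lit 0x30005000280014001200080000000000000000000000000000000) (nat_lit 0x0) (nat_lit 0x10000c0004000000014002a000000000000000000000000000000000000000) := T_8 (nat_lit 227) (nat_lit 210) (nat_lit 7) (nat_lit 5) (nat_lit 9) L54863 (by decide +kernel)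
theorem L54865 : W_8 (nat_lit 6) (nat_lit 0x10005000280014001200080000000000000000000000000000000) (nat_lit 0x0) (nat_lit 0x10000e0006000000014002a000000000000000000000000000000000000000) := T_8 (nat_lit 209) (nat_lit 225) (nat_lit 5) (nat_lit 5) (nat_lit 9) L54864 (by decide +kernel)
theorem L54866 : W_8 (nat_lit 7) (nat_lit 0x5000280014001200080000000000000000000000000000000) (nat_lit 0x0) (nat_lit 0x10000e0007000080014002a000000000000000000000000000000000000000) := T_8 (nat_lit 208) (nat_lit 191) (nat_lit 5) (nat_lit 5) (nat_lit 8) L54865 (by decide +kernel)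
theorem L54867 : W_8 (nat_lit 2) (nat_lit 0x7000500038001c001340080000000000000000000000000000000) (nat_lit 0x0) (nat_lit 0x8000060000000000000000000000000000000000000000000) := D_8 (nat_lit 174) (nat_lit 173) (nat_lit 195) (nat_lit 2) (nat_lit 3) (nat_lit 10) (nat_lit 3) (nat_lit 4) (nat_lit 10) (by decide +kernel)
theorem L54868 : W_8 (nat_lit 3) (nat_lit 0x7000500028001c001340080000000000000000000000000000000) (nat_lit 0x0) (nat_lit 0x400000008000160000000000000000000000000000000000000000000) := T_8 (nat_lit 176) (nat_lit 226) (nat_lit 6) (nat_lit 5) (nat_lit 13) L54867 (by decide +kernel)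
theorem L54869 : W_8 (nat_lit 4) (nat_lit 0x3000500028001c001340080000000000000000000000000000000) (nat_lit 0x0) (nat_lit 0xc00040008000160000000000000000000000000000000000000000000) := T_8 (nat_lit 210) (nat_lit 227) (nat_lit 7) (nat_lit 5) (nat_lit 9) L54868 (by decide +kernel)
theorem L54870 : W_8 (nat_lit 5) (nat_lit 0x1000500028001c001340080000000000000000000000000000000) (nat_lit 0x0) (nat_lit 0xe00060008000160000000000000000000000000000000000000000000) := T_8 (nat_lit 209) (nat_lit 225) (nat_lit 5) (nat_lit 5) (nat_lit 9) L54869 (by decide +kernel)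
theorem L54871 : W_8 (nat_lit 6) (nat_lit 0x1000500028001c001300080000000000000000000000000000000) (nat_lit 0x0) (nat_lit 0xe000600080001600000000c0000000000000000000000000000000000) := T_8 (nat_lit 138) (nat_lit 139) (nat_lit 3) (nat_lit 2) (nat_lit 8) L54870 (by decide +kernel)
theorem L54872 : W_8 (nat_lit 7) (nat_lit 0x10005000280014001300080000000000000000000000000000000) (nat_lit 0x0) (nat_lit 0xe000600080001600280000c0000000000000000000000000000000000) := T_8 (nat_lit 159) (nat_lit 161) (nat_lit 0) (nat_lit 8) (nat_lit 9) L54871 (by decide +kernel)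
theorem L54873 : W_8 (nat_lit 8) (nat_lit 0x10005000280014001200080000000000000000000000000000000) (nat_lit 0x0) (nat_lit 0xe000600080001600280001c0008000000000000000000000000000000) := T_8 (nat_lit 140) (nat_lit 123) (nat_lit 4) (nat_lit 5) (nat_lit 11) L54872 (by decide +kernel)
theorem L54874 : W_8 (nat_lit 9) (nat_lit 0x5000280014001200080000000000000000000000000000000) (nat_lit 0x0) (nat_lit 0xe000700088001600280001c0008000000000000000000000000000000) := T_8 (nat_lit 208) (nat_lit 191) (nat_lit 5) (nat_lit 5) (nat_lit 8) L54873 (by decide +kernel)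
theorem L54875 : W_8 (nat_lit 2) (nat_lit 0x500028001c001300080000000000000000000000000000000) (nat_lit 0x0) (nat_lit 0x20000c0000000000000000000000000000000000) := D_8 (nat_lit 139) (nat_lit 157) (nat_lit 138) (nat_lit 0) (nat_lit 7) (nat_lit 9) (nat_lit 3) (nat_lit 2) (nat_lit 8) (by decide +kernel)
theorem L54876 : W_8 (nat_lit 3) (nat_lit 0x5000280014001300080000000000000000000000000000000) (nat_lit 0x0) (nat_lit 0x2a0000c0000000000000000000000000000000000) := T_8 (nat_lit 159) (nat_lit 161) (nat_lit 0) (nat_lit 8) (nat_lit 9) L54875 (by decide +kernel)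
theorem L54877 : W_8 (nat_lit 4) (nat_lit 0x5000280014001200080000000000000000000000000000000) (nat_lit 0x0) (nat_lit 0x2a0001c0008000000000000000000000000000000) := T_8 (nat_lit 140) (nat_lit 123) (nat_lit 4) (nat_lit 5) (nat_lit 11) L54876 (by decide +kernel)
theorem L54878 : W_8 (nat_lit 10) (nat_lit 0x5000280010001200080000000000000000000000000000000) (nat_lit 0x0) (nat_lit 0x8001c000e0007000880016002e0001c0008000000000000000000000000000000) := Q_8 (nat_lit 158) (C_8 L54822 (C_8 L54853 (C_8 L54860 (C_8 L54866 (C_8 L54874 (C_8 L54877 N_8)))))) (by decide +kernel)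
theorem L54879 : W_8 (nat_lit 2) (nat_lit 0x70002d0016001300080000000000000000000000000000000) (nat_lit 0x0) (nat_lit 0x28000080000000000000000000000000000000000) := D_8 (nat_lit 159) (nat_lit 161) (nat_lit 139) (nat_lit 1) (nat_lit 8) (nat_lit 9) (nat_lit 0) (nat_lit 7) (nat_lit 9) (by decide +kernel)
theorem L54880 : W_8 (nat_lit 3) (nat_lit 0x70002d0014001300080000000000000000000000000000000) (nat_lit 0x0) (nat_lit 0x2000000000002a000080000000000000000000000000000000000) := T_8 (nat_lit 157) (nat_lit 209) (nat_lit 4) (nat_lit 5) (nat_lit 12) L54879 (by decide +kernel)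
theorem L54881 : W_8 (nat_lit 4) (nat_lit 0x70002d0014001200080000000000000000000000000000000) (nat_lit 0x0) (nat_lit 0x2000000000002a000180008000000000000000000000000000000) := T_8 (nat_lit 140) (nat_lit 123) (nat_lit 4) (nat_lit 5) (nat_lit 11) L54880 (by decide +kernel)
theorem L54882 : W_8 (nat_lit 5) (nat_lit 0x70002d0010001200080000000000000000000000000000000) (nat_lit 0x0) (nat_lit 0x6000000000002e000180008000000000000000000000000000000) := T_8 (nat_lit 158) (nat_lit 210) (nat_lit 7) (nat_lit 5) (nat_lit 8) L54881 (by decide +kernel)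
theorem L54883 : W_8 (nat_lit 6) (nat_lit 0x70002c0010001200080000000000000000000000000000000) (nat_lit 0x0) (nat_lit 0x6000000003002e000180008000000000000000000000000000000) := T_8 (nat_lit 172) (nat_lit 173) (nat_lit 3) (nat_lit 2) (nat_lit 10) L54882 (by decide +kernel)
theorem L54884 : W_8 (nat_lit 7) (nat_lit 0x50002c0010001200080000000000000000000000000000000) (nat_lit 0x0) (nat_lit 0x6000a00003002e000180008000000000000000000000000000000) := T_8 (nat_lit 193) (nat_lit 195) (nat_lit 0) (nat_lit 8) (nat_lit 11) L54883 (by decide +kernel)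
theorem L54885 : W_8 (nat_lit 2) (nat_lit 0x50002c0010001200080000000000000000000000000000000) (nat_lit 0x0) (nat_lit 0xa000100000000000000000000000000000000000000000000) := D_8 (nat_lit 195) (nat_lit 193) (nat_lit 176) (nat_lit 0) (nat_lit 8) (nat_lit 11) (nat_lit 3) (nat_lit 4) (nat_lit 10) (by decide +kernel)
theorem L54886 : W_8 (nat_lit 8) (nat_lit 0x5000280010001200080000000000000000000000000000000) (nat_lit 0x0) (nat_lit 0x6000a00017002e000180008000000000000000000000000000000) := Q_8 (nat_lit 174) (C_8 L54884 (C_8 L54844 (C_8 L54842 (C_8 L54885 N_8)))) (by decide +kernel)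
theorem L54887 : W_8 (nat_lit 5) (nat_lit 0x5000280010001200080000000000000000000000000000000) (nat_lit 0x0) (nat_lit 0x7000a80004002e0001c0008000000000000000000000000000000) := Q_8 (nat_lit 158) (C_8 L54877 (C_8 L54826 N_8)) (by decide +kernel)
theorem L54888 : W_8 (nat_lit 11) (nat_lit 0x4000280010001200080000000000000000000000000000000) (nat_lit 0x0) (nat_lit 0x8001c000e0007e00be0017802e0001c0008000000000000000000000000000000) := Q_8 (nat_lit 192) (C_8 L54832 (C_8 L54839 (C_8 L54845 (C_8 L54878 (C_8 L54886 (C_8 L54887 N_8)))))) (by decide +kernel)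
theorem L54889 : W_8 (nat_lit 2) (nat_lit 0x400020001a00580004000380010001200080000000000000000000000000000000) (nat_lit 0x0) (nat_lit 0x10000800040000000000000000000000000000000000000000000000000000000000000) := D_8 (nat_lit 263) (nat_lit 280) (nat_lit 246) (nat_lit 7) (nat_lit 7) (nat_lit 12) (nat_lit 7) (nat_lit 7) (nat_lit 11) (by decide +kernel)
theorem L54890 : W_8 (nat_lit 3) (nat_lit 0x20001a00580004000380010001200080000000000000000000000000000000) (nat_lit 0x0) (nat_lit 0x10000c00040000000000008000000000000000000000000000000000000000000000000) := T_8 (nat_lit 262) (nat_lit 195) (nat_lit 6) (nat_lit 7) (nat_lit 15) L54889 (by decide +kernel)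
theorem L54891 : W_8 (nat_lit 4) (nat_lit 0x20001a00180004000380010001200080000000000000000000000000000000) (nat_lit 0x0) (nat_lit 0x10000c00040000000600008000000000000000000000000000000000000000000000000) := T_8 (nat_lit 214) (nat_lit 213) (nat_lit 1) (nat_lit 10) (nat_lit 12) L54890 (by decide +kernel)
theorem L54892 : W_8 (nat_lit 5) (nat_lit 0x1a00180004000380010001200080000000000000000000000000000000) (nat_lit 0x0) (nat_lit 0x10000c0006000000060000a000000000000000000000000000000000000000000000000) := T_8 (nat_lit 245) (nat_lit 193) (nat_lit 4) (nat_lit 7) (nat_lit 14) L54891 (by decide +kernel)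
theorem L54893 : W_8 (nat_lit 6) (nat_lit 0x1a00180004000280010001200080000000000000000000000000000000) (nat_lit 0x0) (nat_lit 0x10000c0006000000060000a000100008000000000000000000000000000000000000000) := T_8 (nat_lit 176) (nat_lit 159) (nat_lit 4) (nat_lit 7) (nat_lit 13) L54892 (by decide +kernel)
theorem L54894 : W_8 (nat_lit 7) (nat_lit 0x1800180004000280010001200080000000000000000000000000000000) (nat_lit 0x0) (nat_lit 0x10000c0006000060060000a000100008000000000000000000000000000000000000000) := T_8 (nat_lit 225) (nat_lit 226) (nat_lit 2) (nat_lit 4) (nat_lit 13) L54893 (by decide +kernel)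
theorem L54895 : W_8 (nat_lit 8) (nat_lit 0x800180004000280010001200080000000000000000000000000000000) (nat_lit 0x0) (nat_lit 0x10000c0007000160060000a000100008000000000000000000000000000000000000000) := T_8 (nat_lit 228) (nat_lit 244) (nat_lit 5) (nat_lit 7) (nat_lit 10) L54894 (by decide +kernel)
theorem L54896 : W_8 (nat_lit 9) (nat_lit 0x180004000280010001200080000000000000000000000000000000) (nat_lit 0x0) (nat_lit 0x10000c00070001e0064000a000100008000000000000000000000000000000000000000) := T_8 (nat_lit 227) (nat_lit 210) (nat_lit 5) (nat_lit 7) (nat_lit 9) L54895 (by decide +kernel)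
theorem L54897 : W_8 (nat_lit 10) (nat_lit 0x80004000280010001200080000000000000000000000000000000) (nat_lit 0x0) (nat_lit 0x10000c00070003e0074000a000100008000000000000000000000000000000000000000) := T_8 (nat_lit 212) (nat_lit 229) (nat_lit 7) (nat_lit 7) (nat_lit 9) L54896 (by decide +kernel)
theorem L54898 : W_8 (nat_lit 11) (nat_lit 0x4000280010001200080000000000000000000000000000000) (nat_lit 0x0) (nat_lit 0x10000c00070003e007c000a000100028000000000000000000000000000000000000000) := T_8 (nat_lit 211) (nat_lit 161) (nat_lit 6) (nat_lit 7) (nat_lit 12) L54897 (by decide +kernel)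
theorem L54899 : W_8 (nat_lit 2) (nat_lit 0x2800080004000280010001200080000000000000000000000000000000) (nat_lit 0x0) (nat_lit 0x50001000000000000000000000000000000000000000000000000000000000) := D_8 (nat_lit 228) (nat_lit 246) (nat_lit 244) (nat_lit 7) (nat_lit 7) (nat_lit 10) (nat_lit 5) (nat_lit 7) (nat_lit 10) (by decide +kernel)
theorem L54900 : W_8 (nat_lit 3) (nat_lit 0x2000080004000280010001200080000000000000000000000000000000) (nat_lit 0x0) (nat_lit 0x50001800040000000000000000000000000000000000000000000000000000) := T_8 (nat_lit 227) (nat_lit 210) (nat_lit 5) (nat_lit 7) (nat_lit 9) L54899 (by decide +kernel)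
theorem L54901 : W_8 (nat_lit 4) (nat_lit 0x80004000280010001200080000000000000000000000000000000) (nat_lit 0x0) (nat_lit 0x50003800140000000000000000000000000000000000000000000000000000) := T_8 (nat_lit 229) (nat_lit 212) (nat_lit 7) (nat_lit 7) (nat_lit 9) L54900 (by decide +kernel)
theorem L54902 : W_8 (nat_lit 5) (nat_lit 0x4000280010001200080000000000000000000000000000000) (nat_lit 0x0) (nat_lit 0x500038001c0000000000020000000000000000000000000000000000000000) := T_8 (nat_lit 211) (nat_lit 161) (nat_lit 6) (nat_lit 7) (nat_lit 12) L54901 (by decide +kernel)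
theorem L54903 : W_8 (nat_lit 2) (nat_lit 0x20003000080004000380010001200080000000000000000000000000000000) (nat_lit 0x0) (nat_lit 0x200010000800000000000000000000000000000000000000000000000000000000) := D_8 (nat_lit 244) (nat_lit 261) (nat_lit 227) (nat_lit 5) (nat_lit 7) (nat_lit 11) (nat_lit 5) (nat_lit 7) (nat_lit 10) (by decide +kernel)
theorem L54904 : W_8 (nat_lit 3) (nat_lit 0x3000080004000380010001200080000000000000000000000000000000) (nat_lit 0x0) (nat_lit 0x200030000800000002000000000000000000000000000000000000000000000000) := T_8 (nat_lit 245) (nat_lit 193) (nat_lit 4) (nat_lit 7) (nat_lit 14) L54903 (by decide +kernel)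
theorem L54905 : W_8 (nat_lit 4) (nat_lit 0x3000080004000280010001200080000000000000000000000000000000) (nat_lit 0x0) (nat_lit 0x200030000800000002000100008000000000000000000000000000000000000000) := T_8 (nat_lit 176) (nat_lit 159) (nat_lit 4) (nat_lit 7) (nat_lit 13) L54904 (by decide +kernel)
theorem L54906 : W_8 (nat_lit 5) (nat_lit 0x2000080004000280010001200080000000000000000000000000000000) (nat_lit 0x0) (nat_lit 0x200070001800000002000100008000000000000000000000000000000000000000) := T_8 (nat_lit 228) (nat_lit 246) (nat_lit 7) (nat_lit 7) (nat_lit 10) L54905 (by decide +kernel)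
theorem L54907 : W_8 (nat_lit 6) (nat_lit 0x80004000280010001200080000000000000000000000000000000) (nat_lit 0x0) (nat_lit 0x200070003800100002000100008000000000000000000000000000000000000000) := T_8 (nat_lit 229) (nat_lit 212) (nat_lit 7) (nat_lit 7) (nat_lit 9) L54906 (by decide +kernel)
theorem L54908 : W_8 (nat_lit 2) (nat_lit 0x3400b0000900048003c0012001200080000000000000000000000000000000) (nat_lit 0x0) (nat_lit 0x400060000000000000000000000000000000000000000000000000000) := D_8 (nat_lit 209) (nat_lit 226) (nat_lit 210) (nat_lit 7) (nat_lit 4) (nat_lit 9) (nat_lit 3) (nat_lit 4) (nat_lit 12) (by decide +kernel)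
theorem L54909 : W_8 (nat_lit 3) (nat_lit 0x3400b0000800048003c0012001200080000000000000000000000000000000) (nat_lit 0x0) (nat_lit 0x400070000000000004000000000000000000000000000000000000000) := T_8 (nat_lit 208) (nat_lit 158) (nat_lit 6) (nat_lit 4) (nat_lit 12) L54908 (by decide +kernel)
theorem L54910 : W_8 (nat_lit 4) (nat_lit 0x3400b0000800040003c0012001200080000000000000000000000000000000) (nat_lit 0x0) (nat_lit 0x400070000c00000004000000000000000000000000000000000000000) := T_8 (nat_lit 191) (nat_lit 190) (nat_lit 1) (nat_lit 7) (nat_lit 10) L54909 (by decide +kernel)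
theorem L54911 : W_8 (nat_lit 5) (nat_lit 0x3400b0000800040003c0010001200080000000000000000000000000000000) (nat_lit 0x0) (nat_lit 0x400070000c00000007000000000000000000000000000000000000000) := T_8 (nat_lit 157) (nat_lit 156) (nat_lit 0) (nat_lit 7) (nat_lit 10) L54910 (by decide +kernel)
theorem L54912 : W_8 (nat_lit 6) (nat_lit 0x3400b000080004000380010001200080000000000000000000000000000000) (nat_lit 0x0) (nat_lit 0x400070008c00040007000000000000000000000000000000000000000) := T_8 (nat_lit 174) (nat_lit 195) (nat_lit 3) (nat_lit 4) (nat_lit 10) L54911 (by decide +kernel)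
theorem L54913 : W_8 (nat_lit 7) (nat_lit 0x34003000080004000380010001200080000000000000000000000000000000) (nat_lit 0x0) (nat_lit 0xc400070008c00040007000000000000000000000000000000000000000) := T_8 (nat_lit 231) (nat_lit 230) (nat_lit 1) (nat_lit 10) (nat_lit 13) L54912 (by decide +kernel)
theorem L54914 : W_8 (nat_lit 8) (nat_lit 0x30003000080004000380010001200080000000000000000000000000000000) (nat_lit 0x0) (nat_lit 0xc00c400070008c00040007000000000000000000000000000000000000000) := T_8 (nat_lit 242) (nat_lit 243) (nat_lit 2) (nat_lit 4) (nat_lit 14) L54913 (by decide +kernel)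
theorem L54915 : W_8 (nat_lit 9) (nat_lit 0x20003000080004000380010001200080000000000000000000000000000000) (nat_lit 0x0) (nat_lit 0x20001c00c400070008c00040007000000000000000000000000000000000000000) := T_8 (nat_lit 244) (nat_lit 261) (nat_lit 5) (nat_lit 7) (nat_lit 11) L54914 (by decide +kernel)
theorem L54916 : W_8 (nat_lit 10) (nat_lit 0x3000080004000380010001200080000000000000000000000000000000) (nat_lit 0x0) (nat_lit 0x20003c00c40007000ac00040007000000000000000000000000000000000000000) := T_8 (nat_lit 245) (nat_lit 193) (nat_lit 4) (nat_lit 7) (nat_lit 14) L54915 (by decide +kernel)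
theorem L54917 : W_8 (nat_lit 11) (nat_lit 0x3000080004000280010001200080000000000000000000000000000000) (nat_lit 0x0) (nat_lit 0x20003c00c40007000ac0014000f000000000000000000000000000000000000000) := T_8 (nat_lit 176) (nat_lit 159) (nat_lit 4) (nat_lit 7) (nat_lit 13) L54916 (by decide +kernel)
theorem L54918 : W_8 (nat_lit 12) (nat_lit 0x2000080004000280010001200080000000000000000000000000000000) (nat_lit 0x0) (nat_lit 0x20007c00d40007000ac0014000f000000000000000000000000000000000000000) := T_8 (nat_lit 228) (nat_lit 246) (nat_lit 7) (nat_lit 7) (nat_lit 10) L54917 (by decide +kernel)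
theorem L54919 : W_8 (nat_lit 13) (nat_lit 0x80004000280010001200080000000000000000000000000000000) (nat_lit 0x0) (nat_lit 0x20007c00f40017000ac0014000f000000000000000000000000000000000000000) := T_8 (nat_lit 229) (nat_lit 212) (nat_lit 7) (nat_lit 7) (nat_lit 9) L54918 (by decide +kernel)
theorem L54920 : W_8 (nat_lit 2) (nat_lit 0x20001800080004000380010001200080000000000000000000000000000000) (nat_lit 0x0) (nat_lit 0x800040002000000000000000000000000000000000000000000000000000000000) := D_8 (nat_lit 246) (nat_lit 229) (nat_lit 263) (nat_lit 7) (nat_lit 7) (nat_lit 10) (nat_lit 7) (nat_lit 7) (nat_lit 11) (by decide +kernel)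
theorem L54921 : W_8 (nat_lit 3) (nat_lit 0x1800080004000380010001200080000000000000000000000000000000) (nat_lit 0x0) (nat_lit 0x800060002000000002000000000000000000000000000000000000000000000000) := T_8 (nat_lit 245) (nat_lit 193) (nat_lit 4) (nat_lit 7) (nat_lit 14) L54920 (by decide +kernel)
theorem L54922 : W_8 (nat_lit 4) (nat_lit 0x1800080004000280010001200080000000000000000000000000000000) (nat_lit 0x0) (nat_lit 0x800060002000000002000100008000000000000000000000000000000000000000) := T_8 (nat_lit 176) (nat_lit 159) (nat_lit 4) (nat_lit 7) (nat_lit 13) L54921 (by decide +kernel)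
theorem L54923 : W_8 (nat_lit 5) (nat_lit 0x800080004000280010001200080000000000000000000000000000000) (nat_lit 0x0) (nat_lit 0x800070003000000002000100008000000000000000000000000000000000000000) := T_8 (nat_lit 228) (nat_lit 244) (nat_lit 5) (nat_lit 7) (nat_lit 10) L54922 (by decide +kernel)
theorem L54924 : W_8 (nat_lit 6) (nat_lit 0x80004000280010001200080000000000000000000000000000000) (nat_lit 0x0) (nat_lit 0x800070003800040002000100008000000000000000000000000000000000000000) := T_8 (nat_lit 227) (nat_lit 210) (nat_lit 5) (nat_lit 7) (nat_lit 9) L54923 (by decide +kernel)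
theorem L54925 : W_8 (nat_lit 2) (nat_lit 0x160001a000900048003c0012001200080000000000000000000000000000000) (nat_lit 0x0) (nat_lit 0x2000100008000000000000000000000000000000000000000000000000000) := D_8 (nat_lit 224) (nat_lit 207) (nat_lit 241) (nat_lit 5) (nat_lit 4) (nat_lit 9) (nat_lit 5) (nat_lit 4) (nat_lit 10) (by decide +kernel)
theorem L54926 : W_8 (nat_lit 3) (nat_lit 0x160001a000800048003c0012001200080000000000000000000000000000000) (nat_lit 0x0) (nat_lit 0x2000100018000000000004000000000000000000000000000000000000000) := T_8 (nat_lit 208) (nat_lit 158) (nat_lit 6) (nat_lit 4) (nat_lit 12) L54925 (by decide +kernel)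
theorem L54927 : W_8 (nat_lit 4) (nat_lit 0x60001a000800048003c0012001200080000000000000000000000000000000) (nat_lit 0x0) (nat_lit 0x182000100018000000000004000000000000000000000000000000000000000) := T_8 (nat_lit 248) (nat_lit 247) (nat_lit 0) (nat_lit 10) (nat_lit 14) L54926 (by decide +kernel)
theorem L54928 : W_8 (nat_lit 5) (nat_lit 0x600018000800048003c0012001200080000000000000000000000000000000) (nat_lit 0x0) (nat_lit 0x182000700018000000000004000000000000000000000000000000000000000) := T_8 (nat_lit 225) (nat_lit 226) (nat_lit 3) (nat_lit 4) (nat_lit 13) L54927 (by decide +kernel)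
theorem L54929 : W_8 (nat_lit 6) (nat_lit 0x200018000800048003c0012001200080000000000000000000000000000000) (nat_lit 0x0) (nat_lit 0x8001c2000700018000000000004000000000000000000000000000000000000000) := T_8 (nat_lit 246) (nat_lit 263) (nat_lit 7) (nat_lit 7) (nat_lit 11) L54928 (by decide +kernel)
theorem L54930 : W_8 (nat_lit 7) (nat_lit 0x200018000800040003c0012001200080000000000000000000000000000000) (nat_lit 0x0) (nat_lit 0x8001c2000700018000c00000004000000000000000000000000000000000000000) := T_8 (nat_lit 191) (nat_lit 190) (nat_lit 1) (nat_lit 7) (nat_lit 10) L54929 (by decide +kernel)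
theorem L54931 : W_8 (nat_lit 8) (nat_lit 0x200018000800040003c0010001200080000000000000000000000000000000) (nat_lit 0x0) (nat_lit 0x8001c2000700018000c00000007000000000000000000000000000000000000000) := T_8 (nat_lit 157) (nat_lit 156) (nat_lit 0) (nat_lit 7) (nat_lit 10) L54930 (by decide +kernel)
theorem L54932 : W_8 (nat_lit 9) (nat_lit 0x20001800080004000380010001200080000000000000000000000000000000) (nat_lit 0x0) (nat_lit 0x8001c2000700018008c00040007000000000000000000000000000000000000000) := T_8 (nat_lit 174) (nat_lit 195) (nat_lit 3) (nat_lit 4) (nat_lit 10) L54931 (by decide +kernel)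
theorem L54933 : W_8 (nat_lit 10) (nat_lit 0x1800080004000380010001200080000000000000000000000000000000) (nat_lit 0x0) (nat_lit 0x8001e200070001800ac00040007000000000000000000000000000000000000000) := T_8 (nat_lit 245) (nat_lit 193) (nat_lit 4) (nat_lit 7) (nat_lit 14) L54932 (by decide +kernel)
theorem L54934 : W_8 (nat_lit 11) (nat_lit 0x1800080004000280010001200080000000000000000000000000000000) (nat_lit 0x0) (nat_lit 0x8001e200070001800ac0014000f000000000000000000000000000000000000000) := T_8 (nat_lit 176) (nat_lit 159) (nat_lit 4) (nat_lit 7) (nat_lit 13) L54933 (by decide +kernel)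
theorem L54935 : W_8 (nat_lit 12) (nat_lit 0x800080004000280010001200080000000000000000000000000000000) (nat_lit 0x0) (nat_lit 0x8001f200170001800ac0014000f000000000000000000000000000000000000000) := T_8 (nat_lit 228) (nat_lit 244) (nat_lit 5) (nat_lit 7) (nat_lit 10) L54934 (by decide +kernel)
theorem L54936 : W_8 (nat_lit 13) (nat_lit 0x80004000280010001200080000000000000000000000000000000) (nat_lit 0x0) (nat_lit 0x8001f2001f0005800ac0014000f000000000000000000000000000000000000000) := T_8 (nat_lit 227) (nat_lit 210) (nat_lit 5) (nat_lit 7) (nat_lit 9) L54935 (by decide +kernel)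
theorem L54937 : W_8 (nat_lit 2) (nat_lit 0x1d001e000280010001200080000000000000000000000000000000) (nat_lit 0x0) (nat_lit 0x600001000000000000000000000000000000000000000000000000) := D_8 (nat_lit 213) (nat_lit 214) (nat_lit 192) (nat_lit 3) (nat_lit 6) (nat_lit 11) (nat_lit 3) (nat_lit 5) (nat_lit 11) (by decide +kernel)
theorem L54938 : W_8 (nat_lit 3) (nat_lit 0x1d001c000280010001200080000000000000000000000000000000) (nat_lit 0x0) (nat_lit 0x600003000100000000000000000000000000000000000000000000) := T_8 (nat_lit 193) (nat_lit 176) (nat_lit 0) (nat_lit 9) (nat_lit 11) L54937 (by decide +kernel)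
theorem L54939 : W_8 (nat_lit 4) (nat_lit 0xd001c000280010001200080000000000000000000000000000000) (nat_lit 0x0) (nat_lit 0x2000700003000100000000000000000000000000000000000000000000) := T_8 (nat_lit 212) (nat_lit 229) (nat_lit 7) (nat_lit 7) (nat_lit 9) L54938 (by decide +kernel)
theorem L54940 : W_8 (nat_lit 5) (nat_lit 0xd000c000280010001200080000000000000000000000000000000) (nat_lit 0x0) (nat_lit 0x2000700033000100000000000000000000000000000000000000000000) := T_8 (nat_lit 196) (nat_lit 197) (nat_lit 1) (nat_lit 10) (nat_lit 11) L54939 (by decide +kernel)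
theorem L54941 : W_8 (nat_lit 6) (nat_lit 0xc000c000280010001200080000000000000000000000000000000) (nat_lit 0x0) (nat_lit 0x2000730033000100000000000000000000000000000000000000000000) := T_8 (nat_lit 208) (nat_lit 209) (nat_lit 2) (nat_lit 4) (nat_lit 12) L54940 (by decide +kernel)
theorem L54942 : W_8 (nat_lit 7) (nat_lit 0x8000c000280010001200080000000000000000000000000000000) (nat_lit 0x0) (nat_lit 0x2800770033000100000000000000000000000000000000000000000000) := T_8 (nat_lit 210) (nat_lit 227) (nat_lit 5) (nat_lit 7) (nat_lit 9) L54941 (by decide +kernel)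
theorem L54943 : W_8 (nat_lit 2) (nat_lit 0x1c000c000280010001200080000000000000000000000000000000) (nat_lit 0x0) (nat_lit 0x30010000000000000000000000000000000000000000000000000) := D_8 (nat_lit 209) (nat_lit 196) (nat_lit 208) (nat_lit 2) (nat_lit 5) (nat_lit 12) (nat_lit 2) (nat_lit 4) (nat_lit 12) (by decide +kernel)
theorem L54944 : W_8 (nat_lit 3) (nat_lit 0x18000c000280010001200080000000000000000000000000000000) (nat_lit 0x0) (nat_lit 0x800070010000000000000000000000000000000000000000000000000) := T_8 (nat_lit 210) (nat_lit 227) (nat_lit 5) (nat_lit 7) (nat_lit 9) L54943 (by decide +kernel)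
theorem L54945 : W_8 (nat_lit 4) (nat_lit 0x8000c000280010001200080000000000000000000000000000000) (nat_lit 0x0) (nat_lit 0x2800170010000000000000000000000000000000000000000000000000) := T_8 (nat_lit 212) (nat_lit 229) (nat_lit 7) (nat_lit 7) (nat_lit 9) L54944 (by decide +kernel)
theorem L54946 : W_8 (nat_lit 2) (nat_lit 0x8000c000380010001200080000000000000000000000000000000) (nat_lit 0x0) (nat_lit 0x32000000000000000000000000000000000000000000000000) := D_8 (nat_lit 196) (nat_lit 197) (nat_lit 193) (nat_lit 0) (nat_lit 10) (nat_lit 11) (nat_lit 0) (nat_lit 9) (nat_lit 11) (by decide +kernel)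
theorem L54947 : W_8 (nat_lit 3) (nat_lit 0x8000c000280010001200080000000000000000000000000000000) (nat_lit 0x0) (nat_lit 0x32000140000000000000000000000000000000000000000000) := T_8 (nat_lit 176) (nat_lit 174) (nat_lit 3) (nat_lit 4) (nat_lit 10) L54946 (by decide +kernel)
theorem L54948 : W_8 (nat_lit 2) (nat_lit 0x7001d000d8002c0011001200080000000000000000000000000000000) (nat_lit 0x0) (nat_lit 0x8000000000002000080000000000000000000000000000000000) := D_8 (nat_lit 157) (nat_lit 139) (nat_lit 207) (nat_lit 4) (nat_lit 4) (nat_lit 12) (nat_lit 5) (nat_lit 4) (nat_lit 9) (by decide +kernel)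
theorem L54949 : W_8 (nat_lit 3) (nat_lit 0x6001d000d8002c0011001200080000000000000000000000000000000) (nat_lit 0x0) (nat_lit 0x2000100008000000000002000080000000000000000000000000000000000) := T_8 (nat_lit 224) (nat_lit 241) (nat_lit 5) (nat_lit 4) (nat_lit 10) L54948 (by decide +kernel)
theorem L54950 : W_8 (nat_lit 4) (nat_lit 0x6001d000d8002c0010001200080000000000000000000000000000000) (nat_lit 0x0) (nat_lit 0x2000100008000000020003000080000000000000000000000000000000000) := T_8 (nat_lit 156) (nat_lit 173) (nat_lit 4) (nat_lit 4) (nat_lit 13) L54949 (by decide +kernel)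
theorem L54951 : W_8 (nat_lit 5) (nat_lit 0x2001d000d8002c0010001200080000000000000000000000000000000) (nat_lit 0x0) (nat_lit 0xa000500008000000020003000080000000000000000000000000000000000) := T_8 (nat_lit 226) (nat_lit 243) (nat_lit 7) (nat_lit 4) (nat_lit 10) L54950 (by decide +kernel)
theorem L54952 : W_8 (nat_lit 6) (nat_lit 0x1d000d8002c0010001200080000000000000000000000000000000) (nat_lit 0x0) (nat_lit 0xe000700008000000020003000080000000000000000000000000000000000) := T_8 (nat_lit 225) (nat_lit 242) (nat_lit 6) (nat_lit 4) (nat_lit 14) L54951 (by decide +kernel)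
theorem L54953 : W_8 (nat_lit 7) (nat_lit 0x1d000d0002c0010001200080000000000000000000000000000000) (nat_lit 0x0) (nat_lit 0xe000700008000800020007000080000000000000000000000000000000000) := T_8 (nat_lit 191) (nat_lit 158) (nat_lit 5) (nat_lit 5) (nat_lit 8) L54952 (by decide +kernel)
theorem L54954 : W_8 (nat_lit 8) (nat_lit 0x1d000c0002c0010001200080000000000000000000000000000000) (nat_lit 0x0) (nat_lit 0xe000700008003800020007000080000000000000000000000000000000000) := T_8 (nat_lit 192) (nat_lit 193) (nat_lit 0) (nat_lit 8) (nat_lit 11) L54953 (by decide +kernel)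
theorem L54955 : W_8 (nat_lit 9) (nat_lit 0x1d000c000280010001200080000000000000000000000000000000) (nat_lit 0x0) (nat_lit 0xe000700008003800160007000080000000000000000000000000000000000) := T_8 (nat_lit 174) (nat_lit 176) (nat_lit 3) (nat_lit 4) (nat_lit 10) L54954 (by decide +kernel)
theorem L54956 : W_8 (nat_lit 10) (nat_lit 0x1c000c000280010001200080000000000000000000000000000000) (nat_lit 0x0) (nat_lit 0xe000700038003800160007000080000000000000000000000000000000000) := T_8 (nat_lit 208) (nat_lit 209) (nat_lit 2) (nat_lit 4) (nat_lit 12) L54955 (by decide +kernel)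
theorem L54957 : W_8 (nat_lit 11) (nat_lit 0x18000c000280010001200080000000000000000000000000000000) (nat_lit 0x0) (nat_lit 0xe000f00078003800160007000080000000000000000000000000000000000) := T_8 (nat_lit 210) (nat_lit 227) (nat_lit 5) (nat_lit 7) (nat_lit 9) L54956 (by decide +kernel)
theorem L54958 : W_8 (nat_lit 12) (nat_lit 0x8000c000280010001200080000000000000000000000000000000) (nat_lit 0x0) (nat_lit 0xe002f00178003800160007000080000000000000000000000000000000000) := T_8 (nat_lit 212) (nat_lit 229) (nat_lit 7) (nat_lit 7) (nat_lit 9) L54957 (by decide +kernel)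
theorem L54959 : W_8 (nat_lit 13) (nat_lit 0x80004000280010001200080000000000000000000000000000000) (nat_lit 0x0) (nat_lit 0xe002f0077803b800160007000080000000000000000000000000000000000) := Q_8 (nat_lit 195) (C_8 L54942 (C_8 L54945 (C_8 L54947 (C_8 L54958 N_8)))) (by decide +kernel)
theorem L54960 : W_8 (nat_lit 14) (nat_lit 0x4000280010001200080000000000000000000000000000000) (nat_lit 0x0) (nat_lit 0xa001fe00ff007f803bc0016000f000080000000000000000000000000000000000) := Q_8 (nat_lit 211) (C_8 L54901 (C_8 L54907 (C_8 L54919 (C_8 L54924 (C_8 L54936 (C_8 L54959 N_8)))))) (by decide +kernel)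
theorem L54961 : W_8 (nat_lit 7) (nat_lit 0x4000280010001200080000000000000000000000000000000) (nat_lit 0x0) (nat_lit 0x200070003800180002000100028000000000000000000000000000000000000000) := T_8 (nat_lit 211) (nat_lit 161) (nat_lit 6) (nat_lit 7) (nat_lit 12) L54907 (by decide +kernel)
theorem L54962 : W_8 (nat_lit 14) (nat_lit 0x4000280010001200080000000000000000000000000000000) (nat_lit 0x0) (nat_lit 0x20007c00f4001f000ac0014002f000000000000000000000000000000000000000) := T_8 (nat_lit 211) (nat_lit 161) (nat_lit 6) (nat_lit 7) (nat_lit 12) L54919 (by decide +kernel)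
theorem L54963 : W_8 (nat_lit 14) (nat_lit 0x4000280010001200080000000000000000000000000000000) (nat_lit 0x0) (nat_lit 0xe002f007f803b800160027000080000000000000000000000000000000000) := T_8 (nat_lit 211) (nat_lit 161) (nat_lit 6) (nat_lit 7) (nat_lit 12) L54959 (by decide +kernel)
theorem L54964 : W_8 (nat_lit 15) (nat_lit 0x280010001200080000000000000000000000000000000) (nat_lit 0x0) (nat_lit 0x10000e801fe00ff007fe03fe0017802f0001c0008000000000000000000000000000000) := Q_8 (nat_lit 194) (C_8 L54888 (C_8 L54898 (C_8 L54902 (C_8 L54960 (C_8 L54961 (C_8 L54962 (C_8 L54963 N_8))))))) (by decide +kernel)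
theorem L54965 : W_8 (nat_lit 2) (nat_lit 0x2c0014001200090000800000000000000000000000000) (nat_lit 0x0) (nat_lit 0x8000400020000000000000000000000) := D_8 (nat_lit 106) (nat_lit 123) (nat_lit 89) (nat_lit 4) (nat_lit 5) (nat_lit 10) (nat_lit 4) (nat_lit 5) (nat_lit 9) (by decide +kernel)
theorem L54966 : W_8 (nat_lit 3) (nat_lit 0x2c0014001200090000000000000000000000000000000) (nat_lit 0x0) (nat_lit 0x2000000008000c00020000000000000000000000) := T_8 (nat_lit 107) (nat_lit 157) (nat_lit 5) (nat_lit 5) (nat_lit 6) L54965 (by decide +kernel)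
theorem L54967 : W_8 (nat_lit 4) (nat_lit 0x2c0014001200080000000000000000000000000000000) (nat_lit 0x0) (nat_lit 0x800000002000000018000c00020000000000000000000000) := T_8 (nat_lit 124) (nat_lit 191) (nat_lit 5) (nat_lit 5) (nat_lit 7) L54966 (by decide +kernel)
theorem L54968 : W_8 (nat_lit 2) (nat_lit 0x800000002c00340012000f0000000000000000000000000000000) (nat_lit 0x0) (nat_lit 0x8000c00000000000000000000000000) := D_8 (nat_lit 106) (nat_lit 123) (nat_lit 107) (nat_lit 4) (nat_lit 5) (nat_lit 10) (nat_lit 0) (nat_lit 8) (nat_lit 7) (by decide +kernel)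
theorem L54969 : W_8 (nat_lit 3) (nat_lit 0x800000002c00340012000b0000000000000000000000000000000) (nat_lit 0x0) (nat_lit 0x100048000c00000000000000000000000000) := T_8 (nat_lit 126) (nat_lit 140) (nat_lit 1) (nat_lit 8) (nat_lit 7) L54968 (by decide +kernel)
theorem L54970 : W_8 (nat_lit 4) (nat_lit 0x800000002c0034001200090000000000000000000000000000000) (nat_lit 0x0) (nat_lit 0x100068001c00000000000000000000000000) := T_8 (nat_lit 125) (nat_lit 108) (nat_lit 6) (nat_lit 5) (nat_lit 10) L54969 (by decide +kernel)
theorem L54971 : W_8 (nat_lit 5) (nat_lit 0x2c0034001200090000000000000000000000000000000) (nat_lit 0x0) (nat_lit 0x80004000000000000100068001c00000000000000000000000000) := T_8 (nat_lit 211) (nat_lit 194) (nat_lit 6) (nat_lit 7) (nat_lit 12) L54970 (by decide +kernel)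
theorem L54972 : W_8 (nat_lit 6) (nat_lit 0x2c0034001200080000000000000000000000000000000) (nat_lit 0x0) (nat_lit 0x80004800000000000100078001c00000000000000000000000000) := T_8 (nat_lit 124) (nat_lit 191) (nat_lit 5) (nat_lit 5) (nat_lit 7) L54971 (by decide +kernel)
theorem L54973 : W_8 (nat_lit 7) (nat_lit 0x2c0014001200080000000000000000000000000000000) (nat_lit 0x0) (nat_lit 0x80004800000028000100078001c00000000000000000000000000) := T_8 (nat_lit 161) (nat_lit 159) (nat_lit 1) (nat_lit 8) (nat_lit 9) L54972 (by decide +kernel)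
theorem L54974 : W_8 (nat_lit 8) (nat_lit 0x2c0010001200080000000000000000000000000000000) (nat_lit 0x0) (nat_lit 0x8000480003002e000100078001c00020000000000000000000000) := Q_8 (nat_lit 158) (C_8 L54967 (C_8 L51412 (C_8 L54973 N_8))) (by decide +kernel)
theorem L54975 : W_8 (nat_lit 6) (nat_lit 0x2c0010001200080000000000000000000000000000000) (nat_lit 0x0) (nat_lit 0xec0012000f800100010000000000000000000000000000000) := Q_8 (nat_lit 176) (C_8 L33513 (C_8 L54811 (C_8 L54586 N_8))) (by decide +kernel)
theorem L54976 : W_8 (nat_lit 9) (nat_lit 0x280010001200080000000000000000000000000000000) (nat_lit 0x0) (nat_lit 0x8000ec0017002f800100078001c00020000000000000000000000) := Q_8 (nat_lit 174) (C_8 L54974 (C_8 L51422 (C_8 L54975 (C_8 L54587 (C_8 L54813 N_8))))) (by decide +kernel)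
theorem L54977 : W_8 (nat_lit 16) (nat_lit 0x200010001200080000000000000000000000000000000) (nat_lit 0x400000002c00000004000000000000000000000000000) (nat_lit 0x13a00ff01ff80ffe07ff03ff80ffc0ffe03ff00ff005f800fc006200000000000000000) := Q_8 (nat_lit 175) (C_8 L51410 (C_8 L51434 (C_8 L51504 (C_8 L51618 (C_8 L51689 (C_8 L51834 (C_8 L54593 (C_8 L54670 (C_8 L54780 (C_8 L54800 (C_8 L54814 (C_8 L54964 (C_8 L54976 N_8))))))))))))) (by decide +kernel)
end Crest.Agent.Helper32.Snaky.R1_0
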