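import Crest.Agent.Helper32.Snaky.Rules2
set_option autoImplicit false
set_option maxRecDepth 100000
set_option linter.all false
set_option Elab.async false
namespace Crest.Agent.Helper32.Snaky.R1_1
@[reducible] def W_1 (d M Bz Z : Nat) : Prop := Crest.Agent.Helper32.Snaky.Wins (nat_lit 17) d M Bz Z
theorem D_1 {d M Bz Z : Nat} (m t1 t2 o1 x1 y1 o2 x2 y2 : Nat) (h : Crest.Agent.Helper32.Snaky.chkDoubleC (nat_lit 17) d M Bz Z m t1 t2 o1 x1 y1 o2 x2 y2 = true) : W_1 d M Bz Z := Crest.Agent.Helper32.Snaky.doubleC m t1 t2 o1 x1 y1 o2 x2 y2 h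
theorem T_1 {d M Bz Z cd cM cBz cZ : Nat} (m t o x y : Nat) (child : W_1 cd cM cBz cZ) (h : Crest.Agent.Helper32.Snaky.chkThreatC (nat_lit 17) d M Bz Z cd cM cBz cZ m t o x y = true) : W_1 d M Bz Z := Crest.Agent.Helper32.Snaky.threatC m t o x y child h
theorem Q_1 {d M Bz Z : Nat} (m : Nat) {l : List Crest.Agent.Helper32.Snaky.Spec} (kids : Crest.Agent.Helper32.Snaky.AllWins (nat_lit 17) l) (h : Crest.Agent.Helper32.Snaky.chkQuiet d M Bz Z m l = true) : W_1 d M Bz Z := Crest.Agent.Helper32.Snaky.quiet m kids h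
theorem C_1 {cd cM cBz cZ : Nat} {l : List Crest.Agent.Helper32.Snaky.Spec} (h : W_1 cd cM cBz cZ) (hl : Crest.Agent.Helper32.Snaky.AllWins (nat_lit 17) l) : Crest.Agent.Helper32.Snaky.AllWins (nat_lit 17) ((cd, cM, cBz, cZ) :: l) := Crest.Agent.Helper32.Snaky.AllWins.cons h hl
theorem N_1 : Crest.Agent.Helper32.Snaky.AllWins (nat_lit 17) [] := Crest.Agent.Helper32.Snaky.AllWins.nil
theorem L7 : W_1 (nat_lit 2) (nat_lit 0x80004000200010001c0000000000000000000000000000000) (nat_lit 0x0) (nat_lit 0x80004000200000000000000000000000000000000000000000000) := D_1 (nat_lit 194) (nat_lit 211) (nat_lit 177) (nat_lit 5) (nat_lit 8) (nat_lit 8) (nat_lit 5) (nat_lit 8) (nat_lit 7) (by decide +kernel)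
theorem L8 : W_1 (nat_lit 3) (nat_lit 0x4000200010001c0000000000000000000000000000000) (nat_lit 0x0) (nat_lit 0x8000c000200000002000000000000000000000000000000000000) := T_1 (nat_lit 195) (nat_lit 145) (nat_lit 6) (nat_lit 8) (nat_lit 11) L7 (by decide +kernel)
theorem L9 : W_1 (nat_lit 4) (nat_lit 0x400020001000180000000000000000000000000000000) (nat_lit 0x0) (nat_lit 0x8000c000200000002000040002000000000000000000000000000) := T_1 (nat_lit 126) (nat_lit 109) (nat_lit 4) (nat_lit 8) (nat_lit 10) L8 (by decide +kernel)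
theorem L10 : W_1 (nat_lit 5) (nat_lit 0x400020001000080000000000000000000000000000000) (nat_lit 0x0) (nat_lit 0x8000c00020000000200014000a000000000000000000000000000) := T_1 (nat_lit 128) (nat_lit 111) (nat_lit 6) (nat_lit 8) (nat_lit 10) L9 (by decide +kernel)
theorem L17 : W_1 (nat_lit 2) (nat_lit 0x600020001000080004000000000000000000000000000) (nat_lit 0x0) (nat_lit 0x100008000400000000000000000000000) := D_1 (nat_lit 111) (nat_lit 128) (nat_lit 94) (nat_lit 6) (nat_lit 8) (nat_lit 10) (nat_lit 6) (nat_lit 8) (nat_lit 9) (by decide +kernel)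
theorem L18 : W_1 (nat_lit 3) (nat_lit 0x600020001000080000000000000000000000000000000) (nat_lit 0x0) (nat_lit 0x1000000010000c000400000000000000000000000) := T_1 (nat_lit 110) (nat_lit 160) (nat_lit 5) (nat_lit 8) (nat_lit 6) L17 (by decide +kernel)
theorem L19 : W_1 (nat_lit 4) (nat_lit 0x400020001000080000000000000000000000000000000) (nat_lit 0x0) (nat_lit 0x400020001000000010000c000400000000000000000000000) := T_1 (nat_lit 177) (nat_lit 194) (nat_lit 5) (nat_lit 8) (nat_lit 7) L18 (by decide +kernel)
theorem L20 : W_1 (nat_lit 2) (nat_lit 0xe000300010000c0000000000000000000000000000000) (nat_lit 0x0) (nat_lit 0x100000c000000000000000000000000000000000000000) := D_1 (nat_lit 159) (nat_lit 158) (nat_lit 180) (nat_lit 3) (nat_lit 5) (nat_lit 9) (nat_lit 0) (nat_lit 10) (nat_lit 10) (by decide +kernel)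
theorem L21 : W_1 (nat_lit 3) (nat_lit 0x6000300010000c0000000000000000000000000000000) (nat_lit 0x0) (nat_lit 0x1000180000c000000000000000000000000000000000000000) := T_1 (nat_lit 179) (nat_lit 196) (nat_lit 7) (nat_lit 8) (nat_lit 7) L20 (by decide +kernel)
theorem L22 : W_1 (nat_lit 4) (nat_lit 0x6000200010000c0000000000000000000000000000000) (nat_lit 0x0) (nat_lit 0x1000180001c000000000004000000000000000000000000000) := T_1 (nat_lit 160) (nat_lit 110) (nat_lit 5) (nat_lit 8) (nat_lit 6) L21 (by decide +kernel)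
theorem L23 : W_1 (nat_lit 5) (nat_lit 0x4000200010000c0000000000000000000000000000000) (nat_lit 0x0) (nat_lit 0x14001a0001c000000000004000000000000000000000000000) := T_1 (nat_lit 177) (nat_lit 194) (nat_lit 5) (nat_lit 8) (nat_lit 7) L22 (by decide +kernel)
theorem L25 : W_1 (nat_lit 2) (nat_lit 0xc000200030001c0000000000000000000000000000000) (nat_lit 0x0) (nat_lit 0x4000030000000000000000000000000000000) := D_1 (nat_lit 125) (nat_lit 146) (nat_lit 124) (nat_lit 3) (nat_lit 6) (nat_lit 7) (nat_lit 3) (nat_lit 5) (nat_lit 7) (by decide +kernel)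
theorem L26 : W_1 (nat_lit 3) (nat_lit 0xc000200010001c0000000000000000000000000000000) (nat_lit 0x0) (nat_lit 0x8000000000006000030000000000000000000000000000000) := T_1 (nat_lit 145) (nat_lit 195) (nat_lit 6) (nat_lit 8) (nat_lit 11) L25 (by decide +kernel)
theorem L27 : W_1 (nat_lit 4) (nat_lit 0xc000200010000c0000000000000000000000000000000) (nat_lit 0x0) (nat_lit 0x8000000000006000130008000000000000000000000000000) := T_1 (nat_lit 128) (nat_lit 111) (nat_lit 6) (nat_lit 8) (nat_lit 10) L26 (by decide +kernel)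
theorem L28 : W_1 (nat_lit 5) (nat_lit 0xc00020001000080000000000000000000000000000000) (nat_lit 0x0) (nat_lit 0x800000000000600017000a000000000000000000000000000) := T_1 (nat_lit 126) (nat_lit 109) (nat_lit 4) (nat_lit 8) (nat_lit 10) L27 (by decide +kernel)
theorem L29 : W_1 (nat_lit 6) (nat_lit 0x400020001000080000000000000000000000000000000) (nat_lit 0x0) (nat_lit 0x1800080000000600017000a000000000000000000000000000) := T_1 (nat_lit 179) (nat_lit 196) (nat_lit 7) (nat_lit 8) (nat_lit 7) L28 (by decide +kernel)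
theorem L31 : W_1 (nat_lit 2) (nat_lit 0x180004000200010001c0000000000000000000000000000000) (nat_lit 0x0) (nat_lit 0x80004000200000000000000000000000000000000000000000000) := D_1 (nat_lit 194) (nat_lit 211) (nat_lit 177) (nat_lit 5) (nat_lit 8) (nat_lit 8) (nat_lit 5) (nat_lit 8) (nat_lit 7) (by decide +kernel)
theorem L32 : W_1 (nat_lit 3) (nat_lit 0x100004000200010001c0000000000000000000000000000000) (nat_lit 0x0) (nat_lit 0x28000c000200000000000000000000000000000000000000000000) := T_1 (nat_lit 195) (nat_lit 213) (nat_lit 7) (nat_lit 8) (nat_lit 8) L31 (by decide +kernel)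
theorem L33 : W_1 (nat_lit 4) (nat_lit 0x100004000200010000c0000000000000000000000000000000) (nat_lit 0x0) (nat_lit 0x28000c000200000000000100008000000000000000000000000000) := T_1 (nat_lit 128) (nat_lit 111) (nat_lit 6) (nat_lit 8) (nat_lit 10) L32 (by decide +kernel)
theorem L34 : W_1 (nat_lit 5) (nat_lit 0x4000200010000c0000000000000000000000000000000) (nat_lit 0x0) (nat_lit 0x28001c000a00000000000100008000000000000000000000000000) := T_1 (nat_lit 196) (nat_lit 179) (nat_lit 7) (nat_lit 8) (nat_lit 7) L33 (by decide +kernel)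
theorem L35 : W_1 (nat_lit 6) (nat_lit 0x400020001000080000000000000000000000000000000) (nat_lit 0x0) (nat_lit 0x28001c000a0000000000014000a000000000000000000000000000) := T_1 (nat_lit 126) (nat_lit 109) (nat_lit 4) (nat_lit 8) (nat_lit 10) L34 (by decide +kernel)
theorem L36 : W_1 (nat_lit 2) (nat_lit 0x40002000100008000a000000000000000000000000000) (nat_lit 0x0) (nat_lit 0x4000500000000000000000000000) := D_1 (nat_lit 110) (nat_lit 94) (nat_lit 92) (nat_lit 6) (nat_lit 8) (nat_lit 9) (nat_lit 4) (nat_lit 8) (nat_lit 9) (by decide +kernel)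
theorem L37 : W_1 (nat_lit 3) (nat_lit 0x400020001000080008000000000000000000000000000) (nat_lit 0x0) (nat_lit 0x40006000500000000000000000000000) := T_1 (nat_lit 109) (nat_lit 126) (nat_lit 4) (nat_lit 8) (nat_lit 10) L36 (by decide +kernel)
theorem L38 : W_1 (nat_lit 4) (nat_lit 0x400020001000080000000000000000000000000000000) (nat_lit 0x0) (nat_lit 0x14000e000500000000000000000000000) := T_1 (nat_lit 111) (nat_lit 128) (nat_lit 6) (nat_lit 8) (nat_lit 10) L37 (by decide +kernel)
theorem L40 : W_1 (nat_lit 2) (nat_lit 0x4000c00020001000180000000000000000000000000000000) (nat_lit 0x0) (nat_lit 0x80008000000000002000000000000000000000000000000000000) := D_1 (nat_lit 195) (nat_lit 145) (nat_lit 211) (nat_lit 6) (nat_lit 8) (nat_lit 11) (nat_lit 5) (nat_lit 8) (nat_lit 8) (by decide +kernel)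
theorem L41 : W_1 (nat_lit 3) (nat_lit 0xc00020001000180000000000000000000000000000000) (nat_lit 0x0) (nat_lit 0x8000c000200000002000000000000000000000000000000000000) := T_1 (nat_lit 194) (nat_lit 177) (nat_lit 5) (nat_lit 8) (nat_lit 7) L40 (by decide +kernel)
theorem L42 : W_1 (nat_lit 4) (nat_lit 0xc00020001000080000000000000000000000000000000) (nat_lit 0x0) (nat_lit 0x8000c000200000002000100008000000000000000000000000000) := T_1 (nat_lit 128) (nat_lit 111) (nat_lit 6) (nat_lit 8) (nat_lit 10) L41 (by decide +kernel)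
theorem L43 : W_1 (nat_lit 5) (nat_lit 0x400020001000080000000000000000000000000000000) (nat_lit 0x0) (nat_lit 0x8001c000a00000002000100008000000000000000000000000000) := T_1 (nat_lit 179) (nat_lit 196) (nat_lit 7) (nat_lit 8) (nat_lit 7) L42 (by decide +kernel)
theorem L44 : W_1 (nat_lit 2) (nat_lit 0x140004000200010000c0000000000000000000000000000000) (nat_lit 0x0) (nat_lit 0x280008000000000000000000000000000000000000000000000000) := D_1 (nat_lit 195) (nat_lit 213) (nat_lit 211) (nat_lit 7) (nat_lit 8) (nat_lit 8) (nat_lit 5) (nat_lit 8) (nat_lit 8) (by decide +kernel)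
theorem L45 : W_1 (nat_lit 3) (nat_lit 0x100004000200010000c0000000000000000000000000000000) (nat_lit 0x0) (nat_lit 0x28000c000200000000000000000000000000000000000000000000) := T_1 (nat_lit 194) (nat_lit 177) (nat_lit 5) (nat_lit 8) (nat_lit 7) L44 (by decide +kernel)
theorem L46 : W_1 (nat_lit 4) (nat_lit 0x4000200010000c0000000000000000000000000000000) (nat_lit 0x0) (nat_lit 0x28001c000a00000000000000000000000000000000000000000000) := T_1 (nat_lit 196) (nat_lit 179) (nat_lit 7) (nat_lit 8) (nat_lit 7) L45 (by decide +kernel)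
theorem L47 : W_1 (nat_lit 5) (nat_lit 0x400020001000080000000000000000000000000000000) (nat_lit 0x0) (nat_lit 0x28001c000a00000000000040002000000000000000000000000000) := T_1 (nat_lit 126) (nat_lit 109) (nat_lit 4) (nat_lit 8) (nat_lit 10) L46 (by decide +kernel)
theorem L48 : W_1 (nat_lit 2) (nat_lit 0x40003c000200010001c0000000000000000000000000000000) (nat_lit 0x0) (nat_lit 0x24000200000000000000000000000000000000000000000000) := D_1 (nat_lit 177) (nat_lit 197) (nat_lit 194) (nat_lit 3) (nat_lit 7) (nat_lit 10) (nat_lit 5) (nat_lit 8) (nat_lit 7) (by decide +kernel)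
theorem L49 : W_1 (nat_lit 3) (nat_lit 0x3c000200010001c0000000000000000000000000000000) (nat_lit 0x0) (nat_lit 0xe4000200000000000000000000000000000000000000000000) := T_1 (nat_lit 198) (nat_lit 199) (nat_lit 3) (nat_lit 8) (nat_lit 10) L48 (by decide +kernel)
theorem L50 : W_1 (nat_lit 4) (nat_lit 0x3c000200010000c0000000000000000000000000000000) (nat_lit 0x0) (nat_lit 0xe4000200000000000100008000000000000000000000000000) := T_1 (nat_lit 128) (nat_lit 111) (nat_lit 6) (nat_lit 8) (nat_lit 10) L49 (by decide +kernel)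
theorem L51 : W_1 (nat_lit 5) (nat_lit 0x1c000200010000c0000000000000000000000000000000) (nat_lit 0x0) (nat_lit 0xe4002200010000000100008000000000000000000000000000) := T_1 (nat_lit 181) (nat_lit 160) (nat_lit 0) (nat_lit 11) (nat_lit 10) L50 (by decide +kernel)
theorem L52 : W_1 (nat_lit 6) (nat_lit 0x1c00020001000080000000000000000000000000000000) (nat_lit 0x0) (nat_lit 0xe400220001000000014000a000000000000000000000000000) := T_1 (nat_lit 126) (nat_lit 109) (nat_lit 4) (nat_lit 8) (nat_lit 10) L51 (by decide +kernel)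
theorem L53 : W_1 (nat_lit 2) (nat_lit 0x40003c000200010000c0000000000000000000000000000000) (nat_lit 0x0) (nat_lit 0x24000200000000000000000000000000000000000000000000) := D_1 (nat_lit 177) (nat_lit 197) (nat_lit 194) (nat_lit 3) (nat_lit 7) (nat_lit 10) (nat_lit 5) (nat_lit 8) (nat_lit 7) (by decide +kernel)
theorem L54 : W_1 (nat_lit 3) (nat_lit 0x3c000200010000c0000000000000000000000000000000) (nat_lit 0x0) (nat_lit 0xe4000200000000000000000000000000000000000000000000) := T_1 (nat_lit 198) (nat_lit 199) (nat_lit 3) (nat_lit 8) (nat_lit 10) L53 (by decide +kernel)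
theorem L55 : W_1 (nat_lit 4) (nat_lit 0x3c00020001000080000000000000000000000000000000) (nat_lit 0x0) (nat_lit 0xe4000200000000000040002000000000000000000000000000) := T_1 (nat_lit 126) (nat_lit 109) (nat_lit 4) (nat_lit 8) (nat_lit 10) L54 (by decide +kernel)
theorem L56 : W_1 (nat_lit 5) (nat_lit 0x1c00020001000080000000000000000000000000000000) (nat_lit 0x0) (nat_lit 0xe4002200010000000040002000000000000000000000000000) := T_1 (nat_lit 181) (nat_lit 160) (nat_lit 0) (nat_lit 11) (nat_lit 10) L55 (by decide +kernel)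
theorem L57 : W_1 (nat_lit 2) (nat_lit 0x20001e000a00050001c0000000000000000000000000000000) (nat_lit 0x0) (nat_lit 0x8000600000000000000000000000000000000) := D_1 (nat_lit 147) (nat_lit 129) (nat_lit 130) (nat_lit 3) (nat_lit 7) (nat_lit 7) (nat_lit 6) (nat_lit 10) (nat_lit 11) (by decide +kernel)
theorem L58 : W_1 (nat_lit 3) (nat_lit 0x20001e000a00010001c0000000000000000000000000000000) (nat_lit 0x0) (nat_lit 0xe000600000000000000000000000000000000) := T_1 (nat_lit 146) (nat_lit 145) (nat_lit 4) (nat_lit 10) (nat_lit 11) L57 (by decide +kernel)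
theorem L59 : W_1 (nat_lit 4) (nat_lit 0x20001e000200010001c0000000000000000000000000000000) (nat_lit 0x0) (nat_lit 0x18000e000600000000000000000000000000000000) := T_1 (nat_lit 163) (nat_lit 164) (nat_lit 2) (nat_lit 7) (nat_lit 10) L58 (by decide +kernel)
theorem L60 : W_1 (nat_lit 5) (nat_lit 0x1e000200010001c0000000000000000000000000000000) (nat_lit 0x0) (nat_lit 0x6000000018000e000600000000000000000000000000000000) := T_1 (nat_lit 197) (nat_lit 198) (nat_lit 3) (nat_lit 7) (nat_lit 10) L59 (by decide +kernel)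
theorem L61 : W_1 (nat_lit 6) (nat_lit 0x1c000200010001c0000000000000000000000000000000) (nat_lit 0x0) (nat_lit 0x6400020018000e000600000000000000000000000000000000) := T_1 (nat_lit 177) (nat_lit 194) (nat_lit 5) (nat_lit 8) (nat_lit 7) L60 (by decide +kernel)
theorem L62 : W_1 (nat_lit 7) (nat_lit 0x1c00020001000180000000000000000000000000000000) (nat_lit 0x0) (nat_lit 0x6400020018000e000640002000000000000000000000000000) := T_1 (nat_lit 126) (nat_lit 109) (nat_lit 4) (nat_lit 8) (nat_lit 10) L61 (by decide +kernel)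
theorem L63 : W_1 (nat_lit 8) (nat_lit 0x1c00020001000080000000000000000000000000000000) (nat_lit 0x0) (nat_lit 0x6400020018000e00074000a000000000000000000000000000) := T_1 (nat_lit 128) (nat_lit 111) (nat_lit 6) (nat_lit 8) (nat_lit 10) L62 (by decide +kernel)
theorem L64 : W_1 (nat_lit 2) (nat_lit 0x1e00020001000080000000000000000000000000000000) (nat_lit 0x0) (nat_lit 0x2000018000000000000000000000000000000000000000) := D_1 (nat_lit 160) (nat_lit 181) (nat_lit 159) (nat_lit 0) (nat_lit 11) (nat_lit 10) (nat_lit 0) (nat_lit 10) (nat_lit 10) (by decide +kernel)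
theorem L65 : W_1 (nat_lit 3) (nat_lit 0x1c00020001000080000000000000000000000000000000) (nat_lit 0x0) (nat_lit 0x4002200018000000000000000000000000000000000000000) := T_1 (nat_lit 177) (nat_lit 194) (nat_lit 5) (nat_lit 8) (nat_lit 7) L64 (by decide +kernel)
theorem L66 : W_1 (nat_lit 2) (nat_lit 0x20000000080007c001200090001c0000000000000000000000000000000) (nat_lit 0x0) (nat_lit 0x6000200000000000000000000000000000000) := D_1 (nat_lit 146) (nat_lit 129) (nat_lit 145) (nat_lit 3) (nat_lit 7) (nat_lit 7) (nat_lit 0) (nat_lit 11) (nat_lit 8) (by decide +kernel)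
theorem L67 : W_1 (nat_lit 3) (nat_lit 0x20000000080007c001200010001c0000000000000000000000000000000) (nat_lit 0x0) (nat_lit 0xe000600000000000000000000000000000000) := T_1 (nat_lit 147) (nat_lit 130) (nat_lit 7) (nat_lit 11) (nat_lit 7) L66 (by decide +kernel)
theorem L68 : W_1 (nat_lit 4) (nat_lit 0x80007c001200010001c0000000000000000000000000000000) (nat_lit 0x0) (nat_lit 0x2000100000000000000000e000600000000000000000000000000000000) := T_1 (nat_lit 233) (nat_lit 216) (nat_lit 4) (nat_lit 12) (nat_lit 13) L67 (by decide +kernel)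
theorem L69 : W_1 (nat_lit 5) (nat_lit 0x80003c001200010001c0000000000000000000000000000000) (nat_lit 0x0) (nat_lit 0x2000100010000400000000e000600000000000000000000000000000000) := T_1 (nat_lit 182) (nat_lit 200) (nat_lit 3) (nat_lit 9) (nat_lit 10) L68 (by decide +kernel)
theorem L70 : W_1 (nat_lit 6) (nat_lit 0x3c001200010001c0000000000000000000000000000000) (nat_lit 0x0) (nat_lit 0x200010001c000400000000e000600000000000000000000000000000000) := T_1 (nat_lit 199) (nat_lit 198) (nat_lit 3) (nat_lit 8) (nat_lit 10) L69 (by decide +kernel)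
theorem L71 : W_1 (nat_lit 7) (nat_lit 0x3c000200010001c0000000000000000000000000000000) (nat_lit 0x0) (nat_lit 0x200010001c000400030000e000600000000000000000000000000000000) := T_1 (nat_lit 164) (nat_lit 165) (nat_lit 2) (nat_lit 8) (nat_lit 10) L70 (by decide +kernel)
theorem L72 : W_1 (nat_lit 8) (nat_lit 0x1c000200010001c0000000000000000000000000000000) (nat_lit 0x0) (nat_lit 0x200010001c000600031000e000600000000000000000000000000000000) := T_1 (nat_lit 181) (nat_lit 160) (nat_lit 0) (nat_lit 11) (nat_lit 10) L71 (by decide +kernel)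
theorem L73 : W_1 (nat_lit 9) (nat_lit 0x1c00020001000180000000000000000000000000000000) (nat_lit 0x0) (nat_lit 0x200010001c000600031000e000640002000000000000000000000000000) := T_1 (nat_lit 126) (nat_lit 109) (nat_lit 4) (nat_lit 8) (nat_lit 10) L72 (by decide +kernel)
theorem L74 : W_1 (nat_lit 10) (nat_lit 0x1c00020001000080000000000000000000000000000000) (nat_lit 0x0) (nat_lit 0x200010001c000600031000e00074000a000000000000000000000000000) := T_1 (nat_lit 128) (nat_lit 111) (nat_lit 6) (nat_lit 8) (nat_lit 10) L73 (by decide +kernel)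
theorem L75 : W_1 (nat_lit 11) (nat_lit 0xc00020001000080000000000000000000000000000000) (nat_lit 0x0) (nat_lit 0x200010001e400720039800e00074000a000000000000000000000000000) := Q_1 (nat_lit 180) (C_1 L52 (C_1 L56 (C_1 L63 (C_1 L65 (C_1 L74 N_1))))) (by decide +kernel)
theorem L76 : W_1 (nat_lit 12) (nat_lit 0x400020001000080000000000000000000000000000000) (nat_lit 0x0) (nat_lit 0x200010001f4007a0039800e00074000a000000000000000000000000000) := T_1 (nat_lit 179) (nat_lit 196) (nat_lit 7) (nat_lit 8) (nat_lit 7) L75 (by decide +kernel)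
theorem L77 : W_1 (nat_lit 13) (nat_lit 0x20001000080000000000000000000000000000000) (nat_lit 0x0) (nat_lit 0x200012801fc007e0039800e00077000a000000000000000000000000000) := Q_1 (nat_lit 178) (C_1 L35 (C_1 L43 (C_1 L47 (C_1 L29 (C_1 L76 (C_1 L10 N_1)))))) (by decide +kernel)
theorem L88 : W_1 (nat_lit 2) (nat_lit 0x1000080006000700000000000000000000000) (nat_lit 0x0) (nat_lit 0x1800800000000000000000000000) := D_1 (nat_lit 108) (nat_lit 107) (nat_lit 95) (nat_lit 2) (nat_lit 5) (nat_lit 6) (nat_lit 1) (nat_lit 10) (nat_lit 5) (by decide +kernel)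
theorem L89 : W_1 (nat_lit 3) (nat_lit 0x1000080004000700000000000000000000000) (nat_lit 0x0) (nat_lit 0x20000000000003800800000000000000000000000) := T_1 (nat_lit 109) (nat_lit 161) (nat_lit 4) (nat_lit 8) (nat_lit 9) L88 (by decide +kernel)
theorem L90 : W_1 (nat_lit 4) (nat_lit 0x1000080004000600000000000000000000000) (nat_lit 0x0) (nat_lit 0x20000000000003800900008000000000000000000) := T_1 (nat_lit 92) (nat_lit 75) (nat_lit 4) (nat_lit 8) (nat_lit 8) L89 (by decide +kernel)
theorem L91 : W_1 (nat_lit 5) (nat_lit 0x1000080004000200000000000000000000000) (nat_lit 0x0) (nat_lit 0x20000000000003800d00028000000000000000000) := T_1 (nat_lit 94) (nat_lit 77) (nat_lit 6) (nat_lit 8) (nat_lit 8) L90 (by decide +kernel)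
theorem L92 : W_1 (nat_lit 2) (nat_lit 0x1000180004000200030000400000000000000) (nat_lit 0x0) (nat_lit 0x8000000000000800020000000000) := D_1 (nat_lit 59) (nat_lit 111) (nat_lit 41) (nat_lit 7) (nat_lit 8) (nat_lit 3) (nat_lit 4) (nat_lit 8) (nat_lit 6) (by decide +kernel)
theorem L93 : W_1 (nat_lit 3) (nat_lit 0x1000080004000200030000400000000000000) (nat_lit 0x0) (nat_lit 0x2000100008000000000000800020000000000) := T_1 (nat_lit 128) (nat_lit 145) (nat_lit 7) (nat_lit 8) (nat_lit 4) L92 (by decide +kernel)
theorem L94 : W_1 (nat_lit 4) (nat_lit 0x1000080004000200030000000000000000000) (nat_lit 0x0) (nat_lit 0x2000100008000000008000c00020000000000) := T_1 (nat_lit 58) (nat_lit 75) (nat_lit 4) (nat_lit 8) (nat_lit 7) L93 (by decide +kernel)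
theorem L95 : W_1 (nat_lit 5) (nat_lit 0x1000080004000200020000000000000000000) (nat_lit 0x0) (nat_lit 0x2000100008000000018001c00020000000000) := T_1 (nat_lit 76) (nat_lit 60) (nat_lit 6) (nat_lit 8) (nat_lit 7) L94 (by decide +kernel)
theorem L96 : W_1 (nat_lit 6) (nat_lit 0x1000080004000200000000000000000000000) (nat_lit 0x0) (nat_lit 0x2000100008000400038001c00020000000000) := T_1 (nat_lit 77) (nat_lit 94) (nat_lit 6) (nat_lit 8) (nat_lit 8) L95 (by decide +kernel)
theorem L110 : W_1 (nat_lit 2) (nat_lit 0x1000180007000200000000000000000000000) (nat_lit 0x0) (nat_lit 0x600008000000000000000000000000000) := D_1 (nat_lit 129) (nat_lit 130) (nat_lit 111) (nat_lit 0) (nat_lit 11) (nat_lit 7) (nat_lit 3) (nat_lit 6) (nat_lit 6) (by decide +kernel)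
theorem L111 : W_1 (nat_lit 3) (nat_lit 0x1000180006000200000000000000000000000) (nat_lit 0x0) (nat_lit 0x600009800000000000000000000000000) := T_1 (nat_lit 108) (nat_lit 107) (nat_lit 3) (nat_lit 5) (nat_lit 6) L110 (by decide +kernel)
theorem L115 : W_1 (nat_lit 2) (nat_lit 0x1000080007000200000000000000000000000) (nat_lit 0x0) (nat_lit 0x100000800400000000000000000000000) := D_1 (nat_lit 107) (nat_lit 94) (nat_lit 128) (nat_lit 2) (nat_lit 5) (nat_lit 6) (nat_lit 3) (nat_lit 5) (nat_lit 6) (by decide +kernel)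
theorem L127 : W_1 (nat_lit 2) (nat_lit 0x1000180004000200018001000000000000000) (nat_lit 0x0) (nat_lit 0x8000000000000800080000000000) := D_1 (nat_lit 59) (nat_lit 111) (nat_lit 43) (nat_lit 7) (nat_lit 8) (nat_lit 3) (nat_lit 6) (nat_lit 8) (nat_lit 6) (by decide +kernel)
theorem L128 : W_1 (nat_lit 3) (nat_lit 0x1000080004000200018001000000000000000) (nat_lit 0x0) (nat_lit 0x2000100008000000000000800080000000000) := T_1 (nat_lit 128) (nat_lit 145) (nat_lit 7) (nat_lit 8) (nat_lit 4) L127 (by decide +kernel)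
theorem L129 : W_1 (nat_lit 4) (nat_lit 0x1000080004000200018000000000000000000) (nat_lit 0x0) (nat_lit 0x2000100008000000020001800080000000000) := T_1 (nat_lit 60) (nat_lit 77) (nat_lit 6) (nat_lit 8) (nat_lit 7) L128 (by decide +kernel)
theorem L130 : W_1 (nat_lit 5) (nat_lit 0x1000080004000200008000000000000000000) (nat_lit 0x0) (nat_lit 0x2000100008000000030001c00080000000000) := T_1 (nat_lit 76) (nat_lit 58) (nat_lit 4) (nat_lit 8) (nat_lit 7) L129 (by decide +kernel)
theorem L131 : W_1 (nat_lit 6) (nat_lit 0x1000080004000200000000000000000000000) (nat_lit 0x0) (nat_lit 0x2000100008000100038001c00080000000000) := T_1 (nat_lit 75) (nat_lit 92) (nat_lit 4) (nat_lit 8) (nat_lit 8) L130 (by decide +kernel)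
theorem L139 : W_1 (nat_lit 2) (nat_lit 0x2000100008000e000000000000000000000000000) (nat_lit 0x0) (nat_lit 0x400000000000140000000000000000000000000000000) := D_1 (nat_lit 178) (nat_lit 126) (nat_lit 128) (nat_lit 4) (nat_lit 8) (nat_lit 10) (nat_lit 6) (nat_lit 8) (nat_lit 10) (by decide +kernel)
theorem L140 : W_1 (nat_lit 3) (nat_lit 0x20001000080006000000000000000000000000000) (nat_lit 0x0) (nat_lit 0x400000000000140008000400000000000000000000000) := T_1 (nat_lit 111) (nat_lit 94) (nat_lit 6) (nat_lit 8) (nat_lit 9) L139 (by decide +kernel)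
theorem L141 : W_1 (nat_lit 4) (nat_lit 0x20001000080004000000000000000000000000000) (nat_lit 0x0) (nat_lit 0x40000000000014000a000500000000000000000000000) := T_1 (nat_lit 109) (nat_lit 92) (nat_lit 4) (nat_lit 8) (nat_lit 9) L140 (by decide +kernel)
theorem L142 : W_1 (nat_lit 2) (nat_lit 0x20001000080004000500000000000000000000000) (nat_lit 0x0) (nat_lit 0x200028000000000000000000) := D_1 (nat_lit 93) (nat_lit 75) (nat_lit 77) (nat_lit 4) (nat_lit 8) (nat_lit 8) (nat_lit 6) (nat_lit 8) (nat_lit 8) (by decide +kernel)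
theorem L143 : W_1 (nat_lit 3) (nat_lit 0x20001000080004000100000000000000000000000) (nat_lit 0x0) (nat_lit 0x8000600028000000000000000000) := T_1 (nat_lit 94) (nat_lit 111) (nat_lit 6) (nat_lit 8) (nat_lit 9) L142 (by decide +kernel)
theorem L144 : W_1 (nat_lit 4) (nat_lit 0x20001000080004000000000000000000000000000) (nat_lit 0x0) (nat_lit 0xa000700028000000000000000000) := T_1 (nat_lit 92) (nat_lit 109) (nat_lit 4) (nat_lit 8) (nat_lit 9) L143 (by decide +kernel)
theorem L145 : W_1 (nat_lit 2) (nat_lit 0x200020001000080006000000000000000000000000000) (nat_lit 0x0) (nat_lit 0x4000400000000000040000000000000000000000000000000) := D_1 (nat_lit 178) (nat_lit 126) (nat_lit 194) (nat_lit 4) (nat_lit 8) (nat_lit 10) (nat_lit 5) (nat_lit 8) (nat_lit 7) (by decide +kernel)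
theorem L146 : W_1 (nat_lit 3) (nat_lit 0x20001000080006000000000000000000000000000) (nat_lit 0x0) (nat_lit 0x4000600010000000040000000000000000000000000000000) := T_1 (nat_lit 177) (nat_lit 160) (nat_lit 5) (nat_lit 8) (nat_lit 6) L145 (by decide +kernel)
theorem L147 : W_1 (nat_lit 4) (nat_lit 0x20001000080004000000000000000000000000000) (nat_lit 0x0) (nat_lit 0x4000600010000000040002000100000000000000000000000) := T_1 (nat_lit 109) (nat_lit 92) (nat_lit 4) (nat_lit 8) (nat_lit 9) L146 (by decide +kernel)
theorem L148 : W_1 (nat_lit 2) (nat_lit 0x20002000100008000c000000000000000000000000000) (nat_lit 0x0) (nat_lit 0x4000400000000000100000000000000000000000000000000) := D_1 (nat_lit 178) (nat_lit 128) (nat_lit 194) (nat_lit 6) (nat_lit 8) (nat_lit 10) (nat_lit 5) (nat_lit 8) (nat_lit 7) (by decide +kernel)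
theorem L149 : W_1 (nat_lit 3) (nat_lit 0x2000100008000c000000000000000000000000000) (nat_lit 0x0) (nat_lit 0x4000600010000000100000000000000000000000000000000) := T_1 (nat_lit 177) (nat_lit 160) (nat_lit 5) (nat_lit 8) (nat_lit 6) L148 (by decide +kernel)
theorem L150 : W_1 (nat_lit 4) (nat_lit 0x20001000080004000000000000000000000000000) (nat_lit 0x0) (nat_lit 0x4000600010000000100008000400000000000000000000000) := T_1 (nat_lit 111) (nat_lit 94) (nat_lit 6) (nat_lit 8) (nat_lit 9) L149 (by decide +kernel)
theorem L151 : W_1 (nat_lit 5) (nat_lit 0x1000080004000000000000000000000000000) (nat_lit 0x0) (nat_lit 0x400060003000000014000a000700028000000000000000000) := Q_1 (nat_lit 161) (C_1 L141 (C_1 L144 (C_1 L147 (C_1 L150 N_1)))) (by decide +kernel)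
theorem L152 : W_1 (nat_lit 2) (nat_lit 0x1000080004000200028000000000000000000) (nat_lit 0x0) (nat_lit 0x10001400000000000000) := D_1 (nat_lit 76) (nat_lit 58) (nat_lit 60) (nat_lit 4) (nat_lit 8) (nat_lit 7) (nat_lit 6) (nat_lit 8) (nat_lit 7) (by decide +kernel)
theorem L153 : W_1 (nat_lit 3) (nat_lit 0x1000080004000200008000000000000000000) (nat_lit 0x0) (nat_lit 0x400030001400000000000000) := T_1 (nat_lit 77) (nat_lit 94) (nat_lit 6) (nat_lit 8) (nat_lit 8) L152 (by decide +kernel)
theorem L154 : W_1 (nat_lit 4) (nat_lit 0x1000080004000200000000000000000000000) (nat_lit 0x0) (nat_lit 0x500038001400000000000000) := T_1 (nat_lit 75) (nat_lit 92) (nat_lit 4) (nat_lit 8) (nat_lit 8) L153 (by decide +kernel)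
theorem L155 : W_1 (nat_lit 2) (nat_lit 0x1000080004000200010000000000000000000) (nat_lit 0x0) (nat_lit 0x100008000400000000000000) := D_1 (nat_lit 75) (nat_lit 92) (nat_lit 58) (nat_lit 4) (nat_lit 8) (nat_lit 8) (nat_lit 4) (nat_lit 8) (nat_lit 7) (by decide +kernel)
theorem L156 : W_1 (nat_lit 2) (nat_lit 0x1000180004000200010000800000000000000) (nat_lit 0x0) (nat_lit 0x8000400020000000000) := D_1 (nat_lit 58) (nat_lit 75) (nat_lit 41) (nat_lit 4) (nat_lit 8) (nat_lit 7) (nat_lit 4) (nat_lit 8) (nat_lit 6) (by decide +kernel)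
theorem L157 : W_1 (nat_lit 3) (nat_lit 0x1000180004000200010000000000000000000) (nat_lit 0x0) (nat_lit 0x8000000008000c00020000000000) := T_1 (nat_lit 59) (nat_lit 111) (nat_lit 7) (nat_lit 8) (nat_lit 3) L156 (by decide +kernel)
theorem L158 : W_1 (nat_lit 4) (nat_lit 0x1000080004000200010000000000000000000) (nat_lit 0x0) (nat_lit 0x2000100008000000008000c00020000000000) := T_1 (nat_lit 128) (nat_lit 145) (nat_lit 7) (nat_lit 8) (nat_lit 4) L157 (by decide +kernel)
theorem L159 : W_1 (nat_lit 2) (nat_lit 0x1000180006000200010001800040000000000) (nat_lit 0x0) (nat_lit 0x400020001000000) := D_1 (nat_lit 41) (nat_lit 24) (nat_lit 58) (nat_lit 4) (nat_lit 8) (nat_lit 5) (nat_lit 4) (nat_lit 8) (nat_lit 6) (by decide +kernel)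
theorem L160 : W_1 (nat_lit 3) (nat_lit 0x1000180006000200010001800000000000000) (nat_lit 0x0) (nat_lit 0x100000000400060001000000) := T_1 (nat_lit 42) (nat_lit 92) (nat_lit 5) (nat_lit 8) (nat_lit 2) L159 (by decide +kernel)
theorem L161 : W_1 (nat_lit 4) (nat_lit 0x1000180004000200010001800000000000000) (nat_lit 0x0) (nat_lit 0x40002000100000000400060001000000) := T_1 (nat_lit 109) (nat_lit 126) (nat_lit 5) (nat_lit 8) (nat_lit 3) L160 (by decide +kernel)
theorem L162 : W_1 (nat_lit 5) (nat_lit 0x1000180004000200010000800000000000000) (nat_lit 0x0) (nat_lit 0x400020001000000014000e0001000000) := T_1 (nat_lit 60) (nat_lit 43) (nat_lit 6) (nat_lit 8) (nat_lit 6) L161 (by decide +kernel)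
theorem L163 : W_1 (nat_lit 6) (nat_lit 0x1000180004000200010000000000000000000) (nat_lit 0x0) (nat_lit 0x4000a000100000001c000e0001000000) := T_1 (nat_lit 59) (nat_lit 111) (nat_lit 7) (nat_lit 8) (nat_lit 3) L162 (by decide +kernel)
theorem L164 : W_1 (nat_lit 7) (nat_lit 0x1000080004000200010000000000000000000) (nat_lit 0x0) (nat_lit 0x200014000a000100000001c000e0001000000) := T_1 (nat_lit 128) (nat_lit 145) (nat_lit 7) (nat_lit 8) (nat_lit 4) L163 (by decide +kernel)
theorem L165 : W_1 (nat_lit 2) (nat_lit 0x1000180006000200010001800000000000000) (nat_lit 0x0) (nat_lit 0x100008000000040000000000) := D_1 (nat_lit 92) (nat_lit 42) (nat_lit 75) (nat_lit 5) (nat_lit 8) (nat_lit 2) (nat_lit 4) (nat_lit 8) (nat_lit 8) (by decide +kernel)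
theorem L166 : W_1 (nat_lit 3) (nat_lit 0x1000180004000200010001800000000000000) (nat_lit 0x0) (nat_lit 0x40002000100008000000040000000000) := T_1 (nat_lit 109) (nat_lit 126) (nat_lit 5) (nat_lit 8) (nat_lit 3) L165 (by decide +kernel)
theorem L167 : W_1 (nat_lit 4) (nat_lit 0x1000180004000200010000800000000000000) (nat_lit 0x0) (nat_lit 0x400020001000080010000c0000000000) := T_1 (nat_lit 60) (nat_lit 43) (nat_lit 6) (nat_lit 8) (nat_lit 6) L166 (by decide +kernel)
theorem L168 : W_1 (nat_lit 5) (nat_lit 0x1000180004000200010000000000000000000) (nat_lit 0x0) (nat_lit 0x4000a0001000080018000c0000000000) := T_1 (nat_lit 59) (nat_lit 111) (nat_lit 7) (nat_lit 8) (nat_lit 3) L167 (by decide +kernel)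
theorem L169 : W_1 (nat_lit 6) (nat_lit 0x1000080004000200010000000000000000000) (nat_lit 0x0) (nat_lit 0x200014000a0001000080018000c0000000000) := T_1 (nat_lit 128) (nat_lit 145) (nat_lit 7) (nat_lit 8) (nat_lit 4) L168 (by decide +kernel)
theorem L170 : W_1 (nat_lit 8) (nat_lit 0x1000080004000200000000000000000000000) (nat_lit 0x0) (nat_lit 0x200014000a000100018001c000e0001000000) := Q_1 (nat_lit 76) (C_1 L155 (C_1 L158 (C_1 L164 (C_1 L169 N_1)))) (by decide +kernel)
theorem L171 : W_1 (nat_lit 2) (nat_lit 0x100008000c000380000000000000000000000) (nat_lit 0x0) (nat_lit 0x32000000000000000000000000000) := D_1 (nat_lit 112) (nat_lit 113) (nat_lit 109) (nat_lit 0) (nat_lit 11) (nat_lit 6) (nat_lit 0) (nat_lit 10) (nat_lit 6) (by decide +kernel)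
theorem L172 : W_1 (nat_lit 3) (nat_lit 0x100008000c000300000000000000000000000) (nat_lit 0x0) (nat_lit 0x320000c0000000000000000000000) := T_1 (nat_lit 91) (nat_lit 90) (nat_lit 3) (nat_lit 5) (nat_lit 5) L171 (by decide +kernel)
theorem L173 : W_1 (nat_lit 4) (nat_lit 0x100008000c000200000000000000000000000) (nat_lit 0x0) (nat_lit 0x320001c0008000000000000000000) := T_1 (nat_lit 92) (nat_lit 75) (nat_lit 4) (nat_lit 8) (nat_lit 8) L172 (by decide +kernel)
theorem L174 : W_1 (nat_lit 2) (nat_lit 0x100008001c000600000000000000000000000) (nat_lit 0x0) (nat_lit 0x40060000000000000000000000000000) := D_1 (nat_lit 113) (nat_lit 114) (nat_lit 126) (nat_lit 0) (nat_lit 12) (nat_lit 6) (nat_lit 1) (nat_lit 11) (nat_lit 6) (by decide +kernel)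
theorem L175 : W_1 (nat_lit 3) (nat_lit 0x100008001c000200000000000000000000000) (nat_lit 0x0) (nat_lit 0x40060000400020000000000000000000) := T_1 (nat_lit 94) (nat_lit 77) (nat_lit 6) (nat_lit 8) (nat_lit 8) L174 (by decide +kernel)
theorem L176 : W_1 (nat_lit 2) (nat_lit 0x100048003e000600000000000000000000000) (nat_lit 0x0) (nat_lit 0x1001800000000000000000000000) := D_1 (nat_lit 95) (nat_lit 96) (nat_lit 108) (nat_lit 2) (nat_lit 7) (nat_lit 6) (nat_lit 2) (nat_lit 6) (nat_lit 6) (by decide +kernel)
theorem L177 : W_1 (nat_lit 3) (nat_lit 0x100048003c000600000000000000000000000) (nat_lit 0x0) (nat_lit 0x200003001800000000000000000000000) := T_1 (nat_lit 109) (nat_lit 129) (nat_lit 3) (nat_lit 7) (nat_lit 6) L176 (by decide +kernel)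
theorem L178 : W_1 (nat_lit 4) (nat_lit 0x100008003c000600000000000000000000000) (nat_lit 0x0) (nat_lit 0xe00003001800000000000000000000000) := T_1 (nat_lit 130) (nat_lit 131) (nat_lit 3) (nat_lit 8) (nat_lit 6) L177 (by decide +kernel)
theorem L179 : W_1 (nat_lit 5) (nat_lit 0x100008001c000600000000000000000000000) (nat_lit 0x0) (nat_lit 0xe00063001800000000000000000000000) := T_1 (nat_lit 113) (nat_lit 114) (nat_lit 0) (nat_lit 12) (nat_lit 6) L178 (by decide +kernel)
theorem L180 : W_1 (nat_lit 6) (nat_lit 0x100008001c000200000000000000000000000) (nat_lit 0x0) (nat_lit 0xe00063001c00020000000000000000000) := T_1 (nat_lit 94) (nat_lit 77) (nat_lit 6) (nat_lit 8) (nat_lit 8) L179 (by decide +kernel)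
theorem L181 : W_1 (nat_lit 2) (nat_lit 0x100008003c000200000000000000000000000) (nat_lit 0x0) (nat_lit 0x100040000400000000000000000000000) := D_1 (nat_lit 114) (nat_lit 94) (nat_lit 128) (nat_lit 0) (nat_lit 12) (nat_lit 6) (nat_lit 1) (nat_lit 12) (nat_lit 6) (by decide +kernel)
theorem L182 : W_1 (nat_lit 3) (nat_lit 0x100008001c000200000000000000000000000) (nat_lit 0x0) (nat_lit 0x140060000400000000000000000000000) := T_1 (nat_lit 113) (nat_lit 126) (nat_lit 1) (nat_lit 11) (nat_lit 6) L181 (by decide +kernel)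
theorem L183 : W_1 (nat_lit 2) (nat_lit 0x100008007c000200000000000000000000000) (nat_lit 0x0) (nat_lit 0x1c00000000000000000000000000000000) := D_1 (nat_lit 131) (nat_lit 130) (nat_lit 132) (nat_lit 3) (nat_lit 8) (nat_lit 6) (nat_lit 3) (nat_lit 9) (nat_lit 6) (by decide +kernel)
theorem L184 : W_1 (nat_lit 3) (nat_lit 0x100008003c000200000000000000000000000) (nat_lit 0x0) (nat_lit 0x1d00040000000000000000000000000000) := T_1 (nat_lit 114) (nat_lit 128) (nat_lit 1) (nat_lit 12) (nat_lit 6) L183 (by decide +kernel)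
theorem L185 : W_1 (nat_lit 4) (nat_lit 0x100008001c000200000000000000000000000) (nat_lit 0x0) (nat_lit 0x1d40060000000000000000000000000000) := T_1 (nat_lit 113) (nat_lit 126) (nat_lit 1) (nat_lit 11) (nat_lit 6) L184 (by decide +kernel)
theorem L186 : W_1 (nat_lit 2) (nat_lit 0x100008001e000600000000000000000000000) (nat_lit 0x0) (nat_lit 0x1800800000000000000000000000) := D_1 (nat_lit 108) (nat_lit 95) (nat_lit 107) (nat_lit 2) (nat_lit 6) (nat_lit 6) (nat_lit 2) (nat_lit 5) (nat_lit 6) (by decide +kernel)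
theorem L187 : W_1 (nat_lit 3) (nat_lit 0x100008001e000200000000000000000000000) (nat_lit 0x0) (nat_lit 0x1800c00020000000000000000000) := T_1 (nat_lit 94) (nat_lit 77) (nat_lit 6) (nat_lit 8) (nat_lit 8) L186 (by decide +kernel)
theorem L188 : W_1 (nat_lit 2) (nat_lit 0x50002c001e000e00000000000000000000000) (nat_lit 0x0) (nat_lit 0xa000100000000000000000000000000000000) := D_1 (nat_lit 147) (nat_lit 128) (nat_lit 145) (nat_lit 3) (nat_lit 7) (nat_lit 7) (nat_lit 0) (nat_lit 11) (nat_lit 8) (by decide +kernel)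
theorem L189 : W_1 (nat_lit 3) (nat_lit 0x10002c001e000e00000000000000000000000) (nat_lit 0x0) (nat_lit 0x8000e000100000000000000000000000000000000) := T_1 (nat_lit 146) (nat_lit 163) (nat_lit 4) (nat_lit 10) (nat_lit 9) L188 (by decide +kernel)
theorem L190 : W_1 (nat_lit 4) (nat_lit 0x10000c001e000e00000000000000000000000) (nat_lit 0x0) (nat_lit 0x8000e000700000000000000000000000000000000) := T_1 (nat_lit 129) (nat_lit 130) (nat_lit 3) (nat_lit 7) (nat_lit 6) L189 (by decide +kernel)
theorem L191 : W_1 (nat_lit 5) (nat_lit 0x10000c001e000a00000000000000000000000) (nat_lit 0x0) (nat_lit 0x8000e000700000000400020000000000000000000) := T_1 (nat_lit 94) (nat_lit 77) (nat_lit 6) (nat_lit 8) (nat_lit 8) L190 (by decide +kernel)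
theorem L192 : W_1 (nat_lit 6) (nat_lit 0x100008001e000a00000000000000000000000) (nat_lit 0x0) (nat_lit 0x8000e000760000000400020000000000000000000) := T_1 (nat_lit 126) (nat_lit 125) (nat_lit 1) (nat_lit 10) (nat_lit 6) L191 (by decide +kernel)
theorem L193 : W_1 (nat_lit 7) (nat_lit 0x100008001e000200000000000000000000000) (nat_lit 0x0) (nat_lit 0x8000e000760000001c00020000000000000000000) := T_1 (nat_lit 95) (nat_lit 96) (nat_lit 2) (nat_lit 7) (nat_lit 6) L192 (by decide +kernel)
theorem L194 : W_1 (nat_lit 2) (nat_lit 0x100028001f000200000000000000000000000) (nat_lit 0x0) (nat_lit 0x800c00000000000000000000000) := D_1 (nat_lit 94) (nat_lit 107) (nat_lit 95) (nat_lit 2) (nat_lit 5) (nat_lit 6) (nat_lit 2) (nat_lit 6) (nat_lit 6) (by decide +kernel)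
theorem L195 : W_1 (nat_lit 3) (nat_lit 0x100028001e000200000000000000000000000) (nat_lit 0x0) (nat_lit 0x100001800c00000000000000000000000) := T_1 (nat_lit 108) (nat_lit 128) (nat_lit 3) (nat_lit 6) (nat_lit 6) L194 (by decide +kernel)
theorem L196 : W_1 (nat_lit 4) (nat_lit 0x100008001e000200000000000000000000000) (nat_lit 0x0) (nat_lit 0x700001800c00000000000000000000000) := T_1 (nat_lit 129) (nat_lit 130) (nat_lit 3) (nat_lit 7) (nat_lit 6) L195 (by decide +kernel)
theorem L197 : W_1 (nat_lit 2) (nat_lit 0x10002c001f000200000000000000000000000) (nat_lit 0x0) (nat_lit 0xc00400000000000000000000000) := D_1 (nat_lit 107) (nat_lit 106) (nat_lit 94) (nat_lit 3) (nat_lit 4) (nat_lit 6) (nat_lit 2) (nat_lit 5) (nat_lit 6) (by decide +kernel)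
theorem L198 : W_1 (nat_lit 3) (nat_lit 0x10002c001e000200000000000000000000000) (nat_lit 0x0) (nat_lit 0x100001c00400000000000000000000000) := T_1 (nat_lit 108) (nat_lit 128) (nat_lit 3) (nat_lit 6) (nat_lit 6) L197 (by decide +kernel)
theorem L199 : W_1 (nat_lit 4) (nat_lit 0x10000c001e000200000000000000000000000) (nat_lit 0x0) (nat_lit 0x700001c00400000000000000000000000) := T_1 (nat_lit 129) (nat_lit 130) (nat_lit 3) (nat_lit 7) (nat_lit 6) L198 (by decide +kernel)
theorem L200 : W_1 (nat_lit 5) (nat_lit 0x100008001e000200000000000000000000000) (nat_lit 0x0) (nat_lit 0x760001c00400000000000000000000000) := T_1 (nat_lit 126) (nat_lit 125) (nat_lit 1) (nat_lit 10) (nat_lit 6) L199 (by decide +kernel)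
theorem L201 : W_1 (nat_lit 2) (nat_lit 0x10002c001f800a00000000000000000000000) (nat_lit 0x0) (nat_lit 0xe0000000000000000000000) := D_1 (nat_lit 90) (nat_lit 91) (nat_lit 89) (nat_lit 0) (nat_lit 9) (nat_lit 6) (nat_lit 0) (nat_lit 8) (nat_lit 6) (by decide +kernel)
theorem L202 : W_1 (nat_lit 3) (nat_lit 0x10002c001f000a00000000000000000000000) (nat_lit 0x0) (nat_lit 0xc000e0000000000000000000000) := T_1 (nat_lit 107) (nat_lit 106) (nat_lit 3) (nat_lit 4) (nat_lit 6) L201 (by decide +kernel)
theorem L203 : W_1 (nat_lit 4) (nat_lit 0x10002c001e000a00000000000000000000000) (nat_lit 0x0) (nat_lit 0x100001c000e0000000000000000000000) := T_1 (nat_lit 108) (nat_lit 128) (nat_lit 3) (nat_lit 6) (nat_lit 6) L202 (by decide +kernel)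
theorem L204 : W_1 (nat_lit 5) (nat_lit 0x10000c001e000a00000000000000000000000) (nat_lit 0x0) (nat_lit 0x700001c000e0000000000000000000000) := T_1 (nat_lit 129) (nat_lit 130) (nat_lit 3) (nat_lit 7) (nat_lit 6) L203 (by decide +kernel)
theorem L205 : W_1 (nat_lit 6) (nat_lit 0x100008001e000a00000000000000000000000) (nat_lit 0x0) (nat_lit 0x760001c000e0000000000000000000000) := T_1 (nat_lit 126) (nat_lit 125) (nat_lit 1) (nat_lit 10) (nat_lit 6) L204 (by decide +kernel)
theorem L206 : W_1 (nat_lit 7) (nat_lit 0x100008001e000200000000000000000000000) (nat_lit 0x0) (nat_lit 0x760001c018e0000000000000000000000) := T_1 (nat_lit 95) (nat_lit 96) (nat_lit 2) (nat_lit 7) (nat_lit 6) L205 (by decide +kernel)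
theorem L207 : W_1 (nat_lit 8) (nat_lit 0x100008001c000200000000000000000000000) (nat_lit 0x0) (nat_lit 0x8000e000760003c01ce0020000000000000000000) := Q_1 (nat_lit 109) (C_1 L187 (C_1 L193 (C_1 L196 (C_1 L200 (C_1 L206 N_1))))) (by decide +kernel)
theorem L208 : W_1 (nat_lit 9) (nat_lit 0x100008000c000200000000000000000000000) (nat_lit 0x0) (nat_lit 0x8000e001f60073c01ce0020000000000000000000) := Q_1 (nat_lit 112) (C_1 L175 (C_1 L180 (C_1 L182 (C_1 L185 (C_1 L207 N_1))))) (by decide +kernel)
theorem L209 : W_1 (nat_lit 2) (nat_lit 0x100008000f000780004000000000000000000) (nat_lit 0x0) (nat_lit 0x40000000000000000200010000000000) := D_1 (nat_lit 57) (nat_lit 126) (nat_lit 40) (nat_lit 7) (nat_lit 6) (nat_lit 3) (nat_lit 7) (nat_lit 6) (nat_lit 2) (by decide +kernel)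
theorem L210 : W_1 (nat_lit 3) (nat_lit 0x100008000d000780004000000000000000000) (nat_lit 0x0) (nat_lit 0x40002000800000000200010000000000) := T_1 (nat_lit 109) (nat_lit 95) (nat_lit 2) (nat_lit 6) (nat_lit 6) L209 (by decide +kernel)
theorem L211 : W_1 (nat_lit 4) (nat_lit 0x100008000d000780000000000000000000000) (nat_lit 0x0) (nat_lit 0x40002000800006000200010000000000) := T_1 (nat_lit 74) (nat_lit 73) (nat_lit 0) (nat_lit 9) (nat_lit 5) L210 (by decide +kernel)
theorem L212 : W_1 (nat_lit 5) (nat_lit 0x100008000c000780000000000000000000000) (nat_lit 0x0) (nat_lit 0x40003800800006000200010000000000) := T_1 (nat_lit 108) (nat_lit 107) (nat_lit 1) (nat_lit 9) (nat_lit 5) L211 (by decide +kernel)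
theorem L213 : W_1 (nat_lit 6) (nat_lit 0x100008000c000700000000000000000000000) (nat_lit 0x0) (nat_lit 0x400038008c0006000200010000000000) := T_1 (nat_lit 91) (nat_lit 90) (nat_lit 3) (nat_lit 5) (nat_lit 5) L212 (by decide +kernel)
theorem L214 : W_1 (nat_lit 7) (nat_lit 0x100008000c000600000000000000000000000) (nat_lit 0x0) (nat_lit 0x400038009c000e000200010000000000) := T_1 (nat_lit 92) (nat_lit 75) (nat_lit 4) (nat_lit 8) (nat_lit 8) L213 (by decide +kernel)
theorem L215 : W_1 (nat_lit 8) (nat_lit 0x100008000c000200000000000000000000000) (nat_lit 0x0) (nat_lit 0x40003800dc002e000200010000000000) := T_1 (nat_lit 94) (nat_lit 77) (nat_lit 6) (nat_lit 8) (nat_lit 8) L214 (by decide +kernel)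
theorem L216 : W_1 (nat_lit 2) (nat_lit 0x100008000c000380000000000000000000000) (nat_lit 0x0) (nat_lit 0x30000400000000000000000000000) := D_1 (nat_lit 112) (nat_lit 113) (nat_lit 94) (nat_lit 0) (nat_lit 11) (nat_lit 6) (nat_lit 3) (nat_lit 6) (nat_lit 5) (by decide +kernel)
theorem L217 : W_1 (nat_lit 3) (nat_lit 0x100008000c000300000000000000000000000) (nat_lit 0x0) (nat_lit 0x300004c0000000000000000000000) := T_1 (nat_lit 91) (nat_lit 90) (nat_lit 3) (nat_lit 5) (nat_lit 5) L216 (by decide +kernel)
theorem L218 : W_1 (nat_lit 4) (nat_lit 0x100008000c000200000000000000000000000) (nat_lit 0x0) (nat_lit 0x300005c0008000000000000000000) := T_1 (nat_lit 92) (nat_lit 75) (nat_lit 4) (nat_lit 8) (nat_lit 8) L217 (by decide +kernel)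
theorem L219 : W_1 (nat_lit 2) (nat_lit 0x10003c001e000a00008000000000000000000) (nat_lit 0x0) (nat_lit 0x2000000000000000040002000000000000000) := D_1 (nat_lit 78) (nat_lit 145) (nat_lit 61) (nat_lit 5) (nat_lit 10) (nat_lit 4) (nat_lit 5) (nat_lit 10) (nat_lit 3) (by decide +kernel)
theorem L220 : W_1 (nat_lit 3) (nat_lit 0x10002c001e000a00008000000000000000000) (nat_lit 0x0) (nat_lit 0x2000100001000000040002000000000000000) := T_1 (nat_lit 128) (nat_lit 108) (nat_lit 3) (nat_lit 6) (nat_lit 6) L219 (by decide +kernel)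
theorem L221 : W_1 (nat_lit 4) (nat_lit 0x10000c001e000a00008000000000000000000) (nat_lit 0x0) (nat_lit 0x2000700001000000040002000000000000000) := T_1 (nat_lit 129) (nat_lit 130) (nat_lit 3) (nat_lit 7) (nat_lit 6) L220 (by decide +kernel)
theorem L222 : W_1 (nat_lit 5) (nat_lit 0x10000c001e000a00000000000000000000000) (nat_lit 0x0) (nat_lit 0x2000700001000100048002000000000000000) := T_1 (nat_lit 75) (nat_lit 92) (nat_lit 7) (nat_lit 7) (nat_lit 4) L221 (by decide +kernel)
theorem L223 : W_1 (nat_lit 6) (nat_lit 0x10000c001e000200000000000000000000000) (nat_lit 0x0) (nat_lit 0x2000700001001900048002000000000000000) := T_1 (nat_lit 95) (nat_lit 96) (nat_lit 2) (nat_lit 7) (nat_lit 6) L222 (by decide +kernel)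
theorem L224 : W_1 (nat_lit 7) (nat_lit 0x100008001e000200000000000000000000000) (nat_lit 0x0) (nat_lit 0x2000760001001900048002000000000000000) := T_1 (nat_lit 126) (nat_lit 125) (nat_lit 1) (nat_lit 10) (nat_lit 6) L223 (by decide +kernel)
theorem L225 : W_1 (nat_lit 8) (nat_lit 0x100008001c000200000000000000000000000) (nat_lit 0x0) (nat_lit 0x8000e000760003c01d00068002000000000000000) := Q_1 (nat_lit 109) (C_1 L196 (C_1 L187 (C_1 L200 (C_1 L193 (C_1 L224 N_1))))) (by decide +kernel)
theorem L226 : W_1 (nat_lit 9) (nat_lit 0x100008000c000200000000000000000000000) (nat_lit 0x0) (nat_lit 0x8000e001f60073c01d00068002000000000000000) := Q_1 (nat_lit 112) (C_1 L185 (C_1 L180 (C_1 L182 (C_1 L225 N_1)))) (by decide +kernel)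
theorem L227 : W_1 (nat_lit 10) (nat_lit 0x1000080004000200000000000000000000000) (nat_lit 0x0) (nat_lit 0x8000e001f6007bc01de006e002200010000000000) := Q_1 (nat_lit 111) (C_1 L173 (C_1 L208 (C_1 L215 (C_1 L218 (C_1 L226 N_1))))) (by decide +kernel)
theorem L228 : W_1 (nat_lit 2) (nat_lit 0x1000180006000200030000800040000000000) (nat_lit 0x0) (nat_lit 0x400020001000000) := D_1 (nat_lit 41) (nat_lit 24) (nat_lit 58) (nat_lit 4) (nat_lit 8) (nat_lit 5) (nat_lit 4) (nat_lit 8) (nat_lit 6) (by decide +kernel)
theorem L229 : W_1 (nat_lit 3) (nat_lit 0x1000180006000200030000800000000000000) (nat_lit 0x0) (nat_lit 0x100000000400060001000000) := T_1 (nat_lit 42) (nat_lit 92) (nat_lit 5) (nat_lit 8) (nat_lit 2) L228 (by decide +kernel)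
theorem L230 : W_1 (nat_lit 4) (nat_lit 0x1000180004000200030000800000000000000) (nat_lit 0x0) (nat_lit 0x40002000100000000400060001000000) := T_1 (nat_lit 109) (nat_lit 126) (nat_lit 5) (nat_lit 8) (nat_lit 3) L229 (by decide +kernel)
theorem L231 : W_1 (nat_lit 5) (nat_lit 0x1000180004000200030000000000000000000) (nat_lit 0x0) (nat_lit 0x4000a000100000000c00060001000000) := T_1 (nat_lit 59) (nat_lit 111) (nat_lit 7) (nat_lit 8) (nat_lit 3) L230 (by decide +kernel)
theorem L232 : W_1 (nat_lit 6) (nat_lit 0x1000080004000200030000000000000000000) (nat_lit 0x0) (nat_lit 0x200014000a000100000000c00060001000000) := T_1 (nat_lit 128) (nat_lit 145) (nat_lit 7) (nat_lit 8) (nat_lit 4) L231 (by decide +kernel)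
theorem L233 : W_1 (nat_lit 7) (nat_lit 0x1000080004000200020000000000000000000) (nat_lit 0x0) (nat_lit 0x200014000a000100010001c00060001000000) := T_1 (nat_lit 76) (nat_lit 60) (nat_lit 6) (nat_lit 8) (nat_lit 7) L232 (by decide +kernel)
theorem L234 : W_1 (nat_lit 8) (nat_lit 0x1000080004000200000000000000000000000) (nat_lit 0x0) (nat_lit 0x200014000a000500030001c00060001000000) := T_1 (nat_lit 77) (nat_lit 94) (nat_lit 6) (nat_lit 8) (nat_lit 8) L233 (by decide +kernel)
theorem L235 : W_1 (nat_lit 11) (nat_lit 0x1000080004000000000000000000000000000) (nat_lit 0x0) (nat_lit 0x8000e001f6007bc01fe007e003e000f0001000000) := Q_1 (nat_lit 93) (C_1 L131 (C_1 L154 (C_1 L96 (C_1 L170 (C_1 L227 (C_1 L234 N_1)))))) (by decide +kernel)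
theorem L244 : W_1 (nat_lit 2) (nat_lit 0x200010000c000e000000000000000000000000000) (nat_lit 0x0) (nat_lit 0x30010000000000000000000000000000) := D_1 (nat_lit 125) (nat_lit 124) (nat_lit 112) (nat_lit 2) (nat_lit 5) (nat_lit 7) (nat_lit 1) (nat_lit 10) (nat_lit 6) (by decide +kernel)
theorem L245 : W_1 (nat_lit 3) (nat_lit 0x200010000c0006000000000000000000000000000) (nat_lit 0x0) (nat_lit 0x30018000400000000000000000000000) := T_1 (nat_lit 111) (nat_lit 94) (nat_lit 6) (nat_lit 8) (nat_lit 9) L244 (by decide +kernel)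
theorem L246 : W_1 (nat_lit 4) (nat_lit 0x200010000c0004000000000000000000000000000) (nat_lit 0x0) (nat_lit 0x3001a000500000000000000000000000) := T_1 (nat_lit 109) (nat_lit 92) (nat_lit 4) (nat_lit 8) (nat_lit 9) L245 (by decide +kernel)
theorem L284 : W_1 (nat_lit 2) (nat_lit 0x200010003e0004000000000000000000000000000) (nat_lit 0x0) (nat_lit 0xe000000000000000000000000000000000000) := D_1 (nat_lit 146) (nat_lit 145) (nat_lit 147) (nat_lit 3) (nat_lit 6) (nat_lit 7) (nat_lit 3) (nat_lit 7) (nat_lit 7) (by decide +kernel)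
theorem L290 : W_1 (nat_lit 2) (nat_lit 0x30001400fe0025000000000000000000000000000) (nat_lit 0x0) (nat_lit 0x38000000000000000000000000000000000000) := D_1 (nat_lit 148) (nat_lit 147) (nat_lit 149) (nat_lit 3) (nat_lit 8) (nat_lit 7) (nat_lit 3) (nat_lit 9) (nat_lit 7) (by decide +kernel)
theorem L291 : W_1 (nat_lit 3) (nat_lit 0x300014007e0025000000000000000000000000000) (nat_lit 0x0) (nat_lit 0x3a000800000000000000000000000000000000) := T_1 (nat_lit 131) (nat_lit 145) (nat_lit 1) (nat_lit 12) (nat_lit 7) L290 (by decide +kernel)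
theorem L292 : W_1 (nat_lit 4) (nat_lit 0x300014003e0025000000000000000000000000000) (nat_lit 0x0) (nat_lit 0x3a000c00040000000000000000000000000000) := T_1 (nat_lit 130) (nat_lit 114) (nat_lit 2) (nat_lit 8) (nat_lit 7) L291 (by decide +kernel)
theorem L297 : W_1 (nat_lit 2) (nat_lit 0x200030003e0024000000000000000000000000000) (nat_lit 0x0) (nat_lit 0xc00040000000000000000000000000000) := D_1 (nat_lit 130) (nat_lit 131) (nat_lit 114) (nat_lit 1) (nat_lit 12) (nat_lit 7) (nat_lit 2) (nat_lit 8) (nat_lit 7) (by decide +kernel)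
theorem L298 : W_1 (nat_lit 3) (nat_lit 0x200010003e0024000000000000000000000000000) (nat_lit 0x0) (nat_lit 0x6000c00040000000000000000000000000000) := T_1 (nat_lit 145) (nat_lit 146) (nat_lit 3) (nat_lit 6) (nat_lit 7) L297 (by decide +kernel)
theorem L299 : W_1 (nat_lit 4) (nat_lit 0x200010003e0004000000000000000000000000000) (nat_lit 0x0) (nat_lit 0x6000c00070000000000000000000000000000) := T_1 (nat_lit 113) (nat_lit 112) (nat_lit 2) (nat_lit 7) (nat_lit 7) L298 (by decide +kernel)
theorem L307 : W_1 (nat_lit 2) (nat_lit 0x300010002c001f800000000000000000000000000) (nat_lit 0x0) (nat_lit 0xe0000000000000000000000) := D_1 (nat_lit 90) (nat_lit 91) (nat_lit 89) (nat_lit 0) (nat_lit 9) (nat_lit 6) (nat_lit 0) (nat_lit 8) (nat_lit 6) (by decide +kernel)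
theorem L308 : W_1 (nat_lit 3) (nat_lit 0x300010002c001f000000000000000000000000000) (nat_lit 0x0) (nat_lit 0xc000e0000000000000000000000) := T_1 (nat_lit 107) (nat_lit 106) (nat_lit 3) (nat_lit 4) (nat_lit 6) L307 (by decide +kernel)
theorem L309 : W_1 (nat_lit 4) (nat_lit 0x300010002c001e000000000000000000000000000) (nat_lit 0x0) (nat_lit 0x100001c000e0000000000000000000000) := T_1 (nat_lit 108) (nat_lit 128) (nat_lit 3) (nat_lit 6) (nat_lit 6) L308 (by decide +kernel)
theorem L310 : W_1 (nat_lit 5) (nat_lit 0x300010000c001e000000000000000000000000000) (nat_lit 0x0) (nat_lit 0x700001c000e0000000000000000000000) := T_1 (nat_lit 129) (nat_lit 130) (nat_lit 3) (nat_lit 7) (nat_lit 6) L309 (by decide +kernel)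
theorem L311 : W_1 (nat_lit 6) (nat_lit 0x300010000c001c000000000000000000000000000) (nat_lit 0x0) (nat_lit 0x700003c001e0000000000000000000000) := T_1 (nat_lit 109) (nat_lit 92) (nat_lit 4) (nat_lit 8) (nat_lit 9) L310 (by decide +kernel)
theorem L312 : W_1 (nat_lit 7) (nat_lit 0x300010000c000c000000000000000000000000000) (nat_lit 0x0) (nat_lit 0x700033c001e0000000000000000000000) := T_1 (nat_lit 112) (nat_lit 113) (nat_lit 1) (nat_lit 11) (nat_lit 6) L311 (by decide +kernel)
theorem L313 : W_1 (nat_lit 8) (nat_lit 0x300010000c0004000000000000000000000000000) (nat_lit 0x0) (nat_lit 0x70003bc005e0000000000000000000000) := T_1 (nat_lit 111) (nat_lit 94) (nat_lit 6) (nat_lit 8) (nat_lit 9) L312 (by decide +kernel)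
theorem L314 : W_1 (nat_lit 9) (nat_lit 0x200010000c0004000000000000000000000000000) (nat_lit 0x0) (nat_lit 0x20001000000070003bc005e0000000000000000000000) := T_1 (nat_lit 160) (nat_lit 177) (nat_lit 5) (nat_lit 8) (nat_lit 6) L313 (by decide +kernel)
theorem L315 : W_1 (nat_lit 2) (nat_lit 0x300010000e000c000000000000000000000000000) (nat_lit 0x0) (nat_lit 0x32000000000000000000000000000) := D_1 (nat_lit 112) (nat_lit 113) (nat_lit 109) (nat_lit 1) (nat_lit 11) (nat_lit 6) (nat_lit 1) (nat_lit 10) (nat_lit 6) (by decide +kernel)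
theorem L316 : W_1 (nat_lit 3) (nat_lit 0x300010000c000c000000000000000000000000000) (nat_lit 0x0) (nat_lit 0x30032000000000000000000000000000) := T_1 (nat_lit 125) (nat_lit 124) (nat_lit 2) (nat_lit 5) (nat_lit 7) L315 (by decide +kernel)
theorem L317 : W_1 (nat_lit 4) (nat_lit 0x300010000c0004000000000000000000000000000) (nat_lit 0x0) (nat_lit 0x3003a000400000000000000000000000) := T_1 (nat_lit 111) (nat_lit 94) (nat_lit 6) (nat_lit 8) (nat_lit 9) L316 (by decide +kernel)
theorem L318 : W_1 (nat_lit 5) (nat_lit 0x200010000c0004000000000000000000000000000) (nat_lit 0x0) (nat_lit 0x20001000000003003a000400000000000000000000000) := T_1 (nat_lit 160) (nat_lit 177) (nat_lit 5) (nat_lit 8) (nat_lit 6) L317 (by decide +kernel)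
theorem L360 : W_1 (nat_lit 2) (nat_lit 0x200030000e0004000000000000000000000000000) (nat_lit 0x0) (nat_lit 0xc000100000000000000000000000000000000) := D_1 (nat_lit 146) (nat_lit 128) (nat_lit 147) (nat_lit 3) (nat_lit 6) (nat_lit 7) (nat_lit 0) (nat_lit 11) (nat_lit 8) (by decide +kernel)
theorem L417 : W_1 (nat_lit 2) (nat_lit 0x300010000e000c000000000000000000000000000) (nat_lit 0x0) (nat_lit 0x100030000000000000000000000000000) := D_1 (nat_lit 112) (nat_lit 113) (nat_lit 128) (nat_lit 1) (nat_lit 11) (nat_lit 6) (nat_lit 2) (nat_lit 6) (nat_lit 7) (by decide +kernel)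
theorem L418 : W_1 (nat_lit 3) (nat_lit 0x300010000c000c000000000000000000000000000) (nat_lit 0x0) (nat_lit 0x130030000000000000000000000000000) := T_1 (nat_lit 125) (nat_lit 124) (nat_lit 2) (nat_lit 5) (nat_lit 7) L417 (by decide +kernel)
theorem L419 : W_1 (nat_lit 4) (nat_lit 0x300010000c0004000000000000000000000000000) (nat_lit 0x0) (nat_lit 0x130038000400000000000000000000000) := T_1 (nat_lit 111) (nat_lit 94) (nat_lit 6) (nat_lit 8) (nat_lit 9) L418 (by decide +kernel)
theorem L420 : W_1 (nat_lit 5) (nat_lit 0x200010000c0004000000000000000000000000000) (nat_lit 0x0) (nat_lit 0x200010000000130038000400000000000000000000000) := T_1 (nat_lit 160) (nat_lit 177) (nat_lit 5) (nat_lit 8) (nat_lit 6) L419 (by decide +kernel)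
theorem L1261 : W_1 (nat_lit 2) (nat_lit 0xc000400020001000080006000200000000000000000000000) (nat_lit 0x0) (nat_lit 0x200010000800000000000000000000000000000000000000000000) := D_1 (nat_lit 196) (nat_lit 179) (nat_lit 213) (nat_lit 7) (nat_lit 8) (nat_lit 7) (nat_lit 7) (nat_lit 8) (nat_lit 8) (by decide +kernel)
theorem L1262 : W_1 (nat_lit 3) (nat_lit 0x4000400020001000080006000200000000000000000000000) (nat_lit 0x0) (nat_lit 0x280018000800000000000000000000000000000000000000000000) := T_1 (nat_lit 195) (nat_lit 211) (nat_lit 5) (nat_lit 8) (nat_lit 8) L1261 (by decide +kernel)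
theorem L3462 : W_1 (nat_lit 2) (nat_lit 0x30001000080044001e00100000000000000000000) (nat_lit 0x0) (nat_lit 0x80002000200000000000000000000) := D_1 (nat_lit 97) (nat_lit 115) (nat_lit 81) (nat_lit 3) (nat_lit 9) (nat_lit 5) (nat_lit 2) (nat_lit 9) (nat_lit 5) (by decide +kernel)
theorem L3463 : W_1 (nat_lit 3) (nat_lit 0x30001000080044001e00000000000000000000000) (nat_lit 0x0) (nat_lit 0x80002000380000000000000000000) := T_1 (nat_lit 80) (nat_lit 79) (nat_lit 2) (nat_lit 8) (nat_lit 5) L3462 (by decide +kernel)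
theorem L3464 : W_1 (nat_lit 4) (nat_lit 0x30001000080004001e00000000000000000000000) (nat_lit 0x0) (nat_lit 0xe0002000380000000000000000000) := T_1 (nat_lit 114) (nat_lit 113) (nat_lit 3) (nat_lit 8) (nat_lit 5) L3463 (by decide +kernel)
theorem L3465 : W_1 (nat_lit 5) (nat_lit 0x20001000080004001e00000000000000000000000) (nat_lit 0x0) (nat_lit 0x2000100000000000e0002000380000000000000000000) := T_1 (nat_lit 160) (nat_lit 177) (nat_lit 5) (nat_lit 8) (nat_lit 6) L3464 (by decide +kernel)
theorem L3472 : W_1 (nat_lit 6) (nat_lit 0x20001000080004000e00000000000000000000000) (nat_lit 0x0) (nat_lit 0x2000100000000000e2003000380000000000000000000) := T_1 (nat_lit 96) (nat_lit 109) (nat_lit 1) (nat_lit 11) (nat_lit 5) L3465 (by decide +kernel)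
theorem L19845 : W_1 (nat_lit 2) (nat_lit 0x8000600020001000180004000000000000000000000000000) (nat_lit 0x0) (nat_lit 0x200010000800000000000000000000000000000000000000000000) := D_1 (nat_lit 196) (nat_lit 179) (nat_lit 213) (nat_lit 7) (nat_lit 8) (nat_lit 7) (nat_lit 7) (nat_lit 8) (nat_lit 8) (by decide +kernel)
theorem L19846 : W_1 (nat_lit 3) (nat_lit 0x600020001000180004000000000000000000000000000) (nat_lit 0x0) (nat_lit 0x200018000800000002000000000000000000000000000000000000) := T_1 (nat_lit 195) (nat_lit 145) (nat_lit 6) (nat_lit 8) (nat_lit 11) L19845 (by decide +kernel)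
theorem L42771 : W_1 (nat_lit 2) (nat_lit 0x1400040002000100008000e000000000000000000000000000) (nat_lit 0x0) (nat_lit 0x280008000000000000000000000000000000000000000000000000) := D_1 (nat_lit 195) (nat_lit 211) (nat_lit 213) (nat_lit 5) (nat_lit 8) (nat_lit 8) (nat_lit 7) (nat_lit 8) (nat_lit 8) (by decide +kernel)
theorem L45877 : W_1 (nat_lit 2) (nat_lit 0x1400040002000100008000c000000000000000000000000000) (nat_lit 0x0) (nat_lit 0x280008000000000000000000000000000000000000000000000000) := D_1 (nat_lit 195) (nat_lit 211) (nat_lit 213) (nat_lit 5) (nat_lit 8) (nat_lit 8) (nat_lit 7) (nat_lit 8) (nat_lit 8) (by decide +kernel)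
theorem L49310 : W_1 (nat_lit 2) (nat_lit 0x200020001000080006000200000000000000000000000) (nat_lit 0x0) (nat_lit 0x4000400000000000040000000000000000000000000000000) := D_1 (nat_lit 178) (nat_lit 126) (nat_lit 194) (nat_lit 4) (nat_lit 8) (nat_lit 10) (nat_lit 5) (nat_lit 8) (nat_lit 7) (by decide +kernel)
theorem L50760 : W_1 (nat_lit 2) (nat_lit 0x3000100048001e001000000000000000000000000) (nat_lit 0x0) (nat_lit 0x800020002000000000000000000000000) := D_1 (nat_lit 113) (nat_lit 97) (nat_lit 131) (nat_lit 2) (nat_lit 8) (nat_lit 6) (nat_lit 3) (nat_lit 8) (nat_lit 6) (by decide +kernel)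
theorem L50761 : W_1 (nat_lit 3) (nat_lit 0x3000100008001e001000000000000000000000000) (nat_lit 0x0) (nat_lit 0xe00020002000000000000000000000000) := T_1 (nat_lit 130) (nat_lit 129) (nat_lit 3) (nat_lit 7) (nat_lit 6) L50760 (by decide +kernel)
theorem L50762 : W_1 (nat_lit 4) (nat_lit 0x3000100008001e000000000000000000000000000) (nat_lit 0x0) (nat_lit 0xe00020003800000000000000000000000) := T_1 (nat_lit 96) (nat_lit 95) (nat_lit 2) (nat_lit 7) (nat_lit 6) L50761 (by decide +kernel)
theorem L50763 : W_1 (nat_lit 5) (nat_lit 0x2000100008001e000000000000000000000000000) (nat_lit 0x0) (nat_lit 0x200010000000e00020003800000000000000000000000) := T_1 (nat_lit 160) (nat_lit 177) (nat_lit 5) (nat_lit 8) (nat_lit 6) L50762 (by decide +kernel)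
theorem L50764 : W_1 (nat_lit 2) (nat_lit 0x2000100008001e000000000000000000000000000) (nat_lit 0x0) (nat_lit 0x60020000000000000000000000000000) := D_1 (nat_lit 126) (nat_lit 113) (nat_lit 125) (nat_lit 1) (nat_lit 11) (nat_lit 6) (nat_lit 1) (nat_lit 10) (nat_lit 6) (by decide +kernel)
theorem L50765 : W_1 (nat_lit 2) (nat_lit 0x4003c0011002a001f800840000000000000000000000) (nat_lit 0x0) (nat_lit 0x20002000080000000000000000000000000000000000) := D_1 (nat_lit 157) (nat_lit 173) (nat_lit 139) (nat_lit 1) (nat_lit 7) (nat_lit 9) (nat_lit 0) (nat_lit 7) (nat_lit 9) (by decide +kernel)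
theorem L50766 : W_1 (nat_lit 3) (nat_lit 0x4003c0010002a001f800840000000000000000000000) (nat_lit 0x0) (nat_lit 0x20002000380000000000000000000000000000000000) := T_1 (nat_lit 140) (nat_lit 141) (nat_lit 0) (nat_lit 8) (nat_lit 9) L50765 (by decide +kernel)
theorem L50767 : W_1 (nat_lit 4) (nat_lit 0x3c0010002a001f800840000000000000000000000) (nat_lit 0x0) (nat_lit 0xe0002000380000000000000000000000000000000000) := T_1 (nat_lit 174) (nat_lit 175) (nat_lit 1) (nat_lit 8) (nat_lit 9) L50766 (by decide +kernel)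
theorem L50768 : W_1 (nat_lit 5) (nat_lit 0x380010002a001f800840000000000000000000000) (nat_lit 0x0) (nat_lit 0xe0006002380000000000000000000000000000000000) := T_1 (nat_lit 158) (nat_lit 145) (nat_lit 2) (nat_lit 5) (nat_lit 9) L50767 (by decide +kernel)
theorem L50769 : W_1 (nat_lit 6) (nat_lit 0x300010002a001f800840000000000000000000000) (nat_lit 0x0) (nat_lit 0xe000e002780000000000000000000000000000000000) := T_1 (nat_lit 159) (nat_lit 142) (nat_lit 4) (nat_lit 6) (nat_lit 9) L50768 (by decide +kernel)
theorem L50770 : W_1 (nat_lit 7) (nat_lit 0x300010002a001f000840000000000000000000000) (nat_lit 0x0) (nat_lit 0xe000e002780000000800020000000000000000000000) := T_1 (nat_lit 107) (nat_lit 89) (nat_lit 0) (nat_lit 8) (nat_lit 6) L50769 (by decide +kernel)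
theorem L50771 : W_1 (nat_lit 8) (nat_lit 0x300010000a001f000840000000000000000000000) (nat_lit 0x0) (nat_lit 0xe000e002780600000800020000000000000000000000) := T_1 (nat_lit 129) (nat_lit 130) (nat_lit 3) (nat_lit 7) (nat_lit 6) L50770 (by decide +kernel)
theorem L50772 : W_1 (nat_lit 9) (nat_lit 0x300010000a001f000800000000000000000000000) (nat_lit 0x0) (nat_lit 0xe000e0027806000008000e0000000000000000000000) := T_1 (nat_lit 90) (nat_lit 91) (nat_lit 0) (nat_lit 9) (nat_lit 6) L50771 (by decide +kernel)
theorem L50773 : W_1 (nat_lit 10) (nat_lit 0x300010000a001e000800000000000000000000000) (nat_lit 0x0) (nat_lit 0xe000e0027806100018000e0000000000000000000000) := T_1 (nat_lit 108) (nat_lit 124) (nat_lit 1) (nat_lit 9) (nat_lit 6) L50772 (by decide +kernel)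
theorem L50774 : W_1 (nat_lit 11) (nat_lit 0x200010000a001e000800000000000000000000000) (nat_lit 0x0) (nat_lit 0x2e001e0027806100018000e0000000000000000000000) := T_1 (nat_lit 160) (nat_lit 177) (nat_lit 5) (nat_lit 8) (nat_lit 6) L50773 (by decide +kernel)
theorem L50775 : W_1 (nat_lit 12) (nat_lit 0x2000100008001e000800000000000000000000000) (nat_lit 0x0) (nat_lit 0x2e001e0027806700018000e0000000000000000000000) := T_1 (nat_lit 125) (nat_lit 126) (nat_lit 1) (nat_lit 10) (nat_lit 6) L50774 (by decide +kernel)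
theorem L50776 : W_1 (nat_lit 13) (nat_lit 0x2000100008001e000000000000000000000000000) (nat_lit 0x0) (nat_lit 0x2e001e0027806700018018e0000000000000000000000) := T_1 (nat_lit 95) (nat_lit 96) (nat_lit 2) (nat_lit 7) (nat_lit 6) L50775 (by decide +kernel)
theorem L50777 : W_1 (nat_lit 14) (nat_lit 0x2000100008000e000000000000000000000000000) (nat_lit 0x0) (nat_lit 0x2e001e002780e700318038e0000000000000000000000) := Q_1 (nat_lit 112) (C_1 L50763 (C_1 L50764 (C_1 L50776 N_1))) (by decide +kernel)
theorem L50779 : W_1 (nat_lit 3) (nat_lit 0x1000040002000100008000e000000000000000000000000000) (nat_lit 0x0) (nat_lit 0x28000c000200000000000000000000000000000000000000000000) := T_1 (nat_lit 194) (nat_lit 177) (nat_lit 5) (nat_lit 8) (nat_lit 7) L42771 (by decide +kernel)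
theorem L50780 : W_1 (nat_lit 4) (nat_lit 0x40002000100008000e000000000000000000000000000) (nat_lit 0x0) (nat_lit 0x28001c000a00000000000000000000000000000000000000000000) := T_1 (nat_lit 196) (nat_lit 179) (nat_lit 7) (nat_lit 8) (nat_lit 7) L50779 (by decide +kernel)
theorem L59521 : W_1 (nat_lit 2) (nat_lit 0x1000080004000200010000000000000000000) (nat_lit 0x0) (nat_lit 0x400020001000000000000000) := D_1 (nat_lit 77) (nat_lit 94) (nat_lit 60) (nat_lit 6) (nat_lit 8) (nat_lit 8) (nat_lit 6) (nat_lit 8) (nat_lit 7) (by decide +kernel)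
theorem L61399 : W_1 (nat_lit 6) (nat_lit 0x100008001c000200000000000000000000000) (nat_lit 0x0) (nat_lit 0x20000000e00063001c00000000000000000000000) := T_1 (nat_lit 94) (nat_lit 161) (nat_lit 6) (nat_lit 8) (nat_lit 9) L179 (by decide +kernel)
theorem L61400 : W_1 (nat_lit 3) (nat_lit 0x100008003c000200000000000000000000000) (nat_lit 0x0) (nat_lit 0x1c00040000400000000000000000000000) := T_1 (nat_lit 114) (nat_lit 94) (nat_lit 0) (nat_lit 12) (nat_lit 6) L183 (by decide +kernel)
theorem L61401 : W_1 (nat_lit 4) (nat_lit 0x100008001c000200000000000000000000000) (nat_lit 0x0) (nat_lit 0x1c40060000400000000000000000000000) := T_1 (nat_lit 113) (nat_lit 126) (nat_lit 1) (nat_lit 11) (nat_lit 6) L61400 (by decide +kernel)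
theorem L61402 : W_1 (nat_lit 2) (nat_lit 0x100008003c000200000000000000000000000) (nat_lit 0x0) (nat_lit 0x20000000000040000400000000000000000000000) := D_1 (nat_lit 94) (nat_lit 114) (nat_lit 161) (nat_lit 0) (nat_lit 12) (nat_lit 6) (nat_lit 6) (nat_lit 8) (nat_lit 9) (by decide +kernel)
theorem L61403 : W_1 (nat_lit 3) (nat_lit 0x100008001c000200000000000000000000000) (nat_lit 0x0) (nat_lit 0x20000000040060000400000000000000000000000) := T_1 (nat_lit 113) (nat_lit 126) (nat_lit 1) (nat_lit 11) (nat_lit 6) L61402 (by decide +kernel)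
theorem L61404 : W_1 (nat_lit 2) (nat_lit 0x100008003e001200000000000000000000000) (nat_lit 0x0) (nat_lit 0xe00000000000000000000000000000000) := D_1 (nat_lit 130) (nat_lit 131) (nat_lit 129) (nat_lit 3) (nat_lit 8) (nat_lit 6) (nat_lit 3) (nat_lit 7) (nat_lit 6) (by decide +kernel)
theorem L61405 : W_1 (nat_lit 3) (nat_lit 0x100008003c001200000000000000000000000) (nat_lit 0x0) (nat_lit 0xe00002000800000000000000000000000) := T_1 (nat_lit 109) (nat_lit 95) (nat_lit 2) (nat_lit 7) (nat_lit 6) L61404 (by decide +kernel)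
theorem L61406 : W_1 (nat_lit 4) (nat_lit 0x100008003c000200000000000000000000000) (nat_lit 0x0) (nat_lit 0xe00002003800000000000000000000000) := T_1 (nat_lit 96) (nat_lit 97) (nat_lit 2) (nat_lit 8) (nat_lit 6) L61405 (by decide +kernel)
theorem L61407 : W_1 (nat_lit 5) (nat_lit 0x100008001c000200000000000000000000000) (nat_lit 0x0) (nat_lit 0xe40022003800000000000000000000000) := T_1 (nat_lit 113) (nat_lit 126) (nat_lit 1) (nat_lit 11) (nat_lit 6) L61406 (by decide +kernel)
theorem L61408 : W_1 (nat_lit 3) (nat_lit 0x100008001e000200000000000000000000000) (nat_lit 0x0) (nat_lit 0x20000000000001800c00000000000000000000000) := T_1 (nat_lit 94) (nat_lit 161) (nat_lit 6) (nat_lit 8) (nat_lit 9) L186 (by decide +kernel)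
theorem L61409 : W_1 (nat_lit 2) (nat_lit 0x100008001f000a00000000000000000000000) (nat_lit 0x0) (nat_lit 0x70000000000000000000000000000000) := D_1 (nat_lit 125) (nat_lit 124) (nat_lit 126) (nat_lit 1) (nat_lit 9) (nat_lit 6) (nat_lit 1) (nat_lit 10) (nat_lit 6) (by decide +kernel)
theorem L61410 : W_1 (nat_lit 3) (nat_lit 0x100008001e000a00000000000000000000000) (nat_lit 0x0) (nat_lit 0x70001000400000000000000000000000) := T_1 (nat_lit 108) (nat_lit 94) (nat_lit 2) (nat_lit 6) (nat_lit 6) L61409 (by decide +kernel)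
theorem L61411 : W_1 (nat_lit 4) (nat_lit 0x100008001e000200000000000000000000000) (nat_lit 0x0) (nat_lit 0x70001001c00000000000000000000000) := T_1 (nat_lit 95) (nat_lit 96) (nat_lit 2) (nat_lit 7) (nat_lit 6) L61410 (by decide +kernel)
theorem L61412 : W_1 (nat_lit 2) (nat_lit 0x10000c001e000200000000000000000000000) (nat_lit 0x0) (nat_lit 0x400020000000000000000400000000000000000000000) := D_1 (nat_lit 161) (nat_lit 94) (nat_lit 178) (nat_lit 6) (nat_lit 8) (nat_lit 9) (nat_lit 4) (nat_lit 8) (nat_lit 10) (by decide +kernel)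
theorem L61413 : W_1 (nat_lit 3) (nat_lit 0x100008001e000200000000000000000000000) (nat_lit 0x0) (nat_lit 0x400020000000060000000400000000000000000000000) := T_1 (nat_lit 126) (nat_lit 125) (nat_lit 1) (nat_lit 10) (nat_lit 6) L61412 (by decide +kernel)
theorem L61414 : W_1 (nat_lit 2) (nat_lit 0x100008001f000200000000000000000000000) (nat_lit 0x0) (nat_lit 0x70000000000000000000000000000000) := D_1 (nat_lit 125) (nat_lit 126) (nat_lit 124) (nat_lit 1) (nat_lit 10) (nat_lit 6) (nat_lit 1) (nat_lit 9) (nat_lit 6) (by decide +kernel)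
theorem L61415 : W_1 (nat_lit 2) (nat_lit 0x100009001f000240000000000000000000000) (nat_lit 0x0) (nat_lit 0x8000800020000000000000000000000) := D_1 (nat_lit 107) (nat_lit 123) (nat_lit 89) (nat_lit 1) (nat_lit 8) (nat_lit 6) (nat_lit 0) (nat_lit 8) (nat_lit 6) (by decide +kernel)
theorem L61416 : W_1 (nat_lit 3) (nat_lit 0x100009001f000200000000000000000000000) (nat_lit 0x0) (nat_lit 0x80008000e0000000000000000000000) := T_1 (nat_lit 90) (nat_lit 91) (nat_lit 0) (nat_lit 9) (nat_lit 6) L61415 (by decide +kernel)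
theorem L61417 : W_1 (nat_lit 4) (nat_lit 0x100008001f000200000000000000000000000) (nat_lit 0x0) (nat_lit 0x380008000e0000000000000000000000) := T_1 (nat_lit 124) (nat_lit 125) (nat_lit 1) (nat_lit 9) (nat_lit 6) L61416 (by decide +kernel)
theorem L61418 : W_1 (nat_lit 2) (nat_lit 0x100028001fc00a40000000000000000000000) (nat_lit 0x0) (nat_lit 0x1c000000000000000000000000000000) := D_1 (nat_lit 123) (nat_lit 122) (nat_lit 124) (nat_lit 1) (nat_lit 7) (nat_lit 6) (nat_lit 1) (nat_lit 8) (nat_lit 6) (by decide +kernel)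
theorem L61419 : W_1 (nat_lit 3) (nat_lit 0x100028001f800a40000000000000000000000) (nat_lit 0x0) (nat_lit 0x5c000400000000000000000000000000) := T_1 (nat_lit 106) (nat_lit 126) (nat_lit 3) (nat_lit 4) (nat_lit 6) L61418 (by decide +kernel)
theorem L61420 : W_1 (nat_lit 4) (nat_lit 0x100008001f800a40000000000000000000000) (nat_lit 0x0) (nat_lit 0x65c000400000000000000000000000000) := T_1 (nat_lit 129) (nat_lit 130) (nat_lit 3) (nat_lit 7) (nat_lit 6) L61419 (by decide +kernel)
theorem L61421 : W_1 (nat_lit 5) (nat_lit 0x100008001f000a40000000000000000000000) (nat_lit 0x0) (nat_lit 0x65c000c00020000000000000000000000) := T_1 (nat_lit 107) (nat_lit 89) (nat_lit 0) (nat_lit 8) (nat_lit 6) L61420 (by decide +kernel)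
theorem L61422 : W_1 (nat_lit 6) (nat_lit 0x100008001f000240000000000000000000000) (nat_lit 0x0) (nat_lit 0x65c000c01820000000000000000000000) := T_1 (nat_lit 95) (nat_lit 96) (nat_lit 2) (nat_lit 7) (nat_lit 6) L61421 (by decide +kernel)
theorem L61423 : W_1 (nat_lit 7) (nat_lit 0x100008001f000200000000000000000000000) (nat_lit 0x0) (nat_lit 0x65c000c018e0000000000000000000000) := T_1 (nat_lit 90) (nat_lit 91) (nat_lit 0) (nat_lit 9) (nat_lit 6) L61422 (by decide +kernel)
theorem L61424 : W_1 (nat_lit 2) (nat_lit 0x10000c001f000a40000000000000000000000) (nat_lit 0x0) (nat_lit 0xc00020000000000000000000000) := D_1 (nat_lit 107) (nat_lit 106) (nat_lit 89) (nat_lit 3) (nat_lit 4) (nat_lit 6) (nat_lit 0) (nat_lit 8) (nat_lit 6) (by decide +kernel)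
theorem L61425 : W_1 (nat_lit 3) (nat_lit 0x10000c001f000a00000000000000000000000) (nat_lit 0x0) (nat_lit 0xc000e0000000000000000000000) := T_1 (nat_lit 90) (nat_lit 91) (nat_lit 0) (nat_lit 9) (nat_lit 6) L61424 (by decide +kernel)
theorem L61426 : W_1 (nat_lit 4) (nat_lit 0x100008001f000a00000000000000000000000) (nat_lit 0x0) (nat_lit 0x60000c000e0000000000000000000000) := T_1 (nat_lit 126) (nat_lit 125) (nat_lit 1) (nat_lit 10) (nat_lit 6) L61425 (by decide +kernel)
theorem L61427 : W_1 (nat_lit 5) (nat_lit 0x100008001f000200000000000000000000000) (nat_lit 0x0) (nat_lit 0x60000c018e0000000000000000000000) := T_1 (nat_lit 95) (nat_lit 96) (nat_lit 2) (nat_lit 7) (nat_lit 6) L61426 (by decide +kernel)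
theorem L61428 : W_1 (nat_lit 8) (nat_lit 0x100008001e000200000000000000000000000) (nat_lit 0x0) (nat_lit 0x67c001c018e0000000000000000000000) := Q_1 (nat_lit 108) (C_1 L61414 (C_1 L61417 (C_1 L61423 (C_1 L61427 N_1)))) (by decide +kernel)
theorem L61429 : W_1 (nat_lit 9) (nat_lit 0x100008001c000200000000000000000000000) (nat_lit 0x0) (nat_lit 0x40002000000067c003c01ce0000000000000000000000) := Q_1 (nat_lit 109) (C_1 L61408 (C_1 L61411 (C_1 L61413 (C_1 L61428 N_1)))) (by decide +kernel)
theorem L61430 : W_1 (nat_lit 10) (nat_lit 0x100008000c000200000000000000000000000) (nat_lit 0x0) (nat_lit 0x400020000001e7c073c03ce0000000000000000000000) := Q_1 (nat_lit 112) (C_1 L61399 (C_1 L61401 (C_1 L61403 (C_1 L61407 (C_1 L61429 N_1))))) (by decide +kernel)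
theorem L63064 : W_1 (nat_lit 2) (nat_lit 0x1000080004000200010001800000000000000) (nat_lit 0x0) (nat_lit 0x8000400020000000000) := D_1 (nat_lit 58) (nat_lit 75) (nat_lit 41) (nat_lit 4) (nat_lit 8) (nat_lit 7) (nat_lit 4) (nat_lit 8) (nat_lit 6) (by decide +kernel)
theorem L63065 : W_1 (nat_lit 3) (nat_lit 0x1000080004000200010001000000000000000) (nat_lit 0x0) (nat_lit 0x8000c000a0000000000) := T_1 (nat_lit 59) (nat_lit 43) (nat_lit 6) (nat_lit 8) (nat_lit 6) L63064 (by decide +kernel)
theorem L64088 : W_1 (nat_lit 2) (nat_lit 0x10000e0006000200000000000000000000000) (nat_lit 0x0) (nat_lit 0x10018000000000000000000000000000) := D_1 (nat_lit 111) (nat_lit 112) (nat_lit 124) (nat_lit 1) (nat_lit 10) (nat_lit 6) (nat_lit 2) (nat_lit 5) (nat_lit 7) (by decide +kernel)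
theorem L64089 : W_1 (nat_lit 2) (nat_lit 0x10000e0006000200000000000000000000000) (nat_lit 0x0) (nat_lit 0x2000018000000000000000000000000000000) := D_1 (nat_lit 124) (nat_lit 145) (nat_lit 123) (nat_lit 3) (nat_lit 5) (nat_lit 7) (nat_lit 2) (nat_lit 4) (nat_lit 7) (by decide +kernel)
theorem L64090 : W_1 (nat_lit 2) (nat_lit 0x10000e0007000200000000000000000000000) (nat_lit 0x0) (nat_lit 0xc00400000000000000000000000) := D_1 (nat_lit 107) (nat_lit 94) (nat_lit 106) (nat_lit 2) (nat_lit 5) (nat_lit 6) (nat_lit 3) (nat_lit 4) (nat_lit 6) (by decide +kernel)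
theorem L64164 : W_1 (nat_lit 2) (nat_lit 0x10000e0006000200008000000000000000000) (nat_lit 0x0) (nat_lit 0x10000c00000000000000) := D_1 (nat_lit 76) (nat_lit 59) (nat_lit 58) (nat_lit 5) (nat_lit 8) (nat_lit 3) (nat_lit 4) (nat_lit 8) (nat_lit 7) (by decide +kernel)
theorem L64384 : W_1 (nat_lit 2) (nat_lit 0x10000f8004000200000000000000000000000) (nat_lit 0x0) (nat_lit 0x380000000000000000000000000000000000) := D_1 (nat_lit 140) (nat_lit 139) (nat_lit 141) (nat_lit 1) (nat_lit 7) (nat_lit 7) (nat_lit 1) (nat_lit 8) (nat_lit 7) (by decide +kernel)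
theorem L64385 : W_1 (nat_lit 3) (nat_lit 0x10000f0004000200000000000000000000000) (nat_lit 0x0) (nat_lit 0x380008002000000000000000000000000000) := T_1 (nat_lit 123) (nat_lit 109) (nat_lit 2) (nat_lit 4) (nat_lit 7) L64384 (by decide +kernel)
theorem L64386 : W_1 (nat_lit 4) (nat_lit 0x10000e0004000200000000000000000000000) (nat_lit 0x0) (nat_lit 0x2380018002000000000000000000000000000) := T_1 (nat_lit 124) (nat_lit 145) (nat_lit 3) (nat_lit 5) (nat_lit 7) L64385 (by decide +kernel)
theorem L64387 : W_1 (nat_lit 2) (nat_lit 0x10000e0004000200000000000000000000000) (nat_lit 0x0) (nat_lit 0x2000010008000000000000000000000000000) := D_1 (nat_lit 124) (nat_lit 145) (nat_lit 111) (nat_lit 3) (nat_lit 5) (nat_lit 7) (nat_lit 2) (nat_lit 5) (nat_lit 7) (by decide +kernel)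
theorem L64388 : W_1 (nat_lit 4) (nat_lit 0x10000e0004000200000000000000000000000) (nat_lit 0x0) (nat_lit 0x38001800a000000000000000000000000000) := T_1 (nat_lit 124) (nat_lit 111) (nat_lit 2) (nat_lit 5) (nat_lit 7) L64385 (by decide +kernel)
theorem L66106 : W_1 (nat_lit 2) (nat_lit 0x10000a003f000680000000000000000000000) (nat_lit 0x0) (nat_lit 0xe00000000000000000000000000000000) := D_1 (nat_lit 130) (nat_lit 129) (nat_lit 131) (nat_lit 3) (nat_lit 7) (nat_lit 6) (nat_lit 3) (nat_lit 8) (nat_lit 6) (by decide +kernel)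
theorem L66107 : W_1 (nat_lit 3) (nat_lit 0x10000a001f000680000000000000000000000) (nat_lit 0x0) (nat_lit 0xe00060000000000000000000000000000) := T_1 (nat_lit 113) (nat_lit 114) (nat_lit 0) (nat_lit 12) (nat_lit 6) L66106 (by decide +kernel)
theorem L66108 : W_1 (nat_lit 4) (nat_lit 0x10000a000f000680000000000000000000000) (nat_lit 0x0) (nat_lit 0xe40070000000000000000000000000000) := T_1 (nat_lit 112) (nat_lit 126) (nat_lit 1) (nat_lit 10) (nat_lit 6) L66107 (by decide +kernel)
theorem L66109 : W_1 (nat_lit 5) (nat_lit 0x10000a000f000280000000000000000000000) (nat_lit 0x0) (nat_lit 0xe40070000c00000000000000000000000) := T_1 (nat_lit 94) (nat_lit 95) (nat_lit 2) (nat_lit 6) (nat_lit 6) L66108 (by decide +kernel)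
theorem L66110 : W_1 (nat_lit 6) (nat_lit 0x100008000f000280000000000000000000000) (nat_lit 0x0) (nat_lit 0xe70070000c00000000000000000000000) := T_1 (nat_lit 125) (nat_lit 124) (nat_lit 1) (nat_lit 9) (nat_lit 6) L66109 (by decide +kernel)
theorem L66111 : W_1 (nat_lit 7) (nat_lit 0x100008000f000200000000000000000000000) (nat_lit 0x0) (nat_lit 0xe70070000cc0000000000000000000000) := T_1 (nat_lit 91) (nat_lit 90) (nat_lit 0) (nat_lit 9) (nat_lit 6) L66110 (by decide +kernel)
theorem L66122 : W_1 (nat_lit 2) (nat_lit 0x1000080007000600000000000000000000000) (nat_lit 0x0) (nat_lit 0x8001800000000000000000000000) := D_1 (nat_lit 95) (nat_lit 96) (nat_lit 111) (nat_lit 1) (nat_lit 11) (nat_lit 5) (nat_lit 2) (nat_lit 6) (nat_lit 6) (by decide +kernel)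
theorem L66123 : W_1 (nat_lit 3) (nat_lit 0x1000080006000600000000000000000000000) (nat_lit 0x0) (nat_lit 0x9801800000000000000000000000) := T_1 (nat_lit 108) (nat_lit 107) (nat_lit 2) (nat_lit 5) (nat_lit 6) L66122 (by decide +kernel)
theorem L66124 : W_1 (nat_lit 4) (nat_lit 0x1000080006000200000000000000000000000) (nat_lit 0x0) (nat_lit 0x9801c00020000000000000000000) := T_1 (nat_lit 94) (nat_lit 77) (nat_lit 6) (nat_lit 8) (nat_lit 8) L66123 (by decide +kernel)
theorem L66522 : W_1 (nat_lit 2) (nat_lit 0x10000c000f000200000000000000000000000) (nat_lit 0x0) (nat_lit 0x20030000000000000000000000000000) := D_1 (nat_lit 112) (nat_lit 113) (nat_lit 125) (nat_lit 1) (nat_lit 11) (nat_lit 6) (nat_lit 1) (nat_lit 10) (nat_lit 6) (by decide +kernel)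
theorem L67541 : W_1 (nat_lit 2) (nat_lit 0x10000d00078002c0008000000000000000000) (nat_lit 0x0) (nat_lit 0x200000000000000004000200000000000000) := D_1 (nat_lit 74) (nat_lit 57) (nat_lit 141) (nat_lit 7) (nat_lit 6) (nat_lit 3) (nat_lit 6) (nat_lit 5) (nat_lit 8) (by decide +kernel)
theorem L67542 : W_1 (nat_lit 3) (nat_lit 0x10000d0007800240008000000000000000000) (nat_lit 0x0) (nat_lit 0x200000008000080004000200000000000000) := T_1 (nat_lit 91) (nat_lit 111) (nat_lit 0) (nat_lit 9) (nat_lit 6) L67541 (by decide +kernel)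
theorem L67543 : W_1 (nat_lit 4) (nat_lit 0x10000d0007800200008000000000000000000) (nat_lit 0x0) (nat_lit 0x2000000080000e0004000200000000000000) := T_1 (nat_lit 90) (nat_lit 89) (nat_lit 0) (nat_lit 8) (nat_lit 6) L67542 (by decide +kernel)
theorem L67544 : W_1 (nat_lit 5) (nat_lit 0x10000c0007800200008000000000000000000) (nat_lit 0x0) (nat_lit 0x2000180080000e0004000200000000000000) := T_1 (nat_lit 124) (nat_lit 123) (nat_lit 1) (nat_lit 8) (nat_lit 6) L67543 (by decide +kernel)
theorem L67822 : W_1 (nat_lit 2) (nat_lit 0x1000080004001200078004000000000000000) (nat_lit 0x0) (nat_lit 0x2000080008000000000000000) := D_1 (nat_lit 79) (nat_lit 97) (nat_lit 63) (nat_lit 3) (nat_lit 8) (nat_lit 4) (nat_lit 2) (nat_lit 8) (nat_lit 4) (by decide +kernel)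
theorem L67823 : W_1 (nat_lit 3) (nat_lit 0x1000080004001200078000000000000000000) (nat_lit 0x0) (nat_lit 0x200008000e000000000000000) := T_1 (nat_lit 62) (nat_lit 61) (nat_lit 2) (nat_lit 7) (nat_lit 4) L67822 (by decide +kernel)
theorem L70997 : W_1 (nat_lit 2) (nat_lit 0x10000f0004800600000000000000000000000) (nat_lit 0x0) (nat_lit 0x8003000000000000000000000000000) := D_1 (nat_lit 109) (nat_lit 123) (nat_lit 108) (nat_lit 2) (nat_lit 4) (nat_lit 7) (nat_lit 2) (nat_lit 5) (nat_lit 6) (by decide +kernel)
theorem L70998 : W_1 (nat_lit 3) (nat_lit 0x10000f0004000600000000000000000000000) (nat_lit 0x0) (nat_lit 0x8003c00000000000000000000000000) := T_1 (nat_lit 107) (nat_lit 106) (nat_lit 0) (nat_lit 8) (nat_lit 7) L70997 (by decide +kernel)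
theorem L72666 : W_1 (nat_lit 2) (nat_lit 0x100008003c001e00090000000000000000000) (nat_lit 0x0) (nat_lit 0x200000000000000004000200000000000) := D_1 (nat_lit 62) (nat_lit 45) (nat_lit 129) (nat_lit 5) (nat_lit 11) (nat_lit 2) (nat_lit 5) (nat_lit 11) (nat_lit 3) (by decide +kernel)
theorem L72667 : W_1 (nat_lit 3) (nat_lit 0x100008002c001e00090000000000000000000) (nat_lit 0x0) (nat_lit 0x240010000000000004000200000000000) := T_1 (nat_lit 112) (nat_lit 126) (nat_lit 1) (nat_lit 11) (nat_lit 6) L72666 (by decide +kernel)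
theorem L75029 : W_1 (nat_lit 7) (nat_lit 0x1000080004000e00000000000000000000000) (nat_lit 0x0) (nat_lit 0x2000300000000000ea003000380000000000000000000) := T_1 (nat_lit 161) (nat_lit 111) (nat_lit 6) (nat_lit 8) (nat_lit 9) L3472 (by decide +kernel)
theorem L75030 : W_1 (nat_lit 4) (nat_lit 0x1000080024001e00090000000000000000000) (nat_lit 0x0) (nat_lit 0x240018002000000004000200000000000) := T_1 (nat_lit 111) (nat_lit 97) (nat_lit 1) (nat_lit 12) (nat_lit 5) L72667 (by decide +kernel)
theorem L75031 : W_1 (nat_lit 5) (nat_lit 0x1000080024001e00010000000000000000000) (nat_lit 0x0) (nat_lit 0x240018002000180004000200000000000) := T_1 (nat_lit 79) (nat_lit 80) (nat_lit 2) (nat_lit 8) (nat_lit 5) L75030 (by decide +kernel)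
theorem L75032 : W_1 (nat_lit 6) (nat_lit 0x1000080004001e00010000000000000000000) (nat_lit 0x0) (nat_lit 0x240078002000180004000200000000000) := T_1 (nat_lit 113) (nat_lit 114) (nat_lit 3) (nat_lit 8) (nat_lit 5) L75031 (by decide +kernel)
theorem L75033 : W_1 (nat_lit 7) (nat_lit 0x1000080004001e00000000000000000000000) (nat_lit 0x0) (nat_lit 0x240078002000198004000200000000000) := T_1 (nat_lit 76) (nat_lit 75) (nat_lit 0) (nat_lit 11) (nat_lit 5) L75032 (by decide +kernel)
theorem L75034 : W_1 (nat_lit 8) (nat_lit 0x1000080004000e00000000000000000000000) (nat_lit 0x0) (nat_lit 0x24007a003000198004000200000000000) := T_1 (nat_lit 96) (nat_lit 109) (nat_lit 1) (nat_lit 11) (nat_lit 5) L75033 (by decide +kernel)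
theorem L75035 : W_1 (nat_lit 2) (nat_lit 0x1000080044001e00110000000000000000000) (nat_lit 0x0) (nat_lit 0x80002000200000000000000000000) := D_1 (nat_lit 97) (nat_lit 115) (nat_lit 81) (nat_lit 3) (nat_lit 9) (nat_lit 5) (nat_lit 2) (nat_lit 9) (nat_lit 5) (by decide +kernel)
theorem L75036 : W_1 (nat_lit 3) (nat_lit 0x1000080044001e00010000000000000000000) (nat_lit 0x0) (nat_lit 0x80002000380000000000000000000) := T_1 (nat_lit 80) (nat_lit 79) (nat_lit 2) (nat_lit 8) (nat_lit 5) L75035 (by decide +kernel)
theorem L75037 : W_1 (nat_lit 4) (nat_lit 0x1000080004001e00010000000000000000000) (nat_lit 0x0) (nat_lit 0xe0002000380000000000000000000) := T_1 (nat_lit 114) (nat_lit 113) (nat_lit 3) (nat_lit 8) (nat_lit 5) L75036 (by decide +kernel)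
theorem L75038 : W_1 (nat_lit 5) (nat_lit 0x1000080004001e00000000000000000000000) (nat_lit 0x0) (nat_lit 0xe0002000398000000000000000000) := T_1 (nat_lit 76) (nat_lit 75) (nat_lit 0) (nat_lit 11) (nat_lit 5) L75037 (by decide +kernel)
theorem L75039 : W_1 (nat_lit 6) (nat_lit 0x1000080004000e00000000000000000000000) (nat_lit 0x0) (nat_lit 0xe2003000398000000000000000000) := T_1 (nat_lit 96) (nat_lit 109) (nat_lit 1) (nat_lit 11) (nat_lit 5) L75038 (by decide +kernel)
theorem L75040 : W_1 (nat_lit 2) (nat_lit 0x100048003c001e00010000000040000000000) (nat_lit 0x0) (nat_lit 0x100008000000000000000040000000000000000000) := D_1 (nat_lit 147) (nat_lit 78) (nat_lit 164) (nat_lit 4) (nat_lit 11) (nat_lit 8) (nat_lit 4) (nat_lit 11) (nat_lit 9) (by decide +kernel)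
theorem L75041 : W_1 (nat_lit 3) (nat_lit 0x100008003c001e00010000000040000000000) (nat_lit 0x0) (nat_lit 0x100008000c00000000000040000000000000000000) := T_1 (nat_lit 130) (nat_lit 131) (nat_lit 3) (nat_lit 8) (nat_lit 6) L75040 (by decide +kernel)
theorem L75042 : W_1 (nat_lit 4) (nat_lit 0x100008003c001e00010000000000000000000) (nat_lit 0x0) (nat_lit 0x100008000c00000000000040000800040000000000) := T_1 (nat_lit 42) (nat_lit 59) (nat_lit 7) (nat_lit 8) (nat_lit 2) L75041 (by decide +kernel)
theorem L75043 : W_1 (nat_lit 5) (nat_lit 0x100008002c001e00010000000000000000000) (nat_lit 0x0) (nat_lit 0x100008000c40010000000040000800040000000000) := T_1 (nat_lit 112) (nat_lit 126) (nat_lit 1) (nat_lit 11) (nat_lit 6) L75042 (by decide +kernel)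
theorem L75044 : W_1 (nat_lit 6) (nat_lit 0x100008000c001e00010000000000000000000) (nat_lit 0x0) (nat_lit 0x100008000c40070000000040000800040000000000) := T_1 (nat_lit 113) (nat_lit 114) (nat_lit 3) (nat_lit 8) (nat_lit 5) L75043 (by decide +kernel)
theorem L75045 : W_1 (nat_lit 7) (nat_lit 0x100008000c001e00000000000000000000000) (nat_lit 0x0) (nat_lit 0x100008000c40070000000058000800040000000000) := T_1 (nat_lit 76) (nat_lit 75) (nat_lit 0) (nat_lit 11) (nat_lit 5) L75044 (by decide +kernel)
theorem L75046 : W_1 (nat_lit 8) (nat_lit 0x100008000c000e00000000000000000000000) (nat_lit 0x0) (nat_lit 0x100008000c40070003000058000800040000000000) := T_1 (nat_lit 96) (nat_lit 97) (nat_lit 1) (nat_lit 12) (nat_lit 5) L75045 (by decide +kernel)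
theorem L75047 : W_1 (nat_lit 9) (nat_lit 0x1000080004000e00000000000000000000000) (nat_lit 0x0) (nat_lit 0x120008000c40078003000058000800040000000000) := T_1 (nat_lit 111) (nat_lit 161) (nat_lit 6) (nat_lit 8) (nat_lit 9) L75046 (by decide +kernel)
theorem L75048 : W_1 (nat_lit 2) (nat_lit 0x200020001000080006000e00000000000000000000000) (nat_lit 0x0) (nat_lit 0x4000400000000000040000000000000000000000000000000) := D_1 (nat_lit 178) (nat_lit 194) (nat_lit 126) (nat_lit 5) (nat_lit 8) (nat_lit 7) (nat_lit 4) (nat_lit 8) (nat_lit 10) (by decide +kernel)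
theorem L75049 : W_1 (nat_lit 3) (nat_lit 0x200020001000080004000e00000000000000000000000) (nat_lit 0x0) (nat_lit 0x4000400000000000040002001000000000000000000000000) := T_1 (nat_lit 109) (nat_lit 96) (nat_lit 1) (nat_lit 11) (nat_lit 5) L75048 (by decide +kernel)
theorem L75050 : W_1 (nat_lit 4) (nat_lit 0x20001000080004000e00000000000000000000000) (nat_lit 0x0) (nat_lit 0x4000600010000000040002001000000000000000000000000) := T_1 (nat_lit 177) (nat_lit 160) (nat_lit 5) (nat_lit 8) (nat_lit 6) L75049 (by decide +kernel)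
theorem L75051 : W_1 (nat_lit 5) (nat_lit 0x1000080004000e00000000000000000000000) (nat_lit 0x0) (nat_lit 0x400060003000000004000a001000000000000000000000000) := T_1 (nat_lit 161) (nat_lit 111) (nat_lit 6) (nat_lit 8) (nat_lit 9) L75050 (by decide +kernel)
theorem L75052 : W_1 (nat_lit 2) (nat_lit 0x100008001c000e00000000000000000000000) (nat_lit 0x0) (nat_lit 0x40060000000000000000000000000000) := D_1 (nat_lit 113) (nat_lit 114) (nat_lit 126) (nat_lit 0) (nat_lit 12) (nat_lit 6) (nat_lit 1) (nat_lit 11) (nat_lit 6) (by decide +kernel)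
theorem L75053 : W_1 (nat_lit 2) (nat_lit 0x900048003d000e00000000000000000000000) (nat_lit 0x0) (nat_lit 0x200000000000040002000000000000000) := D_1 (nat_lit 78) (nat_lit 61) (nat_lit 129) (nat_lit 7) (nat_lit 10) (nat_lit 3) (nat_lit 7) (nat_lit 10) (nat_lit 4) (by decide +kernel)
theorem L75054 : W_1 (nat_lit 3) (nat_lit 0x100048003d000e00000000000000000000000) (nat_lit 0x0) (nat_lit 0x100008000200000000000040002000000000000000) := T_1 (nat_lit 147) (nat_lit 164) (nat_lit 4) (nat_lit 11) (nat_lit 9) L75053 (by decide +kernel)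
theorem L75055 : W_1 (nat_lit 4) (nat_lit 0x100008003d000e00000000000000000000000) (nat_lit 0x0) (nat_lit 0x100008000e00000000000040002000000000000000) := T_1 (nat_lit 130) (nat_lit 131) (nat_lit 3) (nat_lit 8) (nat_lit 6) L75054 (by decide +kernel)
theorem L75056 : W_1 (nat_lit 5) (nat_lit 0x100008001d000e00000000000000000000000) (nat_lit 0x0) (nat_lit 0x100008000e00060000000040002000000000000000) := T_1 (nat_lit 113) (nat_lit 114) (nat_lit 0) (nat_lit 12) (nat_lit 6) L75055 (by decide +kernel)
theorem L75057 : W_1 (nat_lit 6) (nat_lit 0x100008001c000e00000000000000000000000) (nat_lit 0x0) (nat_lit 0x100008000e00063000000040002000000000000000) := T_1 (nat_lit 108) (nat_lit 109) (nat_lit 2) (nat_lit 6) (nat_lit 6) L75056 (by decide +kernel)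
theorem L75058 : W_1 (nat_lit 2) (nat_lit 0x50002c001e000e00000000000000000000000) (nat_lit 0x0) (nat_lit 0x10000a000000000000000000000000000000000000) := D_1 (nat_lit 147) (nat_lit 145) (nat_lit 164) (nat_lit 0) (nat_lit 11) (nat_lit 8) (nat_lit 7) (nat_lit 10) (nat_lit 5) (by decide +kernel)
theorem L75059 : W_1 (nat_lit 3) (nat_lit 0x10002c001e000e00000000000000000000000) (nat_lit 0x0) (nat_lit 0x18000e000000000000000000000000000000000000) := T_1 (nat_lit 146) (nat_lit 163) (nat_lit 4) (nat_lit 10) (nat_lit 9) L75058 (by decide +kernel)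
theorem L75060 : W_1 (nat_lit 4) (nat_lit 0x100028001e000e00000000000000000000000) (nat_lit 0x0) (nat_lit 0x18000e000060000000000000000000000000000000) := T_1 (nat_lit 126) (nat_lit 125) (nat_lit 1) (nat_lit 10) (nat_lit 6) L75059 (by decide +kernel)
theorem L75061 : W_1 (nat_lit 5) (nat_lit 0x100008001e000e00000000000000000000000) (nat_lit 0x0) (nat_lit 0x18000e000660000000000000000000000000000000) := T_1 (nat_lit 129) (nat_lit 130) (nat_lit 3) (nat_lit 7) (nat_lit 6) L75060 (by decide +kernel)
theorem L75062 : W_1 (nat_lit 6) (nat_lit 0x100008001c000e00000000000000000000000) (nat_lit 0x0) (nat_lit 0x18000e000660003000000000000000000000000000) := T_1 (nat_lit 109) (nat_lit 108) (nat_lit 2) (nat_lit 6) (nat_lit 6) L75061 (by decide +kernel)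
theorem L75063 : W_1 (nat_lit 7) (nat_lit 0x100008000c000e00000000000000000000000) (nat_lit 0x0) (nat_lit 0x18000e000e60073000000040002000000000000000) := Q_1 (nat_lit 112) (C_1 L75052 (C_1 L75057 (C_1 L75062 N_1))) (by decide +kernel)
theorem L75064 : W_1 (nat_lit 8) (nat_lit 0x1000080004000e00000000000000000000000) (nat_lit 0x0) (nat_lit 0x1a000e000e6007b000000040002000000000000000) := T_1 (nat_lit 111) (nat_lit 161) (nat_lit 6) (nat_lit 8) (nat_lit 9) L75063 (by decide +kernel)
theorem L75065 : W_1 (nat_lit 10) (nat_lit 0x1000080004000600000000000000000000000) (nat_lit 0x0) (nat_lit 0x40006001b000e000e600fb0038003d8006800240000000000) := Q_1 (nat_lit 95) (C_1 L75029 (C_1 L75034 (C_1 L75039 (C_1 L75047 (C_1 L75051 (C_1 L75064 N_1)))))) (by decide +kernel)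
theorem L75066 : W_1 (nat_lit 11) (nat_lit 0x1000080004000200000000000000000000000) (nat_lit 0x0) (nat_lit 0x40006001b000e000e600fb003c003f8006800240000000000) := T_1 (nat_lit 94) (nat_lit 77) (nat_lit 6) (nat_lit 8) (nat_lit 8) L75065 (by decide +kernel)
theorem L76317 : W_1 (nat_lit 4) (nat_lit 0x1000080004000200010000000000000000000) (nat_lit 0x0) (nat_lit 0x28001c000a0000000000) := T_1 (nat_lit 60) (nat_lit 77) (nat_lit 6) (nat_lit 8) (nat_lit 7) L63065 (by decide +kernel)
theorem L76318 : W_1 (nat_lit 2) (nat_lit 0x1000080006000200010001800000000000000) (nat_lit 0x0) (nat_lit 0x20000000000000000100000000000040000000000) := D_1 (nat_lit 92) (nat_lit 42) (nat_lit 161) (nat_lit 5) (nat_lit 8) (nat_lit 2) (nat_lit 4) (nat_lit 8) (nat_lit 9) (by decide +kernel)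
theorem L76319 : W_1 (nat_lit 3) (nat_lit 0x1000080004000200010001800000000000000) (nat_lit 0x0) (nat_lit 0x20000000040002000100000000000040000000000) := T_1 (nat_lit 109) (nat_lit 126) (nat_lit 5) (nat_lit 8) (nat_lit 3) L76318 (by decide +kernel)
theorem L76320 : W_1 (nat_lit 4) (nat_lit 0x1000080004000200010001000000000000000) (nat_lit 0x0) (nat_lit 0x200000000400020001000000008000c0000000000) := T_1 (nat_lit 59) (nat_lit 43) (nat_lit 6) (nat_lit 8) (nat_lit 6) L76319 (by decide +kernel)
theorem L76321 : W_1 (nat_lit 5) (nat_lit 0x1000080004000200010000000000000000000) (nat_lit 0x0) (nat_lit 0x200000000400020001000200018000c0000000000) := T_1 (nat_lit 60) (nat_lit 77) (nat_lit 6) (nat_lit 8) (nat_lit 7) L76320 (by decide +kernel)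
theorem L76322 : W_1 (nat_lit 6) (nat_lit 0x1000080004000200000000000000000000000) (nat_lit 0x0) (nat_lit 0x20000000040002000100038001c000e0000000000) := Q_1 (nat_lit 76) (C_1 L76317 (C_1 L155 (C_1 L76321 N_1))) (by decide +kernel)
theorem L76578 : W_1 (nat_lit 2) (nat_lit 0x10001800040002000100008000a0000000000) (nat_lit 0x0) (nat_lit 0x40005000000) := D_1 (nat_lit 42) (nat_lit 26) (nat_lit 24) (nat_lit 6) (nat_lit 8) (nat_lit 5) (nat_lit 4) (nat_lit 8) (nat_lit 5) (by decide +kernel)
theorem L81878 : W_1 (nat_lit 2) (nat_lit 0x10000c0007000200000000000000000000000) (nat_lit 0x0) (nat_lit 0x300000800000000000000000000000000) := D_1 (nat_lit 128) (nat_lit 129) (nat_lit 107) (nat_lit 0) (nat_lit 10) (nat_lit 7) (nat_lit 3) (nat_lit 5) (nat_lit 6) (by decide +kernel)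
theorem L81941 : W_1 (nat_lit 2) (nat_lit 0x10001e0006000200000000000000000000000) (nat_lit 0x0) (nat_lit 0x600001000000000000000000000000000) := D_1 (nat_lit 129) (nat_lit 108) (nat_lit 130) (nat_lit 0) (nat_lit 10) (nat_lit 7) (nat_lit 0) (nat_lit 11) (nat_lit 7) (by decide +kernel)
theorem L82208 : W_1 (nat_lit 2) (nat_lit 0x14000400020001000080006800600000000000000000000000) (nat_lit 0x0) (nat_lit 0x280008000000000000000000000000000000000000000000000000) := D_1 (nat_lit 195) (nat_lit 211) (nat_lit 213) (nat_lit 5) (nat_lit 8) (nat_lit 8) (nat_lit 7) (nat_lit 8) (nat_lit 8) (by decide +kernel)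
theorem L82209 : W_1 (nat_lit 3) (nat_lit 0x4000400020001000080006800600000000000000000000000) (nat_lit 0x0) (nat_lit 0x280018000800000000000000000000000000000000000000000000) := T_1 (nat_lit 196) (nat_lit 179) (nat_lit 7) (nat_lit 8) (nat_lit 7) L82208 (by decide +kernel)
theorem L82210 : W_1 (nat_lit 4) (nat_lit 0x400020001000080006800600000000000000000000000) (nat_lit 0x0) (nat_lit 0x28001c000a00000000000000000000000000000000000000000000) := T_1 (nat_lit 194) (nat_lit 177) (nat_lit 5) (nat_lit 8) (nat_lit 7) L82209 (by decide +kernel)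
theorem L85305 : W_1 (nat_lit 2) (nat_lit 0x10000c0004000200030000800000000000000) (nat_lit 0x0) (nat_lit 0x8000400020000000000) := D_1 (nat_lit 58) (nat_lit 41) (nat_lit 75) (nat_lit 4) (nat_lit 8) (nat_lit 6) (nat_lit 4) (nat_lit 8) (nat_lit 7) (by decide +kernel)
theorem L85306 : W_1 (nat_lit 3) (nat_lit 0x10000c0004000200030000000000000000000) (nat_lit 0x0) (nat_lit 0x2000000008000c00020000000000) := T_1 (nat_lit 59) (nat_lit 109) (nat_lit 5) (nat_lit 8) (nat_lit 3) L85305 (by decide +kernel)
theorem L85319 : W_1 (nat_lit 4) (nat_lit 0x10000e0004000600000000000000000000000) (nat_lit 0x0) (nat_lit 0x2000018003c00000000000000000000000000) := T_1 (nat_lit 124) (nat_lit 145) (nat_lit 3) (nat_lit 5) (nat_lit 7) L70998 (by decide +kernel)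
theorem L85320 : W_1 (nat_lit 5) (nat_lit 0x10000e0004000200000000000000000000000) (nat_lit 0x0) (nat_lit 0x2000018003c00400020000000000000000000) := T_1 (nat_lit 94) (nat_lit 77) (nat_lit 6) (nat_lit 8) (nat_lit 8) L85319 (by decide +kernel)
theorem L85433 : W_1 (nat_lit 2) (nat_lit 0xc0014000e0007001680002000000000000000000) (nat_lit 0x0) (nat_lit 0x4000300000000000000) := D_1 (nat_lit 74) (nat_lit 57) (nat_lit 56) (nat_lit 7) (nat_lit 6) (nat_lit 3) (nat_lit 4) (nat_lit 6) (nat_lit 7) (by decide +kernel)
theorem L85434 : W_1 (nat_lit 3) (nat_lit 0xc0014000e0007001680000000000000000000000) (nat_lit 0x0) (nat_lit 0x40006000300000000000000) := T_1 (nat_lit 73) (nat_lit 90) (nat_lit 4) (nat_lit 6) (nat_lit 8) L85433 (by decide +kernel)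
theorem L85435 : W_1 (nat_lit 4) (nat_lit 0xc0014000e0007001600000000000000000000000) (nat_lit 0x0) (nat_lit 0x2000000000000c0006000300000000000000) := T_1 (nat_lit 91) (nat_lit 141) (nat_lit 5) (nat_lit 6) (nat_lit 5) L85434 (by decide +kernel)
theorem L85436 : W_1 (nat_lit 5) (nat_lit 0x80014000e0007001600000000000000000000000) (nat_lit 0x0) (nat_lit 0x800040002000000000000c0006000300000000000000) := T_1 (nat_lit 158) (nat_lit 175) (nat_lit 5) (nat_lit 6) (nat_lit 6) L85435 (by decide +kernel)
theorem L89006 : W_1 (nat_lit 2) (nat_lit 0x100012000f0006800200000000000000000000000) (nat_lit 0x0) (nat_lit 0x400100001000000000000000000000000000) := D_1 (nat_lit 128) (nat_lit 142) (nat_lit 108) (nat_lit 1) (nat_lit 9) (nat_lit 7) (nat_lit 3) (nat_lit 5) (nat_lit 6) (by decide +kernel)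
theorem L89007 : W_1 (nat_lit 3) (nat_lit 0x100012000f0006000200000000000000000000000) (nat_lit 0x0) (nat_lit 0x400100001c00000000000000000000000000) := T_1 (nat_lit 107) (nat_lit 106) (nat_lit 0) (nat_lit 8) (nat_lit 7) L89006 (by decide +kernel)
theorem L89008 : W_1 (nat_lit 4) (nat_lit 0x100010000f0006000200000000000000000000000) (nat_lit 0x0) (nat_lit 0x700100001c00000000000000000000000000) := T_1 (nat_lit 141) (nat_lit 140) (nat_lit 1) (nat_lit 8) (nat_lit 7) L89007 (by decide +kernel)
theorem L89009 : W_1 (nat_lit 5) (nat_lit 0x100010000e0006000200000000000000000000000) (nat_lit 0x0) (nat_lit 0x700118001c00000000000000000000000000) := T_1 (nat_lit 124) (nat_lit 123) (nat_lit 2) (nat_lit 4) (nat_lit 7) L89008 (by decide +kernel)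
theorem L95922 : W_1 (nat_lit 2) (nat_lit 0x1000080007c00200000000000000000000000) (nat_lit 0x0) (nat_lit 0x1c000000000000000000000000000000) := D_1 (nat_lit 123) (nat_lit 122) (nat_lit 124) (nat_lit 1) (nat_lit 7) (nat_lit 6) (nat_lit 1) (nat_lit 8) (nat_lit 6) (by decide +kernel)
theorem L95923 : W_1 (nat_lit 3) (nat_lit 0x1000080007800200000000000000000000000) (nat_lit 0x0) (nat_lit 0x5c000400000000000000000000000000) := T_1 (nat_lit 106) (nat_lit 126) (nat_lit 3) (nat_lit 4) (nat_lit 6) L95922 (by decide +kernel)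
theorem L95924 : W_1 (nat_lit 4) (nat_lit 0x1000080007000200000000000000000000000) (nat_lit 0x0) (nat_lit 0x15c000c00000000000000000000000000) := T_1 (nat_lit 107) (nat_lit 128) (nat_lit 3) (nat_lit 5) (nat_lit 6) L95923 (by decide +kernel)
theorem L101257 : W_1 (nat_lit 4) (nat_lit 0x1000080004000200078000000000000000000) (nat_lit 0x0) (nat_lit 0x380008000e000000000000000) := T_1 (nat_lit 96) (nat_lit 95) (nat_lit 3) (nat_lit 7) (nat_lit 4) L67823 (by decide +kernel)
theorem L101709 : W_1 (nat_lit 2) (nat_lit 0x10000800040022000f0008000000000000000) (nat_lit 0x0) (nat_lit 0x4000100010000000000000000) := D_1 (nat_lit 80) (nat_lit 98) (nat_lit 64) (nat_lit 3) (nat_lit 9) (nat_lit 4) (nat_lit 2) (nat_lit 9) (nat_lit 4) (by decide +kernel)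
theorem L101710 : W_1 (nat_lit 3) (nat_lit 0x10000800040022000f0000000000000000000) (nat_lit 0x0) (nat_lit 0x400010001c000000000000000) := T_1 (nat_lit 63) (nat_lit 62) (nat_lit 2) (nat_lit 8) (nat_lit 4) L101709 (by decide +kernel)
theorem L101711 : W_1 (nat_lit 4) (nat_lit 0x10000800040002000f0000000000000000000) (nat_lit 0x0) (nat_lit 0x700010001c000000000000000) := T_1 (nat_lit 97) (nat_lit 96) (nat_lit 3) (nat_lit 8) (nat_lit 4) L101710 (by decide +kernel)
theorem L101942 : W_1 (nat_lit 3) (nat_lit 0x200030000c0004000000000000000000000000000) (nat_lit 0x0) (nat_lit 0xc000130000000000000000000000000000000) := T_1 (nat_lit 125) (nat_lit 124) (nat_lit 3) (nat_lit 5) (nat_lit 7) L360 (by decide +kernel)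
theorem L102111 : W_1 (nat_lit 2) (nat_lit 0x200012000f0006800000000000000000000000000) (nat_lit 0x0) (nat_lit 0x400100001000000000000000000000000000) := D_1 (nat_lit 128) (nat_lit 142) (nat_lit 108) (nat_lit 1) (nat_lit 9) (nat_lit 7) (nat_lit 3) (nat_lit 5) (nat_lit 6) (by decide +kernel)
theorem L102112 : W_1 (nat_lit 3) (nat_lit 0x200012000f0006000000000000000000000000000) (nat_lit 0x0) (nat_lit 0x400100001c00000000000000000000000000) := T_1 (nat_lit 107) (nat_lit 106) (nat_lit 0) (nat_lit 8) (nat_lit 7) L102111 (by decide +kernel)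
theorem L102113 : W_1 (nat_lit 4) (nat_lit 0x200010000f0006000000000000000000000000000) (nat_lit 0x0) (nat_lit 0x700100001c00000000000000000000000000) := T_1 (nat_lit 141) (nat_lit 140) (nat_lit 1) (nat_lit 8) (nat_lit 7) L102112 (by decide +kernel)
theorem L102114 : W_1 (nat_lit 5) (nat_lit 0x200010000e0006000000000000000000000000000) (nat_lit 0x0) (nat_lit 0x700118001c00000000000000000000000000) := T_1 (nat_lit 124) (nat_lit 123) (nat_lit 2) (nat_lit 4) (nat_lit 7) L102113 (by decide +kernel)
theorem L102253 : W_1 (nat_lit 2) (nat_lit 0x300010000f8004000000000000000000000000000) (nat_lit 0x0) (nat_lit 0xe00000000000000000000000000) := D_1 (nat_lit 106) (nat_lit 107) (nat_lit 105) (nat_lit 0) (nat_lit 8) (nat_lit 7) (nat_lit 0) (nat_lit 7) (nat_lit 7) (by decide +kernel)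
theorem L102254 : W_1 (nat_lit 3) (nat_lit 0x300010000f0004000000000000000000000000000) (nat_lit 0x0) (nat_lit 0x8002e00000000000000000000000000) := T_1 (nat_lit 123) (nat_lit 109) (nat_lit 2) (nat_lit 4) (nat_lit 7) L102253 (by decide +kernel)
theorem L102255 : W_1 (nat_lit 4) (nat_lit 0x200010000f0004000000000000000000000000000) (nat_lit 0x0) (nat_lit 0x200010000000008002e00000000000000000000000000) := T_1 (nat_lit 160) (nat_lit 177) (nat_lit 5) (nat_lit 8) (nat_lit 6) L102254 (by decide +kernel)
theorem L102257 : W_1 (nat_lit 5) (nat_lit 0x200010000e0004000000000000000000000000000) (nat_lit 0x0) (nat_lit 0x200010002000018002e00000000000000000000000000) := T_1 (nat_lit 124) (nat_lit 145) (nat_lit 3) (nat_lit 5) (nat_lit 7) L102255 (by decide +kernel)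
theorem L102258 : W_1 (nat_lit 2) (nat_lit 0x300094003e0025000000000000000000000000000) (nat_lit 0x0) (nat_lit 0x10000400040000000000000000000000000000) := D_1 (nat_lit 130) (nat_lit 148) (nat_lit 114) (nat_lit 3) (nat_lit 8) (nat_lit 7) (nat_lit 2) (nat_lit 8) (nat_lit 7) (by decide +kernel)
theorem L102259 : W_1 (nat_lit 3) (nat_lit 0x300094003e0005000000000000000000000000000) (nat_lit 0x0) (nat_lit 0x10000400070000000000000000000000000000) := T_1 (nat_lit 113) (nat_lit 112) (nat_lit 2) (nat_lit 7) (nat_lit 7) L102258 (by decide +kernel)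
theorem L102260 : W_1 (nat_lit 4) (nat_lit 0x300014003e0005000000000000000000000000000) (nat_lit 0x0) (nat_lit 0x1c000400070000000000000000000000000000) := T_1 (nat_lit 147) (nat_lit 146) (nat_lit 3) (nat_lit 7) (nat_lit 7) L102259 (by decide +kernel)
theorem L102261 : W_1 (nat_lit 5) (nat_lit 0x300014001e0005000000000000000000000000000) (nat_lit 0x0) (nat_lit 0x1c000600072000000000000000000000000000) := T_1 (nat_lit 129) (nat_lit 109) (nat_lit 0) (nat_lit 10) (nat_lit 7) L102260 (by decide +kernel)
theorem L102262 : W_1 (nat_lit 6) (nat_lit 0x300014001e0004000000000000000000000000000) (nat_lit 0x0) (nat_lit 0x1c000600073800000000000000000000000000) := T_1 (nat_lit 108) (nat_lit 107) (nat_lit 0) (nat_lit 9) (nat_lit 7) L102261 (by decide +kernel)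
theorem L102263 : W_1 (nat_lit 7) (nat_lit 0x300010001e0004000000000000000000000000000) (nat_lit 0x0) (nat_lit 0x1c600600073800000000000000000000000000) := T_1 (nat_lit 142) (nat_lit 141) (nat_lit 1) (nat_lit 9) (nat_lit 7) L102262 (by decide +kernel)
theorem L102264 : W_1 (nat_lit 8) (nat_lit 0x200010001e0004000000000000000000000000000) (nat_lit 0x0) (nat_lit 0x20001001c600600073800000000000000000000000000) := T_1 (nat_lit 160) (nat_lit 177) (nat_lit 5) (nat_lit 8) (nat_lit 6) L102263 (by decide +kernel)
theorem L102288 : W_1 (nat_lit 5) (nat_lit 0x300014003e0005000000000000000000000000000) (nat_lit 0x0) (nat_lit 0x3a000c00070000000000000000000000000000) := T_1 (nat_lit 113) (nat_lit 112) (nat_lit 2) (nat_lit 7) (nat_lit 7) L292 (by decide +kernel)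
theorem L102289 : W_1 (nat_lit 6) (nat_lit 0x300014001e0005000000000000000000000000000) (nat_lit 0x0) (nat_lit 0x3a000e00072000000000000000000000000000) := T_1 (nat_lit 129) (nat_lit 109) (nat_lit 0) (nat_lit 10) (nat_lit 7) L102288 (by decide +kernel)
theorem L102290 : W_1 (nat_lit 7) (nat_lit 0x300014001e0004000000000000000000000000000) (nat_lit 0x0) (nat_lit 0x3a000e00073800000000000000000000000000) := T_1 (nat_lit 108) (nat_lit 107) (nat_lit 0) (nat_lit 9) (nat_lit 7) L102289 (by decide +kernel)
theorem L102291 : W_1 (nat_lit 8) (nat_lit 0x200014001e0004000000000000000000000000000) (nat_lit 0x0) (nat_lit 0x20001003a000e00073800000000000000000000000000) := T_1 (nat_lit 160) (nat_lit 177) (nat_lit 5) (nat_lit 8) (nat_lit 6) L102290 (by decide +kernel)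
theorem L102292 : W_1 (nat_lit 9) (nat_lit 0x200010001e0004000000000000000000000000000) (nat_lit 0x0) (nat_lit 0x20001003a600e00073800000000000000000000000000) := T_1 (nat_lit 142) (nat_lit 141) (nat_lit 1) (nat_lit 9) (nat_lit 7) L102291 (by decide +kernel)
theorem L102438 : W_1 (nat_lit 2) (nat_lit 0x300030000e0004000000000000000000000000000) (nat_lit 0x0) (nat_lit 0xc000100000000000000000000000000000000) := D_1 (nat_lit 146) (nat_lit 147) (nat_lit 128) (nat_lit 1) (nat_lit 11) (nat_lit 8) (nat_lit 3) (nat_lit 6) (nat_lit 7) (by decide +kernel)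
theorem L102439 : W_1 (nat_lit 3) (nat_lit 0x300010000e0004000000000000000000000000000) (nat_lit 0x0) (nat_lit 0xe000110000000000000000000000000000000) := T_1 (nat_lit 145) (nat_lit 124) (nat_lit 3) (nat_lit 5) (nat_lit 7) L102438 (by decide +kernel)
theorem L102440 : W_1 (nat_lit 4) (nat_lit 0x200010000e0004000000000000000000000000000) (nat_lit 0x0) (nat_lit 0x20001000e000110000000000000000000000000000000) := T_1 (nat_lit 160) (nat_lit 177) (nat_lit 5) (nat_lit 8) (nat_lit 6) L102439 (by decide +kernel)
theorem L102708 : W_1 (nat_lit 2) (nat_lit 0x200090003e0024000000000000000000000000000) (nat_lit 0x0) (nat_lit 0x10000400040000000000000000000000000000) := D_1 (nat_lit 130) (nat_lit 148) (nat_lit 114) (nat_lit 3) (nat_lit 8) (nat_lit 7) (nat_lit 2) (nat_lit 8) (nat_lit 7) (by decide +kernel)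
theorem L102709 : W_1 (nat_lit 3) (nat_lit 0x200090003e0004000000000000000000000000000) (nat_lit 0x0) (nat_lit 0x10000400070000000000000000000000000000) := T_1 (nat_lit 113) (nat_lit 112) (nat_lit 2) (nat_lit 7) (nat_lit 7) L102708 (by decide +kernel)
theorem L102710 : W_1 (nat_lit 4) (nat_lit 0x200010003e0004000000000000000000000000000) (nat_lit 0x0) (nat_lit 0x1c000400070000000000000000000000000000) := T_1 (nat_lit 147) (nat_lit 146) (nat_lit 3) (nat_lit 7) (nat_lit 7) L102709 (by decide +kernel)
theorem L104692 : W_1 (nat_lit 2) (nat_lit 0x20001000180007000000000000000000000000000) (nat_lit 0x0) (nat_lit 0x640000000000000000000000000000000) := D_1 (nat_lit 129) (nat_lit 130) (nat_lit 126) (nat_lit 0) (nat_lit 11) (nat_lit 7) (nat_lit 0) (nat_lit 10) (nat_lit 7) (by decide +kernel)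
theorem L104693 : W_1 (nat_lit 3) (nat_lit 0x20001000180006000000000000000000000000000) (nat_lit 0x0) (nat_lit 0x640001800000000000000000000000000) := T_1 (nat_lit 108) (nat_lit 107) (nat_lit 3) (nat_lit 5) (nat_lit 6) L104692 (by decide +kernel)
theorem L105010 : W_1 (nat_lit 2) (nat_lit 0x300016000f0006800000000000000000000000000) (nat_lit 0x0) (nat_lit 0x100008000000000000000040000000000000000000000) := D_1 (nat_lit 159) (nat_lit 176) (nat_lit 90) (nat_lit 6) (nat_lit 6) (nat_lit 10) (nat_lit 7) (nat_lit 5) (nat_lit 5) (by decide +kernel)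
theorem L105011 : W_1 (nat_lit 3) (nat_lit 0x300012000f0006800000000000000000000000000) (nat_lit 0x0) (nat_lit 0x100008000400100000000040000000000000000000000) := T_1 (nat_lit 142) (nat_lit 128) (nat_lit 1) (nat_lit 9) (nat_lit 7) L105010 (by decide +kernel)
theorem L105012 : W_1 (nat_lit 4) (nat_lit 0x300012000f0006000000000000000000000000000) (nat_lit 0x0) (nat_lit 0x100008000400100000c00040000000000000000000000) := T_1 (nat_lit 107) (nat_lit 106) (nat_lit 0) (nat_lit 8) (nat_lit 7) L105011 (by decide +kernel)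
theorem L105013 : W_1 (nat_lit 5) (nat_lit 0x300010000f0006000000000000000000000000000) (nat_lit 0x0) (nat_lit 0x100008000700100000c00040000000000000000000000) := T_1 (nat_lit 141) (nat_lit 140) (nat_lit 1) (nat_lit 8) (nat_lit 7) L105012 (by decide +kernel)
theorem L105014 : W_1 (nat_lit 6) (nat_lit 0x300010000e0006000000000000000000000000000) (nat_lit 0x0) (nat_lit 0x100008000700118000c00040000000000000000000000) := T_1 (nat_lit 124) (nat_lit 123) (nat_lit 2) (nat_lit 4) (nat_lit 7) L105013 (by decide +kernel)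
theorem L105015 : W_1 (nat_lit 7) (nat_lit 0x200010000e0006000000000000000000000000000) (nat_lit 0x0) (nat_lit 0x300018000700118000c00040000000000000000000000) := T_1 (nat_lit 160) (nat_lit 177) (nat_lit 5) (nat_lit 8) (nat_lit 6) L105014 (by decide +kernel)
theorem L105016 : W_1 (nat_lit 2) (nat_lit 0x200010000e0006000000000000000000000000000) (nat_lit 0x0) (nat_lit 0x2000018000000000000000000000000000000) := D_1 (nat_lit 124) (nat_lit 123) (nat_lit 145) (nat_lit 2) (nat_lit 4) (nat_lit 7) (nat_lit 3) (nat_lit 5) (nat_lit 7) (by decide +kernel)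
theorem L105017 : W_1 (nat_lit 2) (nat_lit 0x380016000e0006000000000000000000000000000) (nat_lit 0x0) (nat_lit 0x4000180000000000000000000000000000000000) := D_1 (nat_lit 140) (nat_lit 158) (nat_lit 139) (nat_lit 0) (nat_lit 8) (nat_lit 9) (nat_lit 3) (nat_lit 3) (nat_lit 8) (by decide +kernel)
theorem L105018 : W_1 (nat_lit 3) (nat_lit 0x380014000e0006000000000000000000000000000) (nat_lit 0x0) (nat_lit 0x4000380100000000000000000000000000000000) := T_1 (nat_lit 141) (nat_lit 128) (nat_lit 1) (nat_lit 9) (nat_lit 7) L105017 (by decide +kernel)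
theorem L105019 : W_1 (nat_lit 4) (nat_lit 0x300014000e0006000000000000000000000000000) (nat_lit 0x0) (nat_lit 0x10000c000380100000000000000000000000000000000) := T_1 (nat_lit 159) (nat_lit 176) (nat_lit 6) (nat_lit 6) (nat_lit 10) L105018 (by decide +kernel)
theorem L105020 : W_1 (nat_lit 5) (nat_lit 0x200014000e0006000000000000000000000000000) (nat_lit 0x0) (nat_lit 0x30001c000380100000000000000000000000000000000) := T_1 (nat_lit 160) (nat_lit 177) (nat_lit 5) (nat_lit 8) (nat_lit 6) L105019 (by decide +kernel)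
theorem L105021 : W_1 (nat_lit 2) (nat_lit 0x200014003e0006000000000000000000000000000) (nat_lit 0x0) (nat_lit 0xe000000000000000000000000000000000000) := D_1 (nat_lit 146) (nat_lit 145) (nat_lit 147) (nat_lit 3) (nat_lit 6) (nat_lit 7) (nat_lit 3) (nat_lit 7) (nat_lit 7) (by decide +kernel)
theorem L105022 : W_1 (nat_lit 3) (nat_lit 0x200014001e0006000000000000000000000000000) (nat_lit 0x0) (nat_lit 0xe000600000000000000000000000000000000) := T_1 (nat_lit 129) (nat_lit 130) (nat_lit 0) (nat_lit 11) (nat_lit 7) L105021 (by decide +kernel)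
theorem L105023 : W_1 (nat_lit 4) (nat_lit 0x200014000e0006000000000000000000000000000) (nat_lit 0x0) (nat_lit 0xe200700000000000000000000000000000000) := T_1 (nat_lit 128) (nat_lit 141) (nat_lit 1) (nat_lit 9) (nat_lit 7) L105022 (by decide +kernel)
theorem L105024 : W_1 (nat_lit 2) (nat_lit 0x8003c0014000e0006000000000000000000000000000) (nat_lit 0x0) (nat_lit 0x1000000000000300000000000000000000000000000000000) := D_1 (nat_lit 141) (nat_lit 140) (nat_lit 192) (nat_lit 0) (nat_lit 8) (nat_lit 9) (nat_lit 6) (nat_lit 5) (nat_lit 11) (by decide +kernel)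
theorem L105025 : W_1 (nat_lit 3) (nat_lit 0x3c0014000e0006000000000000000000000000000) (nat_lit 0x0) (nat_lit 0x10000c0000000300000000000000000000000000000000000) := T_1 (nat_lit 175) (nat_lit 174) (nat_lit 1) (nat_lit 8) (nat_lit 9) L105024 (by decide +kernel)
theorem L105026 : W_1 (nat_lit 4) (nat_lit 0x380014000e0006000000000000000000000000000) (nat_lit 0x0) (nat_lit 0x10000c0004002300000000000000000000000000000000000) := T_1 (nat_lit 158) (nat_lit 145) (nat_lit 2) (nat_lit 5) (nat_lit 9) L105025 (by decide +kernel)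
theorem L105027 : W_1 (nat_lit 5) (nat_lit 0x300014000e0006000000000000000000000000000) (nat_lit 0x0) (nat_lit 0x10001c000c002300000000000000000000000000000000000) := T_1 (nat_lit 159) (nat_lit 176) (nat_lit 6) (nat_lit 6) (nat_lit 10) L105026 (by decide +kernel)
theorem L105028 : W_1 (nat_lit 6) (nat_lit 0x200014000e0006000000000000000000000000000) (nat_lit 0x0) (nat_lit 0x10003c001c002300000000000000000000000000000000000) := T_1 (nat_lit 160) (nat_lit 177) (nat_lit 5) (nat_lit 8) (nat_lit 6) L105027 (by decide +kernel)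
theorem L105029 : W_1 (nat_lit 2) (nat_lit 0x380034000e0006000000000000000000000000000) (nat_lit 0x0) (nat_lit 0xc000100000000000000000000000000000000) := D_1 (nat_lit 146) (nat_lit 147) (nat_lit 128) (nat_lit 1) (nat_lit 11) (nat_lit 8) (nat_lit 3) (nat_lit 6) (nat_lit 7) (by decide +kernel)
theorem L105030 : W_1 (nat_lit 3) (nat_lit 0x380014000e0006000000000000000000000000000) (nat_lit 0x0) (nat_lit 0x400e000100000000000000000000000000000000) := T_1 (nat_lit 145) (nat_lit 158) (nat_lit 2) (nat_lit 5) (nat_lit 9) L105029 (by decide +kernel)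
theorem L105031 : W_1 (nat_lit 4) (nat_lit 0x280014000e0006000000000000000000000000000) (nat_lit 0x0) (nat_lit 0x20001400e000100000000000000000000000000000000) := T_1 (nat_lit 160) (nat_lit 177) (nat_lit 5) (nat_lit 8) (nat_lit 6) L105030 (by decide +kernel)
theorem L105032 : W_1 (nat_lit 5) (nat_lit 0x200014000e0006000000000000000000000000000) (nat_lit 0x0) (nat_lit 0x30001c00e000100000000000000000000000000000000) := T_1 (nat_lit 159) (nat_lit 176) (nat_lit 6) (nat_lit 6) (nat_lit 10) L105031 (by decide +kernel)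
theorem L105033 : W_1 (nat_lit 7) (nat_lit 0x200010000e0006000000000000000000000000000) (nat_lit 0x0) (nat_lit 0x10003c001c00e780700000000000000000000000000000000) := Q_1 (nat_lit 142) (C_1 L105020 (C_1 L105023 (C_1 L105028 (C_1 L105032 N_1)))) (by decide +kernel)
theorem L105034 : W_1 (nat_lit 8) (nat_lit 0x200010000c0006000000000000000000000000000) (nat_lit 0x0) (nat_lit 0x10003c001c00e780738000c00040000000000000000000000) := Q_1 (nat_lit 125) (C_1 L105015 (C_1 L105016 (C_1 L105033 N_1))) (by decide +kernel)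
theorem L116876 : W_1 (nat_lit 2) (nat_lit 0x4003c001100080004000000000000000000000000000) (nat_lit 0x0) (nat_lit 0x20002000080000000000000000000000000000000000) := D_1 (nat_lit 157) (nat_lit 139) (nat_lit 173) (nat_lit 0) (nat_lit 7) (nat_lit 9) (nat_lit 1) (nat_lit 7) (nat_lit 9) (by decide +kernel)
theorem L116877 : W_1 (nat_lit 3) (nat_lit 0x3c001100080004000000000000000000000000000) (nat_lit 0x0) (nat_lit 0xe0002000080000000000000000000000000000000000) := T_1 (nat_lit 174) (nat_lit 175) (nat_lit 1) (nat_lit 8) (nat_lit 9) L116876 (by decide +kernel)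
theorem L116878 : W_1 (nat_lit 4) (nat_lit 0x3c001000080004000000000000000000000000000) (nat_lit 0x0) (nat_lit 0xe0002000380000000000000000000000000000000000) := T_1 (nat_lit 140) (nat_lit 141) (nat_lit 0) (nat_lit 8) (nat_lit 9) L116877 (by decide +kernel)
theorem L128089 : W_1 (nat_lit 2) (nat_lit 0x1000180004000300010000800040005000000) (nat_lit 0x0) (nat_lit 0x2000280) := D_1 (nat_lit 25) (nat_lit 7) (nat_lit 9) (nat_lit 4) (nat_lit 8) (nat_lit 4) (nat_lit 6) (nat_lit 8) (nat_lit 4) (by decide +kernel)
theorem L128090 : W_1 (nat_lit 3) (nat_lit 0x1000180004000300010000800040001000000) (nat_lit 0x0) (nat_lit 0x80006000280) := T_1 (nat_lit 26) (nat_lit 43) (nat_lit 6) (nat_lit 8) (nat_lit 5) L128089 (by decide +kernel)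
theorem L128091 : W_1 (nat_lit 4) (nat_lit 0x1000180004000300010000800040000000000) (nat_lit 0x0) (nat_lit 0xa0007000280) := T_1 (nat_lit 24) (nat_lit 41) (nat_lit 4) (nat_lit 8) (nat_lit 5) L128090 (by decide +kernel)
theorem L128148 : W_1 (nat_lit 2) (nat_lit 0x10000800044003c0011000000000000000000) (nat_lit 0x0) (nat_lit 0x200020000800000000000000000) := D_1 (nat_lit 89) (nat_lit 71) (nat_lit 105) (nat_lit 0) (nat_lit 7) (nat_lit 5) (nat_lit 1) (nat_lit 7) (nat_lit 5) (by decide +kernel)
theorem L128149 : W_1 (nat_lit 3) (nat_lit 0x10000800040003c0011000000000000000000) (nat_lit 0x0) (nat_lit 0xe00020000800000000000000000) := T_1 (nat_lit 106) (nat_lit 107) (nat_lit 1) (nat_lit 8) (nat_lit 5) L128148 (by decide +kernel)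
theorem L128150 : W_1 (nat_lit 4) (nat_lit 0x10000800040003c0010000000000000000000) (nat_lit 0x0) (nat_lit 0xe00020003800000000000000000) := T_1 (nat_lit 72) (nat_lit 73) (nat_lit 0) (nat_lit 8) (nat_lit 5) L128149 (by decide +kernel)
theorem L130608 : W_1 (nat_lit 2) (nat_lit 0x1000380006000000000000000000000000000) (nat_lit 0x0) (nat_lit 0x40001800000000000000000000000000) := D_1 (nat_lit 108) (nat_lit 107) (nat_lit 126) (nat_lit 3) (nat_lit 5) (nat_lit 6) (nat_lit 0) (nat_lit 10) (nat_lit 7) (by decide +kernel)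
theorem L130609 : W_1 (nat_lit 3) (nat_lit 0x1000180006000000000000000000000000000) (nat_lit 0x0) (nat_lit 0x640001800000000000000000000000000) := T_1 (nat_lit 129) (nat_lit 130) (nat_lit 0) (nat_lit 11) (nat_lit 7) L130608 (by decide +kernel)
theorem L130996 : W_1 (nat_lit 2) (nat_lit 0x200020001000180006800000000000000000000000000) (nat_lit 0x0) (nat_lit 0x4000400000000000040000000000000000000000000000000) := D_1 (nat_lit 178) (nat_lit 126) (nat_lit 194) (nat_lit 4) (nat_lit 8) (nat_lit 10) (nat_lit 5) (nat_lit 8) (nat_lit 7) (by decide +kernel)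
theorem L130997 : W_1 (nat_lit 3) (nat_lit 0x20001000180006800000000000000000000000000) (nat_lit 0x0) (nat_lit 0x4000600010000000040000000000000000000000000000000) := T_1 (nat_lit 177) (nat_lit 160) (nat_lit 5) (nat_lit 8) (nat_lit 6) L130996 (by decide +kernel)
theorem L130998 : W_1 (nat_lit 4) (nat_lit 0x20001000180006000000000000000000000000000) (nat_lit 0x0) (nat_lit 0x4000600010000000040001800000000000000000000000000) := T_1 (nat_lit 107) (nat_lit 108) (nat_lit 3) (nat_lit 5) (nat_lit 6) L130997 (by decide +kernel)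
theorem L132176 : W_1 (nat_lit 2) (nat_lit 0x10000e0006000200010000000000000000000) (nat_lit 0x0) (nat_lit 0x400020001000000000000000) := D_1 (nat_lit 77) (nat_lit 94) (nat_lit 60) (nat_lit 6) (nat_lit 8) (nat_lit 8) (nat_lit 6) (nat_lit 8) (nat_lit 7) (by decide +kernel)
theorem L132177 : W_1 (nat_lit 3) (nat_lit 0x10000e0006000200000000000000000000000) (nat_lit 0x0) (nat_lit 0x400030001800000000000000) := T_1 (nat_lit 76) (nat_lit 59) (nat_lit 5) (nat_lit 8) (nat_lit 3) L132176 (by decide +kernel)
theorem L132868 : W_1 (nat_lit 2) (nat_lit 0x10000c0007000200010000000000000000000) (nat_lit 0x0) (nat_lit 0x400020001000000000000000) := D_1 (nat_lit 77) (nat_lit 94) (nat_lit 60) (nat_lit 6) (nat_lit 8) (nat_lit 8) (nat_lit 6) (nat_lit 8) (nat_lit 7) (by decide +kernel)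
theorem L132869 : W_1 (nat_lit 3) (nat_lit 0x10000c0007000200000000000000000000000) (nat_lit 0x0) (nat_lit 0x400030001800000000000000) := T_1 (nat_lit 76) (nat_lit 59) (nat_lit 5) (nat_lit 8) (nat_lit 3) L132868 (by decide +kernel)
theorem L135993 : W_1 (nat_lit 2) (nat_lit 0x1000080007c00000000000000000000000000) (nat_lit 0x0) (nat_lit 0x1c000000000000000000000000000000) := D_1 (nat_lit 123) (nat_lit 122) (nat_lit 124) (nat_lit 1) (nat_lit 7) (nat_lit 6) (nat_lit 1) (nat_lit 8) (nat_lit 6) (by decide +kernel)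
theorem L135994 : W_1 (nat_lit 3) (nat_lit 0x1000080007800000000000000000000000000) (nat_lit 0x0) (nat_lit 0x5c000400000000000000000000000000) := T_1 (nat_lit 106) (nat_lit 126) (nat_lit 3) (nat_lit 4) (nat_lit 6) L135993 (by decide +kernel)
theorem L135996 : W_1 (nat_lit 2) (nat_lit 0x1000088007800220000000000000000000000) (nat_lit 0x0) (nat_lit 0x4000400010000000000000000000000) := D_1 (nat_lit 106) (nat_lit 122) (nat_lit 88) (nat_lit 1) (nat_lit 7) (nat_lit 6) (nat_lit 0) (nat_lit 7) (nat_lit 6) (by decide +kernel)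
theorem L135997 : W_1 (nat_lit 3) (nat_lit 0x1000088007800200000000000000000000000) (nat_lit 0x0) (nat_lit 0x4000400070000000000000000000000) := T_1 (nat_lit 89) (nat_lit 90) (nat_lit 0) (nat_lit 8) (nat_lit 6) L135996 (by decide +kernel)
theorem L135998 : W_1 (nat_lit 4) (nat_lit 0x1000080007800200000000000000000000000) (nat_lit 0x0) (nat_lit 0x1c000400070000000000000000000000) := T_1 (nat_lit 123) (nat_lit 124) (nat_lit 1) (nat_lit 8) (nat_lit 6) L135997 (by decide +kernel)
theorem L136001 : W_1 (nat_lit 2) (nat_lit 0x1000084007e00048000000000000000000000) (nat_lit 0x0) (nat_lit 0x100084000000000000000000000) := D_1 (nat_lit 104) (nat_lit 91) (nat_lit 86) (nat_lit 2) (nat_lit 2) (nat_lit 6) (nat_lit 0) (nat_lit 5) (nat_lit 6) (by decide +kernel)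
theorem L136002 : W_1 (nat_lit 3) (nat_lit 0x1000084007e00040000000000000000000000) (nat_lit 0x0) (nat_lit 0x10009c000000000000000000000) := T_1 (nat_lit 87) (nat_lit 88) (nat_lit 0) (nat_lit 6) (nat_lit 6) L136001 (by decide +kernel)
theorem L136003 : W_1 (nat_lit 4) (nat_lit 0x1000084007c00040000000000000000000000) (nat_lit 0x0) (nat_lit 0x200030009c000000000000000000000) := T_1 (nat_lit 105) (nat_lit 121) (nat_lit 1) (nat_lit 6) (nat_lit 6) L136002 (by decide +kernel)
theorem L136004 : W_1 (nat_lit 5) (nat_lit 0x1000080007c00040000000000000000000000) (nat_lit 0x0) (nat_lit 0xe00030009c000000000000000000000) := T_1 (nat_lit 122) (nat_lit 123) (nat_lit 1) (nat_lit 7) (nat_lit 6) L136003 (by decide +kernel)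
theorem L136005 : W_1 (nat_lit 6) (nat_lit 0x1000080007800040000000000000000000000) (nat_lit 0x0) (nat_lit 0x4e00070009c000000000000000000000) := T_1 (nat_lit 106) (nat_lit 126) (nat_lit 3) (nat_lit 4) (nat_lit 6) L136004 (by decide +kernel)
theorem L136006 : W_1 (nat_lit 7) (nat_lit 0x1000080007800000000000000000000000000) (nat_lit 0x0) (nat_lit 0x4e0007000fc000000000000000000000) := T_1 (nat_lit 90) (nat_lit 89) (nat_lit 0) (nat_lit 8) (nat_lit 6) L136005 (by decide +kernel)
theorem L170759 : W_1 (nat_lit 2) (nat_lit 0x10000f0007800040008000000000000000000) (nat_lit 0x0) (nat_lit 0x8000400000000000000002000000000000000000) := D_1 (nat_lit 142) (nat_lit 159) (nat_lit 73) (nat_lit 4) (nat_lit 6) (nat_lit 9) (nat_lit 7) (nat_lit 5) (nat_lit 4) (by decide +kernel)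
theorem L170919 : W_1 (nat_lit 2) (nat_lit 0x14000e0006000200010000000000000000000) (nat_lit 0x0) (nat_lit 0x400020001000000000000000) := D_1 (nat_lit 77) (nat_lit 60) (nat_lit 94) (nat_lit 6) (nat_lit 8) (nat_lit 7) (nat_lit 6) (nat_lit 8) (nat_lit 8) (by decide +kernel)
theorem L172825 : W_1 (nat_lit 2) (nat_lit 0x10000c0006000700000000000000000000000) (nat_lit 0x0) (nat_lit 0x1800800000000000000000000000) := D_1 (nat_lit 108) (nat_lit 107) (nat_lit 95) (nat_lit 2) (nat_lit 5) (nat_lit 6) (nat_lit 1) (nat_lit 10) (nat_lit 5) (by decide +kernel)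
theorem L181923 : W_1 (nat_lit 3) (nat_lit 0x10000e0006000200000000000000000000000) (nat_lit 0x0) (nat_lit 0x100018000c00000000000000) := T_1 (nat_lit 75) (nat_lit 92) (nat_lit 7) (nat_lit 7) (nat_lit 4) L64164 (by decide +kernel)
theorem L181938 : W_1 (nat_lit 2) (nat_lit 0x14000e0006000200008000000000000000000) (nat_lit 0x0) (nat_lit 0x10000c00000000000000) := D_1 (nat_lit 76) (nat_lit 58) (nat_lit 59) (nat_lit 4) (nat_lit 8) (nat_lit 7) (nat_lit 5) (nat_lit 8) (nat_lit 3) (by decide +kernel)
theorem L181939 : W_1 (nat_lit 3) (nat_lit 0x14000e0006000200000000000000000000000) (nat_lit 0x0) (nat_lit 0x100018000c00000000000000) := T_1 (nat_lit 75) (nat_lit 92) (nat_lit 7) (nat_lit 7) (nat_lit 4) L181938 (by decide +kernel)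
theorem L182188 : W_1 (nat_lit 2) (nat_lit 0x20001400fe0024000000000000000000000000000) (nat_lit 0x0) (nat_lit 0x38000000000000000000000000000000000000) := D_1 (nat_lit 148) (nat_lit 147) (nat_lit 149) (nat_lit 3) (nat_lit 8) (nat_lit 7) (nat_lit 3) (nat_lit 9) (nat_lit 7) (by decide +kernel)
theorem L182189 : W_1 (nat_lit 3) (nat_lit 0x200014007e0024000000000000000000000000000) (nat_lit 0x0) (nat_lit 0x3a000800000000000000000000000000000000) := T_1 (nat_lit 131) (nat_lit 145) (nat_lit 1) (nat_lit 12) (nat_lit 7) L182188 (by decide +kernel)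
theorem L182190 : W_1 (nat_lit 4) (nat_lit 0x200014003e0024000000000000000000000000000) (nat_lit 0x0) (nat_lit 0x3a000c00040000000000000000000000000000) := T_1 (nat_lit 130) (nat_lit 114) (nat_lit 2) (nat_lit 8) (nat_lit 7) L182189 (by decide +kernel)
theorem L182191 : W_1 (nat_lit 5) (nat_lit 0x200010003e0024000000000000000000000000000) (nat_lit 0x0) (nat_lit 0x3a600c00040000000000000000000000000000) := T_1 (nat_lit 142) (nat_lit 141) (nat_lit 1) (nat_lit 9) (nat_lit 7) L182190 (by decide +kernel)
theorem L182192 : W_1 (nat_lit 6) (nat_lit 0x200010003e0004000000000000000000000000000) (nat_lit 0x0) (nat_lit 0x3a600c00070000000000000000000000000000) := T_1 (nat_lit 113) (nat_lit 112) (nat_lit 2) (nat_lit 7) (nat_lit 7) L182191 (by decide +kernel)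
theorem L182193 : W_1 (nat_lit 7) (nat_lit 0x200010001e0004000000000000000000000000000) (nat_lit 0x0) (nat_lit 0x3e600e00070000000000000000000000000000) := Q_1 (nat_lit 129) (C_1 L102710 (C_1 L182192 (C_1 L284 (C_1 L299 N_1)))) (by decide +kernel)
theorem L213610 : W_1 (nat_lit 2) (nat_lit 0x20011000780044000000000000000000000000000) (nat_lit 0x0) (nat_lit 0x20000800080000000000000000000000000000) := D_1 (nat_lit 131) (nat_lit 149) (nat_lit 115) (nat_lit 3) (nat_lit 9) (nat_lit 7) (nat_lit 2) (nat_lit 9) (nat_lit 7) (by decide +kernel)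
theorem L213611 : W_1 (nat_lit 3) (nat_lit 0x20011000780004000000000000000000000000000) (nat_lit 0x0) (nat_lit 0x200008000e0000000000000000000000000000) := T_1 (nat_lit 114) (nat_lit 113) (nat_lit 2) (nat_lit 8) (nat_lit 7) L213610 (by decide +kernel)
theorem L213612 : W_1 (nat_lit 4) (nat_lit 0x20001000780004000000000000000000000000000) (nat_lit 0x0) (nat_lit 0x380008000e0000000000000000000000000000) := T_1 (nat_lit 148) (nat_lit 147) (nat_lit 3) (nat_lit 8) (nat_lit 7) L213611 (by decide +kernel)
theorem L213677 : W_1 (nat_lit 2) (nat_lit 0x20005000380014000000000000000000000000000) (nat_lit 0x0) (nat_lit 0x8000040020000000000000000000000000000) := D_1 (nat_lit 126) (nat_lit 147) (nat_lit 113) (nat_lit 3) (nat_lit 7) (nat_lit 7) (nat_lit 2) (nat_lit 7) (nat_lit 7) (by decide +kernel)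
theorem L284219 : W_1 (nat_lit 2) (nat_lit 0x200010000c0002000000000000000000000000000) (nat_lit 0x0) (nat_lit 0x4000100008000000000000000000) := D_1 (nat_lit 92) (nat_lit 75) (nat_lit 110) (nat_lit 7) (nat_lit 7) (nat_lit 4) (nat_lit 4) (nat_lit 8) (nat_lit 9) (by decide +kernel)
theorem L284220 : W_1 (nat_lit 3) (nat_lit 0x10000c0002000000000000000000000000000) (nat_lit 0x0) (nat_lit 0x400020000000000004000100008000000000000000000) := T_1 (nat_lit 161) (nat_lit 178) (nat_lit 4) (nat_lit 8) (nat_lit 10) L284219 (by decide +kernel)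
theorem L284221 : W_1 (nat_lit 2) (nat_lit 0x10000c0003800000008000000000000000000) (nat_lit 0x0) (nat_lit 0x320000000000000000000000000000000) := D_1 (nat_lit 128) (nat_lit 129) (nat_lit 125) (nat_lit 0) (nat_lit 10) (nat_lit 7) (nat_lit 0) (nat_lit 9) (nat_lit 7) (by decide +kernel)
theorem L284222 : W_1 (nat_lit 3) (nat_lit 0x10000c0003000000008000000000000000000) (nat_lit 0x0) (nat_lit 0x320000c00000000000000000000000000) := T_1 (nat_lit 107) (nat_lit 106) (nat_lit 3) (nat_lit 4) (nat_lit 6) L284221 (by decide +kernel)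
theorem L284223 : W_1 (nat_lit 4) (nat_lit 0x10000c0003000000000000000000000000000) (nat_lit 0x0) (nat_lit 0x320000c00100008000000000000000000) := T_1 (nat_lit 75) (nat_lit 92) (nat_lit 7) (nat_lit 7) (nat_lit 4) L284222 (by decide +kernel)
theorem L284224 : W_1 (nat_lit 2) (nat_lit 0x10000c0003800000008000000000000000000) (nat_lit 0x0) (nat_lit 0x120004000000000000000000000000000) := D_1 (nat_lit 128) (nat_lit 125) (nat_lit 110) (nat_lit 0) (nat_lit 9) (nat_lit 7) (nat_lit 3) (nat_lit 5) (nat_lit 6) (by decide +kernel)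
theorem L284225 : W_1 (nat_lit 3) (nat_lit 0x10000c0003000000008000000000000000000) (nat_lit 0x0) (nat_lit 0x120004c00000000000000000000000000) := T_1 (nat_lit 107) (nat_lit 106) (nat_lit 3) (nat_lit 4) (nat_lit 6) L284224 (by decide +kernel)
theorem L284226 : W_1 (nat_lit 4) (nat_lit 0x10000c0003000000000000000000000000000) (nat_lit 0x0) (nat_lit 0x120004c00100008000000000000000000) := T_1 (nat_lit 75) (nat_lit 92) (nat_lit 7) (nat_lit 7) (nat_lit 4) L284225 (by decide +kernel)
theorem L284227 : W_1 (nat_lit 2) (nat_lit 0x10000f0003400000000000000000000000000) (nat_lit 0x0) (nat_lit 0x8004200000000000000000000000000) := D_1 (nat_lit 123) (nat_lit 110) (nat_lit 105) (nat_lit 2) (nat_lit 4) (nat_lit 7) (nat_lit 0) (nat_lit 7) (nat_lit 7) (by decide +kernel)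
theorem L284228 : W_1 (nat_lit 3) (nat_lit 0x10000e0003400000000000000000000000000) (nat_lit 0x0) (nat_lit 0x2000018004200000000000000000000000000) := T_1 (nat_lit 124) (nat_lit 145) (nat_lit 3) (nat_lit 5) (nat_lit 7) L284227 (by decide +kernel)
theorem L284229 : W_1 (nat_lit 4) (nat_lit 0x10000e0003000000000000000000000000000) (nat_lit 0x0) (nat_lit 0x2000018004e00000000000000000000000000) := T_1 (nat_lit 106) (nat_lit 107) (nat_lit 3) (nat_lit 4) (nat_lit 6) L284228 (by decide +kernel)
theorem L284230 : W_1 (nat_lit 2) (nat_lit 0x10000f0003000000000000000000000000000) (nat_lit 0x0) (nat_lit 0xc004000000000000000000000000000) := D_1 (nat_lit 123) (nat_lit 122) (nat_lit 110) (nat_lit 2) (nat_lit 3) (nat_lit 7) (nat_lit 2) (nat_lit 4) (nat_lit 7) (by decide +kernel)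
theorem L284231 : W_1 (nat_lit 2) (nat_lit 0x12000f4003800000008000000000000000000) (nat_lit 0x0) (nat_lit 0x80004000000000000000080000000000000000000000) := D_1 (nat_lit 158) (nat_lit 175) (nat_lit 91) (nat_lit 6) (nat_lit 5) (nat_lit 10) (nat_lit 6) (nat_lit 5) (nat_lit 9) (by decide +kernel)
theorem L284232 : W_1 (nat_lit 3) (nat_lit 0x12000f4003000000008000000000000000000) (nat_lit 0x0) (nat_lit 0x80004000000000000c00080000000000000000000000) := T_1 (nat_lit 107) (nat_lit 106) (nat_lit 3) (nat_lit 4) (nat_lit 6) L284231 (by decide +kernel)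
theorem L284233 : W_1 (nat_lit 4) (nat_lit 0x10000f4003000000008000000000000000000) (nat_lit 0x0) (nat_lit 0x80004000300000000c00080000000000000000000000) := T_1 (nat_lit 141) (nat_lit 140) (nat_lit 1) (nat_lit 8) (nat_lit 7) L284232 (by decide +kernel)
theorem L284234 : W_1 (nat_lit 5) (nat_lit 0x10000f0003000000008000000000000000000) (nat_lit 0x0) (nat_lit 0x8000400030000c000c00080000000000000000000000) := T_1 (nat_lit 122) (nat_lit 123) (nat_lit 2) (nat_lit 3) (nat_lit 7) L284233 (by decide +kernel)
theorem L284235 : W_1 (nat_lit 6) (nat_lit 0x10000f0003000000000000000000000000000) (nat_lit 0x0) (nat_lit 0x8000400030000c000c00180008000000000000000000) := T_1 (nat_lit 75) (nat_lit 92) (nat_lit 7) (nat_lit 7) (nat_lit 4) L284234 (by decide +kernel)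
theorem L284236 : W_1 (nat_lit 2) (nat_lit 0x12000f0003800000008000000000000000000) (nat_lit 0x0) (nat_lit 0x4000000000000000080004000000000000000000) := D_1 (nat_lit 91) (nat_lit 74) (nat_lit 158) (nat_lit 5) (nat_lit 6) (nat_lit 4) (nat_lit 6) (nat_lit 5) (nat_lit 9) (by decide +kernel)
theorem L284237 : W_1 (nat_lit 3) (nat_lit 0x10000f0003800000008000000000000000000) (nat_lit 0x0) (nat_lit 0x4000300000000000080004000000000000000000) := T_1 (nat_lit 141) (nat_lit 140) (nat_lit 1) (nat_lit 8) (nat_lit 7) L284236 (by decide +kernel)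
theorem L284238 : W_1 (nat_lit 4) (nat_lit 0x10000f0003800000000000000000000000000) (nat_lit 0x0) (nat_lit 0x400030000000000018000c000000000000000000) := T_1 (nat_lit 75) (nat_lit 92) (nat_lit 7) (nat_lit 7) (nat_lit 4) L284237 (by decide +kernel)
theorem L284239 : W_1 (nat_lit 5) (nat_lit 0x10000f0003000000000000000000000000000) (nat_lit 0x0) (nat_lit 0x4000300000000c0018000c000000000000000000) := T_1 (nat_lit 107) (nat_lit 106) (nat_lit 3) (nat_lit 4) (nat_lit 6) L284238 (by decide +kernel)
theorem L284240 : W_1 (nat_lit 7) (nat_lit 0x10000e0003000000000000000000000000000) (nat_lit 0x0) (nat_lit 0x8000400030001c004c0018000c000000000000000000) := Q_1 (nat_lit 124) (C_1 L284230 (C_1 L284235 (C_1 L284239 N_1))) (by decide +kernel)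
theorem L284241 : W_1 (nat_lit 2) (nat_lit 0x10000f0003400000000000000000000000000) (nat_lit 0x0) (nat_lit 0xc000200000000000000000000000000) := D_1 (nat_lit 123) (nat_lit 122) (nat_lit 105) (nat_lit 2) (nat_lit 3) (nat_lit 7) (nat_lit 0) (nat_lit 7) (nat_lit 7) (by decide +kernel)
theorem L284242 : W_1 (nat_lit 3) (nat_lit 0x10000e0003400000000000000000000000000) (nat_lit 0x0) (nat_lit 0x200001c000200000000000000000000000000) := T_1 (nat_lit 124) (nat_lit 145) (nat_lit 3) (nat_lit 5) (nat_lit 7) L284241 (by decide +kernel)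
theorem L284243 : W_1 (nat_lit 4) (nat_lit 0x10000e0003000000000000000000000000000) (nat_lit 0x0) (nat_lit 0x200001c000e00000000000000000000000000) := T_1 (nat_lit 106) (nat_lit 107) (nat_lit 3) (nat_lit 4) (nat_lit 6) L284242 (by decide +kernel)
theorem L284244 : W_1 (nat_lit 2) (nat_lit 0x14000e0003000000000000000000000000000) (nat_lit 0x0) (nat_lit 0x8000000000000000100008000000000000000000) := D_1 (nat_lit 92) (nat_lit 75) (nat_lit 159) (nat_lit 7) (nat_lit 7) (nat_lit 4) (nat_lit 6) (nat_lit 6) (nat_lit 9) (by decide +kernel)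
theorem L284245 : W_1 (nat_lit 2) (nat_lit 0x14000e0003000080008000000000000000000) (nat_lit 0x0) (nat_lit 0x4000600000000000000) := D_1 (nat_lit 74) (nat_lit 58) (nat_lit 57) (nat_lit 6) (nat_lit 6) (nat_lit 7) (nat_lit 7) (nat_lit 6) (nat_lit 3) (by decide +kernel)
theorem L284246 : W_1 (nat_lit 3) (nat_lit 0x14000e0003000080000000000000000000000) (nat_lit 0x0) (nat_lit 0x10000c000600000000000000) := T_1 (nat_lit 75) (nat_lit 92) (nat_lit 7) (nat_lit 7) (nat_lit 4) L284245 (by decide +kernel)
theorem L284247 : W_1 (nat_lit 2) (nat_lit 0x16800e00030000e0000000000000000000000) (nat_lit 0x0) (nat_lit 0x4c00000000000000000000000000) := D_1 (nat_lit 107) (nat_lit 106) (nat_lit 110) (nat_lit 3) (nat_lit 4) (nat_lit 6) (nat_lit 0) (nat_lit 8) (nat_lit 6) (by decide +kernel)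
theorem L284248 : W_1 (nat_lit 3) (nat_lit 0x16800e00030000c0000000000000000000000) (nat_lit 0x0) (nat_lit 0x4c00030000000000000000000000) := T_1 (nat_lit 89) (nat_lit 88) (nat_lit 3) (nat_lit 3) (nat_lit 5) L284247 (by decide +kernel)
theorem L284249 : W_1 (nat_lit 4) (nat_lit 0x16800e0003000080000000000000000000000) (nat_lit 0x0) (nat_lit 0x4c00070002000000000000000000) := T_1 (nat_lit 90) (nat_lit 73) (nat_lit 4) (nat_lit 6) (nat_lit 8) L284248 (by decide +kernel)
theorem L284250 : W_1 (nat_lit 5) (nat_lit 0x16000e0003000080000000000000000000000) (nat_lit 0x0) (nat_lit 0x180000004c00070002000000000000000000) := T_1 (nat_lit 139) (nat_lit 140) (nat_lit 2) (nat_lit 3) (nat_lit 8) L284249 (by decide +kernel)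
theorem L284251 : W_1 (nat_lit 6) (nat_lit 0x14000e0003000080000000000000000000000) (nat_lit 0x0) (nat_lit 0x4000380000004c00070002000000000000000000) := T_1 (nat_lit 141) (nat_lit 158) (nat_lit 5) (nat_lit 6) (nat_lit 5) L284250 (by decide +kernel)
theorem L284252 : W_1 (nat_lit 7) (nat_lit 0x14000e0003000000000000000000000000000) (nat_lit 0x0) (nat_lit 0x4000380000004c001f000e000600000000000000) := Q_1 (nat_lit 91) (C_1 L284246 (C_1 L284251 N_1)) (by decide +kernel)
theorem L284253 : W_1 (nat_lit 2) (nat_lit 0xc0014000e0003400080002000000000000000000) (nat_lit 0x0) (nat_lit 0x4000300000000000000) := D_1 (nat_lit 74) (nat_lit 57) (nat_lit 56) (nat_lit 7) (nat_lit 6) (nat_lit 3) (nat_lit 4) (nat_lit 6) (nat_lit 7) (by decide +kernel)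
theorem L284254 : W_1 (nat_lit 3) (nat_lit 0xc0014000e0003400080000000000000000000000) (nat_lit 0x0) (nat_lit 0x40006000300000000000000) := T_1 (nat_lit 73) (nat_lit 90) (nat_lit 4) (nat_lit 6) (nat_lit 8) L284253 (by decide +kernel)
theorem L284255 : W_1 (nat_lit 4) (nat_lit 0xc0014000e0003400000000000000000000000000) (nat_lit 0x0) (nat_lit 0x2000000000000c0006000300000000000000) := T_1 (nat_lit 91) (nat_lit 141) (nat_lit 5) (nat_lit 6) (nat_lit 5) L284254 (by decide +kernel)
theorem L284256 : W_1 (nat_lit 5) (nat_lit 0x80014000e0003400000000000000000000000000) (nat_lit 0x0) (nat_lit 0x800040002000000000000c0006000300000000000000) := T_1 (nat_lit 158) (nat_lit 175) (nat_lit 5) (nat_lit 6) (nat_lit 6) L284255 (by decide +kernel)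
theorem L284257 : W_1 (nat_lit 6) (nat_lit 0x14000e0003400000000000000000000000000) (nat_lit 0x0) (nat_lit 0x18000c0002000000000000c0006000300000000000000) := T_1 (nat_lit 159) (nat_lit 176) (nat_lit 6) (nat_lit 6) (nat_lit 10) L284256 (by decide +kernel)
theorem L284258 : W_1 (nat_lit 7) (nat_lit 0x14000e0003000000000000000000000000000) (nat_lit 0x0) (nat_lit 0x18000c000200000000c000c0006000300000000000000) := T_1 (nat_lit 106) (nat_lit 107) (nat_lit 3) (nat_lit 4) (nat_lit 6) L284257 (by decide +kernel)
theorem L284259 : W_1 (nat_lit 8) (nat_lit 0x10000e0003000000000000000000000000000) (nat_lit 0x0) (nat_lit 0x18000c000780000004c001f000e000700000000000000) := Q_1 (nat_lit 142) (C_1 L284244 (C_1 L284252 (C_1 L284258 N_1))) (by decide +kernel)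
theorem L284260 : W_1 (nat_lit 2) (nat_lit 0x10000f0003000000008000000000000000000) (nat_lit 0x0) (nat_lit 0xc004000000000000000000000000000) := D_1 (nat_lit 123) (nat_lit 110) (nat_lit 122) (nat_lit 2) (nat_lit 4) (nat_lit 7) (nat_lit 2) (nat_lit 3) (nat_lit 7) (by decide +kernel)
theorem L284261 : W_1 (nat_lit 3) (nat_lit 0x10000e0003000000008000000000000000000) (nat_lit 0x0) (nat_lit 0x200001c004000000000000000000000000000) := T_1 (nat_lit 124) (nat_lit 145) (nat_lit 3) (nat_lit 5) (nat_lit 7) L284260 (by decide +kernel)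
theorem L284262 : W_1 (nat_lit 4) (nat_lit 0x10000e0003000000000000000000000000000) (nat_lit 0x0) (nat_lit 0x200001c004000100008000000000000000000) := T_1 (nat_lit 75) (nat_lit 92) (nat_lit 7) (nat_lit 7) (nat_lit 4) L284261 (by decide +kernel)
theorem L284263 : W_1 (nat_lit 9) (nat_lit 0x10000c0003000000000000000000000000000) (nat_lit 0x0) (nat_lit 0x18000c00278003c004e001f000e000700000000000000) := Q_1 (nat_lit 125) (C_1 L284229 (C_1 L284240 (C_1 L284243 (C_1 L284259 (C_1 L284262 N_1))))) (by decide +kernel)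
theorem L284264 : W_1 (nat_lit 2) (nat_lit 0x10000c0003800000000000000000000000000) (nat_lit 0x0) (nat_lit 0x300004000000000000000000000000000) := D_1 (nat_lit 128) (nat_lit 129) (nat_lit 110) (nat_lit 0) (nat_lit 10) (nat_lit 7) (nat_lit 3) (nat_lit 5) (nat_lit 6) (by decide +kernel)
theorem L284265 : W_1 (nat_lit 3) (nat_lit 0x10000c0003000000000000000000000000000) (nat_lit 0x0) (nat_lit 0x300004c00000000000000000000000000) := T_1 (nat_lit 107) (nat_lit 106) (nat_lit 3) (nat_lit 4) (nat_lit 6) L284264 (by decide +kernel)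
theorem L284266 : W_1 (nat_lit 2) (nat_lit 0x12001f0003000000008000000000000000000) (nat_lit 0x0) (nat_lit 0xc004000000000000000000000000000) := D_1 (nat_lit 123) (nat_lit 122) (nat_lit 110) (nat_lit 2) (nat_lit 3) (nat_lit 7) (nat_lit 2) (nat_lit 4) (nat_lit 7) (by decide +kernel)
theorem L284267 : W_1 (nat_lit 3) (nat_lit 0x12001e0003000000008000000000000000000) (nat_lit 0x0) (nat_lit 0x10001c004000000000000000000000000000) := T_1 (nat_lit 124) (nat_lit 140) (nat_lit 1) (nat_lit 8) (nat_lit 7) L284266 (by decide +kernel)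
theorem L284268 : W_1 (nat_lit 4) (nat_lit 0x10001e0003000000008000000000000000000) (nat_lit 0x0) (nat_lit 0x70001c004000000000000000000000000000) := T_1 (nat_lit 141) (nat_lit 142) (nat_lit 1) (nat_lit 9) (nat_lit 7) L284267 (by decide +kernel)
theorem L284269 : W_1 (nat_lit 5) (nat_lit 0x10001e0003000000000000000000000000000) (nat_lit 0x0) (nat_lit 0x70001c004000100008000000000000000000) := T_1 (nat_lit 75) (nat_lit 92) (nat_lit 7) (nat_lit 7) (nat_lit 4) L284268 (by decide +kernel)
theorem L284270 : W_1 (nat_lit 6) (nat_lit 0x10000e0003000000000000000000000000000) (nat_lit 0x0) (nat_lit 0x70031c004000100008000000000000000000) := T_1 (nat_lit 128) (nat_lit 129) (nat_lit 0) (nat_lit 10) (nat_lit 7) L284269 (by decide +kernel)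
theorem L284271 : W_1 (nat_lit 2) (nat_lit 0x40012002f4003000000008000000000000000000) (nat_lit 0x0) (nat_lit 0x400000000000080004000000000000000000) := D_1 (nat_lit 91) (nat_lit 74) (nat_lit 142) (nat_lit 5) (nat_lit 6) (nat_lit 4) (nat_lit 5) (nat_lit 6) (nat_lit 5) (by decide +kernel)
theorem L284272 : W_1 (nat_lit 3) (nat_lit 0x12002f4003000000008000000000000000000) (nat_lit 0x0) (nat_lit 0x80004000400000000000080004000000000000000000) := T_1 (nat_lit 158) (nat_lit 175) (nat_lit 6) (nat_lit 5) (nat_lit 10) L284271 (by decide +kernel)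
theorem L284273 : W_1 (nat_lit 4) (nat_lit 0x12002f4003000000000000000000000000000) (nat_lit 0x0) (nat_lit 0x8000400040000000000018000c000000000000000000) := T_1 (nat_lit 75) (nat_lit 92) (nat_lit 7) (nat_lit 7) (nat_lit 4) L284272 (by decide +kernel)
theorem L284274 : W_1 (nat_lit 5) (nat_lit 0x10002f4003000000000000000000000000000) (nat_lit 0x0) (nat_lit 0x8000400070000000000018000c000000000000000000) := T_1 (nat_lit 141) (nat_lit 140) (nat_lit 1) (nat_lit 8) (nat_lit 7) L284273 (by decide +kernel)
theorem L284275 : W_1 (nat_lit 6) (nat_lit 0x10002f0003000000000000000000000000000) (nat_lit 0x0) (nat_lit 0x8000400070000c00000018000c000000000000000000) := T_1 (nat_lit 122) (nat_lit 123) (nat_lit 2) (nat_lit 3) (nat_lit 7) L284274 (by decide +kernel)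
theorem L284276 : W_1 (nat_lit 7) (nat_lit 0x10002e0003000000000000000000000000000) (nat_lit 0x0) (nat_lit 0x8000400270001c00000018000c000000000000000000) := T_1 (nat_lit 124) (nat_lit 145) (nat_lit 3) (nat_lit 5) (nat_lit 7) L284275 (by decide +kernel)
theorem L284277 : W_1 (nat_lit 8) (nat_lit 0x10000e0003000000000000000000000000000) (nat_lit 0x0) (nat_lit 0x8000400270031c00000018000c000000000000000000) := T_1 (nat_lit 129) (nat_lit 128) (nat_lit 0) (nat_lit 10) (nat_lit 7) L284276 (by decide +kernel)
theorem L284278 : W_1 (nat_lit 2) (nat_lit 0x10002f0003000000000000000000000000000) (nat_lit 0x0) (nat_lit 0xc004000000000000000000000000000) := D_1 (nat_lit 123) (nat_lit 110) (nat_lit 122) (nat_lit 2) (nat_lit 4) (nat_lit 7) (nat_lit 2) (nat_lit 3) (nat_lit 7) (by decide +kernel)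
theorem L284279 : W_1 (nat_lit 3) (nat_lit 0x10002e0003000000000000000000000000000) (nat_lit 0x0) (nat_lit 0x200001c004000000000000000000000000000) := T_1 (nat_lit 124) (nat_lit 145) (nat_lit 3) (nat_lit 5) (nat_lit 7) L284278 (by decide +kernel)
theorem L284280 : W_1 (nat_lit 4) (nat_lit 0x10000e0003000000000000000000000000000) (nat_lit 0x0) (nat_lit 0x200031c004000000000000000000000000000) := T_1 (nat_lit 129) (nat_lit 128) (nat_lit 0) (nat_lit 10) (nat_lit 7) L284279 (by decide +kernel)
theorem L284281 : W_1 (nat_lit 2) (nat_lit 0x10001e0003000100000000000000000000000) (nat_lit 0x0) (nat_lit 0x8000600000000000000000000000000000000000) := D_1 (nat_lit 142) (nat_lit 159) (nat_lit 141) (nat_lit 6) (nat_lit 6) (nat_lit 9) (nat_lit 1) (nat_lit 9) (nat_lit 7) (by decide +kernel)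
theorem L284282 : W_1 (nat_lit 3) (nat_lit 0x10000e0003000100000000000000000000000) (nat_lit 0x0) (nat_lit 0x8000600300000000000000000000000000000000) := T_1 (nat_lit 128) (nat_lit 129) (nat_lit 0) (nat_lit 10) (nat_lit 7) L284281 (by decide +kernel)
theorem L284283 : W_1 (nat_lit 4) (nat_lit 0x10000e0003000000000000000000000000000) (nat_lit 0x0) (nat_lit 0x8000600300000000100008000000000000000000) := T_1 (nat_lit 92) (nat_lit 75) (nat_lit 7) (nat_lit 7) (nat_lit 4) L284282 (by decide +kernel)
theorem L284284 : W_1 (nat_lit 9) (nat_lit 0x10000c0003000000000000000000000000000) (nat_lit 0x0) (nat_lit 0x8000c00270033c00400018000c000000000000000000) := Q_1 (nat_lit 125) (C_1 L284262 (C_1 L284270 (C_1 L284277 (C_1 L284280 (C_1 L284283 N_1))))) (by decide +kernel)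
theorem L284285 : W_1 (nat_lit 10) (nat_lit 0x10000c0002000000000000000000000000000) (nat_lit 0x0) (nat_lit 0x18000c00278033c005e001f000e000700000000000000) := Q_1 (nat_lit 108) (C_1 L284223 (C_1 L284226 (C_1 L284263 (C_1 L284265 (C_1 L284284 N_1))))) (by decide +kernel)
theorem L284286 : W_1 (nat_lit 2) (nat_lit 0x12000f0002800000008000000000000000000) (nat_lit 0x0) (nat_lit 0x400100001000000000000000000000000000) := D_1 (nat_lit 128) (nat_lit 142) (nat_lit 108) (nat_lit 1) (nat_lit 9) (nat_lit 7) (nat_lit 0) (nat_lit 9) (nat_lit 7) (by decide +kernel)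
theorem L284287 : W_1 (nat_lit 3) (nat_lit 0x12000f0002000000008000000000000000000) (nat_lit 0x0) (nat_lit 0x400100001c00000000000000000000000000) := T_1 (nat_lit 107) (nat_lit 106) (nat_lit 0) (nat_lit 8) (nat_lit 7) L284286 (by decide +kernel)
theorem L284288 : W_1 (nat_lit 4) (nat_lit 0x10000f0002000000008000000000000000000) (nat_lit 0x0) (nat_lit 0x700100001c00000000000000000000000000) := T_1 (nat_lit 141) (nat_lit 140) (nat_lit 1) (nat_lit 8) (nat_lit 7) L284287 (by decide +kernel)
theorem L284289 : W_1 (nat_lit 5) (nat_lit 0x10000e0002000000008000000000000000000) (nat_lit 0x0) (nat_lit 0x2700110001c00000000000000000000000000) := T_1 (nat_lit 124) (nat_lit 145) (nat_lit 3) (nat_lit 5) (nat_lit 7) L284288 (by decide +kernel)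
theorem L284290 : W_1 (nat_lit 6) (nat_lit 0x10000e0002000000000000000000000000000) (nat_lit 0x0) (nat_lit 0x2700110001c00100008000000000000000000) := T_1 (nat_lit 75) (nat_lit 92) (nat_lit 7) (nat_lit 7) (nat_lit 4) L284289 (by decide +kernel)
theorem L284291 : W_1 (nat_lit 2) (nat_lit 0x10000e0003000000000000000000000000000) (nat_lit 0x0) (nat_lit 0x100000c00000000000000000000000000) := D_1 (nat_lit 107) (nat_lit 106) (nat_lit 128) (nat_lit 3) (nat_lit 4) (nat_lit 6) (nat_lit 0) (nat_lit 9) (nat_lit 7) (by decide +kernel)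
theorem L284292 : W_1 (nat_lit 2) (nat_lit 0x4000000016000e00034000d0000000000000000000000) (nat_lit 0x0) (nat_lit 0x10000000000004000200000000000000) := D_1 (nat_lit 74) (nat_lit 124) (nat_lit 57) (nat_lit 5) (nat_lit 6) (nat_lit 4) (nat_lit 7) (nat_lit 6) (nat_lit 3) (by decide +kernel)
theorem L284293 : W_1 (nat_lit 3) (nat_lit 0x4000000014000e00034000d0000000000000000000000) (nat_lit 0x0) (nat_lit 0x4000200010000000000004000200000000000000) := T_1 (nat_lit 141) (nat_lit 158) (nat_lit 5) (nat_lit 6) (nat_lit 5) L284292 (by decide +kernel)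
theorem L284294 : W_1 (nat_lit 4) (nat_lit 0x14000e00034000d0000000000000000000000) (nat_lit 0x0) (nat_lit 0x400024000200010000000000004000200000000000000) := T_1 (nat_lit 178) (nat_lit 161) (nat_lit 4) (nat_lit 8) (nat_lit 10) L284293 (by decide +kernel)
theorem L284295 : W_1 (nat_lit 5) (nat_lit 0x14000e00034000c0000000000000000000000) (nat_lit 0x0) (nat_lit 0x400024000200010000000030004000200000000000000) := T_1 (nat_lit 88) (nat_lit 89) (nat_lit 3) (nat_lit 3) (nat_lit 5) L284294 (by decide +kernel)
theorem L284296 : W_1 (nat_lit 6) (nat_lit 0x14000e0003400080000000000000000000000) (nat_lit 0x0) (nat_lit 0x400024000200010000000070006000200000000000000) := T_1 (nat_lit 90) (nat_lit 73) (nat_lit 4) (nat_lit 6) (nat_lit 8) L284295 (by decide +kernel)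
theorem L284297 : W_1 (nat_lit 7) (nat_lit 0x14000e0003000080000000000000000000000) (nat_lit 0x0) (nat_lit 0x400024000200010000c00070006000200000000000000) := T_1 (nat_lit 106) (nat_lit 107) (nat_lit 3) (nat_lit 4) (nat_lit 6) L284296 (by decide +kernel)
theorem L284298 : W_1 (nat_lit 2) (nat_lit 0x4000000016000e00034000d0008000000000000000000) (nat_lit 0x0) (nat_lit 0x180010000000000000000000000000000000) := D_1 (nat_lit 140) (nat_lit 139) (nat_lit 124) (nat_lit 2) (nat_lit 3) (nat_lit 8) (nat_lit 1) (nat_lit 8) (nat_lit 7) (by decide +kernel)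
theorem L284299 : W_1 (nat_lit 3) (nat_lit 0x4000000014000e00034000d0008000000000000000000) (nat_lit 0x0) (nat_lit 0x4000380010000000000000000000000000000000) := T_1 (nat_lit 141) (nat_lit 158) (nat_lit 5) (nat_lit 6) (nat_lit 5) L284298 (by decide +kernel)
theorem L284300 : W_1 (nat_lit 4) (nat_lit 0x14000e00034000d0008000000000000000000) (nat_lit 0x0) (nat_lit 0x400024000380010000000000000000000000000000000) := T_1 (nat_lit 178) (nat_lit 161) (nat_lit 4) (nat_lit 8) (nat_lit 10) L284299 (by decide +kernel)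
theorem L284301 : W_1 (nat_lit 5) (nat_lit 0x14000e00034000c0008000000000000000000) (nat_lit 0x0) (nat_lit 0x400024000380010000000030000000000000000000000) := T_1 (nat_lit 88) (nat_lit 89) (nat_lit 3) (nat_lit 3) (nat_lit 5) L284300 (by decide +kernel)
theorem L284302 : W_1 (nat_lit 6) (nat_lit 0x14000e0003400080008000000000000000000) (nat_lit 0x0) (nat_lit 0x400024000380010000000070002000000000000000000) := T_1 (nat_lit 90) (nat_lit 73) (nat_lit 4) (nat_lit 6) (nat_lit 8) L284301 (by decide +kernel)
theorem L284303 : W_1 (nat_lit 7) (nat_lit 0x14000e0003000080008000000000000000000) (nat_lit 0x0) (nat_lit 0x400024000380010000c00070002000000000000000000) := T_1 (nat_lit 106) (nat_lit 107) (nat_lit 3) (nat_lit 4) (nat_lit 6) L284302 (by decide +kernel)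
theorem L284304 : W_1 (nat_lit 8) (nat_lit 0x14000e0003000080000000000000000000000) (nat_lit 0x0) (nat_lit 0x400024000380010000c0017000a000000000000000000) := T_1 (nat_lit 75) (nat_lit 92) (nat_lit 7) (nat_lit 7) (nat_lit 4) L284303 (by decide +kernel)
theorem L284305 : W_1 (nat_lit 9) (nat_lit 0x14000e0003000000000000000000000000000) (nat_lit 0x0) (nat_lit 0x400024000380010000c001f000e000600000000000000) := Q_1 (nat_lit 91) (C_1 L284246 (C_1 L284297 (C_1 L284304 N_1))) (by decide +kernel)
theorem L284306 : W_1 (nat_lit 10) (nat_lit 0x10000e0003000000000000000000000000000) (nat_lit 0x0) (nat_lit 0x58002c000780010000c001f000e000700000000000000) := Q_1 (nat_lit 142) (C_1 L284244 (C_1 L284258 (C_1 L284305 N_1))) (by decide +kernel)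
theorem L284307 : W_1 (nat_lit 11) (nat_lit 0x10000e0002000000000000000000000000000) (nat_lit 0x0) (nat_lit 0x58002c000780310001c001f000e000700000000000000) := Q_1 (nat_lit 108) (C_1 L284283 (C_1 L284291 (C_1 L284306 N_1))) (by decide +kernel)
theorem L284308 : W_1 (nat_lit 2) (nat_lit 0x4000000012000f0003800000008000000000000000000) (nat_lit 0x0) (nat_lit 0x80004000000000000000080000000000000000000000) := D_1 (nat_lit 158) (nat_lit 175) (nat_lit 91) (nat_lit 6) (nat_lit 5) (nat_lit 10) (nat_lit 6) (nat_lit 5) (nat_lit 9) (by decide +kernel)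
theorem L284309 : W_1 (nat_lit 3) (nat_lit 0x4000000012000f0002800000008000000000000000000) (nat_lit 0x0) (nat_lit 0x80004000000100001000080000000000000000000000) := T_1 (nat_lit 108) (nat_lit 128) (nat_lit 0) (nat_lit 9) (nat_lit 7) L284308 (by decide +kernel)
theorem L284310 : W_1 (nat_lit 4) (nat_lit 0x12000f0002800000008000000000000000000) (nat_lit 0x0) (nat_lit 0x480024000000100001000080000000000000000000000) := T_1 (nat_lit 178) (nat_lit 161) (nat_lit 4) (nat_lit 8) (nat_lit 10) L284309 (by decide +kernel)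
theorem L284311 : W_1 (nat_lit 5) (nat_lit 0x12000f0002000000008000000000000000000) (nat_lit 0x0) (nat_lit 0x480024000000100001c00080000000000000000000000) := T_1 (nat_lit 107) (nat_lit 106) (nat_lit 0) (nat_lit 8) (nat_lit 7) L284310 (by decide +kernel)
theorem L284312 : W_1 (nat_lit 6) (nat_lit 0x10000f0002000000008000000000000000000) (nat_lit 0x0) (nat_lit 0x480024000300100001c00080000000000000000000000) := T_1 (nat_lit 141) (nat_lit 140) (nat_lit 1) (nat_lit 8) (nat_lit 7) L284311 (by decide +kernel)
theorem L284313 : W_1 (nat_lit 7) (nat_lit 0x10000e0002000000008000000000000000000) (nat_lit 0x0) (nat_lit 0x480024002300110001c00080000000000000000000000) := T_1 (nat_lit 124) (nat_lit 145) (nat_lit 3) (nat_lit 5) (nat_lit 7) L284312 (by decide +kernel)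
theorem L284314 : W_1 (nat_lit 8) (nat_lit 0x10000e0002000000000000000000000000000) (nat_lit 0x0) (nat_lit 0x480024002300110001c00180008000000000000000000) := T_1 (nat_lit 75) (nat_lit 92) (nat_lit 7) (nat_lit 7) (nat_lit 4) L284313 (by decide +kernel)
theorem L284315 : W_1 (nat_lit 2) (nat_lit 0x4000000012400fc002400000008000000000000000000) (nat_lit 0x0) (nat_lit 0x420002000000000000000000000000000000) := D_1 (nat_lit 121) (nat_lit 137) (nat_lit 142) (nat_lit 1) (nat_lit 5) (nat_lit 7) (nat_lit 3) (nat_lit 2) (nat_lit 7) (by decide +kernel)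
theorem L284316 : W_1 (nat_lit 3) (nat_lit 0x4000000012000fc002400000008000000000000000000) (nat_lit 0x0) (nat_lit 0x4e0002000000000000000000000000000000) := T_1 (nat_lit 138) (nat_lit 139) (nat_lit 1) (nat_lit 6) (nat_lit 7) L284315 (by decide +kernel)
theorem L284317 : W_1 (nat_lit 4) (nat_lit 0x4000000012000f8002400000008000000000000000000) (nat_lit 0x0) (nat_lit 0x4e0006001000000000000000000000000000) := T_1 (nat_lit 122) (nat_lit 108) (nat_lit 2) (nat_lit 3) (nat_lit 7) L284316 (by decide +kernel)
theorem L284318 : W_1 (nat_lit 5) (nat_lit 0x4000000012000f0002400000008000000000000000000) (nat_lit 0x0) (nat_lit 0x4e000e001200000000000000000000000000) := T_1 (nat_lit 123) (nat_lit 105) (nat_lit 0) (nat_lit 7) (nat_lit 7) L284317 (by decide +kernel)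
theorem L284319 : W_1 (nat_lit 6) (nat_lit 0x4000000012000f0002000000008000000000000000000) (nat_lit 0x0) (nat_lit 0x4e000e001e00000000000000000000000000) := T_1 (nat_lit 106) (nat_lit 107) (nat_lit 0) (nat_lit 8) (nat_lit 7) L284318 (by decide +kernel)
theorem L284320 : W_1 (nat_lit 7) (nat_lit 0x4000000010000f0002000000008000000000000000000) (nat_lit 0x0) (nat_lit 0x7e000e001e00000000000000000000000000) := T_1 (nat_lit 141) (nat_lit 140) (nat_lit 1) (nat_lit 8) (nat_lit 7) L284319 (by decide +kernel)
theorem L284321 : W_1 (nat_lit 8) (nat_lit 0x4000000010000e0002000000008000000000000000000) (nat_lit 0x0) (nat_lit 0x27e001e001e00000000000000000000000000) := T_1 (nat_lit 124) (nat_lit 145) (nat_lit 3) (nat_lit 5) (nat_lit 7) L284320 (by decide +kernel)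
theorem L284322 : W_1 (nat_lit 9) (nat_lit 0x4000000010000e0002000000000000000000000000000) (nat_lit 0x0) (nat_lit 0x27e001e001e00100008000000000000000000) := T_1 (nat_lit 75) (nat_lit 92) (nat_lit 7) (nat_lit 7) (nat_lit 4) L284321 (by decide +kernel)
theorem L284323 : W_1 (nat_lit 10) (nat_lit 0x10000e0002000000000000000000000000000) (nat_lit 0x0) (nat_lit 0x4000200027e001e001e00100008000000000000000000) := T_1 (nat_lit 178) (nat_lit 161) (nat_lit 4) (nat_lit 8) (nat_lit 10) L284322 (by decide +kernel)
theorem L284324 : W_1 (nat_lit 2) (nat_lit 0x4000000010000fc002400000008000000000000000000) (nat_lit 0x0) (nat_lit 0x1c0000000000000000000000000000000000) := D_1 (nat_lit 139) (nat_lit 138) (nat_lit 140) (nat_lit 1) (nat_lit 6) (nat_lit 7) (nat_lit 1) (nat_lit 7) (nat_lit 7) (by decide +kernel)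
theorem L284325 : W_1 (nat_lit 3) (nat_lit 0x4000000010000f8002400000008000000000000000000) (nat_lit 0x0) (nat_lit 0x1c0004001000000000000000000000000000) := T_1 (nat_lit 122) (nat_lit 108) (nat_lit 2) (nat_lit 3) (nat_lit 7) L284324 (by decide +kernel)
theorem L284326 : W_1 (nat_lit 4) (nat_lit 0x4000000010000f8002400000000000000000000000000) (nat_lit 0x0) (nat_lit 0x1c0004001000100008000000000000000000) := T_1 (nat_lit 75) (nat_lit 92) (nat_lit 7) (nat_lit 7) (nat_lit 4) L284325 (by decide +kernel)
theorem L284327 : W_1 (nat_lit 5) (nat_lit 0x4000000010000f0002400000000000000000000000000) (nat_lit 0x0) (nat_lit 0x1c000c001200100008000000000000000000) := T_1 (nat_lit 123) (nat_lit 105) (nat_lit 0) (nat_lit 7) (nat_lit 7) L284326 (by decide +kernel)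
theorem L284328 : W_1 (nat_lit 6) (nat_lit 0x10000f0002400000000000000000000000000) (nat_lit 0x0) (nat_lit 0x4000200001c000c001200100008000000000000000000) := T_1 (nat_lit 178) (nat_lit 161) (nat_lit 4) (nat_lit 8) (nat_lit 10) L284327 (by decide +kernel)
theorem L284329 : W_1 (nat_lit 7) (nat_lit 0x10000f0002000000000000000000000000000) (nat_lit 0x0) (nat_lit 0x4000200001c000c001e00100008000000000000000000) := T_1 (nat_lit 106) (nat_lit 107) (nat_lit 0) (nat_lit 8) (nat_lit 7) L284328 (by decide +kernel)
theorem L284330 : W_1 (nat_lit 8) (nat_lit 0x10000e0002000000000000000000000000000) (nat_lit 0x0) (nat_lit 0x4000200021c001c001e00100008000000000000000000) := T_1 (nat_lit 124) (nat_lit 145) (nat_lit 3) (nat_lit 5) (nat_lit 7) L284329 (by decide +kernel)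
theorem L284331 : W_1 (nat_lit 2) (nat_lit 0x4000000016000f0002800000000000000000000000000) (nat_lit 0x0) (nat_lit 0x100008000000000000000040000000000000000000000) := D_1 (nat_lit 159) (nat_lit 176) (nat_lit 90) (nat_lit 6) (nat_lit 6) (nat_lit 10) (nat_lit 7) (nat_lit 5) (nat_lit 5) (by decide +kernel)
theorem L284332 : W_1 (nat_lit 3) (nat_lit 0x4000000012000f0002800000000000000000000000000) (nat_lit 0x0) (nat_lit 0x100008000400100000000040000000000000000000000) := T_1 (nat_lit 142) (nat_lit 128) (nat_lit 1) (nat_lit 9) (nat_lit 7) L284331 (by decide +kernel)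
theorem L284333 : W_1 (nat_lit 4) (nat_lit 0x4000000012000f0002000000000000000000000000000) (nat_lit 0x0) (nat_lit 0x100008000400100000c00040000000000000000000000) := T_1 (nat_lit 107) (nat_lit 106) (nat_lit 0) (nat_lit 8) (nat_lit 7) L284332 (by decide +kernel)
theorem L284334 : W_1 (nat_lit 5) (nat_lit 0x4000000010000f0002000000000000000000000000000) (nat_lit 0x0) (nat_lit 0x100008000700100000c00040000000000000000000000) := T_1 (nat_lit 141) (nat_lit 140) (nat_lit 1) (nat_lit 8) (nat_lit 7) L284333 (by decide +kernel)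
theorem L284335 : W_1 (nat_lit 6) (nat_lit 0x4000000010000e0002000000000000000000000000000) (nat_lit 0x0) (nat_lit 0x100008002700110000c00040000000000000000000000) := T_1 (nat_lit 124) (nat_lit 145) (nat_lit 3) (nat_lit 5) (nat_lit 7) L284334 (by decide +kernel)
theorem L284336 : W_1 (nat_lit 7) (nat_lit 0x10000e0002000000000000000000000000000) (nat_lit 0x0) (nat_lit 0x500028002700110000c00040000000000000000000000) := T_1 (nat_lit 178) (nat_lit 161) (nat_lit 4) (nat_lit 8) (nat_lit 10) L284335 (by decide +kernel)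
theorem L284337 : W_1 (nat_lit 2) (nat_lit 0x14000e0003400080002000000000000000000) (nat_lit 0x0) (nat_lit 0x4000300000000000000) := D_1 (nat_lit 74) (nat_lit 57) (nat_lit 56) (nat_lit 7) (nat_lit 6) (nat_lit 3) (nat_lit 4) (nat_lit 6) (nat_lit 7) (by decide +kernel)
theorem L284338 : W_1 (nat_lit 3) (nat_lit 0x14000e0003400080000000000000000000000) (nat_lit 0x0) (nat_lit 0x40006000300000000000000) := T_1 (nat_lit 73) (nat_lit 90) (nat_lit 4) (nat_lit 6) (nat_lit 8) L284337 (by decide +kernel)
theorem L284339 : W_1 (nat_lit 4) (nat_lit 0x14000e0003000080000000000000000000000) (nat_lit 0x0) (nat_lit 0xc00040006000300000000000000) := T_1 (nat_lit 106) (nat_lit 107) (nat_lit 3) (nat_lit 4) (nat_lit 6) L284338 (by decide +kernel)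
theorem L284340 : W_1 (nat_lit 2) (nat_lit 0x16800e00030001e0000000000000000000000) (nat_lit 0x0) (nat_lit 0xe00000000000000000000000000) := D_1 (nat_lit 106) (nat_lit 107) (nat_lit 105) (nat_lit 3) (nat_lit 4) (nat_lit 6) (nat_lit 1) (nat_lit 7) (nat_lit 5) (by decide +kernel)
theorem L284341 : W_1 (nat_lit 3) (nat_lit 0x16800e00030001c0000000000000000000000) (nat_lit 0x0) (nat_lit 0xe00030000000000000000000000) := T_1 (nat_lit 89) (nat_lit 88) (nat_lit 3) (nat_lit 3) (nat_lit 5) L284340 (by decide +kernel)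
theorem L284342 : W_1 (nat_lit 4) (nat_lit 0x16800e0003000180000000000000000000000) (nat_lit 0x0) (nat_lit 0xe00070002000000000000000000) := T_1 (nat_lit 90) (nat_lit 73) (nat_lit 4) (nat_lit 6) (nat_lit 8) L284341 (by decide +kernel)
theorem L284343 : W_1 (nat_lit 5) (nat_lit 0x16000e0003000180000000000000000000000) (nat_lit 0x0) (nat_lit 0x180000000e00070002000000000000000000) := T_1 (nat_lit 139) (nat_lit 140) (nat_lit 2) (nat_lit 3) (nat_lit 8) L284342 (by decide +kernel)
theorem L284344 : W_1 (nat_lit 6) (nat_lit 0x14000e0003000180000000000000000000000) (nat_lit 0x0) (nat_lit 0x4000380000000e00070002000000000000000000) := T_1 (nat_lit 141) (nat_lit 158) (nat_lit 5) (nat_lit 6) (nat_lit 5) L284343 (by decide +kernel)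
theorem L284345 : W_1 (nat_lit 7) (nat_lit 0x14000e0003000080000000000000000000000) (nat_lit 0x0) (nat_lit 0x4000380000000e0017000a000000000000000000) := T_1 (nat_lit 92) (nat_lit 75) (nat_lit 7) (nat_lit 7) (nat_lit 4) L284344 (by decide +kernel)
theorem L284346 : W_1 (nat_lit 8) (nat_lit 0x14000e0003000000000000000000000000000) (nat_lit 0x0) (nat_lit 0x4000380000000e001f000e000700000000000000) := Q_1 (nat_lit 91) (C_1 L284246 (C_1 L284339 (C_1 L284345 N_1))) (by decide +kernel)
theorem L284347 : W_1 (nat_lit 9) (nat_lit 0x10000e0003000000000000000000000000000) (nat_lit 0x0) (nat_lit 0x18000c000780000000e001f000e000700000000000000) := Q_1 (nat_lit 142) (C_1 L284244 (C_1 L284258 (C_1 L284346 N_1))) (by decide +kernel)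
theorem L284348 : W_1 (nat_lit 10) (nat_lit 0x10000e0002000000000000000000000000000) (nat_lit 0x0) (nat_lit 0x18000c000780300001e001f000e000700000000000000) := Q_1 (nat_lit 108) (C_1 L284291 (C_1 L284347 (C_1 L284283 N_1))) (by decide +kernel)
theorem L284349 : W_1 (nat_lit 2) (nat_lit 0x4000000092003f0022000000008000000000000000000) (nat_lit 0x0) (nat_lit 0x10000400040000000000000000000000000000) := D_1 (nat_lit 130) (nat_lit 114) (nat_lit 148) (nat_lit 2) (nat_lit 8) (nat_lit 7) (nat_lit 3) (nat_lit 8) (nat_lit 7) (by decide +kernel)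
theorem L284350 : W_1 (nat_lit 3) (nat_lit 0x4000000012003f0022000000008000000000000000000) (nat_lit 0x0) (nat_lit 0x1c000400040000000000000000000000000000) := T_1 (nat_lit 147) (nat_lit 146) (nat_lit 3) (nat_lit 7) (nat_lit 7) L284349 (by decide +kernel)
theorem L284351 : W_1 (nat_lit 4) (nat_lit 0x4000000012003f0002000000008000000000000000000) (nat_lit 0x0) (nat_lit 0x1c000400070000000000000000000000000000) := T_1 (nat_lit 113) (nat_lit 112) (nat_lit 2) (nat_lit 7) (nat_lit 7) L284350 (by decide +kernel)
theorem L284352 : W_1 (nat_lit 5) (nat_lit 0x4000000012001f0002000000008000000000000000000) (nat_lit 0x0) (nat_lit 0x1c000600071000000000000000000000000000) := T_1 (nat_lit 129) (nat_lit 108) (nat_lit 0) (nat_lit 10) (nat_lit 7) L284351 (by decide +kernel)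
theorem L284353 : W_1 (nat_lit 6) (nat_lit 0x4000000012000f0002000000008000000000000000000) (nat_lit 0x0) (nat_lit 0x1c400700071000000000000000000000000000) := T_1 (nat_lit 128) (nat_lit 142) (nat_lit 1) (nat_lit 9) (nat_lit 7) L284352 (by decide +kernel)
theorem L284354 : W_1 (nat_lit 7) (nat_lit 0x12000f0002000000008000000000000000000) (nat_lit 0x0) (nat_lit 0x40002001c400700071000000000000000000000000000) := T_1 (nat_lit 178) (nat_lit 161) (nat_lit 4) (nat_lit 8) (nat_lit 10) L284353 (by decide +kernel)
theorem L284355 : W_1 (nat_lit 8) (nat_lit 0x10000f0002000000008000000000000000000) (nat_lit 0x0) (nat_lit 0x40002001c700700071000000000000000000000000000) := T_1 (nat_lit 141) (nat_lit 140) (nat_lit 1) (nat_lit 8) (nat_lit 7) L284354 (by decide +kernel)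
theorem L284356 : W_1 (nat_lit 9) (nat_lit 0x10000e0002000000008000000000000000000) (nat_lit 0x0) (nat_lit 0x40002001e700710071000000000000000000000000000) := T_1 (nat_lit 124) (nat_lit 145) (nat_lit 3) (nat_lit 5) (nat_lit 7) L284355 (by decide +kernel)
theorem L284357 : W_1 (nat_lit 10) (nat_lit 0x10000e0002000000000000000000000000000) (nat_lit 0x0) (nat_lit 0x40002001e700710071000100008000000000000000000) := T_1 (nat_lit 75) (nat_lit 92) (nat_lit 7) (nat_lit 7) (nat_lit 4) L284356 (by decide +kernel)
theorem L284358 : W_1 (nat_lit 2) (nat_lit 0x4000000030000e0002000000008000000000000000000) (nat_lit 0x0) (nat_lit 0xc000100000000000000000000000000000000) := D_1 (nat_lit 146) (nat_lit 147) (nat_lit 128) (nat_lit 0) (nat_lit 11) (nat_lit 8) (nat_lit 3) (nat_lit 6) (nat_lit 7) (by decide +kernel)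
theorem L284359 : W_1 (nat_lit 3) (nat_lit 0x4000000010000e0002000000008000000000000000000) (nat_lit 0x0) (nat_lit 0xe000110000000000000000000000000000000) := T_1 (nat_lit 145) (nat_lit 124) (nat_lit 3) (nat_lit 5) (nat_lit 7) L284358 (by decide +kernel)
theorem L284360 : W_1 (nat_lit 4) (nat_lit 0x4000000010000e0002000000000000000000000000000) (nat_lit 0x0) (nat_lit 0xe000110000000100008000000000000000000) := T_1 (nat_lit 75) (nat_lit 92) (nat_lit 7) (nat_lit 7) (nat_lit 4) L284359 (by decide +kernel)
theorem L284361 : W_1 (nat_lit 5) (nat_lit 0x10000e0002000000000000000000000000000) (nat_lit 0x0) (nat_lit 0x40002000e000110000000100008000000000000000000) := T_1 (nat_lit 178) (nat_lit 161) (nat_lit 4) (nat_lit 8) (nat_lit 10) L284360 (by decide +kernel)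
theorem L284362 : W_1 (nat_lit 12) (nat_lit 0x10000c0002000000000000000000000000000) (nat_lit 0x0) (nat_lit 0x58002c01e7e073e071e001f000e000700000000000000) := Q_1 (nat_lit 125) (C_1 L284290 (C_1 L284307 (C_1 L284314 (C_1 L284323 (C_1 L284330 (C_1 L284336 (C_1 L284348 (C_1 L284357 (C_1 L284361 N_1))))))))) (by decide +kernel)
theorem L284366 : W_1 (nat_lit 2) (nat_lit 0x4000000010000c0003800000000000000000000000000) (nat_lit 0x0) (nat_lit 0x120004000000000000000000000000000) := D_1 (nat_lit 128) (nat_lit 125) (nat_lit 110) (nat_lit 0) (nat_lit 9) (nat_lit 7) (nat_lit 3) (nat_lit 5) (nat_lit 6) (by decide +kernel)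
theorem L284367 : W_1 (nat_lit 3) (nat_lit 0x4000000010000c0003000000000000000000000000000) (nat_lit 0x0) (nat_lit 0x120004c00000000000000000000000000) := T_1 (nat_lit 107) (nat_lit 106) (nat_lit 3) (nat_lit 4) (nat_lit 6) L284366 (by decide +kernel)
theorem L284368 : W_1 (nat_lit 4) (nat_lit 0x10000c0003000000000000000000000000000) (nat_lit 0x0) (nat_lit 0x400020000000120004c00000000000000000000000000) := T_1 (nat_lit 178) (nat_lit 161) (nat_lit 4) (nat_lit 8) (nat_lit 10) L284367 (by decide +kernel)
theorem L284369 : W_1 (nat_lit 3) (nat_lit 0x10000f0003000000000000000000000000000) (nat_lit 0x0) (nat_lit 0xc000e00000000000000000000000000) := T_1 (nat_lit 106) (nat_lit 107) (nat_lit 3) (nat_lit 4) (nat_lit 6) L284241 (by decide +kernel)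
theorem L284370 : W_1 (nat_lit 2) (nat_lit 0x4000040012000f0003400000000000000000000000000) (nat_lit 0x0) (nat_lit 0x400000000000080004000000000000000000) := D_1 (nat_lit 91) (nat_lit 74) (nat_lit 142) (nat_lit 5) (nat_lit 6) (nat_lit 4) (nat_lit 5) (nat_lit 6) (nat_lit 5) (by decide +kernel)
theorem L284371 : W_1 (nat_lit 3) (nat_lit 0x4000000012000f0003400000000000000000000000000) (nat_lit 0x0) (nat_lit 0x80004000400000000000080004000000000000000000) := T_1 (nat_lit 158) (nat_lit 175) (nat_lit 6) (nat_lit 5) (nat_lit 10) L284370 (by decide +kernel)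
theorem L284372 : W_1 (nat_lit 4) (nat_lit 0x12000f0003400000000000000000000000000) (nat_lit 0x0) (nat_lit 0x480024000400000000000080004000000000000000000) := T_1 (nat_lit 178) (nat_lit 161) (nat_lit 4) (nat_lit 8) (nat_lit 10) L284371 (by decide +kernel)
theorem L284373 : W_1 (nat_lit 5) (nat_lit 0x10000f0003400000000000000000000000000) (nat_lit 0x0) (nat_lit 0x480024000700000000000080004000000000000000000) := T_1 (nat_lit 141) (nat_lit 140) (nat_lit 1) (nat_lit 8) (nat_lit 7) L284372 (by decide +kernel)
theorem L284374 : W_1 (nat_lit 6) (nat_lit 0x10000f0003000000000000000000000000000) (nat_lit 0x0) (nat_lit 0x480024000700000000c00080004000000000000000000) := T_1 (nat_lit 106) (nat_lit 107) (nat_lit 3) (nat_lit 4) (nat_lit 6) L284373 (by decide +kernel)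
theorem L284527 : W_1 (nat_lit 9) (nat_lit 0x200010000c0002000000000000000000000000000) (nat_lit 0x0) (nat_lit 0x10003c001c00e780738004c00140000000000000000000000) := T_1 (nat_lit 110) (nat_lit 92) (nat_lit 4) (nat_lit 8) (nat_lit 9) L105034 (by decide +kernel)
theorem L284528 : W_1 (nat_lit 10) (nat_lit 0x10000c0002000000000000000000000000000) (nat_lit 0x0) (nat_lit 0x10007c003c00e780738004c00140000000000000000000000) := T_1 (nat_lit 161) (nat_lit 178) (nat_lit 4) (nat_lit 8) (nat_lit 10) L284527 (by decide +kernel)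
theorem L284583 : W_1 (nat_lit 2) (nat_lit 0x34001e0003000000000000000000000000000) (nat_lit 0x0) (nat_lit 0x8000000000000000100008000000000000000000) := D_1 (nat_lit 92) (nat_lit 75) (nat_lit 159) (nat_lit 7) (nat_lit 7) (nat_lit 4) (nat_lit 6) (nat_lit 6) (nat_lit 9) (by decide +kernel)
theorem L284584 : W_1 (nat_lit 3) (nat_lit 0x34001e0001000000000000000000000000000) (nat_lit 0x0) (nat_lit 0x8000000200002000100008000000000000000000) := T_1 (nat_lit 109) (nat_lit 129) (nat_lit 0) (nat_lit 10) (nat_lit 7) L284583 (by decide +kernel)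
theorem L284585 : W_1 (nat_lit 4) (nat_lit 0x34001e0000000000000000000000000000000) (nat_lit 0x0) (nat_lit 0x8000000200003800100008000000000000000000) := T_1 (nat_lit 108) (nat_lit 107) (nat_lit 0) (nat_lit 9) (nat_lit 7) L284584 (by decide +kernel)
theorem L284586 : W_1 (nat_lit 5) (nat_lit 0x30001e0000000000000000000000000000000) (nat_lit 0x0) (nat_lit 0x8000600200003800100008000000000000000000) := T_1 (nat_lit 142) (nat_lit 141) (nat_lit 1) (nat_lit 9) (nat_lit 7) L284585 (by decide +kernel)
theorem L284587 : W_1 (nat_lit 6) (nat_lit 0x10001e0000000000000000000000000000000) (nat_lit 0x0) (nat_lit 0x8006600200003800100008000000000000000000) := T_1 (nat_lit 145) (nat_lit 146) (nat_lit 3) (nat_lit 6) (nat_lit 7) L284586 (by decide +kernel)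
theorem L284591 : W_1 (nat_lit 6) (nat_lit 0x10000c0007800000008000000000000000000) (nat_lit 0x0) (nat_lit 0x2000180080006e0004000200000000000000) := T_1 (nat_lit 93) (nat_lit 94) (nat_lit 2) (nat_lit 5) (nat_lit 6) L67544 (by decide +kernel)
theorem L284592 : W_1 (nat_lit 7) (nat_lit 0x10000c0007000000008000000000000000000) (nat_lit 0x0) (nat_lit 0x200018008c006e0004000200000000000000) := T_1 (nat_lit 107) (nat_lit 106) (nat_lit 3) (nat_lit 4) (nat_lit 6) L284591 (by decide +kernel)
theorem L284593 : W_1 (nat_lit 8) (nat_lit 0x10000c0007000000000000000000000000000) (nat_lit 0x0) (nat_lit 0x200018008c007e000c000200000000000000) := T_1 (nat_lit 75) (nat_lit 92) (nat_lit 7) (nat_lit 7) (nat_lit 4) L284592 (by decide +kernel)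
theorem L284594 : W_1 (nat_lit 2) (nat_lit 0x10000d0007800040008000000000000000000) (nat_lit 0x0) (nat_lit 0x20008000080000000000000000000000) := D_1 (nat_lit 111) (nat_lit 91) (nat_lit 125) (nat_lit 0) (nat_lit 9) (nat_lit 6) (nat_lit 2) (nat_lit 5) (nat_lit 7) (by decide +kernel)
theorem L284595 : W_1 (nat_lit 3) (nat_lit 0x10000c0007800040008000000000000000000) (nat_lit 0x0) (nat_lit 0x38008000080000000000000000000000) := T_1 (nat_lit 124) (nat_lit 123) (nat_lit 1) (nat_lit 8) (nat_lit 6) L284594 (by decide +kernel)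
theorem L284596 : W_1 (nat_lit 4) (nat_lit 0x10000c0007800000008000000000000000000) (nat_lit 0x0) (nat_lit 0x380080000e0000000000000000000000) := T_1 (nat_lit 90) (nat_lit 89) (nat_lit 0) (nat_lit 8) (nat_lit 6) L284595 (by decide +kernel)
theorem L284597 : W_1 (nat_lit 5) (nat_lit 0x10000c0007800000000000000000000000000) (nat_lit 0x0) (nat_lit 0x380080001e0008000000000000000000) := T_1 (nat_lit 75) (nat_lit 92) (nat_lit 7) (nat_lit 7) (nat_lit 4) L284596 (by decide +kernel)
theorem L284598 : W_1 (nat_lit 6) (nat_lit 0x10000c0007000000000000000000000000000) (nat_lit 0x0) (nat_lit 0x38008c001e0008000000000000000000) := T_1 (nat_lit 107) (nat_lit 106) (nat_lit 3) (nat_lit 4) (nat_lit 6) L284597 (by decide +kernel)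
theorem L284599 : W_1 (nat_lit 2) (nat_lit 0x10000c0007800200008000000000000000000) (nat_lit 0x0) (nat_lit 0x10000c00000000000000) := D_1 (nat_lit 76) (nat_lit 58) (nat_lit 59) (nat_lit 4) (nat_lit 8) (nat_lit 7) (nat_lit 5) (nat_lit 8) (nat_lit 3) (by decide +kernel)
theorem L284600 : W_1 (nat_lit 3) (nat_lit 0x10000c0007800000008000000000000000000) (nat_lit 0x0) (nat_lit 0x600010000c00000000000000) := T_1 (nat_lit 93) (nat_lit 94) (nat_lit 2) (nat_lit 5) (nat_lit 6) L284599 (by decide +kernel)
theorem L284601 : W_1 (nat_lit 4) (nat_lit 0x10000c0007000000008000000000000000000) (nat_lit 0x0) (nat_lit 0xc00600010000c00000000000000) := T_1 (nat_lit 107) (nat_lit 106) (nat_lit 3) (nat_lit 4) (nat_lit 6) L284600 (by decide +kernel)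
theorem L284602 : W_1 (nat_lit 5) (nat_lit 0x10000c0007000000000000000000000000000) (nat_lit 0x0) (nat_lit 0xc00700018000c00000000000000) := T_1 (nat_lit 75) (nat_lit 92) (nat_lit 7) (nat_lit 7) (nat_lit 4) L284601 (by decide +kernel)
theorem L284603 : W_1 (nat_lit 2) (nat_lit 0x12000f0007800200000000800000000000000) (nat_lit 0x0) (nat_lit 0x4000000000000000080004000000000000000000) := D_1 (nat_lit 91) (nat_lit 74) (nat_lit 158) (nat_lit 5) (nat_lit 6) (nat_lit 4) (nat_lit 6) (nat_lit 5) (nat_lit 9) (by decide +kernel)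
theorem L284604 : W_1 (nat_lit 3) (nat_lit 0x10000f0007800200000000800000000000000) (nat_lit 0x0) (nat_lit 0x4000300000000000080004000000000000000000) := T_1 (nat_lit 141) (nat_lit 140) (nat_lit 1) (nat_lit 8) (nat_lit 7) L284603 (by decide +kernel)
theorem L284605 : W_1 (nat_lit 4) (nat_lit 0x10000d0007800200000000800000000000000) (nat_lit 0x0) (nat_lit 0x4000300020008000080004000000000000000000) := T_1 (nat_lit 125) (nat_lit 111) (nat_lit 2) (nat_lit 5) (nat_lit 7) L284604 (by decide +kernel)
theorem L284606 : W_1 (nat_lit 5) (nat_lit 0x10000d0007800200000000000000000000000) (nat_lit 0x0) (nat_lit 0x4000300020008000080014000800000000000000) := T_1 (nat_lit 59) (nat_lit 76) (nat_lit 5) (nat_lit 8) (nat_lit 3) L284605 (by decide +kernel)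
theorem L284607 : W_1 (nat_lit 6) (nat_lit 0x10000c0007800200000000000000000000000) (nat_lit 0x0) (nat_lit 0x4000300038008000080014000800000000000000) := T_1 (nat_lit 124) (nat_lit 123) (nat_lit 1) (nat_lit 8) (nat_lit 6) L284606 (by decide +kernel)
theorem L284608 : W_1 (nat_lit 7) (nat_lit 0x10000c0007800000000000000000000000000) (nat_lit 0x0) (nat_lit 0x4000300038008000680014000800000000000000) := T_1 (nat_lit 93) (nat_lit 94) (nat_lit 2) (nat_lit 5) (nat_lit 6) L284607 (by decide +kernel)
theorem L284609 : W_1 (nat_lit 8) (nat_lit 0x10000c0007000000000000000000000000000) (nat_lit 0x0) (nat_lit 0x4000300038008c00680014000800000000000000) := T_1 (nat_lit 107) (nat_lit 106) (nat_lit 3) (nat_lit 4) (nat_lit 6) L284608 (by decide +kernel)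
theorem L284610 : W_1 (nat_lit 2) (nat_lit 0x10000c000f000000000000000000000000000) (nat_lit 0x0) (nat_lit 0x30010000000000000000000000000000) := D_1 (nat_lit 125) (nat_lit 124) (nat_lit 112) (nat_lit 2) (nat_lit 5) (nat_lit 7) (nat_lit 1) (nat_lit 10) (nat_lit 6) (by decide +kernel)
theorem L284611 : W_1 (nat_lit 2) (nat_lit 0x10000c000f000400008000000000000000000) (nat_lit 0x0) (nat_lit 0x200020001000000000000000) := D_1 (nat_lit 77) (nat_lit 60) (nat_lit 93) (nat_lit 5) (nat_lit 9) (nat_lit 3) (nat_lit 6) (nat_lit 8) (nat_lit 8) (by decide +kernel)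
theorem L284612 : W_1 (nat_lit 3) (nat_lit 0x10000c000f000000008000000000000000000) (nat_lit 0x0) (nat_lit 0xe00020001000000000000000) := T_1 (nat_lit 94) (nat_lit 95) (nat_lit 2) (nat_lit 6) (nat_lit 6) L284611 (by decide +kernel)
theorem L284613 : W_1 (nat_lit 4) (nat_lit 0x10000c000f000000000000000000000000000) (nat_lit 0x0) (nat_lit 0xf00028001000000000000000) := T_1 (nat_lit 75) (nat_lit 92) (nat_lit 7) (nat_lit 7) (nat_lit 4) L284612 (by decide +kernel)
theorem L284614 : W_1 (nat_lit 5) (nat_lit 0x10000c0007000000000000000000000000000) (nat_lit 0x0) (nat_lit 0x30018000f00028001000000000000000) := Q_1 (nat_lit 111) (C_1 L284610 (C_1 L284613 N_1)) (by decide +kernel)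
theorem L284615 : W_1 (nat_lit 9) (nat_lit 0x10000c0003000000000000000000000000000) (nat_lit 0x0) (nat_lit 0x400030003801cc00fe003c001e00000000000000) := Q_1 (nat_lit 110) (C_1 L284593 (C_1 L284598 (C_1 L284602 (C_1 L284609 (C_1 L284614 N_1))))) (by decide +kernel)
theorem L284627 : W_1 (nat_lit 2) (nat_lit 0x10000c0007000200008000000000000000000) (nat_lit 0x0) (nat_lit 0x10000c00000000000000) := D_1 (nat_lit 76) (nat_lit 59) (nat_lit 58) (nat_lit 5) (nat_lit 8) (nat_lit 3) (nat_lit 4) (nat_lit 8) (nat_lit 7) (by decide +kernel)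
theorem L284628 : W_1 (nat_lit 3) (nat_lit 0x10000c0007000200000000000000000000000) (nat_lit 0x0) (nat_lit 0x100018000c00000000000000) := T_1 (nat_lit 75) (nat_lit 92) (nat_lit 7) (nat_lit 7) (nat_lit 4) L284627 (by decide +kernel)
theorem L284629 : W_1 (nat_lit 2) (nat_lit 0x10000c0007000600000000000000000000000) (nat_lit 0x0) (nat_lit 0x1900000000000000000000000) := D_1 (nat_lit 95) (nat_lit 96) (nat_lit 92) (nat_lit 1) (nat_lit 11) (nat_lit 5) (nat_lit 1) (nat_lit 10) (nat_lit 5) (by decide +kernel)
theorem L284630 : W_1 (nat_lit 3) (nat_lit 0x10000c0007000200000000000000000000000) (nat_lit 0x0) (nat_lit 0x1d00020000000000000000000) := T_1 (nat_lit 94) (nat_lit 77) (nat_lit 6) (nat_lit 8) (nat_lit 8) L284629 (by decide +kernel)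
theorem L284631 : W_1 (nat_lit 4) (nat_lit 0x10000c0007000000000000000000000000000) (nat_lit 0x0) (nat_lit 0x1f00038001c00000000000000) := Q_1 (nat_lit 93) (C_1 L132869 (C_1 L284628 (C_1 L284630 N_1))) (by decide +kernel)
theorem L284632 : W_1 (nat_lit 2) (nat_lit 0x10002c000f000000000000000000000000000) (nat_lit 0x0) (nat_lit 0x400030000000000000000000000000000) := D_1 (nat_lit 112) (nat_lit 113) (nat_lit 130) (nat_lit 1) (nat_lit 11) (nat_lit 6) (nat_lit 3) (nat_lit 7) (nat_lit 6) (by decide +kernel)
theorem L284633 : W_1 (nat_lit 3) (nat_lit 0x10000c000f000000000000000000000000000) (nat_lit 0x0) (nat_lit 0x700030000000000000000000000000000) := T_1 (nat_lit 129) (nat_lit 128) (nat_lit 3) (nat_lit 6) (nat_lit 6) L284632 (by decide +kernel)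
theorem L284634 : W_1 (nat_lit 2) (nat_lit 0x10002d000f000400000000000000000000000) (nat_lit 0x0) (nat_lit 0x200020001000000000000000) := D_1 (nat_lit 77) (nat_lit 60) (nat_lit 93) (nat_lit 5) (nat_lit 9) (nat_lit 3) (nat_lit 6) (nat_lit 8) (nat_lit 8) (by decide +kernel)
theorem L284635 : W_1 (nat_lit 3) (nat_lit 0x10002d000f000000000000000000000000000) (nat_lit 0x0) (nat_lit 0xe00020001000000000000000) := T_1 (nat_lit 94) (nat_lit 95) (nat_lit 2) (nat_lit 6) (nat_lit 6) L284634 (by decide +kernel)
theorem L284636 : W_1 (nat_lit 4) (nat_lit 0x10000d000f000000000000000000000000000) (nat_lit 0x0) (nat_lit 0x300000000e00020001000000000000000) := T_1 (nat_lit 129) (nat_lit 128) (nat_lit 3) (nat_lit 6) (nat_lit 6) L284635 (by decide +kernel)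
theorem L284637 : W_1 (nat_lit 5) (nat_lit 0x10000c000f000000000000000000000000000) (nat_lit 0x0) (nat_lit 0x330000000e00020001000000000000000) := T_1 (nat_lit 124) (nat_lit 125) (nat_lit 2) (nat_lit 5) (nat_lit 7) L284636 (by decide +kernel)
theorem L284638 : W_1 (nat_lit 6) (nat_lit 0x10000c0007000000000000000000000000000) (nat_lit 0x0) (nat_lit 0x730038000e00020001000000000000000) := Q_1 (nat_lit 111) (C_1 L284610 (C_1 L284633 (C_1 L284637 N_1))) (by decide +kernel)
theorem L284647 : W_1 (nat_lit 2) (nat_lit 0x10002e000f000080004000000000000000000) (nat_lit 0x0) (nat_lit 0x100008000400000000000000) := D_1 (nat_lit 75) (nat_lit 92) (nat_lit 58) (nat_lit 7) (nat_lit 7) (nat_lit 4) (nat_lit 6) (nat_lit 6) (nat_lit 7) (by decide +kernel)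
theorem L284648 : W_1 (nat_lit 3) (nat_lit 0x10002c000f000080004000000000000000000) (nat_lit 0x0) (nat_lit 0x30000000100008000400000000000000) := T_1 (nat_lit 125) (nat_lit 124) (nat_lit 2) (nat_lit 5) (nat_lit 7) L284647 (by decide +kernel)
theorem L284649 : W_1 (nat_lit 4) (nat_lit 0x10002c000f000080000000000000000000000) (nat_lit 0x0) (nat_lit 0x3000000010000c000600000000000000) := T_1 (nat_lit 74) (nat_lit 57) (nat_lit 7) (nat_lit 6) (nat_lit 3) L284648 (by decide +kernel)
theorem L284650 : W_1 (nat_lit 5) (nat_lit 0x10000c000f000080000000000000000000000) (nat_lit 0x0) (nat_lit 0x33000000010000c000600000000000000) := T_1 (nat_lit 129) (nat_lit 128) (nat_lit 3) (nat_lit 6) (nat_lit 6) L284649 (by decide +kernel)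
theorem L284651 : W_1 (nat_lit 6) (nat_lit 0x10000c000f000000000000000000000000000) (nat_lit 0x0) (nat_lit 0x3300000001c000c000600000000000000) := T_1 (nat_lit 91) (nat_lit 90) (nat_lit 0) (nat_lit 9) (nat_lit 6) L284650 (by decide +kernel)
theorem L284652 : W_1 (nat_lit 7) (nat_lit 0x10000c0007000000000000000000000000000) (nat_lit 0x0) (nat_lit 0x7300380001c000c000600000000000000) := Q_1 (nat_lit 111) (C_1 L284633 (C_1 L284610 (C_1 L284651 N_1))) (by decide +kernel)
theorem L285891 : W_1 (nat_lit 2) (nat_lit 0x4000000090003c0022000000008000000000000000000) (nat_lit 0x0) (nat_lit 0x10000400040000000000000000000000000000) := D_1 (nat_lit 130) (nat_lit 148) (nat_lit 114) (nat_lit 3) (nat_lit 8) (nat_lit 7) (nat_lit 2) (nat_lit 8) (nat_lit 7) (by decide +kernel)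
theorem L285892 : W_1 (nat_lit 3) (nat_lit 0x4000000090003c0002000000008000000000000000000) (nat_lit 0x0) (nat_lit 0x10000400070000000000000000000000000000) := T_1 (nat_lit 113) (nat_lit 112) (nat_lit 2) (nat_lit 7) (nat_lit 7) L285891 (by decide +kernel)
theorem L285893 : W_1 (nat_lit 4) (nat_lit 0x4000000010003c0002000000008000000000000000000) (nat_lit 0x0) (nat_lit 0x1c000400070000000000000000000000000000) := T_1 (nat_lit 147) (nat_lit 146) (nat_lit 3) (nat_lit 7) (nat_lit 7) L285892 (by decide +kernel)
theorem L285894 : W_1 (nat_lit 5) (nat_lit 0x4000000010003c0002000000000000000000000000000) (nat_lit 0x0) (nat_lit 0x1c000400070000100008000000000000000000) := T_1 (nat_lit 75) (nat_lit 92) (nat_lit 7) (nat_lit 7) (nat_lit 4) L285893 (by decide +kernel)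
theorem L285895 : W_1 (nat_lit 6) (nat_lit 0x4000000010001c0002000000000000000000000000000) (nat_lit 0x0) (nat_lit 0x1c000600071000100008000000000000000000) := T_1 (nat_lit 129) (nat_lit 108) (nat_lit 0) (nat_lit 10) (nat_lit 7) L285894 (by decide +kernel)
theorem L285896 : W_1 (nat_lit 7) (nat_lit 0x10001c0002000000000000000000000000000) (nat_lit 0x0) (nat_lit 0x40002001c000600071000100008000000000000000000) := T_1 (nat_lit 178) (nat_lit 161) (nat_lit 4) (nat_lit 8) (nat_lit 10) L285895 (by decide +kernel)
theorem L285897 : W_1 (nat_lit 2) (nat_lit 0x50003c001a000000008000000000000000000) (nat_lit 0x0) (nat_lit 0x80000000000000000400020000000000000000000) := D_1 (nat_lit 94) (nat_lit 77) (nat_lit 163) (nat_lit 7) (nat_lit 9) (nat_lit 4) (nat_lit 4) (nat_lit 10) (nat_lit 9) (by decide +kernel)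
theorem L285898 : W_1 (nat_lit 3) (nat_lit 0x10003c001a000000008000000000000000000) (nat_lit 0x0) (nat_lit 0x8000c000000000000400020000000000000000000) := T_1 (nat_lit 146) (nat_lit 147) (nat_lit 3) (nat_lit 7) (nat_lit 7) L285897 (by decide +kernel)
theorem L285899 : W_1 (nat_lit 4) (nat_lit 0x10003c0012000000008000000000000000000) (nat_lit 0x0) (nat_lit 0x8000c000020008000400020000000000000000000) := T_1 (nat_lit 111) (nat_lit 125) (nat_lit 2) (nat_lit 6) (nat_lit 7) L285898 (by decide +kernel)
theorem L285900 : W_1 (nat_lit 5) (nat_lit 0x10003c0002000000008000000000000000000) (nat_lit 0x0) (nat_lit 0x8000c000020038000400020000000000000000000) := T_1 (nat_lit 112) (nat_lit 113) (nat_lit 2) (nat_lit 7) (nat_lit 7) L285899 (by decide +kernel)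
theorem L285901 : W_1 (nat_lit 6) (nat_lit 0x10001c0002000000008000000000000000000) (nat_lit 0x0) (nat_lit 0x8000c000220039000400020000000000000000000) := T_1 (nat_lit 129) (nat_lit 108) (nat_lit 0) (nat_lit 10) (nat_lit 7) L285900 (by decide +kernel)
theorem L285902 : W_1 (nat_lit 7) (nat_lit 0x10001c0002000000000000000000000000000) (nat_lit 0x0) (nat_lit 0x8000c000220039000500028000000000000000000) := T_1 (nat_lit 75) (nat_lit 92) (nat_lit 7) (nat_lit 7) (nat_lit 4) L285901 (by decide +kernel)
theorem L285903 : W_1 (nat_lit 2) (nat_lit 0x4000000012001e0002800000000000000000000000000) (nat_lit 0x0) (nat_lit 0x100010000400000000000000000000000000) := D_1 (nat_lit 124) (nat_lit 140) (nat_lit 106) (nat_lit 1) (nat_lit 8) (nat_lit 7) (nat_lit 0) (nat_lit 8) (nat_lit 7) (by decide +kernel)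
theorem L285904 : W_1 (nat_lit 3) (nat_lit 0x4000000012001e0002000000000000000000000000000) (nat_lit 0x0) (nat_lit 0x100010001c00000000000000000000000000) := T_1 (nat_lit 107) (nat_lit 108) (nat_lit 0) (nat_lit 9) (nat_lit 7) L285903 (by decide +kernel)
theorem L285905 : W_1 (nat_lit 4) (nat_lit 0x4000000010001e0002000000000000000000000000000) (nat_lit 0x0) (nat_lit 0x700010001c00000000000000000000000000) := T_1 (nat_lit 141) (nat_lit 142) (nat_lit 1) (nat_lit 9) (nat_lit 7) L285904 (by decide +kernel)
theorem L285906 : W_1 (nat_lit 5) (nat_lit 0x10001e0002000000000000000000000000000) (nat_lit 0x0) (nat_lit 0x400020000700010001c00000000000000000000000000) := T_1 (nat_lit 178) (nat_lit 161) (nat_lit 4) (nat_lit 8) (nat_lit 10) L285905 (by decide +kernel)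
theorem L285907 : W_1 (nat_lit 3) (nat_lit 0x10001e0003000000000000000000000000000) (nat_lit 0x0) (nat_lit 0x8000600000000000100008000000000000000000) := T_1 (nat_lit 92) (nat_lit 75) (nat_lit 7) (nat_lit 7) (nat_lit 4) L284281 (by decide +kernel)
theorem L285908 : W_1 (nat_lit 4) (nat_lit 0x10001e0002000000000000000000000000000) (nat_lit 0x0) (nat_lit 0x8000600000001800100008000000000000000000) := T_1 (nat_lit 108) (nat_lit 107) (nat_lit 0) (nat_lit 9) (nat_lit 7) L285907 (by decide +kernel)
theorem L285909 : W_1 (nat_lit 2) (nat_lit 0x10001f0002000000000000000000000000000) (nat_lit 0x0) (nat_lit 0x1c00000000000000000000000000) := D_1 (nat_lit 107) (nat_lit 108) (nat_lit 106) (nat_lit 0) (nat_lit 9) (nat_lit 7) (nat_lit 0) (nat_lit 8) (nat_lit 7) (by decide +kernel)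
theorem L285910 : W_1 (nat_lit 2) (nat_lit 0x11001f0002400000008000000000000000000) (nat_lit 0x0) (nat_lit 0x80008000200000000000000000000000000) := D_1 (nat_lit 123) (nat_lit 105) (nat_lit 139) (nat_lit 0) (nat_lit 7) (nat_lit 7) (nat_lit 1) (nat_lit 7) (nat_lit 7) (by decide +kernel)
theorem L285911 : W_1 (nat_lit 3) (nat_lit 0x10001f0002400000008000000000000000000) (nat_lit 0x0) (nat_lit 0x380008000200000000000000000000000000) := T_1 (nat_lit 140) (nat_lit 141) (nat_lit 1) (nat_lit 8) (nat_lit 7) L285910 (by decide +kernel)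
theorem L285912 : W_1 (nat_lit 4) (nat_lit 0x10001f0002000000008000000000000000000) (nat_lit 0x0) (nat_lit 0x380008000e00000000000000000000000000) := T_1 (nat_lit 106) (nat_lit 107) (nat_lit 0) (nat_lit 8) (nat_lit 7) L285911 (by decide +kernel)
theorem L285913 : W_1 (nat_lit 5) (nat_lit 0x10001f0002000000000000000000000000000) (nat_lit 0x0) (nat_lit 0x380008000e00100008000000000000000000) := T_1 (nat_lit 75) (nat_lit 92) (nat_lit 7) (nat_lit 7) (nat_lit 4) L285912 (by decide +kernel)
theorem L285914 : W_1 (nat_lit 2) (nat_lit 0x11001f8002200000008000000000000000000) (nat_lit 0x0) (nat_lit 0x4001100000000000000000000000000) := D_1 (nat_lit 122) (nat_lit 108) (nat_lit 104) (nat_lit 2) (nat_lit 3) (nat_lit 7) (nat_lit 0) (nat_lit 6) (nat_lit 7) (by decide +kernel)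
theorem L285915 : W_1 (nat_lit 3) (nat_lit 0x11001f8002000000008000000000000000000) (nat_lit 0x0) (nat_lit 0x4001700000000000000000000000000) := T_1 (nat_lit 105) (nat_lit 106) (nat_lit 0) (nat_lit 7) (nat_lit 7) L285914 (by decide +kernel)
theorem L285916 : W_1 (nat_lit 4) (nat_lit 0x11001f0002000000008000000000000000000) (nat_lit 0x0) (nat_lit 0x8000c001700000000000000000000000000) := T_1 (nat_lit 123) (nat_lit 139) (nat_lit 1) (nat_lit 7) (nat_lit 7) L285915 (by decide +kernel)
theorem L285917 : W_1 (nat_lit 5) (nat_lit 0x11001f0002000000000000000000000000000) (nat_lit 0x0) (nat_lit 0x8000c001700100008000000000000000000) := T_1 (nat_lit 75) (nat_lit 92) (nat_lit 7) (nat_lit 7) (nat_lit 4) L285916 (by decide +kernel)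
theorem L285918 : W_1 (nat_lit 6) (nat_lit 0x10001f0002000000000000000000000000000) (nat_lit 0x0) (nat_lit 0x38000c001700100008000000000000000000) := T_1 (nat_lit 140) (nat_lit 141) (nat_lit 1) (nat_lit 8) (nat_lit 7) L285917 (by decide +kernel)
theorem L285919 : W_1 (nat_lit 2) (nat_lit 0x11001f0003000000008000000000000000000) (nat_lit 0x0) (nat_lit 0x8000c000000000000000000000000000000) := D_1 (nat_lit 123) (nat_lit 122) (nat_lit 139) (nat_lit 2) (nat_lit 3) (nat_lit 7) (nat_lit 1) (nat_lit 7) (nat_lit 7) (by decide +kernel)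
theorem L285920 : W_1 (nat_lit 3) (nat_lit 0x10001f0003000000008000000000000000000) (nat_lit 0x0) (nat_lit 0x38000c000000000000000000000000000000) := T_1 (nat_lit 140) (nat_lit 141) (nat_lit 1) (nat_lit 8) (nat_lit 7) L285919 (by decide +kernel)
theorem L285921 : W_1 (nat_lit 4) (nat_lit 0x10001f0002000000008000000000000000000) (nat_lit 0x0) (nat_lit 0x38000c001800000000000000000000000000) := T_1 (nat_lit 108) (nat_lit 107) (nat_lit 0) (nat_lit 9) (nat_lit 7) L285920 (by decide +kernel)
theorem L285922 : W_1 (nat_lit 5) (nat_lit 0x10001f0002000000000000000000000000000) (nat_lit 0x0) (nat_lit 0x38000c001800100008000000000000000000) := T_1 (nat_lit 75) (nat_lit 92) (nat_lit 7) (nat_lit 7) (nat_lit 4) L285921 (by decide +kernel)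
theorem L285923 : W_1 (nat_lit 7) (nat_lit 0x10001e0002000000000000000000000000000) (nat_lit 0x0) (nat_lit 0x38001c001f00100008000000000000000000) := Q_1 (nat_lit 124) (C_1 L285909 (C_1 L285913 (C_1 L285918 (C_1 L285922 N_1)))) (by decide +kernel)
theorem L287911 : W_1 (nat_lit 2) (nat_lit 0x4000000010007e0012000000000000000000000000000) (nat_lit 0x0) (nat_lit 0x1c000000000000000000000000000000000000) := D_1 (nat_lit 147) (nat_lit 148) (nat_lit 146) (nat_lit 3) (nat_lit 8) (nat_lit 7) (nat_lit 3) (nat_lit 7) (nat_lit 7) (by decide +kernel)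
theorem L287987 : W_1 (nat_lit 2) (nat_lit 0x11000f0002400000008000000000000000000) (nat_lit 0x0) (nat_lit 0x80008000200000000000000000000000000) := D_1 (nat_lit 123) (nat_lit 139) (nat_lit 105) (nat_lit 1) (nat_lit 7) (nat_lit 7) (nat_lit 0) (nat_lit 7) (nat_lit 7) (by decide +kernel)
theorem L287988 : W_1 (nat_lit 3) (nat_lit 0x11000f0002000000008000000000000000000) (nat_lit 0x0) (nat_lit 0x80008000e00000000000000000000000000) := T_1 (nat_lit 106) (nat_lit 107) (nat_lit 0) (nat_lit 8) (nat_lit 7) L287987 (by decide +kernel)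
theorem L287989 : W_1 (nat_lit 4) (nat_lit 0x10000f0002000000008000000000000000000) (nat_lit 0x0) (nat_lit 0x380008000e00000000000000000000000000) := T_1 (nat_lit 140) (nat_lit 141) (nat_lit 1) (nat_lit 8) (nat_lit 7) L287988 (by decide +kernel)
theorem L287990 : W_1 (nat_lit 5) (nat_lit 0x10000f0002000000000000000000000000000) (nat_lit 0x0) (nat_lit 0x380008000e00100008000000000000000000) := T_1 (nat_lit 75) (nat_lit 92) (nat_lit 7) (nat_lit 7) (nat_lit 4) L287989 (by decide +kernel)
theorem L287997 : W_1 (nat_lit 2) (nat_lit 0x4000000012000f0003800000000000000000000000000) (nat_lit 0x0) (nat_lit 0x80004000000000000000080000000000000000000000) := D_1 (nat_lit 158) (nat_lit 175) (nat_lit 91) (nat_lit 6) (nat_lit 5) (nat_lit 10) (nat_lit 6) (nat_lit 5) (nat_lit 9) (by decide +kernel)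
theorem L287998 : W_1 (nat_lit 3) (nat_lit 0x4000000012000f0002800000000000000000000000000) (nat_lit 0x0) (nat_lit 0x80004000000100001000080000000000000000000000) := T_1 (nat_lit 108) (nat_lit 128) (nat_lit 0) (nat_lit 9) (nat_lit 7) L287997 (by decide +kernel)
theorem L287999 : W_1 (nat_lit 4) (nat_lit 0x4000000012000f0002000000000000000000000000000) (nat_lit 0x0) (nat_lit 0x80004000000100001c00080000000000000000000000) := T_1 (nat_lit 107) (nat_lit 106) (nat_lit 0) (nat_lit 8) (nat_lit 7) L287998 (by decide +kernel)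
theorem L288000 : W_1 (nat_lit 5) (nat_lit 0x4000000010000f0002000000000000000000000000000) (nat_lit 0x0) (nat_lit 0x80004000300100001c00080000000000000000000000) := T_1 (nat_lit 141) (nat_lit 140) (nat_lit 1) (nat_lit 8) (nat_lit 7) L287999 (by decide +kernel)
theorem L288001 : W_1 (nat_lit 6) (nat_lit 0x10000f0002000000000000000000000000000) (nat_lit 0x0) (nat_lit 0x480024000300100001c00080000000000000000000000) := T_1 (nat_lit 178) (nat_lit 161) (nat_lit 4) (nat_lit 8) (nat_lit 10) L288000 (by decide +kernel)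
theorem L288033 : W_1 (nat_lit 2) (nat_lit 0x80016000f0002000000000000000000000000000) (nat_lit 0x0) (nat_lit 0xc00040000000000000000000000) := D_1 (nat_lit 107) (nat_lit 106) (nat_lit 90) (nat_lit 0) (nat_lit 8) (nat_lit 7) (nat_lit 7) (nat_lit 5) (nat_lit 5) (by decide +kernel)
theorem L288034 : W_1 (nat_lit 3) (nat_lit 0x16000f0002000000000000000000000000000) (nat_lit 0x0) (nat_lit 0x100008000000000000c00040000000000000000000000) := T_1 (nat_lit 159) (nat_lit 176) (nat_lit 6) (nat_lit 6) (nat_lit 10) L288033 (by decide +kernel)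
theorem L288035 : W_1 (nat_lit 4) (nat_lit 0x14000f0002000000000000000000000000000) (nat_lit 0x0) (nat_lit 0x100008000300000000c00040000000000000000000000) := T_1 (nat_lit 141) (nat_lit 140) (nat_lit 1) (nat_lit 8) (nat_lit 7) L288034 (by decide +kernel)
theorem L288036 : W_1 (nat_lit 2) (nat_lit 0x14000f0002000100000000000000000000000) (nat_lit 0x0) (nat_lit 0x100008000000000001000000000000000000000000000) := D_1 (nat_lit 159) (nat_lit 176) (nat_lit 108) (nat_lit 6) (nat_lit 6) (nat_lit 10) (nat_lit 6) (nat_lit 6) (nat_lit 9) (by decide +kernel)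
theorem L288037 : W_1 (nat_lit 3) (nat_lit 0x14000f0002000000000000000000000000000) (nat_lit 0x0) (nat_lit 0x100008000000000001000100008000000000000000000) := T_1 (nat_lit 92) (nat_lit 75) (nat_lit 7) (nat_lit 7) (nat_lit 4) L288036 (by decide +kernel)
theorem L288940 : W_1 (nat_lit 2) (nat_lit 0x10000fc002000000000000000000000000000) (nat_lit 0x0) (nat_lit 0x700000000000000000000000000) := D_1 (nat_lit 105) (nat_lit 104) (nat_lit 106) (nat_lit 0) (nat_lit 6) (nat_lit 7) (nat_lit 0) (nat_lit 7) (nat_lit 7) (by decide +kernel)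
theorem L289514 : W_1 (nat_lit 2) (nat_lit 0x10000c0003800000000000000000000000000) (nat_lit 0x0) (nat_lit 0x320000000000000000000000000000000) := D_1 (nat_lit 128) (nat_lit 129) (nat_lit 125) (nat_lit 0) (nat_lit 10) (nat_lit 7) (nat_lit 0) (nat_lit 9) (nat_lit 7) (by decide +kernel)
theorem L290923 : W_1 (nat_lit 2) (nat_lit 0x13000d0002800040002000000000000000000) (nat_lit 0x0) (nat_lit 0x20001000080000000000000) := D_1 (nat_lit 72) (nat_lit 55) (nat_lit 89) (nat_lit 4) (nat_lit 5) (nat_lit 7) (nat_lit 4) (nat_lit 5) (nat_lit 8) (by decide +kernel)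
theorem L290924 : W_1 (nat_lit 3) (nat_lit 0x13000d0002800040000000000000000000000) (nat_lit 0x0) (nat_lit 0x8000000020003000080000000000000) := T_1 (nat_lit 73) (nat_lit 123) (nat_lit 5) (nat_lit 5) (nat_lit 4) L290923 (by decide +kernel)
theorem L290925 : W_1 (nat_lit 4) (nat_lit 0x12000d0002800040000000000000000000000) (nat_lit 0x0) (nat_lit 0x2000100008000000020003000080000000000000) := T_1 (nat_lit 140) (nat_lit 157) (nat_lit 5) (nat_lit 5) (nat_lit 5) L290924 (by decide +kernel)
theorem L290926 : W_1 (nat_lit 2) (nat_lit 0x12000d00038000c0000000000000000000000) (nat_lit 0x0) (nat_lit 0x30001000000000000000000) := D_1 (nat_lit 89) (nat_lit 88) (nat_lit 72) (nat_lit 3) (nat_lit 3) (nat_lit 5) (nat_lit 4) (nat_lit 5) (nat_lit 8) (by decide +kernel)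
theorem L290927 : W_1 (nat_lit 3) (nat_lit 0x12000d0003800040000000000000000000000) (nat_lit 0x0) (nat_lit 0xb0005000000000000000000) := T_1 (nat_lit 91) (nat_lit 74) (nat_lit 6) (nat_lit 5) (nat_lit 8) L290926 (by decide +kernel)
theorem L290928 : W_1 (nat_lit 4) (nat_lit 0x12000d0002800040000000000000000000000) (nat_lit 0x0) (nat_lit 0x14000b0005000000000000000000) := T_1 (nat_lit 108) (nat_lit 106) (nat_lit 3) (nat_lit 4) (nat_lit 6) L290927 (by decide +kernel)
theorem L291065 : W_1 (nat_lit 2) (nat_lit 0x13000d0002800040002000000000000000000) (nat_lit 0x0) (nat_lit 0x80004000200000000000000) := D_1 (nat_lit 74) (nat_lit 91) (nat_lit 57) (nat_lit 6) (nat_lit 5) (nat_lit 8) (nat_lit 6) (nat_lit 5) (nat_lit 7) (by decide +kernel)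
theorem L291066 : W_1 (nat_lit 3) (nat_lit 0x13000d0002800040000000000000000000000) (nat_lit 0x0) (nat_lit 0x8000000080006000200000000000000) := T_1 (nat_lit 73) (nat_lit 123) (nat_lit 5) (nat_lit 5) (nat_lit 4) L291065 (by decide +kernel)
theorem L291067 : W_1 (nat_lit 4) (nat_lit 0x12000d0002800040000000000000000000000) (nat_lit 0x0) (nat_lit 0x2000100008000000080006000200000000000000) := T_1 (nat_lit 140) (nat_lit 157) (nat_lit 5) (nat_lit 5) (nat_lit 5) L291066 (by decide +kernel)
theorem L302124 : W_1 (nat_lit 5) (nat_lit 0x12000d0002800000000000000000000000000) (nat_lit 0x0) (nat_lit 0x20001000080014000f0007000280000000000000) := Q_1 (nat_lit 90) (C_1 L291067 (C_1 L290925 (C_1 L290928 N_1))) (by decide +kernel)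
theorem L314017 : W_1 (nat_lit 2) (nat_lit 0x4000000110007c0042000000000000000000000000000) (nat_lit 0x0) (nat_lit 0x20000800080000000000000000000000000000) := D_1 (nat_lit 131) (nat_lit 149) (nat_lit 115) (nat_lit 3) (nat_lit 9) (nat_lit 7) (nat_lit 2) (nat_lit 9) (nat_lit 7) (by decide +kernel)
theorem L314018 : W_1 (nat_lit 3) (nat_lit 0x4000000110007c0002000000000000000000000000000) (nat_lit 0x0) (nat_lit 0x200008000e0000000000000000000000000000) := T_1 (nat_lit 114) (nat_lit 113) (nat_lit 2) (nat_lit 8) (nat_lit 7) L314017 (by decide +kernel)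
theorem L314019 : W_1 (nat_lit 4) (nat_lit 0x4000000010007c0002000000000000000000000000000) (nat_lit 0x0) (nat_lit 0x380008000e0000000000000000000000000000) := T_1 (nat_lit 148) (nat_lit 147) (nat_lit 3) (nat_lit 8) (nat_lit 7) L314018 (by decide +kernel)
theorem L314079 : W_1 (nat_lit 2) (nat_lit 0x4000000010007c0002000000000000000000000000000) (nat_lit 0x0) (nat_lit 0x1c000000000000000000000000000000000000) := D_1 (nat_lit 147) (nat_lit 148) (nat_lit 146) (nat_lit 3) (nat_lit 8) (nat_lit 7) (nat_lit 3) (nat_lit 7) (nat_lit 7) (by decide +kernel)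
theorem L314843 : W_1 (nat_lit 5) (nat_lit 0x200010000c0000000000000000000000000000000) (nat_lit 0x0) (nat_lit 0x28001c000e00000000000000002000000000000000000000000000) := T_1 (nat_lit 178) (nat_lit 109) (nat_lit 4) (nat_lit 8) (nat_lit 10) L46 (by decide +kernel)
theorem L314844 : W_1 (nat_lit 2) (nat_lit 0x80004000200010000c0000000000000000000000000000000) (nat_lit 0x0) (nat_lit 0x200010000800000000000000000000000000000000000000000000) := D_1 (nat_lit 196) (nat_lit 213) (nat_lit 179) (nat_lit 7) (nat_lit 8) (nat_lit 8) (nat_lit 7) (nat_lit 8) (nat_lit 7) (by decide +kernel)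
theorem L316521 : W_1 (nat_lit 2) (nat_lit 0x200010000e000c000000000000000000000000000) (nat_lit 0x0) (nat_lit 0x100030000000000000000000000000000) := D_1 (nat_lit 112) (nat_lit 113) (nat_lit 128) (nat_lit 1) (nat_lit 11) (nat_lit 6) (nat_lit 2) (nat_lit 6) (nat_lit 7) (by decide +kernel)
theorem L316522 : W_1 (nat_lit 3) (nat_lit 0x200010000c000c000000000000000000000000000) (nat_lit 0x0) (nat_lit 0x130030000000000000000000000000000) := T_1 (nat_lit 125) (nat_lit 124) (nat_lit 2) (nat_lit 5) (nat_lit 7) L316521 (by decide +kernel)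
theorem L318443 : W_1 (nat_lit 2) (nat_lit 0x140004000200050003c0010000000000000000000000000000) (nat_lit 0x0) (nat_lit 0x280008000000000000000000000000000000000000000000000000) := D_1 (nat_lit 195) (nat_lit 211) (nat_lit 213) (nat_lit 5) (nat_lit 8) (nat_lit 8) (nat_lit 7) (nat_lit 8) (nat_lit 8) (by decide +kernel)
theorem L318609 : W_1 (nat_lit 3) (nat_lit 0x100004000200050003c0010000000000000000000000000000) (nat_lit 0x0) (nat_lit 0x28000c000200000000000000000000000000000000000000000000) := T_1 (nat_lit 194) (nat_lit 177) (nat_lit 5) (nat_lit 8) (nat_lit 7) L318443 (by decide +kernel)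
theorem L318610 : W_1 (nat_lit 4) (nat_lit 0x4000200050003c0010000000000000000000000000000) (nat_lit 0x0) (nat_lit 0x28001c000a00000000000000000000000000000000000000000000) := T_1 (nat_lit 196) (nat_lit 179) (nat_lit 7) (nat_lit 8) (nat_lit 7) L318609 (by decide +kernel)
theorem L320526 : W_1 (nat_lit 2) (nat_lit 0x2000380014000e0000000000000000000000000000000) (nat_lit 0x0) (nat_lit 0x80004000100000000000000000000000000000000000000000000) := D_1 (nat_lit 194) (nat_lit 211) (nat_lit 176) (nat_lit 6) (nat_lit 7) (nat_lit 12) (nat_lit 7) (nat_lit 6) (nat_lit 7) (by decide +kernel)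
theorem L323086 : W_1 (nat_lit 2) (nat_lit 0x600018002c0014000e0000000000000000000000000000000) (nat_lit 0x0) (nat_lit 0x800040000000000000000200000000000000000000000000000000000) := D_1 (nat_lit 210) (nat_lit 227) (nat_lit 141) (nat_lit 4) (nat_lit 6) (nat_lit 13) (nat_lit 4) (nat_lit 6) (nat_lit 12) (by decide +kernel)
theorem L323087 : W_1 (nat_lit 3) (nat_lit 0x400018002c0014000e0000000000000000000000000000000) (nat_lit 0x0) (nat_lit 0x8000c0002000000000000200000000000000000000000000000000000) := T_1 (nat_lit 193) (nat_lit 211) (nat_lit 7) (nat_lit 6) (nat_lit 8) L323086 (by decide +kernel)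
theorem L325471 : W_1 (nat_lit 2) (nat_lit 0x140004000200010000e0000000000000000000000000000000) (nat_lit 0x0) (nat_lit 0x280008000000000000000000000000000000000000000000000000) := D_1 (nat_lit 195) (nat_lit 213) (nat_lit 211) (nat_lit 7) (nat_lit 8) (nat_lit 8) (nat_lit 5) (nat_lit 8) (nat_lit 8) (by decide +kernel)
theorem L325472 : W_1 (nat_lit 3) (nat_lit 0x100004000200010000e0000000000000000000000000000000) (nat_lit 0x0) (nat_lit 0x28000c000200000000000000000000000000000000000000000000) := T_1 (nat_lit 194) (nat_lit 177) (nat_lit 5) (nat_lit 8) (nat_lit 7) L325471 (by decide +kernel)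
theorem L325473 : W_1 (nat_lit 4) (nat_lit 0x4000200010000e0000000000000000000000000000000) (nat_lit 0x0) (nat_lit 0x28001c000a00000000000000000000000000000000000000000000) := T_1 (nat_lit 196) (nat_lit 179) (nat_lit 7) (nat_lit 8) (nat_lit 7) L325472 (by decide +kernel)
theorem L325527 : W_1 (nat_lit 2) (nat_lit 0x80004000200010000e0000000000000000000000000000000) (nat_lit 0x0) (nat_lit 0x200010000800000000000000000000000000000000000000000000) := D_1 (nat_lit 196) (nat_lit 179) (nat_lit 213) (nat_lit 7) (nat_lit 8) (nat_lit 7) (nat_lit 7) (nat_lit 8) (nat_lit 8) (by decide +kernel)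
theorem L326675 : W_1 (nat_lit 2) (nat_lit 0x40001e001200010000e0000000000000000000000000000000) (nat_lit 0x0) (nat_lit 0x80002000200000000000000000000000000000000000000000) := D_1 (nat_lit 181) (nat_lit 199) (nat_lit 165) (nat_lit 3) (nat_lit 8) (nat_lit 10) (nat_lit 2) (nat_lit 8) (nat_lit 10) (by decide +kernel)
theorem L326676 : W_1 (nat_lit 3) (nat_lit 0x40001e000200010000e0000000000000000000000000000000) (nat_lit 0x0) (nat_lit 0x80002000380000000000000000000000000000000000000000) := T_1 (nat_lit 164) (nat_lit 163) (nat_lit 2) (nat_lit 7) (nat_lit 10) L326675 (by decide +kernel)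
theorem L327159 : W_1 (nat_lit 2) (nat_lit 0x3c0014000e0001000000000000000000000000000) (nat_lit 0x0) (nat_lit 0x300000000000080000000000000000000000) := D_1 (nat_lit 141) (nat_lit 91) (nat_lit 140) (nat_lit 5) (nat_lit 6) (nat_lit 5) (nat_lit 0) (nat_lit 8) (nat_lit 9) (by decide +kernel)
theorem L327160 : W_1 (nat_lit 3) (nat_lit 0x380014000e0001000000000000000000000000000) (nat_lit 0x0) (nat_lit 0x80004000300000000000080000000000000000000000) := T_1 (nat_lit 158) (nat_lit 175) (nat_lit 5) (nat_lit 6) (nat_lit 6) L327159 (by decide +kernel)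
theorem L327177 : W_1 (nat_lit 2) (nat_lit 0x8003c0012000e0000000000000000000000000000000) (nat_lit 0x0) (nat_lit 0x1000000000000400000001000000000000000000000000000) := D_1 (nat_lit 142) (nat_lit 108) (nat_lit 192) (nat_lit 5) (nat_lit 6) (nat_lit 6) (nat_lit 6) (nat_lit 5) (nat_lit 11) (by decide +kernel)
theorem L327187 : W_1 (nat_lit 3) (nat_lit 0x2000380010000e0000000000000000000000000000000) (nat_lit 0x0) (nat_lit 0x80004000100000000400000001000000000000000000000000000) := T_1 (nat_lit 142) (nat_lit 108) (nat_lit 7) (nat_lit 6) (nat_lit 6) L320526 (by decide +kernel)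
theorem L327202 : W_1 (nat_lit 2) (nat_lit 0x4003c0011000e0000000000000000000000000000000) (nat_lit 0x0) (nat_lit 0x20002000080000000000000000000000000000000000) := D_1 (nat_lit 157) (nat_lit 139) (nat_lit 173) (nat_lit 0) (nat_lit 7) (nat_lit 9) (nat_lit 1) (nat_lit 7) (nat_lit 9) (by decide +kernel)
theorem L327203 : W_1 (nat_lit 3) (nat_lit 0x3c0011000e0000000000000000000000000000000) (nat_lit 0x0) (nat_lit 0xe0002000080000000000000000000000000000000000) := T_1 (nat_lit 174) (nat_lit 175) (nat_lit 1) (nat_lit 8) (nat_lit 9) L327202 (by decide +kernel)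
theorem L327204 : W_1 (nat_lit 4) (nat_lit 0x3c0010000e0000000000000000000000000000000) (nat_lit 0x0) (nat_lit 0xe0002000380000000000000000000000000000000000) := T_1 (nat_lit 140) (nat_lit 141) (nat_lit 0) (nat_lit 8) (nat_lit 9) L327203 (by decide +kernel)
theorem L327275 : W_1 (nat_lit 3) (nat_lit 0x8003c0010000e0000000000000000000000000000000) (nat_lit 0x0) (nat_lit 0x1000000000000700000001000000000000000000000000000) := T_1 (nat_lit 141) (nat_lit 140) (nat_lit 0) (nat_lit 8) (nat_lit 9) L327177 (by decide +kernel)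
theorem L329171 : W_1 (nat_lit 4) (nat_lit 0x3c0010000e0000000000000000000000000000000) (nat_lit 0x0) (nat_lit 0x10000c0000000700000001000000000000000000000000000) := T_1 (nat_lit 175) (nat_lit 174) (nat_lit 1) (nat_lit 8) (nat_lit 9) L327275 (by decide +kernel)
theorem L337445 : W_1 (nat_lit 2) (nat_lit 0x10000e0006000000000000000000000000000) (nat_lit 0x0) (nat_lit 0x18008000000000000000000000000000) := D_1 (nat_lit 124) (nat_lit 111) (nat_lit 123) (nat_lit 2) (nat_lit 5) (nat_lit 7) (nat_lit 2) (nat_lit 4) (nat_lit 7) (by decide +kernel)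
theorem L337569 : W_1 (nat_lit 2) (nat_lit 0x10000e0006000f00000000000000000000000) (nat_lit 0x0) (nat_lit 0x38000000000000000000000000000) := D_1 (nat_lit 112) (nat_lit 111) (nat_lit 113) (nat_lit 1) (nat_lit 10) (nat_lit 6) (nat_lit 3) (nat_lit 7) (nat_lit 5) (by decide +kernel)
theorem L337570 : W_1 (nat_lit 3) (nat_lit 0x10000e0006000700000000000000000000000) (nat_lit 0x0) (nat_lit 0x38001800000000000000000000000) := T_1 (nat_lit 95) (nat_lit 96) (nat_lit 1) (nat_lit 11) (nat_lit 5) L337569 (by decide +kernel)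
theorem L337571 : W_1 (nat_lit 4) (nat_lit 0x10000e0006000300000000000000000000000) (nat_lit 0x0) (nat_lit 0x38001c00020000000000000000000) := T_1 (nat_lit 94) (nat_lit 77) (nat_lit 6) (nat_lit 8) (nat_lit 8) L337570 (by decide +kernel)
theorem L337572 : W_1 (nat_lit 5) (nat_lit 0x10000e0006000200000000000000000000000) (nat_lit 0x0) (nat_lit 0x38001d00028000000000000000000) := T_1 (nat_lit 92) (nat_lit 75) (nat_lit 7) (nat_lit 7) (nat_lit 4) L337571 (by decide +kernel)
theorem L337573 : W_1 (nat_lit 6) (nat_lit 0x10000e0006000000000000000000000000000) (nat_lit 0x0) (nat_lit 0x38001f00038001c00000000000000) := Q_1 (nat_lit 93) (C_1 L181923 (C_1 L132177 (C_1 L337572 N_1))) (by decide +kernel)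
theorem L337582 : W_1 (nat_lit 4) (nat_lit 0x10000c0006000000000000000000000000000) (nat_lit 0x0) (nat_lit 0x400020000000030018000400000000000000000000000) := T_1 (nat_lit 161) (nat_lit 178) (nat_lit 4) (nat_lit 8) (nat_lit 10) L245 (by decide +kernel)
theorem L339460 : W_1 (nat_lit 2) (nat_lit 0x10001e0011000000000000000000000000000) (nat_lit 0x0) (nat_lit 0x200022000000000000000000000000000) := D_1 (nat_lit 129) (nat_lit 109) (nat_lit 113) (nat_lit 0) (nat_lit 10) (nat_lit 7) (nat_lit 2) (nat_lit 7) (nat_lit 7) (by decide +kernel)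
theorem L339461 : W_1 (nat_lit 3) (nat_lit 0x10001e0001000000000000000000000000000) (nat_lit 0x0) (nat_lit 0x20003a000000000000000000000000000) := T_1 (nat_lit 112) (nat_lit 111) (nat_lit 2) (nat_lit 6) (nat_lit 7) L339460 (by decide +kernel)
theorem L339462 : W_1 (nat_lit 4) (nat_lit 0x10001e0000000000000000000000000000000) (nat_lit 0x0) (nat_lit 0x20003b800000000000000000000000000) := T_1 (nat_lit 108) (nat_lit 107) (nat_lit 0) (nat_lit 9) (nat_lit 7) L339461 (by decide +kernel)
theorem L339463 : W_1 (nat_lit 2) (nat_lit 0x12001e0000800000000000000000000000000) (nat_lit 0x0) (nat_lit 0x100010000400000000000000000000000000) := D_1 (nat_lit 124) (nat_lit 106) (nat_lit 140) (nat_lit 0) (nat_lit 8) (nat_lit 7) (nat_lit 1) (nat_lit 8) (nat_lit 7) (by decide +kernel)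
theorem L339464 : W_1 (nat_lit 3) (nat_lit 0x10001e0000800000000000000000000000000) (nat_lit 0x0) (nat_lit 0x700010000400000000000000000000000000) := T_1 (nat_lit 141) (nat_lit 142) (nat_lit 1) (nat_lit 9) (nat_lit 7) L339463 (by decide +kernel)
theorem L339465 : W_1 (nat_lit 4) (nat_lit 0x10001e0000000000000000000000000000000) (nat_lit 0x0) (nat_lit 0x700010001c00000000000000000000000000) := T_1 (nat_lit 107) (nat_lit 108) (nat_lit 0) (nat_lit 9) (nat_lit 7) L339464 (by decide +kernel)
theorem L340070 : W_1 (nat_lit 2) (nat_lit 0x11001f000a400000000000000000000000000) (nat_lit 0x0) (nat_lit 0x80008000200000000000000000000000000) := D_1 (nat_lit 123) (nat_lit 139) (nat_lit 105) (nat_lit 1) (nat_lit 7) (nat_lit 7) (nat_lit 0) (nat_lit 7) (nat_lit 7) (by decide +kernel)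
theorem L340071 : W_1 (nat_lit 3) (nat_lit 0x11001f000a000000000000000000000000000) (nat_lit 0x0) (nat_lit 0x80008000e00000000000000000000000000) := T_1 (nat_lit 106) (nat_lit 107) (nat_lit 0) (nat_lit 8) (nat_lit 7) L340070 (by decide +kernel)
theorem L342123 : W_1 (nat_lit 2) (nat_lit 0x10000f8000000000000000000000000000000) (nat_lit 0x0) (nat_lit 0xe00000000000000000000000000) := D_1 (nat_lit 106) (nat_lit 107) (nat_lit 105) (nat_lit 0) (nat_lit 8) (nat_lit 7) (nat_lit 0) (nat_lit 7) (nat_lit 7) (by decide +kernel)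
theorem L342124 : W_1 (nat_lit 2) (nat_lit 0x10800f8000200000000000000000000000000) (nat_lit 0x0) (nat_lit 0x40004000100000000000000000000000000) := D_1 (nat_lit 122) (nat_lit 138) (nat_lit 104) (nat_lit 1) (nat_lit 6) (nat_lit 7) (nat_lit 0) (nat_lit 6) (nat_lit 7) (by decide +kernel)
theorem L342125 : W_1 (nat_lit 3) (nat_lit 0x10800f8000000000000000000000000000000) (nat_lit 0x0) (nat_lit 0x40004000700000000000000000000000000) := T_1 (nat_lit 105) (nat_lit 106) (nat_lit 0) (nat_lit 7) (nat_lit 7) L342124 (by decide +kernel)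
theorem L342126 : W_1 (nat_lit 4) (nat_lit 0x10000f8000000000000000000000000000000) (nat_lit 0x0) (nat_lit 0x1c0004000700000000000000000000000000) := T_1 (nat_lit 139) (nat_lit 140) (nat_lit 1) (nat_lit 7) (nat_lit 7) L342125 (by decide +kernel)
theorem L342127 : W_1 (nat_lit 2) (nat_lit 0x10800fc001200000000000000000000000000) (nat_lit 0x0) (nat_lit 0x102000800000000000000000000000000) := D_1 (nat_lit 107) (nat_lit 121) (nat_lit 128) (nat_lit 2) (nat_lit 2) (nat_lit 7) (nat_lit 0) (nat_lit 9) (nat_lit 7) (by decide +kernel)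
theorem L342128 : W_1 (nat_lit 3) (nat_lit 0x10800fc000200000000000000000000000000) (nat_lit 0x0) (nat_lit 0x102003800000000000000000000000000) := T_1 (nat_lit 108) (nat_lit 109) (nat_lit 2) (nat_lit 3) (nat_lit 7) L342127 (by decide +kernel)
theorem L342129 : W_1 (nat_lit 4) (nat_lit 0x10800fc000000000000000000000000000000) (nat_lit 0x0) (nat_lit 0x102003b00000000000000000000000000) := T_1 (nat_lit 105) (nat_lit 104) (nat_lit 0) (nat_lit 6) (nat_lit 7) L342128 (by decide +kernel)
theorem L342130 : W_1 (nat_lit 5) (nat_lit 0x10800f8000000000000000000000000000000) (nat_lit 0x0) (nat_lit 0x40106003b00000000000000000000000000) := T_1 (nat_lit 122) (nat_lit 138) (nat_lit 1) (nat_lit 6) (nat_lit 7) L342129 (by decide +kernel)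
theorem L342131 : W_1 (nat_lit 6) (nat_lit 0x10000f8000000000000000000000000000000) (nat_lit 0x0) (nat_lit 0x1c0106003b00000000000000000000000000) := T_1 (nat_lit 139) (nat_lit 140) (nat_lit 1) (nat_lit 7) (nat_lit 7) L342130 (by decide +kernel)
theorem L342132 : W_1 (nat_lit 2) (nat_lit 0x11000f8001800000000000000000000000000) (nat_lit 0x0) (nat_lit 0x6002000000000000000000000000000) := D_1 (nat_lit 122) (nat_lit 121) (nat_lit 109) (nat_lit 2) (nat_lit 2) (nat_lit 7) (nat_lit 2) (nat_lit 3) (nat_lit 7) (by decide +kernel)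
theorem L342133 : W_1 (nat_lit 3) (nat_lit 0x11000f8000800000000000000000000000000) (nat_lit 0x0) (nat_lit 0x106003000000000000000000000000000) := T_1 (nat_lit 108) (nat_lit 128) (nat_lit 0) (nat_lit 9) (nat_lit 7) L342132 (by decide +kernel)
theorem L342134 : W_1 (nat_lit 4) (nat_lit 0x11000f8000000000000000000000000000000) (nat_lit 0x0) (nat_lit 0x106003c00000000000000000000000000) := T_1 (nat_lit 107) (nat_lit 106) (nat_lit 0) (nat_lit 8) (nat_lit 7) L342133 (by decide +kernel)
theorem L342135 : W_1 (nat_lit 5) (nat_lit 0x10000f8000000000000000000000000000000) (nat_lit 0x0) (nat_lit 0x180106003c00000000000000000000000000) := T_1 (nat_lit 140) (nat_lit 139) (nat_lit 1) (nat_lit 7) (nat_lit 7) L342134 (by decide +kernel)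
theorem L342136 : W_1 (nat_lit 7) (nat_lit 0x10000f0000000000000000000000000000000) (nat_lit 0x0) (nat_lit 0x1c010e003f00000000000000000000000000) := Q_1 (nat_lit 123) (C_1 L342123 (C_1 L342126 (C_1 L342131 (C_1 L342135 N_1)))) (by decide +kernel)
theorem L342137 : W_1 (nat_lit 2) (nat_lit 0x16000f0000800000000000000000000000000) (nat_lit 0x0) (nat_lit 0x100008000000000000000040000000000000000000000) := D_1 (nat_lit 159) (nat_lit 176) (nat_lit 90) (nat_lit 4) (nat_lit 6) (nat_lit 10) (nat_lit 7) (nat_lit 5) (nat_lit 5) (by decide +kernel)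
theorem L342138 : W_1 (nat_lit 3) (nat_lit 0x12000f0000800000000000000000000000000) (nat_lit 0x0) (nat_lit 0x100008000400100000000040000000000000000000000) := T_1 (nat_lit 142) (nat_lit 128) (nat_lit 1) (nat_lit 9) (nat_lit 7) L342137 (by decide +kernel)
theorem L342139 : W_1 (nat_lit 4) (nat_lit 0x10000f0000800000000000000000000000000) (nat_lit 0x0) (nat_lit 0x100008000700100000000040000000000000000000000) := T_1 (nat_lit 141) (nat_lit 140) (nat_lit 1) (nat_lit 8) (nat_lit 7) L342138 (by decide +kernel)
theorem L342140 : W_1 (nat_lit 5) (nat_lit 0x10000f0000000000000000000000000000000) (nat_lit 0x0) (nat_lit 0x100008000700100000c00040000000000000000000000) := T_1 (nat_lit 107) (nat_lit 106) (nat_lit 0) (nat_lit 8) (nat_lit 7) L342139 (by decide +kernel)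
theorem L342141 : W_1 (nat_lit 2) (nat_lit 0x11000f0000400000000000000000000000000) (nat_lit 0x0) (nat_lit 0x80008000200000000000000000000000000) := D_1 (nat_lit 123) (nat_lit 139) (nat_lit 105) (nat_lit 1) (nat_lit 7) (nat_lit 7) (nat_lit 0) (nat_lit 7) (nat_lit 7) (by decide +kernel)
theorem L342142 : W_1 (nat_lit 3) (nat_lit 0x11000f0000000000000000000000000000000) (nat_lit 0x0) (nat_lit 0x80008000e00000000000000000000000000) := T_1 (nat_lit 106) (nat_lit 107) (nat_lit 0) (nat_lit 8) (nat_lit 7) L342141 (by decide +kernel)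
theorem L342143 : W_1 (nat_lit 4) (nat_lit 0x10000f0000000000000000000000000000000) (nat_lit 0x0) (nat_lit 0x380008000e00000000000000000000000000) := T_1 (nat_lit 140) (nat_lit 141) (nat_lit 1) (nat_lit 8) (nat_lit 7) L342142 (by decide +kernel)
theorem L342846 : W_1 (nat_lit 3) (nat_lit 0x10000f8002000000000000000000000000000) (nat_lit 0x0) (nat_lit 0x4001700000000000000000000000000) := T_1 (nat_lit 122) (nat_lit 108) (nat_lit 2) (nat_lit 3) (nat_lit 7) L288940 (by decide +kernel)
theorem L342847 : W_1 (nat_lit 2) (nat_lit 0x4000000010400fe002000000000000000000000000000) (nat_lit 0x0) (nat_lit 0x380000000000000000000000000) := D_1 (nat_lit 104) (nat_lit 103) (nat_lit 105) (nat_lit 0) (nat_lit 5) (nat_lit 7) (nat_lit 0) (nat_lit 6) (nat_lit 7) (by decide +kernel)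
theorem L342848 : W_1 (nat_lit 3) (nat_lit 0x4000000010400fc002000000000000000000000000000) (nat_lit 0x0) (nat_lit 0x20002000380000000000000000000000000) := T_1 (nat_lit 121) (nat_lit 137) (nat_lit 1) (nat_lit 5) (nat_lit 7) L342847 (by decide +kernel)
theorem L343223 : W_1 (nat_lit 2) (nat_lit 0x10000fc002000000008000000000000000000) (nat_lit 0x0) (nat_lit 0x700000000000000000000000000) := D_1 (nat_lit 105) (nat_lit 106) (nat_lit 104) (nat_lit 0) (nat_lit 7) (nat_lit 7) (nat_lit 0) (nat_lit 6) (nat_lit 7) (by decide +kernel)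
theorem L343224 : W_1 (nat_lit 3) (nat_lit 0x10000f8002000000008000000000000000000) (nat_lit 0x0) (nat_lit 0x4001700000000000000000000000000) := T_1 (nat_lit 122) (nat_lit 108) (nat_lit 2) (nat_lit 3) (nat_lit 7) L343223 (by decide +kernel)
theorem L344115 : W_1 (nat_lit 2) (nat_lit 0x4000000011000f8002200000000000000000000000000) (nat_lit 0x0) (nat_lit 0x4001100000000000000000000000000) := D_1 (nat_lit 122) (nat_lit 108) (nat_lit 104) (nat_lit 2) (nat_lit 3) (nat_lit 7) (nat_lit 0) (nat_lit 6) (nat_lit 7) (by decide +kernel)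
theorem L344116 : W_1 (nat_lit 3) (nat_lit 0x4000000011000f8002000000000000000000000000000) (nat_lit 0x0) (nat_lit 0x4001700000000000000000000000000) := T_1 (nat_lit 105) (nat_lit 106) (nat_lit 0) (nat_lit 7) (nat_lit 7) L344115 (by decide +kernel)
theorem L344117 : W_1 (nat_lit 4) (nat_lit 0x4000000011000f0002000000000000000000000000000) (nat_lit 0x0) (nat_lit 0x8000c001700000000000000000000000000) := T_1 (nat_lit 123) (nat_lit 139) (nat_lit 1) (nat_lit 7) (nat_lit 7) L344116 (by decide +kernel)
theorem L345914 : W_1 (nat_lit 5) (nat_lit 0x10000e0000000000000000000000000000000) (nat_lit 0x0) (nat_lit 0x2380018000e00000000000000000000000000) := T_1 (nat_lit 124) (nat_lit 145) (nat_lit 3) (nat_lit 5) (nat_lit 7) L342143 (by decide +kernel)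
theorem L345915 : W_1 (nat_lit 8) (nat_lit 0x10000e0000000000000000000000000000000) (nat_lit 0x0) (nat_lit 0x21c011e003f00000000000000000000000000) := T_1 (nat_lit 124) (nat_lit 145) (nat_lit 3) (nat_lit 5) (nat_lit 7) L342136 (by decide +kernel)
theorem L345917 : W_1 (nat_lit 2) (nat_lit 0x30000e0000000000000000000000000000000) (nat_lit 0x0) (nat_lit 0xc000100000000000000000000000000000000) := D_1 (nat_lit 146) (nat_lit 147) (nat_lit 128) (nat_lit 0) (nat_lit 11) (nat_lit 8) (nat_lit 3) (nat_lit 6) (nat_lit 7) (by decide +kernel)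
theorem L345918 : W_1 (nat_lit 3) (nat_lit 0x10000e0000000000000000000000000000000) (nat_lit 0x0) (nat_lit 0xe000110000000000000000000000000000000) := T_1 (nat_lit 145) (nat_lit 124) (nat_lit 3) (nat_lit 5) (nat_lit 7) L345917 (by decide +kernel)
theorem L345920 : W_1 (nat_lit 2) (nat_lit 0x10001e0002000000000000000000000000000) (nat_lit 0x0) (nat_lit 0x6000010000000000000000000000000000000) := D_1 (nat_lit 145) (nat_lit 124) (nat_lit 146) (nat_lit 3) (nat_lit 5) (nat_lit 7) (nat_lit 3) (nat_lit 6) (nat_lit 7) (by decide +kernel)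
theorem L345921 : W_1 (nat_lit 2) (nat_lit 0x4000000030001e000b000500000000000000000000000) (nat_lit 0x0) (nat_lit 0xa00040000000000000000000) := D_1 (nat_lit 95) (nat_lit 78) (nat_lit 93) (nat_lit 6) (nat_lit 9) (nat_lit 8) (nat_lit 1) (nat_lit 10) (nat_lit 5) (by decide +kernel)
theorem L345922 : W_1 (nat_lit 3) (nat_lit 0x4000000030001e000b000400000000000000000000000) (nat_lit 0x0) (nat_lit 0xb00048000000000000000000) := T_1 (nat_lit 92) (nat_lit 75) (nat_lit 7) (nat_lit 7) (nat_lit 4) L345921 (by decide +kernel)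
theorem L345923 : W_1 (nat_lit 4) (nat_lit 0x4000000030001e000b000000000000000000000000000) (nat_lit 0x0) (nat_lit 0xf00068000000000000000000) := T_1 (nat_lit 94) (nat_lit 77) (nat_lit 5) (nat_lit 9) (nat_lit 4) L345922 (by decide +kernel)
theorem L345924 : W_1 (nat_lit 5) (nat_lit 0x4000000030001e000a000000000000000000000000000) (nat_lit 0x0) (nat_lit 0x1800f00068000000000000000000) := T_1 (nat_lit 108) (nat_lit 107) (nat_lit 0) (nat_lit 9) (nat_lit 7) L345923 (by decide +kernel)
theorem L345925 : W_1 (nat_lit 6) (nat_lit 0x4000000030001e0002000000000000000000000000000) (nat_lit 0x0) (nat_lit 0x19800f00068000000000000000000) := T_1 (nat_lit 111) (nat_lit 112) (nat_lit 2) (nat_lit 6) (nat_lit 7) L345924 (by decide +kernel)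
theorem L345926 : W_1 (nat_lit 7) (nat_lit 0x4000000010001e0002000000000000000000000000000) (nat_lit 0x0) (nat_lit 0x6000000019800f00068000000000000000000) := T_1 (nat_lit 145) (nat_lit 146) (nat_lit 3) (nat_lit 6) (nat_lit 7) L345925 (by decide +kernel)
theorem L345927 : W_1 (nat_lit 8) (nat_lit 0x10001e0002000000000000000000000000000) (nat_lit 0x0) (nat_lit 0x400020006000000019800f00068000000000000000000) := T_1 (nat_lit 178) (nat_lit 161) (nat_lit 4) (nat_lit 8) (nat_lit 10) L345926 (by decide +kernel)
theorem L345928 : W_1 (nat_lit 9) (nat_lit 0x10001c0002000000000000000000000000000) (nat_lit 0x0) (nat_lit 0x40002000638003c019f00f00068000000000000000000) := Q_1 (nat_lit 125) (C_1 L345920 (C_1 L285923 (C_1 L345927 N_1))) (by decide +kernel)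
theorem L345929 : W_1 (nat_lit 2) (nat_lit 0x4000000011003f0012400000008000000000000000000) (nat_lit 0x0) (nat_lit 0x80008000200000000000000000000000000) := D_1 (nat_lit 123) (nat_lit 139) (nat_lit 105) (nat_lit 1) (nat_lit 7) (nat_lit 7) (nat_lit 0) (nat_lit 7) (nat_lit 7) (by decide +kernel)
theorem L345930 : W_1 (nat_lit 3) (nat_lit 0x4000000011003f0012000000008000000000000000000) (nat_lit 0x0) (nat_lit 0x80008000e00000000000000000000000000) := T_1 (nat_lit 106) (nat_lit 107) (nat_lit 0) (nat_lit 8) (nat_lit 7) L345929 (by decide +kernel)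
theorem L345931 : W_1 (nat_lit 4) (nat_lit 0x4000000010003f0012000000008000000000000000000) (nat_lit 0x0) (nat_lit 0x380008000e00000000000000000000000000) := T_1 (nat_lit 140) (nat_lit 141) (nat_lit 1) (nat_lit 8) (nat_lit 7) L345930 (by decide +kernel)
theorem L345932 : W_1 (nat_lit 5) (nat_lit 0x4000000010003e0012000000008000000000000000000) (nat_lit 0x0) (nat_lit 0x2380018000e00000000000000000000000000) := T_1 (nat_lit 124) (nat_lit 145) (nat_lit 3) (nat_lit 5) (nat_lit 7) L345931 (by decide +kernel)
theorem L345933 : W_1 (nat_lit 6) (nat_lit 0x4000000010003c0012000000008000000000000000000) (nat_lit 0x0) (nat_lit 0x2380038008e00000000000000000000000000) := T_1 (nat_lit 125) (nat_lit 111) (nat_lit 2) (nat_lit 6) (nat_lit 7) L345932 (by decide +kernel)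
theorem L345934 : W_1 (nat_lit 7) (nat_lit 0x4000000010003c0002000000008000000000000000000) (nat_lit 0x0) (nat_lit 0x2380038038e00000000000000000000000000) := T_1 (nat_lit 112) (nat_lit 113) (nat_lit 2) (nat_lit 7) (nat_lit 7) L345933 (by decide +kernel)
theorem L345935 : W_1 (nat_lit 8) (nat_lit 0x4000000010003c0002000000000000000000000000000) (nat_lit 0x0) (nat_lit 0x2380038038e00100008000000000000000000) := T_1 (nat_lit 75) (nat_lit 92) (nat_lit 7) (nat_lit 7) (nat_lit 4) L345934 (by decide +kernel)
theorem L345936 : W_1 (nat_lit 9) (nat_lit 0x4000000010001c0002000000000000000000000000000) (nat_lit 0x0) (nat_lit 0x2380238039e00100008000000000000000000) := T_1 (nat_lit 129) (nat_lit 108) (nat_lit 0) (nat_lit 10) (nat_lit 7) L345935 (by decide +kernel)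
theorem L345937 : W_1 (nat_lit 10) (nat_lit 0x10001c0002000000000000000000000000000) (nat_lit 0x0) (nat_lit 0x400020002380238039e00100008000000000000000000) := T_1 (nat_lit 178) (nat_lit 161) (nat_lit 4) (nat_lit 8) (nat_lit 10) L345936 (by decide +kernel)
theorem L345938 : W_1 (nat_lit 2) (nat_lit 0x30001c0002000000000000000000000000000) (nat_lit 0x0) (nat_lit 0xc000020000000000000000000000000000000) := D_1 (nat_lit 146) (nat_lit 147) (nat_lit 125) (nat_lit 0) (nat_lit 11) (nat_lit 8) (nat_lit 3) (nat_lit 6) (nat_lit 7) (by decide +kernel)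
theorem L345939 : W_1 (nat_lit 2) (nat_lit 0x200030001e0002000000000000000000000000000) (nat_lit 0x0) (nat_lit 0x18000400000000000000000000000) := D_1 (nat_lit 111) (nat_lit 94) (nat_lit 112) (nat_lit 5) (nat_lit 9) (nat_lit 5) (nat_lit 2) (nat_lit 6) (nat_lit 7) (by decide +kernel)
theorem L345940 : W_1 (nat_lit 3) (nat_lit 0x200030001c0002000000000000000000000000000) (nat_lit 0x0) (nat_lit 0x30018000400000000000000000000000) := T_1 (nat_lit 125) (nat_lit 124) (nat_lit 3) (nat_lit 5) (nat_lit 7) L345939 (by decide +kernel)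
theorem L345941 : W_1 (nat_lit 4) (nat_lit 0x30001c0002000000000000000000000000000) (nat_lit 0x0) (nat_lit 0x400020000000030018000400000000000000000000000) := T_1 (nat_lit 161) (nat_lit 178) (nat_lit 4) (nat_lit 8) (nat_lit 10) L345940 (by decide +kernel)
theorem L345942 : W_1 (nat_lit 2) (nat_lit 0x1400080007000bc0012001e00008000000000000000000) (nat_lit 0x0) (nat_lit 0x40002000100000000000000000000000000000000000000000) := D_1 (nat_lit 181) (nat_lit 164) (nat_lit 198) (nat_lit 7) (nat_lit 10) (nat_lit 6) (nat_lit 7) (nat_lit 10) (nat_lit 7) (by decide +kernel)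
theorem L345943 : W_1 (nat_lit 3) (nat_lit 0x400080007000bc0012001e00008000000000000000000) (nat_lit 0x0) (nat_lit 0x60003000100000000000000000000000000000000000000000) := T_1 (nat_lit 180) (nat_lit 197) (nat_lit 4) (nat_lit 10) (nat_lit 11) L345942 (by decide +kernel)
theorem L345944 : W_1 (nat_lit 4) (nat_lit 0x400000007000bc0012001e00008000000000000000000) (nat_lit 0x0) (nat_lit 0x60003000180000000000008000000000000000000000000000) := T_1 (nat_lit 163) (nat_lit 111) (nat_lit 7) (nat_lit 9) (nat_lit 5) L345943 (by decide +kernel)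
theorem L345945 : W_1 (nat_lit 5) (nat_lit 0x400000007000bc0012001c00008000000000000000000) (nat_lit 0x0) (nat_lit 0x60003000180000000000008000200010000000000000000000) := T_1 (nat_lit 93) (nat_lit 76) (nat_lit 0) (nat_lit 11) (nat_lit 5) L345944 (by decide +kernel)
theorem L345946 : W_1 (nat_lit 6) (nat_lit 0x400000007000bc0012000c00008000000000000000000) (nat_lit 0x0) (nat_lit 0x60003000180000000000008001200090000000000000000000) := T_1 (nat_lit 96) (nat_lit 79) (nat_lit 6) (nat_lit 10) (nat_lit 8) L345945 (by decide +kernel)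
theorem L345947 : W_1 (nat_lit 7) (nat_lit 0x400000007000bc0012000800008000000000000000000) (nat_lit 0x0) (nat_lit 0x600030001800000000000080016000b0000000000000000000) := T_1 (nat_lit 94) (nat_lit 77) (nat_lit 4) (nat_lit 10) (nat_lit 8) L345946 (by decide +kernel)
theorem L345948 : W_1 (nat_lit 8) (nat_lit 0x400000007000bc0012000000008000000000000000000) (nat_lit 0x0) (nat_lit 0x60003000180000000000008001e000f0000000000000000000) := T_1 (nat_lit 95) (nat_lit 78) (nat_lit 5) (nat_lit 10) (nat_lit 4) L345947 (by decide +kernel)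
theorem L345949 : W_1 (nat_lit 9) (nat_lit 0x400000007000bc0012000000000000000000000000000) (nat_lit 0x0) (nat_lit 0x60003000180000000000008001f000f8000000000000000000) := T_1 (nat_lit 75) (nat_lit 92) (nat_lit 7) (nat_lit 7) (nat_lit 4) L345948 (by decide +kernel)
theorem L345950 : W_1 (nat_lit 10) (nat_lit 0x400000007000bc0002000000000000000000000000000) (nat_lit 0x0) (nat_lit 0x60003000180000000000038001f000f8000000000000000000) := T_1 (nat_lit 112) (nat_lit 113) (nat_lit 2) (nat_lit 7) (nat_lit 7) L345949 (by decide +kernel)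
theorem L345951 : W_1 (nat_lit 11) (nat_lit 0x4000000070003c0002000000000000000000000000000) (nat_lit 0x0) (nat_lit 0x60003000180000000c00038001f000f8000000000000000000) := T_1 (nat_lit 131) (nat_lit 130) (nat_lit 1) (nat_lit 12) (nat_lit 7) L345950 (by decide +kernel)
theorem L345952 : W_1 (nat_lit 12) (nat_lit 0x4000000030003c0002000000000000000000000000000) (nat_lit 0x0) (nat_lit 0x6000300018000c000c00038001f000f8000000000000000000) := T_1 (nat_lit 146) (nat_lit 147) (nat_lit 3) (nat_lit 7) (nat_lit 7) L345951 (by decide +kernel)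
theorem L345953 : W_1 (nat_lit 13) (nat_lit 0x30003c0002000000000000000000000000000) (nat_lit 0x0) (nat_lit 0x600034001a000c000c00038001f000f8000000000000000000) := T_1 (nat_lit 178) (nat_lit 161) (nat_lit 4) (nat_lit 8) (nat_lit 10) L345952 (by decide +kernel)
theorem L345954 : W_1 (nat_lit 2) (nat_lit 0x7000bc0012001c00000000000000000000000) (nat_lit 0x0) (nat_lit 0xa0000000000008000000000000000000000000000) := D_1 (nat_lit 111) (nat_lit 163) (nat_lit 161) (nat_lit 7) (nat_lit 9) (nat_lit 5) (nat_lit 5) (nat_lit 9) (nat_lit 5) (by decide +kernel)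
theorem L345955 : W_1 (nat_lit 3) (nat_lit 0x7000bc0012001800000000000000000000000) (nat_lit 0x0) (nat_lit 0xa0000000000008000400020000000000000000000) := T_1 (nat_lit 94) (nat_lit 77) (nat_lit 4) (nat_lit 10) (nat_lit 8) L345954 (by decide +kernel)
theorem L345956 : W_1 (nat_lit 4) (nat_lit 0x7000bc0012000800000000000000000000000) (nat_lit 0x0) (nat_lit 0xa00000000000080014000a0000000000000000000) := T_1 (nat_lit 96) (nat_lit 79) (nat_lit 6) (nat_lit 10) (nat_lit 8) L345955 (by decide +kernel)
theorem L345957 : W_1 (nat_lit 5) (nat_lit 0x70003c0012000800000000000000000000000) (nat_lit 0x0) (nat_lit 0xa0000000c000080014000a0000000000000000000) := T_1 (nat_lit 131) (nat_lit 130) (nat_lit 1) (nat_lit 12) (nat_lit 7) L345956 (by decide +kernel)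
theorem L345958 : W_1 (nat_lit 6) (nat_lit 0x70003c0012000000000000000000000000000) (nat_lit 0x0) (nat_lit 0xa0000000c00008001c000e0000000000000000000) := T_1 (nat_lit 95) (nat_lit 78) (nat_lit 5) (nat_lit 10) (nat_lit 4) L345957 (by decide +kernel)
theorem L345959 : W_1 (nat_lit 7) (nat_lit 0x30003c0012000000000000000000000000000) (nat_lit 0x0) (nat_lit 0xa000c000c00008001c000e0000000000000000000) := T_1 (nat_lit 146) (nat_lit 147) (nat_lit 3) (nat_lit 7) (nat_lit 7) L345958 (by decide +kernel)
theorem L345960 : W_1 (nat_lit 8) (nat_lit 0x30003c0002000000000000000000000000000) (nat_lit 0x0) (nat_lit 0xa000c000c00038001c000e0000000000000000000) := T_1 (nat_lit 112) (nat_lit 113) (nat_lit 2) (nat_lit 7) (nat_lit 7) L345959 (by decide +kernel)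
theorem L345961 : W_1 (nat_lit 2) (nat_lit 0x1000080007000bc0012001e00008000000000000000000) (nat_lit 0x0) (nat_lit 0x40002000100000000000000000000000000000000000000000) := D_1 (nat_lit 181) (nat_lit 164) (nat_lit 198) (nat_lit 7) (nat_lit 10) (nat_lit 6) (nat_lit 7) (nat_lit 10) (nat_lit 7) (by decide +kernel)
theorem L345962 : W_1 (nat_lit 3) (nat_lit 0x80007000bc0012001e00008000000000000000000) (nat_lit 0x0) (nat_lit 0x60003000100000000000000000000000000000000000000000) := T_1 (nat_lit 180) (nat_lit 197) (nat_lit 4) (nat_lit 10) (nat_lit 11) L345961 (by decide +kernel)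
theorem L345963 : W_1 (nat_lit 4) (nat_lit 0x7000bc0012001e00008000000000000000000) (nat_lit 0x0) (nat_lit 0x60003000180000000000008000000000000000000000000000) := T_1 (nat_lit 163) (nat_lit 111) (nat_lit 7) (nat_lit 9) (nat_lit 5) L345962 (by decide +kernel)
theorem L345964 : W_1 (nat_lit 5) (nat_lit 0x7000bc0012001c00008000000000000000000) (nat_lit 0x0) (nat_lit 0x60003000180000000000008000200010000000000000000000) := T_1 (nat_lit 93) (nat_lit 76) (nat_lit 0) (nat_lit 11) (nat_lit 5) L345963 (by decide +kernel)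
theorem L345965 : W_1 (nat_lit 6) (nat_lit 0x7000bc0012000c00008000000000000000000) (nat_lit 0x0) (nat_lit 0x60003000180000000000008001200090000000000000000000) := T_1 (nat_lit 96) (nat_lit 79) (nat_lit 6) (nat_lit 10) (nat_lit 8) L345964 (by decide +kernel)
theorem L345966 : W_1 (nat_lit 7) (nat_lit 0x7000bc0012000800008000000000000000000) (nat_lit 0x0) (nat_lit 0x600030001800000000000080016000b0000000000000000000) := T_1 (nat_lit 94) (nat_lit 77) (nat_lit 4) (nat_lit 10) (nat_lit 8) L345965 (by decide +kernel)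
theorem L345967 : W_1 (nat_lit 8) (nat_lit 0x7000bc0012000000008000000000000000000) (nat_lit 0x0) (nat_lit 0x60003000180000000000008001e000f0000000000000000000) := T_1 (nat_lit 95) (nat_lit 78) (nat_lit 5) (nat_lit 10) (nat_lit 4) L345966 (by decide +kernel)
theorem L345968 : W_1 (nat_lit 9) (nat_lit 0x70003c0012000000008000000000000000000) (nat_lit 0x0) (nat_lit 0x60003000180000000c00008001e000f0000000000000000000) := T_1 (nat_lit 131) (nat_lit 130) (nat_lit 1) (nat_lit 12) (nat_lit 7) L345967 (by decide +kernel)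
theorem L345969 : W_1 (nat_lit 10) (nat_lit 0x70003c0002000000008000000000000000000) (nat_lit 0x0) (nat_lit 0x60003000180000000c00038001e000f0000000000000000000) := T_1 (nat_lit 112) (nat_lit 113) (nat_lit 2) (nat_lit 7) (nat_lit 7) L345968 (by decide +kernel)
theorem L345970 : W_1 (nat_lit 11) (nat_lit 0x30003c0002000000008000000000000000000) (nat_lit 0x0) (nat_lit 0x6000300018000c000c00038001e000f0000000000000000000) := T_1 (nat_lit 146) (nat_lit 147) (nat_lit 3) (nat_lit 7) (nat_lit 7) L345969 (by decide +kernel)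
theorem L345971 : W_1 (nat_lit 12) (nat_lit 0x30003c0002000000000000000000000000000) (nat_lit 0x0) (nat_lit 0x6000300018000c000c00038001f000f8000000000000000000) := T_1 (nat_lit 75) (nat_lit 92) (nat_lit 7) (nat_lit 7) (nat_lit 4) L345970 (by decide +kernel)
theorem L345972 : W_1 (nat_lit 2) (nat_lit 0x40000000b0003c0012000000048000000000000000000) (nat_lit 0x0) (nat_lit 0x10000c00000000000000000000000000000000) := D_1 (nat_lit 130) (nat_lit 131) (nat_lit 148) (nat_lit 1) (nat_lit 12) (nat_lit 7) (nat_lit 3) (nat_lit 8) (nat_lit 7) (by decide +kernel)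
theorem L345973 : W_1 (nat_lit 3) (nat_lit 0x4000000030003c0012000000048000000000000000000) (nat_lit 0x0) (nat_lit 0x1c000c00000000000000000000000000000000) := T_1 (nat_lit 147) (nat_lit 146) (nat_lit 3) (nat_lit 7) (nat_lit 7) L345972 (by decide +kernel)
theorem L345974 : W_1 (nat_lit 4) (nat_lit 0x4000000030003c0012000000040000000000000000000) (nat_lit 0x0) (nat_lit 0x1c000c00000000100008000000000000000000) := T_1 (nat_lit 75) (nat_lit 92) (nat_lit 7) (nat_lit 7) (nat_lit 4) L345973 (by decide +kernel)
theorem L345975 : W_1 (nat_lit 5) (nat_lit 0x4000000030003c0012000000000000000000000000000) (nat_lit 0x0) (nat_lit 0x1c000c00000000900048000000000000000000) := T_1 (nat_lit 78) (nat_lit 95) (nat_lit 5) (nat_lit 10) (nat_lit 4) L345974 (by decide +kernel)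
theorem L345976 : W_1 (nat_lit 6) (nat_lit 0x30003c0012000000000000000000000000000) (nat_lit 0x0) (nat_lit 0x40002001c000c00000000900048000000000000000000) := T_1 (nat_lit 178) (nat_lit 161) (nat_lit 4) (nat_lit 8) (nat_lit 10) L345975 (by decide +kernel)
theorem L345977 : W_1 (nat_lit 7) (nat_lit 0x30003c0002000000000000000000000000000) (nat_lit 0x0) (nat_lit 0x40002001c000c00030000900048000000000000000000) := T_1 (nat_lit 112) (nat_lit 113) (nat_lit 2) (nat_lit 7) (nat_lit 7) L345976 (by decide +kernel)
theorem L345978 : W_1 (nat_lit 2) (nat_lit 0x30007c0002000000000000000000000000000) (nat_lit 0x0) (nat_lit 0x70000000000000000000000000000) := D_1 (nat_lit 113) (nat_lit 112) (nat_lit 114) (nat_lit 2) (nat_lit 7) (nat_lit 7) (nat_lit 2) (nat_lit 8) (nat_lit 7) (by decide +kernel)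
theorem L345979 : W_1 (nat_lit 3) (nat_lit 0x30003c0002000000000000000000000000000) (nat_lit 0x0) (nat_lit 0xc00070000000000000000000000000000) := T_1 (nat_lit 130) (nat_lit 131) (nat_lit 1) (nat_lit 12) (nat_lit 7) L345978 (by decide +kernel)
theorem L345980 : W_1 (nat_lit 2) (nat_lit 0x14000800070003c0012001e00008000000000000000000) (nat_lit 0x0) (nat_lit 0x40002000100000000000000000000000000000000000000000) := D_1 (nat_lit 181) (nat_lit 164) (nat_lit 198) (nat_lit 7) (nat_lit 10) (nat_lit 6) (nat_lit 7) (nat_lit 10) (nat_lit 7) (by decide +kernel)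
theorem L345981 : W_1 (nat_lit 3) (nat_lit 0x4000800070003c0012001e00008000000000000000000) (nat_lit 0x0) (nat_lit 0x60003000100000000000000000000000000000000000000000) := T_1 (nat_lit 180) (nat_lit 197) (nat_lit 4) (nat_lit 10) (nat_lit 11) L345980 (by decide +kernel)
theorem L345982 : W_1 (nat_lit 4) (nat_lit 0x4000000070003c0012001e00008000000000000000000) (nat_lit 0x0) (nat_lit 0x60003000180000000000008000000000000000000000000000) := T_1 (nat_lit 163) (nat_lit 111) (nat_lit 7) (nat_lit 9) (nat_lit 5) L345981 (by decide +kernel)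
theorem L345983 : W_1 (nat_lit 5) (nat_lit 0x4000000070003c0012001c00008000000000000000000) (nat_lit 0x0) (nat_lit 0x60003000180000000000008000200010000000000000000000) := T_1 (nat_lit 93) (nat_lit 76) (nat_lit 0) (nat_lit 11) (nat_lit 5) L345982 (by decide +kernel)
theorem L345984 : W_1 (nat_lit 6) (nat_lit 0x4000000070003c0012000c00008000000000000000000) (nat_lit 0x0) (nat_lit 0x60003000180000000000008001200090000000000000000000) := T_1 (nat_lit 96) (nat_lit 79) (nat_lit 6) (nat_lit 10) (nat_lit 8) L345983 (by decide +kernel)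
theorem L345985 : W_1 (nat_lit 7) (nat_lit 0x4000000070003c0012000800008000000000000000000) (nat_lit 0x0) (nat_lit 0x600030001800000000000080016000b0000000000000000000) := T_1 (nat_lit 94) (nat_lit 77) (nat_lit 4) (nat_lit 10) (nat_lit 8) L345984 (by decide +kernel)
theorem L345986 : W_1 (nat_lit 8) (nat_lit 0x4000000070003c0012000000008000000000000000000) (nat_lit 0x0) (nat_lit 0x60003000180000000000008001e000f0000000000000000000) := T_1 (nat_lit 95) (nat_lit 78) (nat_lit 5) (nat_lit 10) (nat_lit 4) L345985 (by decide +kernel)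
theorem L345987 : W_1 (nat_lit 9) (nat_lit 0x4000000070003c0002000000008000000000000000000) (nat_lit 0x0) (nat_lit 0x60003000180000000000038001e000f0000000000000000000) := T_1 (nat_lit 112) (nat_lit 113) (nat_lit 2) (nat_lit 7) (nat_lit 7) L345986 (by decide +kernel)
theorem L345988 : W_1 (nat_lit 10) (nat_lit 0x70003c0002000000008000000000000000000) (nat_lit 0x0) (nat_lit 0x600034001a0000000000038001e000f0000000000000000000) := T_1 (nat_lit 178) (nat_lit 161) (nat_lit 4) (nat_lit 8) (nat_lit 10) L345987 (by decide +kernel)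
theorem L345989 : W_1 (nat_lit 11) (nat_lit 0x30003c0002000000008000000000000000000) (nat_lit 0x0) (nat_lit 0x600034001a000c000000038001e000f0000000000000000000) := T_1 (nat_lit 146) (nat_lit 147) (nat_lit 3) (nat_lit 7) (nat_lit 7) L345988 (by decide +kernel)
theorem L345990 : W_1 (nat_lit 12) (nat_lit 0x30003c0002000000000000000000000000000) (nat_lit 0x0) (nat_lit 0x600034001a000c000000038001f000f8000000000000000000) := T_1 (nat_lit 75) (nat_lit 92) (nat_lit 7) (nat_lit 7) (nat_lit 4) L345989 (by decide +kernel)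
theorem L345991 : W_1 (nat_lit 2) (nat_lit 0x30007c0002000000000000000000000000000) (nat_lit 0x0) (nat_lit 0x1c000000000000000000000000000000000000) := D_1 (nat_lit 147) (nat_lit 146) (nat_lit 148) (nat_lit 3) (nat_lit 7) (nat_lit 7) (nat_lit 3) (nat_lit 8) (nat_lit 7) (by decide +kernel)
theorem L345992 : W_1 (nat_lit 3) (nat_lit 0x30003c0002000000000000000000000000000) (nat_lit 0x0) (nat_lit 0x1c000c00000000000000000000000000000000) := T_1 (nat_lit 130) (nat_lit 131) (nat_lit 1) (nat_lit 12) (nat_lit 7) L345991 (by decide +kernel)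
theorem L345993 : W_1 (nat_lit 14) (nat_lit 0x30001c0002000000000000000000000000000) (nat_lit 0x0) (nat_lit 0x600034001a001c000e00078001f000f8000000000000000000) := Q_1 (nat_lit 129) (C_1 L345953 (C_1 L345960 (C_1 L345971 (C_1 L345977 (C_1 L345979 (C_1 L345990 (C_1 L345992 N_1))))))) (by decide +kernel)
theorem L345994 : W_1 (nat_lit 15) (nat_lit 0x10001c0002000000000000000000000000000) (nat_lit 0x0) (nat_lit 0x600034001a001e000e30078001f000f8000000000000000000) := Q_1 (nat_lit 145) (C_1 L345938 (C_1 L345941 (C_1 L345993 N_1))) (by decide +kernel)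
theorem L345995 : W_1 (nat_lit 2) (nat_lit 0x4000000050003e0002000000000000000000000000000) (nat_lit 0x0) (nat_lit 0x38000000000000000000000000000) := D_1 (nat_lit 112) (nat_lit 111) (nat_lit 113) (nat_lit 2) (nat_lit 6) (nat_lit 7) (nat_lit 2) (nat_lit 7) (nat_lit 7) (by decide +kernel)
theorem L345996 : W_1 (nat_lit 3) (nat_lit 0x4000000050003c0002000000000000000000000000000) (nat_lit 0x0) (nat_lit 0x2000020038000000000000000000000000000) := T_1 (nat_lit 125) (nat_lit 145) (nat_lit 3) (nat_lit 6) (nat_lit 7) L345995 (by decide +kernel)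
theorem L345997 : W_1 (nat_lit 4) (nat_lit 0x4000000010003c0002000000000000000000000000000) (nat_lit 0x0) (nat_lit 0xe000020038000000000000000000000000000) := T_1 (nat_lit 146) (nat_lit 147) (nat_lit 3) (nat_lit 7) (nat_lit 7) L345996 (by decide +kernel)
theorem L345998 : W_1 (nat_lit 5) (nat_lit 0x10003c0002000000000000000000000000000) (nat_lit 0x0) (nat_lit 0x40002000e000020038000000000000000000000000000) := T_1 (nat_lit 178) (nat_lit 161) (nat_lit 4) (nat_lit 8) (nat_lit 10) L345997 (by decide +kernel)
theorem L345999 : W_1 (nat_lit 6) (nat_lit 0x10001c0002000000000000000000000000000) (nat_lit 0x0) (nat_lit 0x40002000e000220039000000000000000000000000000) := T_1 (nat_lit 129) (nat_lit 108) (nat_lit 0) (nat_lit 10) (nat_lit 7) L345998 (by decide +kernel)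
theorem L346000 : W_1 (nat_lit 2) (nat_lit 0x4000000090007c0042000000008000000000000000000) (nat_lit 0x0) (nat_lit 0x2000800080000000000000000000000000000) := D_1 (nat_lit 131) (nat_lit 145) (nat_lit 115) (nat_lit 1) (nat_lit 12) (nat_lit 7) (nat_lit 2) (nat_lit 9) (nat_lit 7) (by decide +kernel)
theorem L346001 : W_1 (nat_lit 3) (nat_lit 0x4000000090007c0002000000008000000000000000000) (nat_lit 0x0) (nat_lit 0x20008000e0000000000000000000000000000) := T_1 (nat_lit 114) (nat_lit 113) (nat_lit 2) (nat_lit 8) (nat_lit 7) L346000 (by decide +kernel)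
theorem L346002 : W_1 (nat_lit 4) (nat_lit 0x4000000090003c0002000000008000000000000000000) (nat_lit 0x0) (nat_lit 0x12000c000e0000000000000000000000000000) := T_1 (nat_lit 130) (nat_lit 148) (nat_lit 3) (nat_lit 8) (nat_lit 7) L346001 (by decide +kernel)
theorem L346003 : W_1 (nat_lit 5) (nat_lit 0x90003c0002000000008000000000000000000) (nat_lit 0x0) (nat_lit 0x400020012000c000e0000000000000000000000000000) := T_1 (nat_lit 178) (nat_lit 161) (nat_lit 4) (nat_lit 8) (nat_lit 10) L346002 (by decide +kernel)
theorem L346004 : W_1 (nat_lit 6) (nat_lit 0x10003c0002000000008000000000000000000) (nat_lit 0x0) (nat_lit 0x40002001e000c000e0000000000000000000000000000) := T_1 (nat_lit 147) (nat_lit 146) (nat_lit 3) (nat_lit 7) (nat_lit 7) L346003 (by decide +kernel)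
theorem L346005 : W_1 (nat_lit 7) (nat_lit 0x10003c0002000000000000000000000000000) (nat_lit 0x0) (nat_lit 0x40002001e000c000e0000100008000000000000000000) := T_1 (nat_lit 75) (nat_lit 92) (nat_lit 7) (nat_lit 7) (nat_lit 4) L346004 (by decide +kernel)
theorem L346006 : W_1 (nat_lit 8) (nat_lit 0x10001c0002000000000000000000000000000) (nat_lit 0x0) (nat_lit 0x40002001e000e000e1000100008000000000000000000) := T_1 (nat_lit 129) (nat_lit 108) (nat_lit 0) (nat_lit 10) (nat_lit 7) L346005 (by decide +kernel)
theorem L346007 : W_1 (nat_lit 16) (nat_lit 0x10000c0002000000000000000000000000000) (nat_lit 0x0) (nat_lit 0x600034001a001e380f3c0f9f01f000f8000000000000000000) := Q_1 (nat_lit 128) (C_1 L285902 (C_1 L345928 (C_1 L285896 (C_1 L345937 (C_1 L345994 (C_1 L345999 (C_1 L346006 N_1))))))) (by decide +kernel)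
theorem L346008 : W_1 (nat_lit 8) (nat_lit 0x10000c0003000000000000000000000000000) (nat_lit 0x0) (nat_lit 0x73003c001fc003c001e00000000000000) := Q_1 (nat_lit 110) (C_1 L284652 (C_1 L284631 (C_1 L284638 N_1))) (by decide +kernel)
theorem L346009 : W_1 (nat_lit 10) (nat_lit 0x10000c0002000000000000000000000000000) (nat_lit 0x0) (nat_lit 0x400030073803dc01fe003c001e00000000000000) := Q_1 (nat_lit 108) (C_1 L346008 (C_1 L284265 (C_1 L284223 (C_1 L284615 N_1)))) (by decide +kernel)
theorem L346010 : W_1 (nat_lit 3) (nat_lit 0x4000000010003c0002000000000000000000000000000) (nat_lit 0x0) (nat_lit 0x1c000400004000000000000000000000000000) := T_1 (nat_lit 130) (nat_lit 110) (nat_lit 0) (nat_lit 11) (nat_lit 7) L314079 (by decide +kernel)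
theorem L346011 : W_1 (nat_lit 4) (nat_lit 0x4000000010001c0002000000000000000000000000000) (nat_lit 0x0) (nat_lit 0x1c000600005000000000000000000000000000) := T_1 (nat_lit 129) (nat_lit 108) (nat_lit 0) (nat_lit 10) (nat_lit 7) L346010 (by decide +kernel)
theorem L346012 : W_1 (nat_lit 5) (nat_lit 0x10001c0002000000000000000000000000000) (nat_lit 0x0) (nat_lit 0x40002001c000600005000000000000000000000000000) := T_1 (nat_lit 178) (nat_lit 161) (nat_lit 4) (nat_lit 8) (nat_lit 10) L346011 (by decide +kernel)
theorem L346013 : W_1 (nat_lit 2) (nat_lit 0x10007c0002000000000000000000000000000) (nat_lit 0x0) (nat_lit 0x1c000000000000000000000000000000000000) := D_1 (nat_lit 147) (nat_lit 146) (nat_lit 148) (nat_lit 3) (nat_lit 7) (nat_lit 7) (nat_lit 3) (nat_lit 8) (nat_lit 7) (by decide +kernel)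
theorem L346014 : W_1 (nat_lit 3) (nat_lit 0x10003c0002000000000000000000000000000) (nat_lit 0x0) (nat_lit 0x1c000400004000000000000000000000000000) := T_1 (nat_lit 130) (nat_lit 110) (nat_lit 0) (nat_lit 11) (nat_lit 7) L346013 (by decide +kernel)
theorem L346015 : W_1 (nat_lit 4) (nat_lit 0x10001c0002000000000000000000000000000) (nat_lit 0x0) (nat_lit 0x1c000600005000000000000000000000000000) := T_1 (nat_lit 129) (nat_lit 108) (nat_lit 0) (nat_lit 10) (nat_lit 7) L346014 (by decide +kernel)
theorem L346016 : W_1 (nat_lit 2) (nat_lit 0x4000000010001f000a000000000000000000000000000) (nat_lit 0x0) (nat_lit 0x1c00000000000000000000000000) := D_1 (nat_lit 107) (nat_lit 108) (nat_lit 106) (nat_lit 0) (nat_lit 9) (nat_lit 7) (nat_lit 0) (nat_lit 8) (nat_lit 7) (by decide +kernel)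
theorem L346017 : W_1 (nat_lit 3) (nat_lit 0x4000000010001e000a000000000000000000000000000) (nat_lit 0x0) (nat_lit 0x10005c00000000000000000000000000) := T_1 (nat_lit 124) (nat_lit 110) (nat_lit 2) (nat_lit 5) (nat_lit 7) L346016 (by decide +kernel)
theorem L346018 : W_1 (nat_lit 4) (nat_lit 0x4000000010001e0002000000000000000000000000000) (nat_lit 0x0) (nat_lit 0x1001dc00000000000000000000000000) := T_1 (nat_lit 111) (nat_lit 112) (nat_lit 2) (nat_lit 6) (nat_lit 7) L346017 (by decide +kernel)
theorem L346019 : W_1 (nat_lit 5) (nat_lit 0x10001e0002000000000000000000000000000) (nat_lit 0x0) (nat_lit 0x40002000000001001dc00000000000000000000000000) := T_1 (nat_lit 178) (nat_lit 161) (nat_lit 4) (nat_lit 8) (nat_lit 10) L346018 (by decide +kernel)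
theorem L346020 : W_1 (nat_lit 2) (nat_lit 0x4000000030001e000b000400000000000000000000000) (nat_lit 0x0) (nat_lit 0x4000800040000000000000000000) := D_1 (nat_lit 95) (nat_lit 78) (nat_lit 110) (nat_lit 6) (nat_lit 9) (nat_lit 8) (nat_lit 2) (nat_lit 6) (nat_lit 6) (by decide +kernel)
theorem L346021 : W_1 (nat_lit 3) (nat_lit 0x4000000030001e000a000400000000000000000000000) (nat_lit 0x0) (nat_lit 0x5800800040000000000000000000) := T_1 (nat_lit 108) (nat_lit 107) (nat_lit 0) (nat_lit 9) (nat_lit 7) L346020 (by decide +kernel)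
theorem L346022 : W_1 (nat_lit 4) (nat_lit 0x4000000030001e000a000000000000000000000000000) (nat_lit 0x0) (nat_lit 0x5800c00060000000000000000000) := T_1 (nat_lit 94) (nat_lit 77) (nat_lit 5) (nat_lit 9) (nat_lit 4) L346021 (by decide +kernel)
theorem L346023 : W_1 (nat_lit 5) (nat_lit 0x4000000010001e000a000000000000000000000000000) (nat_lit 0x0) (nat_lit 0x6000000005800c00060000000000000000000) := T_1 (nat_lit 145) (nat_lit 146) (nat_lit 3) (nat_lit 6) (nat_lit 7) L346022 (by decide +kernel)
theorem L346024 : W_1 (nat_lit 6) (nat_lit 0x10001e000a000000000000000000000000000) (nat_lit 0x0) (nat_lit 0x400020006000000005800c00060000000000000000000) := T_1 (nat_lit 178) (nat_lit 161) (nat_lit 6) (nat_lit 8) (nat_lit 10) L346023 (by decide +kernel)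
theorem L346025 : W_1 (nat_lit 7) (nat_lit 0x10001e0002000000000000000000000000000) (nat_lit 0x0) (nat_lit 0x40002000600000001d800c00060000000000000000000) := T_1 (nat_lit 111) (nat_lit 112) (nat_lit 2) (nat_lit 6) (nat_lit 7) L346024 (by decide +kernel)
theorem L346026 : W_1 (nat_lit 8) (nat_lit 0x10001c0002000000000000000000000000000) (nat_lit 0x0) (nat_lit 0x40002000600003001dc00c00060000000000000000000) := Q_1 (nat_lit 125) (C_1 L345920 (C_1 L346019 (C_1 L346025 N_1))) (by decide +kernel)
theorem L346027 : W_1 (nat_lit 5) (nat_lit 0x4000000010003c0002000000000000000000000000000) (nat_lit 0x0) (nat_lit 0x38000c000e4000000000000000000000000000) := T_1 (nat_lit 130) (nat_lit 110) (nat_lit 0) (nat_lit 11) (nat_lit 7) L314019 (by decide +kernel)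
theorem L346028 : W_1 (nat_lit 6) (nat_lit 0x4000000010001c0002000000000000000000000000000) (nat_lit 0x0) (nat_lit 0x38000e000e5000000000000000000000000000) := T_1 (nat_lit 129) (nat_lit 108) (nat_lit 0) (nat_lit 10) (nat_lit 7) L346027 (by decide +kernel)
theorem L346029 : W_1 (nat_lit 7) (nat_lit 0x10001c0002000000000000000000000000000) (nat_lit 0x0) (nat_lit 0x400020038000e000e5000000000000000000000000000) := T_1 (nat_lit 178) (nat_lit 161) (nat_lit 4) (nat_lit 8) (nat_lit 10) L346028 (by decide +kernel)
theorem L346030 : W_1 (nat_lit 2) (nat_lit 0x4000000010001e000a000000020000000000000000000) (nat_lit 0x0) (nat_lit 0x2000010004000000000000000000000000000) := D_1 (nat_lit 124) (nat_lit 110) (nat_lit 145) (nat_lit 2) (nat_lit 5) (nat_lit 7) (nat_lit 3) (nat_lit 5) (nat_lit 7) (by decide +kernel)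
theorem L346031 : W_1 (nat_lit 3) (nat_lit 0x4000000010001c000a000000020000000000000000000) (nat_lit 0x0) (nat_lit 0x2000030014000000000000000000000000000) := T_1 (nat_lit 125) (nat_lit 112) (nat_lit 2) (nat_lit 6) (nat_lit 7) L346030 (by decide +kernel)
theorem L346032 : W_1 (nat_lit 4) (nat_lit 0x4000000010001c000a000000000000000000000000000) (nat_lit 0x0) (nat_lit 0x2000030014000400020000000000000000000) := T_1 (nat_lit 77) (nat_lit 94) (nat_lit 5) (nat_lit 9) (nat_lit 4) L346031 (by decide +kernel)
theorem L346033 : W_1 (nat_lit 5) (nat_lit 0x10001c000a000000000000000000000000000) (nat_lit 0x0) (nat_lit 0x400020002000030014000400020000000000000000000) := T_1 (nat_lit 178) (nat_lit 161) (nat_lit 6) (nat_lit 8) (nat_lit 10) L346032 (by decide +kernel)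
theorem L346034 : W_1 (nat_lit 4) (nat_lit 0x10001f000a000000000000000000000000000) (nat_lit 0x0) (nat_lit 0x380008000e00000000000000000000000000) := T_1 (nat_lit 140) (nat_lit 141) (nat_lit 1) (nat_lit 8) (nat_lit 7) L340071 (by decide +kernel)
theorem L346035 : W_1 (nat_lit 5) (nat_lit 0x10001e000a000000000000000000000000000) (nat_lit 0x0) (nat_lit 0x380018004e00000000000000000000000000) := T_1 (nat_lit 124) (nat_lit 110) (nat_lit 2) (nat_lit 5) (nat_lit 7) L346034 (by decide +kernel)
theorem L346036 : W_1 (nat_lit 6) (nat_lit 0x10001c000a000000000000000000000000000) (nat_lit 0x0) (nat_lit 0x380038014e00000000000000000000000000) := T_1 (nat_lit 125) (nat_lit 112) (nat_lit 2) (nat_lit 6) (nat_lit 7) L346035 (by decide +kernel)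
theorem L346037 : W_1 (nat_lit 2) (nat_lit 0x4000000010001e000a000000000000000000000000000) (nat_lit 0x0) (nat_lit 0x6000010000000000000000000000000000000) := D_1 (nat_lit 145) (nat_lit 124) (nat_lit 146) (nat_lit 3) (nat_lit 5) (nat_lit 7) (nat_lit 3) (nat_lit 6) (nat_lit 7) (by decide +kernel)
theorem L346038 : W_1 (nat_lit 3) (nat_lit 0x4000000010001c000a000000000000000000000000000) (nat_lit 0x0) (nat_lit 0x6000030010000000000000000000000000000) := T_1 (nat_lit 125) (nat_lit 112) (nat_lit 2) (nat_lit 6) (nat_lit 7) L346037 (by decide +kernel)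
theorem L346039 : W_1 (nat_lit 4) (nat_lit 0x10001c000a000000000000000000000000000) (nat_lit 0x0) (nat_lit 0x400020006000030010000000000000000000000000000) := T_1 (nat_lit 178) (nat_lit 161) (nat_lit 6) (nat_lit 8) (nat_lit 10) L346038 (by decide +kernel)
theorem L346040 : W_1 (nat_lit 2) (nat_lit 0x10001c000a000400000000000000000000000) (nat_lit 0x0) (nat_lit 0x400020002000000000000000000000000000000000000) := D_1 (nat_lit 161) (nat_lit 178) (nat_lit 145) (nat_lit 6) (nat_lit 8) (nat_lit 10) (nat_lit 5) (nat_lit 9) (nat_lit 5) (by decide +kernel)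
theorem L346041 : W_1 (nat_lit 3) (nat_lit 0x10001c000a000000000000000000000000000) (nat_lit 0x0) (nat_lit 0x400020002000000000000400020000000000000000000) := T_1 (nat_lit 94) (nat_lit 77) (nat_lit 5) (nat_lit 9) (nat_lit 4) L346040 (by decide +kernel)
theorem L346042 : W_1 (nat_lit 7) (nat_lit 0x10001c0002000000000000000000000000000) (nat_lit 0x0) (nat_lit 0x40002000638003801ce00400020000000000000000000) := Q_1 (nat_lit 111) (C_1 L346033 (C_1 L346036 (C_1 L346039 (C_1 L346041 N_1)))) (by decide +kernel)
theorem L346043 : W_1 (nat_lit 9) (nat_lit 0x10000c0002000000000000000000000000000) (nat_lit 0x0) (nat_lit 0x40002003e380f380fde00c00060000000000000000000) := Q_1 (nat_lit 128) (C_1 L345999 (C_1 L346012 (C_1 L346015 (C_1 L346026 (C_1 L346029 (C_1 L346042 N_1)))))) (by decide +kernel)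
theorem L346044 : W_1 (nat_lit 17) (nat_lit 0x10000c0000000000000000000000000000000) (nat_lit 0x0) (nat_lit 0x600034001a403e380f3c0fff01fe00fc001e00000000000000) := Q_1 (nat_lit 109) (C_1 L346007 (C_1 L284220 (C_1 L346009 (C_1 L346043 N_1)))) (by decide +kernel)
theorem L346045 : W_1 (nat_lit 2) (nat_lit 0x200014001e0009000000000000000000000000000) (nat_lit 0x0) (nat_lit 0x4000400020000000000000000000) := D_1 (nat_lit 94) (nat_lit 77) (nat_lit 110) (nat_lit 5) (nat_lit 9) (nat_lit 4) (nat_lit 6) (nat_lit 8) (nat_lit 9) (by decide +kernel)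
theorem L346046 : W_1 (nat_lit 3) (nat_lit 0x14001e0009000000000000000000000000000) (nat_lit 0x0) (nat_lit 0x400020000000000004000400020000000000000000000) := T_1 (nat_lit 161) (nat_lit 178) (nat_lit 6) (nat_lit 8) (nat_lit 10) L346045 (by decide +kernel)
theorem L346047 : W_1 (nat_lit 4) (nat_lit 0x14001e0008000000000000000000000000000) (nat_lit 0x0) (nat_lit 0x400020000000000005800400020000000000000000000) := T_1 (nat_lit 108) (nat_lit 107) (nat_lit 0) (nat_lit 9) (nat_lit 7) L346046 (by decide +kernel)
theorem L346048 : W_1 (nat_lit 5) (nat_lit 0x14001e0000000000000000000000000000000) (nat_lit 0x0) (nat_lit 0x40002000000000001d800400020000000000000000000) := T_1 (nat_lit 111) (nat_lit 112) (nat_lit 2) (nat_lit 6) (nat_lit 7) L346047 (by decide +kernel)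
theorem L346049 : W_1 (nat_lit 6) (nat_lit 0x10001e0000000000000000000000000000000) (nat_lit 0x0) (nat_lit 0x40002000060000001d800400020000000000000000000) := T_1 (nat_lit 142) (nat_lit 141) (nat_lit 1) (nat_lit 9) (nat_lit 7) L346048 (by decide +kernel)
theorem L346053 : W_1 (nat_lit 2) (nat_lit 0x10001e0002000100000000000000000000000) (nat_lit 0x0) (nat_lit 0x400020000000000004000000000000000000000000000) := D_1 (nat_lit 161) (nat_lit 178) (nat_lit 110) (nat_lit 4) (nat_lit 8) (nat_lit 10) (nat_lit 4) (nat_lit 8) (nat_lit 9) (by decide +kernel)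
theorem L346054 : W_1 (nat_lit 3) (nat_lit 0x10001e0002000000000000000000000000000) (nat_lit 0x0) (nat_lit 0x400020000000000004000100008000000000000000000) := T_1 (nat_lit 92) (nat_lit 75) (nat_lit 7) (nat_lit 7) (nat_lit 4) L346053 (by decide +kernel)
theorem L346055 : W_1 (nat_lit 2) (nat_lit 0x380014001e0003000000000000000000000000000) (nat_lit 0x0) (nat_lit 0x80004002000000000000000000000000000000000000) := D_1 (nat_lit 158) (nat_lit 145) (nat_lit 175) (nat_lit 2) (nat_lit 5) (nat_lit 9) (nat_lit 5) (nat_lit 6) (nat_lit 6) (by decide +kernel)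
theorem L346056 : W_1 (nat_lit 3) (nat_lit 0x280014001e0003000000000000000000000000000) (nat_lit 0x0) (nat_lit 0x280014002000000000000000000000000000000000000) := T_1 (nat_lit 160) (nat_lit 177) (nat_lit 7) (nat_lit 6) (nat_lit 6) L346055 (by decide +kernel)
theorem L346057 : W_1 (nat_lit 4) (nat_lit 0x80014001e0003000000000000000000000000000) (nat_lit 0x0) (nat_lit 0x680034002000000000000000000000000000000000000) := T_1 (nat_lit 161) (nat_lit 178) (nat_lit 4) (nat_lit 8) (nat_lit 10) L346056 (by decide +kernel)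
theorem L346058 : W_1 (nat_lit 5) (nat_lit 0x14001e0003000000000000000000000000000) (nat_lit 0x0) (nat_lit 0x78003c002000000000000000000000000000000000000) := T_1 (nat_lit 159) (nat_lit 176) (nat_lit 6) (nat_lit 6) (nat_lit 10) L346057 (by decide +kernel)
theorem L346059 : W_1 (nat_lit 6) (nat_lit 0x14001e0002000000000000000000000000000) (nat_lit 0x0) (nat_lit 0x78003c002000000001800000000000000000000000000) := T_1 (nat_lit 108) (nat_lit 107) (nat_lit 0) (nat_lit 9) (nat_lit 7) L346058 (by decide +kernel)
theorem L346060 : W_1 (nat_lit 7) (nat_lit 0x10001e0002000000000000000000000000000) (nat_lit 0x0) (nat_lit 0x78003c002600000001800000000000000000000000000) := T_1 (nat_lit 142) (nat_lit 141) (nat_lit 1) (nat_lit 9) (nat_lit 7) L346059 (by decide +kernel)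
theorem L346064 : W_1 (nat_lit 5) (nat_lit 0x4000000010000f0002000000000000000000000000000) (nat_lit 0x0) (nat_lit 0x38000c001700000000000000000000000000) := T_1 (nat_lit 140) (nat_lit 141) (nat_lit 1) (nat_lit 8) (nat_lit 7) L344117 (by decide +kernel)
theorem L346065 : W_1 (nat_lit 6) (nat_lit 0x4000000010000e0002000000000000000000000000000) (nat_lit 0x0) (nat_lit 0x238001c001700000000000000000000000000) := T_1 (nat_lit 124) (nat_lit 145) (nat_lit 3) (nat_lit 5) (nat_lit 7) L346064 (by decide +kernel)
theorem L346066 : W_1 (nat_lit 7) (nat_lit 0x10000e0002000000000000000000000000000) (nat_lit 0x0) (nat_lit 0x40002000238001c001700000000000000000000000000) := T_1 (nat_lit 178) (nat_lit 161) (nat_lit 4) (nat_lit 8) (nat_lit 10) L346065 (by decide +kernel)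
theorem L346067 : W_1 (nat_lit 5) (nat_lit 0x10000e0002000000008000000000000000000) (nat_lit 0x0) (nat_lit 0x2380018000e00000000000000000000000000) := T_1 (nat_lit 124) (nat_lit 145) (nat_lit 3) (nat_lit 5) (nat_lit 7) L287989 (by decide +kernel)
theorem L346068 : W_1 (nat_lit 6) (nat_lit 0x10000e0002000000000000000000000000000) (nat_lit 0x0) (nat_lit 0x2380018000e00100008000000000000000000) := T_1 (nat_lit 75) (nat_lit 92) (nat_lit 7) (nat_lit 7) (nat_lit 4) L346067 (by decide +kernel)
theorem L346202 : W_1 (nat_lit 2) (nat_lit 0x14000e0003800000000000000000000000000) (nat_lit 0x0) (nat_lit 0x100008000000000000000040000000000000000000000) := D_1 (nat_lit 159) (nat_lit 176) (nat_lit 90) (nat_lit 6) (nat_lit 6) (nat_lit 10) (nat_lit 4) (nat_lit 6) (nat_lit 9) (by decide +kernel)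
theorem L351028 : W_1 (nat_lit 2) (nat_lit 0x80014000f0002800000000000000000000000000) (nat_lit 0x0) (nat_lit 0x1000040002000000000000000000) := D_1 (nat_lit 90) (nat_lit 73) (nat_lit 108) (nat_lit 7) (nat_lit 5) (nat_lit 4) (nat_lit 4) (nat_lit 6) (nat_lit 9) (by decide +kernel)
theorem L351029 : W_1 (nat_lit 3) (nat_lit 0x14000f0002800000000000000000000000000) (nat_lit 0x0) (nat_lit 0x100008000000000001000040002000000000000000000) := T_1 (nat_lit 159) (nat_lit 176) (nat_lit 6) (nat_lit 6) (nat_lit 10) L351028 (by decide +kernel)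
theorem L351030 : W_1 (nat_lit 4) (nat_lit 0x14000f0002000000000000000000000000000) (nat_lit 0x0) (nat_lit 0x100008000000000001c00040002000000000000000000) := T_1 (nat_lit 107) (nat_lit 106) (nat_lit 0) (nat_lit 8) (nat_lit 7) L351029 (by decide +kernel)
theorem L351032 : W_1 (nat_lit 2) (nat_lit 0x80014000e0002000000000000000000000000000) (nat_lit 0x0) (nat_lit 0x1000100008000000000000000000) := D_1 (nat_lit 92) (nat_lit 75) (nat_lit 108) (nat_lit 7) (nat_lit 7) (nat_lit 4) (nat_lit 6) (nat_lit 6) (nat_lit 9) (by decide +kernel)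
theorem L351033 : W_1 (nat_lit 3) (nat_lit 0x14000e0002000000000000000000000000000) (nat_lit 0x0) (nat_lit 0x100008000000000001000100008000000000000000000) := T_1 (nat_lit 159) (nat_lit 176) (nat_lit 6) (nat_lit 6) (nat_lit 10) L351032 (by decide +kernel)
theorem L351050 : W_1 (nat_lit 2) (nat_lit 0x16000f0003000000000000000000000000000) (nat_lit 0x0) (nat_lit 0x80004000000000000000080000000000000000000000) := D_1 (nat_lit 158) (nat_lit 175) (nat_lit 91) (nat_lit 6) (nat_lit 5) (nat_lit 10) (nat_lit 5) (nat_lit 6) (nat_lit 5) (by decide +kernel)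
theorem L351051 : W_1 (nat_lit 3) (nat_lit 0x14000f0003000000000000000000000000000) (nat_lit 0x0) (nat_lit 0x80004000300000000000080000000000000000000000) := T_1 (nat_lit 141) (nat_lit 140) (nat_lit 1) (nat_lit 8) (nat_lit 7) L351050 (by decide +kernel)
theorem L351096 : W_1 (nat_lit 3) (nat_lit 0x14000e0003000000000000000000000000000) (nat_lit 0x0) (nat_lit 0x100008000000000000c00040000000000000000000000) := T_1 (nat_lit 107) (nat_lit 106) (nat_lit 3) (nat_lit 4) (nat_lit 6) L346202 (by decide +kernel)
theorem L351354 : W_1 (nat_lit 2) (nat_lit 0x14000e0003000080004000000000000000000) (nat_lit 0x0) (nat_lit 0x40002000100000000000000) := D_1 (nat_lit 73) (nat_lit 56) (nat_lit 90) (nat_lit 4) (nat_lit 6) (nat_lit 7) (nat_lit 4) (nat_lit 6) (nat_lit 8) (by decide +kernel)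
theorem L353623 : W_1 (nat_lit 4) (nat_lit 0x4000000010000fc002000000000000000000000000000) (nat_lit 0x0) (nat_lit 0xe0002000380000000000000000000000000) := T_1 (nat_lit 138) (nat_lit 139) (nat_lit 1) (nat_lit 6) (nat_lit 7) L342848 (by decide +kernel)
theorem L353624 : W_1 (nat_lit 5) (nat_lit 0x4000000010000f8002000000000000000000000000000) (nat_lit 0x0) (nat_lit 0xe0006001380000000000000000000000000) := T_1 (nat_lit 122) (nat_lit 108) (nat_lit 2) (nat_lit 3) (nat_lit 7) L353623 (by decide +kernel)
theorem L359670 : W_1 (nat_lit 2) (nat_lit 0x14000e0017800040000000000000000000000) (nat_lit 0x0) (nat_lit 0x80002000100000000000000) := D_1 (nat_lit 73) (nat_lit 56) (nat_lit 91) (nat_lit 7) (nat_lit 5) (nat_lit 3) (nat_lit 4) (nat_lit 6) (nat_lit 8) (by decide +kernel)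
theorem L359690 : W_1 (nat_lit 3) (nat_lit 0x14000e0003000080000000000000000000000) (nat_lit 0x0) (nat_lit 0x40006000300000000000000) := T_1 (nat_lit 74) (nat_lit 57) (nat_lit 7) (nat_lit 6) (nat_lit 3) L351354 (by decide +kernel)
theorem L359691 : W_1 (nat_lit 2) (nat_lit 0x14000e00030000e0000000000000000000000) (nat_lit 0x0) (nat_lit 0xc000100000000000000000000000) := D_1 (nat_lit 110) (nat_lit 111) (nat_lit 92) (nat_lit 0) (nat_lit 9) (nat_lit 6) (nat_lit 3) (nat_lit 4) (nat_lit 5) (by decide +kernel)
theorem L359692 : W_1 (nat_lit 3) (nat_lit 0x14000e00030000c0000000000000000000000) (nat_lit 0x0) (nat_lit 0xc000130000000000000000000000) := T_1 (nat_lit 89) (nat_lit 88) (nat_lit 3) (nat_lit 3) (nat_lit 5) L359691 (by decide +kernel)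
theorem L359693 : W_1 (nat_lit 4) (nat_lit 0x14000e0003000080000000000000000000000) (nat_lit 0x0) (nat_lit 0xc000170002000000000000000000) := T_1 (nat_lit 90) (nat_lit 73) (nat_lit 4) (nat_lit 6) (nat_lit 8) L359692 (by decide +kernel)
theorem L359694 : W_1 (nat_lit 5) (nat_lit 0x14000e0003000000000000000000000000000) (nat_lit 0x0) (nat_lit 0xc0001f000e000700000000000000) := Q_1 (nat_lit 91) (C_1 L284246 (C_1 L359690 (C_1 L359693 N_1))) (by decide +kernel)
theorem L359695 : W_1 (nat_lit 2) (nat_lit 0xc0014000e0003000080002000000000000000000) (nat_lit 0x0) (nat_lit 0x4000300000000000000) := D_1 (nat_lit 74) (nat_lit 57) (nat_lit 56) (nat_lit 7) (nat_lit 6) (nat_lit 3) (nat_lit 4) (nat_lit 6) (nat_lit 7) (by decide +kernel)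
theorem L359696 : W_1 (nat_lit 3) (nat_lit 0xc0014000e0003000080000000000000000000000) (nat_lit 0x0) (nat_lit 0x40006000300000000000000) := T_1 (nat_lit 73) (nat_lit 90) (nat_lit 4) (nat_lit 6) (nat_lit 8) L359695 (by decide +kernel)
theorem L359697 : W_1 (nat_lit 4) (nat_lit 0xc0014000e0003000000000000000000000000000) (nat_lit 0x0) (nat_lit 0x2000000000000c0006000300000000000000) := T_1 (nat_lit 91) (nat_lit 141) (nat_lit 5) (nat_lit 6) (nat_lit 5) L359696 (by decide +kernel)
theorem L359698 : W_1 (nat_lit 5) (nat_lit 0x80014000e0003000000000000000000000000000) (nat_lit 0x0) (nat_lit 0x800040002000000000000c0006000300000000000000) := T_1 (nat_lit 158) (nat_lit 175) (nat_lit 5) (nat_lit 6) (nat_lit 6) L359697 (by decide +kernel)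
theorem L359699 : W_1 (nat_lit 6) (nat_lit 0x14000e0003000000000000000000000000000) (nat_lit 0x0) (nat_lit 0x18000c0002000000000000c0006000300000000000000) := T_1 (nat_lit 159) (nat_lit 176) (nat_lit 6) (nat_lit 6) (nat_lit 10) L359698 (by decide +kernel)
theorem L359700 : W_1 (nat_lit 7) (nat_lit 0x10000e0003000000000000000000000000000) (nat_lit 0x0) (nat_lit 0x18000c00060000000c0001f000e000700000000000000) := Q_1 (nat_lit 142) (C_1 L284244 (C_1 L359694 (C_1 L359699 N_1))) (by decide +kernel)
theorem L359745 : W_1 (nat_lit 2) (nat_lit 0x14000e000f400400000000000000000000000) (nat_lit 0x0) (nat_lit 0x200020001000000000000000) := D_1 (nat_lit 77) (nat_lit 60) (nat_lit 93) (nat_lit 5) (nat_lit 9) (nat_lit 3) (nat_lit 6) (nat_lit 8) (nat_lit 8) (by decide +kernel)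
theorem L359746 : W_1 (nat_lit 3) (nat_lit 0x14000e000f400000000000000000000000000) (nat_lit 0x0) (nat_lit 0xe00020001000000000000000) := T_1 (nat_lit 94) (nat_lit 95) (nat_lit 2) (nat_lit 6) (nat_lit 6) L359745 (by decide +kernel)
theorem L359747 : W_1 (nat_lit 4) (nat_lit 0x14000e0007400000000000000000000000000) (nat_lit 0x0) (nat_lit 0x18000e00020001000000000000000) := T_1 (nat_lit 111) (nat_lit 112) (nat_lit 1) (nat_lit 10) (nat_lit 6) L359746 (by decide +kernel)
theorem L359748 : W_1 (nat_lit 5) (nat_lit 0x14000e0007000000000000000000000000000) (nat_lit 0x0) (nat_lit 0x18c00e00020001000000000000000) := T_1 (nat_lit 106) (nat_lit 107) (nat_lit 3) (nat_lit 4) (nat_lit 6) L359747 (by decide +kernel)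
theorem L359749 : W_1 (nat_lit 3) (nat_lit 0x14000e0017800000000000000000000000000) (nat_lit 0x0) (nat_lit 0xe0002000100000000000000) := T_1 (nat_lit 90) (nat_lit 89) (nat_lit 0) (nat_lit 8) (nat_lit 6) L359670 (by decide +kernel)
theorem L359750 : W_1 (nat_lit 4) (nat_lit 0x14000e0017000000000000000000000000000) (nat_lit 0x0) (nat_lit 0xc000e0002000100000000000000) := T_1 (nat_lit 107) (nat_lit 106) (nat_lit 3) (nat_lit 4) (nat_lit 6) L359749 (by decide +kernel)
theorem L359751 : W_1 (nat_lit 5) (nat_lit 0x14000e0007000000000000000000000000000) (nat_lit 0x0) (nat_lit 0x18c000e0002000100000000000000) := T_1 (nat_lit 112) (nat_lit 111) (nat_lit 1) (nat_lit 10) (nat_lit 6) L359750 (by decide +kernel)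
theorem L359752 : W_1 (nat_lit 2) (nat_lit 0x14000e0007800240000000000000000000000) (nat_lit 0x0) (nat_lit 0x80002000100000000000000) := D_1 (nat_lit 73) (nat_lit 91) (nat_lit 56) (nat_lit 4) (nat_lit 6) (nat_lit 8) (nat_lit 7) (nat_lit 5) (nat_lit 3) (by decide +kernel)
theorem L359753 : W_1 (nat_lit 3) (nat_lit 0x14000e0007800200000000000000000000000) (nat_lit 0x0) (nat_lit 0xe0002000100000000000000) := T_1 (nat_lit 90) (nat_lit 89) (nat_lit 0) (nat_lit 8) (nat_lit 6) L359752 (by decide +kernel)
theorem L359754 : W_1 (nat_lit 4) (nat_lit 0x14000e0007800000000000000000000000000) (nat_lit 0x0) (nat_lit 0x6e0002000100000000000000) := T_1 (nat_lit 93) (nat_lit 94) (nat_lit 2) (nat_lit 5) (nat_lit 6) L359753 (by decide +kernel)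
theorem L359755 : W_1 (nat_lit 5) (nat_lit 0x14000e0007000000000000000000000000000) (nat_lit 0x0) (nat_lit 0xc006e0002000100000000000000) := T_1 (nat_lit 107) (nat_lit 106) (nat_lit 3) (nat_lit 4) (nat_lit 6) L359754 (by decide +kernel)
theorem L359756 : W_1 (nat_lit 2) (nat_lit 0x14000e000f000480000000000000000000000) (nat_lit 0x0) (nat_lit 0x200020001000000000000000) := D_1 (nat_lit 77) (nat_lit 60) (nat_lit 93) (nat_lit 5) (nat_lit 9) (nat_lit 3) (nat_lit 6) (nat_lit 8) (nat_lit 8) (by decide +kernel)
theorem L359757 : W_1 (nat_lit 3) (nat_lit 0x14000e000f000080000000000000000000000) (nat_lit 0x0) (nat_lit 0xe00020001000000000000000) := T_1 (nat_lit 94) (nat_lit 95) (nat_lit 2) (nat_lit 6) (nat_lit 6) L359756 (by decide +kernel)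
theorem L359758 : W_1 (nat_lit 4) (nat_lit 0x14000e000f000000000000000000000000000) (nat_lit 0x0) (nat_lit 0xec0020001000000000000000) := T_1 (nat_lit 91) (nat_lit 90) (nat_lit 0) (nat_lit 9) (nat_lit 6) L359757 (by decide +kernel)
theorem L359759 : W_1 (nat_lit 5) (nat_lit 0x14000e0007000000000000000000000000000) (nat_lit 0x0) (nat_lit 0x18000ec0020001000000000000000) := T_1 (nat_lit 111) (nat_lit 112) (nat_lit 1) (nat_lit 10) (nat_lit 6) L359758 (by decide +kernel)
theorem L359760 : W_1 (nat_lit 6) (nat_lit 0x14000e0003000000000000000000000000000) (nat_lit 0x0) (nat_lit 0x1cc00ee0022001100000000000000) := Q_1 (nat_lit 110) (C_1 L359748 (C_1 L359751 (C_1 L359755 (C_1 L359759 N_1)))) (by decide +kernel)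
theorem L359761 : W_1 (nat_lit 2) (nat_lit 0x14000e0007000600000000000000000000000) (nat_lit 0x0) (nat_lit 0x8001800000000000000000000000) := D_1 (nat_lit 95) (nat_lit 96) (nat_lit 111) (nat_lit 1) (nat_lit 11) (nat_lit 5) (nat_lit 2) (nat_lit 6) (nat_lit 6) (by decide +kernel)
theorem L359762 : W_1 (nat_lit 3) (nat_lit 0x14000e0006000600000000000000000000000) (nat_lit 0x0) (nat_lit 0x9801800000000000000000000000) := T_1 (nat_lit 108) (nat_lit 107) (nat_lit 2) (nat_lit 5) (nat_lit 6) L359761 (by decide +kernel)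
theorem L359763 : W_1 (nat_lit 4) (nat_lit 0x14000e0006000200000000000000000000000) (nat_lit 0x0) (nat_lit 0x9801c00020000000000000000000) := T_1 (nat_lit 94) (nat_lit 77) (nat_lit 6) (nat_lit 8) (nat_lit 8) L359762 (by decide +kernel)
theorem L359777 : W_1 (nat_lit 3) (nat_lit 0x14000e0006000200000000000000000000000) (nat_lit 0x0) (nat_lit 0x400030001800000000000000) := T_1 (nat_lit 76) (nat_lit 59) (nat_lit 5) (nat_lit 8) (nat_lit 3) L170919 (by decide +kernel)
theorem L359778 : W_1 (nat_lit 2) (nat_lit 0x14000e0016000700000000000000000000000) (nat_lit 0x0) (nat_lit 0x20001800000000000000000000000) := D_1 (nat_lit 95) (nat_lit 113) (nat_lit 96) (nat_lit 3) (nat_lit 7) (nat_lit 5) (nat_lit 1) (nat_lit 11) (nat_lit 5) (by decide +kernel)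
theorem L359779 : W_1 (nat_lit 3) (nat_lit 0x14000e0016000300000000000000000000000) (nat_lit 0x0) (nat_lit 0x20001c00020000000000000000000) := T_1 (nat_lit 94) (nat_lit 77) (nat_lit 6) (nat_lit 8) (nat_lit 8) L359778 (by decide +kernel)
theorem L359780 : W_1 (nat_lit 4) (nat_lit 0x14000e0016000200000000000000000000000) (nat_lit 0x0) (nat_lit 0x20001d00028000000000000000000) := T_1 (nat_lit 92) (nat_lit 75) (nat_lit 7) (nat_lit 7) (nat_lit 4) L359779 (by decide +kernel)
theorem L359781 : W_1 (nat_lit 5) (nat_lit 0x14000e0006000200000000000000000000000) (nat_lit 0x0) (nat_lit 0x38001d00028000000000000000000) := T_1 (nat_lit 112) (nat_lit 111) (nat_lit 1) (nat_lit 10) (nat_lit 6) L359780 (by decide +kernel)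
theorem L359782 : W_1 (nat_lit 6) (nat_lit 0x14000e0002000200000000000000000000000) (nat_lit 0x0) (nat_lit 0x3c001d00038001c00000000000000) := Q_1 (nat_lit 110) (C_1 L181939 (C_1 L359777 (C_1 L359781 N_1))) (by decide +kernel)
theorem L360321 : W_1 (nat_lit 5) (nat_lit 0x200010000e0000000000000000000000000000000) (nat_lit 0x0) (nat_lit 0x28001c000e00000000000000002000000000000000000000000000) := T_1 (nat_lit 178) (nat_lit 109) (nat_lit 4) (nat_lit 8) (nat_lit 10) L325473 (by decide +kernel)
theorem L363776 : W_1 (nat_lit 2) (nat_lit 0x14000e0017800340000000000000000000000) (nat_lit 0x0) (nat_lit 0x80002000100000000000000) := D_1 (nat_lit 73) (nat_lit 56) (nat_lit 91) (nat_lit 7) (nat_lit 5) (nat_lit 3) (nat_lit 4) (nat_lit 6) (nat_lit 8) (by decide +kernel)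
theorem L363777 : W_1 (nat_lit 3) (nat_lit 0x10000e0017800340000000000000000000000) (nat_lit 0x0) (nat_lit 0x8000400000000000080002000100000000000000) := T_1 (nat_lit 142) (nat_lit 159) (nat_lit 6) (nat_lit 6) (nat_lit 9) L363776 (by decide +kernel)
theorem L363778 : W_1 (nat_lit 4) (nat_lit 0x10000e0017800300000000000000000000000) (nat_lit 0x0) (nat_lit 0x80004000000000000e0002000100000000000000) := T_1 (nat_lit 90) (nat_lit 89) (nat_lit 0) (nat_lit 8) (nat_lit 6) L363777 (by decide +kernel)
theorem L363779 : W_1 (nat_lit 5) (nat_lit 0x10000e0007800300000000000000000000000) (nat_lit 0x0) (nat_lit 0x80004000000180000e0002000100000000000000) := T_1 (nat_lit 112) (nat_lit 111) (nat_lit 1) (nat_lit 10) (nat_lit 6) L363778 (by decide +kernel)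
theorem L363780 : W_1 (nat_lit 6) (nat_lit 0x10000e0007000300000000000000000000000) (nat_lit 0x0) (nat_lit 0x8000400000018c000e0002000100000000000000) := T_1 (nat_lit 107) (nat_lit 106) (nat_lit 3) (nat_lit 4) (nat_lit 6) L363779 (by decide +kernel)
theorem L363781 : W_1 (nat_lit 7) (nat_lit 0x10000e0007000200000000000000000000000) (nat_lit 0x0) (nat_lit 0x8000400000018c001e000a000100000000000000) := T_1 (nat_lit 92) (nat_lit 75) (nat_lit 7) (nat_lit 7) (nat_lit 4) L363780 (by decide +kernel)
theorem L363782 : W_1 (nat_lit 2) (nat_lit 0x10000e000f000280008000000000000000000) (nat_lit 0x0) (nat_lit 0x4000600000000000000) := D_1 (nat_lit 74) (nat_lit 58) (nat_lit 57) (nat_lit 6) (nat_lit 6) (nat_lit 7) (nat_lit 7) (nat_lit 6) (nat_lit 3) (by decide +kernel)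
theorem L363783 : W_1 (nat_lit 3) (nat_lit 0x10000e000f000200008000000000000000000) (nat_lit 0x0) (nat_lit 0xc0004000600000000000000) := T_1 (nat_lit 91) (nat_lit 90) (nat_lit 0) (nat_lit 9) (nat_lit 6) L363782 (by decide +kernel)
theorem L363784 : W_1 (nat_lit 4) (nat_lit 0x10000e0007000200008000000000000000000) (nat_lit 0x0) (nat_lit 0x180000c0004000600000000000000) := T_1 (nat_lit 111) (nat_lit 112) (nat_lit 1) (nat_lit 10) (nat_lit 6) L363783 (by decide +kernel)
theorem L363785 : W_1 (nat_lit 5) (nat_lit 0x10000e0007000200000000000000000000000) (nat_lit 0x0) (nat_lit 0x180001c000c000600000000000000) := T_1 (nat_lit 75) (nat_lit 92) (nat_lit 7) (nat_lit 7) (nat_lit 4) L363784 (by decide +kernel)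
theorem L363786 : W_1 (nat_lit 8) (nat_lit 0x10000e0006000200000000000000000000000) (nat_lit 0x0) (nat_lit 0x8000400000019c005e000e000700000000000000) := Q_1 (nat_lit 108) (C_1 L64090 (C_1 L363781 (C_1 L363785 N_1))) (by decide +kernel)
theorem L363806 : W_1 (nat_lit 2) (nat_lit 0x14000e0017800240000000000000000000000) (nat_lit 0x0) (nat_lit 0x80002000100000000000000) := D_1 (nat_lit 73) (nat_lit 56) (nat_lit 91) (nat_lit 7) (nat_lit 5) (nat_lit 3) (nat_lit 4) (nat_lit 6) (nat_lit 8) (by decide +kernel)
theorem L363807 : W_1 (nat_lit 3) (nat_lit 0x10000e0017800240000000000000000000000) (nat_lit 0x0) (nat_lit 0x8000400000000000080002000100000000000000) := T_1 (nat_lit 142) (nat_lit 159) (nat_lit 4) (nat_lit 6) (nat_lit 9) L363806 (by decide +kernel)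
theorem L363808 : W_1 (nat_lit 4) (nat_lit 0x10000e0017800200000000000000000000000) (nat_lit 0x0) (nat_lit 0x80004000000000000e0002000100000000000000) := T_1 (nat_lit 90) (nat_lit 89) (nat_lit 0) (nat_lit 8) (nat_lit 6) L363807 (by decide +kernel)
theorem L363809 : W_1 (nat_lit 5) (nat_lit 0x10000e0007800200000000000000000000000) (nat_lit 0x0) (nat_lit 0x80004000000180000e0002000100000000000000) := T_1 (nat_lit 112) (nat_lit 111) (nat_lit 1) (nat_lit 10) (nat_lit 6) L363808 (by decide +kernel)
theorem L363810 : W_1 (nat_lit 6) (nat_lit 0x10000e0007000200000000000000000000000) (nat_lit 0x0) (nat_lit 0x8000400000018c000e0002000100000000000000) := T_1 (nat_lit 107) (nat_lit 106) (nat_lit 3) (nat_lit 4) (nat_lit 6) L363809 (by decide +kernel)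
theorem L363829 : W_1 (nat_lit 2) (nat_lit 0x10000e000c000200000000000000000000000) (nat_lit 0x0) (nat_lit 0x32000000000000000000000000000) := D_1 (nat_lit 112) (nat_lit 113) (nat_lit 109) (nat_lit 1) (nat_lit 11) (nat_lit 6) (nat_lit 1) (nat_lit 10) (nat_lit 6) (by decide +kernel)
theorem L363830 : W_1 (nat_lit 2) (nat_lit 0x10000e001c000600000000000000000000000) (nat_lit 0x0) (nat_lit 0x180008000000000000000000) := D_1 (nat_lit 92) (nat_lit 91) (nat_lit 75) (nat_lit 3) (nat_lit 6) (nat_lit 5) (nat_lit 4) (nat_lit 8) (nat_lit 8) (by decide +kernel)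
theorem L363831 : W_1 (nat_lit 3) (nat_lit 0x10000e001c000200000000000000000000000) (nat_lit 0x0) (nat_lit 0x580028000000000000000000) := T_1 (nat_lit 94) (nat_lit 77) (nat_lit 6) (nat_lit 8) (nat_lit 8) L363830 (by decide +kernel)
theorem L363832 : W_1 (nat_lit 4) (nat_lit 0x10000e000c000200000000000000000000000) (nat_lit 0x0) (nat_lit 0x30000580028000000000000000000) := T_1 (nat_lit 112) (nat_lit 113) (nat_lit 1) (nat_lit 11) (nat_lit 6) L363831 (by decide +kernel)
theorem L363833 : W_1 (nat_lit 2) (nat_lit 0x10000e000d000780004000000000000000000) (nat_lit 0x0) (nat_lit 0x2000800000000200000000000000) := D_1 (nat_lit 109) (nat_lit 95) (nat_lit 57) (nat_lit 2) (nat_lit 6) (nat_lit 6) (nat_lit 7) (nat_lit 6) (nat_lit 3) (by decide +kernel)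
theorem L363834 : W_1 (nat_lit 3) (nat_lit 0x10000e000d000780000000000000000000000) (nat_lit 0x0) (nat_lit 0x2000800006000200000000000000) := T_1 (nat_lit 74) (nat_lit 73) (nat_lit 0) (nat_lit 9) (nat_lit 5) L363833 (by decide +kernel)
theorem L363835 : W_1 (nat_lit 4) (nat_lit 0x10000e000c000780000000000000000000000) (nat_lit 0x0) (nat_lit 0x3800800006000200000000000000) := T_1 (nat_lit 108) (nat_lit 107) (nat_lit 1) (nat_lit 9) (nat_lit 5) L363834 (by decide +kernel)
theorem L363836 : W_1 (nat_lit 5) (nat_lit 0x10000e000c000380000000000000000000000) (nat_lit 0x0) (nat_lit 0x3800c00026000200000000000000) := T_1 (nat_lit 94) (nat_lit 77) (nat_lit 6) (nat_lit 8) (nat_lit 8) L363835 (by decide +kernel)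
theorem L363837 : W_1 (nat_lit 6) (nat_lit 0x10000e000c000300000000000000000000000) (nat_lit 0x0) (nat_lit 0x3800cc0026000200000000000000) := T_1 (nat_lit 91) (nat_lit 90) (nat_lit 3) (nat_lit 5) (nat_lit 5) L363836 (by decide +kernel)
theorem L363838 : W_1 (nat_lit 7) (nat_lit 0x10000e000c000200000000000000000000000) (nat_lit 0x0) (nat_lit 0x3800dc002e000200000000000000) := T_1 (nat_lit 92) (nat_lit 75) (nat_lit 4) (nat_lit 8) (nat_lit 8) L363837 (by decide +kernel)
theorem L363839 : W_1 (nat_lit 8) (nat_lit 0x10000e0004000200000000000000000000000) (nat_lit 0x0) (nat_lit 0x3b800dc002e000200000000000000) := Q_1 (nat_lit 111) (C_1 L363829 (C_1 L363832 (C_1 L363838 N_1))) (by decide +kernel)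
theorem L367891 : W_1 (nat_lit 2) (nat_lit 0x2c0014000e0001000080000000000000000000000) (nat_lit 0x0) (nat_lit 0x800040002000000000000000000) := D_1 (nat_lit 90) (nat_lit 73) (nat_lit 107) (nat_lit 4) (nat_lit 6) (nat_lit 8) (nat_lit 4) (nat_lit 6) (nat_lit 9) (by decide +kernel)
theorem L367892 : W_1 (nat_lit 3) (nat_lit 0x2c0014000e0001000000000000000000000000000) (nat_lit 0x0) (nat_lit 0x2000000008000c0002000000000000000000) := T_1 (nat_lit 91) (nat_lit 141) (nat_lit 5) (nat_lit 6) (nat_lit 5) L367891 (by decide +kernel)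
theorem L367907 : W_1 (nat_lit 2) (nat_lit 0x2c0014000e0001000000000000000000000000000) (nat_lit 0x0) (nat_lit 0x200010002000000000000000000000000000000000000) := D_1 (nat_lit 160) (nat_lit 145) (nat_lit 177) (nat_lit 2) (nat_lit 5) (nat_lit 9) (nat_lit 7) (nat_lit 6) (nat_lit 6) (by decide +kernel)
theorem L383487 : W_1 (nat_lit 2) (nat_lit 0x11000f0004400200000000000000000000000) (nat_lit 0x0) (nat_lit 0x80008000200000000000000000000000000) := D_1 (nat_lit 123) (nat_lit 139) (nat_lit 105) (nat_lit 1) (nat_lit 7) (nat_lit 7) (nat_lit 0) (nat_lit 7) (nat_lit 7) (by decide +kernel)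
theorem L383488 : W_1 (nat_lit 3) (nat_lit 0x11000f0004000200000000000000000000000) (nat_lit 0x0) (nat_lit 0x80008000e00000000000000000000000000) := T_1 (nat_lit 106) (nat_lit 107) (nat_lit 0) (nat_lit 8) (nat_lit 7) L383487 (by decide +kernel)
theorem L383489 : W_1 (nat_lit 4) (nat_lit 0x10000f0004000200000000000000000000000) (nat_lit 0x0) (nat_lit 0x380008000e00000000000000000000000000) := T_1 (nat_lit 140) (nat_lit 141) (nat_lit 1) (nat_lit 8) (nat_lit 7) L383488 (by decide +kernel)
theorem L488376 : W_1 (nat_lit 5) (nat_lit 0x10000e0004000200000000000000000000000) (nat_lit 0x0) (nat_lit 0x380018008e00000000000000000000000000) := T_1 (nat_lit 124) (nat_lit 111) (nat_lit 2) (nat_lit 5) (nat_lit 7) L383489 (by decide +kernel)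
theorem L499547 : W_1 (nat_lit 2) (nat_lit 0x10003e0000000000000000000000000000000) (nat_lit 0x0) (nat_lit 0xe000000000000000000000000000000000000) := D_1 (nat_lit 146) (nat_lit 145) (nat_lit 147) (nat_lit 3) (nat_lit 6) (nat_lit 7) (nat_lit 3) (nat_lit 7) (nat_lit 7) (by decide +kernel)
theorem L499548 : W_1 (nat_lit 2) (nat_lit 0x90003e0020000000000000000000000000000) (nat_lit 0x0) (nat_lit 0x10000400040000000000000000000000000000) := D_1 (nat_lit 130) (nat_lit 148) (nat_lit 114) (nat_lit 3) (nat_lit 8) (nat_lit 7) (nat_lit 2) (nat_lit 8) (nat_lit 7) (by decide +kernel)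
theorem L499549 : W_1 (nat_lit 3) (nat_lit 0x90003e0000000000000000000000000000000) (nat_lit 0x0) (nat_lit 0x10000400070000000000000000000000000000) := T_1 (nat_lit 113) (nat_lit 112) (nat_lit 2) (nat_lit 7) (nat_lit 7) L499548 (by decide +kernel)
theorem L499550 : W_1 (nat_lit 4) (nat_lit 0x10003e0000000000000000000000000000000) (nat_lit 0x0) (nat_lit 0x1c000400070000000000000000000000000000) := T_1 (nat_lit 147) (nat_lit 146) (nat_lit 3) (nat_lit 7) (nat_lit 7) L499549 (by decide +kernel)
theorem L499551 : W_1 (nat_lit 2) (nat_lit 0x1400fe0020000000000000000000000000000) (nat_lit 0x0) (nat_lit 0x38000000000000000000000000000000000000) := D_1 (nat_lit 148) (nat_lit 147) (nat_lit 149) (nat_lit 3) (nat_lit 8) (nat_lit 7) (nat_lit 3) (nat_lit 9) (nat_lit 7) (by decide +kernel)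
theorem L499552 : W_1 (nat_lit 3) (nat_lit 0x14007e0020000000000000000000000000000) (nat_lit 0x0) (nat_lit 0x3a000800000000000000000000000000000000) := T_1 (nat_lit 131) (nat_lit 145) (nat_lit 1) (nat_lit 12) (nat_lit 7) L499551 (by decide +kernel)
theorem L499553 : W_1 (nat_lit 4) (nat_lit 0x14003e0020000000000000000000000000000) (nat_lit 0x0) (nat_lit 0x3a000c00040000000000000000000000000000) := T_1 (nat_lit 130) (nat_lit 114) (nat_lit 2) (nat_lit 8) (nat_lit 7) L499552 (by decide +kernel)
theorem L499554 : W_1 (nat_lit 5) (nat_lit 0x10003e0020000000000000000000000000000) (nat_lit 0x0) (nat_lit 0x3a600c00040000000000000000000000000000) := T_1 (nat_lit 142) (nat_lit 141) (nat_lit 1) (nat_lit 9) (nat_lit 7) L499553 (by decide +kernel)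
theorem L499555 : W_1 (nat_lit 6) (nat_lit 0x10003e0000000000000000000000000000000) (nat_lit 0x0) (nat_lit 0x3a600c00070000000000000000000000000000) := T_1 (nat_lit 113) (nat_lit 112) (nat_lit 2) (nat_lit 7) (nat_lit 7) L499554 (by decide +kernel)
theorem L499556 : W_1 (nat_lit 2) (nat_lit 0x30003e0020000000000000000000000000000) (nat_lit 0x0) (nat_lit 0xc00040000000000000000000000000000) := D_1 (nat_lit 130) (nat_lit 131) (nat_lit 114) (nat_lit 1) (nat_lit 12) (nat_lit 7) (nat_lit 2) (nat_lit 8) (nat_lit 7) (by decide +kernel)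
theorem L499557 : W_1 (nat_lit 3) (nat_lit 0x10003e0020000000000000000000000000000) (nat_lit 0x0) (nat_lit 0x6000c00040000000000000000000000000000) := T_1 (nat_lit 145) (nat_lit 146) (nat_lit 3) (nat_lit 6) (nat_lit 7) L499556 (by decide +kernel)
theorem L499558 : W_1 (nat_lit 4) (nat_lit 0x10003e0000000000000000000000000000000) (nat_lit 0x0) (nat_lit 0x6000c00070000000000000000000000000000) := T_1 (nat_lit 113) (nat_lit 112) (nat_lit 2) (nat_lit 7) (nat_lit 7) L499557 (by decide +kernel)
theorem L499559 : W_1 (nat_lit 7) (nat_lit 0x10001e0000000000000000000000000000000) (nat_lit 0x0) (nat_lit 0x3e600e00070000000000000000000000000000) := Q_1 (nat_lit 129) (C_1 L499547 (C_1 L499550 (C_1 L499555 (C_1 L499558 N_1)))) (by decide +kernel)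
theorem L499573 : W_1 (nat_lit 2) (nat_lit 0x90003c0020000000000000000000000000000) (nat_lit 0x0) (nat_lit 0x10000400040000000000000000000000000000) := D_1 (nat_lit 130) (nat_lit 148) (nat_lit 114) (nat_lit 3) (nat_lit 8) (nat_lit 7) (nat_lit 2) (nat_lit 8) (nat_lit 7) (by decide +kernel)
theorem L499574 : W_1 (nat_lit 3) (nat_lit 0x90003c0000000000000000000000000000000) (nat_lit 0x0) (nat_lit 0x10000400070000000000000000000000000000) := T_1 (nat_lit 113) (nat_lit 112) (nat_lit 2) (nat_lit 7) (nat_lit 7) L499573 (by decide +kernel)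
theorem L499575 : W_1 (nat_lit 4) (nat_lit 0x10003c0000000000000000000000000000000) (nat_lit 0x0) (nat_lit 0x1c000400070000000000000000000000000000) := T_1 (nat_lit 147) (nat_lit 146) (nat_lit 3) (nat_lit 7) (nat_lit 7) L499574 (by decide +kernel)
theorem L504426 : W_1 (nat_lit 2) (nat_lit 0x1000fc0020000000000000000000000000000) (nat_lit 0x0) (nat_lit 0x38000000000000000000000000000000000000) := D_1 (nat_lit 148) (nat_lit 147) (nat_lit 149) (nat_lit 3) (nat_lit 8) (nat_lit 7) (nat_lit 3) (nat_lit 9) (nat_lit 7) (by decide +kernel)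
theorem L504427 : W_1 (nat_lit 3) (nat_lit 0x10007c0020000000000000000000000000000) (nat_lit 0x0) (nat_lit 0x3a000800000000000000000000000000000000) := T_1 (nat_lit 131) (nat_lit 145) (nat_lit 1) (nat_lit 12) (nat_lit 7) L504426 (by decide +kernel)
theorem L504428 : W_1 (nat_lit 4) (nat_lit 0x10003c0020000000000000000000000000000) (nat_lit 0x0) (nat_lit 0x3a000c00040000000000000000000000000000) := T_1 (nat_lit 130) (nat_lit 114) (nat_lit 2) (nat_lit 8) (nat_lit 7) L504427 (by decide +kernel)
theorem L504429 : W_1 (nat_lit 5) (nat_lit 0x10003c0000000000000000000000000000000) (nat_lit 0x0) (nat_lit 0x3a000c00070000000000000000000000000000) := T_1 (nat_lit 113) (nat_lit 112) (nat_lit 2) (nat_lit 7) (nat_lit 7) L504428 (by decide +kernel)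
theorem L510484 : W_1 (nat_lit 2) (nat_lit 0x54003e0022000000008000000000000000000) (nat_lit 0x0) (nat_lit 0x400044000000000000000000000000000) := D_1 (nat_lit 130) (nat_lit 110) (nat_lit 114) (nat_lit 0) (nat_lit 11) (nat_lit 7) (nat_lit 2) (nat_lit 8) (nat_lit 7) (by decide +kernel)
theorem L510485 : W_1 (nat_lit 3) (nat_lit 0x54003e0002000000008000000000000000000) (nat_lit 0x0) (nat_lit 0x400074000000000000000000000000000) := T_1 (nat_lit 113) (nat_lit 112) (nat_lit 2) (nat_lit 7) (nat_lit 7) L510484 (by decide +kernel)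
theorem L510486 : W_1 (nat_lit 4) (nat_lit 0x54001e0002000000008000000000000000000) (nat_lit 0x0) (nat_lit 0x8000600074000000000000000000000000000) := T_1 (nat_lit 129) (nat_lit 147) (nat_lit 3) (nat_lit 7) (nat_lit 7) L510485 (by decide +kernel)
theorem L510487 : W_1 (nat_lit 5) (nat_lit 0x50001e0002000000008000000000000000000) (nat_lit 0x0) (nat_lit 0x8600600074000000000000000000000000000) := T_1 (nat_lit 142) (nat_lit 141) (nat_lit 1) (nat_lit 9) (nat_lit 7) L510486 (by decide +kernel)
theorem L510488 : W_1 (nat_lit 6) (nat_lit 0x10001e0002000000008000000000000000000) (nat_lit 0x0) (nat_lit 0xe600600074000000000000000000000000000) := T_1 (nat_lit 146) (nat_lit 145) (nat_lit 3) (nat_lit 6) (nat_lit 7) L510487 (by decide +kernel)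
theorem L510489 : W_1 (nat_lit 7) (nat_lit 0x10001e0002000000000000000000000000000) (nat_lit 0x0) (nat_lit 0xe600600074000100008000000000000000000) := T_1 (nat_lit 75) (nat_lit 92) (nat_lit 7) (nat_lit 7) (nat_lit 4) L510488 (by decide +kernel)
theorem L510578 : W_1 (nat_lit 2) (nat_lit 0x90003c0022000000008000000000000000000) (nat_lit 0x0) (nat_lit 0x10000400040000000000000000000000000000) := D_1 (nat_lit 130) (nat_lit 148) (nat_lit 114) (nat_lit 3) (nat_lit 8) (nat_lit 7) (nat_lit 2) (nat_lit 8) (nat_lit 7) (by decide +kernel)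
theorem L510579 : W_1 (nat_lit 3) (nat_lit 0x90003c0002000000008000000000000000000) (nat_lit 0x0) (nat_lit 0x10000400070000000000000000000000000000) := T_1 (nat_lit 113) (nat_lit 112) (nat_lit 2) (nat_lit 7) (nat_lit 7) L510578 (by decide +kernel)
theorem L510580 : W_1 (nat_lit 4) (nat_lit 0x10003c0002000000008000000000000000000) (nat_lit 0x0) (nat_lit 0x1c000400070000000000000000000000000000) := T_1 (nat_lit 147) (nat_lit 146) (nat_lit 3) (nat_lit 7) (nat_lit 7) L510579 (by decide +kernel)
theorem L510581 : W_1 (nat_lit 5) (nat_lit 0x10003c0002000000000000000000000000000) (nat_lit 0x0) (nat_lit 0x1c000400070000100008000000000000000000) := T_1 (nat_lit 75) (nat_lit 92) (nat_lit 7) (nat_lit 7) (nat_lit 4) L510580 (by decide +kernel)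
theorem L510582 : W_1 (nat_lit 2) (nat_lit 0x70003c0022000000000000000000000000000) (nat_lit 0x0) (nat_lit 0xc00040000000000000000000000000000) := D_1 (nat_lit 130) (nat_lit 131) (nat_lit 114) (nat_lit 1) (nat_lit 12) (nat_lit 7) (nat_lit 2) (nat_lit 8) (nat_lit 7) (by decide +kernel)
theorem L510583 : W_1 (nat_lit 3) (nat_lit 0x70003c0002000000000000000000000000000) (nat_lit 0x0) (nat_lit 0xc00070000000000000000000000000000) := T_1 (nat_lit 113) (nat_lit 112) (nat_lit 2) (nat_lit 7) (nat_lit 7) L510582 (by decide +kernel)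
theorem L510584 : W_1 (nat_lit 4) (nat_lit 0x50003c0002000000000000000000000000000) (nat_lit 0x0) (nat_lit 0x2000c20070000000000000000000000000000) := T_1 (nat_lit 145) (nat_lit 125) (nat_lit 3) (nat_lit 6) (nat_lit 7) L510583 (by decide +kernel)
theorem L510585 : W_1 (nat_lit 5) (nat_lit 0x10003c0002000000000000000000000000000) (nat_lit 0x0) (nat_lit 0xe000c20070000000000000000000000000000) := T_1 (nat_lit 146) (nat_lit 147) (nat_lit 3) (nat_lit 7) (nat_lit 7) L510584 (by decide +kernel)
theorem L512552 : W_1 (nat_lit 2) (nat_lit 0x21000fc0092000000008000000000000000000) (nat_lit 0x0) (nat_lit 0x40001000100000000000000000000000000000) := D_1 (nat_lit 132) (nat_lit 116) (nat_lit 150) (nat_lit 2) (nat_lit 10) (nat_lit 7) (nat_lit 3) (nat_lit 10) (nat_lit 7) (by decide +kernel)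
theorem L512553 : W_1 (nat_lit 3) (nat_lit 0x1000fc0092000000008000000000000000000) (nat_lit 0x0) (nat_lit 0x70001000100000000000000000000000000000) := T_1 (nat_lit 149) (nat_lit 148) (nat_lit 3) (nat_lit 9) (nat_lit 7) L512552 (by decide +kernel)
theorem L512554 : W_1 (nat_lit 4) (nat_lit 0x1000fc0012000000008000000000000000000) (nat_lit 0x0) (nat_lit 0x700010001c0000000000000000000000000000) := T_1 (nat_lit 115) (nat_lit 114) (nat_lit 2) (nat_lit 9) (nat_lit 7) L512553 (by decide +kernel)
theorem L512555 : W_1 (nat_lit 5) (nat_lit 0x10007c0012000000008000000000000000000) (nat_lit 0x0) (nat_lit 0x720018001c0000000000000000000000000000) := T_1 (nat_lit 131) (nat_lit 145) (nat_lit 1) (nat_lit 12) (nat_lit 7) L512554 (by decide +kernel)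
theorem L523576 : W_1 (nat_lit 2) (nat_lit 0x1000f80000000000000000000000000000000) (nat_lit 0x0) (nat_lit 0xe0000000000000000000000000000) := D_1 (nat_lit 114) (nat_lit 113) (nat_lit 115) (nat_lit 2) (nat_lit 8) (nat_lit 7) (nat_lit 2) (nat_lit 9) (nat_lit 7) (by decide +kernel)
theorem L523601 : W_1 (nat_lit 2) (nat_lit 0xd000780020000000000000000000000000000) (nat_lit 0x0) (nat_lit 0x80000000000000001000080000000000000000000) := D_1 (nat_lit 96) (nat_lit 79) (nat_lit 163) (nat_lit 5) (nat_lit 11) (nat_lit 4) (nat_lit 5) (nat_lit 11) (nat_lit 5) (by decide +kernel)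
theorem L527334 : W_1 (nat_lit 2) (nat_lit 0x50003800100008000a0000000000000000000) (nat_lit 0x0) (nat_lit 0x40005000000000000000) := D_1 (nat_lit 78) (nat_lit 62) (nat_lit 60) (nat_lit 6) (nat_lit 10) (nat_lit 7) (nat_lit 4) (nat_lit 10) (nat_lit 7) (by decide +kernel)
theorem L527335 : W_1 (nat_lit 3) (nat_lit 0x5000380010000800080000000000000000000) (nat_lit 0x0) (nat_lit 0x400060005000000000000000) := T_1 (nat_lit 77) (nat_lit 94) (nat_lit 4) (nat_lit 10) (nat_lit 8) L527334 (by decide +kernel)
theorem L527336 : W_1 (nat_lit 4) (nat_lit 0x5000380010000800000000000000000000000) (nat_lit 0x0) (nat_lit 0x14000e0005000000000000000) := T_1 (nat_lit 79) (nat_lit 96) (nat_lit 6) (nat_lit 10) (nat_lit 8) L527335 (by decide +kernel)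
theorem L527656 : W_1 (nat_lit 2) (nat_lit 0x110007c0002000000008000000000000000000) (nat_lit 0x0) (nat_lit 0x22000800000000000000000000000000000000) := D_1 (nat_lit 131) (nat_lit 145) (nat_lit 149) (nat_lit 1) (nat_lit 12) (nat_lit 7) (nat_lit 3) (nat_lit 9) (nat_lit 7) (by decide +kernel)
theorem L527657 : W_1 (nat_lit 3) (nat_lit 0x10007c0002000000008000000000000000000) (nat_lit 0x0) (nat_lit 0x3a000800000000000000000000000000000000) := T_1 (nat_lit 148) (nat_lit 147) (nat_lit 3) (nat_lit 8) (nat_lit 7) L527656 (by decide +kernel)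
theorem L527658 : W_1 (nat_lit 4) (nat_lit 0x10007c0002000000000000000000000000000) (nat_lit 0x0) (nat_lit 0x3a000800000000100008000000000000000000) := T_1 (nat_lit 75) (nat_lit 92) (nat_lit 7) (nat_lit 7) (nat_lit 4) L527657 (by decide +kernel)
theorem L527659 : W_1 (nat_lit 5) (nat_lit 0x10003c0002000000000000000000000000000) (nat_lit 0x0) (nat_lit 0x3a000c00004000100008000000000000000000) := T_1 (nat_lit 130) (nat_lit 110) (nat_lit 0) (nat_lit 11) (nat_lit 7) L527658 (by decide +kernel)
theorem L527660 : W_1 (nat_lit 6) (nat_lit 0x10003c0000000000000000000000000000000) (nat_lit 0x0) (nat_lit 0x3a000c00007000100008000000000000000000) := T_1 (nat_lit 109) (nat_lit 108) (nat_lit 0) (nat_lit 10) (nat_lit 7) L527659 (by decide +kernel)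
theorem L527661 : W_1 (nat_lit 2) (nat_lit 0x400000021000fc0082000000008000000000000000000) (nat_lit 0x0) (nat_lit 0x40001000100000000000000000000000000000) := D_1 (nat_lit 132) (nat_lit 150) (nat_lit 116) (nat_lit 3) (nat_lit 10) (nat_lit 7) (nat_lit 2) (nat_lit 10) (nat_lit 7) (by decide +kernel)
theorem L527662 : W_1 (nat_lit 3) (nat_lit 0x400000021000fc0002000000008000000000000000000) (nat_lit 0x0) (nat_lit 0x400010001c0000000000000000000000000000) := T_1 (nat_lit 115) (nat_lit 114) (nat_lit 2) (nat_lit 9) (nat_lit 7) L527661 (by decide +kernel)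
theorem L527663 : W_1 (nat_lit 4) (nat_lit 0x400000001000fc0002000000008000000000000000000) (nat_lit 0x0) (nat_lit 0x700010001c0000000000000000000000000000) := T_1 (nat_lit 149) (nat_lit 148) (nat_lit 3) (nat_lit 9) (nat_lit 7) L527662 (by decide +kernel)
theorem L527664 : W_1 (nat_lit 5) (nat_lit 0x1000fc0002000000008000000000000000000) (nat_lit 0x0) (nat_lit 0x4000200700010001c0000000000000000000000000000) := T_1 (nat_lit 178) (nat_lit 161) (nat_lit 4) (nat_lit 8) (nat_lit 10) L527663 (by decide +kernel)
theorem L527665 : W_1 (nat_lit 6) (nat_lit 0x10007c0002000000008000000000000000000) (nat_lit 0x0) (nat_lit 0x4000200720018001c0000000000000000000000000000) := T_1 (nat_lit 131) (nat_lit 145) (nat_lit 1) (nat_lit 12) (nat_lit 7) L527664 (by decide +kernel)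
theorem L527666 : W_1 (nat_lit 7) (nat_lit 0x10007c0002000000000000000000000000000) (nat_lit 0x0) (nat_lit 0x4000200720018001c0000100008000000000000000000) := T_1 (nat_lit 75) (nat_lit 92) (nat_lit 7) (nat_lit 7) (nat_lit 4) L527665 (by decide +kernel)
theorem L527667 : W_1 (nat_lit 8) (nat_lit 0x10003c0002000000000000000000000000000) (nat_lit 0x0) (nat_lit 0x400020072001c001c4000100008000000000000000000) := T_1 (nat_lit 130) (nat_lit 110) (nat_lit 0) (nat_lit 11) (nat_lit 7) L527666 (by decide +kernel)
theorem L527668 : W_1 (nat_lit 9) (nat_lit 0x10003c0000000000000000000000000000000) (nat_lit 0x0) (nat_lit 0x400020072001c001c7000100008000000000000000000) := T_1 (nat_lit 109) (nat_lit 108) (nat_lit 0) (nat_lit 10) (nat_lit 7) L527667 (by decide +kernel)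
theorem L527669 : W_1 (nat_lit 2) (nat_lit 0x52003e0000800000000000000000000000000) (nat_lit 0x0) (nat_lit 0x100010000400000000000000000000000000) := D_1 (nat_lit 124) (nat_lit 140) (nat_lit 106) (nat_lit 1) (nat_lit 8) (nat_lit 7) (nat_lit 0) (nat_lit 8) (nat_lit 7) (by decide +kernel)
theorem L527670 : W_1 (nat_lit 3) (nat_lit 0x52003e0000000000000000000000000000000) (nat_lit 0x0) (nat_lit 0x100010001c00000000000000000000000000) := T_1 (nat_lit 107) (nat_lit 108) (nat_lit 0) (nat_lit 9) (nat_lit 7) L527669 (by decide +kernel)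
theorem L527671 : W_1 (nat_lit 4) (nat_lit 0x50003e0000000000000000000000000000000) (nat_lit 0x0) (nat_lit 0x700010001c00000000000000000000000000) := T_1 (nat_lit 141) (nat_lit 142) (nat_lit 1) (nat_lit 9) (nat_lit 7) L527670 (by decide +kernel)
theorem L527682 : W_1 (nat_lit 2) (nat_lit 0x1000180008000400000000000000000000000) (nat_lit 0x0) (nat_lit 0x400020000000000004000000000000000000000000000) := D_1 (nat_lit 161) (nat_lit 178) (nat_lit 110) (nat_lit 6) (nat_lit 8) (nat_lit 10) (nat_lit 6) (nat_lit 8) (nat_lit 9) (by decide +kernel)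
theorem L527683 : W_1 (nat_lit 3) (nat_lit 0x1000180008000000000000000000000000000) (nat_lit 0x0) (nat_lit 0x400020000000000004000400020000000000000000000) := T_1 (nat_lit 94) (nat_lit 77) (nat_lit 5) (nat_lit 9) (nat_lit 4) L527682 (by decide +kernel)
theorem L527709 : W_1 (nat_lit 2) (nat_lit 0x10001c0018000000020000000000000000000) (nat_lit 0x0) (nat_lit 0x64000000000000000000000000000) := D_1 (nat_lit 113) (nat_lit 114) (nat_lit 110) (nat_lit 1) (nat_lit 12) (nat_lit 6) (nat_lit 1) (nat_lit 11) (nat_lit 6) (by decide +kernel)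
theorem L527712 : W_1 (nat_lit 2) (nat_lit 0x1000180038000000000000000000000000000) (nat_lit 0x0) (nat_lit 0x260000000000000000000000000000000) := D_1 (nat_lit 126) (nat_lit 125) (nat_lit 129) (nat_lit 2) (nat_lit 6) (nat_lit 7) (nat_lit 2) (nat_lit 7) (nat_lit 7) (by decide +kernel)
theorem L527713 : W_1 (nat_lit 3) (nat_lit 0x1000180018000000000000000000000000000) (nat_lit 0x0) (nat_lit 0x260060000000000000000000000000000) := T_1 (nat_lit 113) (nat_lit 114) (nat_lit 1) (nat_lit 12) (nat_lit 6) L527712 (by decide +kernel)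
theorem L527746 : W_1 (nat_lit 2) (nat_lit 0x9000780038000000020000000000000000000) (nat_lit 0x0) (nat_lit 0x2000100000000000000000800000000000000000000000) := D_1 (nat_lit 164) (nat_lit 95) (nat_lit 181) (nat_lit 4) (nat_lit 11) (nat_lit 9) (nat_lit 4) (nat_lit 11) (nat_lit 10) (by decide +kernel)
theorem L527747 : W_1 (nat_lit 3) (nat_lit 0x9000780018000000020000000000000000000) (nat_lit 0x0) (nat_lit 0x2000100000000000060000800000000000000000000000) := T_1 (nat_lit 113) (nat_lit 114) (nat_lit 2) (nat_lit 8) (nat_lit 7) L527746 (by decide +kernel)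
theorem L527748 : W_1 (nat_lit 4) (nat_lit 0x1000780018000000020000000000000000000) (nat_lit 0x0) (nat_lit 0x2000100018000000060000800000000000000000000000) := T_1 (nat_lit 147) (nat_lit 148) (nat_lit 3) (nat_lit 8) (nat_lit 7) L527747 (by decide +kernel)
theorem L527757 : W_1 (nat_lit 2) (nat_lit 0x1000f80018000000000000000000000000000) (nat_lit 0x0) (nat_lit 0x38000000000000000000000000000000000000) := D_1 (nat_lit 148) (nat_lit 147) (nat_lit 149) (nat_lit 3) (nat_lit 8) (nat_lit 7) (nat_lit 3) (nat_lit 9) (nat_lit 7) (by decide +kernel)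
theorem L527758 : W_1 (nat_lit 3) (nat_lit 0x1000780018000000000000000000000000000) (nat_lit 0x0) (nat_lit 0x38001800000000000000000000000000000000) := T_1 (nat_lit 131) (nat_lit 132) (nat_lit 0) (nat_lit 13) (nat_lit 7) L527757 (by decide +kernel)
theorem L527761 : W_1 (nat_lit 2) (nat_lit 0x5000380018000000000000000000000000000) (nat_lit 0x0) (nat_lit 0x1000080000000000000000400000000000000000000000) := D_1 (nat_lit 163) (nat_lit 180) (nat_lit 94) (nat_lit 4) (nat_lit 10) (nat_lit 10) (nat_lit 4) (nat_lit 10) (nat_lit 9) (by decide +kernel)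
theorem L527768 : W_1 (nat_lit 2) (nat_lit 0x5000380018000800020000000000000000000) (nat_lit 0x0) (nat_lit 0x40003000000000000000) := D_1 (nat_lit 78) (nat_lit 61) (nat_lit 60) (nat_lit 5) (nat_lit 10) (nat_lit 3) (nat_lit 4) (nat_lit 10) (nat_lit 7) (by decide +kernel)
theorem L527769 : W_1 (nat_lit 3) (nat_lit 0x5000380018000800000000000000000000000) (nat_lit 0x0) (nat_lit 0x400060003000000000000000) := T_1 (nat_lit 77) (nat_lit 94) (nat_lit 7) (nat_lit 9) (nat_lit 4) L527768 (by decide +kernel)
theorem L527793 : W_1 (nat_lit 2) (nat_lit 0x5000380018000800080000000000000000000) (nat_lit 0x0) (nat_lit 0x40006000000000000000) := D_1 (nat_lit 78) (nat_lit 61) (nat_lit 62) (nat_lit 5) (nat_lit 10) (nat_lit 3) (nat_lit 6) (nat_lit 10) (nat_lit 7) (by decide +kernel)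
theorem L527794 : W_1 (nat_lit 3) (nat_lit 0x5000380018000800000000000000000000000) (nat_lit 0x0) (nat_lit 0x10000c0006000000000000000) := T_1 (nat_lit 79) (nat_lit 96) (nat_lit 6) (nat_lit 10) (nat_lit 8) L527793 (by decide +kernel)
theorem L527795 : W_1 (nat_lit 2) (nat_lit 0x400000005000380058001c00000000000000000000000) (nat_lit 0x0) (nat_lit 0x80006000000000000000000000000) := D_1 (nat_lit 97) (nat_lit 115) (nat_lit 98) (nat_lit 3) (nat_lit 9) (nat_lit 5) (nat_lit 1) (nat_lit 13) (nat_lit 5) (by decide +kernel)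
theorem L527796 : W_1 (nat_lit 3) (nat_lit 0x400000005000380058000c00000000000000000000000) (nat_lit 0x0) (nat_lit 0x80007000080000000000000000000) := T_1 (nat_lit 96) (nat_lit 79) (nat_lit 6) (nat_lit 10) (nat_lit 8) L527795 (by decide +kernel)
theorem L527797 : W_1 (nat_lit 4) (nat_lit 0x400000005000380018000c00000000000000000000000) (nat_lit 0x0) (nat_lit 0xe0007000080000000000000000000) := T_1 (nat_lit 114) (nat_lit 113) (nat_lit 1) (nat_lit 12) (nat_lit 6) L527796 (by decide +kernel)
theorem L527798 : W_1 (nat_lit 5) (nat_lit 0x5000380018000c00000000000000000000000) (nat_lit 0x0) (nat_lit 0x4000200000000000e0007000080000000000000000000) := T_1 (nat_lit 178) (nat_lit 161) (nat_lit 6) (nat_lit 8) (nat_lit 10) L527797 (by decide +kernel)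
theorem L527799 : W_1 (nat_lit 6) (nat_lit 0x5000380018000800000000000000000000000) (nat_lit 0x0) (nat_lit 0x4000200000000000e00074000a0000000000000000000) := T_1 (nat_lit 94) (nat_lit 77) (nat_lit 7) (nat_lit 9) (nat_lit 4) L527798 (by decide +kernel)
theorem L527808 : W_1 (nat_lit 2) (nat_lit 0x5000380038000000000000000000000000000) (nat_lit 0x0) (nat_lit 0x1000080000000000000001000000000000000000000000) := D_1 (nat_lit 163) (nat_lit 180) (nat_lit 96) (nat_lit 4) (nat_lit 10) (nat_lit 10) (nat_lit 6) (nat_lit 10) (nat_lit 9) (by decide +kernel)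
theorem L527809 : W_1 (nat_lit 3) (nat_lit 0x5000380018000000000000000000000000000) (nat_lit 0x0) (nat_lit 0x1000080000000000060001000000000000000000000000) := T_1 (nat_lit 113) (nat_lit 114) (nat_lit 1) (nat_lit 12) (nat_lit 6) L527808 (by decide +kernel)
theorem L527810 : W_1 (nat_lit 7) (nat_lit 0x5000380018000000000000000000000000000) (nat_lit 0x0) (nat_lit 0x4000200000000000e0007c000e0007000000000000000) := Q_1 (nat_lit 95) (C_1 L527799 (C_1 L527794 (C_1 L527769 N_1))) (by decide +kernel)
theorem L529590 : W_1 (nat_lit 2) (nat_lit 0x400300009000580038001000000000000000000000000) (nat_lit 0x0) (nat_lit 0x1000080004000000000000000000000000000000000000) := D_1 (nat_lit 163) (nat_lit 180) (nat_lit 146) (nat_lit 5) (nat_lit 11) (nat_lit 6) (nat_lit 5) (nat_lit 11) (nat_lit 5) (by decide +kernel)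
theorem L529591 : W_1 (nat_lit 3) (nat_lit 0x400300009000580038000000000000000000000000000) (nat_lit 0x0) (nat_lit 0x1000080014000000000001000000000000000000000000) := T_1 (nat_lit 96) (nat_lit 148) (nat_lit 7) (nat_lit 11) (nat_lit 5) L529590 (by decide +kernel)
theorem L529592 : W_1 (nat_lit 4) (nat_lit 0x400100009000580038000000000000000000000000000) (nat_lit 0x0) (nat_lit 0x5000280014000000000001000000000000000000000000) := T_1 (nat_lit 165) (nat_lit 182) (nat_lit 7) (nat_lit 11) (nat_lit 6) L529591 (by decide +kernel)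
theorem L529593 : W_1 (nat_lit 5) (nat_lit 0x100009000580038000000000000000000000000000) (nat_lit 0x0) (nat_lit 0x54002a0014000000000001000000000000000000000000) := T_1 (nat_lit 178) (nat_lit 161) (nat_lit 6) (nat_lit 8) (nat_lit 10) L529592 (by decide +kernel)
theorem L529594 : W_1 (nat_lit 6) (nat_lit 0x9000580038000000000000000000000000000) (nat_lit 0x0) (nat_lit 0x54003a0014000000000001800000000000000000000000) := T_1 (nat_lit 164) (nat_lit 95) (nat_lit 4) (nat_lit 11) (nat_lit 9) L529593 (by decide +kernel)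
theorem L529635 : W_1 (nat_lit 2) (nat_lit 0x10003c0018000400000000000000000000000) (nat_lit 0x0) (nat_lit 0x8000c000000000000000000000000000000000000) := D_1 (nat_lit 146) (nat_lit 147) (nat_lit 163) (nat_lit 3) (nat_lit 7) (nat_lit 7) (nat_lit 4) (nat_lit 10) (nat_lit 9) (by decide +kernel)
theorem L529636 : W_1 (nat_lit 3) (nat_lit 0x10003c0018000000000000000000000000000) (nat_lit 0x0) (nat_lit 0x8000c000000000000400020000000000000000000) := T_1 (nat_lit 94) (nat_lit 77) (nat_lit 5) (nat_lit 9) (nat_lit 4) L529635 (by decide +kernel)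
theorem L529637 : W_1 (nat_lit 4) (nat_lit 0x1000380018000000000000000000000000000) (nat_lit 0x0) (nat_lit 0x8000c000060000000400020000000000000000000) := T_1 (nat_lit 126) (nat_lit 125) (nat_lit 2) (nat_lit 6) (nat_lit 7) L529636 (by decide +kernel)
theorem L529654 : W_1 (nat_lit 2) (nat_lit 0x1000780018000800020000000000000000000) (nat_lit 0x0) (nat_lit 0x40003000000000000000) := D_1 (nat_lit 78) (nat_lit 60) (nat_lit 61) (nat_lit 4) (nat_lit 10) (nat_lit 7) (nat_lit 5) (nat_lit 10) (nat_lit 3) (by decide +kernel)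
theorem L529655 : W_1 (nat_lit 3) (nat_lit 0x1000780018000800000000000000000000000) (nat_lit 0x0) (nat_lit 0x400060003000000000000000) := T_1 (nat_lit 77) (nat_lit 94) (nat_lit 5) (nat_lit 9) (nat_lit 4) L529654 (by decide +kernel)
theorem L529834 : W_1 (nat_lit 2) (nat_lit 0x1000f80018000000020000000000000000000) (nat_lit 0x0) (nat_lit 0x38000000000000000000000000000000000000) := D_1 (nat_lit 148) (nat_lit 147) (nat_lit 149) (nat_lit 3) (nat_lit 8) (nat_lit 7) (nat_lit 3) (nat_lit 9) (nat_lit 7) (by decide +kernel)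
theorem L530242 : W_1 (nat_lit 3) (nat_lit 0x1000780018000000020000000000000000000) (nat_lit 0x0) (nat_lit 0x38001800000000000000000000000000000000) := T_1 (nat_lit 131) (nat_lit 132) (nat_lit 0) (nat_lit 13) (nat_lit 7) L529834 (by decide +kernel)
theorem L530981 : W_1 (nat_lit 2) (nat_lit 0x40000000d000780028000000000000000000000000000) (nat_lit 0x0) (nat_lit 0x1000080000000000000001000000000000000000000000) := D_1 (nat_lit 163) (nat_lit 180) (nat_lit 96) (nat_lit 6) (nat_lit 10) (nat_lit 10) (nat_lit 5) (nat_lit 11) (nat_lit 5) (by decide +kernel)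
theorem L531341 : W_1 (nat_lit 3) (nat_lit 0x400000009000780028000000000000000000000000000) (nat_lit 0x0) (nat_lit 0x1000080004000040000001000000000000000000000000) := T_1 (nat_lit 146) (nat_lit 126) (nat_lit 3) (nat_lit 7) (nat_lit 7) L530981 (by decide +kernel)
theorem L531342 : W_1 (nat_lit 4) (nat_lit 0x400000001000780028000000000000000000000000000) (nat_lit 0x0) (nat_lit 0x100008001c000040000001000000000000000000000000) := T_1 (nat_lit 147) (nat_lit 148) (nat_lit 3) (nat_lit 8) (nat_lit 7) L531341 (by decide +kernel)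
theorem L531345 : W_1 (nat_lit 2) (nat_lit 0x21000f80088000000000000000000000000000) (nat_lit 0x0) (nat_lit 0x40001000100000000000000000000000000000) := D_1 (nat_lit 132) (nat_lit 150) (nat_lit 116) (nat_lit 3) (nat_lit 10) (nat_lit 7) (nat_lit 2) (nat_lit 10) (nat_lit 7) (by decide +kernel)
theorem L531346 : W_1 (nat_lit 3) (nat_lit 0x21000f80008000000000000000000000000000) (nat_lit 0x0) (nat_lit 0x400010001c0000000000000000000000000000) := T_1 (nat_lit 115) (nat_lit 114) (nat_lit 2) (nat_lit 9) (nat_lit 7) L531345 (by decide +kernel)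
theorem L531347 : W_1 (nat_lit 4) (nat_lit 0x1000f80008000000000000000000000000000) (nat_lit 0x0) (nat_lit 0x700010001c0000000000000000000000000000) := T_1 (nat_lit 149) (nat_lit 148) (nat_lit 3) (nat_lit 9) (nat_lit 7) L531346 (by decide +kernel)
theorem L532113 : W_1 (nat_lit 2) (nat_lit 0xd000780028000000020000000000000000000) (nat_lit 0x0) (nat_lit 0x1000080000000000000001000000000000000000000000) := D_1 (nat_lit 163) (nat_lit 180) (nat_lit 96) (nat_lit 6) (nat_lit 10) (nat_lit 10) (nat_lit 5) (nat_lit 11) (nat_lit 5) (by decide +kernel)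
theorem L532114 : W_1 (nat_lit 3) (nat_lit 0x9000780028000000020000000000000000000) (nat_lit 0x0) (nat_lit 0x1000080004000040000001000000000000000000000000) := T_1 (nat_lit 146) (nat_lit 126) (nat_lit 3) (nat_lit 7) (nat_lit 7) L532113 (by decide +kernel)
theorem L532115 : W_1 (nat_lit 4) (nat_lit 0x1000780028000000020000000000000000000) (nat_lit 0x0) (nat_lit 0x100008001c000040000001000000000000000000000000) := T_1 (nat_lit 147) (nat_lit 148) (nat_lit 3) (nat_lit 8) (nat_lit 7) L532114 (by decide +kernel)
theorem L532143 : W_1 (nat_lit 2) (nat_lit 0x19000580028001000080000000000000000000) (nat_lit 0x0) (nat_lit 0x800040002000000000000000) := D_1 (nat_lit 78) (nat_lit 95) (nat_lit 61) (nat_lit 4) (nat_lit 11) (nat_lit 8) (nat_lit 4) (nat_lit 11) (nat_lit 7) (by decide +kernel)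
theorem L532144 : W_1 (nat_lit 3) (nat_lit 0x19000580028001000000000000000000000000) (nat_lit 0x0) (nat_lit 0x8000000008000c0002000000000000000) := T_1 (nat_lit 79) (nat_lit 131) (nat_lit 7) (nat_lit 11) (nat_lit 4) L532143 (by decide +kernel)
theorem L532145 : W_1 (nat_lit 4) (nat_lit 0x9000580028001000000000000000000000000) (nat_lit 0x0) (nat_lit 0x2000100008000000008000c0002000000000000000) := T_1 (nat_lit 148) (nat_lit 165) (nat_lit 7) (nat_lit 11) (nat_lit 5) L532144 (by decide +kernel)
theorem L532160 : W_1 (nat_lit 2) (nat_lit 0x100009000580028003800000000000000000000000) (nat_lit 0x0) (nat_lit 0x1000080004000000000000000000000000000000000000) := D_1 (nat_lit 163) (nat_lit 180) (nat_lit 146) (nat_lit 5) (nat_lit 11) (nat_lit 6) (nat_lit 5) (nat_lit 11) (nat_lit 5) (by decide +kernel)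
theorem L532161 : W_1 (nat_lit 3) (nat_lit 0x9000580028003800000000000000000000000) (nat_lit 0x0) (nat_lit 0x1000180004000000040000000000000000000000000000) := T_1 (nat_lit 164) (nat_lit 114) (nat_lit 6) (nat_lit 11) (nat_lit 9) L532160 (by decide +kernel)
theorem L532162 : W_1 (nat_lit 4) (nat_lit 0x9000580028003000000000000000000000000) (nat_lit 0x0) (nat_lit 0x1000180004000000040000800040000000000000000000) := T_1 (nat_lit 95) (nat_lit 78) (nat_lit 4) (nat_lit 11) (nat_lit 8) L532161 (by decide +kernel)
theorem L532163 : W_1 (nat_lit 5) (nat_lit 0x9000580028001000000000000000000000000) (nat_lit 0x0) (nat_lit 0x1000180004000000040002800140000000000000000000) := T_1 (nat_lit 97) (nat_lit 80) (nat_lit 6) (nat_lit 11) (nat_lit 8) L532162 (by decide +kernel)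
theorem L532231 : W_1 (nat_lit 2) (nat_lit 0x400080009000580028003000000000000000000000000) (nat_lit 0x0) (nat_lit 0x1000100000000000040000000000000000000000000000) := D_1 (nat_lit 164) (nat_lit 180) (nat_lit 114) (nat_lit 5) (nat_lit 11) (nat_lit 6) (nat_lit 6) (nat_lit 11) (nat_lit 9) (by decide +kernel)
theorem L532232 : W_1 (nat_lit 3) (nat_lit 0x400080009000580028001000000000000000000000000) (nat_lit 0x0) (nat_lit 0x1000100000000000040002000100000000000000000000) := T_1 (nat_lit 97) (nat_lit 80) (nat_lit 6) (nat_lit 11) (nat_lit 8) L532231 (by decide +kernel)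
theorem L532233 : W_1 (nat_lit 4) (nat_lit 0x400000009000580028001000000000000000000000000) (nat_lit 0x0) (nat_lit 0x1000180004000000040002000100000000000000000000) := T_1 (nat_lit 163) (nat_lit 146) (nat_lit 5) (nat_lit 11) (nat_lit 5) L532232 (by decide +kernel)
theorem L532234 : W_1 (nat_lit 5) (nat_lit 0x9000580028001000000000000000000000000) (nat_lit 0x0) (nat_lit 0x14001a0004000000040002000100000000000000000000) := T_1 (nat_lit 178) (nat_lit 161) (nat_lit 6) (nat_lit 8) (nat_lit 10) L532233 (by decide +kernel)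
theorem L532327 : W_1 (nat_lit 2) (nat_lit 0x2000300009000580068000000000000000000000000000) (nat_lit 0x0) (nat_lit 0x20001000080000000000000000000000000000000000000000) := D_1 (nat_lit 180) (nat_lit 197) (nat_lit 163) (nat_lit 5) (nat_lit 11) (nat_lit 7) (nat_lit 5) (nat_lit 11) (nat_lit 6) (by decide +kernel)
theorem L532328 : W_1 (nat_lit 3) (nat_lit 0x300009000580068000000000000000000000000000) (nat_lit 0x0) (nat_lit 0x20003000080000000800000000000000000000000000000000) := T_1 (nat_lit 181) (nat_lit 131) (nat_lit 6) (nat_lit 11) (nat_lit 10) L532327 (by decide +kernel)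
theorem L532329 : W_1 (nat_lit 4) (nat_lit 0x100009000580068000000000000000000000000000) (nat_lit 0x0) (nat_lit 0x20007000280000000800000000000000000000000000000000) := T_1 (nat_lit 165) (nat_lit 182) (nat_lit 7) (nat_lit 11) (nat_lit 6) L532328 (by decide +kernel)
theorem L532330 : W_1 (nat_lit 5) (nat_lit 0x100009000580028000000000000000000000000000) (nat_lit 0x0) (nat_lit 0x20007000280000000800040002000000000000000000000000) := T_1 (nat_lit 114) (nat_lit 97) (nat_lit 6) (nat_lit 11) (nat_lit 9) L532329 (by decide +kernel)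
theorem L535233 : W_1 (nat_lit 2) (nat_lit 0x180009000580068001000000000000000000000000) (nat_lit 0x0) (nat_lit 0x4000200010000000000000000000000000000000000000) := D_1 (nat_lit 165) (nat_lit 182) (nat_lit 148) (nat_lit 7) (nat_lit 11) (nat_lit 6) (nat_lit 7) (nat_lit 11) (nat_lit 5) (by decide +kernel)
theorem L535234 : W_1 (nat_lit 3) (nat_lit 0x180009000580068000000000000000000000000000) (nat_lit 0x0) (nat_lit 0x4000200014000000000001000000000000000000000000) := T_1 (nat_lit 96) (nat_lit 146) (nat_lit 5) (nat_lit 11) (nat_lit 5) L535233 (by decide +kernel)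
theorem L535235 : W_1 (nat_lit 4) (nat_lit 0x100009000580068000000000000000000000000000) (nat_lit 0x0) (nat_lit 0x5000280014000000000001000000000000000000000000) := T_1 (nat_lit 163) (nat_lit 180) (nat_lit 5) (nat_lit 11) (nat_lit 6) L535234 (by decide +kernel)
theorem L535236 : W_1 (nat_lit 5) (nat_lit 0x9000580068000000000000000000000000000) (nat_lit 0x0) (nat_lit 0x5000380014000000000003000000000000000000000000) := T_1 (nat_lit 164) (nat_lit 97) (nat_lit 6) (nat_lit 11) (nat_lit 9) L535235 (by decide +kernel)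
theorem L535740 : W_1 (nat_lit 2) (nat_lit 0x10001f0008000000000000000000000000000) (nat_lit 0x0) (nat_lit 0x1c00000000000000000000000000) := D_1 (nat_lit 107) (nat_lit 108) (nat_lit 106) (nat_lit 0) (nat_lit 9) (nat_lit 7) (nat_lit 0) (nat_lit 8) (nat_lit 7) (by decide +kernel)
theorem L552922 : W_1 (nat_lit 2) (nat_lit 0x1000380028000000020000000000000000000) (nat_lit 0x0) (nat_lit 0x40050000000000000000000000000000) := D_1 (nat_lit 112) (nat_lit 114) (nat_lit 126) (nat_lit 1) (nat_lit 12) (nat_lit 6) (nat_lit 2) (nat_lit 7) (nat_lit 7) (by decide +kernel)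
theorem L552923 : W_1 (nat_lit 2) (nat_lit 0x1000380028000000020000000000000000000) (nat_lit 0x0) (nat_lit 0x400050000000000000000000000000000) := D_1 (nat_lit 114) (nat_lit 112) (nat_lit 130) (nat_lit 1) (nat_lit 12) (nat_lit 6) (nat_lit 2) (nat_lit 8) (nat_lit 7) (by decide +kernel)
theorem L552926 : W_1 (nat_lit 2) (nat_lit 0x5000380028000000020000000000000000000) (nat_lit 0x0) (nat_lit 0x8000040010000000000000000000000000000) := D_1 (nat_lit 126) (nat_lit 112) (nat_lit 147) (nat_lit 2) (nat_lit 7) (nat_lit 7) (nat_lit 3) (nat_lit 7) (nat_lit 7) (by decide +kernel)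
theorem L552933 : W_1 (nat_lit 2) (nat_lit 0x100000000d000380028000000020000000000000000000) (nat_lit 0x0) (nat_lit 0x30000400000000000000000000000000000000) := D_1 (nat_lit 148) (nat_lit 149) (nat_lit 130) (nat_lit 0) (nat_lit 13) (nat_lit 8) (nat_lit 3) (nat_lit 8) (nat_lit 7) (by decide +kernel)
theorem L552934 : W_1 (nat_lit 3) (nat_lit 0x1000000005000380028000000020000000000000000000) (nat_lit 0x0) (nat_lit 0x38000440000000000000000000000000000000) := T_1 (nat_lit 147) (nat_lit 126) (nat_lit 3) (nat_lit 7) (nat_lit 7) L552933 (by decide +kernel)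
theorem L552935 : W_1 (nat_lit 4) (nat_lit 0x5000380028000000020000000000000000000) (nat_lit 0x0) (nat_lit 0x1000080038000440000000000000000000000000000000) := T_1 (nat_lit 180) (nat_lit 163) (nat_lit 4) (nat_lit 10) (nat_lit 10) L552934 (by decide +kernel)
theorem L552949 : W_1 (nat_lit 2) (nat_lit 0x1000780058000000020000000000000000000) (nat_lit 0x0) (nat_lit 0x1800080000000000000000000000000000) := D_1 (nat_lit 131) (nat_lit 115) (nat_lit 132) (nat_lit 2) (nat_lit 9) (nat_lit 7) (nat_lit 0) (nat_lit 13) (nat_lit 7) (by decide +kernel)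
theorem L552950 : W_1 (nat_lit 3) (nat_lit 0x1000780018000000020000000000000000000) (nat_lit 0x0) (nat_lit 0x18000e0000000000000000000000000000) := T_1 (nat_lit 114) (nat_lit 113) (nat_lit 2) (nat_lit 8) (nat_lit 7) L552949 (by decide +kernel)
theorem L552951 : W_1 (nat_lit 5) (nat_lit 0x1000380018000000020000000000000000000) (nat_lit 0x0) (nat_lit 0x2000100038001c000e0000800000000000000000000000) := Q_1 (nat_lit 130) (C_1 L552950 (C_1 L530242 (C_1 L527748 N_1))) (by decide +kernel)
theorem L552966 : W_1 (nat_lit 5) (nat_lit 0x1000380028000000020000000000000000000) (nat_lit 0x0) (nat_lit 0x100008001c000440040001000000000000000000000000) := T_1 (nat_lit 130) (nat_lit 114) (nat_lit 2) (nat_lit 8) (nat_lit 7) L532115 (by decide +kernel)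
theorem L552967 : W_1 (nat_lit 2) (nat_lit 0x180005000380038000800020000000000000000000) (nat_lit 0x0) (nat_lit 0x40003000000000000000) := D_1 (nat_lit 78) (nat_lit 61) (nat_lit 60) (nat_lit 5) (nat_lit 10) (nat_lit 3) (nat_lit 4) (nat_lit 10) (nat_lit 7) (by decide +kernel)
theorem L552968 : W_1 (nat_lit 3) (nat_lit 0x180005000380038000000020000000000000000000) (nat_lit 0x0) (nat_lit 0x8000000000000800040003000000000000000) := T_1 (nat_lit 95) (nat_lit 147) (nat_lit 7) (nat_lit 10) (nat_lit 5) L552967 (by decide +kernel)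
theorem L552969 : W_1 (nat_lit 4) (nat_lit 0x80005000380038000000020000000000000000000) (nat_lit 0x0) (nat_lit 0x2000100008000000000000800040003000000000000000) := T_1 (nat_lit 164) (nat_lit 181) (nat_lit 7) (nat_lit 10) (nat_lit 6) L552968 (by decide +kernel)
theorem L552970 : W_1 (nat_lit 5) (nat_lit 0x80005000380028000000020000000000000000000) (nat_lit 0x0) (nat_lit 0x2000100008000000010001800040003000000000000000) := T_1 (nat_lit 112) (nat_lit 96) (nat_lit 6) (nat_lit 10) (nat_lit 9) L552969 (by decide +kernel)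
theorem L552971 : W_1 (nat_lit 6) (nat_lit 0x5000380028000000020000000000000000000) (nat_lit 0x0) (nat_lit 0x3000180008000000010001800040003000000000000000) := T_1 (nat_lit 163) (nat_lit 180) (nat_lit 4) (nat_lit 10) (nat_lit 10) L552970 (by decide +kernel)
theorem L552972 : W_1 (nat_lit 2) (nat_lit 0x80005000380028000000020000000000000000000) (nat_lit 0x0) (nat_lit 0x40010001000000000000000000000000) := D_1 (nat_lit 112) (nat_lit 126) (nat_lit 96) (nat_lit 2) (nat_lit 7) (nat_lit 7) (nat_lit 6) (nat_lit 10) (nat_lit 9) (by decide +kernel)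
theorem L552973 : W_1 (nat_lit 3) (nat_lit 0x5000380028000000020000000000000000000) (nat_lit 0x0) (nat_lit 0x1000080000000040010001000000000000000000000000) := T_1 (nat_lit 163) (nat_lit 180) (nat_lit 4) (nat_lit 10) (nat_lit 10) L552972 (by decide +kernel)
theorem L552974 : W_1 (nat_lit 7) (nat_lit 0x1000380028000000020000000000000000000) (nat_lit 0x0) (nat_lit 0x300018003c000440010001800040003000000000000000) := Q_1 (nat_lit 146) (C_1 L552971 (C_1 L552973 (C_1 L552935 (C_1 L552926 N_1)))) (by decide +kernel)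
theorem L552975 : W_1 (nat_lit 8) (nat_lit 0x1000380008000000020000000000000000000) (nat_lit 0x0) (nat_lit 0x300018003c000440070001800040003000000000000000) := Q_1 (nat_lit 113) (C_1 L552966 (C_1 L552923 (C_1 L552922 (C_1 L552974 N_1)))) (by decide +kernel)
theorem L557559 : W_1 (nat_lit 2) (nat_lit 0x200010003c0000000000000000000000000000000) (nat_lit 0x0) (nat_lit 0x400000000000000003000000000000000000000000000) := D_1 (nat_lit 109) (nat_lit 108) (nat_lit 178) (nat_lit 0) (nat_lit 10) (nat_lit 7) (nat_lit 4) (nat_lit 8) (nat_lit 10) (by decide +kernel)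
theorem L568035 : W_1 (nat_lit 3) (nat_lit 0x1000180004000200010000800080000000000) (nat_lit 0x0) (nat_lit 0x400060005000000) := T_1 (nat_lit 41) (nat_lit 58) (nat_lit 4) (nat_lit 8) (nat_lit 6) L76578 (by decide +kernel)
theorem L568036 : W_1 (nat_lit 4) (nat_lit 0x1000180004000200010000800000000000000) (nat_lit 0x0) (nat_lit 0x14000e0005000000) := T_1 (nat_lit 43) (nat_lit 60) (nat_lit 6) (nat_lit 8) (nat_lit 6) L568035 (by decide +kernel)
theorem L568037 : W_1 (nat_lit 5) (nat_lit 0x1000180004000200010000000000000000000) (nat_lit 0x0) (nat_lit 0x8000000000001c000e0005000000) := T_1 (nat_lit 59) (nat_lit 111) (nat_lit 7) (nat_lit 8) (nat_lit 3) L568036 (by decide +kernel)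
theorem L568049 : W_1 (nat_lit 2) (nat_lit 0x10000000050003c001e000900000000000000000000000) (nat_lit 0x0) (nat_lit 0x2000000000000000040002000000000000000) := D_1 (nat_lit 78) (nat_lit 61) (nat_lit 145) (nat_lit 5) (nat_lit 10) (nat_lit 3) (nat_lit 5) (nat_lit 10) (nat_lit 4) (by decide +kernel)
theorem L568050 : W_1 (nat_lit 3) (nat_lit 0x10000000050003c001e000100000000000000000000000) (nat_lit 0x0) (nat_lit 0x2000000000001800040002000000000000000) := T_1 (nat_lit 95) (nat_lit 96) (nat_lit 2) (nat_lit 7) (nat_lit 6) L568049 (by decide +kernel)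
theorem L568051 : W_1 (nat_lit 4) (nat_lit 0x10000000050003c001a000100000000000000000000000) (nat_lit 0x0) (nat_lit 0x2000000004001880040002000000000000000) := T_1 (nat_lit 110) (nat_lit 91) (nat_lit 0) (nat_lit 10) (nat_lit 6) L568050 (by decide +kernel)
theorem L568052 : W_1 (nat_lit 5) (nat_lit 0x10000000050003c000a000100000000000000000000000) (nat_lit 0x0) (nat_lit 0x2000000034001880040002000000000000000) := T_1 (nat_lit 112) (nat_lit 113) (nat_lit 2) (nat_lit 7) (nat_lit 7) L568051 (by decide +kernel)
theorem L568053 : W_1 (nat_lit 6) (nat_lit 0x10000000050003c000a000000000000000000000000000) (nat_lit 0x0) (nat_lit 0x2000000034001980048002000000000000000) := T_1 (nat_lit 92) (nat_lit 75) (nat_lit 7) (nat_lit 7) (nat_lit 4) L568052 (by decide +kernel)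
theorem L568054 : W_1 (nat_lit 7) (nat_lit 0x50003c000a000000000000000000000000000) (nat_lit 0x0) (nat_lit 0x1000080002000000034001980048002000000000000000) := T_1 (nat_lit 180) (nat_lit 163) (nat_lit 4) (nat_lit 10) (nat_lit 10) L568053 (by decide +kernel)
theorem L568055 : W_1 (nat_lit 8) (nat_lit 0x10003c000a000000000000000000000000000) (nat_lit 0x0) (nat_lit 0x100008000e000000034001980048002000000000000000) := T_1 (nat_lit 146) (nat_lit 147) (nat_lit 3) (nat_lit 7) (nat_lit 7) L568054 (by decide +kernel)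
theorem L568056 : W_1 (nat_lit 9) (nat_lit 0x10003c0008000000000000000000000000000) (nat_lit 0x0) (nat_lit 0x100008000e000000037001980048002000000000000000) := T_1 (nat_lit 109) (nat_lit 108) (nat_lit 0) (nat_lit 10) (nat_lit 7) L568055 (by decide +kernel)
theorem L568057 : W_1 (nat_lit 4) (nat_lit 0x10003c0008000000000000000000000000000) (nat_lit 0x0) (nat_lit 0x8000c000000030000400020000000000000000000) := T_1 (nat_lit 112) (nat_lit 113) (nat_lit 2) (nat_lit 7) (nat_lit 7) L529636 (by decide +kernel)
theorem L568058 : W_1 (nat_lit 2) (nat_lit 0x10003c001e000900020000000000000000000) (nat_lit 0x0) (nat_lit 0x40003000000000000000) := D_1 (nat_lit 78) (nat_lit 60) (nat_lit 61) (nat_lit 4) (nat_lit 10) (nat_lit 7) (nat_lit 5) (nat_lit 10) (nat_lit 3) (by decide +kernel)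
theorem L568059 : W_1 (nat_lit 3) (nat_lit 0x10003c001e000100020000000000000000000) (nat_lit 0x0) (nat_lit 0x1800040003000000000000000) := T_1 (nat_lit 95) (nat_lit 96) (nat_lit 2) (nat_lit 7) (nat_lit 6) L568058 (by decide +kernel)
theorem L568060 : W_1 (nat_lit 4) (nat_lit 0x10003c001a000100020000000000000000000) (nat_lit 0x0) (nat_lit 0x4001880040003000000000000000) := T_1 (nat_lit 110) (nat_lit 91) (nat_lit 0) (nat_lit 10) (nat_lit 6) L568059 (by decide +kernel)
theorem L568061 : W_1 (nat_lit 5) (nat_lit 0x10003c001a000000020000000000000000000) (nat_lit 0x0) (nat_lit 0x4001980048003000000000000000) := T_1 (nat_lit 92) (nat_lit 75) (nat_lit 7) (nat_lit 7) (nat_lit 4) L568060 (by decide +kernel)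
theorem L568062 : W_1 (nat_lit 6) (nat_lit 0x10003c0018000000020000000000000000000) (nat_lit 0x0) (nat_lit 0x7001980048003000000000000000) := T_1 (nat_lit 109) (nat_lit 108) (nat_lit 0) (nat_lit 10) (nat_lit 7) L568061 (by decide +kernel)
theorem L568063 : W_1 (nat_lit 7) (nat_lit 0x10003c0008000000020000000000000000000) (nat_lit 0x0) (nat_lit 0x37001980048003000000000000000) := T_1 (nat_lit 112) (nat_lit 113) (nat_lit 2) (nat_lit 7) (nat_lit 7) L568062 (by decide +kernel)
theorem L568064 : W_1 (nat_lit 8) (nat_lit 0x10003c0008000000000000000000000000000) (nat_lit 0x0) (nat_lit 0x37001d80068003000000000000000) := T_1 (nat_lit 77) (nat_lit 94) (nat_lit 5) (nat_lit 9) (nat_lit 4) L568063 (by decide +kernel)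
theorem L568065 : W_1 (nat_lit 2) (nat_lit 0x50003c000a000400008000000000000000000) (nat_lit 0x0) (nat_lit 0x1000080002000000000000000000000000000000000000) := D_1 (nat_lit 163) (nat_lit 145) (nat_lit 180) (nat_lit 7) (nat_lit 9) (nat_lit 5) (nat_lit 4) (nat_lit 10) (nat_lit 10) (by decide +kernel)
theorem L568066 : W_1 (nat_lit 3) (nat_lit 0x10003c000a000400008000000000000000000) (nat_lit 0x0) (nat_lit 0x100008000e000000000000000000000000000000000000) := T_1 (nat_lit 146) (nat_lit 147) (nat_lit 3) (nat_lit 7) (nat_lit 7) L568065 (by decide +kernel)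
theorem L568067 : W_1 (nat_lit 4) (nat_lit 0x10003c000a000400000000000000000000000) (nat_lit 0x0) (nat_lit 0x100008000e000000000000100008000000000000000000) := T_1 (nat_lit 75) (nat_lit 92) (nat_lit 7) (nat_lit 7) (nat_lit 4) L568066 (by decide +kernel)
theorem L568068 : W_1 (nat_lit 5) (nat_lit 0x10003c000a000000000000000000000000000) (nat_lit 0x0) (nat_lit 0x100008000e000000000000500028000000000000000000) := T_1 (nat_lit 94) (nat_lit 77) (nat_lit 5) (nat_lit 9) (nat_lit 4) L568067 (by decide +kernel)
theorem L568069 : W_1 (nat_lit 6) (nat_lit 0x10003c0008000000000000000000000000000) (nat_lit 0x0) (nat_lit 0x100008000e000000003000500028000000000000000000) := T_1 (nat_lit 109) (nat_lit 108) (nat_lit 0) (nat_lit 10) (nat_lit 7) L568068 (by decide +kernel)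
theorem L568070 : W_1 (nat_lit 10) (nat_lit 0x10003c0000000000000000000000000000000) (nat_lit 0x0) (nat_lit 0x100008000e00000003f001d80068003000000000000000) := Q_1 (nat_lit 111) (C_1 L568056 (C_1 L568057 (C_1 L568064 (C_1 L568069 N_1)))) (by decide +kernel)
theorem L568071 : W_1 (nat_lit 6) (nat_lit 0x10007c0012000000000000000000000000000) (nat_lit 0x0) (nat_lit 0x720018001c0000100008000000000000000000) := T_1 (nat_lit 75) (nat_lit 92) (nat_lit 7) (nat_lit 7) (nat_lit 4) L512555 (by decide +kernel)
theorem L568072 : W_1 (nat_lit 7) (nat_lit 0x10003c0012000000000000000000000000000) (nat_lit 0x0) (nat_lit 0x72001c001c4000100008000000000000000000) := T_1 (nat_lit 130) (nat_lit 110) (nat_lit 0) (nat_lit 11) (nat_lit 7) L568071 (by decide +kernel)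
theorem L568073 : W_1 (nat_lit 8) (nat_lit 0x10003c0010000000000000000000000000000) (nat_lit 0x0) (nat_lit 0x72001c001c7000100008000000000000000000) := T_1 (nat_lit 109) (nat_lit 108) (nat_lit 0) (nat_lit 10) (nat_lit 7) L568072 (by decide +kernel)
theorem L568074 : W_1 (nat_lit 9) (nat_lit 0x10003c0000000000000000000000000000000) (nat_lit 0x0) (nat_lit 0x72001c001f7000100008000000000000000000) := T_1 (nat_lit 112) (nat_lit 113) (nat_lit 2) (nat_lit 7) (nat_lit 7) L568073 (by decide +kernel)
theorem L568075 : W_1 (nat_lit 11) (nat_lit 0x10001c0000000000000000000000000000000) (nat_lit 0x0) (nat_lit 0x100008007e001e001ff001d80068003000000000000000) := Q_1 (nat_lit 129) (C_1 L527660 (C_1 L504429 (C_1 L499575 (C_1 L568070 (C_1 L568074 N_1))))) (by decide +kernel)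
theorem L568079 : W_1 (nat_lit 2) (nat_lit 0x1000180008000400000000000000000000000) (nat_lit 0x0) (nat_lit 0x400020002000000000000000000000000000000000000) := D_1 (nat_lit 161) (nat_lit 178) (nat_lit 145) (nat_lit 6) (nat_lit 8) (nat_lit 10) (nat_lit 5) (nat_lit 9) (nat_lit 5) (by decide +kernel)
theorem L568080 : W_1 (nat_lit 3) (nat_lit 0x1000180008000000000000000000000000000) (nat_lit 0x0) (nat_lit 0x400020002000000000000400020000000000000000000) := T_1 (nat_lit 94) (nat_lit 77) (nat_lit 5) (nat_lit 9) (nat_lit 4) L568079 (by decide +kernel)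
theorem L568085 : W_1 (nat_lit 2) (nat_lit 0x10001e0008000000000000000000000000000) (nat_lit 0x0) (nat_lit 0x6000010000000000000000000000000000000) := D_1 (nat_lit 145) (nat_lit 146) (nat_lit 124) (nat_lit 3) (nat_lit 6) (nat_lit 7) (nat_lit 3) (nat_lit 5) (nat_lit 7) (by decide +kernel)
theorem L568087 : W_1 (nat_lit 3) (nat_lit 0x10001c0008000000000000000000000000000) (nat_lit 0x0) (nat_lit 0x6000030010000000000000000000000000000) := T_1 (nat_lit 125) (nat_lit 112) (nat_lit 2) (nat_lit 6) (nat_lit 7) L568085 (by decide +kernel)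
theorem L568089 : W_1 (nat_lit 2) (nat_lit 0x20001000180008000000000000000000000000000) (nat_lit 0x0) (nat_lit 0x2000000004000400000000000000000000000) := D_1 (nat_lit 94) (nat_lit 110) (nat_lit 145) (nat_lit 6) (nat_lit 8) (nat_lit 9) (nat_lit 5) (nat_lit 9) (nat_lit 5) (by decide +kernel)
theorem L568090 : W_1 (nat_lit 3) (nat_lit 0x1000180008000000000000000000000000000) (nat_lit 0x0) (nat_lit 0x400020002000000004000400000000000000000000000) := T_1 (nat_lit 161) (nat_lit 178) (nat_lit 6) (nat_lit 8) (nat_lit 10) L568089 (by decide +kernel)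
theorem L568091 : W_1 (nat_lit 3) (nat_lit 0x10001e0008000000000000000000000000000) (nat_lit 0x0) (nat_lit 0x10005c00000000000000000000000000) := T_1 (nat_lit 124) (nat_lit 110) (nat_lit 2) (nat_lit 5) (nat_lit 7) L535740 (by decide +kernel)
theorem L568092 : W_1 (nat_lit 4) (nat_lit 0x10001c0008000000000000000000000000000) (nat_lit 0x0) (nat_lit 0x30015c00000000000000000000000000) := T_1 (nat_lit 125) (nat_lit 112) (nat_lit 2) (nat_lit 6) (nat_lit 7) L568091 (by decide +kernel)
theorem L568112 : W_1 (nat_lit 2) (nat_lit 0x4000000090007c0018000000000000000000000000000) (nat_lit 0x0) (nat_lit 0x800006000000000000000000000000000) := D_1 (nat_lit 110) (nat_lit 109) (nat_lit 131) (nat_lit 3) (nat_lit 7) (nat_lit 6) (nat_lit 0) (nat_lit 12) (nat_lit 7) (by decide +kernel)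
theorem L568113 : W_1 (nat_lit 3) (nat_lit 0x4000000090003c0018000000000000000000000000000) (nat_lit 0x0) (nat_lit 0x10000c00006000000000000000000000000000) := T_1 (nat_lit 130) (nat_lit 148) (nat_lit 3) (nat_lit 8) (nat_lit 7) L568112 (by decide +kernel)
theorem L568114 : W_1 (nat_lit 4) (nat_lit 0x4000000010003c0018000000000000000000000000000) (nat_lit 0x0) (nat_lit 0x1c000c00006000000000000000000000000000) := T_1 (nat_lit 147) (nat_lit 146) (nat_lit 3) (nat_lit 7) (nat_lit 7) L568113 (by decide +kernel)
theorem L568115 : W_1 (nat_lit 5) (nat_lit 0x10003c0018000000000000000000000000000) (nat_lit 0x0) (nat_lit 0x40002001c000c00006000000000000000000000000000) := T_1 (nat_lit 178) (nat_lit 161) (nat_lit 6) (nat_lit 8) (nat_lit 10) L568114 (by decide +kernel)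
theorem L568116 : W_1 (nat_lit 6) (nat_lit 0x10003c0008000000000000000000000000000) (nat_lit 0x0) (nat_lit 0x40002001c000c00036000000000000000000000000000) := T_1 (nat_lit 112) (nat_lit 113) (nat_lit 2) (nat_lit 7) (nat_lit 7) L568115 (by decide +kernel)
theorem L568125 : W_1 (nat_lit 2) (nat_lit 0x90007c0018000000000000000000000000000) (nat_lit 0x0) (nat_lit 0x2000800004000000000000000000000000000) := D_1 (nat_lit 131) (nat_lit 145) (nat_lit 110) (nat_lit 1) (nat_lit 12) (nat_lit 7) (nat_lit 0) (nat_lit 12) (nat_lit 7) (by decide +kernel)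
theorem L568126 : W_1 (nat_lit 3) (nat_lit 0x90003c0018000000000000000000000000000) (nat_lit 0x0) (nat_lit 0x12000c00004000000000000000000000000000) := T_1 (nat_lit 130) (nat_lit 148) (nat_lit 3) (nat_lit 8) (nat_lit 7) L568125 (by decide +kernel)
theorem L568127 : W_1 (nat_lit 4) (nat_lit 0x10003c0018000000000000000000000000000) (nat_lit 0x0) (nat_lit 0x1e000c00004000000000000000000000000000) := T_1 (nat_lit 147) (nat_lit 146) (nat_lit 3) (nat_lit 7) (nat_lit 7) L568126 (by decide +kernel)
theorem L568128 : W_1 (nat_lit 5) (nat_lit 0x10003c0008000000000000000000000000000) (nat_lit 0x0) (nat_lit 0x1e000c00034000000000000000000000000000) := T_1 (nat_lit 112) (nat_lit 113) (nat_lit 2) (nat_lit 7) (nat_lit 7) L568127 (by decide +kernel)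
theorem L586074 : W_1 (nat_lit 2) (nat_lit 0x200050003c0002000c00038000000000000000000) (nat_lit 0x0) (nat_lit 0x3000040000000000000000000) := D_1 (nat_lit 96) (nat_lit 97) (nat_lit 78) (nat_lit 0) (nat_lit 12) (nat_lit 5) (nat_lit 3) (nat_lit 7) (nat_lit 4) (by decide +kernel)
theorem L586075 : W_1 (nat_lit 3) (nat_lit 0x200050003c0002000c00028000000000000000000) (nat_lit 0x0) (nat_lit 0x3000054000000000000000000) := T_1 (nat_lit 76) (nat_lit 74) (nat_lit 3) (nat_lit 6) (nat_lit 4) L586074 (by decide +kernel)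
theorem L586076 : W_1 (nat_lit 4) (nat_lit 0x200050003c0002000400028000000000000000000) (nat_lit 0x0) (nat_lit 0x10003800054000000000000000000) := T_1 (nat_lit 95) (nat_lit 112) (nat_lit 4) (nat_lit 10) (nat_lit 8) L586075 (by decide +kernel)
theorem L586077 : W_1 (nat_lit 5) (nat_lit 0x200050003c0002000400020000000000000000000) (nat_lit 0x0) (nat_lit 0x1000390005c000000000000000000) := T_1 (nat_lit 75) (nat_lit 92) (nat_lit 7) (nat_lit 7) (nat_lit 4) L586076 (by decide +kernel)
theorem L586078 : W_1 (nat_lit 6) (nat_lit 0x200010003c0002000400020000000000000000000) (nat_lit 0x0) (nat_lit 0xc00000001000390005c000000000000000000) := T_1 (nat_lit 146) (nat_lit 147) (nat_lit 3) (nat_lit 7) (nat_lit 7) L586077 (by decide +kernel)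
theorem L586322 : W_1 (nat_lit 2) (nat_lit 0x200050003c0008000400000000000000000000000) (nat_lit 0x0) (nat_lit 0x1000080000000000010000000000000000000000000000) := D_1 (nat_lit 163) (nat_lit 180) (nat_lit 112) (nat_lit 4) (nat_lit 10) (nat_lit 10) (nat_lit 4) (nat_lit 10) (nat_lit 9) (by decide +kernel)
theorem L586337 : W_1 (nat_lit 2) (nat_lit 0x200010003c0000000400000000000000000000000) (nat_lit 0x0) (nat_lit 0x2000000008000000020000000000000000000) := D_1 (nat_lit 111) (nat_lit 145) (nat_lit 77) (nat_lit 5) (nat_lit 9) (nat_lit 5) (nat_lit 5) (nat_lit 9) (nat_lit 4) (by decide +kernel)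
theorem L586338 : W_1 (nat_lit 7) (nat_lit 0x200010003c0002000400000000000000000000000) (nat_lit 0x0) (nat_lit 0xc00000001800390007c000000000000000000) := T_1 (nat_lit 77) (nat_lit 111) (nat_lit 5) (nat_lit 9) (nat_lit 4) L586078 (by decide +kernel)
theorem L586339 : W_1 (nat_lit 8) (nat_lit 0x200010003c0000000400000000000000000000000) (nat_lit 0x0) (nat_lit 0xc00000001b00390007c000000000000000000) := T_1 (nat_lit 109) (nat_lit 108) (nat_lit 0) (nat_lit 10) (nat_lit 7) L586338 (by decide +kernel)
theorem L586340 : W_1 (nat_lit 2) (nat_lit 0x200050003c0012000c00048000000000000000000) (nat_lit 0x0) (nat_lit 0x1000080004000000000000000) := D_1 (nat_lit 79) (nat_lit 96) (nat_lit 62) (nat_lit 6) (nat_lit 10) (nat_lit 8) (nat_lit 6) (nat_lit 10) (nat_lit 7) (by decide +kernel)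
theorem L586341 : W_1 (nat_lit 3) (nat_lit 0x200050003c0012000c00008000000000000000000) (nat_lit 0x0) (nat_lit 0x20000000000010000c0004000000000000000) := T_1 (nat_lit 78) (nat_lit 145) (nat_lit 5) (nat_lit 10) (nat_lit 4) L586340 (by decide +kernel)
theorem L586342 : W_1 (nat_lit 4) (nat_lit 0x200050003c0012000400008000000000000000000) (nat_lit 0x0) (nat_lit 0x20000000000018000e0004000000000000000) := T_1 (nat_lit 95) (nat_lit 77) (nat_lit 4) (nat_lit 10) (nat_lit 8) L586341 (by decide +kernel)
theorem L586343 : W_1 (nat_lit 5) (nat_lit 0x200010003c0012000400008000000000000000000) (nat_lit 0x0) (nat_lit 0xe0000000000018000e0004000000000000000) := T_1 (nat_lit 146) (nat_lit 147) (nat_lit 3) (nat_lit 7) (nat_lit 7) L586342 (by decide +kernel)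
theorem L586344 : W_1 (nat_lit 6) (nat_lit 0x200010003c0012000400000000000000000000000) (nat_lit 0x0) (nat_lit 0xe0000000000019000e8004000000000000000) := T_1 (nat_lit 75) (nat_lit 92) (nat_lit 7) (nat_lit 7) (nat_lit 4) L586343 (by decide +kernel)
theorem L586345 : W_1 (nat_lit 7) (nat_lit 0x200010003c0002000400000000000000000000000) (nat_lit 0x0) (nat_lit 0xe0000000300019000e8004000000000000000) := T_1 (nat_lit 112) (nat_lit 113) (nat_lit 2) (nat_lit 7) (nat_lit 7) L586344 (by decide +kernel)
theorem L586346 : W_1 (nat_lit 8) (nat_lit 0x200010003c0000000400000000000000000000000) (nat_lit 0x0) (nat_lit 0xe0000000330019000e8004000000000000000) := T_1 (nat_lit 109) (nat_lit 108) (nat_lit 0) (nat_lit 10) (nat_lit 7) L586345 (by decide +kernel)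
theorem L586347 : W_1 (nat_lit 3) (nat_lit 0x200050003c0000000400000000000000000000000) (nat_lit 0x0) (nat_lit 0x1000080002000000018000000000000000000000000000) := T_1 (nat_lit 111) (nat_lit 145) (nat_lit 5) (nat_lit 9) (nat_lit 5) L586322 (by decide +kernel)
theorem L586348 : W_1 (nat_lit 4) (nat_lit 0x200010003c0000000400000000000000000000000) (nat_lit 0x0) (nat_lit 0x100008000e000000018000000000000000000000000000) := T_1 (nat_lit 146) (nat_lit 147) (nat_lit 3) (nat_lit 7) (nat_lit 7) L586347 (by decide +kernel)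
theorem L586349 : W_1 (nat_lit 9) (nat_lit 0x200010003c0000000000000000000000000000000) (nat_lit 0x0) (nat_lit 0x100008000e00000003b003d000fc004000000000000000) := Q_1 (nat_lit 94) (C_1 L586337 (C_1 L586339 (C_1 L586346 (C_1 L586348 N_1)))) (by decide +kernel)
theorem L586451 : W_1 (nat_lit 2) (nat_lit 0x4000000050001e0009000000000000000000000000000) (nat_lit 0x0) (nat_lit 0x8000200002000000000000000000000000000) := D_1 (nat_lit 129) (nat_lit 147) (nat_lit 109) (nat_lit 3) (nat_lit 7) (nat_lit 7) (nat_lit 0) (nat_lit 10) (nat_lit 7) (by decide +kernel)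
theorem L586452 : W_1 (nat_lit 3) (nat_lit 0x4000000050001e0008000000000000000000000000000) (nat_lit 0x0) (nat_lit 0x8000200003800000000000000000000000000) := T_1 (nat_lit 108) (nat_lit 107) (nat_lit 0) (nat_lit 9) (nat_lit 7) L586451 (by decide +kernel)
theorem L586453 : W_1 (nat_lit 4) (nat_lit 0x4000000010001e0008000000000000000000000000000) (nat_lit 0x0) (nat_lit 0xe000200003800000000000000000000000000) := T_1 (nat_lit 146) (nat_lit 145) (nat_lit 3) (nat_lit 6) (nat_lit 7) L586452 (by decide +kernel)
theorem L586454 : W_1 (nat_lit 5) (nat_lit 0x10001e0008000000000000000000000000000) (nat_lit 0x0) (nat_lit 0x40002000e000200003800000000000000000000000000) := T_1 (nat_lit 178) (nat_lit 161) (nat_lit 6) (nat_lit 8) (nat_lit 10) L586453 (by decide +kernel)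
theorem L586455 : W_1 (nat_lit 6) (nat_lit 0x10001c0008000000000000000000000000000) (nat_lit 0x0) (nat_lit 0x40002000e000230007c00000000000000000000000000) := Q_1 (nat_lit 125) (C_1 L568091 (C_1 L568085 (C_1 L586454 N_1))) (by decide +kernel)
theorem L586942 : W_1 (nat_lit 2) (nat_lit 0x1000180038000000000000000000000000000) (nat_lit 0x0) (nat_lit 0x60004000000000000000000000000000) := D_1 (nat_lit 126) (nat_lit 125) (nat_lit 110) (nat_lit 2) (nat_lit 6) (nat_lit 7) (nat_lit 1) (nat_lit 11) (nat_lit 6) (by decide +kernel)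
theorem L586943 : W_1 (nat_lit 3) (nat_lit 0x1000180018000000000000000000000000000) (nat_lit 0x0) (nat_lit 0x60064000000000000000000000000000) := T_1 (nat_lit 113) (nat_lit 114) (nat_lit 1) (nat_lit 12) (nat_lit 6) L586942 (by decide +kernel)
theorem L590977 : W_1 (nat_lit 2) (nat_lit 0x2000100018001e001000000000000000000000000) (nat_lit 0x0) (nat_lit 0x60002000000000000000000000000) := D_1 (nat_lit 113) (nat_lit 114) (nat_lit 97) (nat_lit 1) (nat_lit 12) (nat_lit 6) (nat_lit 2) (nat_lit 8) (nat_lit 6) (by decide +kernel)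
theorem L591071 : W_1 (nat_lit 6) (nat_lit 0x9000580028000000000000000000000000000) (nat_lit 0x0) (nat_lit 0x5000380014000000050003000000000000000000000000) := T_1 (nat_lit 114) (nat_lit 112) (nat_lit 1) (nat_lit 12) (nat_lit 6) L535236 (by decide +kernel)
theorem L591073 : W_1 (nat_lit 2) (nat_lit 0x400000009000580028003800000000000000000000000) (nat_lit 0x0) (nat_lit 0x50004000000000000000000000000) := D_1 (nat_lit 112) (nat_lit 98) (nat_lit 114) (nat_lit 1) (nat_lit 13) (nat_lit 5) (nat_lit 1) (nat_lit 12) (nat_lit 6) (by decide +kernel)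
theorem L591074 : W_1 (nat_lit 3) (nat_lit 0x400000009000580028001800000000000000000000000) (nat_lit 0x0) (nat_lit 0x50006000100000000000000000000) := T_1 (nat_lit 97) (nat_lit 80) (nat_lit 6) (nat_lit 11) (nat_lit 8) L591073 (by decide +kernel)
theorem L591075 : W_1 (nat_lit 4) (nat_lit 0x400000009000580028001000000000000000000000000) (nat_lit 0x0) (nat_lit 0x50006800140000000000000000000) := T_1 (nat_lit 95) (nat_lit 78) (nat_lit 4) (nat_lit 11) (nat_lit 8) L591074 (by decide +kernel)
theorem L591076 : W_1 (nat_lit 5) (nat_lit 0x9000580028001000000000000000000000000) (nat_lit 0x0) (nat_lit 0x400020000000000050006800140000000000000000000) := T_1 (nat_lit 178) (nat_lit 161) (nat_lit 6) (nat_lit 8) (nat_lit 10) L591075 (by decide +kernel)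
theorem L591096 : W_1 (nat_lit 7) (nat_lit 0x9000580028000000000000000000000000000) (nat_lit 0x0) (nat_lit 0x54003a0014000000050001800000000000000000000000) := T_1 (nat_lit 112) (nat_lit 114) (nat_lit 1) (nat_lit 12) (nat_lit 6) L529594 (by decide +kernel)
theorem L591097 : W_1 (nat_lit 2) (nat_lit 0x400000009000580028003800000000000000000000000) (nat_lit 0x0) (nat_lit 0x100000000000010004000000000000000000000000) := D_1 (nat_lit 112) (nat_lit 98) (nat_lit 164) (nat_lit 1) (nat_lit 13) (nat_lit 5) (nat_lit 4) (nat_lit 11) (nat_lit 9) (by decide +kernel)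
theorem L591098 : W_1 (nat_lit 3) (nat_lit 0x400000009000580028001800000000000000000000000) (nat_lit 0x0) (nat_lit 0x100000000000010006000100000000000000000000) := T_1 (nat_lit 97) (nat_lit 80) (nat_lit 6) (nat_lit 11) (nat_lit 8) L591097 (by decide +kernel)
theorem L591099 : W_1 (nat_lit 4) (nat_lit 0x400000009000580028001000000000000000000000000) (nat_lit 0x0) (nat_lit 0x100000000000010006800140000000000000000000) := T_1 (nat_lit 95) (nat_lit 78) (nat_lit 4) (nat_lit 11) (nat_lit 8) L591098 (by decide +kernel)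
theorem L591100 : W_1 (nat_lit 5) (nat_lit 0x9000580028001000000000000000000000000) (nat_lit 0x0) (nat_lit 0x400120000000000010006800140000000000000000000) := T_1 (nat_lit 178) (nat_lit 161) (nat_lit 6) (nat_lit 8) (nat_lit 10) L591099 (by decide +kernel)
theorem L591179 : W_1 (nat_lit 2) (nat_lit 0x8000340010001900058002800b0000d0000000000000000000) (nat_lit 0x0) (nat_lit 0x1000040000800000000000000000000000000000000000000000000) := D_1 (nat_lit 198) (nat_lit 179) (nat_lit 216) (nat_lit 3) (nat_lit 8) (nat_lit 10) (nat_lit 7) (nat_lit 11) (nat_lit 8) (by decide +kernel)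
theorem L591180 : W_1 (nat_lit 3) (nat_lit 0x340010001900058002800b0000d0000000000000000000) (nat_lit 0x0) (nat_lit 0x10000c0004800000000000000000000000000000000000000000000) := T_1 (nat_lit 199) (nat_lit 182) (nat_lit 7) (nat_lit 11) (nat_lit 7) L591179 (by decide +kernel)
theorem L591181 : W_1 (nat_lit 4) (nat_lit 0x140010001900058002800b0000d0000000000000000000) (nat_lit 0x0) (nat_lit 0x10000e0006800000000000000000000000000000000000000000000) := T_1 (nat_lit 181) (nat_lit 197) (nat_lit 5) (nat_lit 11) (nat_lit 7) L591180 (by decide +kernel)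
theorem L591182 : W_1 (nat_lit 5) (nat_lit 0x40010001900058002800b0000d0000000000000000000) (nat_lit 0x0) (nat_lit 0x10000e0007800080000000000000000000000000000000000000000) := T_1 (nat_lit 180) (nat_lit 163) (nat_lit 5) (nat_lit 11) (nat_lit 6) L591181 (by decide +kernel)
theorem L591183 : W_1 (nat_lit 6) (nat_lit 0x40000001900058002800b0000d0000000000000000000) (nat_lit 0x0) (nat_lit 0x10000e0007800180000000000040000000000000000000000000000) := T_1 (nat_lit 164) (nat_lit 114) (nat_lit 6) (nat_lit 11) (nat_lit 9) L591182 (by decide +kernel)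
theorem L591184 : W_1 (nat_lit 7) (nat_lit 0x4000000190005800280030000d0000000000000000000) (nat_lit 0x0) (nat_lit 0x10000e000780018000000000004000c000000000000000000000000) := T_1 (nat_lit 99) (nat_lit 98) (nat_lit 0) (nat_lit 14) (nat_lit 5) L591183 (by decide +kernel)
theorem L591185 : W_1 (nat_lit 8) (nat_lit 0x4000000190005800280030000c0000000000000000000) (nat_lit 0x0) (nat_lit 0x10000e000780018000000000004000c000030000000000000000000) := T_1 (nat_lit 76) (nat_lit 77) (nat_lit 3) (nat_lit 8) (nat_lit 4) L591184 (by decide +kernel)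
theorem L591186 : W_1 (nat_lit 9) (nat_lit 0x400000019000580028003000080000000000000000000) (nat_lit 0x0) (nat_lit 0x10000e000780018000000000004000c000070002000000000000000) := T_1 (nat_lit 78) (nat_lit 61) (nat_lit 4) (nat_lit 11) (nat_lit 7) L591185 (by decide +kernel)
theorem L591187 : W_1 (nat_lit 10) (nat_lit 0x400000019000580028003000000000000000000000000) (nat_lit 0x0) (nat_lit 0x10000e000780018000000080004000c0000f0002000000000000000) := T_1 (nat_lit 79) (nat_lit 131) (nat_lit 7) (nat_lit 11) (nat_lit 4) L591186 (by decide +kernel)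
theorem L591188 : W_1 (nat_lit 11) (nat_lit 0x400000009000580028003000000000000000000000000) (nat_lit 0x0) (nat_lit 0x10000e000780038001000080004000c0000f0002000000000000000) := T_1 (nat_lit 148) (nat_lit 165) (nat_lit 7) (nat_lit 11) (nat_lit 5) L591187 (by decide +kernel)
theorem L591189 : W_1 (nat_lit 12) (nat_lit 0x400000009000580028001000000000000000000000000) (nat_lit 0x0) (nat_lit 0x10000e000780038001000080004000e0001f0002000000000000000) := T_1 (nat_lit 97) (nat_lit 80) (nat_lit 6) (nat_lit 11) (nat_lit 8) L591188 (by decide +kernel)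
theorem L591190 : W_1 (nat_lit 13) (nat_lit 0x9000580028001000000000000000000000000) (nat_lit 0x0) (nat_lit 0x10000e0007c003a001000080004000e0001f0002000000000000000) := T_1 (nat_lit 178) (nat_lit 161) (nat_lit 6) (nat_lit 8) (nat_lit 10) L591189 (by decide +kernel)
theorem L591191 : W_1 (nat_lit 2) (nat_lit 0x400100009000580028003000000000000000000000000) (nat_lit 0x0) (nat_lit 0x4000200010000000000000000000000000000000000000) := D_1 (nat_lit 165) (nat_lit 148) (nat_lit 182) (nat_lit 7) (nat_lit 11) (nat_lit 5) (nat_lit 7) (nat_lit 11) (nat_lit 6) (by decide +kernel)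
theorem L591192 : W_1 (nat_lit 3) (nat_lit 0x400000009000580028003000000000000000000000000) (nat_lit 0x0) (nat_lit 0x4000300010000000040000000000000000000000000000) := T_1 (nat_lit 164) (nat_lit 114) (nat_lit 6) (nat_lit 11) (nat_lit 9) L591191 (by decide +kernel)
theorem L591193 : W_1 (nat_lit 4) (nat_lit 0x9000580028003000000000000000000000000) (nat_lit 0x0) (nat_lit 0x4400320010000000040000000000000000000000000000) := T_1 (nat_lit 178) (nat_lit 161) (nat_lit 6) (nat_lit 8) (nat_lit 10) L591192 (by decide +kernel)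
theorem L591194 : W_1 (nat_lit 5) (nat_lit 0x9000580028001000000000000000000000000) (nat_lit 0x0) (nat_lit 0x4400320010000000040002000100000000000000000000) := T_1 (nat_lit 97) (nat_lit 80) (nat_lit 6) (nat_lit 11) (nat_lit 8) L591193 (by decide +kernel)
theorem L591195 : W_1 (nat_lit 2) (nat_lit 0x1400300009000580028003000000000000000000000000) (nat_lit 0x0) (nat_lit 0x20002800000000000000000000000000000000000000000000) := D_1 (nat_lit 181) (nat_lit 179) (nat_lit 197) (nat_lit 2) (nat_lit 8) (nat_lit 10) (nat_lit 5) (nat_lit 11) (nat_lit 7) (by decide +kernel)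
theorem L591196 : W_1 (nat_lit 3) (nat_lit 0x1400100009000580028003000000000000000000000000) (nat_lit 0x0) (nat_lit 0x20006800200000000000000000000000000000000000000000) := T_1 (nat_lit 165) (nat_lit 182) (nat_lit 7) (nat_lit 11) (nat_lit 6) L591195 (by decide +kernel)
theorem L591197 : W_1 (nat_lit 4) (nat_lit 0x400100009000580028003000000000000000000000000) (nat_lit 0x0) (nat_lit 0x20007800280000000000000000000000000000000000000000) := T_1 (nat_lit 180) (nat_lit 163) (nat_lit 5) (nat_lit 11) (nat_lit 6) L591196 (by decide +kernel)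
theorem L591198 : W_1 (nat_lit 5) (nat_lit 0x400000009000580028003000000000000000000000000) (nat_lit 0x0) (nat_lit 0x20007800380000000000040000000000000000000000000000) := T_1 (nat_lit 164) (nat_lit 114) (nat_lit 6) (nat_lit 11) (nat_lit 9) L591197 (by decide +kernel)
theorem L591199 : W_1 (nat_lit 6) (nat_lit 0x9000580028003000000000000000000000000) (nat_lit 0x0) (nat_lit 0x20007c003a0000000000040000000000000000000000000000) := T_1 (nat_lit 178) (nat_lit 161) (nat_lit 6) (nat_lit 8) (nat_lit 10) L591198 (by decide +kernel)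
theorem L591200 : W_1 (nat_lit 7) (nat_lit 0x9000580028001000000000000000000000000) (nat_lit 0x0) (nat_lit 0x20007c003a0000000000040002000100000000000000000000) := T_1 (nat_lit 97) (nat_lit 80) (nat_lit 6) (nat_lit 11) (nat_lit 8) L591199 (by decide +kernel)
theorem L591201 : W_1 (nat_lit 2) (nat_lit 0x80003400100009000580028003800000000000000000000000) (nat_lit 0x0) (nat_lit 0x1000040000800000000000000000000000000000000000000000000) := D_1 (nat_lit 198) (nat_lit 179) (nat_lit 216) (nat_lit 3) (nat_lit 8) (nat_lit 10) (nat_lit 7) (nat_lit 11) (nat_lit 8) (by decide +kernel)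
theorem L591202 : W_1 (nat_lit 3) (nat_lit 0x3400100009000580028003800000000000000000000000) (nat_lit 0x0) (nat_lit 0x10000c0004800000000000000000000000000000000000000000000) := T_1 (nat_lit 199) (nat_lit 182) (nat_lit 7) (nat_lit 11) (nat_lit 7) L591201 (by decide +kernel)
theorem L591203 : W_1 (nat_lit 4) (nat_lit 0x1400100009000580028003800000000000000000000000) (nat_lit 0x0) (nat_lit 0x10000e0006800000000000000000000000000000000000000000000) := T_1 (nat_lit 181) (nat_lit 197) (nat_lit 5) (nat_lit 11) (nat_lit 7) L591202 (by decide +kernel)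
theorem L591204 : W_1 (nat_lit 5) (nat_lit 0x1400100009000580028003000000000000000000000000) (nat_lit 0x0) (nat_lit 0x10000e0006800000000000000000000800040000000000000000000) := T_1 (nat_lit 95) (nat_lit 78) (nat_lit 4) (nat_lit 11) (nat_lit 8) L591203 (by decide +kernel)
theorem L591205 : W_1 (nat_lit 6) (nat_lit 0x400100009000580028003000000000000000000000000) (nat_lit 0x0) (nat_lit 0x10000e0007800080000000000000000800040000000000000000000) := T_1 (nat_lit 180) (nat_lit 163) (nat_lit 5) (nat_lit 11) (nat_lit 6) L591204 (by decide +kernel)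
theorem L591206 : W_1 (nat_lit 7) (nat_lit 0x400000009000580028003000000000000000000000000) (nat_lit 0x0) (nat_lit 0x10000e0007800180000000000040000800040000000000000000000) := T_1 (nat_lit 164) (nat_lit 114) (nat_lit 6) (nat_lit 11) (nat_lit 9) L591205 (by decide +kernel)
theorem L591207 : W_1 (nat_lit 8) (nat_lit 0x9000580028003000000000000000000000000) (nat_lit 0x0) (nat_lit 0x10000e0007c001a0000000000040000800040000000000000000000) := T_1 (nat_lit 178) (nat_lit 161) (nat_lit 6) (nat_lit 8) (nat_lit 10) L591206 (by decide +kernel)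
theorem L591208 : W_1 (nat_lit 9) (nat_lit 0x9000580028001000000000000000000000000) (nat_lit 0x0) (nat_lit 0x10000e0007c001a0000000000040002800140000000000000000000) := T_1 (nat_lit 97) (nat_lit 80) (nat_lit 6) (nat_lit 11) (nat_lit 8) L591207 (by decide +kernel)
theorem L591209 : W_1 (nat_lit 14) (nat_lit 0x9000580028000000000000000000000000000) (nat_lit 0x0) (nat_lit 0x10000e0007c003a001000080004000f8001f0002000000000000000) := Q_1 (nat_lit 96) (C_1 L532145 (C_1 L591190 (C_1 L591194 (C_1 L591200 (C_1 L591208 N_1))))) (by decide +kernel)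
theorem L591210 : W_1 (nat_lit 5) (nat_lit 0x9000580068000000000000000000000000000) (nat_lit 0x0) (nat_lit 0x20007000380000000800000002000000000000000000000000) := T_1 (nat_lit 164) (nat_lit 97) (nat_lit 6) (nat_lit 11) (nat_lit 9) L532329 (by decide +kernel)
theorem L591211 : W_1 (nat_lit 6) (nat_lit 0x9000580028000000000000000000000000000) (nat_lit 0x0) (nat_lit 0x20007000380000000800050002000000000000000000000000) := T_1 (nat_lit 114) (nat_lit 112) (nat_lit 1) (nat_lit 12) (nat_lit 6) L591210 (by decide +kernel)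
theorem L591212 : W_1 (nat_lit 2) (nat_lit 0x400000019000580068003000080004000000000000000) (nat_lit 0x0) (nat_lit 0x40002000100000000000) := D_1 (nat_lit 61) (nat_lit 78) (nat_lit 44) (nat_lit 4) (nat_lit 11) (nat_lit 7) (nat_lit 4) (nat_lit 11) (nat_lit 6) (by decide +kernel)
theorem L591213 : W_1 (nat_lit 3) (nat_lit 0x400000019000580068003000080000000000000000000) (nat_lit 0x0) (nat_lit 0x40006000300000000000) := T_1 (nat_lit 62) (nat_lit 45) (nat_lit 7) (nat_lit 11) (nat_lit 2) L591212 (by decide +kernel)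
theorem L591214 : W_1 (nat_lit 4) (nat_lit 0x400000019000580068003000000000000000000000000) (nat_lit 0x0) (nat_lit 0x8000000000000c0006000300000000000) := T_1 (nat_lit 79) (nat_lit 131) (nat_lit 7) (nat_lit 11) (nat_lit 4) L591213 (by decide +kernel)
theorem L591215 : W_1 (nat_lit 5) (nat_lit 0x400000009000580068003000000000000000000000000) (nat_lit 0x0) (nat_lit 0x2000100008000000000000c0006000300000000000) := T_1 (nat_lit 148) (nat_lit 165) (nat_lit 7) (nat_lit 11) (nat_lit 5) L591214 (by decide +kernel)
theorem L591216 : W_1 (nat_lit 6) (nat_lit 0x9000580068003000000000000000000000000) (nat_lit 0x0) (nat_lit 0x4002200100008000000000000c0006000300000000000) := T_1 (nat_lit 178) (nat_lit 161) (nat_lit 6) (nat_lit 8) (nat_lit 10) L591215 (by decide +kernel)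
theorem L591217 : W_1 (nat_lit 7) (nat_lit 0x9000580068001000000000000000000000000) (nat_lit 0x0) (nat_lit 0x4002200100008000000020001c0006000300000000000) := T_1 (nat_lit 97) (nat_lit 80) (nat_lit 6) (nat_lit 11) (nat_lit 8) L591216 (by decide +kernel)
theorem L591218 : W_1 (nat_lit 8) (nat_lit 0x9000580028001000000000000000000000000) (nat_lit 0x0) (nat_lit 0x4002200100008000500020001c0006000300000000000) := T_1 (nat_lit 114) (nat_lit 112) (nat_lit 1) (nat_lit 12) (nat_lit 6) L591217 (by decide +kernel)
theorem L591219 : W_1 (nat_lit 2) (nat_lit 0x19000580028001000080000000000000000000) (nat_lit 0x0) (nat_lit 0x2000100008000000000000000) := D_1 (nat_lit 80) (nat_lit 63) (nat_lit 97) (nat_lit 6) (nat_lit 11) (nat_lit 7) (nat_lit 6) (nat_lit 11) (nat_lit 8) (by decide +kernel)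
theorem L591220 : W_1 (nat_lit 3) (nat_lit 0x19000580028001000000000000000000000000) (nat_lit 0x0) (nat_lit 0x800000002000180008000000000000000) := T_1 (nat_lit 79) (nat_lit 131) (nat_lit 7) (nat_lit 11) (nat_lit 4) L591219 (by decide +kernel)
theorem L591221 : W_1 (nat_lit 4) (nat_lit 0x9000580028001000000000000000000000000) (nat_lit 0x0) (nat_lit 0x200010000800000002000180008000000000000000) := T_1 (nat_lit 148) (nat_lit 165) (nat_lit 7) (nat_lit 11) (nat_lit 5) L591220 (by decide +kernel)
theorem L591222 : W_1 (nat_lit 9) (nat_lit 0x9000580028000000000000000000000000000) (nat_lit 0x0) (nat_lit 0x4002200100008000500078001c000e000300000000000) := Q_1 (nat_lit 96) (C_1 L591076 (C_1 L532145 (C_1 L591218 (C_1 L591221 N_1)))) (by decide +kernel)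
theorem L591223 : W_1 (nat_lit 2) (nat_lit 0x1400300009000580068000000000000000000000000000) (nat_lit 0x0) (nat_lit 0x20002800000000000000000000000000000000000000000000) := D_1 (nat_lit 181) (nat_lit 197) (nat_lit 179) (nat_lit 5) (nat_lit 11) (nat_lit 7) (nat_lit 2) (nat_lit 8) (nat_lit 10) (by decide +kernel)
theorem L591224 : W_1 (nat_lit 3) (nat_lit 0x1400100009000580068000000000000000000000000000) (nat_lit 0x0) (nat_lit 0x20006800200000000000000000000000000000000000000000) := T_1 (nat_lit 165) (nat_lit 182) (nat_lit 7) (nat_lit 11) (nat_lit 6) L591223 (by decide +kernel)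
theorem L591225 : W_1 (nat_lit 4) (nat_lit 0x400100009000580068000000000000000000000000000) (nat_lit 0x0) (nat_lit 0x20007800280000000000000000000000000000000000000000) := T_1 (nat_lit 180) (nat_lit 163) (nat_lit 5) (nat_lit 11) (nat_lit 6) L591224 (by decide +kernel)
theorem L591226 : W_1 (nat_lit 5) (nat_lit 0x400000009000580068000000000000000000000000000) (nat_lit 0x0) (nat_lit 0x20007800380000000000000002000000000000000000000000) := T_1 (nat_lit 164) (nat_lit 97) (nat_lit 6) (nat_lit 11) (nat_lit 9) L591225 (by decide +kernel)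
theorem L591227 : W_1 (nat_lit 6) (nat_lit 0x9000580068000000000000000000000000000) (nat_lit 0x0) (nat_lit 0x20007c003a0000000000000002000000000000000000000000) := T_1 (nat_lit 178) (nat_lit 161) (nat_lit 6) (nat_lit 8) (nat_lit 10) L591226 (by decide +kernel)
theorem L591228 : W_1 (nat_lit 7) (nat_lit 0x9000580028000000000000000000000000000) (nat_lit 0x0) (nat_lit 0x20007c003a0000000000050002000000000000000000000000) := T_1 (nat_lit 114) (nat_lit 112) (nat_lit 1) (nat_lit 12) (nat_lit 6) L591227 (by decide +kernel)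
theorem L591237 : W_1 (nat_lit 6) (nat_lit 0x9000580028000000000000000000000000000) (nat_lit 0x0) (nat_lit 0x4003200100008000100078001c000a000000000000000) := Q_1 (nat_lit 96) (C_1 L591221 (C_1 L591100 (C_1 L532145 N_1))) (by decide +kernel)
theorem L591238 : W_1 (nat_lit 2) (nat_lit 0xf8002400180009000580068000000000000000000000000000) (nat_lit 0x0) (nat_lit 0x380000000000000000000000000000000000000000000000000000) := D_1 (nat_lit 212) (nat_lit 213) (nat_lit 211) (nat_lit 1) (nat_lit 12) (nat_lit 11) (nat_lit 1) (nat_lit 11) (nat_lit 11) (by decide +kernel)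
theorem L591239 : W_1 (nat_lit 3) (nat_lit 0xf0002400180009000580068000000000000000000000000000) (nat_lit 0x0) (nat_lit 0x380008000200000000000000000000000000000000000000000000) := T_1 (nat_lit 195) (nat_lit 177) (nat_lit 0) (nat_lit 11) (nat_lit 11) L591238 (by decide +kernel)
theorem L591240 : W_1 (nat_lit 4) (nat_lit 0xe0002400180009000580068000000000000000000000000000) (nat_lit 0x0) (nat_lit 0x380018000a00000000000000000000000000000000000000000000) := T_1 (nat_lit 196) (nat_lit 179) (nat_lit 0) (nat_lit 12) (nat_lit 11) L591239 (by decide +kernel)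
theorem L591241 : W_1 (nat_lit 5) (nat_lit 0xc0002400180009000580068000000000000000000000000000) (nat_lit 0x0) (nat_lit 0x780038000a00000000000000000000000000000000000000000000) := T_1 (nat_lit 197) (nat_lit 214) (nat_lit 5) (nat_lit 11) (nat_lit 8) L591240 (by decide +kernel)
theorem L591242 : W_1 (nat_lit 6) (nat_lit 0x80002400180009000580068000000000000000000000000000) (nat_lit 0x0) (nat_lit 0x1780078000a00000000000000000000000000000000000000000000) := T_1 (nat_lit 198) (nat_lit 216) (nat_lit 7) (nat_lit 11) (nat_lit 8) L591241 (by decide +kernel)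
theorem L591243 : W_1 (nat_lit 7) (nat_lit 0x2400180009000580068000000000000000000000000000) (nat_lit 0x0) (nat_lit 0x17800f8004a00000000000000000000000000000000000000000000) := T_1 (nat_lit 199) (nat_lit 182) (nat_lit 7) (nat_lit 11) (nat_lit 7) L591242 (by decide +kernel)
theorem L591244 : W_1 (nat_lit 8) (nat_lit 0x400180009000580068000000000000000000000000000) (nat_lit 0x0) (nat_lit 0x17800f8006a00000000000800000000000000000000000000000000) := T_1 (nat_lit 181) (nat_lit 131) (nat_lit 6) (nat_lit 11) (nat_lit 10) L591243 (by decide +kernel)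
theorem L591245 : W_1 (nat_lit 9) (nat_lit 0x400100009000580068000000000000000000000000000) (nat_lit 0x0) (nat_lit 0x17800f8007a00080000000800000000000000000000000000000000) := T_1 (nat_lit 163) (nat_lit 180) (nat_lit 5) (nat_lit 11) (nat_lit 6) L591244 (by decide +kernel)
theorem L591246 : W_1 (nat_lit 10) (nat_lit 0x400000009000580068000000000000000000000000000) (nat_lit 0x0) (nat_lit 0x17800f8007a00180000000800000002000000000000000000000000) := T_1 (nat_lit 164) (nat_lit 97) (nat_lit 6) (nat_lit 11) (nat_lit 9) L591245 (by decide +kernel)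
theorem L591247 : W_1 (nat_lit 11) (nat_lit 0x400000009000580028000000000000000000000000000) (nat_lit 0x0) (nat_lit 0x17800f8007a00180000000800050002000000000000000000000000) := T_1 (nat_lit 114) (nat_lit 112) (nat_lit 1) (nat_lit 12) (nat_lit 6) L591246 (by decide +kernel)
theorem L591248 : W_1 (nat_lit 12) (nat_lit 0x9000580028000000000000000000000000000) (nat_lit 0x0) (nat_lit 0x17800f8007e001a0000000800050002000000000000000000000000) := T_1 (nat_lit 178) (nat_lit 161) (nat_lit 6) (nat_lit 8) (nat_lit 10) L591247 (by decide +kernel)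
theorem L591707 : W_1 (nat_lit 2) (nat_lit 0x2000100009000580068000000000000000000000000000) (nat_lit 0x0) (nat_lit 0x80004000200000000000000000000000000000000000000000) := D_1 (nat_lit 182) (nat_lit 165) (nat_lit 199) (nat_lit 7) (nat_lit 11) (nat_lit 6) (nat_lit 7) (nat_lit 11) (nat_lit 7) (by decide +kernel)
theorem L591708 : W_1 (nat_lit 3) (nat_lit 0x100009000580068000000000000000000000000000) (nat_lit 0x0) (nat_lit 0x80006000200000000800000000000000000000000000000000) := T_1 (nat_lit 181) (nat_lit 131) (nat_lit 6) (nat_lit 11) (nat_lit 10) L591707 (by decide +kernel)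
theorem L591768 : W_1 (nat_lit 2) (nat_lit 0x840078002d000580068000000000000000000000000000) (nat_lit 0x0) (nat_lit 0x10001800000000000000000000000000000000) := D_1 (nat_lit 131) (nat_lit 132) (nat_lit 148) (nat_lit 4) (nat_lit 13) (nat_lit 10) (nat_lit 7) (nat_lit 12) (nat_lit 6) (by decide +kernel)
theorem L591769 : W_1 (nat_lit 3) (nat_lit 0x840078000d000580068000000000000000000000000000) (nat_lit 0x0) (nat_lit 0x70001800000000000000000000000000000000) := T_1 (nat_lit 149) (nat_lit 150) (nat_lit 2) (nat_lit 10) (nat_lit 9) L591768 (by decide +kernel)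
theorem L591770 : W_1 (nat_lit 4) (nat_lit 0x40078000d000580068000000000000000000000000000) (nat_lit 0x0) (nat_lit 0x18000000070001800000000000000000000000000000000) := T_1 (nat_lit 183) (nat_lit 184) (nat_lit 3) (nat_lit 10) (nat_lit 9) L591769 (by decide +kernel)
theorem L591771 : W_1 (nat_lit 5) (nat_lit 0x40070000d000580068000000000000000000000000000) (nat_lit 0x0) (nat_lit 0x19000080070001800000000000000000000000000000000) := T_1 (nat_lit 163) (nat_lit 180) (nat_lit 5) (nat_lit 11) (nat_lit 6) L591770 (by decide +kernel)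
theorem L591772 : W_1 (nat_lit 6) (nat_lit 0x40030000d000580068000000000000000000000000000) (nat_lit 0x0) (nat_lit 0x19000c80070001800000000000000000000000000000000) := T_1 (nat_lit 166) (nat_lit 167) (nat_lit 0) (nat_lit 14) (nat_lit 9) L591771 (by decide +kernel)
theorem L591773 : W_1 (nat_lit 7) (nat_lit 0x40030000d000580028000000000000000000000000000) (nat_lit 0x0) (nat_lit 0x19000c80070001800040002000000000000000000000000) := T_1 (nat_lit 114) (nat_lit 97) (nat_lit 6) (nat_lit 11) (nat_lit 9) L591772 (by decide +kernel)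
theorem L591774 : W_1 (nat_lit 8) (nat_lit 0x400300009000580028000000000000000000000000000) (nat_lit 0x0) (nat_lit 0x19000c80076001800040002000000000000000000000000) := T_1 (nat_lit 146) (nat_lit 145) (nat_lit 3) (nat_lit 8) (nat_lit 8) L591773 (by decide +kernel)
theorem L591775 : W_1 (nat_lit 9) (nat_lit 0x400100009000580028000000000000000000000000000) (nat_lit 0x0) (nat_lit 0x1d000e80076001800040002000000000000000000000000) := T_1 (nat_lit 165) (nat_lit 182) (nat_lit 7) (nat_lit 11) (nat_lit 6) L591774 (by decide +kernel)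
theorem L591776 : W_1 (nat_lit 10) (nat_lit 0x100009000580028000000000000000000000000000) (nat_lit 0x0) (nat_lit 0x1d400ea0076001800040002000000000000000000000000) := T_1 (nat_lit 178) (nat_lit 161) (nat_lit 6) (nat_lit 8) (nat_lit 10) L591775 (by decide +kernel)
theorem L591777 : W_1 (nat_lit 2) (nat_lit 0x240030000b000580068000000000000000000000000000) (nat_lit 0x0) (nat_lit 0x20001800000000000000000000000000000000000000000000) := D_1 (nat_lit 180) (nat_lit 197) (nat_lit 179) (nat_lit 5) (nat_lit 11) (nat_lit 7) (nat_lit 2) (nat_lit 8) (nat_lit 10) (by decide +kernel)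
theorem L591778 : W_1 (nat_lit 3) (nat_lit 0x40030000b000580068000000000000000000000000000) (nat_lit 0x0) (nat_lit 0x20003800000000000800000000000000000000000000000000) := T_1 (nat_lit 181) (nat_lit 131) (nat_lit 6) (nat_lit 11) (nat_lit 10) L591777 (by decide +kernel)
theorem L591779 : W_1 (nat_lit 4) (nat_lit 0x40030000b000580028000000000000000000000000000) (nat_lit 0x0) (nat_lit 0x20003800000000000800040002000000000000000000000000) := T_1 (nat_lit 114) (nat_lit 97) (nat_lit 6) (nat_lit 11) (nat_lit 9) L591778 (by decide +kernel)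
theorem L591780 : W_1 (nat_lit 5) (nat_lit 0x400300009000580028000000000000000000000000000) (nat_lit 0x0) (nat_lit 0x20003800000006000800040002000000000000000000000000) := T_1 (nat_lit 145) (nat_lit 146) (nat_lit 3) (nat_lit 8) (nat_lit 8) L591779 (by decide +kernel)
theorem L591781 : W_1 (nat_lit 6) (nat_lit 0x400100009000580028000000000000000000000000000) (nat_lit 0x0) (nat_lit 0x20007800200006000800040002000000000000000000000000) := T_1 (nat_lit 165) (nat_lit 182) (nat_lit 7) (nat_lit 11) (nat_lit 6) L591780 (by decide +kernel)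
theorem L591782 : W_1 (nat_lit 7) (nat_lit 0x100009000580028000000000000000000000000000) (nat_lit 0x0) (nat_lit 0x20007c00220006000800040002000000000000000000000000) := T_1 (nat_lit 178) (nat_lit 161) (nat_lit 6) (nat_lit 8) (nat_lit 10) L591781 (by decide +kernel)
theorem L591783 : W_1 (nat_lit 4) (nat_lit 0x1000100009000580068000000000000000000000000000) (nat_lit 0x0) (nat_lit 0x20006c00220000000000000000000000000000000000000000) := T_1 (nat_lit 178) (nat_lit 161) (nat_lit 6) (nat_lit 8) (nat_lit 10) L591224 (by decide +kernel)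
theorem L591784 : W_1 (nat_lit 5) (nat_lit 0x100009000580068000000000000000000000000000) (nat_lit 0x0) (nat_lit 0x20007c002a0000000000000000000000000000000000000000) := T_1 (nat_lit 180) (nat_lit 163) (nat_lit 5) (nat_lit 11) (nat_lit 6) L591783 (by decide +kernel)
theorem L591785 : W_1 (nat_lit 6) (nat_lit 0x100009000580028000000000000000000000000000) (nat_lit 0x0) (nat_lit 0x20007c002a0000000000040002000000000000000000000000) := T_1 (nat_lit 114) (nat_lit 97) (nat_lit 6) (nat_lit 11) (nat_lit 9) L591784 (by decide +kernel)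
theorem L591786 : W_1 (nat_lit 2) (nat_lit 0x640018000d000d80028000000000000000000000000000) (nat_lit 0x0) (nat_lit 0x800040000000000010000000000000000000000000000000000000) := D_1 (nat_lit 198) (nat_lit 148) (nat_lit 215) (nat_lit 6) (nat_lit 11) (nat_lit 11) (nat_lit 4) (nat_lit 11) (nat_lit 12) (by decide +kernel)
theorem L591787 : W_1 (nat_lit 3) (nat_lit 0x6400180009000d80028000000000000000000000000000) (nat_lit 0x0) (nat_lit 0x800040000000000016000000000000000000000000000000000000) := T_1 (nat_lit 146) (nat_lit 145) (nat_lit 2) (nat_lit 8) (nat_lit 8) L591786 (by decide +kernel)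
theorem L591788 : W_1 (nat_lit 4) (nat_lit 0x6400180009000580028000000000000000000000000000) (nat_lit 0x0) (nat_lit 0x800040000000000016000800040000000000000000000000000000) := T_1 (nat_lit 131) (nat_lit 114) (nat_lit 6) (nat_lit 11) (nat_lit 10) L591787 (by decide +kernel)
theorem L591789 : W_1 (nat_lit 5) (nat_lit 0x4400180009000580028000000000000000000000000000) (nat_lit 0x0) (nat_lit 0x8000c0002000000016000800040000000000000000000000000000) := T_1 (nat_lit 181) (nat_lit 199) (nat_lit 7) (nat_lit 11) (nat_lit 7) L591788 (by decide +kernel)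
theorem L591790 : W_1 (nat_lit 6) (nat_lit 0x400180009000580028000000000000000000000000000) (nat_lit 0x0) (nat_lit 0x8000c0006000200016000800040000000000000000000000000000) := T_1 (nat_lit 182) (nat_lit 165) (nat_lit 7) (nat_lit 11) (nat_lit 6) L591789 (by decide +kernel)
theorem L591791 : W_1 (nat_lit 7) (nat_lit 0x180009000580028000000000000000000000000000) (nat_lit 0x0) (nat_lit 0x8000c0006400220016000800040000000000000000000000000000) := T_1 (nat_lit 178) (nat_lit 161) (nat_lit 6) (nat_lit 8) (nat_lit 10) L591790 (by decide +kernel)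
theorem L591792 : W_1 (nat_lit 8) (nat_lit 0x100009000580028000000000000000000000000000) (nat_lit 0x0) (nat_lit 0x8000c00074002a0016000800040000000000000000000000000000) := T_1 (nat_lit 163) (nat_lit 180) (nat_lit 5) (nat_lit 11) (nat_lit 6) L591791 (by decide +kernel)
theorem L591793 : W_1 (nat_lit 2) (nat_lit 0x140030000b000580028000000000000000000000000000) (nat_lit 0x0) (nat_lit 0x20002800000000000000000000000000000000000000000000) := D_1 (nat_lit 181) (nat_lit 179) (nat_lit 197) (nat_lit 2) (nat_lit 8) (nat_lit 10) (nat_lit 5) (nat_lit 11) (nat_lit 7) (by decide +kernel)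
theorem L591794 : W_1 (nat_lit 3) (nat_lit 0x100030000b000580028000000000000000000000000000) (nat_lit 0x0) (nat_lit 0x20002c00020000000000000000000000000000000000000000) := T_1 (nat_lit 178) (nat_lit 161) (nat_lit 6) (nat_lit 8) (nat_lit 10) L591793 (by decide +kernel)
theorem L591795 : W_1 (nat_lit 4) (nat_lit 0x30000b000580028000000000000000000000000000) (nat_lit 0x0) (nat_lit 0x20003c000a0000000000000000000000000000000000000000) := T_1 (nat_lit 180) (nat_lit 163) (nat_lit 5) (nat_lit 11) (nat_lit 6) L591794 (by decide +kernel)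
theorem L591796 : W_1 (nat_lit 5) (nat_lit 0x300009000580028000000000000000000000000000) (nat_lit 0x0) (nat_lit 0x20003c000a0006000000000000000000000000000000000000) := T_1 (nat_lit 145) (nat_lit 146) (nat_lit 3) (nat_lit 8) (nat_lit 8) L591795 (by decide +kernel)
theorem L591797 : W_1 (nat_lit 6) (nat_lit 0x100009000580028000000000000000000000000000) (nat_lit 0x0) (nat_lit 0x20007c002a0006000000000000000000000000000000000000) := T_1 (nat_lit 165) (nat_lit 182) (nat_lit 7) (nat_lit 11) (nat_lit 6) L591796 (by decide +kernel)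
theorem L591798 : W_1 (nat_lit 10) (nat_lit 0x400100009000580028000000000000000000000000000) (nat_lit 0x0) (nat_lit 0x17800f8007a00080000000800040002000000000000000000000000) := T_1 (nat_lit 114) (nat_lit 97) (nat_lit 6) (nat_lit 11) (nat_lit 9) L591245 (by decide +kernel)
theorem L591799 : W_1 (nat_lit 11) (nat_lit 0x100009000580028000000000000000000000000000) (nat_lit 0x0) (nat_lit 0x17800f8007e000a0000000800040002000000000000000000000000) := T_1 (nat_lit 178) (nat_lit 161) (nat_lit 6) (nat_lit 8) (nat_lit 10) L591798 (by decide +kernel)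
theorem L591800 : W_1 (nat_lit 2) (nat_lit 0x40070001d000d801e8000000000000000000000000000) (nat_lit 0x0) (nat_lit 0x7000000000000000000000000000000000) := D_1 (nat_lit 133) (nat_lit 132) (nat_lit 134) (nat_lit 1) (nat_lit 14) (nat_lit 7) (nat_lit 3) (nat_lit 11) (nat_lit 6) (by decide +kernel)
theorem L591801 : W_1 (nat_lit 3) (nat_lit 0x40070001d000d800e8000000000000000000000000000) (nat_lit 0x0) (nat_lit 0x7000300000000000000000000000000000) := T_1 (nat_lit 116) (nat_lit 117) (nat_lit 1) (nat_lit 15) (nat_lit 6) L591800 (by decide +kernel)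
theorem L591802 : W_1 (nat_lit 4) (nat_lit 0x40070001d000d80068000000000000000000000000000) (nat_lit 0x0) (nat_lit 0x7000380004000000000000000000000000) := T_1 (nat_lit 115) (nat_lit 98) (nat_lit 6) (nat_lit 12) (nat_lit 9) L591801 (by decide +kernel)
theorem L591803 : W_1 (nat_lit 5) (nat_lit 0x40070000d000d80068000000000000000000000000000) (nat_lit 0x0) (nat_lit 0x8000000010007000380004000000000000000000000000) := T_1 (nat_lit 148) (nat_lit 183) (nat_lit 7) (nat_lit 12) (nat_lit 6) L591802 (by decide +kernel)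
theorem L591804 : W_1 (nat_lit 6) (nat_lit 0x40070000d000580068000000000000000000000000000) (nat_lit 0x0) (nat_lit 0xa000000010007800380004000000000000000000000000) := T_1 (nat_lit 131) (nat_lit 181) (nat_lit 6) (nat_lit 11) (nat_lit 10) L591803 (by decide +kernel)
theorem L591805 : W_1 (nat_lit 7) (nat_lit 0x40070000d000580028000000000000000000000000000) (nat_lit 0x0) (nat_lit 0xa0000000100078003c0006000000000000000000000000) := T_1 (nat_lit 114) (nat_lit 97) (nat_lit 6) (nat_lit 11) (nat_lit 9) L591804 (by decide +kernel)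
theorem L591806 : W_1 (nat_lit 8) (nat_lit 0x40030000d000580028000000000000000000000000000) (nat_lit 0x0) (nat_lit 0xa000c000100078003c0006000000000000000000000000) := T_1 (nat_lit 166) (nat_lit 167) (nat_lit 0) (nat_lit 14) (nat_lit 9) L591805 (by decide +kernel)
theorem L591807 : W_1 (nat_lit 9) (nat_lit 0x30000d000580028000000000000000000000000000) (nat_lit 0x0) (nat_lit 0xa400c200100078003c0006000000000000000000000000) := T_1 (nat_lit 178) (nat_lit 161) (nat_lit 6) (nat_lit 8) (nat_lit 10) L591806 (by decide +kernel)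
theorem L591808 : W_1 (nat_lit 10) (nat_lit 0x300009000580028000000000000000000000000000) (nat_lit 0x0) (nat_lit 0xa400c200160078003c0006000000000000000000000000) := T_1 (nat_lit 146) (nat_lit 145) (nat_lit 3) (nat_lit 8) (nat_lit 8) L591807 (by decide +kernel)
theorem L591809 : W_1 (nat_lit 11) (nat_lit 0x100009000580028000000000000000000000000000) (nat_lit 0x0) (nat_lit 0xe400e200160078003c0006000000000000000000000000) := T_1 (nat_lit 165) (nat_lit 182) (nat_lit 7) (nat_lit 11) (nat_lit 6) L591808 (by decide +kernel)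
theorem L591810 : W_1 (nat_lit 2) (nat_lit 0x1000100009000580068000000000000000000000000000) (nat_lit 0x0) (nat_lit 0x20002000000000000800000000000000000000000000000000) := D_1 (nat_lit 181) (nat_lit 131) (nat_lit 197) (nat_lit 6) (nat_lit 11) (nat_lit 10) (nat_lit 5) (nat_lit 11) (nat_lit 7) (by decide +kernel)
theorem L591811 : W_1 (nat_lit 3) (nat_lit 0x100009000580068000000000000000000000000000) (nat_lit 0x0) (nat_lit 0x20003000080000000800000000000000000000000000000000) := T_1 (nat_lit 180) (nat_lit 163) (nat_lit 5) (nat_lit 11) (nat_lit 6) L591810 (by decide +kernel)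
theorem L591812 : W_1 (nat_lit 4) (nat_lit 0x100009000580028000000000000000000000000000) (nat_lit 0x0) (nat_lit 0x20003000080000000800040002000000000000000000000000) := T_1 (nat_lit 114) (nat_lit 97) (nat_lit 6) (nat_lit 11) (nat_lit 9) L591811 (by decide +kernel)
theorem L591813 : W_1 (nat_lit 12) (nat_lit 0x9000580028000000000000000000000000000) (nat_lit 0x0) (nat_lit 0x1f800f801fe00fa00760078003c0006000000000000000000000000) := Q_1 (nat_lit 164) (C_1 L532330 (C_1 L591776 (C_1 L591782 (C_1 L591785 (C_1 L591792 (C_1 L591797 (C_1 L591799 (C_1 L591809 (C_1 L591812 N_1))))))))) (by decide +kernel)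
theorem L591814 : W_1 (nat_lit 2) (nat_lit 0x4000000090005800680030000c0000000000000000000) (nat_lit 0x0) (nat_lit 0x800000000000000004000200000000000) := D_1 (nat_lit 62) (nat_lit 45) (nat_lit 131) (nat_lit 7) (nat_lit 11) (nat_lit 2) (nat_lit 7) (nat_lit 11) (nat_lit 3) (by decide +kernel)
theorem L591815 : W_1 (nat_lit 3) (nat_lit 0x400000009000580068003000040000000000000000000) (nat_lit 0x0) (nat_lit 0x800000000000080006000200000000000) := T_1 (nat_lit 79) (nat_lit 61) (nat_lit 4) (nat_lit 11) (nat_lit 7) L591814 (by decide +kernel)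
theorem L591816 : W_1 (nat_lit 4) (nat_lit 0x400000009000580028003000040000000000000000000) (nat_lit 0x0) (nat_lit 0x100000000800040000000080006000200000000000) := T_1 (nat_lit 114) (nat_lit 164) (nat_lit 6) (nat_lit 11) (nat_lit 9) L591815 (by decide +kernel)
theorem L591817 : W_1 (nat_lit 5) (nat_lit 0x400000009000580028003000000000000000000000000) (nat_lit 0x0) (nat_lit 0x1000000008000400008000c0006000200000000000) := T_1 (nat_lit 78) (nat_lit 95) (nat_lit 4) (nat_lit 11) (nat_lit 8) L591816 (by decide +kernel)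
theorem L591818 : W_1 (nat_lit 6) (nat_lit 0x400000009000580028001000000000000000000000000) (nat_lit 0x0) (nat_lit 0x1000000008000400028001c0006000200000000000) := T_1 (nat_lit 97) (nat_lit 80) (nat_lit 6) (nat_lit 11) (nat_lit 8) L591817 (by decide +kernel)
theorem L591819 : W_1 (nat_lit 7) (nat_lit 0x9000580028001000000000000000000000000) (nat_lit 0x0) (nat_lit 0x4001200000008000400028001c0006000200000000000) := T_1 (nat_lit 178) (nat_lit 161) (nat_lit 6) (nat_lit 8) (nat_lit 10) L591818 (by decide +kernel)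
theorem L591820 : W_1 (nat_lit 8) (nat_lit 0x9000580028000000000000000000000000000) (nat_lit 0x0) (nat_lit 0x44003200100008000400038001c000e000200000000000) := Q_1 (nat_lit 96) (C_1 L591194 (C_1 L591221 (C_1 L591819 (C_1 L532145 N_1)))) (by decide +kernel)
theorem L591821 : W_1 (nat_lit 2) (nat_lit 0x19000580028001000000000000000000000000) (nat_lit 0x0) (nat_lit 0x80006000000000000000000000000000000000000) := D_1 (nat_lit 146) (nat_lit 145) (nat_lit 163) (nat_lit 0) (nat_lit 12) (nat_lit 8) (nat_lit 5) (nat_lit 11) (nat_lit 5) (by decide +kernel)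
theorem L591822 : W_1 (nat_lit 3) (nat_lit 0x9000580028001000000000000000000000000) (nat_lit 0x0) (nat_lit 0x280016000000000000000000000000000000000000) := T_1 (nat_lit 148) (nat_lit 165) (nat_lit 7) (nat_lit 11) (nat_lit 5) L591821 (by decide +kernel)
theorem L591823 : W_1 (nat_lit 10) (nat_lit 0x9000580028000000000000000000000000000) (nat_lit 0x0) (nat_lit 0x10000e0007c003a0016000000040003800140000000000000000000) := Q_1 (nat_lit 96) (C_1 L591208 (C_1 L532163 (C_1 L591200 (C_1 L591822 (C_1 L591194 N_1))))) (by decide +kernel)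
theorem L591824 : W_1 (nat_lit 2) (nat_lit 0x40030000d000580028000000000000000000000000000) (nat_lit 0x0) (nat_lit 0x1000080000000000000001000000000000000000000000) := D_1 (nat_lit 163) (nat_lit 180) (nat_lit 96) (nat_lit 5) (nat_lit 11) (nat_lit 6) (nat_lit 5) (nat_lit 11) (nat_lit 5) (by decide +kernel)
theorem L591825 : W_1 (nat_lit 3) (nat_lit 0x400300009000580028000000000000000000000000000) (nat_lit 0x0) (nat_lit 0x1000080006000000000001000000000000000000000000) := T_1 (nat_lit 146) (nat_lit 145) (nat_lit 3) (nat_lit 8) (nat_lit 8) L591824 (by decide +kernel)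
theorem L591826 : W_1 (nat_lit 4) (nat_lit 0x400100009000580028000000000000000000000000000) (nat_lit 0x0) (nat_lit 0x5000280006000000000001000000000000000000000000) := T_1 (nat_lit 165) (nat_lit 182) (nat_lit 7) (nat_lit 11) (nat_lit 6) L591825 (by decide +kernel)
theorem L591827 : W_1 (nat_lit 5) (nat_lit 0x100009000580028000000000000000000000000000) (nat_lit 0x0) (nat_lit 0x54002a0006000000000001000000000000000000000000) := T_1 (nat_lit 178) (nat_lit 161) (nat_lit 6) (nat_lit 8) (nat_lit 10) L591826 (by decide +kernel)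
theorem L591828 : W_1 (nat_lit 4) (nat_lit 0x100009000580028000000000000000000000000000) (nat_lit 0x0) (nat_lit 0x80006000200000000800040002000000000000000000000000) := T_1 (nat_lit 114) (nat_lit 97) (nat_lit 6) (nat_lit 11) (nat_lit 9) L591708 (by decide +kernel)
theorem L591829 : W_1 (nat_lit 8) (nat_lit 0x9000580028000000000000000000000000000) (nat_lit 0x0) (nat_lit 0xa0007c003a0006000800040003000000000000000000000000) := Q_1 (nat_lit 164) (C_1 L591812 (C_1 L591827 (C_1 L591782 (C_1 L591828 N_1)))) (by decide +kernel)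
theorem L591830 : W_1 (nat_lit 2) (nat_lit 0x40000001d000580028001000040000000000000000000) (nat_lit 0x0) (nat_lit 0x800000000000080002000000000000000) := D_1 (nat_lit 79) (nat_lit 131) (nat_lit 61) (nat_lit 7) (nat_lit 11) (nat_lit 4) (nat_lit 4) (nat_lit 11) (nat_lit 7) (by decide +kernel)
theorem L591831 : W_1 (nat_lit 3) (nat_lit 0x40000000d000580028001000040000000000000000000) (nat_lit 0x0) (nat_lit 0x200010000800000000000080002000000000000000) := T_1 (nat_lit 148) (nat_lit 165) (nat_lit 7) (nat_lit 11) (nat_lit 5) L591830 (by decide +kernel)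
theorem L591832 : W_1 (nat_lit 4) (nat_lit 0x40000000d000580028001000000000000000000000000) (nat_lit 0x0) (nat_lit 0x2000100008000000008000c0002000000000000000) := T_1 (nat_lit 78) (nat_lit 95) (nat_lit 4) (nat_lit 11) (nat_lit 8) L591831 (by decide +kernel)
theorem L591833 : W_1 (nat_lit 5) (nat_lit 0x40000000d000580028000000000000000000000000000) (nat_lit 0x0) (nat_lit 0x2800100008000000018000c0002000000000000000) := T_1 (nat_lit 96) (nat_lit 163) (nat_lit 5) (nat_lit 11) (nat_lit 5) L591832 (by decide +kernel)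
theorem L591834 : W_1 (nat_lit 6) (nat_lit 0xd000580028000000000000000000000000000) (nat_lit 0x0) (nat_lit 0x4002a00100008000000018000c0002000000000000000) := T_1 (nat_lit 178) (nat_lit 161) (nat_lit 6) (nat_lit 8) (nat_lit 10) L591833 (by decide +kernel)
theorem L594226 : W_1 (nat_lit 2) (nat_lit 0x400000009000580068002000000000000000000000000) (nat_lit 0x0) (nat_lit 0x1000100008000000000000000) := D_1 (nat_lit 80) (nat_lit 96) (nat_lit 63) (nat_lit 6) (nat_lit 11) (nat_lit 8) (nat_lit 5) (nat_lit 12) (nat_lit 3) (by decide +kernel)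
theorem L601566 : W_1 (nat_lit 2) (nat_lit 0x4000000010001f0008000000000000000000000000000) (nat_lit 0x0) (nat_lit 0x700000000000000000000000000000000000) := D_1 (nat_lit 141) (nat_lit 142) (nat_lit 140) (nat_lit 1) (nat_lit 9) (nat_lit 7) (nat_lit 1) (nat_lit 8) (nat_lit 7) (by decide +kernel)
theorem L602189 : W_1 (nat_lit 3) (nat_lit 0x2000100018001e000000000000000000000000000) (nat_lit 0x0) (nat_lit 0x60003800000000000000000000000) := T_1 (nat_lit 96) (nat_lit 95) (nat_lit 2) (nat_lit 7) (nat_lit 6) L590977 (by decide +kernel)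
theorem L602691 : W_1 (nat_lit 2) (nat_lit 0x100018000e000000000000000000000000000) (nat_lit 0x0) (nat_lit 0x200001800000000000000000000000000) := D_1 (nat_lit 108) (nat_lit 129) (nat_lit 107) (nat_lit 3) (nat_lit 6) (nat_lit 6) (nat_lit 3) (nat_lit 5) (nat_lit 6) (by decide +kernel)
theorem L603057 : W_1 (nat_lit 2) (nat_lit 0x5000380018000800000000000000000000000) (nat_lit 0x0) (nat_lit 0x2000000000000000040002000000000000000) := D_1 (nat_lit 78) (nat_lit 61) (nat_lit 145) (nat_lit 5) (nat_lit 10) (nat_lit 3) (nat_lit 5) (nat_lit 10) (nat_lit 4) (by decide +kernel)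
theorem L603083 : W_1 (nat_lit 2) (nat_lit 0x180005000380018000800000000000000000000000) (nat_lit 0x0) (nat_lit 0x2000000000000000040002000000000000000) := D_1 (nat_lit 78) (nat_lit 61) (nat_lit 145) (nat_lit 5) (nat_lit 10) (nat_lit 3) (nat_lit 5) (nat_lit 10) (nat_lit 4) (by decide +kernel)
theorem L603084 : W_1 (nat_lit 3) (nat_lit 0x180005000380018000000000000000000000000000) (nat_lit 0x0) (nat_lit 0xa000000000000800040002000000000000000) := T_1 (nat_lit 95) (nat_lit 147) (nat_lit 7) (nat_lit 10) (nat_lit 5) L603083 (by decide +kernel)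
theorem L603085 : W_1 (nat_lit 4) (nat_lit 0x80005000380018000000000000000000000000000) (nat_lit 0x0) (nat_lit 0x200010000a000000000000800040002000000000000000) := T_1 (nat_lit 164) (nat_lit 181) (nat_lit 7) (nat_lit 10) (nat_lit 6) L603084 (by decide +kernel)
theorem L603086 : W_1 (nat_lit 5) (nat_lit 0x5000380018000000000000000000000000000) (nat_lit 0x0) (nat_lit 0x300018000a000000000000800040002000000000000000) := T_1 (nat_lit 163) (nat_lit 180) (nat_lit 4) (nat_lit 10) (nat_lit 10) L603085 (by decide +kernel)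
theorem L603087 : W_1 (nat_lit 2) (nat_lit 0xd000380018000800000000000000000000000) (nat_lit 0x0) (nat_lit 0x32000000000000000000000000000000000000) := D_1 (nat_lit 148) (nat_lit 149) (nat_lit 145) (nat_lit 0) (nat_lit 13) (nat_lit 8) (nat_lit 0) (nat_lit 12) (nat_lit 8) (by decide +kernel)
theorem L603088 : W_1 (nat_lit 3) (nat_lit 0x5000380018000800000000000000000000000) (nat_lit 0x0) (nat_lit 0x10003a000000000000000000000000000000000000) := T_1 (nat_lit 147) (nat_lit 164) (nat_lit 7) (nat_lit 10) (nat_lit 5) L603087 (by decide +kernel)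
theorem L603089 : W_1 (nat_lit 4) (nat_lit 0x5000380018000000000000000000000000000) (nat_lit 0x0) (nat_lit 0x10003a0000000000018000c0006000000000000000) := Q_1 (nat_lit 95) (C_1 L603057 (C_1 L527794 (C_1 L603088 N_1))) (by decide +kernel)
theorem L603090 : W_1 (nat_lit 6) (nat_lit 0x1000380018000000000000000000000000000) (nat_lit 0x0) (nat_lit 0x300018003e0000000600018000c0006000000000000000) := Q_1 (nat_lit 146) (C_1 L527809 (C_1 L603086 (C_1 L603089 N_1))) (by decide +kernel)
theorem L603472 : W_1 (nat_lit 2) (nat_lit 0x80005000380018000000000000000000000000000) (nat_lit 0x0) (nat_lit 0x60001000000000000000000000000) := D_1 (nat_lit 113) (nat_lit 114) (nat_lit 96) (nat_lit 1) (nat_lit 12) (nat_lit 6) (nat_lit 6) (nat_lit 10) (nat_lit 9) (by decide +kernel)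
theorem L603473 : W_1 (nat_lit 5) (nat_lit 0x80005000380008000000000000000000000000000) (nat_lit 0x0) (nat_lit 0x200010000a000000070001800040002000000000000000) := Q_1 (nat_lit 112) (C_1 L603085 (C_1 L603472 N_1)) (by decide +kernel)
theorem L604607 : W_1 (nat_lit 2) (nat_lit 0x1000780018000000000000000000000000000) (nat_lit 0x0) (nat_lit 0x1800004000000000000000000000000000) := D_1 (nat_lit 131) (nat_lit 110) (nat_lit 132) (nat_lit 0) (nat_lit 12) (nat_lit 7) (nat_lit 0) (nat_lit 13) (nat_lit 7) (by decide +kernel)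
theorem L604608 : W_1 (nat_lit 2) (nat_lit 0x1000780018000800000000000000000000000) (nat_lit 0x0) (nat_lit 0x2000000000000000040002000000000000000) := D_1 (nat_lit 78) (nat_lit 61) (nat_lit 145) (nat_lit 5) (nat_lit 10) (nat_lit 3) (nat_lit 5) (nat_lit 10) (nat_lit 4) (by decide +kernel)
theorem L604886 : W_1 (nat_lit 2) (nat_lit 0x100078003c001000000000000000000000000) (nat_lit 0x0) (nat_lit 0x4000000000000000080004000000000000000) := D_1 (nat_lit 79) (nat_lit 62) (nat_lit 146) (nat_lit 5) (nat_lit 11) (nat_lit 3) (nat_lit 5) (nat_lit 11) (nat_lit 4) (by decide +kernel)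
theorem L604887 : W_1 (nat_lit 3) (nat_lit 0x100078003c000000000000000000000000000) (nat_lit 0x0) (nat_lit 0x4000000000003000080004000000000000000) := T_1 (nat_lit 96) (nat_lit 97) (nat_lit 2) (nat_lit 8) (nat_lit 6) L604886 (by decide +kernel)
theorem L604918 : W_1 (nat_lit 4) (nat_lit 0x100078001c000000000000000000000000000) (nat_lit 0x0) (nat_lit 0x4000000060003000080004000000000000000) := T_1 (nat_lit 113) (nat_lit 114) (nat_lit 2) (nat_lit 8) (nat_lit 7) L604887 (by decide +kernel)
theorem L604919 : W_1 (nat_lit 5) (nat_lit 0x1000780018000000000000000000000000000) (nat_lit 0x0) (nat_lit 0x4000000066003000080004000000000000000) := T_1 (nat_lit 110) (nat_lit 109) (nat_lit 3) (nat_lit 7) (nat_lit 6) L604918 (by decide +kernel)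
theorem L605172 : W_1 (nat_lit 2) (nat_lit 0x9000780038000000000000000000000000000) (nat_lit 0x0) (nat_lit 0x2000100000000000000000800000000000000000000000) := D_1 (nat_lit 164) (nat_lit 95) (nat_lit 181) (nat_lit 4) (nat_lit 11) (nat_lit 9) (nat_lit 4) (nat_lit 11) (nat_lit 10) (by decide +kernel)
theorem L605228 : W_1 (nat_lit 5) (nat_lit 0x1000780008000000000000000000000000000) (nat_lit 0x0) (nat_lit 0x720018001c0000000000000000000000000000) := T_1 (nat_lit 131) (nat_lit 145) (nat_lit 1) (nat_lit 12) (nat_lit 7) L531347 (by decide +kernel)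
theorem L605229 : W_1 (nat_lit 3) (nat_lit 0x9000780018000000000000000000000000000) (nat_lit 0x0) (nat_lit 0x2000100000000000060000800000000000000000000000) := T_1 (nat_lit 113) (nat_lit 114) (nat_lit 2) (nat_lit 8) (nat_lit 7) L605172 (by decide +kernel)
theorem L605230 : W_1 (nat_lit 4) (nat_lit 0x1000780018000000000000000000000000000) (nat_lit 0x0) (nat_lit 0x2000100018000000060000800000000000000000000000) := T_1 (nat_lit 147) (nat_lit 148) (nat_lit 3) (nat_lit 8) (nat_lit 7) L605229 (by decide +kernel)
theorem L605262 : W_1 (nat_lit 2) (nat_lit 0x1000780008000000000000000000000000000) (nat_lit 0x0) (nat_lit 0x800006000000000000000000000000000) := D_1 (nat_lit 110) (nat_lit 109) (nat_lit 131) (nat_lit 0) (nat_lit 11) (nat_lit 7) (nat_lit 0) (nat_lit 12) (nat_lit 7) (by decide +kernel)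
theorem L605265 : W_1 (nat_lit 2) (nat_lit 0x900078001c000800000000000000000000000) (nat_lit 0x0) (nat_lit 0x2000100004000000000000000000000000000000000000) := D_1 (nat_lit 164) (nat_lit 181) (nat_lit 146) (nat_lit 4) (nat_lit 11) (nat_lit 10) (nat_lit 7) (nat_lit 10) (nat_lit 5) (by decide +kernel)
theorem L605266 : W_1 (nat_lit 3) (nat_lit 0x900078001c000000000000000000000000000) (nat_lit 0x0) (nat_lit 0x2000100004000000000000800040000000000000000000) := T_1 (nat_lit 95) (nat_lit 78) (nat_lit 7) (nat_lit 10) (nat_lit 4) L605265 (by decide +kernel)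
theorem L605267 : W_1 (nat_lit 4) (nat_lit 0x9000780018000000000000000000000000000) (nat_lit 0x0) (nat_lit 0x2000100004000000006000800040000000000000000000) := T_1 (nat_lit 110) (nat_lit 109) (nat_lit 3) (nat_lit 7) (nat_lit 6) L605266 (by decide +kernel)
theorem L605268 : W_1 (nat_lit 5) (nat_lit 0x1000780018000000000000000000000000000) (nat_lit 0x0) (nat_lit 0x200010001c000000006000800040000000000000000000) := T_1 (nat_lit 147) (nat_lit 148) (nat_lit 3) (nat_lit 8) (nat_lit 7) L605267 (by decide +kernel)
theorem L605269 : W_1 (nat_lit 6) (nat_lit 0x1000780008000000000000000000000000000) (nat_lit 0x0) (nat_lit 0x200010001c0000000760038000c0004000000000000000) := Q_1 (nat_lit 112) (C_1 L604919 (C_1 L605230 (C_1 L605268 N_1))) (by decide +kernel)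
theorem L605282 : W_1 (nat_lit 6) (nat_lit 0x9000580028000000000000000000000000000) (nat_lit 0x0) (nat_lit 0x10003800160008000400038001c0008000000000000000) := Q_1 (nat_lit 96) (C_1 L591822 (C_1 L591221 (C_1 L532163 N_1))) (by decide +kernel)
theorem L605283 : W_1 (nat_lit 2) (nat_lit 0x40000000f000580028001000180000000000000000000) (nat_lit 0x0) (nat_lit 0x800040002000000000000000) := D_1 (nat_lit 78) (nat_lit 61) (nat_lit 95) (nat_lit 4) (nat_lit 11) (nat_lit 7) (nat_lit 4) (nat_lit 11) (nat_lit 8) (by decide +kernel)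
theorem L605284 : W_1 (nat_lit 3) (nat_lit 0x40000000f000580028001000100000000000000000000) (nat_lit 0x0) (nat_lit 0x8000c000a000000000000000) := T_1 (nat_lit 79) (nat_lit 63) (nat_lit 6) (nat_lit 11) (nat_lit 7) L605283 (by decide +kernel)
theorem L605285 : W_1 (nat_lit 4) (nat_lit 0x40000000d000580028001000100000000000000000000) (nat_lit 0x0) (nat_lit 0x20008000000008000c000a000000000000000) := T_1 (nat_lit 145) (nat_lit 131) (nat_lit 2) (nat_lit 8) (nat_lit 8) L605284 (by decide +kernel)
theorem L605286 : W_1 (nat_lit 5) (nat_lit 0x400000009000580028001000100000000000000000000) (nat_lit 0x0) (nat_lit 0x800060008000000008000c000a000000000000000) := T_1 (nat_lit 146) (nat_lit 163) (nat_lit 5) (nat_lit 11) (nat_lit 5) L605285 (by decide +kernel)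
theorem L605287 : W_1 (nat_lit 6) (nat_lit 0x400000009000580028001000000000000000000000000) (nat_lit 0x0) (nat_lit 0x800060008000000028001c000a000000000000000) := T_1 (nat_lit 80) (nat_lit 97) (nat_lit 6) (nat_lit 11) (nat_lit 8) L605286 (by decide +kernel)
theorem L605288 : W_1 (nat_lit 7) (nat_lit 0x9000580028001000000000000000000000000) (nat_lit 0x0) (nat_lit 0x4000a00060008000000028001c000a000000000000000) := T_1 (nat_lit 178) (nat_lit 161) (nat_lit 6) (nat_lit 8) (nat_lit 10) L605287 (by decide +kernel)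
theorem L605289 : W_1 (nat_lit 8) (nat_lit 0x9000580028000000000000000000000000000) (nat_lit 0x0) (nat_lit 0x4002a00160008000000038001c000a000000000000000) := Q_1 (nat_lit 96) (C_1 L591822 (C_1 L591221 (C_1 L605288 N_1))) (by decide +kernel)
theorem L605290 : W_1 (nat_lit 2) (nat_lit 0xd000580028000000000000000000000000000) (nat_lit 0x0) (nat_lit 0x12000800000000000000000000000000000000) := D_1 (nat_lit 145) (nat_lit 148) (nat_lit 131) (nat_lit 0) (nat_lit 12) (nat_lit 8) (nat_lit 2) (nat_lit 8) (nat_lit 8) (by decide +kernel)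
theorem L605291 : W_1 (nat_lit 2) (nat_lit 0x40000001d000580028000000000000000000000000000) (nat_lit 0x0) (nat_lit 0x280000000000000001000000000000000000000000) := D_1 (nat_lit 96) (nat_lit 163) (nat_lit 165) (nat_lit 5) (nat_lit 11) (nat_lit 5) (nat_lit 7) (nat_lit 11) (nat_lit 5) (by decide +kernel)
theorem L605292 : W_1 (nat_lit 3) (nat_lit 0x40000000d000580028000000000000000000000000000) (nat_lit 0x0) (nat_lit 0x280012000000000001000000000000000000000000) := T_1 (nat_lit 148) (nat_lit 145) (nat_lit 0) (nat_lit 12) (nat_lit 8) L605291 (by decide +kernel)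
theorem L605293 : W_1 (nat_lit 4) (nat_lit 0xd000580028000000000000000000000000000) (nat_lit 0x0) (nat_lit 0x4002a0012000000000001000000000000000000000000) := T_1 (nat_lit 178) (nat_lit 161) (nat_lit 6) (nat_lit 8) (nat_lit 10) L605292 (by decide +kernel)
theorem L605294 : W_1 (nat_lit 2) (nat_lit 0x2000d000580028001800000000000000000000000) (nat_lit 0x0) (nat_lit 0x10002000800000000000000000000000000000000) := D_1 (nat_lit 145) (nat_lit 131) (nat_lit 160) (nat_lit 2) (nat_lit 8) (nat_lit 8) (nat_lit 1) (nat_lit 11) (nat_lit 8) (by decide +kernel)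
theorem L605295 : W_1 (nat_lit 3) (nat_lit 0xd000580028001800000000000000000000000) (nat_lit 0x0) (nat_lit 0x400030002000800000000000000000000000000000000) := T_1 (nat_lit 161) (nat_lit 178) (nat_lit 6) (nat_lit 8) (nat_lit 10) L605294 (by decide +kernel)
theorem L605296 : W_1 (nat_lit 4) (nat_lit 0xd000580028001000000000000000000000000) (nat_lit 0x0) (nat_lit 0x400030002000800000000800040000000000000000000) := T_1 (nat_lit 95) (nat_lit 78) (nat_lit 4) (nat_lit 11) (nat_lit 8) L605295 (by decide +kernel)
theorem L605297 : W_1 (nat_lit 5) (nat_lit 0xd000580028000000000000000000000000000) (nat_lit 0x0) (nat_lit 0x4000b0002000800000001800040000000000000000000) := T_1 (nat_lit 96) (nat_lit 163) (nat_lit 5) (nat_lit 11) (nat_lit 5) L605296 (by decide +kernel)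
theorem L605298 : W_1 (nat_lit 7) (nat_lit 0x9000580028000000000000000000000000000) (nat_lit 0x0) (nat_lit 0x4002b00160008000000018000c0002000000000000000) := Q_1 (nat_lit 146) (C_1 L605290 (C_1 L591834 (C_1 L605293 (C_1 L605297 N_1)))) (by decide +kernel)
theorem L605299 : W_1 (nat_lit 2) (nat_lit 0x40000000d000580028001800000000000000000000000) (nat_lit 0x0) (nat_lit 0x12000800000000000000000000000000000000) := D_1 (nat_lit 145) (nat_lit 131) (nat_lit 148) (nat_lit 2) (nat_lit 8) (nat_lit 8) (nat_lit 0) (nat_lit 12) (nat_lit 8) (by decide +kernel)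
theorem L605300 : W_1 (nat_lit 3) (nat_lit 0x400000009000580028001800000000000000000000000) (nat_lit 0x0) (nat_lit 0x80016000800000000000000000000000000000000) := T_1 (nat_lit 146) (nat_lit 163) (nat_lit 5) (nat_lit 11) (nat_lit 5) L605299 (by decide +kernel)
theorem L605301 : W_1 (nat_lit 4) (nat_lit 0x9000580028001800000000000000000000000) (nat_lit 0x0) (nat_lit 0x4000a0016000800000000000000000000000000000000) := T_1 (nat_lit 178) (nat_lit 161) (nat_lit 6) (nat_lit 8) (nat_lit 10) L605300 (by decide +kernel)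
theorem L605302 : W_1 (nat_lit 5) (nat_lit 0x9000580028001000000000000000000000000) (nat_lit 0x0) (nat_lit 0x4000a0016000800000000800040000000000000000000) := T_1 (nat_lit 95) (nat_lit 78) (nat_lit 4) (nat_lit 11) (nat_lit 8) L605301 (by decide +kernel)
theorem L605303 : W_1 (nat_lit 8) (nat_lit 0x9000580028000000000000000000000000000) (nat_lit 0x0) (nat_lit 0x14001a00160008000400038001c000e000200000000000) := Q_1 (nat_lit 96) (C_1 L532234 (C_1 L605288 (C_1 L532163 (C_1 L591819 (C_1 L605302 N_1))))) (by decide +kernel)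
theorem L605304 : W_1 (nat_lit 13) (nat_lit 0x1000580028000000000000000000000000000) (nat_lit 0x0) (nat_lit 0x1f800f801fe00fb007e0078003c00078001c000e000200000000000) := Q_1 (nat_lit 147) (C_1 L591829 (C_1 L591820 (C_1 L605282 (C_1 L605289 (C_1 L591813 (C_1 L591823 (C_1 L605298 (C_1 L605303 N_1)))))))) (by decide +kernel)
theorem L605316 : W_1 (nat_lit 6) (nat_lit 0x9000580028000000000000000000000000000) (nat_lit 0x0) (nat_lit 0x4002a0016000000050007800140000000000000000000) := Q_1 (nat_lit 96) (C_1 L591822 (C_1 L591076 N_1)) (by decide +kernel)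
theorem L605317 : W_1 (nat_lit 3) (nat_lit 0x400000009000580068000000000000000000000000000) (nat_lit 0x0) (nat_lit 0x100000000000000003000100008000000000000000) := T_1 (nat_lit 97) (nat_lit 164) (nat_lit 6) (nat_lit 11) (nat_lit 9) L594226 (by decide +kernel)
theorem L605318 : W_1 (nat_lit 4) (nat_lit 0x9000580068000000000000000000000000000) (nat_lit 0x0) (nat_lit 0x400120000000000000003000100008000000000000000) := T_1 (nat_lit 178) (nat_lit 161) (nat_lit 6) (nat_lit 8) (nat_lit 10) L605317 (by decide +kernel)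
theorem L605319 : W_1 (nat_lit 5) (nat_lit 0x9000580028000000000000000000000000000) (nat_lit 0x0) (nat_lit 0x400120000000000050003000100008000000000000000) := T_1 (nat_lit 114) (nat_lit 112) (nat_lit 1) (nat_lit 12) (nat_lit 6) L605318 (by decide +kernel)
theorem L605320 : W_1 (nat_lit 6) (nat_lit 0x9000580028000000000000000000000000000) (nat_lit 0x0) (nat_lit 0x4003a0016000000010007800140000000000000000000) := Q_1 (nat_lit 96) (C_1 L591822 (C_1 L591100 N_1)) (by decide +kernel)
theorem L605321 : W_1 (nat_lit 11) (nat_lit 0x1000580028000000000000000000000000000) (nat_lit 0x0) (nat_lit 0x10000e0007c003a001e000000050007800140008000000000000000) := Q_1 (nat_lit 147) (C_1 L591823 (C_1 L591228 (C_1 L591071 (C_1 L605316 (C_1 L605319 (C_1 L591096 (C_1 L605320 N_1))))))) (by decide +kernel)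
theorem L605331 : W_1 (nat_lit 2) (nat_lit 0x100058003c001800000000000000000000000) (nat_lit 0x0) (nat_lit 0x100008000000000000000040000000000000000000) := D_1 (nat_lit 147) (nat_lit 78) (nat_lit 164) (nat_lit 4) (nat_lit 11) (nat_lit 8) (nat_lit 4) (nat_lit 11) (nat_lit 9) (by decide +kernel)
theorem L605332 : W_1 (nat_lit 3) (nat_lit 0x100058003c001000000000000000000000000) (nat_lit 0x0) (nat_lit 0x100008000000002000800040000000000000000000) := T_1 (nat_lit 95) (nat_lit 109) (nat_lit 2) (nat_lit 7) (nat_lit 6) L605331 (by decide +kernel)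
theorem L605333 : W_1 (nat_lit 4) (nat_lit 0x100058003c000000000000000000000000000) (nat_lit 0x0) (nat_lit 0x100008000000002003800040000000000000000000) := T_1 (nat_lit 96) (nat_lit 97) (nat_lit 2) (nat_lit 8) (nat_lit 6) L605332 (by decide +kernel)
theorem L605370 : W_1 (nat_lit 2) (nat_lit 0x3000d00078002c000000000000000000000000000) (nat_lit 0x0) (nat_lit 0x1000080000000000000001000000000000000000000000) := D_1 (nat_lit 163) (nat_lit 180) (nat_lit 96) (nat_lit 6) (nat_lit 10) (nat_lit 10) (nat_lit 5) (nat_lit 11) (nat_lit 5) (by decide +kernel)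
theorem L605371 : W_1 (nat_lit 3) (nat_lit 0x3000900078002c000000000000000000000000000) (nat_lit 0x0) (nat_lit 0x1000080006000000000001000000000000000000000000) := T_1 (nat_lit 146) (nat_lit 145) (nat_lit 1) (nat_lit 11) (nat_lit 8) L605370 (by decide +kernel)
theorem L605372 : W_1 (nat_lit 4) (nat_lit 0x2000900078002c000000000000000000000000000) (nat_lit 0x0) (nat_lit 0x1200090006000000000001000000000000000000000000) := T_1 (nat_lit 160) (nat_lit 177) (nat_lit 5) (nat_lit 8) (nat_lit 6) L605371 (by decide +kernel)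
theorem L605373 : W_1 (nat_lit 5) (nat_lit 0x20009000780028000000000000000000000000000) (nat_lit 0x0) (nat_lit 0x1200090006000000006001000000000000000000000000) := T_1 (nat_lit 110) (nat_lit 109) (nat_lit 0) (nat_lit 11) (nat_lit 7) L605372 (by decide +kernel)
theorem L606586 : W_1 (nat_lit 2) (nat_lit 0x100003002d00038001c000800080000000000000000000) (nat_lit 0x0) (nat_lit 0x40006000000000000000) := D_1 (nat_lit 78) (nat_lit 61) (nat_lit 62) (nat_lit 5) (nat_lit 10) (nat_lit 3) (nat_lit 6) (nat_lit 10) (nat_lit 7) (by decide +kernel)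
theorem L606587 : W_1 (nat_lit 3) (nat_lit 0x100003002d00038001c000800000000000000000000000) (nat_lit 0x0) (nat_lit 0x10000c0006000000000000000) := T_1 (nat_lit 79) (nat_lit 96) (nat_lit 6) (nat_lit 10) (nat_lit 8) L606586 (by decide +kernel)
theorem L606588 : W_1 (nat_lit 4) (nat_lit 0x100003002d00038001c000000000000000000000000000) (nat_lit 0x0) (nat_lit 0x1000000000000000018000c0006000000000000000) := T_1 (nat_lit 95) (nat_lit 164) (nat_lit 7) (nat_lit 10) (nat_lit 5) L606587 (by decide +kernel)
theorem L606589 : W_1 (nat_lit 5) (nat_lit 0x100003000d00038001c000000000000000000000000000) (nat_lit 0x0) (nat_lit 0x1000300000000000018000c0006000000000000000) := T_1 (nat_lit 149) (nat_lit 148) (nat_lit 0) (nat_lit 13) (nat_lit 8) L606588 (by decide +kernel)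
theorem L608225 : W_1 (nat_lit 2) (nat_lit 0x90007c0008000000000000000000000000000) (nat_lit 0x0) (nat_lit 0x7000000000000000000000000000) := D_1 (nat_lit 109) (nat_lit 108) (nat_lit 110) (nat_lit 0) (nat_lit 10) (nat_lit 7) (nat_lit 0) (nat_lit 11) (nat_lit 7) (by decide +kernel)
theorem L608226 : W_1 (nat_lit 3) (nat_lit 0x9000780008000000000000000000000000000) (nat_lit 0x0) (nat_lit 0x4000040007000000000000000000000000000) := T_1 (nat_lit 126) (nat_lit 146) (nat_lit 3) (nat_lit 7) (nat_lit 7) L608225 (by decide +kernel)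
theorem L608227 : W_1 (nat_lit 4) (nat_lit 0x1000780008000000000000000000000000000) (nat_lit 0x0) (nat_lit 0x1c000040007000000000000000000000000000) := T_1 (nat_lit 147) (nat_lit 148) (nat_lit 3) (nat_lit 8) (nat_lit 7) L608226 (by decide +kernel)
theorem L608315 : W_1 (nat_lit 2) (nat_lit 0x10003c0018000800000000000000000000000) (nat_lit 0x0) (nat_lit 0x2000000000000000040002000000000000000) := D_1 (nat_lit 78) (nat_lit 145) (nat_lit 61) (nat_lit 5) (nat_lit 10) (nat_lit 4) (nat_lit 5) (nat_lit 10) (nat_lit 3) (by decide +kernel)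
theorem L608362 : W_1 (nat_lit 6) (nat_lit 0x5000380008000000000000000000000000000) (nat_lit 0x0) (nat_lit 0x300018000a000000070001800040002000000000000000) := T_1 (nat_lit 163) (nat_lit 180) (nat_lit 4) (nat_lit 10) (nat_lit 10) L603473 (by decide +kernel)
theorem L610464 : W_1 (nat_lit 2) (nat_lit 0x4000000090007c0018000000000000000000000000000) (nat_lit 0x0) (nat_lit 0x2001800000000000000000000000000000000) := D_1 (nat_lit 131) (nat_lit 145) (nat_lit 132) (nat_lit 1) (nat_lit 12) (nat_lit 7) (nat_lit 0) (nat_lit 13) (nat_lit 7) (by decide +kernel)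
theorem L610465 : W_1 (nat_lit 3) (nat_lit 0x4000000090003c0018000000000000000000000000000) (nat_lit 0x0) (nat_lit 0x12001c00000000000000000000000000000000) := T_1 (nat_lit 130) (nat_lit 148) (nat_lit 3) (nat_lit 8) (nat_lit 7) L610464 (by decide +kernel)
theorem L610843 : W_1 (nat_lit 2) (nat_lit 0x50003c000a000400000000000000000000000) (nat_lit 0x0) (nat_lit 0x1000080002000000000000000000000000000000000000) := D_1 (nat_lit 163) (nat_lit 180) (nat_lit 145) (nat_lit 4) (nat_lit 10) (nat_lit 10) (nat_lit 7) (nat_lit 9) (nat_lit 5) (by decide +kernel)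
theorem L610844 : W_1 (nat_lit 3) (nat_lit 0x50003c000a000000000000000000000000000) (nat_lit 0x0) (nat_lit 0x1000080002000000000000400020000000000000000000) := T_1 (nat_lit 94) (nat_lit 77) (nat_lit 7) (nat_lit 9) (nat_lit 4) L610843 (by decide +kernel)
theorem L610845 : W_1 (nat_lit 4) (nat_lit 0x50003c0008000000000000000000000000000) (nat_lit 0x0) (nat_lit 0x1000080002000000003000400020000000000000000000) := T_1 (nat_lit 109) (nat_lit 108) (nat_lit 0) (nat_lit 10) (nat_lit 7) L610844 (by decide +kernel)
theorem L610847 : W_1 (nat_lit 2) (nat_lit 0x5000380008000400000000000000000000000) (nat_lit 0x0) (nat_lit 0x1000080000000000010000000000000000000000000000) := D_1 (nat_lit 163) (nat_lit 180) (nat_lit 112) (nat_lit 4) (nat_lit 10) (nat_lit 10) (nat_lit 4) (nat_lit 10) (nat_lit 9) (by decide +kernel)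
theorem L610848 : W_1 (nat_lit 3) (nat_lit 0x5000380008000000000000000000000000000) (nat_lit 0x0) (nat_lit 0x1000080000000000010000400020000000000000000000) := T_1 (nat_lit 94) (nat_lit 77) (nat_lit 7) (nat_lit 9) (nat_lit 4) L610847 (by decide +kernel)
theorem L610858 : W_1 (nat_lit 9) (nat_lit 0x1000380008000000000000000000000000000) (nat_lit 0x0) (nat_lit 0x300018003c000440070001c00060003000000000000000) := T_1 (nat_lit 77) (nat_lit 94) (nat_lit 5) (nat_lit 9) (nat_lit 4) L552975 (by decide +kernel)
theorem L611739 : W_1 (nat_lit 3) (nat_lit 0x4000000010001e0008000000000000000000000000000) (nat_lit 0x0) (nat_lit 0x700010004000000000000000000000000000) := T_1 (nat_lit 124) (nat_lit 110) (nat_lit 2) (nat_lit 5) (nat_lit 7) L601566 (by decide +kernel)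
theorem L611740 : W_1 (nat_lit 4) (nat_lit 0x4000000010001c0008000000000000000000000000000) (nat_lit 0x0) (nat_lit 0x700030014000000000000000000000000000) := T_1 (nat_lit 125) (nat_lit 112) (nat_lit 2) (nat_lit 6) (nat_lit 7) L611739 (by decide +kernel)
theorem L611741 : W_1 (nat_lit 5) (nat_lit 0x10001c0008000000000000000000000000000) (nat_lit 0x0) (nat_lit 0x400020000700030014000000000000000000000000000) := T_1 (nat_lit 178) (nat_lit 161) (nat_lit 6) (nat_lit 8) (nat_lit 10) L611740 (by decide +kernel)
theorem L611743 : W_1 (nat_lit 2) (nat_lit 0x4000000090007c0008000000000000000000000000000) (nat_lit 0x0) (nat_lit 0x2000800004000000000000000000000000000) := D_1 (nat_lit 131) (nat_lit 145) (nat_lit 110) (nat_lit 1) (nat_lit 12) (nat_lit 7) (nat_lit 0) (nat_lit 12) (nat_lit 7) (by decide +kernel)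
theorem L611744 : W_1 (nat_lit 3) (nat_lit 0x4000000090003c0008000000000000000000000000000) (nat_lit 0x0) (nat_lit 0x12000c00004000000000000000000000000000) := T_1 (nat_lit 130) (nat_lit 148) (nat_lit 3) (nat_lit 8) (nat_lit 7) L611743 (by decide +kernel)
theorem L611745 : W_1 (nat_lit 4) (nat_lit 0x4000000010003c0008000000000000000000000000000) (nat_lit 0x0) (nat_lit 0x1e000c00004000000000000000000000000000) := T_1 (nat_lit 147) (nat_lit 146) (nat_lit 3) (nat_lit 7) (nat_lit 7) L611744 (by decide +kernel)
theorem L611746 : W_1 (nat_lit 5) (nat_lit 0x10003c0008000000000000000000000000000) (nat_lit 0x0) (nat_lit 0x40002001e000c00004000000000000000000000000000) := T_1 (nat_lit 178) (nat_lit 161) (nat_lit 6) (nat_lit 8) (nat_lit 10) L611745 (by decide +kernel)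
theorem L611747 : W_1 (nat_lit 4) (nat_lit 0x4000000090003c0008000000000000000000000000000) (nat_lit 0x0) (nat_lit 0x12001c00030000000000000000000000000000) := T_1 (nat_lit 112) (nat_lit 113) (nat_lit 2) (nat_lit 7) (nat_lit 7) L610465 (by decide +kernel)
theorem L611748 : W_1 (nat_lit 5) (nat_lit 0x90003c0008000000000000000000000000000) (nat_lit 0x0) (nat_lit 0x400020012001c00030000000000000000000000000000) := T_1 (nat_lit 178) (nat_lit 161) (nat_lit 6) (nat_lit 8) (nat_lit 10) L611747 (by decide +kernel)
theorem L611749 : W_1 (nat_lit 6) (nat_lit 0x10003c0008000000000000000000000000000) (nat_lit 0x0) (nat_lit 0x40002001e001c00030000000000000000000000000000) := T_1 (nat_lit 147) (nat_lit 146) (nat_lit 3) (nat_lit 7) (nat_lit 7) L611748 (by decide +kernel)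
theorem L611750 : W_1 (nat_lit 2) (nat_lit 0x4000000010007c0028000000000000000000000000000) (nat_lit 0x0) (nat_lit 0x2000800004000000000000000000000000000) := D_1 (nat_lit 131) (nat_lit 145) (nat_lit 110) (nat_lit 1) (nat_lit 12) (nat_lit 7) (nat_lit 0) (nat_lit 12) (nat_lit 7) (by decide +kernel)
theorem L611751 : W_1 (nat_lit 3) (nat_lit 0x4000000010003c0028000000000000000000000000000) (nat_lit 0x0) (nat_lit 0x2000c00044000000000000000000000000000) := T_1 (nat_lit 130) (nat_lit 114) (nat_lit 2) (nat_lit 8) (nat_lit 7) L611750 (by decide +kernel)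
theorem L611752 : W_1 (nat_lit 4) (nat_lit 0x4000000010003c0008000000000000000000000000000) (nat_lit 0x0) (nat_lit 0x2000c00074000000000000000000000000000) := T_1 (nat_lit 113) (nat_lit 112) (nat_lit 2) (nat_lit 7) (nat_lit 7) L611751 (by decide +kernel)
theorem L611753 : W_1 (nat_lit 5) (nat_lit 0x10003c0008000000000000000000000000000) (nat_lit 0x0) (nat_lit 0x400020002000c00074000000000000000000000000000) := T_1 (nat_lit 178) (nat_lit 161) (nat_lit 6) (nat_lit 8) (nat_lit 10) L611752 (by decide +kernel)
theorem L611798 : W_1 (nat_lit 2) (nat_lit 0x50003c0018000800040000000000000000000) (nat_lit 0x0) (nat_lit 0x1000080004000000000000000) := D_1 (nat_lit 79) (nat_lit 62) (nat_lit 96) (nat_lit 6) (nat_lit 10) (nat_lit 7) (nat_lit 6) (nat_lit 10) (nat_lit 8) (by decide +kernel)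
theorem L611843 : W_1 (nat_lit 3) (nat_lit 0x50003c0018000800000000000000000000000) (nat_lit 0x0) (nat_lit 0x10000c0006000000000000000) := T_1 (nat_lit 78) (nat_lit 61) (nat_lit 5) (nat_lit 10) (nat_lit 3) L611798 (by decide +kernel)
theorem L611844 : W_1 (nat_lit 4) (nat_lit 0x10003c0018000800000000000000000000000) (nat_lit 0x0) (nat_lit 0xc0000000000010000c0006000000000000000) := T_1 (nat_lit 146) (nat_lit 147) (nat_lit 3) (nat_lit 7) (nat_lit 7) L611843 (by decide +kernel)
theorem L612905 : W_1 (nat_lit 2) (nat_lit 0x3000500038000c000000000000000000000000000) (nat_lit 0x0) (nat_lit 0xa000040000000000000000000000000000000) := D_1 (nat_lit 147) (nat_lit 145) (nat_lit 126) (nat_lit 1) (nat_lit 11) (nat_lit 8) (nat_lit 3) (nat_lit 7) (nat_lit 7) (by decide +kernel)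
theorem L612906 : W_1 (nat_lit 3) (nat_lit 0x2000500038000c000000000000000000000000000) (nat_lit 0x0) (nat_lit 0x20001000a000040000000000000000000000000000000) := T_1 (nat_lit 160) (nat_lit 177) (nat_lit 5) (nat_lit 8) (nat_lit 6) L612905 (by decide +kernel)
theorem L614041 : W_1 (nat_lit 2) (nat_lit 0x3000900078000c000000000000000000000000000) (nat_lit 0x0) (nat_lit 0x6000040000000000000000000000000000000) := D_1 (nat_lit 146) (nat_lit 126) (nat_lit 145) (nat_lit 3) (nat_lit 7) (nat_lit 7) (nat_lit 1) (nat_lit 11) (nat_lit 8) (by decide +kernel)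
theorem L614042 : W_1 (nat_lit 3) (nat_lit 0x3000100078000c000000000000000000000000000) (nat_lit 0x0) (nat_lit 0x1e000040000000000000000000000000000000) := T_1 (nat_lit 147) (nat_lit 148) (nat_lit 3) (nat_lit 8) (nat_lit 7) L614041 (by decide +kernel)
theorem L614043 : W_1 (nat_lit 4) (nat_lit 0x3000100038000c000000000000000000000000000) (nat_lit 0x0) (nat_lit 0x1e000c40000000000000000000000000000000) := T_1 (nat_lit 130) (nat_lit 131) (nat_lit 0) (nat_lit 12) (nat_lit 7) L614042 (by decide +kernel)
theorem L614044 : W_1 (nat_lit 5) (nat_lit 0x2000100038000c000000000000000000000000000) (nat_lit 0x0) (nat_lit 0x20001001e000c40000000000000000000000000000000) := T_1 (nat_lit 160) (nat_lit 177) (nat_lit 5) (nat_lit 8) (nat_lit 6) L614043 (by decide +kernel)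
theorem L614159 : W_1 (nat_lit 6) (nat_lit 0x1000380018000000000000000000000000000) (nat_lit 0x0) (nat_lit 0x200010003c001c00006000800040000000000000000000) := Q_1 (nat_lit 130) (C_1 L605268 (C_1 L527758 (C_1 L604607 N_1))) (by decide +kernel)
theorem L614193 : W_1 (nat_lit 2) (nat_lit 0x1000780018000000000000000000000000000) (nat_lit 0x0) (nat_lit 0x2001800000000000000000000000000000000) := D_1 (nat_lit 131) (nat_lit 132) (nat_lit 145) (nat_lit 0) (nat_lit 13) (nat_lit 7) (nat_lit 1) (nat_lit 12) (nat_lit 7) (by decide +kernel)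
theorem L614196 : W_1 (nat_lit 2) (nat_lit 0x10007a001c001c00000000000000000000000) (nat_lit 0x0) (nat_lit 0x80004000000000000000080000000000000000000) := D_1 (nat_lit 146) (nat_lit 163) (nat_lit 79) (nat_lit 4) (nat_lit 10) (nat_lit 9) (nat_lit 6) (nat_lit 10) (nat_lit 8) (by decide +kernel)
theorem L614197 : W_1 (nat_lit 3) (nat_lit 0x10007a001c000c00000000000000000000000) (nat_lit 0x0) (nat_lit 0x80004000000000003000080000000000000000000) := T_1 (nat_lit 96) (nat_lit 97) (nat_lit 1) (nat_lit 12) (nat_lit 5) L614196 (by decide +kernel)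
theorem L614198 : W_1 (nat_lit 4) (nat_lit 0x100078001c000c00000000000000000000000) (nat_lit 0x0) (nat_lit 0x80004000060000003000080000000000000000000) := T_1 (nat_lit 125) (nat_lit 126) (nat_lit 2) (nat_lit 6) (nat_lit 7) L614197 (by decide +kernel)
theorem L614199 : W_1 (nat_lit 5) (nat_lit 0x1000780018000c00000000000000000000000) (nat_lit 0x0) (nat_lit 0x80004000060006003000080000000000000000000) := T_1 (nat_lit 110) (nat_lit 109) (nat_lit 3) (nat_lit 7) (nat_lit 6) L614198 (by decide +kernel)
theorem L614200 : W_1 (nat_lit 6) (nat_lit 0x1000780018000800000000000000000000000) (nat_lit 0x0) (nat_lit 0x800040000600060034000a0000000000000000000) := T_1 (nat_lit 94) (nat_lit 77) (nat_lit 5) (nat_lit 9) (nat_lit 4) L614199 (by decide +kernel)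
theorem L614201 : W_1 (nat_lit 7) (nat_lit 0x1000780018000000000000000000000000000) (nat_lit 0x0) (nat_lit 0x80006000060006003c000e0003000000000000000) := Q_1 (nat_lit 95) (C_1 L604608 (C_1 L529655 (C_1 L614200 N_1))) (by decide +kernel)
theorem L614202 : W_1 (nat_lit 8) (nat_lit 0x1000380018000000000000000000000000000) (nat_lit 0x0) (nat_lit 0x80006001c60006003c000e0003000000000000000) := Q_1 (nat_lit 130) (C_1 L604607 (C_1 L614193 (C_1 L614201 N_1))) (by decide +kernel)
theorem L614206 : W_1 (nat_lit 2) (nat_lit 0x4000000010003c001a001800000000000000000000000) (nat_lit 0x0) (nat_lit 0xc000000000000000080000000000000000000) := D_1 (nat_lit 146) (nat_lit 147) (nat_lit 79) (nat_lit 3) (nat_lit 7) (nat_lit 7) (nat_lit 6) (nat_lit 10) (nat_lit 8) (by decide +kernel)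
theorem L614207 : W_1 (nat_lit 3) (nat_lit 0x4000000010003c001a000800000000000000000000000) (nat_lit 0x0) (nat_lit 0xc000000004001000080000000000000000000) := T_1 (nat_lit 96) (nat_lit 110) (nat_lit 2) (nat_lit 7) (nat_lit 6) L614206 (by decide +kernel)
theorem L614208 : W_1 (nat_lit 4) (nat_lit 0x10003c001a000800000000000000000000000) (nat_lit 0x0) (nat_lit 0x40002000c000000004001000080000000000000000000) := T_1 (nat_lit 178) (nat_lit 161) (nat_lit 6) (nat_lit 8) (nat_lit 10) L614207 (by decide +kernel)
theorem L614209 : W_1 (nat_lit 5) (nat_lit 0x10003c0018000800000000000000000000000) (nat_lit 0x0) (nat_lit 0x40002000c000000007001000080000000000000000000) := T_1 (nat_lit 109) (nat_lit 108) (nat_lit 0) (nat_lit 10) (nat_lit 7) L614208 (by decide +kernel)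
theorem L614210 : W_1 (nat_lit 6) (nat_lit 0x10003c0018000000000000000000000000000) (nat_lit 0x0) (nat_lit 0x40002000e0000000070018000c0006000000000000000) := Q_1 (nat_lit 95) (C_1 L611844 (C_1 L608315 (C_1 L614209 N_1))) (by decide +kernel)
theorem L614211 : W_1 (nat_lit 7) (nat_lit 0x10003c0008000000000000000000000000000) (nat_lit 0x0) (nat_lit 0x40002000e0000000370018000c0006000000000000000) := T_1 (nat_lit 112) (nat_lit 113) (nat_lit 2) (nat_lit 7) (nat_lit 7) L614210 (by decide +kernel)
theorem L614212 : W_1 (nat_lit 8) (nat_lit 0x10001c0008000000000000000000000000000) (nat_lit 0x0) (nat_lit 0x40002001e001e000770018000c0006000000000000000) := Q_1 (nat_lit 129) (C_1 L611753 (C_1 L568128 (C_1 L568116 (C_1 L611749 (C_1 L614211 (C_1 L611746 N_1)))))) (by decide +kernel)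
theorem L614213 : W_1 (nat_lit 9) (nat_lit 0x1000180008000000000000000000000000000) (nat_lit 0x0) (nat_lit 0x40002001e701e70077c018000c0006000000000000000) := Q_1 (nat_lit 126) (C_1 L611741 (C_1 L568092 (C_1 L568087 (C_1 L614212 (C_1 L586455 N_1))))) (by decide +kernel)
theorem L614214 : W_1 (nat_lit 6) (nat_lit 0x1000380018000000000000000000000000000) (nat_lit 0x0) (nat_lit 0x2000100038001c000e0000c00020000000000000000000) := T_1 (nat_lit 77) (nat_lit 94) (nat_lit 5) (nat_lit 9) (nat_lit 4) L552951 (by decide +kernel)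
theorem L614215 : W_1 (nat_lit 6) (nat_lit 0x1000380018000000000000000000000000000) (nat_lit 0x0) (nat_lit 0x6001c00066003000080004000000000000000) := Q_1 (nat_lit 130) (C_1 L614193 (C_1 L604919 N_1)) (by decide +kernel)
theorem L614216 : W_1 (nat_lit 7) (nat_lit 0x1000180018000000000000000000000000000) (nat_lit 0x0) (nat_lit 0x300018003e001e000e6003c000e0006000000000000000) := Q_1 (nat_lit 129) (C_1 L614159 (C_1 L603090 (C_1 L614214 (C_1 L614215 N_1)))) (by decide +kernel)
theorem L614217 : W_1 (nat_lit 2) (nat_lit 0x10007c001a000000020000000000000000000) (nat_lit 0x0) (nat_lit 0x2001800000000000000000000000000000000) := D_1 (nat_lit 131) (nat_lit 145) (nat_lit 132) (nat_lit 1) (nat_lit 12) (nat_lit 7) (nat_lit 0) (nat_lit 13) (nat_lit 7) (by decide +kernel)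
theorem L614218 : W_1 (nat_lit 3) (nat_lit 0x10003c001a000000020000000000000000000) (nat_lit 0x0) (nat_lit 0x2001c00004000000000000000000000000000) := T_1 (nat_lit 130) (nat_lit 110) (nat_lit 3) (nat_lit 7) (nat_lit 6) L614217 (by decide +kernel)
theorem L614219 : W_1 (nat_lit 4) (nat_lit 0x10003c0018000000020000000000000000000) (nat_lit 0x0) (nat_lit 0x2001c00007000000000000000000000000000) := T_1 (nat_lit 109) (nat_lit 108) (nat_lit 0) (nat_lit 10) (nat_lit 7) L614218 (by decide +kernel)
theorem L614220 : W_1 (nat_lit 5) (nat_lit 0x10003c0018000000000000000000000000000) (nat_lit 0x0) (nat_lit 0x2001c00007000400020000000000000000000) := T_1 (nat_lit 77) (nat_lit 94) (nat_lit 5) (nat_lit 9) (nat_lit 4) L614219 (by decide +kernel)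
theorem L614221 : W_1 (nat_lit 6) (nat_lit 0x1000380018000000000000000000000000000) (nat_lit 0x0) (nat_lit 0x2001c60007000400020000000000000000000) := T_1 (nat_lit 126) (nat_lit 125) (nat_lit 2) (nat_lit 6) (nat_lit 7) L614220 (by decide +kernel)
theorem L614222 : W_1 (nat_lit 9) (nat_lit 0x1000180018000000000000000000000000000) (nat_lit 0x0) (nat_lit 0x200018003e001e60007003c000e0003000000000000000) := Q_1 (nat_lit 129) (C_1 L614202 (C_1 L614159 (C_1 L529637 (C_1 L614221 N_1)))) (by decide +kernel)
theorem L614223 : W_1 (nat_lit 10) (nat_lit 0x1000180008000000000000000000000000000) (nat_lit 0x0) (nat_lit 0x300018003e001e600f7003c000e0007000000000000000) := Q_1 (nat_lit 112) (C_1 L614216 (C_1 L586943 (C_1 L527713 (C_1 L614222 N_1)))) (by decide +kernel)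
theorem L614224 : W_1 (nat_lit 11) (nat_lit 0x1000180000000000000000000000000000000) (nat_lit 0x0) (nat_lit 0x34001a003e701e700ffc03c000e0007000000000000000) := Q_1 (nat_lit 111) (C_1 L614213 (C_1 L527683 (C_1 L614223 (C_1 L568080 N_1)))) (by decide +kernel)
theorem L615320 : W_1 (nat_lit 2) (nat_lit 0x200010000c0002000000000000000000000000000) (nat_lit 0x0) (nat_lit 0x800000000000100008000000000000000000) := D_1 (nat_lit 92) (nat_lit 75) (nat_lit 143) (nat_lit 7) (nat_lit 7) (nat_lit 4) (nat_lit 7) (nat_lit 7) (nat_lit 5) (by decide +kernel)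
theorem L615321 : W_1 (nat_lit 3) (nat_lit 0x10000c0002000000000000000000000000000) (nat_lit 0x0) (nat_lit 0x400020000800000000000100008000000000000000000) := T_1 (nat_lit 161) (nat_lit 178) (nat_lit 4) (nat_lit 8) (nat_lit 10) L615320 (by decide +kernel)
theorem L615322 : W_1 (nat_lit 4) (nat_lit 0x10000f0002000000008000000000000000000) (nat_lit 0x0) (nat_lit 0x80000c001700000000000000000000000000) := T_1 (nat_lit 123) (nat_lit 143) (nat_lit 3) (nat_lit 4) (nat_lit 7) L343224 (by decide +kernel)
theorem L615323 : W_1 (nat_lit 5) (nat_lit 0x10000f0002000000000000000000000000000) (nat_lit 0x0) (nat_lit 0x80000c001700100008000000000000000000) := T_1 (nat_lit 75) (nat_lit 92) (nat_lit 7) (nat_lit 7) (nat_lit 4) L615322 (by decide +kernel)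
theorem L615324 : W_1 (nat_lit 2) (nat_lit 0x12000fe002800000000000000000000000000) (nat_lit 0x0) (nat_lit 0xe0000000000000000000000000000000000) := D_1 (nat_lit 138) (nat_lit 137) (nat_lit 139) (nat_lit 1) (nat_lit 5) (nat_lit 7) (nat_lit 1) (nat_lit 6) (nat_lit 7) (by decide +kernel)
theorem L615325 : W_1 (nat_lit 3) (nat_lit 0x12000fc002800000000000000000000000000) (nat_lit 0x0) (nat_lit 0x4e0002000000000000000000000000000000) := T_1 (nat_lit 121) (nat_lit 142) (nat_lit 3) (nat_lit 2) (nat_lit 7) L615324 (by decide +kernel)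
theorem L615326 : W_1 (nat_lit 4) (nat_lit 0x12000f8002800000000000000000000000000) (nat_lit 0x0) (nat_lit 0x4e0006001000000000000000000000000000) := T_1 (nat_lit 122) (nat_lit 108) (nat_lit 2) (nat_lit 3) (nat_lit 7) L615325 (by decide +kernel)
theorem L615327 : W_1 (nat_lit 5) (nat_lit 0x12000f0002800000000000000000000000000) (nat_lit 0x0) (nat_lit 0xce000e001000000000000000000000000000) := T_1 (nat_lit 123) (nat_lit 143) (nat_lit 3) (nat_lit 4) (nat_lit 7) L615326 (by decide +kernel)
theorem L615328 : W_1 (nat_lit 6) (nat_lit 0x10000f0002800000000000000000000000000) (nat_lit 0x0) (nat_lit 0xfe000e001000000000000000000000000000) := T_1 (nat_lit 141) (nat_lit 140) (nat_lit 1) (nat_lit 8) (nat_lit 7) L615327 (by decide +kernel)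
theorem L615329 : W_1 (nat_lit 7) (nat_lit 0x10000f0002000000000000000000000000000) (nat_lit 0x0) (nat_lit 0xfe000e001c00000000000000000000000000) := T_1 (nat_lit 107) (nat_lit 106) (nat_lit 0) (nat_lit 8) (nat_lit 7) L615328 (by decide +kernel)
theorem L615330 : W_1 (nat_lit 2) (nat_lit 0x16000f00038000c0008000000000000000000) (nat_lit 0x0) (nat_lit 0x30001000000000000000000) := D_1 (nat_lit 89) (nat_lit 72) (nat_lit 88) (nat_lit 4) (nat_lit 5) (nat_lit 8) (nat_lit 3) (nat_lit 3) (nat_lit 5) (by decide +kernel)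
theorem L615331 : W_1 (nat_lit 3) (nat_lit 0x16000f00028000c0008000000000000000000) (nat_lit 0x0) (nat_lit 0x4000000000001000030001000000000000000000) := T_1 (nat_lit 108) (nat_lit 158) (nat_lit 6) (nat_lit 5) (nat_lit 9) L615330 (by decide +kernel)
theorem L615332 : W_1 (nat_lit 4) (nat_lit 0x16000f0002800040008000000000000000000) (nat_lit 0x0) (nat_lit 0x40000000000010000b0005000000000000000000) := T_1 (nat_lit 91) (nat_lit 74) (nat_lit 6) (nat_lit 5) (nat_lit 8) L615331 (by decide +kernel)
theorem L615333 : W_1 (nat_lit 5) (nat_lit 0x16000f0002800000008000000000000000000) (nat_lit 0x0) (nat_lit 0x40000000000010000f0007000000000000000000) := T_1 (nat_lit 90) (nat_lit 73) (nat_lit 7) (nat_lit 5) (nat_lit 4) L615332 (by decide +kernel)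
theorem L615334 : W_1 (nat_lit 6) (nat_lit 0x16000f0002000000008000000000000000000) (nat_lit 0x0) (nat_lit 0x4000000000001c000f0007000000000000000000) := T_1 (nat_lit 107) (nat_lit 106) (nat_lit 0) (nat_lit 8) (nat_lit 7) L615333 (by decide +kernel)
theorem L615335 : W_1 (nat_lit 7) (nat_lit 0x16000f0002000000000000000000000000000) (nat_lit 0x0) (nat_lit 0x4000000000001c001f000f000000000000000000) := T_1 (nat_lit 75) (nat_lit 92) (nat_lit 7) (nat_lit 7) (nat_lit 4) L615334 (by decide +kernel)
theorem L615336 : W_1 (nat_lit 8) (nat_lit 0x14000f0002000000000000000000000000000) (nat_lit 0x0) (nat_lit 0x4000300000001c001f000f000000000000000000) := T_1 (nat_lit 141) (nat_lit 140) (nat_lit 1) (nat_lit 8) (nat_lit 7) L615335 (by decide +kernel)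
theorem L615337 : W_1 (nat_lit 9) (nat_lit 0x10000f0002000000000000000000000000000) (nat_lit 0x0) (nat_lit 0x10000c000700000001c001f000f000000000000000000) := Q_1 (nat_lit 142) (C_1 L351030 (C_1 L615336 (C_1 L288035 (C_1 L288037 N_1)))) (by decide +kernel)
theorem L615338 : W_1 (nat_lit 2) (nat_lit 0x12800fe002000000008000000000000000000) (nat_lit 0x0) (nat_lit 0x380000000000000000000000000) := D_1 (nat_lit 104) (nat_lit 103) (nat_lit 105) (nat_lit 0) (nat_lit 5) (nat_lit 7) (nat_lit 0) (nat_lit 6) (nat_lit 7) (by decide +kernel)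
theorem L615339 : W_1 (nat_lit 3) (nat_lit 0x12800fc002000000008000000000000000000) (nat_lit 0x0) (nat_lit 0x400002000380000000000000000000000000) := T_1 (nat_lit 121) (nat_lit 142) (nat_lit 3) (nat_lit 2) (nat_lit 7) L615338 (by decide +kernel)
theorem L615340 : W_1 (nat_lit 4) (nat_lit 0x12000fc002000000008000000000000000000) (nat_lit 0x0) (nat_lit 0x4c0002000380000000000000000000000000) := T_1 (nat_lit 139) (nat_lit 138) (nat_lit 1) (nat_lit 6) (nat_lit 7) L615339 (by decide +kernel)
theorem L615341 : W_1 (nat_lit 5) (nat_lit 0x12000f8002000000008000000000000000000) (nat_lit 0x0) (nat_lit 0x4c0006001380000000000000000000000000) := T_1 (nat_lit 122) (nat_lit 108) (nat_lit 2) (nat_lit 3) (nat_lit 7) L615340 (by decide +kernel)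
theorem L615342 : W_1 (nat_lit 6) (nat_lit 0x12000f0002000000008000000000000000000) (nat_lit 0x0) (nat_lit 0xcc000e001380000000000000000000000000) := T_1 (nat_lit 123) (nat_lit 143) (nat_lit 3) (nat_lit 4) (nat_lit 7) L615341 (by decide +kernel)
theorem L615343 : W_1 (nat_lit 7) (nat_lit 0x12000f0002000000000000000000000000000) (nat_lit 0x0) (nat_lit 0xcc000e001380100008000000000000000000) := T_1 (nat_lit 75) (nat_lit 92) (nat_lit 7) (nat_lit 7) (nat_lit 4) L615342 (by decide +kernel)
theorem L615344 : W_1 (nat_lit 8) (nat_lit 0x10000f0002000000000000000000000000000) (nat_lit 0x0) (nat_lit 0xfc000e001380100008000000000000000000) := T_1 (nat_lit 141) (nat_lit 140) (nat_lit 1) (nat_lit 8) (nat_lit 7) L615343 (by decide +kernel)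
theorem L615345 : W_1 (nat_lit 10) (nat_lit 0x10000e0002000000000000000000000000000) (nat_lit 0x0) (nat_lit 0x10000c000fe001e001f801f000f000000000000000000) := Q_1 (nat_lit 124) (C_1 L287990 (C_1 L615323 (C_1 L615329 (C_1 L615337 (C_1 L615344 N_1))))) (by decide +kernel)
theorem L615380 : W_1 (nat_lit 2) (nat_lit 0x58000e0003000380000000000000000000000) (nat_lit 0x0) (nat_lit 0xc00400000000000000000000000) := D_1 (nat_lit 107) (nat_lit 106) (nat_lit 94) (nat_lit 3) (nat_lit 4) (nat_lit 6) (nat_lit 1) (nat_lit 9) (nat_lit 5) (by decide +kernel)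
theorem L615485 : W_1 (nat_lit 2) (nat_lit 0x10000e0003000080000000000000000000000) (nat_lit 0x0) (nat_lit 0x800000000000000004000200000000000000) := D_1 (nat_lit 74) (nat_lit 143) (nat_lit 57) (nat_lit 7) (nat_lit 6) (nat_lit 4) (nat_lit 7) (nat_lit 6) (nat_lit 3) (by decide +kernel)
theorem L615503 : W_1 (nat_lit 2) (nat_lit 0x180038000e0003400000000000000000000000000) (nat_lit 0x0) (nat_lit 0x6000400000000000000000000000000000000000) := D_1 (nat_lit 158) (nat_lit 157) (nat_lit 142) (nat_lit 2) (nat_lit 4) (nat_lit 9) (nat_lit 1) (nat_lit 9) (nat_lit 8) (by decide +kernel)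
theorem L615597 : W_1 (nat_lit 2) (nat_lit 0x180018000e0002000080000000000000000000000) (nat_lit 0x0) (nat_lit 0x10000c000000000000000000) := D_1 (nat_lit 92) (nat_lit 75) (nat_lit 74) (nat_lit 7) (nat_lit 7) (nat_lit 4) (nat_lit 4) (nat_lit 7) (nat_lit 8) (by decide +kernel)
theorem L615598 : W_1 (nat_lit 3) (nat_lit 0x180018000e0002000000000000000000000000000) (nat_lit 0x0) (nat_lit 0x100018000c000000000000000000) := T_1 (nat_lit 91) (nat_lit 108) (nat_lit 4) (nat_lit 7) (nat_lit 9) L615597 (by decide +kernel)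
theorem L615996 : W_1 (nat_lit 2) (nat_lit 0x14000e0002000100000000000000000000000) (nat_lit 0x0) (nat_lit 0x100008000800000000000000000000000000000000000) := D_1 (nat_lit 159) (nat_lit 176) (nat_lit 143) (nat_lit 6) (nat_lit 6) (nat_lit 10) (nat_lit 5) (nat_lit 7) (nat_lit 5) (by decide +kernel)
theorem L616025 : W_1 (nat_lit 2) (nat_lit 0x1000100018000c0002000380000000000000000000000) (nat_lit 0x0) (nat_lit 0x6000200000000000000000000000000000000000000000000) := D_1 (nat_lit 177) (nat_lit 194) (nat_lit 193) (nat_lit 6) (nat_lit 7) (nat_lit 11) (nat_lit 5) (nat_lit 7) (nat_lit 7) (by decide +kernel)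
theorem L616026 : W_1 (nat_lit 3) (nat_lit 0x100018000c0002000380000000000000000000000) (nat_lit 0x0) (nat_lit 0x6000300008000000000000000000000000000000000000000) := T_1 (nat_lit 176) (nat_lit 159) (nat_lit 5) (nat_lit 7) (nat_lit 6) L616025 (by decide +kernel)
theorem L616039 : W_1 (nat_lit 2) (nat_lit 0x18000c0003000380000000000000000000000) (nat_lit 0x0) (nat_lit 0xc00400000000000000000000000) := D_1 (nat_lit 107) (nat_lit 106) (nat_lit 94) (nat_lit 3) (nat_lit 4) (nat_lit 6) (nat_lit 1) (nat_lit 9) (nat_lit 5) (by decide +kernel)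
theorem L616040 : W_1 (nat_lit 3) (nat_lit 0x18000c0002000380000000000000000000000) (nat_lit 0x0) (nat_lit 0x10000000000001c00400000000000000000000000) := T_1 (nat_lit 108) (nat_lit 160) (nat_lit 4) (nat_lit 7) (nat_lit 9) L616039 (by decide +kernel)
theorem L616041 : W_1 (nat_lit 4) (nat_lit 0x18000c0002000300000000000000000000000) (nat_lit 0x0) (nat_lit 0x10000000000001c00480004000000000000000000) := T_1 (nat_lit 91) (nat_lit 74) (nat_lit 4) (nat_lit 7) (nat_lit 8) L616040 (by decide +kernel)
theorem L616042 : W_1 (nat_lit 5) (nat_lit 0x18000c0002000100000000000000000000000) (nat_lit 0x0) (nat_lit 0x10000000000001c00680014000000000000000000) := T_1 (nat_lit 93) (nat_lit 76) (nat_lit 6) (nat_lit 7) (nat_lit 8) L616041 (by decide +kernel)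
theorem L616043 : W_1 (nat_lit 6) (nat_lit 0x18000c0002000000000000000000000000000) (nat_lit 0x0) (nat_lit 0x10000000000001c0078001c000000000000000000) := T_1 (nat_lit 92) (nat_lit 75) (nat_lit 7) (nat_lit 7) (nat_lit 4) L616042 (by decide +kernel)
theorem L616446 : W_1 (nat_lit 6) (nat_lit 0x10000f0002000000000000000000000000000) (nat_lit 0x0) (nat_lit 0x40002000038000c001700000000000000000000000000) := T_1 (nat_lit 178) (nat_lit 161) (nat_lit 4) (nat_lit 8) (nat_lit 10) L346064 (by decide +kernel)
theorem L616447 : W_1 (nat_lit 4) (nat_lit 0x10000f0002000000000000000000000000000) (nat_lit 0x0) (nat_lit 0x80000c001700000000000000000000000000) := T_1 (nat_lit 123) (nat_lit 143) (nat_lit 3) (nat_lit 4) (nat_lit 7) L342846 (by decide +kernel)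
theorem L616448 : W_1 (nat_lit 2) (nat_lit 0x4000000012000f8002000000000000000000000000000) (nat_lit 0x0) (nat_lit 0xe00000000000000000000000000) := D_1 (nat_lit 106) (nat_lit 105) (nat_lit 107) (nat_lit 0) (nat_lit 7) (nat_lit 7) (nat_lit 0) (nat_lit 8) (nat_lit 7) (by decide +kernel)
theorem L616449 : W_1 (nat_lit 3) (nat_lit 0x4000000012000f0002000000000000000000000000000) (nat_lit 0x0) (nat_lit 0x800008000e00000000000000000000000000) := T_1 (nat_lit 123) (nat_lit 143) (nat_lit 3) (nat_lit 4) (nat_lit 7) L616448 (by decide +kernel)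
theorem L616450 : W_1 (nat_lit 4) (nat_lit 0x4000000010000f0002000000000000000000000000000) (nat_lit 0x0) (nat_lit 0xb00008000e00000000000000000000000000) := T_1 (nat_lit 141) (nat_lit 140) (nat_lit 1) (nat_lit 8) (nat_lit 7) L616449 (by decide +kernel)
theorem L616452 : W_1 (nat_lit 2) (nat_lit 0x4000000016000f00038000c0000000000000000000000) (nat_lit 0x0) (nat_lit 0x30001000000000000000000) := D_1 (nat_lit 89) (nat_lit 72) (nat_lit 88) (nat_lit 4) (nat_lit 5) (nat_lit 8) (nat_lit 3) (nat_lit 3) (nat_lit 5) (by decide +kernel)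
theorem L616453 : W_1 (nat_lit 3) (nat_lit 0x4000000016000f00028000c0000000000000000000000) (nat_lit 0x0) (nat_lit 0x4000000000001000030001000000000000000000) := T_1 (nat_lit 108) (nat_lit 158) (nat_lit 6) (nat_lit 5) (nat_lit 9) L616452 (by decide +kernel)
theorem L616454 : W_1 (nat_lit 4) (nat_lit 0x4000000016000f0002800040000000000000000000000) (nat_lit 0x0) (nat_lit 0x40000000000010000b0005000000000000000000) := T_1 (nat_lit 91) (nat_lit 74) (nat_lit 6) (nat_lit 5) (nat_lit 8) L616453 (by decide +kernel)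
theorem L616455 : W_1 (nat_lit 5) (nat_lit 0x4000000016000f0002800000000000000000000000000) (nat_lit 0x0) (nat_lit 0x40000000000010000f0007000000000000000000) := T_1 (nat_lit 90) (nat_lit 73) (nat_lit 7) (nat_lit 5) (nat_lit 4) L616454 (by decide +kernel)
theorem L616456 : W_1 (nat_lit 6) (nat_lit 0x4000000016000f0002000000000000000000000000000) (nat_lit 0x0) (nat_lit 0x4000000000001c000f0007000000000000000000) := T_1 (nat_lit 107) (nat_lit 106) (nat_lit 0) (nat_lit 8) (nat_lit 7) L616455 (by decide +kernel)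
theorem L616457 : W_1 (nat_lit 7) (nat_lit 0x4000000014000f0002000000000000000000000000000) (nat_lit 0x0) (nat_lit 0x4000300000001c000f0007000000000000000000) := T_1 (nat_lit 141) (nat_lit 140) (nat_lit 1) (nat_lit 8) (nat_lit 7) L616456 (by decide +kernel)
theorem L616458 : W_1 (nat_lit 8) (nat_lit 0x14000f0002000000000000000000000000000) (nat_lit 0x0) (nat_lit 0x400024000300000001c000f0007000000000000000000) := T_1 (nat_lit 178) (nat_lit 161) (nat_lit 4) (nat_lit 8) (nat_lit 10) L616457 (by decide +kernel)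
theorem L616459 : W_1 (nat_lit 2) (nat_lit 0x4000080016000f0003000080000000000000000000000) (nat_lit 0x0) (nat_lit 0x200010000800000000000000000000000000000000000) := D_1 (nat_lit 160) (nat_lit 143) (nat_lit 177) (nat_lit 7) (nat_lit 6) (nat_lit 5) (nat_lit 7) (nat_lit 6) (nat_lit 6) (by decide +kernel)
theorem L616460 : W_1 (nat_lit 3) (nat_lit 0x4000000016000f0003000080000000000000000000000) (nat_lit 0x0) (nat_lit 0x300018000800000000000000000000000000000000000) := T_1 (nat_lit 159) (nat_lit 176) (nat_lit 6) (nat_lit 6) (nat_lit 10) L616459 (by decide +kernel)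
theorem L616461 : W_1 (nat_lit 4) (nat_lit 0x4000000016000f0003000000000000000000000000000) (nat_lit 0x0) (nat_lit 0x300018000800000000000080004000000000000000000) := T_1 (nat_lit 91) (nat_lit 74) (nat_lit 5) (nat_lit 6) (nat_lit 4) L616460 (by decide +kernel)
theorem L616462 : W_1 (nat_lit 5) (nat_lit 0x16000f0003000000000000000000000000000) (nat_lit 0x0) (nat_lit 0x700038000800000000000080004000000000000000000) := T_1 (nat_lit 178) (nat_lit 161) (nat_lit 4) (nat_lit 8) (nat_lit 10) L616461 (by decide +kernel)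
theorem L616463 : W_1 (nat_lit 6) (nat_lit 0x14000f0003000000000000000000000000000) (nat_lit 0x0) (nat_lit 0x700038000b00000000000080004000000000000000000) := T_1 (nat_lit 141) (nat_lit 140) (nat_lit 1) (nat_lit 8) (nat_lit 7) L616462 (by decide +kernel)
theorem L616464 : W_1 (nat_lit 2) (nat_lit 0x40001c0014000f0003000000000000000000000000000) (nat_lit 0x0) (nat_lit 0x2000800000000000080000000000000000000000) := D_1 (nat_lit 143) (nat_lit 91) (nat_lit 157) (nat_lit 7) (nat_lit 6) (nat_lit 5) (nat_lit 2) (nat_lit 4) (nat_lit 9) (by decide +kernel)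
theorem L616465 : W_1 (nat_lit 3) (nat_lit 0x40000c0014000f0003000000000000000000000000000) (nat_lit 0x0) (nat_lit 0x200012000800000000000080000000000000000000000) := T_1 (nat_lit 160) (nat_lit 177) (nat_lit 7) (nat_lit 6) (nat_lit 6) L616464 (by decide +kernel)
theorem L616466 : W_1 (nat_lit 4) (nat_lit 0x4000080014000f0003000000000000000000000000000) (nat_lit 0x0) (nat_lit 0x280016000800000000000080000000000000000000000) := T_1 (nat_lit 158) (nat_lit 175) (nat_lit 5) (nat_lit 6) (nat_lit 6) L616465 (by decide +kernel)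
theorem L616467 : W_1 (nat_lit 5) (nat_lit 0x4000000014000f0003000000000000000000000000000) (nat_lit 0x0) (nat_lit 0x38001e000800000000000080000000000000000000000) := T_1 (nat_lit 159) (nat_lit 176) (nat_lit 6) (nat_lit 6) (nat_lit 10) L616466 (by decide +kernel)
theorem L616468 : W_1 (nat_lit 6) (nat_lit 0x14000f0003000000000000000000000000000) (nat_lit 0x0) (nat_lit 0x78003e000800000000000080000000000000000000000) := T_1 (nat_lit 178) (nat_lit 161) (nat_lit 4) (nat_lit 8) (nat_lit 10) L616467 (by decide +kernel)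
theorem L616469 : W_1 (nat_lit 2) (nat_lit 0x40001f0016000f0003000000000000000000000000000) (nat_lit 0x0) (nat_lit 0x70000000000000000000000000000000000000000000) := D_1 (nat_lit 173) (nat_lit 174) (nat_lit 172) (nat_lit 1) (nat_lit 7) (nat_lit 9) (nat_lit 1) (nat_lit 6) (nat_lit 9) (by decide +kernel)
theorem L616470 : W_1 (nat_lit 3) (nat_lit 0x40001e0016000f0003000000000000000000000000000) (nat_lit 0x0) (nat_lit 0x70001800000000000000000000000000000000000000) := T_1 (nat_lit 156) (nat_lit 155) (nat_lit 2) (nat_lit 2) (nat_lit 9) L616469 (by decide +kernel)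
theorem L616471 : W_1 (nat_lit 4) (nat_lit 0x40001c0016000f0003000000000000000000000000000) (nat_lit 0x0) (nat_lit 0x70003800800000000000000000000000000000000000) := T_1 (nat_lit 157) (nat_lit 143) (nat_lit 2) (nat_lit 4) (nat_lit 9) L616470 (by decide +kernel)
theorem L616472 : W_1 (nat_lit 5) (nat_lit 0x1c0016000f0003000000000000000000000000000) (nat_lit 0x0) (nat_lit 0x470023800800000000000000000000000000000000000) := T_1 (nat_lit 178) (nat_lit 161) (nat_lit 4) (nat_lit 8) (nat_lit 10) L616471 (by decide +kernel)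
theorem L616473 : W_1 (nat_lit 6) (nat_lit 0x180016000f0003000000000000000000000000000) (nat_lit 0x0) (nat_lit 0x4f0027800800000000000000000000000000000000000) := T_1 (nat_lit 158) (nat_lit 175) (nat_lit 6) (nat_lit 5) (nat_lit 10) L616472 (by decide +kernel)
theorem L616474 : W_1 (nat_lit 7) (nat_lit 0x80016000f0003000000000000000000000000000) (nat_lit 0x0) (nat_lit 0x6f0037800800000000000000000000000000000000000) := T_1 (nat_lit 160) (nat_lit 177) (nat_lit 7) (nat_lit 6) (nat_lit 6) L616473 (by decide +kernel)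
theorem L616475 : W_1 (nat_lit 8) (nat_lit 0x80014000f0003000000000000000000000000000) (nat_lit 0x0) (nat_lit 0x6f0037800b00000000000000000000000000000000000) := T_1 (nat_lit 141) (nat_lit 140) (nat_lit 1) (nat_lit 8) (nat_lit 7) L616474 (by decide +kernel)
theorem L616476 : W_1 (nat_lit 9) (nat_lit 0x14000f0003000000000000000000000000000) (nat_lit 0x0) (nat_lit 0x7f003f800b00000000000000000000000000000000000) := T_1 (nat_lit 159) (nat_lit 176) (nat_lit 6) (nat_lit 6) (nat_lit 10) L616475 (by decide +kernel)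
theorem L616477 : W_1 (nat_lit 10) (nat_lit 0x14000f0002000000000000000000000000000) (nat_lit 0x0) (nat_lit 0x7f003f800b00000001000080004000000000000000000) := Q_1 (nat_lit 108) (C_1 L616463 (C_1 L351051 (C_1 L616468 (C_1 L616476 N_1)))) (by decide +kernel)
theorem L616478 : W_1 (nat_lit 11) (nat_lit 0x10000f0002000000000000000000000000000) (nat_lit 0x0) (nat_lit 0x7f003f800f00000001c000f0007000000000000000000) := Q_1 (nat_lit 142) (C_1 L351030 (C_1 L616458 (C_1 L288035 (C_1 L616477 N_1)))) (by decide +kernel)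
theorem L616479 : W_1 (nat_lit 2) (nat_lit 0x12800fe002000000000000000000000000000) (nat_lit 0x0) (nat_lit 0x380000000000000000000000000) := D_1 (nat_lit 104) (nat_lit 103) (nat_lit 105) (nat_lit 0) (nat_lit 5) (nat_lit 7) (nat_lit 0) (nat_lit 6) (nat_lit 7) (by decide +kernel)
theorem L616480 : W_1 (nat_lit 3) (nat_lit 0x12800fc002000000000000000000000000000) (nat_lit 0x0) (nat_lit 0x400002000380000000000000000000000000) := T_1 (nat_lit 121) (nat_lit 142) (nat_lit 3) (nat_lit 2) (nat_lit 7) L616479 (by decide +kernel)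
theorem L616481 : W_1 (nat_lit 4) (nat_lit 0x12000fc002000000000000000000000000000) (nat_lit 0x0) (nat_lit 0x4c0002000380000000000000000000000000) := T_1 (nat_lit 139) (nat_lit 138) (nat_lit 1) (nat_lit 6) (nat_lit 7) L616480 (by decide +kernel)
theorem L616482 : W_1 (nat_lit 5) (nat_lit 0x12000f8002000000000000000000000000000) (nat_lit 0x0) (nat_lit 0x4c0006001380000000000000000000000000) := T_1 (nat_lit 122) (nat_lit 108) (nat_lit 2) (nat_lit 3) (nat_lit 7) L616481 (by decide +kernel)
theorem L616483 : W_1 (nat_lit 6) (nat_lit 0x12000f0002000000000000000000000000000) (nat_lit 0x0) (nat_lit 0xcc000e001380000000000000000000000000) := T_1 (nat_lit 123) (nat_lit 143) (nat_lit 3) (nat_lit 4) (nat_lit 7) L616482 (by decide +kernel)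
theorem L616484 : W_1 (nat_lit 7) (nat_lit 0x10000f0002000000000000000000000000000) (nat_lit 0x0) (nat_lit 0xfc000e001380000000000000000000000000) := T_1 (nat_lit 141) (nat_lit 140) (nat_lit 1) (nat_lit 8) (nat_lit 7) L616483 (by decide +kernel)
theorem L616486 : W_1 (nat_lit 5) (nat_lit 0x10000e0002000000000000000000000000000) (nat_lit 0x0) (nat_lit 0x280001c001700000000000000000000000000) := T_1 (nat_lit 124) (nat_lit 145) (nat_lit 3) (nat_lit 5) (nat_lit 7) L616447 (by decide +kernel)
theorem L616487 : W_1 (nat_lit 5) (nat_lit 0x4000000010000e0002000000000000000000000000000) (nat_lit 0x0) (nat_lit 0x2b00018000e00000000000000000000000000) := T_1 (nat_lit 124) (nat_lit 145) (nat_lit 3) (nat_lit 5) (nat_lit 7) L616450 (by decide +kernel)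
theorem L616488 : W_1 (nat_lit 6) (nat_lit 0x10000e0002000000000000000000000000000) (nat_lit 0x0) (nat_lit 0x400020002b00018000e00000000000000000000000000) := T_1 (nat_lit 178) (nat_lit 161) (nat_lit 4) (nat_lit 8) (nat_lit 10) L616487 (by decide +kernel)
theorem L616490 : W_1 (nat_lit 6) (nat_lit 0x4000000010000f0002000000000000000000000000000) (nat_lit 0x0) (nat_lit 0x8e000e001380000000000000000000000000) := T_1 (nat_lit 123) (nat_lit 143) (nat_lit 3) (nat_lit 4) (nat_lit 7) L353624 (by decide +kernel)
theorem L616491 : W_1 (nat_lit 7) (nat_lit 0x4000000010000e0002000000000000000000000000000) (nat_lit 0x0) (nat_lit 0x28e001e001380000000000000000000000000) := T_1 (nat_lit 124) (nat_lit 145) (nat_lit 3) (nat_lit 5) (nat_lit 7) L616490 (by decide +kernel)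
theorem L616492 : W_1 (nat_lit 8) (nat_lit 0x10000e0002000000000000000000000000000) (nat_lit 0x0) (nat_lit 0x4000200028e001e001380000000000000000000000000) := T_1 (nat_lit 178) (nat_lit 161) (nat_lit 4) (nat_lit 8) (nat_lit 10) L616491 (by decide +kernel)
theorem L616494 : W_1 (nat_lit 2) (nat_lit 0x10800fc000800000000000000000000000000) (nat_lit 0x0) (nat_lit 0x2003000000000000000000000000000) := D_1 (nat_lit 108) (nat_lit 121) (nat_lit 109) (nat_lit 2) (nat_lit 2) (nat_lit 7) (nat_lit 2) (nat_lit 3) (nat_lit 7) (by decide +kernel)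
theorem L616495 : W_1 (nat_lit 3) (nat_lit 0x10800f8000800000000000000000000000000) (nat_lit 0x0) (nat_lit 0x40006003000000000000000000000000000) := T_1 (nat_lit 122) (nat_lit 138) (nat_lit 1) (nat_lit 6) (nat_lit 7) L616494 (by decide +kernel)
theorem L616496 : W_1 (nat_lit 4) (nat_lit 0x10000f8000800000000000000000000000000) (nat_lit 0x0) (nat_lit 0x1c0006003000000000000000000000000000) := T_1 (nat_lit 139) (nat_lit 140) (nat_lit 1) (nat_lit 7) (nat_lit 7) L616495 (by decide +kernel)
theorem L616497 : W_1 (nat_lit 5) (nat_lit 0x10000f0000800000000000000000000000000) (nat_lit 0x0) (nat_lit 0x9c000e003000000000000000000000000000) := T_1 (nat_lit 123) (nat_lit 143) (nat_lit 3) (nat_lit 4) (nat_lit 7) L616496 (by decide +kernel)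
theorem L616498 : W_1 (nat_lit 6) (nat_lit 0x10000f0000000000000000000000000000000) (nat_lit 0x0) (nat_lit 0x9c000e003c00000000000000000000000000) := T_1 (nat_lit 107) (nat_lit 106) (nat_lit 0) (nat_lit 8) (nat_lit 7) L616497 (by decide +kernel)
theorem L616499 : W_1 (nat_lit 5) (nat_lit 0x10000f0000000000000000000000000000000) (nat_lit 0x0) (nat_lit 0x9c000c000700000000000000000000000000) := T_1 (nat_lit 123) (nat_lit 143) (nat_lit 3) (nat_lit 4) (nat_lit 7) L342126 (by decide +kernel)
theorem L616500 : W_1 (nat_lit 2) (nat_lit 0x12000f0002000100000000000000000000000) (nat_lit 0x0) (nat_lit 0x400020000800000000000000000000000000000000000) := D_1 (nat_lit 161) (nat_lit 178) (nat_lit 143) (nat_lit 4) (nat_lit 8) (nat_lit 10) (nat_lit 7) (nat_lit 7) (nat_lit 5) (by decide +kernel)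
theorem L616501 : W_1 (nat_lit 3) (nat_lit 0x12000f0002000000000000000000000000000) (nat_lit 0x0) (nat_lit 0x400020000800000000000100008000000000000000000) := T_1 (nat_lit 92) (nat_lit 75) (nat_lit 7) (nat_lit 7) (nat_lit 4) L616500 (by decide +kernel)
theorem L616502 : W_1 (nat_lit 4) (nat_lit 0x10000f0002000000000000000000000000000) (nat_lit 0x0) (nat_lit 0x400020000b00000000000100008000000000000000000) := T_1 (nat_lit 141) (nat_lit 140) (nat_lit 1) (nat_lit 8) (nat_lit 7) L616501 (by decide +kernel)
theorem L616503 : W_1 (nat_lit 2) (nat_lit 0x200010000f0002000000000000000000000000000) (nat_lit 0x0) (nat_lit 0x800000000000100008000000000000000000) := D_1 (nat_lit 92) (nat_lit 75) (nat_lit 143) (nat_lit 7) (nat_lit 7) (nat_lit 4) (nat_lit 7) (nat_lit 7) (nat_lit 5) (by decide +kernel)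
theorem L616504 : W_1 (nat_lit 3) (nat_lit 0x10000f0002000000000000000000000000000) (nat_lit 0x0) (nat_lit 0x400020000800000000000100008000000000000000000) := T_1 (nat_lit 161) (nat_lit 178) (nat_lit 4) (nat_lit 8) (nat_lit 10) L616503 (by decide +kernel)
theorem L616505 : W_1 (nat_lit 12) (nat_lit 0x10000f0000000000000000000000000000000) (nat_lit 0x0) (nat_lit 0x7f003f800f00000003c001f000f000000000000000000) := Q_1 (nat_lit 109) (C_1 L616502 (C_1 L615337 (C_1 L616504 (C_1 L616478 N_1)))) (by decide +kernel)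
theorem L616506 : W_1 (nat_lit 3) (nat_lit 0x10000f0000000000000000000000000000000) (nat_lit 0x0) (nat_lit 0x800008000e00000000000000000000000000) := T_1 (nat_lit 123) (nat_lit 143) (nat_lit 3) (nat_lit 4) (nat_lit 7) L342123 (by decide +kernel)
theorem L616507 : W_1 (nat_lit 2) (nat_lit 0x11000f0000000000000000000000000000000) (nat_lit 0x0) (nat_lit 0x880008000000000000000000000000000000) := D_1 (nat_lit 123) (nat_lit 143) (nat_lit 139) (nat_lit 3) (nat_lit 4) (nat_lit 7) (nat_lit 1) (nat_lit 7) (nat_lit 7) (by decide +kernel)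
theorem L616508 : W_1 (nat_lit 3) (nat_lit 0x10000f0000000000000000000000000000000) (nat_lit 0x0) (nat_lit 0xb80008000000000000000000000000000000) := T_1 (nat_lit 140) (nat_lit 141) (nat_lit 1) (nat_lit 8) (nat_lit 7) L616507 (by decide +kernel)
theorem L616509 : W_1 (nat_lit 13) (nat_lit 0x10000e0000000000000000000000000000000) (nat_lit 0x0) (nat_lit 0x7f003f800fc001e003f001f000f000000000000000000) := Q_1 (nat_lit 124) (C_1 L342143 (C_1 L616498 (C_1 L616499 (C_1 L616505 (C_1 L616506 (C_1 L616508 N_1)))))) (by decide +kernel)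
theorem L616510 : W_1 (nat_lit 4) (nat_lit 0x10000e0000000000000000000000000000000) (nat_lit 0x0) (nat_lit 0x2800018000e00000000000000000000000000) := T_1 (nat_lit 124) (nat_lit 145) (nat_lit 3) (nat_lit 5) (nat_lit 7) L616506 (by decide +kernel)
theorem L616513 : W_1 (nat_lit 2) (nat_lit 0x100018000e0000000000000000000000000000000) (nat_lit 0x0) (nat_lit 0x4000200000000000000001000000000000000000000000000) := D_1 (nat_lit 177) (nat_lit 108) (nat_lit 194) (nat_lit 4) (nat_lit 7) (nat_lit 10) (nat_lit 6) (nat_lit 7) (nat_lit 11) (by decide +kernel)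
theorem L616514 : W_1 (nat_lit 2) (nat_lit 0x180058000e0002000080000000000000000000000) (nat_lit 0x0) (nat_lit 0x10000c000000000000000000) := D_1 (nat_lit 92) (nat_lit 74) (nat_lit 75) (nat_lit 4) (nat_lit 7) (nat_lit 8) (nat_lit 7) (nat_lit 7) (nat_lit 4) (by decide +kernel)
theorem L616515 : W_1 (nat_lit 3) (nat_lit 0x180058000e0002000000000000000000000000000) (nat_lit 0x0) (nat_lit 0x100018000c000000000000000000) := T_1 (nat_lit 91) (nat_lit 108) (nat_lit 4) (nat_lit 7) (nat_lit 9) L616514 (by decide +kernel)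
theorem L616516 : W_1 (nat_lit 4) (nat_lit 0x180058000e0000000000000000000000000000000) (nat_lit 0x0) (nat_lit 0x10000000000000000300018000c000000000000000000) := T_1 (nat_lit 109) (nat_lit 176) (nat_lit 5) (nat_lit 7) (nat_lit 6) L616515 (by decide +kernel)
theorem L616517 : W_1 (nat_lit 5) (nat_lit 0x180018000e0000000000000000000000000000000) (nat_lit 0x0) (nat_lit 0x10000000600000000300018000c000000000000000000) := T_1 (nat_lit 146) (nat_lit 145) (nat_lit 1) (nat_lit 10) (nat_lit 8) L616516 (by decide +kernel)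
theorem L616518 : W_1 (nat_lit 4) (nat_lit 0x180018000e0000000000000000000000000000000) (nat_lit 0x0) (nat_lit 0x10000000000000000300018000c000000000000000000) := T_1 (nat_lit 109) (nat_lit 176) (nat_lit 5) (nat_lit 7) (nat_lit 6) L615598 (by decide +kernel)
theorem L616519 : W_1 (nat_lit 2) (nat_lit 0x180018000e0002000000000000000000000000000) (nat_lit 0x0) (nat_lit 0x400000000000100008000000000000000000) := D_1 (nat_lit 92) (nat_lit 142) (nat_lit 75) (nat_lit 5) (nat_lit 7) (nat_lit 5) (nat_lit 7) (nat_lit 7) (nat_lit 4) (by decide +kernel)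
theorem L616520 : W_1 (nat_lit 3) (nat_lit 0x180018000e0000000000000000000000000000000) (nat_lit 0x0) (nat_lit 0x100000000400000002000100008000000000000000000) := T_1 (nat_lit 109) (nat_lit 176) (nat_lit 5) (nat_lit 7) (nat_lit 6) L616519 (by decide +kernel)
theorem L616521 : W_1 (nat_lit 3) (nat_lit 0x180018000e0003400000000000000000000000000) (nat_lit 0x0) (nat_lit 0x6006400000000000000000000000000000000000) := T_1 (nat_lit 145) (nat_lit 146) (nat_lit 1) (nat_lit 10) (nat_lit 8) L615503 (by decide +kernel)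
theorem L616522 : W_1 (nat_lit 4) (nat_lit 0x180018000e0003000000000000000000000000000) (nat_lit 0x0) (nat_lit 0x6006400000000c00000000000000000000000000) := T_1 (nat_lit 106) (nat_lit 107) (nat_lit 3) (nat_lit 4) (nat_lit 6) L616521 (by decide +kernel)
theorem L616523 : W_1 (nat_lit 5) (nat_lit 0x180018000e0002000000000000000000000000000) (nat_lit 0x0) (nat_lit 0x6006400000001c00080000000000000000000000) := T_1 (nat_lit 108) (nat_lit 91) (nat_lit 4) (nat_lit 7) (nat_lit 9) L616522 (by decide +kernel)
theorem L616524 : W_1 (nat_lit 6) (nat_lit 0x180018000e0000000000000000000000000000000) (nat_lit 0x0) (nat_lit 0x100006006400000003c00080000000000000000000000) := T_1 (nat_lit 109) (nat_lit 176) (nat_lit 5) (nat_lit 7) (nat_lit 6) L616523 (by decide +kernel)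
theorem L616525 : W_1 (nat_lit 2) (nat_lit 0x1c0018000e0000000000000000000000000000000) (nat_lit 0x0) (nat_lit 0x6400000000000000000000000000000000000) := D_1 (nat_lit 145) (nat_lit 146) (nat_lit 142) (nat_lit 1) (nat_lit 10) (nat_lit 8) (nat_lit 1) (nat_lit 9) (nat_lit 8) (by decide +kernel)
theorem L616526 : W_1 (nat_lit 3) (nat_lit 0x180018000e0000000000000000000000000000000) (nat_lit 0x0) (nat_lit 0x6006400000000000000000000000000000000000) := T_1 (nat_lit 158) (nat_lit 157) (nat_lit 2) (nat_lit 4) (nat_lit 9) L616525 (by decide +kernel)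
theorem L616527 : W_1 (nat_lit 7) (nat_lit 0x100018000e0000000000000000000000000000000) (nat_lit 0x0) (nat_lit 0x10000e006400000003c0018000c000000000000000000) := Q_1 (nat_lit 159) (C_1 L616517 (C_1 L616518 (C_1 L616520 (C_1 L616524 (C_1 L616526 N_1))))) (by decide +kernel)
theorem L616528 : W_1 (nat_lit 2) (nat_lit 0x7000180058000e0000000000000000000000000000000) (nat_lit 0x0) (nat_lit 0x800006000000000000000000000000000000000000000) := D_1 (nat_lit 158) (nat_lit 157) (nat_lit 179) (nat_lit 3) (nat_lit 4) (nat_lit 9) (nat_lit 0) (nat_lit 9) (nat_lit 10) (by decide +kernel)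
theorem L616529 : W_1 (nat_lit 3) (nat_lit 0x3000180058000e0000000000000000000000000000000) (nat_lit 0x0) (nat_lit 0x8000c00006000000000000000000000000000000000000000) := T_1 (nat_lit 178) (nat_lit 195) (nat_lit 7) (nat_lit 7) (nat_lit 7) L616528 (by decide +kernel)
theorem L616530 : W_1 (nat_lit 4) (nat_lit 0x3000100058000e0000000000000000000000000000000) (nat_lit 0x0) (nat_lit 0x8000c0000e000000000002000000000000000000000000000) := T_1 (nat_lit 159) (nat_lit 109) (nat_lit 5) (nat_lit 7) (nat_lit 6) L616529 (by decide +kernel)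
theorem L616531 : W_1 (nat_lit 5) (nat_lit 0x2000100058000e0000000000000000000000000000000) (nat_lit 0x0) (nat_lit 0xa000d0000e000000000002000000000000000000000000000) := T_1 (nat_lit 176) (nat_lit 193) (nat_lit 5) (nat_lit 7) (nat_lit 7) L616530 (by decide +kernel)
theorem L616532 : W_1 (nat_lit 6) (nat_lit 0x100058000e0000000000000000000000000000000) (nat_lit 0x0) (nat_lit 0xe000f0000e000000000002000000000000000000000000000) := T_1 (nat_lit 177) (nat_lit 194) (nat_lit 6) (nat_lit 7) (nat_lit 11) L616531 (by decide +kernel)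
theorem L616533 : W_1 (nat_lit 7) (nat_lit 0x100018000e0000000000000000000000000000000) (nat_lit 0x0) (nat_lit 0xe000f0000e006000000002000000000000000000000000000) := T_1 (nat_lit 146) (nat_lit 145) (nat_lit 0) (nat_lit 10) (nat_lit 8) L616532 (by decide +kernel)
theorem L616534 : W_1 (nat_lit 8) (nat_lit 0x18000e0000000000000000000000000000000) (nat_lit 0x0) (nat_lit 0xe000f0001e006400000003c0018000c000000000000000000) := Q_1 (nat_lit 160) (C_1 L616513 (C_1 L616527 (C_1 L616533 N_1))) (by decide +kernel)
theorem L616652 : W_1 (nat_lit 2) (nat_lit 0x28001c000e0000000000000000000000000000000) (nat_lit 0x0) (nat_lit 0x4006000000000000000000000000000000000000) := D_1 (nat_lit 145) (nat_lit 158) (nat_lit 146) (nat_lit 1) (nat_lit 9) (nat_lit 8) (nat_lit 0) (nat_lit 10) (nat_lit 8) (by decide +kernel)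
theorem L616653 : W_1 (nat_lit 2) (nat_lit 0x180028001c000e0001000040000000000000000000000) (nat_lit 0x0) (nat_lit 0x80006000000000000000000) := D_1 (nat_lit 91) (nat_lit 74) (nat_lit 73) (nat_lit 7) (nat_lit 6) (nat_lit 4) (nat_lit 4) (nat_lit 6) (nat_lit 8) (by decide +kernel)
theorem L616654 : W_1 (nat_lit 3) (nat_lit 0x180028001c000e0001000000000000000000000000000) (nat_lit 0x0) (nat_lit 0x8000c0006000000000000000000) := T_1 (nat_lit 90) (nat_lit 107) (nat_lit 4) (nat_lit 6) (nat_lit 9) L616653 (by decide +kernel)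
theorem L616655 : W_1 (nat_lit 4) (nat_lit 0x180028001c000e0000000000000000000000000000000) (nat_lit 0x0) (nat_lit 0x40000000000018000c0006000000000000000000) := T_1 (nat_lit 108) (nat_lit 158) (nat_lit 5) (nat_lit 6) (nat_lit 6) L616654 (by decide +kernel)
theorem L616656 : W_1 (nat_lit 5) (nat_lit 0x100028001c000e0000000000000000000000000000000) (nat_lit 0x0) (nat_lit 0x10000800040000000000018000c0006000000000000000000) := T_1 (nat_lit 175) (nat_lit 192) (nat_lit 5) (nat_lit 6) (nat_lit 7) L616655 (by decide +kernel)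
theorem L616697 : W_1 (nat_lit 2) (nat_lit 0x4001e000e0001000000000000000000000000000) (nat_lit 0x0) (nat_lit 0x1000080008000000000000000000000000000000000000000) := D_1 (nat_lit 175) (nat_lit 192) (nat_lit 159) (nat_lit 6) (nat_lit 5) (nat_lit 11) (nat_lit 5) (nat_lit 6) (nat_lit 6) (by decide +kernel)
theorem L616698 : W_1 (nat_lit 3) (nat_lit 0x4001e000e0000000000000000000000000000000) (nat_lit 0x0) (nat_lit 0x1000080008000000000001000080000000000000000000000) := T_1 (nat_lit 108) (nat_lit 91) (nat_lit 5) (nat_lit 6) (nat_lit 5) L616697 (by decide +kernel)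
theorem L616699 : W_1 (nat_lit 4) (nat_lit 0x1e000e0000000000000000000000000000000) (nat_lit 0x0) (nat_lit 0x100008000e000000000001000080000000000000000000000) := T_1 (nat_lit 158) (nat_lit 157) (nat_lit 1) (nat_lit 8) (nat_lit 8) L616698 (by decide +kernel)
theorem L616700 : W_1 (nat_lit 5) (nat_lit 0x1c000e0000000000000000000000000000000) (nat_lit 0x0) (nat_lit 0x100008000e000300000001000080000000000000000000000) := T_1 (nat_lit 141) (nat_lit 140) (nat_lit 2) (nat_lit 4) (nat_lit 8) L616699 (by decide +kernel)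
theorem L616701 : W_1 (nat_lit 2) (nat_lit 0x8003c000e0000000000000000000000000000000) (nat_lit 0x0) (nat_lit 0x100000000000000002000100000000000000000000000) := D_1 (nat_lit 109) (nat_lit 92) (nat_lit 176) (nat_lit 5) (nat_lit 7) (nat_lit 5) (nat_lit 6) (nat_lit 6) (nat_lit 10) (by decide +kernel)
theorem L616702 : W_1 (nat_lit 3) (nat_lit 0x3c000e0000000000000000000000000000000) (nat_lit 0x0) (nat_lit 0x10000c000000000002000100000000000000000000000) := T_1 (nat_lit 159) (nat_lit 158) (nat_lit 1) (nat_lit 9) (nat_lit 8) L616701 (by decide +kernel)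
theorem L616703 : W_1 (nat_lit 4) (nat_lit 0x1c000e0000000000000000000000000000000) (nat_lit 0x0) (nat_lit 0x10000c006000000002000100000000000000000000000) := T_1 (nat_lit 145) (nat_lit 146) (nat_lit 0) (nat_lit 10) (nat_lit 8) L616702 (by decide +kernel)
theorem L618604 : W_1 (nat_lit 4) (nat_lit 0x2c0014000e0000000000000000000000000000000) (nat_lit 0x0) (nat_lit 0x800000002000000018000c0002000000000000000000) := T_1 (nat_lit 108) (nat_lit 175) (nat_lit 5) (nat_lit 6) (nat_lit 6) L367892 (by decide +kernel)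
theorem L618605 : W_1 (nat_lit 2) (nat_lit 0x3c0016000e0000000000000000000000000000000) (nat_lit 0x0) (nat_lit 0x200000000000000001000080000000000000000000000) := D_1 (nat_lit 108) (nat_lit 177) (nat_lit 91) (nat_lit 7) (nat_lit 6) (nat_lit 6) (nat_lit 5) (nat_lit 6) (nat_lit 5) (by decide +kernel)
theorem L618606 : W_1 (nat_lit 3) (nat_lit 0x3c0014000e0000000000000000000000000000000) (nat_lit 0x0) (nat_lit 0x200000000300000001000080000000000000000000000) := T_1 (nat_lit 141) (nat_lit 140) (nat_lit 0) (nat_lit 8) (nat_lit 9) L618605 (by decide +kernel)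
theorem L618607 : W_1 (nat_lit 4) (nat_lit 0x2c0014000e0000000000000000000000000000000) (nat_lit 0x0) (nat_lit 0x200010002300000001000080000000000000000000000) := T_1 (nat_lit 160) (nat_lit 145) (nat_lit 2) (nat_lit 5) (nat_lit 9) L618606 (by decide +kernel)
theorem L618609 : W_1 (nat_lit 4) (nat_lit 0x18002c0014000e0000000000000000000000000000000) (nat_lit 0x0) (nat_lit 0x8000c0006000200000000200000000000000000000000000000000000) := T_1 (nat_lit 194) (nat_lit 177) (nat_lit 7) (nat_lit 6) (nat_lit 7) L323087 (by decide +kernel)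
theorem L618610 : W_1 (nat_lit 5) (nat_lit 0x1800280014000e0000000000000000000000000000000) (nat_lit 0x0) (nat_lit 0x8000c0006000200004000200000001000000000000000000000000000) := T_1 (nat_lit 158) (nat_lit 108) (nat_lit 5) (nat_lit 6) (nat_lit 6) L618609 (by decide +kernel)
theorem L618611 : W_1 (nat_lit 6) (nat_lit 0x1000280014000e0000000000000000000000000000000) (nat_lit 0x0) (nat_lit 0x8000c0007000280004000200000001000000000000000000000000000) := T_1 (nat_lit 175) (nat_lit 192) (nat_lit 5) (nat_lit 6) (nat_lit 7) L618610 (by decide +kernel)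
theorem L618612 : W_1 (nat_lit 7) (nat_lit 0x280014000e0000000000000000000000000000000) (nat_lit 0x0) (nat_lit 0x8000c0007000380004000200000003000000000000000000000000000) := T_1 (nat_lit 176) (nat_lit 109) (nat_lit 6) (nat_lit 6) (nat_lit 10) L618611 (by decide +kernel)
theorem L618613 : W_1 (nat_lit 2) (nat_lit 0x18002c0014000e0000000000000000000000000000000) (nat_lit 0x0) (nat_lit 0x40010002000000000000000000000000000000000000) := D_1 (nat_lit 160) (nat_lit 145) (nat_lit 174) (nat_lit 2) (nat_lit 5) (nat_lit 9) (nat_lit 1) (nat_lit 8) (nat_lit 9) (by decide +kernel)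
theorem L618614 : W_1 (nat_lit 3) (nat_lit 0x1800280014000e0000000000000000000000000000000) (nat_lit 0x0) (nat_lit 0x40014002000000001000000000000000000000000000) := T_1 (nat_lit 158) (nat_lit 108) (nat_lit 5) (nat_lit 6) (nat_lit 6) L618613 (by decide +kernel)
theorem L618615 : W_1 (nat_lit 4) (nat_lit 0x1000280014000e0000000000000000000000000000000) (nat_lit 0x0) (nat_lit 0x10000c0014002000000001000000000000000000000000000) := T_1 (nat_lit 175) (nat_lit 192) (nat_lit 5) (nat_lit 6) (nat_lit 7) L618614 (by decide +kernel)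
theorem L618616 : W_1 (nat_lit 5) (nat_lit 0x280014000e0000000000000000000000000000000) (nat_lit 0x0) (nat_lit 0x10001c0014002000000003000000000000000000000000000) := T_1 (nat_lit 176) (nat_lit 109) (nat_lit 6) (nat_lit 6) (nat_lit 10) L618615 (by decide +kernel)
theorem L618617 : W_1 (nat_lit 2) (nat_lit 0x4003c00290014000e0000000000000000000000000000000) (nat_lit 0x0) (nat_lit 0x200020000800000000000000000000000000000000000000) := D_1 (nat_lit 173) (nat_lit 189) (nat_lit 155) (nat_lit 1) (nat_lit 6) (nat_lit 10) (nat_lit 0) (nat_lit 6) (nat_lit 10) (by decide +kernel)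
theorem L618618 : W_1 (nat_lit 3) (nat_lit 0x4003c00280014000e0000000000000000000000000000000) (nat_lit 0x0) (nat_lit 0x200020003800000000000000000000000000000000000000) := T_1 (nat_lit 156) (nat_lit 157) (nat_lit 0) (nat_lit 7) (nat_lit 10) L618617 (by decide +kernel)
theorem L618619 : W_1 (nat_lit 4) (nat_lit 0x3c00280014000e0000000000000000000000000000000) (nat_lit 0x0) (nat_lit 0xe00020003800000000000000000000000000000000000000) := T_1 (nat_lit 190) (nat_lit 191) (nat_lit 1) (nat_lit 7) (nat_lit 10) L618618 (by decide +kernel)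
theorem L618620 : W_1 (nat_lit 5) (nat_lit 0x3800280014000e0000000000000000000000000000000) (nat_lit 0x0) (nat_lit 0xe00060013800000000000000000000000000000000000000) := T_1 (nat_lit 174) (nat_lit 160) (nat_lit 2) (nat_lit 4) (nat_lit 10) L618619 (by decide +kernel)
theorem L618621 : W_1 (nat_lit 6) (nat_lit 0x1800280014000e0000000000000000000000000000000) (nat_lit 0x0) (nat_lit 0x4e00260013800000000000000000000000000000000000000) := T_1 (nat_lit 177) (nat_lit 194) (nat_lit 7) (nat_lit 6) (nat_lit 7) L618620 (by decide +kernel)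
theorem L618622 : W_1 (nat_lit 7) (nat_lit 0x1000280014000e0000000000000000000000000000000) (nat_lit 0x0) (nat_lit 0x5e002e0013800000000000000000000000000000000000000) := T_1 (nat_lit 175) (nat_lit 192) (nat_lit 5) (nat_lit 6) (nat_lit 7) L618621 (by decide +kernel)
theorem L618623 : W_1 (nat_lit 8) (nat_lit 0x280014000e0000000000000000000000000000000) (nat_lit 0x0) (nat_lit 0x5e003e0013800000000002000000000000000000000000000) := T_1 (nat_lit 176) (nat_lit 109) (nat_lit 6) (nat_lit 6) (nat_lit 10) L618622 (by decide +kernel)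
theorem L618624 : W_1 (nat_lit 2) (nat_lit 0x8003c0014000e0000000000000000000000000000000) (nat_lit 0x0) (nat_lit 0x1000000000000300000000000000000000000000000000000) := D_1 (nat_lit 141) (nat_lit 140) (nat_lit 192) (nat_lit 0) (nat_lit 8) (nat_lit 9) (nat_lit 6) (nat_lit 5) (nat_lit 11) (by decide +kernel)
theorem L618625 : W_1 (nat_lit 3) (nat_lit 0x3c0014000e0000000000000000000000000000000) (nat_lit 0x0) (nat_lit 0x10000c0000000300000000000000000000000000000000000) := T_1 (nat_lit 175) (nat_lit 174) (nat_lit 1) (nat_lit 8) (nat_lit 9) L618624 (by decide +kernel)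
theorem L618626 : W_1 (nat_lit 4) (nat_lit 0x2c0014000e0000000000000000000000000000000) (nat_lit 0x0) (nat_lit 0x10000c0010002300000000000000000000000000000000000) := T_1 (nat_lit 160) (nat_lit 145) (nat_lit 2) (nat_lit 5) (nat_lit 9) L618625 (by decide +kernel)
theorem L618627 : W_1 (nat_lit 3) (nat_lit 0x2c0014000e0000000000000000000000000000000) (nat_lit 0x0) (nat_lit 0x280010002000000001000000000000000000000000000) := T_1 (nat_lit 108) (nat_lit 175) (nat_lit 5) (nat_lit 6) (nat_lit 6) L367907 (by decide +kernel)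
theorem L618628 : W_1 (nat_lit 5) (nat_lit 0x280014000e0000000000000000000000000000000) (nat_lit 0x0) (nat_lit 0x10002c00140023000000018000c0002000000000000000000) := Q_1 (nat_lit 158) (C_1 L618626 (C_1 L618604 (C_1 L618627 (C_1 L618607 N_1)))) (by decide +kernel)
theorem L618629 : W_1 (nat_lit 2) (nat_lit 0x300034003e0016000e0000000000000000000000000000000) (nat_lit 0x0) (nat_lit 0x10000c00000000000000000000000000000000000000000000000) := D_1 (nat_lit 191) (nat_lit 190) (nat_lit 208) (nat_lit 2) (nat_lit 3) (nat_lit 11) (nat_lit 6) (nat_lit 4) (nat_lit 12) (by decide +kernel)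
theorem L618630 : W_1 (nat_lit 3) (nat_lit 0x200034003e0016000e0000000000000000000000000000000) (nat_lit 0x0) (nat_lit 0x30001c00000000000000000000000000000000000000000000000) := T_1 (nat_lit 192) (nat_lit 209) (nat_lit 5) (nat_lit 6) (nat_lit 8) L618629 (by decide +kernel)
theorem L618631 : W_1 (nat_lit 4) (nat_lit 0x200030003e0016000e0000000000000000000000000000000) (nat_lit 0x0) (nat_lit 0x30001c00060000000000000000000000000000000000000000000) := T_1 (nat_lit 174) (nat_lit 173) (nat_lit 1) (nat_lit 7) (nat_lit 9) L618630 (by decide +kernel)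
theorem L618632 : W_1 (nat_lit 5) (nat_lit 0x30003e0016000e0000000000000000000000000000000) (nat_lit 0x0) (nat_lit 0x70003c00060000000000000000000000000000000000000000000) := T_1 (nat_lit 193) (nat_lit 210) (nat_lit 4) (nat_lit 6) (nat_lit 12) L618631 (by decide +kernel)
theorem L618633 : W_1 (nat_lit 6) (nat_lit 0x30003c0016000e0000000000000000000000000000000) (nat_lit 0x0) (nat_lit 0x70003c00060003000000000000000000000000000000000000000) := T_1 (nat_lit 157) (nat_lit 156) (nat_lit 3) (nat_lit 3) (nat_lit 9) L618632 (by decide +kernel)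
theorem L618634 : W_1 (nat_lit 7) (nat_lit 0x30003c0014000e0000000000000000000000000000000) (nat_lit 0x0) (nat_lit 0x70003c00060003000300000000000000000000000000000000000) := T_1 (nat_lit 141) (nat_lit 140) (nat_lit 0) (nat_lit 8) (nat_lit 9) L618633 (by decide +kernel)
theorem L618635 : W_1 (nat_lit 8) (nat_lit 0x3000380014000e0000000000000000000000000000000) (nat_lit 0x0) (nat_lit 0x70003c00060007002300000000000000000000000000000000000) := T_1 (nat_lit 158) (nat_lit 145) (nat_lit 2) (nat_lit 5) (nat_lit 9) L618634 (by decide +kernel)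
theorem L618636 : W_1 (nat_lit 9) (nat_lit 0x3000280014000e0000000000000000000000000000000) (nat_lit 0x0) (nat_lit 0x70003c00060017002300000001000000000000000000000000000) := T_1 (nat_lit 160) (nat_lit 108) (nat_lit 7) (nat_lit 6) (nat_lit 6) L618635 (by decide +kernel)
theorem L618637 : W_1 (nat_lit 10) (nat_lit 0x1000280014000e0000000000000000000000000000000) (nat_lit 0x0) (nat_lit 0x70007c00260017002300000001000000000000000000000000000) := T_1 (nat_lit 177) (nat_lit 194) (nat_lit 7) (nat_lit 6) (nat_lit 7) L618636 (by decide +kernel)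
theorem L618638 : W_1 (nat_lit 11) (nat_lit 0x280014000e0000000000000000000000000000000) (nat_lit 0x0) (nat_lit 0x70007c00360017002300000003000000000000000000000000000) := T_1 (nat_lit 176) (nat_lit 109) (nat_lit 6) (nat_lit 6) (nat_lit 10) L618637 (by decide +kernel)
theorem L618639 : W_1 (nat_lit 2) (nat_lit 0x30002c0014000e0001000080000000000000000000000) (nat_lit 0x0) (nat_lit 0x800040002000000000000000000) := D_1 (nat_lit 90) (nat_lit 73) (nat_lit 107) (nat_lit 4) (nat_lit 6) (nat_lit 8) (nat_lit 4) (nat_lit 6) (nat_lit 9) (by decide +kernel)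
theorem L618640 : W_1 (nat_lit 3) (nat_lit 0x30002c0014000e0001000000000000000000000000000) (nat_lit 0x0) (nat_lit 0x2000000008000c0002000000000000000000) := T_1 (nat_lit 91) (nat_lit 141) (nat_lit 5) (nat_lit 6) (nat_lit 5) L618639 (by decide +kernel)
theorem L618641 : W_1 (nat_lit 4) (nat_lit 0x3000280014000e0001000000000000000000000000000) (nat_lit 0x0) (nat_lit 0x800040002000000008000c0002000000000000000000) := T_1 (nat_lit 158) (nat_lit 175) (nat_lit 5) (nat_lit 6) (nat_lit 6) L618640 (by decide +kernel)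
theorem L618642 : W_1 (nat_lit 5) (nat_lit 0x3000280014000e0000000000000000000000000000000) (nat_lit 0x0) (nat_lit 0x800140002000000018000c0002000000000000000000) := T_1 (nat_lit 108) (nat_lit 160) (nat_lit 7) (nat_lit 6) (nat_lit 6) L618641 (by decide +kernel)
theorem L618643 : W_1 (nat_lit 6) (nat_lit 0x1000280014000e0000000000000000000000000000000) (nat_lit 0x0) (nat_lit 0x40002800140002000000018000c0002000000000000000000) := T_1 (nat_lit 177) (nat_lit 194) (nat_lit 7) (nat_lit 6) (nat_lit 7) L618642 (by decide +kernel)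
theorem L618644 : W_1 (nat_lit 7) (nat_lit 0x280014000e0000000000000000000000000000000) (nat_lit 0x0) (nat_lit 0x40003800140002000000038000c0002000000000000000000) := T_1 (nat_lit 176) (nat_lit 109) (nat_lit 6) (nat_lit 6) (nat_lit 10) L618643 (by decide +kernel)
theorem L618652 : W_1 (nat_lit 2) (nat_lit 0x20001000280014000e0000000000000000000000000000000) (nat_lit 0x0) (nat_lit 0x80004000200000000000000000000000000000000000000000000) := D_1 (nat_lit 194) (nat_lit 177) (nat_lit 211) (nat_lit 7) (nat_lit 6) (nat_lit 7) (nat_lit 7) (nat_lit 6) (nat_lit 8) (by decide +kernel)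
theorem L618653 : W_1 (nat_lit 3) (nat_lit 0x1000280014000e0000000000000000000000000000000) (nat_lit 0x0) (nat_lit 0x80006000200000000800000000000000000000000000000000000) := T_1 (nat_lit 193) (nat_lit 143) (nat_lit 6) (nat_lit 6) (nat_lit 11) L618652 (by decide +kernel)
theorem L618656 : W_1 (nat_lit 2) (nat_lit 0x380014000e0001a00080000000000000000000000) (nat_lit 0x0) (nat_lit 0x80004000200000000000000000000000000000000000) := D_1 (nat_lit 158) (nat_lit 175) (nat_lit 141) (nat_lit 5) (nat_lit 6) (nat_lit 6) (nat_lit 5) (nat_lit 6) (nat_lit 5) (by decide +kernel)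
theorem L618657 : W_1 (nat_lit 3) (nat_lit 0x380014000e0001a00000000000000000000000000) (nat_lit 0x0) (nat_lit 0x80004000a00000000000080000000000000000000000) := T_1 (nat_lit 91) (nat_lit 143) (nat_lit 7) (nat_lit 6) (nat_lit 5) L618656 (by decide +kernel)
theorem L618658 : W_1 (nat_lit 4) (nat_lit 0x280014000e0001a00000000000000000000000000) (nat_lit 0x0) (nat_lit 0x280014000a00000000000080000000000000000000000) := T_1 (nat_lit 160) (nat_lit 177) (nat_lit 7) (nat_lit 6) (nat_lit 6) L618657 (by decide +kernel)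
theorem L618659 : W_1 (nat_lit 5) (nat_lit 0x280014000e0001800000000000000000000000000) (nat_lit 0x0) (nat_lit 0x280014000a00000000600080000000000000000000000) := T_1 (nat_lit 105) (nat_lit 106) (nat_lit 3) (nat_lit 3) (nat_lit 6) L618658 (by decide +kernel)
theorem L618660 : W_1 (nat_lit 6) (nat_lit 0x280014000e0001000000000000000000000000000) (nat_lit 0x0) (nat_lit 0x280014000a00000000e000c0000000000000000000000) := T_1 (nat_lit 107) (nat_lit 90) (nat_lit 4) (nat_lit 6) (nat_lit 9) L618659 (by decide +kernel)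
theorem L618661 : W_1 (nat_lit 4) (nat_lit 0x280014000e0001000000000000000000000000000) (nat_lit 0x0) (nat_lit 0x800040002000000008000c0002000000000000000000) := T_1 (nat_lit 158) (nat_lit 175) (nat_lit 5) (nat_lit 6) (nat_lit 6) L367892 (by decide +kernel)
theorem L618662 : W_1 (nat_lit 2) (nat_lit 0x280014000e0001800000000000000000000000000) (nat_lit 0x0) (nat_lit 0x2600000000000000000000000000) := D_1 (nat_lit 106) (nat_lit 109) (nat_lit 105) (nat_lit 3) (nat_lit 4) (nat_lit 6) (nat_lit 3) (nat_lit 3) (nat_lit 6) (by decide +kernel)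
theorem L618663 : W_1 (nat_lit 3) (nat_lit 0x280014000e0001000000000000000000000000000) (nat_lit 0x0) (nat_lit 0x2e00040000000000000000000000) := T_1 (nat_lit 107) (nat_lit 90) (nat_lit 4) (nat_lit 6) (nat_lit 9) L618662 (by decide +kernel)
theorem L618664 : W_1 (nat_lit 4) (nat_lit 0x280014000e0001000000000000000000000000000) (nat_lit 0x0) (nat_lit 0x280014000300000000000080000000000000000000000) := T_1 (nat_lit 160) (nat_lit 177) (nat_lit 7) (nat_lit 6) (nat_lit 6) L327160 (by decide +kernel)
theorem L618665 : W_1 (nat_lit 7) (nat_lit 0x280014000e0000000000000000000000000000000) (nat_lit 0x0) (nat_lit 0x280014000b00000003e000c0002000000000000000000) := Q_1 (nat_lit 108) (C_1 L618660 (C_1 L618661 (C_1 L618663 (C_1 L618664 N_1)))) (by decide +kernel)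
theorem L618666 : W_1 (nat_lit 4) (nat_lit 0x280014000e0000000000000000000000000000000) (nat_lit 0x0) (nat_lit 0x80006000300000000800000002000000000000000000000000000) := T_1 (nat_lit 176) (nat_lit 109) (nat_lit 6) (nat_lit 6) (nat_lit 10) L618653 (by decide +kernel)
theorem L618668 : W_1 (nat_lit 3) (nat_lit 0x1800280014000e0001000040000000000000000000000) (nat_lit 0x0) (nat_lit 0x2000000000000800000000000080006000000000000000000) := T_1 (nat_lit 143) (nat_lit 193) (nat_lit 6) (nat_lit 6) (nat_lit 11) L616653 (by decide +kernel)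
theorem L618669 : W_1 (nat_lit 4) (nat_lit 0x1800280014000e0001000000000000000000000000000) (nat_lit 0x0) (nat_lit 0x20000000000008000000008000c0006000000000000000000) := T_1 (nat_lit 90) (nat_lit 107) (nat_lit 4) (nat_lit 6) (nat_lit 9) L618668 (by decide +kernel)
theorem L618670 : W_1 (nat_lit 5) (nat_lit 0x1800280014000e0000000000000000000000000000000) (nat_lit 0x0) (nat_lit 0x20000000040008000000018000c0006000000000000000000) := T_1 (nat_lit 108) (nat_lit 158) (nat_lit 5) (nat_lit 6) (nat_lit 6) L618669 (by decide +kernel)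
theorem L618671 : W_1 (nat_lit 6) (nat_lit 0x1000280014000e0000000000000000000000000000000) (nat_lit 0x0) (nat_lit 0x30000800040008000000018000c0006000000000000000000) := T_1 (nat_lit 175) (nat_lit 192) (nat_lit 5) (nat_lit 6) (nat_lit 7) L618670 (by decide +kernel)
theorem L618672 : W_1 (nat_lit 2) (nat_lit 0x3800280014000e00010000c0008000000000000000000) (nat_lit 0x0) (nat_lit 0x800000000000000004000400000000000000) := D_1 (nat_lit 74) (nat_lit 143) (nat_lit 58) (nat_lit 7) (nat_lit 6) (nat_lit 4) (nat_lit 6) (nat_lit 6) (nat_lit 7) (by decide +kernel)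
theorem L618673 : W_1 (nat_lit 3) (nat_lit 0x3800280014000e00010000c0000000000000000000000) (nat_lit 0x0) (nat_lit 0x80000000000010000c000400000000000000) := T_1 (nat_lit 75) (nat_lit 92) (nat_lit 6) (nat_lit 6) (nat_lit 8) L618672 (by decide +kernel)
theorem L618674 : W_1 (nat_lit 4) (nat_lit 0x3800280014000e0001000040000000000000000000000) (nat_lit 0x0) (nat_lit 0x80000000000018000e000400000000000000) := T_1 (nat_lit 91) (nat_lit 73) (nat_lit 4) (nat_lit 6) (nat_lit 8) L618673 (by decide +kernel)
theorem L618675 : W_1 (nat_lit 5) (nat_lit 0x3800280014000e0001000000000000000000000000000) (nat_lit 0x0) (nat_lit 0x8000000008001c000e000400000000000000) := T_1 (nat_lit 90) (nat_lit 107) (nat_lit 4) (nat_lit 6) (nat_lit 9) L618674 (by decide +kernel)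
theorem L618676 : W_1 (nat_lit 6) (nat_lit 0x3800280014000e0000000000000000000000000000000) (nat_lit 0x0) (nat_lit 0x40008000000018001c000e000400000000000000) := T_1 (nat_lit 108) (nat_lit 158) (nat_lit 5) (nat_lit 6) (nat_lit 6) L618675 (by decide +kernel)
theorem L618677 : W_1 (nat_lit 7) (nat_lit 0x3000280014000e0000000000000000000000000000000) (nat_lit 0x0) (nat_lit 0x10000800040008000000018001c000e000400000000000000) := T_1 (nat_lit 175) (nat_lit 192) (nat_lit 5) (nat_lit 6) (nat_lit 7) L618676 (by decide +kernel)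
theorem L618678 : W_1 (nat_lit 8) (nat_lit 0x1000280014000e0000000000000000000000000000000) (nat_lit 0x0) (nat_lit 0x50002800040008000000018001c000e000400000000000000) := T_1 (nat_lit 177) (nat_lit 194) (nat_lit 7) (nat_lit 6) (nat_lit 7) L618677 (by decide +kernel)
theorem L618679 : W_1 (nat_lit 9) (nat_lit 0x280014000e0000000000000000000000000000000) (nat_lit 0x0) (nat_lit 0x8000c0007000380004000a000000018001c000e000400000000000000) := Q_1 (nat_lit 176) (C_1 L618653 (C_1 L618671 (C_1 L618611 (C_1 L618678 N_1)))) (by decide +kernel)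
theorem L618680 : W_1 (nat_lit 7) (nat_lit 0x280014000e0000000000000000000000000000000) (nat_lit 0x0) (nat_lit 0x30001800040008000000038000c0006000000000000000000) := T_1 (nat_lit 176) (nat_lit 109) (nat_lit 6) (nat_lit 6) (nat_lit 10) L618671 (by decide +kernel)
theorem L618688 : W_1 (nat_lit 2) (nat_lit 0x2c0014000e0003000080000000000000000000000) (nat_lit 0x0) (nat_lit 0x2800000000000000004000000000000000000) := D_1 (nat_lit 143) (nat_lit 145) (nat_lit 74) (nat_lit 1) (nat_lit 9) (nat_lit 8) (nat_lit 7) (nat_lit 6) (nat_lit 4) (by decide +kernel)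
theorem L618689 : W_1 (nat_lit 3) (nat_lit 0x2c0014000e0003000000000000000000000000000) (nat_lit 0x0) (nat_lit 0x2a00000000000080004000000000000000000) := T_1 (nat_lit 91) (nat_lit 141) (nat_lit 5) (nat_lit 6) (nat_lit 5) L618688 (by decide +kernel)
theorem L618690 : W_1 (nat_lit 4) (nat_lit 0x280014000e0003000000000000000000000000000) (nat_lit 0x0) (nat_lit 0x80004002a00000000000080004000000000000000000) := T_1 (nat_lit 158) (nat_lit 175) (nat_lit 5) (nat_lit 6) (nat_lit 6) L618689 (by decide +kernel)
theorem L618691 : W_1 (nat_lit 5) (nat_lit 0x280014000e0001000000000000000000000000000) (nat_lit 0x0) (nat_lit 0x80004002a00000002000180004000000000000000000) := T_1 (nat_lit 109) (nat_lit 92) (nat_lit 6) (nat_lit 6) (nat_lit 9) L618690 (by decide +kernel)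
theorem L618692 : W_1 (nat_lit 6) (nat_lit 0x280014000e0000000000000000000000000000000) (nat_lit 0x0) (nat_lit 0x80004002a00000003e001c0006000000000000000000) := Q_1 (nat_lit 108) (C_1 L618663 (C_1 L618661 (C_1 L618691 N_1))) (by decide +kernel)
theorem L618872 : W_1 (nat_lit 2) (nat_lit 0x380014000e0001a00000000000000000000000000) (nat_lit 0x0) (nat_lit 0x80004002000000000000000000000000000000000000) := D_1 (nat_lit 158) (nat_lit 145) (nat_lit 175) (nat_lit 2) (nat_lit 5) (nat_lit 9) (nat_lit 5) (nat_lit 6) (nat_lit 6) (by decide +kernel)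
theorem L618873 : W_1 (nat_lit 3) (nat_lit 0x280014000e0001a00000000000000000000000000) (nat_lit 0x0) (nat_lit 0x280014002000000000000000000000000000000000000) := T_1 (nat_lit 160) (nat_lit 177) (nat_lit 7) (nat_lit 6) (nat_lit 6) L618872 (by decide +kernel)
theorem L618874 : W_1 (nat_lit 4) (nat_lit 0x280014000e0001800000000000000000000000000) (nat_lit 0x0) (nat_lit 0x280014002000000000600000000000000000000000000) := T_1 (nat_lit 105) (nat_lit 106) (nat_lit 3) (nat_lit 3) (nat_lit 6) L618873 (by decide +kernel)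
theorem L618875 : W_1 (nat_lit 5) (nat_lit 0x280014000e0001000000000000000000000000000) (nat_lit 0x0) (nat_lit 0x280014002000000000e00040000000000000000000000) := T_1 (nat_lit 107) (nat_lit 90) (nat_lit 4) (nat_lit 6) (nat_lit 9) L618874 (by decide +kernel)
theorem L618956 : W_1 (nat_lit 2) (nat_lit 0x2c00b4000e0001800000000000000000000000000) (nat_lit 0x0) (nat_lit 0x2600000000000000000000000000) := D_1 (nat_lit 106) (nat_lit 109) (nat_lit 105) (nat_lit 3) (nat_lit 4) (nat_lit 6) (nat_lit 3) (nat_lit 3) (nat_lit 6) (by decide +kernel)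
theorem L618957 : W_1 (nat_lit 3) (nat_lit 0x2c00b4000e0001000000000000000000000000000) (nat_lit 0x0) (nat_lit 0x2e00040000000000000000000000) := T_1 (nat_lit 107) (nat_lit 90) (nat_lit 4) (nat_lit 6) (nat_lit 9) L618956 (by decide +kernel)
theorem L618958 : W_1 (nat_lit 4) (nat_lit 0x2c00b4000e0000000000000000000000000000000) (nat_lit 0x0) (nat_lit 0x80000000000000003e00040000000000000000000000) := T_1 (nat_lit 108) (nat_lit 175) (nat_lit 5) (nat_lit 6) (nat_lit 6) L618957 (by decide +kernel)
theorem L618999 : W_1 (nat_lit 12) (nat_lit 0x280010000e0000000000000000000000000000000) (nat_lit 0x0) (nat_lit 0x8000f0007e003e00178027000000038000c0002000000000000000000) := Q_1 (nat_lit 142) (C_1 L618644 (C_1 L618612 (C_1 L618616 (C_1 L618623 (C_1 L618628 (C_1 L618638 N_1)))))) (by decide +kernel)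
theorem L619000 : W_1 (nat_lit 10) (nat_lit 0x280010000e0000000000000000000000000000000) (nat_lit 0x0) (nat_lit 0x8000c0007000380014000f00000003e001c000e000400000000000000) := Q_1 (nat_lit 142) (C_1 L618680 (C_1 L618666 (C_1 L618644 (C_1 L618679 (C_1 L618665 N_1))))) (by decide +kernel)
theorem L619005 : W_1 (nat_lit 5) (nat_lit 0x380010000e0000000000000000000000000000000) (nat_lit 0x0) (nat_lit 0xe0006002380000000000000000000000000000000000) := T_1 (nat_lit 158) (nat_lit 145) (nat_lit 2) (nat_lit 5) (nat_lit 9) L327204 (by decide +kernel)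
theorem L619006 : W_1 (nat_lit 2) (nat_lit 0x380018000e0000000000000000000000000000000) (nat_lit 0x0) (nat_lit 0x100000000000000002000100000000000000000000000) := D_1 (nat_lit 109) (nat_lit 92) (nat_lit 176) (nat_lit 7) (nat_lit 7) (nat_lit 5) (nat_lit 5) (nat_lit 7) (nat_lit 6) (by decide +kernel)
theorem L619007 : W_1 (nat_lit 2) (nat_lit 0x380018000e0000000000000000000000000000000) (nat_lit 0x0) (nat_lit 0x4000200000000000000001000000000000000000000000000) := D_1 (nat_lit 177) (nat_lit 108) (nat_lit 194) (nat_lit 4) (nat_lit 7) (nat_lit 10) (nat_lit 6) (nat_lit 7) (nat_lit 11) (by decide +kernel)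
theorem L619008 : W_1 (nat_lit 3) (nat_lit 0x380010000e0000000000000000000000000000000) (nat_lit 0x0) (nat_lit 0x4000300000000800000003000100000000000000000000000) := Q_1 (nat_lit 143) (C_1 L619006 (C_1 L619007 N_1)) (by decide +kernel)
theorem L619009 : W_1 (nat_lit 6) (nat_lit 0x280010000e0000000000000000000000000000000) (nat_lit 0x0) (nat_lit 0x40003e0016002b80000003000100000000000000000000000) := Q_1 (nat_lit 160) (C_1 L619005 (C_1 L619008 N_1)) (by decide +kernel)
theorem L619011 : W_1 (nat_lit 10) (nat_lit 0x280010000e0000000000000000000000000000000) (nat_lit 0x0) (nat_lit 0x8000c0007000380004002e00000003e001c000e000400000000000000) := Q_1 (nat_lit 142) (C_1 L618680 (C_1 L618692 (C_1 L618666 (C_1 L618612 (C_1 L618679 N_1))))) (by decide +kernel)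
theorem L619012 : W_1 (nat_lit 5) (nat_lit 0x2c0010000e0000000000000000000000000000000) (nat_lit 0x0) (nat_lit 0x10000c0010002700000001000000000000000000000000000) := T_1 (nat_lit 160) (nat_lit 145) (nat_lit 2) (nat_lit 5) (nat_lit 9) L329171 (by decide +kernel)
theorem L619013 : W_1 (nat_lit 2) (nat_lit 0x3e0010000e0000000000000000000000000000000) (nat_lit 0x0) (nat_lit 0xe0000000000000000000000000000000000000000000) := D_1 (nat_lit 174) (nat_lit 173) (nat_lit 175) (nat_lit 1) (nat_lit 7) (nat_lit 9) (nat_lit 1) (nat_lit 8) (nat_lit 9) (by decide +kernel)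
theorem L619014 : W_1 (nat_lit 3) (nat_lit 0x3c0010000e0000000000000000000000000000000) (nat_lit 0x0) (nat_lit 0xe0002000800000000000000000000000000000000000) := T_1 (nat_lit 157) (nat_lit 143) (nat_lit 2) (nat_lit 4) (nat_lit 9) L619013 (by decide +kernel)
theorem L619015 : W_1 (nat_lit 2) (nat_lit 0x2003f0016800e0001000000000000000000000000000) (nat_lit 0x0) (nat_lit 0x100000000000000002000100000000000000000000000) := D_1 (nat_lit 109) (nat_lit 176) (nat_lit 92) (nat_lit 6) (nat_lit 6) (nat_lit 10) (nat_lit 6) (nat_lit 6) (nat_lit 9) (by decide +kernel)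
theorem L619016 : W_1 (nat_lit 3) (nat_lit 0x2003f0016800e0000000000000000000000000000000) (nat_lit 0x0) (nat_lit 0x100000000000000003000180000000000000000000000) := T_1 (nat_lit 108) (nat_lit 91) (nat_lit 5) (nat_lit 6) (nat_lit 5) L619015 (by decide +kernel)
theorem L619017 : W_1 (nat_lit 4) (nat_lit 0x2003f0012800e0000000000000000000000000000000) (nat_lit 0x0) (nat_lit 0x100000800400000003000180000000000000000000000) := T_1 (nat_lit 142) (nat_lit 155) (nat_lit 2) (nat_lit 2) (nat_lit 9) L619016 (by decide +kernel)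
theorem L619018 : W_1 (nat_lit 5) (nat_lit 0x2003f0012000e0000000000000000000000000000000) (nat_lit 0x0) (nat_lit 0x1000008004c0000003000180000000000000000000000) := T_1 (nat_lit 139) (nat_lit 138) (nat_lit 0) (nat_lit 6) (nat_lit 9) L619017 (by decide +kernel)
theorem L619019 : W_1 (nat_lit 6) (nat_lit 0x2003e0012000e0000000000000000000000000000000) (nat_lit 0x0) (nat_lit 0x1100018004c0000003000180000000000000000000000) := T_1 (nat_lit 156) (nat_lit 172) (nat_lit 1) (nat_lit 6) (nat_lit 9) L619018 (by decide +kernel)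
theorem L619020 : W_1 (nat_lit 7) (nat_lit 0x3e0012000e0000000000000000000000000000000) (nat_lit 0x0) (nat_lit 0x1700018004c0000003000180000000000000000000000) := T_1 (nat_lit 173) (nat_lit 174) (nat_lit 1) (nat_lit 7) (nat_lit 9) L619019 (by decide +kernel)
theorem L619021 : W_1 (nat_lit 8) (nat_lit 0x3c0012000e0000000000000000000000000000000) (nat_lit 0x0) (nat_lit 0x170003800cc0000003000180000000000000000000000) := T_1 (nat_lit 157) (nat_lit 143) (nat_lit 2) (nat_lit 4) (nat_lit 9) L619020 (by decide +kernel)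
theorem L619022 : W_1 (nat_lit 9) (nat_lit 0x3c0010000e0000000000000000000000000000000) (nat_lit 0x0) (nat_lit 0x170003800fc0000003000180000000000000000000000) := T_1 (nat_lit 141) (nat_lit 140) (nat_lit 0) (nat_lit 8) (nat_lit 9) L619021 (by decide +kernel)
theorem L619023 : W_1 (nat_lit 2) (nat_lit 0x3e0010000e0000000000000000000000000000000) (nat_lit 0x0) (nat_lit 0x380000000000000000000000000000000000) := D_1 (nat_lit 140) (nat_lit 139) (nat_lit 141) (nat_lit 0) (nat_lit 7) (nat_lit 9) (nat_lit 0) (nat_lit 8) (nat_lit 9) (by decide +kernel)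
theorem L619024 : W_1 (nat_lit 3) (nat_lit 0x3c0010000e0000000000000000000000000000000) (nat_lit 0x0) (nat_lit 0x2000b80000000000000000000000000000000000) := T_1 (nat_lit 157) (nat_lit 143) (nat_lit 2) (nat_lit 4) (nat_lit 9) L619023 (by decide +kernel)
theorem L619025 : W_1 (nat_lit 10) (nat_lit 0x2c0010000e0000000000000000000000000000000) (nat_lit 0x0) (nat_lit 0x10001f0013800fc0000003000180000000000000000000000) := Q_1 (nat_lit 160) (C_1 L327204 (C_1 L329171 (C_1 L619014 (C_1 L619022 (C_1 L619024 N_1))))) (by decide +kernel)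
theorem L619026 : W_1 (nat_lit 4) (nat_lit 0x2c0010000e0000000000000000000000000000000) (nat_lit 0x0) (nat_lit 0x12002b80000000000000000000000000000000000) := T_1 (nat_lit 160) (nat_lit 145) (nat_lit 2) (nat_lit 5) (nat_lit 9) L619024 (by decide +kernel)
theorem L619027 : W_1 (nat_lit 2) (nat_lit 0x10002c0014000e0000000000000000000000000000000) (nat_lit 0x0) (nat_lit 0x2000000000002800000000000000000000000000000000000) := D_1 (nat_lit 143) (nat_lit 145) (nat_lit 193) (nat_lit 1) (nat_lit 9) (nat_lit 8) (nat_lit 6) (nat_lit 6) (nat_lit 11) (by decide +kernel)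
theorem L619028 : W_1 (nat_lit 3) (nat_lit 0x2c0014000e0000000000000000000000000000000) (nat_lit 0x0) (nat_lit 0x2000100000002800000002000000000000000000000000000) := T_1 (nat_lit 176) (nat_lit 109) (nat_lit 6) (nat_lit 6) (nat_lit 10) L619027 (by decide +kernel)
theorem L619029 : W_1 (nat_lit 5) (nat_lit 0x2c0010000e0000000000000000000000000000000) (nat_lit 0x0) (nat_lit 0x2000180000002e000000038000c0002000000000000000000) := Q_1 (nat_lit 142) (C_1 L618604 (C_1 L619028 N_1)) (by decide +kernel)
theorem L619030 : W_1 (nat_lit 4) (nat_lit 0x2c0010000e0000000000000000000000000000000) (nat_lit 0x0) (nat_lit 0xe0012002800000000000000000000000000000000000) := T_1 (nat_lit 160) (nat_lit 145) (nat_lit 2) (nat_lit 5) (nat_lit 9) L619014 (by decide +kernel)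
theorem L619031 : W_1 (nat_lit 11) (nat_lit 0x280010000e0000000000000000000000000000000) (nat_lit 0x0) (nat_lit 0x30001f0017802fc00000038001c0002000000000000000000) := Q_1 (nat_lit 158) (C_1 L619012 (C_1 L619025 (C_1 L619026 (C_1 L619029 (C_1 L619030 N_1))))) (by decide +kernel)
theorem L619032 : W_1 (nat_lit 6) (nat_lit 0x28001c000e0000000000000000000000000000000) (nat_lit 0x0) (nat_lit 0x30001800040000000000018000c0006000000000000000000) := T_1 (nat_lit 176) (nat_lit 193) (nat_lit 6) (nat_lit 6) (nat_lit 11) L616656 (by decide +kernel)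
theorem L619033 : W_1 (nat_lit 2) (nat_lit 0x300028005c000e0001000080000000000000000000000) (nat_lit 0x0) (nat_lit 0x800040002000000000000000000) := D_1 (nat_lit 90) (nat_lit 107) (nat_lit 73) (nat_lit 4) (nat_lit 6) (nat_lit 9) (nat_lit 4) (nat_lit 6) (nat_lit 8) (by decide +kernel)
theorem L619034 : W_1 (nat_lit 3) (nat_lit 0x300028005c000e0001000000000000000000000000000) (nat_lit 0x0) (nat_lit 0x8000c0006000000000000000000) := T_1 (nat_lit 91) (nat_lit 74) (nat_lit 7) (nat_lit 6) (nat_lit 4) L619033 (by decide +kernel)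
theorem L619035 : W_1 (nat_lit 4) (nat_lit 0x300028005c000e0000000000000000000000000000000) (nat_lit 0x0) (nat_lit 0x100000000000018000c0006000000000000000000) := T_1 (nat_lit 108) (nat_lit 160) (nat_lit 7) (nat_lit 6) (nat_lit 6) L619034 (by decide +kernel)
theorem L619036 : W_1 (nat_lit 5) (nat_lit 0x100028005c000e0000000000000000000000000000000) (nat_lit 0x0) (nat_lit 0x40002000100000000000018000c0006000000000000000000) := T_1 (nat_lit 177) (nat_lit 194) (nat_lit 7) (nat_lit 6) (nat_lit 7) L619035 (by decide +kernel)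
theorem L619037 : W_1 (nat_lit 6) (nat_lit 0x100028001c000e0000000000000000000000000000000) (nat_lit 0x0) (nat_lit 0x40002000100060000000018000c0006000000000000000000) := T_1 (nat_lit 146) (nat_lit 145) (nat_lit 0) (nat_lit 10) (nat_lit 8) L619036 (by decide +kernel)
theorem L619038 : W_1 (nat_lit 7) (nat_lit 0x28001c000e0000000000000000000000000000000) (nat_lit 0x0) (nat_lit 0x60003000100060000000018000c0006000000000000000000) := T_1 (nat_lit 176) (nat_lit 193) (nat_lit 6) (nat_lit 6) (nat_lit 11) L619037 (by decide +kernel)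
theorem L619039 : W_1 (nat_lit 8) (nat_lit 0x280014000e0000000000000000000000000000000) (nat_lit 0x0) (nat_lit 0x70003800140068000000018000c0006000000000000000000) := Q_1 (nat_lit 143) (C_1 L619032 (C_1 L616652 (C_1 L619038 N_1))) (by decide +kernel)
theorem L619040 : W_1 (nat_lit 2) (nat_lit 0x380014000e0001000000000000000000000000000) (nat_lit 0x0) (nat_lit 0x80004002000000000000000000000000000000000000) := D_1 (nat_lit 158) (nat_lit 175) (nat_lit 145) (nat_lit 5) (nat_lit 6) (nat_lit 6) (nat_lit 2) (nat_lit 5) (nat_lit 9) (by decide +kernel)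
theorem L619041 : W_1 (nat_lit 3) (nat_lit 0x280014000e0001000000000000000000000000000) (nat_lit 0x0) (nat_lit 0x280014002000000000000000000000000000000000000) := T_1 (nat_lit 160) (nat_lit 177) (nat_lit 7) (nat_lit 6) (nat_lit 6) L619040 (by decide +kernel)
theorem L619042 : W_1 (nat_lit 6) (nat_lit 0x280014000e0000000000000000000000000000000) (nat_lit 0x0) (nat_lit 0x280014002000000003e00040000000000000000000000) := Q_1 (nat_lit 108) (C_1 L618663 (C_1 L618875 (C_1 L619041 N_1))) (by decide +kernel)
theorem L619043 : W_1 (nat_lit 9) (nat_lit 0x280010000e0000000000000000000000000000000) (nat_lit 0x0) (nat_lit 0x80007e003e0017806c00000003e000c0006000000000000000000) := Q_1 (nat_lit 142) (C_1 L618680 (C_1 L618666 (C_1 L618623 (C_1 L619039 (C_1 L619042 N_1))))) (by decide +kernel)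
theorem L619044 : W_1 (nat_lit 2) (nat_lit 0x280038000e0000000000000000000000000000000) (nat_lit 0x0) (nat_lit 0x14000400000000000000000000000000000000000) := D_1 (nat_lit 158) (nat_lit 160) (nat_lit 142) (nat_lit 2) (nat_lit 5) (nat_lit 9) (nat_lit 1) (nat_lit 9) (nat_lit 8) (by decide +kernel)
theorem L619045 : W_1 (nat_lit 3) (nat_lit 0x280018000e0000000000000000000000000000000) (nat_lit 0x0) (nat_lit 0x14006400000000000000000000000000000000000) := T_1 (nat_lit 145) (nat_lit 146) (nat_lit 0) (nat_lit 10) (nat_lit 8) L619044 (by decide +kernel)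
theorem L619046 : W_1 (nat_lit 2) (nat_lit 0x280018000e0002000000000000000000000000000) (nat_lit 0x0) (nat_lit 0x100010000400000000000000000000000000000000000) := D_1 (nat_lit 176) (nat_lit 160) (nat_lit 142) (nat_lit 5) (nat_lit 7) (nat_lit 6) (nat_lit 6) (nat_lit 6) (nat_lit 10) (by decide +kernel)
theorem L619047 : W_1 (nat_lit 3) (nat_lit 0x280018000e0000000000000000000000000000000) (nat_lit 0x0) (nat_lit 0x100010000400000002000100000000000000000000000) := T_1 (nat_lit 109) (nat_lit 92) (nat_lit 7) (nat_lit 7) (nat_lit 5) L619046 (by decide +kernel)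
theorem L619048 : W_1 (nat_lit 2) (nat_lit 0x280038000e0002000000000000000000000000000) (nat_lit 0x0) (nat_lit 0x100014000000000000000000000000000000000000000) := D_1 (nat_lit 160) (nat_lit 176) (nat_lit 158) (nat_lit 5) (nat_lit 7) (nat_lit 6) (nat_lit 2) (nat_lit 5) (nat_lit 9) (by decide +kernel)
theorem L619049 : W_1 (nat_lit 3) (nat_lit 0x280018000e0002000000000000000000000000000) (nat_lit 0x0) (nat_lit 0x100014006000000000000000000000000000000000000) := T_1 (nat_lit 145) (nat_lit 146) (nat_lit 0) (nat_lit 10) (nat_lit 8) L619048 (by decide +kernel)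
theorem L619050 : W_1 (nat_lit 4) (nat_lit 0x280018000e0000000000000000000000000000000) (nat_lit 0x0) (nat_lit 0x100014006000000002000100000000000000000000000) := T_1 (nat_lit 109) (nat_lit 92) (nat_lit 7) (nat_lit 7) (nat_lit 5) L619049 (by decide +kernel)
theorem L619051 : W_1 (nat_lit 2) (nat_lit 0x280038000e0002000000000000000000000000000) (nat_lit 0x0) (nat_lit 0x100004000400000000000000000000000000000000000) := D_1 (nat_lit 142) (nat_lit 158) (nat_lit 176) (nat_lit 1) (nat_lit 9) (nat_lit 8) (nat_lit 6) (nat_lit 6) (nat_lit 10) (by decide +kernel)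
theorem L619052 : W_1 (nat_lit 3) (nat_lit 0x280038000e0000000000000000000000000000000) (nat_lit 0x0) (nat_lit 0x100004000400000002000100000000000000000000000) := T_1 (nat_lit 109) (nat_lit 92) (nat_lit 7) (nat_lit 7) (nat_lit 5) L619051 (by decide +kernel)
theorem L619053 : W_1 (nat_lit 4) (nat_lit 0x280018000e0000000000000000000000000000000) (nat_lit 0x0) (nat_lit 0x100004006400000002000100000000000000000000000) := T_1 (nat_lit 145) (nat_lit 146) (nat_lit 0) (nat_lit 10) (nat_lit 8) L619052 (by decide +kernel)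
theorem L619054 : W_1 (nat_lit 5) (nat_lit 0x280010000e0000000000000000000000000000000) (nat_lit 0x0) (nat_lit 0x100014006c00000002000100000000000000000000000) := Q_1 (nat_lit 143) (C_1 L619045 (C_1 L619047 (C_1 L619050 (C_1 L619053 N_1)))) (by decide +kernel)
theorem L619055 : W_1 (nat_lit 2) (nat_lit 0x2000380010000e0000000000000000000000000000000) (nat_lit 0x0) (nat_lit 0x80004000000000000800000000000000000000000000000000000) := D_1 (nat_lit 194) (nat_lit 211) (nat_lit 143) (nat_lit 6) (nat_lit 7) (nat_lit 12) (nat_lit 6) (nat_lit 7) (nat_lit 11) (by decide +kernel)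
theorem L619056 : W_1 (nat_lit 2) (nat_lit 0x2000380010000e0000000000000000000000000000000) (nat_lit 0x0) (nat_lit 0xc00000001000000000000000000000000000) := D_1 (nat_lit 108) (nat_lit 143) (nat_lit 142) (nat_lit 4) (nat_lit 7) (nat_lit 10) (nat_lit 7) (nat_lit 6) (nat_lit 6) (by decide +kernel)
theorem L619057 : W_1 (nat_lit 4) (nat_lit 0x380010000e0000000000000000000000000000000) (nat_lit 0x0) (nat_lit 0x80004000300000000c00000001000000000000000000000000000) := Q_1 (nat_lit 177) (C_1 L619055 (C_1 L327187 (C_1 L619056 N_1))) (by decide +kernel)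
theorem L619058 : W_1 (nat_lit 6) (nat_lit 0x280010000e0000000000000000000000000000000) (nat_lit 0x0) (nat_lit 0x800040003e0016002f80000001000000000000000000000000000) := Q_1 (nat_lit 160) (C_1 L619005 (C_1 L619057 N_1)) (by decide +kernel)
theorem L619059 : W_1 (nat_lit 2) (nat_lit 0x10001000280014000e0000000000000000000000000000000) (nat_lit 0x0) (nat_lit 0x20002000000000000800000000000000000000000000000000000) := D_1 (nat_lit 193) (nat_lit 143) (nat_lit 209) (nat_lit 6) (nat_lit 6) (nat_lit 11) (nat_lit 5) (nat_lit 6) (nat_lit 8) (by decide +kernel)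
theorem L619060 : W_1 (nat_lit 3) (nat_lit 0x1000280014000e0000000000000000000000000000000) (nat_lit 0x0) (nat_lit 0x20003000080000000800000000000000000000000000000000000) := T_1 (nat_lit 192) (nat_lit 175) (nat_lit 5) (nat_lit 6) (nat_lit 7) L619059 (by decide +kernel)
theorem L619061 : W_1 (nat_lit 4) (nat_lit 0x280014000e0000000000000000000000000000000) (nat_lit 0x0) (nat_lit 0x20003000180000000800000002000000000000000000000000000) := T_1 (nat_lit 176) (nat_lit 109) (nat_lit 6) (nat_lit 6) (nat_lit 10) L619060 (by decide +kernel)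
theorem L619077 : W_1 (nat_lit 8) (nat_lit 0x280014000e0000000000000000000000000000000) (nat_lit 0x0) (nat_lit 0xa0007e003e0013800800000000000000000000000000000000000) := Q_1 (nat_lit 176) (C_1 L619060 (C_1 L618622 (C_1 L618653 N_1))) (by decide +kernel)
theorem L619078 : W_1 (nat_lit 2) (nat_lit 0x380014000e0001000040000000000000000000000) (nat_lit 0x0) (nat_lit 0x800000000000080002000000000000000000) := D_1 (nat_lit 91) (nat_lit 143) (nat_lit 73) (nat_lit 7) (nat_lit 6) (nat_lit 5) (nat_lit 4) (nat_lit 6) (nat_lit 8) (by decide +kernel)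
theorem L619079 : W_1 (nat_lit 3) (nat_lit 0x280014000e0001000040000000000000000000000) (nat_lit 0x0) (nat_lit 0x200010000800000000000080002000000000000000000) := T_1 (nat_lit 160) (nat_lit 177) (nat_lit 7) (nat_lit 6) (nat_lit 6) L619078 (by decide +kernel)
theorem L619080 : W_1 (nat_lit 4) (nat_lit 0x280014000e0001000000000000000000000000000) (nat_lit 0x0) (nat_lit 0x2000100008000000008000c0002000000000000000000) := T_1 (nat_lit 90) (nat_lit 107) (nat_lit 4) (nat_lit 6) (nat_lit 9) L619079 (by decide +kernel)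
theorem L619081 : W_1 (nat_lit 2) (nat_lit 0x380014000e0001000080000000000000000000000) (nat_lit 0x0) (nat_lit 0x2000100008000000000000000000) := D_1 (nat_lit 92) (nat_lit 75) (nat_lit 109) (nat_lit 6) (nat_lit 6) (nat_lit 8) (nat_lit 6) (nat_lit 6) (nat_lit 9) (by decide +kernel)
theorem L619082 : W_1 (nat_lit 3) (nat_lit 0x380014000e0001000000000000000000000000000) (nat_lit 0x0) (nat_lit 0x800000002000180008000000000000000000) := T_1 (nat_lit 91) (nat_lit 143) (nat_lit 7) (nat_lit 6) (nat_lit 5) L619081 (by decide +kernel)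
theorem L619083 : W_1 (nat_lit 4) (nat_lit 0x280014000e0001000000000000000000000000000) (nat_lit 0x0) (nat_lit 0x200010000800000002000180008000000000000000000) := T_1 (nat_lit 160) (nat_lit 177) (nat_lit 7) (nat_lit 6) (nat_lit 6) L619082 (by decide +kernel)
theorem L619084 : W_1 (nat_lit 5) (nat_lit 0x280014000e0000000000000000000000000000000) (nat_lit 0x0) (nat_lit 0x200010000800000003e001c000a000000000000000000) := Q_1 (nat_lit 108) (C_1 L618663 (C_1 L619080 (C_1 L619083 N_1))) (by decide +kernel)
theorem L619085 : W_1 (nat_lit 9) (nat_lit 0x280010000e0000000000000000000000000000000) (nat_lit 0x0) (nat_lit 0xa0007e003e0013800c00000003e001c000a000000000000000000) := Q_1 (nat_lit 142) (C_1 L618666 (C_1 L619061 (C_1 L618623 (C_1 L619077 (C_1 L619084 N_1))))) (by decide +kernel)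
theorem L619086 : W_1 (nat_lit 5) (nat_lit 0x2c0010000e0000000000000000000000000000000) (nat_lit 0x0) (nat_lit 0x10000e0012000f80000001000000000000000000000000000) := Q_1 (nat_lit 160) (C_1 L619024 (C_1 L619014 (C_1 L329171 N_1))) (by decide +kernel)
theorem L619087 : W_1 (nat_lit 5) (nat_lit 0x2c0034000e0000000000000000000000000000000) (nat_lit 0x0) (nat_lit 0x8000000c000000003e00040000000000000000000000) := T_1 (nat_lit 147) (nat_lit 146) (nat_lit 0) (nat_lit 11) (nat_lit 8) L618958 (by decide +kernel)
theorem L619088 : W_1 (nat_lit 6) (nat_lit 0x2c0014000e0000000000000000000000000000000) (nat_lit 0x0) (nat_lit 0x8000000e800000003e00040000000000000000000000) := T_1 (nat_lit 145) (nat_lit 143) (nat_lit 1) (nat_lit 9) (nat_lit 8) L619087 (by decide +kernel)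
theorem L619089 : W_1 (nat_lit 2) (nat_lit 0x2c001c000e0000000000000000000000000000000) (nat_lit 0x0) (nat_lit 0x2000300000000000000000000000000000000000) := D_1 (nat_lit 141) (nat_lit 157) (nat_lit 140) (nat_lit 1) (nat_lit 8) (nat_lit 8) (nat_lit 2) (nat_lit 4) (nat_lit 8) (by decide +kernel)
theorem L619090 : W_1 (nat_lit 3) (nat_lit 0x2c0014000e0000000000000000000000000000000) (nat_lit 0x0) (nat_lit 0x2002b00000000000000000000000000000000000) := T_1 (nat_lit 143) (nat_lit 145) (nat_lit 1) (nat_lit 9) (nat_lit 8) L619089 (by decide +kernel)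
theorem L619091 : W_1 (nat_lit 7) (nat_lit 0x2c0010000e0000000000000000000000000000000) (nat_lit 0x0) (nat_lit 0x8000200ef00000003e000c0002000000000000000000) := Q_1 (nat_lit 142) (C_1 L618604 (C_1 L619088 (C_1 L619090 N_1))) (by decide +kernel)
theorem L619092 : W_1 (nat_lit 8) (nat_lit 0x280010000e0000000000000000000000000000000) (nat_lit 0x0) (nat_lit 0x10000e001600ef80000003e000c0002000000000000000000) := Q_1 (nat_lit 158) (C_1 L619030 (C_1 L619086 (C_1 L619091 (C_1 L619012 (C_1 L619026 N_1))))) (by decide +kernel)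
theorem L619093 : W_1 (nat_lit 13) (nat_lit 0x200010000e0000000000000000000000000000000) (nat_lit 0x0) (nat_lit 0x8000f0007e003f001f80efc0000003e001c000e000400000000000000) := Q_1 (nat_lit 159) (C_1 L618999 (C_1 L619000 (C_1 L619009 (C_1 L619011 (C_1 L619031 (C_1 L619043 (C_1 L619054 (C_1 L619058 (C_1 L619085 (C_1 L619092 N_1)))))))))) (by decide +kernel)
theorem L619094 : W_1 (nat_lit 3) (nat_lit 0x4000200010000e0000000000000000000000000000000) (nat_lit 0x0) (nat_lit 0x200018000800000000800000000000000000000000000000000000) := T_1 (nat_lit 195) (nat_lit 143) (nat_lit 4) (nat_lit 8) (nat_lit 11) L325527 (by decide +kernel)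
theorem L619095 : W_1 (nat_lit 4) (nat_lit 0x200010000e0000000000000000000000000000000) (nat_lit 0x0) (nat_lit 0x200018000c00000000800000002000000000000000000000000000) := T_1 (nat_lit 178) (nat_lit 109) (nat_lit 4) (nat_lit 8) (nat_lit 10) L619094 (by decide +kernel)
theorem L619096 : W_1 (nat_lit 2) (nat_lit 0x1e000200010000e0000000000000000000000000000000) (nat_lit 0x0) (nat_lit 0x2000018000000000000000000000000000000000000000) := D_1 (nat_lit 160) (nat_lit 181) (nat_lit 159) (nat_lit 0) (nat_lit 11) (nat_lit 10) (nat_lit 0) (nat_lit 10) (nat_lit 10) (by decide +kernel)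
theorem L619097 : W_1 (nat_lit 3) (nat_lit 0x1c000200010000e0000000000000000000000000000000) (nat_lit 0x0) (nat_lit 0x4002200018000000000000000000000000000000000000000) := T_1 (nat_lit 177) (nat_lit 194) (nat_lit 5) (nat_lit 8) (nat_lit 7) L619096 (by decide +kernel)
theorem L619098 : W_1 (nat_lit 4) (nat_lit 0x1e000200010000e0000000000000000000000000000000) (nat_lit 0x0) (nat_lit 0xe0002000380000000000000000000000000000000000000000) := T_1 (nat_lit 198) (nat_lit 197) (nat_lit 3) (nat_lit 7) (nat_lit 10) L326676 (by decide +kernel)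
theorem L619099 : W_1 (nat_lit 5) (nat_lit 0x1c000200010000e0000000000000000000000000000000) (nat_lit 0x0) (nat_lit 0xe4002200380000000000000000000000000000000000000000) := T_1 (nat_lit 177) (nat_lit 194) (nat_lit 5) (nat_lit 8) (nat_lit 7) L619098 (by decide +kernel)
theorem L619100 : W_1 (nat_lit 2) (nat_lit 0x80003c002200010000e0000000000000000000000000000000) (nat_lit 0x0) (nat_lit 0x100004000400000000000000000000000000000000000000000) := D_1 (nat_lit 182) (nat_lit 166) (nat_lit 200) (nat_lit 2) (nat_lit 9) (nat_lit 10) (nat_lit 3) (nat_lit 9) (nat_lit 10) (by decide +kernel)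
theorem L619101 : W_1 (nat_lit 3) (nat_lit 0x3c002200010000e0000000000000000000000000000000) (nat_lit 0x0) (nat_lit 0x1c0004000400000000000000000000000000000000000000000) := T_1 (nat_lit 199) (nat_lit 198) (nat_lit 3) (nat_lit 8) (nat_lit 10) L619100 (by decide +kernel)
theorem L619102 : W_1 (nat_lit 4) (nat_lit 0x3c000200010000e0000000000000000000000000000000) (nat_lit 0x0) (nat_lit 0x1c0004000700000000000000000000000000000000000000000) := T_1 (nat_lit 165) (nat_lit 164) (nat_lit 2) (nat_lit 8) (nat_lit 10) L619101 (by decide +kernel)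
theorem L619103 : W_1 (nat_lit 5) (nat_lit 0x1c000200010000e0000000000000000000000000000000) (nat_lit 0x0) (nat_lit 0x1c0006000710000000000000000000000000000000000000000) := T_1 (nat_lit 181) (nat_lit 160) (nat_lit 0) (nat_lit 11) (nat_lit 10) L619102 (by decide +kernel)
theorem L619104 : W_1 (nat_lit 2) (nat_lit 0x21001f000a80010000e0000000000000000000000000000000) (nat_lit 0x0) (nat_lit 0x800080000000400000000000000000000000000000000000) := D_1 (nat_lit 175) (nat_lit 191) (nat_lit 142) (nat_lit 1) (nat_lit 8) (nat_lit 10) (nat_lit 5) (nat_lit 6) (nat_lit 7) (by decide +kernel)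
theorem L619105 : W_1 (nat_lit 3) (nat_lit 0x20001f000a80010000e0000000000000000000000000000000) (nat_lit 0x0) (nat_lit 0x3800080000000400000000000000000000000000000000000) := T_1 (nat_lit 192) (nat_lit 193) (nat_lit 1) (nat_lit 9) (nat_lit 10) L619104 (by decide +kernel)
theorem L619106 : W_1 (nat_lit 4) (nat_lit 0x20001e000a80010000e0000000000000000000000000000000) (nat_lit 0x0) (nat_lit 0x3800180004000400000000000000000000000000000000000) := T_1 (nat_lit 176) (nat_lit 158) (nat_lit 0) (nat_lit 9) (nat_lit 10) L619105 (by decide +kernel)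
theorem L619107 : W_1 (nat_lit 5) (nat_lit 0x20001e000a00010000e0000000000000000000000000000000) (nat_lit 0x0) (nat_lit 0x380018001c000400000000000000000000000000000000000) := T_1 (nat_lit 159) (nat_lit 160) (nat_lit 0) (nat_lit 10) (nat_lit 10) L619106 (by decide +kernel)
theorem L619108 : W_1 (nat_lit 6) (nat_lit 0x20001e000200010000e0000000000000000000000000000000) (nat_lit 0x0) (nat_lit 0x380018019c000400000000000000000000000000000000000) := T_1 (nat_lit 163) (nat_lit 164) (nat_lit 2) (nat_lit 7) (nat_lit 10) L619107 (by decide +kernel)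
theorem L619109 : W_1 (nat_lit 7) (nat_lit 0x1e000200010000e0000000000000000000000000000000) (nat_lit 0x0) (nat_lit 0x6380018019c000400000000000000000000000000000000000) := T_1 (nat_lit 197) (nat_lit 198) (nat_lit 3) (nat_lit 7) (nat_lit 10) L619108 (by decide +kernel)
theorem L619110 : W_1 (nat_lit 8) (nat_lit 0x1c000200010000e0000000000000000000000000000000) (nat_lit 0x0) (nat_lit 0x6780038019c000400000000000000000000000000000000000) := T_1 (nat_lit 177) (nat_lit 194) (nat_lit 5) (nat_lit 8) (nat_lit 7) L619109 (by decide +kernel)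
theorem L619111 : W_1 (nat_lit 9) (nat_lit 0xc000200010000e0000000000000000000000000000000) (nat_lit 0x0) (nat_lit 0x1e780738079c000400000000000000000000000000000000000) := Q_1 (nat_lit 180) (C_1 L619097 (C_1 L619099 (C_1 L619103 (C_1 L619110 N_1)))) (by decide +kernel)
theorem L619112 : W_1 (nat_lit 10) (nat_lit 0x4000200010000e0000000000000000000000000000000) (nat_lit 0x0) (nat_lit 0x1f7807b8079c000400000000000000000000000000000000000) := T_1 (nat_lit 179) (nat_lit 196) (nat_lit 7) (nat_lit 8) (nat_lit 7) L619111 (by decide +kernel)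
theorem L619113 : W_1 (nat_lit 2) (nat_lit 0x10007800340058000e0000000000000000000000000000000) (nat_lit 0x0) (nat_lit 0x8000600000000000000000000000000000000000) := D_1 (nat_lit 142) (nat_lit 159) (nat_lit 141) (nat_lit 5) (nat_lit 6) (nat_lit 7) (nat_lit 6) (nat_lit 5) (nat_lit 11) (by decide +kernel)
theorem L619114 : W_1 (nat_lit 3) (nat_lit 0x10007800300058000e0000000000000000000000000000000) (nat_lit 0x0) (nat_lit 0xe000600000000000000000000000000000000000) := T_1 (nat_lit 158) (nat_lit 157) (nat_lit 0) (nat_lit 8) (nat_lit 10) L619113 (by decide +kernel)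
theorem L619115 : W_1 (nat_lit 4) (nat_lit 0x7800300058000e0000000000000000000000000000000) (nat_lit 0x0) (nat_lit 0x180000000e000600000000000000000000000000000000000) := T_1 (nat_lit 192) (nat_lit 191) (nat_lit 1) (nat_lit 8) (nat_lit 10) L619114 (by decide +kernel)
theorem L619116 : W_1 (nat_lit 5) (nat_lit 0x7000300058000e0000000000000000000000000000000) (nat_lit 0x0) (nat_lit 0x18000c000e000600000000000000000000000000000000000) := T_1 (nat_lit 175) (nat_lit 174) (nat_lit 2) (nat_lit 4) (nat_lit 10) L619115 (by decide +kernel)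
theorem L619117 : W_1 (nat_lit 6) (nat_lit 0x6000300058000e0000000000000000000000000000000) (nat_lit 0x0) (nat_lit 0x38001c000e000600000000000000000000000000000000000) := T_1 (nat_lit 176) (nat_lit 193) (nat_lit 5) (nat_lit 7) (nat_lit 7) L619116 (by decide +kernel)
theorem L619118 : W_1 (nat_lit 7) (nat_lit 0x6000300018000e0000000000000000000000000000000) (nat_lit 0x0) (nat_lit 0x38001c000e006600000000000000000000000000000000000) := T_1 (nat_lit 146) (nat_lit 145) (nat_lit 0) (nat_lit 10) (nat_lit 8) L619117 (by decide +kernel)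
theorem L619119 : W_1 (nat_lit 8) (nat_lit 0x6000200018000e0000000000000000000000000000000) (nat_lit 0x0) (nat_lit 0x38001c001e006600000001000000000000000000000000000) := T_1 (nat_lit 160) (nat_lit 108) (nat_lit 4) (nat_lit 7) (nat_lit 10) L619118 (by decide +kernel)
theorem L619120 : W_1 (nat_lit 9) (nat_lit 0x6000200010000e0000000000000000000000000000000) (nat_lit 0x0) (nat_lit 0xb8001c001e006e00000001000000000000000000000000000) := T_1 (nat_lit 143) (nat_lit 195) (nat_lit 4) (nat_lit 8) (nat_lit 11) L619119 (by decide +kernel)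
theorem L619121 : W_1 (nat_lit 10) (nat_lit 0x4000200010000e0000000000000000000000000000000) (nat_lit 0x0) (nat_lit 0xf8003c001e006e00000001000000000000000000000000000) := T_1 (nat_lit 177) (nat_lit 194) (nat_lit 5) (nat_lit 8) (nat_lit 7) L619120 (by decide +kernel)
theorem L619122 : W_1 (nat_lit 11) (nat_lit 0x200010000e0000000000000000000000000000000) (nat_lit 0x0) (nat_lit 0x2801ff807fc079e006e00000001000000000000000000000000000) := Q_1 (nat_lit 178) (C_1 L325473 (C_1 L619094 (C_1 L619112 (C_1 L619121 N_1)))) (by decide +kernel)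
theorem L619123 : W_1 (nat_lit 14) (nat_lit 0x10000e0000000000000000000000000000000) (nat_lit 0x0) (nat_lit 0x8002f01ffe07ff07bf80efc0000003e001c000e000400000000000000) := Q_1 (nat_lit 161) (C_1 L360321 (C_1 L619093 (C_1 L619095 (C_1 L619122 N_1)))) (by decide +kernel)
theorem L619124 : W_1 (nat_lit 4) (nat_lit 0x10000e0000000000000000000000000000000) (nat_lit 0x0) (nat_lit 0x2b80018000000000000000000000000000000) := T_1 (nat_lit 124) (nat_lit 145) (nat_lit 3) (nat_lit 5) (nat_lit 7) L616508 (by decide +kernel)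
theorem L619125 : W_1 (nat_lit 15) (nat_lit 0x10000c0000000000000000000000000000000) (nat_lit 0x0) (nat_lit 0x8002f01ffe07ff07bf80efc003e003f001f000f000400000000000000) := Q_1 (nat_lit 125) (C_1 L345914 (C_1 L616509 (C_1 L616510 (C_1 L619123 (C_1 L619124 N_1))))) (by decide +kernel)
theorem L619128 : W_1 (nat_lit 2) (nat_lit 0x18001c0002000000000000000000000000000) (nat_lit 0x0) (nat_lit 0x600001000000000000000000000000000) := D_1 (nat_lit 129) (nat_lit 108) (nat_lit 130) (nat_lit 0) (nat_lit 10) (nat_lit 7) (nat_lit 1) (nat_lit 11) (nat_lit 7) (by decide +kernel)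
theorem L619135 : W_1 (nat_lit 2) (nat_lit 0x1a001e0002000000000000000000000000000) (nat_lit 0x0) (nat_lit 0x100018000000000000000000000000000000) := D_1 (nat_lit 124) (nat_lit 123) (nat_lit 140) (nat_lit 3) (nat_lit 4) (nat_lit 7) (nat_lit 1) (nat_lit 8) (nat_lit 7) (by decide +kernel)
theorem L619136 : W_1 (nat_lit 3) (nat_lit 0x18001e0002000000000000000000000000000) (nat_lit 0x0) (nat_lit 0x700018000000000000000000000000000000) := T_1 (nat_lit 141) (nat_lit 142) (nat_lit 2) (nat_lit 5) (nat_lit 8) L619135 (by decide +kernel)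
theorem L619142 : W_1 (nat_lit 2) (nat_lit 0x18001e0003000000000000000000000000000) (nat_lit 0x0) (nat_lit 0x10000000000000000080004000000000000000000) := D_1 (nat_lit 91) (nat_lit 74) (nat_lit 160) (nat_lit 7) (nat_lit 6) (nat_lit 4) (nat_lit 4) (nat_lit 7) (nat_lit 9) (by decide +kernel)
theorem L619143 : W_1 (nat_lit 3) (nat_lit 0x18001e0002000000000000000000000000000) (nat_lit 0x0) (nat_lit 0x10000000000001800080004000000000000000000) := T_1 (nat_lit 108) (nat_lit 107) (nat_lit 0) (nat_lit 9) (nat_lit 7) L619142 (by decide +kernel)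
theorem L619145 : W_1 (nat_lit 2) (nat_lit 0x18001c0002000000000000000000000000000) (nat_lit 0x0) (nat_lit 0x600200000000000000000000000000000000) := D_1 (nat_lit 142) (nat_lit 141) (nat_lit 129) (nat_lit 2) (nat_lit 5) (nat_lit 8) (nat_lit 1) (nat_lit 10) (nat_lit 7) (by decide +kernel)
theorem L619150 : W_1 (nat_lit 2) (nat_lit 0x4001e000f0000000000000000000000000000000) (nat_lit 0x0) (nat_lit 0x80000000000000001000080000000000000000000000) := D_1 (nat_lit 108) (nat_lit 91) (nat_lit 175) (nat_lit 5) (nat_lit 6) (nat_lit 5) (nat_lit 6) (nat_lit 5) (nat_lit 10) (by decide +kernel)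
theorem L619151 : W_1 (nat_lit 3) (nat_lit 0x1e000f0000000000000000000000000000000) (nat_lit 0x0) (nat_lit 0x80006000000000001000080000000000000000000000) := T_1 (nat_lit 158) (nat_lit 157) (nat_lit 1) (nat_lit 8) (nat_lit 8) L619150 (by decide +kernel)
theorem L619152 : W_1 (nat_lit 4) (nat_lit 0x1e000e0000000000000000000000000000000) (nat_lit 0x0) (nat_lit 0x80006000000018001000080000000000000000000000) := T_1 (nat_lit 124) (nat_lit 123) (nat_lit 3) (nat_lit 4) (nat_lit 7) L619151 (by decide +kernel)
theorem L619153 : W_1 (nat_lit 5) (nat_lit 0x1c000e0000000000000000000000000000000) (nat_lit 0x0) (nat_lit 0x80006000300018001000080000000000000000000000) := T_1 (nat_lit 141) (nat_lit 140) (nat_lit 2) (nat_lit 4) (nat_lit 8) L619152 (by decide +kernel)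
theorem L619154 : W_1 (nat_lit 2) (nat_lit 0x8001c000f0000800000000000000000000000000) (nat_lit 0x0) (nat_lit 0x1000040002000000000000000000) := D_1 (nat_lit 90) (nat_lit 73) (nat_lit 108) (nat_lit 7) (nat_lit 5) (nat_lit 4) (nat_lit 4) (nat_lit 6) (nat_lit 9) (by decide +kernel)
theorem L619155 : W_1 (nat_lit 3) (nat_lit 0x1c000f0000800000000000000000000000000) (nat_lit 0x0) (nat_lit 0x100008000000000001000040002000000000000000000) := T_1 (nat_lit 159) (nat_lit 176) (nat_lit 4) (nat_lit 6) (nat_lit 10) L619154 (by decide +kernel)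
theorem L619156 : W_1 (nat_lit 4) (nat_lit 0x1c000f0000000000000000000000000000000) (nat_lit 0x0) (nat_lit 0x100008000000000001c00040002000000000000000000) := T_1 (nat_lit 107) (nat_lit 106) (nat_lit 0) (nat_lit 8) (nat_lit 7) L619155 (by decide +kernel)
theorem L619157 : W_1 (nat_lit 5) (nat_lit 0x1c000e0000000000000000000000000000000) (nat_lit 0x0) (nat_lit 0x100008000000018001c00040002000000000000000000) := T_1 (nat_lit 124) (nat_lit 123) (nat_lit 3) (nat_lit 4) (nat_lit 7) L619156 (by decide +kernel)
theorem L619158 : W_1 (nat_lit 2) (nat_lit 0x1e000f0000800000000000000000000000000) (nat_lit 0x0) (nat_lit 0x100008000000000000000040000000000000000000000) := D_1 (nat_lit 159) (nat_lit 176) (nat_lit 90) (nat_lit 4) (nat_lit 6) (nat_lit 10) (nat_lit 7) (nat_lit 5) (nat_lit 5) (by decide +kernel)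
theorem L619159 : W_1 (nat_lit 3) (nat_lit 0x1e000f0000000000000000000000000000000) (nat_lit 0x0) (nat_lit 0x100008000000000000c00040000000000000000000000) := T_1 (nat_lit 107) (nat_lit 106) (nat_lit 0) (nat_lit 8) (nat_lit 7) L619158 (by decide +kernel)
theorem L619160 : W_1 (nat_lit 4) (nat_lit 0x1c000f0000000000000000000000000000000) (nat_lit 0x0) (nat_lit 0x100008000300000000c00040000000000000000000000) := T_1 (nat_lit 141) (nat_lit 140) (nat_lit 2) (nat_lit 4) (nat_lit 8) L619159 (by decide +kernel)
theorem L619161 : W_1 (nat_lit 5) (nat_lit 0x1c000e0000000000000000000000000000000) (nat_lit 0x0) (nat_lit 0x100008000300018000c00040000000000000000000000) := T_1 (nat_lit 124) (nat_lit 123) (nat_lit 3) (nat_lit 4) (nat_lit 7) L619160 (by decide +kernel)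
theorem L619390 : W_1 (nat_lit 2) (nat_lit 0x18001c0000000000000000000000000000000) (nat_lit 0x0) (nat_lit 0x400600000000000000000000000000000000) := D_1 (nat_lit 129) (nat_lit 142) (nat_lit 130) (nat_lit 1) (nat_lit 10) (nat_lit 7) (nat_lit 1) (nat_lit 11) (nat_lit 7) (by decide +kernel)
theorem L619394 : W_1 (nat_lit 2) (nat_lit 0x1a001e0000000000000000000000000000000) (nat_lit 0x0) (nat_lit 0x100018000000000000000000000000000000) := D_1 (nat_lit 124) (nat_lit 123) (nat_lit 140) (nat_lit 3) (nat_lit 4) (nat_lit 7) (nat_lit 1) (nat_lit 8) (nat_lit 7) (by decide +kernel)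
theorem L619395 : W_1 (nat_lit 3) (nat_lit 0x18001e0000000000000000000000000000000) (nat_lit 0x0) (nat_lit 0x700018000000000000000000000000000000) := T_1 (nat_lit 141) (nat_lit 142) (nat_lit 2) (nat_lit 5) (nat_lit 8) L619394 (by decide +kernel)
theorem L619403 : W_1 (nat_lit 2) (nat_lit 0x4000100018000c0002000000000000000000000000000) (nat_lit 0x0) (nat_lit 0xc000200000000000000000000000000000000000000000000) := D_1 (nat_lit 177) (nat_lit 194) (nat_lit 195) (nat_lit 6) (nat_lit 7) (nat_lit 11) (nat_lit 7) (nat_lit 7) (nat_lit 7) (by decide +kernel)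
theorem L619404 : W_1 (nat_lit 3) (nat_lit 0x100018000c0002000000000000000000000000000) (nat_lit 0x0) (nat_lit 0xc000600020000000000000000000000000000000000000000) := T_1 (nat_lit 178) (nat_lit 161) (nat_lit 7) (nat_lit 7) (nat_lit 6) L619403 (by decide +kernel)
theorem L619422 : W_1 (nat_lit 2) (nat_lit 0x100018000c0003000000000000000000000000000) (nat_lit 0x0) (nat_lit 0x4000200000000000020000000000000000000000000000000) := D_1 (nat_lit 177) (nat_lit 194) (nat_lit 125) (nat_lit 6) (nat_lit 7) (nat_lit 11) (nat_lit 4) (nat_lit 7) (nat_lit 10) (by decide +kernel)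
theorem L619423 : W_1 (nat_lit 3) (nat_lit 0x100018000c0002000000000000000000000000000) (nat_lit 0x0) (nat_lit 0x4000200000000000020001000080000000000000000000000) := T_1 (nat_lit 108) (nat_lit 91) (nat_lit 4) (nat_lit 7) (nat_lit 9) L619422 (by decide +kernel)
theorem L619424 : W_1 (nat_lit 2) (nat_lit 0x8003c001a000c0003400000000000000000000000000) (nat_lit 0x0) (nat_lit 0x400030000000000000000000000000000000) := D_1 (nat_lit 125) (nat_lit 142) (nat_lit 124) (nat_lit 5) (nat_lit 6) (nat_lit 6) (nat_lit 6) (nat_lit 5) (nat_lit 10) (by decide +kernel)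
theorem L619425 : W_1 (nat_lit 3) (nat_lit 0x8003c0018000c0003400000000000000000000000000) (nat_lit 0x0) (nat_lit 0x700030000000000000000000000000000000) := T_1 (nat_lit 141) (nat_lit 140) (nat_lit 0) (nat_lit 8) (nat_lit 9) L619424 (by decide +kernel)
theorem L619426 : W_1 (nat_lit 4) (nat_lit 0x3c0018000c0003400000000000000000000000000) (nat_lit 0x0) (nat_lit 0xc0000000700030000000000000000000000000000000) := T_1 (nat_lit 175) (nat_lit 174) (nat_lit 1) (nat_lit 8) (nat_lit 9) L619425 (by decide +kernel)
theorem L619427 : W_1 (nat_lit 5) (nat_lit 0x380018000c0003400000000000000000000000000) (nat_lit 0x0) (nat_lit 0xc0006000700030000000000000000000000000000000) := T_1 (nat_lit 158) (nat_lit 157) (nat_lit 2) (nat_lit 4) (nat_lit 9) L619426 (by decide +kernel)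
theorem L619428 : W_1 (nat_lit 6) (nat_lit 0x300018000c0003400000000000000000000000000) (nat_lit 0x0) (nat_lit 0x1c000e000700030000000000000000000000000000000) := T_1 (nat_lit 159) (nat_lit 176) (nat_lit 5) (nat_lit 7) (nat_lit 6) L619427 (by decide +kernel)
theorem L619429 : W_1 (nat_lit 7) (nat_lit 0x100018000c0003400000000000000000000000000) (nat_lit 0x0) (nat_lit 0x5c002e000700030000000000000000000000000000000) := T_1 (nat_lit 161) (nat_lit 178) (nat_lit 7) (nat_lit 7) (nat_lit 6) L619428 (by decide +kernel)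
theorem L619430 : W_1 (nat_lit 8) (nat_lit 0x100018000c0003000000000000000000000000000) (nat_lit 0x0) (nat_lit 0x5c002e000700030000c00000000000000000000000000) := T_1 (nat_lit 106) (nat_lit 107) (nat_lit 3) (nat_lit 4) (nat_lit 6) L619429 (by decide +kernel)
theorem L619431 : W_1 (nat_lit 9) (nat_lit 0x100018000c0002000000000000000000000000000) (nat_lit 0x0) (nat_lit 0x5c002e000700030001c00080000000000000000000000) := T_1 (nat_lit 108) (nat_lit 91) (nat_lit 4) (nat_lit 7) (nat_lit 9) L619430 (by decide +kernel)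
theorem L619432 : W_1 (nat_lit 10) (nat_lit 0x18000c0002000000000000000000000000000) (nat_lit 0x0) (nat_lit 0xc0007c003e000700030001c00080000000000000000000000) := Q_1 (nat_lit 160) (C_1 L619404 (C_1 L619423 (C_1 L619431 N_1))) (by decide +kernel)
theorem L619434 : W_1 (nat_lit 2) (nat_lit 0x18001e0008800000000000000000000000000) (nat_lit 0x0) (nat_lit 0x18000400000000000000000000000000) := D_1 (nat_lit 124) (nat_lit 123) (nat_lit 106) (nat_lit 3) (nat_lit 4) (nat_lit 7) (nat_lit 0) (nat_lit 8) (nat_lit 7) (by decide +kernel)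
theorem L619435 : W_1 (nat_lit 3) (nat_lit 0x18001e0008000000000000000000000000000) (nat_lit 0x0) (nat_lit 0x18001c00000000000000000000000000) := T_1 (nat_lit 107) (nat_lit 108) (nat_lit 0) (nat_lit 9) (nat_lit 7) L619434 (by decide +kernel)
theorem L619436 : W_1 (nat_lit 4) (nat_lit 0x18001e0000000000000000000000000000000) (nat_lit 0x0) (nat_lit 0x18019c00000000000000000000000000) := T_1 (nat_lit 111) (nat_lit 112) (nat_lit 2) (nat_lit 6) (nat_lit 7) L619435 (by decide +kernel)
theorem L619451 : W_1 (nat_lit 2) (nat_lit 0x1000100018002c0003400000000000000000000000000) (nat_lit 0x0) (nat_lit 0x6000200000000000000000000000000000000000000000000) := D_1 (nat_lit 177) (nat_lit 194) (nat_lit 193) (nat_lit 6) (nat_lit 7) (nat_lit 11) (nat_lit 5) (nat_lit 7) (nat_lit 7) (by decide +kernel)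
theorem L619452 : W_1 (nat_lit 3) (nat_lit 0x100018002c0003400000000000000000000000000) (nat_lit 0x0) (nat_lit 0x6000300008000000000000000000000000000000000000000) := T_1 (nat_lit 176) (nat_lit 159) (nat_lit 5) (nat_lit 7) (nat_lit 6) L619451 (by decide +kernel)
theorem L619453 : W_1 (nat_lit 4) (nat_lit 0x100018000c0003400000000000000000000000000) (nat_lit 0x0) (nat_lit 0x6000300008000000300000000000000000000000000000000) := T_1 (nat_lit 129) (nat_lit 128) (nat_lit 0) (nat_lit 10) (nat_lit 7) L619452 (by decide +kernel)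
theorem L619454 : W_1 (nat_lit 5) (nat_lit 0x100018000c0003000000000000000000000000000) (nat_lit 0x0) (nat_lit 0x6000300008000000300000c00000000000000000000000000) := T_1 (nat_lit 106) (nat_lit 107) (nat_lit 3) (nat_lit 4) (nat_lit 6) L619453 (by decide +kernel)
theorem L619455 : W_1 (nat_lit 6) (nat_lit 0x100018000c0002000000000000000000000000000) (nat_lit 0x0) (nat_lit 0x6000300008000000300001c00080000000000000000000000) := T_1 (nat_lit 108) (nat_lit 91) (nat_lit 4) (nat_lit 7) (nat_lit 9) L619454 (by decide +kernel)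
theorem L619456 : W_1 (nat_lit 2) (nat_lit 0x3c0018001c0003400000000000000000000000000) (nat_lit 0x0) (nat_lit 0x700000000000000000000000000000000000) := D_1 (nat_lit 141) (nat_lit 142) (nat_lit 140) (nat_lit 2) (nat_lit 5) (nat_lit 8) (nat_lit 0) (nat_lit 8) (nat_lit 9) (by decide +kernel)
theorem L619457 : W_1 (nat_lit 3) (nat_lit 0x380018001c0003400000000000000000000000000) (nat_lit 0x0) (nat_lit 0x6000700000000000000000000000000000000000) := T_1 (nat_lit 158) (nat_lit 157) (nat_lit 2) (nat_lit 4) (nat_lit 9) L619456 (by decide +kernel)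
theorem L619458 : W_1 (nat_lit 4) (nat_lit 0x300018001c0003400000000000000000000000000) (nat_lit 0x0) (nat_lit 0x10000e000700000000000000000000000000000000000) := T_1 (nat_lit 159) (nat_lit 176) (nat_lit 5) (nat_lit 7) (nat_lit 6) L619457 (by decide +kernel)
theorem L619459 : W_1 (nat_lit 5) (nat_lit 0x300018000c0003400000000000000000000000000) (nat_lit 0x0) (nat_lit 0x10000e000700300000000000000000000000000000000) := T_1 (nat_lit 128) (nat_lit 129) (nat_lit 0) (nat_lit 10) (nat_lit 7) L619458 (by decide +kernel)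
theorem L619460 : W_1 (nat_lit 6) (nat_lit 0x300018000c0003000000000000000000000000000) (nat_lit 0x0) (nat_lit 0x10000e000700300000c00000000000000000000000000) := T_1 (nat_lit 106) (nat_lit 107) (nat_lit 3) (nat_lit 4) (nat_lit 6) L619459 (by decide +kernel)
theorem L619461 : W_1 (nat_lit 7) (nat_lit 0x300018000c0002000000000000000000000000000) (nat_lit 0x0) (nat_lit 0x10000e000700300001c00080000000000000000000000) := T_1 (nat_lit 108) (nat_lit 91) (nat_lit 4) (nat_lit 7) (nat_lit 9) L619460 (by decide +kernel)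
theorem L619462 : W_1 (nat_lit 8) (nat_lit 0x100018000c0002000000000000000000000000000) (nat_lit 0x0) (nat_lit 0x50002e000700300001c00080000000000000000000000) := T_1 (nat_lit 161) (nat_lit 178) (nat_lit 7) (nat_lit 7) (nat_lit 6) L619461 (by decide +kernel)
theorem L619466 : W_1 (nat_lit 2) (nat_lit 0x4000100018000c0003800000000000000000000000000) (nat_lit 0x0) (nat_lit 0x320000000000000000000000000000000) := D_1 (nat_lit 128) (nat_lit 129) (nat_lit 125) (nat_lit 0) (nat_lit 10) (nat_lit 7) (nat_lit 0) (nat_lit 9) (nat_lit 7) (by decide +kernel)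
theorem L619467 : W_1 (nat_lit 3) (nat_lit 0x4000100018000c0003000000000000000000000000000) (nat_lit 0x0) (nat_lit 0x320000c00000000000000000000000000) := T_1 (nat_lit 107) (nat_lit 106) (nat_lit 3) (nat_lit 4) (nat_lit 6) L619466 (by decide +kernel)
theorem L619468 : W_1 (nat_lit 4) (nat_lit 0x4000100018000c0002000000000000000000000000000) (nat_lit 0x0) (nat_lit 0x320001c00080000000000000000000000) := T_1 (nat_lit 108) (nat_lit 91) (nat_lit 4) (nat_lit 7) (nat_lit 9) L619467 (by decide +kernel)
theorem L619469 : W_1 (nat_lit 5) (nat_lit 0x100018000c0002000000000000000000000000000) (nat_lit 0x0) (nat_lit 0x400020000000320001c00080000000000000000000000) := T_1 (nat_lit 178) (nat_lit 161) (nat_lit 7) (nat_lit 7) (nat_lit 6) L619468 (by decide +kernel)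
theorem L619470 : W_1 (nat_lit 7) (nat_lit 0x18000c0002000000000000000000000000000) (nat_lit 0x0) (nat_lit 0xe000700038000000320001c00080000000000000000000000) := Q_1 (nat_lit 160) (C_1 L619404 (C_1 L619455 (C_1 L619469 N_1))) (by decide +kernel)
theorem L619879 : W_1 (nat_lit 2) (nat_lit 0x18001c000c0000000000000000000000000000000) (nat_lit 0x0) (nat_lit 0x2000100000000000000002000000000000000000000000000) := D_1 (nat_lit 176) (nat_lit 193) (nat_lit 109) (nat_lit 6) (nat_lit 6) (nat_lit 11) (nat_lit 5) (nat_lit 7) (nat_lit 6) (by decide +kernel)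
theorem L620582 : W_1 (nat_lit 2) (nat_lit 0x1c001c0002000000000000000000000000000) (nat_lit 0x0) (nat_lit 0x8000000000000000100008000000000000000000) := D_1 (nat_lit 92) (nat_lit 159) (nat_lit 75) (nat_lit 5) (nat_lit 7) (nat_lit 5) (nat_lit 7) (nat_lit 7) (nat_lit 4) (by decide +kernel)
theorem L620705 : W_1 (nat_lit 2) (nat_lit 0x58003c0018000000000000000000000000000) (nat_lit 0x0) (nat_lit 0x80000000000000000400020000000000000000000) := D_1 (nat_lit 94) (nat_lit 77) (nat_lit 163) (nat_lit 7) (nat_lit 9) (nat_lit 4) (nat_lit 4) (nat_lit 10) (nat_lit 9) (by decide +kernel)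
theorem L620706 : W_1 (nat_lit 3) (nat_lit 0x18003c0018000000000000000000000000000) (nat_lit 0x0) (nat_lit 0x8000c000000000000400020000000000000000000) := T_1 (nat_lit 146) (nat_lit 147) (nat_lit 3) (nat_lit 7) (nat_lit 7) L620705 (by decide +kernel)
theorem L620707 : W_1 (nat_lit 4) (nat_lit 0x18003c0010000000000000000000000000000) (nat_lit 0x0) (nat_lit 0x8000c000020008000400020000000000000000000) := T_1 (nat_lit 111) (nat_lit 125) (nat_lit 2) (nat_lit 6) (nat_lit 7) L620706 (by decide +kernel)
theorem L620708 : W_1 (nat_lit 5) (nat_lit 0x18003c0000000000000000000000000000000) (nat_lit 0x0) (nat_lit 0x8000c000020038000400020000000000000000000) := T_1 (nat_lit 112) (nat_lit 113) (nat_lit 2) (nat_lit 7) (nat_lit 7) L620707 (by decide +kernel)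
theorem L620709 : W_1 (nat_lit 6) (nat_lit 0x18001c0000000000000000000000000000000) (nat_lit 0x0) (nat_lit 0x8000c000620038000400020000000000000000000) := T_1 (nat_lit 129) (nat_lit 130) (nat_lit 1) (nat_lit 11) (nat_lit 7) L620708 (by decide +kernel)
theorem L620820 : W_1 (nat_lit 3) (nat_lit 0x18001c0002000000000000000000000000000) (nat_lit 0x0) (nat_lit 0x8000600000000000100008000000000000000000) := T_1 (nat_lit 142) (nat_lit 141) (nat_lit 2) (nat_lit 5) (nat_lit 8) L620582 (by decide +kernel)
theorem L620837 : W_1 (nat_lit 2) (nat_lit 0x1c001e0009000000000000000000000000000) (nat_lit 0x0) (nat_lit 0x200010000000000000000080000000000000000000000) := D_1 (nat_lit 160) (nat_lit 177) (nat_lit 91) (nat_lit 4) (nat_lit 7) (nat_lit 10) (nat_lit 7) (nat_lit 6) (nat_lit 5) (by decide +kernel)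
theorem L620838 : W_1 (nat_lit 3) (nat_lit 0x1c001e0008000000000000000000000000000) (nat_lit 0x0) (nat_lit 0x200010000000000001800080000000000000000000000) := T_1 (nat_lit 108) (nat_lit 107) (nat_lit 0) (nat_lit 9) (nat_lit 7) L620837 (by decide +kernel)
theorem L620839 : W_1 (nat_lit 4) (nat_lit 0x1c001e0000000000000000000000000000000) (nat_lit 0x0) (nat_lit 0x200010000000000019800080000000000000000000000) := T_1 (nat_lit 111) (nat_lit 112) (nat_lit 2) (nat_lit 6) (nat_lit 7) L620838 (by decide +kernel)
theorem L620840 : W_1 (nat_lit 5) (nat_lit 0x18001e0000000000000000000000000000000) (nat_lit 0x0) (nat_lit 0x200010000600000019800080000000000000000000000) := T_1 (nat_lit 142) (nat_lit 141) (nat_lit 2) (nat_lit 5) (nat_lit 8) L620839 (by decide +kernel)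
theorem L620841 : W_1 (nat_lit 6) (nat_lit 0x18001c0000000000000000000000000000000) (nat_lit 0x0) (nat_lit 0x200010000700038019c00080000000000000000000000) := Q_1 (nat_lit 125) (C_1 L619436 (C_1 L619395 (C_1 L620840 N_1))) (by decide +kernel)
theorem L620842 : W_1 (nat_lit 7) (nat_lit 0x18000c0000000000000000000000000000000) (nat_lit 0x0) (nat_lit 0x20009000c700738039c00480020000000000000000000) := Q_1 (nat_lit 128) (C_1 L620709 (C_1 L620841 (C_1 L619390 N_1))) (by decide +kernel)
theorem L620844 : W_1 (nat_lit 2) (nat_lit 0x34001e0009000f00000000000000000000000) (nat_lit 0x0) (nat_lit 0x8000c000000000000000000) := D_1 (nat_lit 75) (nat_lit 74) (nat_lit 91) (nat_lit 0) (nat_lit 10) (nat_lit 5) (nat_lit 6) (nat_lit 6) (nat_lit 8) (by decide +kernel)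
theorem L620845 : W_1 (nat_lit 3) (nat_lit 0x34001e0009000e00000000000000000000000) (nat_lit 0x0) (nat_lit 0x200018000c000000000000000000) := T_1 (nat_lit 92) (nat_lit 109) (nat_lit 1) (nat_lit 10) (nat_lit 5) L620844 (by decide +kernel)
theorem L620846 : W_1 (nat_lit 4) (nat_lit 0x34001e0009000600000000000000000000000) (nat_lit 0x0) (nat_lit 0x200098004c000000000000000000) := T_1 (nat_lit 95) (nat_lit 78) (nat_lit 6) (nat_lit 9) (nat_lit 8) L620845 (by decide +kernel)
theorem L620847 : W_1 (nat_lit 5) (nat_lit 0x34001e0009000400000000000000000000000) (nat_lit 0x0) (nat_lit 0x2000b8005c000000000000000000) := T_1 (nat_lit 93) (nat_lit 76) (nat_lit 4) (nat_lit 9) (nat_lit 8) L620846 (by decide +kernel)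
theorem L620848 : W_1 (nat_lit 6) (nat_lit 0x34001e0009000000000000000000000000000) (nat_lit 0x0) (nat_lit 0x2000f8007c000000000000000000) := T_1 (nat_lit 94) (nat_lit 77) (nat_lit 5) (nat_lit 9) (nat_lit 4) L620847 (by decide +kernel)
theorem L620849 : W_1 (nat_lit 7) (nat_lit 0x14001e0009000000000000000000000000000) (nat_lit 0x0) (nat_lit 0x6000000002000f8007c000000000000000000) := T_1 (nat_lit 145) (nat_lit 146) (nat_lit 3) (nat_lit 6) (nat_lit 7) L620848 (by decide +kernel)
theorem L620850 : W_1 (nat_lit 8) (nat_lit 0x14001e0001000000000000000000000000000) (nat_lit 0x0) (nat_lit 0x600000001a000f8007c000000000000000000) := T_1 (nat_lit 111) (nat_lit 112) (nat_lit 2) (nat_lit 6) (nat_lit 7) L620849 (by decide +kernel)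
theorem L620851 : W_1 (nat_lit 9) (nat_lit 0x10001e0001000000000000000000000000000) (nat_lit 0x0) (nat_lit 0x660000001a000f8007c000000000000000000) := T_1 (nat_lit 142) (nat_lit 141) (nat_lit 1) (nat_lit 9) (nat_lit 7) L620850 (by decide +kernel)
theorem L620852 : W_1 (nat_lit 10) (nat_lit 0x10001e0000000000000000000000000000000) (nat_lit 0x0) (nat_lit 0x660000001b800f8007c000000000000000000) := T_1 (nat_lit 108) (nat_lit 107) (nat_lit 0) (nat_lit 9) (nat_lit 7) L620851 (by decide +kernel)
theorem L620853 : W_1 (nat_lit 11) (nat_lit 0x10000e0000000000000000000000000000000) (nat_lit 0x0) (nat_lit 0x803e600f0007b800f8007c000000000000000000) := Q_1 (nat_lit 128) (C_1 L339462 (C_1 L499559 (C_1 L620852 (C_1 L284587 N_1)))) (by decide +kernel)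
theorem L622988 : W_1 (nat_lit 3) (nat_lit 0x10000c0003000000000000000000000000000) (nat_lit 0x0) (nat_lit 0x320000c00000000000000000000000000) := T_1 (nat_lit 107) (nat_lit 106) (nat_lit 3) (nat_lit 4) (nat_lit 6) L289514 (by decide +kernel)
theorem L623002 : W_1 (nat_lit 3) (nat_lit 0x4000000010003c0002000000000000000000000000000) (nat_lit 0x0) (nat_lit 0x1c800400000000000000000000000000000000) := T_1 (nat_lit 130) (nat_lit 143) (nat_lit 1) (nat_lit 11) (nat_lit 7) L314079 (by decide +kernel)
theorem L623003 : W_1 (nat_lit 4) (nat_lit 0x4000000010001c0002000000000000000000000000000) (nat_lit 0x0) (nat_lit 0x1c800600001000000000000000000000000000) := T_1 (nat_lit 129) (nat_lit 108) (nat_lit 0) (nat_lit 10) (nat_lit 7) L623002 (by decide +kernel)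
theorem L623004 : W_1 (nat_lit 5) (nat_lit 0x10001c0002000000000000000000000000000) (nat_lit 0x0) (nat_lit 0x40002001c800600001000000000000000000000000000) := T_1 (nat_lit 178) (nat_lit 161) (nat_lit 4) (nat_lit 8) (nat_lit 10) L623003 (by decide +kernel)
theorem L623005 : W_1 (nat_lit 6) (nat_lit 0x10001c0002000000000000000000000000000) (nat_lit 0x0) (nat_lit 0xe000e20071000000000000000000000000000) := T_1 (nat_lit 129) (nat_lit 108) (nat_lit 0) (nat_lit 10) (nat_lit 7) L510585 (by decide +kernel)
theorem L623006 : W_1 (nat_lit 2) (nat_lit 0x4000000011001f000a800000020000000000000000000) (nat_lit 0x0) (nat_lit 0x880008000000000000000000000000000000) := D_1 (nat_lit 123) (nat_lit 143) (nat_lit 139) (nat_lit 3) (nat_lit 4) (nat_lit 7) (nat_lit 1) (nat_lit 7) (nat_lit 7) (by decide +kernel)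
theorem L623007 : W_1 (nat_lit 3) (nat_lit 0x4000000010001f000a800000020000000000000000000) (nat_lit 0x0) (nat_lit 0xb80008000000000000000000000000000000) := T_1 (nat_lit 140) (nat_lit 141) (nat_lit 1) (nat_lit 8) (nat_lit 7) L623006 (by decide +kernel)
theorem L623008 : W_1 (nat_lit 4) (nat_lit 0x4000000010001e000a800000020000000000000000000) (nat_lit 0x0) (nat_lit 0xb80018000400000000000000000000000000) := T_1 (nat_lit 124) (nat_lit 106) (nat_lit 0) (nat_lit 8) (nat_lit 7) L623007 (by decide +kernel)
theorem L623009 : W_1 (nat_lit 5) (nat_lit 0x4000000010001e000a800000000000000000000000000) (nat_lit 0x0) (nat_lit 0xb80018000400400020000000000000000000) := T_1 (nat_lit 77) (nat_lit 94) (nat_lit 5) (nat_lit 9) (nat_lit 4) L623008 (by decide +kernel)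
theorem L623010 : W_1 (nat_lit 6) (nat_lit 0x4000000010001e000a000000000000000000000000000) (nat_lit 0x0) (nat_lit 0xb80018001c00400020000000000000000000) := T_1 (nat_lit 107) (nat_lit 108) (nat_lit 0) (nat_lit 9) (nat_lit 7) L623009 (by decide +kernel)
theorem L623011 : W_1 (nat_lit 7) (nat_lit 0x4000000010001e0002000000000000000000000000000) (nat_lit 0x0) (nat_lit 0xb80018019c00400020000000000000000000) := T_1 (nat_lit 111) (nat_lit 112) (nat_lit 2) (nat_lit 6) (nat_lit 7) L623010 (by decide +kernel)
theorem L623012 : W_1 (nat_lit 8) (nat_lit 0x10001e0002000000000000000000000000000) (nat_lit 0x0) (nat_lit 0x400020000b80018019c00400020000000000000000000) := T_1 (nat_lit 178) (nat_lit 161) (nat_lit 4) (nat_lit 8) (nat_lit 10) L623011 (by decide +kernel)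
theorem L623013 : W_1 (nat_lit 2) (nat_lit 0x200030001e0003000000000000000000000000000) (nat_lit 0x0) (nat_lit 0x18000400000000000000000000000) := D_1 (nat_lit 111) (nat_lit 112) (nat_lit 94) (nat_lit 2) (nat_lit 6) (nat_lit 7) (nat_lit 5) (nat_lit 9) (nat_lit 5) (by decide +kernel)
theorem L623014 : W_1 (nat_lit 3) (nat_lit 0x30001e0003000000000000000000000000000) (nat_lit 0x0) (nat_lit 0x400020000000000018000400000000000000000000000) := T_1 (nat_lit 161) (nat_lit 178) (nat_lit 4) (nat_lit 8) (nat_lit 10) L623013 (by decide +kernel)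
theorem L623015 : W_1 (nat_lit 4) (nat_lit 0x10001e0003000000000000000000000000000) (nat_lit 0x0) (nat_lit 0x400020006000000018000400000000000000000000000) := T_1 (nat_lit 145) (nat_lit 146) (nat_lit 3) (nat_lit 6) (nat_lit 7) L623014 (by decide +kernel)
theorem L623016 : W_1 (nat_lit 5) (nat_lit 0x10001e0002000000000000000000000000000) (nat_lit 0x0) (nat_lit 0x400020006000000019800400000000000000000000000) := T_1 (nat_lit 108) (nat_lit 107) (nat_lit 0) (nat_lit 9) (nat_lit 7) L623015 (by decide +kernel)
theorem L623017 : W_1 (nat_lit 9) (nat_lit 0x10001c0002000000000000000000000000000) (nat_lit 0x0) (nat_lit 0x400020006b80038019c00400020000000000000000000) := Q_1 (nat_lit 125) (C_1 L345920 (C_1 L623012 (C_1 L623016 N_1))) (by decide +kernel)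
theorem L623018 : W_1 (nat_lit 5) (nat_lit 0x4000000010003c0002000000000000000000000000000) (nat_lit 0x0) (nat_lit 0x38800c000e0000000000000000000000000000) := T_1 (nat_lit 130) (nat_lit 143) (nat_lit 1) (nat_lit 11) (nat_lit 7) L314019 (by decide +kernel)
theorem L623019 : W_1 (nat_lit 6) (nat_lit 0x4000000010001c0002000000000000000000000000000) (nat_lit 0x0) (nat_lit 0x38800e000e1000000000000000000000000000) := T_1 (nat_lit 129) (nat_lit 108) (nat_lit 0) (nat_lit 10) (nat_lit 7) L623018 (by decide +kernel)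
theorem L623020 : W_1 (nat_lit 7) (nat_lit 0x10001c0002000000000000000000000000000) (nat_lit 0x0) (nat_lit 0x400020038800e000e1000000000000000000000000000) := T_1 (nat_lit 178) (nat_lit 161) (nat_lit 4) (nat_lit 8) (nat_lit 10) L623019 (by decide +kernel)
theorem L623021 : W_1 (nat_lit 2) (nat_lit 0x4000800070003c0012001c00000000000000000000000) (nat_lit 0x0) (nat_lit 0x2000100000800000000000000000000000000000000000) := D_1 (nat_lit 164) (nat_lit 143) (nat_lit 181) (nat_lit 3) (nat_lit 7) (nat_lit 8) (nat_lit 7) (nat_lit 10) (nat_lit 6) (by decide +kernel)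
theorem L623022 : W_1 (nat_lit 3) (nat_lit 0x4000000070003c0012001c00000000000000000000000) (nat_lit 0x0) (nat_lit 0x2000180000800000008000000000000000000000000000) := T_1 (nat_lit 163) (nat_lit 111) (nat_lit 7) (nat_lit 9) (nat_lit 5) L623021 (by decide +kernel)
theorem L623023 : W_1 (nat_lit 4) (nat_lit 0x4000000070003c0012000c00000000000000000000000) (nat_lit 0x0) (nat_lit 0x2000180000800000008001000080000000000000000000) := T_1 (nat_lit 96) (nat_lit 79) (nat_lit 6) (nat_lit 10) (nat_lit 8) L623022 (by decide +kernel)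
theorem L623024 : W_1 (nat_lit 5) (nat_lit 0x4000000070003c0012000800000000000000000000000) (nat_lit 0x0) (nat_lit 0x20001800008000000080014000a0000000000000000000) := T_1 (nat_lit 94) (nat_lit 77) (nat_lit 4) (nat_lit 10) (nat_lit 8) L623023 (by decide +kernel)
theorem L623025 : W_1 (nat_lit 6) (nat_lit 0x4000000070003c0012000000000000000000000000000) (nat_lit 0x0) (nat_lit 0x2000180000800000008001c000e0000000000000000000) := T_1 (nat_lit 95) (nat_lit 78) (nat_lit 5) (nat_lit 10) (nat_lit 4) L623024 (by decide +kernel)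
theorem L623026 : W_1 (nat_lit 7) (nat_lit 0x4000000070003c0002000000000000000000000000000) (nat_lit 0x0) (nat_lit 0x2000180000800000038001c000e0000000000000000000) := T_1 (nat_lit 112) (nat_lit 113) (nat_lit 2) (nat_lit 7) (nat_lit 7) L623025 (by decide +kernel)
theorem L623027 : W_1 (nat_lit 8) (nat_lit 0x4000000030003c0002000000000000000000000000000) (nat_lit 0x0) (nat_lit 0x200018000c800000038001c000e0000000000000000000) := T_1 (nat_lit 146) (nat_lit 147) (nat_lit 3) (nat_lit 7) (nat_lit 7) L623026 (by decide +kernel)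
theorem L623028 : W_1 (nat_lit 9) (nat_lit 0x30003c0002000000000000000000000000000) (nat_lit 0x0) (nat_lit 0x24001a000c800000038001c000e0000000000000000000) := T_1 (nat_lit 178) (nat_lit 161) (nat_lit 4) (nat_lit 8) (nat_lit 10) L623027 (by decide +kernel)
theorem L623029 : W_1 (nat_lit 10) (nat_lit 0x30001c0002000000000000000000000000000) (nat_lit 0x0) (nat_lit 0x24001a001c800e00078001c000e0000000000000000000) := Q_1 (nat_lit 129) (C_1 L345992 (C_1 L345979 (C_1 L623028 N_1))) (by decide +kernel)
theorem L623030 : W_1 (nat_lit 11) (nat_lit 0x10001c0002000000000000000000000000000) (nat_lit 0x0) (nat_lit 0x24001a001e800e30078001c000e0000000000000000000) := Q_1 (nat_lit 145) (C_1 L345941 (C_1 L345938 (C_1 L623029 N_1))) (by decide +kernel)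
theorem L623031 : W_1 (nat_lit 12) (nat_lit 0x10000c0002000000000000000000000000000) (nat_lit 0x0) (nat_lit 0x24001a003eb80f380f9c01c000e0000000000000000000) := Q_1 (nat_lit 128) (C_1 L345999 (C_1 L623004 (C_1 L623005 (C_1 L623017 (C_1 L623020 (C_1 L623030 N_1)))))) (by decide +kernel)
theorem L623033 : W_1 (nat_lit 2) (nat_lit 0x14001e0010000000000000000000000000000) (nat_lit 0x0) (nat_lit 0x800200020000000000000000000000000000) := D_1 (nat_lit 129) (nat_lit 143) (nat_lit 113) (nat_lit 1) (nat_lit 10) (nat_lit 7) (nat_lit 2) (nat_lit 7) (nat_lit 7) (by decide +kernel)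
theorem L623034 : W_1 (nat_lit 3) (nat_lit 0x14001e0000000000000000000000000000000) (nat_lit 0x0) (nat_lit 0x800200038000000000000000000000000000) := T_1 (nat_lit 112) (nat_lit 111) (nat_lit 2) (nat_lit 6) (nat_lit 7) L623033 (by decide +kernel)
theorem L623035 : W_1 (nat_lit 4) (nat_lit 0x10001e0000000000000000000000000000000) (nat_lit 0x0) (nat_lit 0xe00200038000000000000000000000000000) := T_1 (nat_lit 142) (nat_lit 141) (nat_lit 1) (nat_lit 9) (nat_lit 7) L623034 (by decide +kernel)
theorem L623036 : W_1 (nat_lit 5) (nat_lit 0x10000e0000000000000000000000000000000) (nat_lit 0x0) (nat_lit 0xf0031003bc00000000000000000000000000) := Q_1 (nat_lit 128) (C_1 L339462 (C_1 L339465 (C_1 L623035 N_1))) (by decide +kernel)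
theorem L623037 : W_1 (nat_lit 12) (nat_lit 0x10000c0000000000000000000000000000000) (nat_lit 0x0) (nat_lit 0x803ef80f3807be00f8007c000000000000000000) := Q_1 (nat_lit 125) (C_1 L620853 (C_1 L619124 (C_1 L623036 (C_1 L616510 N_1)))) (by decide +kernel)
theorem L625688 : W_1 (nat_lit 2) (nat_lit 0xc001e000d0000000000000000000000000000000) (nat_lit 0x0) (nat_lit 0x2000100000000000000000800000000000000000000000000) := D_1 (nat_lit 176) (nat_lit 193) (nat_lit 107) (nat_lit 6) (nat_lit 6) (nat_lit 11) (nat_lit 7) (nat_lit 5) (nat_lit 6) (by decide +kernel)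
theorem L625689 : W_1 (nat_lit 3) (nat_lit 0x4001e000d0000000000000000000000000000000) (nat_lit 0x0) (nat_lit 0x2000100008002000000000800000000000000000000000000) := T_1 (nat_lit 159) (nat_lit 145) (nat_lit 1) (nat_lit 9) (nat_lit 8) L625688 (by decide +kernel)
theorem L625702 : W_1 (nat_lit 2) (nat_lit 0x380018000c0002000000000000000000000000000) (nat_lit 0x0) (nat_lit 0x6002000000000000000000000000000000000000) := D_1 (nat_lit 158) (nat_lit 145) (nat_lit 157) (nat_lit 2) (nat_lit 5) (nat_lit 9) (nat_lit 2) (nat_lit 4) (nat_lit 9) (by decide +kernel)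
theorem L625703 : W_1 (nat_lit 3) (nat_lit 0x300018000c0002000000000000000000000000000) (nat_lit 0x0) (nat_lit 0x10000e002000000000000000000000000000000000000) := T_1 (nat_lit 159) (nat_lit 176) (nat_lit 5) (nat_lit 7) (nat_lit 6) L625702 (by decide +kernel)
theorem L625704 : W_1 (nat_lit 4) (nat_lit 0x100018000c0002000000000000000000000000000) (nat_lit 0x0) (nat_lit 0x50002e002000000000000000000000000000000000000) := T_1 (nat_lit 161) (nat_lit 178) (nat_lit 7) (nat_lit 7) (nat_lit 6) L625703 (by decide +kernel)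
theorem L625707 : W_1 (nat_lit 2) (nat_lit 0x400000001c0018000c0002000000000000000000000000000) (nat_lit 0x0) (nat_lit 0x6400000000000000000000000000000000000) := D_1 (nat_lit 145) (nat_lit 146) (nat_lit 142) (nat_lit 1) (nat_lit 10) (nat_lit 8) (nat_lit 1) (nat_lit 9) (nat_lit 8) (by decide +kernel)
theorem L625708 : W_1 (nat_lit 3) (nat_lit 0x40000000180018000c0002000000000000000000000000000) (nat_lit 0x0) (nat_lit 0x6006400000000000000000000000000000000000) := T_1 (nat_lit 158) (nat_lit 157) (nat_lit 2) (nat_lit 4) (nat_lit 9) L625707 (by decide +kernel)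
theorem L625709 : W_1 (nat_lit 4) (nat_lit 0x40000000100018000c0002000000000000000000000000000) (nat_lit 0x0) (nat_lit 0x10000e006400000000000000000000000000000000000) := T_1 (nat_lit 159) (nat_lit 176) (nat_lit 5) (nat_lit 7) (nat_lit 6) L625708 (by decide +kernel)
theorem L625710 : W_1 (nat_lit 5) (nat_lit 0x100018000c0002000000000000000000000000000) (nat_lit 0x0) (nat_lit 0x400030000e006400000000000000000000000000000000000) := T_1 (nat_lit 194) (nat_lit 177) (nat_lit 6) (nat_lit 7) (nat_lit 11) L625709 (by decide +kernel)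
theorem L625750 : W_1 (nat_lit 2) (nat_lit 0x20001c001c0000000000000000000000000000000) (nat_lit 0x0) (nat_lit 0x8000400000000000000008000000000000000000000000000) := D_1 (nat_lit 178) (nat_lit 195) (nat_lit 111) (nat_lit 4) (nat_lit 8) (nat_lit 11) (nat_lit 6) (nat_lit 8) (nat_lit 10) (by decide +kernel)
theorem L628233 : W_1 (nat_lit 2) (nat_lit 0x10000800058002c0038000000000000000000000000000) (nat_lit 0x0) (nat_lit 0x40002000100000000000000000000000000000000000000000) := D_1 (nat_lit 181) (nat_lit 164) (nat_lit 198) (nat_lit 7) (nat_lit 10) (nat_lit 6) (nat_lit 7) (nat_lit 10) (nat_lit 7) (by decide +kernel)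
theorem L628234 : W_1 (nat_lit 3) (nat_lit 0x800058002c0038000000000000000000000000000) (nat_lit 0x0) (nat_lit 0x40003000100000000400000000000000000000000000000000) := T_1 (nat_lit 180) (nat_lit 130) (nat_lit 6) (nat_lit 10) (nat_lit 10) L628233 (by decide +kernel)
theorem L628235 : W_1 (nat_lit 4) (nat_lit 0x800058002c0030000000000000000000000000000) (nat_lit 0x0) (nat_lit 0x40003000100000000400008000400000000000000000000000) := T_1 (nat_lit 111) (nat_lit 94) (nat_lit 4) (nat_lit 10) (nat_lit 9) L628234 (by decide +kernel)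
theorem L628236 : W_1 (nat_lit 5) (nat_lit 0x800058002c0010000000000000000000000000000) (nat_lit 0x0) (nat_lit 0x40003000100000000400028001400000000000000000000000) := T_1 (nat_lit 113) (nat_lit 96) (nat_lit 6) (nat_lit 10) (nat_lit 9) L628235 (by decide +kernel)
theorem L628291 : W_1 (nat_lit 2) (nat_lit 0x20000800058002c0030000000000000000000000000000) (nat_lit 0x0) (nat_lit 0x40001000000000000400000000000000000000000000000000) := D_1 (nat_lit 180) (nat_lit 198) (nat_lit 130) (nat_lit 7) (nat_lit 10) (nat_lit 7) (nat_lit 6) (nat_lit 10) (nat_lit 10) (by decide +kernel)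
theorem L628292 : W_1 (nat_lit 3) (nat_lit 0x20000800058002c0010000000000000000000000000000) (nat_lit 0x0) (nat_lit 0x40001000000000000400020001000000000000000000000000) := T_1 (nat_lit 113) (nat_lit 96) (nat_lit 6) (nat_lit 10) (nat_lit 9) L628291 (by decide +kernel)
theorem L628427 : W_1 (nat_lit 2) (nat_lit 0x1c000c0002000300000000000000000000000) (nat_lit 0x0) (nat_lit 0x300100000000000000000000000000000000) := D_1 (nat_lit 141) (nat_lit 128) (nat_lit 140) (nat_lit 2) (nat_lit 5) (nat_lit 8) (nat_lit 2) (nat_lit 4) (nat_lit 8) (by decide +kernel)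
theorem L628428 : W_1 (nat_lit 3) (nat_lit 0x18000c0002000300000000000000000000000) (nat_lit 0x0) (nat_lit 0x8000700100000000000000000000000000000000) := T_1 (nat_lit 142) (nat_lit 159) (nat_lit 5) (nat_lit 7) (nat_lit 5) L628427 (by decide +kernel)
theorem L628429 : W_1 (nat_lit 4) (nat_lit 0x18000c0002000100000000000000000000000) (nat_lit 0x0) (nat_lit 0x8000700100000000200010000000000000000000) := T_1 (nat_lit 93) (nat_lit 76) (nat_lit 6) (nat_lit 7) (nat_lit 8) L628428 (by decide +kernel)
theorem L635170 : W_1 (nat_lit 2) (nat_lit 0x2000300010000c0002000000000000000000000000000) (nat_lit 0x0) (nat_lit 0x80004000000000000800000000000000000000000000000000000) := D_1 (nat_lit 194) (nat_lit 143) (nat_lit 211) (nat_lit 6) (nat_lit 7) (nat_lit 11) (nat_lit 6) (nat_lit 7) (nat_lit 12) (by decide +kernel)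
theorem L640794 : W_1 (nat_lit 2) (nat_lit 0x58003c0012000780000000000000000000000) (nat_lit 0x0) (nat_lit 0x800060000000000000000000) := D_1 (nat_lit 77) (nat_lit 78) (nat_lit 95) (nat_lit 2) (nat_lit 6) (nat_lit 5) (nat_lit 4) (nat_lit 10) (nat_lit 8) (by decide +kernel)
theorem L640795 : W_1 (nat_lit 3) (nat_lit 0x58003c0012000380000000000000000000000) (nat_lit 0x0) (nat_lit 0x8000c00060000000000000000000) := T_1 (nat_lit 94) (nat_lit 111) (nat_lit 3) (nat_lit 6) (nat_lit 5) L640794 (by decide +kernel)
theorem L640822 : W_1 (nat_lit 2) (nat_lit 0x18001c001c0002000000000000000000000000000) (nat_lit 0x0) (nat_lit 0x6002000000000000000000000000000000000000) := D_1 (nat_lit 158) (nat_lit 157) (nat_lit 145) (nat_lit 2) (nat_lit 4) (nat_lit 9) (nat_lit 1) (nat_lit 9) (nat_lit 8) (by decide +kernel)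
theorem L640823 : W_1 (nat_lit 3) (nat_lit 0x10001c001c0002000000000000000000000000000) (nat_lit 0x0) (nat_lit 0x10000e002000000000000000000000000000000000000) := T_1 (nat_lit 159) (nat_lit 176) (nat_lit 5) (nat_lit 7) (nat_lit 6) L640822 (by decide +kernel)
theorem L640824 : W_1 (nat_lit 4) (nat_lit 0x100018001c0002000000000000000000000000000) (nat_lit 0x0) (nat_lit 0x10000e002600000000000000000000000000000000000) := T_1 (nat_lit 142) (nat_lit 141) (nat_lit 2) (nat_lit 5) (nat_lit 8) L640823 (by decide +kernel)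
theorem L655365 : W_1 (nat_lit 2) (nat_lit 0x30001c0058000c0000000000000000000000000000000) (nat_lit 0x0) (nat_lit 0x8000c00000000000000000000000000000000000000000000) := D_1 (nat_lit 178) (nat_lit 179) (nat_lit 195) (nat_lit 0) (nat_lit 9) (nat_lit 10) (nat_lit 7) (nat_lit 7) (nat_lit 7) (by decide +kernel)
theorem L655366 : W_1 (nat_lit 3) (nat_lit 0x20001c0058000c0000000000000000000000000000000) (nat_lit 0x0) (nat_lit 0xa000d00000000000000000000000000000000000000000000) := T_1 (nat_lit 176) (nat_lit 193) (nat_lit 5) (nat_lit 7) (nat_lit 7) L655365 (by decide +kernel)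
theorem L655367 : W_1 (nat_lit 4) (nat_lit 0x1c0058000c0000000000000000000000000000000) (nat_lit 0x0) (nat_lit 0xe000f00000000000000000000000000000000000000000000) := T_1 (nat_lit 177) (nat_lit 194) (nat_lit 6) (nat_lit 7) (nat_lit 11) L655366 (by decide +kernel)
theorem L655368 : W_1 (nat_lit 5) (nat_lit 0x180058000c0000000000000000000000000000000) (nat_lit 0x0) (nat_lit 0xe000f00006000000000000000000000000000000000000000) := T_1 (nat_lit 158) (nat_lit 157) (nat_lit 2) (nat_lit 4) (nat_lit 9) L655367 (by decide +kernel)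
theorem L665257 : W_1 (nat_lit 2) (nat_lit 0x1c0018002c0003400000000000000000000000000) (nat_lit 0x0) (nat_lit 0x6400000000000000000000000000000000000) := D_1 (nat_lit 145) (nat_lit 146) (nat_lit 142) (nat_lit 1) (nat_lit 10) (nat_lit 8) (nat_lit 1) (nat_lit 9) (nat_lit 8) (by decide +kernel)
theorem L665258 : W_1 (nat_lit 3) (nat_lit 0x180018002c0003400000000000000000000000000) (nat_lit 0x0) (nat_lit 0x6006400000000000000000000000000000000000) := T_1 (nat_lit 158) (nat_lit 157) (nat_lit 2) (nat_lit 4) (nat_lit 9) L665257 (by decide +kernel)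
theorem L665259 : W_1 (nat_lit 4) (nat_lit 0x100018002c0003400000000000000000000000000) (nat_lit 0x0) (nat_lit 0x10000e006400000000000000000000000000000000000) := T_1 (nat_lit 159) (nat_lit 176) (nat_lit 5) (nat_lit 7) (nat_lit 6) L665258 (by decide +kernel)
theorem L684329 : W_1 (nat_lit 4) (nat_lit 0x58003c0002000380000000000000000000000) (nat_lit 0x0) (nat_lit 0x38000c00060000000000000000000) := T_1 (nat_lit 112) (nat_lit 113) (nat_lit 2) (nat_lit 7) (nat_lit 7) L640795 (by decide +kernel)
theorem L684330 : W_1 (nat_lit 5) (nat_lit 0x58003c0002000180000000000000000000000) (nat_lit 0x0) (nat_lit 0x38000e00070000000000000000000) := T_1 (nat_lit 93) (nat_lit 76) (nat_lit 6) (nat_lit 7) (nat_lit 8) L684329 (by decide +kernel)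
theorem L684331 : W_1 (nat_lit 6) (nat_lit 0x58003c0002000100000000000000000000000) (nat_lit 0x0) (nat_lit 0x38000e80074000000000000000000) := T_1 (nat_lit 91) (nat_lit 74) (nat_lit 4) (nat_lit 7) (nat_lit 8) L684330 (by decide +kernel)
theorem L707614 : W_1 (nat_lit 2) (nat_lit 0x3c000d0000000000000000000000000000000) (nat_lit 0x0) (nat_lit 0x300008000000000000000000000000000000) := D_1 (nat_lit 141) (nat_lit 140) (nat_lit 123) (nat_lit 2) (nat_lit 4) (nat_lit 8) (nat_lit 0) (nat_lit 8) (nat_lit 8) (by decide +kernel)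
theorem L751456 : W_1 (nat_lit 2) (nat_lit 0x40001000180018000c0000000000000000000000000000000) (nat_lit 0x0) (nat_lit 0x40002000000000000400000000000000000000000000000000000) := D_1 (nat_lit 193) (nat_lit 142) (nat_lit 210) (nat_lit 6) (nat_lit 6) (nat_lit 11) (nat_lit 6) (nat_lit 6) (nat_lit 12) (by decide +kernel)
theorem L751457 : W_1 (nat_lit 3) (nat_lit 0x40000000180018000c0000000000000000000000000000000) (nat_lit 0x0) (nat_lit 0x40002000100000000400000002000000000000000000000000000) := T_1 (nat_lit 176) (nat_lit 109) (nat_lit 5) (nat_lit 7) (nat_lit 6) L751456 (by decide +kernel)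
theorem L771722 : W_1 (nat_lit 2) (nat_lit 0x3000100018000c0002000080000000000000000000000) (nat_lit 0x0) (nat_lit 0x10000c000000000000000000) := D_1 (nat_lit 92) (nat_lit 75) (nat_lit 74) (nat_lit 7) (nat_lit 7) (nat_lit 4) (nat_lit 4) (nat_lit 7) (nat_lit 8) (by decide +kernel)
theorem L771723 : W_1 (nat_lit 3) (nat_lit 0x3000100018000c0002000000000000000000000000000) (nat_lit 0x0) (nat_lit 0x100018000c000000000000000000) := T_1 (nat_lit 91) (nat_lit 108) (nat_lit 4) (nat_lit 7) (nat_lit 9) L771722 (by decide +kernel)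
theorem L771724 : W_1 (nat_lit 4) (nat_lit 0x3000100018000c0000000000000000000000000000000) (nat_lit 0x0) (nat_lit 0x800000000000300018000c000000000000000000) := T_1 (nat_lit 109) (nat_lit 159) (nat_lit 5) (nat_lit 7) (nat_lit 6) L771723 (by decide +kernel)
theorem L771725 : W_1 (nat_lit 5) (nat_lit 0x2000100018000c0000000000000000000000000000000) (nat_lit 0x0) (nat_lit 0x200010000800000000000300018000c000000000000000000) := T_1 (nat_lit 176) (nat_lit 193) (nat_lit 5) (nat_lit 7) (nat_lit 7) L771724 (by decide +kernel)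
theorem L771726 : W_1 (nat_lit 6) (nat_lit 0x100018000c0000000000000000000000000000000) (nat_lit 0x0) (nat_lit 0x600030000800000000000300018000c000000000000000000) := T_1 (nat_lit 177) (nat_lit 194) (nat_lit 6) (nat_lit 7) (nat_lit 11) L771725 (by decide +kernel)
theorem L771727 : W_1 (nat_lit 2) (nat_lit 0x10001c000c0000000000000000000000000000000) (nat_lit 0x0) (nat_lit 0x200300000000000000000000000000000000) := D_1 (nat_lit 128) (nat_lit 129) (nat_lit 141) (nat_lit 1) (nat_lit 10) (nat_lit 7) (nat_lit 2) (nat_lit 5) (nat_lit 8) (by decide +kernel)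
theorem L771728 : W_1 (nat_lit 2) (nat_lit 0x10001c000c0000000000000000000000000000000) (nat_lit 0x0) (nat_lit 0x300100000000000000000000000000000000) := D_1 (nat_lit 141) (nat_lit 128) (nat_lit 140) (nat_lit 2) (nat_lit 5) (nat_lit 8) (nat_lit 2) (nat_lit 4) (nat_lit 8) (by decide +kernel)
theorem L771729 : W_1 (nat_lit 2) (nat_lit 0x1c001e000d0000000000000000000000000000000) (nat_lit 0x0) (nat_lit 0x100000000000000000800040000000000000000000000) := D_1 (nat_lit 107) (nat_lit 176) (nat_lit 90) (nat_lit 7) (nat_lit 5) (nat_lit 6) (nat_lit 7) (nat_lit 5) (nat_lit 5) (by decide +kernel)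
theorem L771730 : W_1 (nat_lit 3) (nat_lit 0x14001e000d0000000000000000000000000000000) (nat_lit 0x0) (nat_lit 0x100008002000000000800040000000000000000000000) := T_1 (nat_lit 159) (nat_lit 145) (nat_lit 1) (nat_lit 9) (nat_lit 8) L771729 (by decide +kernel)
theorem L771731 : W_1 (nat_lit 4) (nat_lit 0x14001e000c0000000000000000000000000000000) (nat_lit 0x0) (nat_lit 0x100008002000018000800040000000000000000000000) := T_1 (nat_lit 124) (nat_lit 123) (nat_lit 0) (nat_lit 8) (nat_lit 8) L771730 (by decide +kernel)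
theorem L771732 : W_1 (nat_lit 5) (nat_lit 0x10001e000c0000000000000000000000000000000) (nat_lit 0x0) (nat_lit 0x10000e002000018000800040000000000000000000000) := T_1 (nat_lit 158) (nat_lit 157) (nat_lit 1) (nat_lit 8) (nat_lit 8) L771731 (by decide +kernel)
theorem L771733 : W_1 (nat_lit 6) (nat_lit 0x10001c000c0000000000000000000000000000000) (nat_lit 0x0) (nat_lit 0x10000e002300018000800040000000000000000000000) := T_1 (nat_lit 141) (nat_lit 140) (nat_lit 2) (nat_lit 4) (nat_lit 8) L771732 (by decide +kernel)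
theorem L771734 : W_1 (nat_lit 2) (nat_lit 0x18001c000c0000000000000000000000000000000) (nat_lit 0x0) (nat_lit 0x4006000000000000000000000000000000000000) := D_1 (nat_lit 145) (nat_lit 158) (nat_lit 146) (nat_lit 1) (nat_lit 9) (nat_lit 8) (nat_lit 1) (nat_lit 10) (nat_lit 8) (by decide +kernel)
theorem L771735 : W_1 (nat_lit 3) (nat_lit 0x10001c000c0000000000000000000000000000000) (nat_lit 0x0) (nat_lit 0x200010000c006000000002000000000000000000000000000) := Q_1 (nat_lit 159) (C_1 L619879 (C_1 L771734 N_1)) (by decide +kernel)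
theorem L771736 : W_1 (nat_lit 7) (nat_lit 0x100018000c0000000000000000000000000000000) (nat_lit 0x0) (nat_lit 0x200010000e006700318002800040000000000000000000000) := Q_1 (nat_lit 142) (C_1 L771727 (C_1 L771728 (C_1 L771733 (C_1 L771735 N_1)))) (by decide +kernel)
theorem L771749 : W_1 (nat_lit 2) (nat_lit 0x100018000c0002000100000000000000000000000) (nat_lit 0x0) (nat_lit 0x1000080004000000000000000000) := D_1 (nat_lit 91) (nat_lit 108) (nat_lit 74) (nat_lit 4) (nat_lit 7) (nat_lit 9) (nat_lit 4) (nat_lit 7) (nat_lit 8) (by decide +kernel)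
theorem L771750 : W_1 (nat_lit 3) (nat_lit 0x100018000c0002000000000000000000000000000) (nat_lit 0x0) (nat_lit 0x100018000c000000000000000000) := T_1 (nat_lit 92) (nat_lit 75) (nat_lit 7) (nat_lit 7) (nat_lit 4) L771749 (by decide +kernel)
theorem L802000 : W_1 (nat_lit 2) (nat_lit 0x200010003c0000000000000000000000000000000) (nat_lit 0x0) (nat_lit 0x40000000000000000a000000000000000000000000000) := D_1 (nat_lit 178) (nat_lit 111) (nat_lit 109) (nat_lit 6) (nat_lit 8) (nat_lit 10) (nat_lit 4) (nat_lit 8) (nat_lit 10) (by decide +kernel)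
theorem L802006 : W_1 (nat_lit 2) (nat_lit 0x10003c0018000400000000000000000000000) (nat_lit 0x0) (nat_lit 0x400020002000000000000000000000000000000000000) := D_1 (nat_lit 161) (nat_lit 178) (nat_lit 145) (nat_lit 6) (nat_lit 8) (nat_lit 10) (nat_lit 5) (nat_lit 9) (nat_lit 5) (by decide +kernel)
theorem L802007 : W_1 (nat_lit 3) (nat_lit 0x10003c0018000000000000000000000000000) (nat_lit 0x0) (nat_lit 0x400020002000000000000400020000000000000000000) := T_1 (nat_lit 94) (nat_lit 77) (nat_lit 5) (nat_lit 9) (nat_lit 4) L802006 (by decide +kernel)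
theorem L802008 : W_1 (nat_lit 4) (nat_lit 0x10003c0008000000000000000000000000000) (nat_lit 0x0) (nat_lit 0x400020002000000030000400020000000000000000000) := T_1 (nat_lit 112) (nat_lit 113) (nat_lit 2) (nat_lit 7) (nat_lit 7) L802007 (by decide +kernel)
theorem L802009 : W_1 (nat_lit 2) (nat_lit 0x4000000050003c0018000000000000000000000000000) (nat_lit 0x0) (nat_lit 0x1000080000000000000000400000000000000000000000) := D_1 (nat_lit 163) (nat_lit 180) (nat_lit 94) (nat_lit 4) (nat_lit 10) (nat_lit 10) (nat_lit 4) (nat_lit 10) (nat_lit 9) (by decide +kernel)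
theorem L802010 : W_1 (nat_lit 3) (nat_lit 0x4000000010003c0018000000000000000000000000000) (nat_lit 0x0) (nat_lit 0x100008000c000000000000400000000000000000000000) := T_1 (nat_lit 146) (nat_lit 147) (nat_lit 3) (nat_lit 7) (nat_lit 7) L802009 (by decide +kernel)
theorem L802011 : W_1 (nat_lit 4) (nat_lit 0x4000000010003c0008000000000000000000000000000) (nat_lit 0x0) (nat_lit 0x100008000c000000030000400000000000000000000000) := T_1 (nat_lit 112) (nat_lit 113) (nat_lit 2) (nat_lit 7) (nat_lit 7) L802010 (by decide +kernel)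
theorem L802012 : W_1 (nat_lit 5) (nat_lit 0x10003c0008000000000000000000000000000) (nat_lit 0x0) (nat_lit 0x14000a000c000000030000400000000000000000000000) := T_1 (nat_lit 178) (nat_lit 161) (nat_lit 6) (nat_lit 8) (nat_lit 10) L802011 (by decide +kernel)
theorem L802013 : W_1 (nat_lit 5) (nat_lit 0x200050003c0010000000000000000000000000000) (nat_lit 0x0) (nat_lit 0x28001c000e00000000000000008000000000000000000000000000) := T_1 (nat_lit 178) (nat_lit 111) (nat_lit 6) (nat_lit 8) (nat_lit 10) L318610 (by decide +kernel)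
theorem L802014 : W_1 (nat_lit 6) (nat_lit 0x200050003c0000000000000000000000000000000) (nat_lit 0x0) (nat_lit 0x28001c000e00000000000000038000000000000000000000000000) := T_1 (nat_lit 112) (nat_lit 113) (nat_lit 2) (nat_lit 7) (nat_lit 7) L802013 (by decide +kernel)
theorem L802015 : W_1 (nat_lit 7) (nat_lit 0x200010003c0000000000000000000000000000000) (nat_lit 0x0) (nat_lit 0x28001c000e0000000c000000038000000000000000000000000000) := T_1 (nat_lit 146) (nat_lit 147) (nat_lit 3) (nat_lit 7) (nat_lit 7) L802014 (by decide +kernel)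
theorem L802124 : W_1 (nat_lit 2) (nat_lit 0x800058003c0018000000000000000000000000000) (nat_lit 0x0) (nat_lit 0x2000100002000000000000000000000000000000000000) := D_1 (nat_lit 164) (nat_lit 181) (nat_lit 145) (nat_lit 7) (nat_lit 10) (nat_lit 6) (nat_lit 3) (nat_lit 7) (nat_lit 8) (by decide +kernel)
theorem L802125 : W_1 (nat_lit 3) (nat_lit 0x800058003c0008000000000000000000000000000) (nat_lit 0x0) (nat_lit 0x2000100002000000030000000000000000000000000000) := T_1 (nat_lit 112) (nat_lit 113) (nat_lit 2) (nat_lit 7) (nat_lit 7) L802124 (by decide +kernel)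
theorem L802126 : W_1 (nat_lit 4) (nat_lit 0x58003c0008000000000000000000000000000) (nat_lit 0x0) (nat_lit 0x3000180002000000030000000000000000000000000000) := T_1 (nat_lit 163) (nat_lit 180) (nat_lit 4) (nat_lit 10) (nat_lit 10) L802125 (by decide +kernel)
theorem L802127 : W_1 (nat_lit 5) (nat_lit 0x18003c0008000000000000000000000000000) (nat_lit 0x0) (nat_lit 0x300018000e000000030000000000000000000000000000) := T_1 (nat_lit 146) (nat_lit 147) (nat_lit 3) (nat_lit 7) (nat_lit 7) L802126 (by decide +kernel)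
theorem L802128 : W_1 (nat_lit 6) (nat_lit 0x10003c0008000000000000000000000000000) (nat_lit 0x0) (nat_lit 0x300018000ec00000030000000000000000000000000000) := T_1 (nat_lit 143) (nat_lit 142) (nat_lit 1) (nat_lit 10) (nat_lit 7) L802127 (by decide +kernel)
theorem L802141 : W_1 (nat_lit 2) (nat_lit 0x1800380000000000000000000000000000000) (nat_lit 0x0) (nat_lit 0x600040000000000000000000000000000000) := D_1 (nat_lit 142) (nat_lit 141) (nat_lit 126) (nat_lit 2) (nat_lit 5) (nat_lit 8) (nat_lit 1) (nat_lit 10) (nat_lit 7) (by decide +kernel)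
theorem L802142 : W_1 (nat_lit 3) (nat_lit 0x1800180000000000000000000000000000000) (nat_lit 0x0) (nat_lit 0x600640000000000000000000000000000000) := T_1 (nat_lit 129) (nat_lit 130) (nat_lit 1) (nat_lit 11) (nat_lit 7) L802141 (by decide +kernel)
theorem L802175 : W_1 (nat_lit 2) (nat_lit 0x3a0018001c0003000000000000000000000000000) (nat_lit 0x0) (nat_lit 0x20000c00000000000000000000000000) := D_1 (nat_lit 107) (nat_lit 106) (nat_lit 125) (nat_lit 3) (nat_lit 4) (nat_lit 6) (nat_lit 0) (nat_lit 9) (nat_lit 7) (by decide +kernel)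
theorem L802176 : W_1 (nat_lit 3) (nat_lit 0x3a0018001c0002000000000000000000000000000) (nat_lit 0x0) (nat_lit 0x20001c00080000000000000000000000) := T_1 (nat_lit 108) (nat_lit 91) (nat_lit 4) (nat_lit 7) (nat_lit 9) L802175 (by decide +kernel)
theorem L802213 : W_1 (nat_lit 2) (nat_lit 0x100018001c0003000000000000000000000000000) (nat_lit 0x0) (nat_lit 0x20000c00000000000000000000000000) := D_1 (nat_lit 107) (nat_lit 106) (nat_lit 125) (nat_lit 3) (nat_lit 4) (nat_lit 6) (nat_lit 0) (nat_lit 9) (nat_lit 7) (by decide +kernel)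
theorem L802214 : W_1 (nat_lit 3) (nat_lit 0x100018001c0002000000000000000000000000000) (nat_lit 0x0) (nat_lit 0x20001c00080000000000000000000000) := T_1 (nat_lit 108) (nat_lit 91) (nat_lit 4) (nat_lit 7) (nat_lit 9) L802213 (by decide +kernel)
theorem L806486 : W_1 (nat_lit 2) (nat_lit 0x300010001a001c001a0000800000000000000000000000000) (nat_lit 0x0) (nat_lit 0x10000c0000000000000000000000) := D_1 (nat_lit 108) (nat_lit 91) (nat_lit 90) (nat_lit 7) (nat_lit 6) (nat_lit 5) (nat_lit 4) (nat_lit 6) (nat_lit 9) (by decide +kernel)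
theorem L806487 : W_1 (nat_lit 3) (nat_lit 0x300010001a001c001a0000000000000000000000000000000) (nat_lit 0x0) (nat_lit 0x100018000c0000000000000000000000) := T_1 (nat_lit 107) (nat_lit 124) (nat_lit 4) (nat_lit 6) (nat_lit 10) L806486 (by decide +kernel)
theorem L806488 : W_1 (nat_lit 4) (nat_lit 0x300010001a001c00180000000000000000000000000000000) (nat_lit 0x0) (nat_lit 0x800000000000300018000c0000000000000000000000) := T_1 (nat_lit 125) (nat_lit 175) (nat_lit 5) (nat_lit 6) (nat_lit 7) L806487 (by decide +kernel)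
theorem L806489 : W_1 (nat_lit 5) (nat_lit 0x200010001a001c00180000000000000000000000000000000) (nat_lit 0x0) (nat_lit 0x200010000800000000000300018000c0000000000000000000000) := T_1 (nat_lit 192) (nat_lit 209) (nat_lit 5) (nat_lit 6) (nat_lit 8) L806488 (by decide +kernel)
theorem L806490 : W_1 (nat_lit 6) (nat_lit 0x10001a001c00180000000000000000000000000000000) (nat_lit 0x0) (nat_lit 0x600030000800000000000300018000c0000000000000000000000) := T_1 (nat_lit 193) (nat_lit 210) (nat_lit 6) (nat_lit 6) (nat_lit 12) L806489 (by decide +kernel)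
theorem L806511 : W_1 (nat_lit 7) (nat_lit 0x100018001c00180000000000000000000000000000000) (nat_lit 0x0) (nat_lit 0x600030000800060000000300018000c0000000000000000000000) := T_1 (nat_lit 157) (nat_lit 158) (nat_lit 2) (nat_lit 4) (nat_lit 9) L806490 (by decide +kernel)
theorem L806512 : W_1 (nat_lit 2) (nat_lit 0x2000100018001c00180000000000000000000000000000000) (nat_lit 0x0) (nat_lit 0x80004000200000000000000000000000000000000000000000000) := D_1 (nat_lit 194) (nat_lit 177) (nat_lit 211) (nat_lit 6) (nat_lit 7) (nat_lit 11) (nat_lit 7) (nat_lit 6) (nat_lit 8) (by decide +kernel)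
theorem L806513 : W_1 (nat_lit 3) (nat_lit 0x100018001c00180000000000000000000000000000000) (nat_lit 0x0) (nat_lit 0xc0006000200000000000000000000000000000000000000000000) := T_1 (nat_lit 193) (nat_lit 210) (nat_lit 6) (nat_lit 6) (nat_lit 12) L806512 (by decide +kernel)
theorem L806514 : W_1 (nat_lit 2) (nat_lit 0x38001a001c001a0000000000000000000000000000000) (nat_lit 0x0) (nat_lit 0x60001000000000000000000000000000000000000000) := D_1 (nat_lit 174) (nat_lit 173) (nat_lit 156) (nat_lit 2) (nat_lit 3) (nat_lit 10) (nat_lit 0) (nat_lit 7) (nat_lit 10) (by decide +kernel)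
theorem L806515 : W_1 (nat_lit 3) (nat_lit 0x30001a001c001a0000000000000000000000000000000) (nat_lit 0x0) (nat_lit 0x10000e0001000000000000000000000000000000000000000) := T_1 (nat_lit 175) (nat_lit 192) (nat_lit 5) (nat_lit 6) (nat_lit 7) L806514 (by decide +kernel)
theorem L806516 : W_1 (nat_lit 4) (nat_lit 0x30001a001c00180000000000000000000000000000000) (nat_lit 0x0) (nat_lit 0x10000e0001000000020001000000000000000000000000000) := T_1 (nat_lit 125) (nat_lit 108) (nat_lit 7) (nat_lit 6) (nat_lit 6) L806515 (by decide +kernel)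
theorem L806517 : W_1 (nat_lit 5) (nat_lit 0x10001a001c00180000000000000000000000000000000) (nat_lit 0x0) (nat_lit 0x50002e0001000000020001000000000000000000000000000) := T_1 (nat_lit 177) (nat_lit 194) (nat_lit 6) (nat_lit 7) (nat_lit 11) L806516 (by decide +kernel)
theorem L806518 : W_1 (nat_lit 6) (nat_lit 0x100018001c00180000000000000000000000000000000) (nat_lit 0x0) (nat_lit 0x50002e0007000000020001000000000000000000000000000) := T_1 (nat_lit 157) (nat_lit 158) (nat_lit 2) (nat_lit 4) (nat_lit 9) L806517 (by decide +kernel)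
theorem L806519 : W_1 (nat_lit 8) (nat_lit 0x18001c00180000000000000000000000000000000) (nat_lit 0x0) (nat_lit 0xe00070003e00070000000300018000c0000000000000000000000) := Q_1 (nat_lit 176) (C_1 L806511 (C_1 L806513 (C_1 L806518 N_1))) (by decide +kernel)
theorem L808094 : W_1 (nat_lit 2) (nat_lit 0x14000400020001800180000000000000000000000000000000) (nat_lit 0x0) (nat_lit 0x280008000000000000000000000000000000000000000000000000) := D_1 (nat_lit 195) (nat_lit 211) (nat_lit 213) (nat_lit 5) (nat_lit 8) (nat_lit 8) (nat_lit 7) (nat_lit 8) (nat_lit 8) (by decide +kernel)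
theorem L808095 : W_1 (nat_lit 3) (nat_lit 0x4000400020001800180000000000000000000000000000000) (nat_lit 0x0) (nat_lit 0x280018000800000000000000000000000000000000000000000000) := T_1 (nat_lit 196) (nat_lit 179) (nat_lit 7) (nat_lit 8) (nat_lit 7) L808094 (by decide +kernel)
theorem L808096 : W_1 (nat_lit 4) (nat_lit 0x400020001800180000000000000000000000000000000) (nat_lit 0x0) (nat_lit 0x28001c000a00000000000000000000000000000000000000000000) := T_1 (nat_lit 194) (nat_lit 177) (nat_lit 5) (nat_lit 8) (nat_lit 7) L808095 (by decide +kernel)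
theorem L822524 : W_1 (nat_lit 2) (nat_lit 0x1800380000000000000000000000000000000) (nat_lit 0x0) (nat_lit 0x2600000000000000000000000000000000000) := D_1 (nat_lit 142) (nat_lit 141) (nat_lit 145) (nat_lit 2) (nat_lit 5) (nat_lit 8) (nat_lit 2) (nat_lit 6) (nat_lit 8) (by decide +kernel)
theorem L822525 : W_1 (nat_lit 3) (nat_lit 0x1800180000000000000000000000000000000) (nat_lit 0x0) (nat_lit 0x2600600000000000000000000000000000000) := T_1 (nat_lit 129) (nat_lit 130) (nat_lit 1) (nat_lit 11) (nat_lit 7) L822524 (by decide +kernel)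
theorem L822545 : W_1 (nat_lit 2) (nat_lit 0x800fc001a0000000000000000000000000000000) (nat_lit 0x0) (nat_lit 0x380000000000000000000000000000000000000000) := D_1 (nat_lit 164) (nat_lit 163) (nat_lit 165) (nat_lit 3) (nat_lit 7) (nat_lit 8) (nat_lit 3) (nat_lit 8) (nat_lit 8) (by decide +kernel)
theorem L822546 : W_1 (nat_lit 3) (nat_lit 0x8007c001a0000000000000000000000000000000) (nat_lit 0x0) (nat_lit 0x380018000000000000000000000000000000000000) := T_1 (nat_lit 147) (nat_lit 148) (nat_lit 0) (nat_lit 12) (nat_lit 8) L822545 (by decide +kernel)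
theorem L822551 : W_1 (nat_lit 4) (nat_lit 0x8003c001a0000000000000000000000000000000) (nat_lit 0x0) (nat_lit 0x39001c000000000000000000000000000000000000) := T_1 (nat_lit 146) (nat_lit 160) (nat_lit 1) (nat_lit 10) (nat_lit 8) L822546 (by decide +kernel)
theorem L822574 : W_1 (nat_lit 2) (nat_lit 0xfc001a0000000000000000000000000000000) (nat_lit 0x0) (nat_lit 0x380000000000000000000000000000000000000000) := D_1 (nat_lit 164) (nat_lit 163) (nat_lit 165) (nat_lit 3) (nat_lit 7) (nat_lit 8) (nat_lit 3) (nat_lit 8) (nat_lit 8) (by decide +kernel)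
theorem L822575 : W_1 (nat_lit 3) (nat_lit 0x7c001a0000000000000000000000000000000) (nat_lit 0x0) (nat_lit 0x380018000000000000000000000000000000000000) := T_1 (nat_lit 147) (nat_lit 148) (nat_lit 0) (nat_lit 12) (nat_lit 8) L822574 (by decide +kernel)
theorem L822576 : W_1 (nat_lit 4) (nat_lit 0x3c001a0000000000000000000000000000000) (nat_lit 0x0) (nat_lit 0x38001c000040000000000000000000000000000000) := T_1 (nat_lit 146) (nat_lit 126) (nat_lit 3) (nat_lit 6) (nat_lit 7) L822575 (by decide +kernel)
theorem L822580 : W_1 (nat_lit 2) (nat_lit 0x1800380000000000000000000000000000000) (nat_lit 0x0) (nat_lit 0x2400040000000000000000000000000000000) := D_1 (nat_lit 142) (nat_lit 126) (nat_lit 145) (nat_lit 1) (nat_lit 10) (nat_lit 7) (nat_lit 2) (nat_lit 6) (nat_lit 8) (by decide +kernel)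
theorem L822581 : W_1 (nat_lit 3) (nat_lit 0x1800180000000000000000000000000000000) (nat_lit 0x0) (nat_lit 0x2400640000000000000000000000000000000) := T_1 (nat_lit 129) (nat_lit 130) (nat_lit 1) (nat_lit 11) (nat_lit 7) L822580 (by decide +kernel)
theorem L837424 : W_1 (nat_lit 2) (nat_lit 0x20001800180008000000000000000000000000000) (nat_lit 0x0) (nat_lit 0x2000000000000400020000000000000000000) := D_1 (nat_lit 94) (nat_lit 77) (nat_lit 145) (nat_lit 5) (nat_lit 9) (nat_lit 4) (nat_lit 5) (nat_lit 9) (nat_lit 5) (by decide +kernel)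
theorem L843515 : W_1 (nat_lit 2) (nat_lit 0x1c001e0001000000000000000000000000000) (nat_lit 0x0) (nat_lit 0x200010000000000000000080000000000000000000000) := D_1 (nat_lit 160) (nat_lit 177) (nat_lit 91) (nat_lit 4) (nat_lit 7) (nat_lit 10) (nat_lit 7) (nat_lit 6) (nat_lit 5) (by decide +kernel)
theorem L843516 : W_1 (nat_lit 3) (nat_lit 0x1c001e0000000000000000000000000000000) (nat_lit 0x0) (nat_lit 0x200010000000000001800080000000000000000000000) := T_1 (nat_lit 108) (nat_lit 107) (nat_lit 0) (nat_lit 9) (nat_lit 7) L843515 (by decide +kernel)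
theorem L843517 : W_1 (nat_lit 4) (nat_lit 0x18001e0000000000000000000000000000000) (nat_lit 0x0) (nat_lit 0x200010000600000001800080000000000000000000000) := T_1 (nat_lit 142) (nat_lit 141) (nat_lit 2) (nat_lit 5) (nat_lit 8) L843516 (by decide +kernel)
theorem L843518 : W_1 (nat_lit 2) (nat_lit 0x58001e0001000080000000000000000000000) (nat_lit 0x0) (nat_lit 0x200010000000000002000000000000000000000000000) := D_1 (nat_lit 160) (nat_lit 177) (nat_lit 109) (nat_lit 4) (nat_lit 7) (nat_lit 10) (nat_lit 4) (nat_lit 7) (nat_lit 9) (by decide +kernel)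
theorem L843519 : W_1 (nat_lit 3) (nat_lit 0x58001e0001000000000000000000000000000) (nat_lit 0x0) (nat_lit 0x200010000000000002000080004000000000000000000) := T_1 (nat_lit 91) (nat_lit 74) (nat_lit 7) (nat_lit 6) (nat_lit 4) L843518 (by decide +kernel)
theorem L843520 : W_1 (nat_lit 4) (nat_lit 0x18001e0001000000000000000000000000000) (nat_lit 0x0) (nat_lit 0x200010006000000002000080004000000000000000000) := T_1 (nat_lit 146) (nat_lit 145) (nat_lit 3) (nat_lit 6) (nat_lit 7) L843519 (by decide +kernel)
theorem L843521 : W_1 (nat_lit 5) (nat_lit 0x18001e0000000000000000000000000000000) (nat_lit 0x0) (nat_lit 0x200010006000000003800080004000000000000000000) := T_1 (nat_lit 108) (nat_lit 107) (nat_lit 0) (nat_lit 9) (nat_lit 7) L843520 (by decide +kernel)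
theorem L843522 : W_1 (nat_lit 2) (nat_lit 0x8003c001e0001000000004000000000000000000) (nat_lit 0x0) (nat_lit 0x100000000000000002000100000000000000000000000) := D_1 (nat_lit 109) (nat_lit 92) (nat_lit 176) (nat_lit 6) (nat_lit 6) (nat_lit 9) (nat_lit 6) (nat_lit 6) (nat_lit 10) (by decide +kernel)
theorem L843523 : W_1 (nat_lit 3) (nat_lit 0x3c001e0001000000004000000000000000000) (nat_lit 0x0) (nat_lit 0x10000c000000000002000100000000000000000000000) := T_1 (nat_lit 159) (nat_lit 158) (nat_lit 1) (nat_lit 9) (nat_lit 8) L843522 (by decide +kernel)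
theorem L843524 : W_1 (nat_lit 4) (nat_lit 0x1c001e0001000000004000000000000000000) (nat_lit 0x0) (nat_lit 0x10000c006000000002000100000000000000000000000) := T_1 (nat_lit 145) (nat_lit 146) (nat_lit 3) (nat_lit 6) (nat_lit 7) L843523 (by decide +kernel)
theorem L843525 : W_1 (nat_lit 5) (nat_lit 0x1c001e0001000000000000000000000000000) (nat_lit 0x0) (nat_lit 0x10000c006000000002000180004000000000000000000) := T_1 (nat_lit 74) (nat_lit 91) (nat_lit 7) (nat_lit 6) (nat_lit 4) L843524 (by decide +kernel)
theorem L843526 : W_1 (nat_lit 6) (nat_lit 0x18001e0001000000000000000000000000000) (nat_lit 0x0) (nat_lit 0x10000c006600000002000180004000000000000000000) := T_1 (nat_lit 142) (nat_lit 141) (nat_lit 2) (nat_lit 5) (nat_lit 8) L843525 (by decide +kernel)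
theorem L843527 : W_1 (nat_lit 7) (nat_lit 0x18001e0000000000000000000000000000000) (nat_lit 0x0) (nat_lit 0x10000c006600000003800180004000000000000000000) := T_1 (nat_lit 108) (nat_lit 107) (nat_lit 0) (nat_lit 9) (nat_lit 7) L843526 (by decide +kernel)
theorem L843528 : W_1 (nat_lit 2) (nat_lit 0x8003c001e0000000000000000000000000000000) (nat_lit 0x0) (nat_lit 0x100000000000000002000100000000000000000000000) := D_1 (nat_lit 109) (nat_lit 92) (nat_lit 176) (nat_lit 5) (nat_lit 7) (nat_lit 5) (nat_lit 6) (nat_lit 6) (nat_lit 10) (by decide +kernel)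
theorem L843529 : W_1 (nat_lit 3) (nat_lit 0x3c001e0000000000000000000000000000000) (nat_lit 0x0) (nat_lit 0x10000c000000000002000100000000000000000000000) := T_1 (nat_lit 159) (nat_lit 158) (nat_lit 1) (nat_lit 9) (nat_lit 8) L843528 (by decide +kernel)
theorem L843530 : W_1 (nat_lit 4) (nat_lit 0x38001e0000000000000000000000000000000) (nat_lit 0x0) (nat_lit 0x10000c000600000002000100000000000000000000000) := T_1 (nat_lit 142) (nat_lit 141) (nat_lit 2) (nat_lit 5) (nat_lit 8) L843529 (by decide +kernel)
theorem L843531 : W_1 (nat_lit 5) (nat_lit 0x18001e0000000000000000000000000000000) (nat_lit 0x0) (nat_lit 0x10000c006600000002000100000000000000000000000) := T_1 (nat_lit 145) (nat_lit 146) (nat_lit 3) (nat_lit 6) (nat_lit 7) L843530 (by decide +kernel)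
theorem L843532 : W_1 (nat_lit 8) (nat_lit 0x10001e0000000000000000000000000000000) (nat_lit 0x0) (nat_lit 0x30001c006e00000003800180004000000000000000000) := Q_1 (nat_lit 143) (C_1 L843517 (C_1 L843521 (C_1 L843527 (C_1 L843531 N_1)))) (by decide +kernel)
theorem L867573 : W_1 (nat_lit 2) (nat_lit 0x108007c00180000000000000000000000000000000) (nat_lit 0x0) (nat_lit 0x200018000000000000000000000000000000000000) := D_1 (nat_lit 147) (nat_lit 148) (nat_lit 165) (nat_lit 0) (nat_lit 12) (nat_lit 8) (nat_lit 3) (nat_lit 8) (nat_lit 8) (by decide +kernel)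
theorem L867574 : W_1 (nat_lit 3) (nat_lit 0x8007c00180000000000000000000000000000000) (nat_lit 0x0) (nat_lit 0x380018000000000000000000000000000000000000) := T_1 (nat_lit 164) (nat_lit 163) (nat_lit 3) (nat_lit 7) (nat_lit 8) L867573 (by decide +kernel)
theorem L867866 : W_1 (nat_lit 2) (nat_lit 0x1000100018001c001a0003800000000000000000000000000) (nat_lit 0x0) (nat_lit 0x60002000000000000000000000000000000000000000000000000) := D_1 (nat_lit 193) (nat_lit 210) (nat_lit 209) (nat_lit 6) (nat_lit 6) (nat_lit 12) (nat_lit 5) (nat_lit 6) (nat_lit 8) (by decide +kernel)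
theorem L867867 : W_1 (nat_lit 3) (nat_lit 0x100018001c001a0003800000000000000000000000000) (nat_lit 0x0) (nat_lit 0x60003000080000000000000000000000000000000000000000000) := T_1 (nat_lit 192) (nat_lit 175) (nat_lit 5) (nat_lit 6) (nat_lit 7) L867866 (by decide +kernel)
theorem L867868 : W_1 (nat_lit 4) (nat_lit 0x18001c001a0003800000000000000000000000000) (nat_lit 0x0) (nat_lit 0x60003000180000000000010000000000000000000000000000000) := T_1 (nat_lit 176) (nat_lit 124) (nat_lit 4) (nat_lit 6) (nat_lit 10) L867867 (by decide +kernel)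
theorem L867869 : W_1 (nat_lit 5) (nat_lit 0x18001c001a0003000000000000000000000000000) (nat_lit 0x0) (nat_lit 0x60003000180000000000010000800040000000000000000000000) := T_1 (nat_lit 107) (nat_lit 90) (nat_lit 4) (nat_lit 6) (nat_lit 9) L867868 (by decide +kernel)
theorem L867919 : W_1 (nat_lit 2) (nat_lit 0x8001c001b4000800000000000000000000000000) (nat_lit 0x0) (nat_lit 0x1000040002000000000000000000) := D_1 (nat_lit 90) (nat_lit 108) (nat_lit 73) (nat_lit 4) (nat_lit 6) (nat_lit 9) (nat_lit 7) (nat_lit 5) (nat_lit 4) (by decide +kernel)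
theorem L867920 : W_1 (nat_lit 3) (nat_lit 0x8001c001b4000000000000000000000000000000) (nat_lit 0x0) (nat_lit 0x100000000000000001800040002000000000000000000) := T_1 (nat_lit 107) (nat_lit 176) (nat_lit 4) (nat_lit 6) (nat_lit 10) L867919 (by decide +kernel)
theorem L867921 : W_1 (nat_lit 4) (nat_lit 0x8001c001b0000000000000000000000000000000) (nat_lit 0x0) (nat_lit 0x10000000000000c001800040002000000000000000000) := T_1 (nat_lit 122) (nat_lit 123) (nat_lit 3) (nat_lit 3) (nat_lit 7) L867920 (by decide +kernel)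
theorem L870768 : W_1 (nat_lit 2) (nat_lit 0x1a001c00028003c0001000000000000000000) (nat_lit 0x0) (nat_lit 0x10000000020000800000000000000000) := D_1 (nat_lit 89) (nat_lit 71) (nat_lit 124) (nat_lit 0) (nat_lit 7) (nat_lit 5) (nat_lit 4) (nat_lit 5) (nat_lit 8) (by decide +kernel)
theorem L870769 : W_1 (nat_lit 3) (nat_lit 0x1a001c00028003c0000000000000000000000) (nat_lit 0x0) (nat_lit 0x10000000020003800000000000000000) := T_1 (nat_lit 72) (nat_lit 73) (nat_lit 0) (nat_lit 8) (nat_lit 5) L870768 (by decide +kernel)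
theorem L870770 : W_1 (nat_lit 4) (nat_lit 0x1a001c0002800380000000000000000000000) (nat_lit 0x0) (nat_lit 0x10000400060003800000000000000000) := T_1 (nat_lit 90) (nat_lit 106) (nat_lit 1) (nat_lit 8) (nat_lit 5) L870769 (by decide +kernel)
theorem L870805 : W_1 (nat_lit 5) (nat_lit 0x1a001c0002800300000000000000000000000) (nat_lit 0x0) (nat_lit 0x100004000e0007800000000000000000) := T_1 (nat_lit 91) (nat_lit 74) (nat_lit 4) (nat_lit 7) (nat_lit 8) L870770 (by decide +kernel)
theorem L870806 : W_1 (nat_lit 6) (nat_lit 0x1a001c0002800100000000000000000000000) (nat_lit 0x0) (nat_lit 0x100004002e0017800000000000000000) := T_1 (nat_lit 93) (nat_lit 76) (nat_lit 6) (nat_lit 7) (nat_lit 8) L870805 (by decide +kernel)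
theorem L870937 : W_1 (nat_lit 7) (nat_lit 0x1a001c0002800000000000000000000000000) (nat_lit 0x0) (nat_lit 0x100004003e001f800000000000000000) := T_1 (nat_lit 92) (nat_lit 75) (nat_lit 7) (nat_lit 7) (nat_lit 4) L870806 (by decide +kernel)
theorem L876484 : W_1 (nat_lit 2) (nat_lit 0x1a001c0003800300000000000000000000000) (nat_lit 0x0) (nat_lit 0xc80000000000000000000000) := D_1 (nat_lit 94) (nat_lit 95) (nat_lit 91) (nat_lit 1) (nat_lit 10) (nat_lit 5) (nat_lit 1) (nat_lit 9) (nat_lit 5) (by decide +kernel)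
theorem L876485 : W_1 (nat_lit 3) (nat_lit 0x1a001c0003800100000000000000000000000) (nat_lit 0x0) (nat_lit 0xe80010000000000000000000) := T_1 (nat_lit 93) (nat_lit 76) (nat_lit 6) (nat_lit 7) (nat_lit 8) L876484 (by decide +kernel)
theorem L897113 : W_1 (nat_lit 5) (nat_lit 0x3c001a0000000000000000000000000000000) (nat_lit 0x0) (nat_lit 0x39c01c000000000000000000000000000000000000) := T_1 (nat_lit 159) (nat_lit 158) (nat_lit 1) (nat_lit 9) (nat_lit 8) L822551 (by decide +kernel)
theorem L897114 : W_1 (nat_lit 6) (nat_lit 0x1c001a0000000000000000000000000000000) (nat_lit 0x0) (nat_lit 0x39c01e000010000000000000000000000000000000) := T_1 (nat_lit 145) (nat_lit 124) (nat_lit 0) (nat_lit 9) (nat_lit 8) L897113 (by decide +kernel)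
theorem L897130 : W_1 (nat_lit 5) (nat_lit 0x8001c001a0000000000000000000000000000000) (nat_lit 0x0) (nat_lit 0x10000000200001c001800040002000000000000000000) := T_1 (nat_lit 124) (nat_lit 145) (nat_lit 0) (nat_lit 9) (nat_lit 8) L867921 (by decide +kernel)
theorem L897347 : W_1 (nat_lit 7) (nat_lit 0x18001a0000000000000000000000000000000) (nat_lit 0x0) (nat_lit 0x39c01e600010000000000000000000000000000000) := T_1 (nat_lit 142) (nat_lit 141) (nat_lit 2) (nat_lit 5) (nat_lit 8) L897114 (by decide +kernel)
theorem L934855 : W_1 (nat_lit 2) (nat_lit 0x40002000100014001e0000000000000000000000000000000) (nat_lit 0x0) (nat_lit 0x80000000100008000000000000000000000000000000000000000) := D_1 (nat_lit 159) (nat_lit 176) (nat_lit 211) (nat_lit 7) (nat_lit 6) (nat_lit 7) (nat_lit 4) (nat_lit 7) (nat_lit 12) (by decide +kernel)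
theorem L952715 : W_1 (nat_lit 3) (nat_lit 0x2000100014001e0000000000000000000000000000000) (nat_lit 0x0) (nat_lit 0x80004000100008000800000000000000000000000000000000000) := T_1 (nat_lit 194) (nat_lit 143) (nat_lit 6) (nat_lit 7) (nat_lit 11) L934855 (by decide +kernel)
theorem L979459 : W_1 (nat_lit 2) (nat_lit 0x18000e0000000000000000000000000000000) (nat_lit 0x0) (nat_lit 0x2000018000000000000000000000000000000) := D_1 (nat_lit 124) (nat_lit 123) (nat_lit 145) (nat_lit 3) (nat_lit 4) (nat_lit 7) (nat_lit 3) (nat_lit 5) (nat_lit 7) (by decide +kernel)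
theorem L979461 : W_1 (nat_lit 2) (nat_lit 0x1a000f0001800000000000000000000000000) (nat_lit 0x0) (nat_lit 0x4000000000000000080004000000000000000000) := D_1 (nat_lit 91) (nat_lit 74) (nat_lit 158) (nat_lit 7) (nat_lit 6) (nat_lit 4) (nat_lit 6) (nat_lit 5) (nat_lit 9) (by decide +kernel)
theorem L979462 : W_1 (nat_lit 3) (nat_lit 0x1a000f0000800000000000000000000000000) (nat_lit 0x0) (nat_lit 0x4000000100001000080004000000000000000000) := T_1 (nat_lit 108) (nat_lit 128) (nat_lit 0) (nat_lit 9) (nat_lit 7) L979461 (by decide +kernel)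
theorem L979463 : W_1 (nat_lit 4) (nat_lit 0x1a000f0000000000000000000000000000000) (nat_lit 0x0) (nat_lit 0x4000000100001c00080004000000000000000000) := T_1 (nat_lit 107) (nat_lit 106) (nat_lit 0) (nat_lit 8) (nat_lit 7) L979462 (by decide +kernel)
theorem L979464 : W_1 (nat_lit 5) (nat_lit 0x18000f0000000000000000000000000000000) (nat_lit 0x0) (nat_lit 0x4000300100001c00080004000000000000000000) := T_1 (nat_lit 141) (nat_lit 140) (nat_lit 1) (nat_lit 8) (nat_lit 7) L979463 (by decide +kernel)
theorem L979465 : W_1 (nat_lit 6) (nat_lit 0x18000e0000000000000000000000000000000) (nat_lit 0x0) (nat_lit 0x4000300118001c00080004000000000000000000) := T_1 (nat_lit 124) (nat_lit 123) (nat_lit 3) (nat_lit 4) (nat_lit 7) L979464 (by decide +kernel)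
theorem L979492 : W_1 (nat_lit 3) (nat_lit 0x1a000f0000800000000000000000000000000) (nat_lit 0x0) (nat_lit 0x100008000400100000000040000000000000000000000) := T_1 (nat_lit 142) (nat_lit 128) (nat_lit 2) (nat_lit 5) (nat_lit 8) L619158 (by decide +kernel)
theorem L979493 : W_1 (nat_lit 4) (nat_lit 0x1a000f0000000000000000000000000000000) (nat_lit 0x0) (nat_lit 0x100008000400100000c00040000000000000000000000) := T_1 (nat_lit 107) (nat_lit 106) (nat_lit 0) (nat_lit 8) (nat_lit 7) L979492 (by decide +kernel)
theorem L979494 : W_1 (nat_lit 5) (nat_lit 0x18000f0000000000000000000000000000000) (nat_lit 0x0) (nat_lit 0x100008000700100000c00040000000000000000000000) := T_1 (nat_lit 141) (nat_lit 140) (nat_lit 1) (nat_lit 8) (nat_lit 7) L979493 (by decide +kernel)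
theorem L979495 : W_1 (nat_lit 6) (nat_lit 0x18000e0000000000000000000000000000000) (nat_lit 0x0) (nat_lit 0x100008000700118000c00040000000000000000000000) := T_1 (nat_lit 124) (nat_lit 123) (nat_lit 3) (nat_lit 4) (nat_lit 7) L979494 (by decide +kernel)
theorem L979496 : W_1 (nat_lit 2) (nat_lit 0x1c000e0000000000000000000000000000000) (nat_lit 0x0) (nat_lit 0x300100000000000000000000000000000000) := D_1 (nat_lit 141) (nat_lit 128) (nat_lit 140) (nat_lit 2) (nat_lit 5) (nat_lit 8) (nat_lit 2) (nat_lit 4) (nat_lit 8) (by decide +kernel)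
theorem L979497 : W_1 (nat_lit 5) (nat_lit 0x18000e0000000000000000000000000000000) (nat_lit 0x0) (nat_lit 0x10000c006700100002000100000000000000000000000) := Q_1 (nat_lit 142) (C_1 L616703 (C_1 L979496 N_1)) (by decide +kernel)
theorem L979498 : W_1 (nat_lit 7) (nat_lit 0x18000c0000000000000000000000000000000) (nat_lit 0x0) (nat_lit 0x10000c006700138002c00140000000000000000000000) := Q_1 (nat_lit 125) (C_1 L979459 (C_1 L979495 (C_1 L979497 N_1))) (by decide +kernel)
theorem L979508 : W_1 (nat_lit 4) (nat_lit 0x1a000f0000000000000000000000000000000) (nat_lit 0x0) (nat_lit 0x80006000400100001000080000000000000000000000) := T_1 (nat_lit 142) (nat_lit 128) (nat_lit 2) (nat_lit 5) (nat_lit 8) L619151 (by decide +kernel)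
theorem L979509 : W_1 (nat_lit 5) (nat_lit 0x18000f0000000000000000000000000000000) (nat_lit 0x0) (nat_lit 0x80006000700100001000080000000000000000000000) := T_1 (nat_lit 141) (nat_lit 140) (nat_lit 1) (nat_lit 8) (nat_lit 7) L979508 (by decide +kernel)
theorem L979510 : W_1 (nat_lit 6) (nat_lit 0x18000e0000000000000000000000000000000) (nat_lit 0x0) (nat_lit 0x80006000700118001000080000000000000000000000) := T_1 (nat_lit 124) (nat_lit 123) (nat_lit 3) (nat_lit 4) (nat_lit 7) L979509 (by decide +kernel)
theorem L979511 : W_1 (nat_lit 7) (nat_lit 0x18000c0000000000000000000000000000000) (nat_lit 0x0) (nat_lit 0x18000e006700138003000180000000000000000000000) := Q_1 (nat_lit 125) (C_1 L979459 (C_1 L979497 (C_1 L979510 N_1))) (by decide +kernel)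
theorem L979602 : W_1 (nat_lit 2) (nat_lit 0x400020001800180000000000000000000000000000000) (nat_lit 0x0) (nat_lit 0x8000000000000000040002000000000000000000000000000) := D_1 (nat_lit 126) (nat_lit 109) (nat_lit 195) (nat_lit 4) (nat_lit 8) (nat_lit 10) (nat_lit 4) (nat_lit 8) (nat_lit 11) (by decide +kernel)
theorem L980791 : W_1 (nat_lit 2) (nat_lit 0x18001e0000000000000000000000000000000) (nat_lit 0x0) (nat_lit 0x6000010000000000000000000000000000000) := D_1 (nat_lit 145) (nat_lit 146) (nat_lit 124) (nat_lit 3) (nat_lit 6) (nat_lit 7) (nat_lit 3) (nat_lit 5) (nat_lit 7) (by decide +kernel)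
theorem L980792 : W_1 (nat_lit 6) (nat_lit 0x18001c0000000000000000000000000000000) (nat_lit 0x0) (nat_lit 0x20001000600003801bc00080004000000000000000000) := Q_1 (nat_lit 125) (C_1 L843521 (C_1 L619436 (C_1 L980791 N_1))) (by decide +kernel)
theorem L980793 : W_1 (nat_lit 2) (nat_lit 0x58003c0001000000000000000000000000000) (nat_lit 0x0) (nat_lit 0x2000020000800000000000000000000000000) := D_1 (nat_lit 125) (nat_lit 145) (nat_lit 107) (nat_lit 3) (nat_lit 6) (nat_lit 7) (nat_lit 0) (nat_lit 9) (nat_lit 7) (by decide +kernel)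
theorem L980794 : W_1 (nat_lit 3) (nat_lit 0x18003c0001000000000000000000000000000) (nat_lit 0x0) (nat_lit 0xe000020000800000000000000000000000000) := T_1 (nat_lit 146) (nat_lit 147) (nat_lit 3) (nat_lit 7) (nat_lit 7) L980793 (by decide +kernel)
theorem L980795 : W_1 (nat_lit 4) (nat_lit 0x18003c0000000000000000000000000000000) (nat_lit 0x0) (nat_lit 0xe000020003800000000000000000000000000) := T_1 (nat_lit 108) (nat_lit 109) (nat_lit 0) (nat_lit 10) (nat_lit 7) L980794 (by decide +kernel)
theorem L980796 : W_1 (nat_lit 5) (nat_lit 0x18001c0000000000000000000000000000000) (nat_lit 0x0) (nat_lit 0xe000620003800000000000000000000000000) := T_1 (nat_lit 129) (nat_lit 130) (nat_lit 1) (nat_lit 11) (nat_lit 7) L980795 (by decide +kernel)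
theorem L980797 : W_1 (nat_lit 2) (nat_lit 0x18003e0012000000000000000000000000000) (nat_lit 0x0) (nat_lit 0x2000018000000000000000000000000000000) := D_1 (nat_lit 124) (nat_lit 123) (nat_lit 145) (nat_lit 3) (nat_lit 4) (nat_lit 7) (nat_lit 3) (nat_lit 5) (nat_lit 7) (by decide +kernel)
theorem L980798 : W_1 (nat_lit 3) (nat_lit 0x18003c0012000000000000000000000000000) (nat_lit 0x0) (nat_lit 0x2000038008000000000000000000000000000) := T_1 (nat_lit 125) (nat_lit 111) (nat_lit 2) (nat_lit 6) (nat_lit 7) L980797 (by decide +kernel)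
theorem L980799 : W_1 (nat_lit 4) (nat_lit 0x18003c0002000000000000000000000000000) (nat_lit 0x0) (nat_lit 0x2000038038000000000000000000000000000) := T_1 (nat_lit 112) (nat_lit 113) (nat_lit 2) (nat_lit 7) (nat_lit 7) L980798 (by decide +kernel)
theorem L980800 : W_1 (nat_lit 5) (nat_lit 0x18003c0000000000000000000000000000000) (nat_lit 0x0) (nat_lit 0x200003803b000000000000000000000000000) := T_1 (nat_lit 109) (nat_lit 108) (nat_lit 0) (nat_lit 10) (nat_lit 7) L980799 (by decide +kernel)
theorem L980801 : W_1 (nat_lit 6) (nat_lit 0x18001c0000000000000000000000000000000) (nat_lit 0x0) (nat_lit 0x200063803b000000000000000000000000000) := T_1 (nat_lit 129) (nat_lit 130) (nat_lit 1) (nat_lit 11) (nat_lit 7) L980800 (by decide +kernel)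
theorem L980802 : W_1 (nat_lit 7) (nat_lit 0x58003c0002000000000000000000000000000) (nat_lit 0x0) (nat_lit 0x38000f8007c000000000000000000) := T_1 (nat_lit 92) (nat_lit 75) (nat_lit 7) (nat_lit 7) (nat_lit 4) L684331 (by decide +kernel)
theorem L980803 : W_1 (nat_lit 8) (nat_lit 0x18003c0002000000000000000000000000000) (nat_lit 0x0) (nat_lit 0xc000000038000f8007c000000000000000000) := T_1 (nat_lit 146) (nat_lit 147) (nat_lit 3) (nat_lit 7) (nat_lit 7) L980802 (by decide +kernel)
theorem L980804 : W_1 (nat_lit 9) (nat_lit 0x18003c0000000000000000000000000000000) (nat_lit 0x0) (nat_lit 0xc00000003b000f8007c000000000000000000) := T_1 (nat_lit 109) (nat_lit 108) (nat_lit 0) (nat_lit 10) (nat_lit 7) L980803 (by decide +kernel)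
theorem L980805 : W_1 (nat_lit 10) (nat_lit 0x18001c0000000000000000000000000000000) (nat_lit 0x0) (nat_lit 0xc00060003b000f8007c000000000000000000) := T_1 (nat_lit 129) (nat_lit 130) (nat_lit 1) (nat_lit 11) (nat_lit 7) L980804 (by decide +kernel)
theorem L980806 : W_1 (nat_lit 11) (nat_lit 0x1800180000000000000000000000000000000) (nat_lit 0x0) (nat_lit 0x20009000e00067803bc00f8007c000000000000000000) := Q_1 (nat_lit 126) (C_1 L620709 (C_1 L980792 (C_1 L980796 (C_1 L980801 (C_1 L980805 N_1))))) (by decide +kernel)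
theorem L980809 : W_1 (nat_lit 5) (nat_lit 0x18001a0000000000000000000000000000000) (nat_lit 0x0) (nat_lit 0x200010000700058019c00080000000000000000000000) := Q_1 (nat_lit 126) (C_1 L843517 (C_1 L619436 (C_1 L619395 N_1))) (by decide +kernel)
theorem L980810 : W_1 (nat_lit 6) (nat_lit 0x18001a0000000000000000000000000000000) (nat_lit 0x0) (nat_lit 0x20001000600005801bc00080004000000000000000000) := Q_1 (nat_lit 126) (C_1 L980791 (C_1 L619436 (C_1 L843521 N_1))) (by decide +kernel)
theorem L980811 : W_1 (nat_lit 5) (nat_lit 0x1c001a0000000000000000000000000000000) (nat_lit 0x0) (nat_lit 0x38001e000050000000000000000000000000000000) := T_1 (nat_lit 145) (nat_lit 124) (nat_lit 0) (nat_lit 9) (nat_lit 8) L822576 (by decide +kernel)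
theorem L980812 : W_1 (nat_lit 6) (nat_lit 0x18001a0000000000000000000000000000000) (nat_lit 0x0) (nat_lit 0x38001e600050000000000000000000000000000000) := T_1 (nat_lit 142) (nat_lit 141) (nat_lit 2) (nat_lit 5) (nat_lit 8) L980811 (by decide +kernel)
theorem L980813 : W_1 (nat_lit 6) (nat_lit 0x18001a0000000000000000000000000000000) (nat_lit 0x0) (nat_lit 0x30001c006600040003800180004000000000000000000) := Q_1 (nat_lit 126) (C_1 L843521 (C_1 L843531 (C_1 L843517 N_1))) (by decide +kernel)
theorem L980814 : W_1 (nat_lit 8) (nat_lit 0x1800180000000000000000000000000000000) (nat_lit 0x0) (nat_lit 0x30039c01e70007801bc00180004000000000000000000) := Q_1 (nat_lit 125) (C_1 L980809 (C_1 L980810 (C_1 L980812 (C_1 L897347 (C_1 L980813 N_1))))) (by decide +kernel)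
theorem L980815 : W_1 (nat_lit 12) (nat_lit 0x1800080000000000000000000000000000000) (nat_lit 0x0) (nat_lit 0x30039c01e70077803bc00f8007c000000000000000000) := Q_1 (nat_lit 128) (C_1 L822525 (C_1 L822581 (C_1 L802142 (C_1 L980806 (C_1 L980814 N_1))))) (by decide +kernel)
theorem L980843 : W_1 (nat_lit 2) (nat_lit 0x38000c0000000000000000000000000000000) (nat_lit 0x0) (nat_lit 0xc000020000000000000000000000000000000) := D_1 (nat_lit 146) (nat_lit 147) (nat_lit 125) (nat_lit 0) (nat_lit 11) (nat_lit 8) (nat_lit 0) (nat_lit 10) (nat_lit 8) (by decide +kernel)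
theorem L983447 : W_1 (nat_lit 2) (nat_lit 0x18000c0002000000000000000000000000000) (nat_lit 0x0) (nat_lit 0x20000000000000000100008000000000000000000) := D_1 (nat_lit 92) (nat_lit 161) (nat_lit 75) (nat_lit 7) (nat_lit 7) (nat_lit 5) (nat_lit 7) (nat_lit 7) (nat_lit 4) (by decide +kernel)
theorem L983687 : W_1 (nat_lit 2) (nat_lit 0x18001e0002000000000000000000000000000) (nat_lit 0x0) (nat_lit 0x6000010000000000000000000000000000000) := D_1 (nat_lit 145) (nat_lit 146) (nat_lit 124) (nat_lit 3) (nat_lit 6) (nat_lit 7) (nat_lit 3) (nat_lit 5) (nat_lit 7) (by decide +kernel)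
theorem L985079 : W_1 (nat_lit 4) (nat_lit 0x100018000c0002000300000000000000000000000) (nat_lit 0x0) (nat_lit 0x6000300008000000000000000080004000000000000000000) := T_1 (nat_lit 91) (nat_lit 74) (nat_lit 4) (nat_lit 7) (nat_lit 8) L616026 (by decide +kernel)
theorem L985895 : W_1 (nat_lit 2) (nat_lit 0x700014001a000f0000800000000000000000000000000) (nat_lit 0x0) (nat_lit 0xc0002000000000000000000000000000000000000000) := D_1 (nat_lit 157) (nat_lit 174) (nat_lit 175) (nat_lit 5) (nat_lit 5) (nat_lit 6) (nat_lit 0) (nat_lit 8) (nat_lit 10) (by decide +kernel)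
theorem L985896 : W_1 (nat_lit 3) (nat_lit 0x700010001a000f0000800000000000000000000000000) (nat_lit 0x0) (nat_lit 0xc000e000000000000000000000000000000000000000) := T_1 (nat_lit 158) (nat_lit 159) (nat_lit 7) (nat_lit 5) (nat_lit 6) L985895 (by decide +kernel)
theorem L985897 : W_1 (nat_lit 4) (nat_lit 0x7000100018000f0000800000000000000000000000000) (nat_lit 0x0) (nat_lit 0xc000e000300000000000000000000000000000000000) := T_1 (nat_lit 141) (nat_lit 140) (nat_lit 1) (nat_lit 8) (nat_lit 7) L985896 (by decide +kernel)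
theorem L985898 : W_1 (nat_lit 5) (nat_lit 0x6000100018000f0000800000000000000000000000000) (nat_lit 0x0) (nat_lit 0x20001c000e000300000000000000000000000000000000000) := T_1 (nat_lit 176) (nat_lit 193) (nat_lit 5) (nat_lit 7) (nat_lit 7) L985897 (by decide +kernel)
theorem L985899 : W_1 (nat_lit 6) (nat_lit 0x2000100018000f0000800000000000000000000000000) (nat_lit 0x0) (nat_lit 0xa0005c000e000300000000000000000000000000000000000) := T_1 (nat_lit 178) (nat_lit 195) (nat_lit 7) (nat_lit 7) (nat_lit 7) L985898 (by decide +kernel)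
theorem L985900 : W_1 (nat_lit 7) (nat_lit 0x2000100018000f0000000000000000000000000000000) (nat_lit 0x0) (nat_lit 0xa0005c000e000300000000c00000000000000000000000000) := T_1 (nat_lit 107) (nat_lit 106) (nat_lit 0) (nat_lit 8) (nat_lit 7) L985899 (by decide +kernel)
theorem L987071 : W_1 (nat_lit 2) (nat_lit 0x18001e0010000000000000000000000000000) (nat_lit 0x0) (nat_lit 0x600020000000000000000000000000000) := D_1 (nat_lit 129) (nat_lit 130) (nat_lit 113) (nat_lit 1) (nat_lit 11) (nat_lit 7) (nat_lit 2) (nat_lit 7) (nat_lit 7) (by decide +kernel)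
theorem L987670 : W_1 (nat_lit 2) (nat_lit 0x18001f0010800000000000000000000000000) (nat_lit 0x0) (nat_lit 0x600020000000000000000000000000000) := D_1 (nat_lit 129) (nat_lit 130) (nat_lit 113) (nat_lit 1) (nat_lit 11) (nat_lit 7) (nat_lit 2) (nat_lit 7) (nat_lit 7) (by decide +kernel)
theorem L987671 : W_1 (nat_lit 3) (nat_lit 0x18001f0000800000000000000000000000000) (nat_lit 0x0) (nat_lit 0x600038000000000000000000000000000) := T_1 (nat_lit 112) (nat_lit 111) (nat_lit 2) (nat_lit 6) (nat_lit 7) L987670 (by decide +kernel)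
theorem L988695 : W_1 (nat_lit 2) (nat_lit 0x18003e0010000000000000000000000000000) (nat_lit 0x0) (nat_lit 0x2000018000000000000000000000000000000) := D_1 (nat_lit 124) (nat_lit 123) (nat_lit 145) (nat_lit 3) (nat_lit 4) (nat_lit 7) (nat_lit 3) (nat_lit 5) (nat_lit 7) (by decide +kernel)
theorem L988696 : W_1 (nat_lit 3) (nat_lit 0x18003c0010000000000000000000000000000) (nat_lit 0x0) (nat_lit 0x2000038008000000000000000000000000000) := T_1 (nat_lit 125) (nat_lit 111) (nat_lit 2) (nat_lit 6) (nat_lit 7) L988695 (by decide +kernel)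
theorem L988697 : W_1 (nat_lit 4) (nat_lit 0x18003c0000000000000000000000000000000) (nat_lit 0x0) (nat_lit 0x2000038038000000000000000000000000000) := T_1 (nat_lit 112) (nat_lit 113) (nat_lit 2) (nat_lit 7) (nat_lit 7) L988696 (by decide +kernel)
theorem L988698 : W_1 (nat_lit 5) (nat_lit 0x18001c0000000000000000000000000000000) (nat_lit 0x0) (nat_lit 0x2000638038000000000000000000000000000) := T_1 (nat_lit 129) (nat_lit 130) (nat_lit 1) (nat_lit 11) (nat_lit 7) L988697 (by decide +kernel)
theorem L988700 : W_1 (nat_lit 2) (nat_lit 0x800078003c0000000000000000000000000000000) (nat_lit 0x0) (nat_lit 0x20001000000000000000008000000000000000000000000000) := D_1 (nat_lit 180) (nat_lit 111) (nat_lit 197) (nat_lit 4) (nat_lit 10) (nat_lit 10) (nat_lit 4) (nat_lit 10) (nat_lit 11) (by decide +kernel)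
theorem L988701 : W_1 (nat_lit 3) (nat_lit 0x78003c0000000000000000000000000000000) (nat_lit 0x0) (nat_lit 0x20001000180000000000008000000000000000000000000000) := T_1 (nat_lit 163) (nat_lit 164) (nat_lit 3) (nat_lit 7) (nat_lit 8) L988700 (by decide +kernel)
theorem L988702 : W_1 (nat_lit 4) (nat_lit 0x58003c0000000000000000000000000000000) (nat_lit 0x0) (nat_lit 0x20001000180002000020008000000000000000000000000000) := T_1 (nat_lit 145) (nat_lit 125) (nat_lit 3) (nat_lit 6) (nat_lit 7) L988701 (by decide +kernel)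
theorem L988703 : W_1 (nat_lit 5) (nat_lit 0x18003c0000000000000000000000000000000) (nat_lit 0x0) (nat_lit 0x2000100018000e000020008000000000000000000000000000) := T_1 (nat_lit 146) (nat_lit 147) (nat_lit 3) (nat_lit 7) (nat_lit 7) L988702 (by decide +kernel)
theorem L988704 : W_1 (nat_lit 6) (nat_lit 0x18001c0000000000000000000000000000000) (nat_lit 0x0) (nat_lit 0x2000100018000e000620008000000000000000000000000000) := T_1 (nat_lit 129) (nat_lit 130) (nat_lit 1) (nat_lit 11) (nat_lit 7) L988703 (by decide +kernel)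
theorem L988706 : W_1 (nat_lit 3) (nat_lit 0x18001e0000000000000000000000000000000) (nat_lit 0x0) (nat_lit 0x600038000000000000000000000000000) := T_1 (nat_lit 112) (nat_lit 111) (nat_lit 2) (nat_lit 6) (nat_lit 7) L987071 (by decide +kernel)
theorem L988707 : W_1 (nat_lit 2) (nat_lit 0x58001e0001000000000000000000000000000) (nat_lit 0x0) (nat_lit 0x8000600000000000000000000000000000000) := D_1 (nat_lit 129) (nat_lit 147) (nat_lit 130) (nat_lit 3) (nat_lit 7) (nat_lit 7) (nat_lit 1) (nat_lit 11) (nat_lit 7) (by decide +kernel)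
theorem L988708 : W_1 (nat_lit 3) (nat_lit 0x18001e0001000000000000000000000000000) (nat_lit 0x0) (nat_lit 0xe000600000000000000000000000000000000) := T_1 (nat_lit 146) (nat_lit 145) (nat_lit 3) (nat_lit 6) (nat_lit 7) L988707 (by decide +kernel)
theorem L988709 : W_1 (nat_lit 4) (nat_lit 0x18001e0000000000000000000000000000000) (nat_lit 0x0) (nat_lit 0xe000600001800000000000000000000000000) := T_1 (nat_lit 108) (nat_lit 107) (nat_lit 0) (nat_lit 9) (nat_lit 7) L988708 (by decide +kernel)
theorem L988712 : W_1 (nat_lit 6) (nat_lit 0x18000e0000000000000000000000000000000) (nat_lit 0x0) (nat_lit 0x20001000e00070003b800080004000000000000000000) := Q_1 (nat_lit 128) (C_1 L988709 (C_1 L988706 (C_1 L843521 N_1))) (by decide +kernel)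
theorem L988717 : W_1 (nat_lit 6) (nat_lit 0x18001c0000000000000000000000000000000) (nat_lit 0x0) (nat_lit 0x10000c006700038002000100000000000000000000000) := Q_1 (nat_lit 125) (C_1 L980791 (C_1 L619395 (C_1 L843531 N_1))) (by decide +kernel)
theorem L997601 : W_1 (nat_lit 2) (nat_lit 0xc001e00090000000000000000000000000000000) (nat_lit 0x0) (nat_lit 0x2000100000000000000000800000000000000000000000000) := D_1 (nat_lit 176) (nat_lit 193) (nat_lit 107) (nat_lit 4) (nat_lit 6) (nat_lit 11) (nat_lit 7) (nat_lit 5) (nat_lit 6) (by decide +kernel)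
theorem L997602 : W_1 (nat_lit 3) (nat_lit 0x4001e00090000000000000000000000000000000) (nat_lit 0x0) (nat_lit 0x2000100008002000000000800000000000000000000000000) := T_1 (nat_lit 159) (nat_lit 145) (nat_lit 1) (nat_lit 9) (nat_lit 8) L997601 (by decide +kernel)
theorem L997605 : W_1 (nat_lit 2) (nat_lit 0x4001e000b0000000000000000000000000000000) (nat_lit 0x0) (nat_lit 0x80000000000000001000080000000000000000000000) := D_1 (nat_lit 108) (nat_lit 91) (nat_lit 175) (nat_lit 5) (nat_lit 6) (nat_lit 5) (nat_lit 6) (nat_lit 5) (nat_lit 10) (by decide +kernel)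
theorem L997606 : W_1 (nat_lit 3) (nat_lit 0x4001e00090000000000000000000000000000000) (nat_lit 0x0) (nat_lit 0x80000002000020001000080000000000000000000000) := T_1 (nat_lit 125) (nat_lit 145) (nat_lit 0) (nat_lit 9) (nat_lit 8) L997605 (by decide +kernel)
theorem L997607 : W_1 (nat_lit 4) (nat_lit 0x4001e00080000000000000000000000000000000) (nat_lit 0x0) (nat_lit 0x80000002000038001000080000000000000000000000) := T_1 (nat_lit 124) (nat_lit 123) (nat_lit 0) (nat_lit 8) (nat_lit 8) L997606 (by decide +kernel)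
theorem L997638 : W_1 (nat_lit 2) (nat_lit 0x10800fc008a0000000000000000000000000000000) (nat_lit 0x0) (nat_lit 0x10001100000000000000000000000000000000) := D_1 (nat_lit 148) (nat_lit 128) (nat_lit 132) (nat_lit 0) (nat_lit 12) (nat_lit 8) (nat_lit 2) (nat_lit 9) (nat_lit 8) (by decide +kernel)
theorem L997639 : W_1 (nat_lit 3) (nat_lit 0x10800fc000a0000000000000000000000000000000) (nat_lit 0x0) (nat_lit 0x10001d00000000000000000000000000000000) := T_1 (nat_lit 131) (nat_lit 130) (nat_lit 2) (nat_lit 8) (nat_lit 8) L997638 (by decide +kernel)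
theorem L997640 : W_1 (nat_lit 4) (nat_lit 0x108007c000a0000000000000000000000000000000) (nat_lit 0x0) (nat_lit 0x200018001d00000000000000000000000000000000) := T_1 (nat_lit 147) (nat_lit 165) (nat_lit 3) (nat_lit 8) (nat_lit 8) L997639 (by decide +kernel)
theorem L997641 : W_1 (nat_lit 5) (nat_lit 0x8007c000a0000000000000000000000000000000) (nat_lit 0x0) (nat_lit 0x380018001d00000000000000000000000000000000) := T_1 (nat_lit 164) (nat_lit 163) (nat_lit 3) (nat_lit 7) (nat_lit 8) L997640 (by decide +kernel)
theorem L997642 : W_1 (nat_lit 6) (nat_lit 0x8003c000a0000000000000000000000000000000) (nat_lit 0x0) (nat_lit 0x39001c001d00000000000000000000000000000000) := T_1 (nat_lit 146) (nat_lit 160) (nat_lit 1) (nat_lit 10) (nat_lit 8) L997641 (by decide +kernel)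
theorem L997643 : W_1 (nat_lit 7) (nat_lit 0x8003c00080000000000000000000000000000000) (nat_lit 0x0) (nat_lit 0x39001c001d30000000000000000000000000000000) := T_1 (nat_lit 125) (nat_lit 124) (nat_lit 0) (nat_lit 9) (nat_lit 8) L997642 (by decide +kernel)
theorem L997644 : W_1 (nat_lit 8) (nat_lit 0x3c00080000000000000000000000000000000) (nat_lit 0x0) (nat_lit 0x39c01c001d30000000000000000000000000000000) := T_1 (nat_lit 159) (nat_lit 158) (nat_lit 1) (nat_lit 9) (nat_lit 8) L997643 (by decide +kernel)
theorem L997645 : W_1 (nat_lit 2) (nat_lit 0x7c00080000000000000000000000000000000) (nat_lit 0x0) (nat_lit 0x700000000000000000000000000000000) := D_1 (nat_lit 129) (nat_lit 128) (nat_lit 130) (nat_lit 2) (nat_lit 6) (nat_lit 8) (nat_lit 2) (nat_lit 7) (nat_lit 8) (by decide +kernel)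
theorem L997646 : W_1 (nat_lit 5) (nat_lit 0x108007c00080000000000000000000000000000000) (nat_lit 0x0) (nat_lit 0x200018001d30000000000000000000000000000000) := T_1 (nat_lit 125) (nat_lit 124) (nat_lit 0) (nat_lit 9) (nat_lit 8) L997640 (by decide +kernel)
theorem L997647 : W_1 (nat_lit 6) (nat_lit 0x8007c00080000000000000000000000000000000) (nat_lit 0x0) (nat_lit 0x380018001d30000000000000000000000000000000) := T_1 (nat_lit 164) (nat_lit 163) (nat_lit 3) (nat_lit 7) (nat_lit 8) L997646 (by decide +kernel)
theorem L997648 : W_1 (nat_lit 7) (nat_lit 0x7c00080000000000000000000000000000000) (nat_lit 0x0) (nat_lit 0x38c018001d30000000000000000000000000000000) := T_1 (nat_lit 159) (nat_lit 158) (nat_lit 1) (nat_lit 9) (nat_lit 8) L997647 (by decide +kernel)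
theorem L997649 : W_1 (nat_lit 2) (nat_lit 0x100007c00480000000000000000000000000000000) (nat_lit 0x0) (nat_lit 0x200008000800000000000000000000000000000000) := D_1 (nat_lit 147) (nat_lit 165) (nat_lit 131) (nat_lit 3) (nat_lit 8) (nat_lit 8) (nat_lit 2) (nat_lit 8) (nat_lit 8) (by decide +kernel)
theorem L997650 : W_1 (nat_lit 3) (nat_lit 0x100007c00080000000000000000000000000000000) (nat_lit 0x0) (nat_lit 0x200008000e00000000000000000000000000000000) := T_1 (nat_lit 130) (nat_lit 129) (nat_lit 2) (nat_lit 7) (nat_lit 8) L997649 (by decide +kernel)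
theorem L997651 : W_1 (nat_lit 4) (nat_lit 0x7c00080000000000000000000000000000000) (nat_lit 0x0) (nat_lit 0x380008000e00000000000000000000000000000000) := T_1 (nat_lit 164) (nat_lit 163) (nat_lit 3) (nat_lit 7) (nat_lit 8) L997650 (by decide +kernel)
theorem L997652 : W_1 (nat_lit 2) (nat_lit 0x100007c00180000000000000000000000000000000) (nat_lit 0x0) (nat_lit 0x200018000000000000000000000000000000000000) := D_1 (nat_lit 147) (nat_lit 148) (nat_lit 165) (nat_lit 0) (nat_lit 12) (nat_lit 8) (nat_lit 3) (nat_lit 8) (nat_lit 8) (by decide +kernel)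
theorem L997653 : W_1 (nat_lit 3) (nat_lit 0x100007c00080000000000000000000000000000000) (nat_lit 0x0) (nat_lit 0x200018000300000000000000000000000000000000) := T_1 (nat_lit 128) (nat_lit 129) (nat_lit 2) (nat_lit 6) (nat_lit 8) L997652 (by decide +kernel)
theorem L997654 : W_1 (nat_lit 4) (nat_lit 0x7c00080000000000000000000000000000000) (nat_lit 0x0) (nat_lit 0x380018000300000000000000000000000000000000) := T_1 (nat_lit 164) (nat_lit 163) (nat_lit 3) (nat_lit 7) (nat_lit 8) L997653 (by decide +kernel)
theorem L997655 : W_1 (nat_lit 8) (nat_lit 0x3c00080000000000000000000000000000000) (nat_lit 0x0) (nat_lit 0x38c01c001f30000000000000000000000000000000) := Q_1 (nat_lit 146) (C_1 L997645 (C_1 L997648 (C_1 L997651 (C_1 L997654 N_1)))) (by decide +kernel)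
theorem L997656 : W_1 (nat_lit 2) (nat_lit 0x108007c004a0000000000000000000000000000000) (nat_lit 0x0) (nat_lit 0x200008000800000000000000000000000000000000) := D_1 (nat_lit 147) (nat_lit 131) (nat_lit 165) (nat_lit 2) (nat_lit 8) (nat_lit 8) (nat_lit 3) (nat_lit 8) (nat_lit 8) (by decide +kernel)
theorem L997657 : W_1 (nat_lit 3) (nat_lit 0x8007c004a0000000000000000000000000000000) (nat_lit 0x0) (nat_lit 0x380008000800000000000000000000000000000000) := T_1 (nat_lit 164) (nat_lit 163) (nat_lit 3) (nat_lit 7) (nat_lit 8) L997656 (by decide +kernel)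
theorem L997658 : W_1 (nat_lit 4) (nat_lit 0x8007c000a0000000000000000000000000000000) (nat_lit 0x0) (nat_lit 0x380008000e00000000000000000000000000000000) := T_1 (nat_lit 130) (nat_lit 129) (nat_lit 2) (nat_lit 7) (nat_lit 8) L997657 (by decide +kernel)
theorem L997659 : W_1 (nat_lit 5) (nat_lit 0x8003c000a0000000000000000000000000000000) (nat_lit 0x0) (nat_lit 0x39000c000e00000000000000000000000000000000) := T_1 (nat_lit 146) (nat_lit 160) (nat_lit 1) (nat_lit 10) (nat_lit 8) L997658 (by decide +kernel)
theorem L997660 : W_1 (nat_lit 6) (nat_lit 0x8003c00080000000000000000000000000000000) (nat_lit 0x0) (nat_lit 0x39000c000e30000000000000000000000000000000) := T_1 (nat_lit 125) (nat_lit 124) (nat_lit 0) (nat_lit 9) (nat_lit 8) L997659 (by decide +kernel)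
theorem L997661 : W_1 (nat_lit 7) (nat_lit 0x3c00080000000000000000000000000000000) (nat_lit 0x0) (nat_lit 0x39c00c000e30000000000000000000000000000000) := T_1 (nat_lit 159) (nat_lit 158) (nat_lit 1) (nat_lit 9) (nat_lit 8) L997660 (by decide +kernel)
theorem L998206 : W_1 (nat_lit 4) (nat_lit 0x8003c00180000000000000000000000000000000) (nat_lit 0x0) (nat_lit 0x39001c000000000000000000000000000000000000) := T_1 (nat_lit 146) (nat_lit 160) (nat_lit 1) (nat_lit 10) (nat_lit 8) L867574 (by decide +kernel)
theorem L998207 : W_1 (nat_lit 5) (nat_lit 0x8003c00080000000000000000000000000000000) (nat_lit 0x0) (nat_lit 0x39001c000300000000000000000000000000000000) := T_1 (nat_lit 128) (nat_lit 129) (nat_lit 2) (nat_lit 6) (nat_lit 8) L998206 (by decide +kernel)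
theorem L998208 : W_1 (nat_lit 6) (nat_lit 0x3c00080000000000000000000000000000000) (nat_lit 0x0) (nat_lit 0x39c01c000300000000000000000000000000000000) := T_1 (nat_lit 159) (nat_lit 158) (nat_lit 1) (nat_lit 9) (nat_lit 8) L998207 (by decide +kernel)
theorem L1000415 : W_1 (nat_lit 3) (nat_lit 0x3c000c0000000000000000000000000000000) (nat_lit 0x0) (nat_lit 0x300038000000000000000000000000000000) := T_1 (nat_lit 124) (nat_lit 125) (nat_lit 3) (nat_lit 5) (nat_lit 7) L707614 (by decide +kernel)
theorem L1004367 : W_1 (nat_lit 2) (nat_lit 0x100018000c0002000000000000000000000000000) (nat_lit 0x0) (nat_lit 0x400020000000000000000100000000000000000000000) := D_1 (nat_lit 161) (nat_lit 178) (nat_lit 92) (nat_lit 7) (nat_lit 7) (nat_lit 6) (nat_lit 7) (nat_lit 7) (nat_lit 5) (by decide +kernel)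
theorem L1004369 : W_1 (nat_lit 2) (nat_lit 0x100018000e0000000000000000000000000000000) (nat_lit 0x0) (nat_lit 0x2000018000000000000000000000000000000) := D_1 (nat_lit 124) (nat_lit 145) (nat_lit 123) (nat_lit 3) (nat_lit 5) (nat_lit 7) (nat_lit 3) (nat_lit 4) (nat_lit 7) (by decide +kernel)
theorem L1011266 : W_1 (nat_lit 2) (nat_lit 0x100038000c0000000000000000000000000000000) (nat_lit 0x0) (nat_lit 0x4000030000000000000000000000000000000) := D_1 (nat_lit 125) (nat_lit 124) (nat_lit 146) (nat_lit 3) (nat_lit 5) (nat_lit 7) (nat_lit 0) (nat_lit 10) (nat_lit 8) (by decide +kernel)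
theorem L1011285 : W_1 (nat_lit 4) (nat_lit 0x700010001a000f0000000000000000000000000000000) (nat_lit 0x0) (nat_lit 0xc000e000000000000c00000000000000000000000000) := T_1 (nat_lit 107) (nat_lit 106) (nat_lit 0) (nat_lit 8) (nat_lit 7) L985896 (by decide +kernel)
theorem L1011286 : W_1 (nat_lit 5) (nat_lit 0x7000100018000f0000000000000000000000000000000) (nat_lit 0x0) (nat_lit 0xc000e000300000000c00000000000000000000000000) := T_1 (nat_lit 141) (nat_lit 140) (nat_lit 1) (nat_lit 8) (nat_lit 7) L1011285 (by decide +kernel)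
theorem L1011287 : W_1 (nat_lit 6) (nat_lit 0x7000100018000e0000000000000000000000000000000) (nat_lit 0x0) (nat_lit 0xc000e000300018000c00000000000000000000000000) := T_1 (nat_lit 124) (nat_lit 123) (nat_lit 3) (nat_lit 4) (nat_lit 7) L1011286 (by decide +kernel)
theorem L1011288 : W_1 (nat_lit 7) (nat_lit 0x7000100018000c0000000000000000000000000000000) (nat_lit 0x0) (nat_lit 0xc000e000300038001c00000000000000000000000000) := T_1 (nat_lit 125) (nat_lit 108) (nat_lit 4) (nat_lit 7) (nat_lit 10) L1011287 (by decide +kernel)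
theorem L1011289 : W_1 (nat_lit 8) (nat_lit 0x3000100018000c0000000000000000000000000000000) (nat_lit 0x0) (nat_lit 0x80004c000e000300038001c00000000000000000000000000) := T_1 (nat_lit 178) (nat_lit 195) (nat_lit 7) (nat_lit 7) (nat_lit 7) L1011288 (by decide +kernel)
theorem L1011290 : W_1 (nat_lit 9) (nat_lit 0x2000100018000c0000000000000000000000000000000) (nat_lit 0x0) (nat_lit 0xa0005c000e000300038001c00000000000000000000000000) := T_1 (nat_lit 176) (nat_lit 193) (nat_lit 5) (nat_lit 7) (nat_lit 7) L1011289 (by decide +kernel)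
theorem L1011291 : W_1 (nat_lit 10) (nat_lit 0x100018000c0000000000000000000000000000000) (nat_lit 0x0) (nat_lit 0xe0007c000e000300038001c00000000000000000000000000) := T_1 (nat_lit 177) (nat_lit 194) (nat_lit 6) (nat_lit 7) (nat_lit 11) L1011290 (by decide +kernel)
theorem L1011300 : W_1 (nat_lit 2) (nat_lit 0x1c001800080000000000000000000000000000000) (nat_lit 0x0) (nat_lit 0x6400000000000000000000000000000000000) := D_1 (nat_lit 145) (nat_lit 146) (nat_lit 142) (nat_lit 1) (nat_lit 10) (nat_lit 8) (nat_lit 1) (nat_lit 9) (nat_lit 8) (by decide +kernel)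
theorem L1011301 : W_1 (nat_lit 3) (nat_lit 0x18001800080000000000000000000000000000000) (nat_lit 0x0) (nat_lit 0x6006400000000000000000000000000000000000) := T_1 (nat_lit 158) (nat_lit 157) (nat_lit 2) (nat_lit 4) (nat_lit 9) L1011300 (by decide +kernel)
theorem L1011302 : W_1 (nat_lit 2) (nat_lit 0x2000100018001800080000000000000000000000000000000) (nat_lit 0x0) (nat_lit 0x400040002000000000000000000000000000) := D_1 (nat_lit 126) (nat_lit 109) (nat_lit 142) (nat_lit 5) (nat_lit 7) (nat_lit 6) (nat_lit 6) (nat_lit 6) (nat_lit 11) (by decide +kernel)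
theorem L1011303 : W_1 (nat_lit 3) (nat_lit 0x100018001800080000000000000000000000000000000) (nat_lit 0x0) (nat_lit 0x40002000000000000400040002000000000000000000000000000) := T_1 (nat_lit 193) (nat_lit 210) (nat_lit 6) (nat_lit 6) (nat_lit 12) L1011302 (by decide +kernel)
theorem L1011304 : W_1 (nat_lit 2) (nat_lit 0x6000100018001800080000000000000000000000000000000) (nat_lit 0x0) (nat_lit 0x80000000000000000400040000000000000000000000000000000) := D_1 (nat_lit 142) (nat_lit 126) (nat_lit 211) (nat_lit 6) (nat_lit 6) (nat_lit 11) (nat_lit 7) (nat_lit 6) (nat_lit 8) (by decide +kernel)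
theorem L1011305 : W_1 (nat_lit 3) (nat_lit 0x4000100018001800080000000000000000000000000000000) (nat_lit 0x0) (nat_lit 0xc0002000000000000400040000000000000000000000000000000) := T_1 (nat_lit 193) (nat_lit 210) (nat_lit 6) (nat_lit 6) (nat_lit 12) L1011304 (by decide +kernel)
theorem L1011306 : W_1 (nat_lit 4) (nat_lit 0x100018001800080000000000000000000000000000000) (nat_lit 0x0) (nat_lit 0xc0006000200000000400040000000000000000000000000000000) := T_1 (nat_lit 194) (nat_lit 177) (nat_lit 6) (nat_lit 7) (nat_lit 11) L1011305 (by decide +kernel)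
theorem L1011307 : W_1 (nat_lit 2) (nat_lit 0x10001a0018000c0000000000000000000000000000000) (nat_lit 0x0) (nat_lit 0x6000200000000000000000000000000000000000000000000) := D_1 (nat_lit 177) (nat_lit 194) (nat_lit 193) (nat_lit 6) (nat_lit 7) (nat_lit 11) (nat_lit 5) (nat_lit 7) (nat_lit 7) (by decide +kernel)
theorem L1011308 : W_1 (nat_lit 3) (nat_lit 0x10001a001800080000000000000000000000000000000) (nat_lit 0x0) (nat_lit 0x6000200000000000040002000000000000000000000000000) := T_1 (nat_lit 126) (nat_lit 109) (nat_lit 5) (nat_lit 7) (nat_lit 6) L1011307 (by decide +kernel)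
theorem L1011309 : W_1 (nat_lit 4) (nat_lit 0x100018001800080000000000000000000000000000000) (nat_lit 0x0) (nat_lit 0x6000200006000000040002000000000000000000000000000) := T_1 (nat_lit 157) (nat_lit 158) (nat_lit 2) (nat_lit 4) (nat_lit 9) L1011308 (by decide +kernel)
theorem L1011310 : W_1 (nat_lit 2) (nat_lit 0x700010001a001c000a0000000000000000000000000000000) (nat_lit 0x0) (nat_lit 0x200010000800000000000000000000000000) := D_1 (nat_lit 124) (nat_lit 107) (nat_lit 141) (nat_lit 4) (nat_lit 6) (nat_lit 10) (nat_lit 4) (nat_lit 6) (nat_lit 11) (by decide +kernel)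
theorem L1011311 : W_1 (nat_lit 3) (nat_lit 0x700010001a001c00080000000000000000000000000000000) (nat_lit 0x0) (nat_lit 0x80000000200030000800000000000000000000000000) := T_1 (nat_lit 125) (nat_lit 175) (nat_lit 5) (nat_lit 6) (nat_lit 7) L1011310 (by decide +kernel)
theorem L1011312 : W_1 (nat_lit 4) (nat_lit 0x600010001a001c00080000000000000000000000000000000) (nat_lit 0x0) (nat_lit 0x20001000080000000200030000800000000000000000000000000) := T_1 (nat_lit 192) (nat_lit 209) (nat_lit 5) (nat_lit 6) (nat_lit 8) L1011311 (by decide +kernel)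
theorem L1011313 : W_1 (nat_lit 5) (nat_lit 0x600010001a001800080000000000000000000000000000000) (nat_lit 0x0) (nat_lit 0xa0001000080000000600030000800000000000000000000000000) := T_1 (nat_lit 142) (nat_lit 211) (nat_lit 7) (nat_lit 6) (nat_lit 8) L1011312 (by decide +kernel)
theorem L1011314 : W_1 (nat_lit 6) (nat_lit 0x400010001a001800080000000000000000000000000000000) (nat_lit 0x0) (nat_lit 0xe0003000080000000600030000800000000000000000000000000) := T_1 (nat_lit 193) (nat_lit 210) (nat_lit 6) (nat_lit 6) (nat_lit 12) L1011313 (by decide +kernel)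
theorem L1011315 : W_1 (nat_lit 7) (nat_lit 0x4000100018001800080000000000000000000000000000000) (nat_lit 0x0) (nat_lit 0xe0003000080006000600030000800000000000000000000000000) := T_1 (nat_lit 157) (nat_lit 158) (nat_lit 2) (nat_lit 4) (nat_lit 9) L1011314 (by decide +kernel)
theorem L1011316 : W_1 (nat_lit 8) (nat_lit 0x100018001800080000000000000000000000000000000) (nat_lit 0x0) (nat_lit 0xe0007000280006000600030000800000000000000000000000000) := T_1 (nat_lit 194) (nat_lit 177) (nat_lit 6) (nat_lit 7) (nat_lit 11) L1011315 (by decide +kernel)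
theorem L1011317 : W_1 (nat_lit 2) (nat_lit 0x170001a0018000f0000000000000000000000000000000) (nat_lit 0x0) (nat_lit 0x400000000c00000000000000000000000000) := D_1 (nat_lit 107) (nat_lit 106) (nat_lit 142) (nat_lit 0) (nat_lit 8) (nat_lit 7) (nat_lit 4) (nat_lit 6) (nat_lit 10) (by decide +kernel)
theorem L1011318 : W_1 (nat_lit 3) (nat_lit 0x170001a0018000e0000000000000000000000000000000) (nat_lit 0x0) (nat_lit 0x400018000c00000000000000000000000000) := T_1 (nat_lit 124) (nat_lit 123) (nat_lit 3) (nat_lit 4) (nat_lit 7) L1011317 (by decide +kernel)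
theorem L1011319 : W_1 (nat_lit 4) (nat_lit 0x170001a0018000c0000000000000000000000000000000) (nat_lit 0x0) (nat_lit 0x400038001c00000000000000000000000000) := T_1 (nat_lit 125) (nat_lit 108) (nat_lit 4) (nat_lit 7) (nat_lit 10) L1011318 (by decide +kernel)
theorem L1011320 : W_1 (nat_lit 5) (nat_lit 0x70001a0018000c0000000000000000000000000000000) (nat_lit 0x0) (nat_lit 0x1800000000400038001c00000000000000000000000000) := T_1 (nat_lit 180) (nat_lit 179) (nat_lit 0) (nat_lit 10) (nat_lit 10) L1011319 (by decide +kernel)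
theorem L1011321 : W_1 (nat_lit 6) (nat_lit 0x30001a0018000c0000000000000000000000000000000) (nat_lit 0x0) (nat_lit 0x8001c00000000400038001c00000000000000000000000000) := T_1 (nat_lit 178) (nat_lit 195) (nat_lit 7) (nat_lit 7) (nat_lit 7) L1011320 (by decide +kernel)
theorem L1011322 : W_1 (nat_lit 7) (nat_lit 0x3000180018000c0000000000000000000000000000000) (nat_lit 0x0) (nat_lit 0x8001c00006000400038001c00000000000000000000000000) := T_1 (nat_lit 157) (nat_lit 158) (nat_lit 2) (nat_lit 4) (nat_lit 9) L1011321 (by decide +kernel)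
theorem L1011323 : W_1 (nat_lit 8) (nat_lit 0x1000180018000c0000000000000000000000000000000) (nat_lit 0x0) (nat_lit 0xc001e00006000400038001c00000000000000000000000000) := T_1 (nat_lit 177) (nat_lit 194) (nat_lit 6) (nat_lit 7) (nat_lit 11) L1011322 (by decide +kernel)
theorem L1011324 : W_1 (nat_lit 9) (nat_lit 0x100018001800080000000000000000000000000000000) (nat_lit 0x0) (nat_lit 0xc001e00006000400078003c00000000000000000000000000) := T_1 (nat_lit 126) (nat_lit 109) (nat_lit 5) (nat_lit 7) (nat_lit 6) L1011323 (by decide +kernel)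
theorem L1011325 : W_1 (nat_lit 10) (nat_lit 0x18001800080000000000000000000000000000000) (nat_lit 0x0) (nat_lit 0xe000f001f80006000600078003c00000000000000000000000000) := Q_1 (nat_lit 176) (C_1 L1011303 (C_1 L1011306 (C_1 L1011309 (C_1 L1011316 (C_1 L1011324 N_1))))) (by decide +kernel)
theorem L1011326 : W_1 (nat_lit 2) (nat_lit 0x180018000c0002000080000000000000000000000) (nat_lit 0x0) (nat_lit 0x10000c000000000000000000) := D_1 (nat_lit 92) (nat_lit 75) (nat_lit 74) (nat_lit 7) (nat_lit 7) (nat_lit 4) (nat_lit 4) (nat_lit 7) (nat_lit 8) (by decide +kernel)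
theorem L1011327 : W_1 (nat_lit 3) (nat_lit 0x180018000c0002000000000000000000000000000) (nat_lit 0x0) (nat_lit 0x100018000c000000000000000000) := T_1 (nat_lit 91) (nat_lit 108) (nat_lit 4) (nat_lit 7) (nat_lit 9) L1011326 (by decide +kernel)
theorem L1011328 : W_1 (nat_lit 4) (nat_lit 0x180018000c0000000000000000000000000000000) (nat_lit 0x0) (nat_lit 0x10000000000000000300018000c000000000000000000) := T_1 (nat_lit 109) (nat_lit 176) (nat_lit 5) (nat_lit 7) (nat_lit 6) L1011327 (by decide +kernel)
theorem L1011329 : W_1 (nat_lit 6) (nat_lit 0x180018000c0000000000000000000000000000000) (nat_lit 0x0) (nat_lit 0xe000f00006006000000000000000000000000000000000000) := T_1 (nat_lit 146) (nat_lit 145) (nat_lit 1) (nat_lit 10) (nat_lit 8) L655368 (by decide +kernel)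
theorem L1011330 : W_1 (nat_lit 2) (nat_lit 0x2000180038000c0000000000000000000000000000000) (nat_lit 0x0) (nat_lit 0x30001000000000000000000000000000) := D_1 (nat_lit 125) (nat_lit 108) (nat_lit 124) (nat_lit 4) (nat_lit 7) (nat_lit 10) (nat_lit 3) (nat_lit 5) (nat_lit 7) (by decide +kernel)
theorem L1011331 : W_1 (nat_lit 3) (nat_lit 0x2000180018000c0000000000000000000000000000000) (nat_lit 0x0) (nat_lit 0x6000030001000000000000000000000000000) := T_1 (nat_lit 145) (nat_lit 146) (nat_lit 1) (nat_lit 10) (nat_lit 8) L1011330 (by decide +kernel)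
theorem L1011332 : W_1 (nat_lit 4) (nat_lit 0x180018000c0000000000000000000000000000000) (nat_lit 0x0) (nat_lit 0x4000200000006000030001000000000000000000000000000) := T_1 (nat_lit 177) (nat_lit 194) (nat_lit 6) (nat_lit 7) (nat_lit 11) L1011331 (by decide +kernel)
theorem L1011333 : W_1 (nat_lit 7) (nat_lit 0x18001800080000000000000000000000000000000) (nat_lit 0x0) (nat_lit 0xe000f0000600600007000300018000c000000000000000000) := Q_1 (nat_lit 126) (C_1 L1011328 (C_1 L1011329 (C_1 L1011332 N_1))) (by decide +kernel)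
theorem L1011334 : W_1 (nat_lit 4) (nat_lit 0x180018000c0000000000000000000000000000000) (nat_lit 0x0) (nat_lit 0x40006000300000000400000002000000000000000000000000000) := T_1 (nat_lit 194) (nat_lit 177) (nat_lit 6) (nat_lit 7) (nat_lit 11) L751457 (by decide +kernel)
theorem L1011335 : W_1 (nat_lit 5) (nat_lit 0x18001800080000000000000000000000000000000) (nat_lit 0x0) (nat_lit 0x4000600030000000640007000300018000c000000000000000000) := Q_1 (nat_lit 126) (C_1 L1011328 (C_1 L1011332 (C_1 L1011334 N_1))) (by decide +kernel)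
theorem L1011336 : W_1 (nat_lit 11) (nat_lit 0x10001800080000000000000000000000000000000) (nat_lit 0x0) (nat_lit 0xe000f001f8000e006600078003c0018000c000000000000000000) := Q_1 (nat_lit 159) (C_1 L1011301 (C_1 L1011325 (C_1 L1011333 (C_1 L1011335 N_1)))) (by decide +kernel)
theorem L1011369 : W_1 (nat_lit 2) (nat_lit 0x1c001e00090000000000000000000000000000000) (nat_lit 0x0) (nat_lit 0x2000100000000000000000800000000000000000000000000) := D_1 (nat_lit 176) (nat_lit 193) (nat_lit 107) (nat_lit 4) (nat_lit 6) (nat_lit 11) (nat_lit 7) (nat_lit 5) (nat_lit 6) (by decide +kernel)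
theorem L1011434 : W_1 (nat_lit 2) (nat_lit 0x3000100018005c000a0000800000000000000000000000000) (nat_lit 0x0) (nat_lit 0x10000c0000000000000000000000) := D_1 (nat_lit 108) (nat_lit 91) (nat_lit 90) (nat_lit 7) (nat_lit 6) (nat_lit 5) (nat_lit 4) (nat_lit 6) (nat_lit 9) (by decide +kernel)
theorem L1011435 : W_1 (nat_lit 3) (nat_lit 0x3000100018005c000a0000000000000000000000000000000) (nat_lit 0x0) (nat_lit 0x100018000c0000000000000000000000) := T_1 (nat_lit 107) (nat_lit 124) (nat_lit 4) (nat_lit 6) (nat_lit 10) L1011434 (by decide +kernel)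
theorem L1011436 : W_1 (nat_lit 4) (nat_lit 0x3000100018005c00080000000000000000000000000000000) (nat_lit 0x0) (nat_lit 0x800000000000300018000c0000000000000000000000) := T_1 (nat_lit 125) (nat_lit 175) (nat_lit 5) (nat_lit 6) (nat_lit 7) L1011435 (by decide +kernel)
theorem L1011437 : W_1 (nat_lit 5) (nat_lit 0x2000100018005c00080000000000000000000000000000000) (nat_lit 0x0) (nat_lit 0x200010000800000000000300018000c0000000000000000000000) := T_1 (nat_lit 192) (nat_lit 209) (nat_lit 5) (nat_lit 6) (nat_lit 8) L1011436 (by decide +kernel)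
theorem L1011438 : W_1 (nat_lit 6) (nat_lit 0x100018005c00080000000000000000000000000000000) (nat_lit 0x0) (nat_lit 0x600030000800000000000300018000c0000000000000000000000) := T_1 (nat_lit 193) (nat_lit 210) (nat_lit 6) (nat_lit 6) (nat_lit 12) L1011437 (by decide +kernel)
theorem L1012038 : W_1 (nat_lit 2) (nat_lit 0x380018005c000b0000000000000000000000000000000) (nat_lit 0x0) (nat_lit 0x20000c000000000000000000000000000000) := D_1 (nat_lit 123) (nat_lit 122) (nat_lit 141) (nat_lit 3) (nat_lit 3) (nat_lit 7) (nat_lit 0) (nat_lit 8) (nat_lit 8) (by decide +kernel)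
theorem L1012039 : W_1 (nat_lit 3) (nat_lit 0x380018005c000a0000000000000000000000000000000) (nat_lit 0x0) (nat_lit 0x20001c000800000000000000000000000000) := T_1 (nat_lit 124) (nat_lit 107) (nat_lit 4) (nat_lit 6) (nat_lit 10) L1012038 (by decide +kernel)
theorem L1012084 : W_1 (nat_lit 4) (nat_lit 0x300018005c000a0000000000000000000000000000000) (nat_lit 0x0) (nat_lit 0x100008000000020001c000800000000000000000000000000) := T_1 (nat_lit 175) (nat_lit 192) (nat_lit 5) (nat_lit 6) (nat_lit 7) L1012039 (by decide +kernel)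
theorem L1012430 : W_1 (nat_lit 2) (nat_lit 0x4000000014001e000b0000000000000000000000000000000) (nat_lit 0x0) (nat_lit 0x80000000000000001000080000000000000000000000) := D_1 (nat_lit 108) (nat_lit 91) (nat_lit 175) (nat_lit 7) (nat_lit 6) (nat_lit 5) (nat_lit 6) (nat_lit 5) (nat_lit 10) (by decide +kernel)
theorem L1015445 : W_1 (nat_lit 2) (nat_lit 0xf000180058000c0000000000000000000000000000000) (nat_lit 0x0) (nat_lit 0x30000000020000000000000000000000000000000000000000) := D_1 (nat_lit 196) (nat_lit 197) (nat_lit 161) (nat_lit 3) (nat_lit 6) (nat_lit 10) (nat_lit 7) (nat_lit 8) (nat_lit 7) (by decide +kernel)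
theorem L1015446 : W_1 (nat_lit 3) (nat_lit 0xe000180058000c0000000000000000000000000000000) (nat_lit 0x0) (nat_lit 0x32000100020000000000000000000000000000000000000000) := T_1 (nat_lit 176) (nat_lit 193) (nat_lit 5) (nat_lit 7) (nat_lit 7) L1015445 (by decide +kernel)
theorem L1015447 : W_1 (nat_lit 4) (nat_lit 0x6000180058000c0000000000000000000000000000000) (nat_lit 0x0) (nat_lit 0x32001900020000000000000000000000000000000000000000) := T_1 (nat_lit 179) (nat_lit 180) (nat_lit 0) (nat_lit 10) (nat_lit 10) L1015446 (by decide +kernel)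
theorem L1015448 : W_1 (nat_lit 5) (nat_lit 0x2000180058000c0000000000000000000000000000000) (nat_lit 0x0) (nat_lit 0x3a001d00020000000000000000000000000000000000000000) := T_1 (nat_lit 178) (nat_lit 195) (nat_lit 7) (nat_lit 7) (nat_lit 7) L1015447 (by decide +kernel)
theorem L1016622 : W_1 (nat_lit 2) (nat_lit 0x2000100018000e0000000000000000000000000000000) (nat_lit 0x0) (nat_lit 0x2000018000000000000000000000000000000) := D_1 (nat_lit 124) (nat_lit 145) (nat_lit 123) (nat_lit 3) (nat_lit 5) (nat_lit 7) (nat_lit 3) (nat_lit 4) (nat_lit 7) (by decide +kernel)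
theorem L1027464 : W_1 (nat_lit 2) (nat_lit 0x2000100018000c0003400000000000000000000000000) (nat_lit 0x0) (nat_lit 0x8000400020000000000000000000000000000000000000000) := D_1 (nat_lit 178) (nat_lit 161) (nat_lit 195) (nat_lit 7) (nat_lit 7) (nat_lit 6) (nat_lit 7) (nat_lit 7) (nat_lit 7) (by decide +kernel)
theorem L1027465 : W_1 (nat_lit 3) (nat_lit 0x100018000c0003400000000000000000000000000) (nat_lit 0x0) (nat_lit 0x8000600020000000020000000000000000000000000000000) := T_1 (nat_lit 177) (nat_lit 125) (nat_lit 4) (nat_lit 7) (nat_lit 10) L1027464 (by decide +kernel)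
theorem L1027466 : W_1 (nat_lit 4) (nat_lit 0x100018000c0003000000000000000000000000000) (nat_lit 0x0) (nat_lit 0x8000600020000000020000c00000000000000000000000000) := T_1 (nat_lit 106) (nat_lit 107) (nat_lit 3) (nat_lit 4) (nat_lit 6) L1027465 (by decide +kernel)
theorem L1027467 : W_1 (nat_lit 5) (nat_lit 0x100018000c0002000000000000000000000000000) (nat_lit 0x0) (nat_lit 0x8000600020000000020001c00080000000000000000000000) := T_1 (nat_lit 108) (nat_lit 91) (nat_lit 4) (nat_lit 7) (nat_lit 9) L1027466 (by decide +kernel)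
theorem L1027469 : W_1 (nat_lit 2) (nat_lit 0x1c0018000c0002000000008000000000000000000) (nat_lit 0x0) (nat_lit 0x6400000000000000000000000000000000000) := D_1 (nat_lit 145) (nat_lit 146) (nat_lit 142) (nat_lit 1) (nat_lit 10) (nat_lit 8) (nat_lit 1) (nat_lit 9) (nat_lit 8) (by decide +kernel)
theorem L1027470 : W_1 (nat_lit 3) (nat_lit 0x180018000c0002000000008000000000000000000) (nat_lit 0x0) (nat_lit 0x6006400000000000000000000000000000000000) := T_1 (nat_lit 158) (nat_lit 157) (nat_lit 2) (nat_lit 4) (nat_lit 9) L1027469 (by decide +kernel)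
theorem L1027471 : W_1 (nat_lit 4) (nat_lit 0x100018000c0002000000008000000000000000000) (nat_lit 0x0) (nat_lit 0x10000e006400000000000000000000000000000000000) := T_1 (nat_lit 159) (nat_lit 176) (nat_lit 5) (nat_lit 7) (nat_lit 6) L1027470 (by decide +kernel)
theorem L1027472 : W_1 (nat_lit 5) (nat_lit 0x100018000c0002000000000000000000000000000) (nat_lit 0x0) (nat_lit 0x10000e006400000000000100008000000000000000000) := T_1 (nat_lit 75) (nat_lit 92) (nat_lit 7) (nat_lit 7) (nat_lit 4) L1027471 (by decide +kernel)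
theorem L1027477 : W_1 (nat_lit 8) (nat_lit 0x2000100018000e0000000000000000000000000000000) (nat_lit 0x0) (nat_lit 0xa0005c000e000300018000c00000000000000000000000000) := T_1 (nat_lit 124) (nat_lit 123) (nat_lit 3) (nat_lit 4) (nat_lit 7) L985900 (by decide +kernel)
theorem L1027478 : W_1 (nat_lit 9) (nat_lit 0x100018000e0000000000000000000000000000000) (nat_lit 0x0) (nat_lit 0xa0007c000e000300018001c00000000000000000000000000) := T_1 (nat_lit 177) (nat_lit 108) (nat_lit 4) (nat_lit 7) (nat_lit 10) L1027477 (by decide +kernel)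
theorem L1027483 : W_1 (nat_lit 3) (nat_lit 0x2000100018000c0000000000000000000000000000000) (nat_lit 0x0) (nat_lit 0x2000038001000000000000000000000000000) := T_1 (nat_lit 125) (nat_lit 108) (nat_lit 4) (nat_lit 7) (nat_lit 10) L1016622 (by decide +kernel)
theorem L1027484 : W_1 (nat_lit 4) (nat_lit 0x100018000c0000000000000000000000000000000) (nat_lit 0x0) (nat_lit 0x4000200000002000038001000000000000000000000000000) := T_1 (nat_lit 177) (nat_lit 194) (nat_lit 6) (nat_lit 7) (nat_lit 11) L1027483 (by decide +kernel)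
theorem L1028827 : W_1 (nat_lit 2) (nat_lit 0x10007800180000000000000000000000000000000) (nat_lit 0x0) (nat_lit 0x18000040000000000000000000000000000000) := D_1 (nat_lit 147) (nat_lit 148) (nat_lit 126) (nat_lit 0) (nat_lit 12) (nat_lit 8) (nat_lit 0) (nat_lit 11) (nat_lit 8) (by decide +kernel)
theorem L1028828 : W_1 (nat_lit 3) (nat_lit 0x10003800180000000000000000000000000000000) (nat_lit 0x0) (nat_lit 0x801c000040000000000000000000000000000000) := T_1 (nat_lit 146) (nat_lit 159) (nat_lit 1) (nat_lit 10) (nat_lit 8) L1028827 (by decide +kernel)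
theorem L1029807 : W_1 (nat_lit 4) (nat_lit 0x18000f0000800000000000000000000000000) (nat_lit 0x0) (nat_lit 0x700039000000000000000000000000000) := T_1 (nat_lit 128) (nat_lit 108) (nat_lit 0) (nat_lit 9) (nat_lit 7) L987671 (by decide +kernel)
theorem L1029808 : W_1 (nat_lit 5) (nat_lit 0x18000f0000000000000000000000000000000) (nat_lit 0x0) (nat_lit 0x700039c00000000000000000000000000) := T_1 (nat_lit 107) (nat_lit 106) (nat_lit 0) (nat_lit 8) (nat_lit 7) L1029807 (by decide +kernel)
theorem L1029809 : W_1 (nat_lit 6) (nat_lit 0x18000e0000000000000000000000000000000) (nat_lit 0x0) (nat_lit 0x718039c00000000000000000000000000) := T_1 (nat_lit 124) (nat_lit 123) (nat_lit 3) (nat_lit 4) (nat_lit 7) L1029808 (by decide +kernel)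
theorem L1029810 : W_1 (nat_lit 7) (nat_lit 0x18000c0000000000000000000000000000000) (nat_lit 0x0) (nat_lit 0x20001000e00073803bc00080004000000000000000000) := Q_1 (nat_lit 125) (C_1 L1029809 (C_1 L979459 (C_1 L988712 N_1))) (by decide +kernel)
theorem L1045398 : W_1 (nat_lit 2) (nat_lit 0x100007c004a0000000000000000000000000000000) (nat_lit 0x0) (nat_lit 0x200008000800000000000000000000000000000000) := D_1 (nat_lit 147) (nat_lit 165) (nat_lit 131) (nat_lit 3) (nat_lit 8) (nat_lit 8) (nat_lit 2) (nat_lit 8) (nat_lit 8) (by decide +kernel)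
theorem L1045399 : W_1 (nat_lit 3) (nat_lit 0x100007c000a0000000000000000000000000000000) (nat_lit 0x0) (nat_lit 0x200008000e00000000000000000000000000000000) := T_1 (nat_lit 130) (nat_lit 129) (nat_lit 2) (nat_lit 7) (nat_lit 8) L1045398 (by decide +kernel)
theorem L1045400 : W_1 (nat_lit 4) (nat_lit 0x7c000a0000000000000000000000000000000) (nat_lit 0x0) (nat_lit 0x380008000e00000000000000000000000000000000) := T_1 (nat_lit 164) (nat_lit 163) (nat_lit 3) (nat_lit 7) (nat_lit 8) L1045399 (by decide +kernel)
theorem L1045401 : W_1 (nat_lit 5) (nat_lit 0x3c000a0000000000000000000000000000000) (nat_lit 0x0) (nat_lit 0x38000c000e40000000000000000000000000000000) := T_1 (nat_lit 146) (nat_lit 126) (nat_lit 0) (nat_lit 10) (nat_lit 8) L1045400 (by decide +kernel)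
theorem L1045402 : W_1 (nat_lit 6) (nat_lit 0x3c00080000000000000000000000000000000) (nat_lit 0x0) (nat_lit 0x38000c000e70000000000000000000000000000000) := T_1 (nat_lit 125) (nat_lit 124) (nat_lit 0) (nat_lit 9) (nat_lit 8) L1045401 (by decide +kernel)
theorem L1045407 : W_1 (nat_lit 2) (nat_lit 0x3c001e0001000000000000000000000000000) (nat_lit 0x0) (nat_lit 0x200010000000000000000080000000000000000000000) := D_1 (nat_lit 160) (nat_lit 177) (nat_lit 91) (nat_lit 4) (nat_lit 7) (nat_lit 10) (nat_lit 7) (nat_lit 6) (nat_lit 5) (by decide +kernel)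
theorem L1045976 : W_1 (nat_lit 2) (nat_lit 0xfc00280000000000000000000000000000000) (nat_lit 0x0) (nat_lit 0x380000000000000000000000000000000000000000) := D_1 (nat_lit 164) (nat_lit 163) (nat_lit 165) (nat_lit 3) (nat_lit 7) (nat_lit 8) (nat_lit 3) (nat_lit 8) (nat_lit 8) (by decide +kernel)
theorem L1045977 : W_1 (nat_lit 3) (nat_lit 0x7c00280000000000000000000000000000000) (nat_lit 0x0) (nat_lit 0x380008000040000000000000000000000000000000) := T_1 (nat_lit 147) (nat_lit 126) (nat_lit 0) (nat_lit 11) (nat_lit 8) L1045976 (by decide +kernel)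
theorem L1045978 : W_1 (nat_lit 4) (nat_lit 0x3c00280000000000000000000000000000000) (nat_lit 0x0) (nat_lit 0x38000c000440000000000000000000000000000000) := T_1 (nat_lit 146) (nat_lit 130) (nat_lit 2) (nat_lit 7) (nat_lit 8) L1045977 (by decide +kernel)
theorem L1045979 : W_1 (nat_lit 5) (nat_lit 0x3c00080000000000000000000000000000000) (nat_lit 0x0) (nat_lit 0x38000c000740000000000000000000000000000000) := T_1 (nat_lit 129) (nat_lit 128) (nat_lit 2) (nat_lit 6) (nat_lit 8) L1045978 (by decide +kernel)
theorem L1046016 : W_1 (nat_lit 6) (nat_lit 0x18001c0000000000000000000000000000000) (nat_lit 0x0) (nat_lit 0x30001c006600020003800180004000000000000000000) := Q_1 (nat_lit 125) (C_1 L843531 (C_1 L843517 (C_1 L843521 N_1))) (by decide +kernel)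
theorem L1047477 : W_1 (nat_lit 2) (nat_lit 0x200010003c001a0000000000000000000000000000000) (nat_lit 0x0) (nat_lit 0x8000000000001000080000000000000000000000) := D_1 (nat_lit 108) (nat_lit 91) (nat_lit 159) (nat_lit 7) (nat_lit 6) (nat_lit 5) (nat_lit 7) (nat_lit 6) (nat_lit 6) (by decide +kernel)
theorem L1047478 : W_1 (nat_lit 3) (nat_lit 0x200010003c00180000000000000000000000000000000) (nat_lit 0x0) (nat_lit 0x8000000030001000080000000000000000000000) := T_1 (nat_lit 125) (nat_lit 124) (nat_lit 0) (nat_lit 9) (nat_lit 8) L1047477 (by decide +kernel)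
theorem L1047479 : W_1 (nat_lit 4) (nat_lit 0x10003c00180000000000000000000000000000000) (nat_lit 0x0) (nat_lit 0x4000200008000000030001000080000000000000000000000) := T_1 (nat_lit 177) (nat_lit 194) (nat_lit 6) (nat_lit 7) (nat_lit 11) L1047478 (by decide +kernel)
theorem L1047480 : W_1 (nat_lit 5) (nat_lit 0x10003800180000000000000000000000000000000) (nat_lit 0x0) (nat_lit 0x4000200008000600030001000080000000000000000000000) := T_1 (nat_lit 142) (nat_lit 141) (nat_lit 2) (nat_lit 5) (nat_lit 8) L1047479 (by decide +kernel)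
theorem L1047931 : W_1 (nat_lit 2) (nat_lit 0x400000001000fc001a0000000000000000000000000000000) (nat_lit 0x0) (nat_lit 0x380000000000000000000000000000000000000000) := D_1 (nat_lit 164) (nat_lit 163) (nat_lit 165) (nat_lit 3) (nat_lit 7) (nat_lit 8) (nat_lit 3) (nat_lit 8) (nat_lit 8) (by decide +kernel)
theorem L1047932 : W_1 (nat_lit 3) (nat_lit 0x4000000010007c001a0000000000000000000000000000000) (nat_lit 0x0) (nat_lit 0x380018000000000000000000000000000000000000) := T_1 (nat_lit 147) (nat_lit 148) (nat_lit 0) (nat_lit 12) (nat_lit 8) L1047931 (by decide +kernel)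
theorem L1048549 : W_1 (nat_lit 2) (nat_lit 0x8001c001b0001000000000000000000000000000) (nat_lit 0x0) (nat_lit 0x100000000000000000800040000000000000000000000) := D_1 (nat_lit 107) (nat_lit 90) (nat_lit 176) (nat_lit 4) (nat_lit 6) (nat_lit 9) (nat_lit 4) (nat_lit 6) (nat_lit 10) (by decide +kernel)
theorem L1048550 : W_1 (nat_lit 3) (nat_lit 0x8001c001a0001000000000000000000000000000) (nat_lit 0x0) (nat_lit 0x100000002000010000800040000000000000000000000) := T_1 (nat_lit 124) (nat_lit 145) (nat_lit 0) (nat_lit 9) (nat_lit 8) L1048549 (by decide +kernel)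
theorem L1048551 : W_1 (nat_lit 6) (nat_lit 0x8001c001a0003000000000000000000000000000) (nat_lit 0x0) (nat_lit 0x60003000380010000000010000800040000000000000000000000) := T_1 (nat_lit 160) (nat_lit 177) (nat_lit 7) (nat_lit 6) (nat_lit 6) L867869 (by decide +kernel)
theorem L1048552 : W_1 (nat_lit 7) (nat_lit 0x8001c001a0001000000000000000000000000000) (nat_lit 0x0) (nat_lit 0x60003000380010000000010002800140000000000000000000000) := T_1 (nat_lit 109) (nat_lit 92) (nat_lit 6) (nat_lit 6) (nat_lit 9) L1048551 (by decide +kernel)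
theorem L1048577 : W_1 (nat_lit 2) (nat_lit 0x1800080004000600010000c00000000000000) (nat_lit 0x0) (nat_lit 0x100008000000000000000040000000000) := D_1 (nat_lit 111) (nat_lit 42) (nat_lit 128) (nat_lit 7) (nat_lit 8) (nat_lit 2) (nat_lit 7) (nat_lit 8) (nat_lit 3) (by decide +kernel)
theorem L1048578 : W_1 (nat_lit 3) (nat_lit 0x1800080004000600010000400000000000000) (nat_lit 0x0) (nat_lit 0x100008000000000000800060000000000) := T_1 (nat_lit 59) (nat_lit 41) (nat_lit 4) (nat_lit 8) (nat_lit 6) L1048577 (by decide +kernel)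
theorem L1048579 : W_1 (nat_lit 4) (nat_lit 0x1800080004000600010000000000000000000) (nat_lit 0x0) (nat_lit 0x100008000000008000c00060000000000) := T_1 (nat_lit 58) (nat_lit 75) (nat_lit 4) (nat_lit 8) (nat_lit 7) L1048578 (by decide +kernel)
theorem L1048580 : W_1 (nat_lit 5) (nat_lit 0x1800080004000600000000000000000000000) (nat_lit 0x0) (nat_lit 0x140008000000018000c00060000000000) := T_1 (nat_lit 76) (nat_lit 126) (nat_lit 5) (nat_lit 8) (nat_lit 4) L1048579 (by decide +kernel)
theorem L1048581 : W_1 (nat_lit 6) (nat_lit 0x1000080004000600000000000000000000000) (nat_lit 0x0) (nat_lit 0x10000800140008000000018000c00060000000000) := T_1 (nat_lit 143) (nat_lit 160) (nat_lit 5) (nat_lit 8) (nat_lit 5) L1048580 (by decide +kernel)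
theorem L1048582 : W_1 (nat_lit 7) (nat_lit 0x1000080004000200000000000000000000000) (nat_lit 0x0) (nat_lit 0x10000800140008000400038000c00060000000000) := T_1 (nat_lit 94) (nat_lit 77) (nat_lit 6) (nat_lit 8) (nat_lit 8) L1048581 (by decide +kernel)
theorem L1048583 : W_1 (nat_lit 2) (nat_lit 0x1800080004000200010000000000000000000) (nat_lit 0x0) (nat_lit 0x100008000400000000000000) := D_1 (nat_lit 75) (nat_lit 58) (nat_lit 92) (nat_lit 4) (nat_lit 8) (nat_lit 7) (nat_lit 4) (nat_lit 8) (nat_lit 8) (by decide +kernel)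
theorem L1048584 : W_1 (nat_lit 3) (nat_lit 0x1800080004000200000000000000000000000) (nat_lit 0x0) (nat_lit 0x40000000100018000400000000000000) := T_1 (nat_lit 76) (nat_lit 126) (nat_lit 5) (nat_lit 8) (nat_lit 4) L1048583 (by decide +kernel)
theorem L1048585 : W_1 (nat_lit 4) (nat_lit 0x1000080004000200000000000000000000000) (nat_lit 0x0) (nat_lit 0x10000800040000000100018000400000000000000) := T_1 (nat_lit 143) (nat_lit 160) (nat_lit 5) (nat_lit 8) (nat_lit 5) L1048584 (by decide +kernel)
theorem L1048586 : W_1 (nat_lit 2) (nat_lit 0x1800080007000600000000000000000000000) (nat_lit 0x0) (nat_lit 0x1900000000000000000000000) := D_1 (nat_lit 95) (nat_lit 96) (nat_lit 92) (nat_lit 1) (nat_lit 11) (nat_lit 5) (nat_lit 1) (nat_lit 10) (nat_lit 5) (by decide +kernel)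
theorem L1048587 : W_1 (nat_lit 3) (nat_lit 0x1800080006000600000000000000000000000) (nat_lit 0x0) (nat_lit 0x1801900000000000000000000000) := T_1 (nat_lit 108) (nat_lit 107) (nat_lit 2) (nat_lit 5) (nat_lit 6) L1048586 (by decide +kernel)
theorem L1048588 : W_1 (nat_lit 4) (nat_lit 0x1800080006000200000000000000000000000) (nat_lit 0x0) (nat_lit 0x1801d00020000000000000000000) := T_1 (nat_lit 94) (nat_lit 77) (nat_lit 6) (nat_lit 8) (nat_lit 8) L1048587 (by decide +kernel)
theorem L1048589 : W_1 (nat_lit 5) (nat_lit 0x1000080006000200000000000000000000000) (nat_lit 0x0) (nat_lit 0x10000800000001801d00020000000000000000000) := T_1 (nat_lit 143) (nat_lit 160) (nat_lit 5) (nat_lit 8) (nat_lit 5) L1048588 (by decide +kernel)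
theorem L1048590 : W_1 (nat_lit 2) (nat_lit 0x1800080016000f80040000000000000000000) (nat_lit 0x0) (nat_lit 0x40000000000006000000000000000000) := D_1 (nat_lit 74) (nat_lit 126) (nat_lit 73) (nat_lit 4) (nat_lit 7) (nat_lit 8) (nat_lit 0) (nat_lit 9) (nat_lit 5) (by decide +kernel)
theorem L1048591 : W_1 (nat_lit 3) (nat_lit 0x1800080016000f00040000000000000000000) (nat_lit 0x0) (nat_lit 0x40008000080006000000000000000000) := T_1 (nat_lit 91) (nat_lit 111) (nat_lit 3) (nat_lit 6) (nat_lit 5) L1048590 (by decide +kernel)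
theorem L1048592 : W_1 (nat_lit 4) (nat_lit 0x1800080006000f00040000000000000000000) (nat_lit 0x0) (nat_lit 0x40038000080006000000000000000000) := T_1 (nat_lit 112) (nat_lit 113) (nat_lit 3) (nat_lit 7) (nat_lit 5) L1048591 (by decide +kernel)
theorem L1048593 : W_1 (nat_lit 5) (nat_lit 0x1800080006000f00000000000000000000000) (nat_lit 0x0) (nat_lit 0x400380000800c6000000000000000000) := T_1 (nat_lit 78) (nat_lit 79) (nat_lit 2) (nat_lit 7) (nat_lit 5) L1048592 (by decide +kernel)
theorem L1048594 : W_1 (nat_lit 6) (nat_lit 0x1800080006000700000000000000000000000) (nat_lit 0x0) (nat_lit 0x400380018800c6000000000000000000) := T_1 (nat_lit 95) (nat_lit 96) (nat_lit 1) (nat_lit 11) (nat_lit 5) L1048593 (by decide +kernel)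
theorem L1048595 : W_1 (nat_lit 7) (nat_lit 0x1800080006000300000000000000000000000) (nat_lit 0x0) (nat_lit 0x40038001c800e6000000000000000000) := T_1 (nat_lit 94) (nat_lit 77) (nat_lit 6) (nat_lit 8) (nat_lit 8) L1048594 (by decide +kernel)
theorem L1048596 : W_1 (nat_lit 8) (nat_lit 0x1000080006000300000000000000000000000) (nat_lit 0x0) (nat_lit 0x10000800040038001c800e6000000000000000000) := T_1 (nat_lit 143) (nat_lit 160) (nat_lit 5) (nat_lit 8) (nat_lit 5) L1048595 (by decide +kernel)
theorem L1048597 : W_1 (nat_lit 9) (nat_lit 0x1000080006000200000000000000000000000) (nat_lit 0x0) (nat_lit 0x10000800040038001d800ee000000000000000000) := T_1 (nat_lit 92) (nat_lit 75) (nat_lit 4) (nat_lit 8) (nat_lit 8) L1048596 (by decide +kernel)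
theorem L1048598 : W_1 (nat_lit 2) (nat_lit 0x1000080007000300000000000000000000000) (nat_lit 0x0) (nat_lit 0xc00400000000000000000000000) := D_1 (nat_lit 107) (nat_lit 106) (nat_lit 94) (nat_lit 2) (nat_lit 4) (nat_lit 6) (nat_lit 2) (nat_lit 5) (nat_lit 6) (by decide +kernel)
theorem L1048599 : W_1 (nat_lit 3) (nat_lit 0x1000080007000200000000000000000000000) (nat_lit 0x0) (nat_lit 0xc00500008000000000000000000) := T_1 (nat_lit 92) (nat_lit 75) (nat_lit 4) (nat_lit 8) (nat_lit 8) L1048598 (by decide +kernel)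
theorem L1048600 : W_1 (nat_lit 2) (nat_lit 0x100008000f000300000000000000000000000) (nat_lit 0x0) (nat_lit 0x100000c0000000000000000000000) := D_1 (nat_lit 91) (nat_lit 90) (nat_lit 112) (nat_lit 3) (nat_lit 5) (nat_lit 5) (nat_lit 0) (nat_lit 10) (nat_lit 6) (by decide +kernel)
theorem L1048601 : W_1 (nat_lit 3) (nat_lit 0x100008000f000200000000000000000000000) (nat_lit 0x0) (nat_lit 0x100001c0008000000000000000000) := T_1 (nat_lit 92) (nat_lit 75) (nat_lit 4) (nat_lit 8) (nat_lit 8) L1048600 (by decide +kernel)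
theorem L1048602 : W_1 (nat_lit 2) (nat_lit 0x18001a000f000740000000000000000000000) (nat_lit 0x0) (nat_lit 0x8000600000000000000000000000000000000000) := D_1 (nat_lit 142) (nat_lit 141) (nat_lit 159) (nat_lit 2) (nat_lit 5) (nat_lit 8) (nat_lit 6) (nat_lit 6) (nat_lit 9) (by decide +kernel)
theorem L1048603 : W_1 (nat_lit 3) (nat_lit 0x10001a000f000740000000000000000000000) (nat_lit 0x0) (nat_lit 0x18000e00000000000000000000000000000000000) := T_1 (nat_lit 143) (nat_lit 160) (nat_lit 5) (nat_lit 8) (nat_lit 5) L1048602 (by decide +kernel)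
theorem L1048604 : W_1 (nat_lit 4) (nat_lit 0x100018000f000740000000000000000000000) (nat_lit 0x0) (nat_lit 0x18000e00030000000000000000000000000000000) := T_1 (nat_lit 125) (nat_lit 124) (nat_lit 1) (nat_lit 9) (nat_lit 6) L1048603 (by decide +kernel)
theorem L1048605 : W_1 (nat_lit 5) (nat_lit 0x100018000f000340000000000000000000000) (nat_lit 0x0) (nat_lit 0x18000e00030000000c00000000000000000000000) := T_1 (nat_lit 94) (nat_lit 95) (nat_lit 2) (nat_lit 6) (nat_lit 6) L1048604 (by decide +kernel)
theorem L1048606 : W_1 (nat_lit 6) (nat_lit 0x100008000f000340000000000000000000000) (nat_lit 0x0) (nat_lit 0x18000e00330000000c00000000000000000000000) := T_1 (nat_lit 128) (nat_lit 129) (nat_lit 3) (nat_lit 6) (nat_lit 6) L1048605 (by decide +kernel)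
theorem L1048607 : W_1 (nat_lit 7) (nat_lit 0x100008000f000300000000000000000000000) (nat_lit 0x0) (nat_lit 0x18000e00330000000cc0000000000000000000000) := T_1 (nat_lit 90) (nat_lit 91) (nat_lit 3) (nat_lit 5) (nat_lit 5) L1048606 (by decide +kernel)
theorem L1048608 : W_1 (nat_lit 8) (nat_lit 0x100008000f000200000000000000000000000) (nat_lit 0x0) (nat_lit 0x18000e00330000000dc0008000000000000000000) := T_1 (nat_lit 92) (nat_lit 75) (nat_lit 4) (nat_lit 8) (nat_lit 8) L1048607 (by decide +kernel)
theorem L1048609 : W_1 (nat_lit 2) (nat_lit 0x1a0018001f000700000000000000000000000) (nat_lit 0x0) (nat_lit 0x70000000000000000000000000000000) := D_1 (nat_lit 125) (nat_lit 124) (nat_lit 126) (nat_lit 1) (nat_lit 9) (nat_lit 6) (nat_lit 2) (nat_lit 6) (nat_lit 7) (by decide +kernel)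
theorem L1048610 : W_1 (nat_lit 3) (nat_lit 0x1a0018000f000700000000000000000000000) (nat_lit 0x0) (nat_lit 0x70030000000000000000000000000000) := T_1 (nat_lit 112) (nat_lit 113) (nat_lit 0) (nat_lit 11) (nat_lit 6) L1048609 (by decide +kernel)
theorem L1048611 : W_1 (nat_lit 4) (nat_lit 0x1a0018000f000600000000000000000000000) (nat_lit 0x0) (nat_lit 0x70030000100008000000000000000000) := T_1 (nat_lit 92) (nat_lit 75) (nat_lit 4) (nat_lit 8) (nat_lit 8) L1048610 (by decide +kernel)
theorem L1048612 : W_1 (nat_lit 5) (nat_lit 0x1a0018000f000200000000000000000000000) (nat_lit 0x0) (nat_lit 0x70030000d00008000000000000000000) := T_1 (nat_lit 94) (nat_lit 95) (nat_lit 2) (nat_lit 6) (nat_lit 6) L1048611 (by decide +kernel)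
theorem L1048613 : W_1 (nat_lit 6) (nat_lit 0x180018000f000200000000000000000000000) (nat_lit 0x0) (nat_lit 0x600070030000d00008000000000000000000) := T_1 (nat_lit 141) (nat_lit 142) (nat_lit 2) (nat_lit 5) (nat_lit 8) L1048612 (by decide +kernel)
theorem L1048614 : W_1 (nat_lit 7) (nat_lit 0x180008000f000200000000000000000000000) (nat_lit 0x0) (nat_lit 0x600370030000d00008000000000000000000) := T_1 (nat_lit 128) (nat_lit 129) (nat_lit 3) (nat_lit 6) (nat_lit 6) L1048613 (by decide +kernel)
theorem L1048615 : W_1 (nat_lit 8) (nat_lit 0x100008000f000200000000000000000000000) (nat_lit 0x0) (nat_lit 0x10000e00370030000d00008000000000000000000) := T_1 (nat_lit 143) (nat_lit 160) (nat_lit 5) (nat_lit 8) (nat_lit 5) L1048614 (by decide +kernel)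
theorem L1048616 : W_1 (nat_lit 9) (nat_lit 0x1000080007000200000000000000000000000) (nat_lit 0x0) (nat_lit 0x18000e00f70078000dc0008000000000000000000) := Q_1 (nat_lit 111) (C_1 L66111 (C_1 L1048601 (C_1 L1048608 (C_1 L1048615 N_1)))) (by decide +kernel)
theorem L1048617 : W_1 (nat_lit 10) (nat_lit 0x1000080006000200000000000000000000000) (nat_lit 0x0) (nat_lit 0x18000e00f7c079c00dc0008000000000000000000) := Q_1 (nat_lit 108) (C_1 L95924 (C_1 L115 (C_1 L1048599 (C_1 L1048616 N_1)))) (by decide +kernel)
theorem L1048618 : W_1 (nat_lit 2) (nat_lit 0x18001a000f000280020000000000000000000) (nat_lit 0x0) (nat_lit 0x40010000000004000000000000000000) := D_1 (nat_lit 126) (nat_lit 74) (nat_lit 112) (nat_lit 7) (nat_lit 6) (nat_lit 4) (nat_lit 2) (nat_lit 6) (nat_lit 7) (by decide +kernel)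
theorem L1048619 : W_1 (nat_lit 3) (nat_lit 0x10001a000f000280020000000000000000000) (nat_lit 0x0) (nat_lit 0x10000800040010000000004000000000000000000) := T_1 (nat_lit 143) (nat_lit 160) (nat_lit 5) (nat_lit 8) (nat_lit 5) L1048618 (by decide +kernel)
theorem L1048620 : W_1 (nat_lit 4) (nat_lit 0x100018000f000280020000000000000000000) (nat_lit 0x0) (nat_lit 0x10000800070010000000004000000000000000000) := T_1 (nat_lit 125) (nat_lit 124) (nat_lit 1) (nat_lit 9) (nat_lit 6) L1048619 (by decide +kernel)
theorem L1048621 : W_1 (nat_lit 5) (nat_lit 0x100018000f000200020000000000000000000) (nat_lit 0x0) (nat_lit 0x100008000700100000c0004000000000000000000) := T_1 (nat_lit 91) (nat_lit 90) (nat_lit 0) (nat_lit 9) (nat_lit 6) L1048620 (by decide +kernel)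
theorem L1048622 : W_1 (nat_lit 6) (nat_lit 0x100018000f000200000000000000000000000) (nat_lit 0x0) (nat_lit 0x100008000700100004c0024000000000000000000) := T_1 (nat_lit 77) (nat_lit 94) (nat_lit 6) (nat_lit 8) (nat_lit 8) L1048621 (by decide +kernel)
theorem L1048623 : W_1 (nat_lit 7) (nat_lit 0x100008000f000200000000000000000000000) (nat_lit 0x0) (nat_lit 0x100008003700100004c0024000000000000000000) := T_1 (nat_lit 128) (nat_lit 129) (nat_lit 3) (nat_lit 6) (nat_lit 6) L1048622 (by decide +kernel)
theorem L1048624 : W_1 (nat_lit 2) (nat_lit 0x1c0018000f000340000000000000000000000) (nat_lit 0x0) (nat_lit 0x8000000030000000000000000000000000000000) := D_1 (nat_lit 125) (nat_lit 124) (nat_lit 159) (nat_lit 1) (nat_lit 9) (nat_lit 6) (nat_lit 6) (nat_lit 6) (nat_lit 9) (by decide +kernel)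
theorem L1048625 : W_1 (nat_lit 3) (nat_lit 0x180018000f000340000000000000000000000) (nat_lit 0x0) (nat_lit 0x8000600030000000000000000000000000000000) := T_1 (nat_lit 142) (nat_lit 141) (nat_lit 2) (nat_lit 5) (nat_lit 8) L1048624 (by decide +kernel)
theorem L1048626 : W_1 (nat_lit 4) (nat_lit 0x180008000f000340000000000000000000000) (nat_lit 0x0) (nat_lit 0x8000600330000000000000000000000000000000) := T_1 (nat_lit 128) (nat_lit 129) (nat_lit 3) (nat_lit 6) (nat_lit 6) L1048625 (by decide +kernel)
theorem L1048627 : W_1 (nat_lit 5) (nat_lit 0x180008000f000300000000000000000000000) (nat_lit 0x0) (nat_lit 0x80006003300000000c0000000000000000000000) := T_1 (nat_lit 90) (nat_lit 91) (nat_lit 3) (nat_lit 5) (nat_lit 5) L1048626 (by decide +kernel)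
theorem L1048628 : W_1 (nat_lit 6) (nat_lit 0x180008000f000200000000000000000000000) (nat_lit 0x0) (nat_lit 0x80006003300000001c0008000000000000000000) := T_1 (nat_lit 92) (nat_lit 75) (nat_lit 4) (nat_lit 8) (nat_lit 8) L1048627 (by decide +kernel)
theorem L1048629 : W_1 (nat_lit 7) (nat_lit 0x100008000f000200000000000000000000000) (nat_lit 0x0) (nat_lit 0x18000e003300000001c0008000000000000000000) := T_1 (nat_lit 143) (nat_lit 160) (nat_lit 5) (nat_lit 8) (nat_lit 5) L1048628 (by decide +kernel)
theorem L1048630 : W_1 (nat_lit 2) (nat_lit 0x1a001a000f000300020000000000000000000) (nat_lit 0x0) (nat_lit 0x40030000000000000000000000000000) := D_1 (nat_lit 112) (nat_lit 113) (nat_lit 126) (nat_lit 0) (nat_lit 11) (nat_lit 6) (nat_lit 2) (nat_lit 6) (nat_lit 7) (by decide +kernel)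
theorem L1048631 : W_1 (nat_lit 3) (nat_lit 0x1a001a000f000200020000000000000000000) (nat_lit 0x0) (nat_lit 0x40030000100008000000000000000000) := T_1 (nat_lit 92) (nat_lit 75) (nat_lit 4) (nat_lit 8) (nat_lit 8) L1048630 (by decide +kernel)
theorem L1048632 : W_1 (nat_lit 4) (nat_lit 0x1a0018000f000200020000000000000000000) (nat_lit 0x0) (nat_lit 0x70030000100008000000000000000000) := T_1 (nat_lit 125) (nat_lit 124) (nat_lit 1) (nat_lit 9) (nat_lit 6) L1048631 (by decide +kernel)
theorem L1048633 : W_1 (nat_lit 5) (nat_lit 0x180018000f000200020000000000000000000) (nat_lit 0x0) (nat_lit 0x600070030000100008000000000000000000) := T_1 (nat_lit 141) (nat_lit 142) (nat_lit 2) (nat_lit 5) (nat_lit 8) L1048632 (by decide +kernel)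
theorem L1048634 : W_1 (nat_lit 6) (nat_lit 0x100018000f000200020000000000000000000) (nat_lit 0x0) (nat_lit 0x10000e00070030000100008000000000000000000) := T_1 (nat_lit 143) (nat_lit 160) (nat_lit 5) (nat_lit 8) (nat_lit 5) L1048633 (by decide +kernel)
theorem L1048635 : W_1 (nat_lit 7) (nat_lit 0x100018000f000200000000000000000000000) (nat_lit 0x0) (nat_lit 0x10000e00070030000500028000000000000000000) := T_1 (nat_lit 77) (nat_lit 94) (nat_lit 6) (nat_lit 8) (nat_lit 8) L1048634 (by decide +kernel)
theorem L1048636 : W_1 (nat_lit 8) (nat_lit 0x100008000f000200000000000000000000000) (nat_lit 0x0) (nat_lit 0x10000e00370030000500028000000000000000000) := T_1 (nat_lit 128) (nat_lit 129) (nat_lit 3) (nat_lit 6) (nat_lit 6) L1048635 (by decide +kernel)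
theorem L1048637 : W_1 (nat_lit 9) (nat_lit 0x1000080007000200000000000000000000000) (nat_lit 0x0) (nat_lit 0x18000e003700380005c002c000000000000000000) := Q_1 (nat_lit 111) (C_1 L1048601 (C_1 L1048623 (C_1 L1048629 (C_1 L1048636 N_1)))) (by decide +kernel)
theorem L1048638 : W_1 (nat_lit 10) (nat_lit 0x1000080006000200000000000000000000000) (nat_lit 0x0) (nat_lit 0x18000e0037c039c005c002c000000000000000000) := Q_1 (nat_lit 108) (C_1 L1048599 (C_1 L95924 (C_1 L1048637 N_1))) (by decide +kernel)
theorem L1048639 : W_1 (nat_lit 2) (nat_lit 0x18000c0006000380000000000000000000000) (nat_lit 0x0) (nat_lit 0x8000060000000000000000000000) := D_1 (nat_lit 90) (nat_lit 111) (nat_lit 89) (nat_lit 3) (nat_lit 5) (nat_lit 5) (nat_lit 3) (nat_lit 4) (nat_lit 5) (by decide +kernel)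
theorem L1048640 : W_1 (nat_lit 3) (nat_lit 0x18000c0006000300000000000000000000000) (nat_lit 0x0) (nat_lit 0x80000e0004000000000000000000) := T_1 (nat_lit 91) (nat_lit 74) (nat_lit 4) (nat_lit 7) (nat_lit 8) L1048639 (by decide +kernel)
theorem L1048641 : W_1 (nat_lit 4) (nat_lit 0x10000c0006000300000000000000000000000) (nat_lit 0x0) (nat_lit 0x100008000000080000e0004000000000000000000) := T_1 (nat_lit 143) (nat_lit 160) (nat_lit 6) (nat_lit 7) (nat_lit 9) L1048640 (by decide +kernel)
theorem L1048642 : W_1 (nat_lit 5) (nat_lit 0x10000c0006000200000000000000000000000) (nat_lit 0x0) (nat_lit 0x100008000000080001e000c000000000000000000) := T_1 (nat_lit 92) (nat_lit 75) (nat_lit 7) (nat_lit 7) (nat_lit 4) L1048641 (by decide +kernel)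
theorem L1048643 : W_1 (nat_lit 2) (nat_lit 0x12000f0006800300000000000000000000000) (nat_lit 0x0) (nat_lit 0x400100001000000000000000000000000000) := D_1 (nat_lit 128) (nat_lit 142) (nat_lit 108) (nat_lit 1) (nat_lit 9) (nat_lit 7) (nat_lit 3) (nat_lit 5) (nat_lit 6) (by decide +kernel)
theorem L1048644 : W_1 (nat_lit 3) (nat_lit 0x12000f0006000300000000000000000000000) (nat_lit 0x0) (nat_lit 0x400100001c00000000000000000000000000) := T_1 (nat_lit 107) (nat_lit 106) (nat_lit 0) (nat_lit 8) (nat_lit 7) L1048643 (by decide +kernel)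
theorem L1048645 : W_1 (nat_lit 4) (nat_lit 0x10000f0006000300000000000000000000000) (nat_lit 0x0) (nat_lit 0x700100001c00000000000000000000000000) := T_1 (nat_lit 141) (nat_lit 140) (nat_lit 1) (nat_lit 8) (nat_lit 7) L1048644 (by decide +kernel)
theorem L1048646 : W_1 (nat_lit 5) (nat_lit 0x10000e0006000300000000000000000000000) (nat_lit 0x0) (nat_lit 0x700118001c00000000000000000000000000) := T_1 (nat_lit 124) (nat_lit 123) (nat_lit 2) (nat_lit 4) (nat_lit 7) L1048645 (by decide +kernel)
theorem L1048647 : W_1 (nat_lit 6) (nat_lit 0x10000e0006000200000000000000000000000) (nat_lit 0x0) (nat_lit 0x700118001c00100008000000000000000000) := T_1 (nat_lit 92) (nat_lit 75) (nat_lit 7) (nat_lit 7) (nat_lit 4) L1048646 (by decide +kernel)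
theorem L1048648 : W_1 (nat_lit 2) (nat_lit 0x1c000e000e000380000000000000000000000) (nat_lit 0x0) (nat_lit 0x300100000000000000000000000000000000) := D_1 (nat_lit 141) (nat_lit 128) (nat_lit 140) (nat_lit 2) (nat_lit 5) (nat_lit 8) (nat_lit 2) (nat_lit 4) (nat_lit 8) (by decide +kernel)
theorem L1048649 : W_1 (nat_lit 3) (nat_lit 0x18000e000e000380000000000000000000000) (nat_lit 0x0) (nat_lit 0x8000700100000000000000000000000000000000) := T_1 (nat_lit 142) (nat_lit 159) (nat_lit 5) (nat_lit 7) (nat_lit 5) L1048648 (by decide +kernel)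
theorem L1048650 : W_1 (nat_lit 4) (nat_lit 0x10000e000e000380000000000000000000000) (nat_lit 0x0) (nat_lit 0x8000f00100000000000004000000000000000000) := T_1 (nat_lit 143) (nat_lit 74) (nat_lit 4) (nat_lit 7) (nat_lit 8) L1048649 (by decide +kernel)
theorem L1048651 : W_1 (nat_lit 5) (nat_lit 0x10000e000e000300000000000000000000000) (nat_lit 0x0) (nat_lit 0x8000f001000000000c0004000000000000000000) := T_1 (nat_lit 91) (nat_lit 90) (nat_lit 3) (nat_lit 5) (nat_lit 5) L1048650 (by decide +kernel)
theorem L1048652 : W_1 (nat_lit 6) (nat_lit 0x10000e000e000200000000000000000000000) (nat_lit 0x0) (nat_lit 0x8000f001000000001c000c000000000000000000) := T_1 (nat_lit 92) (nat_lit 75) (nat_lit 7) (nat_lit 7) (nat_lit 4) L1048651 (by decide +kernel)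
theorem L1048653 : W_1 (nat_lit 7) (nat_lit 0x10000e0006000200000000000000000000000) (nat_lit 0x0) (nat_lit 0x8000f001000180001c000c000000000000000000) := T_1 (nat_lit 111) (nat_lit 112) (nat_lit 1) (nat_lit 10) (nat_lit 6) L1048652 (by decide +kernel)
theorem L1048654 : W_1 (nat_lit 8) (nat_lit 0x10000c0006000200000000000000000000000) (nat_lit 0x0) (nat_lit 0x8000f00138019c001c000c000000000000000000) := Q_1 (nat_lit 125) (C_1 L64088 (C_1 L1048647 (C_1 L1048653 N_1))) (by decide +kernel)
theorem L1048655 : W_1 (nat_lit 2) (nat_lit 0x1c000c00060003a0000000000000000000000) (nat_lit 0x0) (nat_lit 0x300100000000000000000000000000000000) := D_1 (nat_lit 141) (nat_lit 128) (nat_lit 140) (nat_lit 2) (nat_lit 5) (nat_lit 8) (nat_lit 2) (nat_lit 4) (nat_lit 8) (by decide +kernel)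
theorem L1048656 : W_1 (nat_lit 3) (nat_lit 0x18000c00060003a0000000000000000000000) (nat_lit 0x0) (nat_lit 0x8000700100000000000000000000000000000000) := T_1 (nat_lit 142) (nat_lit 159) (nat_lit 5) (nat_lit 7) (nat_lit 5) L1048655 (by decide +kernel)
theorem L1048657 : W_1 (nat_lit 4) (nat_lit 0x18000c0006000380000000000000000000000) (nat_lit 0x0) (nat_lit 0x8000700100000000060000000000000000000000) := T_1 (nat_lit 89) (nat_lit 90) (nat_lit 3) (nat_lit 4) (nat_lit 5) L1048656 (by decide +kernel)
theorem L1048658 : W_1 (nat_lit 5) (nat_lit 0x18000c0006000300000000000000000000000) (nat_lit 0x0) (nat_lit 0x80007001000000000e0004000000000000000000) := T_1 (nat_lit 91) (nat_lit 74) (nat_lit 4) (nat_lit 7) (nat_lit 8) L1048657 (by decide +kernel)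
theorem L1048659 : W_1 (nat_lit 6) (nat_lit 0x10000c0006000300000000000000000000000) (nat_lit 0x0) (nat_lit 0x18000f001000000000e0004000000000000000000) := T_1 (nat_lit 143) (nat_lit 160) (nat_lit 6) (nat_lit 7) (nat_lit 9) L1048658 (by decide +kernel)
theorem L1048660 : W_1 (nat_lit 7) (nat_lit 0x10000c0006000200000000000000000000000) (nat_lit 0x0) (nat_lit 0x18000f001000000001e000c000000000000000000) := T_1 (nat_lit 92) (nat_lit 75) (nat_lit 7) (nat_lit 7) (nat_lit 4) L1048659 (by decide +kernel)
theorem L1048661 : W_1 (nat_lit 6) (nat_lit 0x10000e0006000200000000000000000000000) (nat_lit 0x0) (nat_lit 0x10000f00118001c00000000000000000000000000) := T_1 (nat_lit 160) (nat_lit 143) (nat_lit 6) (nat_lit 7) (nat_lit 9) L89009 (by decide +kernel)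
theorem L1048662 : W_1 (nat_lit 2) (nat_lit 0x100014001e0017000200000000000000000000000) (nat_lit 0x0) (nat_lit 0x300008000000000000000000000000000000000000000) := D_1 (nat_lit 159) (nat_lit 177) (nat_lit 176) (nat_lit 7) (nat_lit 6) (nat_lit 6) (nat_lit 6) (nat_lit 6) (nat_lit 10) (by decide +kernel)
theorem L1048663 : W_1 (nat_lit 3) (nat_lit 0x100014001e0016000200000000000000000000000) (nat_lit 0x0) (nat_lit 0x300008000000000001800000000000000000000000000) := T_1 (nat_lit 108) (nat_lit 107) (nat_lit 3) (nat_lit 5) (nat_lit 6) L1048662 (by decide +kernel)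
theorem L1048664 : W_1 (nat_lit 4) (nat_lit 0x14001e0016000200000000000000000000000) (nat_lit 0x0) (nat_lit 0x300018000800000001800000000000000000000000000) := T_1 (nat_lit 160) (nat_lit 143) (nat_lit 6) (nat_lit 7) (nat_lit 9) L1048663 (by decide +kernel)
theorem L1048665 : W_1 (nat_lit 5) (nat_lit 0x10001e0016000200000000000000000000000) (nat_lit 0x0) (nat_lit 0x300018000e00000001800000000000000000000000000) := T_1 (nat_lit 142) (nat_lit 141) (nat_lit 1) (nat_lit 9) (nat_lit 7) L1048664 (by decide +kernel)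
theorem L1048666 : W_1 (nat_lit 6) (nat_lit 0x10001e0006000200000000000000000000000) (nat_lit 0x0) (nat_lit 0x300018000e00000019800000000000000000000000000) := T_1 (nat_lit 112) (nat_lit 111) (nat_lit 2) (nat_lit 6) (nat_lit 7) L1048665 (by decide +kernel)
theorem L1048667 : W_1 (nat_lit 2) (nat_lit 0x18001e000e000200000000000000000000000) (nat_lit 0x0) (nat_lit 0x600200000000000000000000000000000000) := D_1 (nat_lit 142) (nat_lit 141) (nat_lit 129) (nat_lit 2) (nat_lit 5) (nat_lit 8) (nat_lit 1) (nat_lit 10) (nat_lit 7) (by decide +kernel)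
theorem L1048668 : W_1 (nat_lit 3) (nat_lit 0x10001e000e000200000000000000000000000) (nat_lit 0x0) (nat_lit 0x10000e00200000000000000000000000000000000) := T_1 (nat_lit 143) (nat_lit 160) (nat_lit 6) (nat_lit 7) (nat_lit 9) L1048667 (by decide +kernel)
theorem L1048669 : W_1 (nat_lit 4) (nat_lit 0x10001e0006000200000000000000000000000) (nat_lit 0x0) (nat_lit 0x10000e00200018000000000000000000000000000) := T_1 (nat_lit 111) (nat_lit 112) (nat_lit 2) (nat_lit 6) (nat_lit 7) L1048668 (by decide +kernel)
theorem L1048670 : W_1 (nat_lit 7) (nat_lit 0x10000e0006000200000000000000000000000) (nat_lit 0x0) (nat_lit 0x300018000e00700019800000000000000000000000000) := Q_1 (nat_lit 128) (C_1 L81941 (C_1 L1048666 (C_1 L1048669 N_1))) (by decide +kernel)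
theorem L1048671 : W_1 (nat_lit 8) (nat_lit 0x10000c0006000200000000000000000000000) (nat_lit 0x0) (nat_lit 0x300018000f00738019c00000000000000000000000000) := Q_1 (nat_lit 125) (C_1 L64088 (C_1 L1048661 (C_1 L1048670 N_1))) (by decide +kernel)
theorem L1048672 : W_1 (nat_lit 2) (nat_lit 0x10000c0007000200000000000000000000000) (nat_lit 0x0) (nat_lit 0x100000c00000000000000000000000000) := D_1 (nat_lit 107) (nat_lit 128) (nat_lit 106) (nat_lit 3) (nat_lit 5) (nat_lit 6) (nat_lit 3) (nat_lit 4) (nat_lit 6) (by decide +kernel)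
theorem L1048673 : W_1 (nat_lit 2) (nat_lit 0x10000d0007800340000000000000000000000) (nat_lit 0x0) (nat_lit 0x20008000080000000000000000000000) := D_1 (nat_lit 111) (nat_lit 125) (nat_lit 91) (nat_lit 2) (nat_lit 5) (nat_lit 7) (nat_lit 3) (nat_lit 5) (nat_lit 5) (by decide +kernel)
theorem L1048674 : W_1 (nat_lit 3) (nat_lit 0x10000d0007800300000000000000000000000) (nat_lit 0x0) (nat_lit 0x200080000e0000000000000000000000) := T_1 (nat_lit 90) (nat_lit 89) (nat_lit 0) (nat_lit 8) (nat_lit 6) L1048673 (by decide +kernel)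
theorem L1048675 : W_1 (nat_lit 4) (nat_lit 0x10000c0007800300000000000000000000000) (nat_lit 0x0) (nat_lit 0x380080000e0000000000000000000000) := T_1 (nat_lit 124) (nat_lit 123) (nat_lit 1) (nat_lit 8) (nat_lit 6) L1048674 (by decide +kernel)
theorem L1048676 : W_1 (nat_lit 5) (nat_lit 0x10000c0007000300000000000000000000000) (nat_lit 0x0) (nat_lit 0x38008c000e0000000000000000000000) := T_1 (nat_lit 107) (nat_lit 106) (nat_lit 3) (nat_lit 4) (nat_lit 6) L1048675 (by decide +kernel)
theorem L1048677 : W_1 (nat_lit 6) (nat_lit 0x10000c0007000200000000000000000000000) (nat_lit 0x0) (nat_lit 0x38008c001e0008000000000000000000) := T_1 (nat_lit 92) (nat_lit 75) (nat_lit 7) (nat_lit 7) (nat_lit 4) L1048676 (by decide +kernel)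
theorem L1048678 : W_1 (nat_lit 2) (nat_lit 0x10000c000f000300000000000000000000000) (nat_lit 0x0) (nat_lit 0x100000c0000000000000000000000) := D_1 (nat_lit 91) (nat_lit 90) (nat_lit 112) (nat_lit 3) (nat_lit 5) (nat_lit 5) (nat_lit 0) (nat_lit 10) (nat_lit 6) (by decide +kernel)
theorem L1048679 : W_1 (nat_lit 3) (nat_lit 0x10000c000f000200000000000000000000000) (nat_lit 0x0) (nat_lit 0x100001c0008000000000000000000) := T_1 (nat_lit 92) (nat_lit 75) (nat_lit 7) (nat_lit 7) (nat_lit 4) L1048678 (by decide +kernel)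
theorem L1048680 : W_1 (nat_lit 2) (nat_lit 0x14001e000f000200000000000000000000000) (nat_lit 0x0) (nat_lit 0x8000000000000000100008000000000000000000) := D_1 (nat_lit 92) (nat_lit 75) (nat_lit 159) (nat_lit 7) (nat_lit 7) (nat_lit 4) (nat_lit 6) (nat_lit 6) (nat_lit 9) (by decide +kernel)
theorem L1048681 : W_1 (nat_lit 3) (nat_lit 0x10001e000f000200000000000000000000000) (nat_lit 0x0) (nat_lit 0x8000600000000000100008000000000000000000) := T_1 (nat_lit 142) (nat_lit 141) (nat_lit 1) (nat_lit 9) (nat_lit 7) L1048680 (by decide +kernel)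
theorem L1048682 : W_1 (nat_lit 4) (nat_lit 0x10000e000f000200000000000000000000000) (nat_lit 0x0) (nat_lit 0x8000600300000000100008000000000000000000) := T_1 (nat_lit 128) (nat_lit 129) (nat_lit 3) (nat_lit 6) (nat_lit 6) L1048681 (by decide +kernel)
theorem L1048683 : W_1 (nat_lit 5) (nat_lit 0x10000c000f000200000000000000000000000) (nat_lit 0x0) (nat_lit 0x8000600330000000100008000000000000000000) := T_1 (nat_lit 125) (nat_lit 124) (nat_lit 2) (nat_lit 5) (nat_lit 7) L1048682 (by decide +kernel)
theorem L1048684 : W_1 (nat_lit 6) (nat_lit 0x10000c0007000200000000000000000000000) (nat_lit 0x0) (nat_lit 0x80006003300380001c0008000000000000000000) := Q_1 (nat_lit 111) (C_1 L66522 (C_1 L1048679 (C_1 L1048683 N_1))) (by decide +kernel)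
theorem L1048685 : W_1 (nat_lit 7) (nat_lit 0x10000c0006000200000000000000000000000) (nat_lit 0x0) (nat_lit 0x8000600338039c001e0008000000000000000000) := Q_1 (nat_lit 108) (C_1 L81878 (C_1 L1048672 (C_1 L1048677 (C_1 L1048684 N_1)))) (by decide +kernel)
theorem L1048686 : W_1 (nat_lit 9) (nat_lit 0x1000080006000200000000000000000000000) (nat_lit 0x0) (nat_lit 0x300018000f00778039c001e000c000000000000000000) := Q_1 (nat_lit 126) (C_1 L1048642 (C_1 L1048654 (C_1 L1048660 (C_1 L1048671 (C_1 L1048685 N_1))))) (by decide +kernel)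
theorem L1048687 : W_1 (nat_lit 11) (nat_lit 0x1000080004000200000000000000000000000) (nat_lit 0x0) (nat_lit 0x300018000f00f7c07bc01de00ee000000000000000000) := Q_1 (nat_lit 109) (C_1 L66124 (C_1 L1048589 (C_1 L1048597 (C_1 L1048617 (C_1 L1048638 (C_1 L1048686 N_1)))))) (by decide +kernel)
theorem L1048688 : W_1 (nat_lit 2) (nat_lit 0x1800080004000200010000000000000000000) (nat_lit 0x0) (nat_lit 0x400020001000000000000000) := D_1 (nat_lit 77) (nat_lit 94) (nat_lit 60) (nat_lit 6) (nat_lit 8) (nat_lit 8) (nat_lit 6) (nat_lit 8) (nat_lit 7) (by decide +kernel)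
theorem L1048689 : W_1 (nat_lit 3) (nat_lit 0x1800080004000200000000000000000000000) (nat_lit 0x0) (nat_lit 0x40000000400030001000000000000000) := T_1 (nat_lit 76) (nat_lit 126) (nat_lit 5) (nat_lit 8) (nat_lit 4) L1048688 (by decide +kernel)
theorem L1048690 : W_1 (nat_lit 4) (nat_lit 0x1000080004000200000000000000000000000) (nat_lit 0x0) (nat_lit 0x10000800040000000400030001000000000000000) := T_1 (nat_lit 143) (nat_lit 160) (nat_lit 5) (nat_lit 8) (nat_lit 5) L1048689 (by decide +kernel)
theorem L1048691 : W_1 (nat_lit 12) (nat_lit 0x1000080004000000000000000000000000000) (nat_lit 0x0) (nat_lit 0x300018000f00f7c07bc01fe00fe001c00060000000000) := Q_1 (nat_lit 93) (C_1 L154 (C_1 L1048582 (C_1 L1048585 (C_1 L1048687 (C_1 L1048690 N_1))))) (by decide +kernel)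
theorem L1048692 : W_1 (nat_lit 2) (nat_lit 0x300018000c0007000000000000000000000000000) (nat_lit 0x0) (nat_lit 0x100000c00000000000000000000000000) := D_1 (nat_lit 107) (nat_lit 128) (nat_lit 106) (nat_lit 3) (nat_lit 5) (nat_lit 6) (nat_lit 3) (nat_lit 4) (nat_lit 6) (by decide +kernel)
theorem L1048693 : W_1 (nat_lit 3) (nat_lit 0x300018000c0006000000000000000000000000000) (nat_lit 0x0) (nat_lit 0x100001c00080000000000000000000000) := T_1 (nat_lit 108) (nat_lit 91) (nat_lit 4) (nat_lit 7) (nat_lit 9) L1048692 (by decide +kernel)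
theorem L1048759 : W_1 (nat_lit 2) (nat_lit 0x8003c001e000c0006000000000000000000000000000) (nat_lit 0x0) (nat_lit 0x20001000000000000000020000000000000000000000000000000) := D_1 (nat_lit 192) (nat_lit 125) (nat_lit 209) (nat_lit 6) (nat_lit 5) (nat_lit 11) (nat_lit 6) (nat_lit 5) (nat_lit 12) (by decide +kernel)
theorem L1048760 : W_1 (nat_lit 3) (nat_lit 0x8003c001a000c0006000000000000000000000000000) (nat_lit 0x0) (nat_lit 0x20001000000000000400120000000000000000000000000000000) := T_1 (nat_lit 142) (nat_lit 128) (nat_lit 2) (nat_lit 5) (nat_lit 8) L1048759 (by decide +kernel)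
theorem L1048761 : W_1 (nat_lit 4) (nat_lit 0x8003c0018000c0006000000000000000000000000000) (nat_lit 0x0) (nat_lit 0x20001000000000000700120000000000000000000000000000000) := T_1 (nat_lit 141) (nat_lit 140) (nat_lit 0) (nat_lit 8) (nat_lit 9) L1048760 (by decide +kernel)
theorem L1048762 : W_1 (nat_lit 5) (nat_lit 0x3c0018000c0006000000000000000000000000000) (nat_lit 0x0) (nat_lit 0x200010000c0000000700120000000000000000000000000000000) := T_1 (nat_lit 175) (nat_lit 174) (nat_lit 1) (nat_lit 8) (nat_lit 9) L1048761 (by decide +kernel)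
theorem L1048763 : W_1 (nat_lit 6) (nat_lit 0x380018000c0006000000000000000000000000000) (nat_lit 0x0) (nat_lit 0x200010000c0006000700120000000000000000000000000000000) := T_1 (nat_lit 158) (nat_lit 157) (nat_lit 2) (nat_lit 4) (nat_lit 9) L1048762 (by decide +kernel)
theorem L1048764 : W_1 (nat_lit 7) (nat_lit 0x300018000c0006000000000000000000000000000) (nat_lit 0x0) (nat_lit 0x200010001c000e000700120000000000000000000000000000000) := T_1 (nat_lit 159) (nat_lit 176) (nat_lit 5) (nat_lit 7) (nat_lit 6) L1048763 (by decide +kernel)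
theorem L1048868 : W_1 (nat_lit 4) (nat_lit 0x1000080004000200030000000000000000000) (nat_lit 0x0) (nat_lit 0x800040002000000008000c00020000000000) := T_1 (nat_lit 126) (nat_lit 143) (nat_lit 5) (nat_lit 8) (nat_lit 4) L85306 (by decide +kernel)
theorem L1048869 : W_1 (nat_lit 5) (nat_lit 0x1000080004000200020000000000000000000) (nat_lit 0x0) (nat_lit 0x800040002000000018001c00020000000000) := T_1 (nat_lit 76) (nat_lit 60) (nat_lit 6) (nat_lit 8) (nat_lit 7) L1048868 (by decide +kernel)
theorem L1048870 : W_1 (nat_lit 6) (nat_lit 0x1000080004000200000000000000000000000) (nat_lit 0x0) (nat_lit 0x800040002000400038001c00020000000000) := T_1 (nat_lit 77) (nat_lit 94) (nat_lit 6) (nat_lit 8) (nat_lit 8) L1048869 (by decide +kernel)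
theorem L1048871 : W_1 (nat_lit 2) (nat_lit 0x1400040002000100008000c000340000000000000000000000) (nat_lit 0x0) (nat_lit 0x280008000000000000000000000000000000000000000000000000) := D_1 (nat_lit 195) (nat_lit 211) (nat_lit 213) (nat_lit 5) (nat_lit 8) (nat_lit 8) (nat_lit 7) (nat_lit 8) (nat_lit 8) (by decide +kernel)
theorem L1048872 : W_1 (nat_lit 3) (nat_lit 0x400040002000100008000c000340000000000000000000000) (nat_lit 0x0) (nat_lit 0x280018000800000000000000000000000000000000000000000000) := T_1 (nat_lit 196) (nat_lit 179) (nat_lit 7) (nat_lit 8) (nat_lit 7) L1048871 (by decide +kernel)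
theorem L1048873 : W_1 (nat_lit 4) (nat_lit 0x40002000100008000c000340000000000000000000000) (nat_lit 0x0) (nat_lit 0x28001c000a00000000000000000000000000000000000000000000) := T_1 (nat_lit 194) (nat_lit 177) (nat_lit 5) (nat_lit 8) (nat_lit 7) L1048872 (by decide +kernel)
theorem L1048874 : W_1 (nat_lit 5) (nat_lit 0x2000100008000c000340000000000000000000000) (nat_lit 0x0) (nat_lit 0x28001c000e00000000000100000000000000000000000000000000) := T_1 (nat_lit 178) (nat_lit 128) (nat_lit 6) (nat_lit 8) (nat_lit 10) L1048873 (by decide +kernel)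
theorem L1048875 : W_1 (nat_lit 6) (nat_lit 0x2000100008000c000300000000000000000000000) (nat_lit 0x0) (nat_lit 0x28001c000e000000000001000000000c0000000000000000000000) := T_1 (nat_lit 90) (nat_lit 91) (nat_lit 3) (nat_lit 5) (nat_lit 5) L1048874 (by decide +kernel)
theorem L1048876 : W_1 (nat_lit 7) (nat_lit 0x20001000080004000300000000000000000000000) (nat_lit 0x0) (nat_lit 0x28001c000e000000000001000080004c0000000000000000000000) := T_1 (nat_lit 111) (nat_lit 94) (nat_lit 6) (nat_lit 8) (nat_lit 9) L1048875 (by decide +kernel)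
theorem L1048877 : W_1 (nat_lit 8) (nat_lit 0x1000080004000300000000000000000000000) (nat_lit 0x0) (nat_lit 0x28001c000e0002000000010000a0004c0000000000000000000000) := T_1 (nat_lit 161) (nat_lit 109) (nat_lit 4) (nat_lit 8) (nat_lit 9) L1048876 (by decide +kernel)
theorem L1048878 : W_1 (nat_lit 9) (nat_lit 0x1000080004000200000000000000000000000) (nat_lit 0x0) (nat_lit 0x28001c000e0002000000010000a0005c0008000000000000000000) := T_1 (nat_lit 92) (nat_lit 75) (nat_lit 4) (nat_lit 8) (nat_lit 8) L1048877 (by decide +kernel)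
theorem L1048879 : W_1 (nat_lit 5) (nat_lit 0x20001000080006800600000000000000000000000) (nat_lit 0x0) (nat_lit 0x28001c000e00000000000040000000000000000000000000000000) := T_1 (nat_lit 178) (nat_lit 126) (nat_lit 4) (nat_lit 8) (nat_lit 10) L82210 (by decide +kernel)
theorem L1048880 : W_1 (nat_lit 6) (nat_lit 0x20001000080006000600000000000000000000000) (nat_lit 0x0) (nat_lit 0x28001c000e00000000000040001800000000000000000000000000) := T_1 (nat_lit 107) (nat_lit 108) (nat_lit 2) (nat_lit 5) (nat_lit 6) L1048879 (by decide +kernel)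
theorem L1048881 : W_1 (nat_lit 7) (nat_lit 0x20001000080004000600000000000000000000000) (nat_lit 0x0) (nat_lit 0x28001c000e00000000000040003800100000000000000000000000) := T_1 (nat_lit 109) (nat_lit 92) (nat_lit 4) (nat_lit 8) (nat_lit 9) L1048880 (by decide +kernel)
theorem L1048882 : W_1 (nat_lit 8) (nat_lit 0x1000080004000600000000000000000000000) (nat_lit 0x0) (nat_lit 0x28001c000e0002000000004000b800100000000000000000000000) := T_1 (nat_lit 161) (nat_lit 111) (nat_lit 6) (nat_lit 8) (nat_lit 9) L1048881 (by decide +kernel)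
theorem L1048883 : W_1 (nat_lit 9) (nat_lit 0x1000080004000200000000000000000000000) (nat_lit 0x0) (nat_lit 0x28001c000e0002000000004000b800500020000000000000000000) := T_1 (nat_lit 94) (nat_lit 77) (nat_lit 6) (nat_lit 8) (nat_lit 8) L1048882 (by decide +kernel)
theorem L1048884 : W_1 (nat_lit 10) (nat_lit 0x1000080004000000000000000000000000000) (nat_lit 0x0) (nat_lit 0x28001c000e0002000080014000b8007c0038001c000e0000000000) := Q_1 (nat_lit 93) (C_1 L76322 (C_1 L154 (C_1 L1048870 (C_1 L1048878 (C_1 L1048883 N_1))))) (by decide +kernel)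
theorem L1048885 : W_1 (nat_lit 2) (nat_lit 0x10001000080004000600000000000000000000000) (nat_lit 0x0) (nat_lit 0x200020000000000008000000000000000000000000000) := D_1 (nat_lit 161) (nat_lit 111) (nat_lit 177) (nat_lit 6) (nat_lit 8) (nat_lit 9) (nat_lit 5) (nat_lit 8) (nat_lit 6) (by decide +kernel)
theorem L1048886 : W_1 (nat_lit 3) (nat_lit 0x1000080004000600000000000000000000000) (nat_lit 0x0) (nat_lit 0x200030000800000008000000000000000000000000000) := T_1 (nat_lit 160) (nat_lit 143) (nat_lit 5) (nat_lit 8) (nat_lit 5) L1048885 (by decide +kernel)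
theorem L1048887 : W_1 (nat_lit 4) (nat_lit 0x1000080004000200000000000000000000000) (nat_lit 0x0) (nat_lit 0x200030000800000008000400020000000000000000000) := T_1 (nat_lit 94) (nat_lit 77) (nat_lit 6) (nat_lit 8) (nat_lit 8) L1048886 (by decide +kernel)
theorem L1048888 : W_1 (nat_lit 2) (nat_lit 0x10001000080004000300000000000000000000000) (nat_lit 0x0) (nat_lit 0x200020000000000002000000000000000000000000000) := D_1 (nat_lit 161) (nat_lit 109) (nat_lit 177) (nat_lit 4) (nat_lit 8) (nat_lit 9) (nat_lit 5) (nat_lit 8) (nat_lit 6) (by decide +kernel)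
theorem L1048889 : W_1 (nat_lit 3) (nat_lit 0x1000080004000300000000000000000000000) (nat_lit 0x0) (nat_lit 0x200030000800000002000000000000000000000000000) := T_1 (nat_lit 160) (nat_lit 143) (nat_lit 5) (nat_lit 8) (nat_lit 5) L1048888 (by decide +kernel)
theorem L1048890 : W_1 (nat_lit 4) (nat_lit 0x1000080004000200000000000000000000000) (nat_lit 0x0) (nat_lit 0x200030000800000002000100008000000000000000000) := T_1 (nat_lit 92) (nat_lit 75) (nat_lit 4) (nat_lit 8) (nat_lit 8) L1048889 (by decide +kernel)
theorem L1048891 : W_1 (nat_lit 10) (nat_lit 0x1000080004000000000000000000000000000) (nat_lit 0x0) (nat_lit 0x28001c000e0003000080010000a0007c0038001400000000000000) := Q_1 (nat_lit 93) (C_1 L1048878 (C_1 L154 (C_1 L1048887 (C_1 L1048890 N_1)))) (by decide +kernel)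
theorem L1048894 : W_1 (nat_lit 7) (nat_lit 0x1000080004000000000000000000000000000) (nat_lit 0x0) (nat_lit 0x30000800040003800f00038001c00020000000000) := Q_1 (nat_lit 93) (C_1 L1048870 (C_1 L154 (C_1 L1048585 (C_1 L91 (C_1 L1048690 N_1))))) (by decide +kernel)
theorem L1048895 : W_1 (nat_lit 2) (nat_lit 0x30001000080004000200000000000000000000000) (nat_lit 0x0) (nat_lit 0x8000400020000000000000000000) := D_1 (nat_lit 94) (nat_lit 111) (nat_lit 77) (nat_lit 6) (nat_lit 8) (nat_lit 9) (nat_lit 6) (nat_lit 8) (nat_lit 8) (by decide +kernel)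
theorem L1048896 : W_1 (nat_lit 3) (nat_lit 0x30001000080004000000000000000000000000000) (nat_lit 0x0) (nat_lit 0x800000008000600020000000000000000000) := T_1 (nat_lit 93) (nat_lit 143) (nat_lit 5) (nat_lit 8) (nat_lit 5) L1048895 (by decide +kernel)
theorem L1048897 : W_1 (nat_lit 4) (nat_lit 0x20001000080004000000000000000000000000000) (nat_lit 0x0) (nat_lit 0x200010000800000008000600020000000000000000000) := T_1 (nat_lit 160) (nat_lit 177) (nat_lit 5) (nat_lit 8) (nat_lit 6) L1048896 (by decide +kernel)
theorem L1048898 : W_1 (nat_lit 2) (nat_lit 0x100006000200010000c000c000000000000000000000000000) (nat_lit 0x0) (nat_lit 0x200008000000000000800000000000000000000000000000000000) := D_1 (nat_lit 195) (nat_lit 213) (nat_lit 143) (nat_lit 7) (nat_lit 8) (nat_lit 8) (nat_lit 4) (nat_lit 8) (nat_lit 11) (by decide +kernel)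
theorem L1048899 : W_1 (nat_lit 3) (nat_lit 0x1000060002000100008000c000000000000000000000000000) (nat_lit 0x0) (nat_lit 0x200008000000000000800040002000000000000000000000000000) := T_1 (nat_lit 126) (nat_lit 109) (nat_lit 4) (nat_lit 8) (nat_lit 10) L1048898 (by decide +kernel)
theorem L1048900 : W_1 (nat_lit 4) (nat_lit 0x60002000100008000c000000000000000000000000000) (nat_lit 0x0) (nat_lit 0x200018000800000000800040002000000000000000000000000000) := T_1 (nat_lit 196) (nat_lit 179) (nat_lit 7) (nat_lit 8) (nat_lit 7) L1048899 (by decide +kernel)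
theorem L1048901 : W_1 (nat_lit 5) (nat_lit 0x40002000100008000c000000000000000000000000000) (nat_lit 0x0) (nat_lit 0x20001c000a00000000800040002000000000000000000000000000) := T_1 (nat_lit 177) (nat_lit 194) (nat_lit 5) (nat_lit 8) (nat_lit 7) L1048900 (by decide +kernel)
theorem L1048902 : W_1 (nat_lit 6) (nat_lit 0x2000100008000c000000000000000000000000000) (nat_lit 0x0) (nat_lit 0x20001c000e00000000800140002000000000000000000000000000) := T_1 (nat_lit 178) (nat_lit 128) (nat_lit 6) (nat_lit 8) (nat_lit 10) L1048901 (by decide +kernel)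
theorem L1048903 : W_1 (nat_lit 7) (nat_lit 0x20001000080004000000000000000000000000000) (nat_lit 0x0) (nat_lit 0x20001c000e0000000080014000a000400000000000000000000000) := T_1 (nat_lit 111) (nat_lit 94) (nat_lit 6) (nat_lit 8) (nat_lit 9) L1048902 (by decide +kernel)
theorem L1048904 : W_1 (nat_lit 2) (nat_lit 0x100006000200010000c0004000000000000000000000000000) (nat_lit 0x0) (nat_lit 0x200008000000000000800000000000000000000000000000000000) := D_1 (nat_lit 195) (nat_lit 143) (nat_lit 213) (nat_lit 4) (nat_lit 8) (nat_lit 11) (nat_lit 7) (nat_lit 8) (nat_lit 8) (by decide +kernel)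
theorem L1048905 : W_1 (nat_lit 3) (nat_lit 0x6000200010000c0004000000000000000000000000000) (nat_lit 0x0) (nat_lit 0x200018000800000000800000000000000000000000000000000000) := T_1 (nat_lit 196) (nat_lit 179) (nat_lit 7) (nat_lit 8) (nat_lit 7) L1048904 (by decide +kernel)
theorem L1048906 : W_1 (nat_lit 4) (nat_lit 0x600020001000080004000000000000000000000000000) (nat_lit 0x0) (nat_lit 0x200018000800000000800040002000000000000000000000000000) := T_1 (nat_lit 126) (nat_lit 109) (nat_lit 4) (nat_lit 8) (nat_lit 10) L1048905 (by decide +kernel)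
theorem L1048907 : W_1 (nat_lit 5) (nat_lit 0x200020001000080004000000000000000000000000000) (nat_lit 0x0) (nat_lit 0x20001c000c00000000800040002000000000000000000000000000) := T_1 (nat_lit 178) (nat_lit 194) (nat_lit 5) (nat_lit 8) (nat_lit 7) L1048906 (by decide +kernel)
theorem L1048908 : W_1 (nat_lit 6) (nat_lit 0x20001000080004000000000000000000000000000) (nat_lit 0x0) (nat_lit 0x20001c000e00010000800040002000000000000000000000000000) := T_1 (nat_lit 177) (nat_lit 160) (nat_lit 5) (nat_lit 8) (nat_lit 6) L1048907 (by decide +kernel)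
theorem L1048909 : W_1 (nat_lit 2) (nat_lit 0x80004000200010000d000c000000000000000000000000000) (nat_lit 0x0) (nat_lit 0x200010000800000000000000000000000000000000000000000000) := D_1 (nat_lit 196) (nat_lit 179) (nat_lit 213) (nat_lit 7) (nat_lit 8) (nat_lit 7) (nat_lit 7) (nat_lit 8) (nat_lit 8) (by decide +kernel)
theorem L1048910 : W_1 (nat_lit 3) (nat_lit 0x4000200010000d000c000000000000000000000000000) (nat_lit 0x0) (nat_lit 0x200018000800000000800000000000000000000000000000000000) := T_1 (nat_lit 195) (nat_lit 143) (nat_lit 4) (nat_lit 8) (nat_lit 11) L1048909 (by decide +kernel)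
theorem L1048911 : W_1 (nat_lit 4) (nat_lit 0x4000200010000c000c000000000000000000000000000) (nat_lit 0x0) (nat_lit 0x200018000800000000800030000000000000000000000000000000) := T_1 (nat_lit 124) (nat_lit 125) (nat_lit 2) (nat_lit 5) (nat_lit 7) L1048910 (by decide +kernel)
theorem L1048912 : W_1 (nat_lit 5) (nat_lit 0x40002000100008000c000000000000000000000000000) (nat_lit 0x0) (nat_lit 0x200018000800000000800070002000000000000000000000000000) := T_1 (nat_lit 126) (nat_lit 109) (nat_lit 4) (nat_lit 8) (nat_lit 10) L1048911 (by decide +kernel)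
theorem L1048913 : W_1 (nat_lit 6) (nat_lit 0x2000100008000c000000000000000000000000000) (nat_lit 0x0) (nat_lit 0x200018000c00000000800170002000000000000000000000000000) := T_1 (nat_lit 178) (nat_lit 128) (nat_lit 6) (nat_lit 8) (nat_lit 10) L1048912 (by decide +kernel)
theorem L1048914 : W_1 (nat_lit 7) (nat_lit 0x20001000080004000000000000000000000000000) (nat_lit 0x0) (nat_lit 0x200018000c0000000080017000a000400000000000000000000000) := T_1 (nat_lit 111) (nat_lit 94) (nat_lit 6) (nat_lit 8) (nat_lit 9) L1048913 (by decide +kernel)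
theorem L1048915 : W_1 (nat_lit 8) (nat_lit 0x1000080004000000000000000000000000000) (nat_lit 0x0) (nat_lit 0x20001c000e0003000080017000a000600020000000000000000000) := Q_1 (nat_lit 161) (C_1 L150 (C_1 L1048897 (C_1 L1048903 (C_1 L1048908 (C_1 L1048914 N_1))))) (by decide +kernel)
theorem L1048916 : W_1 (nat_lit 5) (nat_lit 0x1000080004000000000000000000000000000) (nat_lit 0x0) (nat_lit 0x200030000800040008000700038001400000000000000) := Q_1 (nat_lit 93) (C_1 L1048887 (C_1 L1048690 (C_1 L154 (C_1 L1048585 N_1)))) (by decide +kernel)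
theorem L1048918 : W_1 (nat_lit 2) (nat_lit 0x18000c0006000000000000000000000000000) (nat_lit 0x0) (nat_lit 0x10000000000000000200010000000000000000000) := D_1 (nat_lit 93) (nat_lit 76) (nat_lit 160) (nat_lit 5) (nat_lit 8) (nat_lit 4) (nat_lit 6) (nat_lit 7) (nat_lit 9) (by decide +kernel)
theorem L1048930 : W_1 (nat_lit 2) (nat_lit 0x10000c0006000200000000000000000000000) (nat_lit 0x0) (nat_lit 0x800000000000000010000800000000000000) := D_1 (nat_lit 76) (nat_lit 59) (nat_lit 143) (nat_lit 5) (nat_lit 8) (nat_lit 3) (nat_lit 5) (nat_lit 8) (nat_lit 4) (by decide +kernel)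
theorem L1048933 : W_1 (nat_lit 2) (nat_lit 0x1a0018000c0007000000000000000000000000000) (nat_lit 0x0) (nat_lit 0x100000c00000000000000000000000000) := D_1 (nat_lit 107) (nat_lit 128) (nat_lit 106) (nat_lit 3) (nat_lit 5) (nat_lit 6) (nat_lit 3) (nat_lit 4) (nat_lit 6) (by decide +kernel)
theorem L1048934 : W_1 (nat_lit 3) (nat_lit 0x1a0018000c0006000000000000000000000000000) (nat_lit 0x0) (nat_lit 0x100001c00080000000000000000000000) := T_1 (nat_lit 108) (nat_lit 91) (nat_lit 4) (nat_lit 7) (nat_lit 9) L1048933 (by decide +kernel)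
theorem L1048935 : W_1 (nat_lit 4) (nat_lit 0x180018000c0006000000000000000000000000000) (nat_lit 0x0) (nat_lit 0x6000000100001c00080000000000000000000000) := T_1 (nat_lit 157) (nat_lit 158) (nat_lit 2) (nat_lit 4) (nat_lit 9) L1048934 (by decide +kernel)
theorem L1048936 : W_1 (nat_lit 5) (nat_lit 0x100018000c0006000000000000000000000000000) (nat_lit 0x0) (nat_lit 0x10000e000000100001c00080000000000000000000000) := T_1 (nat_lit 159) (nat_lit 176) (nat_lit 5) (nat_lit 7) (nat_lit 6) L1048935 (by decide +kernel)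
theorem L1048962 : W_1 (nat_lit 2) (nat_lit 0x38001a001c0007000000000000000000000000000) (nat_lit 0x0) (nat_lit 0x6000100000000000000000000000000000000000) := D_1 (nat_lit 158) (nat_lit 157) (nat_lit 140) (nat_lit 2) (nat_lit 4) (nat_lit 9) (nat_lit 0) (nat_lit 8) (nat_lit 9) (by decide +kernel)
theorem L1048963 : W_1 (nat_lit 3) (nat_lit 0x30001a001c0007000000000000000000000000000) (nat_lit 0x0) (nat_lit 0x10000e000100000000000000000000000000000000000) := T_1 (nat_lit 159) (nat_lit 176) (nat_lit 5) (nat_lit 7) (nat_lit 6) L1048962 (by decide +kernel)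
theorem L1048964 : W_1 (nat_lit 4) (nat_lit 0x300018001c0007000000000000000000000000000) (nat_lit 0x0) (nat_lit 0x10000e000700000000000000000000000000000000000) := T_1 (nat_lit 141) (nat_lit 142) (nat_lit 2) (nat_lit 5) (nat_lit 8) L1048963 (by decide +kernel)
theorem L1048965 : W_1 (nat_lit 5) (nat_lit 0x300010001c0007000000000000000000000000000) (nat_lit 0x0) (nat_lit 0x10000e000f00000000000080000000000000000000000) := T_1 (nat_lit 143) (nat_lit 91) (nat_lit 4) (nat_lit 7) (nat_lit 9) L1048964 (by decide +kernel)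
theorem L1048966 : W_1 (nat_lit 6) (nat_lit 0x200010001c0007000000000000000000000000000) (nat_lit 0x0) (nat_lit 0x30001e000f00000000000080000000000000000000000) := T_1 (nat_lit 160) (nat_lit 177) (nat_lit 5) (nat_lit 8) (nat_lit 6) L1048965 (by decide +kernel)
theorem L1048967 : W_1 (nat_lit 7) (nat_lit 0x200010001c0006000000000000000000000000000) (nat_lit 0x0) (nat_lit 0x30001e000f00000001800080000000000000000000000) := T_1 (nat_lit 108) (nat_lit 107) (nat_lit 3) (nat_lit 5) (nat_lit 6) L1048966 (by decide +kernel)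
theorem L1048975 : W_1 (nat_lit 4) (nat_lit 0x300010000c0006000000000000000000000000000) (nat_lit 0x0) (nat_lit 0x800100001c00280000000000000000000000) := T_1 (nat_lit 143) (nat_lit 93) (nat_lit 6) (nat_lit 7) (nat_lit 9) L1048693 (by decide +kernel)
theorem L1048976 : W_1 (nat_lit 5) (nat_lit 0x200010000c0006000000000000000000000000000) (nat_lit 0x0) (nat_lit 0x200010000800100001c00280000000000000000000000) := T_1 (nat_lit 160) (nat_lit 177) (nat_lit 5) (nat_lit 8) (nat_lit 6) L1048975 (by decide +kernel)
theorem L1048998 : W_1 (nat_lit 2) (nat_lit 0x200010000c000e000000000000000000000000000) (nat_lit 0x0) (nat_lit 0x20030000000000000000000000000000) := D_1 (nat_lit 112) (nat_lit 125) (nat_lit 113) (nat_lit 1) (nat_lit 10) (nat_lit 6) (nat_lit 1) (nat_lit 11) (nat_lit 6) (by decide +kernel)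
theorem L1048999 : W_1 (nat_lit 6) (nat_lit 0x300010000c000e000000000000000000000000000) (nat_lit 0x0) (nat_lit 0x700031c000e0000000000000000000000) := T_1 (nat_lit 112) (nat_lit 113) (nat_lit 1) (nat_lit 11) (nat_lit 6) L310 (by decide +kernel)
theorem L1049174 : W_1 (nat_lit 2) (nat_lit 0x100018000c0002000200000000000000000000000) (nat_lit 0x0) (nat_lit 0x100018000000000000000000) := D_1 (nat_lit 92) (nat_lit 76) (nat_lit 75) (nat_lit 6) (nat_lit 7) (nat_lit 8) (nat_lit 7) (nat_lit 7) (nat_lit 4) (by decide +kernel)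
theorem L1049175 : W_1 (nat_lit 3) (nat_lit 0x100018000c0002000000000000000000000000000) (nat_lit 0x0) (nat_lit 0x4000300018000000000000000000) := T_1 (nat_lit 93) (nat_lit 110) (nat_lit 6) (nat_lit 7) (nat_lit 9) L1049174 (by decide +kernel)
theorem L1049184 : W_1 (nat_lit 6) (nat_lit 0x100018000c0002000000000000000000000000000) (nat_lit 0x0) (nat_lit 0x10000e000000100005c00280000000000000000000000) := T_1 (nat_lit 110) (nat_lit 93) (nat_lit 6) (nat_lit 7) (nat_lit 9) L1048936 (by decide +kernel)
theorem L1049185 : W_1 (nat_lit 7) (nat_lit 0x100018000c0000000000000000000000000000000) (nat_lit 0x0) (nat_lit 0x10000e000000100007c0038001c000000000000000000) := Q_1 (nat_lit 109) (C_1 L1049175 (C_1 L771750 (C_1 L1049184 N_1))) (by decide +kernel)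
theorem L1049232 : W_1 (nat_lit 2) (nat_lit 0x200010001800180000000000000000000000000000000) (nat_lit 0x0) (nat_lit 0x40004000200000000000000000000000) := D_1 (nat_lit 110) (nat_lit 93) (nat_lit 126) (nat_lit 5) (nat_lit 8) (nat_lit 5) (nat_lit 6) (nat_lit 7) (nat_lit 10) (by decide +kernel)
theorem L1049233 : W_1 (nat_lit 3) (nat_lit 0x10001800180000000000000000000000000000000) (nat_lit 0x0) (nat_lit 0x4000200000000000040004000200000000000000000000000) := T_1 (nat_lit 177) (nat_lit 194) (nat_lit 6) (nat_lit 7) (nat_lit 11) L1049232 (by decide +kernel)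
theorem L1052034 : W_1 (nat_lit 2) (nat_lit 0x1c001c0006800380000000000000000000000) (nat_lit 0x0) (nat_lit 0x8400040000000000000000000000) := D_1 (nat_lit 90) (nat_lit 111) (nat_lit 106) (nat_lit 3) (nat_lit 5) (nat_lit 5) (nat_lit 1) (nat_lit 8) (nat_lit 5) (by decide +kernel)
theorem L1052035 : W_1 (nat_lit 3) (nat_lit 0x1c001c0006800300000000000000000000000) (nat_lit 0x0) (nat_lit 0x84000c0004000000000000000000) := T_1 (nat_lit 91) (nat_lit 74) (nat_lit 4) (nat_lit 7) (nat_lit 8) L1052034 (by decide +kernel)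
theorem L1052036 : W_1 (nat_lit 4) (nat_lit 0x1c00180006800300000000000000000000000) (nat_lit 0x0) (nat_lit 0x80000000400084000c0004000000000000000000) := T_1 (nat_lit 126) (nat_lit 159) (nat_lit 5) (nat_lit 7) (nat_lit 5) L1052035 (by decide +kernel)
theorem L1052037 : W_1 (nat_lit 5) (nat_lit 0x1c00180006800200000000000000000000000) (nat_lit 0x0) (nat_lit 0x80000000400084001c000c000000000000000000) := T_1 (nat_lit 92) (nat_lit 75) (nat_lit 4) (nat_lit 8) (nat_lit 8) L1052036 (by decide +kernel)
theorem L1052038 : W_1 (nat_lit 6) (nat_lit 0x1800180006800200000000000000000000000) (nat_lit 0x0) (nat_lit 0x80006000400084001c000c000000000000000000) := T_1 (nat_lit 142) (nat_lit 141) (nat_lit 2) (nat_lit 5) (nat_lit 8) L1052037 (by decide +kernel)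
theorem L1052039 : W_1 (nat_lit 7) (nat_lit 0x1800180006000200000000000000000000000) (nat_lit 0x0) (nat_lit 0x8000600040009c001c000c000000000000000000) := T_1 (nat_lit 107) (nat_lit 108) (nat_lit 3) (nat_lit 5) (nat_lit 6) L1052038 (by decide +kernel)
theorem L1052158 : W_1 (nat_lit 2) (nat_lit 0x1c00180000000000000000000000000000000) (nat_lit 0x0) (nat_lit 0x2000240000000000000000000000000000000) := D_1 (nat_lit 129) (nat_lit 126) (nat_lit 145) (nat_lit 1) (nat_lit 10) (nat_lit 7) (nat_lit 2) (nat_lit 6) (nat_lit 8) (by decide +kernel)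
theorem L1052159 : W_1 (nat_lit 3) (nat_lit 0x1800180000000000000000000000000000000) (nat_lit 0x0) (nat_lit 0x2600240000000000000000000000000000000) := T_1 (nat_lit 142) (nat_lit 141) (nat_lit 2) (nat_lit 5) (nat_lit 8) L1052158 (by decide +kernel)
theorem L1053308 : W_1 (nat_lit 2) (nat_lit 0x18001e0008000000000000000000000000000) (nat_lit 0x0) (nat_lit 0x18004000000000000000000000000000) := D_1 (nat_lit 124) (nat_lit 110) (nat_lit 123) (nat_lit 2) (nat_lit 5) (nat_lit 7) (nat_lit 3) (nat_lit 4) (nat_lit 7) (by decide +kernel)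
theorem L1053309 : W_1 (nat_lit 3) (nat_lit 0x18001e0000000000000000000000000000000) (nat_lit 0x0) (nat_lit 0x1801c000000000000000000000000000) := T_1 (nat_lit 111) (nat_lit 112) (nat_lit 2) (nat_lit 6) (nat_lit 7) L1053308 (by decide +kernel)
theorem L1053993 : W_1 (nat_lit 2) (nat_lit 0x18001e000a000000000000000000000000000) (nat_lit 0x0) (nat_lit 0x18004000000000000000000000000000) := D_1 (nat_lit 124) (nat_lit 110) (nat_lit 123) (nat_lit 2) (nat_lit 5) (nat_lit 7) (nat_lit 3) (nat_lit 4) (nat_lit 7) (by decide +kernel)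
theorem L1054342 : W_1 (nat_lit 2) (nat_lit 0x18001c0006000000000000000000000000000) (nat_lit 0x0) (nat_lit 0x10000000000000000200010000000000000000000) := D_1 (nat_lit 93) (nat_lit 76) (nat_lit 160) (nat_lit 5) (nat_lit 8) (nat_lit 4) (nat_lit 6) (nat_lit 7) (nat_lit 9) (by decide +kernel)
theorem L1054343 : W_1 (nat_lit 3) (nat_lit 0x18001e0002000000000000000000000000000) (nat_lit 0x0) (nat_lit 0x1801c000000000000000000000000000) := T_1 (nat_lit 111) (nat_lit 112) (nat_lit 2) (nat_lit 6) (nat_lit 7) L1053993 (by decide +kernel)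
theorem L1071407 : W_1 (nat_lit 2) (nat_lit 0x100018000c0000000000000000000000000000000) (nat_lit 0x0) (nat_lit 0x4000200000000000000004000000000000000000000000000) := D_1 (nat_lit 177) (nat_lit 194) (nat_lit 110) (nat_lit 6) (nat_lit 7) (nat_lit 11) (nat_lit 6) (nat_lit 7) (nat_lit 10) (by decide +kernel)
theorem L1071408 : W_1 (nat_lit 8) (nat_lit 0x18000c0000000000000000000000000000000) (nat_lit 0x0) (nat_lit 0x600030001e000000100007c0038001c000000000000000000) := Q_1 (nat_lit 160) (C_1 L1049185 (C_1 L771726 (C_1 L1071407 N_1))) (by decide +kernel)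
theorem L1076755 : W_1 (nat_lit 2) (nat_lit 0x58003c001a000180000000000000000000000) (nat_lit 0x0) (nat_lit 0x1000080000000000000000400000000000000000000000) := D_1 (nat_lit 163) (nat_lit 94) (nat_lit 180) (nat_lit 4) (nat_lit 10) (nat_lit 9) (nat_lit 4) (nat_lit 10) (nat_lit 10) (by decide +kernel)
theorem L1076756 : W_1 (nat_lit 3) (nat_lit 0x58003c0012000180000000000000000000000) (nat_lit 0x0) (nat_lit 0x100008000000000000c000400000000000000000000000) := T_1 (nat_lit 111) (nat_lit 110) (nat_lit 0) (nat_lit 10) (nat_lit 6) L1076755 (by decide +kernel)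
theorem L1076757 : W_1 (nat_lit 4) (nat_lit 0x58003c0012000100000000000000000000000) (nat_lit 0x0) (nat_lit 0x100008000000000000c000480004000000000000000000) := T_1 (nat_lit 91) (nat_lit 74) (nat_lit 4) (nat_lit 7) (nat_lit 8) L1076756 (by decide +kernel)
theorem L1085512 : W_1 (nat_lit 2) (nat_lit 0x7000180018000c0000000000000000000000000000000) (nat_lit 0x0) (nat_lit 0x800006000000000000000000000000000000000000000) := D_1 (nat_lit 158) (nat_lit 157) (nat_lit 179) (nat_lit 3) (nat_lit 4) (nat_lit 9) (nat_lit 0) (nat_lit 9) (nat_lit 10) (by decide +kernel)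
theorem L1085513 : W_1 (nat_lit 3) (nat_lit 0x3000180018000c0000000000000000000000000000000) (nat_lit 0x0) (nat_lit 0x8000c00006000000000000000000000000000000000000000) := T_1 (nat_lit 178) (nat_lit 195) (nat_lit 7) (nat_lit 7) (nat_lit 7) L1085512 (by decide +kernel)
theorem L1085514 : W_1 (nat_lit 4) (nat_lit 0x3000100018000c0000000000000000000000000000000) (nat_lit 0x0) (nat_lit 0x8000c0000e000000000002000000000000000000000000000) := T_1 (nat_lit 159) (nat_lit 109) (nat_lit 5) (nat_lit 7) (nat_lit 6) L1085513 (by decide +kernel)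
theorem L1085515 : W_1 (nat_lit 5) (nat_lit 0x2000100018000c0000000000000000000000000000000) (nat_lit 0x0) (nat_lit 0xa000d0000e000000000002000000000000000000000000000) := T_1 (nat_lit 176) (nat_lit 193) (nat_lit 5) (nat_lit 7) (nat_lit 7) L1085514 (by decide +kernel)
theorem L1085516 : W_1 (nat_lit 6) (nat_lit 0x100018000c0000000000000000000000000000000) (nat_lit 0x0) (nat_lit 0xe000f0000e000000000002000000000000000000000000000) := T_1 (nat_lit 177) (nat_lit 194) (nat_lit 6) (nat_lit 7) (nat_lit 11) L1085515 (by decide +kernel)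
theorem L1085874 : W_1 (nat_lit 2) (nat_lit 0x1a001c0002800000000000000000000000000) (nat_lit 0x0) (nat_lit 0x5400000000000000000000000000) := D_1 (nat_lit 108) (nat_lit 106) (nat_lit 110) (nat_lit 3) (nat_lit 4) (nat_lit 6) (nat_lit 3) (nat_lit 5) (nat_lit 6) (by decide +kernel)
theorem L1086191 : W_1 (nat_lit 2) (nat_lit 0x1a001c0007000600000000000000000000000) (nat_lit 0x0) (nat_lit 0x8001800000000000000000000000) := D_1 (nat_lit 95) (nat_lit 111) (nat_lit 96) (nat_lit 2) (nat_lit 6) (nat_lit 6) (nat_lit 1) (nat_lit 11) (nat_lit 5) (by decide +kernel)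
theorem L1086192 : W_1 (nat_lit 3) (nat_lit 0x1a001c0007000200000000000000000000000) (nat_lit 0x0) (nat_lit 0x8001c00020000000000000000000) := T_1 (nat_lit 94) (nat_lit 77) (nat_lit 6) (nat_lit 8) (nat_lit 8) L1086191 (by decide +kernel)
theorem L1086193 : W_1 (nat_lit 4) (nat_lit 0x1a001c0006000200000000000000000000000) (nat_lit 0x0) (nat_lit 0x9801c00020000000000000000000) := T_1 (nat_lit 108) (nat_lit 107) (nat_lit 3) (nat_lit 5) (nat_lit 6) L1086192 (by decide +kernel)
theorem L1086837 : W_1 (nat_lit 2) (nat_lit 0x1c001a000f000300000000000000000000000) (nat_lit 0x0) (nat_lit 0x30000080000000000000000000000) := D_1 (nat_lit 112) (nat_lit 113) (nat_lit 91) (nat_lit 0) (nat_lit 11) (nat_lit 6) (nat_lit 0) (nat_lit 10) (nat_lit 6) (by decide +kernel)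
theorem L1086838 : W_1 (nat_lit 3) (nat_lit 0x1c001a0007000300000000000000000000000) (nat_lit 0x0) (nat_lit 0x10038000080000000000000000000000) := T_1 (nat_lit 111) (nat_lit 124) (nat_lit 1) (nat_lit 9) (nat_lit 6) L1086837 (by decide +kernel)
theorem L1086914 : W_1 (nat_lit 2) (nat_lit 0x8003c001e0000000000000000000000000000000) (nat_lit 0x0) (nat_lit 0x2000100000000000000002000000000000000000000000000) := D_1 (nat_lit 176) (nat_lit 109) (nat_lit 193) (nat_lit 6) (nat_lit 6) (nat_lit 10) (nat_lit 6) (nat_lit 6) (nat_lit 11) (by decide +kernel)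
theorem L1086915 : W_1 (nat_lit 3) (nat_lit 0x3c001e0000000000000000000000000000000) (nat_lit 0x0) (nat_lit 0x200010000c000000000002000000000000000000000000000) := T_1 (nat_lit 159) (nat_lit 158) (nat_lit 1) (nat_lit 9) (nat_lit 8) L1086914 (by decide +kernel)
theorem L1086916 : W_1 (nat_lit 4) (nat_lit 0x1c001e0000000000000000000000000000000) (nat_lit 0x0) (nat_lit 0x200010000c006000000002000000000000000000000000000) := T_1 (nat_lit 145) (nat_lit 146) (nat_lit 3) (nat_lit 6) (nat_lit 7) L1086915 (by decide +kernel)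
theorem L1086917 : W_1 (nat_lit 5) (nat_lit 0x18001e0000000000000000000000000000000) (nat_lit 0x0) (nat_lit 0x200010000c006600000002000000000000000000000000000) := T_1 (nat_lit 142) (nat_lit 141) (nat_lit 2) (nat_lit 5) (nat_lit 8) L1086916 (by decide +kernel)
theorem L1101229 : W_1 (nat_lit 6) (nat_lit 0x18000e0000000000000000000000000000000) (nat_lit 0x0) (nat_lit 0x100018000e000700018001c000c0002000000000000000000) := Q_1 (nat_lit 142) (C_1 L619153 (C_1 L619161 (C_1 L619157 (C_1 L616700 N_1)))) (by decide +kernel)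
theorem L1101231 : W_1 (nat_lit 2) (nat_lit 0x3e000c0000000000000000000000000000000) (nat_lit 0x0) (nat_lit 0xe000000000000000000000000000000000000000) := D_1 (nat_lit 158) (nat_lit 159) (nat_lit 157) (nat_lit 1) (nat_lit 9) (nat_lit 8) (nat_lit 1) (nat_lit 8) (nat_lit 8) (by decide +kernel)
theorem L1101232 : W_1 (nat_lit 3) (nat_lit 0x3c000c0000000000000000000000000000000) (nat_lit 0x0) (nat_lit 0xe000300000000000000000000000000000000000) := T_1 (nat_lit 141) (nat_lit 140) (nat_lit 2) (nat_lit 4) (nat_lit 8) L1101231 (by decide +kernel)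
theorem L1103541 : W_1 (nat_lit 2) (nat_lit 0x58000e00048003c0002000000000000000000) (nat_lit 0x0) (nat_lit 0x400024000000000000000000) := D_1 (nat_lit 94) (nat_lit 77) (nat_lit 74) (nat_lit 6) (nat_lit 8) (nat_lit 8) (nat_lit 0) (nat_lit 9) (nat_lit 5) (by decide +kernel)
theorem L1103542 : W_1 (nat_lit 3) (nat_lit 0x58000e00048003c0000000000000000000000) (nat_lit 0x0) (nat_lit 0x400027000000000000000000) := T_1 (nat_lit 73) (nat_lit 72) (nat_lit 0) (nat_lit 8) (nat_lit 5) L1103541 (by decide +kernel)
theorem L1103543 : W_1 (nat_lit 4) (nat_lit 0x58000e00040003c0000000000000000000000) (nat_lit 0x0) (nat_lit 0xc00400027000000000000000000) := T_1 (nat_lit 107) (nat_lit 106) (nat_lit 1) (nat_lit 8) (nat_lit 5) L1103542 (by decide +kernel)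
theorem L1103544 : W_1 (nat_lit 5) (nat_lit 0x58000e0004000380000000000000000000000) (nat_lit 0x0) (nat_lit 0x8c00440027000000000000000000) := T_1 (nat_lit 90) (nat_lit 111) (nat_lit 3) (nat_lit 5) (nat_lit 5) L1103543 (by decide +kernel)
theorem L1103564 : W_1 (nat_lit 2) (nat_lit 0x380008003c000e0000000000000000000000000000000) (nat_lit 0x0) (nat_lit 0x10000000000005000000000000000000000000000) := D_1 (nat_lit 160) (nat_lit 108) (nat_lit 110) (nat_lit 7) (nat_lit 6) (nat_lit 6) (nat_lit 6) (nat_lit 7) (nat_lit 10) (by decide +kernel)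
theorem L1103565 : W_1 (nat_lit 3) (nat_lit 0x180008003c000e0000000000000000000000000000000) (nat_lit 0x0) (nat_lit 0x4000200010000000000005000000000000000000000000000) := T_1 (nat_lit 177) (nat_lit 194) (nat_lit 7) (nat_lit 6) (nat_lit 7) L1103564 (by decide +kernel)
theorem L1103566 : W_1 (nat_lit 4) (nat_lit 0x100008003c000e0000000000000000000000000000000) (nat_lit 0x0) (nat_lit 0x5000280010000000000005000000000000000000000000000) := T_1 (nat_lit 175) (nat_lit 192) (nat_lit 5) (nat_lit 6) (nat_lit 7) L1103565 (by decide +kernel)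
theorem L1103567 : W_1 (nat_lit 5) (nat_lit 0x8003c000e0000000000000000000000000000000) (nat_lit 0x0) (nat_lit 0x7000380010000000000005000000000000000000000000000) := T_1 (nat_lit 176) (nat_lit 193) (nat_lit 6) (nat_lit 6) (nat_lit 11) L1103566 (by decide +kernel)
theorem L1103568 : W_1 (nat_lit 6) (nat_lit 0x3c000e0000000000000000000000000000000) (nat_lit 0x0) (nat_lit 0x700038001c000000000005000000000000000000000000000) := T_1 (nat_lit 159) (nat_lit 158) (nat_lit 1) (nat_lit 9) (nat_lit 8) L1103567 (by decide +kernel)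
theorem L1103744 : W_1 (nat_lit 7) (nat_lit 0x3c000c0000000000000000000000000000000) (nat_lit 0x0) (nat_lit 0x700038001c000000030005000000000000000000000000000) := T_1 (nat_lit 125) (nat_lit 124) (nat_lit 3) (nat_lit 5) (nat_lit 7) L1103568 (by decide +kernel)
theorem L1103745 : W_1 (nat_lit 8) (nat_lit 0x38000c0000000000000000000000000000000) (nat_lit 0x0) (nat_lit 0x700038001e000700038005000000000000000000000000000) := Q_1 (nat_lit 142) (C_1 L1101232 (C_1 L1103744 (C_1 L1000415 N_1))) (by decide +kernel)
theorem L1103746 : W_1 (nat_lit 2) (nat_lit 0x100078000c0000000000000000000000000000000) (nat_lit 0x0) (nat_lit 0x200000000000000004000200000000000000000000000) := D_1 (nat_lit 110) (nat_lit 93) (nat_lit 177) (nat_lit 5) (nat_lit 8) (nat_lit 5) (nat_lit 6) (nat_lit 7) (nat_lit 10) (by decide +kernel)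
theorem L1103747 : W_1 (nat_lit 3) (nat_lit 0x78000c0000000000000000000000000000000) (nat_lit 0x0) (nat_lit 0x200018000000000004000200000000000000000000000) := T_1 (nat_lit 160) (nat_lit 159) (nat_lit 1) (nat_lit 10) (nat_lit 8) L1103746 (by decide +kernel)
theorem L1103748 : W_1 (nat_lit 4) (nat_lit 0x38000c0000000000000000000000000000000) (nat_lit 0x0) (nat_lit 0x20001800c000000004000200000000000000000000000) := T_1 (nat_lit 146) (nat_lit 147) (nat_lit 0) (nat_lit 11) (nat_lit 8) L1103747 (by decide +kernel)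
theorem L1103749 : W_1 (nat_lit 9) (nat_lit 0x18000c0000000000000000000000000000000) (nat_lit 0x0) (nat_lit 0x700038001e00e700038005000200000000000000000000000) := Q_1 (nat_lit 145) (C_1 L980843 (C_1 L1103745 (C_1 L1103748 N_1))) (by decide +kernel)
theorem L1104965 : W_1 (nat_lit 2) (nat_lit 0x18001c00180000000000000000000000000000000) (nat_lit 0x0) (nat_lit 0x6002000000000000000000000000000000000000) := D_1 (nat_lit 158) (nat_lit 145) (nat_lit 157) (nat_lit 1) (nat_lit 9) (nat_lit 8) (nat_lit 2) (nat_lit 4) (nat_lit 9) (by decide +kernel)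
theorem L1104966 : W_1 (nat_lit 2) (nat_lit 0x1000300018001c001b4000000200000000000000000000000) (nat_lit 0x0) (nat_lit 0x60002000000000000000000000000000000000000000000000000) := D_1 (nat_lit 193) (nat_lit 210) (nat_lit 209) (nat_lit 6) (nat_lit 6) (nat_lit 12) (nat_lit 5) (nat_lit 6) (nat_lit 8) (by decide +kernel)
theorem L1104967 : W_1 (nat_lit 3) (nat_lit 0x300018001c001b4000000200000000000000000000000) (nat_lit 0x0) (nat_lit 0x60003000080000000000000000000000000000000000000000000) := T_1 (nat_lit 192) (nat_lit 175) (nat_lit 5) (nat_lit 6) (nat_lit 7) L1104966 (by decide +kernel)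
theorem L1104968 : W_1 (nat_lit 4) (nat_lit 0x200018001c001b4000000200000000000000000000000) (nat_lit 0x0) (nat_lit 0x60003000180000000000000000800000000000000000000000000) := T_1 (nat_lit 176) (nat_lit 107) (nat_lit 4) (nat_lit 6) (nat_lit 10) L1104967 (by decide +kernel)
theorem L1104969 : W_1 (nat_lit 5) (nat_lit 0x200018001c001b0000000200000000000000000000000) (nat_lit 0x0) (nat_lit 0x6000300018000000000000c000800000000000000000000000000) := T_1 (nat_lit 122) (nat_lit 123) (nat_lit 3) (nat_lit 3) (nat_lit 7) L1104968 (by decide +kernel)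
theorem L1104970 : W_1 (nat_lit 6) (nat_lit 0x200018001c001a0000000200000000000000000000000) (nat_lit 0x0) (nat_lit 0x6000300018000000200001c000800000000000000000000000000) := T_1 (nat_lit 124) (nat_lit 145) (nat_lit 0) (nat_lit 9) (nat_lit 8) L1104969 (by decide +kernel)
theorem L1104971 : W_1 (nat_lit 7) (nat_lit 0x200018001c00180000000200000000000000000000000) (nat_lit 0x0) (nat_lit 0x6000300018000000200003c001800000000000000000000000000) := T_1 (nat_lit 125) (nat_lit 108) (nat_lit 7) (nat_lit 6) (nat_lit 6) L1104970 (by decide +kernel)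
theorem L1104972 : W_1 (nat_lit 8) (nat_lit 0x18001c00180000000200000000000000000000000) (nat_lit 0x0) (nat_lit 0x6000700038000000200003c001800000000000000000000000000) := T_1 (nat_lit 177) (nat_lit 194) (nat_lit 6) (nat_lit 7) (nat_lit 11) L1104971 (by decide +kernel)
theorem L1104973 : W_1 (nat_lit 9) (nat_lit 0x18001c00180000000000000000000000000000000) (nat_lit 0x0) (nat_lit 0x6000700038000000200003c005800200000000000000000000000) := T_1 (nat_lit 93) (nat_lit 110) (nat_lit 5) (nat_lit 8) (nat_lit 5) L1104972 (by decide +kernel)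
theorem L1104974 : W_1 (nat_lit 10) (nat_lit 0x10001c00180000000000000000000000000000000) (nat_lit 0x0) (nat_lit 0xe00070003e000f00200003c0058002c0000000000000000000000) := Q_1 (nat_lit 159) (C_1 L1104965 (C_1 L806519 (C_1 L1104973 N_1))) (by decide +kernel)
theorem L1112907 : W_1 (nat_lit 2) (nat_lit 0x10001a001c0002000180000000000000000000000) (nat_lit 0x0) (nat_lit 0x4000200000000000000004000000000000000000000000000) := D_1 (nat_lit 177) (nat_lit 110) (nat_lit 194) (nat_lit 6) (nat_lit 7) (nat_lit 10) (nat_lit 6) (nat_lit 7) (nat_lit 11) (by decide +kernel)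
theorem L1112908 : W_1 (nat_lit 3) (nat_lit 0x1a001c0002000180000000000000000000000) (nat_lit 0x0) (nat_lit 0x4000200010000000000005000000000000000000000000000) := T_1 (nat_lit 160) (nat_lit 108) (nat_lit 4) (nat_lit 7) (nat_lit 9) L1112907 (by decide +kernel)
theorem L1112909 : W_1 (nat_lit 4) (nat_lit 0x1a001c0002000100000000000000000000000) (nat_lit 0x0) (nat_lit 0x4000200010000000000005000080004000000000000000000) := T_1 (nat_lit 91) (nat_lit 74) (nat_lit 4) (nat_lit 7) (nat_lit 8) L1112908 (by decide +kernel)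
theorem L1112910 : W_1 (nat_lit 5) (nat_lit 0x18001c0002000100000000000000000000000) (nat_lit 0x0) (nat_lit 0x4000200010000600000005000080004000000000000000000) := T_1 (nat_lit 141) (nat_lit 142) (nat_lit 2) (nat_lit 5) (nat_lit 8) L1112909 (by decide +kernel)
theorem L1112911 : W_1 (nat_lit 6) (nat_lit 0x18001c0002000000000000000000000000000) (nat_lit 0x0) (nat_lit 0x400020001000060000000500018000c000000000000000000) := T_1 (nat_lit 92) (nat_lit 75) (nat_lit 7) (nat_lit 7) (nat_lit 4) L1112910 (by decide +kernel)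
theorem L1112920 : W_1 (nat_lit 5) (nat_lit 0x18001c0006000200000000000000000000000) (nat_lit 0x0) (nat_lit 0x600000009801c00020000000000000000000) := T_1 (nat_lit 141) (nat_lit 142) (nat_lit 2) (nat_lit 5) (nat_lit 8) L1086193 (by decide +kernel)
theorem L1112921 : W_1 (nat_lit 6) (nat_lit 0x18001c0006000000000000000000000000000) (nat_lit 0x0) (nat_lit 0x600000009801e00030000000000000000000) := T_1 (nat_lit 93) (nat_lit 76) (nat_lit 5) (nat_lit 8) (nat_lit 4) L1112920 (by decide +kernel)
theorem L1113752 : W_1 (nat_lit 4) (nat_lit 0x4000000010003c001a0000000000000000000000000000000) (nat_lit 0x0) (nat_lit 0x38001c000040000000000000000000000000000000) := T_1 (nat_lit 146) (nat_lit 126) (nat_lit 3) (nat_lit 6) (nat_lit 7) L1047932 (by decide +kernel)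
theorem L1113753 : W_1 (nat_lit 5) (nat_lit 0x4000000010003c00180000000000000000000000000000000) (nat_lit 0x0) (nat_lit 0x38001c000070000000000000000000000000000000) := T_1 (nat_lit 125) (nat_lit 124) (nat_lit 0) (nat_lit 9) (nat_lit 8) L1113752 (by decide +kernel)
theorem L1113754 : W_1 (nat_lit 6) (nat_lit 0x10003c00180000000000000000000000000000000) (nat_lit 0x0) (nat_lit 0x400020038001c000070000000000000000000000000000000) := T_1 (nat_lit 194) (nat_lit 177) (nat_lit 6) (nat_lit 7) (nat_lit 11) L1113753 (by decide +kernel)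
theorem L1114072 : W_1 (nat_lit 7) (nat_lit 0x10003800180000000000000000000000000000000) (nat_lit 0x0) (nat_lit 0x400020038001c600070000000000000000000000000000000) := T_1 (nat_lit 142) (nat_lit 141) (nat_lit 2) (nat_lit 5) (nat_lit 8) L1113754 (by decide +kernel)
theorem L1114073 : W_1 (nat_lit 8) (nat_lit 0x10001800180000000000000000000000000000000) (nat_lit 0x0) (nat_lit 0x400020038801e600070001000080000000000000000000000) := Q_1 (nat_lit 145) (C_1 L1047480 (C_1 L1028828 (C_1 L1114072 N_1))) (by decide +kernel)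
theorem L1114074 : W_1 (nat_lit 11) (nat_lit 0x10001800180000000000000000000000000000000) (nat_lit 0x0) (nat_lit 0xe00070003e000f00260003c0058002c0000000000000000000000) := T_1 (nat_lit 142) (nat_lit 141) (nat_lit 2) (nat_lit 5) (nat_lit 8) L1104974 (by decide +kernel)
theorem L1114075 : W_1 (nat_lit 2) (nat_lit 0x1000f800180000000200000000000000000000000) (nat_lit 0x0) (nat_lit 0x380000000000000000000000000000000000000000) := D_1 (nat_lit 164) (nat_lit 163) (nat_lit 165) (nat_lit 3) (nat_lit 7) (nat_lit 8) (nat_lit 3) (nat_lit 8) (nat_lit 8) (by decide +kernel)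
theorem L1114076 : W_1 (nat_lit 3) (nat_lit 0x10007800180000000200000000000000000000000) (nat_lit 0x0) (nat_lit 0x380018000000000000000000000000000000000000) := T_1 (nat_lit 147) (nat_lit 148) (nat_lit 0) (nat_lit 12) (nat_lit 8) L1114075 (by decide +kernel)
theorem L1114077 : W_1 (nat_lit 4) (nat_lit 0x10003800180000000200000000000000000000000) (nat_lit 0x0) (nat_lit 0x38801c000000000000000000000000000000000000) := T_1 (nat_lit 146) (nat_lit 159) (nat_lit 1) (nat_lit 10) (nat_lit 8) L1114076 (by decide +kernel)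
theorem L1114078 : W_1 (nat_lit 5) (nat_lit 0x10003800180000000000000000000000000000000) (nat_lit 0x0) (nat_lit 0x38801c000000004000200000000000000000000000) := T_1 (nat_lit 93) (nat_lit 110) (nat_lit 5) (nat_lit 8) (nat_lit 5) L1114077 (by decide +kernel)
theorem L1114079 : W_1 (nat_lit 2) (nat_lit 0x18003c001a0001000200000000000000000000000) (nat_lit 0x0) (nat_lit 0x40000800040000000000000000000000) := D_1 (nat_lit 107) (nat_lit 90) (nat_lit 126) (nat_lit 4) (nat_lit 6) (nat_lit 9) (nat_lit 0) (nat_lit 9) (nat_lit 7) (by decide +kernel)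
theorem L1114080 : W_1 (nat_lit 3) (nat_lit 0x18003c001a0000000200000000000000000000000) (nat_lit 0x0) (nat_lit 0x400018000c0000000000000000000000) := T_1 (nat_lit 108) (nat_lit 91) (nat_lit 7) (nat_lit 6) (nat_lit 5) L1114079 (by decide +kernel)
theorem L1114081 : W_1 (nat_lit 4) (nat_lit 0x18003c00180000000200000000000000000000000) (nat_lit 0x0) (nat_lit 0x700018000c0000000000000000000000) := T_1 (nat_lit 125) (nat_lit 124) (nat_lit 0) (nat_lit 9) (nat_lit 8) L1114080 (by decide +kernel)
theorem L1114082 : W_1 (nat_lit 5) (nat_lit 0x10003c00180000000200000000000000000000000) (nat_lit 0x0) (nat_lit 0xc0000000700018000c0000000000000000000000) := T_1 (nat_lit 159) (nat_lit 158) (nat_lit 1) (nat_lit 9) (nat_lit 8) L1114081 (by decide +kernel)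
theorem L1114083 : W_1 (nat_lit 6) (nat_lit 0x10003800180000000200000000000000000000000) (nat_lit 0x0) (nat_lit 0xc0006000700018000c0000000000000000000000) := T_1 (nat_lit 142) (nat_lit 141) (nat_lit 2) (nat_lit 5) (nat_lit 8) L1114082 (by decide +kernel)
theorem L1114084 : W_1 (nat_lit 7) (nat_lit 0x10003800180000000000000000000000000000000) (nat_lit 0x0) (nat_lit 0xc0006000700058002c0000000000000000000000) := T_1 (nat_lit 93) (nat_lit 110) (nat_lit 5) (nat_lit 8) (nat_lit 5) L1114083 (by decide +kernel)
theorem L1114085 : W_1 (nat_lit 2) (nat_lit 0x1000fc001a0000000200000000000000000000000) (nat_lit 0x0) (nat_lit 0x380000000000000000000000000000000000000000) := D_1 (nat_lit 164) (nat_lit 163) (nat_lit 165) (nat_lit 3) (nat_lit 7) (nat_lit 8) (nat_lit 3) (nat_lit 8) (nat_lit 8) (by decide +kernel)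
theorem L1114086 : W_1 (nat_lit 3) (nat_lit 0x10007c001a0000000200000000000000000000000) (nat_lit 0x0) (nat_lit 0x380018000000000000000000000000000000000000) := T_1 (nat_lit 147) (nat_lit 148) (nat_lit 0) (nat_lit 12) (nat_lit 8) L1114085 (by decide +kernel)
theorem L1114087 : W_1 (nat_lit 4) (nat_lit 0x10003c001a0000000200000000000000000000000) (nat_lit 0x0) (nat_lit 0x38001c000040000000000000000000000000000000) := T_1 (nat_lit 146) (nat_lit 126) (nat_lit 3) (nat_lit 6) (nat_lit 7) L1114086 (by decide +kernel)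
theorem L1114088 : W_1 (nat_lit 5) (nat_lit 0x10003c00180000000200000000000000000000000) (nat_lit 0x0) (nat_lit 0x38001c000070000000000000000000000000000000) := T_1 (nat_lit 125) (nat_lit 124) (nat_lit 0) (nat_lit 9) (nat_lit 8) L1114087 (by decide +kernel)
theorem L1114089 : W_1 (nat_lit 6) (nat_lit 0x10003c00180000000000000000000000000000000) (nat_lit 0x0) (nat_lit 0x38001c000070004000200000000000000000000000) := T_1 (nat_lit 93) (nat_lit 110) (nat_lit 5) (nat_lit 8) (nat_lit 5) L1114088 (by decide +kernel)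
theorem L1114090 : W_1 (nat_lit 7) (nat_lit 0x10003800180000000000000000000000000000000) (nat_lit 0x0) (nat_lit 0x38001c600070004000200000000000000000000000) := T_1 (nat_lit 142) (nat_lit 141) (nat_lit 2) (nat_lit 5) (nat_lit 8) L1114089 (by decide +kernel)
theorem L1114091 : W_1 (nat_lit 8) (nat_lit 0x10001800180000000000000000000000000000000) (nat_lit 0x0) (nat_lit 0x38c01e6000700058002c0000000000000000000000) := Q_1 (nat_lit 145) (C_1 L1114078 (C_1 L1028828 (C_1 L1114084 (C_1 L1114090 N_1)))) (by decide +kernel)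
theorem L1114092 : W_1 (nat_lit 12) (nat_lit 0x1800180000000000000000000000000000000) (nat_lit 0x0) (nat_lit 0xe00070003e039f01e60007c0058002c0000000000000000000000) := Q_1 (nat_lit 160) (C_1 L1114073 (C_1 L1049233 (C_1 L1114074 (C_1 L1114091 N_1)))) (by decide +kernel)
theorem L1115452 : W_1 (nat_lit 2) (nat_lit 0x58003c0014000700000000000000000000000) (nat_lit 0x0) (nat_lit 0x80000000000008000080000000000000000000000) := D_1 (nat_lit 111) (nat_lit 91) (nat_lit 163) (nat_lit 3) (nat_lit 6) (nat_lit 5) (nat_lit 4) (nat_lit 10) (nat_lit 9) (by decide +kernel)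
theorem L1115453 : W_1 (nat_lit 3) (nat_lit 0x58003c0004000700000000000000000000000) (nat_lit 0x0) (nat_lit 0x80000000000038000080000000000000000000000) := T_1 (nat_lit 112) (nat_lit 113) (nat_lit 2) (nat_lit 7) (nat_lit 7) L1115452 (by decide +kernel)
theorem L1115454 : W_1 (nat_lit 4) (nat_lit 0x58003c0004000600000000000000000000000) (nat_lit 0x0) (nat_lit 0x80000000000038000180008000000000000000000) := T_1 (nat_lit 92) (nat_lit 75) (nat_lit 4) (nat_lit 8) (nat_lit 8) L1115453 (by decide +kernel)
theorem L1115455 : W_1 (nat_lit 5) (nat_lit 0x58003c0004000200000000000000000000000) (nat_lit 0x0) (nat_lit 0x80000000000038000580028000000000000000000) := T_1 (nat_lit 94) (nat_lit 77) (nat_lit 6) (nat_lit 8) (nat_lit 8) L1115454 (by decide +kernel)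
theorem L1115466 : W_1 (nat_lit 5) (nat_lit 0x10001c0002000000008000000000000000000) (nat_lit 0x0) (nat_lit 0x1c000600071000000000000000000000000000) := T_1 (nat_lit 129) (nat_lit 108) (nat_lit 0) (nat_lit 10) (nat_lit 7) L510580 (by decide +kernel)
theorem L1115467 : W_1 (nat_lit 6) (nat_lit 0x10001c0002000000000000000000000000000) (nat_lit 0x0) (nat_lit 0x1c000600071000100008000000000000000000) := T_1 (nat_lit 75) (nat_lit 92) (nat_lit 7) (nat_lit 7) (nat_lit 4) L1115466 (by decide +kernel)
theorem L1115468 : W_1 (nat_lit 2) (nat_lit 0x100018001c0002000180000000000000000000000) (nat_lit 0x0) (nat_lit 0x4000200000000000000004000000000000000000000000000) := D_1 (nat_lit 177) (nat_lit 110) (nat_lit 194) (nat_lit 6) (nat_lit 7) (nat_lit 10) (nat_lit 6) (nat_lit 7) (nat_lit 11) (by decide +kernel)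
theorem L1115469 : W_1 (nat_lit 3) (nat_lit 0x18001c0002000180000000000000000000000) (nat_lit 0x0) (nat_lit 0x4000200010000000000005000000000000000000000000000) := T_1 (nat_lit 160) (nat_lit 108) (nat_lit 4) (nat_lit 7) (nat_lit 9) L1115468 (by decide +kernel)
theorem L1115470 : W_1 (nat_lit 4) (nat_lit 0x18001c0002000100000000000000000000000) (nat_lit 0x0) (nat_lit 0x4000200010000000000005000080004000000000000000000) := T_1 (nat_lit 91) (nat_lit 74) (nat_lit 4) (nat_lit 7) (nat_lit 8) L1115469 (by decide +kernel)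
theorem L1115471 : W_1 (nat_lit 5) (nat_lit 0x18001c0002000000000000000000000000000) (nat_lit 0x0) (nat_lit 0x400020001000000000000500018000c000000000000000000) := T_1 (nat_lit 92) (nat_lit 75) (nat_lit 7) (nat_lit 7) (nat_lit 4) L1115470 (by decide +kernel)
theorem L1115472 : W_1 (nat_lit 2) (nat_lit 0x100018001c0002000000000000000000000000000) (nat_lit 0x0) (nat_lit 0x4000200000000000000004000000000000000000000000000) := D_1 (nat_lit 177) (nat_lit 194) (nat_lit 110) (nat_lit 6) (nat_lit 7) (nat_lit 11) (nat_lit 6) (nat_lit 7) (nat_lit 10) (by decide +kernel)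
theorem L1115473 : W_1 (nat_lit 5) (nat_lit 0x18001c0002000000000000000000000000000) (nat_lit 0x0) (nat_lit 0x400030001e002600000004000000000000000000000000000) := Q_1 (nat_lit 160) (C_1 L1115472 (C_1 L640824 N_1)) (by decide +kernel)
theorem L1115474 : W_1 (nat_lit 7) (nat_lit 0x10001c0002000000000000000000000000000) (nat_lit 0x0) (nat_lit 0x400030001e002e0000000500018000c000000000000000000) := Q_1 (nat_lit 143) (C_1 L1112911 (C_1 L1115471 (C_1 L620820 (C_1 L1115473 N_1)))) (by decide +kernel)
theorem L1115475 : W_1 (nat_lit 5) (nat_lit 0x58003c0012000000000000000000000000000) (nat_lit 0x0) (nat_lit 0x100008000000000000c00058000c000000000000000000) := T_1 (nat_lit 92) (nat_lit 75) (nat_lit 7) (nat_lit 7) (nat_lit 4) L1076757 (by decide +kernel)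
theorem L1115476 : W_1 (nat_lit 6) (nat_lit 0x50003c0012000000000000000000000000000) (nat_lit 0x0) (nat_lit 0x1000080000c0000000c00058000c000000000000000000) := T_1 (nat_lit 143) (nat_lit 142) (nat_lit 1) (nat_lit 10) (nat_lit 7) L1115475 (by decide +kernel)
theorem L1115477 : W_1 (nat_lit 7) (nat_lit 0x50003c0002000000000000000000000000000) (nat_lit 0x0) (nat_lit 0x1000080000c0000003c00058000c000000000000000000) := T_1 (nat_lit 112) (nat_lit 113) (nat_lit 2) (nat_lit 7) (nat_lit 7) L1115476 (by decide +kernel)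
theorem L1115478 : W_1 (nat_lit 8) (nat_lit 0x10003c0002000000000000000000000000000) (nat_lit 0x0) (nat_lit 0x100008000cc0000003c00058000c000000000000000000) := T_1 (nat_lit 146) (nat_lit 147) (nat_lit 3) (nat_lit 7) (nat_lit 7) L1115477 (by decide +kernel)
theorem L1115479 : W_1 (nat_lit 2) (nat_lit 0x10003c0002000000000000000000000000000) (nat_lit 0x0) (nat_lit 0xc00400000000000000000000000000000000) := D_1 (nat_lit 143) (nat_lit 142) (nat_lit 130) (nat_lit 1) (nat_lit 10) (nat_lit 7) (nat_lit 1) (nat_lit 11) (nat_lit 7) (by decide +kernel)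
theorem L1115480 : W_1 (nat_lit 9) (nat_lit 0x10001c0002000000000000000000000000000) (nat_lit 0x0) (nat_lit 0x100008003ec00e0007c00058000c000000000000000000) := Q_1 (nat_lit 129) (C_1 L527659 (C_1 L510581 (C_1 L346014 (C_1 L1115478 (C_1 L1115479 N_1))))) (by decide +kernel)
theorem L1115481 : W_1 (nat_lit 10) (nat_lit 0x10000c0002000000000000000000000000000) (nat_lit 0x0) (nat_lit 0x400130009e03ee00f0007d00058000c000000000000000000) := Q_1 (nat_lit 128) (C_1 L1115467 (C_1 L1115474 (C_1 L1115480 (C_1 L346015 N_1)))) (by decide +kernel)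
theorem L1117862 : W_1 (nat_lit 3) (nat_lit 0x300010000c0002000000000000000000000000000) (nat_lit 0x0) (nat_lit 0x80004000200000000800000004000000000000000000000000000) := T_1 (nat_lit 177) (nat_lit 110) (nat_lit 5) (nat_lit 8) (nat_lit 6) L635170 (by decide +kernel)
theorem L1117863 : W_1 (nat_lit 4) (nat_lit 0x100010000c0002000000000000000000000000000) (nat_lit 0x0) (nat_lit 0x80004000600020000800000004000000000000000000000000000) := T_1 (nat_lit 161) (nat_lit 178) (nat_lit 4) (nat_lit 8) (nat_lit 10) L1117862 (by decide +kernel)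
theorem L1117864 : W_1 (nat_lit 5) (nat_lit 0x100018000c0003400000000000000000000000000) (nat_lit 0x0) (nat_lit 0x10000e006400300000000000000000000000000000000) := T_1 (nat_lit 129) (nat_lit 128) (nat_lit 0) (nat_lit 10) (nat_lit 7) L665259 (by decide +kernel)
theorem L1117865 : W_1 (nat_lit 6) (nat_lit 0x100018000c0003000000000000000000000000000) (nat_lit 0x0) (nat_lit 0x10000e006400300000c00000000000000000000000000) := T_1 (nat_lit 106) (nat_lit 107) (nat_lit 3) (nat_lit 4) (nat_lit 6) L1117864 (by decide +kernel)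
theorem L1117866 : W_1 (nat_lit 7) (nat_lit 0x100018000c0002000000000000000000000000000) (nat_lit 0x0) (nat_lit 0x10000e006400300001c00080000000000000000000000) := T_1 (nat_lit 108) (nat_lit 91) (nat_lit 4) (nat_lit 7) (nat_lit 9) L1117865 (by decide +kernel)
theorem L1117867 : W_1 (nat_lit 2) (nat_lit 0x100018000c0002000000000000000000000000000) (nat_lit 0x0) (nat_lit 0x4000200000000000000004000000000000000000000000000) := D_1 (nat_lit 177) (nat_lit 194) (nat_lit 110) (nat_lit 6) (nat_lit 7) (nat_lit 11) (nat_lit 6) (nat_lit 7) (nat_lit 10) (by decide +kernel)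
theorem L1117868 : W_1 (nat_lit 8) (nat_lit 0x100010000c0002000000000000000000000000000) (nat_lit 0x0) (nat_lit 0x600030000e006c00300005c00080000000000000000000000) := Q_1 (nat_lit 143) (C_1 L625710 (C_1 L619455 (C_1 L1117866 (C_1 L1117867 N_1)))) (by decide +kernel)
theorem L1117869 : W_1 (nat_lit 9) (nat_lit 0x100010000c0002000000000000000000000000000) (nat_lit 0x0) (nat_lit 0xc00070002e006f00300001c00080000000000000000000000) := Q_1 (nat_lit 143) (C_1 L625710 (C_1 L625704 (C_1 L1117866 (C_1 L619462 (C_1 L619404 N_1))))) (by decide +kernel)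
theorem L1117870 : W_1 (nat_lit 2) (nat_lit 0x4000100018000c0003800000000000000000000000000) (nat_lit 0x0) (nat_lit 0x300004000000000000000000000000000) := D_1 (nat_lit 128) (nat_lit 129) (nat_lit 110) (nat_lit 0) (nat_lit 10) (nat_lit 7) (nat_lit 3) (nat_lit 5) (nat_lit 6) (by decide +kernel)
theorem L1117871 : W_1 (nat_lit 3) (nat_lit 0x4000100018000c0003000000000000000000000000000) (nat_lit 0x0) (nat_lit 0x300004c00000000000000000000000000) := T_1 (nat_lit 107) (nat_lit 106) (nat_lit 3) (nat_lit 4) (nat_lit 6) L1117870 (by decide +kernel)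
theorem L1117872 : W_1 (nat_lit 4) (nat_lit 0x4000100018000c0002000000000000000000000000000) (nat_lit 0x0) (nat_lit 0x300005c00080000000000000000000000) := T_1 (nat_lit 108) (nat_lit 91) (nat_lit 4) (nat_lit 7) (nat_lit 9) L1117871 (by decide +kernel)
theorem L1117873 : W_1 (nat_lit 5) (nat_lit 0x100018000c0002000000000000000000000000000) (nat_lit 0x0) (nat_lit 0x400020000000300005c00080000000000000000000000) := T_1 (nat_lit 178) (nat_lit 161) (nat_lit 7) (nat_lit 7) (nat_lit 6) L1117872 (by decide +kernel)
theorem L1117874 : W_1 (nat_lit 9) (nat_lit 0x100010000c0002000000000000000000000000000) (nat_lit 0x0) (nat_lit 0x50002e006f00300005c00080000000000000000000000) := Q_1 (nat_lit 143) (C_1 L625704 (C_1 L1117866 (C_1 L619462 (C_1 L1117873 N_1)))) (by decide +kernel)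
theorem L1117875 : W_1 (nat_lit 7) (nat_lit 0x300010000c0006000000000000000000000000000) (nat_lit 0x0) (nat_lit 0x700039c004e0000000000000000000000) := T_1 (nat_lit 111) (nat_lit 94) (nat_lit 6) (nat_lit 8) (nat_lit 9) L1048999 (by decide +kernel)
theorem L1117876 : W_1 (nat_lit 8) (nat_lit 0x300010000c0002000000000000000000000000000) (nat_lit 0x0) (nat_lit 0x20000000000070003dc004e0000000000000000000000) := T_1 (nat_lit 110) (nat_lit 177) (nat_lit 5) (nat_lit 8) (nat_lit 6) L1117875 (by decide +kernel)
theorem L1117877 : W_1 (nat_lit 9) (nat_lit 0x100010000c0002000000000000000000000000000) (nat_lit 0x0) (nat_lit 0x60002000000070003dc004e0000000000000000000000) := T_1 (nat_lit 161) (nat_lit 178) (nat_lit 4) (nat_lit 8) (nat_lit 10) L1117876 (by decide +kernel)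
theorem L1117878 : W_1 (nat_lit 10) (nat_lit 0x10000c0002000000000000000000000000000) (nat_lit 0x0) (nat_lit 0x8000e00070003e006f0070003dc004e0000000000000000000000) := Q_1 (nat_lit 160) (C_1 L1117863 (C_1 L1117868 (C_1 L1117869 (C_1 L1117874 (C_1 L1117877 N_1))))) (by decide +kernel)
theorem L1117879 : W_1 (nat_lit 11) (nat_lit 0x10000c0000000000000000000000000000000) (nat_lit 0x0) (nat_lit 0x8000e0017000be03ef00f0007fc005e000c000000000000000000) := Q_1 (nat_lit 109) (C_1 L615321 (C_1 L1115481 (C_1 L1117878 (C_1 L284220 N_1)))) (by decide +kernel)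
theorem L1117880 : W_1 (nat_lit 3) (nat_lit 0x10000f0007800000008000000000000000000) (nat_lit 0x0) (nat_lit 0x8000400000000000060002000000000000000000) := T_1 (nat_lit 90) (nat_lit 89) (nat_lit 0) (nat_lit 8) (nat_lit 6) L170759 (by decide +kernel)
theorem L1117881 : W_1 (nat_lit 4) (nat_lit 0x10000f0003800000008000000000000000000) (nat_lit 0x0) (nat_lit 0x800040000000c000060002000000000000000000) := T_1 (nat_lit 110) (nat_lit 111) (nat_lit 2) (nat_lit 5) (nat_lit 7) L1117880 (by decide +kernel)
theorem L1117882 : W_1 (nat_lit 5) (nat_lit 0x10000f0003000000008000000000000000000) (nat_lit 0x0) (nat_lit 0x800040000000cc00060002000000000000000000) := T_1 (nat_lit 107) (nat_lit 106) (nat_lit 3) (nat_lit 4) (nat_lit 6) L1117881 (by decide +kernel)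
theorem L1117883 : W_1 (nat_lit 6) (nat_lit 0x10000f0003000000000000000000000000000) (nat_lit 0x0) (nat_lit 0x800040000000cc0016000a000000000000000000) := T_1 (nat_lit 75) (nat_lit 92) (nat_lit 7) (nat_lit 7) (nat_lit 4) L1117882 (by decide +kernel)
theorem L1117884 : W_1 (nat_lit 7) (nat_lit 0x10000e0003000000000000000000000000000) (nat_lit 0x0) (nat_lit 0x800040001c00ce0016000a000000000000000000) := Q_1 (nat_lit 124) (C_1 L284369 (C_1 L284230 (C_1 L1117883 N_1))) (by decide +kernel)
theorem L1117885 : W_1 (nat_lit 2) (nat_lit 0x12000f0007400080000000000000000000000) (nat_lit 0x0) (nat_lit 0x80004000400000000000000000000000000000000000) := D_1 (nat_lit 158) (nat_lit 175) (nat_lit 142) (nat_lit 6) (nat_lit 5) (nat_lit 10) (nat_lit 5) (nat_lit 6) (nat_lit 5) (by decide +kernel)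
theorem L1117886 : W_1 (nat_lit 3) (nat_lit 0x12000f0007400000000000000000000000000) (nat_lit 0x0) (nat_lit 0x80004000400000000000080004000000000000000000) := T_1 (nat_lit 91) (nat_lit 74) (nat_lit 5) (nat_lit 6) (nat_lit 4) L1117885 (by decide +kernel)
theorem L1117887 : W_1 (nat_lit 4) (nat_lit 0x12000f0007000000000000000000000000000) (nat_lit 0x0) (nat_lit 0x80004000400000000c00080004000000000000000000) := T_1 (nat_lit 106) (nat_lit 107) (nat_lit 3) (nat_lit 4) (nat_lit 6) L1117886 (by decide +kernel)
theorem L1117888 : W_1 (nat_lit 5) (nat_lit 0x10000f0007000000000000000000000000000) (nat_lit 0x0) (nat_lit 0x80004000700000000c00080004000000000000000000) := T_1 (nat_lit 141) (nat_lit 140) (nat_lit 1) (nat_lit 8) (nat_lit 7) L1117887 (by decide +kernel)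
theorem L1117889 : W_1 (nat_lit 6) (nat_lit 0x10000f0003000000000000000000000000000) (nat_lit 0x0) (nat_lit 0x8000400070000000cc00080004000000000000000000) := T_1 (nat_lit 110) (nat_lit 111) (nat_lit 2) (nat_lit 5) (nat_lit 7) L1117888 (by decide +kernel)
theorem L1117890 : W_1 (nat_lit 7) (nat_lit 0x10000e0003000000000000000000000000000) (nat_lit 0x0) (nat_lit 0x8000400070001c00ce00080004000000000000000000) := Q_1 (nat_lit 124) (C_1 L284369 (C_1 L284230 (C_1 L1117889 N_1))) (by decide +kernel)
theorem L1117891 : W_1 (nat_lit 10) (nat_lit 0x10000c0003000000000000000000000000000) (nat_lit 0x0) (nat_lit 0x18000c00078003c00ce001f000e000700000000000000) := Q_1 (nat_lit 125) (C_1 L284240 (C_1 L359700 (C_1 L284347 (C_1 L1117884 (C_1 L1117890 N_1))))) (by decide +kernel)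
theorem L1117892 : W_1 (nat_lit 2) (nat_lit 0x10001f000b000000008000000000000000000) (nat_lit 0x0) (nat_lit 0x80000c000000000000000000000000000000) := D_1 (nat_lit 123) (nat_lit 143) (nat_lit 122) (nat_lit 3) (nat_lit 4) (nat_lit 7) (nat_lit 2) (nat_lit 3) (nat_lit 7) (by decide +kernel)
theorem L1117893 : W_1 (nat_lit 3) (nat_lit 0x10001e000b000000008000000000000000000) (nat_lit 0x0) (nat_lit 0x80001c004000000000000000000000000000) := T_1 (nat_lit 124) (nat_lit 110) (nat_lit 2) (nat_lit 5) (nat_lit 7) L1117892 (by decide +kernel)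
theorem L1117894 : W_1 (nat_lit 4) (nat_lit 0x10001e0003000000008000000000000000000) (nat_lit 0x0) (nat_lit 0x80001c01c000000000000000000000000000) := T_1 (nat_lit 111) (nat_lit 112) (nat_lit 2) (nat_lit 6) (nat_lit 7) L1117893 (by decide +kernel)
theorem L1117895 : W_1 (nat_lit 5) (nat_lit 0x10000e0003000000008000000000000000000) (nat_lit 0x0) (nat_lit 0x80031c01c000000000000000000000000000) := T_1 (nat_lit 128) (nat_lit 129) (nat_lit 0) (nat_lit 10) (nat_lit 7) L1117894 (by decide +kernel)
theorem L1117896 : W_1 (nat_lit 6) (nat_lit 0x10000e0003000000000000000000000000000) (nat_lit 0x0) (nat_lit 0x80031c01c000100008000000000000000000) := T_1 (nat_lit 75) (nat_lit 92) (nat_lit 7) (nat_lit 7) (nat_lit 4) L1117895 (by decide +kernel)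
theorem L1117897 : W_1 (nat_lit 2) (nat_lit 0x14001f000b000000000000000000000000000) (nat_lit 0x0) (nat_lit 0x80000c000000000000000000000000000000) := D_1 (nat_lit 123) (nat_lit 143) (nat_lit 122) (nat_lit 3) (nat_lit 4) (nat_lit 7) (nat_lit 2) (nat_lit 3) (nat_lit 7) (by decide +kernel)
theorem L1117898 : W_1 (nat_lit 3) (nat_lit 0x14001e000b000000000000000000000000000) (nat_lit 0x0) (nat_lit 0x80001c004000000000000000000000000000) := T_1 (nat_lit 124) (nat_lit 110) (nat_lit 2) (nat_lit 5) (nat_lit 7) L1117897 (by decide +kernel)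
theorem L1117899 : W_1 (nat_lit 4) (nat_lit 0x14001e0003000000000000000000000000000) (nat_lit 0x0) (nat_lit 0x80001c01c000000000000000000000000000) := T_1 (nat_lit 111) (nat_lit 112) (nat_lit 2) (nat_lit 6) (nat_lit 7) L1117898 (by decide +kernel)
theorem L1117900 : W_1 (nat_lit 5) (nat_lit 0x10001e0003000000000000000000000000000) (nat_lit 0x0) (nat_lit 0xe0001c01c000000000000000000000000000) := T_1 (nat_lit 142) (nat_lit 141) (nat_lit 1) (nat_lit 9) (nat_lit 7) L1117899 (by decide +kernel)
theorem L1117901 : W_1 (nat_lit 6) (nat_lit 0x10000e0003000000000000000000000000000) (nat_lit 0x0) (nat_lit 0xe0031c01c000000000000000000000000000) := T_1 (nat_lit 128) (nat_lit 129) (nat_lit 0) (nat_lit 10) (nat_lit 7) L1117900 (by decide +kernel)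
theorem L1117902 : W_1 (nat_lit 8) (nat_lit 0x10000c0003000000000000000000000000000) (nat_lit 0x0) (nat_lit 0x18000c000e0033c01c0001f000e000700000000000000) := Q_1 (nat_lit 125) (C_1 L359700 (C_1 L1117896 (C_1 L284283 (C_1 L1117901 N_1)))) (by decide +kernel)
theorem L1117903 : W_1 (nat_lit 11) (nat_lit 0x10000c0002000000000000000000000000000) (nat_lit 0x0) (nat_lit 0x18000c000f8033c01de001f000e000700000000000000) := Q_1 (nat_lit 108) (C_1 L1117891 (C_1 L622988 (C_1 L284265 (C_1 L1117902 N_1)))) (by decide +kernel)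
theorem L1117904 : W_1 (nat_lit 2) (nat_lit 0x14001f000a000000000000000000000000000) (nat_lit 0x0) (nat_lit 0x1c00000000000000000000000000) := D_1 (nat_lit 107) (nat_lit 108) (nat_lit 106) (nat_lit 0) (nat_lit 9) (nat_lit 7) (nat_lit 0) (nat_lit 8) (nat_lit 7) (by decide +kernel)
theorem L1117905 : W_1 (nat_lit 3) (nat_lit 0x14001e000a000000000000000000000000000) (nat_lit 0x0) (nat_lit 0x10005c00000000000000000000000000) := T_1 (nat_lit 124) (nat_lit 110) (nat_lit 2) (nat_lit 5) (nat_lit 7) L1117904 (by decide +kernel)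
theorem L1117906 : W_1 (nat_lit 4) (nat_lit 0x14001e0002000000000000000000000000000) (nat_lit 0x0) (nat_lit 0x1001dc00000000000000000000000000) := T_1 (nat_lit 111) (nat_lit 112) (nat_lit 2) (nat_lit 6) (nat_lit 7) L1117905 (by decide +kernel)
theorem L1117907 : W_1 (nat_lit 5) (nat_lit 0x10001e0002000000000000000000000000000) (nat_lit 0x0) (nat_lit 0x60001001dc00000000000000000000000000) := T_1 (nat_lit 142) (nat_lit 141) (nat_lit 1) (nat_lit 9) (nat_lit 7) L1117906 (by decide +kernel)
theorem L1117908 : W_1 (nat_lit 2) (nat_lit 0x4000000010001f000a000000000000000000000000000) (nat_lit 0x0) (nat_lit 0x700000000000000000000000000000000000) := D_1 (nat_lit 141) (nat_lit 142) (nat_lit 140) (nat_lit 1) (nat_lit 9) (nat_lit 7) (nat_lit 1) (nat_lit 8) (nat_lit 7) (by decide +kernel)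
theorem L1117909 : W_1 (nat_lit 3) (nat_lit 0x4000000010001e000a000000000000000000000000000) (nat_lit 0x0) (nat_lit 0x700010004000000000000000000000000000) := T_1 (nat_lit 124) (nat_lit 110) (nat_lit 2) (nat_lit 5) (nat_lit 7) L1117908 (by decide +kernel)
theorem L1117910 : W_1 (nat_lit 4) (nat_lit 0x4000000010001e0002000000000000000000000000000) (nat_lit 0x0) (nat_lit 0x70001001c000000000000000000000000000) := T_1 (nat_lit 111) (nat_lit 112) (nat_lit 2) (nat_lit 6) (nat_lit 7) L1117909 (by decide +kernel)
theorem L1117911 : W_1 (nat_lit 5) (nat_lit 0x10001e0002000000000000000000000000000) (nat_lit 0x0) (nat_lit 0x40002000070001001c000000000000000000000000000) := T_1 (nat_lit 178) (nat_lit 161) (nat_lit 4) (nat_lit 8) (nat_lit 10) L1117910 (by decide +kernel)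
theorem L1117914 : W_1 (nat_lit 2) (nat_lit 0x4000000010003e0012000000000000000000000000000) (nat_lit 0x0) (nat_lit 0xe00000000000000000000000000000000000) := D_1 (nat_lit 142) (nat_lit 141) (nat_lit 143) (nat_lit 1) (nat_lit 9) (nat_lit 7) (nat_lit 1) (nat_lit 10) (nat_lit 7) (by decide +kernel)
theorem L1117915 : W_1 (nat_lit 3) (nat_lit 0x4000000010003c0012000000000000000000000000000) (nat_lit 0x0) (nat_lit 0xe00020008000000000000000000000000000) := T_1 (nat_lit 125) (nat_lit 111) (nat_lit 2) (nat_lit 6) (nat_lit 7) L1117914 (by decide +kernel)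
theorem L1117916 : W_1 (nat_lit 4) (nat_lit 0x4000000010003c0002000000000000000000000000000) (nat_lit 0x0) (nat_lit 0xe00020038000000000000000000000000000) := T_1 (nat_lit 112) (nat_lit 113) (nat_lit 2) (nat_lit 7) (nat_lit 7) L1117915 (by decide +kernel)
theorem L1117917 : W_1 (nat_lit 5) (nat_lit 0x10003c0002000000000000000000000000000) (nat_lit 0x0) (nat_lit 0x400020000e00020038000000000000000000000000000) := T_1 (nat_lit 178) (nat_lit 161) (nat_lit 4) (nat_lit 8) (nat_lit 10) L1117916 (by decide +kernel)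
theorem L1117918 : W_1 (nat_lit 6) (nat_lit 0x10001c0002000000000000000000000000000) (nat_lit 0x0) (nat_lit 0x40002001ce0062003c000000000000000000000000000) := Q_1 (nat_lit 129) (C_1 L346014 (C_1 L1115479 (C_1 L1117917 N_1))) (by decide +kernel)
theorem L1117921 : W_1 (nat_lit 9) (nat_lit 0x10000e0000000000000000000000000000000) (nat_lit 0x0) (nat_lit 0x30001c006e0030003b800180004000000000000000000) := Q_1 (nat_lit 128) (C_1 L623035 (C_1 L843532 (C_1 L339462 N_1))) (by decide +kernel)
theorem L1117923 : W_1 (nat_lit 2) (nat_lit 0x12000f0007800000008000000000000000000) (nat_lit 0x0) (nat_lit 0x80004000000000000000080000000000000000000000) := D_1 (nat_lit 158) (nat_lit 175) (nat_lit 91) (nat_lit 6) (nat_lit 5) (nat_lit 10) (nat_lit 6) (nat_lit 5) (nat_lit 9) (by decide +kernel)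
theorem L1117924 : W_1 (nat_lit 3) (nat_lit 0x12000f0006800000008000000000000000000) (nat_lit 0x0) (nat_lit 0x80004000000100001000080000000000000000000000) := T_1 (nat_lit 108) (nat_lit 128) (nat_lit 3) (nat_lit 5) (nat_lit 6) L1117923 (by decide +kernel)
theorem L1117925 : W_1 (nat_lit 4) (nat_lit 0x12000f0006000000008000000000000000000) (nat_lit 0x0) (nat_lit 0x80004000000100001c00080000000000000000000000) := T_1 (nat_lit 107) (nat_lit 106) (nat_lit 0) (nat_lit 8) (nat_lit 7) L1117924 (by decide +kernel)
theorem L1117926 : W_1 (nat_lit 5) (nat_lit 0x10000f0006000000008000000000000000000) (nat_lit 0x0) (nat_lit 0x80004000300100001c00080000000000000000000000) := T_1 (nat_lit 141) (nat_lit 140) (nat_lit 1) (nat_lit 8) (nat_lit 7) L1117925 (by decide +kernel)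
theorem L1117927 : W_1 (nat_lit 6) (nat_lit 0x10000f0002000000008000000000000000000) (nat_lit 0x0) (nat_lit 0x8000400030010000dc00080000000000000000000000) := T_1 (nat_lit 110) (nat_lit 111) (nat_lit 2) (nat_lit 5) (nat_lit 7) L1117926 (by decide +kernel)
theorem L1117928 : W_1 (nat_lit 7) (nat_lit 0x10000f0002000000000000000000000000000) (nat_lit 0x0) (nat_lit 0x8000400030010000dc00180008000000000000000000) := T_1 (nat_lit 75) (nat_lit 92) (nat_lit 7) (nat_lit 7) (nat_lit 4) L1117927 (by decide +kernel)
theorem L1117929 : W_1 (nat_lit 2) (nat_lit 0x10000f0002000000000000000000000000000) (nat_lit 0x0) (nat_lit 0x800008004000000000000000000000000000) := D_1 (nat_lit 123) (nat_lit 143) (nat_lit 110) (nat_lit 3) (nat_lit 4) (nat_lit 7) (nat_lit 2) (nat_lit 4) (nat_lit 7) (by decide +kernel)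
theorem L1117930 : W_1 (nat_lit 8) (nat_lit 0x10000e0002000000000000000000000000000) (nat_lit 0x0) (nat_lit 0x80004000b8011c00df00180008000000000000000000) := Q_1 (nat_lit 124) (C_1 L616447 (C_1 L287990 (C_1 L1117928 (C_1 L1117929 N_1)))) (by decide +kernel)
theorem L1117931 : W_1 (nat_lit 2) (nat_lit 0x10001e0002000000000000000000000000000) (nat_lit 0x0) (nat_lit 0x200001800000000000000000000000000) := D_1 (nat_lit 108) (nat_lit 107) (nat_lit 129) (nat_lit 0) (nat_lit 9) (nat_lit 7) (nat_lit 0) (nat_lit 10) (nat_lit 7) (by decide +kernel)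
theorem L1117932 : W_1 (nat_lit 2) (nat_lit 0x30001e000a000c00008000000000000000000) (nat_lit 0x0) (nat_lit 0x5800000000000000000000000000) := D_1 (nat_lit 108) (nat_lit 110) (nat_lit 107) (nat_lit 2) (nat_lit 6) (nat_lit 6) (nat_lit 0) (nat_lit 9) (nat_lit 7) (by decide +kernel)
theorem L1117933 : W_1 (nat_lit 3) (nat_lit 0x30001e000a000400008000000000000000000) (nat_lit 0x0) (nat_lit 0x5800800040000000000000000000) := T_1 (nat_lit 95) (nat_lit 78) (nat_lit 6) (nat_lit 9) (nat_lit 8) L1117932 (by decide +kernel)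
theorem L1117934 : W_1 (nat_lit 4) (nat_lit 0x10001e000a000400008000000000000000000) (nat_lit 0x0) (nat_lit 0x6000000005800800040000000000000000000) := T_1 (nat_lit 145) (nat_lit 146) (nat_lit 3) (nat_lit 6) (nat_lit 7) L1117933 (by decide +kernel)
theorem L1117935 : W_1 (nat_lit 5) (nat_lit 0x10001e000a000000008000000000000000000) (nat_lit 0x0) (nat_lit 0x6000000005800c00060000000000000000000) := T_1 (nat_lit 94) (nat_lit 77) (nat_lit 5) (nat_lit 9) (nat_lit 4) L1117934 (by decide +kernel)
theorem L1117936 : W_1 (nat_lit 6) (nat_lit 0x10001e0002000000008000000000000000000) (nat_lit 0x0) (nat_lit 0x600000001d800c00060000000000000000000) := T_1 (nat_lit 111) (nat_lit 112) (nat_lit 2) (nat_lit 6) (nat_lit 7) L1117935 (by decide +kernel)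
theorem L1117937 : W_1 (nat_lit 7) (nat_lit 0x10001e0002000000000000000000000000000) (nat_lit 0x0) (nat_lit 0x600000001d800d00068000000000000000000) := T_1 (nat_lit 75) (nat_lit 92) (nat_lit 7) (nat_lit 7) (nat_lit 4) L1117936 (by decide +kernel)
theorem L1117938 : W_1 (nat_lit 2) (nat_lit 0x50003e000a000000028000000000000000000) (nat_lit 0x0) (nat_lit 0x800400004000000000000000000000000000) := D_1 (nat_lit 130) (nat_lit 143) (nat_lit 110) (nat_lit 1) (nat_lit 11) (nat_lit 7) (nat_lit 0) (nat_lit 11) (nat_lit 7) (by decide +kernel)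
theorem L1117939 : W_1 (nat_lit 3) (nat_lit 0x50001e000a000000028000000000000000000) (nat_lit 0x0) (nat_lit 0x8800600004000000000000000000000000000) := T_1 (nat_lit 129) (nat_lit 147) (nat_lit 3) (nat_lit 7) (nat_lit 7) L1117938 (by decide +kernel)
theorem L1117940 : W_1 (nat_lit 4) (nat_lit 0x10001e000a000000028000000000000000000) (nat_lit 0x0) (nat_lit 0xe800600004000000000000000000000000000) := T_1 (nat_lit 146) (nat_lit 145) (nat_lit 3) (nat_lit 6) (nat_lit 7) L1117939 (by decide +kernel)
theorem L1117941 : W_1 (nat_lit 5) (nat_lit 0x10001e000a000000008000000000000000000) (nat_lit 0x0) (nat_lit 0xe800600004000400020000000000000000000) := T_1 (nat_lit 77) (nat_lit 94) (nat_lit 5) (nat_lit 9) (nat_lit 4) L1117940 (by decide +kernel)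
theorem L1117942 : W_1 (nat_lit 6) (nat_lit 0x10001e0002000000008000000000000000000) (nat_lit 0x0) (nat_lit 0xe80060001c000400020000000000000000000) := T_1 (nat_lit 111) (nat_lit 112) (nat_lit 2) (nat_lit 6) (nat_lit 7) L1117941 (by decide +kernel)
theorem L1117943 : W_1 (nat_lit 7) (nat_lit 0x10001e0002000000000000000000000000000) (nat_lit 0x0) (nat_lit 0xe80060001c000500028000000000000000000) := T_1 (nat_lit 75) (nat_lit 92) (nat_lit 7) (nat_lit 7) (nat_lit 4) L1117942 (by decide +kernel)
theorem L1117944 : W_1 (nat_lit 8) (nat_lit 0x10000e0002000000000000000000000000000) (nat_lit 0x0) (nat_lit 0xe80070001d800d00068000000000000000000) := Q_1 (nat_lit 128) (C_1 L1117931 (C_1 L1117937 (C_1 L1117943 N_1))) (by decide +kernel)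
theorem L1117945 : W_1 (nat_lit 9) (nat_lit 0x10000c0002000000000000000000000000000) (nat_lit 0x0) (nat_lit 0x8000400eb8073c01df00d80068000000000000000000) := Q_1 (nat_lit 125) (C_1 L616486 (C_1 L1117930 (C_1 L346068 (C_1 L1117944 N_1)))) (by decide +kernel)
theorem L1117946 : W_1 (nat_lit 13) (nat_lit 0x10000c0000000000000000000000000000000) (nat_lit 0x0) (nat_lit 0x24801a403eb80f3c0fff01d800e8000000000000000000) := Q_1 (nat_lit 109) (C_1 L615321 (C_1 L623031 (C_1 L1117945 (C_1 L346043 N_1)))) (by decide +kernel)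
theorem L1117960 : W_1 (nat_lit 8) (nat_lit 0x10000e0002000000000000000000000000000) (nat_lit 0x0) (nat_lit 0x8000c0031c01de0016000a000000000000000000) := Q_1 (nat_lit 108) (C_1 L1117884 (C_1 L1117896 (C_1 L284291 N_1))) (by decide +kernel)
theorem L1117961 : W_1 (nat_lit 2) (nat_lit 0x10000f0002000000008000000000000000000) (nat_lit 0x0) (nat_lit 0x800008004000000000000000000000000000) := D_1 (nat_lit 123) (nat_lit 143) (nat_lit 110) (nat_lit 3) (nat_lit 4) (nat_lit 7) (nat_lit 2) (nat_lit 4) (nat_lit 7) (by decide +kernel)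
theorem L1117962 : W_1 (nat_lit 3) (nat_lit 0x10000e0002000000008000000000000000000) (nat_lit 0x0) (nat_lit 0x2800018004000000000000000000000000000) := T_1 (nat_lit 124) (nat_lit 145) (nat_lit 3) (nat_lit 5) (nat_lit 7) L1117961 (by decide +kernel)
theorem L1117963 : W_1 (nat_lit 4) (nat_lit 0x10000e0002000000000000000000000000000) (nat_lit 0x0) (nat_lit 0x2800018004000100008000000000000000000) := T_1 (nat_lit 75) (nat_lit 92) (nat_lit 7) (nat_lit 7) (nat_lit 4) L1117962 (by decide +kernel)
theorem L1117964 : W_1 (nat_lit 2) (nat_lit 0x10000f0002000000000000000000000000000) (nat_lit 0x0) (nat_lit 0x800c000000000000000000000000000) := D_1 (nat_lit 110) (nat_lit 111) (nat_lit 123) (nat_lit 2) (nat_lit 5) (nat_lit 7) (nat_lit 2) (nat_lit 4) (nat_lit 7) (by decide +kernel)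
theorem L1117965 : W_1 (nat_lit 3) (nat_lit 0x10000e0002000000000000000000000000000) (nat_lit 0x0) (nat_lit 0x200001800c000000000000000000000000000) := T_1 (nat_lit 124) (nat_lit 145) (nat_lit 3) (nat_lit 5) (nat_lit 7) L1117964 (by decide +kernel)
theorem L1117966 : W_1 (nat_lit 9) (nat_lit 0x10000c0002000000000000000000000000000) (nat_lit 0x0) (nat_lit 0x800ec0073c01df00d6006a000000000000000000) := Q_1 (nat_lit 125) (C_1 L616486 (C_1 L1117944 (C_1 L1117960 (C_1 L1117963 (C_1 L1117965 N_1))))) (by decide +kernel)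
theorem L1117967 : W_1 (nat_lit 12) (nat_lit 0x10000c0002000000000000000000000000000) (nat_lit 0x0) (nat_lit 0x24001a003e800f300fdc01c000e0000000000000000000) := Q_1 (nat_lit 128) (C_1 L623030 (C_1 L623020 (C_1 L623005 (C_1 L346026 N_1)))) (by decide +kernel)
theorem L1117968 : W_1 (nat_lit 13) (nat_lit 0x10000c0000000000000000000000000000000) (nat_lit 0x0) (nat_lit 0x24001a803ec00f3c0fff01d600ea000000000000000000) := Q_1 (nat_lit 109) (C_1 L615321 (C_1 L1117966 (C_1 L1117967 (C_1 L284220 N_1)))) (by decide +kernel)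
theorem L1117969 : W_1 (nat_lit 6) (nat_lit 0x10000e0000000000000000000000000000000) (nat_lit 0x0) (nat_lit 0x100008000f80118000e00040000000000000000000000) := Q_1 (nat_lit 124) (C_1 L616508 (C_1 L616506 (C_1 L342143 (C_1 L342140 N_1)))) (by decide +kernel)
theorem L1117970 : W_1 (nat_lit 2) (nat_lit 0x30001e0008000000000000000000000000000) (nat_lit 0x0) (nat_lit 0x20000000000000000400020000000000000000000) := D_1 (nat_lit 94) (nat_lit 77) (nat_lit 161) (nat_lit 5) (nat_lit 9) (nat_lit 4) (nat_lit 5) (nat_lit 9) (nat_lit 5) (by decide +kernel)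
theorem L1117971 : W_1 (nat_lit 3) (nat_lit 0x30001e0000000000000000000000000000000) (nat_lit 0x0) (nat_lit 0x20000000000018000400020000000000000000000) := T_1 (nat_lit 111) (nat_lit 112) (nat_lit 2) (nat_lit 6) (nat_lit 7) L1117970 (by decide +kernel)
theorem L1117972 : W_1 (nat_lit 4) (nat_lit 0x10001e0000000000000000000000000000000) (nat_lit 0x0) (nat_lit 0x20006000000018000400020000000000000000000) := T_1 (nat_lit 145) (nat_lit 146) (nat_lit 3) (nat_lit 6) (nat_lit 7) L1117971 (by decide +kernel)
theorem L1117973 : W_1 (nat_lit 4) (nat_lit 0x34001e0000000000000000000000000000000) (nat_lit 0x0) (nat_lit 0x200010000c000800200002000000000000000000000000000) := T_1 (nat_lit 143) (nat_lit 129) (nat_lit 2) (nat_lit 6) (nat_lit 8) L1086915 (by decide +kernel)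
theorem L1117974 : W_1 (nat_lit 5) (nat_lit 0x14001e0000000000000000000000000000000) (nat_lit 0x0) (nat_lit 0x200010000c006800200002000000000000000000000000000) := T_1 (nat_lit 145) (nat_lit 146) (nat_lit 3) (nat_lit 6) (nat_lit 7) L1117973 (by decide +kernel)
theorem L1117975 : W_1 (nat_lit 6) (nat_lit 0x10001e0000000000000000000000000000000) (nat_lit 0x0) (nat_lit 0x200010000c006e00200002000000000000000000000000000) := T_1 (nat_lit 142) (nat_lit 141) (nat_lit 1) (nat_lit 9) (nat_lit 7) L1117974 (by decide +kernel)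
theorem L1117976 : W_1 (nat_lit 8) (nat_lit 0x10000e0000000000000000000000000000000) (nat_lit 0x0) (nat_lit 0x200010002c03ee00f0007a000400020000000000000000000) := Q_1 (nat_lit 128) (C_1 L623035 (C_1 L1117972 (C_1 L499559 (C_1 L1117975 N_1)))) (by decide +kernel)
theorem L1117977 : W_1 (nat_lit 9) (nat_lit 0x10000c0000000000000000000000000000000) (nat_lit 0x0) (nat_lit 0x200010002c03ef80f3807ae00440020000000000000000000) := Q_1 (nat_lit 125) (C_1 L1117969 (C_1 L619124 (C_1 L616510 (C_1 L345918 (C_1 L1117976 N_1))))) (by decide +kernel)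
theorem L1117984 : W_1 (nat_lit 10) (nat_lit 0x10000c0000000000000000000000000000000) (nat_lit 0x0) (nat_lit 0x30001c006fc033e03bf001c0004000000000000000000) := Q_1 (nat_lit 125) (C_1 L1117969 (C_1 L619124 (C_1 L616510 (C_1 L345915 (C_1 L1117921 N_1))))) (by decide +kernel)
theorem L1118005 : W_1 (nat_lit 2) (nat_lit 0x340070000c0006000000000000000000000000000) (nat_lit 0x0) (nat_lit 0x800030000000000000000000000000000000) := D_1 (nat_lit 125) (nat_lit 124) (nat_lit 143) (nat_lit 3) (nat_lit 5) (nat_lit 7) (nat_lit 0) (nat_lit 10) (nat_lit 8) (by decide +kernel)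
theorem L1118006 : W_1 (nat_lit 3) (nat_lit 0x340030000c0006000000000000000000000000000) (nat_lit 0x0) (nat_lit 0xc800030000000000000000000000000000000) := T_1 (nat_lit 146) (nat_lit 147) (nat_lit 1) (nat_lit 11) (nat_lit 8) L1118005 (by decide +kernel)
theorem L1118007 : W_1 (nat_lit 4) (nat_lit 0x300030000c0006000000000000000000000000000) (nat_lit 0x0) (nat_lit 0xc00c800030000000000000000000000000000000) := T_1 (nat_lit 158) (nat_lit 159) (nat_lit 2) (nat_lit 5) (nat_lit 9) L1118006 (by decide +kernel)
theorem L1118008 : W_1 (nat_lit 5) (nat_lit 0x200030000c0006000000000000000000000000000) (nat_lit 0x0) (nat_lit 0x20001c00c800030000000000000000000000000000000) := T_1 (nat_lit 160) (nat_lit 177) (nat_lit 5) (nat_lit 8) (nat_lit 6) L1118007 (by decide +kernel)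
theorem L1118009 : W_1 (nat_lit 6) (nat_lit 0x200030000c0004000000000000000000000000000) (nat_lit 0x0) (nat_lit 0x20001c00c800030002000100000000000000000000000) := T_1 (nat_lit 109) (nat_lit 92) (nat_lit 4) (nat_lit 8) (nat_lit 9) L1118008 (by decide +kernel)
theorem L1118010 : W_1 (nat_lit 2) (nat_lit 0x380038000d0007000000000000000000000000000) (nat_lit 0x0) (nat_lit 0x108000800000000000000000000000000) := D_1 (nat_lit 107) (nat_lit 128) (nat_lit 123) (nat_lit 3) (nat_lit 5) (nat_lit 6) (nat_lit 1) (nat_lit 8) (nat_lit 6) (by decide +kernel)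
theorem L1118011 : W_1 (nat_lit 3) (nat_lit 0x380038000d0006000000000000000000000000000) (nat_lit 0x0) (nat_lit 0x108001800080000000000000000000000) := T_1 (nat_lit 108) (nat_lit 91) (nat_lit 4) (nat_lit 7) (nat_lit 9) L1118010 (by decide +kernel)
theorem L1118012 : W_1 (nat_lit 4) (nat_lit 0x380030000d0006000000000000000000000000000) (nat_lit 0x0) (nat_lit 0x100000000800108001800080000000000000000000000) := T_1 (nat_lit 143) (nat_lit 176) (nat_lit 5) (nat_lit 7) (nat_lit 6) L1118011 (by decide +kernel)
theorem L1118013 : W_1 (nat_lit 5) (nat_lit 0x380030000d0004000000000000000000000000000) (nat_lit 0x0) (nat_lit 0x100000000800108003800180000000000000000000000) := T_1 (nat_lit 109) (nat_lit 92) (nat_lit 4) (nat_lit 8) (nat_lit 9) L1118012 (by decide +kernel)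
theorem L1118014 : W_1 (nat_lit 6) (nat_lit 0x300030000d0004000000000000000000000000000) (nat_lit 0x0) (nat_lit 0x10000c000800108003800180000000000000000000000) := T_1 (nat_lit 159) (nat_lit 158) (nat_lit 2) (nat_lit 5) (nat_lit 9) L1118013 (by decide +kernel)
theorem L1118015 : W_1 (nat_lit 7) (nat_lit 0x200030000d0004000000000000000000000000000) (nat_lit 0x0) (nat_lit 0x30001c000800108003800180000000000000000000000) := T_1 (nat_lit 160) (nat_lit 177) (nat_lit 5) (nat_lit 8) (nat_lit 6) L1118014 (by decide +kernel)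
theorem L1118016 : W_1 (nat_lit 8) (nat_lit 0x200030000c0004000000000000000000000000000) (nat_lit 0x0) (nat_lit 0x30001c000800138003800180000000000000000000000) := T_1 (nat_lit 124) (nat_lit 125) (nat_lit 3) (nat_lit 5) (nat_lit 7) L1118015 (by decide +kernel)
theorem L1118017 : W_1 (nat_lit 2) (nat_lit 0x3800b8000c0007000000000000000000000000000) (nat_lit 0x0) (nat_lit 0x100000c00000000000000000000000000) := D_1 (nat_lit 107) (nat_lit 128) (nat_lit 106) (nat_lit 3) (nat_lit 5) (nat_lit 6) (nat_lit 3) (nat_lit 4) (nat_lit 6) (by decide +kernel)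
theorem L1118018 : W_1 (nat_lit 3) (nat_lit 0x3800b8000c0006000000000000000000000000000) (nat_lit 0x0) (nat_lit 0x100001c00080000000000000000000000) := T_1 (nat_lit 108) (nat_lit 91) (nat_lit 4) (nat_lit 7) (nat_lit 9) L1118017 (by decide +kernel)
theorem L1118019 : W_1 (nat_lit 4) (nat_lit 0x3800b0000c0006000000000000000000000000000) (nat_lit 0x0) (nat_lit 0x100000000800100001c00080000000000000000000000) := T_1 (nat_lit 143) (nat_lit 176) (nat_lit 5) (nat_lit 7) (nat_lit 6) L1118018 (by decide +kernel)
theorem L1118020 : W_1 (nat_lit 5) (nat_lit 0x3000b0000c0006000000000000000000000000000) (nat_lit 0x0) (nat_lit 0x10000c000800100001c00080000000000000000000000) := T_1 (nat_lit 159) (nat_lit 158) (nat_lit 2) (nat_lit 5) (nat_lit 9) L1118019 (by decide +kernel)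
theorem L1118021 : W_1 (nat_lit 6) (nat_lit 0x2000b0000c0006000000000000000000000000000) (nat_lit 0x0) (nat_lit 0x30001c000800100001c00080000000000000000000000) := T_1 (nat_lit 160) (nat_lit 177) (nat_lit 5) (nat_lit 8) (nat_lit 6) L1118020 (by decide +kernel)
theorem L1118022 : W_1 (nat_lit 7) (nat_lit 0x200030000c0006000000000000000000000000000) (nat_lit 0x0) (nat_lit 0x30001c00c800100001c00080000000000000000000000) := T_1 (nat_lit 147) (nat_lit 146) (nat_lit 0) (nat_lit 11) (nat_lit 8) L1118021 (by decide +kernel)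
theorem L1118023 : W_1 (nat_lit 8) (nat_lit 0x200030000c0004000000000000000000000000000) (nat_lit 0x0) (nat_lit 0x30001c00c800100003c00180000000000000000000000) := T_1 (nat_lit 109) (nat_lit 92) (nat_lit 4) (nat_lit 8) (nat_lit 9) L1118022 (by decide +kernel)
theorem L1118024 : W_1 (nat_lit 9) (nat_lit 0x200010000c0004000000000000000000000000000) (nat_lit 0x0) (nat_lit 0x30001c00e800138003c00180000000000000000000000) := Q_1 (nat_lit 145) (C_1 L101942 (C_1 L1118009 (C_1 L1118016 (C_1 L1118023 N_1)))) (by decide +kernel)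
theorem L1118027 : W_1 (nat_lit 2) (nat_lit 0x1800180004000200018000800000000000000) (nat_lit 0x0) (nat_lit 0x20001000080000000000) := D_1 (nat_lit 60) (nat_lit 43) (nat_lit 77) (nat_lit 6) (nat_lit 8) (nat_lit 6) (nat_lit 6) (nat_lit 8) (nat_lit 7) (by decide +kernel)
theorem L1118028 : W_1 (nat_lit 3) (nat_lit 0x1800180004000200018000000000000000000) (nat_lit 0x0) (nat_lit 0x8000000020001800080000000000) := T_1 (nat_lit 59) (nat_lit 111) (nat_lit 7) (nat_lit 8) (nat_lit 3) L1118027 (by decide +kernel)
theorem L1118029 : W_1 (nat_lit 4) (nat_lit 0x1800080004000200018000000000000000000) (nat_lit 0x0) (nat_lit 0x2000100008000000020001800080000000000) := T_1 (nat_lit 128) (nat_lit 145) (nat_lit 7) (nat_lit 8) (nat_lit 4) L1118028 (by decide +kernel)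
theorem L1118030 : W_1 (nat_lit 5) (nat_lit 0x1800080004000200010000000000000000000) (nat_lit 0x0) (nat_lit 0x2000100008000000028001c00080000000000) := T_1 (nat_lit 75) (nat_lit 58) (nat_lit 4) (nat_lit 8) (nat_lit 7) L1118029 (by decide +kernel)
theorem L1118031 : W_1 (nat_lit 6) (nat_lit 0x1800080004000200000000000000000000000) (nat_lit 0x0) (nat_lit 0x2000140008000000038001c00080000000000) := T_1 (nat_lit 76) (nat_lit 126) (nat_lit 5) (nat_lit 8) (nat_lit 4) L1118030 (by decide +kernel)
theorem L1118032 : W_1 (nat_lit 7) (nat_lit 0x1000080004000200000000000000000000000) (nat_lit 0x0) (nat_lit 0x10002800140008000000038001c00080000000000) := T_1 (nat_lit 143) (nat_lit 160) (nat_lit 5) (nat_lit 8) (nat_lit 5) L1118031 (by decide +kernel)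
theorem L1118046 : W_1 (nat_lit 2) (nat_lit 0x340014001a000f000080000000000000000000000) (nat_lit 0x0) (nat_lit 0x80008002000000000000000000000000000000000000) := D_1 (nat_lit 159) (nat_lit 145) (nat_lit 175) (nat_lit 2) (nat_lit 5) (nat_lit 9) (nat_lit 5) (nat_lit 6) (nat_lit 6) (by decide +kernel)
theorem L1118047 : W_1 (nat_lit 3) (nat_lit 0x300014001a000f000080000000000000000000000) (nat_lit 0x0) (nat_lit 0x8000c002200000000000000000000000000000000000) := T_1 (nat_lit 158) (nat_lit 141) (nat_lit 5) (nat_lit 6) (nat_lit 5) L1118046 (by decide +kernel)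
theorem L1118048 : W_1 (nat_lit 4) (nat_lit 0x300010001a000f000080000000000000000000000) (nat_lit 0x0) (nat_lit 0x8000c002e00000000000000000000000000000000000) := T_1 (nat_lit 142) (nat_lit 143) (nat_lit 7) (nat_lit 6) (nat_lit 5) L1118047 (by decide +kernel)
theorem L1118049 : W_1 (nat_lit 5) (nat_lit 0x300010001a000f000000000000000000000000000) (nat_lit 0x0) (nat_lit 0x8000c002e000000000000c0000000000000000000000) := T_1 (nat_lit 91) (nat_lit 90) (nat_lit 0) (nat_lit 9) (nat_lit 6) L1118048 (by decide +kernel)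
theorem L1118050 : W_1 (nat_lit 6) (nat_lit 0x3000100018000f000000000000000000000000000) (nat_lit 0x0) (nat_lit 0x8000c002e000300000000c0000000000000000000000) := T_1 (nat_lit 125) (nat_lit 124) (nat_lit 1) (nat_lit 9) (nat_lit 6) L1118049 (by decide +kernel)
theorem L1118051 : W_1 (nat_lit 7) (nat_lit 0x30001000180007000000000000000000000000000) (nat_lit 0x0) (nat_lit 0x8000c002e000300080004c0000000000000000000000) := T_1 (nat_lit 111) (nat_lit 94) (nat_lit 6) (nat_lit 8) (nat_lit 9) L1118050 (by decide +kernel)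
theorem L1118052 : W_1 (nat_lit 8) (nat_lit 0x20001000180007000000000000000000000000000) (nat_lit 0x0) (nat_lit 0x28001c002e000300080004c0000000000000000000000) := T_1 (nat_lit 160) (nat_lit 177) (nat_lit 5) (nat_lit 8) (nat_lit 6) L1118051 (by decide +kernel)
theorem L1118053 : W_1 (nat_lit 9) (nat_lit 0x20001000180006000000000000000000000000000) (nat_lit 0x0) (nat_lit 0x28001c002e000300098004c0000000000000000000000) := T_1 (nat_lit 108) (nat_lit 107) (nat_lit 3) (nat_lit 5) (nat_lit 6) L1118052 (by decide +kernel)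
theorem L1118054 : W_1 (nat_lit 10) (nat_lit 0x20001000180004000000000000000000000000000) (nat_lit 0x0) (nat_lit 0x28001c002e0003000b8005c0000000000000000000000) := T_1 (nat_lit 109) (nat_lit 92) (nat_lit 4) (nat_lit 8) (nat_lit 9) L1118053 (by decide +kernel)
theorem L1118133 : W_1 (nat_lit 2) (nat_lit 0x30007000380004000000000000000000000000000) (nat_lit 0x0) (nat_lit 0x8000c00000000000000000000000000000000000) := D_1 (nat_lit 143) (nat_lit 159) (nat_lit 142) (nat_lit 1) (nat_lit 10) (nat_lit 8) (nat_lit 2) (nat_lit 6) (nat_lit 8) (by decide +kernel)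
theorem L1118134 : W_1 (nat_lit 3) (nat_lit 0x30005000380004000000000000000000000000000) (nat_lit 0x0) (nat_lit 0x800ac00000000000000000000000000000000000) := T_1 (nat_lit 145) (nat_lit 147) (nat_lit 1) (nat_lit 11) (nat_lit 8) L1118133 (by decide +kernel)
theorem L1118135 : W_1 (nat_lit 4) (nat_lit 0x20005000380004000000000000000000000000000) (nat_lit 0x0) (nat_lit 0x20001800ac00000000000000000000000000000000000) := T_1 (nat_lit 160) (nat_lit 177) (nat_lit 5) (nat_lit 8) (nat_lit 6) L1118134 (by decide +kernel)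
theorem L1122688 : W_1 (nat_lit 2) (nat_lit 0x20007c00080004000000000000000000000000000) (nat_lit 0x0) (nat_lit 0x700000000000000000000000000000000) := D_1 (nat_lit 129) (nat_lit 128) (nat_lit 130) (nat_lit 2) (nat_lit 6) (nat_lit 8) (nat_lit 2) (nat_lit 7) (nat_lit 8) (by decide +kernel)
theorem L1122689 : W_1 (nat_lit 2) (nat_lit 0x12800fc008a0004000000000000000000000000000) (nat_lit 0x0) (nat_lit 0x10001100000000000000000000000000000000) := D_1 (nat_lit 148) (nat_lit 128) (nat_lit 132) (nat_lit 0) (nat_lit 12) (nat_lit 8) (nat_lit 2) (nat_lit 9) (nat_lit 8) (by decide +kernel)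
theorem L1122690 : W_1 (nat_lit 3) (nat_lit 0x12800fc000a0004000000000000000000000000000) (nat_lit 0x0) (nat_lit 0x10001d00000000000000000000000000000000) := T_1 (nat_lit 131) (nat_lit 130) (nat_lit 2) (nat_lit 8) (nat_lit 8) L1122689 (by decide +kernel)
theorem L1122691 : W_1 (nat_lit 4) (nat_lit 0x128007c000a0004000000000000000000000000000) (nat_lit 0x0) (nat_lit 0x200018001d00000000000000000000000000000000) := T_1 (nat_lit 147) (nat_lit 165) (nat_lit 3) (nat_lit 8) (nat_lit 8) L1122690 (by decide +kernel)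
theorem L1122692 : W_1 (nat_lit 5) (nat_lit 0x128007c00080004000000000000000000000000000) (nat_lit 0x0) (nat_lit 0x200018001d30000000000000000000000000000000) := T_1 (nat_lit 125) (nat_lit 124) (nat_lit 0) (nat_lit 9) (nat_lit 8) L1122691 (by decide +kernel)
theorem L1122693 : W_1 (nat_lit 6) (nat_lit 0x28007c00080004000000000000000000000000000) (nat_lit 0x0) (nat_lit 0x380018001d30000000000000000000000000000000) := T_1 (nat_lit 164) (nat_lit 163) (nat_lit 3) (nat_lit 7) (nat_lit 8) L1122692 (by decide +kernel)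
theorem L1122694 : W_1 (nat_lit 7) (nat_lit 0x20007c00080004000000000000000000000000000) (nat_lit 0x0) (nat_lit 0x38c018001d30000000000000000000000000000000) := T_1 (nat_lit 159) (nat_lit 158) (nat_lit 1) (nat_lit 9) (nat_lit 8) L1122693 (by decide +kernel)
theorem L1124465 : W_1 (nat_lit 2) (nat_lit 0x2800fc004a0004000000000000000000000000000) (nat_lit 0x0) (nat_lit 0x380000000000000000000000000000000000000000) := D_1 (nat_lit 164) (nat_lit 163) (nat_lit 165) (nat_lit 3) (nat_lit 7) (nat_lit 8) (nat_lit 3) (nat_lit 8) (nat_lit 8) (by decide +kernel)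
theorem L1124466 : W_1 (nat_lit 3) (nat_lit 0x28007c004a0004000000000000000000000000000) (nat_lit 0x0) (nat_lit 0x380008000800000000000000000000000000000000) := T_1 (nat_lit 147) (nat_lit 131) (nat_lit 2) (nat_lit 8) (nat_lit 8) L1124465 (by decide +kernel)
theorem L1124467 : W_1 (nat_lit 4) (nat_lit 0x28007c00480004000000000000000000000000000) (nat_lit 0x0) (nat_lit 0x380008000830000000000000000000000000000000) := T_1 (nat_lit 125) (nat_lit 124) (nat_lit 0) (nat_lit 9) (nat_lit 8) L1124466 (by decide +kernel)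
theorem L1124468 : W_1 (nat_lit 5) (nat_lit 0x28007c00080004000000000000000000000000000) (nat_lit 0x0) (nat_lit 0x380008000e30000000000000000000000000000000) := T_1 (nat_lit 130) (nat_lit 129) (nat_lit 2) (nat_lit 7) (nat_lit 8) L1124467 (by decide +kernel)
theorem L1124469 : W_1 (nat_lit 6) (nat_lit 0x20007c00080004000000000000000000000000000) (nat_lit 0x0) (nat_lit 0x38c008000e30000000000000000000000000000000) := T_1 (nat_lit 159) (nat_lit 158) (nat_lit 1) (nat_lit 9) (nat_lit 8) L1124468 (by decide +kernel)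
theorem L1129463 : W_1 (nat_lit 6) (nat_lit 0x200010000e0004000000000000000000000000000) (nat_lit 0x0) (nat_lit 0x700118003c00100000000000000000000000) := T_1 (nat_lit 109) (nat_lit 92) (nat_lit 4) (nat_lit 8) (nat_lit 9) L102114 (by decide +kernel)
theorem L1129472 : W_1 (nat_lit 2) (nat_lit 0x200010002c001f800800000000000000000000000) (nat_lit 0x0) (nat_lit 0xe0000000000000000000000) := D_1 (nat_lit 90) (nat_lit 91) (nat_lit 89) (nat_lit 0) (nat_lit 9) (nat_lit 6) (nat_lit 0) (nat_lit 8) (nat_lit 6) (by decide +kernel)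
theorem L1129473 : W_1 (nat_lit 3) (nat_lit 0x200010002c001f000800000000000000000000000) (nat_lit 0x0) (nat_lit 0xc000e0000000000000000000000) := T_1 (nat_lit 107) (nat_lit 106) (nat_lit 3) (nat_lit 4) (nat_lit 6) L1129472 (by decide +kernel)
theorem L1129474 : W_1 (nat_lit 4) (nat_lit 0x200010002c001e000800000000000000000000000) (nat_lit 0x0) (nat_lit 0x100001c000e0000000000000000000000) := T_1 (nat_lit 108) (nat_lit 128) (nat_lit 3) (nat_lit 6) (nat_lit 6) L1129473 (by decide +kernel)
theorem L1129475 : W_1 (nat_lit 5) (nat_lit 0x200010000c001e000800000000000000000000000) (nat_lit 0x0) (nat_lit 0x700001c000e0000000000000000000000) := T_1 (nat_lit 129) (nat_lit 130) (nat_lit 3) (nat_lit 7) (nat_lit 6) L1129474 (by decide +kernel)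
theorem L1129476 : W_1 (nat_lit 6) (nat_lit 0x200010000c001e000000000000000000000000000) (nat_lit 0x0) (nat_lit 0x700001c018e0000000000000000000000) := T_1 (nat_lit 95) (nat_lit 96) (nat_lit 2) (nat_lit 7) (nat_lit 6) L1129475 (by decide +kernel)
theorem L1129477 : W_1 (nat_lit 7) (nat_lit 0x200010000c000e000000000000000000000000000) (nat_lit 0x0) (nat_lit 0x700031c018e0000000000000000000000) := T_1 (nat_lit 112) (nat_lit 113) (nat_lit 1) (nat_lit 11) (nat_lit 6) L1129476 (by decide +kernel)
theorem L1129478 : W_1 (nat_lit 8) (nat_lit 0x200010000c0006000000000000000000000000000) (nat_lit 0x0) (nat_lit 0x700039c01ce0000000000000000000000) := T_1 (nat_lit 111) (nat_lit 94) (nat_lit 6) (nat_lit 8) (nat_lit 9) L1129477 (by decide +kernel)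
theorem L1129479 : W_1 (nat_lit 9) (nat_lit 0x200010000c0004000000000000000000000000000) (nat_lit 0x0) (nat_lit 0x70003bc01de0000000000000000000000) := T_1 (nat_lit 109) (nat_lit 92) (nat_lit 4) (nat_lit 8) (nat_lit 9) L1129478 (by decide +kernel)
theorem L1129480 : W_1 (nat_lit 4) (nat_lit 0x200010000c0004000000000000000000000000000) (nat_lit 0x0) (nat_lit 0x130038000400000000000000000000000) := T_1 (nat_lit 111) (nat_lit 94) (nat_lit 6) (nat_lit 8) (nat_lit 9) L316522 (by decide +kernel)
theorem L1129485 : W_1 (nat_lit 2) (nat_lit 0x200010003e0006000000000000000000000000000) (nat_lit 0x0) (nat_lit 0xe000000000000000000000000000000000000) := D_1 (nat_lit 146) (nat_lit 145) (nat_lit 147) (nat_lit 3) (nat_lit 6) (nat_lit 7) (nat_lit 3) (nat_lit 7) (nat_lit 7) (by decide +kernel)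
theorem L1129486 : W_1 (nat_lit 3) (nat_lit 0x200010001e0006000000000000000000000000000) (nat_lit 0x0) (nat_lit 0xe000600000000000000000000000000000000) := T_1 (nat_lit 129) (nat_lit 130) (nat_lit 0) (nat_lit 11) (nat_lit 7) L1129485 (by decide +kernel)
theorem L1129487 : W_1 (nat_lit 4) (nat_lit 0x200010001e0004000000000000000000000000000) (nat_lit 0x0) (nat_lit 0xe000600002000100000000000000000000000) := T_1 (nat_lit 109) (nat_lit 92) (nat_lit 4) (nat_lit 8) (nat_lit 9) L1129486 (by decide +kernel)
theorem L1130177 : W_1 (nat_lit 2) (nat_lit 0x300034001e0007000080004000000000000000000) (nat_lit 0x0) (nat_lit 0x40002000100000000000000) := D_1 (nat_lit 73) (nat_lit 90) (nat_lit 56) (nat_lit 4) (nat_lit 6) (nat_lit 8) (nat_lit 4) (nat_lit 6) (nat_lit 7) (by decide +kernel)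
theorem L1130178 : W_1 (nat_lit 3) (nat_lit 0x300034001e0007000080000000000000000000000) (nat_lit 0x0) (nat_lit 0x40006000300000000000000) := T_1 (nat_lit 74) (nat_lit 57) (nat_lit 7) (nat_lit 6) (nat_lit 3) L1130177 (by decide +kernel)
theorem L1130179 : W_1 (nat_lit 4) (nat_lit 0x300034001e0007000000000000000000000000000) (nat_lit 0x0) (nat_lit 0x8000000000000c0006000300000000000000) := T_1 (nat_lit 91) (nat_lit 143) (nat_lit 7) (nat_lit 6) (nat_lit 5) L1130178 (by decide +kernel)
theorem L1130180 : W_1 (nat_lit 5) (nat_lit 0x200034001e0007000000000000000000000000000) (nat_lit 0x0) (nat_lit 0x2000100008000000000000c0006000300000000000000) := T_1 (nat_lit 160) (nat_lit 177) (nat_lit 5) (nat_lit 8) (nat_lit 6) L1130179 (by decide +kernel)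
theorem L1130181 : W_1 (nat_lit 6) (nat_lit 0x200030001e0007000000000000000000000000000) (nat_lit 0x0) (nat_lit 0x200010000e000000000000c0006000300000000000000) := T_1 (nat_lit 142) (nat_lit 141) (nat_lit 1) (nat_lit 9) (nat_lit 7) L1130180 (by decide +kernel)
theorem L1130182 : W_1 (nat_lit 7) (nat_lit 0x200010001e0007000000000000000000000000000) (nat_lit 0x0) (nat_lit 0x200010006e000000000000c0006000300000000000000) := T_1 (nat_lit 145) (nat_lit 146) (nat_lit 3) (nat_lit 6) (nat_lit 7) L1130181 (by decide +kernel)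
theorem L1130183 : W_1 (nat_lit 8) (nat_lit 0x200010001e0006000000000000000000000000000) (nat_lit 0x0) (nat_lit 0x200010006e000000018000c0006000300000000000000) := T_1 (nat_lit 108) (nat_lit 107) (nat_lit 3) (nat_lit 5) (nat_lit 6) L1130182 (by decide +kernel)
theorem L1130184 : W_1 (nat_lit 9) (nat_lit 0x200010001e0004000000000000000000000000000) (nat_lit 0x0) (nat_lit 0x200010006e000000038001c0006000300000000000000) := T_1 (nat_lit 109) (nat_lit 92) (nat_lit 4) (nat_lit 8) (nat_lit 9) L1130183 (by decide +kernel)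
theorem L1130185 : W_1 (nat_lit 10) (nat_lit 0x200010000e0004000000000000000000000000000) (nat_lit 0x0) (nat_lit 0x20001003ee00f000738001c0006000300000000000000) := Q_1 (nat_lit 128) (C_1 L102264 (C_1 L1129487 (C_1 L1130184 (C_1 L102292 (C_1 L182193 N_1))))) (by decide +kernel)
theorem L1130186 : W_1 (nat_lit 11) (nat_lit 0x200010000c0004000000000000000000000000000) (nat_lit 0x0) (nat_lit 0x20001003ef00f38073e001c0006000300000000000000) := Q_1 (nat_lit 125) (C_1 L102440 (C_1 L1129463 (C_1 L102257 (C_1 L1130185 N_1)))) (by decide +kernel)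
theorem L1130377 : W_1 (nat_lit 2) (nat_lit 0x300014001e0005000000000000000000000000000) (nat_lit 0x0) (nat_lit 0x800200000000080000000000000000000000) := D_1 (nat_lit 143) (nat_lit 129) (nat_lit 91) (nat_lit 1) (nat_lit 10) (nat_lit 7) (nat_lit 7) (nat_lit 6) (nat_lit 5) (by decide +kernel)
theorem L1130378 : W_1 (nat_lit 3) (nat_lit 0x300014001e0004000000000000000000000000000) (nat_lit 0x0) (nat_lit 0x800200001800080000000000000000000000) := T_1 (nat_lit 108) (nat_lit 107) (nat_lit 0) (nat_lit 9) (nat_lit 7) L1130377 (by decide +kernel)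
theorem L1130379 : W_1 (nat_lit 4) (nat_lit 0x300010001e0004000000000000000000000000000) (nat_lit 0x0) (nat_lit 0xe00200001800080000000000000000000000) := T_1 (nat_lit 142) (nat_lit 141) (nat_lit 1) (nat_lit 9) (nat_lit 7) L1130378 (by decide +kernel)
theorem L1130380 : W_1 (nat_lit 5) (nat_lit 0x200010001e0004000000000000000000000000000) (nat_lit 0x0) (nat_lit 0x200010000e00200001800080000000000000000000000) := T_1 (nat_lit 160) (nat_lit 177) (nat_lit 5) (nat_lit 8) (nat_lit 6) L1130379 (by decide +kernel)
theorem L1130567 : W_1 (nat_lit 4) (nat_lit 0x20001000180004000000000000000000000000000) (nat_lit 0x0) (nat_lit 0x640003800100000000000000000000000) := T_1 (nat_lit 109) (nat_lit 92) (nat_lit 4) (nat_lit 8) (nat_lit 9) L104693 (by decide +kernel)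
theorem L1131426 : W_1 (nat_lit 2) (nat_lit 0x30003800180004000000000000000000000000000) (nat_lit 0x0) (nat_lit 0xc004000000000000000000000000000000000000) := D_1 (nat_lit 159) (nat_lit 158) (nat_lit 146) (nat_lit 2) (nat_lit 5) (nat_lit 9) (nat_lit 1) (nat_lit 10) (nat_lit 8) (by decide +kernel)
theorem L1134341 : W_1 (nat_lit 2) (nat_lit 0x20001000380004000000000000000000000000000) (nat_lit 0x0) (nat_lit 0x800400002000000000000000000000000000) := D_1 (nat_lit 130) (nat_lit 143) (nat_lit 109) (nat_lit 1) (nat_lit 11) (nat_lit 7) (nat_lit 0) (nat_lit 11) (nat_lit 7) (by decide +kernel)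
theorem L1134342 : W_1 (nat_lit 4) (nat_lit 0x20005000380004000000000000000000000000000) (nat_lit 0x0) (nat_lit 0x20001000a000040008000400000000000000000000000) := T_1 (nat_lit 111) (nat_lit 94) (nat_lit 6) (nat_lit 8) (nat_lit 9) L612906 (by decide +kernel)
theorem L1134364 : W_1 (nat_lit 2) (nat_lit 0x20005800380004000000000000000000000000000) (nat_lit 0x0) (nat_lit 0x2400040000000000000000000000000000000) := D_1 (nat_lit 142) (nat_lit 145) (nat_lit 126) (nat_lit 2) (nat_lit 6) (nat_lit 8) (nat_lit 1) (nat_lit 10) (nat_lit 7) (by decide +kernel)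
theorem L1134365 : W_1 (nat_lit 2) (nat_lit 0x20005800380004000000000000000000000000000) (nat_lit 0x0) (nat_lit 0x600040000000000000000000000000000000) := D_1 (nat_lit 142) (nat_lit 126) (nat_lit 141) (nat_lit 1) (nat_lit 10) (nat_lit 7) (nat_lit 2) (nat_lit 5) (nat_lit 8) (by decide +kernel)
theorem L1134366 : W_1 (nat_lit 2) (nat_lit 0x3000780038000c000000000000000000000000000) (nat_lit 0x0) (nat_lit 0x1000180000000000000000000000000000000000000000) := D_1 (nat_lit 163) (nat_lit 180) (nat_lit 164) (nat_lit 4) (nat_lit 10) (nat_lit 10) (nat_lit 3) (nat_lit 7) (nat_lit 8) (by decide +kernel)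
theorem L1134367 : W_1 (nat_lit 3) (nat_lit 0x30007800380004000000000000000000000000000) (nat_lit 0x0) (nat_lit 0x1000180000000000008000400000000000000000000000) := T_1 (nat_lit 111) (nat_lit 94) (nat_lit 6) (nat_lit 8) (nat_lit 9) L1134366 (by decide +kernel)
theorem L1134368 : W_1 (nat_lit 4) (nat_lit 0x30005800380004000000000000000000000000000) (nat_lit 0x0) (nat_lit 0x1000188002000000008000400000000000000000000000) := T_1 (nat_lit 145) (nat_lit 159) (nat_lit 1) (nat_lit 10) (nat_lit 8) L1134367 (by decide +kernel)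
theorem L1134369 : W_1 (nat_lit 5) (nat_lit 0x20005800380004000000000000000000000000000) (nat_lit 0x0) (nat_lit 0x1200198002000000008000400000000000000000000000) := T_1 (nat_lit 160) (nat_lit 177) (nat_lit 5) (nat_lit 8) (nat_lit 6) L1134368 (by decide +kernel)
theorem L1134370 : W_1 (nat_lit 6) (nat_lit 0x20005000380004000000000000000000000000000) (nat_lit 0x0) (nat_lit 0x1200198002e00040008000400000000000000000000000) := Q_1 (nat_lit 143) (C_1 L1134364 (C_1 L1134365 (C_1 L1134369 N_1))) (by decide +kernel)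
theorem L1134372 : W_1 (nat_lit 6) (nat_lit 0x20001000380004000000000000000000000000000) (nat_lit 0x0) (nat_lit 0x20001001e000c40008000400000000000000000000000) := T_1 (nat_lit 111) (nat_lit 94) (nat_lit 6) (nat_lit 8) (nat_lit 9) L614044 (by decide +kernel)
theorem L1134382 : W_1 (nat_lit 5) (nat_lit 0x20001000380004000000000000000000000000000) (nat_lit 0x0) (nat_lit 0x38800c000e0000000000000000000000000000) := T_1 (nat_lit 130) (nat_lit 143) (nat_lit 1) (nat_lit 11) (nat_lit 7) L213612 (by decide +kernel)
theorem L1134383 : W_1 (nat_lit 2) (nat_lit 0xa00058003c001c000000000000000000000000000) (nat_lit 0x0) (nat_lit 0x2000100002000000000000000000000000000000000000) := D_1 (nat_lit 164) (nat_lit 145) (nat_lit 181) (nat_lit 3) (nat_lit 7) (nat_lit 8) (nat_lit 7) (nat_lit 10) (nat_lit 6) (by decide +kernel)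
theorem L1134384 : W_1 (nat_lit 3) (nat_lit 0x200058003c001c000000000000000000000000000) (nat_lit 0x0) (nat_lit 0x3000180002000000000000000000000000000000000000) := T_1 (nat_lit 163) (nat_lit 180) (nat_lit 4) (nat_lit 10) (nat_lit 10) L1134383 (by decide +kernel)
theorem L1134385 : W_1 (nat_lit 4) (nat_lit 0x200058003c0014000000000000000000000000000) (nat_lit 0x0) (nat_lit 0x3000180002000000008000400000000000000000000000) := T_1 (nat_lit 111) (nat_lit 94) (nat_lit 6) (nat_lit 8) (nat_lit 9) L1134384 (by decide +kernel)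
theorem L1134386 : W_1 (nat_lit 5) (nat_lit 0x200050003c0014000000000000000000000000000) (nat_lit 0x0) (nat_lit 0x3000180002c00000008000400000000000000000000000) := T_1 (nat_lit 143) (nat_lit 142) (nat_lit 1) (nat_lit 10) (nat_lit 7) L1134385 (by decide +kernel)
theorem L1134387 : W_1 (nat_lit 6) (nat_lit 0x200050003c0004000000000000000000000000000) (nat_lit 0x0) (nat_lit 0x3000180002c00000038000400000000000000000000000) := T_1 (nat_lit 112) (nat_lit 113) (nat_lit 2) (nat_lit 7) (nat_lit 7) L1134386 (by decide +kernel)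
theorem L1134388 : W_1 (nat_lit 7) (nat_lit 0x20005000380004000000000000000000000000000) (nat_lit 0x0) (nat_lit 0x300018000ac00040038000400000000000000000000000) := T_1 (nat_lit 126) (nat_lit 147) (nat_lit 3) (nat_lit 7) (nat_lit 7) L1134387 (by decide +kernel)
theorem L1134389 : W_1 (nat_lit 2) (nat_lit 0x100003000500038003c001000000000000000000000000) (nat_lit 0x0) (nat_lit 0x800080004000000000000000) := D_1 (nat_lit 79) (nat_lit 62) (nat_lit 95) (nat_lit 5) (nat_lit 11) (nat_lit 3) (nat_lit 6) (nat_lit 10) (nat_lit 8) (by decide +kernel)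
theorem L1134390 : W_1 (nat_lit 3) (nat_lit 0x100003000500038003c000000000000000000000000000) (nat_lit 0x0) (nat_lit 0x3800080004000000000000000) := T_1 (nat_lit 96) (nat_lit 97) (nat_lit 2) (nat_lit 8) (nat_lit 6) L1134389 (by decide +kernel)
theorem L1134391 : W_1 (nat_lit 4) (nat_lit 0x100002000500038003c000000000000000000000000000) (nat_lit 0x0) (nat_lit 0x200010000000000000003800080004000000000000000) := T_1 (nat_lit 160) (nat_lit 177) (nat_lit 5) (nat_lit 8) (nat_lit 6) L1134390 (by decide +kernel)
theorem L1134392 : W_1 (nat_lit 5) (nat_lit 0x100002000500038001c000000000000000000000000000) (nat_lit 0x0) (nat_lit 0x200010000000000060003800080004000000000000000) := T_1 (nat_lit 113) (nat_lit 114) (nat_lit 1) (nat_lit 12) (nat_lit 6) L1134391 (by decide +kernel)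
theorem L1134393 : W_1 (nat_lit 6) (nat_lit 0x2000500038001c000000000000000000000000000) (nat_lit 0x0) (nat_lit 0x1200090000000000060003800080004000000000000000) := T_1 (nat_lit 180) (nat_lit 163) (nat_lit 4) (nat_lit 10) (nat_lit 10) L1134392 (by decide +kernel)
theorem L1134394 : W_1 (nat_lit 7) (nat_lit 0x20005000380014000000000000000000000000000) (nat_lit 0x0) (nat_lit 0x1200090000000000068003c00080004000000000000000) := T_1 (nat_lit 111) (nat_lit 94) (nat_lit 6) (nat_lit 8) (nat_lit 9) L1134393 (by decide +kernel)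
theorem L1134395 : W_1 (nat_lit 6) (nat_lit 0x100002000d00038001c000000000000000000000000000) (nat_lit 0x0) (nat_lit 0x2001100300000000000018000c0006000000000000000) := T_1 (nat_lit 160) (nat_lit 177) (nat_lit 5) (nat_lit 8) (nat_lit 6) L606589 (by decide +kernel)
theorem L1134396 : W_1 (nat_lit 7) (nat_lit 0x100002000500038001c000000000000000000000000000) (nat_lit 0x0) (nat_lit 0x2001100380000400000018000c0006000000000000000) := T_1 (nat_lit 147) (nat_lit 126) (nat_lit 3) (nat_lit 7) (nat_lit 7) L1134395 (by decide +kernel)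
theorem L1134397 : W_1 (nat_lit 8) (nat_lit 0x2000500038001c000000000000000000000000000) (nat_lit 0x0) (nat_lit 0x12001900380000400000018000c0006000000000000000) := T_1 (nat_lit 180) (nat_lit 163) (nat_lit 4) (nat_lit 10) (nat_lit 10) L1134396 (by decide +kernel)
theorem L1134398 : W_1 (nat_lit 9) (nat_lit 0x20005000380014000000000000000000000000000) (nat_lit 0x0) (nat_lit 0x1200190038000040008001c000c0006000000000000000) := T_1 (nat_lit 111) (nat_lit 94) (nat_lit 6) (nat_lit 8) (nat_lit 9) L1134397 (by decide +kernel)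
theorem L1134399 : W_1 (nat_lit 10) (nat_lit 0x20005000380004000000000000000000000000000) (nat_lit 0x0) (nat_lit 0x1200190038000040078003c000c0006000000000000000) := Q_1 (nat_lit 112) (C_1 L213677 (C_1 L1134394 (C_1 L1134398 N_1))) (by decide +kernel)
theorem L1134400 : W_1 (nat_lit 11) (nat_lit 0x20001000380004000000000000000000000000000) (nat_lit 0x0) (nat_lit 0x320019803ee00040078003c000c0006000000000000000) := Q_1 (nat_lit 146) (C_1 L1134342 (C_1 L1134388 (C_1 L1134399 (C_1 L1118135 (C_1 L1134370 N_1))))) (by decide +kernel)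
theorem L1134401 : W_1 (nat_lit 2) (nat_lit 0x2000100038000c000000000000000000000000000) (nat_lit 0x0) (nat_lit 0x800c00000000000000000000000000000000) := D_1 (nat_lit 130) (nat_lit 131) (nat_lit 143) (nat_lit 0) (nat_lit 12) (nat_lit 7) (nat_lit 1) (nat_lit 11) (nat_lit 7) (by decide +kernel)
theorem L1134402 : W_1 (nat_lit 3) (nat_lit 0x20001000380004000000000000000000000000000) (nat_lit 0x0) (nat_lit 0x800c00008000400000000000000000000000) := T_1 (nat_lit 111) (nat_lit 94) (nat_lit 6) (nat_lit 8) (nat_lit 9) L1134401 (by decide +kernel)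
theorem L1134405 : W_1 (nat_lit 10) (nat_lit 0x200010000e0004000000000000000000000000000) (nat_lit 0x0) (nat_lit 0x20001000ee007000038001c0006000300000000000000) := Q_1 (nat_lit 128) (C_1 L1129487 (C_1 L1130380 (C_1 L1130184 N_1))) (by decide +kernel)
theorem L1134406 : W_1 (nat_lit 11) (nat_lit 0x200010000c0004000000000000000000000000000) (nat_lit 0x0) (nat_lit 0x20001000ef00738003e001c0006000300000000000000) := Q_1 (nat_lit 125) (C_1 L1129463 (C_1 L102440 (C_1 L102257 (C_1 L1134405 N_1)))) (by decide +kernel)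
theorem L1134407 : W_1 (nat_lit 12) (nat_lit 0x20001000080004000000000000000000000000000) (nat_lit 0x0) (nat_lit 0x20001003ef00f7807be01de0006000300000000000000) := Q_1 (nat_lit 126) (C_1 L318 (C_1 L1130186 (C_1 L1129480 (C_1 L1129479 (C_1 L1134406 N_1))))) (by decide +kernel)
theorem L1136827 : W_1 (nat_lit 2) (nat_lit 0x2800fc001a0004000400000000000000000000000) (nat_lit 0x0) (nat_lit 0x380000000000000000000000000000000000000000) := D_1 (nat_lit 164) (nat_lit 163) (nat_lit 165) (nat_lit 3) (nat_lit 7) (nat_lit 8) (nat_lit 3) (nat_lit 8) (nat_lit 8) (by decide +kernel)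
theorem L1136828 : W_1 (nat_lit 3) (nat_lit 0x28007c001a0004000400000000000000000000000) (nat_lit 0x0) (nat_lit 0x380018000000000000000000000000000000000000) := T_1 (nat_lit 147) (nat_lit 148) (nat_lit 0) (nat_lit 12) (nat_lit 8) L1136827 (by decide +kernel)
theorem L1136829 : W_1 (nat_lit 4) (nat_lit 0x28003c001a0004000400000000000000000000000) (nat_lit 0x0) (nat_lit 0x38001c000040000000000000000000000000000000) := T_1 (nat_lit 146) (nat_lit 126) (nat_lit 3) (nat_lit 6) (nat_lit 7) L1136828 (by decide +kernel)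
theorem L1136830 : W_1 (nat_lit 5) (nat_lit 0x28003c00180004000400000000000000000000000) (nat_lit 0x0) (nat_lit 0x38001c000070000000000000000000000000000000) := T_1 (nat_lit 125) (nat_lit 124) (nat_lit 0) (nat_lit 9) (nat_lit 8) L1136829 (by decide +kernel)
theorem L1136843 : W_1 (nat_lit 2) (nat_lit 0x38003c001a0005000000000000000000000000000) (nat_lit 0x0) (nat_lit 0x40000800040000000000000000000000) := D_1 (nat_lit 107) (nat_lit 90) (nat_lit 126) (nat_lit 4) (nat_lit 6) (nat_lit 9) (nat_lit 0) (nat_lit 9) (nat_lit 7) (by decide +kernel)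
theorem L1136844 : W_1 (nat_lit 3) (nat_lit 0x38003c001a0004000000000000000000000000000) (nat_lit 0x0) (nat_lit 0x400018000c0000000000000000000000) := T_1 (nat_lit 108) (nat_lit 91) (nat_lit 7) (nat_lit 6) (nat_lit 5) L1136843 (by decide +kernel)
theorem L1136898 : W_1 (nat_lit 2) (nat_lit 0x30003c001a0004000000000000000000000000000) (nat_lit 0x0) (nat_lit 0xc000040000000000000000000000000000000) := D_1 (nat_lit 146) (nat_lit 147) (nat_lit 126) (nat_lit 1) (nat_lit 11) (nat_lit 8) (nat_lit 3) (nat_lit 6) (nat_lit 7) (by decide +kernel)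
theorem L1136899 : W_1 (nat_lit 3) (nat_lit 0x30003c00180004000000000000000000000000000) (nat_lit 0x0) (nat_lit 0xc000070000000000000000000000000000000) := T_1 (nat_lit 125) (nat_lit 124) (nat_lit 0) (nat_lit 9) (nat_lit 8) L1136898 (by decide +kernel)
theorem L1137049 : W_1 (nat_lit 2) (nat_lit 0x300078003c000c000000000000000000000000000) (nat_lit 0x0) (nat_lit 0x1000180000000000000000000000000000000000000000) := D_1 (nat_lit 163) (nat_lit 180) (nat_lit 164) (nat_lit 4) (nat_lit 10) (nat_lit 10) (nat_lit 3) (nat_lit 7) (nat_lit 8) (by decide +kernel)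
theorem L1137050 : W_1 (nat_lit 3) (nat_lit 0x300078003c0004000000000000000000000000000) (nat_lit 0x0) (nat_lit 0x1000180000000000008000400000000000000000000000) := T_1 (nat_lit 111) (nat_lit 94) (nat_lit 6) (nat_lit 8) (nat_lit 9) L1137049 (by decide +kernel)
theorem L1137051 : W_1 (nat_lit 4) (nat_lit 0x300058003c0004000000000000000000000000000) (nat_lit 0x0) (nat_lit 0x1000188002000000008000400000000000000000000000) := T_1 (nat_lit 145) (nat_lit 159) (nat_lit 1) (nat_lit 10) (nat_lit 8) L1137050 (by decide +kernel)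
theorem L1137052 : W_1 (nat_lit 5) (nat_lit 0x300018003c0004000000000000000000000000000) (nat_lit 0x0) (nat_lit 0x100018800e000000008000400000000000000000000000) := T_1 (nat_lit 146) (nat_lit 147) (nat_lit 3) (nat_lit 7) (nat_lit 7) L1137051 (by decide +kernel)
theorem L1137053 : W_1 (nat_lit 6) (nat_lit 0x200018003c0004000000000000000000000000000) (nat_lit 0x0) (nat_lit 0x120019800e000000008000400000000000000000000000) := T_1 (nat_lit 160) (nat_lit 177) (nat_lit 6) (nat_lit 7) (nat_lit 10) L1137052 (by decide +kernel)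
theorem L1139014 : W_1 (nat_lit 2) (nat_lit 0x200010003e000c000000000000000000000000000) (nat_lit 0x0) (nat_lit 0xe000000000000000000000000000000000000) := D_1 (nat_lit 146) (nat_lit 147) (nat_lit 145) (nat_lit 3) (nat_lit 7) (nat_lit 7) (nat_lit 3) (nat_lit 6) (nat_lit 7) (by decide +kernel)
theorem L1139015 : W_1 (nat_lit 3) (nat_lit 0x200010003c000c000000000000000000000000000) (nat_lit 0x0) (nat_lit 0xe000030000000000000000000000000000000) := T_1 (nat_lit 125) (nat_lit 124) (nat_lit 2) (nat_lit 5) (nat_lit 7) L1139014 (by decide +kernel)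
theorem L1139016 : W_1 (nat_lit 4) (nat_lit 0x200010003c0004000000000000000000000000000) (nat_lit 0x0) (nat_lit 0xe000030008000400000000000000000000000) := T_1 (nat_lit 111) (nat_lit 94) (nat_lit 6) (nat_lit 8) (nat_lit 9) L1139015 (by decide +kernel)
theorem L1139017 : W_1 (nat_lit 2) (nat_lit 0x200054003c000c000000000000000000000000000) (nat_lit 0x0) (nat_lit 0x200030000000000000000000000000000000) := D_1 (nat_lit 125) (nat_lit 141) (nat_lit 124) (nat_lit 1) (nat_lit 9) (nat_lit 7) (nat_lit 2) (nat_lit 5) (nat_lit 7) (by decide +kernel)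
theorem L1139018 : W_1 (nat_lit 3) (nat_lit 0x200054003c0004000000000000000000000000000) (nat_lit 0x0) (nat_lit 0x200030008000400000000000000000000000) := T_1 (nat_lit 111) (nat_lit 94) (nat_lit 6) (nat_lit 8) (nat_lit 9) L1139017 (by decide +kernel)
theorem L1139019 : W_1 (nat_lit 4) (nat_lit 0x200050003c0004000000000000000000000000000) (nat_lit 0x0) (nat_lit 0xe00030008000400000000000000000000000) := T_1 (nat_lit 142) (nat_lit 143) (nat_lit 1) (nat_lit 10) (nat_lit 7) L1139018 (by decide +kernel)
theorem L1139020 : W_1 (nat_lit 5) (nat_lit 0x200010003c0004000000000000000000000000000) (nat_lit 0x0) (nat_lit 0xce00030008000400000000000000000000000) := T_1 (nat_lit 146) (nat_lit 147) (nat_lit 3) (nat_lit 7) (nat_lit 7) L1139019 (by decide +kernel)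
theorem L1139028 : W_1 (nat_lit 7) (nat_lit 0x200010003c0004000000000000000000000000000) (nat_lit 0x0) (nat_lit 0x120019800ec00000008000400000000000000000000000) := T_1 (nat_lit 143) (nat_lit 142) (nat_lit 1) (nat_lit 10) (nat_lit 7) L1137053 (by decide +kernel)
theorem L1139040 : W_1 (nat_lit 3) (nat_lit 0x20003800180004000000000000000000000000000) (nat_lit 0x0) (nat_lit 0x20001c004000000000000000000000000000000000000) := T_1 (nat_lit 160) (nat_lit 177) (nat_lit 5) (nat_lit 8) (nat_lit 6) L1131426 (by decide +kernel)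
theorem L1139098 : W_1 (nat_lit 4) (nat_lit 0x28003c001a0004000000000000000000000000000) (nat_lit 0x0) (nat_lit 0x2000100000000400018000c0000000000000000000000) := T_1 (nat_lit 160) (nat_lit 177) (nat_lit 5) (nat_lit 8) (nat_lit 6) L1136844 (by decide +kernel)
theorem L1139099 : W_1 (nat_lit 5) (nat_lit 0x28003c00180004000000000000000000000000000) (nat_lit 0x0) (nat_lit 0x2000100000000700018000c0000000000000000000000) := T_1 (nat_lit 125) (nat_lit 124) (nat_lit 0) (nat_lit 9) (nat_lit 8) L1139098 (by decide +kernel)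
theorem L1139100 : W_1 (nat_lit 6) (nat_lit 0x20003c00180004000000000000000000000000000) (nat_lit 0x0) (nat_lit 0x20001c0000000700018000c0000000000000000000000) := T_1 (nat_lit 159) (nat_lit 158) (nat_lit 1) (nat_lit 9) (nat_lit 8) L1139099 (by decide +kernel)
theorem L1139136 : W_1 (nat_lit 2) (nat_lit 0x300050003e0004000000000000000000000000000) (nat_lit 0x0) (nat_lit 0xe00000000000000000000000000000000000) := D_1 (nat_lit 142) (nat_lit 141) (nat_lit 143) (nat_lit 1) (nat_lit 9) (nat_lit 7) (nat_lit 1) (nat_lit 10) (nat_lit 7) (by decide +kernel)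
theorem L1139137 : W_1 (nat_lit 3) (nat_lit 0x300050003c0004000000000000000000000000000) (nat_lit 0x0) (nat_lit 0x2e00020000000000000000000000000000000) := T_1 (nat_lit 125) (nat_lit 145) (nat_lit 3) (nat_lit 6) (nat_lit 7) L1139136 (by decide +kernel)
theorem L1139138 : W_1 (nat_lit 4) (nat_lit 0x300010003c0004000000000000000000000000000) (nat_lit 0x0) (nat_lit 0xee00020000000000000000000000000000000) := T_1 (nat_lit 146) (nat_lit 147) (nat_lit 3) (nat_lit 7) (nat_lit 7) L1139137 (by decide +kernel)
theorem L1139139 : W_1 (nat_lit 5) (nat_lit 0x200010003c0004000000000000000000000000000) (nat_lit 0x0) (nat_lit 0x20001000ee00020000000000000000000000000000000) := T_1 (nat_lit 160) (nat_lit 177) (nat_lit 5) (nat_lit 8) (nat_lit 6) L1139138 (by decide +kernel)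
theorem L1139140 : W_1 (nat_lit 2) (nat_lit 0x300014003e0004000000000000000000000000000) (nat_lit 0x0) (nat_lit 0x10008000400000000000000000000000) := D_1 (nat_lit 111) (nat_lit 94) (nat_lit 124) (nat_lit 6) (nat_lit 8) (nat_lit 9) (nat_lit 2) (nat_lit 5) (nat_lit 7) (by decide +kernel)
theorem L1139141 : W_1 (nat_lit 3) (nat_lit 0x300014003c0004000000000000000000000000000) (nat_lit 0x0) (nat_lit 0x200030008000400000000000000000000000) := T_1 (nat_lit 125) (nat_lit 141) (nat_lit 1) (nat_lit 9) (nat_lit 7) L1139140 (by decide +kernel)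
theorem L1139142 : W_1 (nat_lit 4) (nat_lit 0x200014003c0004000000000000000000000000000) (nat_lit 0x0) (nat_lit 0x200010000200030008000400000000000000000000000) := T_1 (nat_lit 160) (nat_lit 177) (nat_lit 5) (nat_lit 8) (nat_lit 6) L1139141 (by decide +kernel)
theorem L1139143 : W_1 (nat_lit 5) (nat_lit 0x200010003c0004000000000000000000000000000) (nat_lit 0x0) (nat_lit 0x200010000e00030008000400000000000000000000000) := T_1 (nat_lit 142) (nat_lit 143) (nat_lit 1) (nat_lit 10) (nat_lit 7) L1139142 (by decide +kernel)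
theorem L1139144 : W_1 (nat_lit 8) (nat_lit 0x20001000380004000000000000000000000000000) (nat_lit 0x0) (nat_lit 0x120019800ee00070008000400000000000000000000000) := Q_1 (nat_lit 126) (C_1 L1139016 (C_1 L1139028 (C_1 L1139020 (C_1 L1139139 (C_1 L1139143 N_1))))) (by decide +kernel)
theorem L1139147 : W_1 (nat_lit 2) (nat_lit 0x3000180018000f000080000000000000000000000) (nat_lit 0x0) (nat_lit 0x600020000000000000000000000000000000) := D_1 (nat_lit 142) (nat_lit 141) (nat_lit 125) (nat_lit 2) (nat_lit 5) (nat_lit 8) (nat_lit 7) (nat_lit 6) (nat_lit 5) (by decide +kernel)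
theorem L1139148 : W_1 (nat_lit 3) (nat_lit 0x3000100018000f000080000000000000000000000) (nat_lit 0x0) (nat_lit 0xe00060000000000000000000000000000000) := T_1 (nat_lit 143) (nat_lit 126) (nat_lit 4) (nat_lit 7) (nat_lit 9) L1139147 (by decide +kernel)
theorem L1139149 : W_1 (nat_lit 4) (nat_lit 0x3000100018000f000000000000000000000000000) (nat_lit 0x0) (nat_lit 0xe000600000000c0000000000000000000000) := T_1 (nat_lit 91) (nat_lit 90) (nat_lit 0) (nat_lit 9) (nat_lit 6) L1139148 (by decide +kernel)
theorem L1139150 : W_1 (nat_lit 5) (nat_lit 0x2000100018000f000000000000000000000000000) (nat_lit 0x0) (nat_lit 0x200010000e000600000000c0000000000000000000000) := T_1 (nat_lit 160) (nat_lit 177) (nat_lit 5) (nat_lit 8) (nat_lit 6) L1139149 (by decide +kernel)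
theorem L1139151 : W_1 (nat_lit 6) (nat_lit 0x2000100018000e000000000000000000000000000) (nat_lit 0x0) (nat_lit 0x200010000e000600018000c0000000000000000000000) := T_1 (nat_lit 108) (nat_lit 107) (nat_lit 3) (nat_lit 5) (nat_lit 6) L1139150 (by decide +kernel)
theorem L1139152 : W_1 (nat_lit 7) (nat_lit 0x2000100018000c000000000000000000000000000) (nat_lit 0x0) (nat_lit 0x200010000e000600038001c0000000000000000000000) := T_1 (nat_lit 109) (nat_lit 92) (nat_lit 4) (nat_lit 8) (nat_lit 9) L1139151 (by decide +kernel)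
theorem L1139153 : W_1 (nat_lit 8) (nat_lit 0x20001000180004000000000000000000000000000) (nat_lit 0x0) (nat_lit 0x200010000e0006000b8005c0000000000000000000000) := T_1 (nat_lit 111) (nat_lit 94) (nat_lit 6) (nat_lit 8) (nat_lit 9) L1139152 (by decide +kernel)
theorem L1141352 : W_1 (nat_lit 2) (nat_lit 0x30001c00180004000000000000000000000000000) (nat_lit 0x0) (nat_lit 0x2000600000000000000000000000000000000) := D_1 (nat_lit 129) (nat_lit 130) (nat_lit 145) (nat_lit 1) (nat_lit 11) (nat_lit 7) (nat_lit 2) (nat_lit 6) (nat_lit 8) (by decide +kernel)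
theorem L1141353 : W_1 (nat_lit 3) (nat_lit 0x30001800180004000000000000000000000000000) (nat_lit 0x0) (nat_lit 0x2600600000000000000000000000000000000) := T_1 (nat_lit 142) (nat_lit 141) (nat_lit 2) (nat_lit 5) (nat_lit 8) L1141352 (by decide +kernel)
theorem L1141354 : W_1 (nat_lit 4) (nat_lit 0x20001800180004000000000000000000000000000) (nat_lit 0x0) (nat_lit 0x200010002600600000000000000000000000000000000) := T_1 (nat_lit 160) (nat_lit 177) (nat_lit 5) (nat_lit 8) (nat_lit 6) L1141353 (by decide +kernel)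
theorem L1141355 : W_1 (nat_lit 2) (nat_lit 0x200018001c000c000000000000000000000000000) (nat_lit 0x0) (nat_lit 0x30010000000000000000000000000000) := D_1 (nat_lit 125) (nat_lit 112) (nat_lit 124) (nat_lit 2) (nat_lit 6) (nat_lit 7) (nat_lit 2) (nat_lit 5) (nat_lit 7) (by decide +kernel)
theorem L1141356 : W_1 (nat_lit 3) (nat_lit 0x200018001c0004000000000000000000000000000) (nat_lit 0x0) (nat_lit 0x30018000400000000000000000000000) := T_1 (nat_lit 111) (nat_lit 94) (nat_lit 6) (nat_lit 8) (nat_lit 9) L1141355 (by decide +kernel)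
theorem L1145078 : W_1 (nat_lit 2) (nat_lit 0x20001c00180004000000000000000000000000000) (nat_lit 0x0) (nat_lit 0x640000000000000000000000000000000) := D_1 (nat_lit 129) (nat_lit 126) (nat_lit 130) (nat_lit 1) (nat_lit 10) (nat_lit 7) (nat_lit 1) (nat_lit 11) (nat_lit 7) (by decide +kernel)
theorem L1145413 : W_1 (nat_lit 2) (nat_lit 0x30003c00080004000000000000000000000000000) (nat_lit 0x0) (nat_lit 0xc004000000000000000000000000000000000000) := D_1 (nat_lit 159) (nat_lit 158) (nat_lit 146) (nat_lit 2) (nat_lit 5) (nat_lit 9) (nat_lit 1) (nat_lit 10) (nat_lit 8) (by decide +kernel)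
theorem L1147140 : W_1 (nat_lit 2) (nat_lit 0x38001c00080004000000000000000000000000000) (nat_lit 0x0) (nat_lit 0x300100000000000000000000000000000000) := D_1 (nat_lit 141) (nat_lit 140) (nat_lit 128) (nat_lit 3) (nat_lit 4) (nat_lit 8) (nat_lit 2) (nat_lit 5) (nat_lit 8) (by decide +kernel)
theorem L1153597 : W_1 (nat_lit 2) (nat_lit 0x12000fc000a0004000000000000000000000000000) (nat_lit 0x0) (nat_lit 0x10000300000000000000000000000000000000) := D_1 (nat_lit 128) (nat_lit 148) (nat_lit 129) (nat_lit 0) (nat_lit 12) (nat_lit 8) (nat_lit 2) (nat_lit 6) (nat_lit 8) (by decide +kernel)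
theorem L1153598 : W_1 (nat_lit 3) (nat_lit 0x120007c000a0004000000000000000000000000000) (nat_lit 0x0) (nat_lit 0x200018000300000000000000000000000000000000) := T_1 (nat_lit 147) (nat_lit 165) (nat_lit 3) (nat_lit 8) (nat_lit 8) L1153597 (by decide +kernel)
theorem L1153599 : W_1 (nat_lit 4) (nat_lit 0x120007c00080004000000000000000000000000000) (nat_lit 0x0) (nat_lit 0x200018000330000000000000000000000000000000) := T_1 (nat_lit 125) (nat_lit 124) (nat_lit 0) (nat_lit 9) (nat_lit 8) L1153598 (by decide +kernel)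
theorem L1153600 : W_1 (nat_lit 5) (nat_lit 0x20007c00080004000000000000000000000000000) (nat_lit 0x0) (nat_lit 0x380018000330000000000000000000000000000000) := T_1 (nat_lit 164) (nat_lit 163) (nat_lit 3) (nat_lit 7) (nat_lit 8) L1153599 (by decide +kernel)
theorem L1153601 : W_1 (nat_lit 8) (nat_lit 0x20003c00080004000000000000000000000000000) (nat_lit 0x0) (nat_lit 0x38c01c001f30000000000000000000000000000000) := Q_1 (nat_lit 146) (C_1 L1124469 (C_1 L1122688 (C_1 L1122694 (C_1 L1153600 N_1)))) (by decide +kernel)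
theorem L1157848 : W_1 (nat_lit 5) (nat_lit 0x38001000080004000000000000000000000000000) (nat_lit 0x0) (nat_lit 0xe0006002380000000000000000000000000000000000) := T_1 (nat_lit 158) (nat_lit 145) (nat_lit 2) (nat_lit 5) (nat_lit 9) L116878 (by decide +kernel)
theorem L1158808 : W_1 (nat_lit 2) (nat_lit 0x1000080006000100000000000000000000000) (nat_lit 0x0) (nat_lit 0x40000000000008000400000000000000) := D_1 (nat_lit 75) (nat_lit 58) (nat_lit 126) (nat_lit 7) (nat_lit 7) (nat_lit 3) (nat_lit 7) (nat_lit 7) (nat_lit 4) (by decide +kernel)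
theorem L1158809 : W_1 (nat_lit 3) (nat_lit 0x1000080006000000000000000000000000000) (nat_lit 0x0) (nat_lit 0x20000000040000000100008000400000000000000) := T_1 (nat_lit 92) (nat_lit 161) (nat_lit 4) (nat_lit 8) (nat_lit 9) L1158808 (by decide +kernel)
theorem L1158810 : W_1 (nat_lit 2) (nat_lit 0x100008001f000480000000000000000000000) (nat_lit 0x0) (nat_lit 0x70000000000000000000000000000000) := D_1 (nat_lit 125) (nat_lit 124) (nat_lit 126) (nat_lit 1) (nat_lit 9) (nat_lit 6) (nat_lit 1) (nat_lit 10) (nat_lit 6) (by decide +kernel)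
theorem L1158811 : W_1 (nat_lit 3) (nat_lit 0x100008000f000480000000000000000000000) (nat_lit 0x0) (nat_lit 0x70010000100000000000000000000000) := T_1 (nat_lit 112) (nat_lit 92) (nat_lit 0) (nat_lit 10) (nat_lit 6) L1158810 (by decide +kernel)
theorem L1158812 : W_1 (nat_lit 4) (nat_lit 0x100008000f000080000000000000000000000) (nat_lit 0x0) (nat_lit 0x70010000d00000000000000000000000) := T_1 (nat_lit 94) (nat_lit 95) (nat_lit 2) (nat_lit 6) (nat_lit 6) L1158811 (by decide +kernel)
theorem L1158813 : W_1 (nat_lit 5) (nat_lit 0x100008000f000000000000000000000000000) (nat_lit 0x0) (nat_lit 0x70010000dc0000000000000000000000) := T_1 (nat_lit 91) (nat_lit 90) (nat_lit 0) (nat_lit 9) (nat_lit 6) L1158812 (by decide +kernel)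
theorem L1158814 : W_1 (nat_lit 2) (nat_lit 0x10000a000f000580000001000000000000000) (nat_lit 0x0) (nat_lit 0x400000000000000008000400000000000000) := D_1 (nat_lit 75) (nat_lit 58) (nat_lit 142) (nat_lit 7) (nat_lit 7) (nat_lit 3) (nat_lit 6) (nat_lit 6) (nat_lit 8) (by decide +kernel)
theorem L1158815 : W_1 (nat_lit 3) (nat_lit 0x100008000f000580000001000000000000000) (nat_lit 0x0) (nat_lit 0x400030000000000008000400000000000000) := T_1 (nat_lit 125) (nat_lit 124) (nat_lit 1) (nat_lit 9) (nat_lit 6) L1158814 (by decide +kernel)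
theorem L1158816 : W_1 (nat_lit 4) (nat_lit 0x100008000f000480000001000000000000000) (nat_lit 0x0) (nat_lit 0x400030010000100008000400000000000000) := T_1 (nat_lit 92) (nat_lit 112) (nat_lit 0) (nat_lit 10) (nat_lit 6) L1158815 (by decide +kernel)
theorem L1158817 : W_1 (nat_lit 5) (nat_lit 0x100008000f000480000000000000000000000) (nat_lit 0x0) (nat_lit 0x400030010000100028001400000000000000) := T_1 (nat_lit 60) (nat_lit 77) (nat_lit 5) (nat_lit 9) (nat_lit 3) L1158816 (by decide +kernel)
theorem L1158818 : W_1 (nat_lit 6) (nat_lit 0x100008000f000400000000000000000000000) (nat_lit 0x0) (nat_lit 0x4000300100001c0028001400000000000000) := T_1 (nat_lit 91) (nat_lit 90) (nat_lit 0) (nat_lit 9) (nat_lit 6) L1158817 (by decide +kernel)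
theorem L1158819 : W_1 (nat_lit 7) (nat_lit 0x100008000f000000000000000000000000000) (nat_lit 0x0) (nat_lit 0x400030010000dc0028001400000000000000) := T_1 (nat_lit 94) (nat_lit 95) (nat_lit 2) (nat_lit 6) (nat_lit 6) L1158818 (by decide +kernel)
theorem L1158820 : W_1 (nat_lit 2) (nat_lit 0x100048001f000480000001000000000000000) (nat_lit 0x0) (nat_lit 0x840020000000000000000000000000000) := D_1 (nat_lit 113) (nat_lit 126) (nat_lit 131) (nat_lit 1) (nat_lit 11) (nat_lit 6) (nat_lit 3) (nat_lit 8) (nat_lit 6) (by decide +kernel)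
theorem L1158821 : W_1 (nat_lit 3) (nat_lit 0x100008001f000480000001000000000000000) (nat_lit 0x0) (nat_lit 0xe40020000000000000000000000000000) := T_1 (nat_lit 130) (nat_lit 129) (nat_lit 3) (nat_lit 7) (nat_lit 6) L1158820 (by decide +kernel)
theorem L1158822 : W_1 (nat_lit 4) (nat_lit 0x100008001f000480000000000000000000000) (nat_lit 0x0) (nat_lit 0xe40020000000020001000000000000000) := T_1 (nat_lit 60) (nat_lit 77) (nat_lit 5) (nat_lit 9) (nat_lit 3) L1158821 (by decide +kernel)
theorem L1158823 : W_1 (nat_lit 5) (nat_lit 0x100008000f000480000000000000000000000) (nat_lit 0x0) (nat_lit 0xe40030000100020001000000000000000) := T_1 (nat_lit 112) (nat_lit 92) (nat_lit 0) (nat_lit 10) (nat_lit 6) L1158822 (by decide +kernel)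
theorem L1158824 : W_1 (nat_lit 6) (nat_lit 0x100008000f000080000000000000000000000) (nat_lit 0x0) (nat_lit 0xe40030000d00020001000000000000000) := T_1 (nat_lit 94) (nat_lit 95) (nat_lit 2) (nat_lit 6) (nat_lit 6) L1158823 (by decide +kernel)
theorem L1158825 : W_1 (nat_lit 7) (nat_lit 0x100008000f000000000000000000000000000) (nat_lit 0x0) (nat_lit 0xe40030000dc0020001000000000000000) := T_1 (nat_lit 91) (nat_lit 90) (nat_lit 0) (nat_lit 9) (nat_lit 6) L1158824 (by decide +kernel)
theorem L1158826 : W_1 (nat_lit 2) (nat_lit 0x10000e000f000480000000000000000000000) (nat_lit 0x0) (nat_lit 0x800000000000000004000200000000000000) := D_1 (nat_lit 74) (nat_lit 143) (nat_lit 57) (nat_lit 7) (nat_lit 6) (nat_lit 4) (nat_lit 7) (nat_lit 6) (nat_lit 3) (by decide +kernel)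
theorem L1158827 : W_1 (nat_lit 3) (nat_lit 0x10000a000f000480000000000000000000000) (nat_lit 0x0) (nat_lit 0x800040010000000004000200000000000000) := T_1 (nat_lit 126) (nat_lit 112) (nat_lit 1) (nat_lit 10) (nat_lit 6) L1158826 (by decide +kernel)
theorem L1158828 : W_1 (nat_lit 4) (nat_lit 0x10000a000f000080000000000000000000000) (nat_lit 0x0) (nat_lit 0x800040010000c00004000200000000000000) := T_1 (nat_lit 94) (nat_lit 95) (nat_lit 2) (nat_lit 6) (nat_lit 6) L1158827 (by decide +kernel)
theorem L1158829 : W_1 (nat_lit 5) (nat_lit 0x100008000f000080000000000000000000000) (nat_lit 0x0) (nat_lit 0x800070010000c00004000200000000000000) := T_1 (nat_lit 125) (nat_lit 124) (nat_lit 1) (nat_lit 9) (nat_lit 6) L1158828 (by decide +kernel)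
theorem L1158830 : W_1 (nat_lit 6) (nat_lit 0x100008000f000000000000000000000000000) (nat_lit 0x0) (nat_lit 0x800070010000cc0004000200000000000000) := T_1 (nat_lit 91) (nat_lit 90) (nat_lit 0) (nat_lit 9) (nat_lit 6) L1158829 (by decide +kernel)
theorem L1158831 : W_1 (nat_lit 2) (nat_lit 0x100009000fe00480000001000000000000000) (nat_lit 0x0) (nat_lit 0x38000000000000000000000) := D_1 (nat_lit 88) (nat_lit 89) (nat_lit 87) (nat_lit 0) (nat_lit 7) (nat_lit 6) (nat_lit 0) (nat_lit 6) (nat_lit 6) (by decide +kernel)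
theorem L1158832 : W_1 (nat_lit 3) (nat_lit 0x100009000fc00480000001000000000000000) (nat_lit 0x0) (nat_lit 0x200138000000000000000000000) := T_1 (nat_lit 105) (nat_lit 92) (nat_lit 2) (nat_lit 3) (nat_lit 6) L1158831 (by decide +kernel)
theorem L1158833 : W_1 (nat_lit 4) (nat_lit 0x100009000f800480000001000000000000000) (nat_lit 0x0) (nat_lit 0x40000600138000000000000000000000) := T_1 (nat_lit 106) (nat_lit 126) (nat_lit 3) (nat_lit 4) (nat_lit 6) L1158832 (by decide +kernel)
theorem L1158834 : W_1 (nat_lit 5) (nat_lit 0x100009000f000480000001000000000000000) (nat_lit 0x0) (nat_lit 0x48000e00138000000000000000000000) := T_1 (nat_lit 107) (nat_lit 123) (nat_lit 1) (nat_lit 8) (nat_lit 6) L1158833 (by decide +kernel)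
theorem L1158835 : W_1 (nat_lit 6) (nat_lit 0x100008000f000480000001000000000000000) (nat_lit 0x0) (nat_lit 0x78000e00138000000000000000000000) := T_1 (nat_lit 124) (nat_lit 125) (nat_lit 1) (nat_lit 9) (nat_lit 6) L1158834 (by decide +kernel)
theorem L1158836 : W_1 (nat_lit 7) (nat_lit 0x100008000f000480000000000000000000000) (nat_lit 0x0) (nat_lit 0x78000e00138020001000000000000000) := T_1 (nat_lit 60) (nat_lit 77) (nat_lit 5) (nat_lit 9) (nat_lit 3) L1158835 (by decide +kernel)
theorem L1158837 : W_1 (nat_lit 8) (nat_lit 0x100008000f000400000000000000000000000) (nat_lit 0x0) (nat_lit 0x78000e001f8020001000000000000000) := T_1 (nat_lit 91) (nat_lit 90) (nat_lit 0) (nat_lit 9) (nat_lit 6) L1158836 (by decide +kernel)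
theorem L1158838 : W_1 (nat_lit 9) (nat_lit 0x100008000f000000000000000000000000000) (nat_lit 0x0) (nat_lit 0x78000e00df8020001000000000000000) := T_1 (nat_lit 94) (nat_lit 95) (nat_lit 2) (nat_lit 6) (nat_lit 6) L1158837 (by decide +kernel)
theorem L1158839 : W_1 (nat_lit 2) (nat_lit 0x10000a000f000080000000000000000000000) (nat_lit 0x0) (nat_lit 0x40010000100000000000000000000000) := D_1 (nat_lit 112) (nat_lit 126) (nat_lit 92) (nat_lit 1) (nat_lit 10) (nat_lit 6) (nat_lit 0) (nat_lit 10) (nat_lit 6) (by decide +kernel)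
theorem L1158840 : W_1 (nat_lit 3) (nat_lit 0x10000a000f000000000000000000000000000) (nat_lit 0x0) (nat_lit 0x400100001c0000000000000000000000) := T_1 (nat_lit 91) (nat_lit 90) (nat_lit 0) (nat_lit 9) (nat_lit 6) L1158839 (by decide +kernel)
theorem L1158841 : W_1 (nat_lit 4) (nat_lit 0x100008000f000000000000000000000000000) (nat_lit 0x0) (nat_lit 0x700100001c0000000000000000000000) := T_1 (nat_lit 125) (nat_lit 124) (nat_lit 1) (nat_lit 9) (nat_lit 6) L1158840 (by decide +kernel)
theorem L1158842 : W_1 (nat_lit 2) (nat_lit 0x10000a000f000800000000000000000000000) (nat_lit 0x0) (nat_lit 0x40010001000000000000000000000000) := D_1 (nat_lit 112) (nat_lit 126) (nat_lit 96) (nat_lit 1) (nat_lit 10) (nat_lit 6) (nat_lit 2) (nat_lit 7) (nat_lit 6) (by decide +kernel)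
theorem L1158843 : W_1 (nat_lit 3) (nat_lit 0x10000a000f000000000000000000000000000) (nat_lit 0x0) (nat_lit 0x40010001c00000000000000000000000) := T_1 (nat_lit 95) (nat_lit 94) (nat_lit 2) (nat_lit 6) (nat_lit 6) L1158842 (by decide +kernel)
theorem L1158844 : W_1 (nat_lit 4) (nat_lit 0x100008000f000000000000000000000000000) (nat_lit 0x0) (nat_lit 0x70010001c00000000000000000000000) := T_1 (nat_lit 125) (nat_lit 124) (nat_lit 1) (nat_lit 9) (nat_lit 6) L1158843 (by decide +kernel)
theorem L1158845 : W_1 (nat_lit 10) (nat_lit 0x1000080007000000000000000000000000000) (nat_lit 0x0) (nat_lit 0xc00e78038e01df802c001600000000000000) := Q_1 (nat_lit 111) (C_1 L1158813 (C_1 L1158819 (C_1 L1158825 (C_1 L1158830 (C_1 L1158838 (C_1 L1158841 (C_1 L1158844 N_1))))))) (by decide +kernel)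
theorem L1158855 : W_1 (nat_lit 2) (nat_lit 0x100008001e000000000000000000000000000) (nat_lit 0x0) (nat_lit 0x60020000000000000000000000000000) := D_1 (nat_lit 126) (nat_lit 125) (nat_lit 113) (nat_lit 1) (nat_lit 10) (nat_lit 6) (nat_lit 1) (nat_lit 11) (nat_lit 6) (by decide +kernel)
theorem L1158861 : W_1 (nat_lit 2) (nat_lit 0x100029001f000040000000000000000000000) (nat_lit 0x0) (nat_lit 0x8000800020000000000000000000000) := D_1 (nat_lit 107) (nat_lit 123) (nat_lit 89) (nat_lit 1) (nat_lit 8) (nat_lit 6) (nat_lit 0) (nat_lit 8) (nat_lit 6) (by decide +kernel)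
theorem L1158862 : W_1 (nat_lit 3) (nat_lit 0x100029001f000000000000000000000000000) (nat_lit 0x0) (nat_lit 0x80008000e0000000000000000000000) := T_1 (nat_lit 90) (nat_lit 91) (nat_lit 0) (nat_lit 9) (nat_lit 6) L1158861 (by decide +kernel)
theorem L1158863 : W_1 (nat_lit 4) (nat_lit 0x100028001f000000000000000000000000000) (nat_lit 0x0) (nat_lit 0x380008000e0000000000000000000000) := T_1 (nat_lit 124) (nat_lit 125) (nat_lit 1) (nat_lit 9) (nat_lit 6) L1158862 (by decide +kernel)
theorem L1158866 : W_1 (nat_lit 2) (nat_lit 0x100008003e000800000000000000000000000) (nat_lit 0x0) (nat_lit 0xe00000000000000000000000000000000) := D_1 (nat_lit 130) (nat_lit 129) (nat_lit 131) (nat_lit 3) (nat_lit 7) (nat_lit 6) (nat_lit 3) (nat_lit 8) (nat_lit 6) (by decide +kernel)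
theorem L1158867 : W_1 (nat_lit 3) (nat_lit 0x100008001e000800000000000000000000000) (nat_lit 0x0) (nat_lit 0xe40020000000000000000000000000000) := T_1 (nat_lit 113) (nat_lit 126) (nat_lit 1) (nat_lit 11) (nat_lit 6) L1158866 (by decide +kernel)
theorem L1158868 : W_1 (nat_lit 4) (nat_lit 0x100008001e000000000000000000000000000) (nat_lit 0x0) (nat_lit 0xe40020001800000000000000000000000) := T_1 (nat_lit 95) (nat_lit 96) (nat_lit 2) (nat_lit 7) (nat_lit 6) L1158867 (by decide +kernel)
theorem L1158872 : W_1 (nat_lit 5) (nat_lit 0x1000080004000000000000000000000000000) (nat_lit 0x0) (nat_lit 0x20003000080000000a000700038001400000000000000) := Q_1 (nat_lit 93) (C_1 L1048887 (C_1 L1048890 (C_1 L154 N_1))) (by decide +kernel)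
theorem L1158873 : W_1 (nat_lit 2) (nat_lit 0x1800180004000200010000400000000000000) (nat_lit 0x0) (nat_lit 0x8000000000000800020000000000) := D_1 (nat_lit 59) (nat_lit 111) (nat_lit 41) (nat_lit 7) (nat_lit 8) (nat_lit 3) (nat_lit 4) (nat_lit 8) (nat_lit 6) (by decide +kernel)
theorem L1158874 : W_1 (nat_lit 3) (nat_lit 0x1800080004000200010000400000000000000) (nat_lit 0x0) (nat_lit 0x2000100008000000000000800020000000000) := T_1 (nat_lit 128) (nat_lit 145) (nat_lit 7) (nat_lit 8) (nat_lit 4) L1158873 (by decide +kernel)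
theorem L1158875 : W_1 (nat_lit 4) (nat_lit 0x1800080004000200010000000000000000000) (nat_lit 0x0) (nat_lit 0x2000100008000000008000c00020000000000) := T_1 (nat_lit 58) (nat_lit 75) (nat_lit 4) (nat_lit 8) (nat_lit 7) L1158874 (by decide +kernel)
theorem L1158876 : W_1 (nat_lit 5) (nat_lit 0x1800080004000200000000000000000000000) (nat_lit 0x0) (nat_lit 0x2000140008000000018000c00020000000000) := T_1 (nat_lit 76) (nat_lit 126) (nat_lit 5) (nat_lit 8) (nat_lit 4) L1158875 (by decide +kernel)
theorem L1158877 : W_1 (nat_lit 6) (nat_lit 0x1000080004000200000000000000000000000) (nat_lit 0x0) (nat_lit 0x10002800140008000000018000c00020000000000) := T_1 (nat_lit 143) (nat_lit 160) (nat_lit 5) (nat_lit 8) (nat_lit 5) L1158876 (by decide +kernel)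
theorem L1158878 : W_1 (nat_lit 8) (nat_lit 0x1000080004000000000000000000000000000) (nat_lit 0x0) (nat_lit 0x20003000280014000a000600038001c000a0000000000) := Q_1 (nat_lit 93) (C_1 L1118032 (C_1 L1048887 (C_1 L1048870 (C_1 L96 (C_1 L1158877 N_1))))) (by decide +kernel)
theorem L1158879 : W_1 (nat_lit 2) (nat_lit 0x18001800040002000100008000a0000000000) (nat_lit 0x0) (nat_lit 0x40005000000) := D_1 (nat_lit 42) (nat_lit 26) (nat_lit 24) (nat_lit 6) (nat_lit 8) (nat_lit 5) (nat_lit 4) (nat_lit 8) (nat_lit 5) (by decide +kernel)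
theorem L1158880 : W_1 (nat_lit 3) (nat_lit 0x1800180004000200010000800080000000000) (nat_lit 0x0) (nat_lit 0x400060005000000) := T_1 (nat_lit 41) (nat_lit 58) (nat_lit 4) (nat_lit 8) (nat_lit 6) L1158879 (by decide +kernel)
theorem L1158881 : W_1 (nat_lit 4) (nat_lit 0x1800180004000200010000800000000000000) (nat_lit 0x0) (nat_lit 0x14000e0005000000) := T_1 (nat_lit 43) (nat_lit 60) (nat_lit 6) (nat_lit 8) (nat_lit 6) L1158880 (by decide +kernel)
theorem L1158882 : W_1 (nat_lit 5) (nat_lit 0x1800180004000200010000000000000000000) (nat_lit 0x0) (nat_lit 0x8000000000001c000e0005000000) := T_1 (nat_lit 59) (nat_lit 111) (nat_lit 7) (nat_lit 8) (nat_lit 3) L1158881 (by decide +kernel)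
theorem L1158883 : W_1 (nat_lit 6) (nat_lit 0x1800080004000200010000000000000000000) (nat_lit 0x0) (nat_lit 0x2000100008000000000001c000e0005000000) := T_1 (nat_lit 128) (nat_lit 145) (nat_lit 7) (nat_lit 8) (nat_lit 4) L1158882 (by decide +kernel)
theorem L1158884 : W_1 (nat_lit 7) (nat_lit 0x1800080004000200000000000000000000000) (nat_lit 0x0) (nat_lit 0x2000140008000000010001c000e0005000000) := T_1 (nat_lit 76) (nat_lit 126) (nat_lit 5) (nat_lit 8) (nat_lit 4) L1158883 (by decide +kernel)
theorem L1158885 : W_1 (nat_lit 8) (nat_lit 0x1000080004000200000000000000000000000) (nat_lit 0x0) (nat_lit 0x10002800140008000000010001c000e0005000000) := T_1 (nat_lit 143) (nat_lit 160) (nat_lit 5) (nat_lit 8) (nat_lit 5) L1158884 (by decide +kernel)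
theorem L1158886 : W_1 (nat_lit 9) (nat_lit 0x1000080004000000000000000000000000000) (nat_lit 0x0) (nat_lit 0x20003000280014000a000300018001c000e0005000000) := Q_1 (nat_lit 93) (C_1 L1158877 (C_1 L1048890 (C_1 L170 (C_1 L1158885 N_1)))) (by decide +kernel)
theorem L1158887 : W_1 (nat_lit 9) (nat_lit 0x1000080004000000000000000000000000000) (nat_lit 0x0) (nat_lit 0x20003000280014000a000700030001c000e0005000000) := Q_1 (nat_lit 93) (C_1 L1158885 (C_1 L1048887 (C_1 L234 (C_1 L1048690 N_1)))) (by decide +kernel)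
theorem L1158892 : W_1 (nat_lit 3) (nat_lit 0x10000c0006000300000000000000000000000) (nat_lit 0x0) (nat_lit 0x1800c00020000000000000000000) := T_1 (nat_lit 94) (nat_lit 77) (nat_lit 6) (nat_lit 8) (nat_lit 8) L172825 (by decide +kernel)
theorem L1158893 : W_1 (nat_lit 4) (nat_lit 0x10000c0006000200000000000000000000000) (nat_lit 0x0) (nat_lit 0x1800d00028000000000000000000) := T_1 (nat_lit 92) (nat_lit 75) (nat_lit 7) (nat_lit 7) (nat_lit 4) L1158892 (by decide +kernel)
theorem L1158940 : W_1 (nat_lit 2) (nat_lit 0x8001c000e0006801600000000000000000000000) (nat_lit 0x0) (nat_lit 0x4006000000000000000000000000000000000000) := D_1 (nat_lit 145) (nat_lit 146) (nat_lit 158) (nat_lit 0) (nat_lit 10) (nat_lit 8) (nat_lit 1) (nat_lit 9) (nat_lit 8) (by decide +kernel)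
theorem L1158941 : W_1 (nat_lit 3) (nat_lit 0x80014000e0006801600000000000000000000000) (nat_lit 0x0) (nat_lit 0x14006800000000000000000000000000000000000) := T_1 (nat_lit 143) (nat_lit 160) (nat_lit 6) (nat_lit 7) (nat_lit 9) L1158940 (by decide +kernel)
theorem L1158942 : W_1 (nat_lit 4) (nat_lit 0x14000e0006801600000000000000000000000) (nat_lit 0x0) (nat_lit 0x10001c006800000000000000000000000000000000000) := T_1 (nat_lit 159) (nat_lit 176) (nat_lit 6) (nat_lit 6) (nat_lit 10) L1158941 (by decide +kernel)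
theorem L1158943 : W_1 (nat_lit 5) (nat_lit 0x14000e0006800600000000000000000000000) (nat_lit 0x0) (nat_lit 0x10001c006800000000001800000000000000000000000) := T_1 (nat_lit 96) (nat_lit 95) (nat_lit 1) (nat_lit 11) (nat_lit 5) L1158942 (by decide +kernel)
theorem L1158944 : W_1 (nat_lit 6) (nat_lit 0x14000e0006000600000000000000000000000) (nat_lit 0x0) (nat_lit 0x10001c006800000001801800000000000000000000000) := T_1 (nat_lit 107) (nat_lit 108) (nat_lit 2) (nat_lit 5) (nat_lit 6) L1158943 (by decide +kernel)
theorem L1158945 : W_1 (nat_lit 7) (nat_lit 0x14000e0006000200000000000000000000000) (nat_lit 0x0) (nat_lit 0x10001c006800000001801c00020000000000000000000) := T_1 (nat_lit 94) (nat_lit 77) (nat_lit 6) (nat_lit 8) (nat_lit 8) L1158944 (by decide +kernel)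
theorem L1158949 : W_1 (nat_lit 2) (nat_lit 0x18000c0007000600000000000000000000000) (nat_lit 0x0) (nat_lit 0x8001800000000000000000000000) := D_1 (nat_lit 95) (nat_lit 96) (nat_lit 111) (nat_lit 1) (nat_lit 11) (nat_lit 5) (nat_lit 2) (nat_lit 6) (nat_lit 6) (by decide +kernel)
theorem L1158950 : W_1 (nat_lit 3) (nat_lit 0x18000c0006000600000000000000000000000) (nat_lit 0x0) (nat_lit 0x9801800000000000000000000000) := T_1 (nat_lit 108) (nat_lit 107) (nat_lit 2) (nat_lit 5) (nat_lit 6) L1158949 (by decide +kernel)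
theorem L1158951 : W_1 (nat_lit 4) (nat_lit 0x18000c0006000200000000000000000000000) (nat_lit 0x0) (nat_lit 0x9801c00020000000000000000000) := T_1 (nat_lit 94) (nat_lit 77) (nat_lit 6) (nat_lit 8) (nat_lit 8) L1158950 (by decide +kernel)
theorem L1158952 : W_1 (nat_lit 5) (nat_lit 0x10000c0006000200000000000000000000000) (nat_lit 0x0) (nat_lit 0x10000800000009801c00020000000000000000000) := T_1 (nat_lit 143) (nat_lit 160) (nat_lit 6) (nat_lit 7) (nat_lit 9) L1158951 (by decide +kernel)
theorem L1158954 : W_1 (nat_lit 6) (nat_lit 0x10000c0004000200000000000000000000000) (nat_lit 0x0) (nat_lit 0x1000080000000b801de002c000000000000000000) := Q_1 (nat_lit 109) (C_1 L1158893 (C_1 L1158952 (C_1 L1048642 N_1))) (by decide +kernel)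
theorem L1158955 : W_1 (nat_lit 2) (nat_lit 0x58000e000c000780000000000000000000000) (nat_lit 0x0) (nat_lit 0x2000000006000000000000000000) := D_1 (nat_lit 74) (nat_lit 73) (nat_lit 109) (nat_lit 0) (nat_lit 9) (nat_lit 5) (nat_lit 4) (nat_lit 7) (nat_lit 8) (by decide +kernel)
theorem L1158956 : W_1 (nat_lit 3) (nat_lit 0x58000e000c000700000000000000000000000) (nat_lit 0x0) (nat_lit 0x20000c0006000000000000000000) := T_1 (nat_lit 91) (nat_lit 90) (nat_lit 3) (nat_lit 5) (nat_lit 5) L1158955 (by decide +kernel)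
theorem L1158957 : W_1 (nat_lit 4) (nat_lit 0x58000e000c000600000000000000000000000) (nat_lit 0x0) (nat_lit 0x20001c000e000000000000000000) := T_1 (nat_lit 92) (nat_lit 75) (nat_lit 4) (nat_lit 8) (nat_lit 8) L1158956 (by decide +kernel)
theorem L1158958 : W_1 (nat_lit 5) (nat_lit 0x18000e000c000600000000000000000000000) (nat_lit 0x0) (nat_lit 0x60000000020001c000e000000000000000000) := T_1 (nat_lit 146) (nat_lit 145) (nat_lit 0) (nat_lit 10) (nat_lit 8) L1158957 (by decide +kernel)
theorem L1158959 : W_1 (nat_lit 6) (nat_lit 0x10000e000c000600000000000000000000000) (nat_lit 0x0) (nat_lit 0x100068000000020001c000e000000000000000000) := T_1 (nat_lit 143) (nat_lit 160) (nat_lit 5) (nat_lit 8) (nat_lit 5) L1158958 (by decide +kernel)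
theorem L1158960 : W_1 (nat_lit 7) (nat_lit 0x10000e000c000200000000000000000000000) (nat_lit 0x0) (nat_lit 0x100068000000020005c002e000000000000000000) := T_1 (nat_lit 94) (nat_lit 77) (nat_lit 6) (nat_lit 8) (nat_lit 8) L1158959 (by decide +kernel)
theorem L1158961 : W_1 (nat_lit 8) (nat_lit 0x10000e0004000200000000000000000000000) (nat_lit 0x0) (nat_lit 0x1000680000003a0005c002e000000000000000000) := Q_1 (nat_lit 111) (C_1 L363832 (C_1 L363829 (C_1 L1158960 N_1))) (by decide +kernel)
theorem L1159099 : W_1 (nat_lit 2) (nat_lit 0x18000e000f000200000000000000000000000) (nat_lit 0x0) (nat_lit 0xc0004000000000000000000) := D_1 (nat_lit 91) (nat_lit 74) (nat_lit 90) (nat_lit 7) (nat_lit 6) (nat_lit 4) (nat_lit 0) (nat_lit 9) (nat_lit 6) (by decide +kernel)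
theorem L1159100 : W_1 (nat_lit 3) (nat_lit 0x18000e0007000200000000000000000000000) (nat_lit 0x0) (nat_lit 0x180000c0004000000000000000000) := T_1 (nat_lit 111) (nat_lit 112) (nat_lit 1) (nat_lit 10) (nat_lit 6) L1159099 (by decide +kernel)
theorem L1159101 : W_1 (nat_lit 4) (nat_lit 0x10000e0007000200000000000000000000000) (nat_lit 0x0) (nat_lit 0x100008000000180000c0004000000000000000000) := T_1 (nat_lit 143) (nat_lit 160) (nat_lit 6) (nat_lit 7) (nat_lit 9) L1159100 (by decide +kernel)
theorem L1159111 : W_1 (nat_lit 2) (nat_lit 0x58000e0004000780004000000000000000000) (nat_lit 0x0) (nat_lit 0x18000040000000000000000000000) := D_1 (nat_lit 111) (nat_lit 90) (nat_lit 112) (nat_lit 3) (nat_lit 5) (nat_lit 5) (nat_lit 3) (nat_lit 6) (nat_lit 5) (by decide +kernel)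
theorem L1159112 : W_1 (nat_lit 3) (nat_lit 0x58000e0004000380004000000000000000000) (nat_lit 0x0) (nat_lit 0x18000440002000000000000000000) := T_1 (nat_lit 94) (nat_lit 73) (nat_lit 0) (nat_lit 9) (nat_lit 5) L1159111 (by decide +kernel)
theorem L1159113 : W_1 (nat_lit 4) (nat_lit 0x58000e0004000380000000000000000000000) (nat_lit 0x0) (nat_lit 0x19000440006000000000000000000) := T_1 (nat_lit 74) (nat_lit 108) (nat_lit 7) (nat_lit 6) (nat_lit 4) L1159112 (by decide +kernel)
theorem L1159114 : W_1 (nat_lit 5) (nat_lit 0x18000e0004000380000000000000000000000) (nat_lit 0x0) (nat_lit 0x6000000019000440006000000000000000000) := T_1 (nat_lit 146) (nat_lit 145) (nat_lit 0) (nat_lit 10) (nat_lit 8) L1159113 (by decide +kernel)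
theorem L1159115 : W_1 (nat_lit 6) (nat_lit 0x10000e0004000380000000000000000000000) (nat_lit 0x0) (nat_lit 0x10006800000019000440006000000000000000000) := T_1 (nat_lit 143) (nat_lit 160) (nat_lit 5) (nat_lit 8) (nat_lit 5) L1159114 (by decide +kernel)
theorem L1159119 : W_1 (nat_lit 2) (nat_lit 0x10000e0005000780000000000000000000000) (nat_lit 0x0) (nat_lit 0x800000000000000006000000000000000000) := D_1 (nat_lit 74) (nat_lit 143) (nat_lit 73) (nat_lit 7) (nat_lit 6) (nat_lit 4) (nat_lit 0) (nat_lit 9) (nat_lit 5) (by decide +kernel)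
theorem L1159120 : W_1 (nat_lit 3) (nat_lit 0x10000e0004000780000000000000000000000) (nat_lit 0x0) (nat_lit 0x800000001800000006000000000000000000) := T_1 (nat_lit 108) (nat_lit 107) (nat_lit 1) (nat_lit 9) (nat_lit 5) L1159119 (by decide +kernel)
theorem L1159121 : W_1 (nat_lit 4) (nat_lit 0x10000e0004000380000000000000000000000) (nat_lit 0x0) (nat_lit 0x800000001800400026000000000000000000) := T_1 (nat_lit 94) (nat_lit 77) (nat_lit 6) (nat_lit 8) (nat_lit 8) L1159120 (by decide +kernel)
theorem L1159122 : W_1 (nat_lit 6) (nat_lit 0x18000e0004000380000000000000000000000) (nat_lit 0x0) (nat_lit 0x6000000008c00440027000000000000000000) := T_1 (nat_lit 146) (nat_lit 145) (nat_lit 0) (nat_lit 10) (nat_lit 8) L1103544 (by decide +kernel)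
theorem L1159123 : W_1 (nat_lit 7) (nat_lit 0x10000e0004000380000000000000000000000) (nat_lit 0x0) (nat_lit 0x10006800000008c00440027000000000000000000) := T_1 (nat_lit 143) (nat_lit 160) (nat_lit 5) (nat_lit 8) (nat_lit 5) L1159122 (by decide +kernel)
theorem L1159152 : W_1 (nat_lit 9) (nat_lit 0x10000c0004000200000000000000000000000) (nat_lit 0x0) (nat_lit 0x10006b8003803a0005c002e000000000000000000) := Q_1 (nat_lit 125) (C_1 L64388 (C_1 L1158961 (C_1 L64386 (C_1 L64387 N_1)))) (by decide +kernel)
theorem L1159157 : W_1 (nat_lit 2) (nat_lit 0x40000c0034001e0002000000000000000000000000000) (nat_lit 0x0) (nat_lit 0x80000000000000001800000000000000000000000000) := D_1 (nat_lit 108) (nat_lit 107) (nat_lit 175) (nat_lit 0) (nat_lit 9) (nat_lit 7) (nat_lit 5) (nat_lit 6) (nat_lit 6) (by decide +kernel)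
theorem L1159158 : W_1 (nat_lit 3) (nat_lit 0x4000080034001e0002000000000000000000000000000) (nat_lit 0x0) (nat_lit 0x80004000800000001800000000000000000000000000) := T_1 (nat_lit 158) (nat_lit 143) (nat_lit 1) (nat_lit 9) (nat_lit 8) L1159157 (by decide +kernel)
theorem L1159159 : W_1 (nat_lit 4) (nat_lit 0x80034001e0002000000000000000000000000000) (nat_lit 0x0) (nat_lit 0x480024000800000001800000000000000000000000000) := T_1 (nat_lit 178) (nat_lit 161) (nat_lit 4) (nat_lit 8) (nat_lit 10) L1159158 (by decide +kernel)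
theorem L1159160 : W_1 (nat_lit 5) (nat_lit 0x34001e0002000000000000000000000000000) (nat_lit 0x0) (nat_lit 0x58002c000800000001800000000000000000000000000) := T_1 (nat_lit 159) (nat_lit 176) (nat_lit 6) (nat_lit 6) (nat_lit 10) L1159159 (by decide +kernel)
theorem L1159161 : W_1 (nat_lit 6) (nat_lit 0x14001e0002000000000000000000000000000) (nat_lit 0x0) (nat_lit 0x58002c006800000001800000000000000000000000000) := T_1 (nat_lit 145) (nat_lit 146) (nat_lit 3) (nat_lit 6) (nat_lit 7) L1159160 (by decide +kernel)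
theorem L1159162 : W_1 (nat_lit 7) (nat_lit 0x10001e0002000000000000000000000000000) (nat_lit 0x0) (nat_lit 0x58002c006e00000001800000000000000000000000000) := T_1 (nat_lit 142) (nat_lit 141) (nat_lit 1) (nat_lit 9) (nat_lit 7) L1159161 (by decide +kernel)
theorem L1159163 : W_1 (nat_lit 8) (nat_lit 0x10001e0000000000000000000000000000000) (nat_lit 0x0) (nat_lit 0x58002c006e00000007800100008000000000000000000) := Q_1 (nat_lit 109) (C_1 L346054 (C_1 L285908 (C_1 L1159162 N_1))) (by decide +kernel)
theorem L1159164 : W_1 (nat_lit 11) (nat_lit 0x10000e0000000000000000000000000000000) (nat_lit 0x0) (nat_lit 0x58002c006e0010001f800f8007c000000000000000000) := Q_1 (nat_lit 128) (C_1 L1159163 (C_1 L346049 (C_1 L620852 (C_1 L1117972 N_1)))) (by decide +kernel)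
theorem L1159165 : W_1 (nat_lit 12) (nat_lit 0x10000c0000000000000000000000000000000) (nat_lit 0x0) (nat_lit 0x58002c00ef8013801fe00fc007c000000000000000000) := Q_1 (nat_lit 125) (C_1 L1117969 (C_1 L619124 (C_1 L616510 (C_1 L345918 (C_1 L1159164 N_1))))) (by decide +kernel)
theorem L1167852 : W_1 (nat_lit 3) (nat_lit 0x4000200010000c0000000000000000000000000000000) (nat_lit 0x0) (nat_lit 0x200018000800000000800000000000000000000000000000000000) := T_1 (nat_lit 195) (nat_lit 143) (nat_lit 4) (nat_lit 8) (nat_lit 11) L314844 (by decide +kernel)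
theorem L1176590 : W_1 (nat_lit 2) (nat_lit 0x18003c0008000400000000000000000000000) (nat_lit 0x0) (nat_lit 0x400020002000000000000000000000000000000000000) := D_1 (nat_lit 161) (nat_lit 178) (nat_lit 145) (nat_lit 6) (nat_lit 8) (nat_lit 10) (nat_lit 5) (nat_lit 9) (nat_lit 5) (by decide +kernel)
theorem L1176591 : W_1 (nat_lit 3) (nat_lit 0x18003c0008000000000000000000000000000) (nat_lit 0x0) (nat_lit 0x400020002000000000000400020000000000000000000) := T_1 (nat_lit 94) (nat_lit 77) (nat_lit 5) (nat_lit 9) (nat_lit 4) L1176590 (by decide +kernel)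
theorem L1176592 : W_1 (nat_lit 4) (nat_lit 0x10003c0008000000000000000000000000000) (nat_lit 0x0) (nat_lit 0x400020002c00000000000400020000000000000000000) := T_1 (nat_lit 143) (nat_lit 142) (nat_lit 1) (nat_lit 10) (nat_lit 7) L1176591 (by decide +kernel)
theorem L1176593 : W_1 (nat_lit 7) (nat_lit 0x10003c0000000000000000000000000000000) (nat_lit 0x0) (nat_lit 0x34001a000ec00000038000400020000000000000000000) := Q_1 (nat_lit 111) (C_1 L802012 (C_1 L802128 (C_1 L802008 (C_1 L1176592 N_1)))) (by decide +kernel)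
theorem L1176915 : W_1 (nat_lit 2) (nat_lit 0x5000000014001e000f000480000000000000000000000) (nat_lit 0x0) (nat_lit 0x800000000000000004000200000000000000) := D_1 (nat_lit 74) (nat_lit 143) (nat_lit 57) (nat_lit 7) (nat_lit 6) (nat_lit 4) (nat_lit 7) (nat_lit 6) (nat_lit 3) (by decide +kernel)
theorem L1176916 : W_1 (nat_lit 3) (nat_lit 0x5000000014001e000f000400000000000000000000000) (nat_lit 0x0) (nat_lit 0x8000000000000c0004000200000000000000) := T_1 (nat_lit 91) (nat_lit 90) (nat_lit 0) (nat_lit 9) (nat_lit 6) L1176915 (by decide +kernel)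
theorem L1176917 : W_1 (nat_lit 4) (nat_lit 0x5000000014001e000b000400000000000000000000000) (nat_lit 0x0) (nat_lit 0x8000000040008c0004000200000000000000) := T_1 (nat_lit 110) (nat_lit 95) (nat_lit 2) (nat_lit 6) (nat_lit 6) L1176916 (by decide +kernel)
theorem L1176918 : W_1 (nat_lit 5) (nat_lit 0x5000000014001e000a000400000000000000000000000) (nat_lit 0x0) (nat_lit 0x8000000058008c0004000200000000000000) := T_1 (nat_lit 108) (nat_lit 107) (nat_lit 0) (nat_lit 9) (nat_lit 7) L1176917 (by decide +kernel)
theorem L1176919 : W_1 (nat_lit 6) (nat_lit 0x4000000014001e000a000400000000000000000000000) (nat_lit 0x0) (nat_lit 0x1000080008000000058008c0004000200000000000000) := T_1 (nat_lit 176) (nat_lit 159) (nat_lit 6) (nat_lit 6) (nat_lit 10) L1176918 (by decide +kernel)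
theorem L1176920 : W_1 (nat_lit 7) (nat_lit 0x4000000014001e000a000000000000000000000000000) (nat_lit 0x0) (nat_lit 0x100008000800000005800cc0024000200000000000000) := T_1 (nat_lit 94) (nat_lit 77) (nat_lit 5) (nat_lit 9) (nat_lit 4) L1176919 (by decide +kernel)
theorem L1176921 : W_1 (nat_lit 8) (nat_lit 0x4000000014001e0002000000000000000000000000000) (nat_lit 0x0) (nat_lit 0x10000800080000001d800cc0024000200000000000000) := T_1 (nat_lit 111) (nat_lit 112) (nat_lit 2) (nat_lit 6) (nat_lit 7) L1176920 (by decide +kernel)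
theorem L1176922 : W_1 (nat_lit 9) (nat_lit 0x4000000010001e0002000000000000000000000000000) (nat_lit 0x0) (nat_lit 0x100008000e0000001d800cc0024000200000000000000) := T_1 (nat_lit 142) (nat_lit 141) (nat_lit 1) (nat_lit 9) (nat_lit 7) L1176921 (by decide +kernel)
theorem L1176923 : W_1 (nat_lit 10) (nat_lit 0x10001e0002000000000000000000000000000) (nat_lit 0x0) (nat_lit 0x500028000e0000001d800cc0024000200000000000000) := T_1 (nat_lit 178) (nat_lit 161) (nat_lit 4) (nat_lit 8) (nat_lit 10) L1176922 (by decide +kernel)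
theorem L1176924 : W_1 (nat_lit 11) (nat_lit 0x10001c0002000000000000000000000000000) (nat_lit 0x0) (nat_lit 0x500028000f8003801dc00cc0024000200000000000000) := Q_1 (nat_lit 125) (C_1 L623012 (C_1 L1117911 (C_1 L1117907 (C_1 L285906 (C_1 L346019 (C_1 L1176923 N_1)))))) (by decide +kernel)
theorem L1176925 : W_1 (nat_lit 12) (nat_lit 0x10000c0002000000000000000000000000000) (nat_lit 0x0) (nat_lit 0x50002803cf80f380fdc00cc0024000200000000000000) := Q_1 (nat_lit 128) (C_1 L346015 (C_1 L1117918 (C_1 L623020 (C_1 L1176924 N_1)))) (by decide +kernel)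
theorem L1176926 : W_1 (nat_lit 13) (nat_lit 0x10000c0000000000000000000000000000000) (nat_lit 0x0) (nat_lit 0x58002c03cf80f3c0ffe01ff003e001f00000000000000) := Q_1 (nat_lit 109) (C_1 L1176925 (C_1 L1117903 (C_1 L615321 (C_1 L346009 N_1)))) (by decide +kernel)
theorem L1176965 : W_1 (nat_lit 6) (nat_lit 0x80014000e0007000600000000000000000000000) (nat_lit 0x0) (nat_lit 0x800040002000000000018c0006000300000000000000) := T_1 (nat_lit 96) (nat_lit 95) (nat_lit 1) (nat_lit 11) (nat_lit 5) L85436 (by decide +kernel)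
theorem L1176966 : W_1 (nat_lit 7) (nat_lit 0x80014000e0006000600000000000000000000000) (nat_lit 0x0) (nat_lit 0x800040002000000018018c0006000300000000000000) := T_1 (nat_lit 108) (nat_lit 107) (nat_lit 2) (nat_lit 5) (nat_lit 6) L1176965 (by decide +kernel)
theorem L1176967 : W_1 (nat_lit 8) (nat_lit 0x80014000e0006000200000000000000000000000) (nat_lit 0x0) (nat_lit 0x80004000200000001801cc0026000300000000000000) := T_1 (nat_lit 94) (nat_lit 77) (nat_lit 6) (nat_lit 8) (nat_lit 8) L1176966 (by decide +kernel)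
theorem L1176968 : W_1 (nat_lit 9) (nat_lit 0x14000e0006000200000000000000000000000) (nat_lit 0x0) (nat_lit 0x18000c000200000001801cc0026000300000000000000) := T_1 (nat_lit 159) (nat_lit 176) (nat_lit 6) (nat_lit 6) (nat_lit 10) L1176967 (by decide +kernel)
theorem L1177054 : W_1 (nat_lit 2) (nat_lit 0x14000e0006000200000000000000000000000) (nat_lit 0x0) (nat_lit 0x800000000000000010000800000000000000) := D_1 (nat_lit 76) (nat_lit 59) (nat_lit 143) (nat_lit 5) (nat_lit 8) (nat_lit 3) (nat_lit 5) (nat_lit 8) (nat_lit 4) (by decide +kernel)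
theorem L1178035 : W_1 (nat_lit 2) (nat_lit 0xc0014000e0003400080000000000000000000000) (nat_lit 0x0) (nat_lit 0x2800000000000000004000000000000000000) := D_1 (nat_lit 143) (nat_lit 145) (nat_lit 74) (nat_lit 1) (nat_lit 9) (nat_lit 8) (nat_lit 7) (nat_lit 6) (nat_lit 4) (by decide +kernel)
theorem L1178036 : W_1 (nat_lit 3) (nat_lit 0xc0014000e0003400000000000000000000000000) (nat_lit 0x0) (nat_lit 0x2a00000000000080004000000000000000000) := T_1 (nat_lit 91) (nat_lit 141) (nat_lit 5) (nat_lit 6) (nat_lit 5) L1178035 (by decide +kernel)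
theorem L1178037 : W_1 (nat_lit 4) (nat_lit 0x80014000e0003400000000000000000000000000) (nat_lit 0x0) (nat_lit 0x80004002a00000000000080004000000000000000000) := T_1 (nat_lit 158) (nat_lit 175) (nat_lit 5) (nat_lit 6) (nat_lit 6) L1178036 (by decide +kernel)
theorem L1178038 : W_1 (nat_lit 5) (nat_lit 0x80014000e0003000000000000000000000000000) (nat_lit 0x0) (nat_lit 0x80004002a00000000c00080004000000000000000000) := T_1 (nat_lit 106) (nat_lit 107) (nat_lit 3) (nat_lit 4) (nat_lit 6) L1178037 (by decide +kernel)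
theorem L1178039 : W_1 (nat_lit 6) (nat_lit 0x14000e0003000000000000000000000000000) (nat_lit 0x0) (nat_lit 0x18000c002a00000000c00080004000000000000000000) := T_1 (nat_lit 159) (nat_lit 176) (nat_lit 6) (nat_lit 6) (nat_lit 10) L1178038 (by decide +kernel)
theorem L1178040 : W_1 (nat_lit 7) (nat_lit 0x14000e0002000000000000000000000000000) (nat_lit 0x0) (nat_lit 0x18000c002a0000001dc00ee0026001300000000000000) := Q_1 (nat_lit 108) (C_1 L359760 (C_1 L359699 (C_1 L351096 (C_1 L1178039 N_1)))) (by decide +kernel)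
theorem L1178807 : W_1 (nat_lit 2) (nat_lit 0x4000000012000d0002c00020000000000000000000000) (nat_lit 0x0) (nat_lit 0x40001000080000000000000) := D_1 (nat_lit 72) (nat_lit 90) (nat_lit 55) (nat_lit 4) (nat_lit 5) (nat_lit 8) (nat_lit 7) (nat_lit 4) (nat_lit 3) (by decide +kernel)
theorem L1178808 : W_1 (nat_lit 3) (nat_lit 0x4000000012000d0002c00000000000000000000000000) (nat_lit 0x0) (nat_lit 0x4000000000000000060001000080000000000000) := T_1 (nat_lit 89) (nat_lit 158) (nat_lit 4) (nat_lit 5) (nat_lit 9) L1178807 (by decide +kernel)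
theorem L1178809 : W_1 (nat_lit 4) (nat_lit 0x12000d0002c00000000000000000000000000) (nat_lit 0x0) (nat_lit 0x400024000000000000000060001000080000000000000) := T_1 (nat_lit 178) (nat_lit 161) (nat_lit 4) (nat_lit 8) (nat_lit 10) L1178808 (by decide +kernel)
theorem L1178810 : W_1 (nat_lit 5) (nat_lit 0x12000d0002800000000000000000000000000) (nat_lit 0x0) (nat_lit 0x400024000000000001400060001000080000000000000) := T_1 (nat_lit 106) (nat_lit 108) (nat_lit 3) (nat_lit 4) (nat_lit 6) L1178809 (by decide +kernel)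
theorem L1178836 : W_1 (nat_lit 2) (nat_lit 0x1e000e0002000380000000000000000000000) (nat_lit 0x0) (nat_lit 0x6000000000001000000000000000000000000000) := D_1 (nat_lit 158) (nat_lit 108) (nat_lit 157) (nat_lit 5) (nat_lit 6) (nat_lit 5) (nat_lit 1) (nat_lit 8) (nat_lit 8) (by decide +kernel)
theorem L1178837 : W_1 (nat_lit 3) (nat_lit 0x1c000e0002000380000000000000000000000) (nat_lit 0x0) (nat_lit 0x6000300000001000000000000000000000000000) := T_1 (nat_lit 141) (nat_lit 140) (nat_lit 2) (nat_lit 4) (nat_lit 8) L1178836 (by decide +kernel)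
theorem L1178838 : W_1 (nat_lit 4) (nat_lit 0x1c000e0002000300000000000000000000000) (nat_lit 0x0) (nat_lit 0x6000300000001000080004000000000000000000) := T_1 (nat_lit 91) (nat_lit 74) (nat_lit 4) (nat_lit 7) (nat_lit 8) L1178837 (by decide +kernel)
theorem L1178839 : W_1 (nat_lit 5) (nat_lit 0x14000e0002000300000000000000000000000) (nat_lit 0x0) (nat_lit 0x6000b00000001000080014000000000000000000) := T_1 (nat_lit 143) (nat_lit 76) (nat_lit 6) (nat_lit 7) (nat_lit 8) L1178838 (by decide +kernel)
theorem L1178840 : W_1 (nat_lit 6) (nat_lit 0x14000e0002000200000000000000000000000) (nat_lit 0x0) (nat_lit 0x6000b0000000100018001c000000000000000000) := T_1 (nat_lit 92) (nat_lit 75) (nat_lit 7) (nat_lit 7) (nat_lit 4) L1178839 (by decide +kernel)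
theorem L1178841 : W_1 (nat_lit 5) (nat_lit 0x14000e0002000200000000000000000000000) (nat_lit 0x0) (nat_lit 0x80000000d801c00030001800000000000000) := Q_1 (nat_lit 110) (C_1 L1177054 (C_1 L359777 (C_1 L359763 N_1))) (by decide +kernel)
theorem L1178842 : W_1 (nat_lit 2) (nat_lit 0x14000e0006000700000000000000000000000) (nat_lit 0x0) (nat_lit 0x1800800000000000000000000000) := D_1 (nat_lit 108) (nat_lit 107) (nat_lit 95) (nat_lit 2) (nat_lit 5) (nat_lit 6) (nat_lit 1) (nat_lit 10) (nat_lit 5) (by decide +kernel)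
theorem L1178843 : W_1 (nat_lit 3) (nat_lit 0x14000e0006000300000000000000000000000) (nat_lit 0x0) (nat_lit 0x1800c00020000000000000000000) := T_1 (nat_lit 94) (nat_lit 77) (nat_lit 6) (nat_lit 8) (nat_lit 8) L1178842 (by decide +kernel)
theorem L1178844 : W_1 (nat_lit 4) (nat_lit 0x14000e0006000200000000000000000000000) (nat_lit 0x0) (nat_lit 0x1800d00028000000000000000000) := T_1 (nat_lit 92) (nat_lit 75) (nat_lit 7) (nat_lit 7) (nat_lit 4) L1178843 (by decide +kernel)
theorem L1178845 : W_1 (nat_lit 2) (nat_lit 0x1e000e000e000380000000000000000000000) (nat_lit 0x0) (nat_lit 0x6000000000001000000000000000000000000000) := D_1 (nat_lit 158) (nat_lit 108) (nat_lit 157) (nat_lit 5) (nat_lit 6) (nat_lit 5) (nat_lit 1) (nat_lit 8) (nat_lit 8) (by decide +kernel)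
theorem L1178846 : W_1 (nat_lit 3) (nat_lit 0x1c000e000e000380000000000000000000000) (nat_lit 0x0) (nat_lit 0x6000300000001000000000000000000000000000) := T_1 (nat_lit 141) (nat_lit 140) (nat_lit 2) (nat_lit 4) (nat_lit 8) L1178845 (by decide +kernel)
theorem L1178847 : W_1 (nat_lit 4) (nat_lit 0x14000e000e000380000000000000000000000) (nat_lit 0x0) (nat_lit 0x6000b00000001000000004000000000000000000) := T_1 (nat_lit 143) (nat_lit 74) (nat_lit 4) (nat_lit 7) (nat_lit 8) L1178846 (by decide +kernel)
theorem L1178848 : W_1 (nat_lit 5) (nat_lit 0x14000e000e000300000000000000000000000) (nat_lit 0x0) (nat_lit 0x6000b000000010000c0004000000000000000000) := T_1 (nat_lit 91) (nat_lit 90) (nat_lit 3) (nat_lit 5) (nat_lit 5) L1178847 (by decide +kernel)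
theorem L1178849 : W_1 (nat_lit 6) (nat_lit 0x14000e0006000300000000000000000000000) (nat_lit 0x0) (nat_lit 0x6000b000000190000c0004000000000000000000) := T_1 (nat_lit 111) (nat_lit 112) (nat_lit 1) (nat_lit 10) (nat_lit 6) L1178848 (by decide +kernel)
theorem L1178850 : W_1 (nat_lit 7) (nat_lit 0x14000e0006000200000000000000000000000) (nat_lit 0x0) (nat_lit 0x6000b000000190001c000c000000000000000000) := T_1 (nat_lit 92) (nat_lit 75) (nat_lit 7) (nat_lit 7) (nat_lit 4) L1178849 (by decide +kernel)
theorem L1178851 : W_1 (nat_lit 8) (nat_lit 0x14000e0002000200000000000000000000000) (nat_lit 0x0) (nat_lit 0x6000b0000003d801dc002c000000000000000000) := Q_1 (nat_lit 110) (C_1 L359781 (C_1 L1178844 (C_1 L359763 (C_1 L1178850 N_1)))) (by decide +kernel)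
theorem L1178852 : W_1 (nat_lit 9) (nat_lit 0x14000e0002000000000000000000000000000) (nat_lit 0x0) (nat_lit 0x6000b0000003d801fc003c001c00000000000000) := Q_1 (nat_lit 93) (C_1 L1178840 (C_1 L359782 (C_1 L1178841 (C_1 L1178851 N_1)))) (by decide +kernel)
theorem L1178853 : W_1 (nat_lit 3) (nat_lit 0x14000e0002000000000000000000000000000) (nat_lit 0x0) (nat_lit 0x100008000800000000000100008000000000000000000) := T_1 (nat_lit 92) (nat_lit 75) (nat_lit 7) (nat_lit 7) (nat_lit 4) L615996 (by decide +kernel)
theorem L1178854 : W_1 (nat_lit 10) (nat_lit 0x10000e0002000000000000000000000000000) (nat_lit 0x0) (nat_lit 0x18000e002f0000003dc01fe003e001f00000000000000) := Q_1 (nat_lit 142) (C_1 L351033 (C_1 L1178040 (C_1 L1178852 (C_1 L1178853 N_1)))) (by decide +kernel)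
theorem L1178855 : W_1 (nat_lit 11) (nat_lit 0x10000c0002000000000000000000000000000) (nat_lit 0x0) (nat_lit 0x18000e002fe003e03df81ff003f001f00000000000000) := Q_1 (nat_lit 125) (C_1 L1178854 (C_1 L615345 (C_1 L1117965 N_1))) (by decide +kernel)
theorem L1178857 : W_1 (nat_lit 8) (nat_lit 0x10001c0002000000000000000000000000000) (nat_lit 0x0) (nat_lit 0x58002c006f00030001c00000000000000000000000000) := Q_1 (nat_lit 125) (C_1 L1159162 (C_1 L345920 (C_1 L285906 N_1))) (by decide +kernel)
theorem L1178858 : W_1 (nat_lit 2) (nat_lit 0x4000000054003c0012000000000000000000000000000) (nat_lit 0x0) (nat_lit 0x2200020000000000000000000000000000000) := D_1 (nat_lit 125) (nat_lit 145) (nat_lit 141) (nat_lit 3) (nat_lit 6) (nat_lit 7) (nat_lit 1) (nat_lit 9) (nat_lit 7) (by decide +kernel)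
theorem L1178859 : W_1 (nat_lit 3) (nat_lit 0x4000000014003c0012000000000000000000000000000) (nat_lit 0x0) (nat_lit 0xe200020000000000000000000000000000000) := T_1 (nat_lit 146) (nat_lit 147) (nat_lit 3) (nat_lit 7) (nat_lit 7) L1178858 (by decide +kernel)
theorem L1178860 : W_1 (nat_lit 4) (nat_lit 0x4000000010003c0012000000000000000000000000000) (nat_lit 0x0) (nat_lit 0xee00020000000000000000000000000000000) := T_1 (nat_lit 142) (nat_lit 143) (nat_lit 1) (nat_lit 10) (nat_lit 7) L1178859 (by decide +kernel)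
theorem L1178861 : W_1 (nat_lit 5) (nat_lit 0x4000000010003c0002000000000000000000000000000) (nat_lit 0x0) (nat_lit 0xee00020030000000000000000000000000000) := T_1 (nat_lit 112) (nat_lit 113) (nat_lit 2) (nat_lit 7) (nat_lit 7) L1178860 (by decide +kernel)
theorem L1178862 : W_1 (nat_lit 6) (nat_lit 0x10003c0002000000000000000000000000000) (nat_lit 0x0) (nat_lit 0x40002000ee00020030000000000000000000000000000) := T_1 (nat_lit 178) (nat_lit 161) (nat_lit 4) (nat_lit 8) (nat_lit 10) L1178861 (by decide +kernel)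
theorem L1178863 : W_1 (nat_lit 7) (nat_lit 0x10001c0002000000000000000000000000000) (nat_lit 0x0) (nat_lit 0x40002000ee00e20070000000000000000000000000000) := Q_1 (nat_lit 129) (C_1 L1115479 (C_1 L510585 (C_1 L1178862 N_1))) (by decide +kernel)
theorem L1178864 : W_1 (nat_lit 9) (nat_lit 0x10000c0002000000000000000000000000000) (nat_lit 0x0) (nat_lit 0x58002c03ef00f300f1c00000000000000000000000000) := Q_1 (nat_lit 128) (C_1 L623020 (C_1 L623005 (C_1 L1178857 (C_1 L1178863 N_1)))) (by decide +kernel)
theorem L1178865 : W_1 (nat_lit 11) (nat_lit 0x10000c0000000000000000000000000000000) (nat_lit 0x0) (nat_lit 0x58002c03ef80f3c0f7e001f000e000700000000000000) := Q_1 (nat_lit 109) (C_1 L1178864 (C_1 L615321 (C_1 L284285 N_1))) (by decide +kernel)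
theorem L1178867 : W_1 (nat_lit 2) (nat_lit 0x54001e0001000000000000000000000000000) (nat_lit 0x0) (nat_lit 0x8800200000000000000000000000000000000) := D_1 (nat_lit 129) (nat_lit 147) (nat_lit 143) (nat_lit 3) (nat_lit 7) (nat_lit 7) (nat_lit 1) (nat_lit 10) (nat_lit 7) (by decide +kernel)
theorem L1178868 : W_1 (nat_lit 3) (nat_lit 0x50001e0001000000000000000000000000000) (nat_lit 0x0) (nat_lit 0x8e00200000000000000000000000000000000) := T_1 (nat_lit 142) (nat_lit 141) (nat_lit 1) (nat_lit 9) (nat_lit 7) L1178867 (by decide +kernel)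
theorem L1178869 : W_1 (nat_lit 4) (nat_lit 0x10001e0001000000000000000000000000000) (nat_lit 0x0) (nat_lit 0xee00200000000000000000000000000000000) := T_1 (nat_lit 146) (nat_lit 145) (nat_lit 3) (nat_lit 6) (nat_lit 7) L1178868 (by decide +kernel)
theorem L1178870 : W_1 (nat_lit 5) (nat_lit 0x10001e0000000000000000000000000000000) (nat_lit 0x0) (nat_lit 0xee00200001800000000000000000000000000) := T_1 (nat_lit 108) (nat_lit 107) (nat_lit 0) (nat_lit 9) (nat_lit 7) L1178869 (by decide +kernel)
theorem L1178871 : W_1 (nat_lit 8) (nat_lit 0x10000e0000000000000000000000000000000) (nat_lit 0x0) (nat_lit 0x2003ee00f00079800400020000000000000000000) := Q_1 (nat_lit 128) (C_1 L623035 (C_1 L1117972 (C_1 L499559 (C_1 L1178870 N_1)))) (by decide +kernel)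
theorem L1178872 : W_1 (nat_lit 9) (nat_lit 0x10000c0000000000000000000000000000000) (nat_lit 0x0) (nat_lit 0x10002803ef80f38079e00440020000000000000000000) := Q_1 (nat_lit 125) (C_1 L1117969 (C_1 L619124 (C_1 L616510 (C_1 L345918 (C_1 L1178871 N_1))))) (by decide +kernel)
theorem L1178873 : W_1 (nat_lit 2) (nat_lit 0x4000080034001e000b000c00000000000000000000000) (nat_lit 0x0) (nat_lit 0x80004000800000000000000000000000000000000000) := D_1 (nat_lit 158) (nat_lit 175) (nat_lit 143) (nat_lit 5) (nat_lit 6) (nat_lit 6) (nat_lit 1) (nat_lit 9) (nat_lit 8) (by decide +kernel)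
theorem L1178874 : W_1 (nat_lit 3) (nat_lit 0x4000000034001e000b000c00000000000000000000000) (nat_lit 0x0) (nat_lit 0x18000c000800000000000000000000000000000000000) := T_1 (nat_lit 159) (nat_lit 176) (nat_lit 6) (nat_lit 6) (nat_lit 10) L1178873 (by decide +kernel)
theorem L1178875 : W_1 (nat_lit 4) (nat_lit 0x4000000034001e000a000c00000000000000000000000) (nat_lit 0x0) (nat_lit 0x18000c000800000005000000000000000000000000000) := T_1 (nat_lit 108) (nat_lit 110) (nat_lit 2) (nat_lit 6) (nat_lit 6) L1178874 (by decide +kernel)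
theorem L1178876 : W_1 (nat_lit 5) (nat_lit 0x4000000034001e000a000400000000000000000000000) (nat_lit 0x0) (nat_lit 0x18000c000800000005000800040000000000000000000) := T_1 (nat_lit 95) (nat_lit 78) (nat_lit 6) (nat_lit 9) (nat_lit 8) L1178875 (by decide +kernel)
theorem L1178877 : W_1 (nat_lit 6) (nat_lit 0x4000000030001e000a000400000000000000000000000) (nat_lit 0x0) (nat_lit 0x18000c000e00000005000800040000000000000000000) := T_1 (nat_lit 142) (nat_lit 141) (nat_lit 1) (nat_lit 9) (nat_lit 7) L1178876 (by decide +kernel)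
theorem L1178878 : W_1 (nat_lit 7) (nat_lit 0x4000000030001e000a000000000000000000000000000) (nat_lit 0x0) (nat_lit 0x18000c000e00000005000c00060000000000000000000) := T_1 (nat_lit 94) (nat_lit 77) (nat_lit 5) (nat_lit 9) (nat_lit 4) L1178877 (by decide +kernel)
theorem L1178879 : W_1 (nat_lit 8) (nat_lit 0x4000000030001e0002000000000000000000000000000) (nat_lit 0x0) (nat_lit 0x18000c000e0000001d000c00060000000000000000000) := T_1 (nat_lit 111) (nat_lit 112) (nat_lit 2) (nat_lit 6) (nat_lit 7) L1178878 (by decide +kernel)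
theorem L1178880 : W_1 (nat_lit 9) (nat_lit 0x4000000010001e0002000000000000000000000000000) (nat_lit 0x0) (nat_lit 0x18000c006e0000001d000c00060000000000000000000) := T_1 (nat_lit 145) (nat_lit 146) (nat_lit 3) (nat_lit 6) (nat_lit 7) L1178879 (by decide +kernel)
theorem L1178881 : W_1 (nat_lit 10) (nat_lit 0x10001e0002000000000000000000000000000) (nat_lit 0x0) (nat_lit 0x58002c006e0000001d000c00060000000000000000000) := T_1 (nat_lit 178) (nat_lit 161) (nat_lit 4) (nat_lit 8) (nat_lit 10) L1178880 (by decide +kernel)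
theorem L1178882 : W_1 (nat_lit 11) (nat_lit 0x10001c0002000000000000000000000000000) (nat_lit 0x0) (nat_lit 0x58002c006f0003001d000c00060000000000000000000) := Q_1 (nat_lit 125) (C_1 L345920 (C_1 L1117911 (C_1 L1178881 N_1))) (by decide +kernel)
theorem L1178883 : W_1 (nat_lit 12) (nat_lit 0x10000c0002000000000000000000000000000) (nat_lit 0x0) (nat_lit 0x58002c03ef00f300fd000c00060000000000000000000) := Q_1 (nat_lit 128) (C_1 L1178863 (C_1 L623005 (C_1 L1117918 (C_1 L1178882 (C_1 L623020 N_1))))) (by decide +kernel)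
theorem L1178884 : W_1 (nat_lit 2) (nat_lit 0x34001e000a000000008000000000000000000) (nat_lit 0x0) (nat_lit 0x800200001000000000000000000000000000) := D_1 (nat_lit 129) (nat_lit 108) (nat_lit 143) (nat_lit 0) (nat_lit 10) (nat_lit 7) (nat_lit 2) (nat_lit 6) (nat_lit 8) (by decide +kernel)
theorem L1178885 : W_1 (nat_lit 3) (nat_lit 0x30001e000a000000008000000000000000000) (nat_lit 0x0) (nat_lit 0xe00200001000000000000000000000000000) := T_1 (nat_lit 142) (nat_lit 141) (nat_lit 1) (nat_lit 9) (nat_lit 7) L1178884 (by decide +kernel)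
theorem L1178886 : W_1 (nat_lit 4) (nat_lit 0x30001e0002000000008000000000000000000) (nat_lit 0x0) (nat_lit 0xe00200019000000000000000000000000000) := T_1 (nat_lit 111) (nat_lit 112) (nat_lit 2) (nat_lit 6) (nat_lit 7) L1178885 (by decide +kernel)
theorem L1178887 : W_1 (nat_lit 5) (nat_lit 0x10001e0002000000008000000000000000000) (nat_lit 0x0) (nat_lit 0x6e00200019000000000000000000000000000) := T_1 (nat_lit 145) (nat_lit 146) (nat_lit 3) (nat_lit 6) (nat_lit 7) L1178886 (by decide +kernel)
theorem L1178888 : W_1 (nat_lit 6) (nat_lit 0x10001e0002000000000000000000000000000) (nat_lit 0x0) (nat_lit 0x6e00200019000100008000000000000000000) := T_1 (nat_lit 75) (nat_lit 92) (nat_lit 7) (nat_lit 7) (nat_lit 4) L1178887 (by decide +kernel)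
theorem L1178889 : W_1 (nat_lit 2) (nat_lit 0x14001e000a000000020000000000000000000) (nat_lit 0x0) (nat_lit 0x800200001000000000000000000000000000) := D_1 (nat_lit 129) (nat_lit 108) (nat_lit 143) (nat_lit 0) (nat_lit 10) (nat_lit 7) (nat_lit 1) (nat_lit 10) (nat_lit 7) (by decide +kernel)
theorem L1178890 : W_1 (nat_lit 3) (nat_lit 0x10001e000a000000020000000000000000000) (nat_lit 0x0) (nat_lit 0xe00200001000000000000000000000000000) := T_1 (nat_lit 142) (nat_lit 141) (nat_lit 1) (nat_lit 9) (nat_lit 7) L1178889 (by decide +kernel)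
theorem L1178891 : W_1 (nat_lit 4) (nat_lit 0x10001e000a000000000000000000000000000) (nat_lit 0x0) (nat_lit 0xe00200001000400020000000000000000000) := T_1 (nat_lit 77) (nat_lit 94) (nat_lit 5) (nat_lit 9) (nat_lit 4) L1178890 (by decide +kernel)
theorem L1178892 : W_1 (nat_lit 5) (nat_lit 0x10001e0002000000000000000000000000000) (nat_lit 0x0) (nat_lit 0xe00200019000400020000000000000000000) := T_1 (nat_lit 111) (nat_lit 112) (nat_lit 2) (nat_lit 6) (nat_lit 7) L1178891 (by decide +kernel)
theorem L1178893 : W_1 (nat_lit 2) (nat_lit 0x80034001e000b000e00008000000000000000000) (nat_lit 0x0) (nat_lit 0x80004000800000000000000000000000000000000000) := D_1 (nat_lit 158) (nat_lit 175) (nat_lit 143) (nat_lit 5) (nat_lit 6) (nat_lit 6) (nat_lit 1) (nat_lit 9) (nat_lit 8) (by decide +kernel)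
theorem L1178894 : W_1 (nat_lit 3) (nat_lit 0x34001e000b000e00008000000000000000000) (nat_lit 0x0) (nat_lit 0x18000c000800000000000000000000000000000000000) := T_1 (nat_lit 159) (nat_lit 176) (nat_lit 6) (nat_lit 6) (nat_lit 10) L1178893 (by decide +kernel)
theorem L1178895 : W_1 (nat_lit 4) (nat_lit 0x34001e000b000c00008000000000000000000) (nat_lit 0x0) (nat_lit 0x18000c000800000000000200010000000000000000000) := T_1 (nat_lit 93) (nat_lit 76) (nat_lit 4) (nat_lit 9) (nat_lit 8) L1178894 (by decide +kernel)
theorem L1178896 : W_1 (nat_lit 5) (nat_lit 0x34001e000a000c00008000000000000000000) (nat_lit 0x0) (nat_lit 0x18000c000800000005000200010000000000000000000) := T_1 (nat_lit 108) (nat_lit 110) (nat_lit 2) (nat_lit 6) (nat_lit 6) L1178895 (by decide +kernel)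
theorem L1178897 : W_1 (nat_lit 6) (nat_lit 0x34001e000a000400008000000000000000000) (nat_lit 0x0) (nat_lit 0x18000c000800000005000a00050000000000000000000) := T_1 (nat_lit 95) (nat_lit 78) (nat_lit 6) (nat_lit 9) (nat_lit 8) L1178896 (by decide +kernel)
theorem L1178898 : W_1 (nat_lit 7) (nat_lit 0x14001e000a000400008000000000000000000) (nat_lit 0x0) (nat_lit 0x18000c006800000005000a00050000000000000000000) := T_1 (nat_lit 145) (nat_lit 146) (nat_lit 3) (nat_lit 6) (nat_lit 7) L1178897 (by decide +kernel)
theorem L1178899 : W_1 (nat_lit 8) (nat_lit 0x10001e000a000400008000000000000000000) (nat_lit 0x0) (nat_lit 0x18000c006e00000005000a00050000000000000000000) := T_1 (nat_lit 142) (nat_lit 141) (nat_lit 1) (nat_lit 9) (nat_lit 7) L1178898 (by decide +kernel)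
theorem L1178900 : W_1 (nat_lit 9) (nat_lit 0x10001e000a000000008000000000000000000) (nat_lit 0x0) (nat_lit 0x18000c006e00000005000e00070000000000000000000) := T_1 (nat_lit 94) (nat_lit 77) (nat_lit 5) (nat_lit 9) (nat_lit 4) L1178899 (by decide +kernel)
theorem L1178901 : W_1 (nat_lit 10) (nat_lit 0x10001e0002000000008000000000000000000) (nat_lit 0x0) (nat_lit 0x18000c006e0000001d000e00070000000000000000000) := T_1 (nat_lit 111) (nat_lit 112) (nat_lit 2) (nat_lit 6) (nat_lit 7) L1178900 (by decide +kernel)
theorem L1178902 : W_1 (nat_lit 11) (nat_lit 0x10001e0002000000000000000000000000000) (nat_lit 0x0) (nat_lit 0x18000c006e0000001d000f00078000000000000000000) := T_1 (nat_lit 75) (nat_lit 92) (nat_lit 7) (nat_lit 7) (nat_lit 4) L1178901 (by decide +kernel)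
theorem L1178903 : W_1 (nat_lit 2) (nat_lit 0x14001e0002000000000000000000000000000) (nat_lit 0x0) (nat_lit 0x800200001000000000000000000000000000) := D_1 (nat_lit 129) (nat_lit 108) (nat_lit 143) (nat_lit 0) (nat_lit 10) (nat_lit 7) (nat_lit 1) (nat_lit 10) (nat_lit 7) (by decide +kernel)
theorem L1178904 : W_1 (nat_lit 3) (nat_lit 0x10001e0002000000000000000000000000000) (nat_lit 0x0) (nat_lit 0xe00200001000000000000000000000000000) := T_1 (nat_lit 142) (nat_lit 141) (nat_lit 1) (nat_lit 9) (nat_lit 7) L1178903 (by decide +kernel)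
theorem L1178905 : W_1 (nat_lit 12) (nat_lit 0x10000e0002000000000000000000000000000) (nat_lit 0x0) (nat_lit 0x18000c00ee0070007d000f00078000000000000000000) := Q_1 (nat_lit 128) (C_1 L1178888 (C_1 L1117943 (C_1 L1178892 (C_1 L1178902 (C_1 L510489 (C_1 L1178904 N_1)))))) (by decide +kernel)
theorem L1178906 : W_1 (nat_lit 2) (nat_lit 0x12001f0006000000008000000000000000000) (nat_lit 0x0) (nat_lit 0x600001000000000000000000000000000) := D_1 (nat_lit 129) (nat_lit 130) (nat_lit 108) (nat_lit 0) (nat_lit 11) (nat_lit 7) (nat_lit 0) (nat_lit 10) (nat_lit 7) (by decide +kernel)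
theorem L1178907 : W_1 (nat_lit 3) (nat_lit 0x12000f0006000000008000000000000000000) (nat_lit 0x0) (nat_lit 0x400700001000000000000000000000000000) := T_1 (nat_lit 128) (nat_lit 142) (nat_lit 1) (nat_lit 9) (nat_lit 7) L1178906 (by decide +kernel)
theorem L1178908 : W_1 (nat_lit 4) (nat_lit 0x10000f0006000000008000000000000000000) (nat_lit 0x0) (nat_lit 0x700700001000000000000000000000000000) := T_1 (nat_lit 141) (nat_lit 140) (nat_lit 1) (nat_lit 8) (nat_lit 7) L1178907 (by decide +kernel)
theorem L1178909 : W_1 (nat_lit 5) (nat_lit 0x10000e0006000000008000000000000000000) (nat_lit 0x0) (nat_lit 0x700718001000000000000000000000000000) := T_1 (nat_lit 124) (nat_lit 123) (nat_lit 2) (nat_lit 4) (nat_lit 7) L1178908 (by decide +kernel)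
theorem L1178910 : W_1 (nat_lit 6) (nat_lit 0x10000e0006000000000000000000000000000) (nat_lit 0x0) (nat_lit 0x700718001000100008000000000000000000) := T_1 (nat_lit 75) (nat_lit 92) (nat_lit 7) (nat_lit 7) (nat_lit 4) L1178909 (by decide +kernel)
theorem L1178911 : W_1 (nat_lit 7) (nat_lit 0x10000e0002000000000000000000000000000) (nat_lit 0x0) (nat_lit 0x70071803d001f00038001c00000000000000) := Q_1 (nat_lit 110) (C_1 L337573 (C_1 L337445 (C_1 L1178910 N_1))) (by decide +kernel)
theorem L1178914 : W_1 (nat_lit 2) (nat_lit 0x10000f8002000000008000000000000000000) (nat_lit 0x0) (nat_lit 0x380000000000000000000000000000000000) := D_1 (nat_lit 140) (nat_lit 141) (nat_lit 139) (nat_lit 1) (nat_lit 8) (nat_lit 7) (nat_lit 1) (nat_lit 7) (nat_lit 7) (by decide +kernel)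
theorem L1178915 : W_1 (nat_lit 3) (nat_lit 0x10000f0002000000008000000000000000000) (nat_lit 0x0) (nat_lit 0xb80008000000000000000000000000000000) := T_1 (nat_lit 123) (nat_lit 143) (nat_lit 3) (nat_lit 4) (nat_lit 7) L1178914 (by decide +kernel)
theorem L1178916 : W_1 (nat_lit 4) (nat_lit 0x10000e0002000000008000000000000000000) (nat_lit 0x0) (nat_lit 0x2b80018000000000000000000000000000000) := T_1 (nat_lit 124) (nat_lit 145) (nat_lit 3) (nat_lit 5) (nat_lit 7) L1178915 (by decide +kernel)
theorem L1178917 : W_1 (nat_lit 5) (nat_lit 0x10000e0002000000000000000000000000000) (nat_lit 0x0) (nat_lit 0x2b80018000000100008000000000000000000) := T_1 (nat_lit 75) (nat_lit 92) (nat_lit 7) (nat_lit 7) (nat_lit 4) L1178916 (by decide +kernel)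
theorem L1178918 : W_1 (nat_lit 13) (nat_lit 0x10000c0002000000000000000000000000000) (nat_lit 0x0) (nat_lit 0x18000c00ef8073807d001f00078001c00000000000000) := Q_1 (nat_lit 125) (C_1 L1178905 (C_1 L1178911 (C_1 L1117965 (C_1 L1178917 N_1)))) (by decide +kernel)
theorem L1178919 : W_1 (nat_lit 14) (nat_lit 0x10000c0000000000000000000000000000000) (nat_lit 0x0) (nat_lit 0x58002c03ef80f380ff001f00078001c00000000000000) := Q_1 (nat_lit 109) (C_1 L1178883 (C_1 L615321 (C_1 L1178918 (C_1 L284220 N_1)))) (by decide +kernel)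
theorem L1178937 : W_1 (nat_lit 2) (nat_lit 0x100014000e0007800240000000000000000000000) (nat_lit 0x0) (nat_lit 0x80002000100000000000000) := D_1 (nat_lit 73) (nat_lit 56) (nat_lit 91) (nat_lit 7) (nat_lit 5) (nat_lit 3) (nat_lit 4) (nat_lit 6) (nat_lit 8) (by decide +kernel)
theorem L1178938 : W_1 (nat_lit 3) (nat_lit 0x100010000e0007800240000000000000000000000) (nat_lit 0x0) (nat_lit 0x8000400000000000080002000100000000000000) := T_1 (nat_lit 142) (nat_lit 159) (nat_lit 4) (nat_lit 6) (nat_lit 9) L1178937 (by decide +kernel)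
theorem L1178939 : W_1 (nat_lit 4) (nat_lit 0x100010000e0007800200000000000000000000000) (nat_lit 0x0) (nat_lit 0x80004000000000000e0002000100000000000000) := T_1 (nat_lit 90) (nat_lit 89) (nat_lit 0) (nat_lit 8) (nat_lit 6) L1178938 (by decide +kernel)
theorem L1178940 : W_1 (nat_lit 5) (nat_lit 0x100010000e0007000200000000000000000000000) (nat_lit 0x0) (nat_lit 0x8000400000000c000e0002000100000000000000) := T_1 (nat_lit 107) (nat_lit 106) (nat_lit 3) (nat_lit 4) (nat_lit 6) L1178939 (by decide +kernel)
theorem L1178941 : W_1 (nat_lit 6) (nat_lit 0x10000e0007000200000000000000000000000) (nat_lit 0x0) (nat_lit 0x18000c00000000c000e0002000100000000000000) := T_1 (nat_lit 160) (nat_lit 143) (nat_lit 6) (nat_lit 7) (nat_lit 9) L1178940 (by decide +kernel)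
theorem L1179490 : W_1 (nat_lit 2) (nat_lit 0x18000e000c000200000000000000000000000) (nat_lit 0x0) (nat_lit 0x32000000000000000000000000000) := D_1 (nat_lit 112) (nat_lit 109) (nat_lit 113) (nat_lit 1) (nat_lit 10) (nat_lit 6) (nat_lit 1) (nat_lit 11) (nat_lit 6) (by decide +kernel)
theorem L1184616 : W_1 (nat_lit 7) (nat_lit 0x10000e0006000200000000000000000000000) (nat_lit 0x0) (nat_lit 0x18000c00000019c004e0006000100000000000000) := Q_1 (nat_lit 108) (C_1 L1178941 (C_1 L1159101 (C_1 L363810 (C_1 L64090 N_1)))) (by decide +kernel)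
theorem L1184617 : W_1 (nat_lit 8) (nat_lit 0x10000c0006000200000000000000000000000) (nat_lit 0x0) (nat_lit 0x18002c00038019c004e0006000100000000000000) := Q_1 (nat_lit 125) (C_1 L1184616 (C_1 L64089 N_1)) (by decide +kernel)
theorem L1185062 : W_1 (nat_lit 5) (nat_lit 0x2000100008000e000000000000000000000000000) (nat_lit 0x0) (nat_lit 0x28001c000e00000000000040000000000000000000000000000000) := T_1 (nat_lit 178) (nat_lit 126) (nat_lit 4) (nat_lit 8) (nat_lit 10) L50780 (by decide +kernel)
theorem L1185063 : W_1 (nat_lit 6) (nat_lit 0x2000100008000c000000000000000000000000000) (nat_lit 0x0) (nat_lit 0x28001c000e00000000000040002000100000000000000000000000) := T_1 (nat_lit 109) (nat_lit 92) (nat_lit 4) (nat_lit 8) (nat_lit 9) L1185062 (by decide +kernel)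
theorem L1185064 : W_1 (nat_lit 7) (nat_lit 0x20001000080004000000000000000000000000000) (nat_lit 0x0) (nat_lit 0x28001c000e0000000000004000a000500000000000000000000000) := T_1 (nat_lit 111) (nat_lit 94) (nat_lit 6) (nat_lit 8) (nat_lit 9) L1185063 (by decide +kernel)
theorem L1185077 : W_1 (nat_lit 2) (nat_lit 0x10000a000f000180000000000000000000000) (nat_lit 0x0) (nat_lit 0x400000000000000008000400000000000000) := D_1 (nat_lit 75) (nat_lit 58) (nat_lit 142) (nat_lit 7) (nat_lit 7) (nat_lit 3) (nat_lit 6) (nat_lit 6) (nat_lit 8) (by decide +kernel)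
theorem L1185078 : W_1 (nat_lit 3) (nat_lit 0x10000a000f000080000000000000000000000) (nat_lit 0x0) (nat_lit 0x400000010000100008000400000000000000) := T_1 (nat_lit 92) (nat_lit 112) (nat_lit 0) (nat_lit 10) (nat_lit 6) L1185077 (by decide +kernel)
theorem L1185079 : W_1 (nat_lit 4) (nat_lit 0x100008000f000080000000000000000000000) (nat_lit 0x0) (nat_lit 0x400030010000100008000400000000000000) := T_1 (nat_lit 125) (nat_lit 124) (nat_lit 1) (nat_lit 9) (nat_lit 6) L1185078 (by decide +kernel)
theorem L1185080 : W_1 (nat_lit 5) (nat_lit 0x100008000f000000000000000000000000000) (nat_lit 0x0) (nat_lit 0x4000300100001c0008000400000000000000) := T_1 (nat_lit 91) (nat_lit 90) (nat_lit 0) (nat_lit 9) (nat_lit 6) L1185079 (by decide +kernel)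
theorem L1185137 : W_1 (nat_lit 2) (nat_lit 0x100008000f800040000000000000000000000) (nat_lit 0x0) (nat_lit 0x38000000000000000000000000000000) := D_1 (nat_lit 124) (nat_lit 125) (nat_lit 123) (nat_lit 1) (nat_lit 9) (nat_lit 6) (nat_lit 1) (nat_lit 8) (nat_lit 6) (by decide +kernel)
theorem L1185138 : W_1 (nat_lit 3) (nat_lit 0x100008000f000040000000000000000000000) (nat_lit 0x0) (nat_lit 0x38000800020000000000000000000000) := T_1 (nat_lit 107) (nat_lit 89) (nat_lit 0) (nat_lit 8) (nat_lit 6) L1185137 (by decide +kernel)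
theorem L1185465 : W_1 (nat_lit 4) (nat_lit 0x100008000f000000000000000000000000000) (nat_lit 0x0) (nat_lit 0x380008000e0000000000000000000000) := T_1 (nat_lit 90) (nat_lit 91) (nat_lit 0) (nat_lit 9) (nat_lit 6) L1185138 (by decide +kernel)
theorem L1186230 : W_1 (nat_lit 2) (nat_lit 0x100048001e001000000000000000000000000) (nat_lit 0x0) (nat_lit 0x800020002000000000000000000000000) := D_1 (nat_lit 113) (nat_lit 131) (nat_lit 97) (nat_lit 3) (nat_lit 8) (nat_lit 6) (nat_lit 2) (nat_lit 8) (nat_lit 6) (by decide +kernel)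
theorem L1186231 : W_1 (nat_lit 3) (nat_lit 0x100048001e000000000000000000000000000) (nat_lit 0x0) (nat_lit 0x800020003800000000000000000000000) := T_1 (nat_lit 96) (nat_lit 95) (nat_lit 2) (nat_lit 7) (nat_lit 6) L1186230 (by decide +kernel)
theorem L1186232 : W_1 (nat_lit 4) (nat_lit 0x100008001e000000000000000000000000000) (nat_lit 0x0) (nat_lit 0xe00020003800000000000000000000000) := T_1 (nat_lit 130) (nat_lit 129) (nat_lit 3) (nat_lit 7) (nat_lit 6) L1186231 (by decide +kernel)
theorem L1186260 : W_1 (nat_lit 2) (nat_lit 0x2000100008000c000200000000000000000000000) (nat_lit 0x0) (nat_lit 0x200010000800000000000000000000000000000000000) := D_1 (nat_lit 160) (nat_lit 177) (nat_lit 143) (nat_lit 5) (nat_lit 8) (nat_lit 6) (nat_lit 5) (nat_lit 8) (nat_lit 5) (by decide +kernel)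
theorem L1186261 : W_1 (nat_lit 3) (nat_lit 0x100008000c000200000000000000000000000) (nat_lit 0x0) (nat_lit 0x200030000800000000000400000000000000000000000) := T_1 (nat_lit 161) (nat_lit 94) (nat_lit 6) (nat_lit 8) (nat_lit 9) L1186260 (by decide +kernel)
theorem L1186262 : W_1 (nat_lit 2) (nat_lit 0x180008000c000200010000c00080000000000) (nat_lit 0x0) (nat_lit 0x400000000000040004000000) := D_1 (nat_lit 42) (nat_lit 94) (nat_lit 26) (nat_lit 7) (nat_lit 8) (nat_lit 2) (nat_lit 6) (nat_lit 8) (nat_lit 5) (by decide +kernel)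
theorem L1186263 : W_1 (nat_lit 3) (nat_lit 0x180008000c000200010000c00000000000000) (nat_lit 0x0) (nat_lit 0x4000000010000c0004000000) := T_1 (nat_lit 43) (nat_lit 60) (nat_lit 6) (nat_lit 8) (nat_lit 6) L1186262 (by decide +kernel)
theorem L1186264 : W_1 (nat_lit 4) (nat_lit 0x180008000c000200010000400000000000000) (nat_lit 0x0) (nat_lit 0x4000000018000e0004000000) := T_1 (nat_lit 59) (nat_lit 41) (nat_lit 4) (nat_lit 8) (nat_lit 6) L1186263 (by decide +kernel)
theorem L1186265 : W_1 (nat_lit 5) (nat_lit 0x180008000c000200010000000000000000000) (nat_lit 0x0) (nat_lit 0x400008001c000e0004000000) := T_1 (nat_lit 58) (nat_lit 75) (nat_lit 4) (nat_lit 8) (nat_lit 7) L1186264 (by decide +kernel)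
theorem L1186266 : W_1 (nat_lit 6) (nat_lit 0x180008000c000200000000000000000000000) (nat_lit 0x0) (nat_lit 0x40000000400018001c000e0004000000) := T_1 (nat_lit 76) (nat_lit 126) (nat_lit 5) (nat_lit 8) (nat_lit 4) L1186265 (by decide +kernel)
theorem L1186267 : W_1 (nat_lit 7) (nat_lit 0x100008000c000200000000000000000000000) (nat_lit 0x0) (nat_lit 0x10000800040000000400018001c000e0004000000) := T_1 (nat_lit 143) (nat_lit 160) (nat_lit 5) (nat_lit 8) (nat_lit 5) L1186266 (by decide +kernel)
theorem L1186268 : W_1 (nat_lit 3) (nat_lit 0x18000c000c000200000000000000000000000) (nat_lit 0x0) (nat_lit 0x30032000000000000000000000000000) := T_1 (nat_lit 125) (nat_lit 124) (nat_lit 2) (nat_lit 5) (nat_lit 7) L1179490 (by decide +kernel)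
theorem L1186269 : W_1 (nat_lit 4) (nat_lit 0x180008000c000200000000000000000000000) (nat_lit 0x0) (nat_lit 0x70032000000010000000000000000000) := T_1 (nat_lit 126) (nat_lit 76) (nat_lit 5) (nat_lit 8) (nat_lit 4) L1186268 (by decide +kernel)
theorem L1186270 : W_1 (nat_lit 5) (nat_lit 0x100008000c000200000000000000000000000) (nat_lit 0x0) (nat_lit 0x10000800070032000000010000000000000000000) := T_1 (nat_lit 143) (nat_lit 160) (nat_lit 5) (nat_lit 8) (nat_lit 5) L1186269 (by decide +kernel)
theorem L1186271 : W_1 (nat_lit 11) (nat_lit 0x1000080004000200000000000000000000000) (nat_lit 0x0) (nat_lit 0x600030000801e7c07bc03ce0018001c000e0004000000) := Q_1 (nat_lit 111) (C_1 L61430 (C_1 L1186261 (C_1 L1186267 (C_1 L1186270 N_1)))) (by decide +kernel)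
theorem L1186272 : W_1 (nat_lit 2) (nat_lit 0x1800080004000200010001400000000000000) (nat_lit 0x0) (nat_lit 0x8000a0000000000) := D_1 (nat_lit 59) (nat_lit 41) (nat_lit 43) (nat_lit 4) (nat_lit 8) (nat_lit 6) (nat_lit 6) (nat_lit 8) (nat_lit 6) (by decide +kernel)
theorem L1186273 : W_1 (nat_lit 3) (nat_lit 0x1800080004000200010000400000000000000) (nat_lit 0x0) (nat_lit 0x200018000a0000000000) := T_1 (nat_lit 60) (nat_lit 77) (nat_lit 6) (nat_lit 8) (nat_lit 7) L1186272 (by decide +kernel)
theorem L1186274 : W_1 (nat_lit 4) (nat_lit 0x1800080004000200010000000000000000000) (nat_lit 0x0) (nat_lit 0x28001c000a0000000000) := T_1 (nat_lit 58) (nat_lit 75) (nat_lit 4) (nat_lit 8) (nat_lit 7) L1186273 (by decide +kernel)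
theorem L1186275 : W_1 (nat_lit 5) (nat_lit 0x1800080004000200000000000000000000000) (nat_lit 0x0) (nat_lit 0x40000000000038001c000a0000000000) := T_1 (nat_lit 76) (nat_lit 126) (nat_lit 5) (nat_lit 8) (nat_lit 4) L1186274 (by decide +kernel)
theorem L1186276 : W_1 (nat_lit 6) (nat_lit 0x1000080004000200000000000000000000000) (nat_lit 0x0) (nat_lit 0x10000800040000000000038001c000a0000000000) := T_1 (nat_lit 143) (nat_lit 160) (nat_lit 5) (nat_lit 8) (nat_lit 5) L1186275 (by decide +kernel)
theorem L1186277 : W_1 (nat_lit 12) (nat_lit 0x1000080004000000000000000000000000000) (nat_lit 0x0) (nat_lit 0x40006001b000e801e7c0fbc03ee03f8007c002e0004000000) := Q_1 (nat_lit 93) (C_1 L1048887 (C_1 L1048870 (C_1 L75066 (C_1 L1186271 (C_1 L1186276 N_1))))) (by decide +kernel)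
theorem L1186278 : W_1 (nat_lit 2) (nat_lit 0x2000100008000c000300000000000000000000000) (nat_lit 0x0) (nat_lit 0x200010000800000000000000000000000000000000000) := D_1 (nat_lit 160) (nat_lit 177) (nat_lit 143) (nat_lit 5) (nat_lit 8) (nat_lit 6) (nat_lit 5) (nat_lit 8) (nat_lit 5) (by decide +kernel)
theorem L1186279 : W_1 (nat_lit 3) (nat_lit 0x2000100008000c000100000000000000000000000) (nat_lit 0x0) (nat_lit 0x200010000800000000000200008000000000000000000) := T_1 (nat_lit 93) (nat_lit 75) (nat_lit 4) (nat_lit 8) (nat_lit 8) L1186278 (by decide +kernel)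
theorem L1186280 : W_1 (nat_lit 4) (nat_lit 0x20001000080004000100000000000000000000000) (nat_lit 0x0) (nat_lit 0x200010000800000008000600008000000000000000000) := T_1 (nat_lit 111) (nat_lit 94) (nat_lit 6) (nat_lit 8) (nat_lit 9) L1186279 (by decide +kernel)
theorem L1186281 : W_1 (nat_lit 5) (nat_lit 0x20001000080004000000000000000000000000000) (nat_lit 0x0) (nat_lit 0x20001000080000000a000700008000000000000000000) := T_1 (nat_lit 92) (nat_lit 109) (nat_lit 4) (nat_lit 8) (nat_lit 9) L1186280 (by decide +kernel)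
theorem L1186282 : W_1 (nat_lit 3) (nat_lit 0x2000100008000e000000000000000000000000000) (nat_lit 0x0) (nat_lit 0x400000000000060030000000000000000000000000000) := T_1 (nat_lit 126) (nat_lit 178) (nat_lit 4) (nat_lit 8) (nat_lit 10) L1048998 (by decide +kernel)
theorem L1186283 : W_1 (nat_lit 4) (nat_lit 0x2000100008000c000000000000000000000000000) (nat_lit 0x0) (nat_lit 0x400000000000060032000100000000000000000000000) := T_1 (nat_lit 109) (nat_lit 92) (nat_lit 4) (nat_lit 8) (nat_lit 9) L1186282 (by decide +kernel)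
theorem L1186284 : W_1 (nat_lit 5) (nat_lit 0x20001000080004000000000000000000000000000) (nat_lit 0x0) (nat_lit 0x40000000000006003a000500000000000000000000000) := T_1 (nat_lit 111) (nat_lit 94) (nat_lit 6) (nat_lit 8) (nat_lit 9) L1186283 (by decide +kernel)
theorem L1186976 : W_1 (nat_lit 3) (nat_lit 0x200020001000080004000200000000000000000000000) (nat_lit 0x0) (nat_lit 0x4000400000000000040002000100000000000000000000000) := T_1 (nat_lit 109) (nat_lit 92) (nat_lit 4) (nat_lit 8) (nat_lit 9) L49310 (by decide +kernel)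
theorem L1186977 : W_1 (nat_lit 4) (nat_lit 0x20001000080004000200000000000000000000000) (nat_lit 0x0) (nat_lit 0x4000600010000000040002000100000000000000000000000) := T_1 (nat_lit 177) (nat_lit 160) (nat_lit 5) (nat_lit 8) (nat_lit 6) L1186976 (by decide +kernel)
theorem L1186978 : W_1 (nat_lit 2) (nat_lit 0x20001000080004000200000000000000000000000) (nat_lit 0x0) (nat_lit 0x200010000800000000000000000000000000000000000) := D_1 (nat_lit 160) (nat_lit 177) (nat_lit 143) (nat_lit 5) (nat_lit 8) (nat_lit 6) (nat_lit 5) (nat_lit 8) (nat_lit 5) (by decide +kernel)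
theorem L1186979 : W_1 (nat_lit 4) (nat_lit 0x400020001000080006000200000000000000000000000) (nat_lit 0x0) (nat_lit 0x28001c000a00000000000000000000000000000000000000000000) := T_1 (nat_lit 194) (nat_lit 177) (nat_lit 5) (nat_lit 8) (nat_lit 7) L1262 (by decide +kernel)
theorem L1186980 : W_1 (nat_lit 5) (nat_lit 0x20001000080006000200000000000000000000000) (nat_lit 0x0) (nat_lit 0x28001c000e00000000000040000000000000000000000000000000) := T_1 (nat_lit 178) (nat_lit 126) (nat_lit 4) (nat_lit 8) (nat_lit 10) L1186979 (by decide +kernel)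
theorem L1186981 : W_1 (nat_lit 6) (nat_lit 0x20001000080004000200000000000000000000000) (nat_lit 0x0) (nat_lit 0x28001c000e00000000000040002000100000000000000000000000) := T_1 (nat_lit 109) (nat_lit 92) (nat_lit 4) (nat_lit 8) (nat_lit 9) L1186980 (by decide +kernel)
theorem L1186982 : W_1 (nat_lit 2) (nat_lit 0x20001800080006000200000000000000000000000) (nat_lit 0x0) (nat_lit 0x400000000000040000000000010000000000000000000) := D_1 (nat_lit 126) (nat_lit 76) (nat_lit 178) (nat_lit 5) (nat_lit 8) (nat_lit 4) (nat_lit 4) (nat_lit 8) (nat_lit 10) (by decide +kernel)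
theorem L1186983 : W_1 (nat_lit 3) (nat_lit 0x20001000080006000200000000000000000000000) (nat_lit 0x0) (nat_lit 0x400010000800040000000000010000000000000000000) := T_1 (nat_lit 143) (nat_lit 160) (nat_lit 5) (nat_lit 8) (nat_lit 5) L1186982 (by decide +kernel)
theorem L1186984 : W_1 (nat_lit 4) (nat_lit 0x20001000080004000200000000000000000000000) (nat_lit 0x0) (nat_lit 0x400010000800040002000100010000000000000000000) := T_1 (nat_lit 109) (nat_lit 92) (nat_lit 4) (nat_lit 8) (nat_lit 9) L1186983 (by decide +kernel)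
theorem L1186985 : W_1 (nat_lit 7) (nat_lit 0x1000080004000200000000000000000000000) (nat_lit 0x0) (nat_lit 0x28001c000e00030000800040002000100010000000000000000000) := Q_1 (nat_lit 161) (C_1 L1186977 (C_1 L1186978 (C_1 L1186981 (C_1 L1186984 N_1)))) (by decide +kernel)
theorem L1186986 : W_1 (nat_lit 8) (nat_lit 0x1000080004000000000000000000000000000) (nat_lit 0x0) (nat_lit 0x28001c000e00030000800040002000300038001c000e0000000000) := Q_1 (nat_lit 93) (C_1 L1048890 (C_1 L1186276 (C_1 L76322 (C_1 L1186985 N_1)))) (by decide +kernel)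
theorem L1186987 : W_1 (nat_lit 7) (nat_lit 0x1000080004000000000000000000000000000) (nat_lit 0x0) (nat_lit 0x20001c000e0003000080006003a000700020000000000000000000) := Q_1 (nat_lit 161) (C_1 L1048897 (C_1 L1186284 (C_1 L1048908 N_1))) (by decide +kernel)
theorem L1186989 : W_1 (nat_lit 6) (nat_lit 0x1000080004000200010000000000000000000) (nat_lit 0x0) (nat_lit 0x2000100008000000000001c000e0005000000) := T_1 (nat_lit 128) (nat_lit 145) (nat_lit 7) (nat_lit 8) (nat_lit 4) L568037 (by decide +kernel)
theorem L1186990 : W_1 (nat_lit 2) (nat_lit 0x1800180004000300010000800080000000000) (nat_lit 0x0) (nat_lit 0x2000000000000000040004000000) := D_1 (nat_lit 42) (nat_lit 109) (nat_lit 26) (nat_lit 5) (nat_lit 8) (nat_lit 2) (nat_lit 6) (nat_lit 8) (nat_lit 5) (by decide +kernel)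
theorem L1186991 : W_1 (nat_lit 3) (nat_lit 0x1800180004000300010000800000000000000) (nat_lit 0x0) (nat_lit 0x20000000000010000c0004000000) := T_1 (nat_lit 43) (nat_lit 60) (nat_lit 6) (nat_lit 8) (nat_lit 6) L1186990 (by decide +kernel)
theorem L1186992 : W_1 (nat_lit 4) (nat_lit 0x1800180004000300010000000000000000000) (nat_lit 0x0) (nat_lit 0xa0000000000018000c0004000000) := T_1 (nat_lit 59) (nat_lit 111) (nat_lit 7) (nat_lit 8) (nat_lit 3) L1186991 (by decide +kernel)
theorem L1186993 : W_1 (nat_lit 5) (nat_lit 0x1800080004000300010000000000000000000) (nat_lit 0x0) (nat_lit 0x200010000a0000000000018000c0004000000) := T_1 (nat_lit 128) (nat_lit 145) (nat_lit 7) (nat_lit 8) (nat_lit 4) L1186992 (by decide +kernel)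
theorem L1186994 : W_1 (nat_lit 6) (nat_lit 0x1800080004000200010000000000000000000) (nat_lit 0x0) (nat_lit 0x200010000a0001000080018000c0004000000) := T_1 (nat_lit 92) (nat_lit 75) (nat_lit 4) (nat_lit 8) (nat_lit 8) L1186993 (by decide +kernel)
theorem L1186995 : W_1 (nat_lit 7) (nat_lit 0x1000080004000200010000000000000000000) (nat_lit 0x0) (nat_lit 0x1000280010000a0001000080018000c0004000000) := T_1 (nat_lit 143) (nat_lit 160) (nat_lit 5) (nat_lit 8) (nat_lit 5) L1186994 (by decide +kernel)
theorem L1186996 : W_1 (nat_lit 8) (nat_lit 0x1000080004000200000000000000000000000) (nat_lit 0x0) (nat_lit 0x1000280010000a000100018001c000e0005000000) := Q_1 (nat_lit 76) (C_1 L158 (C_1 L155 (C_1 L1186989 (C_1 L1186995 N_1)))) (by decide +kernel)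
theorem L1186997 : W_1 (nat_lit 2) (nat_lit 0x1800080016000fc0040000000000000000000) (nat_lit 0x0) (nat_lit 0x7000000000000000000) := D_1 (nat_lit 73) (nat_lit 74) (nat_lit 72) (nat_lit 0) (nat_lit 9) (nat_lit 5) (nat_lit 0) (nat_lit 8) (nat_lit 5) (by decide +kernel)
theorem L1186998 : W_1 (nat_lit 3) (nat_lit 0x1800080016000f80040000000000000000000) (nat_lit 0x0) (nat_lit 0x60007000000000000000000) := T_1 (nat_lit 90) (nat_lit 89) (nat_lit 3) (nat_lit 4) (nat_lit 5) L1186997 (by decide +kernel)
theorem L1186999 : W_1 (nat_lit 4) (nat_lit 0x1800080016000f00040000000000000000000) (nat_lit 0x0) (nat_lit 0x80000e0007000000000000000000) := T_1 (nat_lit 91) (nat_lit 111) (nat_lit 3) (nat_lit 6) (nat_lit 5) L1186998 (by decide +kernel)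
theorem L1187000 : W_1 (nat_lit 5) (nat_lit 0x1800080006000f00040000000000000000000) (nat_lit 0x0) (nat_lit 0x380000e0007000000000000000000) := T_1 (nat_lit 112) (nat_lit 113) (nat_lit 3) (nat_lit 7) (nat_lit 5) L1186999 (by decide +kernel)
theorem L1187001 : W_1 (nat_lit 6) (nat_lit 0x1800080006000f00000000000000000000000) (nat_lit 0x0) (nat_lit 0x380000e00c7000000000000000000) := T_1 (nat_lit 78) (nat_lit 79) (nat_lit 2) (nat_lit 7) (nat_lit 5) L1187000 (by decide +kernel)
theorem L1187002 : W_1 (nat_lit 7) (nat_lit 0x1800080006000700000000000000000000000) (nat_lit 0x0) (nat_lit 0x380018e00c7000000000000000000) := T_1 (nat_lit 95) (nat_lit 96) (nat_lit 1) (nat_lit 11) (nat_lit 5) L1187001 (by decide +kernel)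
theorem L1187003 : W_1 (nat_lit 8) (nat_lit 0x1800080006000300000000000000000000000) (nat_lit 0x0) (nat_lit 0x38001ce00e7000000000000000000) := T_1 (nat_lit 94) (nat_lit 77) (nat_lit 6) (nat_lit 8) (nat_lit 8) L1187002 (by decide +kernel)
theorem L1187004 : W_1 (nat_lit 9) (nat_lit 0x1000080006000300000000000000000000000) (nat_lit 0x0) (nat_lit 0x10000800000038001ce00e7000000000000000000) := T_1 (nat_lit 143) (nat_lit 160) (nat_lit 5) (nat_lit 8) (nat_lit 5) L1187003 (by decide +kernel)
theorem L1187005 : W_1 (nat_lit 10) (nat_lit 0x1000080006000200000000000000000000000) (nat_lit 0x0) (nat_lit 0x10000800000038001de00ef000000000000000000) := T_1 (nat_lit 92) (nat_lit 75) (nat_lit 4) (nat_lit 8) (nat_lit 8) L1187004 (by decide +kernel)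
theorem L1187006 : W_1 (nat_lit 5) (nat_lit 0x1000080007000200000000000000000000000) (nat_lit 0x0) (nat_lit 0x11c000c00070000000000000000000000) := T_1 (nat_lit 107) (nat_lit 128) (nat_lit 3) (nat_lit 5) (nat_lit 6) L135998 (by decide +kernel)
theorem L1187007 : W_1 (nat_lit 2) (nat_lit 0x18000a001f000a00000000000000000000000) (nat_lit 0x0) (nat_lit 0x700000000000000000000000000000000) := D_1 (nat_lit 129) (nat_lit 128) (nat_lit 130) (nat_lit 3) (nat_lit 6) (nat_lit 6) (nat_lit 3) (nat_lit 7) (nat_lit 6) (by decide +kernel)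
theorem L1187008 : W_1 (nat_lit 3) (nat_lit 0x18000a000f000a00000000000000000000000) (nat_lit 0x0) (nat_lit 0x700010001000000000000000000000000) := T_1 (nat_lit 112) (nat_lit 96) (nat_lit 2) (nat_lit 7) (nat_lit 6) L1187007 (by decide +kernel)
theorem L1187009 : W_1 (nat_lit 4) (nat_lit 0x10000a000f000a00000000000000000000000) (nat_lit 0x0) (nat_lit 0x10000800700010001000000000000000000000000) := T_1 (nat_lit 143) (nat_lit 160) (nat_lit 5) (nat_lit 8) (nat_lit 5) L1187008 (by decide +kernel)
theorem L1187010 : W_1 (nat_lit 5) (nat_lit 0x10000a000f000200000000000000000000000) (nat_lit 0x0) (nat_lit 0x10000800700010001c00000000000000000000000) := T_1 (nat_lit 95) (nat_lit 94) (nat_lit 2) (nat_lit 6) (nat_lit 6) L1187009 (by decide +kernel)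
theorem L1187011 : W_1 (nat_lit 6) (nat_lit 0x100008000f000200000000000000000000000) (nat_lit 0x0) (nat_lit 0x10000800730010001c00000000000000000000000) := T_1 (nat_lit 125) (nat_lit 124) (nat_lit 1) (nat_lit 9) (nat_lit 6) L1187010 (by decide +kernel)
theorem L1187012 : W_1 (nat_lit 8) (nat_lit 0x1000080007000200000000000000000000000) (nat_lit 0x0) (nat_lit 0x18000e00730018001dc0008000000000000000000) := Q_1 (nat_lit 111) (C_1 L1048601 (C_1 L1048629 (C_1 L1187011 N_1))) (by decide +kernel)
theorem L1187013 : W_1 (nat_lit 9) (nat_lit 0x1000080006000200000000000000000000000) (nat_lit 0x0) (nat_lit 0x18000e0073c019c01df0008000000000000000000) := Q_1 (nat_lit 108) (C_1 L1048599 (C_1 L115 (C_1 L1187006 (C_1 L1187012 N_1)))) (by decide +kernel)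
theorem L1187064 : W_1 (nat_lit 2) (nat_lit 0x1800380007000300000000000000000000000) (nat_lit 0x0) (nat_lit 0x2600000000000000000000000000000000000) := D_1 (nat_lit 142) (nat_lit 145) (nat_lit 141) (nat_lit 2) (nat_lit 6) (nat_lit 8) (nat_lit 2) (nat_lit 5) (nat_lit 8) (by decide +kernel)
theorem L1187065 : W_1 (nat_lit 3) (nat_lit 0x1000380007000300000000000000000000000) (nat_lit 0x0) (nat_lit 0x10002e00000000000000000000000000000000000) := T_1 (nat_lit 143) (nat_lit 160) (nat_lit 5) (nat_lit 8) (nat_lit 5) L1187064 (by decide +kernel)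
theorem L1187066 : W_1 (nat_lit 4) (nat_lit 0x1000180007000300000000000000000000000) (nat_lit 0x0) (nat_lit 0x10002e00600000000000000000000000000000000) := T_1 (nat_lit 129) (nat_lit 130) (nat_lit 0) (nat_lit 11) (nat_lit 7) L1187065 (by decide +kernel)
theorem L1187067 : W_1 (nat_lit 5) (nat_lit 0x1000180007000200000000000000000000000) (nat_lit 0x0) (nat_lit 0x10002e00600000000100008000000000000000000) := T_1 (nat_lit 92) (nat_lit 75) (nat_lit 4) (nat_lit 8) (nat_lit 8) L1187066 (by decide +kernel)
theorem L1187075 : W_1 (nat_lit 2) (nat_lit 0x1c00180006000200000000000000000000000) (nat_lit 0x0) (nat_lit 0x2000600000000000000000000000000000000) := D_1 (nat_lit 129) (nat_lit 130) (nat_lit 145) (nat_lit 1) (nat_lit 11) (nat_lit 7) (nat_lit 2) (nat_lit 6) (nat_lit 8) (by decide +kernel)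
theorem L1187076 : W_1 (nat_lit 3) (nat_lit 0x1800180006000200000000000000000000000) (nat_lit 0x0) (nat_lit 0x2600600000000000000000000000000000000) := T_1 (nat_lit 142) (nat_lit 141) (nat_lit 2) (nat_lit 5) (nat_lit 8) L1187075 (by decide +kernel)
theorem L1187077 : W_1 (nat_lit 4) (nat_lit 0x1000180006000200000000000000000000000) (nat_lit 0x0) (nat_lit 0x10002e00600000000000000000000000000000000) := T_1 (nat_lit 143) (nat_lit 160) (nat_lit 5) (nat_lit 8) (nat_lit 5) L1187076 (by decide +kernel)
theorem L1187080 : W_1 (nat_lit 2) (nat_lit 0x100018000c000700010000000000000000000) (nat_lit 0x0) (nat_lit 0x100000c0000000000000000000000) := D_1 (nat_lit 91) (nat_lit 112) (nat_lit 90) (nat_lit 3) (nat_lit 6) (nat_lit 5) (nat_lit 3) (nat_lit 5) (nat_lit 5) (by decide +kernel)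
theorem L1187081 : W_1 (nat_lit 3) (nat_lit 0x1000180004000700010000000000000000000) (nat_lit 0x0) (nat_lit 0x180000c0000000800000000000000) := T_1 (nat_lit 111) (nat_lit 59) (nat_lit 7) (nat_lit 8) (nat_lit 3) L1187080 (by decide +kernel)
theorem L1187082 : W_1 (nat_lit 4) (nat_lit 0x1000080004000700010000000000000000000) (nat_lit 0x0) (nat_lit 0x20001000180000c0000000800000000000000) := T_1 (nat_lit 128) (nat_lit 145) (nat_lit 7) (nat_lit 8) (nat_lit 4) L1187081 (by decide +kernel)
theorem L1187083 : W_1 (nat_lit 5) (nat_lit 0x1000080004000300010000000000000000000) (nat_lit 0x0) (nat_lit 0x20001000180004c0020000800000000000000) := T_1 (nat_lit 94) (nat_lit 77) (nat_lit 6) (nat_lit 8) (nat_lit 8) L1187082 (by decide +kernel)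
theorem L1187084 : W_1 (nat_lit 2) (nat_lit 0x1000080004000380010000000000000000000) (nat_lit 0x0) (nat_lit 0x440020000000000000000000) := D_1 (nat_lit 77) (nat_lit 94) (nat_lit 90) (nat_lit 6) (nat_lit 8) (nat_lit 8) (nat_lit 2) (nat_lit 5) (nat_lit 5) (by decide +kernel)
theorem L1187085 : W_1 (nat_lit 2) (nat_lit 0x18000800040003e0010000000000000000000) (nat_lit 0x0) (nat_lit 0xe00000000000000000000000000) := D_1 (nat_lit 106) (nat_lit 105) (nat_lit 107) (nat_lit 1) (nat_lit 7) (nat_lit 5) (nat_lit 1) (nat_lit 8) (nat_lit 5) (by decide +kernel)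
theorem L1187086 : W_1 (nat_lit 3) (nat_lit 0x18000800040003c0010000000000000000000) (nat_lit 0x0) (nat_lit 0x2e00020000000000000000000000) := T_1 (nat_lit 89) (nat_lit 109) (nat_lit 3) (nat_lit 4) (nat_lit 5) L1187085 (by decide +kernel)
theorem L1187087 : W_1 (nat_lit 4) (nat_lit 0x1800080004000380010000000000000000000) (nat_lit 0x0) (nat_lit 0xae00060000000000000000000000) := T_1 (nat_lit 90) (nat_lit 111) (nat_lit 3) (nat_lit 5) (nat_lit 5) L1187086 (by decide +kernel)
theorem L1187088 : W_1 (nat_lit 5) (nat_lit 0x1000080004000380010000000000000000000) (nat_lit 0x0) (nat_lit 0x1000080000000ae00060000000000000000000000) := T_1 (nat_lit 143) (nat_lit 160) (nat_lit 5) (nat_lit 8) (nat_lit 5) L1187087 (by decide +kernel)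
theorem L1187089 : W_1 (nat_lit 2) (nat_lit 0x100008000c000780010000000000000000000) (nat_lit 0x0) (nat_lit 0x100000000000000000800040000000000) := D_1 (nat_lit 59) (nat_lit 42) (nat_lit 128) (nat_lit 7) (nat_lit 8) (nat_lit 2) (nat_lit 7) (nat_lit 8) (nat_lit 3) (by decide +kernel)
theorem L1187090 : W_1 (nat_lit 3) (nat_lit 0x1000080004000780010000000000000000000) (nat_lit 0x0) (nat_lit 0x100018000000000000800040000000000) := T_1 (nat_lit 111) (nat_lit 112) (nat_lit 3) (nat_lit 6) (nat_lit 5) L1187089 (by decide +kernel)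
theorem L1187091 : W_1 (nat_lit 4) (nat_lit 0x1000080004000380010000000000000000000) (nat_lit 0x0) (nat_lit 0x100018000400020000800040000000000) := T_1 (nat_lit 94) (nat_lit 77) (nat_lit 6) (nat_lit 8) (nat_lit 8) L1187090 (by decide +kernel)
theorem L1187092 : W_1 (nat_lit 6) (nat_lit 0x1000080004000300010000000000000000000) (nat_lit 0x0) (nat_lit 0x1000080010001ae004e0020000800040000000000) := Q_1 (nat_lit 91) (C_1 L1187084 (C_1 L1187088 (C_1 L1187091 N_1))) (by decide +kernel)
theorem L1187093 : W_1 (nat_lit 2) (nat_lit 0x180008000d000f80094000000040000000000) (nat_lit 0x0) (nat_lit 0x3000100000000000000000000) := D_1 (nat_lit 96) (nat_lit 97) (nat_lit 80) (nat_lit 1) (nat_lit 12) (nat_lit 5) (nat_lit 2) (nat_lit 8) (nat_lit 5) (by decide +kernel)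
theorem L1187094 : W_1 (nat_lit 3) (nat_lit 0x180008000d000f80014000000040000000000) (nat_lit 0x0) (nat_lit 0x30001c0000000000000000000) := T_1 (nat_lit 79) (nat_lit 78) (nat_lit 2) (nat_lit 7) (nat_lit 5) L1187093 (by decide +kernel)
theorem L1187095 : W_1 (nat_lit 4) (nat_lit 0x180008000d000780014000000040000000000) (nat_lit 0x0) (nat_lit 0x20038001c0000000000000000000) := T_1 (nat_lit 95) (nat_lit 109) (nat_lit 2) (nat_lit 6) (nat_lit 6) L1187094 (by decide +kernel)
theorem L1187096 : W_1 (nat_lit 5) (nat_lit 0x180008000d000780010000000040000000000) (nat_lit 0x0) (nat_lit 0x20038001c6000000000000000000) := T_1 (nat_lit 74) (nat_lit 73) (nat_lit 0) (nat_lit 9) (nat_lit 5) L1187095 (by decide +kernel)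
theorem L1187097 : W_1 (nat_lit 6) (nat_lit 0x180008000c000780010000000040000000000) (nat_lit 0x0) (nat_lit 0x38038001c6000000000000000000) := T_1 (nat_lit 108) (nat_lit 107) (nat_lit 1) (nat_lit 9) (nat_lit 5) L1187096 (by decide +kernel)
theorem L1187098 : W_1 (nat_lit 7) (nat_lit 0x180008000c000780010000000000000000000) (nat_lit 0x0) (nat_lit 0x38038001c6000800040000000000) := T_1 (nat_lit 42) (nat_lit 59) (nat_lit 7) (nat_lit 8) (nat_lit 2) L1187097 (by decide +kernel)
theorem L1187099 : W_1 (nat_lit 8) (nat_lit 0x1800080004000780010000000000000000000) (nat_lit 0x0) (nat_lit 0x1b8038001c6000800040000000000) := T_1 (nat_lit 111) (nat_lit 112) (nat_lit 3) (nat_lit 6) (nat_lit 5) L1187098 (by decide +kernel)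
theorem L1187100 : W_1 (nat_lit 9) (nat_lit 0x1800080004000380010000000000000000000) (nat_lit 0x0) (nat_lit 0x1b803c001e6000800040000000000) := T_1 (nat_lit 94) (nat_lit 77) (nat_lit 6) (nat_lit 8) (nat_lit 8) L1187099 (by decide +kernel)
theorem L1187101 : W_1 (nat_lit 10) (nat_lit 0x1000080004000380010000000000000000000) (nat_lit 0x0) (nat_lit 0x1000080000001b803c001e6000800040000000000) := T_1 (nat_lit 143) (nat_lit 160) (nat_lit 5) (nat_lit 8) (nat_lit 5) L1187100 (by decide +kernel)
theorem L1187102 : W_1 (nat_lit 11) (nat_lit 0x1000080004000300010000000000000000000) (nat_lit 0x0) (nat_lit 0x1000080000001be03ce01e6000800040000000000) := Q_1 (nat_lit 91) (C_1 L1187088 (C_1 L1187084 (C_1 L1187101 N_1))) (by decide +kernel)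
theorem L1187103 : W_1 (nat_lit 2) (nat_lit 0x10001800040003e0010000000000000000000) (nat_lit 0x0) (nat_lit 0x3800000000000000000) := D_1 (nat_lit 72) (nat_lit 73) (nat_lit 71) (nat_lit 0) (nat_lit 8) (nat_lit 5) (nat_lit 0) (nat_lit 7) (nat_lit 5) (by decide +kernel)
theorem L1187104 : W_1 (nat_lit 3) (nat_lit 0x10001800040003c0010000000000000000000) (nat_lit 0x0) (nat_lit 0x2000020003800000000000000000) := T_1 (nat_lit 89) (nat_lit 109) (nat_lit 3) (nat_lit 4) (nat_lit 5) L1187103 (by decide +kernel)
theorem L1187105 : W_1 (nat_lit 4) (nat_lit 0x10000800040003c0010000000000000000000) (nat_lit 0x0) (nat_lit 0x2000100002000020003800000000000000000) := T_1 (nat_lit 128) (nat_lit 145) (nat_lit 7) (nat_lit 8) (nat_lit 4) L1187104 (by decide +kernel)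
theorem L1187106 : W_1 (nat_lit 2) (nat_lit 0x10001800048003c0010000000000000000000) (nat_lit 0x0) (nat_lit 0x3000400000000000000000000000) := D_1 (nat_lit 108) (nat_lit 109) (nat_lit 94) (nat_lit 3) (nat_lit 5) (nat_lit 6) (nat_lit 1) (nat_lit 9) (nat_lit 5) (by decide +kernel)
theorem L1187107 : W_1 (nat_lit 3) (nat_lit 0x10000800048003c0010000000000000000000) (nat_lit 0x0) (nat_lit 0x2000100003000400000000000000000000000) := T_1 (nat_lit 128) (nat_lit 145) (nat_lit 7) (nat_lit 8) (nat_lit 4) L1187106 (by decide +kernel)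
theorem L1187108 : W_1 (nat_lit 4) (nat_lit 0x10000800040003c0010000000000000000000) (nat_lit 0x0) (nat_lit 0x2000100003c00400000000000000000000000) := T_1 (nat_lit 107) (nat_lit 106) (nat_lit 1) (nat_lit 8) (nat_lit 5) L1187107 (by decide +kernel)
theorem L1187109 : W_1 (nat_lit 5) (nat_lit 0x1000080004000380010000000000000000000) (nat_lit 0x0) (nat_lit 0x2000100003e00460003800000000000000000) := Q_1 (nat_lit 90) (C_1 L128150 (C_1 L1187105 (C_1 L1187108 N_1))) (by decide +kernel)
theorem L1187110 : W_1 (nat_lit 4) (nat_lit 0x1000180004000380010000000000000000000) (nat_lit 0x0) (nat_lit 0x2000060023800000000000000000) := T_1 (nat_lit 90) (nat_lit 77) (nat_lit 2) (nat_lit 5) (nat_lit 5) L1187104 (by decide +kernel)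
theorem L1187111 : W_1 (nat_lit 5) (nat_lit 0x1000080004000380010000000000000000000) (nat_lit 0x0) (nat_lit 0x2000100002000060023800000000000000000) := T_1 (nat_lit 128) (nat_lit 145) (nat_lit 7) (nat_lit 8) (nat_lit 4) L1187110 (by decide +kernel)
theorem L1187112 : W_1 (nat_lit 2) (nat_lit 0x1a00580025000f80054000000000000000000) (nat_lit 0x0) (nat_lit 0x8000000040001000000000000000000000000) := D_1 (nat_lit 96) (nat_lit 114) (nat_lit 147) (nat_lit 3) (nat_lit 8) (nat_lit 5) (nat_lit 4) (nat_lit 11) (nat_lit 8) (by decide +kernel)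
theorem L1187113 : W_1 (nat_lit 3) (nat_lit 0x1a00180025000f80054000000000000000000) (nat_lit 0x0) (nat_lit 0x8000600040001000000000000000000000000) := T_1 (nat_lit 130) (nat_lit 129) (nat_lit 1) (nat_lit 11) (nat_lit 7) L1187112 (by decide +kernel)
theorem L1187114 : W_1 (nat_lit 4) (nat_lit 0x1800180025000f80054000000000000000000) (nat_lit 0x0) (nat_lit 0x8600600040001000000000000000000000000) := T_1 (nat_lit 141) (nat_lit 142) (nat_lit 2) (nat_lit 5) (nat_lit 8) L1187113 (by decide +kernel)
theorem L1187115 : W_1 (nat_lit 5) (nat_lit 0x1000180025000f80054000000000000000000) (nat_lit 0x0) (nat_lit 0x10008e00600040001000000000000000000000000) := T_1 (nat_lit 143) (nat_lit 160) (nat_lit 5) (nat_lit 8) (nat_lit 5) L1187114 (by decide +kernel)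
theorem L1187116 : W_1 (nat_lit 6) (nat_lit 0x1000180005000f80054000000000000000000) (nat_lit 0x0) (nat_lit 0x10008e00600070001000000000000000000000000) := T_1 (nat_lit 113) (nat_lit 112) (nat_lit 3) (nat_lit 7) (nat_lit 5) L1187115 (by decide +kernel)
theorem L1187117 : W_1 (nat_lit 7) (nat_lit 0x1000180005000f80014000000000000000000) (nat_lit 0x0) (nat_lit 0x10008e006000700010000c0000000000000000000) := T_1 (nat_lit 78) (nat_lit 79) (nat_lit 2) (nat_lit 7) (nat_lit 5) L1187116 (by decide +kernel)
theorem L1187118 : W_1 (nat_lit 8) (nat_lit 0x1000080005000f80014000000000000000000) (nat_lit 0x0) (nat_lit 0x1000ae007000700010000c0000000000000000000) := T_1 (nat_lit 128) (nat_lit 145) (nat_lit 7) (nat_lit 8) (nat_lit 4) L1187117 (by decide +kernel)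
theorem L1187119 : W_1 (nat_lit 9) (nat_lit 0x1000080005000780014000000000000000000) (nat_lit 0x0) (nat_lit 0x1000ae007000720018000c0000000000000000000) := T_1 (nat_lit 95) (nat_lit 109) (nat_lit 1) (nat_lit 10) (nat_lit 5) L1187118 (by decide +kernel)
theorem L1187120 : W_1 (nat_lit 10) (nat_lit 0x1000080005000780010000000000000000000) (nat_lit 0x0) (nat_lit 0x1000ae007000720018000c6000000000000000000) := T_1 (nat_lit 74) (nat_lit 73) (nat_lit 0) (nat_lit 9) (nat_lit 5) L1187119 (by decide +kernel)
theorem L1187121 : W_1 (nat_lit 11) (nat_lit 0x1000080004000780010000000000000000000) (nat_lit 0x0) (nat_lit 0x1000ae007000738018000c6000000000000000000) := T_1 (nat_lit 108) (nat_lit 107) (nat_lit 1) (nat_lit 9) (nat_lit 5) L1187120 (by decide +kernel)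
theorem L1187122 : W_1 (nat_lit 12) (nat_lit 0x1000080004000380010000000000000000000) (nat_lit 0x0) (nat_lit 0x1000ae00700073801c000e6000000000000000000) := T_1 (nat_lit 94) (nat_lit 77) (nat_lit 6) (nat_lit 8) (nat_lit 8) L1187121 (by decide +kernel)
theorem L1187123 : W_1 (nat_lit 13) (nat_lit 0x1000080004000300010000000000000000000) (nat_lit 0x0) (nat_lit 0x1000ae00700073e01ce00e7800000000000000000) := Q_1 (nat_lit 91) (C_1 L1187084 (C_1 L1187109 (C_1 L1187111 (C_1 L1187122 N_1)))) (by decide +kernel)
theorem L1187124 : W_1 (nat_lit 5) (nat_lit 0x1000180004000300010000800000000000000) (nat_lit 0x0) (nat_lit 0x20000000000000000e0007000280) := T_1 (nat_lit 42) (nat_lit 109) (nat_lit 5) (nat_lit 8) (nat_lit 2) L128091 (by decide +kernel)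
theorem L1187125 : W_1 (nat_lit 6) (nat_lit 0x1000180004000300010000000000000000000) (nat_lit 0x0) (nat_lit 0xa0000000000008000e0007000280) := T_1 (nat_lit 59) (nat_lit 111) (nat_lit 7) (nat_lit 8) (nat_lit 3) L1187124 (by decide +kernel)
theorem L1187126 : W_1 (nat_lit 7) (nat_lit 0x1000080004000300010000000000000000000) (nat_lit 0x0) (nat_lit 0x200010000a0000000000008000e0007000280) := T_1 (nat_lit 128) (nat_lit 145) (nat_lit 7) (nat_lit 8) (nat_lit 4) L1187125 (by decide +kernel)
theorem L1187127 : W_1 (nat_lit 14) (nat_lit 0x1000080004000200010000000000000000000) (nat_lit 0x0) (nat_lit 0x1000ae0070007be03de01e78008000e0007000280) := Q_1 (nat_lit 92) (C_1 L1187083 (C_1 L1187092 (C_1 L1187102 (C_1 L1187123 (C_1 L1187126 N_1))))) (by decide +kernel)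
theorem L1187128 : W_1 (nat_lit 15) (nat_lit 0x1000080004000200000000000000000000000) (nat_lit 0x0) (nat_lit 0x1000ae0070007be03de01f7801c000e0007000280) := Q_1 (nat_lit 76) (C_1 L1186989 (C_1 L59521 (C_1 L1187127 N_1))) (by decide +kernel)
theorem L1189670 : W_1 (nat_lit 2) (nat_lit 0x2000100038001e000800000000000000000000000) (nat_lit 0x0) (nat_lit 0x2000000000000000040002000000000000000) := D_1 (nat_lit 78) (nat_lit 61) (nat_lit 145) (nat_lit 5) (nat_lit 10) (nat_lit 3) (nat_lit 5) (nat_lit 10) (nat_lit 4) (by decide +kernel)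
theorem L1189714 : W_1 (nat_lit 2) (nat_lit 0x2000100058001e000000000000000000000000000) (nat_lit 0x0) (nat_lit 0x800060000000000000000000000000000) := D_1 (nat_lit 113) (nat_lit 114) (nat_lit 131) (nat_lit 1) (nat_lit 12) (nat_lit 6) (nat_lit 3) (nat_lit 8) (nat_lit 6) (by decide +kernel)
theorem L1189715 : W_1 (nat_lit 3) (nat_lit 0x2000100018001e000000000000000000000000000) (nat_lit 0x0) (nat_lit 0xe00060000000000000000000000000000) := T_1 (nat_lit 130) (nat_lit 129) (nat_lit 3) (nat_lit 7) (nat_lit 6) L1189714 (by decide +kernel)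
theorem L1189753 : W_1 (nat_lit 3) (nat_lit 0x2000100018001e000800000000000000000000000) (nat_lit 0x0) (nat_lit 0x2000600000000000040002000000000000000) := T_1 (nat_lit 129) (nat_lit 130) (nat_lit 3) (nat_lit 7) (nat_lit 6) L1189670 (by decide +kernel)
theorem L1189754 : W_1 (nat_lit 4) (nat_lit 0x2000100018001e000000000000000000000000000) (nat_lit 0x0) (nat_lit 0x2000600000001800040002000000000000000) := T_1 (nat_lit 95) (nat_lit 96) (nat_lit 2) (nat_lit 7) (nat_lit 6) L1189753 (by decide +kernel)
theorem L1189755 : W_1 (nat_lit 5) (nat_lit 0x2000100018000e000000000000000000000000000) (nat_lit 0x0) (nat_lit 0x2000e00070003800040002000000000000000) := Q_1 (nat_lit 112) (C_1 L1189715 (C_1 L602189 (C_1 L1189754 N_1))) (by decide +kernel)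
theorem L1190129 : W_1 (nat_lit 2) (nat_lit 0x2000100018000e000200030000000000000000000) (nat_lit 0x0) (nat_lit 0x200001800000000000000000000000000) := D_1 (nat_lit 108) (nat_lit 129) (nat_lit 107) (nat_lit 3) (nat_lit 6) (nat_lit 6) (nat_lit 3) (nat_lit 5) (nat_lit 6) (by decide +kernel)
theorem L1190130 : W_1 (nat_lit 3) (nat_lit 0x2000100018000c000200030000000000000000000) (nat_lit 0x0) (nat_lit 0x200003800100000000000000000000000) := T_1 (nat_lit 109) (nat_lit 92) (nat_lit 4) (nat_lit 8) (nat_lit 9) L1190129 (by decide +kernel)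
theorem L1190131 : W_1 (nat_lit 4) (nat_lit 0x100018000c000200030000000000000000000) (nat_lit 0x0) (nat_lit 0x400020000000200003800100000000000000000000000) := T_1 (nat_lit 161) (nat_lit 178) (nat_lit 6) (nat_lit 8) (nat_lit 10) L1190130 (by decide +kernel)
theorem L1190132 : W_1 (nat_lit 5) (nat_lit 0x1000180004000200030000000000000000000) (nat_lit 0x0) (nat_lit 0x40002000000020000b800100000000800000000000000) := T_1 (nat_lit 111) (nat_lit 59) (nat_lit 7) (nat_lit 8) (nat_lit 3) L1190131 (by decide +kernel)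
theorem L1190133 : W_1 (nat_lit 6) (nat_lit 0x1000080004000200030000000000000000000) (nat_lit 0x0) (nat_lit 0x40002000200030000b800100000000800000000000000) := T_1 (nat_lit 128) (nat_lit 145) (nat_lit 7) (nat_lit 8) (nat_lit 4) L1190132 (by decide +kernel)
theorem L1190134 : W_1 (nat_lit 7) (nat_lit 0x1000080004000200020000000000000000000) (nat_lit 0x0) (nat_lit 0x40002000200030000b800100010001800000000000000) := T_1 (nat_lit 76) (nat_lit 60) (nat_lit 6) (nat_lit 8) (nat_lit 7) L1190133 (by decide +kernel)
theorem L1190135 : W_1 (nat_lit 8) (nat_lit 0x1000080004000200000000000000000000000) (nat_lit 0x0) (nat_lit 0x40002000200030000b800500030001800000000000000) := T_1 (nat_lit 77) (nat_lit 94) (nat_lit 6) (nat_lit 8) (nat_lit 8) L1190134 (by decide +kernel)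
theorem L1190136 : W_1 (nat_lit 10) (nat_lit 0x1000080004000000000000000000000000000) (nat_lit 0x0) (nat_lit 0x28001c000e0002000200030000b8007c0038001c000a0000000000) := Q_1 (nat_lit 93) (C_1 L154 (C_1 L1048878 (C_1 L96 (C_1 L131 (C_1 L1190135 N_1))))) (by decide +kernel)
theorem L1193351 : W_1 (nat_lit 3) (nat_lit 0x400040002000100008000c000000000000000000000000000) (nat_lit 0x0) (nat_lit 0x280018000800000000000000000000000000000000000000000000) := T_1 (nat_lit 196) (nat_lit 179) (nat_lit 7) (nat_lit 8) (nat_lit 7) L45877 (by decide +kernel)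
theorem L1193352 : W_1 (nat_lit 4) (nat_lit 0x40002000100008000c000000000000000000000000000) (nat_lit 0x0) (nat_lit 0x28001c000a00000000000000000000000000000000000000000000) := T_1 (nat_lit 194) (nat_lit 177) (nat_lit 5) (nat_lit 8) (nat_lit 7) L1193351 (by decide +kernel)
theorem L1193353 : W_1 (nat_lit 5) (nat_lit 0x2000100008000c000000000000000000000000000) (nat_lit 0x0) (nat_lit 0x28001c000e00000000000100000000000000000000000000000000) := T_1 (nat_lit 178) (nat_lit 128) (nat_lit 6) (nat_lit 8) (nat_lit 10) L1193352 (by decide +kernel)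
theorem L1193354 : W_1 (nat_lit 6) (nat_lit 0x20001000080004000000000000000000000000000) (nat_lit 0x0) (nat_lit 0x28001c000e00000000000100008000400000000000000000000000) := T_1 (nat_lit 111) (nat_lit 94) (nat_lit 6) (nat_lit 8) (nat_lit 9) L1193353 (by decide +kernel)
theorem L1196023 : W_1 (nat_lit 2) (nat_lit 0x22001e00088004000000000000000000000000000) (nat_lit 0x0) (nat_lit 0x1000100004000000000000000000000000000000) := D_1 (nat_lit 140) (nat_lit 156) (nat_lit 122) (nat_lit 1) (nat_lit 7) (nat_lit 8) (nat_lit 0) (nat_lit 7) (nat_lit 8) (by decide +kernel)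
theorem L1196024 : W_1 (nat_lit 3) (nat_lit 0x22001e00080004000000000000000000000000000) (nat_lit 0x0) (nat_lit 0x100010001c000000000000000000000000000000) := T_1 (nat_lit 123) (nat_lit 124) (nat_lit 0) (nat_lit 8) (nat_lit 8) L1196023 (by decide +kernel)
theorem L1196025 : W_1 (nat_lit 4) (nat_lit 0x20001e00080004000000000000000000000000000) (nat_lit 0x0) (nat_lit 0x700010001c000000000000000000000000000000) := T_1 (nat_lit 157) (nat_lit 158) (nat_lit 1) (nat_lit 8) (nat_lit 8) L1196024 (by decide +kernel)
theorem L1196026 : W_1 (nat_lit 5) (nat_lit 0x20001c00080004000000000000000000000000000) (nat_lit 0x0) (nat_lit 0x700030011c000000000000000000000000000000) := T_1 (nat_lit 141) (nat_lit 128) (nat_lit 2) (nat_lit 5) (nat_lit 8) L1196025 (by decide +kernel)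
theorem L1204592 : W_1 (nat_lit 2) (nat_lit 0x10000000048003c001e00080004000000000000000000000000000) (nat_lit 0x0) (nat_lit 0x1000000000000000020001000000000000000000000000000) := D_1 (nat_lit 125) (nat_lit 108) (nat_lit 192) (nat_lit 5) (nat_lit 6) (nat_lit 6) (nat_lit 6) (nat_lit 5) (nat_lit 11) (by decide +kernel)
theorem L1204593 : W_1 (nat_lit 3) (nat_lit 0x10000000048003c001a00080004000000000000000000000000000) (nat_lit 0x0) (nat_lit 0x1000000000000400120001000000000000000000000000000) := T_1 (nat_lit 142) (nat_lit 128) (nat_lit 2) (nat_lit 5) (nat_lit 8) L1204592 (by decide +kernel)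
theorem L1204594 : W_1 (nat_lit 4) (nat_lit 0x48003c001a00080004000000000000000000000000000) (nat_lit 0x0) (nat_lit 0x100009000000000000400120001000000000000000000000000000) := T_1 (nat_lit 212) (nat_lit 195) (nat_lit 4) (nat_lit 8) (nat_lit 12) L1204593 (by decide +kernel)
theorem L1204595 : W_1 (nat_lit 5) (nat_lit 0x48003c001800080004000000000000000000000000000) (nat_lit 0x0) (nat_lit 0x100009000000000000700120001000000000000000000000000000) := T_1 (nat_lit 141) (nat_lit 140) (nat_lit 0) (nat_lit 8) (nat_lit 9) L1204594 (by decide +kernel)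
theorem L1204596 : W_1 (nat_lit 6) (nat_lit 0x8003c001800080004000000000000000000000000000) (nat_lit 0x0) (nat_lit 0x100009000c00000000700120001000000000000000000000000000) := T_1 (nat_lit 178) (nat_lit 179) (nat_lit 3) (nat_lit 5) (nat_lit 9) L1204595 (by decide +kernel)
theorem L1204597 : W_1 (nat_lit 7) (nat_lit 0x3c001800080004000000000000000000000000000) (nat_lit 0x0) (nat_lit 0x100009000cc0000000700120001000000000000000000000000000) := T_1 (nat_lit 175) (nat_lit 174) (nat_lit 1) (nat_lit 8) (nat_lit 9) L1204596 (by decide +kernel)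
theorem L1204598 : W_1 (nat_lit 8) (nat_lit 0x38001800080004000000000000000000000000000) (nat_lit 0x0) (nat_lit 0x100009000cc0006000700120001000000000000000000000000000) := T_1 (nat_lit 158) (nat_lit 157) (nat_lit 2) (nat_lit 4) (nat_lit 9) L1204597 (by decide +kernel)
theorem L1204599 : W_1 (nat_lit 9) (nat_lit 0x38001000080004000000000000000000000000000) (nat_lit 0x0) (nat_lit 0x100009000cc0006000f00120001000200000000000000000000000) := T_1 (nat_lit 143) (nat_lit 93) (nat_lit 5) (nat_lit 8) (nat_lit 5) L1204598 (by decide +kernel)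
theorem L1204600 : W_1 (nat_lit 2) (nat_lit 0x3800b000080004000200010000000000000000000) (nat_lit 0x0) (nat_lit 0x400020001000000000000000) := D_1 (nat_lit 77) (nat_lit 60) (nat_lit 94) (nat_lit 6) (nat_lit 8) (nat_lit 7) (nat_lit 6) (nat_lit 8) (nat_lit 8) (by decide +kernel)
theorem L1204601 : W_1 (nat_lit 3) (nat_lit 0x3800b000080004000200000000000000000000000) (nat_lit 0x0) (nat_lit 0x100000000400030001000000000000000) := T_1 (nat_lit 76) (nat_lit 128) (nat_lit 7) (nat_lit 8) (nat_lit 4) L1204600 (by decide +kernel)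
theorem L1204602 : W_1 (nat_lit 4) (nat_lit 0x38003000080004000200000000000000000000000) (nat_lit 0x0) (nat_lit 0xc000100000000400030001000000000000000) := T_1 (nat_lit 147) (nat_lit 146) (nat_lit 1) (nat_lit 11) (nat_lit 8) L1204601 (by decide +kernel)
theorem L1204603 : W_1 (nat_lit 5) (nat_lit 0x38001000080004000200000000000000000000000) (nat_lit 0x0) (nat_lit 0x400e000100000000400030001000000000000000) := T_1 (nat_lit 145) (nat_lit 158) (nat_lit 2) (nat_lit 5) (nat_lit 9) L1204602 (by decide +kernel)
theorem L1204604 : W_1 (nat_lit 6) (nat_lit 0x38001000080004000000000000000000000000000) (nat_lit 0x0) (nat_lit 0x400e800100000000600030001000000000000000) := T_1 (nat_lit 93) (nat_lit 143) (nat_lit 5) (nat_lit 8) (nat_lit 5) L1204603 (by decide +kernel)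
theorem L1204605 : W_1 (nat_lit 2) (nat_lit 0x100038005e00090004000000000000000000000000000) (nat_lit 0x0) (nat_lit 0x20000800040000000000000000000000) := D_1 (nat_lit 107) (nat_lit 90) (nat_lit 125) (nat_lit 7) (nat_lit 5) (nat_lit 5) (nat_lit 4) (nat_lit 6) (nat_lit 10) (by decide +kernel)
theorem L1204606 : W_1 (nat_lit 3) (nat_lit 0x38005e00090004000000000000000000000000000) (nat_lit 0x0) (nat_lit 0x2000100000000000020000800040000000000000000000000) := T_1 (nat_lit 176) (nat_lit 193) (nat_lit 4) (nat_lit 6) (nat_lit 11) L1204605 (by decide +kernel)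
theorem L1204607 : W_1 (nat_lit 4) (nat_lit 0x38005e00080004000000000000000000000000000) (nat_lit 0x0) (nat_lit 0x2000100000000000038000800040000000000000000000000) := T_1 (nat_lit 124) (nat_lit 123) (nat_lit 0) (nat_lit 8) (nat_lit 8) L1204606 (by decide +kernel)
theorem L1204608 : W_1 (nat_lit 5) (nat_lit 0x38005c00080004000000000000000000000000000) (nat_lit 0x0) (nat_lit 0x2000100000000300038000800040000000000000000000000) := T_1 (nat_lit 141) (nat_lit 140) (nat_lit 3) (nat_lit 4) (nat_lit 8) L1204607 (by decide +kernel)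
theorem L1204609 : W_1 (nat_lit 6) (nat_lit 0x38001c00080004000000000000000000000000000) (nat_lit 0x0) (nat_lit 0x2000100000006300038000800040000000000000000000000) := T_1 (nat_lit 146) (nat_lit 145) (nat_lit 1) (nat_lit 10) (nat_lit 8) L1204608 (by decide +kernel)
theorem L1204610 : W_1 (nat_lit 2) (nat_lit 0x8000000038003c001a0005000000000000000000000000000) (nat_lit 0x0) (nat_lit 0x2800040000000000000000000000) := D_1 (nat_lit 107) (nat_lit 90) (nat_lit 109) (nat_lit 4) (nat_lit 6) (nat_lit 9) (nat_lit 3) (nat_lit 5) (nat_lit 6) (by decide +kernel)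
theorem L1204611 : W_1 (nat_lit 3) (nat_lit 0x8000000038003c001a0004000000000000000000000000000) (nat_lit 0x0) (nat_lit 0x38000c0000000000000000000000) := T_1 (nat_lit 108) (nat_lit 91) (nat_lit 7) (nat_lit 6) (nat_lit 5) L1204610 (by decide +kernel)
theorem L1204612 : W_1 (nat_lit 4) (nat_lit 0x38003c001a0004000000000000000000000000000) (nat_lit 0x0) (nat_lit 0x80004000000000000000038000c0000000000000000000000) := T_1 (nat_lit 195) (nat_lit 178) (nat_lit 6) (nat_lit 8) (nat_lit 11) L1204611 (by decide +kernel)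
theorem L1204613 : W_1 (nat_lit 5) (nat_lit 0x38003c000a0004000000000000000000000000000) (nat_lit 0x0) (nat_lit 0x80004000000000003000038000c0000000000000000000000) := T_1 (nat_lit 128) (nat_lit 129) (nat_lit 2) (nat_lit 6) (nat_lit 8) L1204612 (by decide +kernel)
theorem L1204614 : W_1 (nat_lit 6) (nat_lit 0x38003c00080004000000000000000000000000000) (nat_lit 0x0) (nat_lit 0x80004000000000003300038000c0000000000000000000000) := T_1 (nat_lit 125) (nat_lit 124) (nat_lit 0) (nat_lit 9) (nat_lit 8) L1204613 (by decide +kernel)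
theorem L1204615 : W_1 (nat_lit 7) (nat_lit 0x38001c00080004000000000000000000000000000) (nat_lit 0x0) (nat_lit 0x80004000000060003300038000c0000000000000000000000) := T_1 (nat_lit 145) (nat_lit 146) (nat_lit 1) (nat_lit 10) (nat_lit 8) L1204614 (by decide +kernel)
theorem L1204616 : W_1 (nat_lit 8) (nat_lit 0x38001800080004000000000000000000000000000) (nat_lit 0x0) (nat_lit 0xa0005000000067003380038000c0000000000000000000000) := Q_1 (nat_lit 142) (C_1 L1147140 (C_1 L1204609 (C_1 L1204615 N_1))) (by decide +kernel)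
theorem L1204617 : W_1 (nat_lit 9) (nat_lit 0x38001000080004000000000000000000000000000) (nat_lit 0x0) (nat_lit 0xa000500000006f003380038002c0000000000000000000000) := T_1 (nat_lit 143) (nat_lit 93) (nat_lit 5) (nat_lit 8) (nat_lit 5) L1204616 (by decide +kernel)
theorem L1204618 : W_1 (nat_lit 10) (nat_lit 0x30001000080004000000000000000000000000000) (nat_lit 0x0) (nat_lit 0x10000b000de000e00ef803380038006c0030001000000000000000) := Q_1 (nat_lit 159) (C_1 L1157848 (C_1 L1204599 (C_1 L1204604 (C_1 L1204617 N_1)))) (by decide +kernel)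
theorem L1204619 : W_1 (nat_lit 11) (nat_lit 0x20001000080004000000000000000000000000000) (nat_lit 0x0) (nat_lit 0x10000b000fe001e00ef803380038006c0030001000000000000000) := T_1 (nat_lit 160) (nat_lit 177) (nat_lit 5) (nat_lit 8) (nat_lit 6) L1204618 (by decide +kernel)
theorem L1204675 : W_1 (nat_lit 2) (nat_lit 0x34001e00090004000000000000000000000000000) (nat_lit 0x0) (nat_lit 0x8002000020000000000000000000000000000000) := D_1 (nat_lit 145) (nat_lit 159) (nat_lit 125) (nat_lit 2) (nat_lit 5) (nat_lit 9) (nat_lit 0) (nat_lit 9) (nat_lit 8) (by decide +kernel)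
theorem L1204676 : W_1 (nat_lit 3) (nat_lit 0x34001e00080004000000000000000000000000000) (nat_lit 0x0) (nat_lit 0x8002000038000000000000000000000000000000) := T_1 (nat_lit 124) (nat_lit 123) (nat_lit 0) (nat_lit 8) (nat_lit 8) L1204675 (by decide +kernel)
theorem L1204677 : W_1 (nat_lit 4) (nat_lit 0x30001e00080004000000000000000000000000000) (nat_lit 0x0) (nat_lit 0xe002000038000000000000000000000000000000) := T_1 (nat_lit 158) (nat_lit 157) (nat_lit 1) (nat_lit 8) (nat_lit 8) L1204676 (by decide +kernel)
theorem L1204678 : W_1 (nat_lit 5) (nat_lit 0x30001c00080004000000000000000000000000000) (nat_lit 0x0) (nat_lit 0xe002300038000000000000000000000000000000) := T_1 (nat_lit 141) (nat_lit 140) (nat_lit 3) (nat_lit 4) (nat_lit 8) L1204677 (by decide +kernel)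
theorem L1204679 : W_1 (nat_lit 6) (nat_lit 0x20001c00080004000000000000000000000000000) (nat_lit 0x0) (nat_lit 0x1e002300038000000200000000000000000000000) := T_1 (nat_lit 160) (nat_lit 93) (nat_lit 5) (nat_lit 8) (nat_lit 5) L1204678 (by decide +kernel)
theorem L1204680 : W_1 (nat_lit 2) (nat_lit 0x28003c00080004000200010000000000000000000) (nat_lit 0x0) (nat_lit 0x400020001000000000000000) := D_1 (nat_lit 77) (nat_lit 60) (nat_lit 94) (nat_lit 6) (nat_lit 8) (nat_lit 7) (nat_lit 6) (nat_lit 8) (nat_lit 8) (by decide +kernel)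
theorem L1204681 : W_1 (nat_lit 3) (nat_lit 0x28003c00080004000200000000000000000000000) (nat_lit 0x0) (nat_lit 0x100000000400030001000000000000000) := T_1 (nat_lit 76) (nat_lit 128) (nat_lit 7) (nat_lit 8) (nat_lit 4) L1204680 (by decide +kernel)
theorem L1204682 : W_1 (nat_lit 4) (nat_lit 0x20003c00080004000200000000000000000000000) (nat_lit 0x0) (nat_lit 0xc000000100000000400030001000000000000000) := T_1 (nat_lit 159) (nat_lit 158) (nat_lit 1) (nat_lit 9) (nat_lit 8) L1204681 (by decide +kernel)
theorem L1204683 : W_1 (nat_lit 5) (nat_lit 0x20003c00080004000000000000000000000000000) (nat_lit 0x0) (nat_lit 0x1c000000100000000600030001000000000000000) := T_1 (nat_lit 93) (nat_lit 160) (nat_lit 5) (nat_lit 8) (nat_lit 5) L1204682 (by decide +kernel)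
theorem L1204684 : W_1 (nat_lit 3) (nat_lit 0x20003c00080004000000000000000000000000000) (nat_lit 0x0) (nat_lit 0x1c004000000000000200000000000000000000000) := T_1 (nat_lit 160) (nat_lit 93) (nat_lit 5) (nat_lit 8) (nat_lit 5) L1145413 (by decide +kernel)
theorem L1204685 : W_1 (nat_lit 2) (nat_lit 0x20003c00180004000000000000000000000000000) (nat_lit 0x0) (nat_lit 0x10000000000000000200010000000000000000000) := D_1 (nat_lit 93) (nat_lit 76) (nat_lit 160) (nat_lit 7) (nat_lit 8) (nat_lit 4) (nat_lit 5) (nat_lit 8) (nat_lit 5) (by decide +kernel)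
theorem L1204686 : W_1 (nat_lit 3) (nat_lit 0x20003c00080004000000000000000000000000000) (nat_lit 0x0) (nat_lit 0x10000000300000000200010000000000000000000) := T_1 (nat_lit 128) (nat_lit 129) (nat_lit 2) (nat_lit 6) (nat_lit 8) L1204685 (by decide +kernel)
theorem L1204687 : W_1 (nat_lit 9) (nat_lit 0x20001c00080004000000000000000000000000000) (nat_lit 0x0) (nat_lit 0x39c01e001f30000000600030001000000000000000) := Q_1 (nat_lit 145) (C_1 L1153601 (C_1 L1204683 (C_1 L1204684 (C_1 L1204686 N_1)))) (by decide +kernel)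
theorem L1204688 : W_1 (nat_lit 2) (nat_lit 0x20001c00180004000200000000000000000000000) (nat_lit 0x0) (nat_lit 0x2000600000000000000000000000000000000) := D_1 (nat_lit 129) (nat_lit 130) (nat_lit 145) (nat_lit 1) (nat_lit 11) (nat_lit 7) (nat_lit 2) (nat_lit 6) (nat_lit 8) (by decide +kernel)
theorem L1204689 : W_1 (nat_lit 3) (nat_lit 0x20001c00080004000200000000000000000000000) (nat_lit 0x0) (nat_lit 0x2200700000000000000000000000000000000) := T_1 (nat_lit 128) (nat_lit 141) (nat_lit 2) (nat_lit 5) (nat_lit 8) L1204688 (by decide +kernel)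
theorem L1204690 : W_1 (nat_lit 4) (nat_lit 0x20001c00080004000000000000000000000000000) (nat_lit 0x0) (nat_lit 0x10002200700000000200000000000000000000000) := T_1 (nat_lit 93) (nat_lit 160) (nat_lit 5) (nat_lit 8) (nat_lit 5) L1204689 (by decide +kernel)
theorem L1204691 : W_1 (nat_lit 10) (nat_lit 0x20001800080004000000000000000000000000000) (nat_lit 0x0) (nat_lit 0x39f01e701f3c000000600030001000000000000000) := Q_1 (nat_lit 142) (C_1 L1196026 (C_1 L1204679 (C_1 L1204687 (C_1 L1204690 N_1)))) (by decide +kernel)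
theorem L1204692 : W_1 (nat_lit 2) (nat_lit 0x20001c0018000c000000000000000000000000000) (nat_lit 0x0) (nat_lit 0x2000600000000000000000000000000000000) := D_1 (nat_lit 129) (nat_lit 130) (nat_lit 145) (nat_lit 1) (nat_lit 11) (nat_lit 7) (nat_lit 2) (nat_lit 6) (nat_lit 8) (by decide +kernel)
theorem L1204693 : W_1 (nat_lit 3) (nat_lit 0x2000180018000c000000000000000000000000000) (nat_lit 0x0) (nat_lit 0x2600600000000000000000000000000000000) := T_1 (nat_lit 142) (nat_lit 141) (nat_lit 2) (nat_lit 5) (nat_lit 8) L1204692 (by decide +kernel)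
theorem L1204694 : W_1 (nat_lit 4) (nat_lit 0x2000180008000c000000000000000000000000000) (nat_lit 0x0) (nat_lit 0x400000002600700000000000000000000000000000000) := T_1 (nat_lit 128) (nat_lit 178) (nat_lit 6) (nat_lit 8) (nat_lit 10) L1204693 (by decide +kernel)
theorem L1204695 : W_1 (nat_lit 5) (nat_lit 0x20001800080004000000000000000000000000000) (nat_lit 0x0) (nat_lit 0x400000002600700008000400000000000000000000000) := T_1 (nat_lit 111) (nat_lit 94) (nat_lit 6) (nat_lit 8) (nat_lit 9) L1204694 (by decide +kernel)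
theorem L1204696 : W_1 (nat_lit 2) (nat_lit 0x800040003000180008000c000000000000000000000000000) (nat_lit 0x0) (nat_lit 0x200010000800000000000000000000000000000000000000000000) := D_1 (nat_lit 196) (nat_lit 179) (nat_lit 213) (nat_lit 7) (nat_lit 8) (nat_lit 7) (nat_lit 7) (nat_lit 8) (nat_lit 8) (by decide +kernel)
theorem L1204697 : W_1 (nat_lit 3) (nat_lit 0x40003000180008000c000000000000000000000000000) (nat_lit 0x0) (nat_lit 0x300018000800000000000000000000000000000000000000000000) := T_1 (nat_lit 195) (nat_lit 212) (nat_lit 4) (nat_lit 8) (nat_lit 12) L1204696 (by decide +kernel)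
theorem L1204698 : W_1 (nat_lit 4) (nat_lit 0x3000180008000c000000000000000000000000000) (nat_lit 0x0) (nat_lit 0x300018000c00000000000100000000000000000000000000000000) := T_1 (nat_lit 178) (nat_lit 128) (nat_lit 6) (nat_lit 8) (nat_lit 10) L1204697 (by decide +kernel)
theorem L1204699 : W_1 (nat_lit 5) (nat_lit 0x2000180008000c000000000000000000000000000) (nat_lit 0x0) (nat_lit 0x300018000c00010000000100000000200000000000000000000000) := T_1 (nat_lit 160) (nat_lit 93) (nat_lit 5) (nat_lit 8) (nat_lit 5) L1204698 (by decide +kernel)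
theorem L1204700 : W_1 (nat_lit 6) (nat_lit 0x20001800080004000000000000000000000000000) (nat_lit 0x0) (nat_lit 0x300018000c00010000000100008000600000000000000000000000) := T_1 (nat_lit 111) (nat_lit 94) (nat_lit 6) (nat_lit 8) (nat_lit 9) L1204699 (by decide +kernel)
theorem L1204701 : W_1 (nat_lit 2) (nat_lit 0x20001800080004000400000000000000000000000) (nat_lit 0x0) (nat_lit 0x10000000000000000200020000000000000000000) := D_1 (nat_lit 93) (nat_lit 160) (nat_lit 77) (nat_lit 5) (nat_lit 8) (nat_lit 5) (nat_lit 6) (nat_lit 8) (nat_lit 8) (by decide +kernel)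
theorem L1204702 : W_1 (nat_lit 3) (nat_lit 0x20001800080004000000000000000000000000000) (nat_lit 0x0) (nat_lit 0x10000000000008000600020000000000000000000) := T_1 (nat_lit 94) (nat_lit 111) (nat_lit 6) (nat_lit 8) (nat_lit 9) L1204701 (by decide +kernel)
theorem L1204703 : W_1 (nat_lit 2) (nat_lit 0x8000400030001800180004000000000000000000000000000) (nat_lit 0x0) (nat_lit 0x200010000800000000000000000000000000000000000000000000) := D_1 (nat_lit 196) (nat_lit 179) (nat_lit 213) (nat_lit 7) (nat_lit 8) (nat_lit 7) (nat_lit 7) (nat_lit 8) (nat_lit 8) (by decide +kernel)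
theorem L1204704 : W_1 (nat_lit 3) (nat_lit 0x400030001800180004000000000000000000000000000) (nat_lit 0x0) (nat_lit 0x300018000800000000000000000000000000000000000000000000) := T_1 (nat_lit 195) (nat_lit 212) (nat_lit 4) (nat_lit 8) (nat_lit 12) L1204703 (by decide +kernel)
theorem L1204705 : W_1 (nat_lit 4) (nat_lit 0x30001800180004000000000000000000000000000) (nat_lit 0x0) (nat_lit 0x300018000c00000000000000008000000000000000000000000000) := T_1 (nat_lit 178) (nat_lit 111) (nat_lit 6) (nat_lit 8) (nat_lit 10) L1204704 (by decide +kernel)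
theorem L1204706 : W_1 (nat_lit 5) (nat_lit 0x20001800180004000000000000000000000000000) (nat_lit 0x0) (nat_lit 0x300018000c00010000000000008000200000000000000000000000) := T_1 (nat_lit 160) (nat_lit 93) (nat_lit 5) (nat_lit 8) (nat_lit 5) L1204705 (by decide +kernel)
theorem L1204707 : W_1 (nat_lit 2) (nat_lit 0x8000400020001a00580004000000000000000000000000000) (nat_lit 0x0) (nat_lit 0x200010000800000000000000000000000000000000000000000000) := D_1 (nat_lit 196) (nat_lit 179) (nat_lit 213) (nat_lit 7) (nat_lit 8) (nat_lit 7) (nat_lit 7) (nat_lit 8) (nat_lit 8) (by decide +kernel)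
theorem L1204708 : W_1 (nat_lit 3) (nat_lit 0x400020001a00580004000000000000000000000000000) (nat_lit 0x0) (nat_lit 0x200018000800000002000000000000000000000000000000000000) := T_1 (nat_lit 195) (nat_lit 145) (nat_lit 6) (nat_lit 8) (nat_lit 11) L1204707 (by decide +kernel)
theorem L1204709 : W_1 (nat_lit 4) (nat_lit 0x20001a00580004000000000000000000000000000) (nat_lit 0x0) (nat_lit 0x200018000c00000002000000008000000000000000000000000000) := T_1 (nat_lit 178) (nat_lit 111) (nat_lit 6) (nat_lit 8) (nat_lit 10) L1204708 (by decide +kernel)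
theorem L1204710 : W_1 (nat_lit 5) (nat_lit 0x20001800580004000000000000000000000000000) (nat_lit 0x0) (nat_lit 0x200018000c00000002600000008000000000000000000000000000) := T_1 (nat_lit 141) (nat_lit 142) (nat_lit 2) (nat_lit 5) (nat_lit 8) L1204709 (by decide +kernel)
theorem L1204711 : W_1 (nat_lit 6) (nat_lit 0x20001800180004000000000000000000000000000) (nat_lit 0x0) (nat_lit 0x200018000c00000002600600008000000000000000000000000000) := T_1 (nat_lit 130) (nat_lit 129) (nat_lit 1) (nat_lit 11) (nat_lit 7) L1204710 (by decide +kernel)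
theorem L1204712 : W_1 (nat_lit 2) (nat_lit 0x20001800580004000200010000800000000000000) (nat_lit 0x0) (nat_lit 0x20001000080000000000) := D_1 (nat_lit 60) (nat_lit 43) (nat_lit 77) (nat_lit 6) (nat_lit 8) (nat_lit 6) (nat_lit 6) (nat_lit 8) (nat_lit 7) (by decide +kernel)
theorem L1204713 : W_1 (nat_lit 3) (nat_lit 0x20001800580004000200010000000000000000000) (nat_lit 0x0) (nat_lit 0x8000000020001800080000000000) := T_1 (nat_lit 59) (nat_lit 111) (nat_lit 7) (nat_lit 8) (nat_lit 3) L1204712 (by decide +kernel)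
theorem L1204714 : W_1 (nat_lit 4) (nat_lit 0x20001800580004000200000000000000000000000) (nat_lit 0x0) (nat_lit 0x2000000008000000030001800080000000000) := T_1 (nat_lit 76) (nat_lit 145) (nat_lit 7) (nat_lit 8) (nat_lit 4) L1204713 (by decide +kernel)
theorem L1204715 : W_1 (nat_lit 5) (nat_lit 0x20001800180004000200000000000000000000000) (nat_lit 0x0) (nat_lit 0x2000600008000000030001800080000000000) := T_1 (nat_lit 130) (nat_lit 129) (nat_lit 1) (nat_lit 11) (nat_lit 7) L1204714 (by decide +kernel)
theorem L1204716 : W_1 (nat_lit 6) (nat_lit 0x20001800180004000000000000000000000000000) (nat_lit 0x0) (nat_lit 0x10002000600008000200030001800080000000000) := T_1 (nat_lit 93) (nat_lit 160) (nat_lit 5) (nat_lit 8) (nat_lit 5) L1204715 (by decide +kernel)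
theorem L1204717 : W_1 (nat_lit 2) (nat_lit 0x20001a00580004000200010001400000000000000) (nat_lit 0x0) (nat_lit 0x8000a0000000000) := D_1 (nat_lit 59) (nat_lit 43) (nat_lit 41) (nat_lit 6) (nat_lit 8) (nat_lit 6) (nat_lit 4) (nat_lit 8) (nat_lit 6) (by decide +kernel)
theorem L1204718 : W_1 (nat_lit 3) (nat_lit 0x20001a00580004000200010001000000000000000) (nat_lit 0x0) (nat_lit 0x8000c000a0000000000) := T_1 (nat_lit 58) (nat_lit 75) (nat_lit 4) (nat_lit 8) (nat_lit 7) L1204717 (by decide +kernel)
theorem L1204719 : W_1 (nat_lit 4) (nat_lit 0x20001a00580004000200010000000000000000000) (nat_lit 0x0) (nat_lit 0x28001c000a0000000000) := T_1 (nat_lit 60) (nat_lit 77) (nat_lit 6) (nat_lit 8) (nat_lit 7) L1204718 (by decide +kernel)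
theorem L1204720 : W_1 (nat_lit 5) (nat_lit 0x20001a00580004000200000000000000000000000) (nat_lit 0x0) (nat_lit 0x2000000000000000038001c000a0000000000) := T_1 (nat_lit 76) (nat_lit 145) (nat_lit 7) (nat_lit 8) (nat_lit 4) L1204719 (by decide +kernel)
theorem L1204721 : W_1 (nat_lit 6) (nat_lit 0x20001a00580004000000000000000000000000000) (nat_lit 0x0) (nat_lit 0x10002000000000000200038001c000a0000000000) := T_1 (nat_lit 93) (nat_lit 160) (nat_lit 5) (nat_lit 8) (nat_lit 5) L1204720 (by decide +kernel)
theorem L1204722 : W_1 (nat_lit 7) (nat_lit 0x20001a00180004000000000000000000000000000) (nat_lit 0x0) (nat_lit 0x10002000600000000200038001c000a0000000000) := T_1 (nat_lit 130) (nat_lit 129) (nat_lit 1) (nat_lit 11) (nat_lit 7) L1204721 (by decide +kernel)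
theorem L1204723 : W_1 (nat_lit 8) (nat_lit 0x20001800180004000000000000000000000000000) (nat_lit 0x0) (nat_lit 0x10002600600000000200038001c000a0000000000) := T_1 (nat_lit 141) (nat_lit 142) (nat_lit 2) (nat_lit 5) (nat_lit 8) L1204722 (by decide +kernel)
theorem L1204724 : W_1 (nat_lit 9) (nat_lit 0x20001800080004000000000000000000000000000) (nat_lit 0x0) (nat_lit 0x300018000c00010002600700008000200038001c000a0000000000) := Q_1 (nat_lit 128) (C_1 L1204706 (C_1 L1204711 (C_1 L1204716 (C_1 L1204723 N_1)))) (by decide +kernel)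
theorem L1204725 : W_1 (nat_lit 11) (nat_lit 0x20001000080004000000000000000000000000000) (nat_lit 0x0) (nat_lit 0x300018000c0039f01ef01f3c008000600038001c000a0000000000) := Q_1 (nat_lit 143) (C_1 L1204691 (C_1 L1204695 (C_1 L1204700 (C_1 L1204702 (C_1 L1204724 N_1))))) (by decide +kernel)
theorem L1204726 : W_1 (nat_lit 4) (nat_lit 0x600020001000080004000000000000000000000000000) (nat_lit 0x0) (nat_lit 0x200018000800000002000100008000000000000000000000000000) := T_1 (nat_lit 128) (nat_lit 111) (nat_lit 6) (nat_lit 8) (nat_lit 10) L19846 (by decide +kernel)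
theorem L1204727 : W_1 (nat_lit 5) (nat_lit 0x200020001000080004000000000000000000000000000) (nat_lit 0x0) (nat_lit 0x20001c000c00000002000100008000000000000000000000000000) := T_1 (nat_lit 178) (nat_lit 194) (nat_lit 5) (nat_lit 8) (nat_lit 7) L1204726 (by decide +kernel)
theorem L1204728 : W_1 (nat_lit 6) (nat_lit 0x20001000080004000000000000000000000000000) (nat_lit 0x0) (nat_lit 0x20001c000e00010002000100008000000000000000000000000000) := T_1 (nat_lit 177) (nat_lit 160) (nat_lit 5) (nat_lit 8) (nat_lit 6) L1204727 (by decide +kernel)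
theorem L1204729 : W_1 (nat_lit 12) (nat_lit 0x1000080004000000000000000000000000000) (nat_lit 0x0) (nat_lit 0x38001f000fe03bf01ef81f3c00b8006c0038001c000a0000000000) := Q_1 (nat_lit 161) (C_1 L1048897 (C_1 L150 (C_1 L1193354 (C_1 L1204619 (C_1 L1204725 (C_1 L1204728 N_1)))))) (by decide +kernel)
theorem L1204730 : W_1 (nat_lit 2) (nat_lit 0x30001000080004000100000000000000000000000) (nat_lit 0x0) (nat_lit 0x800000000000200008000000000000000000) := D_1 (nat_lit 93) (nat_lit 143) (nat_lit 75) (nat_lit 5) (nat_lit 8) (nat_lit 5) (nat_lit 4) (nat_lit 8) (nat_lit 8) (by decide +kernel)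
theorem L1204731 : W_1 (nat_lit 3) (nat_lit 0x20001000080004000100000000000000000000000) (nat_lit 0x0) (nat_lit 0x200010000800000000000200008000000000000000000) := T_1 (nat_lit 160) (nat_lit 177) (nat_lit 5) (nat_lit 8) (nat_lit 6) L1204730 (by decide +kernel)
theorem L1204732 : W_1 (nat_lit 4) (nat_lit 0x20001000080004000000000000000000000000000) (nat_lit 0x0) (nat_lit 0x200010000800000002000300008000000000000000000) := T_1 (nat_lit 92) (nat_lit 109) (nat_lit 4) (nat_lit 8) (nat_lit 9) L1204731 (by decide +kernel)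
theorem L1204733 : W_1 (nat_lit 6) (nat_lit 0x2000100008000e000000000000000000000000000) (nat_lit 0x0) (nat_lit 0x400000002000f00070003800040002000000000000000) := T_1 (nat_lit 128) (nat_lit 178) (nat_lit 6) (nat_lit 8) (nat_lit 10) L1189755 (by decide +kernel)
theorem L1204734 : W_1 (nat_lit 7) (nat_lit 0x2000100008000c000000000000000000000000000) (nat_lit 0x0) (nat_lit 0x400000002000f00072003900040002000000000000000) := T_1 (nat_lit 109) (nat_lit 92) (nat_lit 4) (nat_lit 8) (nat_lit 9) L1204733 (by decide +kernel)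
theorem L1204735 : W_1 (nat_lit 8) (nat_lit 0x20001000080004000000000000000000000000000) (nat_lit 0x0) (nat_lit 0x400000002000f0007a003d00040002000000000000000) := T_1 (nat_lit 111) (nat_lit 94) (nat_lit 6) (nat_lit 8) (nat_lit 9) L1204734 (by decide +kernel)
theorem L1204737 : W_1 (nat_lit 2) (nat_lit 0x3000100018000c000340000000000000000000000) (nat_lit 0x0) (nat_lit 0x2000000000000000010000800000000000000) := D_1 (nat_lit 76) (nat_lit 59) (nat_lit 145) (nat_lit 7) (nat_lit 8) (nat_lit 3) (nat_lit 7) (nat_lit 8) (nat_lit 4) (by decide +kernel)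
theorem L1204738 : W_1 (nat_lit 3) (nat_lit 0x3000100008000c000340000000000000000000000) (nat_lit 0x0) (nat_lit 0x400000002000100000000000010000800000000000000) := T_1 (nat_lit 128) (nat_lit 178) (nat_lit 6) (nat_lit 8) (nat_lit 10) L1204737 (by decide +kernel)
theorem L1204739 : W_1 (nat_lit 4) (nat_lit 0x3000100008000c000300000000000000000000000) (nat_lit 0x0) (nat_lit 0x4000000020001000000000c0010000800000000000000) := T_1 (nat_lit 90) (nat_lit 91) (nat_lit 3) (nat_lit 5) (nat_lit 5) L1204738 (by decide +kernel)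
theorem L1204740 : W_1 (nat_lit 5) (nat_lit 0x30001000080004000300000000000000000000000) (nat_lit 0x0) (nat_lit 0x4000000020001000080004c0010000800000000000000) := T_1 (nat_lit 111) (nat_lit 94) (nat_lit 6) (nat_lit 8) (nat_lit 9) L1204739 (by decide +kernel)
theorem L1204741 : W_1 (nat_lit 6) (nat_lit 0x10001000080004000300000000000000000000000) (nat_lit 0x0) (nat_lit 0x6000200020001000080004c0010000800000000000000) := T_1 (nat_lit 161) (nat_lit 177) (nat_lit 5) (nat_lit 8) (nat_lit 6) L1204740 (by decide +kernel)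
theorem L1204742 : W_1 (nat_lit 7) (nat_lit 0x1000080004000300000000000000000000000) (nat_lit 0x0) (nat_lit 0x6000300028001000080004c0010000800000000000000) := T_1 (nat_lit 160) (nat_lit 143) (nat_lit 5) (nat_lit 8) (nat_lit 5) L1204741 (by decide +kernel)
theorem L1204743 : W_1 (nat_lit 8) (nat_lit 0x1000080004000200000000000000000000000) (nat_lit 0x0) (nat_lit 0x6000300028001000080005c0018000800000000000000) := T_1 (nat_lit 92) (nat_lit 75) (nat_lit 4) (nat_lit 8) (nat_lit 8) L1204742 (by decide +kernel)
theorem L1204744 : W_1 (nat_lit 9) (nat_lit 0x1000080004000000000000000000000000000) (nat_lit 0x0) (nat_lit 0x6000300028001000080007c0038001c00080000000000) := Q_1 (nat_lit 93) (C_1 L1048887 (C_1 L154 (C_1 L1204743 (C_1 L131 N_1)))) (by decide +kernel)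
theorem L1204745 : W_1 (nat_lit 2) (nat_lit 0x1800180004000200010000800000000000000) (nat_lit 0x0) (nat_lit 0x20001000080000000000) := D_1 (nat_lit 60) (nat_lit 43) (nat_lit 77) (nat_lit 6) (nat_lit 8) (nat_lit 6) (nat_lit 6) (nat_lit 8) (nat_lit 7) (by decide +kernel)
theorem L1204746 : W_1 (nat_lit 3) (nat_lit 0x1800180004000200010000000000000000000) (nat_lit 0x0) (nat_lit 0x8000000020001800080000000000) := T_1 (nat_lit 59) (nat_lit 111) (nat_lit 7) (nat_lit 8) (nat_lit 3) L1204745 (by decide +kernel)
theorem L1204747 : W_1 (nat_lit 4) (nat_lit 0x1800080004000200010000000000000000000) (nat_lit 0x0) (nat_lit 0x2000100008000000020001800080000000000) := T_1 (nat_lit 128) (nat_lit 145) (nat_lit 7) (nat_lit 8) (nat_lit 4) L1204746 (by decide +kernel)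
theorem L1204748 : W_1 (nat_lit 5) (nat_lit 0x1000080004000200010000000000000000000) (nat_lit 0x0) (nat_lit 0x10002800100008000000020001800080000000000) := T_1 (nat_lit 143) (nat_lit 160) (nat_lit 5) (nat_lit 8) (nat_lit 5) L1204747 (by decide +kernel)
theorem L1204749 : W_1 (nat_lit 2) (nat_lit 0x1000580014000a00078002000000000000000) (nat_lit 0x0) (nat_lit 0x800200002000000000000000000000000000) := D_1 (nat_lit 129) (nat_lit 143) (nat_lit 109) (nat_lit 1) (nat_lit 11) (nat_lit 7) (nat_lit 0) (nat_lit 11) (nat_lit 7) (by decide +kernel)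
theorem L1204750 : W_1 (nat_lit 3) (nat_lit 0x1000180014000a00078002000000000000000) (nat_lit 0x0) (nat_lit 0x800600022000000000000000000000000000) := T_1 (nat_lit 130) (nat_lit 113) (nat_lit 7) (nat_lit 10) (nat_lit 3) L1204749 (by decide +kernel)
theorem L1204751 : W_1 (nat_lit 4) (nat_lit 0x1000180004000a00078002000000000000000) (nat_lit 0x0) (nat_lit 0x80060003a000000000000000000000000000) := T_1 (nat_lit 112) (nat_lit 111) (nat_lit 5) (nat_lit 10) (nat_lit 3) L1204750 (by decide +kernel)
theorem L1204752 : W_1 (nat_lit 5) (nat_lit 0x1000180004000a00078000000000000000000) (nat_lit 0x0) (nat_lit 0x80060003a000000000006000000000000000) := T_1 (nat_lit 61) (nat_lit 62) (nat_lit 2) (nat_lit 7) (nat_lit 4) L1204751 (by decide +kernel)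
theorem L1204753 : W_1 (nat_lit 6) (nat_lit 0x1000180004000200078000000000000000000) (nat_lit 0x0) (nat_lit 0x80060003a001800000006000000000000000) := T_1 (nat_lit 95) (nat_lit 96) (nat_lit 3) (nat_lit 7) (nat_lit 4) L1204752 (by decide +kernel)
theorem L1204754 : W_1 (nat_lit 7) (nat_lit 0x1000180004000200070000000000000000000) (nat_lit 0x0) (nat_lit 0x80060003a001800008006400000000000000) := T_1 (nat_lit 75) (nat_lit 58) (nat_lit 4) (nat_lit 8) (nat_lit 7) L1204753 (by decide +kernel)
theorem L1204755 : W_1 (nat_lit 8) (nat_lit 0x1000080004000200070000000000000000000) (nat_lit 0x0) (nat_lit 0x280070003a001800008006400000000000000) := T_1 (nat_lit 128) (nat_lit 145) (nat_lit 7) (nat_lit 8) (nat_lit 4) L1204754 (by decide +kernel)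
theorem L1204756 : W_1 (nat_lit 5) (nat_lit 0x1000080004000200070000000000000000000) (nat_lit 0x0) (nat_lit 0x380008800e400000000000000) := T_1 (nat_lit 75) (nat_lit 58) (nat_lit 4) (nat_lit 8) (nat_lit 7) L101257 (by decide +kernel)
theorem L1204757 : W_1 (nat_lit 2) (nat_lit 0x10000800040002000f8000000000000000000) (nat_lit 0x0) (nat_lit 0xe000000000000000) := D_1 (nat_lit 62) (nat_lit 61) (nat_lit 63) (nat_lit 2) (nat_lit 7) (nat_lit 4) (nat_lit 2) (nat_lit 8) (nat_lit 4) (by decide +kernel)
theorem L1204758 : W_1 (nat_lit 3) (nat_lit 0x10000800040002000f0000000000000000000) (nat_lit 0x0) (nat_lit 0x800e400000000000000) := T_1 (nat_lit 75) (nat_lit 58) (nat_lit 4) (nat_lit 8) (nat_lit 7) L1204757 (by decide +kernel)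
theorem L1204759 : W_1 (nat_lit 2) (nat_lit 0x1a00d800440022001f8008000000000000000) (nat_lit 0x0) (nat_lit 0x20001000080000000000000000000000000000) := D_1 (nat_lit 132) (nat_lit 115) (nat_lit 149) (nat_lit 7) (nat_lit 12) (nat_lit 3) (nat_lit 7) (nat_lit 12) (nat_lit 4) (by decide +kernel)
theorem L1204760 : W_1 (nat_lit 3) (nat_lit 0x1a005800440022001f8008000000000000000) (nat_lit 0x0) (nat_lit 0x28001800080000000000000000000000000000) := T_1 (nat_lit 131) (nat_lit 147) (nat_lit 5) (nat_lit 12) (nat_lit 4) L1204759 (by decide +kernel)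
theorem L1204761 : W_1 (nat_lit 4) (nat_lit 0x1a005800040022001f8008000000000000000) (nat_lit 0x0) (nat_lit 0x280018000e0000000000000000000000000000) := T_1 (nat_lit 114) (nat_lit 113) (nat_lit 5) (nat_lit 12) (nat_lit 3) L1204760 (by decide +kernel)
theorem L1204762 : W_1 (nat_lit 5) (nat_lit 0x1a001800040022001f8008000000000000000) (nat_lit 0x0) (nat_lit 0x28001e000e0000000000000000000000000000) := T_1 (nat_lit 130) (nat_lit 129) (nat_lit 1) (nat_lit 11) (nat_lit 7) L1204761 (by decide +kernel)
theorem L1204763 : W_1 (nat_lit 6) (nat_lit 0x18001800040022001f8008000000000000000) (nat_lit 0x0) (nat_lit 0x28601e000e0000000000000000000000000000) := T_1 (nat_lit 141) (nat_lit 142) (nat_lit 2) (nat_lit 5) (nat_lit 8) L1204762 (by decide +kernel)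
theorem L1204764 : W_1 (nat_lit 7) (nat_lit 0x10001800040022001f8008000000000000000) (nat_lit 0x0) (nat_lit 0x10028e01e000e0000000000000000000000000000) := T_1 (nat_lit 143) (nat_lit 160) (nat_lit 5) (nat_lit 8) (nat_lit 5) L1204763 (by decide +kernel)
theorem L1204765 : W_1 (nat_lit 8) (nat_lit 0x10000800040022001f8008000000000000000) (nat_lit 0x0) (nat_lit 0x1002ae01f000e0000000000000000000000000000) := T_1 (nat_lit 128) (nat_lit 145) (nat_lit 7) (nat_lit 8) (nat_lit 4) L1204764 (by decide +kernel)
theorem L1204766 : W_1 (nat_lit 9) (nat_lit 0x10000800040022001f8000000000000000000) (nat_lit 0x0) (nat_lit 0x1002ae01f000e0000000000018000000000000000) := T_1 (nat_lit 63) (nat_lit 64) (nat_lit 2) (nat_lit 9) (nat_lit 4) L1204765 (by decide +kernel)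
theorem L1204767 : W_1 (nat_lit 10) (nat_lit 0x10000800040022000f8000000000000000000) (nat_lit 0x0) (nat_lit 0x1002ae01f000e0004000100018000000000000000) := T_1 (nat_lit 80) (nat_lit 98) (nat_lit 3) (nat_lit 9) (nat_lit 4) L1204766 (by decide +kernel)
theorem L1204768 : W_1 (nat_lit 11) (nat_lit 0x10000800040022000f0000000000000000000) (nat_lit 0x0) (nat_lit 0x1002ae01f000e0004000108018400000000000000) := T_1 (nat_lit 75) (nat_lit 58) (nat_lit 4) (nat_lit 8) (nat_lit 7) L1204767 (by decide +kernel)
theorem L1204769 : W_1 (nat_lit 12) (nat_lit 0x10000800040002000f0000000000000000000) (nat_lit 0x0) (nat_lit 0x1002ae01f000e0007000108018400000000000000) := T_1 (nat_lit 97) (nat_lit 96) (nat_lit 3) (nat_lit 8) (nat_lit 4) L1204768 (by decide +kernel)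
theorem L1204770 : W_1 (nat_lit 2) (nat_lit 0x18001800040012000f8002000000000000000) (nat_lit 0x0) (nat_lit 0x600020000000000000000000000000000) := D_1 (nat_lit 130) (nat_lit 113) (nat_lit 129) (nat_lit 4) (nat_lit 11) (nat_lit 7) (nat_lit 1) (nat_lit 11) (nat_lit 7) (by decide +kernel)
theorem L1204771 : W_1 (nat_lit 3) (nat_lit 0x18000800040012000f8002000000000000000) (nat_lit 0x0) (nat_lit 0x2000700020000000000000000000000000000) := T_1 (nat_lit 128) (nat_lit 145) (nat_lit 7) (nat_lit 8) (nat_lit 4) L1204770 (by decide +kernel)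
theorem L1204772 : W_1 (nat_lit 4) (nat_lit 0x18000800040002000f8002000000000000000) (nat_lit 0x0) (nat_lit 0x2000700020003000000000000000000000000) := T_1 (nat_lit 96) (nat_lit 97) (nat_lit 3) (nat_lit 8) (nat_lit 4) L1204771 (by decide +kernel)
theorem L1204773 : W_1 (nat_lit 5) (nat_lit 0x18000800040002000f8000000000000000000) (nat_lit 0x0) (nat_lit 0x2000700020003000000006000000000000000) := T_1 (nat_lit 61) (nat_lit 62) (nat_lit 2) (nat_lit 7) (nat_lit 4) L1204772 (by decide +kernel)
theorem L1204774 : W_1 (nat_lit 6) (nat_lit 0x18000800040002000f0000000000000000000) (nat_lit 0x0) (nat_lit 0x2000700020003000008006400000000000000) := T_1 (nat_lit 75) (nat_lit 58) (nat_lit 4) (nat_lit 8) (nat_lit 7) L1204773 (by decide +kernel)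
theorem L1204775 : W_1 (nat_lit 7) (nat_lit 0x10000800040002000f0000000000000000000) (nat_lit 0x0) (nat_lit 0x10002800700020003000008006400000000000000) := T_1 (nat_lit 143) (nat_lit 160) (nat_lit 5) (nat_lit 8) (nat_lit 5) L1204774 (by decide +kernel)
theorem L1204776 : W_1 (nat_lit 13) (nat_lit 0x1000080004000200070000000000000000000) (nat_lit 0x0) (nat_lit 0x1002ae01f000e000700018801e400000000000000) := Q_1 (nat_lit 79) (C_1 L101711 (C_1 L1204758 (C_1 L1204769 (C_1 L1204775 N_1)))) (by decide +kernel)
theorem L1204777 : W_1 (nat_lit 2) (nat_lit 0x14000400020001000180004000200070000000000000000000) (nat_lit 0x0) (nat_lit 0x280008000000000000000000000000000000000000000000000000) := D_1 (nat_lit 195) (nat_lit 211) (nat_lit 213) (nat_lit 5) (nat_lit 8) (nat_lit 8) (nat_lit 7) (nat_lit 8) (nat_lit 8) (by decide +kernel)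
theorem L1204778 : W_1 (nat_lit 3) (nat_lit 0x4000400020001000180004000200070000000000000000000) (nat_lit 0x0) (nat_lit 0x280018000800000000000000000000000000000000000000000000) := T_1 (nat_lit 196) (nat_lit 179) (nat_lit 7) (nat_lit 8) (nat_lit 7) L1204777 (by decide +kernel)
theorem L1204779 : W_1 (nat_lit 4) (nat_lit 0x400020001000180004000200070000000000000000000) (nat_lit 0x0) (nat_lit 0x28001c000a00000000000000000000000000000000000000000000) := T_1 (nat_lit 194) (nat_lit 177) (nat_lit 5) (nat_lit 8) (nat_lit 7) L1204778 (by decide +kernel)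
theorem L1204780 : W_1 (nat_lit 5) (nat_lit 0x20001000180004000200070000000000000000000) (nat_lit 0x0) (nat_lit 0x28001c000e00000000000000008000000000000000000000000000) := T_1 (nat_lit 178) (nat_lit 111) (nat_lit 6) (nat_lit 8) (nat_lit 10) L1204779 (by decide +kernel)
theorem L1204781 : W_1 (nat_lit 6) (nat_lit 0x20001000080004000200070000000000000000000) (nat_lit 0x0) (nat_lit 0x28001c000e00000002000100008000000000000000000000000000) := T_1 (nat_lit 128) (nat_lit 145) (nat_lit 7) (nat_lit 8) (nat_lit 4) L1204780 (by decide +kernel)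
theorem L1204782 : W_1 (nat_lit 2) (nat_lit 0x20001000080004000200070000000000000000000) (nat_lit 0x0) (nat_lit 0x200010000800000000000000000000000000000000000) := D_1 (nat_lit 160) (nat_lit 143) (nat_lit 177) (nat_lit 5) (nat_lit 8) (nat_lit 5) (nat_lit 5) (nat_lit 8) (nat_lit 6) (by decide +kernel)
theorem L1204783 : W_1 (nat_lit 2) (nat_lit 0x20001a0058001c000200078002000000000000000) (nat_lit 0x0) (nat_lit 0x800060000000000000000000000000000) := D_1 (nat_lit 113) (nat_lit 131) (nat_lit 114) (nat_lit 3) (nat_lit 8) (nat_lit 6) (nat_lit 1) (nat_lit 12) (nat_lit 6) (by decide +kernel)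
theorem L1204784 : W_1 (nat_lit 3) (nat_lit 0x20001a0018001c000200078002000000000000000) (nat_lit 0x0) (nat_lit 0xe00060000000000000000000000000000) := T_1 (nat_lit 130) (nat_lit 129) (nat_lit 1) (nat_lit 11) (nat_lit 7) L1204783 (by decide +kernel)
theorem L1204785 : W_1 (nat_lit 4) (nat_lit 0x20001a0018000c000200078002000000000000000) (nat_lit 0x0) (nat_lit 0xe00070000800000000000000000000000) := T_1 (nat_lit 112) (nat_lit 95) (nat_lit 5) (nat_lit 10) (nat_lit 3) L1204784 (by decide +kernel)
theorem L1204786 : W_1 (nat_lit 5) (nat_lit 0x2000180018000c000200078002000000000000000) (nat_lit 0x0) (nat_lit 0x600e00070000800000000000000000000000) := T_1 (nat_lit 141) (nat_lit 142) (nat_lit 2) (nat_lit 5) (nat_lit 8) L1204785 (by decide +kernel)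
theorem L1204787 : W_1 (nat_lit 6) (nat_lit 0x20001800180004000200078002000000000000000) (nat_lit 0x0) (nat_lit 0x400000000600e00078000800000000000000000000000) := T_1 (nat_lit 111) (nat_lit 178) (nat_lit 6) (nat_lit 8) (nat_lit 10) L1204786 (by decide +kernel)
theorem L1204788 : W_1 (nat_lit 7) (nat_lit 0x20001800080004000200078002000000000000000) (nat_lit 0x0) (nat_lit 0x400000002600f00078000800000000000000000000000) := T_1 (nat_lit 128) (nat_lit 145) (nat_lit 7) (nat_lit 8) (nat_lit 4) L1204787 (by decide +kernel)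
theorem L1204789 : W_1 (nat_lit 8) (nat_lit 0x20001000080004000200078002000000000000000) (nat_lit 0x0) (nat_lit 0x400010002e00f00078000800000000000000000000000) := T_1 (nat_lit 143) (nat_lit 160) (nat_lit 5) (nat_lit 8) (nat_lit 5) L1204788 (by decide +kernel)
theorem L1204790 : W_1 (nat_lit 9) (nat_lit 0x20001000080004000200078000000000000000000) (nat_lit 0x0) (nat_lit 0x400010002e00f00078000800000006000000000000000) := T_1 (nat_lit 61) (nat_lit 62) (nat_lit 2) (nat_lit 7) (nat_lit 4) L1204789 (by decide +kernel)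
theorem L1204791 : W_1 (nat_lit 10) (nat_lit 0x20001000080004000200070000000000000000000) (nat_lit 0x0) (nat_lit 0x400010002e00f00078000800008006400000000000000) := T_1 (nat_lit 75) (nat_lit 58) (nat_lit 4) (nat_lit 8) (nat_lit 7) L1204790 (by decide +kernel)
theorem L1204792 : W_1 (nat_lit 11) (nat_lit 0x1000080004000200070000000000000000000) (nat_lit 0x0) (nat_lit 0x28001c000e00030002e00f00078000800008006400000000000000) := Q_1 (nat_lit 161) (C_1 L1204781 (C_1 L1204782 (C_1 L1204791 N_1))) (by decide +kernel)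
theorem L1204793 : W_1 (nat_lit 2) (nat_lit 0x1a00d800440022001f0008000000000000000) (nat_lit 0x0) (nat_lit 0x20001000080000000000000000000000000000) := D_1 (nat_lit 132) (nat_lit 115) (nat_lit 149) (nat_lit 7) (nat_lit 12) (nat_lit 3) (nat_lit 7) (nat_lit 12) (nat_lit 4) (by decide +kernel)
theorem L1204794 : W_1 (nat_lit 3) (nat_lit 0x1a005800440022001f0008000000000000000) (nat_lit 0x0) (nat_lit 0x28001800080000000000000000000000000000) := T_1 (nat_lit 131) (nat_lit 147) (nat_lit 5) (nat_lit 12) (nat_lit 4) L1204793 (by decide +kernel)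
theorem L1204795 : W_1 (nat_lit 4) (nat_lit 0x1a005800040022001f0008000000000000000) (nat_lit 0x0) (nat_lit 0x280018000e0000000000000000000000000000) := T_1 (nat_lit 114) (nat_lit 113) (nat_lit 5) (nat_lit 12) (nat_lit 3) L1204794 (by decide +kernel)
theorem L1204796 : W_1 (nat_lit 5) (nat_lit 0x1a005800040002001f0008000000000000000) (nat_lit 0x0) (nat_lit 0x280018000e0006000000000000000000000000) := T_1 (nat_lit 97) (nat_lit 98) (nat_lit 3) (nat_lit 9) (nat_lit 4) L1204795 (by decide +kernel)
theorem L1204797 : W_1 (nat_lit 6) (nat_lit 0x1a005800040002000f0008000000000000000) (nat_lit 0x0) (nat_lit 0x280018000e0006000100010000000000000000) := T_1 (nat_lit 80) (nat_lit 64) (nat_lit 2) (nat_lit 9) (nat_lit 4) L1204796 (by decide +kernel)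
theorem L1204798 : W_1 (nat_lit 7) (nat_lit 0x1a001800040002000f0008000000000000000) (nat_lit 0x0) (nat_lit 0x28001e000e0006000100010000000000000000) := T_1 (nat_lit 130) (nat_lit 129) (nat_lit 1) (nat_lit 11) (nat_lit 7) L1204797 (by decide +kernel)
theorem L1204799 : W_1 (nat_lit 8) (nat_lit 0x18001800040002000f0008000000000000000) (nat_lit 0x0) (nat_lit 0x28601e000e0006000100010000000000000000) := T_1 (nat_lit 141) (nat_lit 142) (nat_lit 2) (nat_lit 5) (nat_lit 8) L1204798 (by decide +kernel)
theorem L1204800 : W_1 (nat_lit 9) (nat_lit 0x10001800040002000f0008000000000000000) (nat_lit 0x0) (nat_lit 0x10028e01e000e0006000100010000000000000000) := T_1 (nat_lit 143) (nat_lit 160) (nat_lit 5) (nat_lit 8) (nat_lit 5) L1204799 (by decide +kernel)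
theorem L1204801 : W_1 (nat_lit 10) (nat_lit 0x10001800040002000f0000000000000000000) (nat_lit 0x0) (nat_lit 0x10028e01e000e000600010001c000000000000000) := T_1 (nat_lit 63) (nat_lit 62) (nat_lit 2) (nat_lit 8) (nat_lit 4) L1204800 (by decide +kernel)
theorem L1204802 : W_1 (nat_lit 11) (nat_lit 0x10000800040002000f0000000000000000000) (nat_lit 0x0) (nat_lit 0x1002ae01f000e000600010001c000000000000000) := T_1 (nat_lit 128) (nat_lit 145) (nat_lit 7) (nat_lit 8) (nat_lit 4) L1204801 (by decide +kernel)
theorem L1204803 : W_1 (nat_lit 2) (nat_lit 0x1a003800340002000f0004000000000000000) (nat_lit 0x0) (nat_lit 0xc8000000000000000000000000000) := D_1 (nat_lit 114) (nat_lit 115) (nat_lit 111) (nat_lit 1) (nat_lit 13) (nat_lit 6) (nat_lit 1) (nat_lit 12) (nat_lit 6) (by decide +kernel)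
theorem L1204804 : W_1 (nat_lit 3) (nat_lit 0x1a003800140002000f0004000000000000000) (nat_lit 0x0) (nat_lit 0xe8001000000000000000000000000) := T_1 (nat_lit 113) (nat_lit 96) (nat_lit 5) (nat_lit 11) (nat_lit 3) L1204803 (by decide +kernel)
theorem L1204805 : W_1 (nat_lit 4) (nat_lit 0x1a003800040002000f0004000000000000000) (nat_lit 0x0) (nat_lit 0xf8001800000000000000000000000) := T_1 (nat_lit 112) (nat_lit 95) (nat_lit 6) (nat_lit 10) (nat_lit 7) L1204804 (by decide +kernel)
theorem L1204806 : W_1 (nat_lit 5) (nat_lit 0x1a001800040002000f0004000000000000000) (nat_lit 0x0) (nat_lit 0x6000f8001800000000000000000000000) := T_1 (nat_lit 129) (nat_lit 130) (nat_lit 1) (nat_lit 11) (nat_lit 7) L1204805 (by decide +kernel)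
theorem L1204807 : W_1 (nat_lit 6) (nat_lit 0x18001800040002000f0004000000000000000) (nat_lit 0x0) (nat_lit 0x6006000f8001800000000000000000000000) := T_1 (nat_lit 141) (nat_lit 142) (nat_lit 2) (nat_lit 5) (nat_lit 8) L1204806 (by decide +kernel)
theorem L1204808 : W_1 (nat_lit 7) (nat_lit 0x10001800040002000f0004000000000000000) (nat_lit 0x0) (nat_lit 0x10000e006000f8001800000000000000000000000) := T_1 (nat_lit 143) (nat_lit 160) (nat_lit 5) (nat_lit 8) (nat_lit 5) L1204807 (by decide +kernel)
theorem L1204809 : W_1 (nat_lit 8) (nat_lit 0x10000800040002000f0004000000000000000) (nat_lit 0x0) (nat_lit 0x10002e007000f8001800000000000000000000000) := T_1 (nat_lit 128) (nat_lit 145) (nat_lit 7) (nat_lit 8) (nat_lit 4) L1204808 (by decide +kernel)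
theorem L1204810 : W_1 (nat_lit 9) (nat_lit 0x10000800040002000f0000000000000000000) (nat_lit 0x0) (nat_lit 0x10002e007000f800180000000c000000000000000) := T_1 (nat_lit 62) (nat_lit 63) (nat_lit 2) (nat_lit 8) (nat_lit 4) L1204809 (by decide +kernel)
theorem L1204811 : W_1 (nat_lit 2) (nat_lit 0x9a005800240012000f0000000000000000000) (nat_lit 0x0) (nat_lit 0x200010000800000000000000000000000000000000) := D_1 (nat_lit 148) (nat_lit 131) (nat_lit 165) (nat_lit 7) (nat_lit 11) (nat_lit 4) (nat_lit 7) (nat_lit 11) (nat_lit 5) (by decide +kernel)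
theorem L1204812 : W_1 (nat_lit 3) (nat_lit 0x1a005800240012000f0000000000000000000) (nat_lit 0x0) (nat_lit 0x200018000800000000800000000000000000000000) := T_1 (nat_lit 147) (nat_lit 95) (nat_lit 4) (nat_lit 11) (nat_lit 8) L1204811 (by decide +kernel)
theorem L1204813 : W_1 (nat_lit 4) (nat_lit 0x1a005800040012000f0000000000000000000) (nat_lit 0x0) (nat_lit 0x200018000800020000800000002000000000000000) := T_1 (nat_lit 113) (nat_lit 61) (nat_lit 4) (nat_lit 11) (nat_lit 7) L1204812 (by decide +kernel)
theorem L1204814 : W_1 (nat_lit 5) (nat_lit 0x1a001800040012000f0000000000000000000) (nat_lit 0x0) (nat_lit 0x200018000e00020000800000002000000000000000) := T_1 (nat_lit 130) (nat_lit 129) (nat_lit 1) (nat_lit 11) (nat_lit 7) L1204813 (by decide +kernel)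
theorem L1204815 : W_1 (nat_lit 6) (nat_lit 0x18001800040012000f0000000000000000000) (nat_lit 0x0) (nat_lit 0x200018600e00020000800000002000000000000000) := T_1 (nat_lit 141) (nat_lit 142) (nat_lit 2) (nat_lit 5) (nat_lit 8) L1204814 (by decide +kernel)
theorem L1204816 : W_1 (nat_lit 7) (nat_lit 0x18000800040012000f0000000000000000000) (nat_lit 0x0) (nat_lit 0x20001a600f00020000800000002000000000000000) := T_1 (nat_lit 128) (nat_lit 145) (nat_lit 7) (nat_lit 8) (nat_lit 4) L1204815 (by decide +kernel)
theorem L1204817 : W_1 (nat_lit 8) (nat_lit 0x18000800040002000f0000000000000000000) (nat_lit 0x0) (nat_lit 0x20001a600f00020003800000002000000000000000) := T_1 (nat_lit 96) (nat_lit 97) (nat_lit 3) (nat_lit 8) (nat_lit 4) L1204816 (by decide +kernel)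
theorem L1204818 : W_1 (nat_lit 9) (nat_lit 0x10000800040002000f0000000000000000000) (nat_lit 0x0) (nat_lit 0x21001ae00f00020003800000002000000000000000) := T_1 (nat_lit 143) (nat_lit 160) (nat_lit 5) (nat_lit 8) (nat_lit 5) L1204817 (by decide +kernel)
theorem L1204819 : W_1 (nat_lit 12) (nat_lit 0x1000080004000200070000000000000000000) (nat_lit 0x0) (nat_lit 0x21003ae01f000f800780018001e000000000000000) := Q_1 (nat_lit 79) (C_1 L101711 (C_1 L1204802 (C_1 L1204810 (C_1 L1204818 N_1)))) (by decide +kernel)
theorem L1204820 : W_1 (nat_lit 2) (nat_lit 0x1a005800040012000f8008000000000000000) (nat_lit 0x0) (nat_lit 0x20000000100010000000000000000) := D_1 (nat_lit 80) (nat_lit 64) (nat_lit 113) (nat_lit 2) (nat_lit 9) (nat_lit 4) (nat_lit 6) (nat_lit 11) (nat_lit 7) (by decide +kernel)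
theorem L1204821 : W_1 (nat_lit 3) (nat_lit 0x1a005800040012000f8000000000000000000) (nat_lit 0x0) (nat_lit 0x2000000010001c000000000000000) := T_1 (nat_lit 63) (nat_lit 62) (nat_lit 2) (nat_lit 8) (nat_lit 4) L1204820 (by decide +kernel)
theorem L1204822 : W_1 (nat_lit 4) (nat_lit 0x1a00580004001200078000000000000000000) (nat_lit 0x0) (nat_lit 0x2000200018001c000000000000000) := T_1 (nat_lit 79) (nat_lit 97) (nat_lit 3) (nat_lit 8) (nat_lit 4) L1204821 (by decide +kernel)
theorem L1204823 : W_1 (nat_lit 5) (nat_lit 0x1a00180004001200078000000000000000000) (nat_lit 0x0) (nat_lit 0x60002000200018001c000000000000000) := T_1 (nat_lit 130) (nat_lit 129) (nat_lit 1) (nat_lit 11) (nat_lit 7) L1204822 (by decide +kernel)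
theorem L1204824 : W_1 (nat_lit 6) (nat_lit 0x1800180004001200078000000000000000000) (nat_lit 0x0) (nat_lit 0x60060002000200018001c000000000000000) := T_1 (nat_lit 141) (nat_lit 142) (nat_lit 2) (nat_lit 5) (nat_lit 8) L1204823 (by decide +kernel)
theorem L1204825 : W_1 (nat_lit 7) (nat_lit 0x1000180004001200078000000000000000000) (nat_lit 0x0) (nat_lit 0x10000e0060002000200018001c000000000000000) := T_1 (nat_lit 143) (nat_lit 160) (nat_lit 5) (nat_lit 8) (nat_lit 5) L1204824 (by decide +kernel)
theorem L1204826 : W_1 (nat_lit 8) (nat_lit 0x1000180004000200078000000000000000000) (nat_lit 0x0) (nat_lit 0x10000e0060002000380018001c000000000000000) := T_1 (nat_lit 96) (nat_lit 95) (nat_lit 3) (nat_lit 7) (nat_lit 4) L1204825 (by decide +kernel)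
theorem L1204827 : W_1 (nat_lit 9) (nat_lit 0x1000180004000200070000000000000000000) (nat_lit 0x0) (nat_lit 0x10000e0060002000380018801c400000000000000) := T_1 (nat_lit 75) (nat_lit 58) (nat_lit 4) (nat_lit 8) (nat_lit 7) L1204826 (by decide +kernel)
theorem L1204828 : W_1 (nat_lit 10) (nat_lit 0x1000080004000200070000000000000000000) (nat_lit 0x0) (nat_lit 0x10002e0070002000380018801c400000000000000) := T_1 (nat_lit 128) (nat_lit 145) (nat_lit 7) (nat_lit 8) (nat_lit 4) L1204827 (by decide +kernel)
theorem L1204829 : W_1 (nat_lit 2) (nat_lit 0x3000100058003c000a00078000000000000000000) (nat_lit 0x0) (nat_lit 0x8000200002000000000000000000000000000) := D_1 (nat_lit 129) (nat_lit 109) (nat_lit 147) (nat_lit 3) (nat_lit 7) (nat_lit 6) (nat_lit 7) (nat_lit 10) (nat_lit 4) (by decide +kernel)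
theorem L1204830 : W_1 (nat_lit 3) (nat_lit 0x3000100018003c000a00078000000000000000000) (nat_lit 0x0) (nat_lit 0x8000e00002000000000000000000000000000) := T_1 (nat_lit 130) (nat_lit 131) (nat_lit 3) (nat_lit 8) (nat_lit 6) L1204829 (by decide +kernel)
theorem L1204831 : W_1 (nat_lit 4) (nat_lit 0x3000100018001c000a00078000000000000000000) (nat_lit 0x0) (nat_lit 0x8000e00062000000000000000000000000000) := T_1 (nat_lit 113) (nat_lit 114) (nat_lit 1) (nat_lit 12) (nat_lit 6) L1204830 (by decide +kernel)
theorem L1204832 : W_1 (nat_lit 5) (nat_lit 0x3000100018000c000a00078000000000000000000) (nat_lit 0x0) (nat_lit 0x8000e00072000000000002000000000000000) := T_1 (nat_lit 112) (nat_lit 61) (nat_lit 5) (nat_lit 10) (nat_lit 3) L1204831 (by decide +kernel)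
theorem L1204833 : W_1 (nat_lit 6) (nat_lit 0x30001000180004000a00078000000000000000000) (nat_lit 0x0) (nat_lit 0x400000008000e0007a000000000002000000000000000) := T_1 (nat_lit 111) (nat_lit 178) (nat_lit 6) (nat_lit 8) (nat_lit 10) L1204832 (by decide +kernel)
theorem L1204834 : W_1 (nat_lit 7) (nat_lit 0x30001000180004000200078000000000000000000) (nat_lit 0x0) (nat_lit 0x400000008000e0007a001800000002000000000000000) := T_1 (nat_lit 95) (nat_lit 96) (nat_lit 3) (nat_lit 7) (nat_lit 4) L1204833 (by decide +kernel)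
theorem L1204835 : W_1 (nat_lit 8) (nat_lit 0x30001000180004000200070000000000000000000) (nat_lit 0x0) (nat_lit 0x400000008000e0007a001800008002400000000000000) := T_1 (nat_lit 75) (nat_lit 58) (nat_lit 4) (nat_lit 8) (nat_lit 7) L1204834 (by decide +kernel)
theorem L1204836 : W_1 (nat_lit 9) (nat_lit 0x10001000180004000200070000000000000000000) (nat_lit 0x0) (nat_lit 0x600020008000e0007a001800008002400000000000000) := T_1 (nat_lit 161) (nat_lit 177) (nat_lit 5) (nat_lit 8) (nat_lit 6) L1204835 (by decide +kernel)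
theorem L1204837 : W_1 (nat_lit 10) (nat_lit 0x10001000080004000200070000000000000000000) (nat_lit 0x0) (nat_lit 0x60002000a000f0007a001800008002400000000000000) := T_1 (nat_lit 128) (nat_lit 145) (nat_lit 7) (nat_lit 8) (nat_lit 4) L1204836 (by decide +kernel)
theorem L1204838 : W_1 (nat_lit 11) (nat_lit 0x1000080004000200070000000000000000000) (nat_lit 0x0) (nat_lit 0x60003000a800f0007a001800008002400000000000000) := T_1 (nat_lit 160) (nat_lit 143) (nat_lit 5) (nat_lit 8) (nat_lit 5) L1204837 (by decide +kernel)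
theorem L1204839 : W_1 (nat_lit 14) (nat_lit 0x1000080004000200030000000000000000000) (nat_lit 0x0) (nat_lit 0x28001c000e0023003ae01f000fa0078001c801e400000000000000) := Q_1 (nat_lit 78) (C_1 L1204755 (C_1 L1204756 (C_1 L1204776 (C_1 L1204792 (C_1 L1204819 (C_1 L1204828 (C_1 L1204838 N_1))))))) (by decide +kernel)
theorem L1204840 : W_1 (nat_lit 15) (nat_lit 0x1000080004000200010000000000000000000) (nat_lit 0x0) (nat_lit 0x28001c000e0023003ae01f000fa0078001e801f400000000000000) := T_1 (nat_lit 77) (nat_lit 60) (nat_lit 6) (nat_lit 8) (nat_lit 7) L1204839 (by decide +kernel)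
theorem L1204841 : W_1 (nat_lit 16) (nat_lit 0x1000080004000200000000000000000000000) (nat_lit 0x0) (nat_lit 0x28001c000e0023003ae01f000fa0078001f801fc000e0005000000) := Q_1 (nat_lit 76) (C_1 L76317 (C_1 L1186989 (C_1 L158 (C_1 L1204748 (C_1 L1204840 N_1))))) (by decide +kernel)
theorem L1204842 : W_1 (nat_lit 2) (nat_lit 0x1c00180004000200000000000000000000000) (nat_lit 0x0) (nat_lit 0x2000600000000000000000000000000000000) := D_1 (nat_lit 129) (nat_lit 130) (nat_lit 145) (nat_lit 1) (nat_lit 11) (nat_lit 7) (nat_lit 2) (nat_lit 6) (nat_lit 8) (by decide +kernel)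
theorem L1204843 : W_1 (nat_lit 3) (nat_lit 0x1800180004000200000000000000000000000) (nat_lit 0x0) (nat_lit 0x2600600000000000000000000000000000000) := T_1 (nat_lit 142) (nat_lit 141) (nat_lit 2) (nat_lit 5) (nat_lit 8) L1204842 (by decide +kernel)
theorem L1204844 : W_1 (nat_lit 4) (nat_lit 0x1000180004000200000000000000000000000) (nat_lit 0x0) (nat_lit 0x10002e00600000000000000000000000000000000) := T_1 (nat_lit 143) (nat_lit 160) (nat_lit 5) (nat_lit 8) (nat_lit 5) L1204843 (by decide +kernel)
theorem L1204845 : W_1 (nat_lit 6) (nat_lit 0x1000180004000200000000000000000000000) (nat_lit 0x0) (nat_lit 0x2000000008000000010001c000e0005000000) := T_1 (nat_lit 76) (nat_lit 145) (nat_lit 7) (nat_lit 8) (nat_lit 4) L568037 (by decide +kernel)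
theorem L1204846 : W_1 (nat_lit 2) (nat_lit 0x30001000180007000200000000000000000000000) (nat_lit 0x0) (nat_lit 0x600008000000000000000000000000000) := D_1 (nat_lit 129) (nat_lit 130) (nat_lit 111) (nat_lit 0) (nat_lit 11) (nat_lit 7) (nat_lit 3) (nat_lit 6) (nat_lit 6) (by decide +kernel)
theorem L1204847 : W_1 (nat_lit 3) (nat_lit 0x30001000180006000200000000000000000000000) (nat_lit 0x0) (nat_lit 0x600009800000000000000000000000000) := T_1 (nat_lit 108) (nat_lit 107) (nat_lit 3) (nat_lit 5) (nat_lit 6) L1204846 (by decide +kernel)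
theorem L1204848 : W_1 (nat_lit 4) (nat_lit 0x30001000180004000200000000000000000000000) (nat_lit 0x0) (nat_lit 0x60000b800100000000000000000000000) := T_1 (nat_lit 109) (nat_lit 92) (nat_lit 4) (nat_lit 8) (nat_lit 9) L1204847 (by decide +kernel)
theorem L1204849 : W_1 (nat_lit 5) (nat_lit 0x10001000180004000200000000000000000000000) (nat_lit 0x0) (nat_lit 0x20002000000060000b800100000000000000000000000) := T_1 (nat_lit 161) (nat_lit 177) (nat_lit 5) (nat_lit 8) (nat_lit 6) L1204848 (by decide +kernel)
theorem L1204850 : W_1 (nat_lit 6) (nat_lit 0x1000180004000200000000000000000000000) (nat_lit 0x0) (nat_lit 0x20003000080060000b800100000000000000000000000) := T_1 (nat_lit 160) (nat_lit 143) (nat_lit 5) (nat_lit 8) (nat_lit 5) L1204849 (by decide +kernel)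
theorem L1204851 : W_1 (nat_lit 7) (nat_lit 0x1000080004000200000000000000000000000) (nat_lit 0x0) (nat_lit 0x200030002e0070000b800100010001c000e0005000000) := Q_1 (nat_lit 128) (C_1 L1204844 (C_1 L1204845 (C_1 L1204850 N_1))) (by decide +kernel)
theorem L1204852 : W_1 (nat_lit 17) (nat_lit 0x1000080004000000000000000000000000000) (nat_lit 0x0) (nat_lit 0x28001c000e0023003ae01f000fb807b001f801fc000e0005000000) := Q_1 (nat_lit 93) (C_1 L1048890 (C_1 L1186996 (C_1 L131 (C_1 L1204841 (C_1 L1204851 N_1))))) (by decide +kernel)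
theorem L1204855 : W_1 (nat_lit 5) (nat_lit 0x18000c0002000000000000000000000000000) (nat_lit 0x0) (nat_lit 0x8000700100000000300018000000000000000000) := T_1 (nat_lit 92) (nat_lit 75) (nat_lit 7) (nat_lit 7) (nat_lit 4) L628429 (by decide +kernel)
theorem L1204857 : W_1 (nat_lit 8) (nat_lit 0x18000c0000000000000000000000000000000) (nat_lit 0x0) (nat_lit 0xe000f0001e006700318006800040000000000000000000000) := Q_1 (nat_lit 160) (C_1 L1085516 (C_1 L1071407 (C_1 L771736 N_1))) (by decide +kernel)
theorem L1206225 : W_1 (nat_lit 4) (nat_lit 0x1a001c0002800100000000000000000000000) (nat_lit 0x0) (nat_lit 0x5000e80010000000000000000000) := T_1 (nat_lit 108) (nat_lit 110) (nat_lit 3) (nat_lit 5) (nat_lit 6) L876485 (by decide +kernel)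
theorem L1206226 : W_1 (nat_lit 5) (nat_lit 0x1a001c0002800000000000000000000000000) (nat_lit 0x0) (nat_lit 0x5000f80018000000000000000000) := T_1 (nat_lit 92) (nat_lit 75) (nat_lit 7) (nat_lit 7) (nat_lit 4) L1206225 (by decide +kernel)
theorem L1206227 : W_1 (nat_lit 8) (nat_lit 0x1a001c0002000000000000000000000000000) (nat_lit 0x0) (nat_lit 0x10005c00fe001f800000000000000000) := Q_1 (nat_lit 107) (C_1 L1085874 (C_1 L870937 (C_1 L1206226 N_1))) (by decide +kernel)
theorem L1209669 : W_1 (nat_lit 2) (nat_lit 0x18000c0006000700000000000000000000000) (nat_lit 0x0) (nat_lit 0x1800800000000000000000000000) := D_1 (nat_lit 108) (nat_lit 107) (nat_lit 95) (nat_lit 2) (nat_lit 5) (nat_lit 6) (nat_lit 1) (nat_lit 10) (nat_lit 5) (by decide +kernel)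
theorem L1212814 : W_1 (nat_lit 4) (nat_lit 0x200010000c0000000000000000000000000000000) (nat_lit 0x0) (nat_lit 0x200018000c00000000800000002000000000000000000000000000) := T_1 (nat_lit 178) (nat_lit 109) (nat_lit 4) (nat_lit 8) (nat_lit 10) L1167852 (by decide +kernel)
theorem L1212815 : W_1 (nat_lit 2) (nat_lit 0x80004000200010000c0000000000000000000000000000000) (nat_lit 0x0) (nat_lit 0x80004000200000000000000000000000000000000000000000000) := D_1 (nat_lit 194) (nat_lit 177) (nat_lit 211) (nat_lit 5) (nat_lit 8) (nat_lit 7) (nat_lit 5) (nat_lit 8) (nat_lit 8) (by decide +kernel)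
theorem L1212816 : W_1 (nat_lit 3) (nat_lit 0x4000200010000c0000000000000000000000000000000) (nat_lit 0x0) (nat_lit 0x8000c000200000000800000000000000000000000000000000000) := T_1 (nat_lit 195) (nat_lit 143) (nat_lit 4) (nat_lit 8) (nat_lit 11) L1212815 (by decide +kernel)
theorem L1212817 : W_1 (nat_lit 6) (nat_lit 0x200010000c0000000000000000000000000000000) (nat_lit 0x0) (nat_lit 0x28001c001e0001c000800000004000000000000000000000000000) := Q_1 (nat_lit 178) (C_1 L1167852 (C_1 L46 (C_1 L23 (C_1 L1212816 N_1)))) (by decide +kernel)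
theorem L1212819 : W_1 (nat_lit 7) (nat_lit 0x18000c0002000000000000000000000000000) (nat_lit 0x0) (nat_lit 0x600030001e000000300005c00280000000000000000000000) := Q_1 (nat_lit 160) (C_1 L1117867 (C_1 L619455 (C_1 L1049184 N_1))) (by decide +kernel)
theorem L1215078 : W_1 (nat_lit 4) (nat_lit 0x18001c0002000000000000000000000000000) (nat_lit 0x0) (nat_lit 0x4000200010000000020005c00080000000000000000000000) := Q_1 (nat_lit 160) (C_1 L1115472 (C_1 L802214 N_1)) (by decide +kernel)
theorem L1215973 : W_1 (nat_lit 3) (nat_lit 0x4000000010003e0012000000000000000000000000000) (nat_lit 0x0) (nat_lit 0x1c800400000000000000000000000000000000) := T_1 (nat_lit 130) (nat_lit 143) (nat_lit 1) (nat_lit 11) (nat_lit 7) L287911 (by decide +kernel)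
theorem L1215974 : W_1 (nat_lit 4) (nat_lit 0x4000000010003e0002000000000000000000000000000) (nat_lit 0x0) (nat_lit 0x1c800400030000000000000000000000000000) := T_1 (nat_lit 112) (nat_lit 113) (nat_lit 2) (nat_lit 7) (nat_lit 7) L1215973 (by decide +kernel)
theorem L1219275 : W_1 (nat_lit 8) (nat_lit 0x100018000c0006000000000000000000000000000) (nat_lit 0x0) (nat_lit 0x200010005c002e000700120000000000000000000000000000000) := T_1 (nat_lit 161) (nat_lit 178) (nat_lit 7) (nat_lit 7) (nat_lit 6) L1048764 (by decide +kernel)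
theorem L1219276 : W_1 (nat_lit 9) (nat_lit 0x100018000c0002000000000000000000000000000) (nat_lit 0x0) (nat_lit 0x200010005c002e000700120004000200000000000000000000000) := T_1 (nat_lit 110) (nat_lit 93) (nat_lit 6) (nat_lit 7) (nat_lit 9) L1219275 (by decide +kernel)
theorem L1219774 : W_1 (nat_lit 2) (nat_lit 0x1c000c0002000100000000000000000000000) (nat_lit 0x0) (nat_lit 0x300100000000000000000000000000000000) := D_1 (nat_lit 141) (nat_lit 128) (nat_lit 140) (nat_lit 2) (nat_lit 5) (nat_lit 8) (nat_lit 2) (nat_lit 4) (nat_lit 8) (by decide +kernel)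
theorem L1219775 : W_1 (nat_lit 3) (nat_lit 0x18000c0002000100000000000000000000000) (nat_lit 0x0) (nat_lit 0x8000700100000000000000000000000000000000) := T_1 (nat_lit 142) (nat_lit 159) (nat_lit 5) (nat_lit 7) (nat_lit 5) L1219774 (by decide +kernel)
theorem L1219776 : W_1 (nat_lit 4) (nat_lit 0x18000c0002000000000000000000000000000) (nat_lit 0x0) (nat_lit 0x8000700100000000100008000000000000000000) := T_1 (nat_lit 92) (nat_lit 75) (nat_lit 7) (nat_lit 7) (nat_lit 4) L1219775 (by decide +kernel)
theorem L1219777 : W_1 (nat_lit 8) (nat_lit 0x10000c0002000000000000000000000000000) (nat_lit 0x0) (nat_lit 0x600030001e000f00300005c0078001c000000000000000000) := Q_1 (nat_lit 143) (C_1 L1204855 (C_1 L1212819 (C_1 L1219776 (C_1 L616043 N_1)))) (by decide +kernel)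
theorem L1219778 : W_1 (nat_lit 2) (nat_lit 0x200010000c0002000000000000000000000000000) (nat_lit 0x0) (nat_lit 0x800000004000100000000000000000000000) := D_1 (nat_lit 92) (nat_lit 110) (nat_lit 143) (nat_lit 4) (nat_lit 8) (nat_lit 9) (nat_lit 7) (nat_lit 7) (nat_lit 5) (by decide +kernel)
theorem L1219779 : W_1 (nat_lit 3) (nat_lit 0x10000c0002000000000000000000000000000) (nat_lit 0x0) (nat_lit 0x400020000800000004000100000000000000000000000) := T_1 (nat_lit 161) (nat_lit 178) (nat_lit 4) (nat_lit 8) (nat_lit 10) L1219778 (by decide +kernel)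
theorem L1219781 : W_1 (nat_lit 2) (nat_lit 0x18001e0000000000000000000000000000000) (nat_lit 0x0) (nat_lit 0x600200000000000000000000000000000000) := D_1 (nat_lit 142) (nat_lit 141) (nat_lit 129) (nat_lit 2) (nat_lit 5) (nat_lit 8) (nat_lit 1) (nat_lit 10) (nat_lit 7) (by decide +kernel)
theorem L1219782 : W_1 (nat_lit 6) (nat_lit 0x18000e0000000000000000000000000000000) (nat_lit 0x0) (nat_lit 0x20001000e600700003800080004000000000000000000) := Q_1 (nat_lit 128) (C_1 L1219781 (C_1 L988709 (C_1 L843521 N_1))) (by decide +kernel)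
theorem L1219783 : W_1 (nat_lit 7) (nat_lit 0x18000c0000000000000000000000000000000) (nat_lit 0x0) (nat_lit 0x28001600e700738003800080004000000000000000000) := Q_1 (nat_lit 125) (C_1 L979459 (C_1 L979510 (C_1 L1219782 N_1))) (by decide +kernel)
theorem L1219784 : W_1 (nat_lit 7) (nat_lit 0x18000c0000000000000000000000000000000) (nat_lit 0x0) (nat_lit 0x30001800e700738003c000c0004000000000000000000) := Q_1 (nat_lit 125) (C_1 L979495 (C_1 L1219782 (C_1 L979459 N_1))) (by decide +kernel)
theorem L1221644 : W_1 (nat_lit 5) (nat_lit 0x4000000010001e0002000000000000000000000000000) (nat_lit 0x0) (nat_lit 0x1c800600031000000000000000000000000000) := T_1 (nat_lit 129) (nat_lit 108) (nat_lit 0) (nat_lit 10) (nat_lit 7) L1215974 (by decide +kernel)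
theorem L1221645 : W_1 (nat_lit 6) (nat_lit 0x10001e0002000000000000000000000000000) (nat_lit 0x0) (nat_lit 0x40002001c800600031000000000000000000000000000) := T_1 (nat_lit 178) (nat_lit 161) (nat_lit 4) (nat_lit 8) (nat_lit 10) L1221644 (by decide +kernel)
theorem L1238669 : W_1 (nat_lit 10) (nat_lit 0x10000c0000000000000000000000000000000) (nat_lit 0x0) (nat_lit 0x700038001e00ef00738007c003c001c000000000000000000) := Q_1 (nat_lit 143) (C_1 L1219784 (C_1 L979511 (C_1 L1071408 (C_1 L1103749 (C_1 L1219783 (C_1 L979498 N_1)))))) (by decide +kernel)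
theorem L1238994 : W_1 (nat_lit 2) (nat_lit 0x9c002c0016000fa0040000000000000000000) (nat_lit 0x0) (nat_lit 0x100006000000000000000000000000000000000000) := D_1 (nat_lit 146) (nat_lit 145) (nat_lit 164) (nat_lit 0) (nat_lit 11) (nat_lit 8) (nat_lit 7) (nat_lit 10) (nat_lit 5) (by decide +kernel)
theorem L1238995 : W_1 (nat_lit 3) (nat_lit 0x1c002c0016000fa0040000000000000000000) (nat_lit 0x0) (nat_lit 0x10000e000400000000000000000000000000000000) := T_1 (nat_lit 147) (nat_lit 130) (nat_lit 7) (nat_lit 10) (nat_lit 4) L1238994 (by decide +kernel)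
theorem L1238996 : W_1 (nat_lit 4) (nat_lit 0x1c002c0016000f80040000000000000000000) (nat_lit 0x0) (nat_lit 0x10000e000400000000060000000000000000000000) := T_1 (nat_lit 89) (nat_lit 90) (nat_lit 3) (nat_lit 4) (nat_lit 5) L1238995 (by decide +kernel)
theorem L1238997 : W_1 (nat_lit 5) (nat_lit 0x1c002c0016000f00040000000000000000000) (nat_lit 0x0) (nat_lit 0x10000e0004000000000e0004000000000000000000) := T_1 (nat_lit 91) (nat_lit 74) (nat_lit 4) (nat_lit 7) (nat_lit 8) L1238996 (by decide +kernel)
theorem L1238998 : W_1 (nat_lit 6) (nat_lit 0x1c002c0016000f00000000000000000000000) (nat_lit 0x0) (nat_lit 0x10000e0004000000000e00c4000000000000000000) := T_1 (nat_lit 78) (nat_lit 79) (nat_lit 2) (nat_lit 7) (nat_lit 5) L1238997 (by decide +kernel)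
theorem L1238999 : W_1 (nat_lit 7) (nat_lit 0x1c002c0006000f00000000000000000000000) (nat_lit 0x0) (nat_lit 0x10000e0004000300000e00c4000000000000000000) := T_1 (nat_lit 112) (nat_lit 113) (nat_lit 3) (nat_lit 7) (nat_lit 5) L1238998 (by decide +kernel)
theorem L1239000 : W_1 (nat_lit 8) (nat_lit 0x1c000c0006000f00000000000000000000000) (nat_lit 0x0) (nat_lit 0x10000e0007000300000e00c4000000000000000000) := T_1 (nat_lit 129) (nat_lit 128) (nat_lit 1) (nat_lit 10) (nat_lit 7) L1238999 (by decide +kernel)
theorem L1239001 : W_1 (nat_lit 9) (nat_lit 0x18000c0006000f00000000000000000000000) (nat_lit 0x0) (nat_lit 0x10800e4007000300000e00c4000000000000000000) := T_1 (nat_lit 142) (nat_lit 159) (nat_lit 5) (nat_lit 7) (nat_lit 5) L1239000 (by decide +kernel)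
theorem L1239002 : W_1 (nat_lit 10) (nat_lit 0x18000c0006000700000000000000000000000) (nat_lit 0x0) (nat_lit 0x10800e4007000300018e00c4000000000000000000) := T_1 (nat_lit 95) (nat_lit 96) (nat_lit 1) (nat_lit 11) (nat_lit 5) L1239001 (by decide +kernel)
theorem L1239003 : W_1 (nat_lit 11) (nat_lit 0x18000c0006000300000000000000000000000) (nat_lit 0x0) (nat_lit 0x10800e400700030001ce00e4000000000000000000) := T_1 (nat_lit 94) (nat_lit 77) (nat_lit 6) (nat_lit 8) (nat_lit 8) L1239002 (by decide +kernel)
theorem L1239004 : W_1 (nat_lit 12) (nat_lit 0x18000c0002000300000000000000000000000) (nat_lit 0x0) (nat_lit 0x11800e400700034001ce00e4000000000000000000) := T_1 (nat_lit 110) (nat_lit 160) (nat_lit 6) (nat_lit 7) (nat_lit 9) L1239003 (by decide +kernel)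
theorem L1239005 : W_1 (nat_lit 13) (nat_lit 0x18000c0002000100000000000000000000000) (nat_lit 0x0) (nat_lit 0x11800e400700034001ee00f4000000000000000000) := T_1 (nat_lit 93) (nat_lit 76) (nat_lit 6) (nat_lit 7) (nat_lit 8) L1239004 (by decide +kernel)
theorem L1239006 : W_1 (nat_lit 14) (nat_lit 0x18000c0002000000000000000000000000000) (nat_lit 0x0) (nat_lit 0x11800e400700034001fe00fc000000000000000000) := T_1 (nat_lit 92) (nat_lit 75) (nat_lit 7) (nat_lit 7) (nat_lit 4) L1239005 (by decide +kernel)
theorem L1239007 : W_1 (nat_lit 3) (nat_lit 0x18000c0006000300000000000000000000000) (nat_lit 0x0) (nat_lit 0x1800c00020000000000000000000) := T_1 (nat_lit 94) (nat_lit 77) (nat_lit 6) (nat_lit 8) (nat_lit 8) L1209669 (by decide +kernel)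
theorem L1239008 : W_1 (nat_lit 4) (nat_lit 0x18000c0002000300000000000000000000000) (nat_lit 0x0) (nat_lit 0x10000000000005800c00020000000000000000000) := T_1 (nat_lit 110) (nat_lit 160) (nat_lit 6) (nat_lit 7) (nat_lit 9) L1239007 (by decide +kernel)
theorem L1239009 : W_1 (nat_lit 5) (nat_lit 0x18000c0002000100000000000000000000000) (nat_lit 0x0) (nat_lit 0x10000000000005800e00030000000000000000000) := T_1 (nat_lit 93) (nat_lit 76) (nat_lit 6) (nat_lit 7) (nat_lit 8) L1239008 (by decide +kernel)
theorem L1239010 : W_1 (nat_lit 6) (nat_lit 0x18000c0002000000000000000000000000000) (nat_lit 0x0) (nat_lit 0x10000000000005800f00038000000000000000000) := T_1 (nat_lit 92) (nat_lit 75) (nat_lit 7) (nat_lit 7) (nat_lit 4) L1239009 (by decide +kernel)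
theorem L1239725 : W_1 (nat_lit 2) (nat_lit 0x4000000034003e0002000000000000000000000000000) (nat_lit 0x0) (nat_lit 0xc00004000000000000000000000000000) := D_1 (nat_lit 130) (nat_lit 110) (nat_lit 131) (nat_lit 0) (nat_lit 11) (nat_lit 7) (nat_lit 1) (nat_lit 12) (nat_lit 7) (by decide +kernel)
theorem L1239726 : W_1 (nat_lit 3) (nat_lit 0x4000000034001e0002000000000000000000000000000) (nat_lit 0x0) (nat_lit 0x800e00004000000000000000000000000000) := T_1 (nat_lit 129) (nat_lit 143) (nat_lit 2) (nat_lit 6) (nat_lit 8) L1239725 (by decide +kernel)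
theorem L1239727 : W_1 (nat_lit 4) (nat_lit 0x4000000014001e0002000000000000000000000000000) (nat_lit 0x0) (nat_lit 0x6800e00004000000000000000000000000000) := T_1 (nat_lit 145) (nat_lit 146) (nat_lit 3) (nat_lit 6) (nat_lit 7) L1239726 (by decide +kernel)
theorem L1239728 : W_1 (nat_lit 5) (nat_lit 0x4000000010001e0002000000000000000000000000000) (nat_lit 0x0) (nat_lit 0x6e00e00004000000000000000000000000000) := T_1 (nat_lit 142) (nat_lit 141) (nat_lit 1) (nat_lit 9) (nat_lit 7) L1239727 (by decide +kernel)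
theorem L1239729 : W_1 (nat_lit 6) (nat_lit 0x10001e0002000000000000000000000000000) (nat_lit 0x0) (nat_lit 0x400020006e00e00004000000000000000000000000000) := T_1 (nat_lit 178) (nat_lit 161) (nat_lit 4) (nat_lit 8) (nat_lit 10) L1239728 (by decide +kernel)
theorem L1249670 : W_1 (nat_lit 2) (nat_lit 0x100018000c0003800000000000000000000000000) (nat_lit 0x0) (nat_lit 0x320000000000000000000000000000000) := D_1 (nat_lit 128) (nat_lit 129) (nat_lit 125) (nat_lit 0) (nat_lit 10) (nat_lit 7) (nat_lit 0) (nat_lit 9) (nat_lit 7) (by decide +kernel)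
theorem L1249671 : W_1 (nat_lit 3) (nat_lit 0x100018000c0003000000000000000000000000000) (nat_lit 0x0) (nat_lit 0x320000c00000000000000000000000000) := T_1 (nat_lit 107) (nat_lit 106) (nat_lit 3) (nat_lit 4) (nat_lit 6) L1249670 (by decide +kernel)
theorem L1249672 : W_1 (nat_lit 4) (nat_lit 0x100018000c0002000000000000000000000000000) (nat_lit 0x0) (nat_lit 0x320001c00080000000000000000000000) := T_1 (nat_lit 108) (nat_lit 91) (nat_lit 4) (nat_lit 7) (nat_lit 9) L1249671 (by decide +kernel)
theorem L1255312 : W_1 (nat_lit 2) (nat_lit 0x100018000c0002000180000000000000000000000) (nat_lit 0x0) (nat_lit 0x4000200000000000000004000000000000000000000000000) := D_1 (nat_lit 177) (nat_lit 110) (nat_lit 194) (nat_lit 6) (nat_lit 7) (nat_lit 10) (nat_lit 6) (nat_lit 7) (nat_lit 11) (by decide +kernel)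
theorem L1255313 : W_1 (nat_lit 3) (nat_lit 0x18000c0002000180000000000000000000000) (nat_lit 0x0) (nat_lit 0x4000200010000000000005000000000000000000000000000) := T_1 (nat_lit 160) (nat_lit 108) (nat_lit 4) (nat_lit 7) (nat_lit 9) L1255312 (by decide +kernel)
theorem L1255314 : W_1 (nat_lit 4) (nat_lit 0x18000c0002000100000000000000000000000) (nat_lit 0x0) (nat_lit 0x4000200010000000000005000080004000000000000000000) := T_1 (nat_lit 91) (nat_lit 74) (nat_lit 4) (nat_lit 7) (nat_lit 8) L1255313 (by decide +kernel)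
theorem L1255315 : W_1 (nat_lit 5) (nat_lit 0x18000c0002000000000000000000000000000) (nat_lit 0x0) (nat_lit 0x400020001000000000000500018000c000000000000000000) := T_1 (nat_lit 92) (nat_lit 75) (nat_lit 7) (nat_lit 7) (nat_lit 4) L1255314 (by decide +kernel)
theorem L1255316 : W_1 (nat_lit 9) (nat_lit 0x18001c0002000000000000000000000000000) (nat_lit 0x0) (nat_lit 0x600010005c00fe001f800000000000000000) := T_1 (nat_lit 141) (nat_lit 142) (nat_lit 2) (nat_lit 5) (nat_lit 8) L1206227 (by decide +kernel)
theorem L1255317 : W_1 (nat_lit 10) (nat_lit 0x18000c0002000000000000000000000000000) (nat_lit 0x0) (nat_lit 0x600710005c00fe001f800000000000000000) := Q_1 (nat_lit 128) (C_1 L619145 (C_1 L619128 (C_1 L1255316 N_1))) (by decide +kernel)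
theorem L1255567 : W_1 (nat_lit 5) (nat_lit 0x18000c0002000000000000000000000000000) (nat_lit 0x0) (nat_lit 0x4000200010000600320005c00080000000000000000000000) := Q_1 (nat_lit 128) (C_1 L1215078 (C_1 L619145 N_1)) (by decide +kernel)
theorem L1255570 : W_1 (nat_lit 10) (nat_lit 0x18000c0002000000000000000000000000000) (nat_lit 0x0) (nat_lit 0x2000d0007c003e000700120004000200000000000000000000000) := Q_1 (nat_lit 160) (C_1 L1117867 (C_1 L1219276 (C_1 L619404 N_1))) (by decide +kernel)
theorem L1255574 : W_1 (nat_lit 2) (nat_lit 0x1c0018000c0006000000000000000000000000000) (nat_lit 0x0) (nat_lit 0x6400000000000000000000000000000000000) := D_1 (nat_lit 145) (nat_lit 146) (nat_lit 142) (nat_lit 1) (nat_lit 10) (nat_lit 8) (nat_lit 1) (nat_lit 9) (nat_lit 8) (by decide +kernel)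
theorem L1255575 : W_1 (nat_lit 3) (nat_lit 0x180018000c0006000000000000000000000000000) (nat_lit 0x0) (nat_lit 0x6006400000000000000000000000000000000000) := T_1 (nat_lit 158) (nat_lit 157) (nat_lit 2) (nat_lit 4) (nat_lit 9) L1255574 (by decide +kernel)
theorem L1255576 : W_1 (nat_lit 4) (nat_lit 0x100018000c0006000000000000000000000000000) (nat_lit 0x0) (nat_lit 0x10000e006400000000000000000000000000000000000) := T_1 (nat_lit 159) (nat_lit 176) (nat_lit 5) (nat_lit 7) (nat_lit 6) L1255575 (by decide +kernel)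
theorem L1255577 : W_1 (nat_lit 5) (nat_lit 0x100018000c0002000000000000000000000000000) (nat_lit 0x0) (nat_lit 0x10000e006400000004000200000000000000000000000) := T_1 (nat_lit 110) (nat_lit 93) (nat_lit 6) (nat_lit 7) (nat_lit 9) L1255576 (by decide +kernel)
theorem L1255578 : W_1 (nat_lit 6) (nat_lit 0x18000c0002000000000000000000000000000) (nat_lit 0x0) (nat_lit 0x400030001e006400000004000200000000000000000000000) := Q_1 (nat_lit 160) (C_1 L1117867 (C_1 L625710 (C_1 L1255577 N_1))) (by decide +kernel)
theorem L1256347 : W_1 (nat_lit 5) (nat_lit 0x18000c0002000300000000000000000000000) (nat_lit 0x0) (nat_lit 0x6000300018000000000004000080004000000000000000000) := T_1 (nat_lit 160) (nat_lit 110) (nat_lit 6) (nat_lit 7) (nat_lit 9) L985079 (by decide +kernel)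
theorem L1256348 : W_1 (nat_lit 6) (nat_lit 0x18000c0002000100000000000000000000000) (nat_lit 0x0) (nat_lit 0x6000300018000000000004000280014000000000000000000) := T_1 (nat_lit 93) (nat_lit 76) (nat_lit 6) (nat_lit 7) (nat_lit 8) L1256347 (by decide +kernel)
theorem L1256349 : W_1 (nat_lit 7) (nat_lit 0x18000c0002000000000000000000000000000) (nat_lit 0x0) (nat_lit 0x600030001800000000000400038001c000000000000000000) := T_1 (nat_lit 92) (nat_lit 75) (nat_lit 7) (nat_lit 7) (nat_lit 4) L1256348 (by decide +kernel)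
theorem L1256352 : W_1 (nat_lit 10) (nat_lit 0x100018000c0000000000000000000000000000000) (nat_lit 0x0) (nat_lit 0x200010005c002e000700330007c00280000000000000000000000) := Q_1 (nat_lit 109) (C_1 L1249672 (C_1 L1219276 (C_1 L619431 (C_1 L1117873 N_1)))) (by decide +kernel)
theorem L1256353 : W_1 (nat_lit 11) (nat_lit 0x18000c0000000000000000000000000000000) (nat_lit 0x0) (nat_lit 0x2000f000fc003e000700330007c00280000000000000000000000) := Q_1 (nat_lit 160) (C_1 L1071407 (C_1 L1085516 (C_1 L1256352 N_1))) (by decide +kernel)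
theorem L1256354 : W_1 (nat_lit 7) (nat_lit 0x100018000c0000000000000000000000000000000) (nat_lit 0x0) (nat_lit 0x50002e002000320007c00280000000000000000000000) := Q_1 (nat_lit 109) (C_1 L1249672 (C_1 L1049184 (C_1 L625704 N_1))) (by decide +kernel)
theorem L1256355 : W_1 (nat_lit 8) (nat_lit 0x18000c0000000000000000000000000000000) (nat_lit 0x0) (nat_lit 0xe000f0003e002000320007c00280000000000000000000000) := Q_1 (nat_lit 160) (C_1 L1071407 (C_1 L1085516 (C_1 L1256354 N_1))) (by decide +kernel)
theorem L1256356 : W_1 (nat_lit 6) (nat_lit 0x18000e0000000000000000000000000000000) (nat_lit 0x0) (nat_lit 0x200010000c00e600700003800000000000000000000000000) := Q_1 (nat_lit 128) (C_1 L1219781 (C_1 L988709 (C_1 L1086917 N_1))) (by decide +kernel)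
theorem L1256357 : W_1 (nat_lit 7) (nat_lit 0x18000c0000000000000000000000000000000) (nat_lit 0x0) (nat_lit 0x300018000e00e700738003c000c0006000000000000000000) := Q_1 (nat_lit 125) (C_1 L979510 (C_1 L1101229 (C_1 L979465 (C_1 L979459 (C_1 L1256356 N_1))))) (by decide +kernel)
theorem L1256358 : W_1 (nat_lit 12) (nat_lit 0x10000c0000000000000000000000000000000) (nat_lit 0x0) (nat_lit 0x2000f000fc003e00ef00738007c002c0006000000000000000000) := Q_1 (nat_lit 143) (C_1 L1219783 (C_1 L1219784 (C_1 L1256353 (C_1 L1256355 (C_1 L1103749 (C_1 L1256357 (C_1 L1204857 N_1))))))) (by decide +kernel)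
theorem L1265126 : W_1 (nat_lit 2) (nat_lit 0x94003e0021000000000000000000000000000) (nat_lit 0x0) (nat_lit 0x10000400040000000000000000000000000000) := D_1 (nat_lit 130) (nat_lit 148) (nat_lit 114) (nat_lit 3) (nat_lit 8) (nat_lit 7) (nat_lit 2) (nat_lit 8) (nat_lit 7) (by decide +kernel)
theorem L1265127 : W_1 (nat_lit 3) (nat_lit 0x94003e0001000000000000000000000000000) (nat_lit 0x0) (nat_lit 0x10000400070000000000000000000000000000) := T_1 (nat_lit 113) (nat_lit 112) (nat_lit 2) (nat_lit 7) (nat_lit 7) L1265126 (by decide +kernel)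
theorem L1265128 : W_1 (nat_lit 4) (nat_lit 0x14003e0001000000000000000000000000000) (nat_lit 0x0) (nat_lit 0x1c000400070000000000000000000000000000) := T_1 (nat_lit 147) (nat_lit 146) (nat_lit 3) (nat_lit 7) (nat_lit 7) L1265127 (by decide +kernel)
theorem L1265129 : W_1 (nat_lit 5) (nat_lit 0x14001e0001000000000000000000000000000) (nat_lit 0x0) (nat_lit 0x1c800600070000000000000000000000000000) := T_1 (nat_lit 129) (nat_lit 143) (nat_lit 1) (nat_lit 10) (nat_lit 7) L1265128 (by decide +kernel)
theorem L1265130 : W_1 (nat_lit 6) (nat_lit 0x10001e0001000000000000000000000000000) (nat_lit 0x0) (nat_lit 0x1ce00600070000000000000000000000000000) := T_1 (nat_lit 142) (nat_lit 141) (nat_lit 1) (nat_lit 9) (nat_lit 7) L1265129 (by decide +kernel)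
theorem L1265131 : W_1 (nat_lit 7) (nat_lit 0x10001e0000000000000000000000000000000) (nat_lit 0x0) (nat_lit 0x1ce00600071800000000000000000000000000) := T_1 (nat_lit 108) (nat_lit 107) (nat_lit 0) (nat_lit 9) (nat_lit 7) L1265130 (by decide +kernel)
theorem L1265132 : W_1 (nat_lit 2) (nat_lit 0x50003e0021000000000000000000000000000) (nat_lit 0x0) (nat_lit 0x800400040000000000000000000000000000) := D_1 (nat_lit 130) (nat_lit 143) (nat_lit 114) (nat_lit 1) (nat_lit 11) (nat_lit 7) (nat_lit 2) (nat_lit 8) (nat_lit 7) (by decide +kernel)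
theorem L1265133 : W_1 (nat_lit 3) (nat_lit 0x50003e0001000000000000000000000000000) (nat_lit 0x0) (nat_lit 0x800400070000000000000000000000000000) := T_1 (nat_lit 113) (nat_lit 112) (nat_lit 2) (nat_lit 7) (nat_lit 7) L1265132 (by decide +kernel)
theorem L1265134 : W_1 (nat_lit 4) (nat_lit 0x50001e0001000000000000000000000000000) (nat_lit 0x0) (nat_lit 0x8800600070000000000000000000000000000) := T_1 (nat_lit 129) (nat_lit 147) (nat_lit 3) (nat_lit 7) (nat_lit 7) L1265133 (by decide +kernel)
theorem L1265135 : W_1 (nat_lit 5) (nat_lit 0x50001e0000000000000000000000000000000) (nat_lit 0x0) (nat_lit 0x8800600071800000000000000000000000000) := T_1 (nat_lit 108) (nat_lit 107) (nat_lit 0) (nat_lit 9) (nat_lit 7) L1265134 (by decide +kernel)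
theorem L1265136 : W_1 (nat_lit 6) (nat_lit 0x10001e0000000000000000000000000000000) (nat_lit 0x0) (nat_lit 0xe800600071800000000000000000000000000) := T_1 (nat_lit 146) (nat_lit 145) (nat_lit 3) (nat_lit 6) (nat_lit 7) L1265135 (by decide +kernel)
theorem L1265170 : W_1 (nat_lit 2) (nat_lit 0x2000300030001e0001000000000000000000000000000) (nat_lit 0x0) (nat_lit 0xc000400000000000000000000000000000000000000000000) := D_1 (nat_lit 178) (nat_lit 194) (nat_lit 195) (nat_lit 5) (nat_lit 8) (nat_lit 7) (nat_lit 6) (nat_lit 8) (nat_lit 11) (by decide +kernel)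
theorem L1265171 : W_1 (nat_lit 3) (nat_lit 0x2000100030001e0001000000000000000000000000000) (nat_lit 0x0) (nat_lit 0xc000400020000000000004000000000000000000000000000) := T_1 (nat_lit 161) (nat_lit 110) (nat_lit 5) (nat_lit 8) (nat_lit 6) L1265170 (by decide +kernel)
theorem L1265172 : W_1 (nat_lit 4) (nat_lit 0x100030001e0001000000000000000000000000000) (nat_lit 0x0) (nat_lit 0xc000600020000800000004000000000000000000000000000) := T_1 (nat_lit 177) (nat_lit 143) (nat_lit 4) (nat_lit 7) (nat_lit 10) L1265171 (by decide +kernel)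
theorem L1265173 : W_1 (nat_lit 5) (nat_lit 0x100010001e0001000000000000000000000000000) (nat_lit 0x0) (nat_lit 0xc000600020006800000004000000000000000000000000000) := T_1 (nat_lit 145) (nat_lit 146) (nat_lit 3) (nat_lit 6) (nat_lit 7) L1265172 (by decide +kernel)
theorem L1265174 : W_1 (nat_lit 6) (nat_lit 0x100010001e0000000000000000000000000000000) (nat_lit 0x0) (nat_lit 0xc000600020006800000005800000000000000000000000000) := T_1 (nat_lit 108) (nat_lit 107) (nat_lit 0) (nat_lit 9) (nat_lit 7) L1265173 (by decide +kernel)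
theorem L1265175 : W_1 (nat_lit 2) (nat_lit 0x100014001e0001000000000000000000000000000) (nat_lit 0x0) (nat_lit 0x200008000800000000000000000000000000000000000) := D_1 (nat_lit 177) (nat_lit 143) (nat_lit 159) (nat_lit 4) (nat_lit 7) (nat_lit 10) (nat_lit 7) (nat_lit 6) (nat_lit 6) (by decide +kernel)
theorem L1265176 : W_1 (nat_lit 3) (nat_lit 0x100010001e0001000000000000000000000000000) (nat_lit 0x0) (nat_lit 0x200008000e00000000000000000000000000000000000) := T_1 (nat_lit 142) (nat_lit 141) (nat_lit 1) (nat_lit 9) (nat_lit 7) L1265175 (by decide +kernel)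
theorem L1265177 : W_1 (nat_lit 4) (nat_lit 0x100010001e0000000000000000000000000000000) (nat_lit 0x0) (nat_lit 0x200008000e00000001800000000000000000000000000) := T_1 (nat_lit 108) (nat_lit 107) (nat_lit 0) (nat_lit 9) (nat_lit 7) L1265176 (by decide +kernel)
theorem L1265178 : W_1 (nat_lit 2) (nat_lit 0x100034001e000100008000a000000000000000000) (nat_lit 0x0) (nat_lit 0x4000500000000000000) := D_1 (nat_lit 74) (nat_lit 58) (nat_lit 56) (nat_lit 6) (nat_lit 6) (nat_lit 7) (nat_lit 4) (nat_lit 6) (nat_lit 7) (by decide +kernel)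
theorem L1265179 : W_1 (nat_lit 3) (nat_lit 0x100034001e0001000080008000000000000000000) (nat_lit 0x0) (nat_lit 0x40006000500000000000000) := T_1 (nat_lit 73) (nat_lit 90) (nat_lit 4) (nat_lit 6) (nat_lit 8) L1265178 (by decide +kernel)
theorem L1265180 : W_1 (nat_lit 4) (nat_lit 0x100034001e0001000080000000000000000000000) (nat_lit 0x0) (nat_lit 0x14000e000500000000000000) := T_1 (nat_lit 75) (nat_lit 92) (nat_lit 6) (nat_lit 6) (nat_lit 8) L1265179 (by decide +kernel)
theorem L1265181 : W_1 (nat_lit 5) (nat_lit 0x100034001e0001000000000000000000000000000) (nat_lit 0x0) (nat_lit 0x8000000000001c000e000500000000000000) := T_1 (nat_lit 91) (nat_lit 143) (nat_lit 7) (nat_lit 6) (nat_lit 5) L1265180 (by decide +kernel)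
theorem L1265182 : W_1 (nat_lit 6) (nat_lit 0x100030001e0001000000000000000000000000000) (nat_lit 0x0) (nat_lit 0xe000000000001c000e000500000000000000) := T_1 (nat_lit 142) (nat_lit 141) (nat_lit 1) (nat_lit 9) (nat_lit 7) L1265181 (by decide +kernel)
theorem L1265183 : W_1 (nat_lit 7) (nat_lit 0x100010001e0001000000000000000000000000000) (nat_lit 0x0) (nat_lit 0x6e000000000001c000e000500000000000000) := T_1 (nat_lit 145) (nat_lit 146) (nat_lit 3) (nat_lit 6) (nat_lit 7) L1265182 (by decide +kernel)
theorem L1265184 : W_1 (nat_lit 8) (nat_lit 0x100010001e0000000000000000000000000000000) (nat_lit 0x0) (nat_lit 0x6e000000018001c000e000500000000000000) := T_1 (nat_lit 108) (nat_lit 107) (nat_lit 0) (nat_lit 9) (nat_lit 7) L1265183 (by decide +kernel)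
theorem L1265185 : W_1 (nat_lit 2) (nat_lit 0x2000100010001e0000000000000000000000000000000) (nat_lit 0x0) (nat_lit 0x20000800000004000000000000000000000000000) := D_1 (nat_lit 110) (nat_lit 161) (nat_lit 143) (nat_lit 5) (nat_lit 8) (nat_lit 6) (nat_lit 6) (nat_lit 7) (nat_lit 10) (by decide +kernel)
theorem L1265186 : W_1 (nat_lit 2) (nat_lit 0x2000100010001e0000000000000000000000000000000) (nat_lit 0x0) (nat_lit 0x4000000000000800000004000000000000000000000000000) := D_1 (nat_lit 143) (nat_lit 194) (nat_lit 110) (nat_lit 6) (nat_lit 7) (nat_lit 11) (nat_lit 6) (nat_lit 7) (nat_lit 10) (by decide +kernel)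
theorem L1265187 : W_1 (nat_lit 4) (nat_lit 0x2000100010001e0000000000000000000000000000000) (nat_lit 0x0) (nat_lit 0x80004000100008000e00000000000000000000000000000000000) := T_1 (nat_lit 142) (nat_lit 141) (nat_lit 1) (nat_lit 9) (nat_lit 7) L952715 (by decide +kernel)
theorem L1265188 : W_1 (nat_lit 2) (nat_lit 0x2000300010001e0000000000000000000000000000000) (nat_lit 0x0) (nat_lit 0x80004000400000000000000000000000000000000000000000000) := D_1 (nat_lit 194) (nat_lit 178) (nat_lit 211) (nat_lit 5) (nat_lit 8) (nat_lit 7) (nat_lit 6) (nat_lit 7) (nat_lit 12) (by decide +kernel)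
theorem L1265189 : W_1 (nat_lit 3) (nat_lit 0x2000100010001e0000000000000000000000000000000) (nat_lit 0x0) (nat_lit 0x80004000400020000000000004000000000000000000000000000) := T_1 (nat_lit 161) (nat_lit 110) (nat_lit 5) (nat_lit 8) (nat_lit 6) L1265188 (by decide +kernel)
theorem L1265190 : W_1 (nat_lit 5) (nat_lit 0x100010001e0000000000000000000000000000000) (nat_lit 0x0) (nat_lit 0x80004000700028000e00000004000000000000000000000000000) := Q_1 (nat_lit 177) (C_1 L1265185 (C_1 L1265186 (C_1 L1265187 (C_1 L1265189 N_1)))) (by decide +kernel)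
theorem L1265191 : W_1 (nat_lit 2) (nat_lit 0x180034001e0001000000000000000000000000000) (nat_lit 0x0) (nat_lit 0x80024000000000000000000000000000000000000000) := D_1 (nat_lit 158) (nat_lit 175) (nat_lit 161) (nat_lit 5) (nat_lit 6) (nat_lit 6) (nat_lit 2) (nat_lit 5) (nat_lit 9) (by decide +kernel)
theorem L1265192 : W_1 (nat_lit 3) (nat_lit 0x100034001e0001000000000000000000000000000) (nat_lit 0x0) (nat_lit 0x28002c000000000000000000000000000000000000000) := T_1 (nat_lit 159) (nat_lit 177) (nat_lit 7) (nat_lit 6) (nat_lit 6) L1265191 (by decide +kernel)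
theorem L1265193 : W_1 (nat_lit 4) (nat_lit 0x100014001e0001000000000000000000000000000) (nat_lit 0x0) (nat_lit 0x28002c006000000000000000000000000000000000000) := T_1 (nat_lit 145) (nat_lit 146) (nat_lit 3) (nat_lit 6) (nat_lit 7) L1265192 (by decide +kernel)
theorem L1265194 : W_1 (nat_lit 5) (nat_lit 0x100014001e0000000000000000000000000000000) (nat_lit 0x0) (nat_lit 0x28002c006000000001800000000000000000000000000) := T_1 (nat_lit 108) (nat_lit 107) (nat_lit 0) (nat_lit 9) (nat_lit 7) L1265193 (by decide +kernel)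
theorem L1265195 : W_1 (nat_lit 6) (nat_lit 0x100010001e0000000000000000000000000000000) (nat_lit 0x0) (nat_lit 0x28002c006600000001800000000000000000000000000) := T_1 (nat_lit 142) (nat_lit 141) (nat_lit 1) (nat_lit 9) (nat_lit 7) L1265194 (by decide +kernel)
theorem L1265196 : W_1 (nat_lit 9) (nat_lit 0x10001e0000000000000000000000000000000) (nat_lit 0x0) (nat_lit 0x8000c00078003c006e000000058001c000e000500000000000000) := Q_1 (nat_lit 160) (C_1 L1265174 (C_1 L1265177 (C_1 L1265184 (C_1 L1265190 (C_1 L1265195 N_1))))) (by decide +kernel)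
theorem L1265197 : W_1 (nat_lit 2) (nat_lit 0x1400fe0021000000000000000000000000000) (nat_lit 0x0) (nat_lit 0x38000000000000000000000000000000000000) := D_1 (nat_lit 148) (nat_lit 147) (nat_lit 149) (nat_lit 3) (nat_lit 8) (nat_lit 7) (nat_lit 3) (nat_lit 9) (nat_lit 7) (by decide +kernel)
theorem L1265198 : W_1 (nat_lit 3) (nat_lit 0x14007e0021000000000000000000000000000) (nat_lit 0x0) (nat_lit 0x3a000800000000000000000000000000000000) := T_1 (nat_lit 131) (nat_lit 145) (nat_lit 1) (nat_lit 12) (nat_lit 7) L1265197 (by decide +kernel)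
theorem L1265199 : W_1 (nat_lit 4) (nat_lit 0x14003e0021000000000000000000000000000) (nat_lit 0x0) (nat_lit 0x3a000c00040000000000000000000000000000) := T_1 (nat_lit 130) (nat_lit 114) (nat_lit 2) (nat_lit 8) (nat_lit 7) L1265198 (by decide +kernel)
theorem L1265200 : W_1 (nat_lit 5) (nat_lit 0x14003e0001000000000000000000000000000) (nat_lit 0x0) (nat_lit 0x3a000c00070000000000000000000000000000) := T_1 (nat_lit 113) (nat_lit 112) (nat_lit 2) (nat_lit 7) (nat_lit 7) L1265199 (by decide +kernel)
theorem L1265201 : W_1 (nat_lit 6) (nat_lit 0x14001e0001000000000000000000000000000) (nat_lit 0x0) (nat_lit 0x3a800e00070000000000000000000000000000) := T_1 (nat_lit 129) (nat_lit 143) (nat_lit 1) (nat_lit 10) (nat_lit 7) L1265200 (by decide +kernel)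
theorem L1265202 : W_1 (nat_lit 7) (nat_lit 0x10001e0001000000000000000000000000000) (nat_lit 0x0) (nat_lit 0x3ae00e00070000000000000000000000000000) := T_1 (nat_lit 142) (nat_lit 141) (nat_lit 1) (nat_lit 9) (nat_lit 7) L1265201 (by decide +kernel)
theorem L1265203 : W_1 (nat_lit 8) (nat_lit 0x10001e0000000000000000000000000000000) (nat_lit 0x0) (nat_lit 0x3ae00e00071800000000000000000000000000) := T_1 (nat_lit 108) (nat_lit 107) (nat_lit 0) (nat_lit 9) (nat_lit 7) L1265202 (by decide +kernel)
theorem L1265204 : W_1 (nat_lit 10) (nat_lit 0x10000e0000000000000000000000000000000) (nat_lit 0x0) (nat_lit 0x8000c00078003c03ee00f000758001c000e000500000000000000) := Q_1 (nat_lit 128) (C_1 L1178870 (C_1 L1265131 (C_1 L1265136 (C_1 L1265196 (C_1 L1265203 (C_1 L499559 N_1)))))) (by decide +kernel)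
theorem L1265205 : W_1 (nat_lit 11) (nat_lit 0x10000c0000000000000000000000000000000) (nat_lit 0x0) (nat_lit 0x8000c00078003c03ef80f38075e001c000e000500000000000000) := Q_1 (nat_lit 125) (C_1 L619124 (C_1 L1117969 (C_1 L616510 (C_1 L345918 (C_1 L1265204 N_1))))) (by decide +kernel)
theorem L1278406 : W_1 (nat_lit 8) (nat_lit 0x10000c0002000000000000000000000000000) (nat_lit 0x0) (nat_lit 0x600030001e006f0010000500038001c000000000000000000) := Q_1 (nat_lit 143) (C_1 L1256349 (C_1 L1255315 (C_1 L1219776 (C_1 L1255578 N_1)))) (by decide +kernel)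
theorem L1281133 : W_1 (nat_lit 2) (nat_lit 0x1800058002c0010000e000c0000000000000000000) (nat_lit 0x0) (nat_lit 0x10000000000004000000010000000000000000000) := D_1 (nat_lit 110) (nat_lit 76) (nat_lit 160) (nat_lit 5) (nat_lit 8) (nat_lit 4) (nat_lit 5) (nat_lit 8) (nat_lit 5) (by decide +kernel)
theorem L1281134 : W_1 (nat_lit 3) (nat_lit 0x1800058002c0010000c000c0000000000000000000) (nat_lit 0x0) (nat_lit 0x10000000000004000300010000000000000000000) := T_1 (nat_lit 93) (nat_lit 92) (nat_lit 2) (nat_lit 7) (nat_lit 5) L1281133 (by decide +kernel)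
theorem L1281135 : W_1 (nat_lit 4) (nat_lit 0x1800058002c0010000c00080000000000000000000) (nat_lit 0x0) (nat_lit 0x10000000000004000300050004000000000000000) := T_1 (nat_lit 78) (nat_lit 62) (nat_lit 6) (nat_lit 10) (nat_lit 7) L1281134 (by decide +kernel)
theorem L1281136 : W_1 (nat_lit 5) (nat_lit 0x1800058002c0010000c00000000000000000000000) (nat_lit 0x0) (nat_lit 0x100000000000040013000d0004000000000000000) := T_1 (nat_lit 79) (nat_lit 96) (nat_lit 6) (nat_lit 10) (nat_lit 8) L1281135 (by decide +kernel)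
theorem L1281140 : W_1 (nat_lit 2) (nat_lit 0x800058002c0030000000000000000000000000000) (nat_lit 0x0) (nat_lit 0xc000400000000000000000000000) := D_1 (nat_lit 111) (nat_lit 110) (nat_lit 94) (nat_lit 1) (nat_lit 11) (nat_lit 6) (nat_lit 4) (nat_lit 10) (nat_lit 9) (by decide +kernel)
theorem L1281141 : W_1 (nat_lit 3) (nat_lit 0x800058002c0010000000000000000000000000000) (nat_lit 0x0) (nat_lit 0x2c001400000000000000000000000) := T_1 (nat_lit 113) (nat_lit 96) (nat_lit 6) (nat_lit 10) (nat_lit 9) L1281140 (by decide +kernel)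
theorem L1281197 : W_1 (nat_lit 6) (nat_lit 0x1800058002c0010000400000000000000000000000) (nat_lit 0x0) (nat_lit 0x10000000000004001b000f0004000000000000000) := T_1 (nat_lit 95) (nat_lit 77) (nat_lit 4) (nat_lit 10) (nat_lit 8) L1281136 (by decide +kernel)
theorem L1281198 : W_1 (nat_lit 7) (nat_lit 0x800058002c0010000400000000000000000000000) (nat_lit 0x0) (nat_lit 0x2000110000000000004001b000f0004000000000000000) := T_1 (nat_lit 164) (nat_lit 181) (nat_lit 7) (nat_lit 10) (nat_lit 6) L1281197 (by decide +kernel)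
theorem L1281199 : W_1 (nat_lit 8) (nat_lit 0x800058002c0010000000000000000000000000000) (nat_lit 0x0) (nat_lit 0x200011000000000000c001f000f0004000000000000000) := T_1 (nat_lit 94) (nat_lit 111) (nat_lit 4) (nat_lit 10) (nat_lit 9) L1281198 (by decide +kernel)
theorem L1281200 : W_1 (nat_lit 4) (nat_lit 0x800058002c0010000000000000000000000000000) (nat_lit 0x0) (nat_lit 0x40003000100000000400020001000000000000000000000000) := T_1 (nat_lit 181) (nat_lit 164) (nat_lit 7) (nat_lit 10) (nat_lit 6) L628292 (by decide +kernel)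
theorem L1281201 : W_1 (nat_lit 4) (nat_lit 0x800058002c0018000000000000000000000000000) (nat_lit 0x0) (nat_lit 0x40003000100000000400024000000000000000000000000000) := T_1 (nat_lit 113) (nat_lit 110) (nat_lit 1) (nat_lit 11) (nat_lit 6) L628234 (by decide +kernel)
theorem L1281202 : W_1 (nat_lit 5) (nat_lit 0x800058002c0010000000000000000000000000000) (nat_lit 0x0) (nat_lit 0x4000300010000000040002c000400000000000000000000000) := T_1 (nat_lit 111) (nat_lit 94) (nat_lit 4) (nat_lit 10) (nat_lit 9) L1281201 (by decide +kernel)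
theorem L1281203 : W_1 (nat_lit 9) (nat_lit 0x800058002c0000000000000000000000000000000) (nat_lit 0x0) (nat_lit 0x4000300011000000040003c001f000f0004000000000000000) := Q_1 (nat_lit 112) (C_1 L1281141 (C_1 L1281199 (C_1 L628236 (C_1 L1281200 (C_1 L1281202 N_1))))) (by decide +kernel)
theorem L1281204 : W_1 (nat_lit 2) (nat_lit 0x800058002c0000000000000000000000000000000) (nat_lit 0x0) (nat_lit 0x100002000400000000000000000000000000000000) := D_1 (nat_lit 145) (nat_lit 130) (nat_lit 164) (nat_lit 2) (nat_lit 7) (nat_lit 8) (nat_lit 3) (nat_lit 7) (nat_lit 8) (by decide +kernel)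
theorem L1281205 : W_1 (nat_lit 2) (nat_lit 0x1800058002c0030000000000000000000000000000) (nat_lit 0x0) (nat_lit 0xc000400000000000000000000000) := D_1 (nat_lit 111) (nat_lit 110) (nat_lit 94) (nat_lit 1) (nat_lit 11) (nat_lit 6) (nat_lit 4) (nat_lit 10) (nat_lit 9) (by decide +kernel)
theorem L1281206 : W_1 (nat_lit 3) (nat_lit 0x1800058002c0010000000000000000000000000000) (nat_lit 0x0) (nat_lit 0x2c001400000000000000000000000) := T_1 (nat_lit 113) (nat_lit 96) (nat_lit 6) (nat_lit 10) (nat_lit 9) L1281205 (by decide +kernel)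
theorem L1281207 : W_1 (nat_lit 4) (nat_lit 0x1800058002c0000000000000000000000000000000) (nat_lit 0x0) (nat_lit 0x200000000000000003c001400000000000000000000000) := T_1 (nat_lit 112) (nat_lit 181) (nat_lit 7) (nat_lit 10) (nat_lit 6) L1281206 (by decide +kernel)
theorem L1281208 : W_1 (nat_lit 5) (nat_lit 0x800058002c0000000000000000000000000000000) (nat_lit 0x0) (nat_lit 0x200010000200000003c001400000000000000000000000) := T_1 (nat_lit 164) (nat_lit 145) (nat_lit 3) (nat_lit 7) (nat_lit 8) L1281207 (by decide +kernel)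
theorem L1281209 : W_1 (nat_lit 2) (nat_lit 0x500010000800058006c0000000000000000000000000000000) (nat_lit 0x0) (nat_lit 0xa00020000000000000000000000000000000000000000000000000) := D_1 (nat_lit 197) (nat_lit 213) (nat_lit 215) (nat_lit 5) (nat_lit 10) (nat_lit 8) (nat_lit 7) (nat_lit 10) (nat_lit 8) (by decide +kernel)
theorem L1281210 : W_1 (nat_lit 3) (nat_lit 0x100010000800058006c0000000000000000000000000000000) (nat_lit 0x0) (nat_lit 0xa00060002000000000000000000000000000000000000000000000) := T_1 (nat_lit 198) (nat_lit 181) (nat_lit 7) (nat_lit 10) (nat_lit 7) L1281209 (by decide +kernel)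
theorem L1281211 : W_1 (nat_lit 4) (nat_lit 0x10000800058006c0000000000000000000000000000000) (nat_lit 0x0) (nat_lit 0xa00070002800000000000000000000000000000000000000000000) := T_1 (nat_lit 196) (nat_lit 179) (nat_lit 5) (nat_lit 10) (nat_lit 7) L1281210 (by decide +kernel)
theorem L1281212 : W_1 (nat_lit 5) (nat_lit 0x800058006c0000000000000000000000000000000) (nat_lit 0x0) (nat_lit 0xa00070003800000000000000020000000000000000000000000000) := T_1 (nat_lit 180) (nat_lit 113) (nat_lit 6) (nat_lit 10) (nat_lit 10) L1281211 (by decide +kernel)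
theorem L1281213 : W_1 (nat_lit 6) (nat_lit 0x800058002c0000000000000000000000000000000) (nat_lit 0x0) (nat_lit 0xa00070003800000002000400020000000000000000000000000000) := T_1 (nat_lit 130) (nat_lit 145) (nat_lit 2) (nat_lit 7) (nat_lit 8) L1281212 (by decide +kernel)
theorem L1281214 : W_1 (nat_lit 10) (nat_lit 0x58002c0000000000000000000000000000000) (nat_lit 0x0) (nat_lit 0xa0007000380019000200040003c001f000f0004000000000000000) := Q_1 (nat_lit 163) (C_1 L1281203 (C_1 L1281204 (C_1 L1281208 (C_1 L1281213 N_1)))) (by decide +kernel)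
theorem L1283563 : W_1 (nat_lit 3) (nat_lit 0x10001c0002000000000000000000000000000) (nat_lit 0x0) (nat_lit 0xc00600001000000000000000000000000000) := T_1 (nat_lit 129) (nat_lit 108) (nat_lit 0) (nat_lit 10) (nat_lit 7) L1115479 (by decide +kernel)
theorem L1283577 : W_1 (nat_lit 2) (nat_lit 0x4000000058003f0006000000000000000000000000000) (nat_lit 0x0) (nat_lit 0x10000000000000000200010000000000000000000) := D_1 (nat_lit 93) (nat_lit 76) (nat_lit 160) (nat_lit 5) (nat_lit 8) (nat_lit 4) (nat_lit 6) (nat_lit 7) (nat_lit 9) (by decide +kernel)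
theorem L1283578 : W_1 (nat_lit 3) (nat_lit 0x4000000058003f0002000000000000000000000000000) (nat_lit 0x0) (nat_lit 0x1000000000000c000200010000000000000000000) := T_1 (nat_lit 110) (nat_lit 111) (nat_lit 2) (nat_lit 5) (nat_lit 7) L1283577 (by decide +kernel)
theorem L1283579 : W_1 (nat_lit 4) (nat_lit 0x4000000058003e0002000000000000000000000000000) (nat_lit 0x0) (nat_lit 0x1000000001800c000200010000000000000000000) := T_1 (nat_lit 124) (nat_lit 123) (nat_lit 3) (nat_lit 4) (nat_lit 7) L1283578 (by decide +kernel)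
theorem L1283580 : W_1 (nat_lit 5) (nat_lit 0x4000000058003c0002000000000000000000000000000) (nat_lit 0x0) (nat_lit 0x1000200003800c000200010000000000000000000) := T_1 (nat_lit 125) (nat_lit 145) (nat_lit 3) (nat_lit 6) (nat_lit 7) L1283579 (by decide +kernel)
theorem L1283581 : W_1 (nat_lit 6) (nat_lit 0x4000000018003c0002000000000000000000000000000) (nat_lit 0x0) (nat_lit 0x1000e00003800c000200010000000000000000000) := T_1 (nat_lit 146) (nat_lit 147) (nat_lit 3) (nat_lit 7) (nat_lit 7) L1283580 (by decide +kernel)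
theorem L1283582 : W_1 (nat_lit 7) (nat_lit 0x4000000018001c0002000000000000000000000000000) (nat_lit 0x0) (nat_lit 0x1000e00063800c000200010000000000000000000) := T_1 (nat_lit 129) (nat_lit 130) (nat_lit 1) (nat_lit 11) (nat_lit 7) L1283581 (by decide +kernel)
theorem L1283583 : W_1 (nat_lit 8) (nat_lit 0x18001c0002000000000000000000000000000) (nat_lit 0x0) (nat_lit 0x40003000e00063800c000200010000000000000000000) := T_1 (nat_lit 178) (nat_lit 161) (nat_lit 4) (nat_lit 8) (nat_lit 10) L1283582 (by decide +kernel)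
theorem L1283584 : W_1 (nat_lit 2) (nat_lit 0x3c001e0002000000000000000000000000000) (nat_lit 0x0) (nat_lit 0x10000c000000000000000000000000000000000000000) := D_1 (nat_lit 159) (nat_lit 158) (nat_lit 176) (nat_lit 1) (nat_lit 9) (nat_lit 8) (nat_lit 6) (nat_lit 6) (nat_lit 10) (by decide +kernel)
theorem L1283585 : W_1 (nat_lit 3) (nat_lit 0x1c001e0002000000000000000000000000000) (nat_lit 0x0) (nat_lit 0x10000c006000000000000000000000000000000000000) := T_1 (nat_lit 145) (nat_lit 146) (nat_lit 3) (nat_lit 6) (nat_lit 7) L1283584 (by decide +kernel)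
theorem L1283586 : W_1 (nat_lit 4) (nat_lit 0x18001e0002000000000000000000000000000) (nat_lit 0x0) (nat_lit 0x10000c006600000000000000000000000000000000000) := T_1 (nat_lit 142) (nat_lit 141) (nat_lit 2) (nat_lit 5) (nat_lit 8) L1283585 (by decide +kernel)
theorem L1283587 : W_1 (nat_lit 5) (nat_lit 0x18001c0002000000000000000000000000000) (nat_lit 0x0) (nat_lit 0x10000c006700038000000000000000000000000000000) := Q_1 (nat_lit 125) (C_1 L983687 (C_1 L619136 (C_1 L1283586 N_1))) (by decide +kernel)
theorem L1283588 : W_1 (nat_lit 9) (nat_lit 0x10001c0002000000000000000000000000000) (nat_lit 0x0) (nat_lit 0x50003c00ef0063800c000200010000000000000000000) := Q_1 (nat_lit 143) (C_1 L619145 (C_1 L1283583 (C_1 L1283587 N_1))) (by decide +kernel)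
theorem L1283589 : W_1 (nat_lit 10) (nat_lit 0x10000c0002000000000000000000000000000) (nat_lit 0x0) (nat_lit 0x58003c03ef00f380edc00200010000000000000000000) := Q_1 (nat_lit 128) (C_1 L1283563 (C_1 L623020 (C_1 L1178857 (C_1 L1283588 (C_1 L346029 N_1))))) (by decide +kernel)
theorem L1283590 : W_1 (nat_lit 11) (nat_lit 0x10000c0000000000000000000000000000000) (nat_lit 0x0) (nat_lit 0x58003c03ef80f3c0efe003f001e000700000000000000) := Q_1 (nat_lit 109) (C_1 L1283589 (C_1 L1219779 (C_1 L284285 (C_1 L615321 N_1)))) (by decide +kernel)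
theorem L1283665 : W_1 (nat_lit 8) (nat_lit 0x1000180006000200000000000000000000000) (nat_lit 0x0) (nat_lit 0x18000e00040009c001c000c000000000000000000) := T_1 (nat_lit 143) (nat_lit 160) (nat_lit 5) (nat_lit 8) (nat_lit 5) L1052039 (by decide +kernel)
theorem L1283666 : W_1 (nat_lit 9) (nat_lit 0x1000080006000200000000000000000000000) (nat_lit 0x0) (nat_lit 0x18002e00740009c001c000c000000000000000000) := Q_1 (nat_lit 128) (C_1 L1187077 (C_1 L111 (C_1 L1283665 N_1))) (by decide +kernel)
theorem L1283681 : W_1 (nat_lit 4) (nat_lit 0x400020001000080000000000000000000000000000000) (nat_lit 0x0) (nat_lit 0x200018000800000000800040002000000000000000000000000000) := T_1 (nat_lit 126) (nat_lit 109) (nat_lit 4) (nat_lit 8) (nat_lit 10) L1167852 (by decide +kernel)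
theorem L1283682 : W_1 (nat_lit 2) (nat_lit 0xe00030001000080000000000000000000000000000000) (nat_lit 0x0) (nat_lit 0x100000c000000000000000000000000000000000000000) := D_1 (nat_lit 159) (nat_lit 158) (nat_lit 180) (nat_lit 3) (nat_lit 5) (nat_lit 9) (nat_lit 0) (nat_lit 10) (nat_lit 10) (by decide +kernel)
theorem L1283683 : W_1 (nat_lit 3) (nat_lit 0xe00020001000080000000000000000000000000000000) (nat_lit 0x0) (nat_lit 0x100001c000000000004000000000000000000000000000) := T_1 (nat_lit 160) (nat_lit 110) (nat_lit 5) (nat_lit 8) (nat_lit 6) L1283682 (by decide +kernel)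
theorem L1283684 : W_1 (nat_lit 4) (nat_lit 0xc00020001000080000000000000000000000000000000) (nat_lit 0x0) (nat_lit 0x400120001c000000000004000000000000000000000000000) := T_1 (nat_lit 177) (nat_lit 194) (nat_lit 5) (nat_lit 8) (nat_lit 7) L1283683 (by decide +kernel)
theorem L1283685 : W_1 (nat_lit 5) (nat_lit 0x400020001000080000000000000000000000000000000) (nat_lit 0x0) (nat_lit 0x14001a0001c000000000004000000000000000000000000000) := T_1 (nat_lit 179) (nat_lit 196) (nat_lit 7) (nat_lit 8) (nat_lit 7) L1283684 (by decide +kernel)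
theorem L1283686 : W_1 (nat_lit 2) (nat_lit 0x600020001000080004000000000000000000000000000) (nat_lit 0x0) (nat_lit 0x40002000100000000000000000000000) := D_1 (nat_lit 109) (nat_lit 92) (nat_lit 126) (nat_lit 4) (nat_lit 8) (nat_lit 9) (nat_lit 4) (nat_lit 8) (nat_lit 10) (by decide +kernel)
theorem L1283687 : W_1 (nat_lit 3) (nat_lit 0x600020001000080000000000000000000000000000000) (nat_lit 0x0) (nat_lit 0x10000000040006000100000000000000000000000) := T_1 (nat_lit 110) (nat_lit 160) (nat_lit 5) (nat_lit 8) (nat_lit 6) L1283686 (by decide +kernel)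
theorem L1283688 : W_1 (nat_lit 4) (nat_lit 0x400020001000080000000000000000000000000000000) (nat_lit 0x0) (nat_lit 0x4000200010000000040006000100000000000000000000000) := T_1 (nat_lit 177) (nat_lit 194) (nat_lit 5) (nat_lit 8) (nat_lit 7) L1283687 (by decide +kernel)
theorem L1283690 : W_1 (nat_lit 2) (nat_lit 0x10000400020001000180000000000000000000000000000000) (nat_lit 0x0) (nat_lit 0x200008000000000002000000000000000000000000000000000000) := D_1 (nat_lit 195) (nat_lit 213) (nat_lit 145) (nat_lit 7) (nat_lit 8) (nat_lit 8) (nat_lit 6) (nat_lit 8) (nat_lit 11) (by decide +kernel)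
theorem L1283691 : W_1 (nat_lit 3) (nat_lit 0x10000400020001000080000000000000000000000000000000) (nat_lit 0x0) (nat_lit 0x200008000000000002000100008000000000000000000000000000) := T_1 (nat_lit 128) (nat_lit 111) (nat_lit 6) (nat_lit 8) (nat_lit 10) L1283690 (by decide +kernel)
theorem L1283692 : W_1 (nat_lit 4) (nat_lit 0x400020001000080000000000000000000000000000000) (nat_lit 0x0) (nat_lit 0x200018000800000002000100008000000000000000000000000000) := T_1 (nat_lit 196) (nat_lit 179) (nat_lit 7) (nat_lit 8) (nat_lit 7) L1283691 (by decide +kernel)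
theorem L1283694 : W_1 (nat_lit 6) (nat_lit 0x20001000080000000000000000000000000000000) (nat_lit 0x0) (nat_lit 0x20001c001e0001c000800040006000100000000000000000000000) := Q_1 (nat_lit 178) (C_1 L1283685 (C_1 L1283688 (C_1 L1283681 N_1))) (by decide +kernel)
theorem L1283695 : W_1 (nat_lit 5) (nat_lit 0x20001000080000000000000000000000000000000) (nat_lit 0x0) (nat_lit 0x200018000c0000000280014000e000500000000000000000000000) := Q_1 (nat_lit 178) (C_1 L1283692 (C_1 L1283681 (C_1 L38 N_1))) (by decide +kernel)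
theorem L1283696 : W_1 (nat_lit 6) (nat_lit 0x20001000080000000000000000000000000000000) (nat_lit 0x0) (nat_lit 0x20001c001e0001c00200010000c000400000000000000000000000) := Q_1 (nat_lit 178) (C_1 L1283692 (C_1 L1283685 (C_1 L19 N_1))) (by decide +kernel)
theorem L1286189 : W_1 (nat_lit 2) (nat_lit 0x2000300058003c0002000000000000000000000000000) (nat_lit 0x0) (nat_lit 0x2000100008000000000000000000000000000000000000000) := D_1 (nat_lit 176) (nat_lit 193) (nat_lit 159) (nat_lit 5) (nat_lit 7) (nat_lit 7) (nat_lit 5) (nat_lit 7) (nat_lit 6) (by decide +kernel)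
theorem L1286190 : W_1 (nat_lit 3) (nat_lit 0x2000300058003c0000000000000000000000000000000) (nat_lit 0x0) (nat_lit 0x2000100008000000000003000000000000000000000000000) := T_1 (nat_lit 109) (nat_lit 108) (nat_lit 0) (nat_lit 10) (nat_lit 7) L1286189 (by decide +kernel)
theorem L1286191 : W_1 (nat_lit 4) (nat_lit 0x300058003c0000000000000000000000000000000) (nat_lit 0x0) (nat_lit 0x6000300008000000000003000000000000000000000000000) := T_1 (nat_lit 177) (nat_lit 194) (nat_lit 6) (nat_lit 7) (nat_lit 11) L1286190 (by decide +kernel)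
theorem L1286192 : W_1 (nat_lit 5) (nat_lit 0x300018003c0000000000000000000000000000000) (nat_lit 0x0) (nat_lit 0x600030000800c000000003000000000000000000000000000) := T_1 (nat_lit 146) (nat_lit 147) (nat_lit 3) (nat_lit 7) (nat_lit 7) L1286191 (by decide +kernel)
theorem L1286402 : W_1 (nat_lit 2) (nat_lit 0x300018003c0000000000000000000000000000000) (nat_lit 0x0) (nat_lit 0x200000000000000004000200000000000000000000000) := D_1 (nat_lit 110) (nat_lit 93) (nat_lit 177) (nat_lit 5) (nat_lit 8) (nat_lit 5) (nat_lit 6) (nat_lit 7) (nat_lit 10) (by decide +kernel)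
theorem L1287169 : W_1 (nat_lit 2) (nat_lit 0x300058003c0002000000000000000000000000000) (nat_lit 0x0) (nat_lit 0x100008002000000000000000000000000000000000000) := D_1 (nat_lit 159) (nat_lit 145) (nat_lit 176) (nat_lit 1) (nat_lit 10) (nat_lit 8) (nat_lit 5) (nat_lit 7) (nat_lit 6) (by decide +kernel)
theorem L1287170 : W_1 (nat_lit 3) (nat_lit 0x300058003c0000000000000000000000000000000) (nat_lit 0x0) (nat_lit 0x100008002000000003000000000000000000000000000) := T_1 (nat_lit 109) (nat_lit 108) (nat_lit 0) (nat_lit 10) (nat_lit 7) L1287169 (by decide +kernel)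
theorem L1287231 : W_1 (nat_lit 4) (nat_lit 0x300018003c0000000000000000000000000000000) (nat_lit 0x0) (nat_lit 0x10000800e000000003000000000000000000000000000) := T_1 (nat_lit 146) (nat_lit 147) (nat_lit 3) (nat_lit 7) (nat_lit 7) L1287170 (by decide +kernel)
theorem L1287232 : W_1 (nat_lit 6) (nat_lit 0x200018003c0000000000000000000000000000000) (nat_lit 0x0) (nat_lit 0x600030001800e000000007000200000000000000000000000) := Q_1 (nat_lit 160) (C_1 L1286402 (C_1 L1286192 (C_1 L1287231 N_1))) (by decide +kernel)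
theorem L1287233 : W_1 (nat_lit 7) (nat_lit 0x200010003c0000000000000000000000000000000) (nat_lit 0x0) (nat_lit 0x600030001800ec00000007000200000000000000000000000) := T_1 (nat_lit 143) (nat_lit 142) (nat_lit 1) (nat_lit 10) (nat_lit 7) L1287232 (by decide +kernel)
theorem L1315841 : W_1 (nat_lit 7) (nat_lit 0x10000e0002000000000000000000000000000) (nat_lit 0x0) (nat_lit 0x48002400038011c00df00080000000000000000000000) := Q_1 (nat_lit 124) (C_1 L1117964 (C_1 L616446 (C_1 L288001 N_1))) (by decide +kernel)
theorem L1315842 : W_1 (nat_lit 2) (nat_lit 0x5000000034003e0012000000000000000000000000000) (nat_lit 0x0) (nat_lit 0xc00004000000000000000000000000000) := D_1 (nat_lit 130) (nat_lit 131) (nat_lit 110) (nat_lit 1) (nat_lit 12) (nat_lit 7) (nat_lit 0) (nat_lit 11) (nat_lit 7) (by decide +kernel)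
theorem L1315843 : W_1 (nat_lit 3) (nat_lit 0x5000000034001e0012000000000000000000000000000) (nat_lit 0x0) (nat_lit 0xe00024000000000000000000000000000) := T_1 (nat_lit 129) (nat_lit 113) (nat_lit 2) (nat_lit 7) (nat_lit 7) L1315842 (by decide +kernel)
theorem L1315844 : W_1 (nat_lit 4) (nat_lit 0x5000000034001e0002000000000000000000000000000) (nat_lit 0x0) (nat_lit 0xe0003c000000000000000000000000000) := T_1 (nat_lit 112) (nat_lit 111) (nat_lit 2) (nat_lit 6) (nat_lit 7) L1315843 (by decide +kernel)
theorem L1315845 : W_1 (nat_lit 5) (nat_lit 0x4000000034001e0002000000000000000000000000000) (nat_lit 0x0) (nat_lit 0x100008000000e0003c000000000000000000000000000) := T_1 (nat_lit 176) (nat_lit 159) (nat_lit 6) (nat_lit 6) (nat_lit 10) L1315844 (by decide +kernel)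
theorem L1315846 : W_1 (nat_lit 6) (nat_lit 0x4000000014001e0002000000000000000000000000000) (nat_lit 0x0) (nat_lit 0x100008006000e0003c000000000000000000000000000) := T_1 (nat_lit 145) (nat_lit 146) (nat_lit 3) (nat_lit 6) (nat_lit 7) L1315845 (by decide +kernel)
theorem L1315847 : W_1 (nat_lit 7) (nat_lit 0x4000000010001e0002000000000000000000000000000) (nat_lit 0x0) (nat_lit 0x100008006600e0003c000000000000000000000000000) := T_1 (nat_lit 142) (nat_lit 141) (nat_lit 1) (nat_lit 9) (nat_lit 7) L1315846 (by decide +kernel)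
theorem L1315848 : W_1 (nat_lit 8) (nat_lit 0x10001e0002000000000000000000000000000) (nat_lit 0x0) (nat_lit 0x500028006600e0003c000000000000000000000000000) := T_1 (nat_lit 178) (nat_lit 161) (nat_lit 4) (nat_lit 8) (nat_lit 10) L1315847 (by decide +kernel)
theorem L1315852 : W_1 (nat_lit 2) (nat_lit 0x3c0018002e8007000000000000000000000000000) (nat_lit 0x0) (nat_lit 0xc0000000400000000000000000000000000000000000) := D_1 (nat_lit 175) (nat_lit 174) (nat_lit 142) (nat_lit 1) (nat_lit 8) (nat_lit 9) (nat_lit 5) (nat_lit 6) (nat_lit 6) (by decide +kernel)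
theorem L1315853 : W_1 (nat_lit 3) (nat_lit 0x380018002e8007000000000000000000000000000) (nat_lit 0x0) (nat_lit 0xc0006000400000000000000000000000000000000000) := T_1 (nat_lit 158) (nat_lit 157) (nat_lit 2) (nat_lit 4) (nat_lit 9) L1315852 (by decide +kernel)
theorem L1315854 : W_1 (nat_lit 4) (nat_lit 0x300018002e8007000000000000000000000000000) (nat_lit 0x0) (nat_lit 0x1c000e000400000000000000000000000000000000000) := T_1 (nat_lit 159) (nat_lit 176) (nat_lit 5) (nat_lit 7) (nat_lit 6) L1315853 (by decide +kernel)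
theorem L1315855 : W_1 (nat_lit 5) (nat_lit 0x300018000e8007000000000000000000000000000) (nat_lit 0x0) (nat_lit 0x1c000e000400300000000000000000000000000000000) := T_1 (nat_lit 129) (nat_lit 128) (nat_lit 0) (nat_lit 10) (nat_lit 7) L1315854 (by decide +kernel)
theorem L1315856 : W_1 (nat_lit 6) (nat_lit 0x300018000e8006000000000000000000000000000) (nat_lit 0x0) (nat_lit 0x1c000e000400300001000080000000000000000000000) := T_1 (nat_lit 108) (nat_lit 91) (nat_lit 4) (nat_lit 7) (nat_lit 9) L1315855 (by decide +kernel)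
theorem L1315857 : W_1 (nat_lit 7) (nat_lit 0x300010000e8006000000000000000000000000000) (nat_lit 0x0) (nat_lit 0x1c000e000c00300001000280000000000000000000000) := T_1 (nat_lit 143) (nat_lit 93) (nat_lit 6) (nat_lit 7) (nat_lit 9) L1315856 (by decide +kernel)
theorem L1315858 : W_1 (nat_lit 8) (nat_lit 0x200010000e8006000000000000000000000000000) (nat_lit 0x0) (nat_lit 0x3c001e000c00300001000280000000000000000000000) := T_1 (nat_lit 160) (nat_lit 177) (nat_lit 5) (nat_lit 8) (nat_lit 6) L1315857 (by decide +kernel)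
theorem L1315859 : W_1 (nat_lit 9) (nat_lit 0x10000e8006000000000000000000000000000) (nat_lit 0x0) (nat_lit 0x7c003e000c00300001000280000000000000000000000) := T_1 (nat_lit 161) (nat_lit 178) (nat_lit 4) (nat_lit 8) (nat_lit 10) L1315858 (by decide +kernel)
theorem L1315860 : W_1 (nat_lit 10) (nat_lit 0x10000e0006000000000000000000000000000) (nat_lit 0x0) (nat_lit 0x7c003e000c00318001000280000000000000000000000) := T_1 (nat_lit 123) (nat_lit 124) (nat_lit 2) (nat_lit 4) (nat_lit 7) L1315859 (by decide +kernel)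
theorem L1481973 : W_1 (nat_lit 3) (nat_lit 0x20001800180004000000000000000000000000000) (nat_lit 0x0) (nat_lit 0x600640000000000000000000000000000000) := T_1 (nat_lit 142) (nat_lit 141) (nat_lit 2) (nat_lit 5) (nat_lit 8) L1145078 (by decide +kernel)
theorem L1701919 : W_1 (nat_lit 6) (nat_lit 0x20003c00180004000400000000000000000000000) (nat_lit 0x0) (nat_lit 0x38c01c000070000000000000000000000000000000) := T_1 (nat_lit 159) (nat_lit 158) (nat_lit 1) (nat_lit 9) (nat_lit 8) L1136830 (by decide +kernel)
theorem L2563333 : W_1 (nat_lit 2) (nat_lit 0x300058003c0004000000000000000000000000000) (nat_lit 0x0) (nat_lit 0x8002000020000000000000000000000000000000) := D_1 (nat_lit 145) (nat_lit 125) (nat_lit 159) (nat_lit 3) (nat_lit 6) (nat_lit 7) (nat_lit 1) (nat_lit 10) (nat_lit 8) (by decide +kernel)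
theorem L2563334 : W_1 (nat_lit 3) (nat_lit 0x300018003c0004000000000000000000000000000) (nat_lit 0x0) (nat_lit 0x800e000020000000000000000000000000000000) := T_1 (nat_lit 146) (nat_lit 147) (nat_lit 3) (nat_lit 7) (nat_lit 7) L2563333 (by decide +kernel)
theorem L2563335 : W_1 (nat_lit 4) (nat_lit 0x300018001c0004000000000000000000000000000) (nat_lit 0x0) (nat_lit 0x800e000620000000000000000000000000000000) := T_1 (nat_lit 129) (nat_lit 130) (nat_lit 1) (nat_lit 11) (nat_lit 7) L2563334 (by decide +kernel)
theorem L2563336 : W_1 (nat_lit 5) (nat_lit 0x200018001c0004000000000000000000000000000) (nat_lit 0x0) (nat_lit 0x20001800e000620000000000000000000000000000000) := T_1 (nat_lit 160) (nat_lit 177) (nat_lit 6) (nat_lit 7) (nat_lit 10) L2563335 (by decide +kernel)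
theorem L2563337 : W_1 (nat_lit 7) (nat_lit 0x200018001c0004000000000000000000000000000) (nat_lit 0x0) (nat_lit 0x120019800e000600008000400000000000000000000000) := T_1 (nat_lit 129) (nat_lit 130) (nat_lit 1) (nat_lit 11) (nat_lit 7) L1137053 (by decide +kernel)
theorem L2563338 : W_1 (nat_lit 8) (nat_lit 0x20001800180004000000000000000000000000000) (nat_lit 0x0) (nat_lit 0x120019800e000670018000400000000000000000000000) := Q_1 (nat_lit 126) (C_1 L1141356 (C_1 L2563336 (C_1 L2563337 N_1))) (by decide +kernel)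
theorem L2563339 : W_1 (nat_lit 7) (nat_lit 0x20003800180004000000000000000000000000000) (nat_lit 0x0) (nat_lit 0x20001c0006000700018000c0000000000000000000000) := T_1 (nat_lit 142) (nat_lit 141) (nat_lit 2) (nat_lit 5) (nat_lit 8) L1139100 (by decide +kernel)
theorem L2563340 : W_1 (nat_lit 7) (nat_lit 0x20003800180004000400000000000000000000000) (nat_lit 0x0) (nat_lit 0x38c01c600070000000000000000000000000000000) := T_1 (nat_lit 142) (nat_lit 141) (nat_lit 2) (nat_lit 5) (nat_lit 8) L1701919 (by decide +kernel)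
theorem L2563341 : W_1 (nat_lit 8) (nat_lit 0x20003800180004000000000000000000000000000) (nat_lit 0x0) (nat_lit 0x38c01c600070008000400000000000000000000000) := T_1 (nat_lit 94) (nat_lit 111) (nat_lit 6) (nat_lit 8) (nat_lit 9) L2563340 (by decide +kernel)
theorem L2563342 : W_1 (nat_lit 4) (nat_lit 0x20003c00180004000000000000000000000000000) (nat_lit 0x0) (nat_lit 0x20001000c000070000000000000000000000000000000) := T_1 (nat_lit 160) (nat_lit 177) (nat_lit 5) (nat_lit 8) (nat_lit 6) L1136899 (by decide +kernel)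
theorem L2563343 : W_1 (nat_lit 5) (nat_lit 0x20003800180004000000000000000000000000000) (nat_lit 0x0) (nat_lit 0x20001000c600070000000000000000000000000000000) := T_1 (nat_lit 142) (nat_lit 141) (nat_lit 2) (nat_lit 5) (nat_lit 8) L2563342 (by decide +kernel)
theorem L2563344 : W_1 (nat_lit 9) (nat_lit 0x20001800180004000000000000000000000000000) (nat_lit 0x0) (nat_lit 0x20039c01e6000700098004c0000000000000000000000) := Q_1 (nat_lit 145) (C_1 L2563339 (C_1 L1139040 (C_1 L2563341 (C_1 L2563343 N_1)))) (by decide +kernel)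
theorem L2563345 : W_1 (nat_lit 10) (nat_lit 0x20001000180004000000000000000000000000000) (nat_lit 0x0) (nat_lit 0x120039c01ee006700198004c0000000000000000000000) := Q_1 (nat_lit 143) (C_1 L1481973 (C_1 L2563338 (C_1 L2563344 (C_1 L1141354 N_1)))) (by decide +kernel)
theorem L2563346 : W_1 (nat_lit 9) (nat_lit 0x20001000180004000000000000000000000000000) (nat_lit 0x0) (nat_lit 0x120019801ee00e7000a000400000000000000000000000) := Q_1 (nat_lit 129) (C_1 L1134372 (C_1 L1139144 (C_1 L1134402 (C_1 L1134341 N_1)))) (by decide +kernel)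
theorem L2563347 : W_1 (nat_lit 11) (nat_lit 0x20001000080004000000000000000000000000000) (nat_lit 0x0) (nat_lit 0x128039c01ee00f7001b8005c0000000000000000000000) := Q_1 (nat_lit 128) (C_1 L2563345 (C_1 L1139153 (C_1 L1130567 (C_1 L1118054 (C_1 L2563346 N_1))))) (by decide +kernel)
end Crest.Agent.Helper32.Snaky.R1_1
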