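import Crest.Agent.Helper32.Snaky.Gen.R1_1_p1
set_option autoImplicit false
set_option maxRecDepth 100000
set_option linter.all false
set_option Elab.async false
namespace Crest.Agent.Helper32.Snaky.R1_1
@[reducible] def W_2 (d M Bz Z : Nat) : Prop := Crest.Agent.Helper32.Snaky.Wins (nat_lit 17) d M Bz Z
theorem D_2 {d M Bz Z : Nat} (m t1 t2 o1 x1 y1 o2 x2 y2 : Nat) (h : Crest.Agent.Helper32.Snaky.chkDoubleC (nat_lit 17) d M Bz Z m t1 t2 o1 x1 y1 o2 x2 y2 = true) : W_2 d M Bz Z := Crest.Agent.Helper32.Snaky.doubleC m t1 t2 o1 x1 y1 o2 x2 y2 h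
theorem T_2 {d M Bz Z cd cM cBz cZ : Nat} (m t o x y : Nat) (child : W_2 cd cM cBz cZ) (h : Crest.Agent.Helper32.Snaky.chkThreatC (nat_lit 17) d M Bz Z cd cM cBz cZ m t o x y = true) : W_2 d M Bz Z := Crest.Agent.Helper32.Snaky.threatC m t o x y child h
theorem Q_2 {d M Bz Z : Nat} (m : Nat) {l : List Crest.Agent.Helper32.Snaky.Spec} (kids : Crest.Agent.Helper32.Snaky.AllWins (nat_lit 17) l) (h : Crest.Agent.Helper32.Snaky.chkQuiet d M Bz Z m l = true) : W_2 d M Bz Z := Crest.Agent.Helper32.Snaky.quiet m kids h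
theorem C_2 {cd cM cBz cZ : Nat} {l : List Crest.Agent.Helper32.Snaky.Spec} (h : W_2 cd cM cBz cZ) (hl : Crest.Agent.Helper32.Snaky.AllWins (nat_lit 17) l) : Crest.Agent.Helper32.Snaky.AllWins (nat_lit 17) ((cd, cM, cBz, cZ) :: l) := Crest.Agent.Helper32.Snaky.AllWins.cons h hl
theorem N_2 : Crest.Agent.Helper32.Snaky.AllWins (nat_lit 17) [] := Crest.Agent.Helper32.Snaky.AllWins.nil
theorem L3096 : W_2 (nat_lit 2) (nat_lit 0x30001000088007800220000000000000000000000) (nat_lit 0x0) (nat_lit 0x4000400010000000000000000000000) := D_2 (nat_lit 106) (nat_lit 122) (nat_lit 88) (nat_lit 1) (nat_lit 7) (nat_lit 6) (nat_lit 0) (nat_lit 7) (nat_lit 6) (by decide +kernel)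
theorem L3097 : W_2 (nat_lit 3) (nat_lit 0x30001000088007800200000000000000000000000) (nat_lit 0x0) (nat_lit 0x4000400070000000000000000000000) := T_2 (nat_lit 89) (nat_lit 90) (nat_lit 0) (nat_lit 8) (nat_lit 6) L3096 (by decide +kernel)
theorem L3098 : W_2 (nat_lit 4) (nat_lit 0x30001000080007800200000000000000000000000) (nat_lit 0x0) (nat_lit 0x1c000400070000000000000000000000) := T_2 (nat_lit 123) (nat_lit 124) (nat_lit 1) (nat_lit 8) (nat_lit 6) L3097 (by decide +kernel)
theorem L3755 : W_2 (nat_lit 5) (nat_lit 0x30001000080006800200000000000000000000000) (nat_lit 0x0) (nat_lit 0x1c001400470000000000000000000000) := T_2 (nat_lit 108) (nat_lit 94) (nat_lit 2) (nat_lit 5) (nat_lit 6) L3098 (by decide +kernel)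
theorem L36474 : W_2 (nat_lit 2) (nat_lit 0x3000b000480004000200010001800000000000000) (nat_lit 0x0) (nat_lit 0x8000400020000000000) := D_2 (nat_lit 58) (nat_lit 41) (nat_lit 75) (nat_lit 4) (nat_lit 8) (nat_lit 6) (nat_lit 4) (nat_lit 8) (nat_lit 7) (by decide +kernel)
theorem L36475 : W_2 (nat_lit 3) (nat_lit 0x3000b000480004000200010001000000000000000) (nat_lit 0x0) (nat_lit 0x8000c000a0000000000) := T_2 (nat_lit 59) (nat_lit 43) (nat_lit 6) (nat_lit 8) (nat_lit 6) L36474 (by decide +kernel)
theorem L36570 : W_2 (nat_lit 2) (nat_lit 0x3000d000480024001e00000000000000000000000) (nat_lit 0x0) (nat_lit 0x2000180000000000000000000) := D_2 (nat_lit 80) (nat_lit 79) (nat_lit 97) (nat_lit 2) (nat_lit 8) (nat_lit 5) (nat_lit 6) (nat_lit 11) (nat_lit 8) (by decide +kernel)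
theorem L36571 : W_2 (nat_lit 3) (nat_lit 0x3000d000480024001a00000000000000000000000) (nat_lit 0x0) (nat_lit 0x40002400180000000000000000000) := T_2 (nat_lit 94) (nat_lit 114) (nat_lit 3) (nat_lit 8) (nat_lit 5) L36570 (by decide +kernel)
theorem L36572 : W_2 (nat_lit 4) (nat_lit 0x3000d000480024001200000000000000000000000) (nat_lit 0x0) (nat_lit 0x40002c001c0000000000000000000) := T_2 (nat_lit 95) (nat_lit 78) (nat_lit 4) (nat_lit 11) (nat_lit 8) L36571 (by decide +kernel)
theorem L36573 : W_2 (nat_lit 5) (nat_lit 0x3000d000480004001200000000000000000000000) (nat_lit 0x0) (nat_lit 0x80000000000060002c001c0000000000000000000) := T_2 (nat_lit 113) (nat_lit 163) (nat_lit 5) (nat_lit 11) (nat_lit 5) L36572 (by decide +kernel)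
theorem L50952 : W_2 (nat_lit 2) (nat_lit 0x30001000080007c00020000000000000000000000) (nat_lit 0x0) (nat_lit 0x1c000000000000000000000000000000) := D_2 (nat_lit 123) (nat_lit 124) (nat_lit 122) (nat_lit 1) (nat_lit 8) (nat_lit 6) (nat_lit 1) (nat_lit 7) (nat_lit 6) (by decide +kernel)
theorem L50953 : W_2 (nat_lit 3) (nat_lit 0x30001000080007800020000000000000000000000) (nat_lit 0x0) (nat_lit 0x1c000400010000000000000000000000) := T_2 (nat_lit 106) (nat_lit 88) (nat_lit 0) (nat_lit 7) (nat_lit 6) L50952 (by decide +kernel)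
theorem L51235 : W_2 (nat_lit 4) (nat_lit 0x30001000080007800000000000000000000000000) (nat_lit 0x0) (nat_lit 0x1c000400070000000000000000000000) := T_2 (nat_lit 89) (nat_lit 90) (nat_lit 0) (nat_lit 8) (nat_lit 6) L50953 (by decide +kernel)
theorem L52373 : W_2 (nat_lit 2) (nat_lit 0x3000100009000f000040000000000000000000000) (nat_lit 0x0) (nat_lit 0x8000800020000000000000000000000) := D_2 (nat_lit 107) (nat_lit 89) (nat_lit 123) (nat_lit 0) (nat_lit 8) (nat_lit 6) (nat_lit 1) (nat_lit 8) (nat_lit 6) (by decide +kernel)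
theorem L52602 : W_2 (nat_lit 3) (nat_lit 0x3000100008000f000040000000000000000000000) (nat_lit 0x0) (nat_lit 0x38000800020000000000000000000000) := T_2 (nat_lit 124) (nat_lit 125) (nat_lit 1) (nat_lit 9) (nat_lit 6) L52373 (by decide +kernel)
theorem L52603 : W_2 (nat_lit 4) (nat_lit 0x3000100008000f000000000000000000000000000) (nat_lit 0x0) (nat_lit 0x380008000e0000000000000000000000) := T_2 (nat_lit 90) (nat_lit 91) (nat_lit 0) (nat_lit 9) (nat_lit 6) L52602 (by decide +kernel)
theorem L55084 : W_2 (nat_lit 2) (nat_lit 0x20001000090007800000000000000000000000000) (nat_lit 0x0) (nat_lit 0x20008000400000000000000000000000) := D_2 (nat_lit 111) (nat_lit 94) (nat_lit 125) (nat_lit 6) (nat_lit 8) (nat_lit 9) (nat_lit 1) (nat_lit 9) (nat_lit 6) (by decide +kernel)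
theorem L58660 : W_2 (nat_lit 2) (nat_lit 0x20001000090007800040000000000000000000000) (nat_lit 0x0) (nat_lit 0x8000480000000000000000000000) := D_2 (nat_lit 111) (nat_lit 94) (nat_lit 91) (nat_lit 6) (nat_lit 8) (nat_lit 9) (nat_lit 0) (nat_lit 9) (nat_lit 6) (by decide +kernel)
theorem L58661 : W_2 (nat_lit 3) (nat_lit 0x20001000090007800000000000000000000000000) (nat_lit 0x0) (nat_lit 0x80004e0000000000000000000000) := T_2 (nat_lit 90) (nat_lit 89) (nat_lit 0) (nat_lit 8) (nat_lit 6) L58660 (by decide +kernel)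
theorem L70008 : W_2 (nat_lit 2) (nat_lit 0x10000b0004800240002000100000000000000) (nat_lit 0x0) (nat_lit 0x4000200010000000000) := D_2 (nat_lit 57) (nat_lit 40) (nat_lit 74) (nat_lit 6) (nat_lit 5) (nat_lit 6) (nat_lit 6) (nat_lit 5) (nat_lit 7) (by decide +kernel)
theorem L70009 : W_2 (nat_lit 3) (nat_lit 0x10000b0004800240002000000000000000000) (nat_lit 0x0) (nat_lit 0x1000000004000300010000000000) := T_2 (nat_lit 56) (nat_lit 108) (nat_lit 7) (nat_lit 5) (nat_lit 3) L70008 (by decide +kernel)
theorem L70434 : W_2 (nat_lit 2) (nat_lit 0x4001600090004800260000000000000000000000) (nat_lit 0x0) (nat_lit 0x40002000100000000000000000000000000000000000) := D_2 (nat_lit 157) (nat_lit 140) (nat_lit 174) (nat_lit 5) (nat_lit 5) (nat_lit 5) (nat_lit 5) (nat_lit 5) (nat_lit 6) (by decide +kernel)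
theorem L70435 : W_2 (nat_lit 3) (nat_lit 0x1600090004800260000000000000000000000) (nat_lit 0x0) (nat_lit 0x40006000100000000400000000000000000000000000) := T_2 (nat_lit 158) (nat_lit 106) (nat_lit 4) (nat_lit 5) (nat_lit 9) L70434 (by decide +kernel)
theorem L70436 : W_2 (nat_lit 4) (nat_lit 0x1200090004800260000000000000000000000) (nat_lit 0x0) (nat_lit 0x4000e000500000000400000000000000000000000000) := T_2 (nat_lit 142) (nat_lit 159) (nat_lit 7) (nat_lit 5) (nat_lit 5) L70435 (by decide +kernel)
theorem L70437 : W_2 (nat_lit 5) (nat_lit 0x1200090004800240000000000000000000000) (nat_lit 0x0) (nat_lit 0x4000e000500000000400020001000000000000000000) := T_2 (nat_lit 89) (nat_lit 72) (nat_lit 4) (nat_lit 5) (nat_lit 8) L70436 (by decide +kernel)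
theorem L70445 : W_2 (nat_lit 2) (nat_lit 0x40012000900048002e0000000000000000000000) (nat_lit 0x0) (nat_lit 0x40002000100000000000000000000000000000000000) := D_2 (nat_lit 157) (nat_lit 140) (nat_lit 174) (nat_lit 5) (nat_lit 5) (nat_lit 5) (nat_lit 5) (nat_lit 5) (nat_lit 6) (by decide +kernel)
theorem L70446 : W_2 (nat_lit 3) (nat_lit 0x12000900048002e0000000000000000000000) (nat_lit 0x0) (nat_lit 0x40006000100000000400000000000000000000000000) := T_2 (nat_lit 158) (nat_lit 106) (nat_lit 4) (nat_lit 5) (nat_lit 9) L70445 (by decide +kernel)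
theorem L70447 : W_2 (nat_lit 4) (nat_lit 0x1200090004800260000000000000000000000) (nat_lit 0x0) (nat_lit 0x40006000100000000400080004000000000000000000) := T_2 (nat_lit 91) (nat_lit 74) (nat_lit 6) (nat_lit 5) (nat_lit 8) L70446 (by decide +kernel)
theorem L70448 : W_2 (nat_lit 5) (nat_lit 0x1200090004800240000000000000000000000) (nat_lit 0x0) (nat_lit 0x400060001000000004000a0005000000000000000000) := T_2 (nat_lit 89) (nat_lit 72) (nat_lit 4) (nat_lit 5) (nat_lit 8) L70447 (by decide +kernel)
theorem L70449 : W_2 (nat_lit 2) (nat_lit 0x1300090004800240002000000000000000000) (nat_lit 0x0) (nat_lit 0x20001000080000000000000) := D_2 (nat_lit 72) (nat_lit 55) (nat_lit 89) (nat_lit 4) (nat_lit 5) (nat_lit 7) (nat_lit 4) (nat_lit 5) (nat_lit 8) (by decide +kernel)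
theorem L70450 : W_2 (nat_lit 3) (nat_lit 0x1300090004800240000000000000000000000) (nat_lit 0x0) (nat_lit 0x8000000020003000080000000000000) := T_2 (nat_lit 73) (nat_lit 123) (nat_lit 5) (nat_lit 5) (nat_lit 4) L70449 (by decide +kernel)
theorem L70451 : W_2 (nat_lit 4) (nat_lit 0x1200090004800240000000000000000000000) (nat_lit 0x0) (nat_lit 0x2000100008000000020003000080000000000000) := T_2 (nat_lit 140) (nat_lit 157) (nat_lit 5) (nat_lit 5) (nat_lit 5) L70450 (by decide +kernel)
theorem L70452 : W_2 (nat_lit 2) (nat_lit 0x1600098004800260006000000000000000000) (nat_lit 0x0) (nat_lit 0x4000000000000400000000000100000000000000) := D_2 (nat_lit 106) (nat_lit 56) (nat_lit 158) (nat_lit 5) (nat_lit 5) (nat_lit 3) (nat_lit 4) (nat_lit 5) (nat_lit 9) (by decide +kernel)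
theorem L70453 : W_2 (nat_lit 3) (nat_lit 0x1600090004800260006000000000000000000) (nat_lit 0x0) (nat_lit 0x4000100008000400000000000100000000000000) := T_2 (nat_lit 123) (nat_lit 140) (nat_lit 5) (nat_lit 5) (nat_lit 4) L70452 (by decide +kernel)
theorem L70458 : W_2 (nat_lit 2) (nat_lit 0x1600090004c00260006000000000000000000) (nat_lit 0x0) (nat_lit 0x8000000000000000100008000000000) := D_2 (nat_lit 56) (nat_lit 123) (nat_lit 39) (nat_lit 5) (nat_lit 5) (nat_lit 3) (nat_lit 5) (nat_lit 5) (nat_lit 2) (by decide +kernel)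
theorem L70459 : W_2 (nat_lit 3) (nat_lit 0x1600090004c00260004000000000000000000) (nat_lit 0x0) (nat_lit 0x8000000000002000300008000000000) := T_2 (nat_lit 73) (nat_lit 57) (nat_lit 6) (nat_lit 5) (nat_lit 7) L70458 (by decide +kernel)
theorem L70460 : W_2 (nat_lit 4) (nat_lit 0x1600090004c00260000000000000000000000) (nat_lit 0x0) (nat_lit 0x8000000080006000300008000000000) := T_2 (nat_lit 74) (nat_lit 91) (nat_lit 6) (nat_lit 5) (nat_lit 8) L70459 (by decide +kernel)
theorem L70461 : W_2 (nat_lit 5) (nat_lit 0x1600090004800260000000000000000000000) (nat_lit 0x0) (nat_lit 0x4000000008000400080006000300008000000000) := T_2 (nat_lit 106) (nat_lit 158) (nat_lit 4) (nat_lit 5) (nat_lit 9) L70460 (by decide +kernel)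
theorem L70462 : W_2 (nat_lit 6) (nat_lit 0x1200090004800260000000000000000000000) (nat_lit 0x0) (nat_lit 0xc000400008000400080006000300008000000000) := T_2 (nat_lit 142) (nat_lit 159) (nat_lit 7) (nat_lit 5) (nat_lit 5) L70461 (by decide +kernel)
theorem L70463 : W_2 (nat_lit 7) (nat_lit 0x1200090004800240000000000000000000000) (nat_lit 0x0) (nat_lit 0xc0004000080004000a0007000300008000000000) := T_2 (nat_lit 89) (nat_lit 72) (nat_lit 4) (nat_lit 5) (nat_lit 8) L70462 (by decide +kernel)
theorem L70464 : W_2 (nat_lit 2) (nat_lit 0xc0013000980048002c0000000000000000000000) (nat_lit 0x0) (nat_lit 0x1000080000000000000000400000000000000000000000000) := D_2 (nat_lit 175) (nat_lit 192) (nat_lit 106) (nat_lit 4) (nat_lit 5) (nat_lit 11) (nat_lit 4) (nat_lit 5) (nat_lit 10) (by decide +kernel)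
theorem L70465 : W_2 (nat_lit 3) (nat_lit 0x80013000980048002c0000000000000000000000) (nat_lit 0x0) (nat_lit 0x1000180004000000000000400000000000000000000000000) := T_2 (nat_lit 158) (nat_lit 176) (nat_lit 7) (nat_lit 5) (nat_lit 6) L70464 (by decide +kernel)
theorem L70466 : W_2 (nat_lit 4) (nat_lit 0x80013000900048002c0000000000000000000000) (nat_lit 0x0) (nat_lit 0x1000180004000000008000400000002000000000000000000) := T_2 (nat_lit 123) (nat_lit 73) (nat_lit 5) (nat_lit 5) (nat_lit 4) L70465 (by decide +kernel)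
theorem L70467 : W_2 (nat_lit 5) (nat_lit 0x80012000900048002c0000000000000000000000) (nat_lit 0x0) (nat_lit 0x1000180006000100008000400000002000000000000000000) := T_2 (nat_lit 140) (nat_lit 157) (nat_lit 5) (nat_lit 5) (nat_lit 5) L70466 (by decide +kernel)
theorem L70468 : W_2 (nat_lit 6) (nat_lit 0x12000900048002c0000000000000000000000) (nat_lit 0x0) (nat_lit 0x100018000e000500008000400000002000000000000000000) := T_2 (nat_lit 159) (nat_lit 142) (nat_lit 7) (nat_lit 5) (nat_lit 5) L70467 (by decide +kernel)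
theorem L70469 : W_2 (nat_lit 7) (nat_lit 0x1200090004800240000000000000000000000) (nat_lit 0x0) (nat_lit 0x100018000e000500008000400080006000000000000000000) := T_2 (nat_lit 91) (nat_lit 74) (nat_lit 6) (nat_lit 5) (nat_lit 8) L70468 (by decide +kernel)
theorem L70472 : W_2 (nat_lit 2) (nat_lit 0x1000090004800240007000000000000000000) (nat_lit 0x0) (nat_lit 0x2000000000000a0000000000000000000000) := D_2 (nat_lit 141) (nat_lit 89) (nat_lit 91) (nat_lit 4) (nat_lit 5) (nat_lit 8) (nat_lit 6) (nat_lit 5) (nat_lit 8) (by decide +kernel)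
theorem L70473 : W_2 (nat_lit 3) (nat_lit 0x1000090004800240003000000000000000000) (nat_lit 0x0) (nat_lit 0x2000000000000a0004000200000000000000) := T_2 (nat_lit 74) (nat_lit 57) (nat_lit 6) (nat_lit 5) (nat_lit 7) L70472 (by decide +kernel)
theorem L70474 : W_2 (nat_lit 4) (nat_lit 0x1000090004800240002000000000000000000) (nat_lit 0x0) (nat_lit 0x2000000000000a0005000280000000000000) := T_2 (nat_lit 72) (nat_lit 55) (nat_lit 4) (nat_lit 5) (nat_lit 7) L70473 (by decide +kernel)
theorem L70484 : W_2 (nat_lit 2) (nat_lit 0x1000098004800240002000100000000000000) (nat_lit 0x0) (nat_lit 0x1000080004000000000) := D_2 (nat_lit 55) (nat_lit 38) (nat_lit 72) (nat_lit 4) (nat_lit 5) (nat_lit 6) (nat_lit 4) (nat_lit 5) (nat_lit 7) (by decide +kernel)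
theorem L70485 : W_2 (nat_lit 3) (nat_lit 0x1000098004800240002000000000000000000) (nat_lit 0x0) (nat_lit 0x400000001000180004000000000) := T_2 (nat_lit 56) (nat_lit 106) (nat_lit 5) (nat_lit 5) (nat_lit 3) L70484 (by decide +kernel)
theorem L70486 : W_2 (nat_lit 4) (nat_lit 0x1000090004800240002000000000000000000) (nat_lit 0x0) (nat_lit 0x100008000400000001000180004000000000) := T_2 (nat_lit 123) (nat_lit 140) (nat_lit 5) (nat_lit 5) (nat_lit 4) L70485 (by decide +kernel)
theorem L70487 : W_2 (nat_lit 2) (nat_lit 0x1000098004800240002000100000000000000) (nat_lit 0x0) (nat_lit 0x4000200010000000000) := D_2 (nat_lit 57) (nat_lit 74) (nat_lit 40) (nat_lit 6) (nat_lit 5) (nat_lit 7) (nat_lit 6) (nat_lit 5) (nat_lit 6) (by decide +kernel)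
theorem L70488 : W_2 (nat_lit 3) (nat_lit 0x1000098004800240002000000000000000000) (nat_lit 0x0) (nat_lit 0x400000004000300010000000000) := T_2 (nat_lit 56) (nat_lit 106) (nat_lit 5) (nat_lit 5) (nat_lit 3) L70487 (by decide +kernel)
theorem L70489 : W_2 (nat_lit 4) (nat_lit 0x1000090004800240002000000000000000000) (nat_lit 0x0) (nat_lit 0x100008000400000004000300010000000000) := T_2 (nat_lit 123) (nat_lit 140) (nat_lit 5) (nat_lit 5) (nat_lit 4) L70488 (by decide +kernel)
theorem L70491 : W_2 (nat_lit 2) (nat_lit 0x1000090004800240002000280000000000000) (nat_lit 0x0) (nat_lit 0x100014000000000) := D_2 (nat_lit 56) (nat_lit 38) (nat_lit 40) (nat_lit 4) (nat_lit 5) (nat_lit 6) (nat_lit 6) (nat_lit 5) (nat_lit 6) (by decide +kernel)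
theorem L70492 : W_2 (nat_lit 3) (nat_lit 0x1000090004800240002000080000000000000) (nat_lit 0x0) (nat_lit 0x4000300014000000000) := T_2 (nat_lit 57) (nat_lit 74) (nat_lit 6) (nat_lit 5) (nat_lit 7) L70491 (by decide +kernel)
theorem L70493 : W_2 (nat_lit 4) (nat_lit 0x1000090004800240002000000000000000000) (nat_lit 0x0) (nat_lit 0x5000380014000000000) := T_2 (nat_lit 55) (nat_lit 72) (nat_lit 4) (nat_lit 5) (nat_lit 7) L70492 (by decide +kernel)
theorem L70566 : W_2 (nat_lit 8) (nat_lit 0x1200090004800200000000000000000000000) (nat_lit 0x0) (nat_lit 0x10001c000e0005000080004000e0007000380008000000000) := Q_2 (nat_lit 90) (C_2 L70469 (C_2 L70451 (C_2 L70448 (C_2 L70463 N_2)))) (by decide +kernel)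
theorem L70567 : W_2 (nat_lit 2) (nat_lit 0x8000c001200090004c00200000000000000000000000) (nat_lit 0x0) (nat_lit 0x800040002000000000000000000000000000000000000000) := D_2 (nat_lit 174) (nat_lit 157) (nat_lit 191) (nat_lit 5) (nat_lit 5) (nat_lit 6) (nat_lit 5) (nat_lit 5) (nat_lit 7) (by decide +kernel)
theorem L70568 : W_2 (nat_lit 3) (nat_lit 0xc001200090004c00200000000000000000000000) (nat_lit 0x0) (nat_lit 0x8000c0002000000008000000000000000000000000000000) := T_2 (nat_lit 175) (nat_lit 123) (nat_lit 4) (nat_lit 5) (nat_lit 10) L70567 (by decide +kernel)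
theorem L70569 : W_2 (nat_lit 4) (nat_lit 0x4001200090004c00200000000000000000000000) (nat_lit 0x0) (nat_lit 0x8001c000a000000008000000000000000000000000000000) := T_2 (nat_lit 159) (nat_lit 176) (nat_lit 7) (nat_lit 5) (nat_lit 6) L70568 (by decide +kernel)
theorem L70570 : W_2 (nat_lit 5) (nat_lit 0x4001200090004800200000000000000000000000) (nat_lit 0x0) (nat_lit 0x8001c000a000000008000400020000000000000000000000) := T_2 (nat_lit 106) (nat_lit 89) (nat_lit 4) (nat_lit 5) (nat_lit 9) L70569 (by decide +kernel)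
theorem L70593 : W_2 (nat_lit 2) (nat_lit 0x1300090004800240002000000000000000000) (nat_lit 0x0) (nat_lit 0x80004000200000000000000) := D_2 (nat_lit 74) (nat_lit 91) (nat_lit 57) (nat_lit 6) (nat_lit 5) (nat_lit 8) (nat_lit 6) (nat_lit 5) (nat_lit 7) (by decide +kernel)
theorem L70594 : W_2 (nat_lit 3) (nat_lit 0x1300090004800240000000000000000000000) (nat_lit 0x0) (nat_lit 0x8000000080006000200000000000000) := T_2 (nat_lit 73) (nat_lit 123) (nat_lit 5) (nat_lit 5) (nat_lit 4) L70593 (by decide +kernel)
theorem L70595 : W_2 (nat_lit 4) (nat_lit 0x1200090004800240000000000000000000000) (nat_lit 0x0) (nat_lit 0x2000100008000000080006000200000000000000) := T_2 (nat_lit 140) (nat_lit 157) (nat_lit 5) (nat_lit 5) (nat_lit 5) L70594 (by decide +kernel)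
theorem L70632 : W_2 (nat_lit 2) (nat_lit 0x1700090005a002f0000800000000000000000) (nat_lit 0x0) (nat_lit 0xc000400000000000000000000000000) := D_2 (nat_lit 123) (nat_lit 106) (nat_lit 122) (nat_lit 4) (nat_lit 4) (nat_lit 8) (nat_lit 7) (nat_lit 3) (nat_lit 4) (by decide +kernel)
theorem L70633 : W_2 (nat_lit 3) (nat_lit 0x1700090005a002f0000000000000000000000) (nat_lit 0x0) (nat_lit 0xc000400000000c00000000000000000) := T_2 (nat_lit 71) (nat_lit 70) (nat_lit 0) (nat_lit 6) (nat_lit 5) L70632 (by decide +kernel)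
theorem L70634 : W_2 (nat_lit 4) (nat_lit 0x17000900058002f0000000000000000000000) (nat_lit 0x0) (nat_lit 0xc000700000000c00000000000000000) := T_2 (nat_lit 105) (nat_lit 104) (nat_lit 1) (nat_lit 6) (nat_lit 5) L70633 (by decide +kernel)
theorem L70635 : W_2 (nat_lit 5) (nat_lit 0x17000900058002e0000000000000000000000) (nat_lit 0x0) (nat_lit 0xc000700018000c00000000000000000) := T_2 (nat_lit 88) (nat_lit 87) (nat_lit 3) (nat_lit 2) (nat_lit 5) L70634 (by decide +kernel)
theorem L70636 : W_2 (nat_lit 6) (nat_lit 0x17000900048002e0000000000000000000000) (nat_lit 0x0) (nat_lit 0xc003700018000c00000000000000000) := T_2 (nat_lit 108) (nat_lit 109) (nat_lit 0) (nat_lit 8) (nat_lit 6) L70635 (by decide +kernel)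
theorem L70637 : W_2 (nat_lit 7) (nat_lit 0x17000900048002c0000000000000000000000) (nat_lit 0x0) (nat_lit 0xc003700038001c00000000000000000) := T_2 (nat_lit 89) (nat_lit 72) (nat_lit 4) (nat_lit 5) (nat_lit 8) L70636 (by decide +kernel)
theorem L70638 : W_2 (nat_lit 8) (nat_lit 0x13000900048002c0000000000000000000000) (nat_lit 0x0) (nat_lit 0x800040000c003700038001c00000000000000000) := T_2 (nat_lit 142) (nat_lit 159) (nat_lit 7) (nat_lit 5) (nat_lit 5) L70637 (by decide +kernel)
theorem L70639 : W_2 (nat_lit 9) (nat_lit 0x12000900048002c0000000000000000000000) (nat_lit 0x0) (nat_lit 0xa00050000c003700038001c00000000000000000) := T_2 (nat_lit 140) (nat_lit 157) (nat_lit 5) (nat_lit 5) (nat_lit 5) L70638 (by decide +kernel)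
theorem L70640 : W_2 (nat_lit 10) (nat_lit 0x1200090004800240000000000000000000000) (nat_lit 0x0) (nat_lit 0xa00050000c0037000b8005c00000000000000000) := T_2 (nat_lit 91) (nat_lit 74) (nat_lit 6) (nat_lit 5) (nat_lit 8) L70639 (by decide +kernel)
theorem L70642 : W_2 (nat_lit 2) (nat_lit 0x1000080006001300090004c00200000000000000000000000) (nat_lit 0x0) (nat_lit 0x40002000100000000000000000000000000000000000000000000) := D_2 (nat_lit 193) (nat_lit 176) (nat_lit 210) (nat_lit 7) (nat_lit 5) (nat_lit 7) (nat_lit 7) (nat_lit 5) (nat_lit 8) (by decide +kernel)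
theorem L70643 : W_2 (nat_lit 3) (nat_lit 0x80006001300090004c00200000000000000000000000) (nat_lit 0x0) (nat_lit 0x60003000100000000000000000000000000000000000000000000) := T_2 (nat_lit 192) (nat_lit 209) (nat_lit 4) (nat_lit 5) (nat_lit 12) L70642 (by decide +kernel)
theorem L70644 : W_2 (nat_lit 4) (nat_lit 0x6001300090004c00200000000000000000000000) (nat_lit 0x0) (nat_lit 0x60003000180000000000008000000000000000000000000000000) := T_2 (nat_lit 175) (nat_lit 123) (nat_lit 7) (nat_lit 4) (nat_lit 6) L70643 (by decide +kernel)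
theorem L70645 : W_2 (nat_lit 5) (nat_lit 0x6001200090004c00200000000000000000000000) (nat_lit 0x0) (nat_lit 0x60003000180000000100008000000040000000000000000000000) := T_2 (nat_lit 140) (nat_lit 90) (nat_lit 5) (nat_lit 5) (nat_lit 5) L70644 (by decide +kernel)
theorem L70646 : W_2 (nat_lit 6) (nat_lit 0x4001200090004c00200000000000000000000000) (nat_lit 0x0) (nat_lit 0x600030001c0002000100008000000040000000000000000000000) := T_2 (nat_lit 157) (nat_lit 174) (nat_lit 5) (nat_lit 5) (nat_lit 6) L70645 (by decide +kernel)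
theorem L70647 : W_2 (nat_lit 7) (nat_lit 0x4001200090004800200000000000000000000000) (nat_lit 0x0) (nat_lit 0x600030001c0002000100008000400060000000000000000000000) := T_2 (nat_lit 106) (nat_lit 89) (nat_lit 4) (nat_lit 5) (nat_lit 9) L70646 (by decide +kernel)
theorem L70648 : W_2 (nat_lit 2) (nat_lit 0x7001300098006e80200000000000000000000000) (nat_lit 0x0) (nat_lit 0xc00400000000000000000000000000000000000) := D_2 (nat_lit 155) (nat_lit 142) (nat_lit 154) (nat_lit 2) (nat_lit 2) (nat_lit 9) (nat_lit 2) (nat_lit 1) (nat_lit 9) (by decide +kernel)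
theorem L70649 : W_2 (nat_lit 3) (nat_lit 0x6001300098006e80200000000000000000000000) (nat_lit 0x0) (nat_lit 0x20001c00400000000000000000000000000000000000) := T_2 (nat_lit 156) (nat_lit 173) (nat_lit 5) (nat_lit 4) (nat_lit 6) L70648 (by decide +kernel)
theorem L70650 : W_2 (nat_lit 4) (nat_lit 0x6001300098004e80200000000000000000000000) (nat_lit 0x0) (nat_lit 0x20001c00400000003000000000000000000000000000) := T_2 (nat_lit 109) (nat_lit 108) (nat_lit 1) (nat_lit 8) (nat_lit 6) L70649 (by decide +kernel)
theorem L70651 : W_2 (nat_lit 5) (nat_lit 0x6001300098004e00200000000000000000000000) (nat_lit 0x0) (nat_lit 0x20001c00400000003180000000000000000000000000) := T_2 (nat_lit 103) (nat_lit 104) (nat_lit 3) (nat_lit 1) (nat_lit 6) L70650 (by decide +kernel)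
theorem L70652 : W_2 (nat_lit 6) (nat_lit 0x6001300098004c00200000000000000000000000) (nat_lit 0x0) (nat_lit 0x20001c00400000003380010000000000000000000000) := T_2 (nat_lit 105) (nat_lit 88) (nat_lit 4) (nat_lit 4) (nat_lit 9) L70651 (by decide +kernel)
theorem L70653 : W_2 (nat_lit 7) (nat_lit 0x6001300090004c00200000000000000000000000) (nat_lit 0x0) (nat_lit 0xa0001c00400008003380010000000000000000000000) := T_2 (nat_lit 123) (nat_lit 175) (nat_lit 7) (nat_lit 4) (nat_lit 6) L70652 (by decide +kernel)
theorem L70654 : W_2 (nat_lit 8) (nat_lit 0x6001200090004c00200000000000000000000000) (nat_lit 0x0) (nat_lit 0xa0001c00500008003380050000000000000000000000) := T_2 (nat_lit 140) (nat_lit 90) (nat_lit 5) (nat_lit 5) (nat_lit 5) L70653 (by decide +kernel)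
theorem L70655 : W_2 (nat_lit 9) (nat_lit 0x4001200090004c00200000000000000000000000) (nat_lit 0x0) (nat_lit 0xe0003c00500008003380050000000000000000000000) := T_2 (nat_lit 157) (nat_lit 174) (nat_lit 5) (nat_lit 5) (nat_lit 6) L70654 (by decide +kernel)
theorem L70656 : W_2 (nat_lit 10) (nat_lit 0x4001200090004800200000000000000000000000) (nat_lit 0x0) (nat_lit 0xe0003c00500008003780070000000000000000000000) := T_2 (nat_lit 106) (nat_lit 89) (nat_lit 4) (nat_lit 5) (nat_lit 9) L70655 (by decide +kernel)
theorem L70673 : W_2 (nat_lit 2) (nat_lit 0x6001200090004800240000000000000000000000) (nat_lit 0x0) (nat_lit 0x100008000400000000000000000000000000000000000) := D_2 (nat_lit 159) (nat_lit 176) (nat_lit 142) (nat_lit 7) (nat_lit 5) (nat_lit 6) (nat_lit 7) (nat_lit 5) (nat_lit 5) (by decide +kernel)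
theorem L70674 : W_2 (nat_lit 3) (nat_lit 0x6001200090004800200000000000000000000000) (nat_lit 0x0) (nat_lit 0x100008000500000000000040000000000000000000000) := T_2 (nat_lit 90) (nat_lit 140) (nat_lit 5) (nat_lit 5) (nat_lit 5) L70673 (by decide +kernel)
theorem L70675 : W_2 (nat_lit 4) (nat_lit 0x4001200090004800200000000000000000000000) (nat_lit 0x0) (nat_lit 0x14000a000500000000000040000000000000000000000) := T_2 (nat_lit 157) (nat_lit 174) (nat_lit 5) (nat_lit 5) (nat_lit 6) L70674 (by decide +kernel)
theorem L70676 : W_2 (nat_lit 2) (nat_lit 0xc001200090004800240000000000000000000000) (nat_lit 0x0) (nat_lit 0x400020001000000000000000000) := D_2 (nat_lit 89) (nat_lit 106) (nat_lit 72) (nat_lit 4) (nat_lit 5) (nat_lit 9) (nat_lit 4) (nat_lit 5) (nat_lit 8) (by decide +kernel)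
theorem L70677 : W_2 (nat_lit 3) (nat_lit 0xc001200090004800200000000000000000000000) (nat_lit 0x0) (nat_lit 0x400000000400060001000000000000000000) := T_2 (nat_lit 90) (nat_lit 142) (nat_lit 7) (nat_lit 5) (nat_lit 5) L70676 (by decide +kernel)
theorem L70678 : W_2 (nat_lit 4) (nat_lit 0x4001200090004800200000000000000000000000) (nat_lit 0x0) (nat_lit 0x100008000400000000400060001000000000000000000) := T_2 (nat_lit 159) (nat_lit 176) (nat_lit 7) (nat_lit 5) (nat_lit 6) L70677 (by decide +kernel)
theorem L70680 : W_2 (nat_lit 2) (nat_lit 0x40016000900048002c0000000000000000000000) (nat_lit 0x0) (nat_lit 0x40002000100000000000000000000000000000000000) := D_2 (nat_lit 157) (nat_lit 174) (nat_lit 140) (nat_lit 5) (nat_lit 5) (nat_lit 6) (nat_lit 5) (nat_lit 5) (nat_lit 5) (by decide +kernel)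
theorem L70681 : W_2 (nat_lit 3) (nat_lit 0x16000900048002c0000000000000000000000) (nat_lit 0x0) (nat_lit 0x40006000100000001000000000000000000000000000) := T_2 (nat_lit 158) (nat_lit 108) (nat_lit 6) (nat_lit 5) (nat_lit 9) L70680 (by decide +kernel)
theorem L70682 : W_2 (nat_lit 4) (nat_lit 0x12000900048002c0000000000000000000000) (nat_lit 0x0) (nat_lit 0x4000e000500000001000000000000000000000000000) := T_2 (nat_lit 142) (nat_lit 159) (nat_lit 7) (nat_lit 5) (nat_lit 5) L70681 (by decide +kernel)
theorem L70683 : W_2 (nat_lit 5) (nat_lit 0x1200090004800240000000000000000000000) (nat_lit 0x0) (nat_lit 0x4000e000500000001000080004000000000000000000) := T_2 (nat_lit 91) (nat_lit 74) (nat_lit 6) (nat_lit 5) (nat_lit 8) L70682 (by decide +kernel)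
theorem L70685 : W_2 (nat_lit 2) (nat_lit 0x4001200090006800260000000000000000000000) (nat_lit 0x0) (nat_lit 0x100008000400000000000000000000000000000000000) := D_2 (nat_lit 159) (nat_lit 142) (nat_lit 176) (nat_lit 7) (nat_lit 5) (nat_lit 5) (nat_lit 7) (nat_lit 5) (nat_lit 6) (by decide +kernel)
theorem L70686 : W_2 (nat_lit 3) (nat_lit 0x1200090006800260000000000000000000000) (nat_lit 0x0) (nat_lit 0x10000c000400000000400000000000000000000000000) := T_2 (nat_lit 158) (nat_lit 106) (nat_lit 4) (nat_lit 5) (nat_lit 9) L70685 (by decide +kernel)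
theorem L70687 : W_2 (nat_lit 4) (nat_lit 0x1200090004800260000000000000000000000) (nat_lit 0x0) (nat_lit 0x10000c000400000003400000000000000000000000000) := T_2 (nat_lit 109) (nat_lit 108) (nat_lit 0) (nat_lit 8) (nat_lit 6) L70686 (by decide +kernel)
theorem L70688 : W_2 (nat_lit 5) (nat_lit 0x1200090004800240000000000000000000000) (nat_lit 0x0) (nat_lit 0x10000c000400000003400020001000000000000000000) := T_2 (nat_lit 89) (nat_lit 72) (nat_lit 4) (nat_lit 5) (nat_lit 8) L70687 (by decide +kernel)
theorem L70703 : W_2 (nat_lit 2) (nat_lit 0x10800bc005a00240007000000000000000000) (nat_lit 0x0) (nat_lit 0x400030000000000000000000000) := D_2 (nat_lit 89) (nat_lit 106) (nat_lit 88) (nat_lit 5) (nat_lit 4) (nat_lit 4) (nat_lit 6) (nat_lit 3) (nat_lit 8) (by decide +kernel)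
theorem L70704 : W_2 (nat_lit 3) (nat_lit 0x10800bc005800240007000000000000000000) (nat_lit 0x0) (nat_lit 0x700030000000000000000000000) := T_2 (nat_lit 105) (nat_lit 104) (nat_lit 0) (nat_lit 6) (nat_lit 7) L70703 (by decide +kernel)
theorem L70705 : W_2 (nat_lit 4) (nat_lit 0x10000bc005800240007000000000000000000) (nat_lit 0x0) (nat_lit 0xc0000000700030000000000000000000000) := T_2 (nat_lit 139) (nat_lit 138) (nat_lit 1) (nat_lit 6) (nat_lit 7) L70704 (by decide +kernel)
theorem L70706 : W_2 (nat_lit 5) (nat_lit 0x10000b8005800240007000000000000000000) (nat_lit 0x0) (nat_lit 0xc0006000700030000000000000000000000) := T_2 (nat_lit 122) (nat_lit 121) (nat_lit 2) (nat_lit 2) (nat_lit 7) L70705 (by decide +kernel)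
theorem L70707 : W_2 (nat_lit 6) (nat_lit 0x10000b8004800240007000000000000000000) (nat_lit 0x0) (nat_lit 0xc0006003700030000000000000000000000) := T_2 (nat_lit 108) (nat_lit 109) (nat_lit 1) (nat_lit 8) (nat_lit 6) L70706 (by decide +kernel)
theorem L70708 : W_2 (nat_lit 7) (nat_lit 0x10000b0004800240007000000000000000000) (nat_lit 0x0) (nat_lit 0x1c000e003700030000000000000000000000) := T_2 (nat_lit 123) (nat_lit 140) (nat_lit 5) (nat_lit 5) (nat_lit 4) L70707 (by decide +kernel)
theorem L70709 : W_2 (nat_lit 8) (nat_lit 0x1000090004800240007000000000000000000) (nat_lit 0x0) (nat_lit 0x5c002e003700030000000000000000000000) := T_2 (nat_lit 125) (nat_lit 142) (nat_lit 7) (nat_lit 5) (nat_lit 4) L70708 (by decide +kernel)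
theorem L70710 : W_2 (nat_lit 9) (nat_lit 0x1000090004800240006000000000000000000) (nat_lit 0x0) (nat_lit 0x5c002e003700030001000080000000000000) := T_2 (nat_lit 72) (nat_lit 55) (nat_lit 4) (nat_lit 5) (nat_lit 7) L70709 (by decide +kernel)
theorem L70711 : W_2 (nat_lit 10) (nat_lit 0x1000090004800240002000000000000000000) (nat_lit 0x0) (nat_lit 0x5c002e003700030005000280000000000000) := T_2 (nat_lit 74) (nat_lit 57) (nat_lit 6) (nat_lit 5) (nat_lit 7) L70710 (by decide +kernel)
theorem L70712 : W_2 (nat_lit 11) (nat_lit 0x1000090004800240000000000000000000000) (nat_lit 0x0) (nat_lit 0x5c002e003700030007000380014000000000) := Q_2 (nat_lit 73) (C_2 L70493 (C_2 L70486 (C_2 L70489 (C_2 L70711 N_2)))) (by decide +kernel)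
theorem L70719 : W_2 (nat_lit 2) (nat_lit 0x1600090004800240002000000000000000000) (nat_lit 0x0) (nat_lit 0x2000100008000000000000000000000000000000) := D_2 (nat_lit 140) (nat_lit 123) (nat_lit 157) (nat_lit 5) (nat_lit 5) (nat_lit 4) (nat_lit 5) (nat_lit 5) (nat_lit 5) (by decide +kernel)
theorem L70720 : W_2 (nat_lit 3) (nat_lit 0x1600090004800240000000000000000000000) (nat_lit 0x0) (nat_lit 0x2000100028000000000002000000000000000000) := T_2 (nat_lit 73) (nat_lit 125) (nat_lit 7) (nat_lit 5) (nat_lit 4) L70719 (by decide +kernel)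
theorem L70721 : W_2 (nat_lit 4) (nat_lit 0x1200090004800240000000000000000000000) (nat_lit 0x0) (nat_lit 0xa000500028000000000002000000000000000000) := T_2 (nat_lit 142) (nat_lit 159) (nat_lit 7) (nat_lit 5) (nat_lit 5) L70720 (by decide +kernel)
theorem L70722 : W_2 (nat_lit 6) (nat_lit 0x1000090004800240000000000000000000000) (nat_lit 0x0) (nat_lit 0x10000e000700028003400020003000080000000000000) := Q_2 (nat_lit 141) (C_2 L70451 (C_2 L70688 (C_2 L70721 N_2))) (by decide +kernel)
theorem L70763 : W_2 (nat_lit 2) (nat_lit 0x10000b0004800240002000100000000000000) (nat_lit 0x0) (nat_lit 0x1000080004000000000) := D_2 (nat_lit 55) (nat_lit 38) (nat_lit 72) (nat_lit 4) (nat_lit 5) (nat_lit 6) (nat_lit 4) (nat_lit 5) (nat_lit 7) (by decide +kernel)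
theorem L70764 : W_2 (nat_lit 3) (nat_lit 0x10000b0004800240002000000000000000000) (nat_lit 0x0) (nat_lit 0x1000000001000180004000000000) := T_2 (nat_lit 56) (nat_lit 108) (nat_lit 7) (nat_lit 5) (nat_lit 3) L70763 (by decide +kernel)
theorem L70765 : W_2 (nat_lit 4) (nat_lit 0x1000090004800240002000000000000000000) (nat_lit 0x0) (nat_lit 0x400020001000000001000180004000000000) := T_2 (nat_lit 125) (nat_lit 142) (nat_lit 7) (nat_lit 5) (nat_lit 4) L70764 (by decide +kernel)
theorem L70833 : W_2 (nat_lit 2) (nat_lit 0x8000c001200090005800200000000000000000000000) (nat_lit 0x0) (nat_lit 0x800040002000000000000000000000000000000000000000) := D_2 (nat_lit 174) (nat_lit 191) (nat_lit 157) (nat_lit 5) (nat_lit 5) (nat_lit 7) (nat_lit 5) (nat_lit 5) (nat_lit 6) (by decide +kernel)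
theorem L70834 : W_2 (nat_lit 3) (nat_lit 0xc001200090005800200000000000000000000000) (nat_lit 0x0) (nat_lit 0x8000c0002000000020000000000000000000000000000000) := T_2 (nat_lit 175) (nat_lit 125) (nat_lit 6) (nat_lit 5) (nat_lit 10) L70833 (by decide +kernel)
theorem L70835 : W_2 (nat_lit 4) (nat_lit 0x4001200090005800200000000000000000000000) (nat_lit 0x0) (nat_lit 0x8001c000a000000020000000000000000000000000000000) := T_2 (nat_lit 159) (nat_lit 176) (nat_lit 7) (nat_lit 5) (nat_lit 6) L70834 (by decide +kernel)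
theorem L70922 : W_2 (nat_lit 2) (nat_lit 0x1200090005800200000000000000000000000) (nat_lit 0x0) (nat_lit 0x8002000400000000000000000000000) := D_2 (nat_lit 109) (nat_lit 123) (nat_lit 94) (nat_lit 1) (nat_lit 8) (nat_lit 6) (nat_lit 2) (nat_lit 5) (nat_lit 6) (by decide +kernel)
theorem L70927 : W_2 (nat_lit 5) (nat_lit 0x1200090005800200000000000000000000000) (nat_lit 0x0) (nat_lit 0x8001c000e000000020000000080000000000000000000000) := T_2 (nat_lit 158) (nat_lit 91) (nat_lit 6) (nat_lit 5) (nat_lit 9) L70835 (by decide +kernel)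
theorem L70928 : W_2 (nat_lit 6) (nat_lit 0x1200090004800200000000000000000000000) (nat_lit 0x0) (nat_lit 0x8001c000e000000028003000480000000000000000000000) := Q_2 (nat_lit 108) (C_2 L70922 (C_2 L70927 N_2)) (by decide +kernel)
theorem L70964 : W_2 (nat_lit 5) (nat_lit 0x1000090004800240000000000000000000000) (nat_lit 0x0) (nat_lit 0x3000080004000a0007000380014000000000) := Q_2 (nat_lit 73) (C_2 L70493 (C_2 L70486 (C_2 L70489 (C_2 L70474 N_2)))) (by decide +kernel)
theorem L70969 : W_2 (nat_lit 2) (nat_lit 0x4001200090006800260000000000000000000000) (nat_lit 0x0) (nat_lit 0x40002000100000000000000000000000000000000000) := D_2 (nat_lit 157) (nat_lit 140) (nat_lit 174) (nat_lit 5) (nat_lit 5) (nat_lit 5) (nat_lit 5) (nat_lit 5) (nat_lit 6) (by decide +kernel)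
theorem L70970 : W_2 (nat_lit 3) (nat_lit 0x1200090006800260000000000000000000000) (nat_lit 0x0) (nat_lit 0x40006000100000000400000000000000000000000000) := T_2 (nat_lit 158) (nat_lit 106) (nat_lit 4) (nat_lit 5) (nat_lit 9) L70969 (by decide +kernel)
theorem L70971 : W_2 (nat_lit 4) (nat_lit 0x1200090004800260000000000000000000000) (nat_lit 0x0) (nat_lit 0x40006000100000003400000000000000000000000000) := T_2 (nat_lit 109) (nat_lit 108) (nat_lit 0) (nat_lit 8) (nat_lit 6) L70970 (by decide +kernel)
theorem L70972 : W_2 (nat_lit 5) (nat_lit 0x1200090004800240000000000000000000000) (nat_lit 0x0) (nat_lit 0x40006000100000003400020001000000000000000000) := T_2 (nat_lit 89) (nat_lit 72) (nat_lit 4) (nat_lit 5) (nat_lit 8) L70971 (by decide +kernel)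
theorem L70979 : W_2 (nat_lit 4) (nat_lit 0x1000090004800240002000000000000000000) (nat_lit 0x0) (nat_lit 0x400020001000000004000300010000000000) := T_2 (nat_lit 125) (nat_lit 142) (nat_lit 7) (nat_lit 5) (nat_lit 4) L70009 (by decide +kernel)
theorem L70980 : W_2 (nat_lit 5) (nat_lit 0x1000090004800240000000000000000000000) (nat_lit 0x0) (nat_lit 0x6000200010000a0007000380014000000000) := Q_2 (nat_lit 73) (C_2 L70493 (C_2 L70765 (C_2 L70979 (C_2 L70474 N_2)))) (by decide +kernel)
theorem L71435 : W_2 (nat_lit 11) (nat_lit 0x1200090004800200000000000000000000000) (nat_lit 0x0) (nat_lit 0x600038001e000fc00500008003780070001000000000000000000) := Q_2 (nat_lit 158) (C_2 L70678 (C_2 L70647 (C_2 L70656 (C_2 L70570 (C_2 L70675 N_2))))) (by decide +kernel)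
theorem L71490 : W_2 (nat_lit 2) (nat_lit 0x1600090004800260002000000000000000000) (nat_lit 0x0) (nat_lit 0x80004000200000000000000) := D_2 (nat_lit 74) (nat_lit 57) (nat_lit 91) (nat_lit 6) (nat_lit 5) (nat_lit 7) (nat_lit 6) (nat_lit 5) (nat_lit 8) (by decide +kernel)
theorem L71491 : W_2 (nat_lit 3) (nat_lit 0x1600090004800260000000000000000000000) (nat_lit 0x0) (nat_lit 0x20000000080006000200000000000000) := T_2 (nat_lit 73) (nat_lit 125) (nat_lit 7) (nat_lit 5) (nat_lit 4) L71490 (by decide +kernel)
theorem L71492 : W_2 (nat_lit 4) (nat_lit 0x1200090004800260000000000000000000000) (nat_lit 0x0) (nat_lit 0x8000400020000000080006000200000000000000) := T_2 (nat_lit 142) (nat_lit 159) (nat_lit 7) (nat_lit 5) (nat_lit 5) L71491 (by decide +kernel)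
theorem L71493 : W_2 (nat_lit 5) (nat_lit 0x1200090004800240000000000000000000000) (nat_lit 0x0) (nat_lit 0x80004000200000000a0007000200000000000000) := T_2 (nat_lit 89) (nat_lit 72) (nat_lit 4) (nat_lit 5) (nat_lit 8) L71492 (by decide +kernel)
theorem L72673 : W_2 (nat_lit 2) (nat_lit 0x100009000480024001a00000000000000000000000) (nat_lit 0x0) (nat_lit 0x4000200010000000000000000000000000000000000000) := D_2 (nat_lit 165) (nat_lit 148) (nat_lit 182) (nat_lit 7) (nat_lit 11) (nat_lit 5) (nat_lit 7) (nat_lit 11) (nat_lit 6) (by decide +kernel)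
theorem L72674 : W_2 (nat_lit 3) (nat_lit 0x9000480024001a00000000000000000000000) (nat_lit 0x0) (nat_lit 0x4000300010000000010000000000000000000000000000) := T_2 (nat_lit 164) (nat_lit 112) (nat_lit 4) (nat_lit 11) (nat_lit 9) L72673 (by decide +kernel)
theorem L72777 : W_2 (nat_lit 2) (nat_lit 0x90004800240012001c0000000000000000000) (nat_lit 0x0) (nat_lit 0x80004000200000000000000000000000000000000) := D_2 (nat_lit 146) (nat_lit 163) (nat_lit 129) (nat_lit 5) (nat_lit 11) (nat_lit 5) (nat_lit 5) (nat_lit 11) (nat_lit 4) (by decide +kernel)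
theorem L72778 : W_2 (nat_lit 3) (nat_lit 0x10004800240012001c0000000000000000000) (nat_lit 0x0) (nat_lit 0x8000c000200000002000000000000000000000000) := T_2 (nat_lit 147) (nat_lit 97) (nat_lit 6) (nat_lit 11) (nat_lit 8) L72777 (by decide +kernel)
theorem L72779 : W_2 (nat_lit 4) (nat_lit 0x1000480024001200180000000000000000000) (nat_lit 0x0) (nat_lit 0x8000c000200000002000040002000000000000000) := T_2 (nat_lit 78) (nat_lit 61) (nat_lit 4) (nat_lit 11) (nat_lit 7) L72778 (by decide +kernel)
theorem L72780 : W_2 (nat_lit 5) (nat_lit 0x1000480024001200080000000000000000000) (nat_lit 0x0) (nat_lit 0x8000c00020000000200014000a000000000000000) := T_2 (nat_lit 80) (nat_lit 63) (nat_lit 6) (nat_lit 11) (nat_lit 7) L72779 (by decide +kernel)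
theorem L72790 : W_2 (nat_lit 2) (nat_lit 0x9000480024001a00000000000000000000000) (nat_lit 0x0) (nat_lit 0x42000400000000000000000000000) := D_2 (nat_lit 94) (nat_lit 114) (nat_lit 109) (nat_lit 3) (nat_lit 8) (nat_lit 5) (nat_lit 1) (nat_lit 11) (nat_lit 5) (by decide +kernel)
theorem L72791 : W_2 (nat_lit 3) (nat_lit 0x9000480024001200000000000000000000000) (nat_lit 0x0) (nat_lit 0x42000c00040000000000000000000) := T_2 (nat_lit 95) (nat_lit 78) (nat_lit 4) (nat_lit 11) (nat_lit 8) L72790 (by decide +kernel)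
theorem L72792 : W_2 (nat_lit 2) (nat_lit 0x19000480024001200080000000000000000000) (nat_lit 0x0) (nat_lit 0x2000100008000000000000000) := D_2 (nat_lit 80) (nat_lit 63) (nat_lit 97) (nat_lit 6) (nat_lit 11) (nat_lit 7) (nat_lit 6) (nat_lit 11) (nat_lit 8) (by decide +kernel)
theorem L72793 : W_2 (nat_lit 3) (nat_lit 0x19000480024001200000000000000000000000) (nat_lit 0x0) (nat_lit 0x800000002000180008000000000000000) := T_2 (nat_lit 79) (nat_lit 131) (nat_lit 7) (nat_lit 11) (nat_lit 4) L72792 (by decide +kernel)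
theorem L72794 : W_2 (nat_lit 4) (nat_lit 0x9000480024001200000000000000000000000) (nat_lit 0x0) (nat_lit 0x200010000800000002000180008000000000000000) := T_2 (nat_lit 148) (nat_lit 165) (nat_lit 7) (nat_lit 11) (nat_lit 5) L72793 (by decide +kernel)
theorem L72795 : W_2 (nat_lit 5) (nat_lit 0x1000480024001200000000000000000000000) (nat_lit 0x0) (nat_lit 0x200018000800042002c001c0008000000000000000) := Q_2 (nat_lit 147) (C_2 L72791 (C_2 L72794 N_2)) (by decide +kernel)
theorem L72802 : W_2 (nat_lit 2) (nat_lit 0x1000680024001200080004000000000000000) (nat_lit 0x0) (nat_lit 0x40002000100000000000) := D_2 (nat_lit 61) (nat_lit 44) (nat_lit 78) (nat_lit 4) (nat_lit 11) (nat_lit 6) (nat_lit 4) (nat_lit 11) (nat_lit 7) (by decide +kernel)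
theorem L72803 : W_2 (nat_lit 3) (nat_lit 0x1000680024001200080000000000000000000) (nat_lit 0x0) (nat_lit 0x10000000040006000100000000000) := T_2 (nat_lit 62) (nat_lit 112) (nat_lit 5) (nat_lit 11) (nat_lit 3) L72802 (by decide +kernel)
theorem L72804 : W_2 (nat_lit 4) (nat_lit 0x1000480024001200080000000000000000000) (nat_lit 0x0) (nat_lit 0x4000200010000000040006000100000000000) := T_2 (nat_lit 129) (nat_lit 146) (nat_lit 5) (nat_lit 11) (nat_lit 4) L72803 (by decide +kernel)
theorem L72818 : W_2 (nat_lit 2) (nat_lit 0xd000480024001200080000000000000000000) (nat_lit 0x0) (nat_lit 0x2000100008000000000000000) := D_2 (nat_lit 80) (nat_lit 97) (nat_lit 63) (nat_lit 6) (nat_lit 11) (nat_lit 8) (nat_lit 6) (nat_lit 11) (nat_lit 7) (by decide +kernel)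
theorem L72819 : W_2 (nat_lit 3) (nat_lit 0xd000480024001200000000000000000000000) (nat_lit 0x0) (nat_lit 0x200000002000180008000000000000000) := T_2 (nat_lit 79) (nat_lit 129) (nat_lit 5) (nat_lit 11) (nat_lit 4) L72818 (by decide +kernel)
theorem L72820 : W_2 (nat_lit 4) (nat_lit 0x9000480024001200000000000000000000000) (nat_lit 0x0) (nat_lit 0x80004000200000002000180008000000000000000) := T_2 (nat_lit 146) (nat_lit 163) (nat_lit 5) (nat_lit 11) (nat_lit 5) L72819 (by decide +kernel)
theorem L72932 : W_2 (nat_lit 2) (nat_lit 0x1000c80024001200080004000000000000000) (nat_lit 0x0) (nat_lit 0x100008000400000000000) := D_2 (nat_lit 63) (nat_lit 46) (nat_lit 80) (nat_lit 6) (nat_lit 11) (nat_lit 6) (nat_lit 6) (nat_lit 11) (nat_lit 7) (by decide +kernel)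
theorem L72933 : W_2 (nat_lit 3) (nat_lit 0x1000c80024001200080000000000000000000) (nat_lit 0x0) (nat_lit 0x4000000010000c000400000000000) := T_2 (nat_lit 62) (nat_lit 114) (nat_lit 7) (nat_lit 11) (nat_lit 3) L72932 (by decide +kernel)
theorem L72934 : W_2 (nat_lit 4) (nat_lit 0x1000480024001200080000000000000000000) (nat_lit 0x0) (nat_lit 0x1000080004000000010000c000400000000000) := T_2 (nat_lit 131) (nat_lit 148) (nat_lit 7) (nat_lit 11) (nat_lit 4) L72933 (by decide +kernel)
theorem L72972 : W_2 (nat_lit 2) (nat_lit 0xd000480024001a00080000000000000000000) (nat_lit 0x0) (nat_lit 0x200010000800000000000000000000000000000000) := D_2 (nat_lit 148) (nat_lit 165) (nat_lit 131) (nat_lit 7) (nat_lit 11) (nat_lit 5) (nat_lit 7) (nat_lit 11) (nat_lit 4) (by decide +kernel)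
theorem L72973 : W_2 (nat_lit 3) (nat_lit 0xd000480024001a00000000000000000000000) (nat_lit 0x0) (nat_lit 0x200010000a00000000000080000000000000000000) := T_2 (nat_lit 79) (nat_lit 129) (nat_lit 5) (nat_lit 11) (nat_lit 4) L72972 (by decide +kernel)
theorem L73047 : W_2 (nat_lit 2) (nat_lit 0x1000c80024001200080004000000000000000) (nat_lit 0x0) (nat_lit 0x40002000100000000000) := D_2 (nat_lit 61) (nat_lit 78) (nat_lit 44) (nat_lit 4) (nat_lit 11) (nat_lit 7) (nat_lit 4) (nat_lit 11) (nat_lit 6) (by decide +kernel)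
theorem L73048 : W_2 (nat_lit 3) (nat_lit 0x1000c80024001200080000000000000000000) (nat_lit 0x0) (nat_lit 0x40000000040006000100000000000) := T_2 (nat_lit 62) (nat_lit 114) (nat_lit 7) (nat_lit 11) (nat_lit 3) L73047 (by decide +kernel)
theorem L73049 : W_2 (nat_lit 4) (nat_lit 0x1000480024001200080000000000000000000) (nat_lit 0x0) (nat_lit 0x10000800040000000040006000100000000000) := T_2 (nat_lit 131) (nat_lit 148) (nat_lit 7) (nat_lit 11) (nat_lit 4) L73048 (by decide +kernel)
theorem L73067 : W_2 (nat_lit 2) (nat_lit 0xf000480024001200000000000000000000000) (nat_lit 0x0) (nat_lit 0x300010000000000000000000000000000000000000) := D_2 (nat_lit 165) (nat_lit 148) (nat_lit 164) (nat_lit 7) (nat_lit 11) (nat_lit 5) (nat_lit 3) (nat_lit 8) (nat_lit 8) (by decide +kernel)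
theorem L73148 : W_2 (nat_lit 2) (nat_lit 0x1000680024003200180004000000000000000) (nat_lit 0x0) (nat_lit 0x800040000000000000000200000000000) := D_2 (nat_lit 114) (nat_lit 131) (nat_lit 45) (nat_lit 7) (nat_lit 11) (nat_lit 3) (nat_lit 7) (nat_lit 11) (nat_lit 2) (by decide +kernel)
theorem L73149 : W_2 (nat_lit 3) (nat_lit 0x1000680024001200180004000000000000000) (nat_lit 0x0) (nat_lit 0x8000800040002000000000000200000000000) := T_2 (nat_lit 97) (nat_lit 147) (nat_lit 6) (nat_lit 11) (nat_lit 8) L73148 (by decide +kernel)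
theorem L73150 : W_2 (nat_lit 4) (nat_lit 0x1000680024001200180000000000000000000) (nat_lit 0x0) (nat_lit 0x8000800050002000000004000200000000000) := T_2 (nat_lit 62) (nat_lit 112) (nat_lit 5) (nat_lit 11) (nat_lit 3) L73149 (by decide +kernel)
theorem L73151 : W_2 (nat_lit 5) (nat_lit 0x1000480024001200180000000000000000000) (nat_lit 0x0) (nat_lit 0xc000a00050002000000004000200000000000) := T_2 (nat_lit 129) (nat_lit 146) (nat_lit 5) (nat_lit 11) (nat_lit 4) L73150 (by decide +kernel)
theorem L73152 : W_2 (nat_lit 6) (nat_lit 0x1000480024001200080000000000000000000) (nat_lit 0x0) (nat_lit 0xc000a0005000200010000c000200000000000) := T_2 (nat_lit 80) (nat_lit 63) (nat_lit 6) (nat_lit 11) (nat_lit 7) L73151 (by decide +kernel)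
theorem L73154 : W_2 (nat_lit 3) (nat_lit 0xd000480024001200000000000000000000000) (nat_lit 0x0) (nat_lit 0x300012000800000000000000000000000000000000) := T_2 (nat_lit 145) (nat_lit 131) (nat_lit 2) (nat_lit 8) (nat_lit 8) L73067 (by decide +kernel)
theorem L73155 : W_2 (nat_lit 4) (nat_lit 0x9000480024001200000000000000000000000) (nat_lit 0x0) (nat_lit 0x380016000800000000000000000000000000000000) := T_2 (nat_lit 146) (nat_lit 163) (nat_lit 5) (nat_lit 11) (nat_lit 5) L73154 (by decide +kernel)
theorem L73191 : W_2 (nat_lit 2) (nat_lit 0x10004800240012001c0000000000000000000) (nat_lit 0x0) (nat_lit 0x8000000000002800000000000000000000000) := D_2 (nat_lit 147) (nat_lit 95) (nat_lit 97) (nat_lit 4) (nat_lit 11) (nat_lit 8) (nat_lit 6) (nat_lit 11) (nat_lit 8) (by decide +kernel)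
theorem L73192 : W_2 (nat_lit 3) (nat_lit 0x10004800240012000c0000000000000000000) (nat_lit 0x0) (nat_lit 0x8000000000002800100008000000000000000) := T_2 (nat_lit 80) (nat_lit 63) (nat_lit 6) (nat_lit 11) (nat_lit 7) L73191 (by decide +kernel)
theorem L73193 : W_2 (nat_lit 4) (nat_lit 0x1000480024001200080000000000000000000) (nat_lit 0x0) (nat_lit 0x800000000000280014000a000000000000000) := T_2 (nat_lit 78) (nat_lit 61) (nat_lit 4) (nat_lit 11) (nat_lit 7) L73192 (by decide +kernel)
theorem L73195 : W_2 (nat_lit 4) (nat_lit 0x9000480024001200000000000000000000000) (nat_lit 0x0) (nat_lit 0x4000300010000000010000800040000000000000000000) := T_2 (nat_lit 95) (nat_lit 78) (nat_lit 4) (nat_lit 11) (nat_lit 8) L72674 (by decide +kernel)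
theorem L74301 : W_2 (nat_lit 2) (nat_lit 0x3001d000480024001a00080000000000000000000) (nat_lit 0x0) (nat_lit 0x2000100008000000000000000) := D_2 (nat_lit 80) (nat_lit 63) (nat_lit 97) (nat_lit 6) (nat_lit 11) (nat_lit 7) (nat_lit 6) (nat_lit 11) (nat_lit 8) (by decide +kernel)
theorem L74302 : W_2 (nat_lit 3) (nat_lit 0x3001d000480024001a00000000000000000000000) (nat_lit 0x0) (nat_lit 0x800000002000180008000000000000000) := T_2 (nat_lit 79) (nat_lit 131) (nat_lit 7) (nat_lit 11) (nat_lit 4) L74301 (by decide +kernel)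
theorem L74303 : W_2 (nat_lit 4) (nat_lit 0x3000d000480024001a00000000000000000000000) (nat_lit 0x0) (nat_lit 0x200010000800000002000180008000000000000000) := T_2 (nat_lit 148) (nat_lit 165) (nat_lit 7) (nat_lit 11) (nat_lit 5) L74302 (by decide +kernel)
theorem L74304 : W_2 (nat_lit 5) (nat_lit 0x3000d000480024001200000000000000000000000) (nat_lit 0x0) (nat_lit 0x2000100008000000028001c0008000000000000000) := T_2 (nat_lit 95) (nat_lit 78) (nat_lit 4) (nat_lit 11) (nat_lit 8) L74303 (by decide +kernel)
theorem L77041 : W_2 (nat_lit 2) (nat_lit 0x6001200190005800240000000000000000000000) (nat_lit 0x0) (nat_lit 0x400020001000000000000000000) := D_2 (nat_lit 89) (nat_lit 72) (nat_lit 106) (nat_lit 4) (nat_lit 5) (nat_lit 8) (nat_lit 4) (nat_lit 5) (nat_lit 9) (by decide +kernel)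
theorem L77042 : W_2 (nat_lit 3) (nat_lit 0x6001200190005800200000000000000000000000) (nat_lit 0x0) (nat_lit 0x100000000400060001000000000000000000) := T_2 (nat_lit 90) (nat_lit 140) (nat_lit 5) (nat_lit 5) (nat_lit 5) L77041 (by decide +kernel)
theorem L77043 : W_2 (nat_lit 4) (nat_lit 0x4001200190005800200000000000000000000000) (nat_lit 0x0) (nat_lit 0x40002000100000000400060001000000000000000000) := T_2 (nat_lit 157) (nat_lit 174) (nat_lit 5) (nat_lit 5) (nat_lit 6) L77042 (by decide +kernel)
theorem L77044 : W_2 (nat_lit 5) (nat_lit 0x1200190005800200000000000000000000000) (nat_lit 0x0) (nat_lit 0x400060001000000004000e0001000000000000000000) := T_2 (nat_lit 158) (nat_lit 91) (nat_lit 6) (nat_lit 5) (nat_lit 9) L77043 (by decide +kernel)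
theorem L78367 : W_2 (nat_lit 2) (nat_lit 0x11000780044000200038000000000000000000) (nat_lit 0x0) (nat_lit 0x20000800080000000000000000000000000000) := D_2 (nat_lit 131) (nat_lit 115) (nat_lit 149) (nat_lit 2) (nat_lit 9) (nat_lit 7) (nat_lit 3) (nat_lit 9) (nat_lit 7) (by decide +kernel)
theorem L78368 : W_2 (nat_lit 3) (nat_lit 0x1000780044000200038000000000000000000) (nat_lit 0x0) (nat_lit 0x38000800080000000000000000000000000000) := T_2 (nat_lit 148) (nat_lit 147) (nat_lit 3) (nat_lit 8) (nat_lit 7) L78367 (by decide +kernel)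
theorem L78369 : W_2 (nat_lit 4) (nat_lit 0x1000780004000200038000000000000000000) (nat_lit 0x0) (nat_lit 0x380008000e0000000000000000000000000000) := T_2 (nat_lit 114) (nat_lit 113) (nat_lit 2) (nat_lit 8) (nat_lit 7) L78368 (by decide +kernel)
theorem L78403 : W_2 (nat_lit 5) (nat_lit 0x1000580004000200038000000000000000000) (nat_lit 0x0) (nat_lit 0x38000a000e2000000000000000000000000000) := T_2 (nat_lit 129) (nat_lit 109) (nat_lit 0) (nat_lit 11) (nat_lit 7) L78369 (by decide +kernel)
theorem L80099 : W_2 (nat_lit 2) (nat_lit 0x8000000020001f000480004001200078004000000000000000) (nat_lit 0x0) (nat_lit 0x2000080008000000000000000) := D_2 (nat_lit 79) (nat_lit 97) (nat_lit 63) (nat_lit 3) (nat_lit 8) (nat_lit 4) (nat_lit 2) (nat_lit 8) (nat_lit 4) (by decide +kernel)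
theorem L80100 : W_2 (nat_lit 3) (nat_lit 0x8000000020001f000480004001200078000000000000000000) (nat_lit 0x0) (nat_lit 0x200008000e000000000000000) := T_2 (nat_lit 62) (nat_lit 61) (nat_lit 2) (nat_lit 7) (nat_lit 4) L80099 (by decide +kernel)
theorem L80101 : W_2 (nat_lit 4) (nat_lit 0x8000000020001f000480004001200038000000000000000000) (nat_lit 0x0) (nat_lit 0x28000c000e000000000000000) := T_2 (nat_lit 78) (nat_lit 95) (nat_lit 3) (nat_lit 7) (nat_lit 4) L80100 (by decide +kernel)
theorem L80102 : W_2 (nat_lit 5) (nat_lit 0x8000000020001f000480004000200038000000000000000000) (nat_lit 0x0) (nat_lit 0x200038000c000e000000000000000) := T_2 (nat_lit 96) (nat_lit 113) (nat_lit 7) (nat_lit 11) (nat_lit 5) L80101 (by decide +kernel)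
theorem L80103 : W_2 (nat_lit 6) (nat_lit 0x20001f000480004000200038000000000000000000) (nat_lit 0x0) (nat_lit 0x800040000000000000000200038000c000e000000000000000) := T_2 (nat_lit 199) (nat_lit 182) (nat_lit 4) (nat_lit 12) (nat_lit 11) L80102 (by decide +kernel)
theorem L80104 : W_2 (nat_lit 7) (nat_lit 0x20000f000480004000200038000000000000000000) (nat_lit 0x0) (nat_lit 0x800040004000100000000200038000c000e000000000000000) := T_2 (nat_lit 148) (nat_lit 166) (nat_lit 3) (nat_lit 9) (nat_lit 8) L80103 (by decide +kernel)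
theorem L80105 : W_2 (nat_lit 8) (nat_lit 0xf000480004000200038000000000000000000) (nat_lit 0x0) (nat_lit 0x800040007000100000000200038000c000e000000000000000) := T_2 (nat_lit 165) (nat_lit 164) (nat_lit 3) (nat_lit 8) (nat_lit 8) L80104 (by decide +kernel)
theorem L90180 : W_2 (nat_lit 2) (nat_lit 0x1000080005800200000000000000000000000) (nat_lit 0x0) (nat_lit 0x2000400020000000000000000000) := D_2 (nat_lit 94) (nat_lit 77) (nat_lit 109) (nat_lit 6) (nat_lit 8) (nat_lit 8) (nat_lit 2) (nat_lit 5) (nat_lit 6) (by decide +kernel)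
theorem L90181 : W_2 (nat_lit 2) (nat_lit 0x1000080005800200000000000000000000000) (nat_lit 0x0) (nat_lit 0x100002000400000000000000000000000) := D_2 (nat_lit 109) (nat_lit 128) (nat_lit 94) (nat_lit 3) (nat_lit 5) (nat_lit 6) (nat_lit 2) (nat_lit 5) (nat_lit 6) (by decide +kernel)
theorem L90380 : W_2 (nat_lit 2) (nat_lit 0xe001300090004800600000000000000000000000) (nat_lit 0x0) (nat_lit 0x100000c0000000000000000000000000000000000) := D_2 (nat_lit 139) (nat_lit 138) (nat_lit 160) (nat_lit 3) (nat_lit 2) (nat_lit 8) (nat_lit 0) (nat_lit 7) (nat_lit 9) (by decide +kernel)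
theorem L90381 : W_2 (nat_lit 3) (nat_lit 0xe001200090004800600000000000000000000000) (nat_lit 0x0) (nat_lit 0x100001c0000000000040000000000000000000000) := T_2 (nat_lit 140) (nat_lit 90) (nat_lit 5) (nat_lit 5) (nat_lit 5) L90380 (by decide +kernel)
theorem L90382 : W_2 (nat_lit 4) (nat_lit 0xc001200090004800600000000000000000000000) (nat_lit 0x0) (nat_lit 0x400120001c0000000000040000000000000000000000) := T_2 (nat_lit 157) (nat_lit 174) (nat_lit 5) (nat_lit 5) (nat_lit 6) L90381 (by decide +kernel)
theorem L90383 : W_2 (nat_lit 5) (nat_lit 0x4001200090004800600000000000000000000000) (nat_lit 0x0) (nat_lit 0x14001a0001c0000000000040000000000000000000000) := T_2 (nat_lit 159) (nat_lit 176) (nat_lit 7) (nat_lit 5) (nat_lit 6) L90382 (by decide +kernel)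
theorem L90384 : W_2 (nat_lit 6) (nat_lit 0x4001200090004800200000000000000000000000) (nat_lit 0x0) (nat_lit 0x14001a0001c0000000000440020000000000000000000) := T_2 (nat_lit 94) (nat_lit 77) (nat_lit 6) (nat_lit 8) (nat_lit 8) L90383 (by decide +kernel)
theorem L90456 : W_2 (nat_lit 2) (nat_lit 0x1600090004800640002000000000000000000) (nat_lit 0x0) (nat_lit 0x20001000080000000000000) := D_2 (nat_lit 72) (nat_lit 89) (nat_lit 55) (nat_lit 4) (nat_lit 5) (nat_lit 8) (nat_lit 4) (nat_lit 5) (nat_lit 7) (by decide +kernel)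
theorem L90457 : W_2 (nat_lit 3) (nat_lit 0x1600090004800640000000000000000000000) (nat_lit 0x0) (nat_lit 0x20000000020003000080000000000000) := T_2 (nat_lit 73) (nat_lit 125) (nat_lit 7) (nat_lit 5) (nat_lit 4) L90456 (by decide +kernel)
theorem L90458 : W_2 (nat_lit 4) (nat_lit 0x1200090004800640000000000000000000000) (nat_lit 0x0) (nat_lit 0x8000400020000000020003000080000000000000) := T_2 (nat_lit 142) (nat_lit 159) (nat_lit 7) (nat_lit 5) (nat_lit 5) L90457 (by decide +kernel)
theorem L90459 : W_2 (nat_lit 5) (nat_lit 0x1200090004800240000000000000000000000) (nat_lit 0x0) (nat_lit 0x8000400020000000420023000080000000000000) := T_2 (nat_lit 94) (nat_lit 77) (nat_lit 6) (nat_lit 8) (nat_lit 8) L90458 (by decide +kernel)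
theorem L90460 : W_2 (nat_lit 6) (nat_lit 0x1000090004800240000000000000000000000) (nat_lit 0x0) (nat_lit 0x4000e000700028000400420023000080000000000000) := Q_2 (nat_lit 141) (C_2 L70451 (C_2 L70721 (C_2 L70437 (C_2 L90459 N_2)))) (by decide +kernel)
theorem L90466 : W_2 (nat_lit 2) (nat_lit 0xc0012000900048006c0000000000000000000000) (nat_lit 0x0) (nat_lit 0x400020001000000000000000000) := D_2 (nat_lit 89) (nat_lit 106) (nat_lit 72) (nat_lit 4) (nat_lit 5) (nat_lit 9) (nat_lit 4) (nat_lit 5) (nat_lit 8) (by decide +kernel)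
theorem L90467 : W_2 (nat_lit 3) (nat_lit 0x80012000900048006c0000000000000000000000) (nat_lit 0x0) (nat_lit 0x100004000000000000400020001000000000000000000) := T_2 (nat_lit 158) (nat_lit 176) (nat_lit 7) (nat_lit 5) (nat_lit 6) L90466 (by decide +kernel)
theorem L90468 : W_2 (nat_lit 4) (nat_lit 0x8001200090004800640000000000000000000000) (nat_lit 0x0) (nat_lit 0x1000040000000000004000a0005000000000000000000) := T_2 (nat_lit 91) (nat_lit 74) (nat_lit 6) (nat_lit 5) (nat_lit 8) L90467 (by decide +kernel)
theorem L90469 : W_2 (nat_lit 5) (nat_lit 0x1200090004800640000000000000000000000) (nat_lit 0x0) (nat_lit 0x10000c0004000000004000a0005000000000000000000) := T_2 (nat_lit 159) (nat_lit 142) (nat_lit 7) (nat_lit 5) (nat_lit 5) L90468 (by decide +kernel)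
theorem L90470 : W_2 (nat_lit 6) (nat_lit 0x1200090004800240000000000000000000000) (nat_lit 0x0) (nat_lit 0x10000c0004000000004004a0025000000000000000000) := T_2 (nat_lit 94) (nat_lit 77) (nat_lit 6) (nat_lit 8) (nat_lit 8) L90469 (by decide +kernel)
theorem L90497 : W_2 (nat_lit 2) (nat_lit 0x1600090004800640002000000000000000000) (nat_lit 0x0) (nat_lit 0x80004000200000000000000) := D_2 (nat_lit 74) (nat_lit 57) (nat_lit 91) (nat_lit 6) (nat_lit 5) (nat_lit 7) (nat_lit 6) (nat_lit 5) (nat_lit 8) (by decide +kernel)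
theorem L90498 : W_2 (nat_lit 3) (nat_lit 0x1600090004800640000000000000000000000) (nat_lit 0x0) (nat_lit 0x20000000080006000200000000000000) := T_2 (nat_lit 73) (nat_lit 125) (nat_lit 7) (nat_lit 5) (nat_lit 4) L90497 (by decide +kernel)
theorem L90499 : W_2 (nat_lit 4) (nat_lit 0x1200090004800640000000000000000000000) (nat_lit 0x0) (nat_lit 0x8000400020000000080006000200000000000000) := T_2 (nat_lit 142) (nat_lit 159) (nat_lit 7) (nat_lit 5) (nat_lit 5) L90498 (by decide +kernel)
theorem L90500 : W_2 (nat_lit 5) (nat_lit 0x1200090004800240000000000000000000000) (nat_lit 0x0) (nat_lit 0x8000400020000000480026000200000000000000) := T_2 (nat_lit 94) (nat_lit 77) (nat_lit 6) (nat_lit 8) (nat_lit 8) L90499 (by decide +kernel)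
theorem L90518 : W_2 (nat_lit 2) (nat_lit 0x12000900048006e0000000000000000000000) (nat_lit 0x0) (nat_lit 0x4000000000001400000000000000000000000000) := D_2 (nat_lit 158) (nat_lit 108) (nat_lit 106) (nat_lit 6) (nat_lit 5) (nat_lit 9) (nat_lit 4) (nat_lit 5) (nat_lit 9) (by decide +kernel)
theorem L90519 : W_2 (nat_lit 3) (nat_lit 0x12000900048006c0000000000000000000000) (nat_lit 0x0) (nat_lit 0x4000000000001400020001000000000000000000) := T_2 (nat_lit 89) (nat_lit 72) (nat_lit 4) (nat_lit 5) (nat_lit 8) L90518 (by decide +kernel)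
theorem L90520 : W_2 (nat_lit 4) (nat_lit 0x1200090004800640000000000000000000000) (nat_lit 0x0) (nat_lit 0x40000000000014000a0005000000000000000000) := T_2 (nat_lit 91) (nat_lit 74) (nat_lit 6) (nat_lit 5) (nat_lit 8) L90519 (by decide +kernel)
theorem L90521 : W_2 (nat_lit 5) (nat_lit 0x1200090004800240000000000000000000000) (nat_lit 0x0) (nat_lit 0x40000000000014004a0025000000000000000000) := T_2 (nat_lit 94) (nat_lit 77) (nat_lit 6) (nat_lit 8) (nat_lit 8) L90520 (by decide +kernel)
theorem L90522 : W_2 (nat_lit 7) (nat_lit 0x1200090004800200000000000000000000000) (nat_lit 0x0) (nat_lit 0x10000c0004000200014004e0027000280000000000000) := Q_2 (nat_lit 90) (C_2 L90500 (C_2 L90470 (C_2 L90521 (C_2 L71493 (C_2 L90459 N_2))))) (by decide +kernel)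
theorem L90530 : W_2 (nat_lit 2) (nat_lit 0x80004001200090005800600000000000000000000000) (nat_lit 0x0) (nat_lit 0x2000100008000000000000000000000000000000000000000) := D_2 (nat_lit 176) (nat_lit 159) (nat_lit 193) (nat_lit 7) (nat_lit 5) (nat_lit 6) (nat_lit 7) (nat_lit 5) (nat_lit 7) (by decide +kernel)
theorem L90531 : W_2 (nat_lit 3) (nat_lit 0x4001200090005800600000000000000000000000) (nat_lit 0x0) (nat_lit 0x2000180008000000020000000000000000000000000000000) := T_2 (nat_lit 175) (nat_lit 125) (nat_lit 6) (nat_lit 5) (nat_lit 10) L90530 (by decide +kernel)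
theorem L90532 : W_2 (nat_lit 4) (nat_lit 0x4001200090005800200000000000000000000000) (nat_lit 0x0) (nat_lit 0x2000180008000000020000000400020000000000000000000) := T_2 (nat_lit 94) (nat_lit 77) (nat_lit 6) (nat_lit 8) (nat_lit 8) L90531 (by decide +kernel)
theorem L90533 : W_2 (nat_lit 5) (nat_lit 0x4001200090004800200000000000000000000000) (nat_lit 0x0) (nat_lit 0x2000180008000000020001000480020000000000000000000) := T_2 (nat_lit 108) (nat_lit 91) (nat_lit 6) (nat_lit 5) (nat_lit 9) L90532 (by decide +kernel)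
theorem L90631 : W_2 (nat_lit 11) (nat_lit 0x1000090004800240000000000000000000000) (nat_lit 0x0) (nat_lit 0x14000e00070000c0037004b8025c00000000000000000) := Q_2 (nat_lit 141) (C_2 L90521 (C_2 L90470 (C_2 L70972 (C_2 L70640 (C_2 L70683 N_2))))) (by decide +kernel)
theorem L90632 : W_2 (nat_lit 6) (nat_lit 0x1000090004800240000000000000000000000) (nat_lit 0x0) (nat_lit 0x4000e000700028001000480026000200000000000000) := Q_2 (nat_lit 141) (C_2 L90500 (C_2 L70595 (C_2 L70721 (C_2 L70683 N_2)))) (by decide +kernel)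
theorem L90655 : W_2 (nat_lit 2) (nat_lit 0x1600090005800640006000000000000000000) (nat_lit 0x0) (nat_lit 0x20001000080000000000000) := D_2 (nat_lit 72) (nat_lit 55) (nat_lit 89) (nat_lit 4) (nat_lit 5) (nat_lit 7) (nat_lit 4) (nat_lit 5) (nat_lit 8) (by decide +kernel)
theorem L90656 : W_2 (nat_lit 3) (nat_lit 0x1600090005800640004000000000000000000) (nat_lit 0x0) (nat_lit 0x20003000280000000000000) := T_2 (nat_lit 73) (nat_lit 57) (nat_lit 6) (nat_lit 5) (nat_lit 7) L90655 (by decide +kernel)
theorem L90657 : W_2 (nat_lit 4) (nat_lit 0x1200090005800640004000000000000000000) (nat_lit 0x0) (nat_lit 0x8000400000000000020003000280000000000000) := T_2 (nat_lit 142) (nat_lit 159) (nat_lit 7) (nat_lit 5) (nat_lit 5) L90656 (by decide +kernel)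
theorem L90658 : W_2 (nat_lit 5) (nat_lit 0x1200090005800640000000000000000000000) (nat_lit 0x0) (nat_lit 0x80004000000000000a0007000280000000000000) := T_2 (nat_lit 74) (nat_lit 91) (nat_lit 6) (nat_lit 5) (nat_lit 8) L90657 (by decide +kernel)
theorem L90659 : W_2 (nat_lit 6) (nat_lit 0x1200090004800640000000000000000000000) (nat_lit 0x0) (nat_lit 0x80004000000030000a0007000280000000000000) := T_2 (nat_lit 108) (nat_lit 109) (nat_lit 2) (nat_lit 5) (nat_lit 6) L90658 (by decide +kernel)
theorem L90660 : W_2 (nat_lit 7) (nat_lit 0x1200090004800240000000000000000000000) (nat_lit 0x0) (nat_lit 0x80004000000030004a0027000280000000000000) := T_2 (nat_lit 94) (nat_lit 77) (nat_lit 6) (nat_lit 8) (nat_lit 8) L90659 (by decide +kernel)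
theorem L90661 : W_2 (nat_lit 11) (nat_lit 0x1200090004800200000000000000000000000) (nat_lit 0x0) (nat_lit 0xa00050000c0037004f8027c00280000000000000) := Q_2 (nat_lit 90) (C_2 L70640 (C_2 L70595 (C_2 L70451 (C_2 L90660 N_2)))) (by decide +kernel)
theorem L91321 : W_2 (nat_lit 2) (nat_lit 0x1000080004c00240002000100008000000000) (nat_lit 0x0) (nat_lit 0x80004000200000) := D_2 (nat_lit 38) (nat_lit 21) (nat_lit 55) (nat_lit 4) (nat_lit 5) (nat_lit 5) (nat_lit 4) (nat_lit 5) (nat_lit 6) (by decide +kernel)
theorem L91322 : W_2 (nat_lit 3) (nat_lit 0x1000080004c00240002000100000000000000) (nat_lit 0x0) (nat_lit 0x2000000008000c000200000) := T_2 (nat_lit 39) (nat_lit 89) (nat_lit 5) (nat_lit 5) (nat_lit 2) L91321 (by decide +kernel)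
theorem L91989 : W_2 (nat_lit 12) (nat_lit 0x1000080004800240000000000000000000000) (nat_lit 0x0) (nat_lit 0x14000e0007c003e0037004b8027c00380014000000000) := Q_2 (nat_lit 124) (C_2 L90460 (C_2 L90632 (C_2 L70964 (C_2 L70712 (C_2 L70980 (C_2 L90631 N_2)))))) (by decide +kernel)
theorem L92125 : W_2 (nat_lit 2) (nat_lit 0x1000090004800640002000300000000000000) (nat_lit 0x0) (nat_lit 0x100008000400000000000000000000000000) := D_2 (nat_lit 123) (nat_lit 140) (nat_lit 106) (nat_lit 5) (nat_lit 5) (nat_lit 4) (nat_lit 5) (nat_lit 5) (nat_lit 3) (by decide +kernel)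
theorem L92126 : W_2 (nat_lit 3) (nat_lit 0x1000080004800640002000300000000000000) (nat_lit 0x0) (nat_lit 0x100018000400000004000000000000000000) := T_2 (nat_lit 124) (nat_lit 74) (nat_lit 6) (nat_lit 5) (nat_lit 7) L92125 (by decide +kernel)
theorem L92127 : W_2 (nat_lit 4) (nat_lit 0x1000080004800240002000300000000000000) (nat_lit 0x0) (nat_lit 0x100018000400400024000000000000000000) := T_2 (nat_lit 94) (nat_lit 77) (nat_lit 6) (nat_lit 8) (nat_lit 8) L92126 (by decide +kernel)
theorem L92128 : W_2 (nat_lit 5) (nat_lit 0x1000080004800240002000100000000000000) (nat_lit 0x0) (nat_lit 0x100018000400400024000200010000000000) := T_2 (nat_lit 57) (nat_lit 40) (nat_lit 6) (nat_lit 5) (nat_lit 6) L92127 (by decide +kernel)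
theorem L92129 : W_2 (nat_lit 4) (nat_lit 0x1000080004800240002000100000000000000) (nat_lit 0x0) (nat_lit 0x800040002000000008000c000200000) := T_2 (nat_lit 106) (nat_lit 123) (nat_lit 5) (nat_lit 5) (nat_lit 3) L91322 (by decide +kernel)
theorem L92131 : W_2 (nat_lit 2) (nat_lit 0x1000080004800640002000380000000000000) (nat_lit 0x0) (nat_lit 0x10000000000005000000000000000000) := D_2 (nat_lit 124) (nat_lit 74) (nat_lit 72) (nat_lit 6) (nat_lit 5) (nat_lit 7) (nat_lit 4) (nat_lit 5) (nat_lit 7) (by decide +kernel)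
theorem L92132 : W_2 (nat_lit 3) (nat_lit 0x1000080004800640002000300000000000000) (nat_lit 0x0) (nat_lit 0x10000000000005000080004000000000) := T_2 (nat_lit 55) (nat_lit 38) (nat_lit 4) (nat_lit 5) (nat_lit 6) L92131 (by decide +kernel)
theorem L92133 : W_2 (nat_lit 4) (nat_lit 0x1000080004800640002000100000000000000) (nat_lit 0x0) (nat_lit 0x10000000000005000280014000000000) := T_2 (nat_lit 57) (nat_lit 40) (nat_lit 6) (nat_lit 5) (nat_lit 6) L92132 (by decide +kernel)
theorem L92134 : W_2 (nat_lit 5) (nat_lit 0x1000080004800240002000100000000000000) (nat_lit 0x0) (nat_lit 0x10000000400025000280014000000000) := T_2 (nat_lit 94) (nat_lit 77) (nat_lit 6) (nat_lit 8) (nat_lit 8) L92133 (by decide +kernel)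
theorem L92135 : W_2 (nat_lit 6) (nat_lit 0x1000080004800240002000000000000000000) (nat_lit 0x0) (nat_lit 0x10001800040042002500038001c000200000) := Q_2 (nat_lit 56) (C_2 L92129 (C_2 L92134 (C_2 L92128 N_2))) (by decide +kernel)
theorem L97938 : W_2 (nat_lit 2) (nat_lit 0xd000480024001a00000000000000000000000) (nat_lit 0x0) (nat_lit 0x42000400000000000000000000000) := D_2 (nat_lit 94) (nat_lit 114) (nat_lit 109) (nat_lit 3) (nat_lit 8) (nat_lit 5) (nat_lit 1) (nat_lit 11) (nat_lit 5) (by decide +kernel)
theorem L97939 : W_2 (nat_lit 3) (nat_lit 0xd000480024001200000000000000000000000) (nat_lit 0x0) (nat_lit 0x42000c00040000000000000000000) := T_2 (nat_lit 95) (nat_lit 78) (nat_lit 4) (nat_lit 11) (nat_lit 8) L97938 (by decide +kernel)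
theorem L97946 : W_2 (nat_lit 2) (nat_lit 0x1d000480024001a00080000000000000000000) (nat_lit 0x0) (nat_lit 0x2000100008000000000000000) := D_2 (nat_lit 80) (nat_lit 63) (nat_lit 97) (nat_lit 6) (nat_lit 11) (nat_lit 7) (nat_lit 6) (nat_lit 11) (nat_lit 8) (by decide +kernel)
theorem L97947 : W_2 (nat_lit 3) (nat_lit 0x1d000480024001a00000000000000000000000) (nat_lit 0x0) (nat_lit 0x800000002000180008000000000000000) := T_2 (nat_lit 79) (nat_lit 131) (nat_lit 7) (nat_lit 11) (nat_lit 4) L97946 (by decide +kernel)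
theorem L97948 : W_2 (nat_lit 4) (nat_lit 0xd000480024001a00000000000000000000000) (nat_lit 0x0) (nat_lit 0x200010000800000002000180008000000000000000) := T_2 (nat_lit 148) (nat_lit 165) (nat_lit 7) (nat_lit 11) (nat_lit 5) L97947 (by decide +kernel)
theorem L97949 : W_2 (nat_lit 5) (nat_lit 0xd000480024001200000000000000000000000) (nat_lit 0x0) (nat_lit 0x2000100008000000028001c0008000000000000000) := T_2 (nat_lit 95) (nat_lit 78) (nat_lit 4) (nat_lit 11) (nat_lit 8) L97948 (by decide +kernel)
theorem L98390 : W_2 (nat_lit 2) (nat_lit 0x9000580004000200000000000000000000000) (nat_lit 0x0) (nat_lit 0x10000200002000000000000000000000000000) := D_2 (nat_lit 129) (nat_lit 109) (nat_lit 148) (nat_lit 0) (nat_lit 11) (nat_lit 7) (nat_lit 3) (nat_lit 8) (nat_lit 7) (by decide +kernel)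
theorem L98393 : W_2 (nat_lit 2) (nat_lit 0xb000580004000200000000000000000000000) (nat_lit 0x0) (nat_lit 0x14000800000000000000000000000000000000) := D_2 (nat_lit 146) (nat_lit 131) (nat_lit 148) (nat_lit 2) (nat_lit 8) (nat_lit 8) (nat_lit 0) (nat_lit 12) (nat_lit 8) (by decide +kernel)
theorem L98406 : W_2 (nat_lit 2) (nat_lit 0xb000580004000200000000000000000000000) (nat_lit 0x0) (nat_lit 0xa00002000000000000000000000000000) := D_2 (nat_lit 129) (nat_lit 109) (nat_lit 131) (nat_lit 0) (nat_lit 11) (nat_lit 7) (nat_lit 1) (nat_lit 12) (nat_lit 7) (by decide +kernel)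
theorem L98460 : W_2 (nat_lit 2) (nat_lit 0x300009000480034001200000000000000000000000) (nat_lit 0x0) (nat_lit 0x40002000100000000000000000000) := D_2 (nat_lit 97) (nat_lit 80) (nat_lit 114) (nat_lit 6) (nat_lit 11) (nat_lit 8) (nat_lit 6) (nat_lit 11) (nat_lit 9) (by decide +kernel)
theorem L98461 : W_2 (nat_lit 3) (nat_lit 0x300009000480034000200000000000000000000000) (nat_lit 0x0) (nat_lit 0x10000000040003000100000000000000000000) := T_2 (nat_lit 96) (nat_lit 148) (nat_lit 7) (nat_lit 11) (nat_lit 5) L98460 (by decide +kernel)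
theorem L98462 : W_2 (nat_lit 4) (nat_lit 0x100009000480034000200000000000000000000000) (nat_lit 0x0) (nat_lit 0x4000200010000000040003000100000000000000000000) := T_2 (nat_lit 165) (nat_lit 182) (nat_lit 7) (nat_lit 11) (nat_lit 6) L98461 (by decide +kernel)
theorem L98463 : W_2 (nat_lit 5) (nat_lit 0x100009000480024000200000000000000000000000) (nat_lit 0x0) (nat_lit 0x4000200010000000050003800100000000000000000000) := T_2 (nat_lit 112) (nat_lit 95) (nat_lit 4) (nat_lit 11) (nat_lit 9) L98462 (by decide +kernel)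
theorem L98477 : W_2 (nat_lit 2) (nat_lit 0x100030000b000480074000200000000000000000000000) (nat_lit 0x0) (nat_lit 0x20002000000000000800000000000000000000000000000000) := D_2 (nat_lit 181) (nat_lit 131) (nat_lit 197) (nat_lit 6) (nat_lit 11) (nat_lit 10) (nat_lit 5) (nat_lit 11) (nat_lit 7) (by decide +kernel)
theorem L98478 : W_2 (nat_lit 3) (nat_lit 0x30000b000480074000200000000000000000000000) (nat_lit 0x0) (nat_lit 0x20003000080000000800000000000000000000000000000000) := T_2 (nat_lit 180) (nat_lit 163) (nat_lit 5) (nat_lit 11) (nat_lit 6) L98477 (by decide +kernel)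
theorem L98479 : W_2 (nat_lit 4) (nat_lit 0x30000b000480034000200000000000000000000000) (nat_lit 0x0) (nat_lit 0x20003000080000000800040002000000000000000000000000) := T_2 (nat_lit 114) (nat_lit 97) (nat_lit 6) (nat_lit 11) (nat_lit 9) L98478 (by decide +kernel)
theorem L98480 : W_2 (nat_lit 5) (nat_lit 0x300009000480034000200000000000000000000000) (nat_lit 0x0) (nat_lit 0x20003000080006000800040002000000000000000000000000) := T_2 (nat_lit 145) (nat_lit 146) (nat_lit 3) (nat_lit 8) (nat_lit 8) L98479 (by decide +kernel)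
theorem L98481 : W_2 (nat_lit 6) (nat_lit 0x100009000480034000200000000000000000000000) (nat_lit 0x0) (nat_lit 0x20007000280006000800040002000000000000000000000000) := T_2 (nat_lit 165) (nat_lit 182) (nat_lit 7) (nat_lit 11) (nat_lit 6) L98480 (by decide +kernel)
theorem L98482 : W_2 (nat_lit 7) (nat_lit 0x100009000480024000200000000000000000000000) (nat_lit 0x0) (nat_lit 0x20007000280006000800050002800000000000000000000000) := T_2 (nat_lit 112) (nat_lit 95) (nat_lit 4) (nat_lit 11) (nat_lit 9) L98481 (by decide +kernel)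
theorem L98520 : W_2 (nat_lit 5) (nat_lit 0x9000480024000200000000000000000000000) (nat_lit 0x0) (nat_lit 0x4000300010000800052003c001c0008000000000000000) := Q_2 (nat_lit 96) (C_2 L73195 (C_2 L72794 (C_2 L72791 N_2))) (by decide +kernel)
theorem L98588 : W_2 (nat_lit 2) (nat_lit 0x3000100009000c80024000600000000000000000000000) (nat_lit 0x0) (nat_lit 0x80004000200000000000000000000000000000000000000000) := D_2 (nat_lit 182) (nat_lit 199) (nat_lit 165) (nat_lit 7) (nat_lit 11) (nat_lit 7) (nat_lit 7) (nat_lit 11) (nat_lit 6) (by decide +kernel)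
theorem L98589 : W_2 (nat_lit 3) (nat_lit 0x3000100009000c80004000600000000000000000000000) (nat_lit 0x0) (nat_lit 0x80004000280000000000020000000000000000000000000000) := T_2 (nat_lit 113) (nat_lit 163) (nat_lit 5) (nat_lit 11) (nat_lit 6) L98588 (by decide +kernel)
theorem L98590 : W_2 (nat_lit 4) (nat_lit 0x2000100009000c80004000600000000000000000000000) (nat_lit 0x0) (nat_lit 0xa0005000280000000000020000000000000000000000000000) := T_2 (nat_lit 180) (nat_lit 197) (nat_lit 5) (nat_lit 11) (nat_lit 7) L98589 (by decide +kernel)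
theorem L98591 : W_2 (nat_lit 5) (nat_lit 0x2000100009000480004000600000000000000000000000) (nat_lit 0x0) (nat_lit 0xa0005000280000000800060000000000000000000000000000) := T_2 (nat_lit 131) (nat_lit 114) (nat_lit 6) (nat_lit 11) (nat_lit 10) L98590 (by decide +kernel)
theorem L98592 : W_2 (nat_lit 6) (nat_lit 0x2000100009000480004000200000000000000000000000) (nat_lit 0x0) (nat_lit 0xa0005000280000000800060000400020000000000000000000) := T_2 (nat_lit 94) (nat_lit 77) (nat_lit 6) (nat_lit 8) (nat_lit 8) L98591 (by decide +kernel)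
theorem L98599 : W_2 (nat_lit 2) (nat_lit 0x4000600010000b000c80004000600000000000000000000000) (nat_lit 0x0) (nat_lit 0x400020001000000000000000000000000000000000000000000000) := D_2 (nat_lit 197) (nat_lit 214) (nat_lit 180) (nat_lit 5) (nat_lit 11) (nat_lit 8) (nat_lit 5) (nat_lit 11) (nat_lit 7) (by decide +kernel)
theorem L98600 : W_2 (nat_lit 3) (nat_lit 0x600010000b000c80004000600000000000000000000000) (nat_lit 0x0) (nat_lit 0x400060001000000010000000000000000000000000000000000000) := T_2 (nat_lit 198) (nat_lit 148) (nat_lit 6) (nat_lit 11) (nat_lit 11) L98599 (by decide +kernel)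
theorem L98601 : W_2 (nat_lit 4) (nat_lit 0x6000100009000c80004000600000000000000000000000) (nat_lit 0x0) (nat_lit 0x400060001000000016000000000000000000000000000000000000) := T_2 (nat_lit 145) (nat_lit 146) (nat_lit 2) (nat_lit 8) (nat_lit 8) L98600 (by decide +kernel)
theorem L98602 : W_2 (nat_lit 5) (nat_lit 0x6000100009000480004000600000000000000000000000) (nat_lit 0x0) (nat_lit 0x400060001000000016000800040000000000000000000000000000) := T_2 (nat_lit 131) (nat_lit 114) (nat_lit 6) (nat_lit 11) (nat_lit 10) L98601 (by decide +kernel)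
theorem L98603 : W_2 (nat_lit 6) (nat_lit 0x2000100009000480004000600000000000000000000000) (nat_lit 0x0) (nat_lit 0x4000e0005000000016000800040000000000000000000000000000) := T_2 (nat_lit 182) (nat_lit 199) (nat_lit 7) (nat_lit 11) (nat_lit 7) L98602 (by decide +kernel)
theorem L98604 : W_2 (nat_lit 7) (nat_lit 0x2000100009000480004000200000000000000000000000) (nat_lit 0x0) (nat_lit 0x4000e0005000000016000800040000400020000000000000000000) := T_2 (nat_lit 94) (nat_lit 77) (nat_lit 6) (nat_lit 8) (nat_lit 8) L98603 (by decide +kernel)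
theorem L98605 : W_2 (nat_lit 2) (nat_lit 0x3000100009000480024000200000000000000000000000) (nat_lit 0x0) (nat_lit 0x80004000200000000000000000000000000000000000000000) := D_2 (nat_lit 182) (nat_lit 199) (nat_lit 165) (nat_lit 7) (nat_lit 11) (nat_lit 7) (nat_lit 7) (nat_lit 11) (nat_lit 6) (by decide +kernel)
theorem L98606 : W_2 (nat_lit 3) (nat_lit 0x3000100009000480004000200000000000000000000000) (nat_lit 0x0) (nat_lit 0x80004000280000000000020000000000000000000000000000) := T_2 (nat_lit 113) (nat_lit 163) (nat_lit 5) (nat_lit 11) (nat_lit 6) L98605 (by decide +kernel)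
theorem L98607 : W_2 (nat_lit 4) (nat_lit 0x2000100009000480004000200000000000000000000000) (nat_lit 0x0) (nat_lit 0xa0005000280000000000020000000000000000000000000000) := T_2 (nat_lit 180) (nat_lit 197) (nat_lit 5) (nat_lit 11) (nat_lit 7) L98606 (by decide +kernel)
theorem L98608 : W_2 (nat_lit 2) (nat_lit 0x6000100009000480024000200000000000000000000000) (nat_lit 0x0) (nat_lit 0x800040002000000000000000000000000) := D_2 (nat_lit 114) (nat_lit 97) (nat_lit 131) (nat_lit 6) (nat_lit 11) (nat_lit 9) (nat_lit 6) (nat_lit 11) (nat_lit 10) (by decide +kernel)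
theorem L98609 : W_2 (nat_lit 3) (nat_lit 0x6000100009000480004000200000000000000000000000) (nat_lit 0x0) (nat_lit 0x200000000800060002000000000000000000000000) := T_2 (nat_lit 113) (nat_lit 165) (nat_lit 7) (nat_lit 11) (nat_lit 6) L98608 (by decide +kernel)
theorem L98610 : W_2 (nat_lit 4) (nat_lit 0x2000100009000480004000200000000000000000000000) (nat_lit 0x0) (nat_lit 0x80004000200000000800060002000000000000000000000000) := T_2 (nat_lit 182) (nat_lit 199) (nat_lit 7) (nat_lit 11) (nat_lit 7) L98609 (by decide +kernel)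
theorem L98611 : W_2 (nat_lit 2) (nat_lit 0x3000100009000480024000600000000000000000000000) (nat_lit 0x0) (nat_lit 0x800040002000000000000000000000000) := D_2 (nat_lit 114) (nat_lit 131) (nat_lit 97) (nat_lit 6) (nat_lit 11) (nat_lit 10) (nat_lit 6) (nat_lit 11) (nat_lit 9) (by decide +kernel)
theorem L98612 : W_2 (nat_lit 3) (nat_lit 0x3000100009000480004000600000000000000000000000) (nat_lit 0x0) (nat_lit 0x80000000800060002000000000000000000000000) := T_2 (nat_lit 113) (nat_lit 163) (nat_lit 5) (nat_lit 11) (nat_lit 6) L98611 (by decide +kernel)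
theorem L98613 : W_2 (nat_lit 4) (nat_lit 0x2000100009000480004000600000000000000000000000) (nat_lit 0x0) (nat_lit 0x20001000080000000800060002000000000000000000000000) := T_2 (nat_lit 180) (nat_lit 197) (nat_lit 5) (nat_lit 11) (nat_lit 7) L98612 (by decide +kernel)
theorem L98614 : W_2 (nat_lit 5) (nat_lit 0x2000100009000480004000200000000000000000000000) (nat_lit 0x0) (nat_lit 0x20001000080000000800060002400020000000000000000000) := T_2 (nat_lit 94) (nat_lit 77) (nat_lit 6) (nat_lit 8) (nat_lit 8) L98613 (by decide +kernel)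
theorem L98615 : W_2 (nat_lit 8) (nat_lit 0x100009000480004000200000000000000000000000) (nat_lit 0x0) (nat_lit 0x4000e0007000280016000800060002400020000000000000000000) := Q_2 (nat_lit 181) (C_2 L98604 (C_2 L98592 (C_2 L98607 (C_2 L98610 (C_2 L98614 N_2))))) (by decide +kernel)
theorem L98622 : W_2 (nat_lit 2) (nat_lit 0x300009000480024001600000000000000000000000) (nat_lit 0x0) (nat_lit 0x40002000100000000000000000000) := D_2 (nat_lit 97) (nat_lit 80) (nat_lit 114) (nat_lit 6) (nat_lit 11) (nat_lit 8) (nat_lit 6) (nat_lit 11) (nat_lit 9) (by decide +kernel)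
theorem L98623 : W_2 (nat_lit 3) (nat_lit 0x300009000480024000600000000000000000000000) (nat_lit 0x0) (nat_lit 0x10000000040003000100000000000000000000) := T_2 (nat_lit 96) (nat_lit 148) (nat_lit 7) (nat_lit 11) (nat_lit 5) L98622 (by decide +kernel)
theorem L98624 : W_2 (nat_lit 4) (nat_lit 0x100009000480024000600000000000000000000000) (nat_lit 0x0) (nat_lit 0x4000200010000000040003000100000000000000000000) := T_2 (nat_lit 165) (nat_lit 182) (nat_lit 7) (nat_lit 11) (nat_lit 6) L98623 (by decide +kernel)
theorem L98625 : W_2 (nat_lit 5) (nat_lit 0x100009000480024000200000000000000000000000) (nat_lit 0x0) (nat_lit 0x4000200010000000040003400120000000000000000000) := T_2 (nat_lit 94) (nat_lit 77) (nat_lit 6) (nat_lit 8) (nat_lit 8) L98624 (by decide +kernel)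
theorem L98641 : W_2 (nat_lit 2) (nat_lit 0x30000d000480024000200000000000000000000000) (nat_lit 0x0) (nat_lit 0x1000080000000000000001000000000000000000000000) := D_2 (nat_lit 163) (nat_lit 180) (nat_lit 96) (nat_lit 5) (nat_lit 11) (nat_lit 6) (nat_lit 5) (nat_lit 11) (nat_lit 5) (by decide +kernel)
theorem L98642 : W_2 (nat_lit 3) (nat_lit 0x300009000480024000200000000000000000000000) (nat_lit 0x0) (nat_lit 0x1000080006000000000001000000000000000000000000) := T_2 (nat_lit 146) (nat_lit 145) (nat_lit 3) (nat_lit 8) (nat_lit 8) L98641 (by decide +kernel)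
theorem L98643 : W_2 (nat_lit 4) (nat_lit 0x100009000480024000200000000000000000000000) (nat_lit 0x0) (nat_lit 0x5000280006000000000001000000000000000000000000) := T_2 (nat_lit 165) (nat_lit 182) (nat_lit 7) (nat_lit 11) (nat_lit 6) L98642 (by decide +kernel)
theorem L98644 : W_2 (nat_lit 2) (nat_lit 0x180009000480024001200000000000000000000000) (nat_lit 0x0) (nat_lit 0x40002000100000000000000000000) := D_2 (nat_lit 97) (nat_lit 114) (nat_lit 80) (nat_lit 6) (nat_lit 11) (nat_lit 9) (nat_lit 6) (nat_lit 11) (nat_lit 8) (by decide +kernel)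
theorem L98645 : W_2 (nat_lit 3) (nat_lit 0x180009000480024000200000000000000000000000) (nat_lit 0x0) (nat_lit 0x4000000040003000100000000000000000000) := T_2 (nat_lit 96) (nat_lit 146) (nat_lit 5) (nat_lit 11) (nat_lit 5) L98644 (by decide +kernel)
theorem L98646 : W_2 (nat_lit 4) (nat_lit 0x100009000480024000200000000000000000000000) (nat_lit 0x0) (nat_lit 0x1000080004000000040003000100000000000000000000) := T_2 (nat_lit 163) (nat_lit 180) (nat_lit 5) (nat_lit 11) (nat_lit 6) L98645 (by decide +kernel)
theorem L98734 : W_2 (nat_lit 2) (nat_lit 0x800078002d000480074000600000000000000000000000) (nat_lit 0x0) (nat_lit 0x10001800000000000000000000000000000000) := D_2 (nat_lit 131) (nat_lit 132) (nat_lit 148) (nat_lit 4) (nat_lit 13) (nat_lit 10) (nat_lit 7) (nat_lit 12) (nat_lit 6) (by decide +kernel)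
theorem L98735 : W_2 (nat_lit 3) (nat_lit 0x78002d000480074000600000000000000000000000) (nat_lit 0x0) (nat_lit 0x18000000010001800000000000000000000000000000000) := T_2 (nat_lit 183) (nat_lit 184) (nat_lit 3) (nat_lit 10) (nat_lit 9) L98734 (by decide +kernel)
theorem L98736 : W_2 (nat_lit 4) (nat_lit 0x78000d000480074000600000000000000000000000) (nat_lit 0x0) (nat_lit 0x18000000070001800000000000000000000000000000000) := T_2 (nat_lit 149) (nat_lit 150) (nat_lit 2) (nat_lit 10) (nat_lit 9) L98735 (by decide +kernel)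
theorem L98792 : W_2 (nat_lit 2) (nat_lit 0x1000300009000480064000600000000000000000000000) (nat_lit 0x0) (nat_lit 0x20002000000000000800000000000000000000000000000000) := D_2 (nat_lit 181) (nat_lit 131) (nat_lit 197) (nat_lit 6) (nat_lit 11) (nat_lit 10) (nat_lit 5) (nat_lit 11) (nat_lit 7) (by decide +kernel)
theorem L98793 : W_2 (nat_lit 3) (nat_lit 0x300009000480064000600000000000000000000000) (nat_lit 0x0) (nat_lit 0x20003000080000000800000000000000000000000000000000) := T_2 (nat_lit 180) (nat_lit 163) (nat_lit 5) (nat_lit 11) (nat_lit 6) L98792 (by decide +kernel)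
theorem L98794 : W_2 (nat_lit 4) (nat_lit 0x300009000480024000600000000000000000000000) (nat_lit 0x0) (nat_lit 0x20003000080000000800040002000000000000000000000000) := T_2 (nat_lit 114) (nat_lit 97) (nat_lit 6) (nat_lit 11) (nat_lit 9) L98793 (by decide +kernel)
theorem L98795 : W_2 (nat_lit 5) (nat_lit 0x100009000480024000600000000000000000000000) (nat_lit 0x0) (nat_lit 0x20007000280000000800040002000000000000000000000000) := T_2 (nat_lit 165) (nat_lit 182) (nat_lit 7) (nat_lit 11) (nat_lit 6) L98794 (by decide +kernel)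
theorem L98796 : W_2 (nat_lit 6) (nat_lit 0x100009000480024000200000000000000000000000) (nat_lit 0x0) (nat_lit 0x20007000280000000800040002400020000000000000000000) := T_2 (nat_lit 94) (nat_lit 77) (nat_lit 6) (nat_lit 8) (nat_lit 8) L98795 (by decide +kernel)
theorem L98816 : W_2 (nat_lit 2) (nat_lit 0x2000300009000480034000200000000000000000000000) (nat_lit 0x0) (nat_lit 0x20001000080000000000000000000000000000000000000000) := D_2 (nat_lit 180) (nat_lit 163) (nat_lit 197) (nat_lit 5) (nat_lit 11) (nat_lit 6) (nat_lit 5) (nat_lit 11) (nat_lit 7) (by decide +kernel)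
theorem L98817 : W_2 (nat_lit 3) (nat_lit 0x300009000480034000200000000000000000000000) (nat_lit 0x0) (nat_lit 0x20003000080000000200000000000000000000000000000000) := T_2 (nat_lit 181) (nat_lit 129) (nat_lit 4) (nat_lit 11) (nat_lit 10) L98816 (by decide +kernel)
theorem L98818 : W_2 (nat_lit 4) (nat_lit 0x100009000480034000200000000000000000000000) (nat_lit 0x0) (nat_lit 0x20007000280000000200000000000000000000000000000000) := T_2 (nat_lit 165) (nat_lit 182) (nat_lit 7) (nat_lit 11) (nat_lit 6) L98817 (by decide +kernel)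
theorem L98819 : W_2 (nat_lit 5) (nat_lit 0x100009000480024000200000000000000000000000) (nat_lit 0x0) (nat_lit 0x20007000280000000200010000800000000000000000000000) := T_2 (nat_lit 112) (nat_lit 95) (nat_lit 4) (nat_lit 11) (nat_lit 9) L98818 (by decide +kernel)
theorem L98841 : W_2 (nat_lit 5) (nat_lit 0x70000d000480074000600000000000000000000000) (nat_lit 0x0) (nat_lit 0x19000080070001800000000000000000000000000000000) := T_2 (nat_lit 163) (nat_lit 180) (nat_lit 5) (nat_lit 11) (nat_lit 6) L98736 (by decide +kernel)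
theorem L98842 : W_2 (nat_lit 6) (nat_lit 0x30000d000480074000600000000000000000000000) (nat_lit 0x0) (nat_lit 0x19000c80070001800000000000000000000000000000000) := T_2 (nat_lit 166) (nat_lit 167) (nat_lit 0) (nat_lit 14) (nat_lit 9) L98841 (by decide +kernel)
theorem L98843 : W_2 (nat_lit 7) (nat_lit 0x30000d000480034000600000000000000000000000) (nat_lit 0x0) (nat_lit 0x19000c80070001800040002000000000000000000000000) := T_2 (nat_lit 114) (nat_lit 97) (nat_lit 6) (nat_lit 11) (nat_lit 9) L98842 (by decide +kernel)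
theorem L98844 : W_2 (nat_lit 8) (nat_lit 0x300009000480034000600000000000000000000000) (nat_lit 0x0) (nat_lit 0x19000c80076001800040002000000000000000000000000) := T_2 (nat_lit 146) (nat_lit 145) (nat_lit 3) (nat_lit 8) (nat_lit 8) L98843 (by decide +kernel)
theorem L98845 : W_2 (nat_lit 9) (nat_lit 0x100009000480034000600000000000000000000000) (nat_lit 0x0) (nat_lit 0x1d000e80076001800040002000000000000000000000000) := T_2 (nat_lit 165) (nat_lit 182) (nat_lit 7) (nat_lit 11) (nat_lit 6) L98844 (by decide +kernel)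
theorem L98863 : W_2 (nat_lit 2) (nat_lit 0x3800090016800f4004200000000000000000000000) (nat_lit 0x0) (nat_lit 0x30000800000000000000000000000000000000) := D_2 (nat_lit 148) (nat_lit 149) (nat_lit 131) (nat_lit 5) (nat_lit 13) (nat_lit 5) (nat_lit 6) (nat_lit 12) (nat_lit 9) (by decide +kernel)
theorem L98864 : W_2 (nat_lit 3) (nat_lit 0x3800090016800f4000200000000000000000000000) (nat_lit 0x0) (nat_lit 0x3000080000000c000000000000000000000000) := T_2 (nat_lit 98) (nat_lit 99) (nat_lit 2) (nat_lit 10) (nat_lit 6) L98863 (by decide +kernel)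
theorem L98865 : W_2 (nat_lit 4) (nat_lit 0x3800090006800f4000200000000000000000000000) (nat_lit 0x0) (nat_lit 0x3000380000000c000000000000000000000000) := T_2 (nat_lit 132) (nat_lit 133) (nat_lit 3) (nat_lit 10) (nat_lit 6) L98864 (by decide +kernel)
theorem L98866 : W_2 (nat_lit 5) (nat_lit 0x3800090006800e4000200000000000000000000000) (nat_lit 0x0) (nat_lit 0x3000380001000c800000000000000000000000) := T_2 (nat_lit 112) (nat_lit 95) (nat_lit 4) (nat_lit 11) (nat_lit 9) L98865 (by decide +kernel)
theorem L98867 : W_2 (nat_lit 6) (nat_lit 0x380009000680064000200000000000000000000000) (nat_lit 0x0) (nat_lit 0x3000380019000c800000000000000000000000) := T_2 (nat_lit 115) (nat_lit 116) (nat_lit 1) (nat_lit 14) (nat_lit 6) L98866 (by decide +kernel)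
theorem L98868 : W_2 (nat_lit 7) (nat_lit 0x300009000680064000200000000000000000000000) (nat_lit 0x0) (nat_lit 0x100008003000380019000c800000000000000000000000) := T_2 (nat_lit 163) (nat_lit 180) (nat_lit 5) (nat_lit 11) (nat_lit 6) L98867 (by decide +kernel)
theorem L98869 : W_2 (nat_lit 8) (nat_lit 0x300009000480064000200000000000000000000000) (nat_lit 0x0) (nat_lit 0x1000080030003b0019000c800000000000000000000000) := T_2 (nat_lit 129) (nat_lit 128) (nat_lit 2) (nat_lit 8) (nat_lit 7) L98868 (by decide +kernel)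
theorem L98870 : W_2 (nat_lit 9) (nat_lit 0x300009000480024000200000000000000000000000) (nat_lit 0x0) (nat_lit 0x1000080030003b001d000e800000000000000000000000) := T_2 (nat_lit 114) (nat_lit 97) (nat_lit 6) (nat_lit 11) (nat_lit 9) L98869 (by decide +kernel)
theorem L99684 : W_2 (nat_lit 2) (nat_lit 0x300009000480024001200000000000000000000000) (nat_lit 0x0) (nat_lit 0x40002000100000000000000000000) := D_2 (nat_lit 97) (nat_lit 80) (nat_lit 114) (nat_lit 6) (nat_lit 11) (nat_lit 8) (nat_lit 6) (nat_lit 11) (nat_lit 9) (by decide +kernel)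
theorem L99685 : W_2 (nat_lit 3) (nat_lit 0x300009000480024000200000000000000000000000) (nat_lit 0x0) (nat_lit 0x10000000040003000100000000000000000000) := T_2 (nat_lit 96) (nat_lit 148) (nat_lit 7) (nat_lit 11) (nat_lit 5) L99684 (by decide +kernel)
theorem L99690 : W_2 (nat_lit 2) (nat_lit 0x300009000480024001200000000000000000000000) (nat_lit 0x0) (nat_lit 0x10000800040000000000000000000) := D_2 (nat_lit 95) (nat_lit 78) (nat_lit 112) (nat_lit 4) (nat_lit 11) (nat_lit 8) (nat_lit 4) (nat_lit 11) (nat_lit 9) (by decide +kernel)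
theorem L99691 : W_2 (nat_lit 3) (nat_lit 0x300009000480024000200000000000000000000000) (nat_lit 0x0) (nat_lit 0x10000000010001800040000000000000000000) := T_2 (nat_lit 96) (nat_lit 148) (nat_lit 7) (nat_lit 11) (nat_lit 5) L99690 (by decide +kernel)
theorem L99692 : W_2 (nat_lit 4) (nat_lit 0x100009000480024000200000000000000000000000) (nat_lit 0x0) (nat_lit 0x4000200010000000010001800040000000000000000000) := T_2 (nat_lit 165) (nat_lit 182) (nat_lit 7) (nat_lit 11) (nat_lit 6) L99691 (by decide +kernel)
theorem L99693 : W_2 (nat_lit 2) (nat_lit 0x100009000480064000600000000000000000000000) (nat_lit 0x0) (nat_lit 0x10001800000000000000000000000) := D_2 (nat_lit 95) (nat_lit 96) (nat_lit 112) (nat_lit 3) (nat_lit 8) (nat_lit 5) (nat_lit 4) (nat_lit 11) (nat_lit 9) (by decide +kernel)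
theorem L99694 : W_2 (nat_lit 3) (nat_lit 0x100009000480024000600000000000000000000000) (nat_lit 0x0) (nat_lit 0x50003800000000000000000000000) := T_2 (nat_lit 114) (nat_lit 97) (nat_lit 6) (nat_lit 11) (nat_lit 9) L99693 (by decide +kernel)
theorem L99695 : W_2 (nat_lit 4) (nat_lit 0x100009000480024000200000000000000000000000) (nat_lit 0x0) (nat_lit 0x50003c00020000000000000000000) := T_2 (nat_lit 94) (nat_lit 77) (nat_lit 6) (nat_lit 8) (nat_lit 8) L99694 (by decide +kernel)
theorem L99696 : W_2 (nat_lit 7) (nat_lit 0x100009000480004000200000000000000000000000) (nat_lit 0x0) (nat_lit 0x20007000280010000800070003c00160000000000000000000) := Q_2 (nat_lit 113) (C_2 L98796 (C_2 L98463 (C_2 L99692 (C_2 L99695 N_2)))) (by decide +kernel)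
theorem L99697 : W_2 (nat_lit 8) (nat_lit 0x100009000480004000200000000000000000000000) (nat_lit 0x0) (nat_lit 0x20007000280016000800070003800140000000000000000000) := Q_2 (nat_lit 113) (C_2 L99692 (C_2 L98646 (C_2 L98482 N_2))) (by decide +kernel)
theorem L99703 : W_2 (nat_lit 2) (nat_lit 0x4000200010000b000c80004000200000000000000000000000) (nat_lit 0x0) (nat_lit 0x400020001000000000000000000000000000000000000000000000) := D_2 (nat_lit 197) (nat_lit 214) (nat_lit 180) (nat_lit 5) (nat_lit 11) (nat_lit 8) (nat_lit 5) (nat_lit 11) (nat_lit 7) (by decide +kernel)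
theorem L99704 : W_2 (nat_lit 3) (nat_lit 0x200010000b000c80004000200000000000000000000000) (nat_lit 0x0) (nat_lit 0x400060001000000010000000000000000000000000000000000000) := T_2 (nat_lit 198) (nat_lit 148) (nat_lit 6) (nat_lit 11) (nat_lit 11) L99703 (by decide +kernel)
theorem L99705 : W_2 (nat_lit 4) (nat_lit 0x2000100009000c80004000200000000000000000000000) (nat_lit 0x0) (nat_lit 0x400060001000000016000000000000000000000000000000000000) := T_2 (nat_lit 145) (nat_lit 146) (nat_lit 2) (nat_lit 8) (nat_lit 8) L99704 (by decide +kernel)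
theorem L99706 : W_2 (nat_lit 5) (nat_lit 0x2000100009000480004000200000000000000000000000) (nat_lit 0x0) (nat_lit 0x400060001000000016000800040000000000000000000000000000) := T_2 (nat_lit 131) (nat_lit 114) (nat_lit 6) (nat_lit 11) (nat_lit 10) L99705 (by decide +kernel)
theorem L99707 : W_2 (nat_lit 2) (nat_lit 0x4000200010000b000c80004000200000000000000000000000) (nat_lit 0x0) (nat_lit 0x1000080004000000000000000000000000000000000000000000000) := D_2 (nat_lit 199) (nat_lit 182) (nat_lit 216) (nat_lit 7) (nat_lit 11) (nat_lit 7) (nat_lit 7) (nat_lit 11) (nat_lit 8) (by decide +kernel)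
theorem L99708 : W_2 (nat_lit 3) (nat_lit 0x200010000b000c80004000200000000000000000000000) (nat_lit 0x0) (nat_lit 0x10000c0004000000010000000000000000000000000000000000000) := T_2 (nat_lit 198) (nat_lit 148) (nat_lit 6) (nat_lit 11) (nat_lit 11) L99707 (by decide +kernel)
theorem L99709 : W_2 (nat_lit 4) (nat_lit 0x2000100009000c80004000200000000000000000000000) (nat_lit 0x0) (nat_lit 0x10000c0004000000016000000000000000000000000000000000000) := T_2 (nat_lit 145) (nat_lit 146) (nat_lit 2) (nat_lit 8) (nat_lit 8) L99708 (by decide +kernel)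
theorem L99710 : W_2 (nat_lit 5) (nat_lit 0x2000100009000480004000200000000000000000000000) (nat_lit 0x0) (nat_lit 0x10000c0004000000016000800040000000000000000000000000000) := T_2 (nat_lit 131) (nat_lit 114) (nat_lit 6) (nat_lit 11) (nat_lit 10) L99709 (by decide +kernel)
theorem L99711 : W_2 (nat_lit 2) (nat_lit 0xa0002000100009000480004000200000000000000000000000) (nat_lit 0x0) (nat_lit 0x1400040000000000000000000000000000000000000000000000000) := D_2 (nat_lit 198) (nat_lit 216) (nat_lit 214) (nat_lit 7) (nat_lit 11) (nat_lit 8) (nat_lit 5) (nat_lit 11) (nat_lit 8) (by decide +kernel)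
theorem L99712 : W_2 (nat_lit 3) (nat_lit 0x80002000100009000480004000200000000000000000000000) (nat_lit 0x0) (nat_lit 0x1400060001000000000000000000000000000000000000000000000) := T_2 (nat_lit 197) (nat_lit 180) (nat_lit 5) (nat_lit 11) (nat_lit 7) L99711 (by decide +kernel)
theorem L99713 : W_2 (nat_lit 4) (nat_lit 0x2000100009000480004000200000000000000000000000) (nat_lit 0x0) (nat_lit 0x14000e0005000000000000000000000000000000000000000000000) := T_2 (nat_lit 199) (nat_lit 182) (nat_lit 7) (nat_lit 11) (nat_lit 7) L99712 (by decide +kernel)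
theorem L100289 : W_2 (nat_lit 2) (nat_lit 0x200009000480024003200000000000000000000000) (nat_lit 0x0) (nat_lit 0x4000100000000000040000000000000000000000000000) := D_2 (nat_lit 164) (nat_lit 182) (nat_lit 114) (nat_lit 7) (nat_lit 11) (nat_lit 6) (nat_lit 6) (nat_lit 11) (nat_lit 9) (by decide +kernel)
theorem L100290 : W_2 (nat_lit 3) (nat_lit 0x200009000480024001200000000000000000000000) (nat_lit 0x0) (nat_lit 0x4000100000000000040002000100000000000000000000) := T_2 (nat_lit 97) (nat_lit 80) (nat_lit 6) (nat_lit 11) (nat_lit 8) L100289 (by decide +kernel)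
theorem L100779 : W_2 (nat_lit 2) (nat_lit 0x22001f00088004400360001a000000000000000000) (nat_lit 0x0) (nat_lit 0x80004000200000000000000000000) := D_2 (nat_lit 98) (nat_lit 115) (nat_lit 81) (nat_lit 6) (nat_lit 12) (nat_lit 9) (nat_lit 6) (nat_lit 12) (nat_lit 8) (by decide +kernel)
theorem L100780 : W_2 (nat_lit 3) (nat_lit 0x22001f00088004400160001a000000000000000000) (nat_lit 0x0) (nat_lit 0x80006000280000000000000000000) := T_2 (nat_lit 97) (nat_lit 79) (nat_lit 4) (nat_lit 12) (nat_lit 8) L100779 (by decide +kernel)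
theorem L100781 : W_2 (nat_lit 4) (nat_lit 0x22001f00088000400160001a000000000000000000) (nat_lit 0x0) (nat_lit 0xe0006000280000000000000000000) := T_2 (nat_lit 114) (nat_lit 113) (nat_lit 4) (nat_lit 12) (nat_lit 9) L100780 (by decide +kernel)
theorem L100782 : W_2 (nat_lit 5) (nat_lit 0x22001f00008000400160001a000000000000000000) (nat_lit 0x0) (nat_lit 0x18000e0006000280000000000000000000) := T_2 (nat_lit 131) (nat_lit 132) (nat_lit 2) (nat_lit 9) (nat_lit 8) L100781 (by decide +kernel)
theorem L100783 : W_2 (nat_lit 6) (nat_lit 0x22000f00008000400160001a000000000000000000) (nat_lit 0x0) (nat_lit 0x4000100018000e0006000280000000000000000000) := T_2 (nat_lit 148) (nat_lit 166) (nat_lit 3) (nat_lit 9) (nat_lit 8) L100782 (by decide +kernel)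
theorem L104886 : W_2 (nat_lit 5) (nat_lit 0x30001000080007000000000000000000000000000) (nat_lit 0x0) (nat_lit 0x11c000c00070000000000000000000000) := T_2 (nat_lit 107) (nat_lit 128) (nat_lit 3) (nat_lit 5) (nat_lit 6) L51235 (by decide +kernel)
theorem L104887 : W_2 (nat_lit 6) (nat_lit 0x20001000080007000000000000000000000000000) (nat_lit 0x0) (nat_lit 0x20001000000011c000c00070000000000000000000000) := T_2 (nat_lit 160) (nat_lit 177) (nat_lit 5) (nat_lit 8) (nat_lit 6) L104886 (by decide +kernel)
theorem L128715 : W_2 (nat_lit 2) (nat_lit 0x1000080005800380000000000000000000000) (nat_lit 0x0) (nat_lit 0x600040000000000000000000000) := D_2 (nat_lit 106) (nat_lit 90) (nat_lit 105) (nat_lit 1) (nat_lit 8) (nat_lit 5) (nat_lit 2) (nat_lit 3) (nat_lit 6) (by decide +kernel)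
theorem L128774 : W_2 (nat_lit 2) (nat_lit 0x300010000800048003c0006000000000000000000) (nat_lit 0x0) (nat_lit 0x10000000000000000200010000000000) := D_2 (nat_lit 57) (nat_lit 40) (nat_lit 124) (nat_lit 5) (nat_lit 6) (nat_lit 2) (nat_lit 6) (nat_lit 5) (nat_lit 7) (by decide +kernel)
theorem L128775 : W_2 (nat_lit 3) (nat_lit 0x300010000800048003c0002000000000000000000) (nat_lit 0x0) (nat_lit 0x10000000400004000200010000000000) := T_2 (nat_lit 74) (nat_lit 94) (nat_lit 0) (nat_lit 9) (nat_lit 5) L128774 (by decide +kernel)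
theorem L128776 : W_2 (nat_lit 4) (nat_lit 0x300010000800048003c0000000000000000000000) (nat_lit 0x0) (nat_lit 0x10000000400007000200010000000000) := T_2 (nat_lit 73) (nat_lit 72) (nat_lit 0) (nat_lit 8) (nat_lit 5) L128775 (by decide +kernel)
theorem L135995 : W_2 (nat_lit 4) (nat_lit 0x1000080007000000000000000000000000000) (nat_lit 0x0) (nat_lit 0x15c000c00000000000000000000000000) := T_2 (nat_lit 107) (nat_lit 128) (nat_lit 3) (nat_lit 5) (nat_lit 6) L135994 (by decide +kernel)
theorem L210907 : W_2 (nat_lit 2) (nat_lit 0x9000580024000200000000000000000000000) (nat_lit 0x0) (nat_lit 0x10000200040000000000000000000000000000) := D_2 (nat_lit 129) (nat_lit 148) (nat_lit 114) (nat_lit 3) (nat_lit 8) (nat_lit 7) (nat_lit 2) (nat_lit 8) (nat_lit 7) (by decide +kernel)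
theorem L211782 : W_2 (nat_lit 2) (nat_lit 0x1000f80004000600000000000000000000000) (nat_lit 0x0) (nat_lit 0xe0000000000000000000000000000) := D_2 (nat_lit 114) (nat_lit 113) (nat_lit 115) (nat_lit 2) (nat_lit 8) (nat_lit 7) (nat_lit 2) (nat_lit 9) (nat_lit 7) (by decide +kernel)
theorem L211783 : W_2 (nat_lit 3) (nat_lit 0x1000780004000600000000000000000000000) (nat_lit 0x0) (nat_lit 0x20008000e0000000000000000000000000000) := T_2 (nat_lit 131) (nat_lit 145) (nat_lit 1) (nat_lit 12) (nat_lit 7) L211782 (by decide +kernel)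
theorem L234653 : W_2 (nat_lit 2) (nat_lit 0x7000680004000200000000000000000000000) (nat_lit 0x0) (nat_lit 0x8001800000000000000000000000000000000) := D_2 (nat_lit 131) (nat_lit 147) (nat_lit 132) (nat_lit 2) (nat_lit 8) (nat_lit 8) (nat_lit 1) (nat_lit 13) (nat_lit 7) (by decide +kernel)
theorem L242421 : W_2 (nat_lit 2) (nat_lit 0x12000900048002e0000000000000000000000) (nat_lit 0x0) (nat_lit 0x4000000000001400000000000000000000000000) := D_2 (nat_lit 158) (nat_lit 106) (nat_lit 108) (nat_lit 4) (nat_lit 5) (nat_lit 9) (nat_lit 6) (nat_lit 5) (nat_lit 9) (by decide +kernel)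
theorem L242422 : W_2 (nat_lit 3) (nat_lit 0x1200090004800260000000000000000000000) (nat_lit 0x0) (nat_lit 0x4000000000001400080004000000000000000000) := T_2 (nat_lit 91) (nat_lit 74) (nat_lit 6) (nat_lit 5) (nat_lit 8) L242421 (by decide +kernel)
theorem L242423 : W_2 (nat_lit 4) (nat_lit 0x1200090004800240000000000000000000000) (nat_lit 0x0) (nat_lit 0x40000000000014000a0005000000000000000000) := T_2 (nat_lit 89) (nat_lit 72) (nat_lit 4) (nat_lit 5) (nat_lit 8) L242422 (by decide +kernel)
theorem L242434 : W_2 (nat_lit 4) (nat_lit 0x1600090004800260002000000000000000000) (nat_lit 0x0) (nat_lit 0x4000100008000400000004000300000000000000) := T_2 (nat_lit 74) (nat_lit 57) (nat_lit 6) (nat_lit 5) (nat_lit 7) L70453 (by decide +kernel)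
theorem L242435 : W_2 (nat_lit 5) (nat_lit 0x1600090004800260000000000000000000000) (nat_lit 0x0) (nat_lit 0x4000100028000400000006000300000000000000) := T_2 (nat_lit 73) (nat_lit 125) (nat_lit 7) (nat_lit 5) (nat_lit 4) L242434 (by decide +kernel)
theorem L242436 : W_2 (nat_lit 6) (nat_lit 0x1200090004800260000000000000000000000) (nat_lit 0x0) (nat_lit 0xc000500028000400000006000300000000000000) := T_2 (nat_lit 142) (nat_lit 159) (nat_lit 7) (nat_lit 5) (nat_lit 5) L242435 (by decide +kernel)
theorem L242437 : W_2 (nat_lit 7) (nat_lit 0x1200090004800240000000000000000000000) (nat_lit 0x0) (nat_lit 0xc000500028000400020007000300000000000000) := T_2 (nat_lit 89) (nat_lit 72) (nat_lit 4) (nat_lit 5) (nat_lit 8) L242436 (by decide +kernel)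
theorem L242438 : W_2 (nat_lit 2) (nat_lit 0x1600098004800260002000000000000000000) (nat_lit 0x0) (nat_lit 0x4000000000000400000000000100000000000000) := D_2 (nat_lit 106) (nat_lit 56) (nat_lit 158) (nat_lit 5) (nat_lit 5) (nat_lit 3) (nat_lit 4) (nat_lit 5) (nat_lit 9) (by decide +kernel)
theorem L242439 : W_2 (nat_lit 3) (nat_lit 0x1600090004800260002000000000000000000) (nat_lit 0x0) (nat_lit 0x4000100008000400000000000100000000000000) := T_2 (nat_lit 123) (nat_lit 140) (nat_lit 5) (nat_lit 5) (nat_lit 4) L242438 (by decide +kernel)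
theorem L242440 : W_2 (nat_lit 4) (nat_lit 0x1600090004800260000000000000000000000) (nat_lit 0x0) (nat_lit 0x4000100028000400000002000100000000000000) := T_2 (nat_lit 73) (nat_lit 125) (nat_lit 7) (nat_lit 5) (nat_lit 4) L242439 (by decide +kernel)
theorem L242441 : W_2 (nat_lit 5) (nat_lit 0x1200090004800260000000000000000000000) (nat_lit 0x0) (nat_lit 0xc000500028000400000002000100000000000000) := T_2 (nat_lit 142) (nat_lit 159) (nat_lit 7) (nat_lit 5) (nat_lit 5) L242440 (by decide +kernel)
theorem L242442 : W_2 (nat_lit 6) (nat_lit 0x1200090004800240000000000000000000000) (nat_lit 0x0) (nat_lit 0xc000500028000400020003000100000000000000) := T_2 (nat_lit 89) (nat_lit 72) (nat_lit 4) (nat_lit 5) (nat_lit 8) L242441 (by decide +kernel)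
theorem L242443 : W_2 (nat_lit 2) (nat_lit 0x16000980048002c0002000100000000000000) (nat_lit 0x0) (nat_lit 0x1000080004000000000) := D_2 (nat_lit 55) (nat_lit 38) (nat_lit 72) (nat_lit 4) (nat_lit 5) (nat_lit 6) (nat_lit 4) (nat_lit 5) (nat_lit 7) (by decide +kernel)
theorem L242444 : W_2 (nat_lit 3) (nat_lit 0x16000980048002c0002000000000000000000) (nat_lit 0x0) (nat_lit 0x400000001000180004000000000) := T_2 (nat_lit 56) (nat_lit 106) (nat_lit 5) (nat_lit 5) (nat_lit 3) L242443 (by decide +kernel)
theorem L242445 : W_2 (nat_lit 4) (nat_lit 0x16000900048002c0002000000000000000000) (nat_lit 0x0) (nat_lit 0x100008000400000001000180004000000000) := T_2 (nat_lit 123) (nat_lit 140) (nat_lit 5) (nat_lit 5) (nat_lit 4) L242444 (by decide +kernel)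
theorem L242446 : W_2 (nat_lit 5) (nat_lit 0x16000900048002c0000000000000000000000) (nat_lit 0x0) (nat_lit 0x100028000400000003000180004000000000) := T_2 (nat_lit 73) (nat_lit 125) (nat_lit 7) (nat_lit 5) (nat_lit 4) L242445 (by decide +kernel)
theorem L242447 : W_2 (nat_lit 6) (nat_lit 0x12000900048002c0000000000000000000000) (nat_lit 0x0) (nat_lit 0x8000500028000400000003000180004000000000) := T_2 (nat_lit 142) (nat_lit 159) (nat_lit 7) (nat_lit 5) (nat_lit 5) L242446 (by decide +kernel)
theorem L242448 : W_2 (nat_lit 7) (nat_lit 0x1200090004800240000000000000000000000) (nat_lit 0x0) (nat_lit 0x8000500028000400080007000180004000000000) := T_2 (nat_lit 91) (nat_lit 74) (nat_lit 6) (nat_lit 5) (nat_lit 8) L242447 (by decide +kernel)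
theorem L242449 : W_2 (nat_lit 2) (nat_lit 0x16000980048002c0002000100000000000000) (nat_lit 0x0) (nat_lit 0x4000000000001000000000000000008000000000) := D_2 (nat_lit 108) (nat_lit 158) (nat_lit 39) (nat_lit 6) (nat_lit 5) (nat_lit 9) (nat_lit 7) (nat_lit 5) (nat_lit 2) (by decide +kernel)
theorem L242450 : W_2 (nat_lit 3) (nat_lit 0x16000980048002c0002000000000000000000) (nat_lit 0x0) (nat_lit 0x4000000000001400000000000100008000000000) := T_2 (nat_lit 56) (nat_lit 106) (nat_lit 5) (nat_lit 5) (nat_lit 3) L242449 (by decide +kernel)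
theorem L242451 : W_2 (nat_lit 4) (nat_lit 0x16000900048002c0002000000000000000000) (nat_lit 0x0) (nat_lit 0x4000100008001400000000000100008000000000) := T_2 (nat_lit 123) (nat_lit 140) (nat_lit 5) (nat_lit 5) (nat_lit 4) L242450 (by decide +kernel)
theorem L242452 : W_2 (nat_lit 5) (nat_lit 0x16000900048002c0000000000000000000000) (nat_lit 0x0) (nat_lit 0x4000100028001400000002000100008000000000) := T_2 (nat_lit 73) (nat_lit 125) (nat_lit 7) (nat_lit 5) (nat_lit 4) L242451 (by decide +kernel)
theorem L242453 : W_2 (nat_lit 6) (nat_lit 0x12000900048002c0000000000000000000000) (nat_lit 0x0) (nat_lit 0xc000500028001400000002000100008000000000) := T_2 (nat_lit 142) (nat_lit 159) (nat_lit 7) (nat_lit 5) (nat_lit 5) L242452 (by decide +kernel)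
theorem L242454 : W_2 (nat_lit 7) (nat_lit 0x1200090004800240000000000000000000000) (nat_lit 0x0) (nat_lit 0xc000500028001400080006000100008000000000) := T_2 (nat_lit 91) (nat_lit 74) (nat_lit 6) (nat_lit 5) (nat_lit 8) L242453 (by decide +kernel)
theorem L242455 : W_2 (nat_lit 8) (nat_lit 0x1200090004800200000000000000000000000) (nat_lit 0x0) (nat_lit 0xc0005000280014000e000700038000c000000000) := Q_2 (nat_lit 90) (C_2 L242423 (C_2 L71493 (C_2 L242437 (C_2 L242442 (C_2 L242448 (C_2 L242454 N_2)))))) (by decide +kernel)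
theorem L242458 : W_2 (nat_lit 2) (nat_lit 0x6001200090004800240000000000000000000000) (nat_lit 0x0) (nat_lit 0x1000080004000000000000000000) := D_2 (nat_lit 91) (nat_lit 108) (nat_lit 74) (nat_lit 6) (nat_lit 5) (nat_lit 9) (nat_lit 6) (nat_lit 5) (nat_lit 8) (by decide +kernel)
theorem L242459 : W_2 (nat_lit 3) (nat_lit 0x6001200090004800200000000000000000000000) (nat_lit 0x0) (nat_lit 0x1000000010000c0004000000000000000000) := T_2 (nat_lit 90) (nat_lit 140) (nat_lit 5) (nat_lit 5) (nat_lit 5) L242458 (by decide +kernel)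
theorem L242460 : W_2 (nat_lit 4) (nat_lit 0x4001200090004800200000000000000000000000) (nat_lit 0x0) (nat_lit 0x400020001000000010000c0004000000000000000000) := T_2 (nat_lit 157) (nat_lit 174) (nat_lit 5) (nat_lit 5) (nat_lit 6) L242459 (by decide +kernel)
theorem L242538 : W_2 (nat_lit 5) (nat_lit 0x1200090004800200000000000000000000000) (nat_lit 0x0) (nat_lit 0x60001000080014000e0007000280000000000000) := Q_2 (nat_lit 90) (C_2 L242423 (C_2 L70595 (C_2 L70451 N_2))) (by decide +kernel)
theorem L242830 : W_2 (nat_lit 2) (nat_lit 0x1200090004800640003000000000000000000) (nat_lit 0x0) (nat_lit 0x2000100008000000000000000000000000000000) := D_2 (nat_lit 140) (nat_lit 123) (nat_lit 157) (nat_lit 5) (nat_lit 5) (nat_lit 4) (nat_lit 5) (nat_lit 5) (nat_lit 5) (by decide +kernel)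
theorem L242831 : W_2 (nat_lit 3) (nat_lit 0x1000090004800640003000000000000000000) (nat_lit 0x0) (nat_lit 0x2000300008000000020000000000000000000000) := T_2 (nat_lit 141) (nat_lit 89) (nat_lit 4) (nat_lit 5) (nat_lit 8) L242830 (by decide +kernel)
theorem L242832 : W_2 (nat_lit 4) (nat_lit 0x1000090004800240003000000000000000000) (nat_lit 0x0) (nat_lit 0x2000300008000000420020000000000000000000) := T_2 (nat_lit 94) (nat_lit 77) (nat_lit 6) (nat_lit 8) (nat_lit 8) L242831 (by decide +kernel)
theorem L242833 : W_2 (nat_lit 5) (nat_lit 0x1000090004800240002000000000000000000) (nat_lit 0x0) (nat_lit 0x2000300008000000420021000080000000000000) := T_2 (nat_lit 72) (nat_lit 55) (nat_lit 4) (nat_lit 5) (nat_lit 7) L242832 (by decide +kernel)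
theorem L242853 : W_2 (nat_lit 7) (nat_lit 0x1200090004800200000000000000000000000) (nat_lit 0x0) (nat_lit 0x20001c001e0001c00200010004c0024000000000000000000) := Q_2 (nat_lit 158) (C_2 L242460 (C_2 L90384 (C_2 L90533 N_2))) (by decide +kernel)
theorem L243007 : W_2 (nat_lit 2) (nat_lit 0xa001200090004800640003000000000000000000) (nat_lit 0x0) (nat_lit 0x140004000000000000000000000000000000000000000) := D_2 (nat_lit 158) (nat_lit 174) (nat_lit 176) (nat_lit 5) (nat_lit 5) (nat_lit 6) (nat_lit 7) (nat_lit 5) (nat_lit 6) (by decide +kernel)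
theorem L243008 : W_2 (nat_lit 3) (nat_lit 0x2001200090004800640003000000000000000000) (nat_lit 0x0) (nat_lit 0x14000c000400000000000000000000000000000000000) := T_2 (nat_lit 159) (nat_lit 142) (nat_lit 7) (nat_lit 5) (nat_lit 5) L243007 (by decide +kernel)
theorem L243009 : W_2 (nat_lit 4) (nat_lit 0x1200090004800640003000000000000000000) (nat_lit 0x0) (nat_lit 0x14000e000500000000000000000000000000000000000) := T_2 (nat_lit 157) (nat_lit 140) (nat_lit 5) (nat_lit 5) (nat_lit 5) L243008 (by decide +kernel)
theorem L243010 : W_2 (nat_lit 5) (nat_lit 0x1000090004800640003000000000000000000) (nat_lit 0x0) (nat_lit 0x14000e000700000000000020000000000000000000000) := T_2 (nat_lit 141) (nat_lit 89) (nat_lit 4) (nat_lit 5) (nat_lit 8) L243009 (by decide +kernel)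
theorem L243011 : W_2 (nat_lit 6) (nat_lit 0x1000090004800640002000000000000000000) (nat_lit 0x0) (nat_lit 0x14000e000700000000000020001000080000000000000) := T_2 (nat_lit 72) (nat_lit 55) (nat_lit 4) (nat_lit 5) (nat_lit 7) L243010 (by decide +kernel)
theorem L243012 : W_2 (nat_lit 7) (nat_lit 0x1000090004800240002000000000000000000) (nat_lit 0x0) (nat_lit 0x14000e000700000000000420021000080000000000000) := T_2 (nat_lit 94) (nat_lit 77) (nat_lit 6) (nat_lit 8) (nat_lit 8) L243011 (by decide +kernel)
theorem L243029 : W_2 (nat_lit 2) (nat_lit 0x8001300090004800660002000000000000000000) (nat_lit 0x0) (nat_lit 0x100004000000000000400000000000000000000000000) := D_2 (nat_lit 158) (nat_lit 106) (nat_lit 176) (nat_lit 4) (nat_lit 5) (nat_lit 9) (nat_lit 7) (nat_lit 5) (nat_lit 6) (by decide +kernel)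
theorem L243030 : W_2 (nat_lit 3) (nat_lit 0x1300090004800660002000000000000000000) (nat_lit 0x0) (nat_lit 0x10000c000400000000400000000000000000000000000) := T_2 (nat_lit 159) (nat_lit 142) (nat_lit 7) (nat_lit 5) (nat_lit 5) L243029 (by decide +kernel)
theorem L243031 : W_2 (nat_lit 4) (nat_lit 0x1300090004800640002000000000000000000) (nat_lit 0x0) (nat_lit 0x10000c000400000000400020001000000000000000000) := T_2 (nat_lit 89) (nat_lit 72) (nat_lit 4) (nat_lit 5) (nat_lit 8) L243030 (by decide +kernel)
theorem L243032 : W_2 (nat_lit 5) (nat_lit 0x1100090004800640002000000000000000000) (nat_lit 0x0) (nat_lit 0x10000e000600000000400020001000000000000000000) := T_2 (nat_lit 141) (nat_lit 157) (nat_lit 5) (nat_lit 5) (nat_lit 5) L243031 (by decide +kernel)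
theorem L243033 : W_2 (nat_lit 6) (nat_lit 0x1000090004800640002000000000000000000) (nat_lit 0x0) (nat_lit 0x10000e000700008000400020001000000000000000000) := T_2 (nat_lit 140) (nat_lit 123) (nat_lit 5) (nat_lit 5) (nat_lit 4) L243032 (by decide +kernel)
theorem L243034 : W_2 (nat_lit 7) (nat_lit 0x1000090004800240002000000000000000000) (nat_lit 0x0) (nat_lit 0x10000e000700008000400420021000000000000000000) := T_2 (nat_lit 94) (nat_lit 77) (nat_lit 6) (nat_lit 8) (nat_lit 8) L243033 (by decide +kernel)
theorem L243111 : W_2 (nat_lit 2) (nat_lit 0x180004001200090004c00600000000000000000000000) (nat_lit 0x0) (nat_lit 0x800040002000000000000000000000000000000000000000) := D_2 (nat_lit 174) (nat_lit 191) (nat_lit 157) (nat_lit 5) (nat_lit 5) (nat_lit 7) (nat_lit 5) (nat_lit 5) (nat_lit 6) (by decide +kernel)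
theorem L243112 : W_2 (nat_lit 3) (nat_lit 0x100004001200090004c00600000000000000000000000) (nat_lit 0x0) (nat_lit 0x28000c0002000000000000000000000000000000000000000) := T_2 (nat_lit 175) (nat_lit 193) (nat_lit 7) (nat_lit 5) (nat_lit 7) L243111 (by decide +kernel)
theorem L243113 : W_2 (nat_lit 4) (nat_lit 0x100004001200090004800600000000000000000000000) (nat_lit 0x0) (nat_lit 0x28000c0002000000000000400020000000000000000000000) := T_2 (nat_lit 106) (nat_lit 89) (nat_lit 4) (nat_lit 5) (nat_lit 9) L243112 (by decide +kernel)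
theorem L243114 : W_2 (nat_lit 5) (nat_lit 0x4001200090004800600000000000000000000000) (nat_lit 0x0) (nat_lit 0x28001c000a000000000000400020000000000000000000000) := T_2 (nat_lit 176) (nat_lit 159) (nat_lit 7) (nat_lit 5) (nat_lit 6) L243113 (by decide +kernel)
theorem L243115 : W_2 (nat_lit 6) (nat_lit 0x4001200090004800200000000000000000000000) (nat_lit 0x0) (nat_lit 0x28001c000a000000000000400420020000000000000000000) := T_2 (nat_lit 94) (nat_lit 77) (nat_lit 6) (nat_lit 8) (nat_lit 8) L243114 (by decide +kernel)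
theorem L243116 : W_2 (nat_lit 2) (nat_lit 0x40004001200090004c00200000000000000000000000) (nat_lit 0x0) (nat_lit 0x800080000000000008000000000000000000000000000000) := D_2 (nat_lit 175) (nat_lit 191) (nat_lit 123) (nat_lit 5) (nat_lit 5) (nat_lit 7) (nat_lit 4) (nat_lit 5) (nat_lit 10) (by decide +kernel)
theorem L243117 : W_2 (nat_lit 3) (nat_lit 0x40004001200090004800200000000000000000000000) (nat_lit 0x0) (nat_lit 0x800080000000000008000400020000000000000000000000) := T_2 (nat_lit 106) (nat_lit 89) (nat_lit 4) (nat_lit 5) (nat_lit 9) L243116 (by decide +kernel)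
theorem L243118 : W_2 (nat_lit 4) (nat_lit 0x4001200090004800200000000000000000000000) (nat_lit 0x0) (nat_lit 0x8000c0002000000008000400020000000000000000000000) := T_2 (nat_lit 174) (nat_lit 157) (nat_lit 5) (nat_lit 5) (nat_lit 6) L243117 (by decide +kernel)
theorem L243119 : W_2 (nat_lit 2) (nat_lit 0x1001f003280090005c00200030000000000000000000) (nat_lit 0x0) (nat_lit 0x8000800400000000000000000000000000000000000) := D_2 (nat_lit 155) (nat_lit 142) (nat_lit 171) (nat_lit 2) (nat_lit 2) (nat_lit 9) (nat_lit 1) (nat_lit 5) (nat_lit 9) (by decide +kernel)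
theorem L243120 : W_2 (nat_lit 3) (nat_lit 0x1f003280090005c00200030000000000000000000) (nat_lit 0x0) (nat_lit 0x38000800400000000000000000000000000000000000) := T_2 (nat_lit 172) (nat_lit 173) (nat_lit 1) (nat_lit 6) (nat_lit 9) L243119 (by decide +kernel)
theorem L243121 : W_2 (nat_lit 4) (nat_lit 0x1e003280090005c00200030000000000000000000) (nat_lit 0x0) (nat_lit 0x38001800440000000000000000000000000000000000) := T_2 (nat_lit 156) (nat_lit 138) (nat_lit 0) (nat_lit 6) (nat_lit 9) L243120 (by decide +kernel)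
theorem L243122 : W_2 (nat_lit 5) (nat_lit 0x1e003200090005c00200030000000000000000000) (nat_lit 0x0) (nat_lit 0x380018005c0000000000000000000000000000000000) := T_2 (nat_lit 139) (nat_lit 140) (nat_lit 0) (nat_lit 7) (nat_lit 9) L243121 (by decide +kernel)
theorem L243123 : W_2 (nat_lit 6) (nat_lit 0xe003200090005c00200030000000000000000000) (nat_lit 0x0) (nat_lit 0x380318005c0000000000000000000000000000000000) := T_2 (nat_lit 160) (nat_lit 161) (nat_lit 2) (nat_lit 5) (nat_lit 9) L243122 (by decide +kernel)
theorem L243124 : W_2 (nat_lit 7) (nat_lit 0xe001200090005c00200030000000000000000000) (nat_lit 0x0) (nat_lit 0x380318025c0100000000000000000000000000000000) := T_2 (nat_lit 145) (nat_lit 128) (nat_lit 7) (nat_lit 8) (nat_lit 4) L243123 (by decide +kernel)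
theorem L243125 : W_2 (nat_lit 8) (nat_lit 0xe001200090005c00200020000000000000000000) (nat_lit 0x0) (nat_lit 0x380318025c0100000000000010001000000000000000) := T_2 (nat_lit 76) (nat_lit 60) (nat_lit 6) (nat_lit 8) (nat_lit 7) L243124 (by decide +kernel)
theorem L243126 : W_2 (nat_lit 9) (nat_lit 0xe001200090004c00200020000000000000000000) (nat_lit 0x0) (nat_lit 0x380318025c0100001000080010001000000000000000) := T_2 (nat_lit 108) (nat_lit 91) (nat_lit 6) (nat_lit 5) (nat_lit 9) L243125 (by decide +kernel)
theorem L243127 : W_2 (nat_lit 10) (nat_lit 0xe001200090004c00200000000000000000000000) (nat_lit 0x0) (nat_lit 0x380318025c0100001000480030001000000000000000) := T_2 (nat_lit 77) (nat_lit 94) (nat_lit 6) (nat_lit 8) (nat_lit 8) L243126 (by decide +kernel)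
theorem L243128 : W_2 (nat_lit 11) (nat_lit 0xe001200090004800200000000000000000000000) (nat_lit 0x0) (nat_lit 0x380318025c01000014004a0030001000000000000000) := T_2 (nat_lit 106) (nat_lit 89) (nat_lit 4) (nat_lit 5) (nat_lit 9) L243127 (by decide +kernel)
theorem L243129 : W_2 (nat_lit 12) (nat_lit 0x6001200090004800200000000000000000000000) (nat_lit 0x0) (nat_lit 0x1380398025c01000014004a0030001000000000000000) := T_2 (nat_lit 159) (nat_lit 176) (nat_lit 7) (nat_lit 5) (nat_lit 6) L243128 (by decide +kernel)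
theorem L243130 : W_2 (nat_lit 13) (nat_lit 0x4001200090004800200000000000000000000000) (nat_lit 0x0) (nat_lit 0x17803b8025c01000014004a0030001000000000000000) := T_2 (nat_lit 157) (nat_lit 174) (nat_lit 5) (nat_lit 5) (nat_lit 6) L243129 (by decide +kernel)
theorem L243143 : W_2 (nat_lit 2) (nat_lit 0x100004001200090005c00600000000000000000000000) (nat_lit 0x0) (nat_lit 0x2000080000000000008000000000000000000000000000000) := D_2 (nat_lit 175) (nat_lit 193) (nat_lit 123) (nat_lit 7) (nat_lit 5) (nat_lit 7) (nat_lit 4) (nat_lit 5) (nat_lit 10) (by decide +kernel)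
theorem L243144 : W_2 (nat_lit 3) (nat_lit 0x100004001200090005800600000000000000000000000) (nat_lit 0x0) (nat_lit 0x2000080000000000008000400020000000000000000000000) := T_2 (nat_lit 106) (nat_lit 89) (nat_lit 4) (nat_lit 5) (nat_lit 9) L243143 (by decide +kernel)
theorem L243145 : W_2 (nat_lit 4) (nat_lit 0x4001200090005800600000000000000000000000) (nat_lit 0x0) (nat_lit 0x2000180008000000008000400020000000000000000000000) := T_2 (nat_lit 176) (nat_lit 159) (nat_lit 7) (nat_lit 5) (nat_lit 6) L243144 (by decide +kernel)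
theorem L243146 : W_2 (nat_lit 5) (nat_lit 0x4001200090004800600000000000000000000000) (nat_lit 0x0) (nat_lit 0x20001800080000000080014000a0000000000000000000000) := T_2 (nat_lit 108) (nat_lit 91) (nat_lit 6) (nat_lit 5) (nat_lit 9) L243145 (by decide +kernel)
theorem L243147 : W_2 (nat_lit 6) (nat_lit 0x4001200090004800200000000000000000000000) (nat_lit 0x0) (nat_lit 0x20001800080000000080014004a0020000000000000000000) := T_2 (nat_lit 94) (nat_lit 77) (nat_lit 6) (nat_lit 8) (nat_lit 8) L243146 (by decide +kernel)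
theorem L243149 : W_2 (nat_lit 2) (nat_lit 0x3000080006001200090005800600000000000000000000000) (nat_lit 0x0) (nat_lit 0x20000000000000000100008000000000000000000000000000000) := D_2 (nat_lit 140) (nat_lit 123) (nat_lit 209) (nat_lit 4) (nat_lit 5) (nat_lit 11) (nat_lit 4) (nat_lit 5) (nat_lit 12) (by decide +kernel)
theorem L243150 : W_2 (nat_lit 3) (nat_lit 0x2000080006001200090005800600000000000000000000000) (nat_lit 0x0) (nat_lit 0x60001000000000000100008000000000000000000000000000000) := T_2 (nat_lit 192) (nat_lit 210) (nat_lit 7) (nat_lit 5) (nat_lit 8) L243149 (by decide +kernel)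
theorem L243151 : W_2 (nat_lit 4) (nat_lit 0x80006001200090005800600000000000000000000000) (nat_lit 0x0) (nat_lit 0x60003000100000000100008000000000000000000000000000000) := T_2 (nat_lit 193) (nat_lit 176) (nat_lit 7) (nat_lit 5) (nat_lit 7) L243150 (by decide +kernel)
theorem L243152 : W_2 (nat_lit 5) (nat_lit 0x6001200090005800600000000000000000000000) (nat_lit 0x0) (nat_lit 0x60003000180000000100028000000000000000000000000000000) := T_2 (nat_lit 175) (nat_lit 125) (nat_lit 6) (nat_lit 5) (nat_lit 10) L243151 (by decide +kernel)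
theorem L243153 : W_2 (nat_lit 6) (nat_lit 0x6001200090004800600000000000000000000000) (nat_lit 0x0) (nat_lit 0x60003000180000000100028001000080000000000000000000000) := T_2 (nat_lit 108) (nat_lit 91) (nat_lit 6) (nat_lit 5) (nat_lit 9) L243152 (by decide +kernel)
theorem L243154 : W_2 (nat_lit 7) (nat_lit 0x4001200090004800600000000000000000000000) (nat_lit 0x0) (nat_lit 0x600030001c0002000100028001000080000000000000000000000) := T_2 (nat_lit 157) (nat_lit 174) (nat_lit 5) (nat_lit 5) (nat_lit 6) L243153 (by decide +kernel)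
theorem L243155 : W_2 (nat_lit 8) (nat_lit 0x4001200090004800200000000000000000000000) (nat_lit 0x0) (nat_lit 0x600030001c0002000100028001000480020000000000000000000) := T_2 (nat_lit 94) (nat_lit 77) (nat_lit 6) (nat_lit 8) (nat_lit 8) L243154 (by decide +kernel)
theorem L244260 : W_2 (nat_lit 2) (nat_lit 0xc001300090004800240000000000000000000000) (nat_lit 0x0) (nat_lit 0x400020001000000000000000000) := D_2 (nat_lit 89) (nat_lit 72) (nat_lit 106) (nat_lit 4) (nat_lit 5) (nat_lit 8) (nat_lit 4) (nat_lit 5) (nat_lit 9) (by decide +kernel)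
theorem L244261 : W_2 (nat_lit 3) (nat_lit 0x8001300090004800240000000000000000000000) (nat_lit 0x0) (nat_lit 0x100004000000000000400020001000000000000000000) := T_2 (nat_lit 158) (nat_lit 176) (nat_lit 7) (nat_lit 5) (nat_lit 6) L244260 (by decide +kernel)
theorem L244262 : W_2 (nat_lit 4) (nat_lit 0x8001200090004800240000000000000000000000) (nat_lit 0x0) (nat_lit 0x100006000100000000400020001000000000000000000) := T_2 (nat_lit 140) (nat_lit 157) (nat_lit 5) (nat_lit 5) (nat_lit 5) L244261 (by decide +kernel)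
theorem L246434 : W_2 (nat_lit 2) (nat_lit 0x10000980048006d0007800040000000000000) (nat_lit 0x0) (nat_lit 0x600020000000000000000000000) := D_2 (nat_lit 106) (nat_lit 89) (nat_lit 105) (nat_lit 4) (nat_lit 4) (nat_lit 7) (nat_lit 7) (nat_lit 3) (nat_lit 3) (by decide +kernel)
theorem L246435 : W_2 (nat_lit 3) (nat_lit 0x10000980048006d0007800000000000000000) (nat_lit 0x0) (nat_lit 0x600020000000060000000000000) := T_2 (nat_lit 54) (nat_lit 53) (nat_lit 0) (nat_lit 6) (nat_lit 4) L246434 (by decide +kernel)
theorem L246436 : W_2 (nat_lit 4) (nat_lit 0x10000980048006c0007800000000000000000) (nat_lit 0x0) (nat_lit 0x600038000000060000000000000) := T_2 (nat_lit 88) (nat_lit 87) (nat_lit 1) (nat_lit 6) (nat_lit 4) L246435 (by decide +kernel)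
theorem L246437 : W_2 (nat_lit 5) (nat_lit 0x10000980048006c0003800000000000000000) (nat_lit 0x0) (nat_lit 0x600038004000260000000000000) := T_2 (nat_lit 74) (nat_lit 57) (nat_lit 6) (nat_lit 5) (nat_lit 7) L246436 (by decide +kernel)
theorem L246438 : W_2 (nat_lit 6) (nat_lit 0x10000980048006c0003000000000000000000) (nat_lit 0x0) (nat_lit 0x600038004c00260000000000000) := T_2 (nat_lit 71) (nat_lit 70) (nat_lit 3) (nat_lit 2) (nat_lit 4) L246437 (by decide +kernel)
theorem L246439 : W_2 (nat_lit 7) (nat_lit 0x10000900048006c0003000000000000000000) (nat_lit 0x0) (nat_lit 0x100008000600038004c00260000000000000) := T_2 (nat_lit 123) (nat_lit 140) (nat_lit 5) (nat_lit 5) (nat_lit 4) L246438 (by decide +kernel)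
theorem L246440 : W_2 (nat_lit 8) (nat_lit 0x1000090004800640003000000000000000000) (nat_lit 0x0) (nat_lit 0x1000080006001b8004c00260000000000000) := T_2 (nat_lit 91) (nat_lit 92) (nat_lit 0) (nat_lit 8) (nat_lit 5) L246439 (by decide +kernel)
theorem L246441 : W_2 (nat_lit 9) (nat_lit 0x1000090004800640002000000000000000000) (nat_lit 0x0) (nat_lit 0x1000080006001b8005c002e0000000000000) := T_2 (nat_lit 72) (nat_lit 55) (nat_lit 4) (nat_lit 5) (nat_lit 7) L246440 (by decide +kernel)
theorem L246442 : W_2 (nat_lit 10) (nat_lit 0x1000090004800240002000000000000000000) (nat_lit 0x0) (nat_lit 0x1000080006005b8025c002e0000000000000) := T_2 (nat_lit 94) (nat_lit 77) (nat_lit 6) (nat_lit 8) (nat_lit 8) L246441 (by decide +kernel)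
theorem L246444 : W_2 (nat_lit 6) (nat_lit 0x1000090004800240000000000000000000000) (nat_lit 0x0) (nat_lit 0x2000300008000400420027000380014000000000) := Q_2 (nat_lit 73) (C_2 L242833 (C_2 L70493 (C_2 L70489 N_2))) (by decide +kernel)
theorem L246479 : W_2 (nat_lit 2) (nat_lit 0x1000098005800640002000100000000000000) (nat_lit 0x0) (nat_lit 0x180000000000008000000000) := D_2 (nat_lit 91) (nat_lit 39) (nat_lit 92) (nat_lit 7) (nat_lit 5) (nat_lit 2) (nat_lit 1) (nat_lit 9) (nat_lit 5) (by decide +kernel)
theorem L246480 : W_2 (nat_lit 3) (nat_lit 0x1000098004800640002000100000000000000) (nat_lit 0x0) (nat_lit 0x20001000180000000000008000000000) := T_2 (nat_lit 108) (nat_lit 125) (nat_lit 7) (nat_lit 5) (nat_lit 3) L246479 (by decide +kernel)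
theorem L246481 : W_2 (nat_lit 4) (nat_lit 0x1000098004800240002000100000000000000) (nat_lit 0x0) (nat_lit 0x20001000580020000000008000000000) := T_2 (nat_lit 94) (nat_lit 77) (nat_lit 6) (nat_lit 8) (nat_lit 8) L246480 (by decide +kernel)
theorem L246482 : W_2 (nat_lit 5) (nat_lit 0x1000098004800240002000000000000000000) (nat_lit 0x0) (nat_lit 0x20001400580020000100008000000000) := T_2 (nat_lit 56) (nat_lit 106) (nat_lit 5) (nat_lit 5) (nat_lit 3) L246481 (by decide +kernel)
theorem L246483 : W_2 (nat_lit 6) (nat_lit 0x1000090004800240002000000000000000000) (nat_lit 0x0) (nat_lit 0x100028001400580020000100008000000000) := T_2 (nat_lit 123) (nat_lit 140) (nat_lit 5) (nat_lit 5) (nat_lit 4) L246482 (by decide +kernel)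
theorem L246591 : W_2 (nat_lit 2) (nat_lit 0x4001200090004800660000000000000000000000) (nat_lit 0x0) (nat_lit 0x100008000400000000000000000000000000000000000) := D_2 (nat_lit 159) (nat_lit 142) (nat_lit 176) (nat_lit 7) (nat_lit 5) (nat_lit 5) (nat_lit 7) (nat_lit 5) (nat_lit 6) (by decide +kernel)
theorem L246592 : W_2 (nat_lit 3) (nat_lit 0x1200090004800660000000000000000000000) (nat_lit 0x0) (nat_lit 0x10000c000400000000400000000000000000000000000) := T_2 (nat_lit 158) (nat_lit 106) (nat_lit 4) (nat_lit 5) (nat_lit 9) L246591 (by decide +kernel)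
theorem L246593 : W_2 (nat_lit 4) (nat_lit 0x1200090004800260000000000000000000000) (nat_lit 0x0) (nat_lit 0x10000c000400000000400400020000000000000000000) := T_2 (nat_lit 94) (nat_lit 77) (nat_lit 6) (nat_lit 8) (nat_lit 8) L246592 (by decide +kernel)
theorem L246594 : W_2 (nat_lit 5) (nat_lit 0x1200090004800240000000000000000000000) (nat_lit 0x0) (nat_lit 0x10000c000400000000400420021000000000000000000) := T_2 (nat_lit 89) (nat_lit 72) (nat_lit 4) (nat_lit 5) (nat_lit 8) L246593 (by decide +kernel)
theorem L258769 : W_2 (nat_lit 2) (nat_lit 0x1000080005800640002000300000000000000) (nat_lit 0x0) (nat_lit 0x180000000000008000000000) := D_2 (nat_lit 91) (nat_lit 39) (nat_lit 92) (nat_lit 7) (nat_lit 5) (nat_lit 2) (nat_lit 1) (nat_lit 9) (nat_lit 5) (by decide +kernel)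
theorem L258770 : W_2 (nat_lit 3) (nat_lit 0x1000080004800640002000300000000000000) (nat_lit 0x0) (nat_lit 0x20001000180000000000008000000000) := T_2 (nat_lit 108) (nat_lit 125) (nat_lit 7) (nat_lit 5) (nat_lit 3) L258769 (by decide +kernel)
theorem L258771 : W_2 (nat_lit 4) (nat_lit 0x1000080004800640002000100000000000000) (nat_lit 0x0) (nat_lit 0x20001000180000000200018000000000) := T_2 (nat_lit 57) (nat_lit 40) (nat_lit 6) (nat_lit 5) (nat_lit 6) L258770 (by decide +kernel)
theorem L258772 : W_2 (nat_lit 5) (nat_lit 0x1000080004800240002000100000000000000) (nat_lit 0x0) (nat_lit 0x20001000580020000200018000000000) := T_2 (nat_lit 94) (nat_lit 77) (nat_lit 6) (nat_lit 8) (nat_lit 8) L258771 (by decide +kernel)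
theorem L258773 : W_2 (nat_lit 2) (nat_lit 0x1000080004c003400328007c0021000000000) (nat_lit 0x0) (nat_lit 0x4000020000800000000) := D_2 (nat_lit 53) (nat_lit 74) (nat_lit 35) (nat_lit 3) (nat_lit 2) (nat_lit 3) (nat_lit 0) (nat_lit 5) (nat_lit 3) (by decide +kernel)
theorem L258774 : W_2 (nat_lit 3) (nat_lit 0x1000080004c003400328007c0020000000000) (nat_lit 0x0) (nat_lit 0x4000020003800000000) := T_2 (nat_lit 36) (nat_lit 37) (nat_lit 0) (nat_lit 6) (nat_lit 3) L258773 (by decide +kernel)
theorem L258775 : W_2 (nat_lit 4) (nat_lit 0x1000080004c00340032800780020000000000) (nat_lit 0x0) (nat_lit 0x4400060003800000000) := T_2 (nat_lit 54) (nat_lit 70) (nat_lit 1) (nat_lit 6) (nat_lit 3) L258774 (by decide +kernel)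
theorem L258776 : W_2 (nat_lit 5) (nat_lit 0x1000080004c00340032000780020000000000) (nat_lit 0x0) (nat_lit 0x5c00060003800000000) := T_2 (nat_lit 71) (nat_lit 72) (nat_lit 1) (nat_lit 7) (nat_lit 3) L258775 (by decide +kernel)
theorem L258777 : W_2 (nat_lit 6) (nat_lit 0x1000080004c00340032000780000000000000) (nat_lit 0x0) (nat_lit 0x5c00060063800000000) := T_2 (nat_lit 41) (nat_lit 42) (nat_lit 2) (nat_lit 4) (nat_lit 3) L258776 (by decide +kernel)
theorem L258778 : W_2 (nat_lit 7) (nat_lit 0x1000080004c00340032000380000000000000) (nat_lit 0x0) (nat_lit 0x5c00c60063800000000) := T_2 (nat_lit 58) (nat_lit 59) (nat_lit 3) (nat_lit 5) (nat_lit 3) L258777 (by decide +kernel)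
theorem L258779 : W_2 (nat_lit 8) (nat_lit 0x1000080004c00340022000380000000000000) (nat_lit 0x0) (nat_lit 0x15c01c60063800000000) := T_2 (nat_lit 76) (nat_lit 60) (nat_lit 6) (nat_lit 8) (nat_lit 7) L258778 (by decide +kernel)
theorem L258780 : W_2 (nat_lit 9) (nat_lit 0x1000080004c00340022000180000000000000) (nat_lit 0x0) (nat_lit 0x15c01e60073800000000) := T_2 (nat_lit 57) (nat_lit 40) (nat_lit 6) (nat_lit 5) (nat_lit 6) L258779 (by decide +kernel)
theorem L258781 : W_2 (nat_lit 10) (nat_lit 0x1000080004c00340002000180000000000000) (nat_lit 0x0) (nat_lit 0x400035c01e60073800000000) := T_2 (nat_lit 77) (nat_lit 94) (nat_lit 6) (nat_lit 8) (nat_lit 8) L258780 (by decide +kernel)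
theorem L258782 : W_2 (nat_lit 11) (nat_lit 0x1000080004c00240002000180000000000000) (nat_lit 0x0) (nat_lit 0x580035c01e60073800000000) := T_2 (nat_lit 92) (nat_lit 91) (nat_lit 1) (nat_lit 8) (nat_lit 5) L258781 (by decide +kernel)
theorem L258783 : W_2 (nat_lit 12) (nat_lit 0x1000080004800240002000180000000000000) (nat_lit 0x0) (nat_lit 0x8000400580035c01e60073800000000) := T_2 (nat_lit 106) (nat_lit 123) (nat_lit 5) (nat_lit 5) (nat_lit 3) L258782 (by decide +kernel)
theorem L258784 : W_2 (nat_lit 13) (nat_lit 0x1000080004800240002000100000000000000) (nat_lit 0x0) (nat_lit 0x8000400580035c01ee0077800000000) := T_2 (nat_lit 55) (nat_lit 38) (nat_lit 4) (nat_lit 5) (nat_lit 6) L258783 (by decide +kernel)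
theorem L258785 : W_2 (nat_lit 14) (nat_lit 0x1000080004800240002000000000000000000) (nat_lit 0x0) (nat_lit 0x280014005a0035c01fe007f800200000) := Q_2 (nat_lit 56) (C_2 L92129 (C_2 L258772 (C_2 L258784 N_2))) (by decide +kernel)
theorem L258786 : W_2 (nat_lit 2) (nat_lit 0x1000080004800240002000380000000000000) (nat_lit 0x0) (nat_lit 0x10000000000005000000000000000000) := D_2 (nat_lit 124) (nat_lit 72) (nat_lit 74) (nat_lit 4) (nat_lit 5) (nat_lit 7) (nat_lit 6) (nat_lit 5) (nat_lit 7) (by decide +kernel)
theorem L258787 : W_2 (nat_lit 3) (nat_lit 0x1000080004800240002000180000000000000) (nat_lit 0x0) (nat_lit 0x10000000000005000200010000000000) := T_2 (nat_lit 57) (nat_lit 40) (nat_lit 6) (nat_lit 5) (nat_lit 6) L258786 (by decide +kernel)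
theorem L258788 : W_2 (nat_lit 4) (nat_lit 0x1000080004800240002000100000000000000) (nat_lit 0x0) (nat_lit 0x10000000000005000280014000000000) := T_2 (nat_lit 55) (nat_lit 38) (nat_lit 4) (nat_lit 5) (nat_lit 6) L258787 (by decide +kernel)
theorem L258789 : W_2 (nat_lit 2) (nat_lit 0x1000080004c00240002000100008000000000) (nat_lit 0x0) (nat_lit 0x20001000080000000000000000000000) := D_2 (nat_lit 108) (nat_lit 125) (nat_lit 91) (nat_lit 7) (nat_lit 5) (nat_lit 3) (nat_lit 7) (nat_lit 5) (nat_lit 2) (by decide +kernel)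
theorem L258790 : W_2 (nat_lit 3) (nat_lit 0x1000080004c00240002000100000000000000) (nat_lit 0x0) (nat_lit 0x200010000a0000000000008000000000) := T_2 (nat_lit 39) (nat_lit 89) (nat_lit 5) (nat_lit 5) (nat_lit 2) L258789 (by decide +kernel)
theorem L258791 : W_2 (nat_lit 4) (nat_lit 0x1000080004800240002000100000000000000) (nat_lit 0x0) (nat_lit 0x280014000a0000000000008000000000) := T_2 (nat_lit 106) (nat_lit 123) (nat_lit 5) (nat_lit 5) (nat_lit 3) L258790 (by decide +kernel)
theorem L258792 : W_2 (nat_lit 5) (nat_lit 0x1000080004800240002000000000000000000) (nat_lit 0x0) (nat_lit 0x380014000a000500038001c000200000) := Q_2 (nat_lit 56) (C_2 L92129 (C_2 L258788 (C_2 L258791 N_2))) (by decide +kernel)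
theorem L258794 : W_2 (nat_lit 2) (nat_lit 0x1000080005800640002000100000000000000) (nat_lit 0x0) (nat_lit 0x180000000000008000000000) := D_2 (nat_lit 91) (nat_lit 39) (nat_lit 92) (nat_lit 7) (nat_lit 5) (nat_lit 2) (nat_lit 1) (nat_lit 9) (nat_lit 5) (by decide +kernel)
theorem L258795 : W_2 (nat_lit 3) (nat_lit 0x1000080004800640002000100000000000000) (nat_lit 0x0) (nat_lit 0x20001000180000000000008000000000) := T_2 (nat_lit 108) (nat_lit 125) (nat_lit 7) (nat_lit 5) (nat_lit 3) L258794 (by decide +kernel)
theorem L258796 : W_2 (nat_lit 4) (nat_lit 0x1000080004800240002000100000000000000) (nat_lit 0x0) (nat_lit 0x20001000580020000000008000000000) := T_2 (nat_lit 94) (nat_lit 77) (nat_lit 6) (nat_lit 8) (nat_lit 8) L258795 (by decide +kernel)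
theorem L258797 : W_2 (nat_lit 6) (nat_lit 0x1000080004800240002000000000000000000) (nat_lit 0x0) (nat_lit 0x3000100058002500038001c000000000) := Q_2 (nat_lit 56) (C_2 L258788 (C_2 L258772 (C_2 L258796 N_2))) (by decide +kernel)
theorem L258798 : W_2 (nat_lit 2) (nat_lit 0x1000080005c00740003000380000000000000) (nat_lit 0x0) (nat_lit 0xc00400000000000000) := D_2 (nat_lit 71) (nat_lit 70) (nat_lit 58) (nat_lit 2) (nat_lit 2) (nat_lit 4) (nat_lit 1) (nat_lit 7) (nat_lit 3) (by decide +kernel)
theorem L258799 : W_2 (nat_lit 3) (nat_lit 0x1000080005c00740002000380000000000000) (nat_lit 0x0) (nat_lit 0x10000000000001c00400000000000000) := T_2 (nat_lit 72) (nat_lit 124) (nat_lit 4) (nat_lit 5) (nat_lit 7) L258798 (by decide +kernel)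
theorem L258800 : W_2 (nat_lit 4) (nat_lit 0x1000080005c00740002000300000000000000) (nat_lit 0x0) (nat_lit 0x10000000000001c00480004000000000) := T_2 (nat_lit 55) (nat_lit 38) (nat_lit 4) (nat_lit 5) (nat_lit 6) L258799 (by decide +kernel)
theorem L258801 : W_2 (nat_lit 5) (nat_lit 0x1000080005800740002000300000000000000) (nat_lit 0x0) (nat_lit 0x18000400000001c00480004000000000) := T_2 (nat_lit 106) (nat_lit 123) (nat_lit 5) (nat_lit 5) (nat_lit 3) L258800 (by decide +kernel)
theorem L258802 : W_2 (nat_lit 6) (nat_lit 0x1000080005800740002000100000000000000) (nat_lit 0x0) (nat_lit 0x18000400000001c00680014000000000) := T_2 (nat_lit 57) (nat_lit 40) (nat_lit 6) (nat_lit 5) (nat_lit 6) L258801 (by decide +kernel)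
theorem L258803 : W_2 (nat_lit 7) (nat_lit 0x1000080005800640002000100000000000000) (nat_lit 0x0) (nat_lit 0x18000400180001c00680014000000000) := T_2 (nat_lit 92) (nat_lit 91) (nat_lit 1) (nat_lit 9) (nat_lit 5) L258802 (by decide +kernel)
theorem L258804 : W_2 (nat_lit 8) (nat_lit 0x1000080004800640002000100000000000000) (nat_lit 0x0) (nat_lit 0x38001400180001c00680014000000000) := T_2 (nat_lit 108) (nat_lit 125) (nat_lit 7) (nat_lit 5) (nat_lit 3) L258803 (by decide +kernel)
theorem L258805 : W_2 (nat_lit 9) (nat_lit 0x1000080004800240002000100000000000000) (nat_lit 0x0) (nat_lit 0x38001400580021c00680014000000000) := T_2 (nat_lit 94) (nat_lit 77) (nat_lit 6) (nat_lit 8) (nat_lit 8) L258804 (by decide +kernel)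
theorem L258806 : W_2 (nat_lit 10) (nat_lit 0x1000080004800240002000000000000000000) (nat_lit 0x0) (nat_lit 0x380014005a0021c0078001c000200000) := Q_2 (nat_lit 56) (C_2 L258791 (C_2 L258796 (C_2 L92129 (C_2 L258805 N_2)))) (by decide +kernel)
theorem L258807 : W_2 (nat_lit 6) (nat_lit 0x1000080004800240002000000000000000000) (nat_lit 0x0) (nat_lit 0x1000380014005a002400038001c000200000) := Q_2 (nat_lit 56) (C_2 L258791 (C_2 L258796 (C_2 L92129 (C_2 L92128 N_2)))) (by decide +kernel)
theorem L258808 : W_2 (nat_lit 8) (nat_lit 0x1000080004800240002000000000000000000) (nat_lit 0x0) (nat_lit 0x10000e0007000380014005a002100018000c000000000) := Q_2 (nat_lit 124) (C_2 L243034 (C_2 L246483 (C_2 L70765 N_2))) (by decide +kernel)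
theorem L258809 : W_2 (nat_lit 2) (nat_lit 0x10000b0004800640006000000000000000000) (nat_lit 0x0) (nat_lit 0x200000000000180000000000000000000000) := D_2 (nat_lit 91) (nat_lit 92) (nat_lit 141) (nat_lit 0) (nat_lit 9) (nat_lit 5) (nat_lit 6) (nat_lit 5) (nat_lit 8) (by decide +kernel)
theorem L258810 : W_2 (nat_lit 3) (nat_lit 0x10000b0004800640002000000000000000000) (nat_lit 0x0) (nat_lit 0x200000000000180004000200000000000000) := T_2 (nat_lit 74) (nat_lit 57) (nat_lit 6) (nat_lit 5) (nat_lit 7) L258809 (by decide +kernel)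
theorem L258811 : W_2 (nat_lit 4) (nat_lit 0x10000b0004800240002000000000000000000) (nat_lit 0x0) (nat_lit 0x200000000000580024000200000000000000) := T_2 (nat_lit 94) (nat_lit 77) (nat_lit 6) (nat_lit 8) (nat_lit 8) L258810 (by decide +kernel)
theorem L258812 : W_2 (nat_lit 5) (nat_lit 0x1000090004800240002000000000000000000) (nat_lit 0x0) (nat_lit 0x600020000000580024000200000000000000) := T_2 (nat_lit 125) (nat_lit 142) (nat_lit 7) (nat_lit 5) (nat_lit 4) L258811 (by decide +kernel)
theorem L258813 : W_2 (nat_lit 11) (nat_lit 0x1000080004800240002000000000000000000) (nat_lit 0x0) (nat_lit 0x10000e0007000380006005b8025c002e0000000000000) := Q_2 (nat_lit 124) (C_2 L243034 (C_2 L246442 (C_2 L70474 (C_2 L258812 N_2)))) (by decide +kernel)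
theorem L258814 : W_2 (nat_lit 8) (nat_lit 0x1000080004800240002000000000000000000) (nat_lit 0x0) (nat_lit 0x10000e0007000380014005a0025000300018000000000) := Q_2 (nat_lit 124) (C_2 L243034 (C_2 L258812 (C_2 L246483 (C_2 L70979 N_2)))) (by decide +kernel)
theorem L258815 : W_2 (nat_lit 15) (nat_lit 0x1000080004800240000000000000000000000) (nat_lit 0x0) (nat_lit 0x10000e0007000380016005b8037c01fe007f800200000) := Q_2 (nat_lit 73) (C_2 L92135 (C_2 L258785 (C_2 L258792 (C_2 L258797 (C_2 L258806 (C_2 L258807 (C_2 L258808 (C_2 L258813 (C_2 L258814 N_2))))))))) (by decide +kernel)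
theorem L258864 : W_2 (nat_lit 2) (nat_lit 0x1000090004800640006000000000000000000) (nat_lit 0x0) (nat_lit 0x200000000000180000000000000000000000) := D_2 (nat_lit 91) (nat_lit 92) (nat_lit 141) (nat_lit 0) (nat_lit 9) (nat_lit 5) (nat_lit 6) (nat_lit 5) (nat_lit 8) (by decide +kernel)
theorem L258865 : W_2 (nat_lit 3) (nat_lit 0x1000090004800240006000000000000000000) (nat_lit 0x0) (nat_lit 0x200000000000580020000000000000000000) := T_2 (nat_lit 94) (nat_lit 77) (nat_lit 6) (nat_lit 8) (nat_lit 8) L258864 (by decide +kernel)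
theorem L258866 : W_2 (nat_lit 4) (nat_lit 0x1000090004800240002000000000000000000) (nat_lit 0x0) (nat_lit 0x200000000000580024000200000000000000) := T_2 (nat_lit 74) (nat_lit 57) (nat_lit 6) (nat_lit 5) (nat_lit 7) L258865 (by decide +kernel)
theorem L258876 : W_2 (nat_lit 2) (nat_lit 0x1000080004c00240002000300008000000000) (nat_lit 0x0) (nat_lit 0x1000180000000000000000000000) := D_2 (nat_lit 91) (nat_lit 92) (nat_lit 108) (nat_lit 1) (nat_lit 8) (nat_lit 5) (nat_lit 7) (nat_lit 5) (nat_lit 2) (by decide +kernel)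
theorem L258877 : W_2 (nat_lit 3) (nat_lit 0x1000080004c00240002000300000000000000) (nat_lit 0x0) (nat_lit 0x10001a0000000000008000000000) := T_2 (nat_lit 39) (nat_lit 89) (nat_lit 5) (nat_lit 5) (nat_lit 2) L258876 (by decide +kernel)
theorem L258878 : W_2 (nat_lit 4) (nat_lit 0x1000080004800240002000300000000000000) (nat_lit 0x0) (nat_lit 0x80014001a0000000000008000000000) := T_2 (nat_lit 106) (nat_lit 123) (nat_lit 5) (nat_lit 5) (nat_lit 3) L258877 (by decide +kernel)
theorem L258879 : W_2 (nat_lit 5) (nat_lit 0x1000080004800240002000100000000000000) (nat_lit 0x0) (nat_lit 0x80014001a0000000200018000000000) := T_2 (nat_lit 57) (nat_lit 40) (nat_lit 6) (nat_lit 5) (nat_lit 6) L258878 (by decide +kernel)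
theorem L258880 : W_2 (nat_lit 6) (nat_lit 0x1000080004800240002000000000000000000) (nat_lit 0x0) (nat_lit 0x180014001a000500038001c000200000) := Q_2 (nat_lit 56) (C_2 L258788 (C_2 L92129 (C_2 L258879 N_2))) (by decide +kernel)
theorem L258881 : W_2 (nat_lit 2) (nat_lit 0x10000800048006c000200030000d000000000) (nat_lit 0x0) (nat_lit 0x100004000000000000400000) := D_2 (nat_lit 74) (nat_lit 22) (nat_lit 92) (nat_lit 7) (nat_lit 5) (nat_lit 1) (nat_lit 0) (nat_lit 9) (nat_lit 5) (by decide +kernel)
theorem L258882 : W_2 (nat_lit 3) (nat_lit 0x100008000480064000200030000d000000000) (nat_lit 0x0) (nat_lit 0x1000180004000000000000400000) := T_2 (nat_lit 91) (nat_lit 108) (nat_lit 7) (nat_lit 5) (nat_lit 2) L258881 (by decide +kernel)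
theorem L258883 : W_2 (nat_lit 4) (nat_lit 0x100008000480064000200030000c000000000) (nat_lit 0x0) (nat_lit 0x1000180004000000003000400000) := T_2 (nat_lit 36) (nat_lit 37) (nat_lit 3) (nat_lit 2) (nat_lit 2) L258882 (by decide +kernel)
theorem L258884 : W_2 (nat_lit 5) (nat_lit 0x1000080004800640002000300004000000000) (nat_lit 0x0) (nat_lit 0x100018000400000000b000600000) := T_2 (nat_lit 39) (nat_lit 21) (nat_lit 4) (nat_lit 5) (nat_lit 5) L258883 (by decide +kernel)
theorem L258885 : W_2 (nat_lit 6) (nat_lit 0x1000080004800640002000300000000000000) (nat_lit 0x0) (nat_lit 0x100018000400008000f000600000) := T_2 (nat_lit 38) (nat_lit 55) (nat_lit 4) (nat_lit 5) (nat_lit 6) L258884 (by decide +kernel)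
theorem L258886 : W_2 (nat_lit 7) (nat_lit 0x1000080004800640002000100000000000000) (nat_lit 0x0) (nat_lit 0x100018000400028001f000600000) := T_2 (nat_lit 57) (nat_lit 40) (nat_lit 6) (nat_lit 5) (nat_lit 6) L258885 (by decide +kernel)
theorem L258887 : W_2 (nat_lit 8) (nat_lit 0x1000080004800240002000100000000000000) (nat_lit 0x0) (nat_lit 0x100058002400028001f000600000) := T_2 (nat_lit 94) (nat_lit 77) (nat_lit 6) (nat_lit 8) (nat_lit 8) L258886 (by decide +kernel)
theorem L258888 : W_2 (nat_lit 14) (nat_lit 0x1000080004800240002000000000000000000) (nat_lit 0x0) (nat_lit 0x80014005a0035c01fe007f800600000) := Q_2 (nat_lit 56) (C_2 L92129 (C_2 L258887 (C_2 L258879 (C_2 L258784 N_2)))) (by decide +kernel)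
theorem L258895 : W_2 (nat_lit 2) (nat_lit 0x1000080004800640003000380000000000000) (nat_lit 0x0) (nat_lit 0xc00400000000000000) := D_2 (nat_lit 71) (nat_lit 70) (nat_lit 58) (nat_lit 2) (nat_lit 2) (nat_lit 4) (nat_lit 1) (nat_lit 7) (nat_lit 3) (by decide +kernel)
theorem L258896 : W_2 (nat_lit 3) (nat_lit 0x1000080004800640002000380000000000000) (nat_lit 0x0) (nat_lit 0x10000000000001c00400000000000000) := T_2 (nat_lit 72) (nat_lit 124) (nat_lit 4) (nat_lit 5) (nat_lit 7) L258895 (by decide +kernel)
theorem L258897 : W_2 (nat_lit 4) (nat_lit 0x1000080004800640002000300000000000000) (nat_lit 0x0) (nat_lit 0x10000000000001c00480004000000000) := T_2 (nat_lit 55) (nat_lit 38) (nat_lit 4) (nat_lit 5) (nat_lit 6) L258896 (by decide +kernel)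
theorem L258898 : W_2 (nat_lit 5) (nat_lit 0x1000080004800640002000100000000000000) (nat_lit 0x0) (nat_lit 0x10000000000001c00680014000000000) := T_2 (nat_lit 57) (nat_lit 40) (nat_lit 6) (nat_lit 5) (nat_lit 6) L258897 (by decide +kernel)
theorem L258899 : W_2 (nat_lit 6) (nat_lit 0x1000080004800240002000100000000000000) (nat_lit 0x0) (nat_lit 0x10000000400021c00680014000000000) := T_2 (nat_lit 94) (nat_lit 77) (nat_lit 6) (nat_lit 8) (nat_lit 8) L258898 (by decide +kernel)
theorem L258900 : W_2 (nat_lit 2) (nat_lit 0x10000800048006c0003000180008000000000) (nat_lit 0x0) (nat_lit 0x4000000000000400020) := D_2 (nat_lit 22) (nat_lit 74) (nat_lit 5) (nat_lit 7) (nat_lit 5) (nat_lit 1) (nat_lit 5) (nat_lit 5) (nat_lit 0) (by decide +kernel)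
theorem L258901 : W_2 (nat_lit 3) (nat_lit 0x10000800048006c0003000180000000000000) (nat_lit 0x0) (nat_lit 0x1000000004000000008000400020) := T_2 (nat_lit 39) (nat_lit 108) (nat_lit 7) (nat_lit 5) (nat_lit 2) L258900 (by decide +kernel)
theorem L258902 : W_2 (nat_lit 4) (nat_lit 0x1000080004800640003000180000000000000) (nat_lit 0x0) (nat_lit 0x1000180004000000008000400020) := T_2 (nat_lit 91) (nat_lit 92) (nat_lit 0) (nat_lit 8) (nat_lit 5) L258901 (by decide +kernel)
theorem L258903 : W_2 (nat_lit 5) (nat_lit 0x1000080004800640002000180000000000000) (nat_lit 0x0) (nat_lit 0x10001000180005000000008000400020) := T_2 (nat_lit 72) (nat_lit 124) (nat_lit 4) (nat_lit 5) (nat_lit 7) L258902 (by decide +kernel)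
theorem L258904 : W_2 (nat_lit 6) (nat_lit 0x1000080004800240002000180000000000000) (nat_lit 0x0) (nat_lit 0x10001000580025000000008000400020) := T_2 (nat_lit 94) (nat_lit 77) (nat_lit 6) (nat_lit 8) (nat_lit 8) L258903 (by decide +kernel)
theorem L258905 : W_2 (nat_lit 7) (nat_lit 0x1000080004800240002000100000000000000) (nat_lit 0x0) (nat_lit 0x1000100058002500008000c000400020) := T_2 (nat_lit 55) (nat_lit 38) (nat_lit 4) (nat_lit 5) (nat_lit 6) L258904 (by decide +kernel)
theorem L258906 : W_2 (nat_lit 2) (nat_lit 0x10000800048006c0006000300000000000000) (nat_lit 0x0) (nat_lit 0x1000000000000000008000400000) := D_2 (nat_lit 39) (nat_lit 108) (nat_lit 22) (nat_lit 7) (nat_lit 5) (nat_lit 2) (nat_lit 7) (nat_lit 5) (nat_lit 1) (by decide +kernel)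
theorem L258907 : W_2 (nat_lit 3) (nat_lit 0x1000080004800640006000300000000000000) (nat_lit 0x0) (nat_lit 0x1000180000000000008000400000) := T_2 (nat_lit 91) (nat_lit 92) (nat_lit 0) (nat_lit 9) (nat_lit 5) L258906 (by decide +kernel)
theorem L258908 : W_2 (nat_lit 4) (nat_lit 0x1000080004800640002000300000000000000) (nat_lit 0x0) (nat_lit 0x10001000180004000000008000400000) := T_2 (nat_lit 74) (nat_lit 124) (nat_lit 6) (nat_lit 5) (nat_lit 7) L258907 (by decide +kernel)
theorem L258909 : W_2 (nat_lit 5) (nat_lit 0x1000080004800240002000300000000000000) (nat_lit 0x0) (nat_lit 0x10001000580024000000008000400000) := T_2 (nat_lit 94) (nat_lit 77) (nat_lit 6) (nat_lit 8) (nat_lit 8) L258908 (by decide +kernel)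
theorem L258910 : W_2 (nat_lit 6) (nat_lit 0x1000080004800240002000100000000000000) (nat_lit 0x0) (nat_lit 0x10001000580024000200018000400000) := T_2 (nat_lit 57) (nat_lit 40) (nat_lit 6) (nat_lit 5) (nat_lit 6) L258909 (by decide +kernel)
theorem L258911 : W_2 (nat_lit 9) (nat_lit 0x1000080004800240002000000000000000000) (nat_lit 0x0) (nat_lit 0x10001000580025c0078001f000600020) := Q_2 (nat_lit 56) (C_2 L258887 (C_2 L258788 (C_2 L258899 (C_2 L258905 (C_2 L258910 N_2))))) (by decide +kernel)
theorem L258912 : W_2 (nat_lit 7) (nat_lit 0x1000080004800240002000000000000000000) (nat_lit 0x0) (nat_lit 0x180014005a0021c0078001c000200000) := Q_2 (nat_lit 56) (C_2 L258879 (C_2 L258899 (C_2 L92129 N_2))) (by decide +kernel)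
theorem L258913 : W_2 (nat_lit 9) (nat_lit 0x1000080004800240002000000000000000000) (nat_lit 0x0) (nat_lit 0x1000180014005a002400038001f000600000) := Q_2 (nat_lit 56) (C_2 L258887 (C_2 L92129 (C_2 L258910 (C_2 L92128 N_2)))) (by decide +kernel)
theorem L258914 : W_2 (nat_lit 2) (nat_lit 0x10000900048006c0003000000000000000000) (nat_lit 0x0) (nat_lit 0x200000000000020004000000000000000000) := D_2 (nat_lit 141) (nat_lit 89) (nat_lit 74) (nat_lit 4) (nat_lit 5) (nat_lit 8) (nat_lit 6) (nat_lit 5) (nat_lit 8) (by decide +kernel)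
theorem L258915 : W_2 (nat_lit 3) (nat_lit 0x1000090004800640003000000000000000000) (nat_lit 0x0) (nat_lit 0x2000000000001a0004000000000000000000) := T_2 (nat_lit 91) (nat_lit 92) (nat_lit 0) (nat_lit 8) (nat_lit 5) L258914 (by decide +kernel)
theorem L258916 : W_2 (nat_lit 4) (nat_lit 0x1000090004800640002000000000000000000) (nat_lit 0x0) (nat_lit 0x2000000000001a0005000080000000000000) := T_2 (nat_lit 72) (nat_lit 55) (nat_lit 4) (nat_lit 5) (nat_lit 7) L258915 (by decide +kernel)
theorem L258917 : W_2 (nat_lit 5) (nat_lit 0x1000090004800240002000000000000000000) (nat_lit 0x0) (nat_lit 0x2000000000005a0025000080000000000000) := T_2 (nat_lit 94) (nat_lit 77) (nat_lit 6) (nat_lit 8) (nat_lit 8) L258916 (by decide +kernel)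
theorem L258918 : W_2 (nat_lit 2) (nat_lit 0x10001980048002c0032000180008000000000) (nat_lit 0x0) (nat_lit 0x200000000000000004000000000000400000) := D_2 (nat_lit 74) (nat_lit 22) (nat_lit 141) (nat_lit 7) (nat_lit 5) (nat_lit 1) (nat_lit 6) (nat_lit 5) (nat_lit 8) (by decide +kernel)
theorem L258919 : W_2 (nat_lit 3) (nat_lit 0x10001980048002c0032000180000000000000) (nat_lit 0x0) (nat_lit 0x200000001000000004000000008000400000) := T_2 (nat_lit 39) (nat_lit 108) (nat_lit 7) (nat_lit 5) (nat_lit 2) L258918 (by decide +kernel)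
theorem L258920 : W_2 (nat_lit 4) (nat_lit 0x10000980048002c0032000180000000000000) (nat_lit 0x0) (nat_lit 0x2200100001000000004000000008000400000) := T_2 (nat_lit 128) (nat_lit 145) (nat_lit 7) (nat_lit 8) (nat_lit 4) L258919 (by decide +kernel)
theorem L258921 : W_2 (nat_lit 5) (nat_lit 0x1000098004800240032000180000000000000) (nat_lit 0x0) (nat_lit 0x2200100001000180004000000008000400000) := T_2 (nat_lit 91) (nat_lit 92) (nat_lit 2) (nat_lit 5) (nat_lit 5) L258920 (by decide +kernel)
theorem L258922 : W_2 (nat_lit 6) (nat_lit 0x1000098004800240022000180000000000000) (nat_lit 0x0) (nat_lit 0x2200100001000180014001000008000400000) := T_2 (nat_lit 76) (nat_lit 60) (nat_lit 6) (nat_lit 8) (nat_lit 7) L258921 (by decide +kernel)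
theorem L258923 : W_2 (nat_lit 7) (nat_lit 0x1000098004800240002000180000000000000) (nat_lit 0x0) (nat_lit 0x2200100001000580034001000008000400000) := T_2 (nat_lit 77) (nat_lit 94) (nat_lit 6) (nat_lit 8) (nat_lit 8) L258922 (by decide +kernel)
theorem L258924 : W_2 (nat_lit 8) (nat_lit 0x1000098004800240002000100000000000000) (nat_lit 0x0) (nat_lit 0x220010000100058003400108000c000400000) := T_2 (nat_lit 55) (nat_lit 38) (nat_lit 4) (nat_lit 5) (nat_lit 6) L258923 (by decide +kernel)
theorem L258925 : W_2 (nat_lit 9) (nat_lit 0x1000098004800240002000000000000000000) (nat_lit 0x0) (nat_lit 0x220010000140058003400118000c000400000) := T_2 (nat_lit 56) (nat_lit 106) (nat_lit 5) (nat_lit 5) (nat_lit 3) L258924 (by decide +kernel)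
theorem L258926 : W_2 (nat_lit 10) (nat_lit 0x1000090004800240002000000000000000000) (nat_lit 0x0) (nat_lit 0x230010800140058003400118000c000400000) := T_2 (nat_lit 123) (nat_lit 140) (nat_lit 5) (nat_lit 5) (nat_lit 4) L258925 (by decide +kernel)
theorem L258927 : W_2 (nat_lit 11) (nat_lit 0x1000080004800240002000000000000000000) (nat_lit 0x0) (nat_lit 0x14000e0027001180014005a003500118000c000400000) := Q_2 (nat_lit 124) (C_2 L243012 (C_2 L243034 (C_2 L242833 (C_2 L70486 (C_2 L258917 (C_2 L258926 N_2)))))) (by decide +kernel)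
theorem L258928 : W_2 (nat_lit 11) (nat_lit 0x1000080004800240002000000000000000000) (nat_lit 0x0) (nat_lit 0x10000e0007000180006005b8025c002e0000000000000) := Q_2 (nat_lit 124) (C_2 L258917 (C_2 L246442 (C_2 L243034 (C_2 L70474 (C_2 L258866 N_2))))) (by decide +kernel)
theorem L258929 : W_2 (nat_lit 2) (nat_lit 0x1000080004c00640002000100008000000000) (nat_lit 0x0) (nat_lit 0x1000180000000000000000000000) := D_2 (nat_lit 91) (nat_lit 92) (nat_lit 108) (nat_lit 1) (nat_lit 8) (nat_lit 5) (nat_lit 7) (nat_lit 5) (nat_lit 2) (by decide +kernel)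
theorem L258930 : W_2 (nat_lit 3) (nat_lit 0x1000080004c00640002000100000000000000) (nat_lit 0x0) (nat_lit 0x10001a0000000000008000000000) := T_2 (nat_lit 39) (nat_lit 89) (nat_lit 5) (nat_lit 5) (nat_lit 2) L258929 (by decide +kernel)
theorem L258931 : W_2 (nat_lit 4) (nat_lit 0x1000080004800640002000100000000000000) (nat_lit 0x0) (nat_lit 0x80014001a0000000000008000000000) := T_2 (nat_lit 106) (nat_lit 123) (nat_lit 5) (nat_lit 5) (nat_lit 3) L258930 (by decide +kernel)
theorem L258932 : W_2 (nat_lit 5) (nat_lit 0x1000080004800240002000100000000000000) (nat_lit 0x0) (nat_lit 0x80014005a0020000000008000000000) := T_2 (nat_lit 94) (nat_lit 77) (nat_lit 6) (nat_lit 8) (nat_lit 8) L258931 (by decide +kernel)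
theorem L258933 : W_2 (nat_lit 7) (nat_lit 0x1000080004800240002000000000000000000) (nat_lit 0x0) (nat_lit 0x1000180014005a0024000300018000400000) := Q_2 (nat_lit 56) (C_2 L258910 (C_2 L92128 (C_2 L258879 (C_2 L258932 N_2)))) (by decide +kernel)
theorem L258934 : W_2 (nat_lit 15) (nat_lit 0x1000080004800240000000000000000000000) (nat_lit 0x0) (nat_lit 0x14000e0027001180016005b8037c01fe007f800600020) := Q_2 (nat_lit 73) (C_2 L258880 (C_2 L92135 (C_2 L258888 (C_2 L258911 (C_2 L258912 (C_2 L258913 (C_2 L258927 (C_2 L258928 (C_2 L258933 N_2))))))))) (by decide +kernel)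
theorem L259054 : W_2 (nat_lit 2) (nat_lit 0x10000800048002400328007c0021000000000) (nat_lit 0x0) (nat_lit 0x4000020000800000000) := D_2 (nat_lit 53) (nat_lit 74) (nat_lit 35) (nat_lit 3) (nat_lit 2) (nat_lit 3) (nat_lit 0) (nat_lit 5) (nat_lit 3) (by decide +kernel)
theorem L259055 : W_2 (nat_lit 3) (nat_lit 0x10000800048002400328007c0020000000000) (nat_lit 0x0) (nat_lit 0x4000020003800000000) := T_2 (nat_lit 36) (nat_lit 37) (nat_lit 0) (nat_lit 6) (nat_lit 3) L259054 (by decide +kernel)
theorem L259056 : W_2 (nat_lit 4) (nat_lit 0x1000080004800240032800780020000000000) (nat_lit 0x0) (nat_lit 0x4400060003800000000) := T_2 (nat_lit 54) (nat_lit 70) (nat_lit 1) (nat_lit 6) (nat_lit 3) L259055 (by decide +kernel)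
theorem L259057 : W_2 (nat_lit 5) (nat_lit 0x1000080004800240032000780020000000000) (nat_lit 0x0) (nat_lit 0x5c00060003800000000) := T_2 (nat_lit 71) (nat_lit 72) (nat_lit 1) (nat_lit 7) (nat_lit 3) L259056 (by decide +kernel)
theorem L259058 : W_2 (nat_lit 6) (nat_lit 0x1000080004800240032000780000000000000) (nat_lit 0x0) (nat_lit 0x5c00060063800000000) := T_2 (nat_lit 41) (nat_lit 42) (nat_lit 2) (nat_lit 4) (nat_lit 3) L259057 (by decide +kernel)
theorem L259059 : W_2 (nat_lit 7) (nat_lit 0x1000080004800240032000380000000000000) (nat_lit 0x0) (nat_lit 0x5c00c60063800000000) := T_2 (nat_lit 58) (nat_lit 59) (nat_lit 3) (nat_lit 5) (nat_lit 3) L259058 (by decide +kernel)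
theorem L259060 : W_2 (nat_lit 8) (nat_lit 0x1000080004800240022000380000000000000) (nat_lit 0x0) (nat_lit 0x15c01c60063800000000) := T_2 (nat_lit 76) (nat_lit 60) (nat_lit 6) (nat_lit 8) (nat_lit 7) L259059 (by decide +kernel)
theorem L259061 : W_2 (nat_lit 9) (nat_lit 0x1000080004800240022000180000000000000) (nat_lit 0x0) (nat_lit 0x15c01e60073800000000) := T_2 (nat_lit 57) (nat_lit 40) (nat_lit 6) (nat_lit 5) (nat_lit 6) L259060 (by decide +kernel)
theorem L259062 : W_2 (nat_lit 10) (nat_lit 0x1000080004800240002000180000000000000) (nat_lit 0x0) (nat_lit 0x400035c01e60073800000000) := T_2 (nat_lit 77) (nat_lit 94) (nat_lit 6) (nat_lit 8) (nat_lit 8) L259061 (by decide +kernel)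
theorem L259063 : W_2 (nat_lit 11) (nat_lit 0x1000080004800240002000100000000000000) (nat_lit 0x0) (nat_lit 0x400035c01ee0077800000000) := T_2 (nat_lit 55) (nat_lit 38) (nat_lit 4) (nat_lit 5) (nat_lit 6) L259062 (by decide +kernel)
theorem L259071 : W_2 (nat_lit 2) (nat_lit 0x1000080004c00640002000100010000000000) (nat_lit 0x0) (nat_lit 0x20000000000008000800000) := D_2 (nat_lit 39) (nat_lit 89) (nat_lit 23) (nat_lit 5) (nat_lit 5) (nat_lit 2) (nat_lit 6) (nat_lit 5) (nat_lit 5) (by decide +kernel)
theorem L259072 : W_2 (nat_lit 3) (nat_lit 0x1000080004800640002000100010000000000) (nat_lit 0x0) (nat_lit 0x8000400020000000000008000800000) := T_2 (nat_lit 106) (nat_lit 123) (nat_lit 5) (nat_lit 5) (nat_lit 3) L259071 (by decide +kernel)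
theorem L259073 : W_2 (nat_lit 4) (nat_lit 0x1000080004800640002000100000000000000) (nat_lit 0x0) (nat_lit 0x8000400020000000200018000800000) := T_2 (nat_lit 40) (nat_lit 57) (nat_lit 6) (nat_lit 5) (nat_lit 6) L259072 (by decide +kernel)
theorem L259074 : W_2 (nat_lit 5) (nat_lit 0x1000080004800240002000100000000000000) (nat_lit 0x0) (nat_lit 0x8000400420020000200018000800000) := T_2 (nat_lit 94) (nat_lit 77) (nat_lit 6) (nat_lit 8) (nat_lit 8) L259073 (by decide +kernel)
theorem L259076 : W_2 (nat_lit 12) (nat_lit 0x1000080004800240002000000000000000000) (nat_lit 0x0) (nat_lit 0x8000400420035c01fe007f800a00000) := Q_2 (nat_lit 56) (C_2 L92129 (C_2 L259074 (C_2 L259063 N_2))) (by decide +kernel)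
theorem L453182 : W_2 (nat_lit 2) (nat_lit 0x8000d0002c0030000000000000000000000000000) (nat_lit 0x0) (nat_lit 0xc000400000000000000000000000) := D_2 (nat_lit 111) (nat_lit 94) (nat_lit 110) (nat_lit 4) (nat_lit 10) (nat_lit 9) (nat_lit 1) (nat_lit 11) (nat_lit 6) (by decide +kernel)
theorem L455010 : W_2 (nat_lit 2) (nat_lit 0x10000d0002c0010000000000000000000000000000) (nat_lit 0x0) (nat_lit 0x40002000080000000000000000000000000000000000000000) := D_2 (nat_lit 181) (nat_lit 163) (nat_lit 198) (nat_lit 7) (nat_lit 10) (nat_lit 6) (nat_lit 4) (nat_lit 11) (nat_lit 11) (by decide +kernel)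
theorem L523602 : W_2 (nat_lit 3) (nat_lit 0xd000780000000000000000000000000000000) (nat_lit 0x0) (nat_lit 0x80000000000060001000080000000000000000000) := T_2 (nat_lit 113) (nat_lit 114) (nat_lit 2) (nat_lit 8) (nat_lit 7) L523601 (by decide +kernel)
theorem L523603 : W_2 (nat_lit 4) (nat_lit 0x5000780000000000000000000000000000000) (nat_lit 0x0) (nat_lit 0x80018000000060001000080000000000000000000) := T_2 (nat_lit 147) (nat_lit 148) (nat_lit 3) (nat_lit 8) (nat_lit 7) L523602 (by decide +kernel)
theorem L525869 : W_2 (nat_lit 2) (nat_lit 0xe00030005000380000000000000000000000000000000) (nat_lit 0x0) (nat_lit 0x100000c000000000000000000000000000000000000000) := D_2 (nat_lit 159) (nat_lit 158) (nat_lit 180) (nat_lit 3) (nat_lit 5) (nat_lit 9) (nat_lit 0) (nat_lit 10) (nat_lit 10) (by decide +kernel)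
theorem L525870 : W_2 (nat_lit 3) (nat_lit 0x600030005000380000000000000000000000000000000) (nat_lit 0x0) (nat_lit 0x1000180000c000000000000000000000000000000000000000) := T_2 (nat_lit 179) (nat_lit 196) (nat_lit 7) (nat_lit 8) (nat_lit 7) L525869 (by decide +kernel)
theorem L525871 : W_2 (nat_lit 4) (nat_lit 0x600020005000380000000000000000000000000000000) (nat_lit 0x0) (nat_lit 0x1000180001c000000000004000000000000000000000000000) := T_2 (nat_lit 160) (nat_lit 110) (nat_lit 5) (nat_lit 8) (nat_lit 6) L525870 (by decide +kernel)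
theorem L527822 : W_2 (nat_lit 2) (nat_lit 0x400180005000380018000800080000000000000000000) (nat_lit 0x0) (nat_lit 0x40006000000000000000) := D_2 (nat_lit 78) (nat_lit 61) (nat_lit 62) (nat_lit 5) (nat_lit 10) (nat_lit 3) (nat_lit 6) (nat_lit 10) (nat_lit 7) (by decide +kernel)
theorem L527823 : W_2 (nat_lit 3) (nat_lit 0x400180005000380018000800000000000000000000000) (nat_lit 0x0) (nat_lit 0x10000c0006000000000000000) := T_2 (nat_lit 79) (nat_lit 96) (nat_lit 6) (nat_lit 10) (nat_lit 8) L527822 (by decide +kernel)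
theorem L527824 : W_2 (nat_lit 4) (nat_lit 0x400180005000380018000000000000000000000000000) (nat_lit 0x0) (nat_lit 0x80000000000018000c0006000000000000000) := T_2 (nat_lit 95) (nat_lit 147) (nat_lit 7) (nat_lit 10) (nat_lit 5) L527823 (by decide +kernel)
theorem L527825 : W_2 (nat_lit 5) (nat_lit 0x400080005000380018000000000000000000000000000) (nat_lit 0x0) (nat_lit 0x20001000080000000000018000c0006000000000000000) := T_2 (nat_lit 164) (nat_lit 181) (nat_lit 7) (nat_lit 10) (nat_lit 6) L527824 (by decide +kernel)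
theorem L530985 : W_2 (nat_lit 2) (nat_lit 0x1000000015000780048000000000000000000000000000) (nat_lit 0x0) (nat_lit 0x20000800080000000000000000000000000000) := D_2 (nat_lit 131) (nat_lit 149) (nat_lit 115) (nat_lit 3) (nat_lit 9) (nat_lit 7) (nat_lit 2) (nat_lit 9) (nat_lit 7) (by decide +kernel)
theorem L530986 : W_2 (nat_lit 3) (nat_lit 0x1000000015000780008000000000000000000000000000) (nat_lit 0x0) (nat_lit 0x200008000e0000000000000000000000000000) := T_2 (nat_lit 114) (nat_lit 113) (nat_lit 2) (nat_lit 8) (nat_lit 7) L530985 (by decide +kernel)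
theorem L530987 : W_2 (nat_lit 4) (nat_lit 0x1000000005000780008000000000000000000000000000) (nat_lit 0x0) (nat_lit 0x380008000e0000000000000000000000000000) := T_2 (nat_lit 148) (nat_lit 147) (nat_lit 3) (nat_lit 8) (nat_lit 7) L530986 (by decide +kernel)
theorem L530988 : W_2 (nat_lit 5) (nat_lit 0x5000780008000000000000000000000000000) (nat_lit 0x0) (nat_lit 0x10000800380008000e0000000000000000000000000000) := T_2 (nat_lit 180) (nat_lit 163) (nat_lit 4) (nat_lit 10) (nat_lit 10) L530987 (by decide +kernel)
theorem L530990 : W_2 (nat_lit 2) (nat_lit 0x1400000005001f80088000000000000000000000000000) (nat_lit 0x0) (nat_lit 0x70000000000000000000000000000000000000) := D_2 (nat_lit 149) (nat_lit 148) (nat_lit 150) (nat_lit 3) (nat_lit 9) (nat_lit 7) (nat_lit 3) (nat_lit 10) (nat_lit 7) (by decide +kernel)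
theorem L530991 : W_2 (nat_lit 3) (nat_lit 0x1400000005000f80088000000000000000000000000000) (nat_lit 0x0) (nat_lit 0x70001000100000000000000000000000000000) := T_2 (nat_lit 132) (nat_lit 116) (nat_lit 2) (nat_lit 10) (nat_lit 7) L530990 (by decide +kernel)
theorem L530992 : W_2 (nat_lit 4) (nat_lit 0x400000005000f80088000000000000000000000000000) (nat_lit 0x0) (nat_lit 0x1000080070001000100000000000000000000000000000) := T_2 (nat_lit 180) (nat_lit 163) (nat_lit 4) (nat_lit 10) (nat_lit 10) L530991 (by decide +kernel)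
theorem L530993 : W_2 (nat_lit 5) (nat_lit 0x400000005000f80008000000000000000000000000000) (nat_lit 0x0) (nat_lit 0x10000800700010001c0000000000000000000000000000) := T_2 (nat_lit 115) (nat_lit 114) (nat_lit 2) (nat_lit 9) (nat_lit 7) L530992 (by decide +kernel)
theorem L530994 : W_2 (nat_lit 6) (nat_lit 0x5000f80008000000000000000000000000000) (nat_lit 0x0) (nat_lit 0x14000a00700010001c0000000000000000000000000000) := T_2 (nat_lit 178) (nat_lit 161) (nat_lit 6) (nat_lit 8) (nat_lit 10) L530993 (by decide +kernel)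
theorem L605231 : W_2 (nat_lit 2) (nat_lit 0x80005000780028000000000000000000000000000) (nat_lit 0x0) (nat_lit 0x10001000080000000000000000000) := D_2 (nat_lit 96) (nat_lit 79) (nat_lit 112) (nat_lit 5) (nat_lit 11) (nat_lit 4) (nat_lit 6) (nat_lit 10) (nat_lit 9) (by decide +kernel)
theorem L605232 : W_2 (nat_lit 3) (nat_lit 0x5000780028000000000000000000000000000) (nat_lit 0x0) (nat_lit 0x1000080000000000010001000080000000000000000000) := T_2 (nat_lit 163) (nat_lit 180) (nat_lit 6) (nat_lit 10) (nat_lit 10) L605231 (by decide +kernel)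
theorem L605233 : W_2 (nat_lit 4) (nat_lit 0x5000780008000000000000000000000000000) (nat_lit 0x0) (nat_lit 0x1000080000000000070001000080000000000000000000) := T_2 (nat_lit 113) (nat_lit 114) (nat_lit 2) (nat_lit 8) (nat_lit 7) L605232 (by decide +kernel)
theorem L605240 : W_2 (nat_lit 2) (nat_lit 0x40000000d000780028003800000000000000000000000) (nat_lit 0x0) (nat_lit 0x100000000000010004000000000000000000000000) := D_2 (nat_lit 112) (nat_lit 98) (nat_lit 164) (nat_lit 1) (nat_lit 13) (nat_lit 5) (nat_lit 7) (nat_lit 10) (nat_lit 5) (by decide +kernel)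
theorem L605241 : W_2 (nat_lit 3) (nat_lit 0x40000000d000780028001800000000000000000000000) (nat_lit 0x0) (nat_lit 0x100000000000010006000100000000000000000000) := T_2 (nat_lit 97) (nat_lit 80) (nat_lit 6) (nat_lit 11) (nat_lit 8) L605240 (by decide +kernel)
theorem L605242 : W_2 (nat_lit 4) (nat_lit 0x40000000d000780028001000000000000000000000000) (nat_lit 0x0) (nat_lit 0x100000000000010006800140000000000000000000) := T_2 (nat_lit 95) (nat_lit 78) (nat_lit 4) (nat_lit 11) (nat_lit 8) L605241 (by decide +kernel)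
theorem L605243 : W_2 (nat_lit 5) (nat_lit 0x40000000d000780028000000000000000000000000000) (nat_lit 0x0) (nat_lit 0x1000000000000100078001c0000000000000000000) := T_2 (nat_lit 96) (nat_lit 79) (nat_lit 5) (nat_lit 11) (nat_lit 4) L605242 (by decide +kernel)
theorem L605244 : W_2 (nat_lit 6) (nat_lit 0x40000000d000780008000000000000000000000000000) (nat_lit 0x0) (nat_lit 0x1000000000000700078001c0000000000000000000) := T_2 (nat_lit 113) (nat_lit 114) (nat_lit 2) (nat_lit 8) (nat_lit 7) L605243 (by decide +kernel)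
theorem L605245 : W_2 (nat_lit 7) (nat_lit 0xd000780008000000000000000000000000000) (nat_lit 0x0) (nat_lit 0x4001200000000000700078001c0000000000000000000) := T_2 (nat_lit 178) (nat_lit 161) (nat_lit 6) (nat_lit 8) (nat_lit 10) L605244 (by decide +kernel)
theorem L605246 : W_2 (nat_lit 8) (nat_lit 0x5000780008000000000000000000000000000) (nat_lit 0x0) (nat_lit 0x4001200180000000700078001c0000000000000000000) := T_2 (nat_lit 147) (nat_lit 148) (nat_lit 3) (nat_lit 8) (nat_lit 7) L605245 (by decide +kernel)
theorem L655046 : W_2 (nat_lit 2) (nat_lit 0x700014005e000d0000000000000000000000000000000) (nat_lit 0x0) (nat_lit 0x800008000000000000800000000000000000000000000) := D_2 (nat_lit 159) (nat_lit 107) (nat_lit 179) (nat_lit 7) (nat_lit 5) (nat_lit 6) (nat_lit 0) (nat_lit 9) (nat_lit 10) (by decide +kernel)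
theorem L655047 : W_2 (nat_lit 3) (nat_lit 0x600014005e000d0000000000000000000000000000000) (nat_lit 0x0) (nat_lit 0x2000900008000000000000800000000000000000000000000) := T_2 (nat_lit 176) (nat_lit 193) (nat_lit 5) (nat_lit 7) (nat_lit 7) L655046 (by decide +kernel)
theorem L655048 : W_2 (nat_lit 4) (nat_lit 0x600010005e000d0000000000000000000000000000000) (nat_lit 0x0) (nat_lit 0x200090000e000000000000800000000000000000000000000) := T_2 (nat_lit 158) (nat_lit 157) (nat_lit 1) (nat_lit 8) (nat_lit 8) L655047 (by decide +kernel)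
theorem L655049 : W_2 (nat_lit 5) (nat_lit 0x600010005e000c0000000000000000000000000000000) (nat_lit 0x0) (nat_lit 0x200090000e000000018000800000000000000000000000000) := T_2 (nat_lit 124) (nat_lit 123) (nat_lit 0) (nat_lit 8) (nat_lit 8) L655048 (by decide +kernel)
theorem L655050 : W_2 (nat_lit 6) (nat_lit 0x200010005e000c0000000000000000000000000000000) (nat_lit 0x0) (nat_lit 0xa000d0000e000000018000800000000000000000000000000) := T_2 (nat_lit 178) (nat_lit 195) (nat_lit 7) (nat_lit 7) (nat_lit 7) L655049 (by decide +kernel)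
theorem L655064 : W_2 (nat_lit 7) (nat_lit 0x200010005c000c0000000000000000000000000000000) (nat_lit 0x0) (nat_lit 0xa000d0000e000300018000800000000000000000000000000) := T_2 (nat_lit 141) (nat_lit 140) (nat_lit 2) (nat_lit 4) (nat_lit 8) L655050 (by decide +kernel)
theorem L655328 : W_2 (nat_lit 2) (nat_lit 0x200010005c000c0000000000000000000000000000000) (nat_lit 0x0) (nat_lit 0x300100000000000000000000000000000000) := D_2 (nat_lit 141) (nat_lit 140) (nat_lit 128) (nat_lit 2) (nat_lit 4) (nat_lit 8) (nat_lit 2) (nat_lit 5) (nat_lit 8) (by decide +kernel)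
theorem L673233 : W_2 (nat_lit 2) (nat_lit 0x7e002c0000000000000000000000000000000) (nat_lit 0x0) (nat_lit 0xe000000000000000000000000000000000000000) := D_2 (nat_lit 158) (nat_lit 159) (nat_lit 157) (nat_lit 1) (nat_lit 9) (nat_lit 8) (nat_lit 1) (nat_lit 8) (nat_lit 8) (by decide +kernel)
theorem L673234 : W_2 (nat_lit 3) (nat_lit 0x7c002c0000000000000000000000000000000) (nat_lit 0x0) (nat_lit 0xe000300000000000000000000000000000000000) := T_2 (nat_lit 141) (nat_lit 140) (nat_lit 2) (nat_lit 4) (nat_lit 8) L673233 (by decide +kernel)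
theorem L917540 : W_2 (nat_lit 2) (nat_lit 0x2000f000180000000000000000000000000000000) (nat_lit 0x0) (nat_lit 0x400000000000000008000400000000000000000000000) := D_2 (nat_lit 111) (nat_lit 94) (nat_lit 178) (nat_lit 5) (nat_lit 9) (nat_lit 5) (nat_lit 6) (nat_lit 8) (nat_lit 10) (by decide +kernel)
theorem L917541 : W_2 (nat_lit 3) (nat_lit 0xf000180000000000000000000000000000000) (nat_lit 0x0) (nat_lit 0x400030000000000008000400000000000000000000000) := T_2 (nat_lit 161) (nat_lit 160) (nat_lit 1) (nat_lit 11) (nat_lit 8) L917540 (by decide +kernel)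
theorem L988220 : W_2 (nat_lit 2) (nat_lit 0x7000180058000c0000000000000000000000000000000) (nat_lit 0x0) (nat_lit 0x800006000000000000000000000000000000000000000) := D_2 (nat_lit 158) (nat_lit 157) (nat_lit 179) (nat_lit 3) (nat_lit 4) (nat_lit 9) (nat_lit 0) (nat_lit 9) (nat_lit 10) (by decide +kernel)
theorem L988221 : W_2 (nat_lit 3) (nat_lit 0x3000180058000c0000000000000000000000000000000) (nat_lit 0x0) (nat_lit 0x8000c00006000000000000000000000000000000000000000) := T_2 (nat_lit 178) (nat_lit 195) (nat_lit 7) (nat_lit 7) (nat_lit 7) L988220 (by decide +kernel)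
theorem L1005414 : W_2 (nat_lit 2) (nat_lit 0xf000180058000f0000800000000000000000000000000) (nat_lit 0x0) (nat_lit 0x30000000020000000000000000000000000000000000000000) := D_2 (nat_lit 196) (nat_lit 197) (nat_lit 161) (nat_lit 3) (nat_lit 6) (nat_lit 10) (nat_lit 7) (nat_lit 8) (nat_lit 7) (by decide +kernel)
theorem L1005415 : W_2 (nat_lit 3) (nat_lit 0x7000180058000f0000800000000000000000000000000) (nat_lit 0x0) (nat_lit 0x30001800020000000000000000000000000000000000000000) := T_2 (nat_lit 179) (nat_lit 180) (nat_lit 0) (nat_lit 10) (nat_lit 10) L1005414 (by decide +kernel)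
theorem L1005416 : W_2 (nat_lit 4) (nat_lit 0x7000100058000f0000800000000000000000000000000) (nat_lit 0x0) (nat_lit 0x30001800028000400000000000000000000000000000000000) := T_2 (nat_lit 159) (nat_lit 142) (nat_lit 4) (nat_lit 6) (nat_lit 10) L1005415 (by decide +kernel)
theorem L1011719 : W_2 (nat_lit 2) (nat_lit 0x10000f00018005800080000000000000000000000000000000) (nat_lit 0x0) (nat_lit 0x40003000000000000000000000000000000000000000000000000) := D_2 (nat_lit 193) (nat_lit 192) (nat_lit 210) (nat_lit 1) (nat_lit 9) (nat_lit 10) (nat_lit 6) (nat_lit 6) (nat_lit 12) (by decide +kernel)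
theorem L1011720 : W_2 (nat_lit 3) (nat_lit 0x10000e00018005800080000000000000000000000000000000) (nat_lit 0x0) (nat_lit 0x40023000100000000000000000000000000000000000000000000) := T_2 (nat_lit 176) (nat_lit 197) (nat_lit 3) (nat_lit 6) (nat_lit 10) L1011719 (by decide +kernel)
theorem L1011721 : W_2 (nat_lit 4) (nat_lit 0xe00018005800080000000000000000000000000000000) (nat_lit 0x0) (nat_lit 0x40033000100020000000000000000000000000000000000000000) := T_2 (nat_lit 196) (nat_lit 161) (nat_lit 7) (nat_lit 8) (nat_lit 7) L1011720 (by decide +kernel)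
theorem L1011722 : W_2 (nat_lit 5) (nat_lit 0x600018005800080000000000000000000000000000000) (nat_lit 0x0) (nat_lit 0x40033001900020000000000000000000000000000000000000000) := T_2 (nat_lit 179) (nat_lit 180) (nat_lit 0) (nat_lit 10) (nat_lit 10) L1011721 (by decide +kernel)
theorem L1012080 : W_2 (nat_lit 2) (nat_lit 0x18005e00088000000000000000000000000000000) (nat_lit 0x0) (nat_lit 0x180004000000000000000000000000000000) := D_2 (nat_lit 140) (nat_lit 122) (nat_lit 139) (nat_lit 0) (nat_lit 7) (nat_lit 8) (nat_lit 3) (nat_lit 3) (nat_lit 8) (by decide +kernel)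
theorem L1012081 : W_2 (nat_lit 3) (nat_lit 0x18005e00080000000000000000000000000000000) (nat_lit 0x0) (nat_lit 0x18001c000000000000000000000000000000) := T_2 (nat_lit 123) (nat_lit 124) (nat_lit 0) (nat_lit 8) (nat_lit 8) L1012080 (by decide +kernel)
theorem L1012082 : W_2 (nat_lit 2) (nat_lit 0x4000100018005c00080000000000000000000000000000000) (nat_lit 0x0) (nat_lit 0xc0002000000000000000000000000000000000000000000000000) := D_2 (nat_lit 193) (nat_lit 211) (nat_lit 210) (nat_lit 7) (nat_lit 6) (nat_lit 8) (nat_lit 6) (nat_lit 6) (nat_lit 12) (by decide +kernel)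
theorem L1012083 : W_2 (nat_lit 3) (nat_lit 0x100018005c00080000000000000000000000000000000) (nat_lit 0x0) (nat_lit 0xc0006000200000000000000000000000000000000000000000000) := T_2 (nat_lit 194) (nat_lit 177) (nat_lit 6) (nat_lit 7) (nat_lit 11) L1012082 (by decide +kernel)
theorem L1012085 : W_2 (nat_lit 5) (nat_lit 0x300018005c00080000000000000000000000000000000) (nat_lit 0x0) (nat_lit 0x100008000000020003c001800000000000000000000000000) := T_2 (nat_lit 125) (nat_lit 108) (nat_lit 7) (nat_lit 6) (nat_lit 6) L1012084 (by decide +kernel)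
theorem L1012086 : W_2 (nat_lit 6) (nat_lit 0x100018005c00080000000000000000000000000000000) (nat_lit 0x0) (nat_lit 0x500028000000020003c001800000000000000000000000000) := T_2 (nat_lit 177) (nat_lit 194) (nat_lit 6) (nat_lit 7) (nat_lit 11) L1012085 (by decide +kernel)
theorem L1012087 : W_2 (nat_lit 7) (nat_lit 0x18005c00080000000000000000000000000000000) (nat_lit 0x0) (nat_lit 0xe000700038000000020003c0018000c0000000000000000000000) := Q_2 (nat_lit 176) (C_2 L1012083 (C_2 L1011438 (C_2 L1012086 N_2))) (by decide +kernel)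
theorem L1012088 : W_2 (nat_lit 2) (nat_lit 0x18005e00080000000000000000000000000000000) (nat_lit 0x0) (nat_lit 0x20000180000000000000000000000000000000000) := D_2 (nat_lit 140) (nat_lit 161) (nat_lit 139) (nat_lit 3) (nat_lit 4) (nat_lit 8) (nat_lit 3) (nat_lit 3) (nat_lit 8) (by decide +kernel)
theorem L1012089 : W_2 (nat_lit 2) (nat_lit 0x100018005e00090000000000000000000000000000000) (nat_lit 0x0) (nat_lit 0x20000800040000000000000000000000) := D_2 (nat_lit 107) (nat_lit 90) (nat_lit 125) (nat_lit 7) (nat_lit 5) (nat_lit 5) (nat_lit 4) (nat_lit 6) (nat_lit 10) (by decide +kernel)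
theorem L1012090 : W_2 (nat_lit 3) (nat_lit 0x18005e00090000000000000000000000000000000) (nat_lit 0x0) (nat_lit 0x2000100000000000020000800040000000000000000000000) := T_2 (nat_lit 176) (nat_lit 193) (nat_lit 4) (nat_lit 6) (nat_lit 11) L1012089 (by decide +kernel)
theorem L1012091 : W_2 (nat_lit 4) (nat_lit 0x18005e00080000000000000000000000000000000) (nat_lit 0x0) (nat_lit 0x2000100000000000038000800040000000000000000000000) := T_2 (nat_lit 124) (nat_lit 123) (nat_lit 0) (nat_lit 8) (nat_lit 8) L1012090 (by decide +kernel)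
theorem L1012092 : W_2 (nat_lit 5) (nat_lit 0x18005c00080000000000000000000000000000000) (nat_lit 0x0) (nat_lit 0x200010002000038003c000800040000000000000000000000) := Q_2 (nat_lit 141) (C_2 L1012088 (C_2 L1012081 (C_2 L1012091 N_2))) (by decide +kernel)
theorem L1012109 : W_2 (nat_lit 6) (nat_lit 0x400018005800080000000000000000000000000000000) (nat_lit 0x0) (nat_lit 0x40037001b00020000000000000000000000000000000000000000) := T_2 (nat_lit 177) (nat_lit 194) (nat_lit 6) (nat_lit 7) (nat_lit 11) L1011722 (by decide +kernel)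
theorem L1012133 : W_2 (nat_lit 5) (nat_lit 0x18005a00080000000000000000000000000000000) (nat_lit 0x0) (nat_lit 0x2000100020000580038000800040000000000000000000000) := Q_2 (nat_lit 142) (C_2 L1012091 (C_2 L1012088 N_2)) (by decide +kernel)
theorem L1040468 : W_2 (nat_lit 4) (nat_lit 0x78002c0000000000000000000000000000000) (nat_lit 0x0) (nat_lit 0x20001000180000400100008000000000000000000000000000) := T_2 (nat_lit 128) (nat_lit 142) (nat_lit 2) (nat_lit 6) (nat_lit 8) L988701 (by decide +kernel)
theorem L1040469 : W_2 (nat_lit 5) (nat_lit 0x78000c0000000000000000000000000000000) (nat_lit 0x0) (nat_lit 0x20001000180000400700008000000000000000000000000000) := T_2 (nat_lit 129) (nat_lit 130) (nat_lit 2) (nat_lit 7) (nat_lit 8) L1040468 (by decide +kernel)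
theorem L1078326 : W_2 (nat_lit 2) (nat_lit 0x60001c005800080000000000000000000000000000000) (nat_lit 0x0) (nat_lit 0x1900000000000000000000000000000000000000000000) := D_2 (nat_lit 179) (nat_lit 180) (nat_lit 176) (nat_lit 0) (nat_lit 10) (nat_lit 10) (nat_lit 0) (nat_lit 9) (nat_lit 10) (by decide +kernel)
theorem L1079276 : W_2 (nat_lit 2) (nat_lit 0x20001e00090005800080000000000000000000000000000000) (nat_lit 0x0) (nat_lit 0x200010000100000000000000000000000000000000000000000000) := D_2 (nat_lit 196) (nat_lit 176) (nat_lit 213) (nat_lit 3) (nat_lit 6) (nat_lit 10) (nat_lit 5) (nat_lit 10) (nat_lit 8) (by decide +kernel)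
theorem L1079277 : W_2 (nat_lit 3) (nat_lit 0x1e00090005800080000000000000000000000000000000) (nat_lit 0x0) (nat_lit 0x200070000100000000000000000000000000000000000000000000) := T_2 (nat_lit 197) (nat_lit 198) (nat_lit 3) (nat_lit 7) (nat_lit 10) L1079276 (by decide +kernel)
theorem L1079278 : W_2 (nat_lit 4) (nat_lit 0x1e00010005800080000000000000000000000000000000) (nat_lit 0x0) (nat_lit 0x200070000100180000000000000000000000000000000000000000) := T_2 (nat_lit 163) (nat_lit 164) (nat_lit 2) (nat_lit 7) (nat_lit 10) L1079277 (by decide +kernel)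
theorem L1118043 : W_2 (nat_lit 2) (nat_lit 0x2000100018000e000000000000000000000000000) (nat_lit 0x0) (nat_lit 0x200001800000000000000000000000000) := D_2 (nat_lit 108) (nat_lit 129) (nat_lit 107) (nat_lit 3) (nat_lit 6) (nat_lit 6) (nat_lit 3) (nat_lit 5) (nat_lit 6) (by decide +kernel)
theorem L1118044 : W_2 (nat_lit 3) (nat_lit 0x2000100018000c000000000000000000000000000) (nat_lit 0x0) (nat_lit 0x200003800100000000000000000000000) := T_2 (nat_lit 109) (nat_lit 92) (nat_lit 4) (nat_lit 8) (nat_lit 9) L1118043 (by decide +kernel)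
theorem L1118045 : W_2 (nat_lit 4) (nat_lit 0x20001000180004000000000000000000000000000) (nat_lit 0x0) (nat_lit 0x20000b800500000000000000000000000) := T_2 (nat_lit 111) (nat_lit 94) (nat_lit 6) (nat_lit 8) (nat_lit 9) L1118044 (by decide +kernel)
theorem L1139154 : W_2 (nat_lit 12) (nat_lit 0x20001000180004000000000000000000000000000) (nat_lit 0x0) (nat_lit 0x320019803ee00e400f8003c000c0006000000000000000) := Q_2 (nat_lit 129) (C_2 L1134402 (C_2 L1134382 (C_2 L1134400 (C_2 L1134372 N_2)))) (by decide +kernel)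
theorem L1139155 : W_2 (nat_lit 13) (nat_lit 0x20001000080004000000000000000000000000000) (nat_lit 0x0) (nat_lit 0x320019803ee00f600fb803dc00c0006000000000000000) := Q_2 (nat_lit 128) (C_2 L1130567 (C_2 L1139153 (C_2 L1118045 (C_2 L1139154 N_2)))) (by decide +kernel)
theorem L1149266 : W_2 (nat_lit 2) (nat_lit 0x100003000500078003c000000000000000000000000000) (nat_lit 0x0) (nat_lit 0x3000080000000000000000000) := D_2 (nat_lit 96) (nat_lit 97) (nat_lit 79) (nat_lit 2) (nat_lit 8) (nat_lit 6) (nat_lit 5) (nat_lit 11) (nat_lit 4) (by decide +kernel)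
theorem L1149267 : W_2 (nat_lit 3) (nat_lit 0x100003000500078002c000000000000000000000000000) (nat_lit 0x0) (nat_lit 0x40010003000080000000000000000000) := T_2 (nat_lit 112) (nat_lit 126) (nat_lit 2) (nat_lit 7) (nat_lit 7) L1149266 (by decide +kernel)
theorem L1149268 : W_2 (nat_lit 4) (nat_lit 0x100003000500078000c000000000000000000000000000) (nat_lit 0x0) (nat_lit 0x40070003000080000000000000000000) := T_2 (nat_lit 113) (nat_lit 114) (nat_lit 2) (nat_lit 8) (nat_lit 7) L1149267 (by decide +kernel)
theorem L1149269 : W_2 (nat_lit 5) (nat_lit 0x100003000500038000c000000000000000000000000000) (nat_lit 0x0) (nat_lit 0xc40070003000080000000000000000000) := T_2 (nat_lit 130) (nat_lit 131) (nat_lit 0) (nat_lit 12) (nat_lit 7) L1149268 (by decide +kernel)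
theorem L1158785 : W_2 (nat_lit 4) (nat_lit 0x20001000080007800000000000000000000000000) (nat_lit 0x0) (nat_lit 0x180080004e0000000000000000000000) := T_2 (nat_lit 124) (nat_lit 123) (nat_lit 1) (nat_lit 8) (nat_lit 6) L58661 (by decide +kernel)
theorem L1158786 : W_2 (nat_lit 5) (nat_lit 0x20001000080007000000000000000000000000000) (nat_lit 0x0) (nat_lit 0x1180088004e0000000000000000000000) := T_2 (nat_lit 107) (nat_lit 128) (nat_lit 3) (nat_lit 5) (nat_lit 6) L1158785 (by decide +kernel)
theorem L1158787 : W_2 (nat_lit 6) (nat_lit 0x1000080007000000000000000000000000000) (nat_lit 0x0) (nat_lit 0x200000001180088005e0000000000000000000000) := T_2 (nat_lit 161) (nat_lit 92) (nat_lit 4) (nat_lit 8) (nat_lit 9) L1158786 (by decide +kernel)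
theorem L1158788 : W_2 (nat_lit 7) (nat_lit 0x1000080007000000000000000000000000000) (nat_lit 0x0) (nat_lit 0x20003000000011c000c00170000000000000000000000) := T_2 (nat_lit 161) (nat_lit 92) (nat_lit 4) (nat_lit 8) (nat_lit 9) L104887 (by decide +kernel)
theorem L1158789 : W_2 (nat_lit 2) (nat_lit 0x1000090007800040000000000000000000000) (nat_lit 0x0) (nat_lit 0x20008000080000000000000000000000) := D_2 (nat_lit 111) (nat_lit 125) (nat_lit 91) (nat_lit 1) (nat_lit 9) (nat_lit 6) (nat_lit 0) (nat_lit 9) (nat_lit 6) (by decide +kernel)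
theorem L1158790 : W_2 (nat_lit 3) (nat_lit 0x1000090007800000000000000000000000000) (nat_lit 0x0) (nat_lit 0x200080000e0000000000000000000000) := T_2 (nat_lit 90) (nat_lit 89) (nat_lit 0) (nat_lit 8) (nat_lit 6) L1158789 (by decide +kernel)
theorem L1158791 : W_2 (nat_lit 4) (nat_lit 0x1000080007800000000000000000000000000) (nat_lit 0x0) (nat_lit 0x380080000e0000000000000000000000) := T_2 (nat_lit 124) (nat_lit 123) (nat_lit 1) (nat_lit 8) (nat_lit 6) L1158790 (by decide +kernel)
theorem L1158792 : W_2 (nat_lit 5) (nat_lit 0x1000080007000000000000000000000000000) (nat_lit 0x0) (nat_lit 0x1380088000e0000000000000000000000) := T_2 (nat_lit 107) (nat_lit 128) (nat_lit 3) (nat_lit 5) (nat_lit 6) L1158791 (by decide +kernel)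
theorem L1158793 : W_2 (nat_lit 5) (nat_lit 0x30001000080007000000000000000000000000000) (nat_lit 0x0) (nat_lit 0x380088004e0000000000000000000000) := T_2 (nat_lit 111) (nat_lit 94) (nat_lit 6) (nat_lit 8) (nat_lit 9) L52603 (by decide +kernel)
theorem L1158794 : W_2 (nat_lit 6) (nat_lit 0x20001000080007000000000000000000000000000) (nat_lit 0x0) (nat_lit 0x2000100000000380088004e0000000000000000000000) := T_2 (nat_lit 160) (nat_lit 177) (nat_lit 5) (nat_lit 8) (nat_lit 6) L1158793 (by decide +kernel)
theorem L1158795 : W_2 (nat_lit 7) (nat_lit 0x1000080007000000000000000000000000000) (nat_lit 0x0) (nat_lit 0x2000300000000380088005e0000000000000000000000) := T_2 (nat_lit 161) (nat_lit 92) (nat_lit 4) (nat_lit 8) (nat_lit 9) L1158794 (by decide +kernel)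
theorem L1158796 : W_2 (nat_lit 2) (nat_lit 0x20001000080007800040000000000000000000000) (nat_lit 0x0) (nat_lit 0x8000480000000000000000000000) := D_2 (nat_lit 111) (nat_lit 94) (nat_lit 91) (nat_lit 6) (nat_lit 8) (nat_lit 9) (nat_lit 0) (nat_lit 9) (nat_lit 6) (by decide +kernel)
theorem L1158797 : W_2 (nat_lit 3) (nat_lit 0x20001000080007800000000000000000000000000) (nat_lit 0x0) (nat_lit 0x80004e0000000000000000000000) := T_2 (nat_lit 90) (nat_lit 89) (nat_lit 0) (nat_lit 8) (nat_lit 6) L1158796 (by decide +kernel)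
theorem L1158798 : W_2 (nat_lit 4) (nat_lit 0x20001000080007000000000000000000000000000) (nat_lit 0x0) (nat_lit 0x1000088004e0000000000000000000000) := T_2 (nat_lit 107) (nat_lit 128) (nat_lit 3) (nat_lit 5) (nat_lit 6) L1158797 (by decide +kernel)
theorem L1158799 : W_2 (nat_lit 5) (nat_lit 0x1000080007000000000000000000000000000) (nat_lit 0x0) (nat_lit 0x200000001000088005e0000000000000000000000) := T_2 (nat_lit 161) (nat_lit 92) (nat_lit 4) (nat_lit 8) (nat_lit 9) L1158798 (by decide +kernel)
theorem L1158800 : W_2 (nat_lit 7) (nat_lit 0x3000100008000f000000000000000000000000000) (nat_lit 0x0) (nat_lit 0x8000c002e003300000000c0000000000000000000000) := T_2 (nat_lit 128) (nat_lit 129) (nat_lit 3) (nat_lit 6) (nat_lit 6) L1118050 (by decide +kernel)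
theorem L1158801 : W_2 (nat_lit 8) (nat_lit 0x30001000080007000000000000000000000000000) (nat_lit 0x0) (nat_lit 0x8000c002e003300080004c0000000000000000000000) := T_2 (nat_lit 111) (nat_lit 94) (nat_lit 6) (nat_lit 8) (nat_lit 9) L1158800 (by decide +kernel)
theorem L1158802 : W_2 (nat_lit 9) (nat_lit 0x20001000080007000000000000000000000000000) (nat_lit 0x0) (nat_lit 0x28001c002e003300080004c0000000000000000000000) := T_2 (nat_lit 160) (nat_lit 177) (nat_lit 5) (nat_lit 8) (nat_lit 6) L1158801 (by decide +kernel)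
theorem L1158803 : W_2 (nat_lit 10) (nat_lit 0x1000080007000000000000000000000000000) (nat_lit 0x0) (nat_lit 0x28003c002e003300080005c0000000000000000000000) := T_2 (nat_lit 161) (nat_lit 92) (nat_lit 4) (nat_lit 8) (nat_lit 9) L1158802 (by decide +kernel)
theorem L1158804 : W_2 (nat_lit 3) (nat_lit 0x20001000080007800000000000000000000000000) (nat_lit 0x0) (nat_lit 0x38008000400000000000000000000000) := T_2 (nat_lit 124) (nat_lit 123) (nat_lit 1) (nat_lit 8) (nat_lit 6) L55084 (by decide +kernel)
theorem L1158805 : W_2 (nat_lit 4) (nat_lit 0x20001000080007000000000000000000000000000) (nat_lit 0x0) (nat_lit 0x138008800400000000000000000000000) := T_2 (nat_lit 107) (nat_lit 128) (nat_lit 3) (nat_lit 5) (nat_lit 6) L1158804 (by decide +kernel)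
theorem L1158806 : W_2 (nat_lit 5) (nat_lit 0x1000080007000000000000000000000000000) (nat_lit 0x0) (nat_lit 0x20000000138008800500000000000000000000000) := T_2 (nat_lit 161) (nat_lit 92) (nat_lit 4) (nat_lit 8) (nat_lit 9) L1158805 (by decide +kernel)
theorem L1158807 : W_2 (nat_lit 11) (nat_lit 0x1000080006000000000000000000000000000) (nat_lit 0x0) (nat_lit 0x28003c002e0033c009c005f0000000000000000000000) := Q_2 (nat_lit 108) (C_2 L1158787 (C_2 L1158788 (C_2 L1158792 (C_2 L1158795 (C_2 L1158799 (C_2 L1158803 (C_2 L1158806 N_2))))))) (by decide +kernel)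
theorem L1158846 : W_2 (nat_lit 8) (nat_lit 0x1000080007000000000000000000000000000) (nat_lit 0x0) (nat_lit 0x14e000f000fc000000000000000000000) := T_2 (nat_lit 107) (nat_lit 128) (nat_lit 3) (nat_lit 5) (nat_lit 6) L136006 (by decide +kernel)
theorem L1158847 : W_2 (nat_lit 2) (nat_lit 0x10000a000f000480000000000000000000000) (nat_lit 0x0) (nat_lit 0x300000000000020000000000000000000) := D_2 (nat_lit 128) (nat_lit 129) (nat_lit 77) (nat_lit 3) (nat_lit 6) (nat_lit 6) (nat_lit 5) (nat_lit 9) (nat_lit 4) (by decide +kernel)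
theorem L1158848 : W_2 (nat_lit 3) (nat_lit 0x10000a000f000080000000000000000000000) (nat_lit 0x0) (nat_lit 0x300000000c00020000000000000000000) := T_2 (nat_lit 94) (nat_lit 95) (nat_lit 2) (nat_lit 6) (nat_lit 6) L1158847 (by decide +kernel)
theorem L1158849 : W_2 (nat_lit 4) (nat_lit 0x100008000f000080000000000000000000000) (nat_lit 0x0) (nat_lit 0x330000000c00020000000000000000000) := T_2 (nat_lit 125) (nat_lit 124) (nat_lit 1) (nat_lit 9) (nat_lit 6) L1158848 (by decide +kernel)
theorem L1158850 : W_2 (nat_lit 5) (nat_lit 0x100008000f000000000000000000000000000) (nat_lit 0x0) (nat_lit 0x330000000cc0020000000000000000000) := T_2 (nat_lit 91) (nat_lit 90) (nat_lit 0) (nat_lit 9) (nat_lit 6) L1158849 (by decide +kernel)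
theorem L1158851 : W_2 (nat_lit 8) (nat_lit 0x1000080007000000000000000000000000000) (nat_lit 0x0) (nat_lit 0x400f70038001dc0028001400000000000000) := Q_2 (nat_lit 111) (C_2 L1158844 (C_2 L1158819 (C_2 L1158825 (C_2 L1158850 (C_2 L1158841 N_2))))) (by decide +kernel)
theorem L1158852 : W_2 (nat_lit 11) (nat_lit 0x1000080006000000000000000000000000000) (nat_lit 0x0) (nat_lit 0xc00f7e039f01dfc02c001600000000000000) := Q_2 (nat_lit 108) (C_2 L1158792 (C_2 L135995 (C_2 L1158845 (C_2 L1158846 (C_2 L1158851 N_2))))) (by decide +kernel)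
theorem L1158853 : W_2 (nat_lit 2) (nat_lit 0x100008000e000400000000000000000000000) (nat_lit 0x0) (nat_lit 0x100000000000020001000000000000000) := D_2 (nat_lit 77) (nat_lit 128) (nat_lit 60) (nat_lit 5) (nat_lit 9) (nat_lit 4) (nat_lit 5) (nat_lit 9) (nat_lit 3) (by decide +kernel)
theorem L1158854 : W_2 (nat_lit 3) (nat_lit 0x100008000e000000000000000000000000000) (nat_lit 0x0) (nat_lit 0x20000000100000000400020001000000000000000) := T_2 (nat_lit 94) (nat_lit 161) (nat_lit 6) (nat_lit 8) (nat_lit 9) L1158853 (by decide +kernel)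
theorem L1158856 : W_2 (nat_lit 2) (nat_lit 0x100028001f000000000000000000000000000) (nat_lit 0x0) (nat_lit 0x1c00000000000000000000000) := D_2 (nat_lit 95) (nat_lit 94) (nat_lit 96) (nat_lit 2) (nat_lit 6) (nat_lit 6) (nat_lit 2) (nat_lit 7) (nat_lit 6) (by decide +kernel)
theorem L1158857 : W_2 (nat_lit 3) (nat_lit 0x100028001e000000000000000000000000000) (nat_lit 0x0) (nat_lit 0x100001001c00000000000000000000000) := T_2 (nat_lit 108) (nat_lit 128) (nat_lit 3) (nat_lit 6) (nat_lit 6) L1158856 (by decide +kernel)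
theorem L1158858 : W_2 (nat_lit 4) (nat_lit 0x100008001e000000000000000000000000000) (nat_lit 0x0) (nat_lit 0x700001001c00000000000000000000000) := T_2 (nat_lit 129) (nat_lit 130) (nat_lit 3) (nat_lit 7) (nat_lit 6) L1158857 (by decide +kernel)
theorem L1158859 : W_2 (nat_lit 5) (nat_lit 0x100008000e000000000000000000000000000) (nat_lit 0x0) (nat_lit 0x760031001c00000000000000000000000) := Q_2 (nat_lit 112) (C_2 L1158855 (C_2 L1158858 N_2)) (by decide +kernel)
theorem L1158860 : W_2 (nat_lit 15) (nat_lit 0x100008000e000000000000000000000000000) (nat_lit 0x0) (nat_lit 0x2e003e002780e70031803ce0000000000000000000000) := T_2 (nat_lit 161) (nat_lit 94) (nat_lit 6) (nat_lit 8) (nat_lit 9) L50777 (by decide +kernel)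
theorem L1158864 : W_2 (nat_lit 5) (nat_lit 0x100028001e000000000000000000000000000) (nat_lit 0x0) (nat_lit 0x1380018000e0000000000000000000000) := T_2 (nat_lit 108) (nat_lit 128) (nat_lit 3) (nat_lit 6) (nat_lit 6) L1158863 (by decide +kernel)
theorem L1158865 : W_2 (nat_lit 6) (nat_lit 0x100008001e000000000000000000000000000) (nat_lit 0x0) (nat_lit 0x7380018000e0000000000000000000000) := T_2 (nat_lit 129) (nat_lit 130) (nat_lit 3) (nat_lit 7) (nat_lit 6) L1158864 (by decide +kernel)
theorem L1158869 : W_2 (nat_lit 7) (nat_lit 0x100008000e000000000000000000000000000) (nat_lit 0x0) (nat_lit 0xf780318018e0000000000000000000000) := Q_2 (nat_lit 112) (C_2 L1158855 (C_2 L1158865 (C_2 L1158868 N_2))) (by decide +kernel)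
theorem L1158870 : W_2 (nat_lit 16) (nat_lit 0x1000080006000000000000000000000000000) (nat_lit 0x0) (nat_lit 0x2e003e002780f78039803ce0020001000000000000000) := Q_2 (nat_lit 111) (C_2 L1158854 (C_2 L1158859 (C_2 L1158860 (C_2 L1158869 N_2)))) (by decide +kernel)
theorem L1158871 : W_2 (nat_lit 17) (nat_lit 0x1000080004000000000000000000000000000) (nat_lit 0x0) (nat_lit 0x2e003e002f80f7e03bf03dfc02c001600000000000000) := Q_2 (nat_lit 109) (C_2 L1158807 (C_2 L1158809 (C_2 L1158852 (C_2 L1158870 N_2)))) (by decide +kernel)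
theorem L1158888 : W_2 (nat_lit 11) (nat_lit 0x1000080004000000000000000000000000000) (nat_lit 0x0) (nat_lit 0x2000b000e801f6007bc01fe007e002e00030000000000) := Q_2 (nat_lit 93) (C_2 L1158877 (C_2 L1048890 (C_2 L227 (C_2 L1048887 N_2)))) (by decide +kernel)
theorem L1158889 : W_2 (nat_lit 11) (nat_lit 0x1000080004000000000000000000000000000) (nat_lit 0x0) (nat_lit 0x2000b000e801f6007bc01fe007e003200010000000000) := Q_2 (nat_lit 93) (C_2 L1048887 (C_2 L1048890 (C_2 L1048690 (C_2 L227 N_2)))) (by decide +kernel)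
theorem L1158890 : W_2 (nat_lit 18) (nat_lit 0x1000080000000000000000000000000000000) (nat_lit 0x0) (nat_lit 0x3e00be00ef81f7e07ff03ffc0fe003e000f0005000000) := Q_2 (nat_lit 110) (C_2 L1048916 (C_2 L1048691 (C_2 L1158871 (C_2 L235 (C_2 L1158872 (C_2 L1048894 (C_2 L1158878 (C_2 L1158886 (C_2 L1158887 (C_2 L1158888 (C_2 L1158889 N_2))))))))))) (by decide +kernel)
theorem L1187058 : W_2 (nat_lit 2) (nat_lit 0x1c001a0007000700000000000000000000000) (nat_lit 0x0) (nat_lit 0x2000010008000000000000000000000000000) := D_2 (nat_lit 124) (nat_lit 111) (nat_lit 145) (nat_lit 1) (nat_lit 9) (nat_lit 6) (nat_lit 0) (nat_lit 9) (nat_lit 8) (by decide +kernel)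
theorem L1187059 : W_2 (nat_lit 3) (nat_lit 0x1c00180007000700000000000000000000000) (nat_lit 0x0) (nat_lit 0x8002000030008000000000000000000000000000) := T_2 (nat_lit 125) (nat_lit 159) (nat_lit 6) (nat_lit 6) (nat_lit 9) L1187058 (by decide +kernel)
theorem L1187060 : W_2 (nat_lit 4) (nat_lit 0x1c00180007000300000000000000000000000) (nat_lit 0x0) (nat_lit 0x8002000030008000400020000000000000000000) := T_2 (nat_lit 94) (nat_lit 77) (nat_lit 6) (nat_lit 8) (nat_lit 8) L1187059 (by decide +kernel)
theorem L1187061 : W_2 (nat_lit 5) (nat_lit 0x1c00180007000200000000000000000000000) (nat_lit 0x0) (nat_lit 0x8002000030008000500028000000000000000000) := T_2 (nat_lit 92) (nat_lit 75) (nat_lit 4) (nat_lit 8) (nat_lit 8) L1187060 (by decide +kernel)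
theorem L1187062 : W_2 (nat_lit 6) (nat_lit 0x1800180007000200000000000000000000000) (nat_lit 0x0) (nat_lit 0x8002600030008000500028000000000000000000) := T_2 (nat_lit 142) (nat_lit 141) (nat_lit 2) (nat_lit 5) (nat_lit 8) L1187061 (by decide +kernel)
theorem L1187063 : W_2 (nat_lit 7) (nat_lit 0x1000180007000200000000000000000000000) (nat_lit 0x0) (nat_lit 0x18002e00030008000500028000000000000000000) := T_2 (nat_lit 143) (nat_lit 160) (nat_lit 5) (nat_lit 8) (nat_lit 5) L1187062 (by decide +kernel)
theorem L1187068 : W_2 (nat_lit 8) (nat_lit 0x1000080007000200000000000000000000000) (nat_lit 0x0) (nat_lit 0x18002e00730008000500028000000000000000000) := Q_2 (nat_lit 128) (C_2 L110 (C_2 L1187063 (C_2 L1187067 N_2))) (by decide +kernel)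
theorem L1187069 : W_2 (nat_lit 9) (nat_lit 0x1000080006000200000000000000000000000) (nat_lit 0x0) (nat_lit 0x18002e0073c009c00570028000000000000000000) := Q_2 (nat_lit 108) (C_2 L1187006 (C_2 L1048599 (C_2 L1187068 N_2))) (by decide +kernel)
theorem L1187070 : W_2 (nat_lit 4) (nat_lit 0x1c00180007000300000000000000000000000) (nat_lit 0x0) (nat_lit 0x8000000030038000080000000000000000000000) := T_2 (nat_lit 125) (nat_lit 159) (nat_lit 6) (nat_lit 6) (nat_lit 9) L1086838 (by decide +kernel)
theorem L1187071 : W_2 (nat_lit 5) (nat_lit 0x1800180007000300000000000000000000000) (nat_lit 0x0) (nat_lit 0x8000600030038000080000000000000000000000) := T_2 (nat_lit 142) (nat_lit 141) (nat_lit 2) (nat_lit 5) (nat_lit 8) L1187070 (by decide +kernel)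
theorem L1187072 : W_2 (nat_lit 6) (nat_lit 0x1000180007000300000000000000000000000) (nat_lit 0x0) (nat_lit 0x18000e00030038000080000000000000000000000) := T_2 (nat_lit 143) (nat_lit 160) (nat_lit 5) (nat_lit 8) (nat_lit 5) L1187071 (by decide +kernel)
theorem L1187073 : W_2 (nat_lit 7) (nat_lit 0x1000180006000300000000000000000000000) (nat_lit 0x0) (nat_lit 0x18000e00030039800080000000000000000000000) := T_2 (nat_lit 108) (nat_lit 107) (nat_lit 3) (nat_lit 5) (nat_lit 6) L1187072 (by decide +kernel)
theorem L1187074 : W_2 (nat_lit 8) (nat_lit 0x1000180006000200000000000000000000000) (nat_lit 0x0) (nat_lit 0x18000e00030039800180008000000000000000000) := T_2 (nat_lit 92) (nat_lit 75) (nat_lit 4) (nat_lit 8) (nat_lit 8) L1187073 (by decide +kernel)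
theorem L1187078 : W_2 (nat_lit 9) (nat_lit 0x1000080006000200000000000000000000000) (nat_lit 0x0) (nat_lit 0x18002e00730039800180008000000000000000000) := Q_2 (nat_lit 128) (C_2 L111 (C_2 L1187074 (C_2 L1187077 N_2))) (by decide +kernel)
theorem L1187079 : W_2 (nat_lit 11) (nat_lit 0x1000080004000200000000000000000000000) (nat_lit 0x0) (nat_lit 0x18002e0073c03bc01df00ef000000000000000000) := Q_2 (nat_lit 109) (C_2 L66124 (C_2 L1048589 (C_2 L1187005 (C_2 L1187013 (C_2 L1187069 (C_2 L1187078 N_2)))))) (by decide +kernel)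
theorem L1187129 : W_2 (nat_lit 16) (nat_lit 0x1000080004000000000000000000000000000) (nat_lit 0x0) (nat_lit 0x1800ae0073c07be03ff01ff801c000e0007000280) := Q_2 (nat_lit 93) (C_2 L154 (C_2 L96 (C_2 L1186996 (C_2 L1187079 (C_2 L1187128 N_2))))) (by decide +kernel)
theorem L1187130 : W_2 (nat_lit 5) (nat_lit 0x2000100008000e000000000000000000000000000) (nat_lit 0x0) (nat_lit 0x28001c000e00000000000100000000000000000000000000000000) := T_2 (nat_lit 178) (nat_lit 128) (nat_lit 6) (nat_lit 8) (nat_lit 10) L50780 (by decide +kernel)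
theorem L1187131 : W_2 (nat_lit 6) (nat_lit 0x2000100008000c000000000000000000000000000) (nat_lit 0x0) (nat_lit 0x28001c000e00000000000100002000100000000000000000000000) := T_2 (nat_lit 109) (nat_lit 92) (nat_lit 4) (nat_lit 8) (nat_lit 9) L1187130 (by decide +kernel)
theorem L1188540 : W_2 (nat_lit 2) (nat_lit 0x100008001e000880000000000000000000000) (nat_lit 0x0) (nat_lit 0x1000440000000000000000000000) := D_2 (nat_lit 108) (nat_lit 94) (nat_lit 90) (nat_lit 2) (nat_lit 6) (nat_lit 6) (nat_lit 0) (nat_lit 9) (nat_lit 6) (by decide +kernel)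
theorem L1188541 : W_2 (nat_lit 3) (nat_lit 0x100008001e000080000000000000000000000) (nat_lit 0x0) (nat_lit 0x1001c40000000000000000000000) := T_2 (nat_lit 95) (nat_lit 96) (nat_lit 2) (nat_lit 7) (nat_lit 6) L1188540 (by decide +kernel)
theorem L1188542 : W_2 (nat_lit 4) (nat_lit 0x100008001e000000000000000000000000000) (nat_lit 0x0) (nat_lit 0x1001dc0000000000000000000000) := T_2 (nat_lit 91) (nat_lit 92) (nat_lit 0) (nat_lit 10) (nat_lit 6) L1188541 (by decide +kernel)
theorem L1188660 : W_2 (nat_lit 2) (nat_lit 0x100068003c001000000000000000000000000) (nat_lit 0x0) (nat_lit 0x4000000000000000080004000000000000000) := D_2 (nat_lit 79) (nat_lit 62) (nat_lit 146) (nat_lit 5) (nat_lit 11) (nat_lit 3) (nat_lit 5) (nat_lit 11) (nat_lit 4) (by decide +kernel)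
theorem L1188661 : W_2 (nat_lit 3) (nat_lit 0x100048003c001000000000000000000000000) (nat_lit 0x0) (nat_lit 0x4000200002000000080004000000000000000) := T_2 (nat_lit 129) (nat_lit 109) (nat_lit 3) (nat_lit 7) (nat_lit 6) L1188660 (by decide +kernel)
theorem L1188662 : W_2 (nat_lit 4) (nat_lit 0x100008003c001000000000000000000000000) (nat_lit 0x0) (nat_lit 0x4000e00002000000080004000000000000000) := T_2 (nat_lit 130) (nat_lit 131) (nat_lit 3) (nat_lit 8) (nat_lit 6) L1188661 (by decide +kernel)
theorem L1188663 : W_2 (nat_lit 5) (nat_lit 0x100008003c000000000000000000000000000) (nat_lit 0x0) (nat_lit 0x4000e00002003000080004000000000000000) := T_2 (nat_lit 96) (nat_lit 97) (nat_lit 2) (nat_lit 8) (nat_lit 6) L1188662 (by decide +kernel)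
theorem L1188664 : W_2 (nat_lit 2) (nat_lit 0x100048003c001800000000000000000000000) (nat_lit 0x0) (nat_lit 0x100008000000000000000040000000000000000000) := D_2 (nat_lit 147) (nat_lit 78) (nat_lit 164) (nat_lit 4) (nat_lit 11) (nat_lit 8) (nat_lit 4) (nat_lit 11) (nat_lit 9) (by decide +kernel)
theorem L1188665 : W_2 (nat_lit 3) (nat_lit 0x100048003c001000000000000000000000000) (nat_lit 0x0) (nat_lit 0x100008000000002000800040000000000000000000) := T_2 (nat_lit 95) (nat_lit 109) (nat_lit 2) (nat_lit 7) (nat_lit 6) L1188664 (by decide +kernel)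
theorem L1188666 : W_2 (nat_lit 4) (nat_lit 0x100048003c000000000000000000000000000) (nat_lit 0x0) (nat_lit 0x100008000000002003800040000000000000000000) := T_2 (nat_lit 96) (nat_lit 97) (nat_lit 2) (nat_lit 8) (nat_lit 6) L1188665 (by decide +kernel)
theorem L1188667 : W_2 (nat_lit 5) (nat_lit 0x100008003c000000000000000000000000000) (nat_lit 0x0) (nat_lit 0x100008000c00002003800040000000000000000000) := T_2 (nat_lit 130) (nat_lit 131) (nat_lit 3) (nat_lit 8) (nat_lit 6) L1188666 (by decide +kernel)
theorem L1188668 : W_2 (nat_lit 2) (nat_lit 0x100008007c000000000000000000000000000) (nat_lit 0x0) (nat_lit 0x7000000000000000000000000) := D_2 (nat_lit 97) (nat_lit 96) (nat_lit 98) (nat_lit 2) (nat_lit 8) (nat_lit 6) (nat_lit 2) (nat_lit 9) (nat_lit 6) (by decide +kernel)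
theorem L1188669 : W_2 (nat_lit 2) (nat_lit 0x100108007c004000000000000000000000000) (nat_lit 0x0) (nat_lit 0x2000080008000000000000000000000000) := D_2 (nat_lit 115) (nat_lit 133) (nat_lit 99) (nat_lit 3) (nat_lit 10) (nat_lit 6) (nat_lit 2) (nat_lit 10) (nat_lit 6) (by decide +kernel)
theorem L1188670 : W_2 (nat_lit 3) (nat_lit 0x100108007c000000000000000000000000000) (nat_lit 0x0) (nat_lit 0x200008000e000000000000000000000000) := T_2 (nat_lit 98) (nat_lit 97) (nat_lit 2) (nat_lit 9) (nat_lit 6) L1188669 (by decide +kernel)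
theorem L1188671 : W_2 (nat_lit 4) (nat_lit 0x100008007c000000000000000000000000000) (nat_lit 0x0) (nat_lit 0x380008000e000000000000000000000000) := T_2 (nat_lit 132) (nat_lit 131) (nat_lit 3) (nat_lit 9) (nat_lit 6) L1188670 (by decide +kernel)
theorem L1188672 : W_2 (nat_lit 2) (nat_lit 0x10010800fc004800000000000000000000000) (nat_lit 0x0) (nat_lit 0x102001000000000000000000000000) := D_2 (nat_lit 96) (nat_lit 116) (nat_lit 109) (nat_lit 0) (nat_lit 14) (nat_lit 6) (nat_lit 2) (nat_lit 7) (nat_lit 6) (by decide +kernel)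
theorem L1188673 : W_2 (nat_lit 3) (nat_lit 0x10010800fc004000000000000000000000000) (nat_lit 0x0) (nat_lit 0x102001c00000000000000000000000) := T_2 (nat_lit 95) (nat_lit 94) (nat_lit 0) (nat_lit 13) (nat_lit 6) L1188672 (by decide +kernel)
theorem L1188674 : W_2 (nat_lit 4) (nat_lit 0x10010800fc000000000000000000000000000) (nat_lit 0x0) (nat_lit 0x10200dc00000000000000000000000) := T_2 (nat_lit 98) (nat_lit 99) (nat_lit 2) (nat_lit 10) (nat_lit 6) L1188673 (by decide +kernel)
theorem L1188675 : W_2 (nat_lit 5) (nat_lit 0x100108007c000000000000000000000000000) (nat_lit 0x0) (nat_lit 0x200018200dc00000000000000000000000) := T_2 (nat_lit 115) (nat_lit 133) (nat_lit 3) (nat_lit 10) (nat_lit 6) L1188674 (by decide +kernel)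
theorem L1188676 : W_2 (nat_lit 6) (nat_lit 0x100008007c000000000000000000000000000) (nat_lit 0x0) (nat_lit 0x380018200dc00000000000000000000000) := T_2 (nat_lit 132) (nat_lit 131) (nat_lit 3) (nat_lit 9) (nat_lit 6) L1188675 (by decide +kernel)
theorem L1188677 : W_2 (nat_lit 2) (nat_lit 0x100088007c001800000000000000000000000) (nat_lit 0x0) (nat_lit 0x180000400000000000000000000000) := D_2 (nat_lit 115) (nat_lit 116) (nat_lit 94) (nat_lit 0) (nat_lit 14) (nat_lit 6) (nat_lit 0) (nat_lit 13) (nat_lit 6) (by decide +kernel)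
theorem L1188678 : W_2 (nat_lit 3) (nat_lit 0x100088007c001000000000000000000000000) (nat_lit 0x0) (nat_lit 0x182000c00000000000000000000000) := T_2 (nat_lit 95) (nat_lit 109) (nat_lit 2) (nat_lit 7) (nat_lit 6) L1188677 (by decide +kernel)
theorem L1188679 : W_2 (nat_lit 4) (nat_lit 0x100088007c000000000000000000000000000) (nat_lit 0x0) (nat_lit 0x182003c00000000000000000000000) := T_2 (nat_lit 96) (nat_lit 97) (nat_lit 2) (nat_lit 8) (nat_lit 6) L1188678 (by decide +kernel)
theorem L1188680 : W_2 (nat_lit 5) (nat_lit 0x100008007c000000000000000000000000000) (nat_lit 0x0) (nat_lit 0x1800182003c00000000000000000000000) := T_2 (nat_lit 131) (nat_lit 132) (nat_lit 3) (nat_lit 9) (nat_lit 6) L1188679 (by decide +kernel)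
theorem L1188681 : W_2 (nat_lit 7) (nat_lit 0x100008003c000000000000000000000000000) (nat_lit 0x0) (nat_lit 0x38001c200fc00000000000000000000000) := Q_2 (nat_lit 114) (C_2 L1188668 (C_2 L1188671 (C_2 L1188676 (C_2 L1188680 N_2)))) (by decide +kernel)
theorem L1188682 : W_2 (nat_lit 2) (nat_lit 0x100088003c002000000000000000000000000) (nat_lit 0x0) (nat_lit 0x1000040004000000000000000000000000) := D_2 (nat_lit 114) (nat_lit 98) (nat_lit 132) (nat_lit 2) (nat_lit 9) (nat_lit 6) (nat_lit 3) (nat_lit 9) (nat_lit 6) (by decide +kernel)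
theorem L1188683 : W_2 (nat_lit 3) (nat_lit 0x100008003c002000000000000000000000000) (nat_lit 0x0) (nat_lit 0x1c00040004000000000000000000000000) := T_2 (nat_lit 131) (nat_lit 130) (nat_lit 3) (nat_lit 8) (nat_lit 6) L1188682 (by decide +kernel)
theorem L1188684 : W_2 (nat_lit 4) (nat_lit 0x100008003c000000000000000000000000000) (nat_lit 0x0) (nat_lit 0x1c00040007000000000000000000000000) := T_2 (nat_lit 97) (nat_lit 96) (nat_lit 2) (nat_lit 8) (nat_lit 6) L1188683 (by decide +kernel)
theorem L1188834 : W_2 (nat_lit 2) (nat_lit 0x500010000900048003c000000000000000000000000000) (nat_lit 0x0) (nat_lit 0xa0002000000000000000000000000000000000000000000000) := D_2 (nat_lit 181) (nat_lit 197) (nat_lit 199) (nat_lit 5) (nat_lit 11) (nat_lit 7) (nat_lit 7) (nat_lit 11) (nat_lit 7) (by decide +kernel)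
theorem L1188835 : W_2 (nat_lit 3) (nat_lit 0x100010000900048003c000000000000000000000000000) (nat_lit 0x0) (nat_lit 0xa0006000200000000000000000000000000000000000000000) := T_2 (nat_lit 182) (nat_lit 165) (nat_lit 7) (nat_lit 11) (nat_lit 6) L1188834 (by decide +kernel)
theorem L1188836 : W_2 (nat_lit 4) (nat_lit 0x10000900048003c000000000000000000000000000) (nat_lit 0x0) (nat_lit 0xa0007000280000000000000000000000000000000000000000) := T_2 (nat_lit 180) (nat_lit 163) (nat_lit 5) (nat_lit 11) (nat_lit 6) L1188835 (by decide +kernel)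
theorem L1188843 : W_2 (nat_lit 5) (nat_lit 0x10000100048003c000000000000000000000000000) (nat_lit 0x0) (nat_lit 0xa0007000280008000000000000800000000000000000000000) := T_2 (nat_lit 147) (nat_lit 95) (nat_lit 4) (nat_lit 11) (nat_lit 9) L1188836 (by decide +kernel)
theorem L1188848 : W_2 (nat_lit 2) (nat_lit 0x100088007c004400000000000000000000000) (nat_lit 0x0) (nat_lit 0x80008800000000000000000000000) := D_2 (nat_lit 115) (nat_lit 95) (nat_lit 99) (nat_lit 0) (nat_lit 13) (nat_lit 6) (nat_lit 2) (nat_lit 10) (nat_lit 6) (by decide +kernel)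
theorem L1188849 : W_2 (nat_lit 3) (nat_lit 0x100088007c000400000000000000000000000) (nat_lit 0x0) (nat_lit 0x8000e800000000000000000000000) := T_2 (nat_lit 98) (nat_lit 97) (nat_lit 2) (nat_lit 9) (nat_lit 6) L1188848 (by decide +kernel)
theorem L1188850 : W_2 (nat_lit 4) (nat_lit 0x100088003c000400000000000000000000000) (nat_lit 0x0) (nat_lit 0x10000c000e800000000000000000000000) := T_2 (nat_lit 114) (nat_lit 132) (nat_lit 3) (nat_lit 9) (nat_lit 6) L1188849 (by decide +kernel)
theorem L1188851 : W_2 (nat_lit 5) (nat_lit 0x100008001c001000000000000000000000000) (nat_lit 0x0) (nat_lit 0x4000e00022002000080004000000000000000) := T_2 (nat_lit 113) (nat_lit 97) (nat_lit 2) (nat_lit 8) (nat_lit 6) L1188662 (by decide +kernel)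
theorem L1188852 : W_2 (nat_lit 3) (nat_lit 0x100008003c001800000000000000000000000) (nat_lit 0x0) (nat_lit 0x100008000c00000000000040000000000000000000) := T_2 (nat_lit 130) (nat_lit 131) (nat_lit 3) (nat_lit 8) (nat_lit 6) L1188664 (by decide +kernel)
theorem L1188853 : W_2 (nat_lit 4) (nat_lit 0x100008003c001000000000000000000000000) (nat_lit 0x0) (nat_lit 0x100008000c00002000800040000000000000000000) := T_2 (nat_lit 95) (nat_lit 109) (nat_lit 2) (nat_lit 7) (nat_lit 6) L1188852 (by decide +kernel)
theorem L1188854 : W_2 (nat_lit 5) (nat_lit 0x100008001c001000000000000000000000000) (nat_lit 0x0) (nat_lit 0x100008000c00022002800040000000000000000000) := T_2 (nat_lit 113) (nat_lit 97) (nat_lit 2) (nat_lit 8) (nat_lit 6) L1188853 (by decide +kernel)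
theorem L1188855 : W_2 (nat_lit 2) (nat_lit 0x100008001c003000000000000000000000000) (nat_lit 0x0) (nat_lit 0x2004800000000000000000000000) := D_2 (nat_lit 95) (nat_lit 109) (nat_lit 98) (nat_lit 2) (nat_lit 7) (nat_lit 6) (nat_lit 1) (nat_lit 13) (nat_lit 5) (by decide +kernel)
theorem L1188856 : W_2 (nat_lit 3) (nat_lit 0x100008001c001000000000000000000000000) (nat_lit 0x0) (nat_lit 0x22006800000000000000000000000) := T_2 (nat_lit 97) (nat_lit 113) (nat_lit 2) (nat_lit 8) (nat_lit 6) L1188855 (by decide +kernel)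
theorem L1188857 : W_2 (nat_lit 2) (nat_lit 0x100008001c003000000000000000000000000) (nat_lit 0x0) (nat_lit 0x4c00000000000000000000000) := D_2 (nat_lit 95) (nat_lit 98) (nat_lit 94) (nat_lit 1) (nat_lit 13) (nat_lit 5) (nat_lit 1) (nat_lit 12) (nat_lit 5) (by decide +kernel)
theorem L1188858 : W_2 (nat_lit 3) (nat_lit 0x100008001c001000000000000000000000000) (nat_lit 0x0) (nat_lit 0x20006c00000000000000000000000) := T_2 (nat_lit 97) (nat_lit 113) (nat_lit 2) (nat_lit 8) (nat_lit 6) L1188857 (by decide +kernel)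
theorem L1188859 : W_2 (nat_lit 2) (nat_lit 0x100008001c001800000000000000000000000) (nat_lit 0x0) (nat_lit 0x6400000000000000000000000) := D_2 (nat_lit 97) (nat_lit 98) (nat_lit 94) (nat_lit 1) (nat_lit 13) (nat_lit 5) (nat_lit 1) (nat_lit 12) (nat_lit 5) (by decide +kernel)
theorem L1188860 : W_2 (nat_lit 3) (nat_lit 0x100008001c001000000000000000000000000) (nat_lit 0x0) (nat_lit 0x2006c00000000000000000000000) := T_2 (nat_lit 95) (nat_lit 109) (nat_lit 2) (nat_lit 7) (nat_lit 6) L1188859 (by decide +kernel)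
theorem L1188861 : W_2 (nat_lit 2) (nat_lit 0x100028001c001000000000000000000000000) (nat_lit 0x0) (nat_lit 0x400002000800000000000000000000000) := D_2 (nat_lit 109) (nat_lit 95) (nat_lit 130) (nat_lit 2) (nat_lit 7) (nat_lit 6) (nat_lit 3) (nat_lit 7) (nat_lit 6) (by decide +kernel)
theorem L1188862 : W_2 (nat_lit 2) (nat_lit 0x500028001c001800000000000000000000000) (nat_lit 0x0) (nat_lit 0x80000000000020000400000000000000000000000) := D_2 (nat_lit 163) (nat_lit 94) (nat_lit 113) (nat_lit 4) (nat_lit 10) (nat_lit 9) (nat_lit 6) (nat_lit 10) (nat_lit 9) (by decide +kernel)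
theorem L1188863 : W_2 (nat_lit 3) (nat_lit 0x100028001c001800000000000000000000000) (nat_lit 0x0) (nat_lit 0x80004000000020000400080000000000000000000) := T_2 (nat_lit 146) (nat_lit 79) (nat_lit 6) (nat_lit 10) (nat_lit 8) L1188862 (by decide +kernel)
theorem L1188864 : W_2 (nat_lit 4) (nat_lit 0x100028001c001000000000000000000000000) (nat_lit 0x0) (nat_lit 0x80004000000022000c00080000000000000000000) := T_2 (nat_lit 95) (nat_lit 109) (nat_lit 2) (nat_lit 7) (nat_lit 6) L1188863 (by decide +kernel)
theorem L1188865 : W_2 (nat_lit 2) (nat_lit 0x500028001c001000000000000000000000000) (nat_lit 0x0) (nat_lit 0x80000000000020000400000000000000000000000) := D_2 (nat_lit 163) (nat_lit 94) (nat_lit 113) (nat_lit 4) (nat_lit 10) (nat_lit 9) (nat_lit 6) (nat_lit 10) (nat_lit 9) (by decide +kernel)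
theorem L1188866 : W_2 (nat_lit 2) (nat_lit 0x8000500028001c001800000000000000000000000) (nat_lit 0x0) (nat_lit 0x2000100008000000000000000000000000000000000000) := D_2 (nat_lit 164) (nat_lit 181) (nat_lit 147) (nat_lit 7) (nat_lit 10) (nat_lit 6) (nat_lit 7) (nat_lit 10) (nat_lit 5) (by decide +kernel)
theorem L1188867 : W_2 (nat_lit 3) (nat_lit 0x8000500028001c001000000000000000000000000) (nat_lit 0x0) (nat_lit 0x2000100008000000000000800080000000000000000000) := T_2 (nat_lit 95) (nat_lit 79) (nat_lit 6) (nat_lit 10) (nat_lit 8) L1188866 (by decide +kernel)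
theorem L1188868 : W_2 (nat_lit 4) (nat_lit 0x500028001c001000000000000000000000000) (nat_lit 0x0) (nat_lit 0x2000180008000000020000800080000000000000000000) := T_2 (nat_lit 163) (nat_lit 113) (nat_lit 6) (nat_lit 10) (nat_lit 9) L1188867 (by decide +kernel)
theorem L1188869 : W_2 (nat_lit 4) (nat_lit 0x500028001c001000000000000000000000000) (nat_lit 0x0) (nat_lit 0x2000180008000000000000c00080000000000000000000) := T_2 (nat_lit 163) (nat_lit 94) (nat_lit 4) (nat_lit 10) (nat_lit 9) L1188867 (by decide +kernel)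
theorem L1188870 : W_2 (nat_lit 2) (nat_lit 0xd00068001c001c00000000000000000000000) (nat_lit 0x0) (nat_lit 0x1800020000000000000000000000000000) := D_2 (nat_lit 131) (nat_lit 113) (nat_lit 132) (nat_lit 3) (nat_lit 8) (nat_lit 6) (nat_lit 0) (nat_lit 13) (nat_lit 7) (by decide +kernel)
theorem L1188871 : W_2 (nat_lit 3) (nat_lit 0xd00028001c001c00000000000000000000000) (nat_lit 0x0) (nat_lit 0x1c00020000000040000000000000000000) := T_2 (nat_lit 130) (nat_lit 78) (nat_lit 7) (nat_lit 10) (nat_lit 4) L1188870 (by decide +kernel)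
theorem L1188872 : W_2 (nat_lit 4) (nat_lit 0x500028001c001c00000000000000000000000) (nat_lit 0x0) (nat_lit 0x100008001c00020000000040000000000000000000) := T_2 (nat_lit 147) (nat_lit 164) (nat_lit 7) (nat_lit 10) (nat_lit 5) L1188871 (by decide +kernel)
theorem L1188873 : W_2 (nat_lit 5) (nat_lit 0x500028001c001800000000000000000000000) (nat_lit 0x0) (nat_lit 0x100008001c00020000400060000000000000000000) := T_2 (nat_lit 94) (nat_lit 77) (nat_lit 4) (nat_lit 10) (nat_lit 8) L1188872 (by decide +kernel)
theorem L1188874 : W_2 (nat_lit 6) (nat_lit 0x500028001c001000000000000000000000000) (nat_lit 0x0) (nat_lit 0x100008001c00020000c000e0000000000000000000) := T_2 (nat_lit 95) (nat_lit 79) (nat_lit 6) (nat_lit 10) (nat_lit 8) L1188873 (by decide +kernel)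
theorem L1188875 : W_2 (nat_lit 7) (nat_lit 0x100028001c001000000000000000000000000) (nat_lit 0x0) (nat_lit 0x200018000c001c00020000c000e0000000000000000000) := Q_2 (nat_lit 146) (C_2 L1188865 (C_2 L1188868 (C_2 L1188869 (C_2 L1188874 N_2)))) (by decide +kernel)
theorem L1188876 : W_2 (nat_lit 2) (nat_lit 0x100068001c001000000000000000000000000) (nat_lit 0x0) (nat_lit 0x1800020000000000000000000000000000) := D_2 (nat_lit 131) (nat_lit 132) (nat_lit 113) (nat_lit 0) (nat_lit 13) (nat_lit 7) (nat_lit 3) (nat_lit 8) (nat_lit 6) (by decide +kernel)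
theorem L1188877 : W_2 (nat_lit 3) (nat_lit 0x100028001c001000000000000000000000000) (nat_lit 0x0) (nat_lit 0x1c00022000000000000000000000000000) := T_2 (nat_lit 130) (nat_lit 109) (nat_lit 3) (nat_lit 7) (nat_lit 6) L1188876 (by decide +kernel)
theorem L1188878 : W_2 (nat_lit 8) (nat_lit 0x100008001c001000000000000000000000000) (nat_lit 0x0) (nat_lit 0x200018000c001e00022000c000e0000000000000000000) := Q_2 (nat_lit 129) (C_2 L1188861 (C_2 L1188864 (C_2 L1188875 (C_2 L1188877 N_2)))) (by decide +kernel)
theorem L1188879 : W_2 (nat_lit 9) (nat_lit 0x100008001c000000000000000000000000000) (nat_lit 0x0) (nat_lit 0x200018000c001e00022007c000e0004000000000000000) := Q_2 (nat_lit 96) (C_2 L1188851 (C_2 L1188854 (C_2 L1188856 (C_2 L1188858 (C_2 L1188860 (C_2 L1188878 N_2)))))) (by decide +kernel)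
theorem L1188880 : W_2 (nat_lit 2) (nat_lit 0x100008001e000000000000000000000000000) (nat_lit 0x0) (nat_lit 0x20000000000000000500000000000000000000000) := D_2 (nat_lit 161) (nat_lit 94) (nat_lit 92) (nat_lit 6) (nat_lit 8) (nat_lit 9) (nat_lit 4) (nat_lit 8) (nat_lit 9) (by decide +kernel)
theorem L1188881 : W_2 (nat_lit 2) (nat_lit 0x100008001e000800000000000000000000000) (nat_lit 0x0) (nat_lit 0x20000000000001000400000000000000000000000) := D_2 (nat_lit 94) (nat_lit 108) (nat_lit 161) (nat_lit 2) (nat_lit 6) (nat_lit 6) (nat_lit 6) (nat_lit 8) (nat_lit 9) (by decide +kernel)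
theorem L1188882 : W_2 (nat_lit 3) (nat_lit 0x100008001e000000000000000000000000000) (nat_lit 0x0) (nat_lit 0x20000000000001001c00000000000000000000000) := T_2 (nat_lit 95) (nat_lit 96) (nat_lit 2) (nat_lit 7) (nat_lit 6) L1188881 (by decide +kernel)
theorem L1188883 : W_2 (nat_lit 2) (nat_lit 0x100008001e000000000000000000000000000) (nat_lit 0x0) (nat_lit 0x20000000000000000180000000000000000000000) := D_2 (nat_lit 92) (nat_lit 161) (nat_lit 91) (nat_lit 4) (nat_lit 8) (nat_lit 9) (nat_lit 0) (nat_lit 10) (nat_lit 6) (by decide +kernel)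
theorem L1188884 : W_2 (nat_lit 5) (nat_lit 0x100008001c000000000000000000000000000) (nat_lit 0x0) (nat_lit 0x20000000000003001dc0000000000000000000000) := Q_2 (nat_lit 109) (C_2 L1188880 (C_2 L1188542 (C_2 L1188882 (C_2 L1188883 N_2)))) (by decide +kernel)
theorem L1188885 : W_2 (nat_lit 5) (nat_lit 0x100008003c000400000000000000000000000) (nat_lit 0x0) (nat_lit 0x1c000c000e800000000000000000000000) := T_2 (nat_lit 131) (nat_lit 130) (nat_lit 3) (nat_lit 8) (nat_lit 6) L1188850 (by decide +kernel)
theorem L1188886 : W_2 (nat_lit 6) (nat_lit 0x100008003c000000000000000000000000000) (nat_lit 0x0) (nat_lit 0x20000001c000c000ec00000000000000000000000) := T_2 (nat_lit 94) (nat_lit 161) (nat_lit 6) (nat_lit 8) (nat_lit 9) L1188885 (by decide +kernel)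
theorem L1188887 : W_2 (nat_lit 2) (nat_lit 0x10000800fc002400000000000000000000000) (nat_lit 0x0) (nat_lit 0x3800000000000000000000000000000000) := D_2 (nat_lit 132) (nat_lit 131) (nat_lit 133) (nat_lit 3) (nat_lit 9) (nat_lit 6) (nat_lit 3) (nat_lit 10) (nat_lit 6) (by decide +kernel)
theorem L1188888 : W_2 (nat_lit 3) (nat_lit 0x100008007c002400000000000000000000000) (nat_lit 0x0) (nat_lit 0x3800080000800000000000000000000000) := T_2 (nat_lit 115) (nat_lit 95) (nat_lit 0) (nat_lit 13) (nat_lit 6) L1188887 (by decide +kernel)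
theorem L1188889 : W_2 (nat_lit 4) (nat_lit 0x100008003c002400000000000000000000000) (nat_lit 0x0) (nat_lit 0x38000c0004800000000000000000000000) := T_2 (nat_lit 114) (nat_lit 98) (nat_lit 2) (nat_lit 9) (nat_lit 6) L1188888 (by decide +kernel)
theorem L1188890 : W_2 (nat_lit 5) (nat_lit 0x100008003c002000000000000000000000000) (nat_lit 0x0) (nat_lit 0x200000038000c0004c00000000000000000000000) := T_2 (nat_lit 94) (nat_lit 161) (nat_lit 6) (nat_lit 8) (nat_lit 9) L1188889 (by decide +kernel)
theorem L1188891 : W_2 (nat_lit 6) (nat_lit 0x100008003c000000000000000000000000000) (nat_lit 0x0) (nat_lit 0x200000038000c0007c00000000000000000000000) := T_2 (nat_lit 97) (nat_lit 96) (nat_lit 2) (nat_lit 8) (nat_lit 6) L1188890 (by decide +kernel)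
theorem L1188892 : W_2 (nat_lit 2) (nat_lit 0x100008007c004400000000000000000000000) (nat_lit 0x0) (nat_lit 0x80008800000000000000000000000) := D_2 (nat_lit 115) (nat_lit 99) (nat_lit 95) (nat_lit 2) (nat_lit 10) (nat_lit 6) (nat_lit 0) (nat_lit 13) (nat_lit 6) (by decide +kernel)
theorem L1188893 : W_2 (nat_lit 3) (nat_lit 0x100008007c004000000000000000000000000) (nat_lit 0x0) (nat_lit 0x20000000000080008c00000000000000000000000) := T_2 (nat_lit 94) (nat_lit 161) (nat_lit 6) (nat_lit 8) (nat_lit 9) L1188892 (by decide +kernel)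
theorem L1188894 : W_2 (nat_lit 4) (nat_lit 0x100008007c000000000000000000000000000) (nat_lit 0x0) (nat_lit 0x2000000000008000ec00000000000000000000000) := T_2 (nat_lit 98) (nat_lit 97) (nat_lit 2) (nat_lit 9) (nat_lit 6) L1188893 (by decide +kernel)
theorem L1188895 : W_2 (nat_lit 2) (nat_lit 0x10020800fc008400000001000000000000000) (nat_lit 0x0) (nat_lit 0x4000100010000000000000000000000000) := D_2 (nat_lit 116) (nat_lit 100) (nat_lit 134) (nat_lit 2) (nat_lit 11) (nat_lit 6) (nat_lit 3) (nat_lit 11) (nat_lit 6) (by decide +kernel)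
theorem L1188896 : W_2 (nat_lit 3) (nat_lit 0x10000800fc008400000001000000000000000) (nat_lit 0x0) (nat_lit 0x7000100010000000000000000000000000) := T_2 (nat_lit 133) (nat_lit 132) (nat_lit 3) (nat_lit 10) (nat_lit 6) L1188895 (by decide +kernel)
theorem L1188897 : W_2 (nat_lit 4) (nat_lit 0x10000800fc000400000001000000000000000) (nat_lit 0x0) (nat_lit 0x700010001c000000000000000000000000) := T_2 (nat_lit 99) (nat_lit 98) (nat_lit 2) (nat_lit 10) (nat_lit 6) L1188896 (by decide +kernel)
theorem L1188898 : W_2 (nat_lit 5) (nat_lit 0x100008007c000400000001000000000000000) (nat_lit 0x0) (nat_lit 0x700018001c800000000000000000000000) := T_2 (nat_lit 115) (nat_lit 95) (nat_lit 0) (nat_lit 13) (nat_lit 6) L1188897 (by decide +kernel)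
theorem L1188899 : W_2 (nat_lit 6) (nat_lit 0x100008007c000400000000000000000000000) (nat_lit 0x0) (nat_lit 0x700018001c800020001000000000000000) := T_2 (nat_lit 60) (nat_lit 77) (nat_lit 5) (nat_lit 9) (nat_lit 3) L1188898 (by decide +kernel)
theorem L1188900 : W_2 (nat_lit 7) (nat_lit 0x100008007c000000000000000000000000000) (nat_lit 0x0) (nat_lit 0x2000000700018001cc00020001000000000000000) := T_2 (nat_lit 94) (nat_lit 161) (nat_lit 6) (nat_lit 8) (nat_lit 9) L1188899 (by decide +kernel)
theorem L1188901 : W_2 (nat_lit 2) (nat_lit 0x10000800fc000000000000000000000000000) (nat_lit 0x0) (nat_lit 0x20000000000000000c00000000000000000000000) := D_2 (nat_lit 94) (nat_lit 161) (nat_lit 95) (nat_lit 6) (nat_lit 8) (nat_lit 9) (nat_lit 0) (nat_lit 13) (nat_lit 6) (by decide +kernel)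
theorem L1188902 : W_2 (nat_lit 2) (nat_lit 0x10000800fc001000000000000000000000000) (nat_lit 0x0) (nat_lit 0x100000c00000000000000000000000) := D_2 (nat_lit 95) (nat_lit 116) (nat_lit 94) (nat_lit 0) (nat_lit 14) (nat_lit 6) (nat_lit 0) (nat_lit 13) (nat_lit 6) (by decide +kernel)
theorem L1188903 : W_2 (nat_lit 3) (nat_lit 0x10000800fc000000000000000000000000000) (nat_lit 0x0) (nat_lit 0x100003c00000000000000000000000) := T_2 (nat_lit 96) (nat_lit 97) (nat_lit 2) (nat_lit 8) (nat_lit 6) L1188902 (by decide +kernel)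
theorem L1188904 : W_2 (nat_lit 2) (nat_lit 0x300070022801fc009000000004000000000000000) (nat_lit 0x0) (nat_lit 0xc000800000000000000000000000000000000000) := D_2 (nat_lit 159) (nat_lit 143) (nat_lit 158) (nat_lit 1) (nat_lit 10) (nat_lit 8) (nat_lit 2) (nat_lit 5) (nat_lit 9) (by decide +kernel)
theorem L1188905 : W_2 (nat_lit 3) (nat_lit 0x300050022801fc009000000004000000000000000) (nat_lit 0x0) (nat_lit 0xc00a800000000000000000000000000000000000) := T_2 (nat_lit 145) (nat_lit 147) (nat_lit 1) (nat_lit 11) (nat_lit 8) L1188904 (by decide +kernel)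
theorem L1188906 : W_2 (nat_lit 4) (nat_lit 0x300010022801fc009000000004000000000000000) (nat_lit 0x0) (nat_lit 0x8c00e800000000000000000000000000000000000) := T_2 (nat_lit 146) (nat_lit 163) (nat_lit 6) (nat_lit 10) (nat_lit 9) L1188905 (by decide +kernel)
theorem L1188907 : W_2 (nat_lit 5) (nat_lit 0x300010022801fc009000000000000000000000000) (nat_lit 0x0) (nat_lit 0x8c00e800000000000000080004000000000000000) := T_2 (nat_lit 62) (nat_lit 79) (nat_lit 5) (nat_lit 11) (nat_lit 3) L1188906 (by decide +kernel)
theorem L1188908 : W_2 (nat_lit 6) (nat_lit 0x300010020801fc009000000000000000000000000) (nat_lit 0x0) (nat_lit 0x8c00e800600000000000080004000000000000000) := T_2 (nat_lit 129) (nat_lit 130) (nat_lit 1) (nat_lit 14) (nat_lit 6) L1188907 (by decide +kernel)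
theorem L1188909 : W_2 (nat_lit 7) (nat_lit 0x300010020801fc001000000000000000000000000) (nat_lit 0x0) (nat_lit 0x8c00e800600000018000080004000000000000000) := T_2 (nat_lit 99) (nat_lit 100) (nat_lit 2) (nat_lit 11) (nat_lit 6) L1188908 (by decide +kernel)
theorem L1188910 : W_2 (nat_lit 8) (nat_lit 0x300010020800fc001000000000000000000000000) (nat_lit 0x0) (nat_lit 0x8c00e804600100018000080004000000000000000) := T_2 (nat_lit 116) (nat_lit 134) (nat_lit 3) (nat_lit 11) (nat_lit 6) L1188909 (by decide +kernel)
theorem L1188911 : W_2 (nat_lit 9) (nat_lit 0x300010000800fc001000000000000000000000000) (nat_lit 0x0) (nat_lit 0x8c00e807600100018000080004000000000000000) := T_2 (nat_lit 133) (nat_lit 132) (nat_lit 3) (nat_lit 10) (nat_lit 6) L1188910 (by decide +kernel)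
theorem L1188912 : W_2 (nat_lit 10) (nat_lit 0x300010000800fc000000000000000000000000000) (nat_lit 0x0) (nat_lit 0x8c00e80760010001b000080004000000000000000) := T_2 (nat_lit 96) (nat_lit 97) (nat_lit 2) (nat_lit 8) (nat_lit 6) L1188911 (by decide +kernel)
theorem L1188913 : W_2 (nat_lit 11) (nat_lit 0x200010000800fc000000000000000000000000000) (nat_lit 0x0) (nat_lit 0x20009c00e80760010001b000080004000000000000000) := T_2 (nat_lit 160) (nat_lit 177) (nat_lit 5) (nat_lit 8) (nat_lit 6) L1188912 (by decide +kernel)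
theorem L1188914 : W_2 (nat_lit 12) (nat_lit 0x10000800fc000000000000000000000000000) (nat_lit 0x0) (nat_lit 0x2000bc00e80760010001b400080004000000000000000) := T_2 (nat_lit 161) (nat_lit 94) (nat_lit 6) (nat_lit 8) (nat_lit 9) L1188913 (by decide +kernel)
theorem L1188915 : W_2 (nat_lit 2) (nat_lit 0x10020800fc001000000000000000000000000) (nat_lit 0x0) (nat_lit 0x4000100000800000000000000000000000) := D_2 (nat_lit 116) (nat_lit 95) (nat_lit 134) (nat_lit 0) (nat_lit 14) (nat_lit 6) (nat_lit 3) (nat_lit 11) (nat_lit 6) (by decide +kernel)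
theorem L1188916 : W_2 (nat_lit 3) (nat_lit 0x10020800fc000000000000000000000000000) (nat_lit 0x0) (nat_lit 0x4000100003800000000000000000000000) := T_2 (nat_lit 96) (nat_lit 97) (nat_lit 2) (nat_lit 8) (nat_lit 6) L1188915 (by decide +kernel)
theorem L1188917 : W_2 (nat_lit 4) (nat_lit 0x10000800fc000000000000000000000000000) (nat_lit 0x0) (nat_lit 0x7000100003800000000000000000000000) := T_2 (nat_lit 133) (nat_lit 132) (nat_lit 3) (nat_lit 10) (nat_lit 6) L1188916 (by decide +kernel)
theorem L1188918 : W_2 (nat_lit 13) (nat_lit 0x100008007c000000000000000000000000000) (nat_lit 0x0) (nat_lit 0x2000bc00e80760018001bc00080004000000000000000) := Q_2 (nat_lit 115) (C_2 L1188901 (C_2 L1188903 (C_2 L1188914 (C_2 L1188917 N_2)))) (by decide +kernel)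
theorem L1188919 : W_2 (nat_lit 14) (nat_lit 0x100008003c000000000000000000000000000) (nat_lit 0x0) (nat_lit 0x2000bc00e8076001c001fc000a0005000000000000000) := Q_2 (nat_lit 114) (C_2 L1188668 (C_2 L1188894 (C_2 L1188900 (C_2 L1188918 N_2)))) (by decide +kernel)
theorem L1188920 : W_2 (nat_lit 2) (nat_lit 0x100008007c000000000000000000000000000) (nat_lit 0x0) (nat_lit 0x1c00000000000000000000000000000000) := D_2 (nat_lit 131) (nat_lit 132) (nat_lit 130) (nat_lit 3) (nat_lit 9) (nat_lit 6) (nat_lit 3) (nat_lit 8) (nat_lit 6) (by decide +kernel)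
theorem L1188921 : W_2 (nat_lit 2) (nat_lit 0x10004800fc008400000001000000000000000) (nat_lit 0x0) (nat_lit 0x200100010000000000000000000000000) := D_2 (nat_lit 116) (nat_lit 129) (nat_lit 100) (nat_lit 1) (nat_lit 14) (nat_lit 6) (nat_lit 2) (nat_lit 11) (nat_lit 6) (by decide +kernel)
theorem L1188922 : W_2 (nat_lit 3) (nat_lit 0x10004800fc000400000001000000000000000) (nat_lit 0x0) (nat_lit 0x20010001c000000000000000000000000) := T_2 (nat_lit 99) (nat_lit 98) (nat_lit 2) (nat_lit 10) (nat_lit 6) L1188921 (by decide +kernel)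
theorem L1188923 : W_2 (nat_lit 4) (nat_lit 0x10004800fc000400000000000000000000000) (nat_lit 0x0) (nat_lit 0x20010001c000020001000000000000000) := T_2 (nat_lit 60) (nat_lit 77) (nat_lit 5) (nat_lit 9) (nat_lit 3) L1188922 (by decide +kernel)
theorem L1188924 : W_2 (nat_lit 5) (nat_lit 0x100048007c000400000000000000000000000) (nat_lit 0x0) (nat_lit 0x20018001c800020001000000000000000) := T_2 (nat_lit 115) (nat_lit 95) (nat_lit 0) (nat_lit 13) (nat_lit 6) L1188923 (by decide +kernel)
theorem L1188925 : W_2 (nat_lit 6) (nat_lit 0x100008007c000400000000000000000000000) (nat_lit 0x0) (nat_lit 0xe0018001c800020001000000000000000) := T_2 (nat_lit 130) (nat_lit 131) (nat_lit 3) (nat_lit 8) (nat_lit 6) L1188924 (by decide +kernel)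
theorem L1188926 : W_2 (nat_lit 7) (nat_lit 0x100008007c000000000000000000000000000) (nat_lit 0x0) (nat_lit 0x20000000e0018001cc00020001000000000000000) := T_2 (nat_lit 94) (nat_lit 161) (nat_lit 6) (nat_lit 8) (nat_lit 9) L1188925 (by decide +kernel)
theorem L1188927 : W_2 (nat_lit 8) (nat_lit 0x100008003c000000000000000000000000000) (nat_lit 0x0) (nat_lit 0x20000007e001c001cc00020001000000000000000) := Q_2 (nat_lit 114) (C_2 L1188900 (C_2 L1188920 (C_2 L1188926 N_2))) (by decide +kernel)
theorem L1188928 : W_2 (nat_lit 2) (nat_lit 0x3000500028003c001000000000000000000000000) (nat_lit 0x0) (nat_lit 0x800080004000000000000000) := D_2 (nat_lit 79) (nat_lit 62) (nat_lit 95) (nat_lit 5) (nat_lit 11) (nat_lit 3) (nat_lit 6) (nat_lit 10) (nat_lit 8) (by decide +kernel)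
theorem L1188929 : W_2 (nat_lit 3) (nat_lit 0x3000100028003c001000000000000000000000000) (nat_lit 0x0) (nat_lit 0x80004000000000000800080004000000000000000) := T_2 (nat_lit 146) (nat_lit 163) (nat_lit 6) (nat_lit 10) (nat_lit 9) L1188928 (by decide +kernel)
theorem L1188930 : W_2 (nat_lit 4) (nat_lit 0x2000100028003c001000000000000000000000000) (nat_lit 0x0) (nat_lit 0x200090004000000000000800080004000000000000000) := T_2 (nat_lit 160) (nat_lit 177) (nat_lit 5) (nat_lit 8) (nat_lit 6) L1188929 (by decide +kernel)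
theorem L1188931 : W_2 (nat_lit 5) (nat_lit 0x100028003c001000000000000000000000000) (nat_lit 0x0) (nat_lit 0x2000b0004000000000000c00080004000000000000000) := T_2 (nat_lit 161) (nat_lit 94) (nat_lit 6) (nat_lit 8) (nat_lit 9) L1188930 (by decide +kernel)
theorem L1188932 : W_2 (nat_lit 6) (nat_lit 0x100028003c000000000000000000000000000) (nat_lit 0x0) (nat_lit 0x2000b0004000000000003c00080004000000000000000) := T_2 (nat_lit 96) (nat_lit 97) (nat_lit 2) (nat_lit 8) (nat_lit 6) L1188931 (by decide +kernel)
theorem L1188933 : W_2 (nat_lit 3) (nat_lit 0x100028003c001000000000000000000000000) (nat_lit 0x0) (nat_lit 0x4000c00000000000080004000000000000000) := T_2 (nat_lit 130) (nat_lit 131) (nat_lit 3) (nat_lit 8) (nat_lit 6) L1188660 (by decide +kernel)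
theorem L1188934 : W_2 (nat_lit 4) (nat_lit 0x100028003c000000000000000000000000000) (nat_lit 0x0) (nat_lit 0x4000c00000003000080004000000000000000) := T_2 (nat_lit 96) (nat_lit 97) (nat_lit 2) (nat_lit 8) (nat_lit 6) L1188933 (by decide +kernel)
theorem L1188935 : W_2 (nat_lit 2) (nat_lit 0x13000900068003c0010001c0000000000000000000) (nat_lit 0x0) (nat_lit 0x4000200010000000000000000000000000000000000000) := D_2 (nat_lit 165) (nat_lit 148) (nat_lit 182) (nat_lit 7) (nat_lit 11) (nat_lit 5) (nat_lit 7) (nat_lit 11) (nat_lit 6) (by decide +kernel)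
theorem L1188936 : W_2 (nat_lit 3) (nat_lit 0x3000900068003c0010001c0000000000000000000) (nat_lit 0x0) (nat_lit 0x6000300010000000000000000000000000000000000000) := T_2 (nat_lit 164) (nat_lit 181) (nat_lit 4) (nat_lit 11) (nat_lit 10) L1188935 (by decide +kernel)
theorem L1188937 : W_2 (nat_lit 4) (nat_lit 0x3000100068003c0010001c0000000000000000000) (nat_lit 0x0) (nat_lit 0x6000300018000000000000800000000000000000000000) := T_2 (nat_lit 147) (nat_lit 95) (nat_lit 7) (nat_lit 10) (nat_lit 4) L1188936 (by decide +kernel)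
theorem L1188938 : W_2 (nat_lit 5) (nat_lit 0x3000100068003c0010000c0000000000000000000) (nat_lit 0x0) (nat_lit 0x6000300018000000000000800100008000000000000000) := T_2 (nat_lit 80) (nat_lit 63) (nat_lit 6) (nat_lit 11) (nat_lit 7) L1188937 (by decide +kernel)
theorem L1188939 : W_2 (nat_lit 6) (nat_lit 0x3000100068003c001000080000000000000000000) (nat_lit 0x0) (nat_lit 0x600030001800000000000080014000a000000000000000) := T_2 (nat_lit 78) (nat_lit 61) (nat_lit 4) (nat_lit 11) (nat_lit 7) L1188938 (by decide +kernel)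
theorem L1188940 : W_2 (nat_lit 7) (nat_lit 0x3000100068003c001000000000000000000000000) (nat_lit 0x0) (nat_lit 0x60003000180000000000008001c000e000000000000000) := T_2 (nat_lit 79) (nat_lit 62) (nat_lit 5) (nat_lit 11) (nat_lit 3) L1188939 (by decide +kernel)
theorem L1188941 : W_2 (nat_lit 8) (nat_lit 0x3000100068003c000000000000000000000000000) (nat_lit 0x0) (nat_lit 0x60003000180000000000038001c000e000000000000000) := T_2 (nat_lit 96) (nat_lit 97) (nat_lit 2) (nat_lit 8) (nat_lit 6) L1188940 (by decide +kernel)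
theorem L1188942 : W_2 (nat_lit 9) (nat_lit 0x2000100068003c000000000000000000000000000) (nat_lit 0x0) (nat_lit 0x62003100180000000000038001c000e000000000000000) := T_2 (nat_lit 160) (nat_lit 177) (nat_lit 5) (nat_lit 8) (nat_lit 6) L1188941 (by decide +kernel)
theorem L1188943 : W_2 (nat_lit 10) (nat_lit 0x100068003c000000000000000000000000000) (nat_lit 0x0) (nat_lit 0x6200330018000000000003c001c000e000000000000000) := T_2 (nat_lit 161) (nat_lit 94) (nat_lit 6) (nat_lit 8) (nat_lit 9) L1188942 (by decide +kernel)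
theorem L1188944 : W_2 (nat_lit 11) (nat_lit 0x100028003c000000000000000000000000000) (nat_lit 0x0) (nat_lit 0x6200330018000c00000003c001c000e000000000000000) := T_2 (nat_lit 130) (nat_lit 131) (nat_lit 3) (nat_lit 8) (nat_lit 6) L1188943 (by decide +kernel)
theorem L1188945 : W_2 (nat_lit 2) (nat_lit 0x100068003c000400020000000000000000000) (nat_lit 0x0) (nat_lit 0x80004000000000000800000000000000000000000) := D_2 (nat_lit 146) (nat_lit 163) (nat_lit 95) (nat_lit 4) (nat_lit 10) (nat_lit 9) (nat_lit 4) (nat_lit 10) (nat_lit 8) (by decide +kernel)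
theorem L1188946 : W_2 (nat_lit 3) (nat_lit 0x100068003c000400000000000000000000000) (nat_lit 0x0) (nat_lit 0x80004000000000000800020001000000000000000) := T_2 (nat_lit 77) (nat_lit 60) (nat_lit 7) (nat_lit 9) (nat_lit 3) L1188945 (by decide +kernel)
theorem L1188947 : W_2 (nat_lit 4) (nat_lit 0x100068003c000000000000000000000000000) (nat_lit 0x0) (nat_lit 0xa0004000000000000c00020001000000000000000) := T_2 (nat_lit 94) (nat_lit 161) (nat_lit 6) (nat_lit 8) (nat_lit 9) L1188946 (by decide +kernel)
theorem L1188948 : W_2 (nat_lit 5) (nat_lit 0x100028003c000000000000000000000000000) (nat_lit 0x0) (nat_lit 0xa0004000c00000000c00020001000000000000000) := T_2 (nat_lit 130) (nat_lit 131) (nat_lit 3) (nat_lit 8) (nat_lit 6) L1188947 (by decide +kernel)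
theorem L1188949 : W_2 (nat_lit 12) (nat_lit 0x100008003c000000000000000000000000000) (nat_lit 0x0) (nat_lit 0x62003b001c000e00000003c001e000f000000000000000) := Q_2 (nat_lit 129) (C_2 L1188932 (C_2 L1188934 (C_2 L1188944 (C_2 L1188948 N_2)))) (by decide +kernel)
theorem L1188950 : W_2 (nat_lit 15) (nat_lit 0x100008001c000000000000000000000000000) (nat_lit 0x0) (nat_lit 0x62003bc01e807e001e001fc001e000f000000000000000) := Q_2 (nat_lit 113) (C_2 L1188886 (C_2 L1188684 (C_2 L1188891 (C_2 L1188919 (C_2 L1188927 (C_2 L1188949 N_2)))))) (by decide +kernel)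
theorem L1188951 : W_2 (nat_lit 2) (nat_lit 0x3e0012000100048007e002000000008000000000000000) (nat_lit 0x0) (nat_lit 0xe0000000000000000000000000000000000000000000000000) := D_2 (nat_lit 198) (nat_lit 197) (nat_lit 199) (nat_lit 3) (nat_lit 7) (nat_lit 10) (nat_lit 3) (nat_lit 8) (nat_lit 10) (by decide +kernel)
theorem L1188952 : W_2 (nat_lit 3) (nat_lit 0x1e0012000100048007e002000000008000000000000000) (nat_lit 0x0) (nat_lit 0xe0002000200000000000000000000000000000000000000000) := T_2 (nat_lit 181) (nat_lit 165) (nat_lit 2) (nat_lit 8) (nat_lit 10) L1188951 (by decide +kernel)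
theorem L1188953 : W_2 (nat_lit 4) (nat_lit 0xe0012000100048007e002000000008000000000000000) (nat_lit 0x0) (nat_lit 0xe0003000280000000000000000000000000000000000000000) := T_2 (nat_lit 180) (nat_lit 163) (nat_lit 2) (nat_lit 7) (nat_lit 10) L1188952 (by decide +kernel)
theorem L1188954 : W_2 (nat_lit 5) (nat_lit 0xe0002000100048007e002000000008000000000000000) (nat_lit 0x0) (nat_lit 0xe0003000380008000000000000000000000000000000000000) := T_2 (nat_lit 164) (nat_lit 147) (nat_lit 6) (nat_lit 11) (nat_lit 9) L1188953 (by decide +kernel)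
theorem L1188955 : W_2 (nat_lit 6) (nat_lit 0xe0002000100048007e002000000000000000000000000) (nat_lit 0x0) (nat_lit 0xe0003000380008000000000000000100008000000000000000) := T_2 (nat_lit 63) (nat_lit 80) (nat_lit 5) (nat_lit 12) (nat_lit 3) L1188954 (by decide +kernel)
theorem L1188956 : W_2 (nat_lit 7) (nat_lit 0xe0002000100048003e002000000000000000000000000) (nat_lit 0x0) (nat_lit 0xe0003000380008000000040004000100008000000000000000) := T_2 (nat_lit 114) (nat_lit 98) (nat_lit 2) (nat_lit 9) (nat_lit 6) L1188955 (by decide +kernel)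
theorem L1188957 : W_2 (nat_lit 8) (nat_lit 0x60002000100048003e002000000000000000000000000) (nat_lit 0x0) (nat_lit 0xf0003800380008000000040004000100008000000000000000) := T_2 (nat_lit 179) (nat_lit 196) (nat_lit 7) (nat_lit 8) (nat_lit 7) L1188956 (by decide +kernel)
theorem L1188958 : W_2 (nat_lit 9) (nat_lit 0x60002000100048003e000000000000000000000000000) (nat_lit 0x0) (nat_lit 0xf0003800380008000000040007000100008000000000000000) := T_2 (nat_lit 97) (nat_lit 96) (nat_lit 2) (nat_lit 8) (nat_lit 6) L1188957 (by decide +kernel)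
theorem L1188959 : W_2 (nat_lit 10) (nat_lit 0x60002000100048001e000000000000000000000000000) (nat_lit 0x0) (nat_lit 0xf0003800380008000800060007000100008000000000000000) := T_2 (nat_lit 113) (nat_lit 131) (nat_lit 3) (nat_lit 8) (nat_lit 6) L1188958 (by decide +kernel)
theorem L1188960 : W_2 (nat_lit 11) (nat_lit 0x20002000100048001e000000000000000000000000000) (nat_lit 0x0) (nat_lit 0xf4003c00380008000800060007000100008000000000000000) := T_2 (nat_lit 178) (nat_lit 194) (nat_lit 5) (nat_lit 8) (nat_lit 7) L1188959 (by decide +kernel)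
theorem L1188961 : W_2 (nat_lit 12) (nat_lit 0x20002000100008001e000000000000000000000000000) (nat_lit 0x0) (nat_lit 0xf4003c00380008000e00060007000100008000000000000000) := T_2 (nat_lit 130) (nat_lit 129) (nat_lit 3) (nat_lit 7) (nat_lit 6) L1188960 (by decide +kernel)
theorem L1188962 : W_2 (nat_lit 13) (nat_lit 0x20002000100008001c000000000000000000000000000) (nat_lit 0x0) (nat_lit 0xf4003c00380008000e00062007100100008000000000000000) := T_2 (nat_lit 109) (nat_lit 92) (nat_lit 4) (nat_lit 8) (nat_lit 9) L1188961 (by decide +kernel)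
theorem L1188963 : W_2 (nat_lit 14) (nat_lit 0x2000100008001c000000000000000000000000000) (nat_lit 0x0) (nat_lit 0xf4003e00390008000e00062007100100008000000000000000) := T_2 (nat_lit 177) (nat_lit 160) (nat_lit 5) (nat_lit 8) (nat_lit 6) L1188962 (by decide +kernel)
theorem L1188964 : W_2 (nat_lit 15) (nat_lit 0x100008001c000000000000000000000000000) (nat_lit 0x0) (nat_lit 0xf4003e003b0008000e00062007500100008000000000000000) := T_2 (nat_lit 161) (nat_lit 94) (nat_lit 6) (nat_lit 8) (nat_lit 9) L1188963 (by decide +kernel)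
theorem L1188965 : W_2 (nat_lit 5) (nat_lit 0x100008001c000000000000000000000000000) (nat_lit 0x0) (nat_lit 0x20000000e00022003980000000000000000000000) := Q_2 (nat_lit 109) (C_2 L1188883 (C_2 L1186232 N_2)) (by decide +kernel)
theorem L1188982 : W_2 (nat_lit 2) (nat_lit 0x100008001f000400000000000000000000000) (nat_lit 0x0) (nat_lit 0x1c0000000000000000000000) := D_2 (nat_lit 91) (nat_lit 92) (nat_lit 90) (nat_lit 0) (nat_lit 10) (nat_lit 6) (nat_lit 0) (nat_lit 9) (nat_lit 6) (by decide +kernel)
theorem L1188983 : W_2 (nat_lit 3) (nat_lit 0x100008001e000400000000000000000000000) (nat_lit 0x0) (nat_lit 0x10009c0000000000000000000000) := T_2 (nat_lit 108) (nat_lit 95) (nat_lit 2) (nat_lit 6) (nat_lit 6) L1188982 (by decide +kernel)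
theorem L1189289 : W_2 (nat_lit 2) (nat_lit 0x1000c8001c000000000000000000000000000) (nat_lit 0x0) (nat_lit 0x1200002000000000000000000000000000) := D_2 (nat_lit 129) (nat_lit 109) (nat_lit 132) (nat_lit 3) (nat_lit 7) (nat_lit 6) (nat_lit 0) (nat_lit 13) (nat_lit 7) (by decide +kernel)
theorem L1189290 : W_2 (nat_lit 3) (nat_lit 0x100048001c000000000000000000000000000) (nat_lit 0x0) (nat_lit 0x1a00022000000000000000000000000000) := T_2 (nat_lit 131) (nat_lit 113) (nat_lit 3) (nat_lit 8) (nat_lit 6) L1189289 (by decide +kernel)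
theorem L1189409 : W_2 (nat_lit 6) (nat_lit 0x10000100048001c000000000000000000000000000) (nat_lit 0x0) (nat_lit 0xa0007000280008000800020000800000000000000000000000) := T_2 (nat_lit 113) (nat_lit 131) (nat_lit 3) (nat_lit 8) (nat_lit 6) L1188843 (by decide +kernel)
theorem L1189410 : W_2 (nat_lit 2) (nat_lit 0x3e0012000100048003e000000000000000000000000000) (nat_lit 0x0) (nat_lit 0x60000000000008000000000000000000000000000000000000) := D_2 (nat_lit 197) (nat_lit 198) (nat_lit 147) (nat_lit 3) (nat_lit 7) (nat_lit 10) (nat_lit 5) (nat_lit 11) (nat_lit 7) (by decide +kernel)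
theorem L1189411 : W_2 (nat_lit 3) (nat_lit 0x1e0012000100048003e000000000000000000000000000) (nat_lit 0x0) (nat_lit 0x60002000200008000000000000000000000000000000000000) := T_2 (nat_lit 181) (nat_lit 165) (nat_lit 2) (nat_lit 8) (nat_lit 10) L1189410 (by decide +kernel)
theorem L1189412 : W_2 (nat_lit 4) (nat_lit 0xe0012000100048003e000000000000000000000000000) (nat_lit 0x0) (nat_lit 0x60003000280008000000000000000000000000000000000000) := T_2 (nat_lit 180) (nat_lit 163) (nat_lit 2) (nat_lit 7) (nat_lit 10) L1189411 (by decide +kernel)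
theorem L1189413 : W_2 (nat_lit 5) (nat_lit 0x60012000100048003e000000000000000000000000000) (nat_lit 0x0) (nat_lit 0x70003800280008000000000000000000000000000000000000) := T_2 (nat_lit 179) (nat_lit 196) (nat_lit 7) (nat_lit 8) (nat_lit 7) L1189412 (by decide +kernel)
theorem L1189414 : W_2 (nat_lit 6) (nat_lit 0x20012000100048003e000000000000000000000000000) (nat_lit 0x0) (nat_lit 0x74003c00280008000000000000000000000000000000000000) := T_2 (nat_lit 178) (nat_lit 194) (nat_lit 5) (nat_lit 8) (nat_lit 7) L1189413 (by decide +kernel)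
theorem L1189415 : W_2 (nat_lit 7) (nat_lit 0x20012000100048003c000000000000000000000000000) (nat_lit 0x0) (nat_lit 0x74003c00280008000000002000100000000000000000000000) := T_2 (nat_lit 109) (nat_lit 92) (nat_lit 4) (nat_lit 8) (nat_lit 9) L1189414 (by decide +kernel)
theorem L1189416 : W_2 (nat_lit 8) (nat_lit 0x12000100048003c000000000000000000000000000) (nat_lit 0x0) (nat_lit 0x74003e00290008000000002000100000000000000000000000) := T_2 (nat_lit 177) (nat_lit 160) (nat_lit 5) (nat_lit 8) (nat_lit 6) L1189415 (by decide +kernel)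
theorem L1189417 : W_2 (nat_lit 9) (nat_lit 0x10000100048003c000000000000000000000000000) (nat_lit 0x0) (nat_lit 0x74003e002b0008000000002000500000000000000000000000) := T_2 (nat_lit 161) (nat_lit 94) (nat_lit 6) (nat_lit 8) (nat_lit 9) L1189416 (by decide +kernel)
theorem L1189418 : W_2 (nat_lit 10) (nat_lit 0x10000100048001c000000000000000000000000000) (nat_lit 0x0) (nat_lit 0x74003e002b0008000800022000500000000000000000000000) := T_2 (nat_lit 113) (nat_lit 131) (nat_lit 3) (nat_lit 8) (nat_lit 6) L1189417 (by decide +kernel)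
theorem L1189419 : W_2 (nat_lit 2) (nat_lit 0x3e0012000100048003e000000000000000000000000000) (nat_lit 0x0) (nat_lit 0xe0000000000000000000000000000000000000000000000000) := D_2 (nat_lit 198) (nat_lit 197) (nat_lit 199) (nat_lit 3) (nat_lit 7) (nat_lit 10) (nat_lit 3) (nat_lit 8) (nat_lit 10) (by decide +kernel)
theorem L1189420 : W_2 (nat_lit 3) (nat_lit 0x1e0012000100048003e000000000000000000000000000) (nat_lit 0x0) (nat_lit 0xe0002000200000000000000000000000000000000000000000) := T_2 (nat_lit 181) (nat_lit 165) (nat_lit 2) (nat_lit 8) (nat_lit 10) L1189419 (by decide +kernel)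
theorem L1189421 : W_2 (nat_lit 4) (nat_lit 0xe0012000100048003e000000000000000000000000000) (nat_lit 0x0) (nat_lit 0xe0003000280000000000000000000000000000000000000000) := T_2 (nat_lit 180) (nat_lit 163) (nat_lit 2) (nat_lit 7) (nat_lit 10) L1189420 (by decide +kernel)
theorem L1189422 : W_2 (nat_lit 5) (nat_lit 0x60012000100048003e000000000000000000000000000) (nat_lit 0x0) (nat_lit 0xf0003800280000000000000000000000000000000000000000) := T_2 (nat_lit 179) (nat_lit 196) (nat_lit 7) (nat_lit 8) (nat_lit 7) L1189421 (by decide +kernel)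
theorem L1189423 : W_2 (nat_lit 6) (nat_lit 0x60012000100048001e000000000000000000000000000) (nat_lit 0x0) (nat_lit 0xf0003800280000000800020000000000000000000000000000) := T_2 (nat_lit 113) (nat_lit 131) (nat_lit 3) (nat_lit 8) (nat_lit 6) L1189422 (by decide +kernel)
theorem L1189424 : W_2 (nat_lit 7) (nat_lit 0x20012000100048001e000000000000000000000000000) (nat_lit 0x0) (nat_lit 0xf4003c00280000000800020000000000000000000000000000) := T_2 (nat_lit 178) (nat_lit 194) (nat_lit 5) (nat_lit 8) (nat_lit 7) L1189423 (by decide +kernel)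
theorem L1189425 : W_2 (nat_lit 8) (nat_lit 0x20012000100048001c000000000000000000000000000) (nat_lit 0x0) (nat_lit 0xf4003c00280000000800022000100000000000000000000000) := T_2 (nat_lit 109) (nat_lit 92) (nat_lit 4) (nat_lit 8) (nat_lit 9) L1189424 (by decide +kernel)
theorem L1189426 : W_2 (nat_lit 9) (nat_lit 0x12000100048001c000000000000000000000000000) (nat_lit 0x0) (nat_lit 0xf4003e00290000000800022000100000000000000000000000) := T_2 (nat_lit 177) (nat_lit 160) (nat_lit 5) (nat_lit 8) (nat_lit 6) L1189425 (by decide +kernel)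
theorem L1189427 : W_2 (nat_lit 10) (nat_lit 0x10000100048001c000000000000000000000000000) (nat_lit 0x0) (nat_lit 0xf4003e002b0000000800022000500000000000000000000000) := T_2 (nat_lit 161) (nat_lit 94) (nat_lit 6) (nat_lit 8) (nat_lit 9) L1189426 (by decide +kernel)
theorem L1189428 : W_2 (nat_lit 2) (nat_lit 0x3e0012000100048001e000000000000000000000000000) (nat_lit 0x0) (nat_lit 0x60000000000008000000000000000000000000000000000000) := D_2 (nat_lit 197) (nat_lit 198) (nat_lit 147) (nat_lit 3) (nat_lit 7) (nat_lit 10) (nat_lit 5) (nat_lit 11) (nat_lit 7) (by decide +kernel)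
theorem L1189429 : W_2 (nat_lit 3) (nat_lit 0x1e0012000100048001e000000000000000000000000000) (nat_lit 0x0) (nat_lit 0x60002000200008000000000000000000000000000000000000) := T_2 (nat_lit 181) (nat_lit 165) (nat_lit 2) (nat_lit 8) (nat_lit 10) L1189428 (by decide +kernel)
theorem L1189430 : W_2 (nat_lit 4) (nat_lit 0xe0012000100048001e000000000000000000000000000) (nat_lit 0x0) (nat_lit 0x60003000280008000000000000000000000000000000000000) := T_2 (nat_lit 180) (nat_lit 163) (nat_lit 2) (nat_lit 7) (nat_lit 10) L1189429 (by decide +kernel)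
theorem L1189431 : W_2 (nat_lit 5) (nat_lit 0x60012000100048001e000000000000000000000000000) (nat_lit 0x0) (nat_lit 0x70003800280008000000000000000000000000000000000000) := T_2 (nat_lit 179) (nat_lit 196) (nat_lit 7) (nat_lit 8) (nat_lit 7) L1189430 (by decide +kernel)
theorem L1189432 : W_2 (nat_lit 6) (nat_lit 0x20012000100048001e000000000000000000000000000) (nat_lit 0x0) (nat_lit 0x74003c00280008000000000000000000000000000000000000) := T_2 (nat_lit 178) (nat_lit 194) (nat_lit 5) (nat_lit 8) (nat_lit 7) L1189431 (by decide +kernel)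
theorem L1189433 : W_2 (nat_lit 7) (nat_lit 0x20012000100048001c000000000000000000000000000) (nat_lit 0x0) (nat_lit 0x74003c00280008000000002000100000000000000000000000) := T_2 (nat_lit 109) (nat_lit 92) (nat_lit 4) (nat_lit 8) (nat_lit 9) L1189432 (by decide +kernel)
theorem L1189434 : W_2 (nat_lit 8) (nat_lit 0x12000100048001c000000000000000000000000000) (nat_lit 0x0) (nat_lit 0x74003e00290008000000002000100000000000000000000000) := T_2 (nat_lit 177) (nat_lit 160) (nat_lit 5) (nat_lit 8) (nat_lit 6) L1189433 (by decide +kernel)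
theorem L1189435 : W_2 (nat_lit 9) (nat_lit 0x10000100048001c000000000000000000000000000) (nat_lit 0x0) (nat_lit 0x74003e002b0008000000002000500000000000000000000000) := T_2 (nat_lit 161) (nat_lit 94) (nat_lit 6) (nat_lit 8) (nat_lit 9) L1189434 (by decide +kernel)
theorem L1189436 : W_2 (nat_lit 2) (nat_lit 0x10000100048001e000000000000000000000000000) (nat_lit 0x0) (nat_lit 0x20000000000000000500000000000000000000000) := D_2 (nat_lit 161) (nat_lit 94) (nat_lit 92) (nat_lit 6) (nat_lit 8) (nat_lit 9) (nat_lit 4) (nat_lit 8) (nat_lit 9) (by decide +kernel)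
theorem L1189437 : W_2 (nat_lit 2) (nat_lit 0x10000100048003f000080000000000000000000000) (nat_lit 0x0) (nat_lit 0x8000000000000c00000000000000000000000) := D_2 (nat_lit 95) (nat_lit 147) (nat_lit 94) (nat_lit 4) (nat_lit 11) (nat_lit 9) (nat_lit 2) (nat_lit 6) (nat_lit 6) (by decide +kernel)
theorem L1189438 : W_2 (nat_lit 3) (nat_lit 0x10000100048003e000080000000000000000000000) (nat_lit 0x0) (nat_lit 0x8000000001000c40000000000000000000000) := T_2 (nat_lit 108) (nat_lit 90) (nat_lit 0) (nat_lit 9) (nat_lit 6) L1189437 (by decide +kernel)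
theorem L1189439 : W_2 (nat_lit 4) (nat_lit 0x10000100048001e000080000000000000000000000) (nat_lit 0x0) (nat_lit 0x8000800021000c40000000000000000000000) := T_2 (nat_lit 113) (nat_lit 131) (nat_lit 3) (nat_lit 8) (nat_lit 6) L1189438 (by decide +kernel)
theorem L1189440 : W_2 (nat_lit 5) (nat_lit 0x10000100048001e000000000000000000000000000) (nat_lit 0x0) (nat_lit 0x8000800021000dc0000000000000000000000) := T_2 (nat_lit 91) (nat_lit 92) (nat_lit 0) (nat_lit 10) (nat_lit 6) L1189439 (by decide +kernel)
theorem L1189441 : W_2 (nat_lit 2) (nat_lit 0x10000100048003e000400000000000000000000000) (nat_lit 0x0) (nat_lit 0x8000000001000800000000000000000000000) := D_2 (nat_lit 95) (nat_lit 147) (nat_lit 108) (nat_lit 4) (nat_lit 11) (nat_lit 9) (nat_lit 2) (nat_lit 6) (nat_lit 6) (by decide +kernel)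
theorem L1189442 : W_2 (nat_lit 3) (nat_lit 0x10000100048003e000000000000000000000000000) (nat_lit 0x0) (nat_lit 0x20008000000001000c00000000000000000000000) := T_2 (nat_lit 94) (nat_lit 161) (nat_lit 6) (nat_lit 8) (nat_lit 9) L1189441 (by decide +kernel)
theorem L1189443 : W_2 (nat_lit 4) (nat_lit 0x10000100048001e000000000000000000000000000) (nat_lit 0x0) (nat_lit 0x20008000800021000c00000000000000000000000) := T_2 (nat_lit 113) (nat_lit 131) (nat_lit 3) (nat_lit 8) (nat_lit 6) L1189442 (by decide +kernel)
theorem L1189444 : W_2 (nat_lit 2) (nat_lit 0x10000100048001e000000000000000000000000000) (nat_lit 0x0) (nat_lit 0x20000000000000000180000000000000000000000) := D_2 (nat_lit 92) (nat_lit 161) (nat_lit 91) (nat_lit 4) (nat_lit 8) (nat_lit 9) (nat_lit 0) (nat_lit 10) (nat_lit 6) (by decide +kernel)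
theorem L1189445 : W_2 (nat_lit 6) (nat_lit 0x10000100048001c000000000000000000000000000) (nat_lit 0x0) (nat_lit 0x20008000800023000dc0000000000000000000000) := Q_2 (nat_lit 109) (C_2 L1189436 (C_2 L1189440 (C_2 L1189443 (C_2 L1189444 N_2)))) (by decide +kernel)
theorem L1189446 : W_2 (nat_lit 11) (nat_lit 0x100048001c000000000000000000000000000) (nat_lit 0x0) (nat_lit 0xf4007e003b0008000800023000dc0000000000000000000000) := Q_2 (nat_lit 164) (C_2 L1189409 (C_2 L1189418 (C_2 L1189427 (C_2 L1189435 (C_2 L1189445 N_2))))) (by decide +kernel)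
theorem L1189447 : W_2 (nat_lit 2) (nat_lit 0x5000e8001c000400000001000000000000000) (nat_lit 0x0) (nat_lit 0xa800000000000000000000000000000000000) := D_2 (nat_lit 145) (nat_lit 147) (nat_lit 143) (nat_lit 2) (nat_lit 8) (nat_lit 8) (nat_lit 2) (nat_lit 7) (nat_lit 8) (by decide +kernel)
theorem L1189448 : W_2 (nat_lit 3) (nat_lit 0x1000e8001c000400000001000000000000000) (nat_lit 0x0) (nat_lit 0x8000e800000000000000000000000000000000000) := T_2 (nat_lit 146) (nat_lit 163) (nat_lit 4) (nat_lit 10) (nat_lit 9) L1189447 (by decide +kernel)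
theorem L1189449 : W_2 (nat_lit 4) (nat_lit 0x1000e8001c000400000000000000000000000) (nat_lit 0x0) (nat_lit 0x8000e800000000000000020001000000000000000) := T_2 (nat_lit 60) (nat_lit 77) (nat_lit 7) (nat_lit 9) (nat_lit 3) L1189448 (by decide +kernel)
theorem L1189450 : W_2 (nat_lit 5) (nat_lit 0x1000c8001c000400000000000000000000000) (nat_lit 0x0) (nat_lit 0x8000e801200000000000020001000000000000000) := T_2 (nat_lit 129) (nat_lit 132) (nat_lit 0) (nat_lit 13) (nat_lit 7) L1189449 (by decide +kernel)
theorem L1189451 : W_2 (nat_lit 6) (nat_lit 0x1000c8001c000000000000000000000000000) (nat_lit 0x0) (nat_lit 0xa000e801200000000400020001000000000000000) := T_2 (nat_lit 94) (nat_lit 161) (nat_lit 6) (nat_lit 8) (nat_lit 9) L1189450 (by decide +kernel)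
theorem L1189452 : W_2 (nat_lit 7) (nat_lit 0x100048001c000000000000000000000000000) (nat_lit 0x0) (nat_lit 0xa000e801a00020000400020001000000000000000) := T_2 (nat_lit 131) (nat_lit 113) (nat_lit 3) (nat_lit 8) (nat_lit 6) L1189451 (by decide +kernel)
theorem L1189453 : W_2 (nat_lit 2) (nat_lit 0x2000100048001c000000000000000000000000000) (nat_lit 0x0) (nat_lit 0x200002000100000000000000000000000) := D_2 (nat_lit 109) (nat_lit 129) (nat_lit 92) (nat_lit 3) (nat_lit 7) (nat_lit 6) (nat_lit 4) (nat_lit 8) (nat_lit 9) (by decide +kernel)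
theorem L1189454 : W_2 (nat_lit 3) (nat_lit 0x100048001c000000000000000000000000000) (nat_lit 0x0) (nat_lit 0x20000000200002000500000000000000000000000) := T_2 (nat_lit 161) (nat_lit 94) (nat_lit 6) (nat_lit 8) (nat_lit 9) L1189453 (by decide +kernel)
theorem L1189455 : W_2 (nat_lit 12) (nat_lit 0x100008001c000000000000000000000000000) (nat_lit 0x0) (nat_lit 0xf4007e003b000e801e00023000dc0020001000000000000000) := Q_2 (nat_lit 130) (C_2 L1189290 (C_2 L1189446 (C_2 L1189452 (C_2 L1189454 N_2)))) (by decide +kernel)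
theorem L1189456 : W_2 (nat_lit 16) (nat_lit 0x100008000c000000000000000000000000000) (nat_lit 0x0) (nat_lit 0xf4007e003bc01e807e001f301fdc01e000f000000000000000) := Q_2 (nat_lit 112) (C_2 L1188879 (C_2 L1188884 (C_2 L1188950 (C_2 L1188964 (C_2 L1188965 (C_2 L1189455 N_2)))))) (by decide +kernel)
theorem L1189457 : W_2 (nat_lit 7) (nat_lit 0x100008000c000000000000000000000000000) (nat_lit 0x0) (nat_lit 0x28001c000e00020000000100002000500000000000000000000000) := T_2 (nat_lit 161) (nat_lit 94) (nat_lit 6) (nat_lit 8) (nat_lit 9) L1187131 (by decide +kernel)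
theorem L1189458 : W_2 (nat_lit 3) (nat_lit 0x100008003c000000000000000000000000000) (nat_lit 0x0) (nat_lit 0x1d00040000000000000000000000000000) := T_2 (nat_lit 114) (nat_lit 128) (nat_lit 1) (nat_lit 12) (nat_lit 6) L1188920 (by decide +kernel)
theorem L1189459 : W_2 (nat_lit 3) (nat_lit 0x100008003c000000000000000000000000000) (nat_lit 0x0) (nat_lit 0x100040007000000000000000000000000) := T_2 (nat_lit 114) (nat_lit 128) (nat_lit 1) (nat_lit 12) (nat_lit 6) L1188668 (by decide +kernel)
theorem L1189460 : W_2 (nat_lit 8) (nat_lit 0x100008001c000000000000000000000000000) (nat_lit 0x0) (nat_lit 0x100008003d001e200fc00040000000000000000000) := Q_2 (nat_lit 113) (C_2 L1189458 (C_2 L1188684 (C_2 L1188681 (C_2 L1189459 (C_2 L1188667 N_2))))) (by decide +kernel)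
theorem L1189461 : W_2 (nat_lit 2) (nat_lit 0x100008001c000400000000000000000000000) (nat_lit 0x0) (nat_lit 0x100000000000020001000000000000000) := D_2 (nat_lit 77) (nat_lit 60) (nat_lit 128) (nat_lit 5) (nat_lit 9) (nat_lit 3) (nat_lit 5) (nat_lit 9) (nat_lit 4) (by decide +kernel)
theorem L1189521 : W_2 (nat_lit 2) (nat_lit 0x100008001e000000020000000000000000000) (nat_lit 0x0) (nat_lit 0x100000000400000001000000000000000) := D_2 (nat_lit 94) (nat_lit 128) (nat_lit 60) (nat_lit 5) (nat_lit 9) (nat_lit 4) (nat_lit 5) (nat_lit 9) (nat_lit 3) (by decide +kernel)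
theorem L1189522 : W_2 (nat_lit 2) (nat_lit 0x100008001e000900060001400000000000000) (nat_lit 0x0) (nat_lit 0x2000080004000000) := D_2 (nat_lit 43) (nat_lit 61) (nat_lit 26) (nat_lit 4) (nat_lit 10) (nat_lit 6) (nat_lit 7) (nat_lit 9) (nat_lit 1) (by decide +kernel)
theorem L1189523 : W_2 (nat_lit 3) (nat_lit 0x100008001e000900020001400000000000000) (nat_lit 0x0) (nat_lit 0x200000000000040002000080004000000) := T_2 (nat_lit 78) (nat_lit 129) (nat_lit 4) (nat_lit 10) (nat_lit 7) L1189522 (by decide +kernel)
theorem L1189524 : W_2 (nat_lit 4) (nat_lit 0x100008001e000100020001400000000000000) (nat_lit 0x0) (nat_lit 0x200000001800040002000080004000000) := T_2 (nat_lit 95) (nat_lit 96) (nat_lit 2) (nat_lit 7) (nat_lit 6) L1189523 (by decide +kernel)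
theorem L1189525 : W_2 (nat_lit 5) (nat_lit 0x100008001e000100020001000000000000000) (nat_lit 0x0) (nat_lit 0x200000001800048002400080004000000) := T_2 (nat_lit 58) (nat_lit 75) (nat_lit 7) (nat_lit 7) (nat_lit 3) L1189524 (by decide +kernel)
theorem L1189526 : W_2 (nat_lit 6) (nat_lit 0x100008001e000100020000000000000000000) (nat_lit 0x0) (nat_lit 0x200000001c00048003400080004000000) := T_2 (nat_lit 60) (nat_lit 94) (nat_lit 5) (nat_lit 9) (nat_lit 3) L1189525 (by decide +kernel)
theorem L1189527 : W_2 (nat_lit 7) (nat_lit 0x100008001e000000020000000000000000000) (nat_lit 0x0) (nat_lit 0x200000001d80048003400080004000000) := T_2 (nat_lit 92) (nat_lit 91) (nat_lit 0) (nat_lit 10) (nat_lit 6) L1189526 (by decide +kernel)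
theorem L1189528 : W_2 (nat_lit 2) (nat_lit 0x100008003e002000020000000000000000000) (nat_lit 0x0) (nat_lit 0x100040004000000000000000000000000) := D_2 (nat_lit 114) (nat_lit 128) (nat_lit 98) (nat_lit 1) (nat_lit 12) (nat_lit 6) (nat_lit 2) (nat_lit 9) (nat_lit 6) (by decide +kernel)
theorem L1189529 : W_2 (nat_lit 3) (nat_lit 0x100008003e000000020000000000000000000) (nat_lit 0x0) (nat_lit 0x100040007000000000000000000000000) := T_2 (nat_lit 97) (nat_lit 96) (nat_lit 2) (nat_lit 8) (nat_lit 6) L1189528 (by decide +kernel)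
theorem L1189530 : W_2 (nat_lit 2) (nat_lit 0x100008003e000000020000000000000000000) (nat_lit 0x0) (nat_lit 0x3800000000000000000000000) := D_2 (nat_lit 96) (nat_lit 95) (nat_lit 97) (nat_lit 2) (nat_lit 7) (nat_lit 6) (nat_lit 2) (nat_lit 8) (nat_lit 6) (by decide +kernel)
theorem L1189531 : W_2 (nat_lit 2) (nat_lit 0x10010800fe000100020000400000000000000) (nat_lit 0x0) (nat_lit 0xe000000000000000000000000) := D_2 (nat_lit 98) (nat_lit 99) (nat_lit 97) (nat_lit 2) (nat_lit 10) (nat_lit 6) (nat_lit 2) (nat_lit 9) (nat_lit 6) (by decide +kernel)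
theorem L1189532 : W_2 (nat_lit 3) (nat_lit 0x100108007e000100020000400000000000000) (nat_lit 0x0) (nat_lit 0x200008000e000000000000000000000000) := T_2 (nat_lit 115) (nat_lit 133) (nat_lit 3) (nat_lit 10) (nat_lit 6) L1189531 (by decide +kernel)
theorem L1189533 : W_2 (nat_lit 4) (nat_lit 0x100108007e000100020000000000000000000) (nat_lit 0x0) (nat_lit 0x200008000e000008000400000000000000) := T_2 (nat_lit 58) (nat_lit 75) (nat_lit 7) (nat_lit 7) (nat_lit 3) L1189532 (by decide +kernel)
theorem L1189534 : W_2 (nat_lit 5) (nat_lit 0x100008007e000100020000000000000000000) (nat_lit 0x0) (nat_lit 0x380008000e000008000400000000000000) := T_2 (nat_lit 132) (nat_lit 131) (nat_lit 3) (nat_lit 9) (nat_lit 6) L1189533 (by decide +kernel)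
theorem L1189535 : W_2 (nat_lit 6) (nat_lit 0x100008007e000000020000000000000000000) (nat_lit 0x0) (nat_lit 0x380008000e180008000400000000000000) := T_2 (nat_lit 92) (nat_lit 91) (nat_lit 0) (nat_lit 10) (nat_lit 6) L1189534 (by decide +kernel)
theorem L1189536 : W_2 (nat_lit 7) (nat_lit 0x100008003e000000020000000000000000000) (nat_lit 0x0) (nat_lit 0x39000c000e180008000400000000000000) := T_2 (nat_lit 114) (nat_lit 128) (nat_lit 1) (nat_lit 12) (nat_lit 6) L1189535 (by decide +kernel)
theorem L1189537 : W_2 (nat_lit 2) (nat_lit 0x100018003e000900060000000000000000000) (nat_lit 0x0) (nat_lit 0x2000200000000000000001000000000000000) := D_2 (nat_lit 129) (nat_lit 60) (nat_lit 145) (nat_lit 4) (nat_lit 10) (nat_lit 7) (nat_lit 5) (nat_lit 10) (nat_lit 4) (by decide +kernel)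
theorem L1189538 : W_2 (nat_lit 3) (nat_lit 0x100018003e000900020000000000000000000) (nat_lit 0x0) (nat_lit 0x2000200000000000040003000000000000000) := T_2 (nat_lit 78) (nat_lit 61) (nat_lit 5) (nat_lit 10) (nat_lit 3) L1189537 (by decide +kernel)
theorem L1189539 : W_2 (nat_lit 4) (nat_lit 0x100018003e000800020000000000000000000) (nat_lit 0x0) (nat_lit 0x2000200000000180040003000000000000000) := T_2 (nat_lit 92) (nat_lit 91) (nat_lit 0) (nat_lit 10) (nat_lit 6) L1189538 (by decide +kernel)
theorem L1189540 : W_2 (nat_lit 5) (nat_lit 0x100018003e000000020000000000000000000) (nat_lit 0x0) (nat_lit 0x2000200000001980040003000000000000000) := T_2 (nat_lit 95) (nat_lit 96) (nat_lit 2) (nat_lit 7) (nat_lit 6) L1189539 (by decide +kernel)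
theorem L1189541 : W_2 (nat_lit 6) (nat_lit 0x100008003e000000020000000000000000000) (nat_lit 0x0) (nat_lit 0x2000300040001980040003000000000000000) := T_2 (nat_lit 128) (nat_lit 114) (nat_lit 1) (nat_lit 12) (nat_lit 6) L1189540 (by decide +kernel)
theorem L1189542 : W_2 (nat_lit 8) (nat_lit 0x100008001e000000020000000000000000000) (nat_lit 0x0) (nat_lit 0x2003b000e000f980048003400000000000000) := Q_2 (nat_lit 113) (C_2 L1189529 (C_2 L1189530 (C_2 L1189536 (C_2 L1189541 N_2)))) (by decide +kernel)
theorem L1189543 : W_2 (nat_lit 2) (nat_lit 0x100018001e001100020000000000000000000) (nat_lit 0x0) (nat_lit 0x60002000000000000000000000000) := D_2 (nat_lit 113) (nat_lit 114) (nat_lit 97) (nat_lit 1) (nat_lit 12) (nat_lit 6) (nat_lit 2) (nat_lit 8) (nat_lit 6) (by decide +kernel)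
theorem L1189544 : W_2 (nat_lit 3) (nat_lit 0x100018001e000100020000000000000000000) (nat_lit 0x0) (nat_lit 0x60003800000000000000000000000) := T_2 (nat_lit 96) (nat_lit 95) (nat_lit 2) (nat_lit 7) (nat_lit 6) L1189543 (by decide +kernel)
theorem L1189545 : W_2 (nat_lit 4) (nat_lit 0x100008001e000100020000000000000000000) (nat_lit 0x0) (nat_lit 0x100060003c00000000000000000000000) := T_2 (nat_lit 128) (nat_lit 94) (nat_lit 5) (nat_lit 9) (nat_lit 4) L1189544 (by decide +kernel)
theorem L1189546 : W_2 (nat_lit 5) (nat_lit 0x100008001e000000020000000000000000000) (nat_lit 0x0) (nat_lit 0x100060003d80000000000000000000000) := T_2 (nat_lit 92) (nat_lit 91) (nat_lit 0) (nat_lit 10) (nat_lit 6) L1189545 (by decide +kernel)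
theorem L1189547 : W_2 (nat_lit 9) (nat_lit 0x100008001e000000000000000000000000000) (nat_lit 0x0) (nat_lit 0x2003b000e000fd80068003400080004000000) := Q_2 (nat_lit 77) (C_2 L1189521 (C_2 L1189527 (C_2 L1189542 (C_2 L1189546 N_2)))) (by decide +kernel)
theorem L1189548 : W_2 (nat_lit 2) (nat_lit 0x100008001f000800000000000000000000000) (nat_lit 0x0) (nat_lit 0x300000800000000000000000000000000) := D_2 (nat_lit 128) (nat_lit 107) (nat_lit 129) (nat_lit 3) (nat_lit 5) (nat_lit 6) (nat_lit 3) (nat_lit 6) (nat_lit 6) (by decide +kernel)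
theorem L1189549 : W_2 (nat_lit 3) (nat_lit 0x100008001e000800000000000000000000000) (nat_lit 0x0) (nat_lit 0x300001800400000000000000000000000) := T_2 (nat_lit 108) (nat_lit 94) (nat_lit 2) (nat_lit 6) (nat_lit 6) L1189548 (by decide +kernel)
theorem L1189550 : W_2 (nat_lit 4) (nat_lit 0x100008001e000000000000000000000000000) (nat_lit 0x0) (nat_lit 0x300001801c00000000000000000000000) := T_2 (nat_lit 95) (nat_lit 96) (nat_lit 2) (nat_lit 7) (nat_lit 6) L1189549 (by decide +kernel)
theorem L1189551 : W_2 (nat_lit 2) (nat_lit 0x100008001f000080000000000000000000000) (nat_lit 0x0) (nat_lit 0x300000800000000000000000000000000) := D_2 (nat_lit 128) (nat_lit 107) (nat_lit 129) (nat_lit 3) (nat_lit 5) (nat_lit 6) (nat_lit 3) (nat_lit 6) (nat_lit 6) (by decide +kernel)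
theorem L1189552 : W_2 (nat_lit 3) (nat_lit 0x100008001e000080000000000000000000000) (nat_lit 0x0) (nat_lit 0x300001800040000000000000000000000) := T_2 (nat_lit 108) (nat_lit 90) (nat_lit 0) (nat_lit 9) (nat_lit 6) L1189551 (by decide +kernel)
theorem L1189553 : W_2 (nat_lit 4) (nat_lit 0x100008001e000000000000000000000000000) (nat_lit 0x0) (nat_lit 0x3000018001c0000000000000000000000) := T_2 (nat_lit 91) (nat_lit 92) (nat_lit 0) (nat_lit 10) (nat_lit 6) L1189552 (by decide +kernel)
theorem L1189554 : W_2 (nat_lit 10) (nat_lit 0x100008001c000000000000000000000000000) (nat_lit 0x0) (nat_lit 0x2003b000e380fdc0068003400080004000000) := Q_2 (nat_lit 109) (C_2 L1188542 (C_2 L1189547 (C_2 L1189550 (C_2 L1189553 N_2)))) (by decide +kernel)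
theorem L1189555 : W_2 (nat_lit 2) (nat_lit 0x100008003c000400000000000000000000000) (nat_lit 0x0) (nat_lit 0x100000000000020001000000000000000) := D_2 (nat_lit 77) (nat_lit 60) (nat_lit 128) (nat_lit 5) (nat_lit 9) (nat_lit 3) (nat_lit 5) (nat_lit 9) (nat_lit 4) (by decide +kernel)
theorem L1189556 : W_2 (nat_lit 2) (nat_lit 0x500068003c000400000001000000000000000) (nat_lit 0x0) (nat_lit 0x3000080000000000000000000) := D_2 (nat_lit 96) (nat_lit 97) (nat_lit 79) (nat_lit 2) (nat_lit 8) (nat_lit 6) (nat_lit 5) (nat_lit 11) (nat_lit 4) (by decide +kernel)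
theorem L1189557 : W_2 (nat_lit 3) (nat_lit 0x100068003c000400000001000000000000000) (nat_lit 0x0) (nat_lit 0x80004000000000003000080000000000000000000) := T_2 (nat_lit 146) (nat_lit 163) (nat_lit 4) (nat_lit 10) (nat_lit 9) L1189556 (by decide +kernel)
theorem L1189558 : W_2 (nat_lit 4) (nat_lit 0x100068003c000400000000000000000000000) (nat_lit 0x0) (nat_lit 0x800040000000000030000a0001000000000000000) := T_2 (nat_lit 60) (nat_lit 77) (nat_lit 7) (nat_lit 9) (nat_lit 3) L1189557 (by decide +kernel)
theorem L1189559 : W_2 (nat_lit 5) (nat_lit 0x100028003c000400000000000000000000000) (nat_lit 0x0) (nat_lit 0x80004000c000000030000a0001000000000000000) := T_2 (nat_lit 130) (nat_lit 131) (nat_lit 3) (nat_lit 8) (nat_lit 6) L1189558 (by decide +kernel)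
theorem L1189560 : W_2 (nat_lit 2) (nat_lit 0x100068003c0014001c0001000000000000000) (nat_lit 0x0) (nat_lit 0x8000000000000800200000000000000000000) := D_2 (nat_lit 95) (nat_lit 81) (nat_lit 147) (nat_lit 1) (nat_lit 13) (nat_lit 4) (nat_lit 7) (nat_lit 10) (nat_lit 4) (by decide +kernel)
theorem L1189561 : W_2 (nat_lit 3) (nat_lit 0x100068003c001400180001000000000000000) (nat_lit 0x0) (nat_lit 0x8000000000000800240002000000000000000) := T_2 (nat_lit 78) (nat_lit 61) (nat_lit 4) (nat_lit 11) (nat_lit 7) L1189560 (by decide +kernel)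
theorem L1189562 : W_2 (nat_lit 4) (nat_lit 0x100068003c001400080001000000000000000) (nat_lit 0x0) (nat_lit 0x800000000000080034000a000000000000000) := T_2 (nat_lit 80) (nat_lit 63) (nat_lit 6) (nat_lit 11) (nat_lit 7) L1189561 (by decide +kernel)
theorem L1189563 : W_2 (nat_lit 5) (nat_lit 0x100028003c001400080001000000000000000) (nat_lit 0x0) (nat_lit 0x8000c0000000080034000a000000000000000) := T_2 (nat_lit 130) (nat_lit 131) (nat_lit 3) (nat_lit 8) (nat_lit 6) L1189562 (by decide +kernel)
theorem L1189564 : W_2 (nat_lit 6) (nat_lit 0x100028003c001400080000000000000000000) (nat_lit 0x0) (nat_lit 0x8000c0000000080036000b000000000000000) := T_2 (nat_lit 60) (nat_lit 77) (nat_lit 7) (nat_lit 9) (nat_lit 3) L1189563 (by decide +kernel)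
theorem L1189565 : W_2 (nat_lit 7) (nat_lit 0x100028003c001400000000000000000000000) (nat_lit 0x0) (nat_lit 0x8000c000000008003e000f000000000000000) := T_2 (nat_lit 79) (nat_lit 62) (nat_lit 5) (nat_lit 11) (nat_lit 3) L1189564 (by decide +kernel)
theorem L1189566 : W_2 (nat_lit 8) (nat_lit 0x100028003c000400000000000000000000000) (nat_lit 0x0) (nat_lit 0x8000c000000038003e000f000000000000000) := T_2 (nat_lit 96) (nat_lit 97) (nat_lit 2) (nat_lit 8) (nat_lit 6) L1189565 (by decide +kernel)
theorem L1189567 : W_2 (nat_lit 2) (nat_lit 0x500028003c000400000000000000000000000) (nat_lit 0x0) (nat_lit 0x800020001000000000000000) := D_2 (nat_lit 77) (nat_lit 60) (nat_lit 95) (nat_lit 7) (nat_lit 9) (nat_lit 3) (nat_lit 4) (nat_lit 10) (nat_lit 8) (by decide +kernel)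
theorem L1189568 : W_2 (nat_lit 3) (nat_lit 0x100028003c000400000000000000000000000) (nat_lit 0x0) (nat_lit 0x80004000000000000800020001000000000000000) := T_2 (nat_lit 146) (nat_lit 163) (nat_lit 4) (nat_lit 10) (nat_lit 9) L1189567 (by decide +kernel)
theorem L1189569 : W_2 (nat_lit 2) (nat_lit 0x8000100068003c0014001c0000000000000000000) (nat_lit 0x0) (nat_lit 0x8000000000000800200000000000000000000) := D_2 (nat_lit 95) (nat_lit 81) (nat_lit 147) (nat_lit 1) (nat_lit 13) (nat_lit 4) (nat_lit 7) (nat_lit 10) (nat_lit 4) (by decide +kernel)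
theorem L1189570 : W_2 (nat_lit 3) (nat_lit 0x8000100068003c001400180000000000000000000) (nat_lit 0x0) (nat_lit 0x8000000000000800240002000000000000000) := T_2 (nat_lit 78) (nat_lit 61) (nat_lit 4) (nat_lit 11) (nat_lit 7) L1189569 (by decide +kernel)
theorem L1189571 : W_2 (nat_lit 4) (nat_lit 0x8000100068003c001400080000000000000000000) (nat_lit 0x0) (nat_lit 0x800000000000080034000a000000000000000) := T_2 (nat_lit 80) (nat_lit 63) (nat_lit 6) (nat_lit 11) (nat_lit 7) L1189570 (by decide +kernel)
theorem L1189572 : W_2 (nat_lit 5) (nat_lit 0x8000100028003c001400080000000000000000000) (nat_lit 0x0) (nat_lit 0x8000c0000000080034000a000000000000000) := T_2 (nat_lit 130) (nat_lit 131) (nat_lit 3) (nat_lit 8) (nat_lit 6) L1189571 (by decide +kernel)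
theorem L1189573 : W_2 (nat_lit 6) (nat_lit 0x8000100028003c001400000000000000000000000) (nat_lit 0x0) (nat_lit 0x8000c000000008003c000e000000000000000) := T_2 (nat_lit 79) (nat_lit 62) (nat_lit 5) (nat_lit 11) (nat_lit 3) L1189572 (by decide +kernel)
theorem L1189574 : W_2 (nat_lit 7) (nat_lit 0x100028003c001400000000000000000000000) (nat_lit 0x0) (nat_lit 0x8000c000c000000008003c000e000000000000000) := T_2 (nat_lit 163) (nat_lit 146) (nat_lit 6) (nat_lit 10) (nat_lit 9) L1189573 (by decide +kernel)
theorem L1189575 : W_2 (nat_lit 8) (nat_lit 0x100028003c000400000000000000000000000) (nat_lit 0x0) (nat_lit 0x8000c000c000000038003c000e000000000000000) := T_2 (nat_lit 96) (nat_lit 97) (nat_lit 2) (nat_lit 8) (nat_lit 6) L1189574 (by decide +kernel)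
theorem L1189576 : W_2 (nat_lit 9) (nat_lit 0x100008003c000400000000000000000000000) (nat_lit 0x0) (nat_lit 0x8000c000e000000038003e000f000000000000000) := Q_2 (nat_lit 129) (C_2 L1189559 (C_2 L1189566 (C_2 L1189568 (C_2 L1189575 N_2)))) (by decide +kernel)
theorem L1189577 : W_2 (nat_lit 2) (nat_lit 0x8000900078003c000400000000000000000000000) (nat_lit 0x0) (nat_lit 0x3000100000000000000000000000000000000000000000) := D_2 (nat_lit 164) (nat_lit 181) (nat_lit 180) (nat_lit 4) (nat_lit 11) (nat_lit 10) (nat_lit 5) (nat_lit 11) (nat_lit 6) (by decide +kernel)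
theorem L1189578 : W_2 (nat_lit 3) (nat_lit 0x8000100078003c000400000000000000000000000) (nat_lit 0x0) (nat_lit 0x3000100018000000000000000000000000000000000000) := T_2 (nat_lit 147) (nat_lit 148) (nat_lit 3) (nat_lit 8) (nat_lit 7) L1189577 (by decide +kernel)
theorem L1189579 : W_2 (nat_lit 4) (nat_lit 0x100078003c000400000000000000000000000) (nat_lit 0x0) (nat_lit 0x300018001c000000000000000000000000000000000000) := T_2 (nat_lit 163) (nat_lit 146) (nat_lit 4) (nat_lit 10) (nat_lit 9) L1189578 (by decide +kernel)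
theorem L1189580 : W_2 (nat_lit 5) (nat_lit 0x100068003c000400000000000000000000000) (nat_lit 0x0) (nat_lit 0x300018001c800100000000000000000000000000000000) := T_2 (nat_lit 128) (nat_lit 143) (nat_lit 1) (nat_lit 11) (nat_lit 7) L1189579 (by decide +kernel)
theorem L1189581 : W_2 (nat_lit 6) (nat_lit 0x100028003c000400000000000000000000000) (nat_lit 0x0) (nat_lit 0x300018001c800d00000000000000000000000000000000) := T_2 (nat_lit 130) (nat_lit 131) (nat_lit 3) (nat_lit 8) (nat_lit 6) L1189580 (by decide +kernel)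
theorem L1189582 : W_2 (nat_lit 2) (nat_lit 0x900078003c001400000004000000000000000) (nat_lit 0x0) (nat_lit 0x100000000000000000800040000000000000000000) := D_2 (nat_lit 95) (nat_lit 78) (nat_lit 164) (nat_lit 7) (nat_lit 10) (nat_lit 4) (nat_lit 4) (nat_lit 11) (nat_lit 9) (by decide +kernel)
theorem L1189583 : W_2 (nat_lit 3) (nat_lit 0x100078003c001400000004000000000000000) (nat_lit 0x0) (nat_lit 0x100018000000000000800040000000000000000000) := T_2 (nat_lit 147) (nat_lit 148) (nat_lit 3) (nat_lit 8) (nat_lit 7) L1189582 (by decide +kernel)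
theorem L1189584 : W_2 (nat_lit 4) (nat_lit 0x100068003c001400000004000000000000000) (nat_lit 0x0) (nat_lit 0x100018800100000000800040000000000000000000) := T_2 (nat_lit 128) (nat_lit 143) (nat_lit 1) (nat_lit 11) (nat_lit 7) L1189583 (by decide +kernel)
theorem L1189585 : W_2 (nat_lit 5) (nat_lit 0x100028003c001400000004000000000000000) (nat_lit 0x0) (nat_lit 0x100018800d00000000800040000000000000000000) := T_2 (nat_lit 130) (nat_lit 131) (nat_lit 3) (nat_lit 8) (nat_lit 6) L1189584 (by decide +kernel)
theorem L1189586 : W_2 (nat_lit 6) (nat_lit 0x100028003c001400000000000000000000000) (nat_lit 0x0) (nat_lit 0x100018800d000000008000c0004000000000000000) := T_2 (nat_lit 62) (nat_lit 79) (nat_lit 5) (nat_lit 11) (nat_lit 3) L1189585 (by decide +kernel)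
theorem L1189587 : W_2 (nat_lit 7) (nat_lit 0x100028003c000400000000000000000000000) (nat_lit 0x0) (nat_lit 0x100018800d000000038000c0004000000000000000) := T_2 (nat_lit 96) (nat_lit 97) (nat_lit 2) (nat_lit 8) (nat_lit 6) L1189586 (by decide +kernel)
theorem L1189588 : W_2 (nat_lit 2) (nat_lit 0x500028003c001400000000000000000000000) (nat_lit 0x0) (nat_lit 0x800080004000000000000000) := D_2 (nat_lit 79) (nat_lit 95) (nat_lit 62) (nat_lit 6) (nat_lit 10) (nat_lit 8) (nat_lit 5) (nat_lit 11) (nat_lit 3) (by decide +kernel)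
theorem L1189589 : W_2 (nat_lit 3) (nat_lit 0x500028003c000400000000000000000000000) (nat_lit 0x0) (nat_lit 0x3800080004000000000000000) := T_2 (nat_lit 96) (nat_lit 97) (nat_lit 2) (nat_lit 8) (nat_lit 6) L1189588 (by decide +kernel)
theorem L1189590 : W_2 (nat_lit 4) (nat_lit 0x100028003c000400000000000000000000000) (nat_lit 0x0) (nat_lit 0x80004000000000003800080004000000000000000) := T_2 (nat_lit 146) (nat_lit 163) (nat_lit 4) (nat_lit 10) (nat_lit 9) L1189589 (by decide +kernel)
theorem L1189591 : W_2 (nat_lit 9) (nat_lit 0x100008003c000400000000000000000000000) (nat_lit 0x0) (nat_lit 0x300018001c800f000000038003c000e000000000000000) := Q_2 (nat_lit 129) (C_2 L1189581 (C_2 L1189575 (C_2 L1189587 (C_2 L1189590 N_2)))) (by decide +kernel)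
theorem L1189592 : W_2 (nat_lit 10) (nat_lit 0x100008003c000000000000000000000000000) (nat_lit 0x0) (nat_lit 0x300018001c800f00000003c003e000f000000000000000) := Q_2 (nat_lit 94) (C_2 L1189555 (C_2 L1189576 (C_2 L1189591 N_2))) (by decide +kernel)
theorem L1189593 : W_2 (nat_lit 11) (nat_lit 0x100008001c000000000000000000000000000) (nat_lit 0x0) (nat_lit 0x300018001c801f00060007c003e000f000000000000000) := Q_2 (nat_lit 113) (C_2 L1188684 (C_2 L1189459 (C_2 L1189458 (C_2 L1189592 N_2)))) (by decide +kernel)
theorem L1189594 : W_2 (nat_lit 6) (nat_lit 0x100008001c000000000000000000000000000) (nat_lit 0x0) (nat_lit 0x4001f00062007000080004000000000000000) := Q_2 (nat_lit 113) (C_2 L1188684 (C_2 L1189459 (C_2 L1189458 (C_2 L1188663 N_2)))) (by decide +kernel)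
theorem L1189595 : W_2 (nat_lit 2) (nat_lit 0x100028001e000800060000000000000000000) (nat_lit 0x0) (nat_lit 0x2000100000000000000002000000000000000) := D_2 (nat_lit 128) (nat_lit 61) (nat_lit 145) (nat_lit 5) (nat_lit 10) (nat_lit 3) (nat_lit 5) (nat_lit 10) (nat_lit 4) (by decide +kernel)
theorem L1189596 : W_2 (nat_lit 3) (nat_lit 0x100028001e000800020000000000000000000) (nat_lit 0x0) (nat_lit 0x2000100000000000040003000000000000000) := T_2 (nat_lit 78) (nat_lit 60) (nat_lit 4) (nat_lit 10) (nat_lit 7) L1189595 (by decide +kernel)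
theorem L1189597 : W_2 (nat_lit 4) (nat_lit 0x100008001e000800020000000000000000000) (nat_lit 0x0) (nat_lit 0x2000700000000000040003000000000000000) := T_2 (nat_lit 129) (nat_lit 130) (nat_lit 3) (nat_lit 7) (nat_lit 6) L1189596 (by decide +kernel)
theorem L1189598 : W_2 (nat_lit 5) (nat_lit 0x100008001e000000020000000000000000000) (nat_lit 0x0) (nat_lit 0x2000700000001800040003000000000000000) := T_2 (nat_lit 95) (nat_lit 96) (nat_lit 2) (nat_lit 7) (nat_lit 6) L1189597 (by decide +kernel)
theorem L1189599 : W_2 (nat_lit 2) (nat_lit 0x100008001e000d00020000400000000000000) (nat_lit 0x0) (nat_lit 0x4000600000000000000000000000000000000) := D_2 (nat_lit 129) (nat_lit 146) (nat_lit 130) (nat_lit 4) (nat_lit 10) (nat_lit 8) (nat_lit 3) (nat_lit 7) (nat_lit 6) (by decide +kernel)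
theorem L1189600 : W_2 (nat_lit 3) (nat_lit 0x100008001e000500020000400000000000000) (nat_lit 0x0) (nat_lit 0x4000600000001800000000000000000000000) := T_2 (nat_lit 95) (nat_lit 96) (nat_lit 2) (nat_lit 7) (nat_lit 6) L1189599 (by decide +kernel)
theorem L1189601 : W_2 (nat_lit 4) (nat_lit 0x100008001e000500020000000000000000000) (nat_lit 0x0) (nat_lit 0x4000600000001800008000400000000000000) := T_2 (nat_lit 58) (nat_lit 75) (nat_lit 7) (nat_lit 7) (nat_lit 3) L1189600 (by decide +kernel)
theorem L1189602 : W_2 (nat_lit 5) (nat_lit 0x100008001e000100020000000000000000000) (nat_lit 0x0) (nat_lit 0x4000700000001c00008000400000000000000) := T_2 (nat_lit 94) (nat_lit 128) (nat_lit 5) (nat_lit 9) (nat_lit 4) L1189601 (by decide +kernel)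
theorem L1189603 : W_2 (nat_lit 6) (nat_lit 0x100008001e000000020000000000000000000) (nat_lit 0x0) (nat_lit 0x4000700000001d80008000400000000000000) := T_2 (nat_lit 92) (nat_lit 91) (nat_lit 0) (nat_lit 10) (nat_lit 6) L1189602 (by decide +kernel)
theorem L1189604 : W_2 (nat_lit 8) (nat_lit 0x100008001e000000000000000000000000000) (nat_lit 0x0) (nat_lit 0x6000700000001d80068003400080004000000) := Q_2 (nat_lit 77) (C_2 L1189521 (C_2 L1189527 (C_2 L1189598 (C_2 L1189603 N_2)))) (by decide +kernel)
theorem L1189605 : W_2 (nat_lit 9) (nat_lit 0x100008001c000000000000000000000000000) (nat_lit 0x0) (nat_lit 0x6000700003801dc0068003400080004000000) := Q_2 (nat_lit 109) (C_2 L1188542 (C_2 L1189553 (C_2 L1189604 (C_2 L1189550 N_2)))) (by decide +kernel)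
theorem L1189606 : W_2 (nat_lit 2) (nat_lit 0x8000100068001c000400000001000000000000000) (nat_lit 0x0) (nat_lit 0x1800020000000000000000000000000000) := D_2 (nat_lit 131) (nat_lit 132) (nat_lit 113) (nat_lit 0) (nat_lit 13) (nat_lit 7) (nat_lit 3) (nat_lit 8) (nat_lit 6) (by decide +kernel)
theorem L1189607 : W_2 (nat_lit 3) (nat_lit 0x8000100028001c000400000001000000000000000) (nat_lit 0x0) (nat_lit 0x1c00022000000000000000000000000000) := T_2 (nat_lit 130) (nat_lit 109) (nat_lit 3) (nat_lit 7) (nat_lit 6) L1189606 (by decide +kernel)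
theorem L1189608 : W_2 (nat_lit 4) (nat_lit 0x100028001c000400000001000000000000000) (nat_lit 0x0) (nat_lit 0x80004001c00022000000000000000000000000000) := T_2 (nat_lit 163) (nat_lit 146) (nat_lit 4) (nat_lit 10) (nat_lit 9) L1189607 (by decide +kernel)
theorem L1189609 : W_2 (nat_lit 5) (nat_lit 0x100028001c000400000000000000000000000) (nat_lit 0x0) (nat_lit 0x80004001c00022000000020001000000000000000) := T_2 (nat_lit 60) (nat_lit 77) (nat_lit 7) (nat_lit 9) (nat_lit 3) L1189608 (by decide +kernel)
theorem L1189610 : W_2 (nat_lit 2) (nat_lit 0x100028001f000400000000000000000000000) (nat_lit 0x0) (nat_lit 0x1c0000000000000000000000) := D_2 (nat_lit 91) (nat_lit 92) (nat_lit 90) (nat_lit 0) (nat_lit 10) (nat_lit 6) (nat_lit 0) (nat_lit 9) (nat_lit 6) (by decide +kernel)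
theorem L1189611 : W_2 (nat_lit 3) (nat_lit 0x100028001e000400000000000000000000000) (nat_lit 0x0) (nat_lit 0x10009c0000000000000000000000) := T_2 (nat_lit 108) (nat_lit 95) (nat_lit 2) (nat_lit 6) (nat_lit 6) L1189610 (by decide +kernel)
theorem L1189612 : W_2 (nat_lit 4) (nat_lit 0x100028001c000400000000000000000000000) (nat_lit 0x0) (nat_lit 0x4000030009c0000000000000000000000) := T_2 (nat_lit 109) (nat_lit 130) (nat_lit 3) (nat_lit 7) (nat_lit 6) L1189611 (by decide +kernel)
theorem L1189613 : W_2 (nat_lit 2) (nat_lit 0x100028001c000400020000000000000000000) (nat_lit 0x0) (nat_lit 0x80004000000000000800000000000000000000000) := D_2 (nat_lit 146) (nat_lit 163) (nat_lit 95) (nat_lit 4) (nat_lit 10) (nat_lit 9) (nat_lit 4) (nat_lit 10) (nat_lit 8) (by decide +kernel)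
theorem L1189614 : W_2 (nat_lit 3) (nat_lit 0x100028001c000400000000000000000000000) (nat_lit 0x0) (nat_lit 0x80004000000000000800020001000000000000000) := T_2 (nat_lit 77) (nat_lit 60) (nat_lit 7) (nat_lit 9) (nat_lit 3) L1189613 (by decide +kernel)
theorem L1189615 : W_2 (nat_lit 6) (nat_lit 0x100008001c000400000000000000000000000) (nat_lit 0x0) (nat_lit 0x80004001e000230009c0020001000000000000000) := Q_2 (nat_lit 129) (C_2 L1189609 (C_2 L1189612 (C_2 L1189614 N_2))) (by decide +kernel)
theorem L1189616 : W_2 (nat_lit 2) (nat_lit 0x100028001e000480000000000000000000000) (nat_lit 0x0) (nat_lit 0x100001000040000000000000000000000) := D_2 (nat_lit 108) (nat_lit 128) (nat_lit 90) (nat_lit 3) (nat_lit 6) (nat_lit 6) (nat_lit 0) (nat_lit 9) (nat_lit 6) (by decide +kernel)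
theorem L1189617 : W_2 (nat_lit 3) (nat_lit 0x100008001e000480000000000000000000000) (nat_lit 0x0) (nat_lit 0x700001000040000000000000000000000) := T_2 (nat_lit 129) (nat_lit 130) (nat_lit 3) (nat_lit 7) (nat_lit 6) L1189616 (by decide +kernel)
theorem L1189618 : W_2 (nat_lit 4) (nat_lit 0x100008001e000400000000000000000000000) (nat_lit 0x0) (nat_lit 0x7000010001c0000000000000000000000) := T_2 (nat_lit 91) (nat_lit 92) (nat_lit 0) (nat_lit 10) (nat_lit 6) L1189617 (by decide +kernel)
theorem L1189619 : W_2 (nat_lit 2) (nat_lit 0x10004800fe000400000000000000000000000) (nat_lit 0x0) (nat_lit 0xe000000000000000000000000) := D_2 (nat_lit 98) (nat_lit 97) (nat_lit 99) (nat_lit 2) (nat_lit 9) (nat_lit 6) (nat_lit 2) (nat_lit 10) (nat_lit 6) (by decide +kernel)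
theorem L1189620 : W_2 (nat_lit 3) (nat_lit 0x100048007e000400000000000000000000000) (nat_lit 0x0) (nat_lit 0x8000e800000000000000000000000) := T_2 (nat_lit 115) (nat_lit 95) (nat_lit 0) (nat_lit 13) (nat_lit 6) L1189619 (by decide +kernel)
theorem L1189621 : W_2 (nat_lit 4) (nat_lit 0x100048003e000400000000000000000000000) (nat_lit 0x0) (nat_lit 0x1000c000e800000000000000000000000) := T_2 (nat_lit 114) (nat_lit 128) (nat_lit 1) (nat_lit 12) (nat_lit 6) L1189620 (by decide +kernel)
theorem L1189622 : W_2 (nat_lit 5) (nat_lit 0x100048001e000400000000000000000000000) (nat_lit 0x0) (nat_lit 0x9000e000e800000000000000000000000) := T_2 (nat_lit 113) (nat_lit 131) (nat_lit 3) (nat_lit 8) (nat_lit 6) L1189621 (by decide +kernel)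
theorem L1189623 : W_2 (nat_lit 6) (nat_lit 0x100008001e000400000000000000000000000) (nat_lit 0x0) (nat_lit 0xf000e000e800000000000000000000000) := T_2 (nat_lit 130) (nat_lit 129) (nat_lit 3) (nat_lit 7) (nat_lit 6) L1189622 (by decide +kernel)
theorem L1189624 : W_2 (nat_lit 7) (nat_lit 0x100008001c000400000000000000000000000) (nat_lit 0x0) (nat_lit 0xf000e300e9c0000000000000000000000) := Q_2 (nat_lit 109) (C_2 L1189618 (C_2 L1188983 (C_2 L1189623 N_2))) (by decide +kernel)
theorem L1189625 : W_2 (nat_lit 8) (nat_lit 0x100008001c000000000000000000000000000) (nat_lit 0x0) (nat_lit 0x80004001f000e300edc0020001000000000000000) := Q_2 (nat_lit 94) (C_2 L1189615 (C_2 L1189461 (C_2 L1189624 N_2))) (by decide +kernel)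
theorem L1189626 : W_2 (nat_lit 12) (nat_lit 0x100008000c000000000000000000000000000) (nat_lit 0x0) (nat_lit 0x300018001e803f001f380fdc03e800f400080004000000) := Q_2 (nat_lit 112) (C_2 L1188879 (C_2 L1189460 (C_2 L1189554 (C_2 L1189593 (C_2 L1189594 (C_2 L1189605 (C_2 L1189625 N_2))))))) (by decide +kernel)
theorem L1189627 : W_2 (nat_lit 4) (nat_lit 0x100008000c000000000000000000000000000) (nat_lit 0x0) (nat_lit 0x4000600030000000100000000400000000000000000000000) := T_2 (nat_lit 161) (nat_lit 94) (nat_lit 6) (nat_lit 8) (nat_lit 9) L149 (by decide +kernel)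
theorem L1189628 : W_2 (nat_lit 7) (nat_lit 0x2000100018000f000000000000000000000000000) (nat_lit 0x0) (nat_lit 0x28001c002e000300000000c0000000000000000000000) := T_2 (nat_lit 160) (nat_lit 177) (nat_lit 5) (nat_lit 8) (nat_lit 6) L1118050 (by decide +kernel)
theorem L1189629 : W_2 (nat_lit 8) (nat_lit 0x2000100018000e000000000000000000000000000) (nat_lit 0x0) (nat_lit 0x28001c002e000300018000c0000000000000000000000) := T_2 (nat_lit 108) (nat_lit 107) (nat_lit 3) (nat_lit 5) (nat_lit 6) L1189628 (by decide +kernel)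
theorem L1190115 : W_2 (nat_lit 2) (nat_lit 0x100048001e001100000000400000000000000) (nat_lit 0x0) (nat_lit 0x800020002000000000000000000000000) := D_2 (nat_lit 113) (nat_lit 131) (nat_lit 97) (nat_lit 3) (nat_lit 8) (nat_lit 6) (nat_lit 2) (nat_lit 8) (nat_lit 6) (by decide +kernel)
theorem L1190116 : W_2 (nat_lit 3) (nat_lit 0x100048001e000100000000400000000000000) (nat_lit 0x0) (nat_lit 0x800020003800000000000000000000000) := T_2 (nat_lit 96) (nat_lit 95) (nat_lit 2) (nat_lit 7) (nat_lit 6) L1190115 (by decide +kernel)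
theorem L1190117 : W_2 (nat_lit 4) (nat_lit 0x100008001e000100000000400000000000000) (nat_lit 0x0) (nat_lit 0xe00020003800000000000000000000000) := T_2 (nat_lit 130) (nat_lit 129) (nat_lit 3) (nat_lit 7) (nat_lit 6) L1190116 (by decide +kernel)
theorem L1190118 : W_2 (nat_lit 5) (nat_lit 0x100008001e000100000000000000000000000) (nat_lit 0x0) (nat_lit 0xe00020003800008000400000000000000) := T_2 (nat_lit 58) (nat_lit 75) (nat_lit 7) (nat_lit 7) (nat_lit 3) L1190117 (by decide +kernel)
theorem L1190119 : W_2 (nat_lit 6) (nat_lit 0x100008000e000100000000000000000000000) (nat_lit 0x0) (nat_lit 0xe00030003880008000400000000000000) := T_2 (nat_lit 112) (nat_lit 91) (nat_lit 0) (nat_lit 10) (nat_lit 6) L1190118 (by decide +kernel)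
theorem L1190120 : W_2 (nat_lit 7) (nat_lit 0x100008000e000000000000000000000000000) (nat_lit 0x0) (nat_lit 0x20000000e00030003980008000400000000000000) := T_2 (nat_lit 92) (nat_lit 161) (nat_lit 4) (nat_lit 8) (nat_lit 9) L1190119 (by decide +kernel)
theorem L1190121 : W_2 (nat_lit 2) (nat_lit 0x100008000f000000000000000000000000000) (nat_lit 0x0) (nat_lit 0x300000800000000000000000000000000) := D_2 (nat_lit 128) (nat_lit 129) (nat_lit 107) (nat_lit 3) (nat_lit 6) (nat_lit 6) (nat_lit 3) (nat_lit 5) (nat_lit 6) (by decide +kernel)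
theorem L1190122 : W_2 (nat_lit 6) (nat_lit 0x100008000e000000000000000000000000000) (nat_lit 0x0) (nat_lit 0x4003380118001e0008000400000000000000) := Q_2 (nat_lit 108) (C_2 L1185465 (C_2 L1190121 (C_2 L1185080 N_2))) (by decide +kernel)
theorem L1190123 : W_2 (nat_lit 6) (nat_lit 0x100008000e000000000000000000000000000) (nat_lit 0x0) (nat_lit 0x28001c000e00020000000100000000100000000000000000000000) := T_2 (nat_lit 161) (nat_lit 92) (nat_lit 4) (nat_lit 8) (nat_lit 9) L1187130 (by decide +kernel)
theorem L1190124 : W_2 (nat_lit 9) (nat_lit 0x100018000e000000000000000000000000000) (nat_lit 0x0) (nat_lit 0x68003c002e000300018000c0000000000000000000000) := T_2 (nat_lit 161) (nat_lit 178) (nat_lit 6) (nat_lit 8) (nat_lit 10) L1189629 (by decide +kernel)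
theorem L1190125 : W_2 (nat_lit 6) (nat_lit 0x100018000e000000000000000000000000000) (nat_lit 0x0) (nat_lit 0x400020002000e00070003800040002000000000000000) := T_2 (nat_lit 161) (nat_lit 178) (nat_lit 6) (nat_lit 8) (nat_lit 10) L1189755 (by decide +kernel)
theorem L1190126 : W_2 (nat_lit 10) (nat_lit 0x100008000e000000000000000000000000000) (nat_lit 0x0) (nat_lit 0x68003c002e00f300718038c0040002000000000000000) := Q_2 (nat_lit 128) (C_2 L602691 (C_2 L1190124 (C_2 L1190125 N_2))) (by decide +kernel)
theorem L1190127 : W_2 (nat_lit 11) (nat_lit 0x100008000c000000000000000000000000000) (nat_lit 0x0) (nat_lit 0x28001c000e8003c002e00f380738039e0048002400000000000000) := Q_2 (nat_lit 109) (C_2 L1190120 (C_2 L1190122 (C_2 L1190123 (C_2 L1190126 N_2)))) (by decide +kernel)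
theorem L1190128 : W_2 (nat_lit 17) (nat_lit 0x1000080004000000000000000000000000000) (nat_lit 0x0) (nat_lit 0x2800fc007e803bc01ee07f381fb81fde03e800f400080004000000) := Q_2 (nat_lit 111) (C_2 L1189456 (C_2 L1189457 (C_2 L1189626 (C_2 L1189627 (C_2 L1190127 N_2))))) (by decide +kernel)
theorem L1190137 : W_2 (nat_lit 2) (nat_lit 0x1800480004001200078002000000000000000) (nat_lit 0x0) (nat_lit 0x20002000080000000000000000000) := D_2 (nat_lit 79) (nat_lit 97) (nat_lit 113) (nat_lit 3) (nat_lit 8) (nat_lit 4) (nat_lit 4) (nat_lit 11) (nat_lit 7) (by decide +kernel)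
theorem L1190138 : W_2 (nat_lit 3) (nat_lit 0x1800480004001200078000000000000000000) (nat_lit 0x0) (nat_lit 0x20002000080006000000000000000) := T_2 (nat_lit 61) (nat_lit 62) (nat_lit 2) (nat_lit 7) (nat_lit 4) L1190137 (by decide +kernel)
theorem L1190139 : W_2 (nat_lit 4) (nat_lit 0x1800480004001200038000000000000000000) (nat_lit 0x0) (nat_lit 0x200028000c0006000000000000000) := T_2 (nat_lit 78) (nat_lit 95) (nat_lit 3) (nat_lit 7) (nat_lit 4) L1190138 (by decide +kernel)
theorem L1190140 : W_2 (nat_lit 5) (nat_lit 0x1800480004001200030000000000000000000) (nat_lit 0x0) (nat_lit 0x200028000c8006400000000000000) := T_2 (nat_lit 75) (nat_lit 58) (nat_lit 4) (nat_lit 8) (nat_lit 7) L1190139 (by decide +kernel)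
theorem L1190141 : W_2 (nat_lit 6) (nat_lit 0x1800480004001200020000000000000000000) (nat_lit 0x0) (nat_lit 0x200028000d8007400000000000000) := T_2 (nat_lit 76) (nat_lit 60) (nat_lit 6) (nat_lit 8) (nat_lit 7) L1190140 (by decide +kernel)
theorem L1190142 : W_2 (nat_lit 7) (nat_lit 0x1000480004001200020000000000000000000) (nat_lit 0x0) (nat_lit 0x100008000000200028000d8007400000000000000) := T_2 (nat_lit 143) (nat_lit 160) (nat_lit 5) (nat_lit 8) (nat_lit 5) L1190141 (by decide +kernel)
theorem L1190143 : W_2 (nat_lit 8) (nat_lit 0x1000480004001200000000000000000000000) (nat_lit 0x0) (nat_lit 0x10000800000020002c000f8007400000000000000) := T_2 (nat_lit 77) (nat_lit 94) (nat_lit 6) (nat_lit 8) (nat_lit 8) L1190142 (by decide +kernel)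
theorem L1190144 : W_2 (nat_lit 2) (nat_lit 0x1000480024001e00090000000000000000000) (nat_lit 0x0) (nat_lit 0x8000000000000000040002000000000000000) := D_2 (nat_lit 78) (nat_lit 147) (nat_lit 61) (nat_lit 4) (nat_lit 11) (nat_lit 8) (nat_lit 4) (nat_lit 11) (nat_lit 7) (by decide +kernel)
theorem L1190145 : W_2 (nat_lit 3) (nat_lit 0x1000480024001e00010000000000000000000) (nat_lit 0x0) (nat_lit 0x80000000000000001c0002000000000000000) := T_2 (nat_lit 79) (nat_lit 80) (nat_lit 2) (nat_lit 8) (nat_lit 5) L1190144 (by decide +kernel)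
theorem L1190146 : W_2 (nat_lit 4) (nat_lit 0x1000480004001e00010000000000000000000) (nat_lit 0x0) (nat_lit 0x80000000600000001c0002000000000000000) := T_2 (nat_lit 113) (nat_lit 114) (nat_lit 3) (nat_lit 8) (nat_lit 5) L1190145 (by decide +kernel)
theorem L1190147 : W_2 (nat_lit 5) (nat_lit 0x1000480004001e00000000000000000000000) (nat_lit 0x0) (nat_lit 0x80000000600000001d8002000000000000000) := T_2 (nat_lit 76) (nat_lit 75) (nat_lit 0) (nat_lit 11) (nat_lit 5) L1190146 (by decide +kernel)
theorem L1190148 : W_2 (nat_lit 6) (nat_lit 0x1000480004001600000000000000000000000) (nat_lit 0x0) (nat_lit 0x80000000620008001d8002000000000000000) := T_2 (nat_lit 95) (nat_lit 109) (nat_lit 1) (nat_lit 11) (nat_lit 5) L1190147 (by decide +kernel)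
theorem L1190149 : W_2 (nat_lit 7) (nat_lit 0x1000480004001200000000000000000000000) (nat_lit 0x0) (nat_lit 0x8000000062000c001f8002000000000000000) := T_2 (nat_lit 94) (nat_lit 77) (nat_lit 6) (nat_lit 8) (nat_lit 8) L1190148 (by decide +kernel)
theorem L1190150 : W_2 (nat_lit 2) (nat_lit 0xd800480024001a00000000000000000000000) (nat_lit 0x0) (nat_lit 0x42000400000000000000000000000) := D_2 (nat_lit 94) (nat_lit 114) (nat_lit 109) (nat_lit 3) (nat_lit 8) (nat_lit 5) (nat_lit 1) (nat_lit 11) (nat_lit 5) (by decide +kernel)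
theorem L1190151 : W_2 (nat_lit 3) (nat_lit 0xd800480024001200000000000000000000000) (nat_lit 0x0) (nat_lit 0x42000c00040000000000000000000) := T_2 (nat_lit 95) (nat_lit 78) (nat_lit 4) (nat_lit 11) (nat_lit 8) L1190150 (by decide +kernel)
theorem L1190152 : W_2 (nat_lit 4) (nat_lit 0x5800480024001200000000000000000000000) (nat_lit 0x0) (nat_lit 0x80008000000042000c00040000000000000000000) := T_2 (nat_lit 147) (nat_lit 163) (nat_lit 5) (nat_lit 11) (nat_lit 5) L1190151 (by decide +kernel)
theorem L1190153 : W_2 (nat_lit 5) (nat_lit 0x5000480024001200000000000000000000000) (nat_lit 0x0) (nat_lit 0x90008800000042000c00040000000000000000000) := T_2 (nat_lit 143) (nat_lit 160) (nat_lit 5) (nat_lit 8) (nat_lit 5) L1190152 (by decide +kernel)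
theorem L1190154 : W_2 (nat_lit 6) (nat_lit 0x5000480024001200000000000000000000000) (nat_lit 0x0) (nat_lit 0x2800180008000000028001c0008000000000000000) := T_2 (nat_lit 147) (nat_lit 163) (nat_lit 5) (nat_lit 11) (nat_lit 5) L97949 (by decide +kernel)
theorem L1190155 : W_2 (nat_lit 2) (nat_lit 0x5800c800240012000c0004000000000000000) (nat_lit 0x0) (nat_lit 0x100008000400000000000) := D_2 (nat_lit 63) (nat_lit 46) (nat_lit 80) (nat_lit 6) (nat_lit 11) (nat_lit 6) (nat_lit 6) (nat_lit 11) (nat_lit 7) (by decide +kernel)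
theorem L1190156 : W_2 (nat_lit 3) (nat_lit 0x5800c800240012000c0000000000000000000) (nat_lit 0x0) (nat_lit 0x4000000010000c000400000000000) := T_2 (nat_lit 62) (nat_lit 114) (nat_lit 7) (nat_lit 11) (nat_lit 3) L1190155 (by decide +kernel)
theorem L1190157 : W_2 (nat_lit 4) (nat_lit 0x58004800240012000c0000000000000000000) (nat_lit 0x0) (nat_lit 0x1000080004000000010000c000400000000000) := T_2 (nat_lit 131) (nat_lit 148) (nat_lit 7) (nat_lit 11) (nat_lit 4) L1190156 (by decide +kernel)
theorem L1190158 : W_2 (nat_lit 5) (nat_lit 0x5800480024001200080000000000000000000) (nat_lit 0x0) (nat_lit 0x1000080004000000014000e000400000000000) := T_2 (nat_lit 78) (nat_lit 61) (nat_lit 4) (nat_lit 11) (nat_lit 7) L1190157 (by decide +kernel)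
theorem L1190159 : W_2 (nat_lit 6) (nat_lit 0x5800480024001200000000000000000000000) (nat_lit 0x0) (nat_lit 0x10000a000400000001c000e000400000000000) := T_2 (nat_lit 79) (nat_lit 129) (nat_lit 5) (nat_lit 11) (nat_lit 4) L1190158 (by decide +kernel)
theorem L1190160 : W_2 (nat_lit 7) (nat_lit 0x5000480024001200000000000000000000000) (nat_lit 0x0) (nat_lit 0x10010800a000400000001c000e000400000000000) := T_2 (nat_lit 143) (nat_lit 160) (nat_lit 5) (nat_lit 8) (nat_lit 5) L1190159 (by decide +kernel)
theorem L1190161 : W_2 (nat_lit 3) (nat_lit 0x5000480024001200080000000000000000000) (nat_lit 0x0) (nat_lit 0x80008000000000002000100008000000000000000) := T_2 (nat_lit 147) (nat_lit 163) (nat_lit 5) (nat_lit 11) (nat_lit 5) L72818 (by decide +kernel)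
theorem L1190162 : W_2 (nat_lit 4) (nat_lit 0x5000480024001200000000000000000000000) (nat_lit 0x0) (nat_lit 0x80008000200000002000180008000000000000000) := T_2 (nat_lit 79) (nat_lit 129) (nat_lit 5) (nat_lit 11) (nat_lit 4) L1190161 (by decide +kernel)
theorem L1190163 : W_2 (nat_lit 8) (nat_lit 0x5000480004001200000000000000000000000) (nat_lit 0x0) (nat_lit 0x290018800a00062002c001c000e000400000000000) := Q_2 (nat_lit 113) (C_2 L1190153 (C_2 L1190154 (C_2 L1190160 (C_2 L1190162 N_2)))) (by decide +kernel)
theorem L1190164 : W_2 (nat_lit 6) (nat_lit 0x30005000480004001200000000000000000000000) (nat_lit 0x0) (nat_lit 0x8000a000000060002c001c0000000000000000000) := T_2 (nat_lit 147) (nat_lit 145) (nat_lit 1) (nat_lit 11) (nat_lit 8) L36573 (by decide +kernel)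
theorem L1190165 : W_2 (nat_lit 7) (nat_lit 0x10005000480004001200000000000000000000000) (nat_lit 0x0) (nat_lit 0x2000a000a000000060002c001c0000000000000000000) := T_2 (nat_lit 161) (nat_lit 177) (nat_lit 5) (nat_lit 8) (nat_lit 6) L1190164 (by decide +kernel)
theorem L1190166 : W_2 (nat_lit 8) (nat_lit 0x5000480004001200000000000000000000000) (nat_lit 0x0) (nat_lit 0x2000b000a800000060002c001c0000000000000000000) := T_2 (nat_lit 160) (nat_lit 143) (nat_lit 5) (nat_lit 8) (nat_lit 5) L1190165 (by decide +kernel)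
theorem L1190167 : W_2 (nat_lit 2) (nat_lit 0x5000c800240012000c0004000000000000000) (nat_lit 0x0) (nat_lit 0x100008000400000000000) := D_2 (nat_lit 63) (nat_lit 46) (nat_lit 80) (nat_lit 6) (nat_lit 11) (nat_lit 6) (nat_lit 6) (nat_lit 11) (nat_lit 7) (by decide +kernel)
theorem L1190168 : W_2 (nat_lit 3) (nat_lit 0x5000c800240012000c0000000000000000000) (nat_lit 0x0) (nat_lit 0x4000000010000c000400000000000) := T_2 (nat_lit 62) (nat_lit 114) (nat_lit 7) (nat_lit 11) (nat_lit 3) L1190167 (by decide +kernel)
theorem L1190169 : W_2 (nat_lit 4) (nat_lit 0x50004800240012000c0000000000000000000) (nat_lit 0x0) (nat_lit 0x1000080004000000010000c000400000000000) := T_2 (nat_lit 131) (nat_lit 148) (nat_lit 7) (nat_lit 11) (nat_lit 4) L1190168 (by decide +kernel)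
theorem L1190170 : W_2 (nat_lit 5) (nat_lit 0x5000480024001200080000000000000000000) (nat_lit 0x0) (nat_lit 0x1000080004000000014000e000400000000000) := T_2 (nat_lit 78) (nat_lit 61) (nat_lit 4) (nat_lit 11) (nat_lit 7) L1190169 (by decide +kernel)
theorem L1190171 : W_2 (nat_lit 6) (nat_lit 0x5000480024001200000000000000000000000) (nat_lit 0x0) (nat_lit 0x10000a000400000001c000e000400000000000) := T_2 (nat_lit 79) (nat_lit 129) (nat_lit 5) (nat_lit 11) (nat_lit 4) L1190170 (by decide +kernel)
theorem L1190172 : W_2 (nat_lit 4) (nat_lit 0x5000480024001200000000000000000000000) (nat_lit 0x0) (nat_lit 0x80008000000042000c00040000000000000000000) := T_2 (nat_lit 147) (nat_lit 163) (nat_lit 5) (nat_lit 11) (nat_lit 5) L97939 (by decide +kernel)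
theorem L1190173 : W_2 (nat_lit 7) (nat_lit 0x5000480004001200000000000000000000000) (nat_lit 0x0) (nat_lit 0x280018000a00062002c001c000e000400000000000) := Q_2 (nat_lit 113) (C_2 L1190154 (C_2 L1190162 (C_2 L1190171 (C_2 L1190172 N_2)))) (by decide +kernel)
theorem L1190174 : W_2 (nat_lit 2) (nat_lit 0x5800680004001a00080000000000000000000) (nat_lit 0x0) (nat_lit 0x2000400100000000000000000000) := D_2 (nat_lit 94) (nat_lit 80) (nat_lit 109) (nat_lit 2) (nat_lit 8) (nat_lit 5) (nat_lit 1) (nat_lit 11) (nat_lit 5) (by decide +kernel)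
theorem L1190175 : W_2 (nat_lit 3) (nat_lit 0x5800680004001200080000000000000000000) (nat_lit 0x0) (nat_lit 0x12000c00100000000000000000000) := T_2 (nat_lit 95) (nat_lit 112) (nat_lit 6) (nat_lit 10) (nat_lit 8) L1190174 (by decide +kernel)
theorem L1190176 : W_2 (nat_lit 4) (nat_lit 0x5800680004001200000000000000000000000) (nat_lit 0x0) (nat_lit 0x32000c00180000000000000000000) := T_2 (nat_lit 79) (nat_lit 113) (nat_lit 5) (nat_lit 11) (nat_lit 4) L1190175 (by decide +kernel)
theorem L1190177 : W_2 (nat_lit 5) (nat_lit 0x5800480004001200000000000000000000000) (nat_lit 0x0) (nat_lit 0x2000200032000c00180000000000000000000) := T_2 (nat_lit 129) (nat_lit 145) (nat_lit 2) (nat_lit 7) (nat_lit 8) L1190176 (by decide +kernel)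
theorem L1190178 : W_2 (nat_lit 6) (nat_lit 0x5000480004001200000000000000000000000) (nat_lit 0x0) (nat_lit 0x10002800200032000c00180000000000000000000) := T_2 (nat_lit 143) (nat_lit 160) (nat_lit 5) (nat_lit 8) (nat_lit 5) L1190177 (by decide +kernel)
theorem L1190179 : W_2 (nat_lit 2) (nat_lit 0xf800480004001200000000000000000000000) (nat_lit 0x0) (nat_lit 0x180000000000020000000000000000000000000000) := D_2 (nat_lit 163) (nat_lit 164) (nat_lit 113) (nat_lit 3) (nat_lit 7) (nat_lit 8) (nat_lit 5) (nat_lit 11) (nat_lit 5) (by decide +kernel)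
theorem L1190180 : W_2 (nat_lit 3) (nat_lit 0x7800480004001200000000000000000000000) (nat_lit 0x0) (nat_lit 0x180008000800020000000000000000000000000000) := T_2 (nat_lit 147) (nat_lit 131) (nat_lit 2) (nat_lit 8) (nat_lit 8) L1190179 (by decide +kernel)
theorem L1190181 : W_2 (nat_lit 4) (nat_lit 0x5800480004001200000000000000000000000) (nat_lit 0x0) (nat_lit 0x18000a000a00020000000000000000000000000000) := T_2 (nat_lit 145) (nat_lit 129) (nat_lit 2) (nat_lit 7) (nat_lit 8) L1190180 (by decide +kernel)
theorem L1190182 : W_2 (nat_lit 5) (nat_lit 0x5000480004001200000000000000000000000) (nat_lit 0x0) (nat_lit 0x19000a800a00020000000000000000000000000000) := T_2 (nat_lit 143) (nat_lit 160) (nat_lit 5) (nat_lit 8) (nat_lit 5) L1190181 (by decide +kernel)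
theorem L1190183 : W_2 (nat_lit 2) (nat_lit 0xf800480004001200000000000000000000000) (nat_lit 0x0) (nat_lit 0x380000000000000000000000000000000000000000) := D_2 (nat_lit 164) (nat_lit 163) (nat_lit 165) (nat_lit 3) (nat_lit 7) (nat_lit 8) (nat_lit 3) (nat_lit 8) (nat_lit 8) (by decide +kernel)
theorem L1190184 : W_2 (nat_lit 3) (nat_lit 0x7800480004001200000000000000000000000) (nat_lit 0x0) (nat_lit 0x380008000800000000000000000000000000000000) := T_2 (nat_lit 147) (nat_lit 131) (nat_lit 2) (nat_lit 8) (nat_lit 8) L1190183 (by decide +kernel)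
theorem L1190185 : W_2 (nat_lit 4) (nat_lit 0x5800480004001200000000000000000000000) (nat_lit 0x0) (nat_lit 0x38000a000a00000000000000000000000000000000) := T_2 (nat_lit 145) (nat_lit 129) (nat_lit 2) (nat_lit 7) (nat_lit 8) L1190184 (by decide +kernel)
theorem L1190186 : W_2 (nat_lit 5) (nat_lit 0x5000480004001200000000000000000000000) (nat_lit 0x0) (nat_lit 0x39000a800a00000000000000000000000000000000) := T_2 (nat_lit 143) (nat_lit 160) (nat_lit 5) (nat_lit 8) (nat_lit 5) L1190185 (by decide +kernel)
theorem L1190187 : W_2 (nat_lit 9) (nat_lit 0x1000480004001200000000000000000000000) (nat_lit 0x0) (nat_lit 0x2003b001e800a00072002c001c000e000400000000000) := Q_2 (nat_lit 146) (C_2 L1190163 (C_2 L1190166 (C_2 L1190173 (C_2 L1190178 (C_2 L1190182 (C_2 L1190186 N_2)))))) (by decide +kernel)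
theorem L1190189 : W_2 (nat_lit 7) (nat_lit 0x1000480024001200000000000000000000000) (nat_lit 0x0) (nat_lit 0x8001c000a000500020001c000e000300000000000) := Q_2 (nat_lit 79) (C_2 L73049 (C_2 L73152 (C_2 L72804 (C_2 L72780 N_2)))) (by decide +kernel)
theorem L1190190 : W_2 (nat_lit 2) (nat_lit 0x1800c800240012000b0004d00000000000000) (nat_lit 0x0) (nat_lit 0x100008000400000000000) := D_2 (nat_lit 63) (nat_lit 46) (nat_lit 80) (nat_lit 6) (nat_lit 11) (nat_lit 6) (nat_lit 6) (nat_lit 11) (nat_lit 7) (by decide +kernel)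
theorem L1190191 : W_2 (nat_lit 3) (nat_lit 0x1800c800240012000b0000d00000000000000) (nat_lit 0x0) (nat_lit 0x4000000010000c000400000000000) := T_2 (nat_lit 62) (nat_lit 114) (nat_lit 7) (nat_lit 11) (nat_lit 3) L1190190 (by decide +kernel)
theorem L1190192 : W_2 (nat_lit 4) (nat_lit 0x18004800240012000b0000d00000000000000) (nat_lit 0x0) (nat_lit 0x1000080004000000010000c000400000000000) := T_2 (nat_lit 131) (nat_lit 148) (nat_lit 7) (nat_lit 11) (nat_lit 4) L1190191 (by decide +kernel)
theorem L1190193 : W_2 (nat_lit 5) (nat_lit 0x1800480024001200030000d00000000000000) (nat_lit 0x0) (nat_lit 0x100008000400000001c000c000400000000000) := T_2 (nat_lit 79) (nat_lit 78) (nat_lit 0) (nat_lit 11) (nat_lit 4) L1190192 (by decide +kernel)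
theorem L1190194 : W_2 (nat_lit 6) (nat_lit 0x1800480024001200030000c00000000000000) (nat_lit 0x0) (nat_lit 0x100008000400000001c000c300400000000000) := T_2 (nat_lit 56) (nat_lit 57) (nat_lit 3) (nat_lit 5) (nat_lit 3) L1190193 (by decide +kernel)
theorem L1190195 : W_2 (nat_lit 7) (nat_lit 0x1800480024001200030000400000000000000) (nat_lit 0x0) (nat_lit 0x100008000400000001c000cb00420000000000) := T_2 (nat_lit 59) (nat_lit 41) (nat_lit 4) (nat_lit 8) (nat_lit 6) L1190194 (by decide +kernel)
theorem L1190196 : W_2 (nat_lit 8) (nat_lit 0x1800480024001200030000000000000000000) (nat_lit 0x0) (nat_lit 0x100008000400000001c800cf00420000000000) := T_2 (nat_lit 58) (nat_lit 75) (nat_lit 4) (nat_lit 8) (nat_lit 7) L1190195 (by decide +kernel)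
theorem L1190197 : W_2 (nat_lit 9) (nat_lit 0x1800480024001200020000000000000000000) (nat_lit 0x0) (nat_lit 0x100008000400000001d800df00420000000000) := T_2 (nat_lit 76) (nat_lit 60) (nat_lit 6) (nat_lit 8) (nat_lit 7) L1190196 (by decide +kernel)
theorem L1190198 : W_2 (nat_lit 10) (nat_lit 0x1800480024001200000000000000000000000) (nat_lit 0x0) (nat_lit 0x100008000400004001f800df00420000000000) := T_2 (nat_lit 77) (nat_lit 94) (nat_lit 6) (nat_lit 8) (nat_lit 8) L1190197 (by decide +kernel)
theorem L1190199 : W_2 (nat_lit 11) (nat_lit 0x1000480024001200000000000000000000000) (nat_lit 0x0) (nat_lit 0x100108008000400004001f800df00420000000000) := T_2 (nat_lit 143) (nat_lit 160) (nat_lit 5) (nat_lit 8) (nat_lit 5) L1190198 (by decide +kernel)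
theorem L1190200 : W_2 (nat_lit 5) (nat_lit 0x1000480024001200000000000000000000000) (nat_lit 0x0) (nat_lit 0x38001e000a00000002000180008000000000000000) := Q_2 (nat_lit 147) (C_2 L73155 (C_2 L72820 (C_2 L72794 N_2))) (by decide +kernel)
theorem L1190201 : W_2 (nat_lit 2) (nat_lit 0x18006800240032001b0006d00000000000000) (nat_lit 0x0) (nat_lit 0x40000000000000000200010000000) := D_2 (nat_lit 45) (nat_lit 28) (nat_lit 114) (nat_lit 7) (nat_lit 11) (nat_lit 1) (nat_lit 7) (nat_lit 11) (nat_lit 2) (by decide +kernel)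
theorem L1190202 : W_2 (nat_lit 3) (nat_lit 0x18006800240012001b0006d00000000000000) (nat_lit 0x0) (nat_lit 0x8000000040002000000000000200010000000) := T_2 (nat_lit 97) (nat_lit 147) (nat_lit 6) (nat_lit 11) (nat_lit 8) L1190201 (by decide +kernel)
theorem L1190203 : W_2 (nat_lit 4) (nat_lit 0x18006800240012001b0004d00000000000000) (nat_lit 0x0) (nat_lit 0x8000000040002000000002000300010000000) := T_2 (nat_lit 61) (nat_lit 44) (nat_lit 4) (nat_lit 11) (nat_lit 6) L1190202 (by decide +kernel)
theorem L1190204 : W_2 (nat_lit 5) (nat_lit 0x18006800240012001b0000d00000000000000) (nat_lit 0x0) (nat_lit 0x8000000050002000000006000300010000000) := T_2 (nat_lit 62) (nat_lit 112) (nat_lit 5) (nat_lit 11) (nat_lit 3) L1190203 (by decide +kernel)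
theorem L1190205 : W_2 (nat_lit 6) (nat_lit 0x18004800240012001b0000d00000000000000) (nat_lit 0x0) (nat_lit 0xc000200050002000000006000300010000000) := T_2 (nat_lit 129) (nat_lit 146) (nat_lit 5) (nat_lit 11) (nat_lit 4) L1190204 (by decide +kernel)
theorem L1190206 : W_2 (nat_lit 7) (nat_lit 0x18004800240012000b0000d00000000000000) (nat_lit 0x0) (nat_lit 0xc00020005000200010000e000300010000000) := T_2 (nat_lit 80) (nat_lit 63) (nat_lit 6) (nat_lit 11) (nat_lit 7) L1190205 (by decide +kernel)
theorem L1190207 : W_2 (nat_lit 8) (nat_lit 0x1800480024001200030000d00000000000000) (nat_lit 0x0) (nat_lit 0xc0002000500020001c000e000300010000000) := T_2 (nat_lit 79) (nat_lit 78) (nat_lit 0) (nat_lit 11) (nat_lit 4) L1190206 (by decide +kernel)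
theorem L1190208 : W_2 (nat_lit 9) (nat_lit 0x1800480024001200030000c00000000000000) (nat_lit 0x0) (nat_lit 0xc0002000500020001c000e300300010000000) := T_2 (nat_lit 56) (nat_lit 57) (nat_lit 3) (nat_lit 5) (nat_lit 3) L1190207 (by decide +kernel)
theorem L1190209 : W_2 (nat_lit 10) (nat_lit 0x1800480024001200030000400000000000000) (nat_lit 0x0) (nat_lit 0xc0002000500020001c000eb00320010000000) := T_2 (nat_lit 59) (nat_lit 41) (nat_lit 4) (nat_lit 8) (nat_lit 6) L1190208 (by decide +kernel)
theorem L1190210 : W_2 (nat_lit 11) (nat_lit 0x1800480024001200030000000000000000000) (nat_lit 0x0) (nat_lit 0xc0002000500020001c800ef00320010000000) := T_2 (nat_lit 58) (nat_lit 75) (nat_lit 4) (nat_lit 8) (nat_lit 7) L1190209 (by decide +kernel)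
theorem L1190211 : W_2 (nat_lit 12) (nat_lit 0x1800480024001200020000000000000000000) (nat_lit 0x0) (nat_lit 0xc0002000500020001d800ff00320010000000) := T_2 (nat_lit 76) (nat_lit 60) (nat_lit 6) (nat_lit 8) (nat_lit 7) L1190210 (by decide +kernel)
theorem L1190212 : W_2 (nat_lit 13) (nat_lit 0x1000480024001200020000000000000000000) (nat_lit 0x0) (nat_lit 0x1000c8002000500020001d800ff00320010000000) := T_2 (nat_lit 143) (nat_lit 160) (nat_lit 5) (nat_lit 8) (nat_lit 5) L1190211 (by decide +kernel)
theorem L1190213 : W_2 (nat_lit 14) (nat_lit 0x1000480024001200000000000000000000000) (nat_lit 0x0) (nat_lit 0x1000c8002000500024001f800ff00320010000000) := T_2 (nat_lit 77) (nat_lit 94) (nat_lit 6) (nat_lit 8) (nat_lit 8) L1190212 (by decide +kernel)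
theorem L1190214 : W_2 (nat_lit 2) (nat_lit 0x80019800480024003200000000000000000000000) (nat_lit 0x0) (nat_lit 0x1000100000000000040000000000000000000000000000) := D_2 (nat_lit 164) (nat_lit 114) (nat_lit 180) (nat_lit 6) (nat_lit 11) (nat_lit 9) (nat_lit 5) (nat_lit 11) (nat_lit 6) (by decide +kernel)
theorem L1190215 : W_2 (nat_lit 3) (nat_lit 0x19800480024003200000000000000000000000) (nat_lit 0x0) (nat_lit 0x1000180004000000040000000000000000000000000000) := T_2 (nat_lit 163) (nat_lit 146) (nat_lit 5) (nat_lit 11) (nat_lit 5) L1190214 (by decide +kernel)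
theorem L1190216 : W_2 (nat_lit 4) (nat_lit 0x19800480024001200000000000000000000000) (nat_lit 0x0) (nat_lit 0x1000180004000000040002000100000000000000000000) := T_2 (nat_lit 97) (nat_lit 80) (nat_lit 6) (nat_lit 11) (nat_lit 8) L1190215 (by decide +kernel)
theorem L1190217 : W_2 (nat_lit 5) (nat_lit 0x9800480024001200000000000000000000000) (nat_lit 0x0) (nat_lit 0x1000380014000000040002000100000000000000000000) := T_2 (nat_lit 148) (nat_lit 165) (nat_lit 7) (nat_lit 11) (nat_lit 5) L1190216 (by decide +kernel)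
theorem L1190218 : W_2 (nat_lit 6) (nat_lit 0x9000480024001200000000000000000000000) (nat_lit 0x0) (nat_lit 0x1000390014800000040002000100000000000000000000) := T_2 (nat_lit 143) (nat_lit 160) (nat_lit 5) (nat_lit 8) (nat_lit 5) L1190217 (by decide +kernel)
theorem L1190219 : W_2 (nat_lit 2) (nat_lit 0x80003000100059800680024003200000000000000000000000) (nat_lit 0x0) (nat_lit 0x1000040000000000000000800000000000000000000000000000000) := D_2 (nat_lit 198) (nat_lit 131) (nat_lit 216) (nat_lit 6) (nat_lit 11) (nat_lit 11) (nat_lit 7) (nat_lit 11) (nat_lit 8) (by decide +kernel)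
theorem L1190220 : W_2 (nat_lit 3) (nat_lit 0x3000100059800680024003200000000000000000000000) (nat_lit 0x0) (nat_lit 0x10000c0004000000000000800000000000000000000000000000000) := T_2 (nat_lit 199) (nat_lit 182) (nat_lit 7) (nat_lit 11) (nat_lit 7) L1190219 (by decide +kernel)
theorem L1190221 : W_2 (nat_lit 4) (nat_lit 0x3000100019800680024003200000000000000000000000) (nat_lit 0x0) (nat_lit 0x10000c0004000000060000800000000000000000000000000000000) := T_2 (nat_lit 150) (nat_lit 149) (nat_lit 0) (nat_lit 14) (nat_lit 8) L1190220 (by decide +kernel)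
theorem L1190222 : W_2 (nat_lit 5) (nat_lit 0x3000100019800480024003200000000000000000000000) (nat_lit 0x0) (nat_lit 0x10000c0004000000060000a00010000000000000000000000000000) := T_2 (nat_lit 129) (nat_lit 112) (nat_lit 4) (nat_lit 11) (nat_lit 10) L1190221 (by decide +kernel)
theorem L1190223 : W_2 (nat_lit 6) (nat_lit 0x1000100019800480024003200000000000000000000000) (nat_lit 0x0) (nat_lit 0x10000e0006000000060000a00010000000000000000000000000000) := T_2 (nat_lit 181) (nat_lit 197) (nat_lit 5) (nat_lit 11) (nat_lit 7) L1190222 (by decide +kernel)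
theorem L1190224 : W_2 (nat_lit 7) (nat_lit 0x1000100019000480024003200000000000000000000000) (nat_lit 0x0) (nat_lit 0x10000e0006000010060800a00010000000000000000000000000000) := T_2 (nat_lit 143) (nat_lit 160) (nat_lit 5) (nat_lit 8) (nat_lit 5) L1190223 (by decide +kernel)
theorem L1190225 : W_2 (nat_lit 8) (nat_lit 0x100019000480024003200000000000000000000000) (nat_lit 0x0) (nat_lit 0x10000e0007000090060800a00010000000000000000000000000000) := T_2 (nat_lit 180) (nat_lit 163) (nat_lit 5) (nat_lit 11) (nat_lit 6) L1190224 (by decide +kernel)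
theorem L1190226 : W_2 (nat_lit 9) (nat_lit 0x19000480024003200000000000000000000000) (nat_lit 0x0) (nat_lit 0x10000e0007000190060800a00050000000000000000000000000000) := T_2 (nat_lit 164) (nat_lit 114) (nat_lit 6) (nat_lit 11) (nat_lit 9) L1190225 (by decide +kernel)
theorem L1190227 : W_2 (nat_lit 10) (nat_lit 0x9000480024003200000000000000000000000) (nat_lit 0x0) (nat_lit 0x10000e0007000390070800a00050000000000000000000000000000) := T_2 (nat_lit 148) (nat_lit 165) (nat_lit 7) (nat_lit 11) (nat_lit 5) L1190226 (by decide +kernel)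
theorem L1190228 : W_2 (nat_lit 11) (nat_lit 0x9000480024001200000000000000000000000) (nat_lit 0x0) (nat_lit 0x10000e0007000390070800a00050002000100000000000000000000) := T_2 (nat_lit 97) (nat_lit 80) (nat_lit 6) (nat_lit 11) (nat_lit 8) L1190227 (by decide +kernel)
theorem L1190229 : W_2 (nat_lit 2) (nat_lit 0xd800480024001200000000000000000000000) (nat_lit 0x0) (nat_lit 0x2000a00000000000000000000000000000000) := D_2 (nat_lit 145) (nat_lit 131) (nat_lit 129) (nat_lit 2) (nat_lit 8) (nat_lit 8) (nat_lit 2) (nat_lit 7) (nat_lit 8) (by decide +kernel)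
theorem L1190230 : W_2 (nat_lit 3) (nat_lit 0x9800480024001200000000000000000000000) (nat_lit 0x0) (nat_lit 0x80006000a00000000000000000000000000000000) := T_2 (nat_lit 146) (nat_lit 163) (nat_lit 5) (nat_lit 11) (nat_lit 5) L1190229 (by decide +kernel)
theorem L1190231 : W_2 (nat_lit 4) (nat_lit 0x9000480024001200000000000000000000000) (nat_lit 0x0) (nat_lit 0x90006800a00000000000000000000000000000000) := T_2 (nat_lit 143) (nat_lit 160) (nat_lit 5) (nat_lit 8) (nat_lit 5) L1190230 (by decide +kernel)
theorem L1190232 : W_2 (nat_lit 4) (nat_lit 0x9000480024001200000000000000000000000) (nat_lit 0x0) (nat_lit 0x4000300010000000040002000100000000000000000000) := T_2 (nat_lit 165) (nat_lit 148) (nat_lit 7) (nat_lit 11) (nat_lit 5) L100290 (by decide +kernel)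
theorem L1190233 : W_2 (nat_lit 12) (nat_lit 0x1000480024001200000000000000000000000) (nat_lit 0x0) (nat_lit 0x10000e000700039007e800a00050002000100000000000000000000) := Q_2 (nat_lit 147) (C_2 L73155 (C_2 L1190218 (C_2 L1190228 (C_2 L1190231 (C_2 L1190232 N_2))))) (by decide +kernel)
theorem L1190234 : W_2 (nat_lit 2) (nat_lit 0x1800c800240012000b0004d00000000000000) (nat_lit 0x0) (nat_lit 0x4000200010000000000000000000000000000) := D_2 (nat_lit 129) (nat_lit 146) (nat_lit 112) (nat_lit 5) (nat_lit 11) (nat_lit 4) (nat_lit 5) (nat_lit 11) (nat_lit 3) (by decide +kernel)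
theorem L1190235 : W_2 (nat_lit 3) (nat_lit 0x1800c800240012000b0000d00000000000000) (nat_lit 0x0) (nat_lit 0x4000200050000000000004000000000000000) := T_2 (nat_lit 62) (nat_lit 114) (nat_lit 7) (nat_lit 11) (nat_lit 3) L1190234 (by decide +kernel)
theorem L1190236 : W_2 (nat_lit 4) (nat_lit 0x18004800240012000b0000d00000000000000) (nat_lit 0x0) (nat_lit 0x14000a00050000000000004000000000000000) := T_2 (nat_lit 131) (nat_lit 148) (nat_lit 7) (nat_lit 11) (nat_lit 4) L1190235 (by decide +kernel)
theorem L1190237 : W_2 (nat_lit 5) (nat_lit 0x1800480024001200030000d00000000000000) (nat_lit 0x0) (nat_lit 0x14000a000500000000c0004000000000000000) := T_2 (nat_lit 79) (nat_lit 78) (nat_lit 0) (nat_lit 11) (nat_lit 4) L1190236 (by decide +kernel)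
theorem L1190238 : W_2 (nat_lit 6) (nat_lit 0x1800480024001200030000c00000000000000) (nat_lit 0x0) (nat_lit 0x14000a000500000000c0004300000000000000) := T_2 (nat_lit 56) (nat_lit 57) (nat_lit 3) (nat_lit 5) (nat_lit 3) L1190237 (by decide +kernel)
theorem L1190239 : W_2 (nat_lit 7) (nat_lit 0x1800480024001200030000400000000000000) (nat_lit 0x0) (nat_lit 0x14000a000500000000c0004b00020000000000) := T_2 (nat_lit 59) (nat_lit 41) (nat_lit 4) (nat_lit 8) (nat_lit 6) L1190238 (by decide +kernel)
theorem L1190240 : W_2 (nat_lit 8) (nat_lit 0x1800480024001200030000000000000000000) (nat_lit 0x0) (nat_lit 0x14000a000500000000c8004f00020000000000) := T_2 (nat_lit 58) (nat_lit 75) (nat_lit 4) (nat_lit 8) (nat_lit 7) L1190239 (by decide +kernel)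
theorem L1190241 : W_2 (nat_lit 9) (nat_lit 0x1800480024001200020000000000000000000) (nat_lit 0x0) (nat_lit 0x14000a000500000000d8005f00020000000000) := T_2 (nat_lit 76) (nat_lit 60) (nat_lit 6) (nat_lit 8) (nat_lit 7) L1190240 (by decide +kernel)
theorem L1190242 : W_2 (nat_lit 10) (nat_lit 0x1800480024001200000000000000000000000) (nat_lit 0x0) (nat_lit 0x14000a000500004000f8005f00020000000000) := T_2 (nat_lit 77) (nat_lit 94) (nat_lit 6) (nat_lit 8) (nat_lit 8) L1190241 (by decide +kernel)
theorem L1190243 : W_2 (nat_lit 11) (nat_lit 0x1000480024001200000000000000000000000) (nat_lit 0x0) (nat_lit 0x10014800a000500004000f8005f00020000000000) := T_2 (nat_lit 143) (nat_lit 160) (nat_lit 5) (nat_lit 8) (nat_lit 5) L1190242 (by decide +kernel)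
theorem L1190244 : W_2 (nat_lit 15) (nat_lit 0x1000480004001200000000000000000000000) (nat_lit 0x0) (nat_lit 0x10000e000700039007e800a000700024001f800ff00720010000000) := Q_2 (nat_lit 113) (C_2 L1190189 (C_2 L1190199 (C_2 L1190200 (C_2 L1190213 (C_2 L1190233 (C_2 L1190243 N_2)))))) (by decide +kernel)
theorem L1190245 : W_2 (nat_lit 2) (nat_lit 0x10001d800480024001a00000000000000000000000) (nat_lit 0x0) (nat_lit 0x40002000100000000000000000000) := D_2 (nat_lit 97) (nat_lit 80) (nat_lit 114) (nat_lit 6) (nat_lit 11) (nat_lit 8) (nat_lit 6) (nat_lit 11) (nat_lit 9) (by decide +kernel)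
theorem L1190246 : W_2 (nat_lit 3) (nat_lit 0x1d800480024001a00000000000000000000000) (nat_lit 0x0) (nat_lit 0x100000000000050002000100000000000000000000) := T_2 (nat_lit 164) (nat_lit 112) (nat_lit 4) (nat_lit 11) (nat_lit 9) L1190245 (by decide +kernel)
theorem L1190247 : W_2 (nat_lit 4) (nat_lit 0xd800480024001a00000000000000000000000) (nat_lit 0x0) (nat_lit 0x300010000000050002000100000000000000000000) := T_2 (nat_lit 148) (nat_lit 165) (nat_lit 7) (nat_lit 11) (nat_lit 5) L1190246 (by decide +kernel)
theorem L1190248 : W_2 (nat_lit 5) (nat_lit 0xd800480024001200000000000000000000000) (nat_lit 0x0) (nat_lit 0x300010000000050002800140000000000000000000) := T_2 (nat_lit 95) (nat_lit 78) (nat_lit 4) (nat_lit 11) (nat_lit 8) L1190247 (by decide +kernel)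
theorem L1190249 : W_2 (nat_lit 6) (nat_lit 0x5800480024001200000000000000000000000) (nat_lit 0x0) (nat_lit 0x380018000000050002800140000000000000000000) := T_2 (nat_lit 147) (nat_lit 163) (nat_lit 5) (nat_lit 11) (nat_lit 5) L1190248 (by decide +kernel)
theorem L1190250 : W_2 (nat_lit 7) (nat_lit 0x5000480024001200000000000000000000000) (nat_lit 0x0) (nat_lit 0x390018800000050002800140000000000000000000) := T_2 (nat_lit 143) (nat_lit 160) (nat_lit 5) (nat_lit 8) (nat_lit 5) L1190249 (by decide +kernel)
theorem L1190251 : W_2 (nat_lit 4) (nat_lit 0xd000480024001200000000000000000000000) (nat_lit 0x0) (nat_lit 0x200010000a000000008000c0000000000000000000) := T_2 (nat_lit 95) (nat_lit 78) (nat_lit 4) (nat_lit 11) (nat_lit 8) L72973 (by decide +kernel)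
theorem L1190252 : W_2 (nat_lit 5) (nat_lit 0x5000480024001200000000000000000000000) (nat_lit 0x0) (nat_lit 0x280018000a000000008000c0000000000000000000) := T_2 (nat_lit 147) (nat_lit 163) (nat_lit 5) (nat_lit 11) (nat_lit 5) L1190251 (by decide +kernel)
theorem L1190253 : W_2 (nat_lit 8) (nat_lit 0x5000480004001200000000000000000000000) (nat_lit 0x0) (nat_lit 0x390018800a000700028001c000e000400000000000) := Q_2 (nat_lit 113) (C_2 L1190154 (C_2 L1190171 (C_2 L1190162 (C_2 L1190250 (C_2 L1190252 N_2))))) (by decide +kernel)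
theorem L1190254 : W_2 (nat_lit 6) (nat_lit 0x3000d000480004001200000000000000000000000) (nat_lit 0x0) (nat_lit 0x2800100008000200028001c0008000000000000000) := T_2 (nat_lit 113) (nat_lit 163) (nat_lit 5) (nat_lit 11) (nat_lit 5) L74304 (by decide +kernel)
theorem L1190255 : W_2 (nat_lit 7) (nat_lit 0x30005000480004001200000000000000000000000) (nat_lit 0x0) (nat_lit 0x28001a0008000200028001c0008000000000000000) := T_2 (nat_lit 147) (nat_lit 145) (nat_lit 1) (nat_lit 11) (nat_lit 8) L1190254 (by decide +kernel)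
theorem L1190256 : W_2 (nat_lit 8) (nat_lit 0x10005000480004001200000000000000000000000) (nat_lit 0x0) (nat_lit 0x2002a001a0008000200028001c0008000000000000000) := T_2 (nat_lit 161) (nat_lit 177) (nat_lit 5) (nat_lit 8) (nat_lit 6) L1190255 (by decide +kernel)
theorem L1190257 : W_2 (nat_lit 9) (nat_lit 0x5000480004001200000000000000000000000) (nat_lit 0x0) (nat_lit 0x2002b001a8008000200028001c0008000000000000000) := T_2 (nat_lit 160) (nat_lit 143) (nat_lit 5) (nat_lit 8) (nat_lit 5) L1190256 (by decide +kernel)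
theorem L1190258 : W_2 (nat_lit 4) (nat_lit 0x5000480024001200000000000000000000000) (nat_lit 0x0) (nat_lit 0x38001a000800000000000000000000000000000000) := T_2 (nat_lit 147) (nat_lit 163) (nat_lit 5) (nat_lit 11) (nat_lit 5) L73154 (by decide +kernel)
theorem L1190259 : W_2 (nat_lit 7) (nat_lit 0x5000480004001200000000000000000000000) (nat_lit 0x0) (nat_lit 0x38001a000a000600028001c000e000400000000000) := Q_2 (nat_lit 113) (C_2 L1190154 (C_2 L1190252 (C_2 L1190171 (C_2 L1190162 (C_2 L1190258 N_2))))) (by decide +kernel)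
theorem L1190260 : W_2 (nat_lit 2) (nat_lit 0x5800680024001200000000000000000000000) (nat_lit 0x0) (nat_lit 0x1000080000000000010000000000000000000000000000) := D_2 (nat_lit 163) (nat_lit 112) (nat_lit 180) (nat_lit 6) (nat_lit 10) (nat_lit 9) (nat_lit 6) (nat_lit 10) (nat_lit 10) (by decide +kernel)
theorem L1190261 : W_2 (nat_lit 3) (nat_lit 0x5800680004001200000000000000000000000) (nat_lit 0x0) (nat_lit 0x1000080000000000030000000080000000000000000000) := T_2 (nat_lit 113) (nat_lit 79) (nat_lit 5) (nat_lit 11) (nat_lit 4) L1190260 (by decide +kernel)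
theorem L1190262 : W_2 (nat_lit 4) (nat_lit 0x5800480004001200000000000000000000000) (nat_lit 0x0) (nat_lit 0x1000080002000200030000000080000000000000000000) := T_2 (nat_lit 129) (nat_lit 145) (nat_lit 2) (nat_lit 7) (nat_lit 8) L1190261 (by decide +kernel)
theorem L1190263 : W_2 (nat_lit 5) (nat_lit 0x5000480004001200000000000000000000000) (nat_lit 0x0) (nat_lit 0x1000090002800200030000000080000000000000000000) := T_2 (nat_lit 143) (nat_lit 160) (nat_lit 5) (nat_lit 8) (nat_lit 5) L1190262 (by decide +kernel)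
theorem L1190264 : W_2 (nat_lit 2) (nat_lit 0x20000f800480004001200000000000000000000000) (nat_lit 0x0) (nat_lit 0x400010000000020000000000000000000000000000) := D_2 (nat_lit 148) (nat_lit 166) (nat_lit 113) (nat_lit 3) (nat_lit 9) (nat_lit 8) (nat_lit 7) (nat_lit 11) (nat_lit 5) (by decide +kernel)
theorem L1190265 : W_2 (nat_lit 3) (nat_lit 0xf800480004001200000000000000000000000) (nat_lit 0x0) (nat_lit 0x700010000000020000000000000000000000000000) := T_2 (nat_lit 165) (nat_lit 164) (nat_lit 3) (nat_lit 8) (nat_lit 8) L1190264 (by decide +kernel)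
theorem L1190266 : W_2 (nat_lit 4) (nat_lit 0x7800480004001200000000000000000000000) (nat_lit 0x0) (nat_lit 0x700018000800020000000000000000000000000000) := T_2 (nat_lit 147) (nat_lit 131) (nat_lit 2) (nat_lit 8) (nat_lit 8) L1190265 (by decide +kernel)
theorem L1190267 : W_2 (nat_lit 5) (nat_lit 0x5800480004001200000000000000000000000) (nat_lit 0x0) (nat_lit 0x70001a000a00020000000000000000000000000000) := T_2 (nat_lit 145) (nat_lit 129) (nat_lit 2) (nat_lit 7) (nat_lit 8) L1190266 (by decide +kernel)
theorem L1190268 : W_2 (nat_lit 6) (nat_lit 0x5000480004001200000000000000000000000) (nat_lit 0x0) (nat_lit 0x71001a800a00020000000000000000000000000000) := T_2 (nat_lit 143) (nat_lit 160) (nat_lit 5) (nat_lit 8) (nat_lit 5) L1190267 (by decide +kernel)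
theorem L1190269 : W_2 (nat_lit 10) (nat_lit 0x1000480004001200000000000000000000000) (nat_lit 0x0) (nat_lit 0x12007b001e800a000700028001c000e000400000000000) := Q_2 (nat_lit 146) (C_2 L1190186 (C_2 L1190253 (C_2 L1190257 (C_2 L1190259 (C_2 L1190263 (C_2 L1190268 N_2)))))) (by decide +kernel)
theorem L1190270 : W_2 (nat_lit 2) (nat_lit 0x1800480004001200078004000000000000000) (nat_lit 0x0) (nat_lit 0x2000080008000000000000000) := D_2 (nat_lit 79) (nat_lit 97) (nat_lit 63) (nat_lit 3) (nat_lit 8) (nat_lit 4) (nat_lit 2) (nat_lit 8) (nat_lit 4) (by decide +kernel)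
theorem L1190271 : W_2 (nat_lit 3) (nat_lit 0x1800480004001200078000000000000000000) (nat_lit 0x0) (nat_lit 0x200008000e000000000000000) := T_2 (nat_lit 62) (nat_lit 61) (nat_lit 2) (nat_lit 7) (nat_lit 4) L1190270 (by decide +kernel)
theorem L1190272 : W_2 (nat_lit 4) (nat_lit 0x1800480004001200038000000000000000000) (nat_lit 0x0) (nat_lit 0x28000c000e000000000000000) := T_2 (nat_lit 78) (nat_lit 95) (nat_lit 3) (nat_lit 7) (nat_lit 4) L1190271 (by decide +kernel)
theorem L1190273 : W_2 (nat_lit 5) (nat_lit 0x1800480004001200030000000000000000000) (nat_lit 0x0) (nat_lit 0x28000c800e400000000000000) := T_2 (nat_lit 75) (nat_lit 58) (nat_lit 4) (nat_lit 8) (nat_lit 7) L1190272 (by decide +kernel)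
theorem L1190274 : W_2 (nat_lit 6) (nat_lit 0x1800480004001200020000000000000000000) (nat_lit 0x0) (nat_lit 0x28000d800f400000000000000) := T_2 (nat_lit 76) (nat_lit 60) (nat_lit 6) (nat_lit 8) (nat_lit 7) L1190273 (by decide +kernel)
theorem L1190275 : W_2 (nat_lit 7) (nat_lit 0x1800480004001200000000000000000000000) (nat_lit 0x0) (nat_lit 0x2c000f800f400000000000000) := T_2 (nat_lit 77) (nat_lit 94) (nat_lit 6) (nat_lit 8) (nat_lit 8) L1190274 (by decide +kernel)
theorem L1190276 : W_2 (nat_lit 8) (nat_lit 0x1000480004001200000000000000000000000) (nat_lit 0x0) (nat_lit 0x10000800000000002c000f800f400000000000000) := T_2 (nat_lit 143) (nat_lit 160) (nat_lit 5) (nat_lit 8) (nat_lit 5) L1190275 (by decide +kernel)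
theorem L1190277 : W_2 (nat_lit 2) (nat_lit 0x1800e80024001e00090004000500000000000) (nat_lit 0x0) (nat_lit 0x200028000000) := D_2 (nat_lit 45) (nat_lit 29) (nat_lit 27) (nat_lit 6) (nat_lit 11) (nat_lit 5) (nat_lit 4) (nat_lit 11) (nat_lit 5) (by decide +kernel)
theorem L1190278 : W_2 (nat_lit 3) (nat_lit 0x1800e80024001e00090004000400000000000) (nat_lit 0x0) (nat_lit 0x2000300028000000) := T_2 (nat_lit 44) (nat_lit 61) (nat_lit 4) (nat_lit 11) (nat_lit 6) L1190277 (by decide +kernel)
theorem L1190279 : W_2 (nat_lit 4) (nat_lit 0x1800e80024001e00090004000000000000000) (nat_lit 0x0) (nat_lit 0xa000700028000000) := T_2 (nat_lit 46) (nat_lit 63) (nat_lit 6) (nat_lit 11) (nat_lit 6) L1190278 (by decide +kernel)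
theorem L1190280 : W_2 (nat_lit 5) (nat_lit 0x1800e80024001e00090000000000000000000) (nat_lit 0x0) (nat_lit 0x1000000000000e000700028000000) := T_2 (nat_lit 62) (nat_lit 112) (nat_lit 5) (nat_lit 11) (nat_lit 3) L1190279 (by decide +kernel)
theorem L1190281 : W_2 (nat_lit 6) (nat_lit 0x1800c80024001e00090000000000000000000) (nat_lit 0x0) (nat_lit 0x400020001000000000000e000700028000000) := T_2 (nat_lit 129) (nat_lit 146) (nat_lit 5) (nat_lit 11) (nat_lit 4) L1190280 (by decide +kernel)
theorem L1190282 : W_2 (nat_lit 7) (nat_lit 0x1800480024001e00090000000000000000000) (nat_lit 0x0) (nat_lit 0x14000a0001000000000000e000700028000000) := T_2 (nat_lit 131) (nat_lit 148) (nat_lit 7) (nat_lit 11) (nat_lit 4) L1190281 (by decide +kernel)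
theorem L1190283 : W_2 (nat_lit 8) (nat_lit 0x1000480024001e00090000000000000000000) (nat_lit 0x0) (nat_lit 0x10014800a0001000000000000e000700028000000) := T_2 (nat_lit 143) (nat_lit 160) (nat_lit 5) (nat_lit 8) (nat_lit 5) L1190282 (by decide +kernel)
theorem L1190284 : W_2 (nat_lit 9) (nat_lit 0x1000480024001e00010000000000000000000) (nat_lit 0x0) (nat_lit 0x10014800a0001000000018000e000700028000000) := T_2 (nat_lit 79) (nat_lit 80) (nat_lit 2) (nat_lit 8) (nat_lit 5) L1190283 (by decide +kernel)
theorem L1190285 : W_2 (nat_lit 10) (nat_lit 0x1000480004001e00010000000000000000000) (nat_lit 0x0) (nat_lit 0x10014800a0007000000018000e000700028000000) := T_2 (nat_lit 113) (nat_lit 114) (nat_lit 3) (nat_lit 8) (nat_lit 5) L1190284 (by decide +kernel)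
theorem L1190286 : W_2 (nat_lit 11) (nat_lit 0x1000480004001e00000000000000000000000) (nat_lit 0x0) (nat_lit 0x10014800a0007000000019800e000700028000000) := T_2 (nat_lit 76) (nat_lit 75) (nat_lit 0) (nat_lit 11) (nat_lit 5) L1190285 (by decide +kernel)
theorem L1190287 : W_2 (nat_lit 12) (nat_lit 0x1000480004001600000000000000000000000) (nat_lit 0x0) (nat_lit 0x10014800a0007200080019800e000700028000000) := T_2 (nat_lit 95) (nat_lit 109) (nat_lit 1) (nat_lit 11) (nat_lit 5) L1190286 (by decide +kernel)
theorem L1190288 : W_2 (nat_lit 13) (nat_lit 0x1000480004001200000000000000000000000) (nat_lit 0x0) (nat_lit 0x10014800a00072000c001b800e000700028000000) := T_2 (nat_lit 94) (nat_lit 77) (nat_lit 6) (nat_lit 8) (nat_lit 8) L1190287 (by decide +kernel)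
theorem L1190289 : W_2 (nat_lit 2) (nat_lit 0x100009800480024001e00010000000000000000000) (nat_lit 0x0) (nat_lit 0x4000200010000000000000000000000000000000000000) := D_2 (nat_lit 165) (nat_lit 148) (nat_lit 182) (nat_lit 7) (nat_lit 11) (nat_lit 5) (nat_lit 7) (nat_lit 11) (nat_lit 6) (by decide +kernel)
theorem L1190290 : W_2 (nat_lit 3) (nat_lit 0x9800480024001e00010000000000000000000) (nat_lit 0x0) (nat_lit 0x4000300010000000010000000000000000000000000000) := T_2 (nat_lit 164) (nat_lit 112) (nat_lit 4) (nat_lit 11) (nat_lit 9) L1190289 (by decide +kernel)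
theorem L1190291 : W_2 (nat_lit 4) (nat_lit 0x1800480024001e00010000000000000000000) (nat_lit 0x0) (nat_lit 0x4000300018000000010000000040000000000000000000) := T_2 (nat_lit 147) (nat_lit 78) (nat_lit 4) (nat_lit 11) (nat_lit 8) L1190290 (by decide +kernel)
theorem L1190292 : W_2 (nat_lit 5) (nat_lit 0x1800480004001e00010000000000000000000) (nat_lit 0x0) (nat_lit 0x4000300018000000070000000040000000000000000000) := T_2 (nat_lit 113) (nat_lit 114) (nat_lit 3) (nat_lit 8) (nat_lit 5) L1190291 (by decide +kernel)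
theorem L1190293 : W_2 (nat_lit 6) (nat_lit 0x1800480004001e00000000000000000000000) (nat_lit 0x0) (nat_lit 0x4000300018000000070000000058000000000000000000) := T_2 (nat_lit 76) (nat_lit 75) (nat_lit 0) (nat_lit 11) (nat_lit 5) L1190292 (by decide +kernel)
theorem L1190294 : W_2 (nat_lit 7) (nat_lit 0x1800480004001600000000000000000000000) (nat_lit 0x0) (nat_lit 0x4000300018000000072000800058000000000000000000) := T_2 (nat_lit 95) (nat_lit 109) (nat_lit 1) (nat_lit 11) (nat_lit 5) L1190293 (by decide +kernel)
theorem L1190295 : W_2 (nat_lit 8) (nat_lit 0x1800480004001200000000000000000000000) (nat_lit 0x0) (nat_lit 0x4000300018000000072000c00078000000000000000000) := T_2 (nat_lit 94) (nat_lit 77) (nat_lit 6) (nat_lit 8) (nat_lit 8) L1190294 (by decide +kernel)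
theorem L1190296 : W_2 (nat_lit 9) (nat_lit 0x1000480004001200000000000000000000000) (nat_lit 0x0) (nat_lit 0x4000310018800000072000c00078000000000000000000) := T_2 (nat_lit 143) (nat_lit 160) (nat_lit 5) (nat_lit 8) (nat_lit 5) L1190295 (by decide +kernel)
theorem L1190297 : W_2 (nat_lit 16) (nat_lit 0x1000480004000200000000000000000000000) (nat_lit 0x0) (nat_lit 0x10000e00072007b007e800a00072003c001f800ff00720038000000) := Q_2 (nat_lit 96) (C_2 L1190143 (C_2 L1190149 (C_2 L1190187 (C_2 L1190244 (C_2 L1190269 (C_2 L1190276 (C_2 L1190288 (C_2 L1190296 N_2)))))))) (by decide +kernel)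
theorem L1190298 : W_2 (nat_lit 2) (nat_lit 0x1800580004000200020000000000000000000) (nat_lit 0x0) (nat_lit 0x2000000000000000010001000000000000000) := D_2 (nat_lit 76) (nat_lit 145) (nat_lit 60) (nat_lit 7) (nat_lit 8) (nat_lit 4) (nat_lit 6) (nat_lit 8) (nat_lit 7) (by decide +kernel)
theorem L1190299 : W_2 (nat_lit 3) (nat_lit 0x1800480004000200020000000000000000000) (nat_lit 0x0) (nat_lit 0x2000300000000000010001000000000000000) := T_2 (nat_lit 128) (nat_lit 129) (nat_lit 1) (nat_lit 11) (nat_lit 7) L1190298 (by decide +kernel)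
theorem L1190300 : W_2 (nat_lit 4) (nat_lit 0x1000480004000200020000000000000000000) (nat_lit 0x0) (nat_lit 0x10002800300000000000010001000000000000000) := T_2 (nat_lit 143) (nat_lit 160) (nat_lit 5) (nat_lit 8) (nat_lit 5) L1190299 (by decide +kernel)
theorem L1190301 : W_2 (nat_lit 5) (nat_lit 0x1000480004000200000000000000000000000) (nat_lit 0x0) (nat_lit 0x10002800300000000400030001000000000000000) := T_2 (nat_lit 77) (nat_lit 94) (nat_lit 6) (nat_lit 8) (nat_lit 8) L1190300 (by decide +kernel)
theorem L1190302 : W_2 (nat_lit 2) (nat_lit 0x1800680024001200080004000000000000000) (nat_lit 0x0) (nat_lit 0x40002000100000000000) := D_2 (nat_lit 61) (nat_lit 44) (nat_lit 78) (nat_lit 4) (nat_lit 11) (nat_lit 6) (nat_lit 4) (nat_lit 11) (nat_lit 7) (by decide +kernel)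
theorem L1190303 : W_2 (nat_lit 3) (nat_lit 0x1800680024001200080000000000000000000) (nat_lit 0x0) (nat_lit 0x10000000040006000100000000000) := T_2 (nat_lit 62) (nat_lit 112) (nat_lit 5) (nat_lit 11) (nat_lit 3) L1190302 (by decide +kernel)
theorem L1190304 : W_2 (nat_lit 4) (nat_lit 0x1800680024001200000000000000000000000) (nat_lit 0x0) (nat_lit 0x40000000100000000c0006000100000000000) := T_2 (nat_lit 79) (nat_lit 146) (nat_lit 5) (nat_lit 11) (nat_lit 4) L1190303 (by decide +kernel)
theorem L1190305 : W_2 (nat_lit 5) (nat_lit 0x1800480024001200000000000000000000000) (nat_lit 0x0) (nat_lit 0x40003000100000000c0006000100000000000) := T_2 (nat_lit 129) (nat_lit 128) (nat_lit 1) (nat_lit 11) (nat_lit 7) L1190304 (by decide +kernel)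
theorem L1190306 : W_2 (nat_lit 6) (nat_lit 0x1000480024001200000000000000000000000) (nat_lit 0x0) (nat_lit 0x100048003000100000000c0006000100000000000) := T_2 (nat_lit 143) (nat_lit 160) (nat_lit 5) (nat_lit 8) (nat_lit 5) L1190305 (by decide +kernel)
theorem L1190307 : W_2 (nat_lit 2) (nat_lit 0x1800680024001200080004000000000000000) (nat_lit 0x0) (nat_lit 0x100008000400000000000) := D_2 (nat_lit 63) (nat_lit 80) (nat_lit 46) (nat_lit 6) (nat_lit 11) (nat_lit 7) (nat_lit 6) (nat_lit 11) (nat_lit 6) (by decide +kernel)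
theorem L1190308 : W_2 (nat_lit 3) (nat_lit 0x1800680024001200080000000000000000000) (nat_lit 0x0) (nat_lit 0x1000000010000c000400000000000) := T_2 (nat_lit 62) (nat_lit 112) (nat_lit 5) (nat_lit 11) (nat_lit 3) L1190307 (by decide +kernel)
theorem L1190309 : W_2 (nat_lit 4) (nat_lit 0x1800680024001200000000000000000000000) (nat_lit 0x0) (nat_lit 0x400000001000000018000c000400000000000) := T_2 (nat_lit 79) (nat_lit 146) (nat_lit 5) (nat_lit 11) (nat_lit 4) L1190308 (by decide +kernel)
theorem L1190310 : W_2 (nat_lit 5) (nat_lit 0x1800480024001200000000000000000000000) (nat_lit 0x0) (nat_lit 0x400030001000000018000c000400000000000) := T_2 (nat_lit 129) (nat_lit 128) (nat_lit 1) (nat_lit 11) (nat_lit 7) L1190309 (by decide +kernel)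
theorem L1190311 : W_2 (nat_lit 6) (nat_lit 0x1000480024001200000000000000000000000) (nat_lit 0x0) (nat_lit 0x1000480030001000000018000c000400000000000) := T_2 (nat_lit 143) (nat_lit 160) (nat_lit 5) (nat_lit 8) (nat_lit 5) L1190310 (by decide +kernel)
theorem L1190312 : W_2 (nat_lit 5) (nat_lit 0x1000480024001200000000000000000000000) (nat_lit 0x0) (nat_lit 0x4000300018000000052002c00140000000000000000000) := Q_2 (nat_lit 147) (C_2 L1190232 (C_2 L72791 (C_2 L73195 N_2))) (by decide +kernel)
theorem L1190313 : W_2 (nat_lit 8) (nat_lit 0x1000480004001200000000000000000000000) (nat_lit 0x0) (nat_lit 0x400039001c800b00072002c001c000e000700000000000) := Q_2 (nat_lit 113) (C_2 L1190189 (C_2 L72795 (C_2 L1190306 (C_2 L1190311 (C_2 L1190312 N_2))))) (by decide +kernel)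
theorem L1190314 : W_2 (nat_lit 2) (nat_lit 0x18006800240012000b0004d00000000000000) (nat_lit 0x0) (nat_lit 0x100008000400000000000) := D_2 (nat_lit 63) (nat_lit 80) (nat_lit 46) (nat_lit 6) (nat_lit 11) (nat_lit 7) (nat_lit 6) (nat_lit 11) (nat_lit 6) (by decide +kernel)
theorem L1190315 : W_2 (nat_lit 3) (nat_lit 0x18006800240012000b0000d00000000000000) (nat_lit 0x0) (nat_lit 0x1000000010000c000400000000000) := T_2 (nat_lit 62) (nat_lit 112) (nat_lit 5) (nat_lit 11) (nat_lit 3) L1190314 (by decide +kernel)
theorem L1190316 : W_2 (nat_lit 4) (nat_lit 0x18006800040012000b0000d00000000000000) (nat_lit 0x0) (nat_lit 0x400000003000000010000c000400000000000) := T_2 (nat_lit 113) (nat_lit 146) (nat_lit 5) (nat_lit 11) (nat_lit 4) L1190315 (by decide +kernel)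
theorem L1190317 : W_2 (nat_lit 5) (nat_lit 0x1800680004001200030000d00000000000000) (nat_lit 0x0) (nat_lit 0x40000000300000001c000c000400000000000) := T_2 (nat_lit 79) (nat_lit 78) (nat_lit 0) (nat_lit 11) (nat_lit 4) L1190316 (by decide +kernel)
theorem L1190318 : W_2 (nat_lit 6) (nat_lit 0x1800680004001200030000c00000000000000) (nat_lit 0x0) (nat_lit 0x40000000300000001c000c300400000000000) := T_2 (nat_lit 56) (nat_lit 57) (nat_lit 3) (nat_lit 5) (nat_lit 3) L1190317 (by decide +kernel)
theorem L1190319 : W_2 (nat_lit 7) (nat_lit 0x1800680004001200030000400000000000000) (nat_lit 0x0) (nat_lit 0x40000000300000001c000cb00420000000000) := T_2 (nat_lit 59) (nat_lit 41) (nat_lit 4) (nat_lit 8) (nat_lit 6) L1190318 (by decide +kernel)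
theorem L1190320 : W_2 (nat_lit 8) (nat_lit 0x1800680004001200030000000000000000000) (nat_lit 0x0) (nat_lit 0x40000000300000001c800cf00420000000000) := T_2 (nat_lit 58) (nat_lit 75) (nat_lit 4) (nat_lit 8) (nat_lit 7) L1190319 (by decide +kernel)
theorem L1190321 : W_2 (nat_lit 9) (nat_lit 0x1800680004001200020000000000000000000) (nat_lit 0x0) (nat_lit 0x40000000300000001d800df00420000000000) := T_2 (nat_lit 76) (nat_lit 60) (nat_lit 6) (nat_lit 8) (nat_lit 7) L1190320 (by decide +kernel)
theorem L1190322 : W_2 (nat_lit 10) (nat_lit 0x1800680004001200000000000000000000000) (nat_lit 0x0) (nat_lit 0x40000000300004001f800df00420000000000) := T_2 (nat_lit 77) (nat_lit 94) (nat_lit 6) (nat_lit 8) (nat_lit 8) L1190321 (by decide +kernel)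
theorem L1190323 : W_2 (nat_lit 11) (nat_lit 0x1800480004001200000000000000000000000) (nat_lit 0x0) (nat_lit 0x40003000300004001f800df00420000000000) := T_2 (nat_lit 129) (nat_lit 128) (nat_lit 1) (nat_lit 11) (nat_lit 7) L1190322 (by decide +kernel)
theorem L1190324 : W_2 (nat_lit 12) (nat_lit 0x1000480004001200000000000000000000000) (nat_lit 0x0) (nat_lit 0x100048003000300004001f800df00420000000000) := T_2 (nat_lit 143) (nat_lit 160) (nat_lit 5) (nat_lit 8) (nat_lit 5) L1190323 (by decide +kernel)
theorem L1190333 : W_2 (nat_lit 4) (nat_lit 0x5000680004001200000000000000000000000) (nat_lit 0x0) (nat_lit 0x1000090000800000030000000080000000000000000000) := T_2 (nat_lit 143) (nat_lit 160) (nat_lit 5) (nat_lit 8) (nat_lit 5) L1190261 (by decide +kernel)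
theorem L1190336 : W_2 (nat_lit 2) (nat_lit 0x5000680024001200000000000000000000000) (nat_lit 0x0) (nat_lit 0x1000080008000000000000000000000000000000000000) := D_2 (nat_lit 163) (nat_lit 147) (nat_lit 180) (nat_lit 5) (nat_lit 11) (nat_lit 5) (nat_lit 6) (nat_lit 10) (nat_lit 10) (by decide +kernel)
theorem L1190337 : W_2 (nat_lit 3) (nat_lit 0x5000680004001200000000000000000000000) (nat_lit 0x0) (nat_lit 0x1000080008000000020000000080000000000000000000) := T_2 (nat_lit 113) (nat_lit 79) (nat_lit 5) (nat_lit 11) (nat_lit 4) L1190336 (by decide +kernel)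
theorem L1190349 : W_2 (nat_lit 2) (nat_lit 0x10000d800480024003200000000000000000000000) (nat_lit 0x0) (nat_lit 0x10000800040000000000000000000) := D_2 (nat_lit 95) (nat_lit 112) (nat_lit 78) (nat_lit 4) (nat_lit 11) (nat_lit 9) (nat_lit 4) (nat_lit 11) (nat_lit 8) (by decide +kernel)
theorem L1190350 : W_2 (nat_lit 3) (nat_lit 0xd800480024003200000000000000000000000) (nat_lit 0x0) (nat_lit 0x100000000000050000800040000000000000000000) := T_2 (nat_lit 164) (nat_lit 114) (nat_lit 6) (nat_lit 11) (nat_lit 9) L1190349 (by decide +kernel)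
theorem L1190351 : W_2 (nat_lit 4) (nat_lit 0x9800480024003200000000000000000000000) (nat_lit 0x0) (nat_lit 0x180004000000050000800040000000000000000000) := T_2 (nat_lit 146) (nat_lit 163) (nat_lit 5) (nat_lit 11) (nat_lit 5) L1190350 (by decide +kernel)
theorem L1190352 : W_2 (nat_lit 5) (nat_lit 0x9800480024001200000000000000000000000) (nat_lit 0x0) (nat_lit 0x180004000000050002800140000000000000000000) := T_2 (nat_lit 97) (nat_lit 80) (nat_lit 6) (nat_lit 11) (nat_lit 8) L1190351 (by decide +kernel)
theorem L1190353 : W_2 (nat_lit 6) (nat_lit 0x9000480024001200000000000000000000000) (nat_lit 0x0) (nat_lit 0x190004800000050002800140000000000000000000) := T_2 (nat_lit 143) (nat_lit 160) (nat_lit 5) (nat_lit 8) (nat_lit 5) L1190352 (by decide +kernel)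
theorem L1190354 : W_2 (nat_lit 7) (nat_lit 0x1000480024001200000000000000000000000) (nat_lit 0x0) (nat_lit 0x400039001c8008000500028001c0008000000000000000) := Q_2 (nat_lit 147) (C_2 L1190232 (C_2 L72794 (C_2 L1190353 (C_2 L73195 N_2)))) (by decide +kernel)
theorem L1190355 : W_2 (nat_lit 5) (nat_lit 0x1000480024001200000000000000000000000) (nat_lit 0x0) (nat_lit 0x180008000400028001c000e000500000000000) := Q_2 (nat_lit 79) (C_2 L73193 (C_2 L73049 (C_2 L72934 N_2))) (by decide +kernel)
theorem L1190356 : W_2 (nat_lit 2) (nat_lit 0x40003d801680024003a00000000000000000000000) (nat_lit 0x0) (nat_lit 0x8000c0000000000000000000000000000) := D_2 (nat_lit 114) (nat_lit 115) (nat_lit 131) (nat_lit 4) (nat_lit 13) (nat_lit 9) (nat_lit 7) (nat_lit 12) (nat_lit 5) (by decide +kernel)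
theorem L1190357 : W_2 (nat_lit 3) (nat_lit 0x40003d801680024001a00000000000000000000000) (nat_lit 0x0) (nat_lit 0x8000c0002000100000000000000000000) := T_2 (nat_lit 97) (nat_lit 80) (nat_lit 6) (nat_lit 11) (nat_lit 8) L1190356 (by decide +kernel)
theorem L1190358 : W_2 (nat_lit 4) (nat_lit 0x40003d800680024001a00000000000000000000000) (nat_lit 0x0) (nat_lit 0x38000c0002000100000000000000000000) := T_2 (nat_lit 132) (nat_lit 133) (nat_lit 2) (nat_lit 10) (nat_lit 8) L1190357 (by decide +kernel)
theorem L1190359 : W_2 (nat_lit 5) (nat_lit 0x3d800680024001a00000000000000000000000) (nat_lit 0x0) (nat_lit 0xc000000038000c0002000100000000000000000000) := T_2 (nat_lit 166) (nat_lit 167) (nat_lit 3) (nat_lit 10) (nat_lit 8) L1190358 (by decide +kernel)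
theorem L1190360 : W_2 (nat_lit 6) (nat_lit 0x39800680024001a00000000000000000000000) (nat_lit 0x0) (nat_lit 0xc800040038000c0002000100000000000000000000) := T_2 (nat_lit 146) (nat_lit 163) (nat_lit 5) (nat_lit 11) (nat_lit 5) L1190359 (by decide +kernel)
theorem L1190361 : W_2 (nat_lit 7) (nat_lit 0x39800680024001200000000000000000000000) (nat_lit 0x0) (nat_lit 0xc800040038000c0002800140000000000000000000) := T_2 (nat_lit 95) (nat_lit 78) (nat_lit 4) (nat_lit 11) (nat_lit 8) L1190360 (by decide +kernel)
theorem L1190362 : W_2 (nat_lit 8) (nat_lit 0x19800680024001200000000000000000000000) (nat_lit 0x0) (nat_lit 0xc800640038000c0002800140000000000000000000) := T_2 (nat_lit 149) (nat_lit 150) (nat_lit 0) (nat_lit 14) (nat_lit 8) L1190361 (by decide +kernel)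
theorem L1190363 : W_2 (nat_lit 9) (nat_lit 0x19000680024001200000000000000000000000) (nat_lit 0x0) (nat_lit 0xc900648038000c0002800140000000000000000000) := T_2 (nat_lit 143) (nat_lit 160) (nat_lit 5) (nat_lit 8) (nat_lit 5) L1190362 (by decide +kernel)
theorem L1190364 : W_2 (nat_lit 10) (nat_lit 0x19000480024001200000000000000000000000) (nat_lit 0x0) (nat_lit 0xc90064803b000c0002800140000000000000000000) := T_2 (nat_lit 129) (nat_lit 128) (nat_lit 3) (nat_lit 8) (nat_lit 7) L1190363 (by decide +kernel)
theorem L1190365 : W_2 (nat_lit 11) (nat_lit 0x9000480024001200000000000000000000000) (nat_lit 0x0) (nat_lit 0xe90074803b000c0002800140000000000000000000) := T_2 (nat_lit 148) (nat_lit 165) (nat_lit 7) (nat_lit 11) (nat_lit 5) L1190364 (by decide +kernel)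
theorem L1190366 : W_2 (nat_lit 12) (nat_lit 0x1000480024001200000000000000000000000) (nat_lit 0x0) (nat_lit 0x4000f9007c803b000d0002800140000000000000000000) := Q_2 (nat_lit 147) (C_2 L1190353 (C_2 L1190232 (C_2 L1190365 (C_2 L73195 N_2)))) (by decide +kernel)
theorem L1190367 : W_2 (nat_lit 13) (nat_lit 0x1000480004001200000000000000000000000) (nat_lit 0x0) (nat_lit 0x4000f9007c803b000f00028001c000e000700000000000) := Q_2 (nat_lit 113) (C_2 L1190189 (C_2 L1190311 (C_2 L1190354 (C_2 L1190355 (C_2 L1190366 (C_2 L1190306 N_2)))))) (by decide +kernel)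
theorem L1190368 : W_2 (nat_lit 14) (nat_lit 0x1000480004000200000000000000000000000) (nat_lit 0x0) (nat_lit 0x4000f9007c803b000f2003c001f800ff00720028000000) := Q_2 (nat_lit 96) (C_2 L1190276 (C_2 L1190296 (C_2 L1190149 (C_2 L1190313 (C_2 L1190324 (C_2 L1190367 (C_2 L1190288 N_2))))))) (by decide +kernel)
theorem L1190369 : W_2 (nat_lit 2) (nat_lit 0xf800480004000200038000000000000000000) (nat_lit 0x0) (nat_lit 0x380000000000000000000000000000000000000000) := D_2 (nat_lit 164) (nat_lit 163) (nat_lit 165) (nat_lit 3) (nat_lit 7) (nat_lit 8) (nat_lit 3) (nat_lit 8) (nat_lit 8) (by decide +kernel)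
theorem L1190370 : W_2 (nat_lit 3) (nat_lit 0xb800480004000200038000000000000000000) (nat_lit 0x0) (nat_lit 0x380004000800000000000000000000000000000000) := T_2 (nat_lit 146) (nat_lit 131) (nat_lit 2) (nat_lit 8) (nat_lit 8) L1190369 (by decide +kernel)
theorem L1190371 : W_2 (nat_lit 4) (nat_lit 0x9800480004000200038000000000000000000) (nat_lit 0x0) (nat_lit 0x380006000900000000000000000000000000000000) := T_2 (nat_lit 145) (nat_lit 128) (nat_lit 7) (nat_lit 8) (nat_lit 4) L1190370 (by decide +kernel)
theorem L1190372 : W_2 (nat_lit 5) (nat_lit 0x9800480004000200030000000000000000000) (nat_lit 0x0) (nat_lit 0x380006000900000000000008000400000000000000) := T_2 (nat_lit 75) (nat_lit 58) (nat_lit 4) (nat_lit 8) (nat_lit 7) L1190371 (by decide +kernel)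
theorem L1190373 : W_2 (nat_lit 6) (nat_lit 0x9800480004000200020000000000000000000) (nat_lit 0x0) (nat_lit 0x380006000900000000000018001400000000000000) := T_2 (nat_lit 76) (nat_lit 60) (nat_lit 6) (nat_lit 8) (nat_lit 7) L1190372 (by decide +kernel)
theorem L1190374 : W_2 (nat_lit 7) (nat_lit 0x9800480004000200000000000000000000000) (nat_lit 0x0) (nat_lit 0x380006000900000000400038001400000000000000) := T_2 (nat_lit 77) (nat_lit 94) (nat_lit 6) (nat_lit 8) (nat_lit 8) L1190373 (by decide +kernel)
theorem L1190375 : W_2 (nat_lit 8) (nat_lit 0x9000480004000200000000000000000000000) (nat_lit 0x0) (nat_lit 0x390006800900000000400038001400000000000000) := T_2 (nat_lit 143) (nat_lit 160) (nat_lit 5) (nat_lit 8) (nat_lit 5) L1190374 (by decide +kernel)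
theorem L1190426 : W_2 (nat_lit 2) (nat_lit 0x1f80053000d002c80004000200000000000000000000000) (nat_lit 0x0) (nat_lit 0x700000000000000000000000000000000000000000000000000) := D_2 (nat_lit 201) (nat_lit 200) (nat_lit 202) (nat_lit 3) (nat_lit 10) (nat_lit 10) (nat_lit 3) (nat_lit 11) (nat_lit 10) (by decide +kernel)
theorem L1190427 : W_2 (nat_lit 3) (nat_lit 0xf80053000d002c80004000200000000000000000000000) (nat_lit 0x0) (nat_lit 0x700010000080000000000000000000000000000000000000000) := T_2 (nat_lit 184) (nat_lit 163) (nat_lit 0) (nat_lit 14) (nat_lit 10) L1190426 (by decide +kernel)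
theorem L1190428 : W_2 (nat_lit 4) (nat_lit 0x780053000d002c80004000200000000000000000000000) (nat_lit 0x0) (nat_lit 0x700018000880000000000000000000000000000000000000000) := T_2 (nat_lit 183) (nat_lit 167) (nat_lit 2) (nat_lit 10) (nat_lit 10) L1190427 (by decide +kernel)
theorem L1190429 : W_2 (nat_lit 5) (nat_lit 0x780013000d002c80004000200000000000000000000000) (nat_lit 0x0) (nat_lit 0x700018000e80000000000000000000000000000000000000000) := T_2 (nat_lit 166) (nat_lit 165) (nat_lit 2) (nat_lit 9) (nat_lit 10) L1190428 (by decide +kernel)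
theorem L1190430 : W_2 (nat_lit 6) (nat_lit 0x380013000d002c80004000200000000000000000000000) (nat_lit 0x0) (nat_lit 0x78001c000e80000000000000000000000000000000000000000) := T_2 (nat_lit 182) (nat_lit 199) (nat_lit 7) (nat_lit 11) (nat_lit 7) L1190429 (by decide +kernel)
theorem L1190431 : W_2 (nat_lit 7) (nat_lit 0x380013000d000c80004000200000000000000000000000) (nat_lit 0x0) (nat_lit 0x78001c000e80000003000000000000000000000000000000000) := T_2 (nat_lit 133) (nat_lit 132) (nat_lit 1) (nat_lit 14) (nat_lit 7) L1190430 (by decide +kernel)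
theorem L1190432 : W_2 (nat_lit 8) (nat_lit 0x380013000d000480004000200000000000000000000000) (nat_lit 0x0) (nat_lit 0x78001c000e80000003800040000000000000000000000000000) := T_2 (nat_lit 131) (nat_lit 114) (nat_lit 6) (nat_lit 11) (nat_lit 10) L1190431 (by decide +kernel)
theorem L1190433 : W_2 (nat_lit 9) (nat_lit 0x300013000d000480004000200000000000000000000000) (nat_lit 0x0) (nat_lit 0x78001cc00e80000003800040000000000000000000000000000) := T_2 (nat_lit 179) (nat_lit 178) (nat_lit 0) (nat_lit 11) (nat_lit 10) L1190432 (by decide +kernel)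
theorem L1190434 : W_2 (nat_lit 10) (nat_lit 0x3000130009000480004000200000000000000000000000) (nat_lit 0x0) (nat_lit 0x78001cc00e80006003800040000000000000000000000000000) := T_2 (nat_lit 146) (nat_lit 145) (nat_lit 1) (nat_lit 11) (nat_lit 8) L1190433 (by decide +kernel)
theorem L1190435 : W_2 (nat_lit 11) (nat_lit 0x3000110009000480004000200000000000000000000000) (nat_lit 0x0) (nat_lit 0x78001ce00ea0006003800040000000000000000000000000000) := T_2 (nat_lit 161) (nat_lit 177) (nat_lit 5) (nat_lit 8) (nat_lit 6) L1190434 (by decide +kernel)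
theorem L1190436 : W_2 (nat_lit 12) (nat_lit 0x2000110009000480004000200000000000000000000000) (nat_lit 0x0) (nat_lit 0x7a001de00ea0006003800040000000000000000000000000000) := T_2 (nat_lit 180) (nat_lit 197) (nat_lit 5) (nat_lit 11) (nat_lit 7) L1190435 (by decide +kernel)
theorem L1190437 : W_2 (nat_lit 13) (nat_lit 0x2000100009000480004000200000000000000000000000) (nat_lit 0x0) (nat_lit 0x7a001de00eb0006803800040000000000000000000000000000) := T_2 (nat_lit 160) (nat_lit 143) (nat_lit 5) (nat_lit 8) (nat_lit 5) L1190436 (by decide +kernel)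
theorem L1190438 : W_2 (nat_lit 14) (nat_lit 0x100009000480004000200000000000000000000000) (nat_lit 0x0) (nat_lit 0x14007e001fe00eb0016803800040000000000000000000000000000) := Q_2 (nat_lit 181) (C_2 L99713 (C_2 L99710 (C_2 L1190437 (C_2 L99706 N_2)))) (by decide +kernel)
theorem L1190439 : W_2 (nat_lit 10) (nat_lit 0x100009000480024000600000000000000000000000) (nat_lit 0x0) (nat_lit 0x1d000e80076001800050002800000000000000000000000) := T_2 (nat_lit 112) (nat_lit 95) (nat_lit 4) (nat_lit 11) (nat_lit 9) L98845 (by decide +kernel)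
theorem L1190440 : W_2 (nat_lit 11) (nat_lit 0x100009000480024000200000000000000000000000) (nat_lit 0x0) (nat_lit 0x1d000e80076001800050002c00020000000000000000000) := T_2 (nat_lit 94) (nat_lit 77) (nat_lit 6) (nat_lit 8) (nat_lit 8) L1190439 (by decide +kernel)
theorem L1190441 : W_2 (nat_lit 12) (nat_lit 0x100009000480004000200000000000000000000000) (nat_lit 0x0) (nat_lit 0x1d000e80076001800070003c00160000000000000000000) := Q_2 (nat_lit 113) (C_2 L99695 (C_2 L98646 (C_2 L1190440 (C_2 L99692 N_2)))) (by decide +kernel)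
theorem L1190442 : W_2 (nat_lit 6) (nat_lit 0x100009000480004000200000000000000000000000) (nat_lit 0x0) (nat_lit 0x14000e0007000200016000800060002000000000000000000000000) := Q_2 (nat_lit 181) (C_2 L99713 (C_2 L99710 (C_2 L98610 (C_2 L99706 N_2)))) (by decide +kernel)
theorem L1190443 : W_2 (nat_lit 2) (nat_lit 0x5000100009000480074000600000000000000000000000) (nat_lit 0x0) (nat_lit 0xa0002000000000000000000000000000000000000000000000) := D_2 (nat_lit 181) (nat_lit 197) (nat_lit 199) (nat_lit 5) (nat_lit 11) (nat_lit 7) (nat_lit 7) (nat_lit 11) (nat_lit 7) (by decide +kernel)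
theorem L1190444 : W_2 (nat_lit 3) (nat_lit 0x1000100009000480074000600000000000000000000000) (nat_lit 0x0) (nat_lit 0xa0006000200000000000000000000000000000000000000000) := T_2 (nat_lit 182) (nat_lit 165) (nat_lit 7) (nat_lit 11) (nat_lit 6) L1190443 (by decide +kernel)
theorem L1190445 : W_2 (nat_lit 4) (nat_lit 0x100009000480074000600000000000000000000000) (nat_lit 0x0) (nat_lit 0xa0007000280000000000000000000000000000000000000000) := T_2 (nat_lit 180) (nat_lit 163) (nat_lit 5) (nat_lit 11) (nat_lit 6) L1190444 (by decide +kernel)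
theorem L1190446 : W_2 (nat_lit 5) (nat_lit 0x100009000480034000600000000000000000000000) (nat_lit 0x0) (nat_lit 0xa0007000280000000000040002000000000000000000000000) := T_2 (nat_lit 114) (nat_lit 97) (nat_lit 6) (nat_lit 11) (nat_lit 9) L1190445 (by decide +kernel)
theorem L1190447 : W_2 (nat_lit 6) (nat_lit 0x100009000480024000600000000000000000000000) (nat_lit 0x0) (nat_lit 0xa0007000280000000000050002800000000000000000000000) := T_2 (nat_lit 112) (nat_lit 95) (nat_lit 4) (nat_lit 11) (nat_lit 9) L1190446 (by decide +kernel)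
theorem L1190448 : W_2 (nat_lit 7) (nat_lit 0x100009000480024000200000000000000000000000) (nat_lit 0x0) (nat_lit 0xa0007000280000000000050002c00020000000000000000000) := T_2 (nat_lit 94) (nat_lit 77) (nat_lit 6) (nat_lit 8) (nat_lit 8) L1190447 (by decide +kernel)
theorem L1190449 : W_2 (nat_lit 8) (nat_lit 0x100009000480004000200000000000000000000000) (nat_lit 0x0) (nat_lit 0xa0007000280014000000070003c00160000000000000000000) := Q_2 (nat_lit 113) (C_2 L99695 (C_2 L98646 (C_2 L1190448 (C_2 L99692 N_2)))) (by decide +kernel)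
theorem L1190450 : W_2 (nat_lit 8) (nat_lit 0x100009000480004000200000000000000000000000) (nat_lit 0x0) (nat_lit 0xa0007000280006000800070003c00120000000000000000000) := Q_2 (nat_lit 113) (C_2 L1190448 (C_2 L98796 (C_2 L98646 (C_2 L99695 (C_2 L98643 N_2))))) (by decide +kernel)
theorem L1190451 : W_2 (nat_lit 2) (nat_lit 0x5000100009000480034000600000000000000000000000) (nat_lit 0x0) (nat_lit 0xa0002000000000000000000000000000000000000000000000) := D_2 (nat_lit 181) (nat_lit 197) (nat_lit 199) (nat_lit 5) (nat_lit 11) (nat_lit 7) (nat_lit 7) (nat_lit 11) (nat_lit 7) (by decide +kernel)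
theorem L1190452 : W_2 (nat_lit 3) (nat_lit 0x1000100009000480034000600000000000000000000000) (nat_lit 0x0) (nat_lit 0xa0006000200000000000000000000000000000000000000000) := T_2 (nat_lit 182) (nat_lit 165) (nat_lit 7) (nat_lit 11) (nat_lit 6) L1190451 (by decide +kernel)
theorem L1190453 : W_2 (nat_lit 4) (nat_lit 0x100009000480034000600000000000000000000000) (nat_lit 0x0) (nat_lit 0xa0007000280000000000000000000000000000000000000000) := T_2 (nat_lit 180) (nat_lit 163) (nat_lit 5) (nat_lit 11) (nat_lit 6) L1190452 (by decide +kernel)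
theorem L1190454 : W_2 (nat_lit 5) (nat_lit 0x100009000480024000600000000000000000000000) (nat_lit 0x0) (nat_lit 0xa0007000280000000000010000800000000000000000000000) := T_2 (nat_lit 112) (nat_lit 95) (nat_lit 4) (nat_lit 11) (nat_lit 9) L1190453 (by decide +kernel)
theorem L1190455 : W_2 (nat_lit 6) (nat_lit 0x100009000480024000200000000000000000000000) (nat_lit 0x0) (nat_lit 0xa0007000280000000000010000c00020000000000000000000) := T_2 (nat_lit 94) (nat_lit 77) (nat_lit 6) (nat_lit 8) (nat_lit 8) L1190454 (by decide +kernel)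
theorem L1190456 : W_2 (nat_lit 2) (nat_lit 0x180009800480034000600000000000000000000000) (nat_lit 0x0) (nat_lit 0x6000000000001000000000000000000000000) := D_2 (nat_lit 146) (nat_lit 96) (nat_lit 145) (nat_lit 5) (nat_lit 11) (nat_lit 5) (nat_lit 3) (nat_lit 7) (nat_lit 8) (by decide +kernel)
theorem L1190457 : W_2 (nat_lit 3) (nat_lit 0x100009800480034000600000000000000000000000) (nat_lit 0x0) (nat_lit 0x1000080006000000000001000000000000000000000000) := T_2 (nat_lit 163) (nat_lit 180) (nat_lit 5) (nat_lit 11) (nat_lit 6) L1190456 (by decide +kernel)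
theorem L1190458 : W_2 (nat_lit 4) (nat_lit 0x100009800480034000200000000000000000000000) (nat_lit 0x0) (nat_lit 0x1000080006000000000001400020000000000000000000) := T_2 (nat_lit 94) (nat_lit 77) (nat_lit 6) (nat_lit 8) (nat_lit 8) L1190457 (by decide +kernel)
theorem L1190459 : W_2 (nat_lit 5) (nat_lit 0x100009800480024000200000000000000000000000) (nat_lit 0x0) (nat_lit 0x1000080006000000010001c00020000000000000000000) := T_2 (nat_lit 112) (nat_lit 95) (nat_lit 4) (nat_lit 11) (nat_lit 9) L1190458 (by decide +kernel)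
theorem L1190460 : W_2 (nat_lit 6) (nat_lit 0x100009000480024000200000000000000000000000) (nat_lit 0x0) (nat_lit 0x1000090006800000010001c00020000000000000000000) := T_2 (nat_lit 143) (nat_lit 160) (nat_lit 5) (nat_lit 8) (nat_lit 5) L1190459 (by decide +kernel)
theorem L1190461 : W_2 (nat_lit 7) (nat_lit 0x100009000480004000200000000000000000000000) (nat_lit 0x0) (nat_lit 0xa0007000290016800000030001c00060000000000000000000) := Q_2 (nat_lit 113) (C_2 L99692 (C_2 L98643 (C_2 L1190455 (C_2 L1190460 N_2)))) (by decide +kernel)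
theorem L1190462 : W_2 (nat_lit 6) (nat_lit 0x100009000480004000200000000000000000000000) (nat_lit 0x0) (nat_lit 0x14000e0007000080016000800060002400020000000000000000000) := Q_2 (nat_lit 181) (C_2 L99713 (C_2 L99710 (C_2 L98614 N_2))) (by decide +kernel)
theorem L1190463 : W_2 (nat_lit 2) (nat_lit 0x70001d802c800e4000600000000000000000000000) (nat_lit 0x0) (nat_lit 0x4000300000000000000000000000000000) := D_2 (nat_lit 116) (nat_lit 134) (nat_lit 117) (nat_lit 3) (nat_lit 11) (nat_lit 6) (nat_lit 1) (nat_lit 15) (nat_lit 6) (by decide +kernel)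
theorem L1190464 : W_2 (nat_lit 3) (nat_lit 0x70001d802c80064000600000000000000000000000) (nat_lit 0x0) (nat_lit 0x4000380004000000000000000000000000) := T_2 (nat_lit 115) (nat_lit 98) (nat_lit 6) (nat_lit 12) (nat_lit 9) L1190463 (by decide +kernel)
theorem L1190465 : W_2 (nat_lit 4) (nat_lit 0x70000d802c80064000600000000000000000000000) (nat_lit 0x0) (nat_lit 0x8000000010004000380004000000000000000000000000) := T_2 (nat_lit 148) (nat_lit 183) (nat_lit 7) (nat_lit 12) (nat_lit 6) L1190464 (by decide +kernel)
theorem L1190466 : W_2 (nat_lit 5) (nat_lit 0x70000d800c80064000600000000000000000000000) (nat_lit 0x0) (nat_lit 0x8000000010007000380004000000000000000000000000) := T_2 (nat_lit 133) (nat_lit 132) (nat_lit 1) (nat_lit 14) (nat_lit 7) L1190465 (by decide +kernel)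
theorem L1190467 : W_2 (nat_lit 6) (nat_lit 0x30000d800c80064000600000000000000000000000) (nat_lit 0x0) (nat_lit 0x8000c00010007000380004000000000000000000000000) := T_2 (nat_lit 166) (nat_lit 167) (nat_lit 0) (nat_lit 14) (nat_lit 9) L1190466 (by decide +kernel)
theorem L1190468 : W_2 (nat_lit 7) (nat_lit 0x30000d800480064000600000000000000000000000) (nat_lit 0x0) (nat_lit 0xa000c00010007800380004000000000000000000000000) := T_2 (nat_lit 131) (nat_lit 181) (nat_lit 6) (nat_lit 11) (nat_lit 10) L1190467 (by decide +kernel)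
theorem L1190469 : W_2 (nat_lit 8) (nat_lit 0x300009800480064000600000000000000000000000) (nat_lit 0x0) (nat_lit 0xa000c00016007800380004000000000000000000000000) := T_2 (nat_lit 146) (nat_lit 145) (nat_lit 3) (nat_lit 8) (nat_lit 8) L1190468 (by decide +kernel)
theorem L1190470 : W_2 (nat_lit 9) (nat_lit 0x100009800480064000600000000000000000000000) (nat_lit 0x0) (nat_lit 0xe000e00016007800380004000000000000000000000000) := T_2 (nat_lit 165) (nat_lit 182) (nat_lit 7) (nat_lit 11) (nat_lit 6) L1190469 (by decide +kernel)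
theorem L1190471 : W_2 (nat_lit 10) (nat_lit 0x100009800480024000600000000000000000000000) (nat_lit 0x0) (nat_lit 0xe000e000160078003c0006000000000000000000000000) := T_2 (nat_lit 114) (nat_lit 97) (nat_lit 6) (nat_lit 11) (nat_lit 9) L1190470 (by decide +kernel)
theorem L1190472 : W_2 (nat_lit 11) (nat_lit 0x100009800480024000200000000000000000000000) (nat_lit 0x0) (nat_lit 0xe000e000160078003c0006400020000000000000000000) := T_2 (nat_lit 94) (nat_lit 77) (nat_lit 6) (nat_lit 8) (nat_lit 8) L1190471 (by decide +kernel)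
theorem L1190473 : W_2 (nat_lit 12) (nat_lit 0x100009000480024000200000000000000000000000) (nat_lit 0x0) (nat_lit 0xe000e100168078003c0006400020000000000000000000) := T_2 (nat_lit 143) (nat_lit 160) (nat_lit 5) (nat_lit 8) (nat_lit 5) L1190472 (by decide +kernel)
theorem L1190474 : W_2 (nat_lit 13) (nat_lit 0x100009000480004000200000000000000000000000) (nat_lit 0x0) (nat_lit 0xe000e100168078003f0007c00160000000000000000000) := Q_2 (nat_lit 113) (C_2 L99695 (C_2 L98625 (C_2 L99692 (C_2 L1190473 N_2)))) (by decide +kernel)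
theorem L1190475 : W_2 (nat_lit 2) (nat_lit 0x3000100009800480034000600000000000000000000000) (nat_lit 0x0) (nat_lit 0x800040002000000000000000000000000) := D_2 (nat_lit 114) (nat_lit 97) (nat_lit 131) (nat_lit 6) (nat_lit 11) (nat_lit 9) (nat_lit 6) (nat_lit 11) (nat_lit 10) (by decide +kernel)
theorem L1190476 : W_2 (nat_lit 3) (nat_lit 0x1000100009800480034000600000000000000000000000) (nat_lit 0x0) (nat_lit 0x20002000000000000800040002000000000000000000000000) := T_2 (nat_lit 181) (nat_lit 197) (nat_lit 5) (nat_lit 11) (nat_lit 7) L1190475 (by decide +kernel)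
theorem L1190477 : W_2 (nat_lit 4) (nat_lit 0x1000100009800480034000200000000000000000000000) (nat_lit 0x0) (nat_lit 0x20002000000000000800040002400020000000000000000000) := T_2 (nat_lit 94) (nat_lit 77) (nat_lit 6) (nat_lit 8) (nat_lit 8) L1190476 (by decide +kernel)
theorem L1190478 : W_2 (nat_lit 5) (nat_lit 0x100009800480034000200000000000000000000000) (nat_lit 0x0) (nat_lit 0x20003000080000000800040002400020000000000000000000) := T_2 (nat_lit 180) (nat_lit 163) (nat_lit 5) (nat_lit 11) (nat_lit 6) L1190477 (by decide +kernel)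
theorem L1190479 : W_2 (nat_lit 6) (nat_lit 0x100009800480024000200000000000000000000000) (nat_lit 0x0) (nat_lit 0x20003000080000000800050002c00020000000000000000000) := T_2 (nat_lit 112) (nat_lit 95) (nat_lit 4) (nat_lit 11) (nat_lit 9) L1190478 (by decide +kernel)
theorem L1190480 : W_2 (nat_lit 7) (nat_lit 0x100009000480024000200000000000000000000000) (nat_lit 0x0) (nat_lit 0x20003000090000800800050002c00020000000000000000000) := T_2 (nat_lit 143) (nat_lit 160) (nat_lit 5) (nat_lit 8) (nat_lit 5) L1190479 (by decide +kernel)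
theorem L1190481 : W_2 (nat_lit 8) (nat_lit 0x100009000480004000200000000000000000000000) (nat_lit 0x0) (nat_lit 0x20003000090006800800070003c00120000000000000000000) := Q_2 (nat_lit 113) (C_2 L1190460 (C_2 L99695 (C_2 L98646 (C_2 L1190480 N_2)))) (by decide +kernel)
theorem L1190482 : W_2 (nat_lit 15) (nat_lit 0x9000480004000200000000000000000000000) (nat_lit 0x0) (nat_lit 0x14007e001fe00fb00768078003f0007c00160000000000000000000) := Q_2 (nat_lit 164) (C_2 L99697 (C_2 L99696 (C_2 L98615 (C_2 L1190438 (C_2 L1190441 (C_2 L1190442 (C_2 L1190449 (C_2 L1190450 (C_2 L1190461 (C_2 L1190462 (C_2 L1190474 (C_2 L1190481 N_2)))))))))))) (by decide +kernel)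
theorem L1190498 : W_2 (nat_lit 2) (nat_lit 0x300009000480024001200000000000000000000000) (nat_lit 0x0) (nat_lit 0x1000080004000000000000000000000000000000000000) := D_2 (nat_lit 163) (nat_lit 146) (nat_lit 180) (nat_lit 5) (nat_lit 11) (nat_lit 5) (nat_lit 5) (nat_lit 11) (nat_lit 6) (by decide +kernel)
theorem L1190499 : W_2 (nat_lit 3) (nat_lit 0x300009000480024000200000000000000000000000) (nat_lit 0x0) (nat_lit 0x1000080014000000000001000000000000000000000000) := T_2 (nat_lit 96) (nat_lit 148) (nat_lit 7) (nat_lit 11) (nat_lit 5) L1190498 (by decide +kernel)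
theorem L1190500 : W_2 (nat_lit 4) (nat_lit 0x100009000480024000200000000000000000000000) (nat_lit 0x0) (nat_lit 0x5000280014000000000001000000000000000000000000) := T_2 (nat_lit 165) (nat_lit 182) (nat_lit 7) (nat_lit 11) (nat_lit 6) L1190499 (by decide +kernel)
theorem L1190560 : W_2 (nat_lit 2) (nat_lit 0x1000300009800480064000200000000000000000000000) (nat_lit 0x0) (nat_lit 0x20002000000000000800000000000000000000000000000000) := D_2 (nat_lit 181) (nat_lit 131) (nat_lit 197) (nat_lit 6) (nat_lit 11) (nat_lit 10) (nat_lit 5) (nat_lit 11) (nat_lit 7) (by decide +kernel)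
theorem L1190561 : W_2 (nat_lit 3) (nat_lit 0x300009800480064000200000000000000000000000) (nat_lit 0x0) (nat_lit 0x20003000080000000800000000000000000000000000000000) := T_2 (nat_lit 180) (nat_lit 163) (nat_lit 5) (nat_lit 11) (nat_lit 6) L1190560 (by decide +kernel)
theorem L1190562 : W_2 (nat_lit 4) (nat_lit 0x300009800480024000200000000000000000000000) (nat_lit 0x0) (nat_lit 0x20003000080000000800040002000000000000000000000000) := T_2 (nat_lit 114) (nat_lit 97) (nat_lit 6) (nat_lit 11) (nat_lit 9) L1190561 (by decide +kernel)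
theorem L1190563 : W_2 (nat_lit 5) (nat_lit 0x100009800480024000200000000000000000000000) (nat_lit 0x0) (nat_lit 0x20007000280000000800040002000000000000000000000000) := T_2 (nat_lit 165) (nat_lit 182) (nat_lit 7) (nat_lit 11) (nat_lit 6) L1190562 (by decide +kernel)
theorem L1190564 : W_2 (nat_lit 6) (nat_lit 0x100009000480024000200000000000000000000000) (nat_lit 0x0) (nat_lit 0x20007000290000800800040002000000000000000000000000) := T_2 (nat_lit 143) (nat_lit 160) (nat_lit 5) (nat_lit 8) (nat_lit 5) L1190563 (by decide +kernel)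
theorem L1190618 : W_2 (nat_lit 2) (nat_lit 0x9000480004001e00000000000000000000000) (nat_lit 0x0) (nat_lit 0x60000000040000000000000000000) := D_2 (nat_lit 113) (nat_lit 114) (nat_lit 78) (nat_lit 3) (nat_lit 8) (nat_lit 5) (nat_lit 4) (nat_lit 11) (nat_lit 8) (by decide +kernel)
theorem L1190619 : W_2 (nat_lit 3) (nat_lit 0x9000480004001600000000000000000000000) (nat_lit 0x0) (nat_lit 0x62000800040000000000000000000) := T_2 (nat_lit 95) (nat_lit 109) (nat_lit 1) (nat_lit 11) (nat_lit 5) L1190618 (by decide +kernel)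
theorem L1190620 : W_2 (nat_lit 4) (nat_lit 0x9000480004001200000000000000000000000) (nat_lit 0x0) (nat_lit 0x62000c00060000000000000000000) := T_2 (nat_lit 94) (nat_lit 77) (nat_lit 6) (nat_lit 8) (nat_lit 8) L1190619 (by decide +kernel)
theorem L1190621 : W_2 (nat_lit 7) (nat_lit 0x9000480004001200000000000000000000000) (nat_lit 0x0) (nat_lit 0x40003900148008000700028001c0008000000000000000) := Q_2 (nat_lit 113) (C_2 L1190232 (C_2 L1190353 (C_2 L72794 (C_2 L73195 N_2)))) (by decide +kernel)
theorem L1190622 : W_2 (nat_lit 2) (nat_lit 0xd8004800640032000b8000000000000000000) (nat_lit 0x0) (nat_lit 0x800000000000000004000200000000000) := D_2 (nat_lit 62) (nat_lit 131) (nat_lit 45) (nat_lit 7) (nat_lit 11) (nat_lit 3) (nat_lit 7) (nat_lit 11) (nat_lit 2) (by decide +kernel)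
theorem L1190623 : W_2 (nat_lit 3) (nat_lit 0xd800480064003200038000000000000000000) (nat_lit 0x0) (nat_lit 0x8000000000000c0004000200000000000) := T_2 (nat_lit 79) (nat_lit 78) (nat_lit 3) (nat_lit 8) (nat_lit 4) L1190622 (by decide +kernel)
theorem L1190624 : W_2 (nat_lit 4) (nat_lit 0xd800480064003200030000000000000000000) (nat_lit 0x0) (nat_lit 0x8000000000000c8004400200000000000) := T_2 (nat_lit 75) (nat_lit 58) (nat_lit 4) (nat_lit 8) (nat_lit 7) L1190623 (by decide +kernel)
theorem L1190625 : W_2 (nat_lit 5) (nat_lit 0xd800480064003200020000000000000000000) (nat_lit 0x0) (nat_lit 0x8000000000000d8005400200000000000) := T_2 (nat_lit 76) (nat_lit 60) (nat_lit 6) (nat_lit 8) (nat_lit 7) L1190624 (by decide +kernel)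
theorem L1190626 : W_2 (nat_lit 6) (nat_lit 0xd800480064003200000000000000000000000) (nat_lit 0x0) (nat_lit 0x8000000004000f8005400200000000000) := T_2 (nat_lit 77) (nat_lit 94) (nat_lit 6) (nat_lit 8) (nat_lit 8) L1190625 (by decide +kernel)
theorem L1190627 : W_2 (nat_lit 7) (nat_lit 0xd800480024003200000000000000000000000) (nat_lit 0x0) (nat_lit 0x1000000008000400004000f8005400200000000000) := T_2 (nat_lit 114) (nat_lit 164) (nat_lit 6) (nat_lit 11) (nat_lit 9) L1190626 (by decide +kernel)
theorem L1190628 : W_2 (nat_lit 8) (nat_lit 0x9800480024003200000000000000000000000) (nat_lit 0x0) (nat_lit 0x1800040008000400004000f8005400200000000000) := T_2 (nat_lit 146) (nat_lit 163) (nat_lit 5) (nat_lit 11) (nat_lit 5) L1190627 (by decide +kernel)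
theorem L1190629 : W_2 (nat_lit 9) (nat_lit 0x9800480024001200000000000000000000000) (nat_lit 0x0) (nat_lit 0x1800040008000400024001f8005400200000000000) := T_2 (nat_lit 97) (nat_lit 80) (nat_lit 6) (nat_lit 11) (nat_lit 8) L1190628 (by decide +kernel)
theorem L1190630 : W_2 (nat_lit 10) (nat_lit 0x9000480024001200000000000000000000000) (nat_lit 0x0) (nat_lit 0x1900048008000400024001f8005400200000000000) := T_2 (nat_lit 143) (nat_lit 160) (nat_lit 5) (nat_lit 8) (nat_lit 5) L1190629 (by decide +kernel)
theorem L1190631 : W_2 (nat_lit 2) (nat_lit 0x1d80048002400160008000a000000000000000) (nat_lit 0x0) (nat_lit 0x4000500000000000) := D_2 (nat_lit 62) (nat_lit 46) (nat_lit 44) (nat_lit 6) (nat_lit 11) (nat_lit 6) (nat_lit 4) (nat_lit 11) (nat_lit 6) (by decide +kernel)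
theorem L1190632 : W_2 (nat_lit 3) (nat_lit 0x1d800480024001600080008000000000000000) (nat_lit 0x0) (nat_lit 0x40006000500000000000) := T_2 (nat_lit 61) (nat_lit 78) (nat_lit 4) (nat_lit 11) (nat_lit 7) L1190631 (by decide +kernel)
theorem L1190633 : W_2 (nat_lit 4) (nat_lit 0x1d800480024001600080000000000000000000) (nat_lit 0x0) (nat_lit 0x14000e000500000000000) := T_2 (nat_lit 63) (nat_lit 80) (nat_lit 6) (nat_lit 11) (nat_lit 7) L1190632 (by decide +kernel)
theorem L1190634 : W_2 (nat_lit 5) (nat_lit 0x1d800480024001600000000000000000000000) (nat_lit 0x0) (nat_lit 0x8000000000001c000e000500000000000) := T_2 (nat_lit 79) (nat_lit 131) (nat_lit 7) (nat_lit 11) (nat_lit 4) L1190633 (by decide +kernel)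
theorem L1190635 : W_2 (nat_lit 6) (nat_lit 0xd800480024001600000000000000000000000) (nat_lit 0x0) (nat_lit 0x2000100008000000000001c000e000500000000000) := T_2 (nat_lit 148) (nat_lit 165) (nat_lit 7) (nat_lit 11) (nat_lit 5) L1190634 (by decide +kernel)
theorem L1190636 : W_2 (nat_lit 7) (nat_lit 0x9800480024001600000000000000000000000) (nat_lit 0x0) (nat_lit 0x2800140008000000000001c000e000500000000000) := T_2 (nat_lit 146) (nat_lit 163) (nat_lit 5) (nat_lit 11) (nat_lit 5) L1190635 (by decide +kernel)
theorem L1190637 : W_2 (nat_lit 8) (nat_lit 0x9000480024001600000000000000000000000) (nat_lit 0x0) (nat_lit 0x2900148008000000000001c000e000500000000000) := T_2 (nat_lit 143) (nat_lit 160) (nat_lit 5) (nat_lit 8) (nat_lit 5) L1190636 (by decide +kernel)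
theorem L1190638 : W_2 (nat_lit 9) (nat_lit 0x9000480024001200000000000000000000000) (nat_lit 0x0) (nat_lit 0x2900148008000000004001e000e000500000000000) := T_2 (nat_lit 94) (nat_lit 77) (nat_lit 6) (nat_lit 8) (nat_lit 8) L1190637 (by decide +kernel)
theorem L1190639 : W_2 (nat_lit 2) (nat_lit 0x190004800240012000e0000000000000000000) (nat_lit 0x0) (nat_lit 0x2000010001000000000000000) := D_2 (nat_lit 76) (nat_lit 60) (nat_lit 97) (nat_lit 6) (nat_lit 8) (nat_lit 7) (nat_lit 3) (nat_lit 8) (nat_lit 4) (by decide +kernel)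
theorem L1190640 : W_2 (nat_lit 3) (nat_lit 0x190004800240012000c0000000000000000000) (nat_lit 0x0) (nat_lit 0x2400030001000000000000000) := T_2 (nat_lit 77) (nat_lit 94) (nat_lit 6) (nat_lit 8) (nat_lit 8) L1190639 (by decide +kernel)
theorem L1190641 : W_2 (nat_lit 4) (nat_lit 0x19000480024001200080000000000000000000) (nat_lit 0x0) (nat_lit 0x2400070003000000000000000) := T_2 (nat_lit 78) (nat_lit 61) (nat_lit 4) (nat_lit 11) (nat_lit 7) L1190640 (by decide +kernel)
theorem L1190642 : W_2 (nat_lit 5) (nat_lit 0x19000480024001200000000000000000000000) (nat_lit 0x0) (nat_lit 0x8000000024000f0003000000000000000) := T_2 (nat_lit 79) (nat_lit 131) (nat_lit 7) (nat_lit 11) (nat_lit 4) L1190641 (by decide +kernel)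
theorem L1190643 : W_2 (nat_lit 6) (nat_lit 0x9000480024001200000000000000000000000) (nat_lit 0x0) (nat_lit 0x2000100008000000024000f0003000000000000000) := T_2 (nat_lit 148) (nat_lit 165) (nat_lit 7) (nat_lit 11) (nat_lit 5) L1190642 (by decide +kernel)
theorem L1190644 : W_2 (nat_lit 11) (nat_lit 0x9000480004001200000000000000000000000) (nat_lit 0x0) (nat_lit 0x40003900148008000600024001f800f400700000000000) := Q_2 (nat_lit 113) (C_2 L1190232 (C_2 L72794 (C_2 L1190630 (C_2 L1190638 (C_2 L1190643 N_2))))) (by decide +kernel)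
theorem L1190645 : W_2 (nat_lit 2) (nat_lit 0x9800480004003e00110000000000000000000) (nat_lit 0x0) (nat_lit 0x8000c0000000000000000000000000000) := D_2 (nat_lit 114) (nat_lit 115) (nat_lit 131) (nat_lit 3) (nat_lit 9) (nat_lit 5) (nat_lit 5) (nat_lit 12) (nat_lit 4) (by decide +kernel)
theorem L1190646 : W_2 (nat_lit 3) (nat_lit 0x9800480004001e00110000000000000000000) (nat_lit 0x0) (nat_lit 0x8000c0002000200000000000000000000) := T_2 (nat_lit 97) (nat_lit 81) (nat_lit 2) (nat_lit 9) (nat_lit 5) L1190645 (by decide +kernel)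
theorem L1190647 : W_2 (nat_lit 4) (nat_lit 0x9800480004001e00010000000000000000000) (nat_lit 0x0) (nat_lit 0x8000c0002000380000000000000000000) := T_2 (nat_lit 80) (nat_lit 79) (nat_lit 2) (nat_lit 8) (nat_lit 5) L1190646 (by decide +kernel)
theorem L1190648 : W_2 (nat_lit 5) (nat_lit 0x9800480004001e00000000000000000000000) (nat_lit 0x0) (nat_lit 0x8000c0002000398000000000000000000) := T_2 (nat_lit 76) (nat_lit 75) (nat_lit 0) (nat_lit 11) (nat_lit 5) L1190647 (by decide +kernel)
theorem L1190649 : W_2 (nat_lit 6) (nat_lit 0x9800480004001600000000000000000000000) (nat_lit 0x0) (nat_lit 0x8000c2002800398000000000000000000) := T_2 (nat_lit 95) (nat_lit 109) (nat_lit 1) (nat_lit 11) (nat_lit 5) L1190648 (by decide +kernel)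
theorem L1190650 : W_2 (nat_lit 7) (nat_lit 0x9800480004001200000000000000000000000) (nat_lit 0x0) (nat_lit 0x8000c2002c003b8000000000000000000) := T_2 (nat_lit 94) (nat_lit 77) (nat_lit 6) (nat_lit 8) (nat_lit 8) L1190649 (by decide +kernel)
theorem L1190651 : W_2 (nat_lit 8) (nat_lit 0x9000480004001200000000000000000000000) (nat_lit 0x0) (nat_lit 0x100008008000c2002c003b8000000000000000000) := T_2 (nat_lit 143) (nat_lit 160) (nat_lit 5) (nat_lit 8) (nat_lit 5) L1190650 (by decide +kernel)
theorem L1190652 : W_2 (nat_lit 2) (nat_lit 0x9000480024001e00010000000000000000000) (nat_lit 0x0) (nat_lit 0x2000180000000000000000000) := D_2 (nat_lit 80) (nat_lit 79) (nat_lit 97) (nat_lit 2) (nat_lit 8) (nat_lit 5) (nat_lit 6) (nat_lit 11) (nat_lit 8) (by decide +kernel)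
theorem L1190653 : W_2 (nat_lit 3) (nat_lit 0x9000480004001e00010000000000000000000) (nat_lit 0x0) (nat_lit 0x200020001c0000000000000000000) := T_2 (nat_lit 113) (nat_lit 78) (nat_lit 4) (nat_lit 11) (nat_lit 8) L1190652 (by decide +kernel)
theorem L1190654 : W_2 (nat_lit 4) (nat_lit 0x9000480004001e00000000000000000000000) (nat_lit 0x0) (nat_lit 0x200020001d8000000000000000000) := T_2 (nat_lit 76) (nat_lit 75) (nat_lit 0) (nat_lit 11) (nat_lit 5) L1190653 (by decide +kernel)
theorem L1190655 : W_2 (nat_lit 5) (nat_lit 0x9000480004001600000000000000000000000) (nat_lit 0x0) (nat_lit 0x220028001d8000000000000000000) := T_2 (nat_lit 95) (nat_lit 109) (nat_lit 1) (nat_lit 11) (nat_lit 5) L1190654 (by decide +kernel)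
theorem L1190656 : W_2 (nat_lit 6) (nat_lit 0x9000480004001200000000000000000000000) (nat_lit 0x0) (nat_lit 0x22002c001f8000000000000000000) := T_2 (nat_lit 94) (nat_lit 77) (nat_lit 6) (nat_lit 8) (nat_lit 8) L1190655 (by decide +kernel)
theorem L1190657 : W_2 (nat_lit 12) (nat_lit 0x9000480004000200000000000000000000000) (nat_lit 0x0) (nat_lit 0x40003900148008000f2003c003f800f400700000000000) := Q_2 (nat_lit 96) (C_2 L1190620 (C_2 L1190621 (C_2 L1190644 (C_2 L1190651 (C_2 L1190656 N_2))))) (by decide +kernel)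
theorem L1190658 : W_2 (nat_lit 9) (nat_lit 0xb000480004000200038000000000000000000) (nat_lit 0x0) (nat_lit 0x800040007000140008000200038000c000e000000000000000) := T_2 (nat_lit 146) (nat_lit 131) (nat_lit 2) (nat_lit 8) (nat_lit 8) L80105 (by decide +kernel)
theorem L1190659 : W_2 (nat_lit 10) (nat_lit 0x9000480004000200038000000000000000000) (nat_lit 0x0) (nat_lit 0x800040007000160009000200038000c000e000000000000000) := T_2 (nat_lit 145) (nat_lit 128) (nat_lit 7) (nat_lit 8) (nat_lit 4) L1190658 (by decide +kernel)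
theorem L1190660 : W_2 (nat_lit 11) (nat_lit 0x9000480004000200030000000000000000000) (nat_lit 0x0) (nat_lit 0x800040007000160009000200038000c800e400000000000000) := T_2 (nat_lit 75) (nat_lit 58) (nat_lit 4) (nat_lit 8) (nat_lit 7) L1190659 (by decide +kernel)
theorem L1190661 : W_2 (nat_lit 12) (nat_lit 0x9000480004000200020000000000000000000) (nat_lit 0x0) (nat_lit 0x800040007000160009000200038000d800f400000000000000) := T_2 (nat_lit 76) (nat_lit 60) (nat_lit 6) (nat_lit 8) (nat_lit 7) L1190660 (by decide +kernel)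
theorem L1190662 : W_2 (nat_lit 13) (nat_lit 0x9000480004000200000000000000000000000) (nat_lit 0x0) (nat_lit 0x80004000700016000900020003c000f800f400000000000000) := T_2 (nat_lit 77) (nat_lit 94) (nat_lit 6) (nat_lit 8) (nat_lit 8) L1190661 (by decide +kernel)
theorem L1190686 : W_2 (nat_lit 2) (nat_lit 0x180009800c80064001a00000000000000000000000) (nat_lit 0x0) (nat_lit 0x10000000000000000080004000000000000000) := D_2 (nat_lit 79) (nat_lit 62) (nat_lit 148) (nat_lit 7) (nat_lit 11) (nat_lit 3) (nat_lit 7) (nat_lit 11) (nat_lit 4) (by decide +kernel)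
theorem L1190687 : W_2 (nat_lit 3) (nat_lit 0x180009800c80064000a00000000000000000000000) (nat_lit 0x0) (nat_lit 0x100000000000010000c0004000000000000000) := T_2 (nat_lit 96) (nat_lit 78) (nat_lit 4) (nat_lit 11) (nat_lit 8) L1190686 (by decide +kernel)
theorem L1190688 : W_2 (nat_lit 4) (nat_lit 0x180009800c80064000200000000000000000000000) (nat_lit 0x0) (nat_lit 0x100000000100018000c0004000000000000000) := T_2 (nat_lit 95) (nat_lit 112) (nat_lit 4) (nat_lit 11) (nat_lit 9) L1190687 (by decide +kernel)
theorem L1190689 : W_2 (nat_lit 5) (nat_lit 0x180009800480064000200000000000000000000000) (nat_lit 0x0) (nat_lit 0x20000000100008000100018000c0004000000000000000) := T_2 (nat_lit 131) (nat_lit 181) (nat_lit 6) (nat_lit 11) (nat_lit 10) L1190688 (by decide +kernel)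
theorem L1190690 : W_2 (nat_lit 6) (nat_lit 0x100009800480064000200000000000000000000000) (nat_lit 0x0) (nat_lit 0x30000800100008000100018000c0004000000000000000) := T_2 (nat_lit 163) (nat_lit 180) (nat_lit 5) (nat_lit 11) (nat_lit 6) L1190689 (by decide +kernel)
theorem L1190691 : W_2 (nat_lit 7) (nat_lit 0x100009800480024000200000000000000000000000) (nat_lit 0x0) (nat_lit 0x30000800100008000500038000c0004000000000000000) := T_2 (nat_lit 114) (nat_lit 97) (nat_lit 6) (nat_lit 11) (nat_lit 9) L1190690 (by decide +kernel)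
theorem L1190692 : W_2 (nat_lit 8) (nat_lit 0x100009000480024000200000000000000000000000) (nat_lit 0x0) (nat_lit 0x30000900108008000500038000c0004000000000000000) := T_2 (nat_lit 143) (nat_lit 160) (nat_lit 5) (nat_lit 8) (nat_lit 5) L1190691 (by decide +kernel)
theorem L1190693 : W_2 (nat_lit 9) (nat_lit 0x9000480024000200000000000000000000000) (nat_lit 0x0) (nat_lit 0x200070003900108008000500038000c0004000000000000000) := Q_2 (nat_lit 164) (C_2 L1190564 (C_2 L99692 (C_2 L1190692 N_2))) (by decide +kernel)
theorem L1190713 : W_2 (nat_lit 9) (nat_lit 0x100009000480004000200000000000000000000000) (nat_lit 0x0) (nat_lit 0x200070002900108008000700038000c0004000000000000000) := Q_2 (nat_lit 113) (C_2 L1190692 (C_2 L99692 (C_2 L1190564 N_2))) (by decide +kernel)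
theorem L1190753 : W_2 (nat_lit 5) (nat_lit 0x9000480004001200000000000000000000000) (nat_lit 0x0) (nat_lit 0x4000300010000800062002c001c0008000000000000000) := Q_2 (nat_lit 113) (C_2 L1190232 (C_2 L72794 (C_2 L72791 N_2))) (by decide +kernel)
theorem L1190754 : W_2 (nat_lit 2) (nat_lit 0x9800480004001200078002000000000000000) (nat_lit 0x0) (nat_lit 0x20002000080000000000000000000) := D_2 (nat_lit 79) (nat_lit 97) (nat_lit 113) (nat_lit 3) (nat_lit 8) (nat_lit 4) (nat_lit 4) (nat_lit 11) (nat_lit 7) (by decide +kernel)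
theorem L1190755 : W_2 (nat_lit 3) (nat_lit 0x9800480004001200078000000000000000000) (nat_lit 0x0) (nat_lit 0x20002000080006000000000000000) := T_2 (nat_lit 61) (nat_lit 62) (nat_lit 2) (nat_lit 7) (nat_lit 4) L1190754 (by decide +kernel)
theorem L1190756 : W_2 (nat_lit 4) (nat_lit 0x9800480004001200038000000000000000000) (nat_lit 0x0) (nat_lit 0x200028000c0006000000000000000) := T_2 (nat_lit 78) (nat_lit 95) (nat_lit 3) (nat_lit 7) (nat_lit 4) L1190755 (by decide +kernel)
theorem L1190757 : W_2 (nat_lit 5) (nat_lit 0x9800480004001200030000000000000000000) (nat_lit 0x0) (nat_lit 0x200028000c8006400000000000000) := T_2 (nat_lit 75) (nat_lit 58) (nat_lit 4) (nat_lit 8) (nat_lit 7) L1190756 (by decide +kernel)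
theorem L1190758 : W_2 (nat_lit 6) (nat_lit 0x9800480004001200020000000000000000000) (nat_lit 0x0) (nat_lit 0x200028000d8007400000000000000) := T_2 (nat_lit 76) (nat_lit 60) (nat_lit 6) (nat_lit 8) (nat_lit 7) L1190757 (by decide +kernel)
theorem L1190759 : W_2 (nat_lit 7) (nat_lit 0x9800480004001200000000000000000000000) (nat_lit 0x0) (nat_lit 0x20002c000f8007400000000000000) := T_2 (nat_lit 77) (nat_lit 94) (nat_lit 6) (nat_lit 8) (nat_lit 8) L1190758 (by decide +kernel)
theorem L1190760 : W_2 (nat_lit 8) (nat_lit 0x9000480004001200000000000000000000000) (nat_lit 0x0) (nat_lit 0x10000800000020002c000f8007400000000000000) := T_2 (nat_lit 143) (nat_lit 160) (nat_lit 5) (nat_lit 8) (nat_lit 5) L1190759 (by decide +kernel)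
theorem L1190762 : W_2 (nat_lit 2) (nat_lit 0x5000100009800480024003600000000000000000000000) (nat_lit 0x0) (nat_lit 0xa0002000000000000000000000000000000000000000000000) := D_2 (nat_lit 181) (nat_lit 197) (nat_lit 199) (nat_lit 5) (nat_lit 11) (nat_lit 7) (nat_lit 7) (nat_lit 11) (nat_lit 7) (by decide +kernel)
theorem L1190763 : W_2 (nat_lit 3) (nat_lit 0x1000100009800480024003600000000000000000000000) (nat_lit 0x0) (nat_lit 0xa0006000200000000000000000000000000000000000000000) := T_2 (nat_lit 182) (nat_lit 165) (nat_lit 7) (nat_lit 11) (nat_lit 6) L1190762 (by decide +kernel)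
theorem L1190764 : W_2 (nat_lit 4) (nat_lit 0x100009800480024003600000000000000000000000) (nat_lit 0x0) (nat_lit 0xa0007000280000000000000000000000000000000000000000) := T_2 (nat_lit 180) (nat_lit 163) (nat_lit 5) (nat_lit 11) (nat_lit 6) L1190763 (by decide +kernel)
theorem L1190765 : W_2 (nat_lit 5) (nat_lit 0x9800480024003600000000000000000000000) (nat_lit 0x0) (nat_lit 0xa0007000380000000000040000000000000000000000000000) := T_2 (nat_lit 164) (nat_lit 114) (nat_lit 6) (nat_lit 11) (nat_lit 9) L1190764 (by decide +kernel)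
theorem L1190766 : W_2 (nat_lit 6) (nat_lit 0x9000480024003600000000000000000000000) (nat_lit 0x0) (nat_lit 0xa0007000390000800000040000000000000000000000000000) := T_2 (nat_lit 143) (nat_lit 160) (nat_lit 5) (nat_lit 8) (nat_lit 5) L1190765 (by decide +kernel)
theorem L1190767 : W_2 (nat_lit 7) (nat_lit 0x9000480024001600000000000000000000000) (nat_lit 0x0) (nat_lit 0xa0007000390000800000040002000100000000000000000000) := T_2 (nat_lit 97) (nat_lit 80) (nat_lit 6) (nat_lit 11) (nat_lit 8) L1190766 (by decide +kernel)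
theorem L1190768 : W_2 (nat_lit 8) (nat_lit 0x9000480024001200000000000000000000000) (nat_lit 0x0) (nat_lit 0xa0007000390000800000040002400120000000000000000000) := T_2 (nat_lit 94) (nat_lit 77) (nat_lit 6) (nat_lit 8) (nat_lit 8) L1190767 (by decide +kernel)
theorem L1190769 : W_2 (nat_lit 2) (nat_lit 0x190004800240012001e0000000000000000000) (nat_lit 0x0) (nat_lit 0x10001800000000000000) := D_2 (nat_lit 60) (nat_lit 59) (nat_lit 76) (nat_lit 0) (nat_lit 12) (nat_lit 4) (nat_lit 6) (nat_lit 8) (nat_lit 7) (by decide +kernel)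
theorem L1190770 : W_2 (nat_lit 3) (nat_lit 0x190004800240012001c0000000000000000000) (nat_lit 0x0) (nat_lit 0x400030001800000000000000) := T_2 (nat_lit 77) (nat_lit 94) (nat_lit 1) (nat_lit 12) (nat_lit 4) L1190769 (by decide +kernel)
theorem L1190771 : W_2 (nat_lit 4) (nat_lit 0x19000480024001200180000000000000000000) (nat_lit 0x0) (nat_lit 0x400070003800000000000000) := T_2 (nat_lit 78) (nat_lit 61) (nat_lit 4) (nat_lit 11) (nat_lit 7) L1190770 (by decide +kernel)
theorem L1190772 : W_2 (nat_lit 5) (nat_lit 0x19000480024001200080000000000000000000) (nat_lit 0x0) (nat_lit 0x40017000b800000000000000) := T_2 (nat_lit 80) (nat_lit 63) (nat_lit 6) (nat_lit 11) (nat_lit 7) L1190771 (by decide +kernel)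
theorem L1190773 : W_2 (nat_lit 6) (nat_lit 0x19000480024001200000000000000000000000) (nat_lit 0x0) (nat_lit 0x8000000004001f000b800000000000000) := T_2 (nat_lit 79) (nat_lit 131) (nat_lit 7) (nat_lit 11) (nat_lit 4) L1190772 (by decide +kernel)
theorem L1190774 : W_2 (nat_lit 7) (nat_lit 0x9000480024001200000000000000000000000) (nat_lit 0x0) (nat_lit 0x2000100008000000004001f000b800000000000000) := T_2 (nat_lit 148) (nat_lit 165) (nat_lit 7) (nat_lit 11) (nat_lit 5) L1190773 (by decide +kernel)
theorem L1190775 : W_2 (nat_lit 2) (nat_lit 0x9800c80024001600180002000000000000000) (nat_lit 0x0) (nat_lit 0x40000000000004000100000000000) := D_2 (nat_lit 62) (nat_lit 114) (nat_lit 44) (nat_lit 7) (nat_lit 11) (nat_lit 3) (nat_lit 4) (nat_lit 11) (nat_lit 6) (by decide +kernel)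
theorem L1190776 : W_2 (nat_lit 3) (nat_lit 0x9800480024001600180002000000000000000) (nat_lit 0x0) (nat_lit 0x10000800040000000000004000100000000000) := T_2 (nat_lit 131) (nat_lit 148) (nat_lit 7) (nat_lit 11) (nat_lit 4) L1190775 (by decide +kernel)
theorem L1190777 : W_2 (nat_lit 4) (nat_lit 0x9800480024001600180000000000000000000) (nat_lit 0x0) (nat_lit 0x10000800040000000040006000100000000000) := T_2 (nat_lit 61) (nat_lit 78) (nat_lit 4) (nat_lit 11) (nat_lit 7) L1190776 (by decide +kernel)
theorem L1190778 : W_2 (nat_lit 5) (nat_lit 0x9800480024001600100000000000000000000) (nat_lit 0x0) (nat_lit 0x100008000400000000c000e000100000000000) := T_2 (nat_lit 79) (nat_lit 63) (nat_lit 6) (nat_lit 11) (nat_lit 7) L1190777 (by decide +kernel)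
theorem L1190779 : W_2 (nat_lit 6) (nat_lit 0x9000480024001600100000000000000000000) (nat_lit 0x0) (nat_lit 0x100108008000400000000c000e000100000000000) := T_2 (nat_lit 143) (nat_lit 160) (nat_lit 5) (nat_lit 8) (nat_lit 5) L1190778 (by decide +kernel)
theorem L1190780 : W_2 (nat_lit 7) (nat_lit 0x9000480024001600000000000000000000000) (nat_lit 0x0) (nat_lit 0x100108008000400020001c000e000100000000000) := T_2 (nat_lit 80) (nat_lit 97) (nat_lit 6) (nat_lit 11) (nat_lit 8) L1190779 (by decide +kernel)
theorem L1190781 : W_2 (nat_lit 8) (nat_lit 0x9000480024001200000000000000000000000) (nat_lit 0x0) (nat_lit 0x100108008000400024001e000e000100000000000) := T_2 (nat_lit 94) (nat_lit 77) (nat_lit 6) (nat_lit 8) (nat_lit 8) L1190780 (by decide +kernel)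
theorem L1190782 : W_2 (nat_lit 9) (nat_lit 0x9000480004001200000000000000000000000) (nat_lit 0x0) (nat_lit 0xa00070003900108008000600024001f000f800100000000000) := Q_2 (nat_lit 113) (C_2 L1190232 (C_2 L1190643 (C_2 L1190768 (C_2 L1190774 (C_2 L1190781 N_2))))) (by decide +kernel)
theorem L1190783 : W_2 (nat_lit 2) (nat_lit 0x9800480024003a00000000000000000000000) (nat_lit 0x0) (nat_lit 0x100000000000050000000000000000000000000000) := D_2 (nat_lit 164) (nat_lit 114) (nat_lit 112) (nat_lit 6) (nat_lit 11) (nat_lit 9) (nat_lit 4) (nat_lit 11) (nat_lit 9) (by decide +kernel)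
theorem L1190784 : W_2 (nat_lit 3) (nat_lit 0x9800480024003200000000000000000000000) (nat_lit 0x0) (nat_lit 0x100000000000050000800040000000000000000000) := T_2 (nat_lit 95) (nat_lit 78) (nat_lit 4) (nat_lit 11) (nat_lit 8) L1190783 (by decide +kernel)
theorem L1190785 : W_2 (nat_lit 4) (nat_lit 0x9800480024001200000000000000000000000) (nat_lit 0x0) (nat_lit 0x100000000000050002800140000000000000000000) := T_2 (nat_lit 97) (nat_lit 80) (nat_lit 6) (nat_lit 11) (nat_lit 8) L1190784 (by decide +kernel)
theorem L1190786 : W_2 (nat_lit 5) (nat_lit 0x9000480024001200000000000000000000000) (nat_lit 0x0) (nat_lit 0x110000800000050002800140000000000000000000) := T_2 (nat_lit 143) (nat_lit 160) (nat_lit 5) (nat_lit 8) (nat_lit 5) L1190785 (by decide +kernel)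
theorem L1190787 : W_2 (nat_lit 6) (nat_lit 0x9000480004001200000000000000000000000) (nat_lit 0x0) (nat_lit 0x40003100108008000700028001c0008000000000000000) := Q_2 (nat_lit 113) (C_2 L1190232 (C_2 L72794 (C_2 L1190786 (C_2 L73195 N_2)))) (by decide +kernel)
theorem L1190788 : W_2 (nat_lit 10) (nat_lit 0x9000480004000200000000000000000000000) (nat_lit 0x0) (nat_lit 0xa00070003900108008000f2003c003f800fc00100000000000) := Q_2 (nat_lit 96) (C_2 L1190620 (C_2 L1190656 (C_2 L1190753 (C_2 L1190760 (C_2 L1190782 (C_2 L1190787 (C_2 L1190651 N_2))))))) (by decide +kernel)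
theorem L1190798 : W_2 (nat_lit 2) (nat_lit 0x800078002d000480074000200000000000000000000000) (nat_lit 0x0) (nat_lit 0x10001800000000000000000000000000000000) := D_2 (nat_lit 131) (nat_lit 132) (nat_lit 148) (nat_lit 4) (nat_lit 13) (nat_lit 10) (nat_lit 7) (nat_lit 12) (nat_lit 6) (by decide +kernel)
theorem L1190799 : W_2 (nat_lit 3) (nat_lit 0x800078002d000480034000200000000000000000000000) (nat_lit 0x0) (nat_lit 0x10001800040002000000000000000000000000) := T_2 (nat_lit 114) (nat_lit 97) (nat_lit 6) (nat_lit 11) (nat_lit 9) L1190798 (by decide +kernel)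
theorem L1190800 : W_2 (nat_lit 4) (nat_lit 0x800078000d000480034000200000000000000000000000) (nat_lit 0x0) (nat_lit 0x70001800040002000000000000000000000000) := T_2 (nat_lit 149) (nat_lit 150) (nat_lit 2) (nat_lit 10) (nat_lit 9) L1190799 (by decide +kernel)
theorem L1190801 : W_2 (nat_lit 5) (nat_lit 0x78000d000480034000200000000000000000000000) (nat_lit 0x0) (nat_lit 0x18000000070001800040002000000000000000000000000) := T_2 (nat_lit 183) (nat_lit 184) (nat_lit 3) (nat_lit 10) (nat_lit 9) L1190800 (by decide +kernel)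
theorem L1190802 : W_2 (nat_lit 6) (nat_lit 0x70000d000480034000200000000000000000000000) (nat_lit 0x0) (nat_lit 0x19000080070001800040002000000000000000000000000) := T_2 (nat_lit 163) (nat_lit 180) (nat_lit 5) (nat_lit 11) (nat_lit 6) L1190801 (by decide +kernel)
theorem L1190803 : W_2 (nat_lit 7) (nat_lit 0x70000d000480024000200000000000000000000000) (nat_lit 0x0) (nat_lit 0x19000080070001800050002800000000000000000000000) := T_2 (nat_lit 112) (nat_lit 95) (nat_lit 4) (nat_lit 11) (nat_lit 9) L1190802 (by decide +kernel)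
theorem L1190804 : W_2 (nat_lit 8) (nat_lit 0x30000d000480024000200000000000000000000000) (nat_lit 0x0) (nat_lit 0x19000c80070001800050002800000000000000000000000) := T_2 (nat_lit 166) (nat_lit 167) (nat_lit 0) (nat_lit 14) (nat_lit 9) L1190803 (by decide +kernel)
theorem L1190805 : W_2 (nat_lit 9) (nat_lit 0x300009000480024000200000000000000000000000) (nat_lit 0x0) (nat_lit 0x19000c80076001800050002800000000000000000000000) := T_2 (nat_lit 146) (nat_lit 145) (nat_lit 3) (nat_lit 8) (nat_lit 8) L1190804 (by decide +kernel)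
theorem L1190806 : W_2 (nat_lit 10) (nat_lit 0x100009000480024000200000000000000000000000) (nat_lit 0x0) (nat_lit 0x1d000e80076001800050002800000000000000000000000) := T_2 (nat_lit 165) (nat_lit 182) (nat_lit 7) (nat_lit 11) (nat_lit 6) L1190805 (by decide +kernel)
theorem L1190807 : W_2 (nat_lit 11) (nat_lit 0x100009000480004000200000000000000000000000) (nat_lit 0x0) (nat_lit 0x1d000e80076001800070003800140000000000000000000) := Q_2 (nat_lit 113) (C_2 L1190500 (C_2 L99692 (C_2 L1190806 (C_2 L98646 N_2)))) (by decide +kernel)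
theorem L1190808 : W_2 (nat_lit 2) (nat_lit 0x6c0013400b000580064000a00000000000000000000000) (nat_lit 0x0) (nat_lit 0x1400040000000000000000000) := D_2 (nat_lit 96) (nat_lit 78) (nat_lit 94) (nat_lit 4) (nat_lit 11) (nat_lit 8) (nat_lit 3) (nat_lit 8) (nat_lit 5) (by decide +kernel)
theorem L1190809 : W_2 (nat_lit 3) (nat_lit 0x6c0013400b000580064000200000000000000000000000) (nat_lit 0x0) (nat_lit 0x10001c00040000000000000000000) := T_2 (nat_lit 95) (nat_lit 112) (nat_lit 4) (nat_lit 11) (nat_lit 9) L1190808 (by decide +kernel)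
theorem L1190810 : W_2 (nat_lit 4) (nat_lit 0x6c0013400b000580024000200000000000000000000000) (nat_lit 0x0) (nat_lit 0x50003c00040000000000000000000) := T_2 (nat_lit 114) (nat_lit 97) (nat_lit 6) (nat_lit 11) (nat_lit 9) L1190809 (by decide +kernel)
theorem L1190811 : W_2 (nat_lit 5) (nat_lit 0x6c0013400b000580004000200000000000000000000000) (nat_lit 0x0) (nat_lit 0x200000000000070003c00040000000000000000000) := T_2 (nat_lit 113) (nat_lit 165) (nat_lit 7) (nat_lit 11) (nat_lit 6) L1190810 (by decide +kernel)
theorem L1190812 : W_2 (nat_lit 6) (nat_lit 0x2c0013400b000580004000200000000000000000000000) (nat_lit 0x0) (nat_lit 0x80004000200000000000070003c00040000000000000000000) := T_2 (nat_lit 182) (nat_lit 199) (nat_lit 7) (nat_lit 11) (nat_lit 7) L1190811 (by decide +kernel)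
theorem L1190813 : W_2 (nat_lit 7) (nat_lit 0xc0013400b000580004000200000000000000000000000) (nat_lit 0x0) (nat_lit 0x80007000200000000000070003c00040000000000000000000) := T_2 (nat_lit 181) (nat_lit 180) (nat_lit 0) (nat_lit 11) (nat_lit 10) L1190812 (by decide +kernel)
theorem L1190814 : W_2 (nat_lit 8) (nat_lit 0x40013400b000580004000200000000000000000000000) (nat_lit 0x0) (nat_lit 0x90007800200000000000070003c00040000000000000000000) := T_2 (nat_lit 179) (nat_lit 196) (nat_lit 7) (nat_lit 8) (nat_lit 7) L1190813 (by decide +kernel)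
theorem L1190815 : W_2 (nat_lit 9) (nat_lit 0x13400b000580004000200000000000000000000000) (nat_lit 0x0) (nat_lit 0x98007c00200000000000070003c00040000000000000000000) := T_2 (nat_lit 178) (nat_lit 195) (nat_lit 6) (nat_lit 8) (nat_lit 11) L1190814 (by decide +kernel)
theorem L1190816 : W_2 (nat_lit 10) (nat_lit 0x13400b000480004000200000000000000000000000) (nat_lit 0x0) (nat_lit 0x98007c00200000000100070003c00050000000000000000000) := T_2 (nat_lit 128) (nat_lit 76) (nat_lit 7) (nat_lit 8) (nat_lit 4) L1190815 (by decide +kernel)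
theorem L1190817 : W_2 (nat_lit 11) (nat_lit 0x13000b000480004000200000000000000000000000) (nat_lit 0x0) (nat_lit 0x98007c0020c000000100070003c00050000000000000000000) := T_2 (nat_lit 158) (nat_lit 159) (nat_lit 2) (nat_lit 5) (nat_lit 9) L1190816 (by decide +kernel)
theorem L1190818 : W_2 (nat_lit 12) (nat_lit 0x130009000480004000200000000000000000000000) (nat_lit 0x0) (nat_lit 0x98007c0020c006000100070003c00050000000000000000000) := T_2 (nat_lit 145) (nat_lit 146) (nat_lit 1) (nat_lit 11) (nat_lit 8) L1190817 (by decide +kernel)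
theorem L1190819 : W_2 (nat_lit 13) (nat_lit 0x110009000480004000200000000000000000000000) (nat_lit 0x0) (nat_lit 0x98007e0022c006000100070003c00050000000000000000000) := T_2 (nat_lit 161) (nat_lit 177) (nat_lit 5) (nat_lit 8) (nat_lit 6) L1190818 (by decide +kernel)
theorem L1190820 : W_2 (nat_lit 14) (nat_lit 0x100009000480004000200000000000000000000000) (nat_lit 0x0) (nat_lit 0x98007e0023c006800100070003c00050000000000000000000) := T_2 (nat_lit 160) (nat_lit 143) (nat_lit 5) (nat_lit 8) (nat_lit 5) L1190819 (by decide +kernel)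
theorem L1190821 : W_2 (nat_lit 2) (nat_lit 0x4000c0002c0013401b000580004000200000000000000000000000) (nat_lit 0x0) (nat_lit 0x8000800000000000200000000000000000000000000000000000000000) := D_2 (nat_lit 215) (nat_lit 165) (nat_lit 231) (nat_lit 6) (nat_lit 11) (nat_lit 12) (nat_lit 5) (nat_lit 11) (nat_lit 9) (by decide +kernel)
theorem L1190822 : W_2 (nat_lit 3) (nat_lit 0xc0002c0013401b000580004000200000000000000000000000) (nat_lit 0x0) (nat_lit 0x8000c00020000000200000000000000000000000000000000000000000) := T_2 (nat_lit 214) (nat_lit 197) (nat_lit 5) (nat_lit 11) (nat_lit 8) L1190821 (by decide +kernel)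
theorem L1190823 : W_2 (nat_lit 4) (nat_lit 0xc0002c0013400b000580004000200000000000000000000000) (nat_lit 0x0) (nat_lit 0x8000c00020000000200010000800000000000000000000000000000000) := T_2 (nat_lit 148) (nat_lit 131) (nat_lit 6) (nat_lit 11) (nat_lit 11) L1190822 (by decide +kernel)
theorem L1190824 : W_2 (nat_lit 5) (nat_lit 0x80002c0013400b000580004000200000000000000000000000) (nat_lit 0x0) (nat_lit 0x8001c00060000000200010000800000000000000000000000000000000) := T_2 (nat_lit 198) (nat_lit 216) (nat_lit 7) (nat_lit 11) (nat_lit 8) L1190823 (by decide +kernel)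
theorem L1190825 : W_2 (nat_lit 6) (nat_lit 0x2c0013400b000580004000200000000000000000000000) (nat_lit 0x0) (nat_lit 0x8001c000e0004000200010000800000000000000000000000000000000) := T_2 (nat_lit 199) (nat_lit 182) (nat_lit 7) (nat_lit 11) (nat_lit 7) L1190824 (by decide +kernel)
theorem L1190826 : W_2 (nat_lit 7) (nat_lit 0xc0013400b000580004000200000000000000000000000) (nat_lit 0x0) (nat_lit 0x8001c000e0007000200010000800000000000000000000000000000000) := T_2 (nat_lit 181) (nat_lit 180) (nat_lit 0) (nat_lit 11) (nat_lit 10) L1190825 (by decide +kernel)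
theorem L1190827 : W_2 (nat_lit 8) (nat_lit 0x40013400b000580004000200000000000000000000000) (nat_lit 0x0) (nat_lit 0x8001c000f0007800200010000800000000000000000000000000000000) := T_2 (nat_lit 179) (nat_lit 196) (nat_lit 7) (nat_lit 8) (nat_lit 7) L1190826 (by decide +kernel)
theorem L1190828 : W_2 (nat_lit 9) (nat_lit 0x13400b000580004000200000000000000000000000) (nat_lit 0x0) (nat_lit 0x8001c000f8007c00200010000800000000000000000000000000000000) := T_2 (nat_lit 178) (nat_lit 195) (nat_lit 6) (nat_lit 8) (nat_lit 11) L1190827 (by decide +kernel)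
theorem L1190829 : W_2 (nat_lit 10) (nat_lit 0x13000b000580004000200000000000000000000000) (nat_lit 0x0) (nat_lit 0x8001c000f8007c0020c010000800000000000000000000000000000000) := T_2 (nat_lit 158) (nat_lit 159) (nat_lit 2) (nat_lit 5) (nat_lit 9) L1190828 (by decide +kernel)
theorem L1190830 : W_2 (nat_lit 11) (nat_lit 0x13000b000480004000200000000000000000000000) (nat_lit 0x0) (nat_lit 0x8001c000f8007c0020c010000900000000000010000000000000000000) := T_2 (nat_lit 128) (nat_lit 76) (nat_lit 7) (nat_lit 8) (nat_lit 4) L1190829 (by decide +kernel)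
theorem L1190831 : W_2 (nat_lit 12) (nat_lit 0x130009000480004000200000000000000000000000) (nat_lit 0x0) (nat_lit 0x8001c000f8007c0020c016000900000000000010000000000000000000) := T_2 (nat_lit 145) (nat_lit 146) (nat_lit 1) (nat_lit 11) (nat_lit 8) L1190830 (by decide +kernel)
theorem L1190832 : W_2 (nat_lit 13) (nat_lit 0x110009000480004000200000000000000000000000) (nat_lit 0x0) (nat_lit 0x8001c000f8007e0022c016000900000000000010000000000000000000) := T_2 (nat_lit 161) (nat_lit 177) (nat_lit 5) (nat_lit 8) (nat_lit 6) L1190831 (by decide +kernel)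
theorem L1190833 : W_2 (nat_lit 14) (nat_lit 0x100009000480004000200000000000000000000000) (nat_lit 0x0) (nat_lit 0x8001c000f8007e0023c016800900000000000010000000000000000000) := T_2 (nat_lit 160) (nat_lit 143) (nat_lit 5) (nat_lit 8) (nat_lit 5) L1190832 (by decide +kernel)
theorem L1190834 : W_2 (nat_lit 4) (nat_lit 0x6c0013400b000580044000200000000000000000000000) (nat_lit 0x0) (nat_lit 0x30003c00040000000000000000000) := T_2 (nat_lit 113) (nat_lit 97) (nat_lit 6) (nat_lit 11) (nat_lit 9) L1190809 (by decide +kernel)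
theorem L1190835 : W_2 (nat_lit 5) (nat_lit 0x6c0013400b000580004000200000000000000000000000) (nat_lit 0x0) (nat_lit 0x800070003c00040000000000000000000) := T_2 (nat_lit 114) (nat_lit 131) (nat_lit 6) (nat_lit 11) (nat_lit 10) L1190834 (by decide +kernel)
theorem L1190836 : W_2 (nat_lit 6) (nat_lit 0x2c0013400b000580004000200000000000000000000000) (nat_lit 0x0) (nat_lit 0x80004000000000000800070003c00040000000000000000000) := T_2 (nat_lit 182) (nat_lit 199) (nat_lit 7) (nat_lit 11) (nat_lit 7) L1190835 (by decide +kernel)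
theorem L1190837 : W_2 (nat_lit 7) (nat_lit 0xc0013400b000580004000200000000000000000000000) (nat_lit 0x0) (nat_lit 0x80007000000000000800070003c00040000000000000000000) := T_2 (nat_lit 181) (nat_lit 180) (nat_lit 0) (nat_lit 11) (nat_lit 10) L1190836 (by decide +kernel)
theorem L1190838 : W_2 (nat_lit 8) (nat_lit 0x40013400b000580004000200000000000000000000000) (nat_lit 0x0) (nat_lit 0x90007800000000000800070003c00040000000000000000000) := T_2 (nat_lit 179) (nat_lit 196) (nat_lit 7) (nat_lit 8) (nat_lit 7) L1190837 (by decide +kernel)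
theorem L1190839 : W_2 (nat_lit 9) (nat_lit 0x13400b000580004000200000000000000000000000) (nat_lit 0x0) (nat_lit 0x98007c00000000000800070003c00040000000000000000000) := T_2 (nat_lit 178) (nat_lit 195) (nat_lit 6) (nat_lit 8) (nat_lit 11) L1190838 (by decide +kernel)
theorem L1190840 : W_2 (nat_lit 10) (nat_lit 0x13000b000580004000200000000000000000000000) (nat_lit 0x0) (nat_lit 0x98007c0000c000000800070003c00040000000000000000000) := T_2 (nat_lit 158) (nat_lit 159) (nat_lit 2) (nat_lit 5) (nat_lit 9) L1190839 (by decide +kernel)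
theorem L1190841 : W_2 (nat_lit 11) (nat_lit 0x13000b000480004000200000000000000000000000) (nat_lit 0x0) (nat_lit 0x98007c0000c000000900070003c00050000000000000000000) := T_2 (nat_lit 128) (nat_lit 76) (nat_lit 7) (nat_lit 8) (nat_lit 4) L1190840 (by decide +kernel)
theorem L1190842 : W_2 (nat_lit 12) (nat_lit 0x130009000480004000200000000000000000000000) (nat_lit 0x0) (nat_lit 0x98007c0000c006000900070003c00050000000000000000000) := T_2 (nat_lit 145) (nat_lit 146) (nat_lit 1) (nat_lit 11) (nat_lit 8) L1190841 (by decide +kernel)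
theorem L1190843 : W_2 (nat_lit 13) (nat_lit 0x110009000480004000200000000000000000000000) (nat_lit 0x0) (nat_lit 0x98007e0002c006000900070003c00050000000000000000000) := T_2 (nat_lit 161) (nat_lit 177) (nat_lit 5) (nat_lit 8) (nat_lit 6) L1190842 (by decide +kernel)
theorem L1190844 : W_2 (nat_lit 14) (nat_lit 0x100009000480004000200000000000000000000000) (nat_lit 0x0) (nat_lit 0x98007e0003c006800900070003c00050000000000000000000) := T_2 (nat_lit 160) (nat_lit 143) (nat_lit 5) (nat_lit 8) (nat_lit 5) L1190843 (by decide +kernel)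
theorem L1190845 : W_2 (nat_lit 4) (nat_lit 0x100009000480024000200000000000000000000000) (nat_lit 0x0) (nat_lit 0x4000200010000000040003000100000000000000000000) := T_2 (nat_lit 165) (nat_lit 182) (nat_lit 7) (nat_lit 11) (nat_lit 6) L99685 (by decide +kernel)
theorem L1190846 : W_2 (nat_lit 2) (nat_lit 0x2000100009000480074000200000000000000000000000) (nat_lit 0x0) (nat_lit 0x80004000200000000000000000000000000000000000000000) := D_2 (nat_lit 182) (nat_lit 165) (nat_lit 199) (nat_lit 7) (nat_lit 11) (nat_lit 6) (nat_lit 7) (nat_lit 11) (nat_lit 7) (by decide +kernel)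
theorem L1190847 : W_2 (nat_lit 3) (nat_lit 0x100009000480074000200000000000000000000000) (nat_lit 0x0) (nat_lit 0x80006000200000000800000000000000000000000000000000) := T_2 (nat_lit 181) (nat_lit 131) (nat_lit 6) (nat_lit 11) (nat_lit 10) L1190846 (by decide +kernel)
theorem L1190848 : W_2 (nat_lit 4) (nat_lit 0x100009000480064000200000000000000000000000) (nat_lit 0x0) (nat_lit 0x80006000200000000800010000800000000000000000000000) := T_2 (nat_lit 112) (nat_lit 95) (nat_lit 4) (nat_lit 11) (nat_lit 9) L1190847 (by decide +kernel)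
theorem L1190849 : W_2 (nat_lit 5) (nat_lit 0x100009000480024000200000000000000000000000) (nat_lit 0x0) (nat_lit 0x80006000200000000800050002800000000000000000000000) := T_2 (nat_lit 114) (nat_lit 97) (nat_lit 6) (nat_lit 11) (nat_lit 9) L1190848 (by decide +kernel)
theorem L1190850 : W_2 (nat_lit 2) (nat_lit 0x10000d802c80074001200000000000000000000000) (nat_lit 0x0) (nat_lit 0x10000000000000000080004000000000000000) := D_2 (nat_lit 79) (nat_lit 62) (nat_lit 148) (nat_lit 7) (nat_lit 11) (nat_lit 3) (nat_lit 7) (nat_lit 11) (nat_lit 4) (by decide +kernel)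
theorem L1190851 : W_2 (nat_lit 3) (nat_lit 0x10000d802c80074000200000000000000000000000) (nat_lit 0x0) (nat_lit 0x80010000000000001000080004000000000000000) := T_2 (nat_lit 96) (nat_lit 163) (nat_lit 5) (nat_lit 11) (nat_lit 5) L1190850 (by decide +kernel)
theorem L1190852 : W_2 (nat_lit 4) (nat_lit 0x10000d800c80074000200000000000000000000000) (nat_lit 0x0) (nat_lit 0x80010003000000001000080004000000000000000) := T_2 (nat_lit 133) (nat_lit 132) (nat_lit 1) (nat_lit 14) (nat_lit 7) L1190851 (by decide +kernel)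
theorem L1190853 : W_2 (nat_lit 5) (nat_lit 0x100009800c80074000200000000000000000000000) (nat_lit 0x0) (nat_lit 0x80016003000000001000080004000000000000000) := T_2 (nat_lit 146) (nat_lit 145) (nat_lit 2) (nat_lit 8) (nat_lit 8) L1190852 (by decide +kernel)
theorem L1190854 : W_2 (nat_lit 6) (nat_lit 0x100009800480074000200000000000000000000000) (nat_lit 0x0) (nat_lit 0x2000080016003800000001000080004000000000000000) := T_2 (nat_lit 131) (nat_lit 181) (nat_lit 6) (nat_lit 11) (nat_lit 10) L1190853 (by decide +kernel)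
theorem L1190855 : W_2 (nat_lit 7) (nat_lit 0x100009000480074000200000000000000000000000) (nat_lit 0x0) (nat_lit 0x2000090016803800000001000080004000000000000000) := T_2 (nat_lit 143) (nat_lit 160) (nat_lit 5) (nat_lit 8) (nat_lit 5) L1190854 (by decide +kernel)
theorem L1190856 : W_2 (nat_lit 8) (nat_lit 0x100009000480034000200000000000000000000000) (nat_lit 0x0) (nat_lit 0x2000090016803800040003000080004000000000000000) := T_2 (nat_lit 114) (nat_lit 97) (nat_lit 6) (nat_lit 11) (nat_lit 9) L1190855 (by decide +kernel)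
theorem L1190857 : W_2 (nat_lit 9) (nat_lit 0x100009000480024000200000000000000000000000) (nat_lit 0x0) (nat_lit 0x2000090016803800050003800080004000000000000000) := T_2 (nat_lit 112) (nat_lit 95) (nat_lit 4) (nat_lit 11) (nat_lit 9) L1190856 (by decide +kernel)
theorem L1190858 : W_2 (nat_lit 10) (nat_lit 0x100009000480004000200000000000000000000000) (nat_lit 0x0) (nat_lit 0x800060002900168038000700038001c0004000000000000000) := Q_2 (nat_lit 113) (C_2 L99692 (C_2 L1190845 (C_2 L1190849 (C_2 L1190857 N_2)))) (by decide +kernel)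
theorem L1190859 : W_2 (nat_lit 2) (nat_lit 0x1400040002c0013400b000d80004000200000000000000000000000) (nat_lit 0x0) (nat_lit 0x28000800000000000000000000000000000000000000000000000000000) := D_2 (nat_lit 215) (nat_lit 231) (nat_lit 233) (nat_lit 5) (nat_lit 11) (nat_lit 9) (nat_lit 7) (nat_lit 11) (nat_lit 9) (by decide +kernel)
theorem L1190860 : W_2 (nat_lit 3) (nat_lit 0x400040002c0013400b000d80004000200000000000000000000000) (nat_lit 0x0) (nat_lit 0x28001800080000000000000000000000000000000000000000000000000) := T_2 (nat_lit 216) (nat_lit 199) (nat_lit 7) (nat_lit 11) (nat_lit 8) L1190859 (by decide +kernel)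
theorem L1190861 : W_2 (nat_lit 4) (nat_lit 0x40002c0013400b000d80004000200000000000000000000000) (nat_lit 0x0) (nat_lit 0x28001c000a0000000000000000000000000000000000000000000000000) := T_2 (nat_lit 214) (nat_lit 197) (nat_lit 5) (nat_lit 11) (nat_lit 8) L1190860 (by decide +kernel)
theorem L1190862 : W_2 (nat_lit 5) (nat_lit 0x2c0013400b000d80004000200000000000000000000000) (nat_lit 0x0) (nat_lit 0x28001c000e0000000000010000000000000000000000000000000000000) := T_2 (nat_lit 198) (nat_lit 148) (nat_lit 6) (nat_lit 11) (nat_lit 11) L1190861 (by decide +kernel)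
theorem L1190863 : W_2 (nat_lit 6) (nat_lit 0x2c0013400b000580004000200000000000000000000000) (nat_lit 0x0) (nat_lit 0x28001c000e0000000000010000800040000000000000000000000000000) := T_2 (nat_lit 131) (nat_lit 114) (nat_lit 6) (nat_lit 11) (nat_lit 10) L1190862 (by decide +kernel)
theorem L1190864 : W_2 (nat_lit 7) (nat_lit 0xc0013400b000580004000200000000000000000000000) (nat_lit 0x0) (nat_lit 0x28001c000e0003000000010000800040000000000000000000000000000) := T_2 (nat_lit 181) (nat_lit 180) (nat_lit 0) (nat_lit 11) (nat_lit 10) L1190863 (by decide +kernel)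
theorem L1190865 : W_2 (nat_lit 8) (nat_lit 0x40013400b000580004000200000000000000000000000) (nat_lit 0x0) (nat_lit 0x28001c000f0003800000010000800040000000000000000000000000000) := T_2 (nat_lit 179) (nat_lit 196) (nat_lit 7) (nat_lit 8) (nat_lit 7) L1190864 (by decide +kernel)
theorem L1190866 : W_2 (nat_lit 9) (nat_lit 0x13400b000580004000200000000000000000000000) (nat_lit 0x0) (nat_lit 0x28001c000f8003c00000010000800040000000000000000000000000000) := T_2 (nat_lit 178) (nat_lit 195) (nat_lit 6) (nat_lit 8) (nat_lit 11) L1190865 (by decide +kernel)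
theorem L1190867 : W_2 (nat_lit 10) (nat_lit 0x13000b000580004000200000000000000000000000) (nat_lit 0x0) (nat_lit 0x28001c000f8003c0000c010000800040000000000000000000000000000) := T_2 (nat_lit 158) (nat_lit 159) (nat_lit 2) (nat_lit 5) (nat_lit 9) L1190866 (by decide +kernel)
theorem L1190868 : W_2 (nat_lit 11) (nat_lit 0x13000b000480004000200000000000000000000000) (nat_lit 0x0) (nat_lit 0x28001c000f8003c0000c010000900040000000010000000000000000000) := T_2 (nat_lit 128) (nat_lit 76) (nat_lit 7) (nat_lit 8) (nat_lit 4) L1190867 (by decide +kernel)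
theorem L1190869 : W_2 (nat_lit 12) (nat_lit 0x130009000480004000200000000000000000000000) (nat_lit 0x0) (nat_lit 0x28001c000f8003c0000c016000900040000000010000000000000000000) := T_2 (nat_lit 145) (nat_lit 146) (nat_lit 1) (nat_lit 11) (nat_lit 8) L1190868 (by decide +kernel)
theorem L1190870 : W_2 (nat_lit 13) (nat_lit 0x110009000480004000200000000000000000000000) (nat_lit 0x0) (nat_lit 0x28001c000f8003e0002c016000900040000000010000000000000000000) := T_2 (nat_lit 161) (nat_lit 177) (nat_lit 5) (nat_lit 8) (nat_lit 6) L1190869 (by decide +kernel)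
theorem L1190871 : W_2 (nat_lit 14) (nat_lit 0x100009000480004000200000000000000000000000) (nat_lit 0x0) (nat_lit 0x28001c000f8003e0003c016800900040000000010000000000000000000) := T_2 (nat_lit 160) (nat_lit 143) (nat_lit 5) (nat_lit 8) (nat_lit 5) L1190870 (by decide +kernel)
theorem L1190872 : W_2 (nat_lit 15) (nat_lit 0x9000480004000200000000000000000000000) (nat_lit 0x0) (nat_lit 0x28001c007f801fe00fbc076803900070003c001d0004000000000000000) := Q_2 (nat_lit 164) (C_2 L1190713 (C_2 L1190442 (C_2 L1190438 (C_2 L1190807 (C_2 L1190820 (C_2 L1190833 (C_2 L1190844 (C_2 L1190858 (C_2 L1190871 N_2))))))))) (by decide +kernel)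
theorem L1190873 : W_2 (nat_lit 4) (nat_lit 0x3000b000480004000200010000000000000000000) (nat_lit 0x0) (nat_lit 0x28001c000a0000000000) := T_2 (nat_lit 60) (nat_lit 77) (nat_lit 6) (nat_lit 8) (nat_lit 7) L36475 (by decide +kernel)
theorem L1190874 : W_2 (nat_lit 5) (nat_lit 0x3000b000480004000200000000000000000000000) (nat_lit 0x0) (nat_lit 0x100000000000038001c000a0000000000) := T_2 (nat_lit 76) (nat_lit 128) (nat_lit 7) (nat_lit 8) (nat_lit 4) L1190873 (by decide +kernel)
theorem L1190875 : W_2 (nat_lit 6) (nat_lit 0x30009000480004000200000000000000000000000) (nat_lit 0x0) (nat_lit 0x6000100000000000038001c000a0000000000) := T_2 (nat_lit 145) (nat_lit 146) (nat_lit 1) (nat_lit 11) (nat_lit 8) L1190874 (by decide +kernel)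
theorem L1190876 : W_2 (nat_lit 7) (nat_lit 0x10009000480004000200000000000000000000000) (nat_lit 0x0) (nat_lit 0x200020006000100000000000038001c000a0000000000) := T_2 (nat_lit 161) (nat_lit 177) (nat_lit 5) (nat_lit 8) (nat_lit 6) L1190875 (by decide +kernel)
theorem L1190877 : W_2 (nat_lit 8) (nat_lit 0x9000480004000200000000000000000000000) (nat_lit 0x0) (nat_lit 0x200030006800100000000000038001c000a0000000000) := T_2 (nat_lit 160) (nat_lit 143) (nat_lit 5) (nat_lit 8) (nat_lit 5) L1190876 (by decide +kernel)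
theorem L1190878 : W_2 (nat_lit 16) (nat_lit 0x1000480004000200000000000000000000000) (nat_lit 0x0) (nat_lit 0x28001c007f801fe00fbc07e8079003f2007c003f800fc007a0000000000) := Q_2 (nat_lit 147) (C_2 L1190375 (C_2 L1190482 (C_2 L1190657 (C_2 L1190662 (C_2 L1190788 (C_2 L1190872 (C_2 L1190877 N_2))))))) (by decide +kernel)
theorem L1190879 : W_2 (nat_lit 6) (nat_lit 0x1000480004000200038000000000000000000) (nat_lit 0x0) (nat_lit 0x3a000b000e2000000000000000000000000000) := T_2 (nat_lit 128) (nat_lit 145) (nat_lit 7) (nat_lit 8) (nat_lit 4) L78403 (by decide +kernel)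
theorem L1190880 : W_2 (nat_lit 7) (nat_lit 0x1000480004000200030000000000000000000) (nat_lit 0x0) (nat_lit 0x3a000b000e2000000008000400000000000000) := T_2 (nat_lit 75) (nat_lit 58) (nat_lit 4) (nat_lit 8) (nat_lit 7) L1190879 (by decide +kernel)
theorem L1190881 : W_2 (nat_lit 8) (nat_lit 0x1000480004000200020000000000000000000) (nat_lit 0x0) (nat_lit 0x3a000b000e2000000018001400000000000000) := T_2 (nat_lit 76) (nat_lit 60) (nat_lit 6) (nat_lit 8) (nat_lit 7) L1190880 (by decide +kernel)
theorem L1190882 : W_2 (nat_lit 9) (nat_lit 0x1000480004000200000000000000000000000) (nat_lit 0x0) (nat_lit 0x3a000b000e2000400038001400000000000000) := T_2 (nat_lit 77) (nat_lit 94) (nat_lit 6) (nat_lit 8) (nat_lit 8) L1190881 (by decide +kernel)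
theorem L1190885 : W_2 (nat_lit 6) (nat_lit 0x100009000480004000200000000000000000000000) (nat_lit 0x0) (nat_lit 0x20007000280014000200070003800100000000000000000000) := Q_2 (nat_lit 113) (C_2 L1190845 (C_2 L98819 (C_2 L98646 N_2))) (by decide +kernel)
theorem L1190886 : W_2 (nat_lit 2) (nat_lit 0x3000100009000480024000200000000000000000000000) (nat_lit 0x0) (nat_lit 0x200010000800000000000000000000000) := D_2 (nat_lit 112) (nat_lit 95) (nat_lit 129) (nat_lit 4) (nat_lit 11) (nat_lit 9) (nat_lit 4) (nat_lit 11) (nat_lit 10) (by decide +kernel)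
theorem L1190887 : W_2 (nat_lit 3) (nat_lit 0x3000100009000480004000200000000000000000000000) (nat_lit 0x0) (nat_lit 0x80000000200030000800000000000000000000000) := T_2 (nat_lit 113) (nat_lit 163) (nat_lit 5) (nat_lit 11) (nat_lit 6) L1190886 (by decide +kernel)
theorem L1190888 : W_2 (nat_lit 4) (nat_lit 0x2000100009000480004000200000000000000000000000) (nat_lit 0x0) (nat_lit 0x20001000080000000200030000800000000000000000000000) := T_2 (nat_lit 180) (nat_lit 197) (nat_lit 5) (nat_lit 11) (nat_lit 7) L1190887 (by decide +kernel)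
theorem L1190889 : W_2 (nat_lit 14) (nat_lit 0x100009000480004000200000000000000000000000) (nat_lit 0x0) (nat_lit 0x14007e001fe00eb0006803a00070002800000000000000000000000) := Q_2 (nat_lit 181) (C_2 L99713 (C_2 L1190437 (C_2 L98610 (C_2 L1190888 N_2)))) (by decide +kernel)
theorem L1190891 : W_2 (nat_lit 2) (nat_lit 0x2000100009800680004000200000000000000000000000) (nat_lit 0x0) (nat_lit 0x40000000000006000000000000000000000000000000000000) := D_2 (nat_lit 146) (nat_lit 145) (nat_lit 198) (nat_lit 2) (nat_lit 7) (nat_lit 8) (nat_lit 4) (nat_lit 11) (nat_lit 11) (by decide +kernel)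
theorem L1190892 : W_2 (nat_lit 3) (nat_lit 0x2000100009800480004000200000000000000000000000) (nat_lit 0x0) (nat_lit 0x40000000000006000200010000000000000000000000000000) := T_2 (nat_lit 129) (nat_lit 112) (nat_lit 4) (nat_lit 11) (nat_lit 10) L1190891 (by decide +kernel)
theorem L1190893 : W_2 (nat_lit 4) (nat_lit 0x2000100009000480004000200000000000000000000000) (nat_lit 0x0) (nat_lit 0x40000000010006800200010000000000000000000000000000) := T_2 (nat_lit 143) (nat_lit 160) (nat_lit 5) (nat_lit 8) (nat_lit 5) L1190892 (by decide +kernel)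
theorem L1190894 : W_2 (nat_lit 5) (nat_lit 0x100009000480004000200000000000000000000000) (nat_lit 0x0) (nat_lit 0x14000e0007000090006800200030000800000000000000000000000) := Q_2 (nat_lit 181) (C_2 L1190888 (C_2 L99713 (C_2 L1190893 N_2))) (by decide +kernel)
theorem L1190895 : W_2 (nat_lit 2) (nat_lit 0x2000100009800480064000200000000000000000000000) (nat_lit 0x0) (nat_lit 0x20001000080000000000000000000000000000000000000000) := D_2 (nat_lit 180) (nat_lit 197) (nat_lit 163) (nat_lit 5) (nat_lit 11) (nat_lit 7) (nat_lit 5) (nat_lit 11) (nat_lit 6) (by decide +kernel)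
theorem L1190896 : W_2 (nat_lit 3) (nat_lit 0x100009800480064000200000000000000000000000) (nat_lit 0x0) (nat_lit 0x20003000080000000800000000000000000000000000000000) := T_2 (nat_lit 181) (nat_lit 131) (nat_lit 6) (nat_lit 11) (nat_lit 10) L1190895 (by decide +kernel)
theorem L1190897 : W_2 (nat_lit 4) (nat_lit 0x100009000480064000200000000000000000000000) (nat_lit 0x0) (nat_lit 0x20003000090000800800000000000000000000000000000000) := T_2 (nat_lit 143) (nat_lit 160) (nat_lit 5) (nat_lit 8) (nat_lit 5) L1190896 (by decide +kernel)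
theorem L1190898 : W_2 (nat_lit 5) (nat_lit 0x100009000480024000200000000000000000000000) (nat_lit 0x0) (nat_lit 0x20003000090000800800040002000000000000000000000000) := T_2 (nat_lit 114) (nat_lit 97) (nat_lit 6) (nat_lit 11) (nat_lit 9) L1190897 (by decide +kernel)
theorem L1190899 : W_2 (nat_lit 2) (nat_lit 0x100009800480074000200000000000000000000000) (nat_lit 0x0) (nat_lit 0x2000000000000a00000000000000000000000000000000) := D_2 (nat_lit 181) (nat_lit 131) (nat_lit 129) (nat_lit 6) (nat_lit 11) (nat_lit 10) (nat_lit 4) (nat_lit 11) (nat_lit 10) (by decide +kernel)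
theorem L1190900 : W_2 (nat_lit 3) (nat_lit 0x100009800480064000200000000000000000000000) (nat_lit 0x0) (nat_lit 0x2000000000000a00010000800000000000000000000000) := T_2 (nat_lit 112) (nat_lit 95) (nat_lit 4) (nat_lit 11) (nat_lit 9) L1190899 (by decide +kernel)
theorem L1190901 : W_2 (nat_lit 4) (nat_lit 0x100009800480024000200000000000000000000000) (nat_lit 0x0) (nat_lit 0x2000000000000a00050002800000000000000000000000) := T_2 (nat_lit 114) (nat_lit 97) (nat_lit 6) (nat_lit 11) (nat_lit 9) L1190900 (by decide +kernel)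
theorem L1190902 : W_2 (nat_lit 5) (nat_lit 0x100009000480024000200000000000000000000000) (nat_lit 0x0) (nat_lit 0x2000010000800a00050002800000000000000000000000) := T_2 (nat_lit 143) (nat_lit 160) (nat_lit 5) (nat_lit 8) (nat_lit 5) L1190901 (by decide +kernel)
theorem L1190903 : W_2 (nat_lit 2) (nat_lit 0x180009000480024001200000000000000000000000) (nat_lit 0x0) (nat_lit 0x10000800040000000000000000000) := D_2 (nat_lit 95) (nat_lit 78) (nat_lit 112) (nat_lit 4) (nat_lit 11) (nat_lit 8) (nat_lit 4) (nat_lit 11) (nat_lit 9) (by decide +kernel)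
theorem L1190904 : W_2 (nat_lit 3) (nat_lit 0x180009000480024000200000000000000000000000) (nat_lit 0x0) (nat_lit 0x4000000010001800040000000000000000000) := T_2 (nat_lit 96) (nat_lit 146) (nat_lit 5) (nat_lit 11) (nat_lit 5) L1190903 (by decide +kernel)
theorem L1190905 : W_2 (nat_lit 4) (nat_lit 0x100009000480024000200000000000000000000000) (nat_lit 0x0) (nat_lit 0x1000080004000000010001800040000000000000000000) := T_2 (nat_lit 163) (nat_lit 180) (nat_lit 5) (nat_lit 11) (nat_lit 6) L1190904 (by decide +kernel)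
theorem L1190906 : W_2 (nat_lit 10) (nat_lit 0x100009000480004000200000000000000000000000) (nat_lit 0x0) (nat_lit 0x20003000090016803a000700038001c0004000000000000000) := Q_2 (nat_lit 113) (C_2 L1190692 (C_2 L98646 (C_2 L1190857 (C_2 L1190898 (C_2 L1190902 (C_2 L1190905 N_2)))))) (by decide +kernel)
theorem L1190907 : W_2 (nat_lit 15) (nat_lit 0x9000480004000200000000000000000000000) (nat_lit 0x0) (nat_lit 0x14007e001fe00fb0076803a000700038001c0004000000000000000) := Q_2 (nat_lit 164) (C_2 L1190713 (C_2 L1190858 (C_2 L1190807 (C_2 L1190442 (C_2 L1190438 (C_2 L1190885 (C_2 L1190889 (C_2 L1190894 (C_2 L1190906 N_2))))))))) (by decide +kernel)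
theorem L1190910 : W_2 (nat_lit 12) (nat_lit 0x9000480024000200000000000000000000000) (nat_lit 0x0) (nat_lit 0x4000f90074803b000c2003c001c0008000000000000000) := Q_2 (nat_lit 96) (C_2 L1190232 (C_2 L1190365 (C_2 L72820 (C_2 L72791 N_2)))) (by decide +kernel)
theorem L1190911 : W_2 (nat_lit 6) (nat_lit 0x9000480024000200000000000000000000000) (nat_lit 0x0) (nat_lit 0x20007000390014800800040003000100000000000000000000) := Q_2 (nat_lit 164) (C_2 L1190898 (C_2 L1190845 (C_2 L1190500 N_2))) (by decide +kernel)
theorem L1190912 : W_2 (nat_lit 12) (nat_lit 0x9000480024000200000000000000000000000) (nat_lit 0x0) (nat_lit 0xe90074803b000c2003c001c0008000000000000000) := Q_2 (nat_lit 96) (C_2 L72820 (C_2 L1190365 (C_2 L72794 (C_2 L72791 N_2)))) (by decide +kernel)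
theorem L1190913 : W_2 (nat_lit 10) (nat_lit 0x100009000480024000200000000000000000000000) (nat_lit 0x0) (nat_lit 0x5000280030003b001d000e800000000000000000000000) := T_2 (nat_lit 165) (nat_lit 182) (nat_lit 7) (nat_lit 11) (nat_lit 6) L98870 (by decide +kernel)
theorem L1190914 : W_2 (nat_lit 11) (nat_lit 0x9000480024000200000000000000000000000) (nat_lit 0x0) (nat_lit 0xa0007000390030803b001d000e800000000000000000000000) := Q_2 (nat_lit 164) (C_2 L1190902 (C_2 L1190849 (C_2 L1190898 (C_2 L1190913 (C_2 L98819 N_2))))) (by decide +kernel)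
theorem L1190915 : W_2 (nat_lit 6) (nat_lit 0x9000480024000200000000000000000000000) (nat_lit 0x0) (nat_lit 0x40003900148002000500038001c0008000000000000000) := Q_2 (nat_lit 96) (C_2 L1190786 (C_2 L1190232 (C_2 L72820 (C_2 L73195 N_2)))) (by decide +kernel)
theorem L1190916 : W_2 (nat_lit 6) (nat_lit 0x9000480024000200000000000000000000000) (nat_lit 0x0) (nat_lit 0x20003000190004800a00050003800040000000000000000000) := Q_2 (nat_lit 164) (C_2 L1190905 (C_2 L1190902 (C_2 L1190898 N_2))) (by decide +kernel)
theorem L1190917 : W_2 (nat_lit 2) (nat_lit 0x9800680024001200000000000000000000000) (nat_lit 0x0) (nat_lit 0x80004000000000000000080000000000000000000) := D_2 (nat_lit 146) (nat_lit 79) (nat_lit 163) (nat_lit 5) (nat_lit 11) (nat_lit 4) (nat_lit 5) (nat_lit 11) (nat_lit 5) (by decide +kernel)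
theorem L1190918 : W_2 (nat_lit 3) (nat_lit 0x9800480024001200000000000000000000000) (nat_lit 0x0) (nat_lit 0x80004000300000000000080000000000000000000) := T_2 (nat_lit 129) (nat_lit 128) (nat_lit 1) (nat_lit 11) (nat_lit 7) L1190917 (by decide +kernel)
theorem L1190919 : W_2 (nat_lit 4) (nat_lit 0x9000480024001200000000000000000000000) (nat_lit 0x0) (nat_lit 0x90004800300000000000080000000000000000000) := T_2 (nat_lit 143) (nat_lit 160) (nat_lit 5) (nat_lit 8) (nat_lit 5) L1190918 (by decide +kernel)
theorem L1190920 : W_2 (nat_lit 5) (nat_lit 0x9000480024000200000000000000000000000) (nat_lit 0x0) (nat_lit 0x4000390014800300052001c000c0000000000000000000) := Q_2 (nat_lit 96) (C_2 L73195 (C_2 L72791 (C_2 L1190919 N_2))) (by decide +kernel)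
theorem L1190921 : W_2 (nat_lit 5) (nat_lit 0x9000480024000200000000000000000000000) (nat_lit 0x0) (nat_lit 0x40003900148003000100018000c0000000000000000000) := Q_2 (nat_lit 96) (C_2 L73195 (C_2 L1190919 N_2)) (by decide +kernel)
theorem L1190922 : W_2 (nat_lit 13) (nat_lit 0x9000480004000200000000000000000000000) (nat_lit 0x0) (nat_lit 0xa0007000f90074803b001f200fc001c000c000000000000000) := Q_2 (nat_lit 113) (C_2 L1190693 (C_2 L98520 (C_2 L1190910 (C_2 L1190911 (C_2 L1190912 (C_2 L1190914 (C_2 L1190915 (C_2 L1190916 (C_2 L1190920 (C_2 L1190921 N_2)))))))))) (by decide +kernel)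
theorem L1190923 : W_2 (nat_lit 3) (nat_lit 0x9000580004000200000000000000000000000) (nat_lit 0x0) (nat_lit 0x16000800000000000010000000000000000000) := T_2 (nat_lit 145) (nat_lit 76) (nat_lit 7) (nat_lit 8) (nat_lit 4) L98393 (by decide +kernel)
theorem L1190924 : W_2 (nat_lit 2) (nat_lit 0x9000580004000200000000000000000000000) (nat_lit 0x0) (nat_lit 0x800200002000000000000000000000000000) := D_2 (nat_lit 129) (nat_lit 109) (nat_lit 143) (nat_lit 0) (nat_lit 11) (nat_lit 7) (nat_lit 1) (nat_lit 11) (nat_lit 7) (by decide +kernel)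
theorem L1190925 : W_2 (nat_lit 4) (nat_lit 0x9000480004000200000000000000000000000) (nat_lit 0x0) (nat_lit 0x16800b00002000000010000000000000000000) := Q_2 (nat_lit 128) (C_2 L1190923 (C_2 L98390 (C_2 L1190924 N_2))) (by decide +kernel)
theorem L1190929 : W_2 (nat_lit 2) (nat_lit 0x1c0033400b000580064001200000000000000000000000) (nat_lit 0x0) (nat_lit 0xc00040000000000000000000) := D_2 (nat_lit 95) (nat_lit 78) (nat_lit 94) (nat_lit 4) (nat_lit 11) (nat_lit 8) (nat_lit 3) (nat_lit 8) (nat_lit 5) (by decide +kernel)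
theorem L1190930 : W_2 (nat_lit 3) (nat_lit 0x1c0033400b000580064000200000000000000000000000) (nat_lit 0x0) (nat_lit 0x10000000000001c00040000000000000000000) := T_2 (nat_lit 96) (nat_lit 148) (nat_lit 7) (nat_lit 11) (nat_lit 5) L1190929 (by decide +kernel)
theorem L1190931 : W_2 (nat_lit 4) (nat_lit 0x1c0013400b000580064000200000000000000000000000) (nat_lit 0x0) (nat_lit 0x4000200010000000000001c00040000000000000000000) := T_2 (nat_lit 165) (nat_lit 182) (nat_lit 7) (nat_lit 11) (nat_lit 6) L1190930 (by decide +kernel)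
theorem L1190932 : W_2 (nat_lit 5) (nat_lit 0x1c0013400b000580024000200000000000000000000000) (nat_lit 0x0) (nat_lit 0x4000200010000000040003c00040000000000000000000) := T_2 (nat_lit 114) (nat_lit 97) (nat_lit 6) (nat_lit 11) (nat_lit 9) L1190931 (by decide +kernel)
theorem L1190933 : W_2 (nat_lit 6) (nat_lit 0x1c0003400b000580024000200000000000000000000000) (nat_lit 0x0) (nat_lit 0x4000380010000000040003c00040000000000000000000) := T_2 (nat_lit 164) (nat_lit 163) (nat_lit 5) (nat_lit 11) (nat_lit 6) L1190932 (by decide +kernel)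
theorem L1190934 : W_2 (nat_lit 7) (nat_lit 0xc0003400b000580024000200000000000000000000000) (nat_lit 0x0) (nat_lit 0x7000380010000000040003c00040000000000000000000) := T_2 (nat_lit 180) (nat_lit 181) (nat_lit 0) (nat_lit 11) (nat_lit 10) L1190933 (by decide +kernel)
theorem L1190935 : W_2 (nat_lit 8) (nat_lit 0x40003400b000580024000200000000000000000000000) (nat_lit 0x0) (nat_lit 0x10007800380010000000040003c00040000000000000000000) := T_2 (nat_lit 179) (nat_lit 196) (nat_lit 7) (nat_lit 8) (nat_lit 7) L1190934 (by decide +kernel)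
theorem L1190936 : W_2 (nat_lit 9) (nat_lit 0x3400b000580024000200000000000000000000000) (nat_lit 0x0) (nat_lit 0x18007c00380010000000040003c00040000000000000000000) := T_2 (nat_lit 178) (nat_lit 195) (nat_lit 6) (nat_lit 8) (nat_lit 11) L1190935 (by decide +kernel)
theorem L1190937 : W_2 (nat_lit 10) (nat_lit 0x3000b000580024000200000000000000000000000) (nat_lit 0x0) (nat_lit 0x18007c0038c010000000040003c00040000000000000000000) := T_2 (nat_lit 158) (nat_lit 159) (nat_lit 2) (nat_lit 5) (nat_lit 9) L1190936 (by decide +kernel)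
theorem L1190938 : W_2 (nat_lit 11) (nat_lit 0x1000b000580024000200000000000000000000000) (nat_lit 0x0) (nat_lit 0x18007e003ac010000000040003c00040000000000000000000) := T_2 (nat_lit 161) (nat_lit 177) (nat_lit 5) (nat_lit 8) (nat_lit 6) L1190937 (by decide +kernel)
theorem L1190939 : W_2 (nat_lit 12) (nat_lit 0xb000580024000200000000000000000000000) (nat_lit 0x0) (nat_lit 0x18007e003bc010800000040003c00040000000000000000000) := T_2 (nat_lit 160) (nat_lit 143) (nat_lit 5) (nat_lit 8) (nat_lit 5) L1190938 (by decide +kernel)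
theorem L1190940 : W_2 (nat_lit 13) (nat_lit 0x9000580024000200000000000000000000000) (nat_lit 0x0) (nat_lit 0x18007e003bc012800000040003c00050000000000000000000) := T_2 (nat_lit 145) (nat_lit 76) (nat_lit 7) (nat_lit 8) (nat_lit 4) L1190939 (by decide +kernel)
theorem L1190941 : W_2 (nat_lit 2) (nat_lit 0x9000580024000200000000000000000000000) (nat_lit 0x0) (nat_lit 0x10000800200000000000000000000000000000000) := D_2 (nat_lit 143) (nat_lit 160) (nat_lit 129) (nat_lit 5) (nat_lit 8) (nat_lit 5) (nat_lit 1) (nat_lit 11) (nat_lit 7) (by decide +kernel)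
theorem L1190942 : W_2 (nat_lit 14) (nat_lit 0x9000480024000200000000000000000000000) (nat_lit 0x0) (nat_lit 0x18007e003bc012800300040003c00050000000000000000000) := Q_2 (nat_lit 128) (C_2 L210907 (C_2 L1190940 (C_2 L1190941 N_2))) (by decide +kernel)
theorem L1190943 : W_2 (nat_lit 2) (nat_lit 0x1c0033400b000580024002200000000000000000000000) (nat_lit 0x0) (nat_lit 0x10000000000001000100000000000000000000) := D_2 (nat_lit 96) (nat_lit 148) (nat_lit 80) (nat_lit 7) (nat_lit 11) (nat_lit 5) (nat_lit 6) (nat_lit 11) (nat_lit 8) (by decide +kernel)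
theorem L1190944 : W_2 (nat_lit 3) (nat_lit 0x1c0013400b000580024002200000000000000000000000) (nat_lit 0x0) (nat_lit 0x4000200010000000000001000100000000000000000000) := T_2 (nat_lit 165) (nat_lit 182) (nat_lit 7) (nat_lit 11) (nat_lit 6) L1190943 (by decide +kernel)
theorem L1190945 : W_2 (nat_lit 4) (nat_lit 0x1c0013400b000580024000200000000000000000000000) (nat_lit 0x0) (nat_lit 0x4000200010000000040003000100000000000000000000) := T_2 (nat_lit 97) (nat_lit 114) (nat_lit 6) (nat_lit 11) (nat_lit 9) L1190944 (by decide +kernel)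
theorem L1190946 : W_2 (nat_lit 5) (nat_lit 0x1c0003400b000580024000200000000000000000000000) (nat_lit 0x0) (nat_lit 0x4000380010000000040003000100000000000000000000) := T_2 (nat_lit 164) (nat_lit 163) (nat_lit 5) (nat_lit 11) (nat_lit 6) L1190945 (by decide +kernel)
theorem L1190947 : W_2 (nat_lit 6) (nat_lit 0xc0003400b000580024000200000000000000000000000) (nat_lit 0x0) (nat_lit 0x7000380010000000040003000100000000000000000000) := T_2 (nat_lit 180) (nat_lit 181) (nat_lit 0) (nat_lit 11) (nat_lit 10) L1190946 (by decide +kernel)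
theorem L1190948 : W_2 (nat_lit 7) (nat_lit 0x40003400b000580024000200000000000000000000000) (nat_lit 0x0) (nat_lit 0x10007800380010000000040003000100000000000000000000) := T_2 (nat_lit 179) (nat_lit 196) (nat_lit 7) (nat_lit 8) (nat_lit 7) L1190947 (by decide +kernel)
theorem L1190949 : W_2 (nat_lit 8) (nat_lit 0x3400b000580024000200000000000000000000000) (nat_lit 0x0) (nat_lit 0x18007c00380010000000040003000100000000000000000000) := T_2 (nat_lit 178) (nat_lit 195) (nat_lit 6) (nat_lit 8) (nat_lit 11) L1190948 (by decide +kernel)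
theorem L1190950 : W_2 (nat_lit 9) (nat_lit 0x3000b000580024000200000000000000000000000) (nat_lit 0x0) (nat_lit 0x18007c0038c010000000040003000100000000000000000000) := T_2 (nat_lit 158) (nat_lit 159) (nat_lit 2) (nat_lit 5) (nat_lit 9) L1190949 (by decide +kernel)
theorem L1190951 : W_2 (nat_lit 10) (nat_lit 0x1000b000580024000200000000000000000000000) (nat_lit 0x0) (nat_lit 0x18007e003ac010000000040003000100000000000000000000) := T_2 (nat_lit 161) (nat_lit 177) (nat_lit 5) (nat_lit 8) (nat_lit 6) L1190950 (by decide +kernel)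
theorem L1190952 : W_2 (nat_lit 11) (nat_lit 0xb000580024000200000000000000000000000) (nat_lit 0x0) (nat_lit 0x18007e003bc010800000040003000100000000000000000000) := T_2 (nat_lit 160) (nat_lit 143) (nat_lit 5) (nat_lit 8) (nat_lit 5) L1190951 (by decide +kernel)
theorem L1190953 : W_2 (nat_lit 12) (nat_lit 0x9000580024000200000000000000000000000) (nat_lit 0x0) (nat_lit 0x18007e003bc012800000040003000110000000000000000000) := T_2 (nat_lit 145) (nat_lit 76) (nat_lit 7) (nat_lit 8) (nat_lit 4) L1190952 (by decide +kernel)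
theorem L1190954 : W_2 (nat_lit 13) (nat_lit 0x9000480024000200000000000000000000000) (nat_lit 0x0) (nat_lit 0x18007e003bc012800300040003000110000000000000000000) := Q_2 (nat_lit 128) (C_2 L1190941 (C_2 L210907 (C_2 L1190953 N_2))) (by decide +kernel)
theorem L1190955 : W_2 (nat_lit 5) (nat_lit 0x9000480024000200000000000000000000000) (nat_lit 0x0) (nat_lit 0x200010000800042003c001c0008000000000000000) := Q_2 (nat_lit 96) (C_2 L72794 (C_2 L72791 N_2)) (by decide +kernel)
theorem L1190956 : W_2 (nat_lit 2) (nat_lit 0x380009800680164000a00000000000000000000000) (nat_lit 0x0) (nat_lit 0x1400040000000000000000000) := D_2 (nat_lit 96) (nat_lit 78) (nat_lit 94) (nat_lit 4) (nat_lit 11) (nat_lit 8) (nat_lit 3) (nat_lit 8) (nat_lit 5) (by decide +kernel)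
theorem L1190957 : W_2 (nat_lit 3) (nat_lit 0x380009800680164000200000000000000000000000) (nat_lit 0x0) (nat_lit 0x10001c00040000000000000000000) := T_2 (nat_lit 95) (nat_lit 112) (nat_lit 4) (nat_lit 11) (nat_lit 9) L1190956 (by decide +kernel)
theorem L1190958 : W_2 (nat_lit 4) (nat_lit 0x300009800680164000200000000000000000000000) (nat_lit 0x0) (nat_lit 0x1000080000000000010001c00040000000000000000000) := T_2 (nat_lit 163) (nat_lit 180) (nat_lit 5) (nat_lit 11) (nat_lit 6) L1190957 (by decide +kernel)
theorem L1190959 : W_2 (nat_lit 5) (nat_lit 0x300009800680064000200000000000000000000000) (nat_lit 0x0) (nat_lit 0x1000080000000000190001c00040000000000000000000) := T_2 (nat_lit 116) (nat_lit 115) (nat_lit 1) (nat_lit 14) (nat_lit 6) L1190958 (by decide +kernel)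
theorem L1190960 : W_2 (nat_lit 6) (nat_lit 0x300009800680024000200000000000000000000000) (nat_lit 0x0) (nat_lit 0x10000800000000001d0003c00040000000000000000000) := T_2 (nat_lit 114) (nat_lit 97) (nat_lit 6) (nat_lit 11) (nat_lit 9) L1190959 (by decide +kernel)
theorem L1190961 : W_2 (nat_lit 7) (nat_lit 0x300009800480024000200000000000000000000000) (nat_lit 0x0) (nat_lit 0x10000800000003001d0003c00040000000000000000000) := T_2 (nat_lit 129) (nat_lit 128) (nat_lit 1) (nat_lit 11) (nat_lit 7) L1190960 (by decide +kernel)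
theorem L1190962 : W_2 (nat_lit 8) (nat_lit 0x300009000480024000200000000000000000000000) (nat_lit 0x0) (nat_lit 0x10000900008003001d0003c00040000000000000000000) := T_2 (nat_lit 143) (nat_lit 160) (nat_lit 5) (nat_lit 8) (nat_lit 5) L1190961 (by decide +kernel)
theorem L1190963 : W_2 (nat_lit 9) (nat_lit 0x100009000480024000200000000000000000000000) (nat_lit 0x0) (nat_lit 0x50002900008003001d0003c00040000000000000000000) := T_2 (nat_lit 165) (nat_lit 182) (nat_lit 7) (nat_lit 11) (nat_lit 6) L1190962 (by decide +kernel)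
theorem L1190964 : W_2 (nat_lit 10) (nat_lit 0x9000480024000200000000000000000000000) (nat_lit 0x0) (nat_lit 0xa0007000390000800b001d0003c00040000000000000000000) := Q_2 (nat_lit 164) (C_2 L1190902 (C_2 L1190898 (C_2 L1190849 (C_2 L1190963 (C_2 L98819 N_2))))) (by decide +kernel)
theorem L1190965 : W_2 (nat_lit 2) (nat_lit 0x1c0033400b000580024000a00000000000000000000000) (nat_lit 0x0) (nat_lit 0x10000000000001000040000000000000000000) := D_2 (nat_lit 96) (nat_lit 148) (nat_lit 78) (nat_lit 7) (nat_lit 11) (nat_lit 5) (nat_lit 4) (nat_lit 11) (nat_lit 8) (by decide +kernel)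
theorem L1190966 : W_2 (nat_lit 3) (nat_lit 0x1c0013400b000580024000a00000000000000000000000) (nat_lit 0x0) (nat_lit 0x4000200010000000000001000040000000000000000000) := T_2 (nat_lit 165) (nat_lit 182) (nat_lit 7) (nat_lit 11) (nat_lit 6) L1190965 (by decide +kernel)
theorem L1190967 : W_2 (nat_lit 4) (nat_lit 0x1c0013400b000580024000200000000000000000000000) (nat_lit 0x0) (nat_lit 0x4000200010000000010001800040000000000000000000) := T_2 (nat_lit 95) (nat_lit 112) (nat_lit 4) (nat_lit 11) (nat_lit 9) L1190966 (by decide +kernel)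
theorem L1190968 : W_2 (nat_lit 5) (nat_lit 0x1c0003400b000580024000200000000000000000000000) (nat_lit 0x0) (nat_lit 0x4000380010000000010001800040000000000000000000) := T_2 (nat_lit 164) (nat_lit 163) (nat_lit 5) (nat_lit 11) (nat_lit 6) L1190967 (by decide +kernel)
theorem L1190969 : W_2 (nat_lit 6) (nat_lit 0xc0003400b000580024000200000000000000000000000) (nat_lit 0x0) (nat_lit 0x7000380010000000010001800040000000000000000000) := T_2 (nat_lit 180) (nat_lit 181) (nat_lit 0) (nat_lit 11) (nat_lit 10) L1190968 (by decide +kernel)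
theorem L1190970 : W_2 (nat_lit 7) (nat_lit 0x40003400b000580024000200000000000000000000000) (nat_lit 0x0) (nat_lit 0x10007800380010000000010001800040000000000000000000) := T_2 (nat_lit 179) (nat_lit 196) (nat_lit 7) (nat_lit 8) (nat_lit 7) L1190969 (by decide +kernel)
theorem L1190971 : W_2 (nat_lit 8) (nat_lit 0x3400b000580024000200000000000000000000000) (nat_lit 0x0) (nat_lit 0x18007c00380010000000010001800040000000000000000000) := T_2 (nat_lit 178) (nat_lit 195) (nat_lit 6) (nat_lit 8) (nat_lit 11) L1190970 (by decide +kernel)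
theorem L1190972 : W_2 (nat_lit 9) (nat_lit 0x3000b000580024000200000000000000000000000) (nat_lit 0x0) (nat_lit 0x18007c0038c010000000010001800040000000000000000000) := T_2 (nat_lit 158) (nat_lit 159) (nat_lit 2) (nat_lit 5) (nat_lit 9) L1190971 (by decide +kernel)
theorem L1190973 : W_2 (nat_lit 10) (nat_lit 0x1000b000580024000200000000000000000000000) (nat_lit 0x0) (nat_lit 0x18007e003ac010000000010001800040000000000000000000) := T_2 (nat_lit 161) (nat_lit 177) (nat_lit 5) (nat_lit 8) (nat_lit 6) L1190972 (by decide +kernel)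
theorem L1190974 : W_2 (nat_lit 11) (nat_lit 0x10009000580024000200000000000000000000000) (nat_lit 0x0) (nat_lit 0x18007e003ac012000000010001800050000000000000000000) := T_2 (nat_lit 145) (nat_lit 76) (nat_lit 7) (nat_lit 8) (nat_lit 4) L1190973 (by decide +kernel)
theorem L1190975 : W_2 (nat_lit 12) (nat_lit 0x9000580024000200000000000000000000000) (nat_lit 0x0) (nat_lit 0x18007e003bc012800000010001800050000000000000000000) := T_2 (nat_lit 160) (nat_lit 143) (nat_lit 5) (nat_lit 8) (nat_lit 5) L1190974 (by decide +kernel)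
theorem L1190976 : W_2 (nat_lit 13) (nat_lit 0x9000480024000200000000000000000000000) (nat_lit 0x0) (nat_lit 0x18007e003bc012800300050001800050000000000000000000) := Q_2 (nat_lit 128) (C_2 L1190975 (C_2 L1190941 (C_2 L210907 N_2))) (by decide +kernel)
theorem L1190977 : W_2 (nat_lit 2) (nat_lit 0x9000580024000200000000000000000000000) (nat_lit 0x0) (nat_lit 0x10000200002000000000000000000000000000) := D_2 (nat_lit 129) (nat_lit 148) (nat_lit 109) (nat_lit 3) (nat_lit 8) (nat_lit 7) (nat_lit 0) (nat_lit 11) (nat_lit 7) (by decide +kernel)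
theorem L1190978 : W_2 (nat_lit 13) (nat_lit 0x9000480024000200000000000000000000000) (nat_lit 0x0) (nat_lit 0x18007e003bc012800300012001800050000000000000000000) := Q_2 (nat_lit 128) (C_2 L1190975 (C_2 L1190941 (C_2 L1190977 N_2))) (by decide +kernel)
theorem L1190979 : W_2 (nat_lit 2) (nat_lit 0x1c0013400b000580064000a00000000000000000000000) (nat_lit 0x0) (nat_lit 0x1400040000000000000000000) := D_2 (nat_lit 96) (nat_lit 94) (nat_lit 78) (nat_lit 3) (nat_lit 8) (nat_lit 5) (nat_lit 4) (nat_lit 11) (nat_lit 8) (by decide +kernel)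
theorem L1190980 : W_2 (nat_lit 3) (nat_lit 0x1c0013400b000580024000a00000000000000000000000) (nat_lit 0x0) (nat_lit 0x40003400040000000000000000000) := T_2 (nat_lit 114) (nat_lit 97) (nat_lit 6) (nat_lit 11) (nat_lit 9) L1190979 (by decide +kernel)
theorem L1190981 : W_2 (nat_lit 4) (nat_lit 0x1c0013400b000580024000200000000000000000000000) (nat_lit 0x0) (nat_lit 0x50003c00040000000000000000000) := T_2 (nat_lit 95) (nat_lit 112) (nat_lit 4) (nat_lit 11) (nat_lit 9) L1190980 (by decide +kernel)
theorem L1190982 : W_2 (nat_lit 5) (nat_lit 0x1c0003400b000580024000200000000000000000000000) (nat_lit 0x0) (nat_lit 0x180000000000050003c00040000000000000000000) := T_2 (nat_lit 164) (nat_lit 163) (nat_lit 5) (nat_lit 11) (nat_lit 6) L1190981 (by decide +kernel)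
theorem L1190983 : W_2 (nat_lit 6) (nat_lit 0xc0003400b000580024000200000000000000000000000) (nat_lit 0x0) (nat_lit 0x3000180000000000050003c00040000000000000000000) := T_2 (nat_lit 180) (nat_lit 181) (nat_lit 0) (nat_lit 11) (nat_lit 10) L1190982 (by decide +kernel)
theorem L1190984 : W_2 (nat_lit 7) (nat_lit 0x40003400b000580024000200000000000000000000000) (nat_lit 0x0) (nat_lit 0x10003800180000000000050003c00040000000000000000000) := T_2 (nat_lit 179) (nat_lit 196) (nat_lit 7) (nat_lit 8) (nat_lit 7) L1190983 (by decide +kernel)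
theorem L1190985 : W_2 (nat_lit 8) (nat_lit 0x3400b000580024000200000000000000000000000) (nat_lit 0x0) (nat_lit 0x18003c00180000000000050003c00040000000000000000000) := T_2 (nat_lit 178) (nat_lit 195) (nat_lit 6) (nat_lit 8) (nat_lit 11) L1190984 (by decide +kernel)
theorem L1190986 : W_2 (nat_lit 9) (nat_lit 0x3000b000580024000200000000000000000000000) (nat_lit 0x0) (nat_lit 0x18003c0018c000000000050003c00040000000000000000000) := T_2 (nat_lit 158) (nat_lit 159) (nat_lit 2) (nat_lit 5) (nat_lit 9) L1190985 (by decide +kernel)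
theorem L1190987 : W_2 (nat_lit 10) (nat_lit 0x1000b000580024000200000000000000000000000) (nat_lit 0x0) (nat_lit 0x18003e001ac000000000050003c00040000000000000000000) := T_2 (nat_lit 161) (nat_lit 177) (nat_lit 5) (nat_lit 8) (nat_lit 6) L1190986 (by decide +kernel)
theorem L1190988 : W_2 (nat_lit 11) (nat_lit 0x10009000580024000200000000000000000000000) (nat_lit 0x0) (nat_lit 0x18003e001ac002000000050003c00050000000000000000000) := T_2 (nat_lit 145) (nat_lit 76) (nat_lit 7) (nat_lit 8) (nat_lit 4) L1190987 (by decide +kernel)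
theorem L1190989 : W_2 (nat_lit 12) (nat_lit 0x9000580024000200000000000000000000000) (nat_lit 0x0) (nat_lit 0x18003e001bc002800000050003c00050000000000000000000) := T_2 (nat_lit 160) (nat_lit 143) (nat_lit 5) (nat_lit 8) (nat_lit 5) L1190988 (by decide +kernel)
theorem L1190990 : W_2 (nat_lit 13) (nat_lit 0x9000480024000200000000000000000000000) (nat_lit 0x0) (nat_lit 0x18003e001bc012800300052003c00050000000000000000000) := Q_2 (nat_lit 128) (C_2 L1190989 (C_2 L1190977 N_2)) (by decide +kernel)
theorem L1190991 : W_2 (nat_lit 15) (nat_lit 0x9000480004000200000000000000000000000) (nat_lit 0x0) (nat_lit 0xb8007e003bc032803b001f200fc001d000c000000000000000) := Q_2 (nat_lit 113) (C_2 L1190693 (C_2 L1190914 (C_2 L98520 (C_2 L1190942 (C_2 L1190954 (C_2 L1190955 (C_2 L1190964 (C_2 L1190976 (C_2 L1190978 (C_2 L1190990 N_2)))))))))) (by decide +kernel)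
theorem L1190992 : W_2 (nat_lit 3) (nat_lit 0x9000580004000200000000000000000000000) (nat_lit 0x0) (nat_lit 0x2000a00002000000010000000000000000000) := T_2 (nat_lit 145) (nat_lit 76) (nat_lit 7) (nat_lit 8) (nat_lit 4) L98406 (by decide +kernel)
theorem L1190993 : W_2 (nat_lit 4) (nat_lit 0x9000480004000200000000000000000000000) (nat_lit 0x0) (nat_lit 0x16000b00002000000010000000000000000000) := Q_2 (nat_lit 128) (C_2 L1190923 (C_2 L98390 (C_2 L1190992 N_2))) (by decide +kernel)
theorem L1190994 : W_2 (nat_lit 2) (nat_lit 0xfa00580004000200000000000000000000000) (nat_lit 0x0) (nat_lit 0x380000000000000000000000000000000000000000) := D_2 (nat_lit 164) (nat_lit 163) (nat_lit 165) (nat_lit 3) (nat_lit 7) (nat_lit 8) (nat_lit 3) (nat_lit 8) (nat_lit 8) (by decide +kernel)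
theorem L1190995 : W_2 (nat_lit 3) (nat_lit 0xba00580004000200000000000000000000000) (nat_lit 0x0) (nat_lit 0x380014000000000000000000000000000000000000) := T_2 (nat_lit 146) (nat_lit 148) (nat_lit 0) (nat_lit 12) (nat_lit 8) L1190994 (by decide +kernel)
theorem L1190996 : W_2 (nat_lit 4) (nat_lit 0xb800580004000200000000000000000000000) (nat_lit 0x0) (nat_lit 0x380014600000000000000000000000000000000000) := T_2 (nat_lit 141) (nat_lit 142) (nat_lit 2) (nat_lit 5) (nat_lit 8) L1190995 (by decide +kernel)
theorem L1190997 : W_2 (nat_lit 5) (nat_lit 0x9800580004000200000000000000000000000) (nat_lit 0x0) (nat_lit 0x380016600000000000000010000000000000000000) := T_2 (nat_lit 145) (nat_lit 76) (nat_lit 7) (nat_lit 8) (nat_lit 4) L1190996 (by decide +kernel)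
theorem L1190998 : W_2 (nat_lit 6) (nat_lit 0x9800480004000200000000000000000000000) (nat_lit 0x0) (nat_lit 0x380016600300000000000010000000000000000000) := T_2 (nat_lit 128) (nat_lit 129) (nat_lit 1) (nat_lit 11) (nat_lit 7) L1190997 (by decide +kernel)
theorem L1190999 : W_2 (nat_lit 7) (nat_lit 0x9000480004000200000000000000000000000) (nat_lit 0x0) (nat_lit 0x390016e00300000000000010000000000000000000) := T_2 (nat_lit 143) (nat_lit 160) (nat_lit 5) (nat_lit 8) (nat_lit 5) L1190998 (by decide +kernel)
theorem L1191000 : W_2 (nat_lit 3) (nat_lit 0xba00580004000200000000000000000000000) (nat_lit 0x0) (nat_lit 0x380004000800000000000000000000000000000000) := T_2 (nat_lit 146) (nat_lit 131) (nat_lit 2) (nat_lit 8) (nat_lit 8) L1190994 (by decide +kernel)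
theorem L1191001 : W_2 (nat_lit 4) (nat_lit 0xb800580004000200000000000000000000000) (nat_lit 0x0) (nat_lit 0x380004600800000000000000000000000000000000) := T_2 (nat_lit 141) (nat_lit 142) (nat_lit 2) (nat_lit 5) (nat_lit 8) L1191000 (by decide +kernel)
theorem L1191002 : W_2 (nat_lit 5) (nat_lit 0x9800580004000200000000000000000000000) (nat_lit 0x0) (nat_lit 0x380006600800000000000010000000000000000000) := T_2 (nat_lit 145) (nat_lit 76) (nat_lit 7) (nat_lit 8) (nat_lit 4) L1191001 (by decide +kernel)
theorem L1191003 : W_2 (nat_lit 6) (nat_lit 0x9800480004000200000000000000000000000) (nat_lit 0x0) (nat_lit 0x380006600b00000000000010000000000000000000) := T_2 (nat_lit 128) (nat_lit 129) (nat_lit 1) (nat_lit 11) (nat_lit 7) L1191002 (by decide +kernel)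
theorem L1191004 : W_2 (nat_lit 7) (nat_lit 0x9000480004000200000000000000000000000) (nat_lit 0x0) (nat_lit 0x390006e00b00000000000010000000000000000000) := T_2 (nat_lit 143) (nat_lit 160) (nat_lit 5) (nat_lit 8) (nat_lit 5) L1191003 (by decide +kernel)
theorem L1191005 : W_2 (nat_lit 16) (nat_lit 0x1000480004000200000000000000000000000) (nat_lit 0x0) (nat_lit 0x28001c007f801fe00fbc07ee03b001f200fc001d000c000000000000000) := Q_2 (nat_lit 147) (C_2 L1190872 (C_2 L1190907 (C_2 L1190922 (C_2 L1190925 (C_2 L1190991 (C_2 L1190993 (C_2 L1190999 (C_2 L1191004 N_2)))))))) (by decide +kernel)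
theorem L1191006 : W_2 (nat_lit 2) (nat_lit 0x1000680004000200000000000000000000000) (nat_lit 0x0) (nat_lit 0x10000800100000000000000000000000000000000) := D_2 (nat_lit 143) (nat_lit 160) (nat_lit 128) (nat_lit 5) (nat_lit 8) (nat_lit 5) (nat_lit 1) (nat_lit 11) (nat_lit 7) (by decide +kernel)
theorem L1191007 : W_2 (nat_lit 2) (nat_lit 0x5000680004000200000000000000000000000) (nat_lit 0x0) (nat_lit 0x10002800000000000000000000000000000000000) := D_2 (nat_lit 143) (nat_lit 160) (nat_lit 145) (nat_lit 5) (nat_lit 8) (nat_lit 5) (nat_lit 2) (nat_lit 7) (nat_lit 8) (by decide +kernel)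
theorem L1191008 : W_2 (nat_lit 2) (nat_lit 0x5800680004001e00000000000000000000000) (nat_lit 0x0) (nat_lit 0x10000000180000000000000000000) := D_2 (nat_lit 79) (nat_lit 80) (nat_lit 112) (nat_lit 2) (nat_lit 8) (nat_lit 5) (nat_lit 6) (nat_lit 10) (nat_lit 8) (by decide +kernel)
theorem L1191009 : W_2 (nat_lit 3) (nat_lit 0x5800680004001600000000000000000000000) (nat_lit 0x0) (nat_lit 0x12000800180000000000000000000) := T_2 (nat_lit 95) (nat_lit 109) (nat_lit 1) (nat_lit 11) (nat_lit 5) L1191008 (by decide +kernel)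
theorem L1191010 : W_2 (nat_lit 4) (nat_lit 0x5800680004001200000000000000000000000) (nat_lit 0x0) (nat_lit 0x12000c001a0000000000000000000) := T_2 (nat_lit 94) (nat_lit 77) (nat_lit 6) (nat_lit 8) (nat_lit 8) L1191009 (by decide +kernel)
theorem L1191011 : W_2 (nat_lit 5) (nat_lit 0x5000680004001200000000000000000000000) (nat_lit 0x0) (nat_lit 0x10000800000012000c001a0000000000000000000) := T_2 (nat_lit 143) (nat_lit 160) (nat_lit 5) (nat_lit 8) (nat_lit 5) L1191010 (by decide +kernel)
theorem L1191012 : W_2 (nat_lit 2) (nat_lit 0x5800680024001e00000000000000000000000) (nat_lit 0x0) (nat_lit 0x80008000000000000000040000000000000000000) := D_2 (nat_lit 147) (nat_lit 78) (nat_lit 163) (nat_lit 4) (nat_lit 11) (nat_lit 8) (nat_lit 5) (nat_lit 11) (nat_lit 5) (by decide +kernel)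
theorem L1191013 : W_2 (nat_lit 3) (nat_lit 0x5800680004001e00000000000000000000000) (nat_lit 0x0) (nat_lit 0x80008000000060000000040000000000000000000) := T_2 (nat_lit 113) (nat_lit 114) (nat_lit 3) (nat_lit 8) (nat_lit 5) L1191012 (by decide +kernel)
theorem L1191014 : W_2 (nat_lit 4) (nat_lit 0x5000680004001e00000000000000000000000) (nat_lit 0x0) (nat_lit 0x90008800000060000000040000000000000000000) := T_2 (nat_lit 143) (nat_lit 160) (nat_lit 5) (nat_lit 8) (nat_lit 5) L1191013 (by decide +kernel)
theorem L1191015 : W_2 (nat_lit 5) (nat_lit 0x5000680004001600000000000000000000000) (nat_lit 0x0) (nat_lit 0x90008800000062000800040000000000000000000) := T_2 (nat_lit 95) (nat_lit 109) (nat_lit 1) (nat_lit 11) (nat_lit 5) L1191014 (by decide +kernel)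
theorem L1191016 : W_2 (nat_lit 6) (nat_lit 0x5000680004001200000000000000000000000) (nat_lit 0x0) (nat_lit 0x90008800000062000c00060000000000000000000) := T_2 (nat_lit 94) (nat_lit 77) (nat_lit 6) (nat_lit 8) (nat_lit 8) L1191015 (by decide +kernel)
theorem L1191017 : W_2 (nat_lit 7) (nat_lit 0x5000680004000200000000000000000000000) (nat_lit 0x0) (nat_lit 0x1000090008800000072001c001e0000000000000000000) := Q_2 (nat_lit 96) (C_2 L1190337 (C_2 L1190333 (C_2 L1191011 (C_2 L1191016 N_2)))) (by decide +kernel)
theorem L1191018 : W_2 (nat_lit 3) (nat_lit 0x5000680004000200000000000000000000000) (nat_lit 0x0) (nat_lit 0xa801800000000000000000000000000000000) := T_2 (nat_lit 145) (nat_lit 143) (nat_lit 2) (nat_lit 7) (nat_lit 8) L234653 (by decide +kernel)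
theorem L1191025 : W_2 (nat_lit 2) (nat_lit 0x5000680004001e00000000000000000000000) (nat_lit 0x0) (nat_lit 0x10000000180000000000000000000) := D_2 (nat_lit 79) (nat_lit 80) (nat_lit 112) (nat_lit 2) (nat_lit 8) (nat_lit 5) (nat_lit 6) (nat_lit 10) (nat_lit 8) (by decide +kernel)
theorem L1191026 : W_2 (nat_lit 3) (nat_lit 0x5000680004001600000000000000000000000) (nat_lit 0x0) (nat_lit 0x12000800180000000000000000000) := T_2 (nat_lit 95) (nat_lit 109) (nat_lit 1) (nat_lit 11) (nat_lit 5) L1191025 (by decide +kernel)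
theorem L1191027 : W_2 (nat_lit 4) (nat_lit 0x5000680004001200000000000000000000000) (nat_lit 0x0) (nat_lit 0x12000c001a0000000000000000000) := T_2 (nat_lit 94) (nat_lit 77) (nat_lit 6) (nat_lit 8) (nat_lit 8) L1191026 (by decide +kernel)
theorem L1191028 : W_2 (nat_lit 2) (nat_lit 0x5000680024001e00000000000000000000000) (nat_lit 0x0) (nat_lit 0x80008000000000000000040000000000000000000) := D_2 (nat_lit 147) (nat_lit 78) (nat_lit 163) (nat_lit 4) (nat_lit 11) (nat_lit 8) (nat_lit 5) (nat_lit 11) (nat_lit 5) (by decide +kernel)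
theorem L1191029 : W_2 (nat_lit 3) (nat_lit 0x5000680004001e00000000000000000000000) (nat_lit 0x0) (nat_lit 0x80008000000060000000040000000000000000000) := T_2 (nat_lit 113) (nat_lit 114) (nat_lit 3) (nat_lit 8) (nat_lit 5) L1191028 (by decide +kernel)
theorem L1191030 : W_2 (nat_lit 4) (nat_lit 0x5000680004001600000000000000000000000) (nat_lit 0x0) (nat_lit 0x80008000000062000800040000000000000000000) := T_2 (nat_lit 95) (nat_lit 109) (nat_lit 1) (nat_lit 11) (nat_lit 5) L1191029 (by decide +kernel)
theorem L1191031 : W_2 (nat_lit 5) (nat_lit 0x5000680004001200000000000000000000000) (nat_lit 0x0) (nat_lit 0x80008000000062000c00060000000000000000000) := T_2 (nat_lit 94) (nat_lit 77) (nat_lit 6) (nat_lit 8) (nat_lit 8) L1191030 (by decide +kernel)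
theorem L1191032 : W_2 (nat_lit 6) (nat_lit 0x5000680004000200000000000000000000000) (nat_lit 0x0) (nat_lit 0x1000080008000000072001c001e0000000000000000000) := Q_2 (nat_lit 96) (C_2 L1191027 (C_2 L1190337 (C_2 L1191031 N_2))) (by decide +kernel)
theorem L1191033 : W_2 (nat_lit 8) (nat_lit 0x1000680004000200000000000000000000000) (nat_lit 0x0) (nat_lit 0x100009000e801800072001c001e0000000000000000000) := Q_2 (nat_lit 146) (C_2 L1191007 (C_2 L1191017 (C_2 L1191018 (C_2 L1191032 N_2)))) (by decide +kernel)
theorem L1191034 : W_2 (nat_lit 2) (nat_lit 0x1000680004000200000000000000000000000) (nat_lit 0x0) (nat_lit 0x800100002000000000000000000000000000) := D_2 (nat_lit 128) (nat_lit 143) (nat_lit 109) (nat_lit 1) (nat_lit 11) (nat_lit 7) (nat_lit 0) (nat_lit 11) (nat_lit 7) (by decide +kernel)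
theorem L1191035 : W_2 (nat_lit 4) (nat_lit 0x1000680004000600000000000000000000000) (nat_lit 0x0) (nat_lit 0x20009000e2000000000000000000000000000) := T_2 (nat_lit 128) (nat_lit 109) (nat_lit 0) (nat_lit 11) (nat_lit 7) L211783 (by decide +kernel)
theorem L1191036 : W_2 (nat_lit 5) (nat_lit 0x1000680004000200000000000000000000000) (nat_lit 0x0) (nat_lit 0x20009000e2000400020000000000000000000) := T_2 (nat_lit 94) (nat_lit 77) (nat_lit 6) (nat_lit 8) (nat_lit 8) L1191035 (by decide +kernel)
theorem L1191037 : W_2 (nat_lit 9) (nat_lit 0x1000480004000200000000000000000000000) (nat_lit 0x0) (nat_lit 0x100009000e801b000f2001c001e0000000000000000000) := Q_2 (nat_lit 129) (C_2 L1191006 (C_2 L1191033 (C_2 L1191034 (C_2 L1191036 N_2)))) (by decide +kernel)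
theorem L1191038 : W_2 (nat_lit 2) (nat_lit 0x1800580004000200010001400000000000000) (nat_lit 0x0) (nat_lit 0x8000a0000000000) := D_2 (nat_lit 59) (nat_lit 43) (nat_lit 41) (nat_lit 6) (nat_lit 8) (nat_lit 6) (nat_lit 4) (nat_lit 8) (nat_lit 6) (by decide +kernel)
theorem L1191039 : W_2 (nat_lit 3) (nat_lit 0x1800580004000200010001000000000000000) (nat_lit 0x0) (nat_lit 0x8000c000a0000000000) := T_2 (nat_lit 58) (nat_lit 75) (nat_lit 4) (nat_lit 8) (nat_lit 7) L1191038 (by decide +kernel)
theorem L1191040 : W_2 (nat_lit 4) (nat_lit 0x1800580004000200010000000000000000000) (nat_lit 0x0) (nat_lit 0x28001c000a0000000000) := T_2 (nat_lit 60) (nat_lit 77) (nat_lit 6) (nat_lit 8) (nat_lit 7) L1191039 (by decide +kernel)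
theorem L1191041 : W_2 (nat_lit 5) (nat_lit 0x1800580004000200000000000000000000000) (nat_lit 0x0) (nat_lit 0x2000000000000000038001c000a0000000000) := T_2 (nat_lit 76) (nat_lit 145) (nat_lit 7) (nat_lit 8) (nat_lit 4) L1191040 (by decide +kernel)
theorem L1191042 : W_2 (nat_lit 6) (nat_lit 0x1800480004000200000000000000000000000) (nat_lit 0x0) (nat_lit 0x2000300000000000038001c000a0000000000) := T_2 (nat_lit 128) (nat_lit 129) (nat_lit 1) (nat_lit 11) (nat_lit 7) L1191041 (by decide +kernel)
theorem L1191043 : W_2 (nat_lit 7) (nat_lit 0x1000480004000200000000000000000000000) (nat_lit 0x0) (nat_lit 0x10002800300000000000038001c000a0000000000) := T_2 (nat_lit 143) (nat_lit 160) (nat_lit 5) (nat_lit 8) (nat_lit 5) L1191042 (by decide +kernel)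
theorem L1191044 : W_2 (nat_lit 17) (nat_lit 0x1000080004000200000000000000000000000) (nat_lit 0x0) (nat_lit 0x28001c007f801fe00fbc07ee07f003f200fc003f800ff007a0038000000) := Q_2 (nat_lit 130) (C_2 L1190297 (C_2 L1190301 (C_2 L1190368 (C_2 L1190878 (C_2 L1190882 (C_2 L1191005 (C_2 L1191037 (C_2 L1191043 N_2)))))))) (by decide +kernel)
theorem L1191045 : W_2 (nat_lit 2) (nat_lit 0x10001000080006800600000000000000000000000) (nat_lit 0x0) (nat_lit 0x200020000000000000000100000000000000000000000) := D_2 (nat_lit 161) (nat_lit 177) (nat_lit 92) (nat_lit 5) (nat_lit 8) (nat_lit 6) (nat_lit 4) (nat_lit 8) (nat_lit 9) (by decide +kernel)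
theorem L1191046 : W_2 (nat_lit 3) (nat_lit 0x10001000080004800600000000000000000000000) (nat_lit 0x0) (nat_lit 0x200020000000000003000100000000000000000000000) := T_2 (nat_lit 109) (nat_lit 108) (nat_lit 2) (nat_lit 5) (nat_lit 6) L1191045 (by decide +kernel)
theorem L1191047 : W_2 (nat_lit 4) (nat_lit 0x10001000080004800200000000000000000000000) (nat_lit 0x0) (nat_lit 0x200020000000000003000500020000000000000000000) := T_2 (nat_lit 94) (nat_lit 77) (nat_lit 6) (nat_lit 8) (nat_lit 8) L1191046 (by decide +kernel)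
theorem L1191048 : W_2 (nat_lit 5) (nat_lit 0x1000080004800200000000000000000000000) (nat_lit 0x0) (nat_lit 0x200030000800000003000500020000000000000000000) := T_2 (nat_lit 160) (nat_lit 143) (nat_lit 5) (nat_lit 8) (nat_lit 5) L1191047 (by decide +kernel)
theorem L1191049 : W_2 (nat_lit 2) (nat_lit 0x1000080005800280000000000000000000000) (nat_lit 0x0) (nat_lit 0x500020000000000000000000) := D_2 (nat_lit 94) (nat_lit 77) (nat_lit 92) (nat_lit 6) (nat_lit 8) (nat_lit 8) (nat_lit 1) (nat_lit 9) (nat_lit 5) (by decide +kernel)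
theorem L1191050 : W_2 (nat_lit 2) (nat_lit 0x1a00590005800280030000000000000000000) (nat_lit 0x0) (nat_lit 0x40004000200000000000000) := D_2 (nat_lit 74) (nat_lit 90) (nat_lit 57) (nat_lit 6) (nat_lit 5) (nat_lit 8) (nat_lit 5) (nat_lit 6) (nat_lit 3) (by decide +kernel)
theorem L1191051 : W_2 (nat_lit 3) (nat_lit 0x1a00580005800280030000000000000000000) (nat_lit 0x0) (nat_lit 0x4000000010000000040004000200000000000000) := T_2 (nat_lit 124) (nat_lit 158) (nat_lit 6) (nat_lit 5) (nat_lit 9) L1191050 (by decide +kernel)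
theorem L1191052 : W_2 (nat_lit 4) (nat_lit 0x1a00180005800280030000000000000000000) (nat_lit 0x0) (nat_lit 0x4000000610000000040004000200000000000000) := T_2 (nat_lit 130) (nat_lit 129) (nat_lit 1) (nat_lit 11) (nat_lit 7) L1191051 (by decide +kernel)
theorem L1191053 : W_2 (nat_lit 5) (nat_lit 0x1800180005800280030000000000000000000) (nat_lit 0x0) (nat_lit 0x4000600610000000040004000200000000000000) := T_2 (nat_lit 141) (nat_lit 142) (nat_lit 2) (nat_lit 5) (nat_lit 8) L1191052 (by decide +kernel)
theorem L1191054 : W_2 (nat_lit 6) (nat_lit 0x1800080005800280030000000000000000000) (nat_lit 0x0) (nat_lit 0x4002600710000000040004000200000000000000) := T_2 (nat_lit 128) (nat_lit 145) (nat_lit 7) (nat_lit 8) (nat_lit 4) L1191053 (by decide +kernel)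
theorem L1191055 : W_2 (nat_lit 7) (nat_lit 0x1800080005800280020000000000000000000) (nat_lit 0x0) (nat_lit 0x4002600710000000040014001200000000000000) := T_2 (nat_lit 76) (nat_lit 60) (nat_lit 6) (nat_lit 8) (nat_lit 7) L1191054 (by decide +kernel)
theorem L1191056 : W_2 (nat_lit 8) (nat_lit 0x1800080005800280000000000000000000000) (nat_lit 0x0) (nat_lit 0x4002600710000000440034001200000000000000) := T_2 (nat_lit 77) (nat_lit 94) (nat_lit 6) (nat_lit 8) (nat_lit 8) L1191055 (by decide +kernel)
theorem L1191057 : W_2 (nat_lit 9) (nat_lit 0x1000080005800280000000000000000000000) (nat_lit 0x0) (nat_lit 0x14002e00710000000440034001200000000000000) := T_2 (nat_lit 143) (nat_lit 160) (nat_lit 5) (nat_lit 8) (nat_lit 5) L1191056 (by decide +kernel)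
theorem L1191058 : W_2 (nat_lit 3) (nat_lit 0x1000080005800280000000000000000000000) (nat_lit 0x0) (nat_lit 0x600540000000000000000000000) := T_2 (nat_lit 92) (nat_lit 94) (nat_lit 1) (nat_lit 9) (nat_lit 5) L128715 (by decide +kernel)
theorem L1191059 : W_2 (nat_lit 2) (nat_lit 0x1e00080005800280000000000000000000000) (nat_lit 0x0) (nat_lit 0x6000000010000000000000000000000000000000) := D_2 (nat_lit 158) (nat_lit 157) (nat_lit 124) (nat_lit 1) (nat_lit 8) (nat_lit 8) (nat_lit 6) (nat_lit 5) (nat_lit 9) (by decide +kernel)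
theorem L1191060 : W_2 (nat_lit 3) (nat_lit 0x1a00080005800280000000000000000000000) (nat_lit 0x0) (nat_lit 0x6000400110000000000000000000000000000000) := T_2 (nat_lit 142) (nat_lit 128) (nat_lit 2) (nat_lit 5) (nat_lit 8) L1191059 (by decide +kernel)
theorem L1191061 : W_2 (nat_lit 4) (nat_lit 0x1200080005800280000000000000000000000) (nat_lit 0x0) (nat_lit 0x16000c00110000000000000000000000000000000) := T_2 (nat_lit 143) (nat_lit 160) (nat_lit 5) (nat_lit 8) (nat_lit 5) L1191060 (by decide +kernel)
theorem L1191062 : W_2 (nat_lit 2) (nat_lit 0x1200090005800280000000000000000000000) (nat_lit 0x0) (nat_lit 0x40004000200000000000000) := D_2 (nat_lit 74) (nat_lit 90) (nat_lit 57) (nat_lit 6) (nat_lit 5) (nat_lit 8) (nat_lit 5) (nat_lit 6) (nat_lit 3) (by decide +kernel)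
theorem L1191063 : W_2 (nat_lit 3) (nat_lit 0x1200080005800280000000000000000000000) (nat_lit 0x0) (nat_lit 0x4000000010000000040004000200000000000000) := T_2 (nat_lit 124) (nat_lit 158) (nat_lit 6) (nat_lit 5) (nat_lit 9) L1191062 (by decide +kernel)
theorem L1191064 : W_2 (nat_lit 2) (nat_lit 0x1e00080005800280000000000000000000000) (nat_lit 0x0) (nat_lit 0x6000000020000000000000000000000000000000) := D_2 (nat_lit 158) (nat_lit 157) (nat_lit 125) (nat_lit 1) (nat_lit 8) (nat_lit 8) (nat_lit 5) (nat_lit 6) (nat_lit 5) (by decide +kernel)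
theorem L1191065 : W_2 (nat_lit 3) (nat_lit 0x1a00080005800280000000000000000000000) (nat_lit 0x0) (nat_lit 0x6000400120000000000000000000000000000000) := T_2 (nat_lit 142) (nat_lit 128) (nat_lit 2) (nat_lit 5) (nat_lit 8) L1191064 (by decide +kernel)
theorem L1191066 : W_2 (nat_lit 4) (nat_lit 0x1200080005800280000000000000000000000) (nat_lit 0x0) (nat_lit 0x16000c00120000000000000000000000000000000) := T_2 (nat_lit 143) (nat_lit 160) (nat_lit 5) (nat_lit 8) (nat_lit 5) L1191065 (by decide +kernel)
theorem L1191067 : W_2 (nat_lit 2) (nat_lit 0x1e00090005800280000000000000000000000) (nat_lit 0x0) (nat_lit 0x2000020000000000004000000000000000000) := D_2 (nat_lit 125) (nat_lit 145) (nat_lit 74) (nat_lit 0) (nat_lit 9) (nat_lit 8) (nat_lit 5) (nat_lit 6) (nat_lit 4) (by decide +kernel)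
theorem L1191068 : W_2 (nat_lit 3) (nat_lit 0x1e00080005800280000000000000000000000) (nat_lit 0x0) (nat_lit 0x2000038000000000004000000000000000000) := T_2 (nat_lit 124) (nat_lit 123) (nat_lit 0) (nat_lit 8) (nat_lit 8) L1191067 (by decide +kernel)
theorem L1191069 : W_2 (nat_lit 4) (nat_lit 0x1a00080005800280000000000000000000000) (nat_lit 0x0) (nat_lit 0x2400138000000000004000000000000000000) := T_2 (nat_lit 142) (nat_lit 128) (nat_lit 2) (nat_lit 5) (nat_lit 8) L1191068 (by decide +kernel)
theorem L1191070 : W_2 (nat_lit 5) (nat_lit 0x1200080005800280000000000000000000000) (nat_lit 0x0) (nat_lit 0x10002c00138000000000004000000000000000000) := T_2 (nat_lit 143) (nat_lit 160) (nat_lit 5) (nat_lit 8) (nat_lit 5) L1191069 (by decide +kernel)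
theorem L1191071 : W_2 (nat_lit 6) (nat_lit 0x1000080005800280000000000000000000000) (nat_lit 0x0) (nat_lit 0x16002e00138000000040004000200000000000000) := Q_2 (nat_lit 141) (C_2 L1191061 (C_2 L1191063 (C_2 L1191066 (C_2 L1191070 N_2)))) (by decide +kernel)
theorem L1191072 : W_2 (nat_lit 10) (nat_lit 0x1000080005800200000000000000000000000) (nat_lit 0x0) (nat_lit 0x16002e007380006005c0034001200000000000000) := Q_2 (nat_lit 91) (C_2 L1191049 (C_2 L1191057 (C_2 L1191058 (C_2 L1191071 N_2)))) (by decide +kernel)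
theorem L1191073 : W_2 (nat_lit 2) (nat_lit 0x1800080007c00200000000000000000000000) (nat_lit 0x0) (nat_lit 0x1c000000000000000000000000000000) := D_2 (nat_lit 123) (nat_lit 122) (nat_lit 124) (nat_lit 1) (nat_lit 7) (nat_lit 6) (nat_lit 1) (nat_lit 8) (nat_lit 6) (by decide +kernel)
theorem L1191074 : W_2 (nat_lit 3) (nat_lit 0x1800080007800200000000000000000000000) (nat_lit 0x0) (nat_lit 0x1c000400100000000000000000000000) := T_2 (nat_lit 106) (nat_lit 92) (nat_lit 2) (nat_lit 4) (nat_lit 6) L1191073 (by decide +kernel)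
theorem L1191075 : W_2 (nat_lit 4) (nat_lit 0x1800080005800200000000000000000000000) (nat_lit 0x0) (nat_lit 0x11c002400100000000000000000000000) := T_2 (nat_lit 109) (nat_lit 128) (nat_lit 3) (nat_lit 5) (nat_lit 6) L1191074 (by decide +kernel)
theorem L1191076 : W_2 (nat_lit 5) (nat_lit 0x1000080005800200000000000000000000000) (nat_lit 0x0) (nat_lit 0x1000080011c002400100000000000000000000000) := T_2 (nat_lit 143) (nat_lit 160) (nat_lit 5) (nat_lit 8) (nat_lit 5) L1191075 (by decide +kernel)
theorem L1191077 : W_2 (nat_lit 11) (nat_lit 0x1000080004800200000000000000000000000) (nat_lit 0x0) (nat_lit 0x16002e0073c0036005c0034001200000000000000) := Q_2 (nat_lit 108) (C_2 L1191072 (C_2 L90180 (C_2 L90181 (C_2 L1191076 N_2)))) (by decide +kernel)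
theorem L1191078 : W_2 (nat_lit 2) (nat_lit 0x1000080006801740000000000000000000000) (nat_lit 0x0) (nat_lit 0x4000a0000000000000000000000) := D_2 (nat_lit 91) (nat_lit 89) (nat_lit 106) (nat_lit 3) (nat_lit 4) (nat_lit 5) (nat_lit 1) (nat_lit 8) (nat_lit 5) (by decide +kernel)
theorem L1191079 : W_2 (nat_lit 3) (nat_lit 0x1000080006801640000000000000000000000) (nat_lit 0x0) (nat_lit 0x200000000000004001a0000000000000000000000) := T_2 (nat_lit 92) (nat_lit 161) (nat_lit 4) (nat_lit 8) (nat_lit 9) L1191078 (by decide +kernel)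
theorem L1191080 : W_2 (nat_lit 4) (nat_lit 0x1000080006800640000000000000000000000) (nat_lit 0x0) (nat_lit 0x200000000000004019a0000000000000000000000) := T_2 (nat_lit 96) (nat_lit 95) (nat_lit 1) (nat_lit 11) (nat_lit 5) L1191079 (by decide +kernel)
theorem L1191081 : W_2 (nat_lit 5) (nat_lit 0x1000080004800640000000000000000000000) (nat_lit 0x0) (nat_lit 0x200000000000034019a0000000000000000000000) := T_2 (nat_lit 109) (nat_lit 108) (nat_lit 2) (nat_lit 5) (nat_lit 6) L1191080 (by decide +kernel)
theorem L1191082 : W_2 (nat_lit 6) (nat_lit 0x1000080004800240000000000000000000000) (nat_lit 0x0) (nat_lit 0x20000000000003401da0020000000000000000000) := T_2 (nat_lit 94) (nat_lit 77) (nat_lit 6) (nat_lit 8) (nat_lit 8) L1191081 (by decide +kernel)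
theorem L1191083 : W_2 (nat_lit 2) (nat_lit 0x1000080006800340000000000000000000000) (nat_lit 0x0) (nat_lit 0x4000a0000000000000000000000) := D_2 (nat_lit 91) (nat_lit 106) (nat_lit 89) (nat_lit 1) (nat_lit 8) (nat_lit 5) (nat_lit 3) (nat_lit 4) (nat_lit 5) (by decide +kernel)
theorem L1191084 : W_2 (nat_lit 3) (nat_lit 0x1000080004800340000000000000000000000) (nat_lit 0x0) (nat_lit 0x200000000000024000a0000000000000000000000) := T_2 (nat_lit 109) (nat_lit 161) (nat_lit 4) (nat_lit 8) (nat_lit 9) L1191083 (by decide +kernel)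
theorem L1191136 : W_2 (nat_lit 5) (nat_lit 0x1000080004800240002000000000000000000) (nat_lit 0x0) (nat_lit 0x3000180004000a0005000380014000000000) := Q_2 (nat_lit 124) (C_2 L70493 (C_2 L70486 (C_2 L70489 (C_2 L70474 N_2)))) (by decide +kernel)
theorem L1191137 : W_2 (nat_lit 2) (nat_lit 0x14005900068003400b2000e00000000000000) (nat_lit 0x0) (nat_lit 0x8000a00000000000000000000000000000000000) := D_2 (nat_lit 141) (nat_lit 143) (nat_lit 159) (nat_lit 2) (nat_lit 5) (nat_lit 8) (nat_lit 7) (nat_lit 5) (nat_lit 5) (by decide +kernel)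
theorem L1191138 : W_2 (nat_lit 3) (nat_lit 0x10005900068003400b2000e00000000000000) (nat_lit 0x0) (nat_lit 0x8000e00020000000000000000000000000000000) := T_2 (nat_lit 142) (nat_lit 125) (nat_lit 7) (nat_lit 5) (nat_lit 4) L1191137 (by decide +kernel)
theorem L1191139 : W_2 (nat_lit 4) (nat_lit 0x10005800068003400b2000e00000000000000) (nat_lit 0x0) (nat_lit 0x8000e00030000000000004000000000000000000) := T_2 (nat_lit 124) (nat_lit 74) (nat_lit 6) (nat_lit 5) (nat_lit 7) L1191138 (by decide +kernel)
theorem L1191140 : W_2 (nat_lit 5) (nat_lit 0x10005800068003400b2000c00000000000000) (nat_lit 0x0) (nat_lit 0x8000e00030000000000004000300000000000000) := T_2 (nat_lit 57) (nat_lit 56) (nat_lit 3) (nat_lit 5) (nat_lit 3) L1191139 (by decide +kernel)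
theorem L1191141 : W_2 (nat_lit 6) (nat_lit 0x10005800068003400b2000800000000000000) (nat_lit 0x0) (nat_lit 0x8000e00030000000000004000700020000000000) := T_2 (nat_lit 58) (nat_lit 41) (nat_lit 4) (nat_lit 8) (nat_lit 6) L1191140 (by decide +kernel)
theorem L1191142 : W_2 (nat_lit 7) (nat_lit 0x10001800068003400b2000800000000000000) (nat_lit 0x0) (nat_lit 0x8000e00630000000000004000700020000000000) := T_2 (nat_lit 130) (nat_lit 129) (nat_lit 0) (nat_lit 11) (nat_lit 7) L1191141 (by decide +kernel)
theorem L1191143 : W_2 (nat_lit 8) (nat_lit 0x10001800068003400b2000000000000000000) (nat_lit 0x0) (nat_lit 0x8000e00630000000000004000f00060000000000) := T_2 (nat_lit 59) (nat_lit 42) (nat_lit 5) (nat_lit 8) (nat_lit 2) L1191142 (by decide +kernel)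
theorem L1191144 : W_2 (nat_lit 9) (nat_lit 0x1000180006800340032000000000000000000) (nat_lit 0x0) (nat_lit 0x8000e006300000000000c4000f00060000000000) := T_2 (nat_lit 79) (nat_lit 78) (nat_lit 1) (nat_lit 11) (nat_lit 4) L1191143 (by decide +kernel)
theorem L1191145 : W_2 (nat_lit 10) (nat_lit 0x1000180004800340032000000000000000000) (nat_lit 0x0) (nat_lit 0x28000e006300020000000c4000f00060000000000) := T_2 (nat_lit 109) (nat_lit 161) (nat_lit 4) (nat_lit 8) (nat_lit 9) L1191144 (by decide +kernel)
theorem L1191146 : W_2 (nat_lit 11) (nat_lit 0x1000080004800340032000000000000000000) (nat_lit 0x0) (nat_lit 0x28002e007300020000000c4000f00060000000000) := T_2 (nat_lit 128) (nat_lit 145) (nat_lit 7) (nat_lit 8) (nat_lit 4) L1191145 (by decide +kernel)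
theorem L1191147 : W_2 (nat_lit 12) (nat_lit 0x1000080004800240032000000000000000000) (nat_lit 0x0) (nat_lit 0x28002e007300020001800c4000f00060000000000) := T_2 (nat_lit 92) (nat_lit 91) (nat_lit 2) (nat_lit 5) (nat_lit 5) L1191146 (by decide +kernel)
theorem L1191148 : W_2 (nat_lit 13) (nat_lit 0x1000080004800240022000000000000000000) (nat_lit 0x0) (nat_lit 0x28002e007300020001800d4001f00060000000000) := T_2 (nat_lit 76) (nat_lit 60) (nat_lit 6) (nat_lit 8) (nat_lit 7) L1191147 (by decide +kernel)
theorem L1191149 : W_2 (nat_lit 14) (nat_lit 0x1000080004800240002000000000000000000) (nat_lit 0x0) (nat_lit 0x28002e007300020005800f4001f00060000000000) := T_2 (nat_lit 77) (nat_lit 94) (nat_lit 6) (nat_lit 8) (nat_lit 8) L1191148 (by decide +kernel)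
theorem L1191150 : W_2 (nat_lit 2) (nat_lit 0x1000580006c003400b2000d00008000000000) (nat_lit 0x0) (nat_lit 0x80004000200000) := D_2 (nat_lit 38) (nat_lit 21) (nat_lit 55) (nat_lit 4) (nat_lit 5) (nat_lit 5) (nat_lit 4) (nat_lit 5) (nat_lit 6) (by decide +kernel)
theorem L1191151 : W_2 (nat_lit 3) (nat_lit 0x1000580006c003400b2000d00000000000000) (nat_lit 0x0) (nat_lit 0x2000000008000c000200000) := T_2 (nat_lit 39) (nat_lit 89) (nat_lit 5) (nat_lit 5) (nat_lit 2) L1191150 (by decide +kernel)
theorem L1191152 : W_2 (nat_lit 4) (nat_lit 0x10005800068003400b2000d00000000000000) (nat_lit 0x0) (nat_lit 0x800040002000000008000c000200000) := T_2 (nat_lit 106) (nat_lit 123) (nat_lit 5) (nat_lit 5) (nat_lit 3) L1191151 (by decide +kernel)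
theorem L1191153 : W_2 (nat_lit 5) (nat_lit 0x10005800068003400b2000c00000000000000) (nat_lit 0x0) (nat_lit 0x800040002000000038000c000200000) := T_2 (nat_lit 56) (nat_lit 57) (nat_lit 3) (nat_lit 5) (nat_lit 3) L1191152 (by decide +kernel)
theorem L1191154 : W_2 (nat_lit 6) (nat_lit 0x10005800068003400b2000800000000000000) (nat_lit 0x0) (nat_lit 0x800040002000000078002c000200000) := T_2 (nat_lit 58) (nat_lit 41) (nat_lit 4) (nat_lit 8) (nat_lit 6) L1191153 (by decide +kernel)
theorem L1191155 : W_2 (nat_lit 7) (nat_lit 0x10001800068003400b2000800000000000000) (nat_lit 0x0) (nat_lit 0x60800040002000000078002c000200000) := T_2 (nat_lit 130) (nat_lit 129) (nat_lit 0) (nat_lit 11) (nat_lit 7) L1191154 (by decide +kernel)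
theorem L1191156 : W_2 (nat_lit 8) (nat_lit 0x10001800068003400b2000000000000000000) (nat_lit 0x0) (nat_lit 0x608000400020000000f8006c000200000) := T_2 (nat_lit 59) (nat_lit 42) (nat_lit 5) (nat_lit 8) (nat_lit 2) L1191155 (by decide +kernel)
theorem L1191157 : W_2 (nat_lit 9) (nat_lit 0x1000180006800340032000000000000000000) (nat_lit 0x0) (nat_lit 0x6080004000200c0000f8006c000200000) := T_2 (nat_lit 79) (nat_lit 78) (nat_lit 1) (nat_lit 11) (nat_lit 4) L1191156 (by decide +kernel)
theorem L1191158 : W_2 (nat_lit 10) (nat_lit 0x1000180004800340032000000000000000000) (nat_lit 0x0) (nat_lit 0x200000006080024000200c0000f8006c000200000) := T_2 (nat_lit 109) (nat_lit 161) (nat_lit 4) (nat_lit 8) (nat_lit 9) L1191157 (by decide +kernel)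
theorem L1191159 : W_2 (nat_lit 11) (nat_lit 0x1000080004800340032000000000000000000) (nat_lit 0x0) (nat_lit 0x200020007080024000200c0000f8006c000200000) := T_2 (nat_lit 128) (nat_lit 145) (nat_lit 7) (nat_lit 8) (nat_lit 4) L1191158 (by decide +kernel)
theorem L1191160 : W_2 (nat_lit 12) (nat_lit 0x1000080004800240032000000000000000000) (nat_lit 0x0) (nat_lit 0x200020007080024001a00c0000f8006c000200000) := T_2 (nat_lit 92) (nat_lit 91) (nat_lit 2) (nat_lit 5) (nat_lit 5) L1191159 (by decide +kernel)
theorem L1191161 : W_2 (nat_lit 13) (nat_lit 0x1000080004800240022000000000000000000) (nat_lit 0x0) (nat_lit 0x200020007080024001a00d0001f8006c000200000) := T_2 (nat_lit 76) (nat_lit 60) (nat_lit 6) (nat_lit 8) (nat_lit 7) L1191160 (by decide +kernel)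
theorem L1191162 : W_2 (nat_lit 14) (nat_lit 0x1000080004800240002000000000000000000) (nat_lit 0x0) (nat_lit 0x200020007080024005a00f0001f8006c000200000) := T_2 (nat_lit 77) (nat_lit 94) (nat_lit 6) (nat_lit 8) (nat_lit 8) L1191161 (by decide +kernel)
theorem L1191163 : W_2 (nat_lit 2) (nat_lit 0x10000b80048002c003200010000c000000000) (nat_lit 0x0) (nat_lit 0x200000000000000004000000000000400000) := D_2 (nat_lit 74) (nat_lit 141) (nat_lit 22) (nat_lit 6) (nat_lit 5) (nat_lit 8) (nat_lit 7) (nat_lit 5) (nat_lit 1) (by decide +kernel)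
theorem L1191164 : W_2 (nat_lit 3) (nat_lit 0x10000b800480024003200010000c000000000) (nat_lit 0x0) (nat_lit 0x200000000000180004000000000000400000) := T_2 (nat_lit 91) (nat_lit 92) (nat_lit 2) (nat_lit 5) (nat_lit 5) L1191163 (by decide +kernel)
theorem L1191165 : W_2 (nat_lit 4) (nat_lit 0x10000b800480024002200010000c000000000) (nat_lit 0x0) (nat_lit 0x200000000000180014001000000000400000) := T_2 (nat_lit 76) (nat_lit 60) (nat_lit 6) (nat_lit 8) (nat_lit 7) L1191164 (by decide +kernel)
theorem L1191166 : W_2 (nat_lit 5) (nat_lit 0x10000b8004800240022000100004000000000) (nat_lit 0x0) (nat_lit 0x200000000000180014001000008000600000) := T_2 (nat_lit 39) (nat_lit 21) (nat_lit 4) (nat_lit 5) (nat_lit 5) L1191165 (by decide +kernel)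
theorem L1191167 : W_2 (nat_lit 6) (nat_lit 0x10000b8004800240002000100004000000000) (nat_lit 0x0) (nat_lit 0x200000000000580034001000008000600000) := T_2 (nat_lit 77) (nat_lit 94) (nat_lit 6) (nat_lit 8) (nat_lit 8) L1191166 (by decide +kernel)
theorem L1191168 : W_2 (nat_lit 7) (nat_lit 0x10000b8004800240002000100000000000000) (nat_lit 0x0) (nat_lit 0x20000000000058003400108000c000600000) := T_2 (nat_lit 38) (nat_lit 55) (nat_lit 4) (nat_lit 5) (nat_lit 6) L1191167 (by decide +kernel)
theorem L1191169 : W_2 (nat_lit 8) (nat_lit 0x10000b8004800240002000000000000000000) (nat_lit 0x0) (nat_lit 0x20000000040058003400118000c000600000) := T_2 (nat_lit 56) (nat_lit 106) (nat_lit 5) (nat_lit 5) (nat_lit 3) L1191168 (by decide +kernel)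
theorem L1191170 : W_2 (nat_lit 9) (nat_lit 0x10000b0004800240002000000000000000000) (nat_lit 0x0) (nat_lit 0x30000800040058003400118000c000600000) := T_2 (nat_lit 123) (nat_lit 140) (nat_lit 5) (nat_lit 5) (nat_lit 4) L1191169 (by decide +kernel)
theorem L1191171 : W_2 (nat_lit 10) (nat_lit 0x1000090004800240002000000000000000000) (nat_lit 0x0) (nat_lit 0x70002800040058003400118000c000600000) := T_2 (nat_lit 125) (nat_lit 142) (nat_lit 7) (nat_lit 5) (nat_lit 4) L1191170 (by decide +kernel)
theorem L1191172 : W_2 (nat_lit 11) (nat_lit 0x1000080004800240002000000000000000000) (nat_lit 0x0) (nat_lit 0x10000e0007000380004005a003500118000c000600000) := Q_2 (nat_lit 124) (C_2 L70486 (C_2 L258917 (C_2 L1191171 (C_2 L243034 N_2)))) (by decide +kernel)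
theorem L1191173 : W_2 (nat_lit 15) (nat_lit 0x1000080004800240000000000000000000000) (nat_lit 0x0) (nat_lit 0x10002e002f007380026005b80f7c01fe007f800e00000) := Q_2 (nat_lit 73) (C_2 L259076 (C_2 L1191136 (C_2 L1191149 (C_2 L1191162 (C_2 L1191172 (C_2 L258928 N_2)))))) (by decide +kernel)
theorem L1191174 : W_2 (nat_lit 2) (nat_lit 0x1000080006800240000000000000000000000) (nat_lit 0x0) (nat_lit 0x1000420000000000000000000000) := D_2 (nat_lit 108) (nat_lit 89) (nat_lit 94) (nat_lit 0) (nat_lit 8) (nat_lit 6) (nat_lit 2) (nat_lit 5) (nat_lit 6) (by decide +kernel)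
theorem L1191175 : W_2 (nat_lit 3) (nat_lit 0x1000080006800240000000000000000000000) (nat_lit 0x0) (nat_lit 0x200000000000004001a0000000000000000000000) := T_2 (nat_lit 92) (nat_lit 161) (nat_lit 4) (nat_lit 8) (nat_lit 9) L1191083 (by decide +kernel)
theorem L1191176 : W_2 (nat_lit 2) (nat_lit 0x1000080006800240000000000000000000000) (nat_lit 0x0) (nat_lit 0x100001000400000000000000000000000) := D_2 (nat_lit 108) (nat_lit 128) (nat_lit 94) (nat_lit 3) (nat_lit 5) (nat_lit 6) (nat_lit 2) (nat_lit 5) (nat_lit 6) (by decide +kernel)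
theorem L1191177 : W_2 (nat_lit 4) (nat_lit 0x1000080004800240000000000000000000000) (nat_lit 0x0) (nat_lit 0x200000001000034005a0000000000000000000000) := Q_2 (nat_lit 109) (C_2 L1191174 (C_2 L1191175 (C_2 L1191176 N_2))) (by decide +kernel)
theorem L1191178 : W_2 (nat_lit 2) (nat_lit 0x1000080006800240000000000000000000000) (nat_lit 0x0) (nat_lit 0x100001000020000000000000000000000) := D_2 (nat_lit 108) (nat_lit 89) (nat_lit 128) (nat_lit 0) (nat_lit 8) (nat_lit 6) (nat_lit 3) (nat_lit 5) (nat_lit 6) (by decide +kernel)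
theorem L1191179 : W_2 (nat_lit 2) (nat_lit 0x1000080007800240000000000000000000000) (nat_lit 0x0) (nat_lit 0x20000000000000400100000000000000000000000) := D_2 (nat_lit 92) (nat_lit 106) (nat_lit 161) (nat_lit 2) (nat_lit 4) (nat_lit 6) (nat_lit 4) (nat_lit 8) (nat_lit 9) (by decide +kernel)
theorem L1191180 : W_2 (nat_lit 3) (nat_lit 0x1000080006800240000000000000000000000) (nat_lit 0x0) (nat_lit 0x20000000100001400100000000000000000000000) := T_2 (nat_lit 108) (nat_lit 128) (nat_lit 3) (nat_lit 5) (nat_lit 6) L1191179 (by decide +kernel)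
theorem L1191181 : W_2 (nat_lit 4) (nat_lit 0x1000080004800240000000000000000000000) (nat_lit 0x0) (nat_lit 0x200000001000034001a0000000000000000000000) := Q_2 (nat_lit 109) (C_2 L1191178 (C_2 L1191175 (C_2 L1191180 N_2))) (by decide +kernel)
theorem L1191232 : W_2 (nat_lit 2) (nat_lit 0x1600190004800240012000000000000000000) (nat_lit 0x0) (nat_lit 0x20001000080000000000000) := D_2 (nat_lit 72) (nat_lit 89) (nat_lit 55) (nat_lit 4) (nat_lit 5) (nat_lit 8) (nat_lit 4) (nat_lit 5) (nat_lit 7) (by decide +kernel)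
theorem L1191233 : W_2 (nat_lit 3) (nat_lit 0x1600190004800240010000000000000000000) (nat_lit 0x0) (nat_lit 0x20000000020003000080000000000000) := T_2 (nat_lit 73) (nat_lit 125) (nat_lit 7) (nat_lit 5) (nat_lit 4) L1191232 (by decide +kernel)
theorem L1191245 : W_2 (nat_lit 4) (nat_lit 0x10005900068003400b0000e00000000000000) (nat_lit 0x0) (nat_lit 0x8000e00020000000000006000000000000000000) := T_2 (nat_lit 73) (nat_lit 74) (nat_lit 6) (nat_lit 5) (nat_lit 7) L1191138 (by decide +kernel)
theorem L1191246 : W_2 (nat_lit 5) (nat_lit 0x10005900068003400b0000c00000000000000) (nat_lit 0x0) (nat_lit 0x8000e00020000000000006000300000000000000) := T_2 (nat_lit 57) (nat_lit 56) (nat_lit 3) (nat_lit 5) (nat_lit 3) L1191245 (by decide +kernel)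
theorem L1191247 : W_2 (nat_lit 6) (nat_lit 0x10005900068003400b0000800000000000000) (nat_lit 0x0) (nat_lit 0x8000e00020000000000006000700020000000000) := T_2 (nat_lit 58) (nat_lit 41) (nat_lit 4) (nat_lit 8) (nat_lit 6) L1191246 (by decide +kernel)
theorem L1191248 : W_2 (nat_lit 7) (nat_lit 0x10005900068003400b0000000000000000000) (nat_lit 0x0) (nat_lit 0x8000e00020000000000006000f00060000000000) := T_2 (nat_lit 59) (nat_lit 42) (nat_lit 5) (nat_lit 8) (nat_lit 2) L1191247 (by decide +kernel)
theorem L1191249 : W_2 (nat_lit 8) (nat_lit 0x1000590006800340030000000000000000000) (nat_lit 0x0) (nat_lit 0x8000e000200000000000c6000f00060000000000) := T_2 (nat_lit 79) (nat_lit 78) (nat_lit 1) (nat_lit 11) (nat_lit 4) L1191248 (by decide +kernel)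
theorem L1191250 : W_2 (nat_lit 9) (nat_lit 0x1000590006800240030000000000000000000) (nat_lit 0x0) (nat_lit 0x28000e000200000001000c6000f00060000000000) := T_2 (nat_lit 92) (nat_lit 161) (nat_lit 4) (nat_lit 8) (nat_lit 9) L1191249 (by decide +kernel)
theorem L1191251 : W_2 (nat_lit 10) (nat_lit 0x1000190006800240030000000000000000000) (nat_lit 0x0) (nat_lit 0x28000e006200000001000c6000f00060000000000) := T_2 (nat_lit 130) (nat_lit 129) (nat_lit 0) (nat_lit 11) (nat_lit 7) L1191250 (by decide +kernel)
theorem L1191252 : W_2 (nat_lit 11) (nat_lit 0x1000190004800240030000000000000000000) (nat_lit 0x0) (nat_lit 0x28000e006200030001000c6000f00060000000000) := T_2 (nat_lit 109) (nat_lit 108) (nat_lit 3) (nat_lit 5) (nat_lit 6) L1191251 (by decide +kernel)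
theorem L1191253 : W_2 (nat_lit 12) (nat_lit 0x1000090004800240030000000000000000000) (nat_lit 0x0) (nat_lit 0x28002e007200030001000c6000f00060000000000) := T_2 (nat_lit 128) (nat_lit 145) (nat_lit 7) (nat_lit 8) (nat_lit 4) L1191252 (by decide +kernel)
theorem L1191254 : W_2 (nat_lit 13) (nat_lit 0x1000090004800240020000000000000000000) (nat_lit 0x0) (nat_lit 0x28002e007200030001000d6001f00060000000000) := T_2 (nat_lit 76) (nat_lit 60) (nat_lit 6) (nat_lit 8) (nat_lit 7) L1191253 (by decide +kernel)
theorem L1191255 : W_2 (nat_lit 14) (nat_lit 0x1000090004800240000000000000000000000) (nat_lit 0x0) (nat_lit 0x28002e007200030005000f6001f00060000000000) := T_2 (nat_lit 77) (nat_lit 94) (nat_lit 6) (nat_lit 8) (nat_lit 8) L1191254 (by decide +kernel)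
theorem L1191256 : W_2 (nat_lit 2) (nat_lit 0x1600090005800640000000000000000000000) (nat_lit 0x0) (nat_lit 0x800108000000000000000000000000000000) := D_2 (nat_lit 143) (nat_lit 128) (nat_lit 123) (nat_lit 2) (nat_lit 5) (nat_lit 8) (nat_lit 0) (nat_lit 8) (nat_lit 8) (by decide +kernel)
theorem L1191257 : W_2 (nat_lit 3) (nat_lit 0x1200090005800640000000000000000000000) (nat_lit 0x0) (nat_lit 0x8000c00108000000000000000000000000000000) := T_2 (nat_lit 142) (nat_lit 159) (nat_lit 7) (nat_lit 5) (nat_lit 5) L1191256 (by decide +kernel)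
theorem L1191258 : W_2 (nat_lit 4) (nat_lit 0x1200090004800640000000000000000000000) (nat_lit 0x0) (nat_lit 0x8000c00108003000000000000000000000000000) := T_2 (nat_lit 108) (nat_lit 109) (nat_lit 2) (nat_lit 5) (nat_lit 6) L1191257 (by decide +kernel)
theorem L1191259 : W_2 (nat_lit 5) (nat_lit 0x1200090004800240000000000000000000000) (nat_lit 0x0) (nat_lit 0x8000c00108003000400020000000000000000000) := T_2 (nat_lit 94) (nat_lit 77) (nat_lit 6) (nat_lit 8) (nat_lit 8) L1191258 (by decide +kernel)
theorem L1191260 : W_2 (nat_lit 6) (nat_lit 0x1000090004800240000000000000000000000) (nat_lit 0x0) (nat_lit 0x14000e000f00108003400420021000000000000000000) := Q_2 (nat_lit 141) (C_2 L246594 (C_2 L70972 (C_2 L1191259 N_2))) (by decide +kernel)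
theorem L1191261 : W_2 (nat_lit 15) (nat_lit 0x1000080004800240000000000000000000000) (nat_lit 0x0) (nat_lit 0x14002e002fc073e0037005300f7001f80074000000000) := Q_2 (nat_lit 124) (C_2 L70722 (C_2 L246444 (C_2 L70712 (C_2 L1191255 (C_2 L1191260 N_2))))) (by decide +kernel)
theorem L1191262 : W_2 (nat_lit 2) (nat_lit 0x10000800068017c0000000000000000000000) (nat_lit 0x0) (nat_lit 0x7000000000000000000) := D_2 (nat_lit 73) (nat_lit 74) (nat_lit 72) (nat_lit 0) (nat_lit 9) (nat_lit 5) (nat_lit 0) (nat_lit 8) (nat_lit 5) (by decide +kernel)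
theorem L1191263 : W_2 (nat_lit 3) (nat_lit 0x1000080006801740000000000000000000000) (nat_lit 0x0) (nat_lit 0xa0007000000000000000000) := T_2 (nat_lit 91) (nat_lit 89) (nat_lit 3) (nat_lit 4) (nat_lit 5) L1191262 (by decide +kernel)
theorem L1191264 : W_2 (nat_lit 4) (nat_lit 0x1000080006801640000000000000000000000) (nat_lit 0x0) (nat_lit 0x200000000000000001a0007000000000000000000) := T_2 (nat_lit 92) (nat_lit 161) (nat_lit 4) (nat_lit 8) (nat_lit 9) L1191263 (by decide +kernel)
theorem L1191265 : W_2 (nat_lit 5) (nat_lit 0x1000080006800640000000000000000000000) (nat_lit 0x0) (nat_lit 0x200000000000000019a0007000000000000000000) := T_2 (nat_lit 96) (nat_lit 95) (nat_lit 1) (nat_lit 11) (nat_lit 5) L1191264 (by decide +kernel)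
theorem L1191266 : W_2 (nat_lit 6) (nat_lit 0x1000080004800640000000000000000000000) (nat_lit 0x0) (nat_lit 0x200000000000030019a0007000000000000000000) := T_2 (nat_lit 109) (nat_lit 108) (nat_lit 2) (nat_lit 5) (nat_lit 6) L1191265 (by decide +kernel)
theorem L1191267 : W_2 (nat_lit 7) (nat_lit 0x1000080004800240000000000000000000000) (nat_lit 0x0) (nat_lit 0x20000000000003001da0027000000000000000000) := T_2 (nat_lit 94) (nat_lit 77) (nat_lit 6) (nat_lit 8) (nat_lit 8) L1191266 (by decide +kernel)
theorem L1191268 : W_2 (nat_lit 3) (nat_lit 0x1000080006801740000000000000000000000) (nat_lit 0x0) (nat_lit 0x400080007000000000000000000) := T_2 (nat_lit 91) (nat_lit 106) (nat_lit 1) (nat_lit 8) (nat_lit 5) L1191262 (by decide +kernel)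
theorem L1191269 : W_2 (nat_lit 4) (nat_lit 0x1000080006801640000000000000000000000) (nat_lit 0x0) (nat_lit 0x20000000000000400180007000000000000000000) := T_2 (nat_lit 92) (nat_lit 161) (nat_lit 4) (nat_lit 8) (nat_lit 9) L1191268 (by decide +kernel)
theorem L1191270 : W_2 (nat_lit 5) (nat_lit 0x1000080006800640000000000000000000000) (nat_lit 0x0) (nat_lit 0x20000000000000401980007000000000000000000) := T_2 (nat_lit 96) (nat_lit 95) (nat_lit 1) (nat_lit 11) (nat_lit 5) L1191269 (by decide +kernel)
theorem L1191271 : W_2 (nat_lit 6) (nat_lit 0x1000080004800640000000000000000000000) (nat_lit 0x0) (nat_lit 0x20000000000003401980007000000000000000000) := T_2 (nat_lit 109) (nat_lit 108) (nat_lit 2) (nat_lit 5) (nat_lit 6) L1191270 (by decide +kernel)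
theorem L1191272 : W_2 (nat_lit 7) (nat_lit 0x1000080004800240000000000000000000000) (nat_lit 0x0) (nat_lit 0x20000000000003401d80027000000000000000000) := T_2 (nat_lit 94) (nat_lit 77) (nat_lit 6) (nat_lit 8) (nat_lit 8) L1191271 (by decide +kernel)
theorem L1191273 : W_2 (nat_lit 16) (nat_lit 0x1000080004800200000000000000000000000) (nat_lit 0x0) (nat_lit 0x14002e002fc073e003701df80f7c01fe007f800e00020) := Q_2 (nat_lit 90) (C_2 L258934 (C_2 L258815 (C_2 L1191082 (C_2 L1191173 (C_2 L91989 (C_2 L1191177 (C_2 L1191181 (C_2 L1191261 (C_2 L1191267 (C_2 L1191272 N_2)))))))))) (by decide +kernel)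
theorem L1191274 : W_2 (nat_lit 2) (nat_lit 0x1b005900048002c0032000000000000000000) (nat_lit 0x0) (nat_lit 0x20001000080000000000000) := D_2 (nat_lit 72) (nat_lit 55) (nat_lit 89) (nat_lit 4) (nat_lit 5) (nat_lit 7) (nat_lit 4) (nat_lit 5) (nat_lit 8) (by decide +kernel)
theorem L1191275 : W_2 (nat_lit 3) (nat_lit 0x1b005900048002c0030000000000000000000) (nat_lit 0x0) (nat_lit 0x8000000020003000080000000000000) := T_2 (nat_lit 73) (nat_lit 123) (nat_lit 5) (nat_lit 5) (nat_lit 4) L1191274 (by decide +kernel)
theorem L1191276 : W_2 (nat_lit 4) (nat_lit 0x1a005900048002c0030000000000000000000) (nat_lit 0x0) (nat_lit 0x2000100008000000020003000080000000000000) := T_2 (nat_lit 140) (nat_lit 157) (nat_lit 5) (nat_lit 5) (nat_lit 5) L1191275 (by decide +kernel)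
theorem L1191277 : W_2 (nat_lit 5) (nat_lit 0x1a005800048002c0030000000000000000000) (nat_lit 0x0) (nat_lit 0x2000100018000000020007000080000000000000) := T_2 (nat_lit 124) (nat_lit 74) (nat_lit 6) (nat_lit 5) (nat_lit 8) L1191276 (by decide +kernel)
theorem L1191278 : W_2 (nat_lit 6) (nat_lit 0x1a001800048002c0030000000000000000000) (nat_lit 0x0) (nat_lit 0x2000100618000000020007000080000000000000) := T_2 (nat_lit 130) (nat_lit 129) (nat_lit 1) (nat_lit 11) (nat_lit 7) L1191277 (by decide +kernel)
theorem L1191279 : W_2 (nat_lit 7) (nat_lit 0x18001800048002c0030000000000000000000) (nat_lit 0x0) (nat_lit 0x2000700618000000020007000080000000000000) := T_2 (nat_lit 141) (nat_lit 142) (nat_lit 2) (nat_lit 5) (nat_lit 8) L1191278 (by decide +kernel)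
theorem L1191280 : W_2 (nat_lit 8) (nat_lit 0x18000800048002c0030000000000000000000) (nat_lit 0x0) (nat_lit 0x2002700718000000020007000080000000000000) := T_2 (nat_lit 128) (nat_lit 145) (nat_lit 7) (nat_lit 8) (nat_lit 4) L1191279 (by decide +kernel)
theorem L1191281 : W_2 (nat_lit 9) (nat_lit 0x1800080004800240030000000000000000000) (nat_lit 0x0) (nat_lit 0x20027007180000001a0007000080000000000000) := T_2 (nat_lit 91) (nat_lit 92) (nat_lit 2) (nat_lit 5) (nat_lit 5) L1191280 (by decide +kernel)
theorem L1191282 : W_2 (nat_lit 10) (nat_lit 0x1800080004800240020000000000000000000) (nat_lit 0x0) (nat_lit 0x20027007180000001a0017001080000000000000) := T_2 (nat_lit 76) (nat_lit 60) (nat_lit 6) (nat_lit 8) (nat_lit 7) L1191281 (by decide +kernel)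
theorem L1191283 : W_2 (nat_lit 11) (nat_lit 0x1000080004800240020000000000000000000) (nat_lit 0x0) (nat_lit 0x12002f007180000001a0017001080000000000000) := T_2 (nat_lit 143) (nat_lit 160) (nat_lit 5) (nat_lit 8) (nat_lit 5) L1191282 (by decide +kernel)
theorem L1191284 : W_2 (nat_lit 12) (nat_lit 0x1000080004800240000000000000000000000) (nat_lit 0x0) (nat_lit 0x12002f007180000005a0037001080000000000000) := T_2 (nat_lit 77) (nat_lit 94) (nat_lit 6) (nat_lit 8) (nat_lit 8) L1191283 (by decide +kernel)
theorem L1191285 : W_2 (nat_lit 2) (nat_lit 0x300010000800048007c0000000000000000000000) (nat_lit 0x0) (nat_lit 0x7000000000000000000) := D_2 (nat_lit 73) (nat_lit 74) (nat_lit 72) (nat_lit 0) (nat_lit 9) (nat_lit 5) (nat_lit 0) (nat_lit 8) (nat_lit 5) (by decide +kernel)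
theorem L1191286 : W_2 (nat_lit 3) (nat_lit 0x30001000080004800740000000000000000000000) (nat_lit 0x0) (nat_lit 0x400080007000000000000000000) := T_2 (nat_lit 91) (nat_lit 106) (nat_lit 1) (nat_lit 8) (nat_lit 5) L1191285 (by decide +kernel)
theorem L1191287 : W_2 (nat_lit 4) (nat_lit 0x30001000080004800640000000000000000000000) (nat_lit 0x0) (nat_lit 0x2400180007000000000000000000) := T_2 (nat_lit 92) (nat_lit 109) (nat_lit 4) (nat_lit 8) (nat_lit 9) L1191286 (by decide +kernel)
theorem L1191288 : W_2 (nat_lit 5) (nat_lit 0x10001000080004800640000000000000000000000) (nat_lit 0x0) (nat_lit 0x200020000000000002400180007000000000000000000) := T_2 (nat_lit 161) (nat_lit 177) (nat_lit 5) (nat_lit 8) (nat_lit 6) L1191287 (by decide +kernel)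
theorem L1191289 : W_2 (nat_lit 6) (nat_lit 0x10001000080004800240000000000000000000000) (nat_lit 0x0) (nat_lit 0x200020000000000002400580027000000000000000000) := T_2 (nat_lit 94) (nat_lit 77) (nat_lit 6) (nat_lit 8) (nat_lit 8) L1191288 (by decide +kernel)
theorem L1191290 : W_2 (nat_lit 7) (nat_lit 0x1000080004800240000000000000000000000) (nat_lit 0x0) (nat_lit 0x200030000800000002400580027000000000000000000) := T_2 (nat_lit 160) (nat_lit 143) (nat_lit 5) (nat_lit 8) (nat_lit 5) L1191289 (by decide +kernel)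
theorem L1191366 : W_2 (nat_lit 2) (nat_lit 0x1600190004800240032000000000000000000) (nat_lit 0x0) (nat_lit 0x80004000200000000000000) := D_2 (nat_lit 74) (nat_lit 57) (nat_lit 91) (nat_lit 6) (nat_lit 5) (nat_lit 7) (nat_lit 6) (nat_lit 5) (nat_lit 8) (by decide +kernel)
theorem L1191367 : W_2 (nat_lit 3) (nat_lit 0x1600190004800240030000000000000000000) (nat_lit 0x0) (nat_lit 0x20000000080006000200000000000000) := T_2 (nat_lit 73) (nat_lit 125) (nat_lit 7) (nat_lit 5) (nat_lit 4) L1191366 (by decide +kernel)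
theorem L1191368 : W_2 (nat_lit 4) (nat_lit 0x1600180004800240030000000000000000000) (nat_lit 0x0) (nat_lit 0x8000000030000000080006000200000000000000) := T_2 (nat_lit 124) (nat_lit 159) (nat_lit 7) (nat_lit 5) (nat_lit 5) L1191367 (by decide +kernel)
theorem L1191369 : W_2 (nat_lit 5) (nat_lit 0x1200180004800240030000000000000000000) (nat_lit 0x0) (nat_lit 0x8000c00030000000080006000200000000000000) := T_2 (nat_lit 142) (nat_lit 143) (nat_lit 2) (nat_lit 5) (nat_lit 8) L1191368 (by decide +kernel)
theorem L1191370 : W_2 (nat_lit 6) (nat_lit 0x1200080004800240030000000000000000000) (nat_lit 0x0) (nat_lit 0x8002c00130000000080006000200000000000000) := T_2 (nat_lit 128) (nat_lit 145) (nat_lit 7) (nat_lit 8) (nat_lit 4) L1191369 (by decide +kernel)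
theorem L1191371 : W_2 (nat_lit 7) (nat_lit 0x1200080004800240020000000000000000000) (nat_lit 0x0) (nat_lit 0x8002c00130000000080016001200000000000000) := T_2 (nat_lit 76) (nat_lit 60) (nat_lit 6) (nat_lit 8) (nat_lit 7) L1191370 (by decide +kernel)
theorem L1191372 : W_2 (nat_lit 8) (nat_lit 0x1200080004800240000000000000000000000) (nat_lit 0x0) (nat_lit 0x8002c00130000000480036001200000000000000) := T_2 (nat_lit 77) (nat_lit 94) (nat_lit 6) (nat_lit 8) (nat_lit 8) L1191371 (by decide +kernel)
theorem L1191373 : W_2 (nat_lit 2) (nat_lit 0x1e00080004800240000000000000000000000) (nat_lit 0x0) (nat_lit 0x8000000018000000000000000000000000000000) := D_2 (nat_lit 124) (nat_lit 123) (nat_lit 159) (nat_lit 0) (nat_lit 8) (nat_lit 8) (nat_lit 7) (nat_lit 5) (nat_lit 5) (by decide +kernel)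
theorem L1191374 : W_2 (nat_lit 3) (nat_lit 0x1a00080004800240000000000000000000000) (nat_lit 0x0) (nat_lit 0x8000400118000000000000000000000000000000) := T_2 (nat_lit 142) (nat_lit 128) (nat_lit 2) (nat_lit 5) (nat_lit 8) L1191373 (by decide +kernel)
theorem L1191375 : W_2 (nat_lit 4) (nat_lit 0x1200080004800240000000000000000000000) (nat_lit 0x0) (nat_lit 0x18000c00118000000000000000000000000000000) := T_2 (nat_lit 143) (nat_lit 160) (nat_lit 5) (nat_lit 8) (nat_lit 5) L1191374 (by decide +kernel)
theorem L1191376 : W_2 (nat_lit 2) (nat_lit 0x1a00098004800260006000000000000000000) (nat_lit 0x0) (nat_lit 0x4000000000000400000000000100000000000000) := D_2 (nat_lit 106) (nat_lit 56) (nat_lit 158) (nat_lit 5) (nat_lit 5) (nat_lit 3) (nat_lit 4) (nat_lit 5) (nat_lit 9) (by decide +kernel)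
theorem L1191377 : W_2 (nat_lit 3) (nat_lit 0x1a00090004800260006000000000000000000) (nat_lit 0x0) (nat_lit 0x4000100008000400000000000100000000000000) := T_2 (nat_lit 123) (nat_lit 140) (nat_lit 5) (nat_lit 5) (nat_lit 4) L1191376 (by decide +kernel)
theorem L1191378 : W_2 (nat_lit 4) (nat_lit 0x1a00090004800260004000000000000000000) (nat_lit 0x0) (nat_lit 0x4000100008000400000002000300000000000000) := T_2 (nat_lit 73) (nat_lit 57) (nat_lit 6) (nat_lit 5) (nat_lit 7) L1191377 (by decide +kernel)
theorem L1191379 : W_2 (nat_lit 5) (nat_lit 0x1a00090004800240004000000000000000000) (nat_lit 0x0) (nat_lit 0x4000100008000400020003000300000000000000) := T_2 (nat_lit 89) (nat_lit 72) (nat_lit 4) (nat_lit 5) (nat_lit 8) L1191378 (by decide +kernel)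
theorem L1191380 : W_2 (nat_lit 6) (nat_lit 0x1a00090004800240000000000000000000000) (nat_lit 0x0) (nat_lit 0x40001000080004000a0007000300000000000000) := T_2 (nat_lit 74) (nat_lit 91) (nat_lit 6) (nat_lit 5) (nat_lit 8) L1191379 (by decide +kernel)
theorem L1191381 : W_2 (nat_lit 7) (nat_lit 0x1200090004800240000000000000000000000) (nat_lit 0x0) (nat_lit 0x140009000080004000a0007000300000000000000) := T_2 (nat_lit 143) (nat_lit 160) (nat_lit 5) (nat_lit 8) (nat_lit 5) L1191380 (by decide +kernel)
theorem L1191382 : W_2 (nat_lit 2) (nat_lit 0x140004001a000900048002e0000000000000000000000) (nat_lit 0x0) (nat_lit 0x2800080000000000000000000000000000000000000000000) := D_2 (nat_lit 175) (nat_lit 193) (nat_lit 191) (nat_lit 7) (nat_lit 5) (nat_lit 7) (nat_lit 5) (nat_lit 5) (nat_lit 7) (by decide +kernel)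
theorem L1191383 : W_2 (nat_lit 3) (nat_lit 0x100004001a000900048002e0000000000000000000000) (nat_lit 0x0) (nat_lit 0x28000c0002000000000000000000000000000000000000000) := T_2 (nat_lit 174) (nat_lit 157) (nat_lit 5) (nat_lit 5) (nat_lit 6) L1191382 (by decide +kernel)
theorem L1191384 : W_2 (nat_lit 4) (nat_lit 0x4001a000900048002e0000000000000000000000) (nat_lit 0x0) (nat_lit 0x28001c000a000000000000000000000000000000000000000) := T_2 (nat_lit 176) (nat_lit 159) (nat_lit 7) (nat_lit 5) (nat_lit 6) L1191383 (by decide +kernel)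
theorem L1191385 : W_2 (nat_lit 5) (nat_lit 0x4001a00090004800260000000000000000000000) (nat_lit 0x0) (nat_lit 0x28001c000a000000000000000080004000000000000000000) := T_2 (nat_lit 91) (nat_lit 74) (nat_lit 6) (nat_lit 5) (nat_lit 8) L1191384 (by decide +kernel)
theorem L1191386 : W_2 (nat_lit 6) (nat_lit 0x1a00090004800260000000000000000000000) (nat_lit 0x0) (nat_lit 0x28001c000e000000000000400080004000000000000000000) := T_2 (nat_lit 158) (nat_lit 106) (nat_lit 4) (nat_lit 5) (nat_lit 9) L1191385 (by decide +kernel)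
theorem L1191387 : W_2 (nat_lit 7) (nat_lit 0x1200090004800260000000000000000000000) (nat_lit 0x0) (nat_lit 0x28001c001e000800000000400080004000000000000000000) := T_2 (nat_lit 143) (nat_lit 160) (nat_lit 5) (nat_lit 8) (nat_lit 5) L1191386 (by decide +kernel)
theorem L1191388 : W_2 (nat_lit 8) (nat_lit 0x1200090004800240000000000000000000000) (nat_lit 0x0) (nat_lit 0x28001c001e0008000000004000a0005000000000000000000) := T_2 (nat_lit 89) (nat_lit 72) (nat_lit 4) (nat_lit 5) (nat_lit 8) L1191387 (by decide +kernel)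
theorem L1191389 : W_2 (nat_lit 9) (nat_lit 0x1200080004800240000000000000000000000) (nat_lit 0x0) (nat_lit 0x28001c001e0009000180004000a0007000380000000000000) := Q_2 (nat_lit 124) (C_2 L70595 (C_2 L70451 (C_2 L70448 (C_2 L1191381 (C_2 L1191388 N_2))))) (by decide +kernel)
theorem L1191390 : W_2 (nat_lit 2) (nat_lit 0x4001e00090004800240000000000000000000000) (nat_lit 0x0) (nat_lit 0x2000020000000000002000000000000000000) := D_2 (nat_lit 125) (nat_lit 145) (nat_lit 73) (nat_lit 0) (nat_lit 9) (nat_lit 8) (nat_lit 7) (nat_lit 5) (nat_lit 4) (by decide +kernel)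
theorem L1191391 : W_2 (nat_lit 3) (nat_lit 0x4001e00080004800240000000000000000000000) (nat_lit 0x0) (nat_lit 0x2000038000000000002000000000000000000) := T_2 (nat_lit 124) (nat_lit 123) (nat_lit 0) (nat_lit 8) (nat_lit 8) L1191390 (by decide +kernel)
theorem L1191392 : W_2 (nat_lit 4) (nat_lit 0x1e00080004800240000000000000000000000) (nat_lit 0x0) (nat_lit 0x6002000038000000000002000000000000000000) := T_2 (nat_lit 158) (nat_lit 157) (nat_lit 1) (nat_lit 8) (nat_lit 8) L1191391 (by decide +kernel)
theorem L1191393 : W_2 (nat_lit 5) (nat_lit 0x1a00080004800240000000000000000000000) (nat_lit 0x0) (nat_lit 0x6002400138000000000002000000000000000000) := T_2 (nat_lit 142) (nat_lit 128) (nat_lit 2) (nat_lit 5) (nat_lit 8) L1191392 (by decide +kernel)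
theorem L1191394 : W_2 (nat_lit 6) (nat_lit 0x1200080004800240000000000000000000000) (nat_lit 0x0) (nat_lit 0x16002c00138000000000002000000000000000000) := T_2 (nat_lit 143) (nat_lit 160) (nat_lit 5) (nat_lit 8) (nat_lit 5) L1191393 (by decide +kernel)
theorem L1191395 : W_2 (nat_lit 8) (nat_lit 0x1200080004800240000000000000000000000) (nat_lit 0x0) (nat_lit 0x10000e0005000380004004a0027000380004000000000) := Q_2 (nat_lit 124) (C_2 L246594 (C_2 L242448 (C_2 L70595 N_2))) (by decide +kernel)
theorem L1191396 : W_2 (nat_lit 2) (nat_lit 0x2001f00080004800640000000000000000000000) (nat_lit 0x0) (nat_lit 0xc000400000000000000000000000000) := D_2 (nat_lit 123) (nat_lit 122) (nat_lit 106) (nat_lit 0) (nat_lit 7) (nat_lit 8) (nat_lit 6) (nat_lit 4) (nat_lit 9) (by decide +kernel)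
theorem L1191397 : W_2 (nat_lit 3) (nat_lit 0x2001e00080004800640000000000000000000000) (nat_lit 0x0) (nat_lit 0x100010000c000400000000000000000000000000) := T_2 (nat_lit 140) (nat_lit 156) (nat_lit 1) (nat_lit 7) (nat_lit 8) L1191396 (by decide +kernel)
theorem L1191398 : W_2 (nat_lit 4) (nat_lit 0x1e00080004800640000000000000000000000) (nat_lit 0x0) (nat_lit 0x700010000c000400000000000000000000000000) := T_2 (nat_lit 157) (nat_lit 158) (nat_lit 1) (nat_lit 8) (nat_lit 8) L1191397 (by decide +kernel)
theorem L1191399 : W_2 (nat_lit 5) (nat_lit 0x1a00080004800640000000000000000000000) (nat_lit 0x0) (nat_lit 0x700050010c000400000000000000000000000000) := T_2 (nat_lit 142) (nat_lit 128) (nat_lit 2) (nat_lit 5) (nat_lit 8) L1191398 (by decide +kernel)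
theorem L1191400 : W_2 (nat_lit 6) (nat_lit 0x1200080004800640000000000000000000000) (nat_lit 0x0) (nat_lit 0x17000d0010c000400000000000000000000000000) := T_2 (nat_lit 143) (nat_lit 160) (nat_lit 5) (nat_lit 8) (nat_lit 5) L1191399 (by decide +kernel)
theorem L1191401 : W_2 (nat_lit 7) (nat_lit 0x1200080004800240000000000000000000000) (nat_lit 0x0) (nat_lit 0x17000d0010c000400400020000000000000000000) := T_2 (nat_lit 94) (nat_lit 77) (nat_lit 6) (nat_lit 8) (nat_lit 8) L1191400 (by decide +kernel)
theorem L1191402 : W_2 (nat_lit 10) (nat_lit 0x1000080004800240000000000000000000000) (nat_lit 0x0) (nat_lit 0x28001c001f002f0013c0004004a0037001380004000000000) := Q_2 (nat_lit 141) (C_2 L1191372 (C_2 L1191375 (C_2 L1191389 (C_2 L1191394 (C_2 L1191395 (C_2 L1191401 N_2)))))) (by decide +kernel)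
theorem L1191443 : W_2 (nat_lit 2) (nat_lit 0x14001900068003400b3000e00000000000000) (nat_lit 0x0) (nat_lit 0x8000200000000000020000000000000000000000) := D_2 (nat_lit 141) (nat_lit 89) (nat_lit 159) (nat_lit 4) (nat_lit 5) (nat_lit 8) (nat_lit 7) (nat_lit 5) (nat_lit 5) (by decide +kernel)
theorem L1191444 : W_2 (nat_lit 3) (nat_lit 0x10001900068003400b3000e00000000000000) (nat_lit 0x0) (nat_lit 0x8000600020000000020000000000000000000000) := T_2 (nat_lit 142) (nat_lit 125) (nat_lit 7) (nat_lit 5) (nat_lit 4) L1191443 (by decide +kernel)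
theorem L1191445 : W_2 (nat_lit 4) (nat_lit 0x10001900068003400b2000e00000000000000) (nat_lit 0x0) (nat_lit 0x8000600020000000020001000080000000000000) := T_2 (nat_lit 72) (nat_lit 55) (nat_lit 4) (nat_lit 5) (nat_lit 7) L1191444 (by decide +kernel)
theorem L1191446 : W_2 (nat_lit 5) (nat_lit 0x10001800068003400b2000e00000000000000) (nat_lit 0x0) (nat_lit 0x8000600030000000020005000080000000000000) := T_2 (nat_lit 124) (nat_lit 74) (nat_lit 6) (nat_lit 5) (nat_lit 7) L1191445 (by decide +kernel)
theorem L1191447 : W_2 (nat_lit 6) (nat_lit 0x10001800068003400b2000c00000000000000) (nat_lit 0x0) (nat_lit 0x8000600030000000020005000380000000000000) := T_2 (nat_lit 57) (nat_lit 56) (nat_lit 3) (nat_lit 5) (nat_lit 3) L1191446 (by decide +kernel)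
theorem L1191448 : W_2 (nat_lit 7) (nat_lit 0x10001800068003400b2000800000000000000) (nat_lit 0x0) (nat_lit 0x8000600030000000020005000780020000000000) := T_2 (nat_lit 58) (nat_lit 41) (nat_lit 4) (nat_lit 8) (nat_lit 6) L1191447 (by decide +kernel)
theorem L1191449 : W_2 (nat_lit 8) (nat_lit 0x10001800068003400b2000000000000000000) (nat_lit 0x0) (nat_lit 0x8000600030000000020005000f80060000000000) := T_2 (nat_lit 59) (nat_lit 42) (nat_lit 5) (nat_lit 8) (nat_lit 2) L1191448 (by decide +kernel)
theorem L1191450 : W_2 (nat_lit 9) (nat_lit 0x1000180006800340032000000000000000000) (nat_lit 0x0) (nat_lit 0x80006000300000000200c5000f80060000000000) := T_2 (nat_lit 79) (nat_lit 78) (nat_lit 1) (nat_lit 11) (nat_lit 4) L1191449 (by decide +kernel)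
theorem L1191451 : W_2 (nat_lit 10) (nat_lit 0x1000180004800340032000000000000000000) (nat_lit 0x0) (nat_lit 0x280006000300020000200c5000f80060000000000) := T_2 (nat_lit 109) (nat_lit 161) (nat_lit 4) (nat_lit 8) (nat_lit 9) L1191450 (by decide +kernel)
theorem L1191452 : W_2 (nat_lit 11) (nat_lit 0x1000080004800340032000000000000000000) (nat_lit 0x0) (nat_lit 0x280026001300020000200c5000f80060000000000) := T_2 (nat_lit 128) (nat_lit 145) (nat_lit 7) (nat_lit 8) (nat_lit 4) L1191451 (by decide +kernel)
theorem L1191453 : W_2 (nat_lit 12) (nat_lit 0x1000080004800240032000000000000000000) (nat_lit 0x0) (nat_lit 0x280026001300020001a00c5000f80060000000000) := T_2 (nat_lit 92) (nat_lit 91) (nat_lit 2) (nat_lit 5) (nat_lit 5) L1191452 (by decide +kernel)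
theorem L1191454 : W_2 (nat_lit 13) (nat_lit 0x1000080004800240022000000000000000000) (nat_lit 0x0) (nat_lit 0x280026001300020001a00d5001f80060000000000) := T_2 (nat_lit 76) (nat_lit 60) (nat_lit 6) (nat_lit 8) (nat_lit 7) L1191453 (by decide +kernel)
theorem L1191455 : W_2 (nat_lit 14) (nat_lit 0x1000080004800240002000000000000000000) (nat_lit 0x0) (nat_lit 0x280026001300020005a00f5001f80060000000000) := T_2 (nat_lit 77) (nat_lit 94) (nat_lit 6) (nat_lit 8) (nat_lit 8) L1191454 (by decide +kernel)
theorem L1191456 : W_2 (nat_lit 2) (nat_lit 0x10005880068003400b2000d80000000000000) (nat_lit 0x0) (nat_lit 0x100010000000000001000000000000000000) := D_2 (nat_lit 124) (nat_lit 140) (nat_lit 72) (nat_lit 5) (nat_lit 5) (nat_lit 4) (nat_lit 4) (nat_lit 5) (nat_lit 7) (by decide +kernel)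
theorem L1191457 : W_2 (nat_lit 3) (nat_lit 0x10005880068003400b2000d00000000000000) (nat_lit 0x0) (nat_lit 0x100010000000000001000080004000000000) := T_2 (nat_lit 55) (nat_lit 38) (nat_lit 4) (nat_lit 5) (nat_lit 6) L1191456 (by decide +kernel)
theorem L1191458 : W_2 (nat_lit 4) (nat_lit 0x10005800068003400b2000d00000000000000) (nat_lit 0x0) (nat_lit 0x100018000400000001000080004000000000) := T_2 (nat_lit 123) (nat_lit 106) (nat_lit 5) (nat_lit 5) (nat_lit 3) L1191457 (by decide +kernel)
theorem L1191459 : W_2 (nat_lit 5) (nat_lit 0x10005800068003400b2000c00000000000000) (nat_lit 0x0) (nat_lit 0x100018000400000001000380004000000000) := T_2 (nat_lit 56) (nat_lit 57) (nat_lit 3) (nat_lit 5) (nat_lit 3) L1191458 (by decide +kernel)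
theorem L1191460 : W_2 (nat_lit 6) (nat_lit 0x10005800068003400b2000800000000000000) (nat_lit 0x0) (nat_lit 0x100018000400000001000780024000000000) := T_2 (nat_lit 58) (nat_lit 41) (nat_lit 4) (nat_lit 8) (nat_lit 6) L1191459 (by decide +kernel)
theorem L1191461 : W_2 (nat_lit 7) (nat_lit 0x10001800068003400b2000800000000000000) (nat_lit 0x0) (nat_lit 0x100618000400000001000780024000000000) := T_2 (nat_lit 130) (nat_lit 129) (nat_lit 0) (nat_lit 11) (nat_lit 7) L1191460 (by decide +kernel)
theorem L1191462 : W_2 (nat_lit 8) (nat_lit 0x10001800068003400b2000000000000000000) (nat_lit 0x0) (nat_lit 0x100618000400000001000f80064000000000) := T_2 (nat_lit 59) (nat_lit 42) (nat_lit 5) (nat_lit 8) (nat_lit 2) L1191461 (by decide +kernel)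
theorem L1191463 : W_2 (nat_lit 9) (nat_lit 0x1000180006800340032000000000000000000) (nat_lit 0x0) (nat_lit 0x1006180004000000c1000f80064000000000) := T_2 (nat_lit 79) (nat_lit 78) (nat_lit 1) (nat_lit 11) (nat_lit 4) L1191462 (by decide +kernel)
theorem L1191464 : W_2 (nat_lit 10) (nat_lit 0x1000180004800340032000000000000000000) (nat_lit 0x0) (nat_lit 0x200001006180024000000c1000f80064000000000) := T_2 (nat_lit 109) (nat_lit 161) (nat_lit 4) (nat_lit 8) (nat_lit 9) L1191463 (by decide +kernel)
theorem L1191465 : W_2 (nat_lit 11) (nat_lit 0x1000080004800340032000000000000000000) (nat_lit 0x0) (nat_lit 0x200021007180024000000c1000f80064000000000) := T_2 (nat_lit 128) (nat_lit 145) (nat_lit 7) (nat_lit 8) (nat_lit 4) L1191464 (by decide +kernel)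
theorem L1191466 : W_2 (nat_lit 12) (nat_lit 0x1000080004800240032000000000000000000) (nat_lit 0x0) (nat_lit 0x200021007180024001800c1000f80064000000000) := T_2 (nat_lit 92) (nat_lit 91) (nat_lit 2) (nat_lit 5) (nat_lit 5) L1191465 (by decide +kernel)
theorem L1191467 : W_2 (nat_lit 13) (nat_lit 0x1000080004800240022000000000000000000) (nat_lit 0x0) (nat_lit 0x200021007180024001800d1001f80064000000000) := T_2 (nat_lit 76) (nat_lit 60) (nat_lit 6) (nat_lit 8) (nat_lit 7) L1191466 (by decide +kernel)
theorem L1191468 : W_2 (nat_lit 14) (nat_lit 0x1000080004800240002000000000000000000) (nat_lit 0x0) (nat_lit 0x200021007180024005800f1001f80064000000000) := T_2 (nat_lit 77) (nat_lit 94) (nat_lit 6) (nat_lit 8) (nat_lit 8) L1191467 (by decide +kernel)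
theorem L1191469 : W_2 (nat_lit 2) (nat_lit 0x15001900068003400b2000e00000000000000) (nat_lit 0x0) (nat_lit 0xa000200000000000000000000000000000000000) := D_2 (nat_lit 141) (nat_lit 157) (nat_lit 159) (nat_lit 5) (nat_lit 5) (nat_lit 5) (nat_lit 7) (nat_lit 5) (nat_lit 5) (by decide +kernel)
theorem L1191470 : W_2 (nat_lit 3) (nat_lit 0x11001900068003400b2000e00000000000000) (nat_lit 0x0) (nat_lit 0xa000600020000000000000000000000000000000) := T_2 (nat_lit 142) (nat_lit 125) (nat_lit 7) (nat_lit 5) (nat_lit 4) L1191469 (by decide +kernel)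
theorem L1191471 : W_2 (nat_lit 4) (nat_lit 0x10001900068003400b2000e00000000000000) (nat_lit 0x0) (nat_lit 0xa000700028000000000000000000000000000000) := T_2 (nat_lit 140) (nat_lit 123) (nat_lit 5) (nat_lit 5) (nat_lit 4) L1191470 (by decide +kernel)
theorem L1191472 : W_2 (nat_lit 5) (nat_lit 0x10001800068003400b2000e00000000000000) (nat_lit 0x0) (nat_lit 0xa000700038000000000004000000000000000000) := T_2 (nat_lit 124) (nat_lit 74) (nat_lit 6) (nat_lit 5) (nat_lit 7) L1191471 (by decide +kernel)
theorem L1191473 : W_2 (nat_lit 6) (nat_lit 0x10001800068003400b2000c00000000000000) (nat_lit 0x0) (nat_lit 0xa000700038000000000004000300000000000000) := T_2 (nat_lit 57) (nat_lit 56) (nat_lit 3) (nat_lit 5) (nat_lit 3) L1191472 (by decide +kernel)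
theorem L1191474 : W_2 (nat_lit 7) (nat_lit 0x10001800068003400b2000800000000000000) (nat_lit 0x0) (nat_lit 0xa000700038000000000004000700020000000000) := T_2 (nat_lit 58) (nat_lit 41) (nat_lit 4) (nat_lit 8) (nat_lit 6) L1191473 (by decide +kernel)
theorem L1191475 : W_2 (nat_lit 8) (nat_lit 0x10001800068003400b2000000000000000000) (nat_lit 0x0) (nat_lit 0xa000700038000000000004000f00060000000000) := T_2 (nat_lit 59) (nat_lit 42) (nat_lit 5) (nat_lit 8) (nat_lit 2) L1191474 (by decide +kernel)
theorem L1191476 : W_2 (nat_lit 9) (nat_lit 0x1000180006800340032000000000000000000) (nat_lit 0x0) (nat_lit 0xa0007000380000000000c4000f00060000000000) := T_2 (nat_lit 79) (nat_lit 78) (nat_lit 1) (nat_lit 11) (nat_lit 4) L1191475 (by decide +kernel)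
theorem L1191477 : W_2 (nat_lit 10) (nat_lit 0x1000180004800340032000000000000000000) (nat_lit 0x0) (nat_lit 0x2a0007000380020000000c4000f00060000000000) := T_2 (nat_lit 109) (nat_lit 161) (nat_lit 4) (nat_lit 8) (nat_lit 9) L1191476 (by decide +kernel)
theorem L1191478 : W_2 (nat_lit 11) (nat_lit 0x1000080004800340032000000000000000000) (nat_lit 0x0) (nat_lit 0x2a0027001380020000000c4000f00060000000000) := T_2 (nat_lit 128) (nat_lit 145) (nat_lit 7) (nat_lit 8) (nat_lit 4) L1191477 (by decide +kernel)
theorem L1191479 : W_2 (nat_lit 12) (nat_lit 0x1000080004800240032000000000000000000) (nat_lit 0x0) (nat_lit 0x2a0027001380020001800c4000f00060000000000) := T_2 (nat_lit 92) (nat_lit 91) (nat_lit 2) (nat_lit 5) (nat_lit 5) L1191478 (by decide +kernel)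
theorem L1191480 : W_2 (nat_lit 13) (nat_lit 0x1000080004800240022000000000000000000) (nat_lit 0x0) (nat_lit 0x2a0027001380020001800d4001f00060000000000) := T_2 (nat_lit 76) (nat_lit 60) (nat_lit 6) (nat_lit 8) (nat_lit 7) L1191479 (by decide +kernel)
theorem L1191481 : W_2 (nat_lit 14) (nat_lit 0x1000080004800240002000000000000000000) (nat_lit 0x0) (nat_lit 0x2a0027001380020005800f4001f00060000000000) := T_2 (nat_lit 77) (nat_lit 94) (nat_lit 6) (nat_lit 8) (nat_lit 8) L1191480 (by decide +kernel)
theorem L1191482 : W_2 (nat_lit 15) (nat_lit 0x1000080004800240000000000000000000000) (nat_lit 0x0) (nat_lit 0x10002e0027007380026005b80f7c01fe007f800e00000) := Q_2 (nat_lit 73) (C_2 L1191136 (C_2 L1191172 (C_2 L1191162 (C_2 L259076 (C_2 L1191455 (C_2 L1191468 (C_2 L258928 (C_2 L1191481 N_2)))))))) (by decide +kernel)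
theorem L1191483 : W_2 (nat_lit 5) (nat_lit 0x30001000080004800340000000000000000000000) (nat_lit 0x0) (nat_lit 0x10000400480007000200010000000000) := T_2 (nat_lit 91) (nat_lit 106) (nat_lit 1) (nat_lit 8) (nat_lit 5) L128776 (by decide +kernel)
theorem L1191484 : W_2 (nat_lit 6) (nat_lit 0x30001000080004800240000000000000000000000) (nat_lit 0x0) (nat_lit 0x10002400580007000200010000000000) := T_2 (nat_lit 92) (nat_lit 109) (nat_lit 4) (nat_lit 8) (nat_lit 9) L1191483 (by decide +kernel)
theorem L1191485 : W_2 (nat_lit 7) (nat_lit 0x10001000080004800240000000000000000000000) (nat_lit 0x0) (nat_lit 0x200020000000010002400580007000200010000000000) := T_2 (nat_lit 161) (nat_lit 177) (nat_lit 5) (nat_lit 8) (nat_lit 6) L1191484 (by decide +kernel)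
theorem L1191486 : W_2 (nat_lit 8) (nat_lit 0x1000080004800240000000000000000000000) (nat_lit 0x0) (nat_lit 0x200030000800010002400580007000200010000000000) := T_2 (nat_lit 160) (nat_lit 143) (nat_lit 5) (nat_lit 8) (nat_lit 5) L1191485 (by decide +kernel)
theorem L1191491 : W_2 (nat_lit 2) (nat_lit 0x20001000080004800340000000000000000000000) (nat_lit 0x0) (nat_lit 0x200010000800000000000000000000000000000000000) := D_2 (nat_lit 160) (nat_lit 143) (nat_lit 177) (nat_lit 5) (nat_lit 8) (nat_lit 5) (nat_lit 5) (nat_lit 8) (nat_lit 6) (by decide +kernel)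
theorem L1191492 : W_2 (nat_lit 3) (nat_lit 0x1000080004800340000000000000000000000) (nat_lit 0x0) (nat_lit 0x200030000800000002000000000000000000000000000) := T_2 (nat_lit 161) (nat_lit 109) (nat_lit 4) (nat_lit 8) (nat_lit 9) L1191491 (by decide +kernel)
theorem L1191493 : W_2 (nat_lit 2) (nat_lit 0x1a005900048003e0012000000000000000000) (nat_lit 0x0) (nat_lit 0x2000100008000000000000000000000000000000) := D_2 (nat_lit 140) (nat_lit 157) (nat_lit 123) (nat_lit 5) (nat_lit 5) (nat_lit 5) (nat_lit 5) (nat_lit 5) (nat_lit 4) (by decide +kernel)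
theorem L1191494 : W_2 (nat_lit 3) (nat_lit 0x1a005800048003e0012000000000000000000) (nat_lit 0x0) (nat_lit 0x2000100018000000000004000000000000000000) := T_2 (nat_lit 124) (nat_lit 74) (nat_lit 6) (nat_lit 5) (nat_lit 8) L1191493 (by decide +kernel)
theorem L1191495 : W_2 (nat_lit 4) (nat_lit 0x1a001800048003e0012000000000000000000) (nat_lit 0x0) (nat_lit 0x2000100618000000000004000000000000000000) := T_2 (nat_lit 130) (nat_lit 129) (nat_lit 1) (nat_lit 11) (nat_lit 7) L1191494 (by decide +kernel)
theorem L1191496 : W_2 (nat_lit 5) (nat_lit 0x18001800048003e0012000000000000000000) (nat_lit 0x0) (nat_lit 0x2000700618000000000004000000000000000000) := T_2 (nat_lit 141) (nat_lit 142) (nat_lit 2) (nat_lit 5) (nat_lit 8) L1191495 (by decide +kernel)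
theorem L1191497 : W_2 (nat_lit 6) (nat_lit 0x18000800048003e0012000000000000000000) (nat_lit 0x0) (nat_lit 0x2002700718000000000004000000000000000000) := T_2 (nat_lit 128) (nat_lit 145) (nat_lit 7) (nat_lit 8) (nat_lit 4) L1191496 (by decide +kernel)
theorem L1191498 : W_2 (nat_lit 7) (nat_lit 0x18000800048003e0002000000000000000000) (nat_lit 0x0) (nat_lit 0x2002700718000000000034000000000000000000) := T_2 (nat_lit 76) (nat_lit 77) (nat_lit 2) (nat_lit 5) (nat_lit 5) L1191497 (by decide +kernel)
theorem L1191499 : W_2 (nat_lit 8) (nat_lit 0x18000800048003c0002000000000000000000) (nat_lit 0x0) (nat_lit 0x2002700718002000020034000000000000000000) := T_2 (nat_lit 89) (nat_lit 109) (nat_lit 3) (nat_lit 4) (nat_lit 5) L1191498 (by decide +kernel)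
theorem L1191500 : W_2 (nat_lit 9) (nat_lit 0x18000800048003c0000000000000000000000) (nat_lit 0x0) (nat_lit 0x2002700718002000020037000000000000000000) := T_2 (nat_lit 73) (nat_lit 72) (nat_lit 0) (nat_lit 8) (nat_lit 5) L1191499 (by decide +kernel)
theorem L1191501 : W_2 (nat_lit 10) (nat_lit 0x1800080004800340000000000000000000000) (nat_lit 0x0) (nat_lit 0x20027007180024000a0037000000000000000000) := T_2 (nat_lit 91) (nat_lit 106) (nat_lit 1) (nat_lit 8) (nat_lit 5) L1191500 (by decide +kernel)
theorem L1191502 : W_2 (nat_lit 11) (nat_lit 0x1000080004800340000000000000000000000) (nat_lit 0x0) (nat_lit 0x12002f007180024000a0037000000000000000000) := T_2 (nat_lit 143) (nat_lit 160) (nat_lit 5) (nat_lit 8) (nat_lit 5) L1191501 (by decide +kernel)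
theorem L1191503 : W_2 (nat_lit 2) (nat_lit 0x1a005900048003c0012000000000000000000) (nat_lit 0x0) (nat_lit 0x2000100008000000000000000000000000000000) := D_2 (nat_lit 140) (nat_lit 157) (nat_lit 123) (nat_lit 5) (nat_lit 5) (nat_lit 5) (nat_lit 5) (nat_lit 5) (nat_lit 4) (by decide +kernel)
theorem L1191504 : W_2 (nat_lit 3) (nat_lit 0x1a005800048003c0012000000000000000000) (nat_lit 0x0) (nat_lit 0x2000100018000000000004000000000000000000) := T_2 (nat_lit 124) (nat_lit 74) (nat_lit 6) (nat_lit 5) (nat_lit 8) L1191503 (by decide +kernel)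
theorem L1191505 : W_2 (nat_lit 4) (nat_lit 0x1a001800048003c0012000000000000000000) (nat_lit 0x0) (nat_lit 0x2000100618000000000004000000000000000000) := T_2 (nat_lit 130) (nat_lit 129) (nat_lit 1) (nat_lit 11) (nat_lit 7) L1191504 (by decide +kernel)
theorem L1191506 : W_2 (nat_lit 5) (nat_lit 0x18001800048003c0012000000000000000000) (nat_lit 0x0) (nat_lit 0x2000700618000000000004000000000000000000) := T_2 (nat_lit 141) (nat_lit 142) (nat_lit 2) (nat_lit 5) (nat_lit 8) L1191505 (by decide +kernel)
theorem L1191507 : W_2 (nat_lit 6) (nat_lit 0x18000800048003c0012000000000000000000) (nat_lit 0x0) (nat_lit 0x2002700718000000000004000000000000000000) := T_2 (nat_lit 128) (nat_lit 145) (nat_lit 7) (nat_lit 8) (nat_lit 4) L1191506 (by decide +kernel)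
theorem L1191508 : W_2 (nat_lit 7) (nat_lit 0x10000800048003c0012000000000000000000) (nat_lit 0x0) (nat_lit 0x12002f00718000000000004000000000000000000) := T_2 (nat_lit 143) (nat_lit 160) (nat_lit 5) (nat_lit 8) (nat_lit 5) L1191507 (by decide +kernel)
theorem L1191509 : W_2 (nat_lit 8) (nat_lit 0x10000800048003c0002000000000000000000) (nat_lit 0x0) (nat_lit 0x12002f00718000000000034000000000000000000) := T_2 (nat_lit 76) (nat_lit 77) (nat_lit 2) (nat_lit 5) (nat_lit 5) L1191508 (by decide +kernel)
theorem L1191510 : W_2 (nat_lit 9) (nat_lit 0x10000800048003c0000000000000000000000) (nat_lit 0x0) (nat_lit 0x12002f00718000000000037000000000000000000) := T_2 (nat_lit 73) (nat_lit 72) (nat_lit 0) (nat_lit 8) (nat_lit 5) L1191509 (by decide +kernel)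
theorem L1191511 : W_2 (nat_lit 10) (nat_lit 0x1000080004800340000000000000000000000) (nat_lit 0x0) (nat_lit 0x12002f00718000400080037000000000000000000) := T_2 (nat_lit 91) (nat_lit 106) (nat_lit 1) (nat_lit 8) (nat_lit 5) L1191510 (by decide +kernel)
theorem L1191512 : W_2 (nat_lit 12) (nat_lit 0x1000080004800240000000000000000000000) (nat_lit 0x0) (nat_lit 0x200032002f007180024001a0037000000000000000000) := Q_2 (nat_lit 92) (C_2 L1191084 (C_2 L1191492 (C_2 L1191502 (C_2 L1191511 N_2)))) (by decide +kernel)
theorem L1191600 : W_2 (nat_lit 7) (nat_lit 0x1200080004800240000000000000000000000) (nat_lit 0x0) (nat_lit 0x10000e000500038000400420023000180000000000000) := Q_2 (nat_lit 124) (C_2 L246594 (C_2 L242442 (C_2 L70451 (C_2 L70721 N_2)))) (by decide +kernel)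
theorem L1191601 : W_2 (nat_lit 2) (nat_lit 0x30001300090004800260000000000000000000000) (nat_lit 0x0) (nat_lit 0xc000000000000400000000000000000000000000) := D_2 (nat_lit 158) (nat_lit 106) (nat_lit 159) (nat_lit 4) (nat_lit 5) (nat_lit 9) (nat_lit 0) (nat_lit 8) (nat_lit 9) (by decide +kernel)
theorem L1191602 : W_2 (nat_lit 3) (nat_lit 0x10001300090004800260000000000000000000000) (nat_lit 0x0) (nat_lit 0x20002c000000000000400000000000000000000000000) := T_2 (nat_lit 161) (nat_lit 177) (nat_lit 5) (nat_lit 8) (nat_lit 6) L1191601 (by decide +kernel)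
theorem L1191603 : W_2 (nat_lit 4) (nat_lit 0x10001300090004800240000000000000000000000) (nat_lit 0x0) (nat_lit 0x20002c000000000000400020001000000000000000000) := T_2 (nat_lit 89) (nat_lit 72) (nat_lit 4) (nat_lit 5) (nat_lit 8) L1191602 (by decide +kernel)
theorem L1191604 : W_2 (nat_lit 5) (nat_lit 0x1300090004800240000000000000000000000) (nat_lit 0x0) (nat_lit 0x20003c000800000000400020001000000000000000000) := T_2 (nat_lit 160) (nat_lit 143) (nat_lit 5) (nat_lit 8) (nat_lit 5) L1191603 (by decide +kernel)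
theorem L1191605 : W_2 (nat_lit 6) (nat_lit 0x1200090004800240000000000000000000000) (nat_lit 0x0) (nat_lit 0x20003e000900000000400020001000000000000000000) := T_2 (nat_lit 140) (nat_lit 157) (nat_lit 5) (nat_lit 5) (nat_lit 5) L1191604 (by decide +kernel)
theorem L1191606 : W_2 (nat_lit 2) (nat_lit 0x34001200090004800260000000000000000000000) (nat_lit 0x0) (nat_lit 0x100008000100000000000000000000000000000000000) := D_2 (nat_lit 159) (nat_lit 176) (nat_lit 140) (nat_lit 7) (nat_lit 5) (nat_lit 6) (nat_lit 0) (nat_lit 8) (nat_lit 9) (by decide +kernel)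
theorem L1191607 : W_2 (nat_lit 3) (nat_lit 0x14001200090004800260000000000000000000000) (nat_lit 0x0) (nat_lit 0x300028000100000000000000000000000000000000000) := T_2 (nat_lit 161) (nat_lit 177) (nat_lit 5) (nat_lit 8) (nat_lit 6) L1191606 (by decide +kernel)
theorem L1191608 : W_2 (nat_lit 4) (nat_lit 0x10001200090004800260000000000000000000000) (nat_lit 0x0) (nat_lit 0x30002c000100000000400000000000000000000000000) := T_2 (nat_lit 158) (nat_lit 106) (nat_lit 4) (nat_lit 5) (nat_lit 9) L1191607 (by decide +kernel)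
theorem L1191609 : W_2 (nat_lit 5) (nat_lit 0x1200090004800260000000000000000000000) (nat_lit 0x0) (nat_lit 0x30003c000900000000400000000000000000000000000) := T_2 (nat_lit 160) (nat_lit 143) (nat_lit 5) (nat_lit 8) (nat_lit 5) L1191608 (by decide +kernel)
theorem L1191610 : W_2 (nat_lit 6) (nat_lit 0x1200090004800240000000000000000000000) (nat_lit 0x0) (nat_lit 0x30003c000900000000400020001000000000000000000) := T_2 (nat_lit 89) (nat_lit 72) (nat_lit 4) (nat_lit 5) (nat_lit 8) L1191609 (by decide +kernel)
theorem L1191611 : W_2 (nat_lit 2) (nat_lit 0x140004001a00090004800660000000000000000000000) (nat_lit 0x0) (nat_lit 0x2800080000000000000000000000000000000000000000000) := D_2 (nat_lit 175) (nat_lit 193) (nat_lit 191) (nat_lit 7) (nat_lit 5) (nat_lit 7) (nat_lit 5) (nat_lit 5) (nat_lit 7) (by decide +kernel)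
theorem L1191612 : W_2 (nat_lit 3) (nat_lit 0x100004001a00090004800660000000000000000000000) (nat_lit 0x0) (nat_lit 0x28000c0002000000000000000000000000000000000000000) := T_2 (nat_lit 174) (nat_lit 157) (nat_lit 5) (nat_lit 5) (nat_lit 6) L1191611 (by decide +kernel)
theorem L1191613 : W_2 (nat_lit 4) (nat_lit 0x4001a00090004800660000000000000000000000) (nat_lit 0x0) (nat_lit 0x28001c000a000000000000000000000000000000000000000) := T_2 (nat_lit 176) (nat_lit 159) (nat_lit 7) (nat_lit 5) (nat_lit 6) L1191612 (by decide +kernel)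
theorem L1191614 : W_2 (nat_lit 5) (nat_lit 0x4001a00090004800260000000000000000000000) (nat_lit 0x0) (nat_lit 0x28001c000a000000000000000400020000000000000000000) := T_2 (nat_lit 94) (nat_lit 77) (nat_lit 6) (nat_lit 8) (nat_lit 8) L1191613 (by decide +kernel)
theorem L1191615 : W_2 (nat_lit 6) (nat_lit 0x1a00090004800260000000000000000000000) (nat_lit 0x0) (nat_lit 0x28001c000e000000000000400400020000000000000000000) := T_2 (nat_lit 158) (nat_lit 106) (nat_lit 4) (nat_lit 5) (nat_lit 9) L1191614 (by decide +kernel)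
theorem L1191616 : W_2 (nat_lit 7) (nat_lit 0x1200090004800260000000000000000000000) (nat_lit 0x0) (nat_lit 0x28001c001e000800000000400400020000000000000000000) := T_2 (nat_lit 143) (nat_lit 160) (nat_lit 5) (nat_lit 8) (nat_lit 5) L1191615 (by decide +kernel)
theorem L1191617 : W_2 (nat_lit 8) (nat_lit 0x1200090004800240000000000000000000000) (nat_lit 0x0) (nat_lit 0x28001c001e000800000000400420021000000000000000000) := T_2 (nat_lit 89) (nat_lit 72) (nat_lit 4) (nat_lit 5) (nat_lit 8) L1191616 (by decide +kernel)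
theorem L1191618 : W_2 (nat_lit 2) (nat_lit 0x1b00090004800640002000280000000000000) (nat_lit 0x0) (nat_lit 0x100014000000000) := D_2 (nat_lit 56) (nat_lit 38) (nat_lit 40) (nat_lit 4) (nat_lit 5) (nat_lit 6) (nat_lit 6) (nat_lit 5) (nat_lit 6) (by decide +kernel)
theorem L1191619 : W_2 (nat_lit 3) (nat_lit 0x1b00090004800640002000080000000000000) (nat_lit 0x0) (nat_lit 0x4000300014000000000) := T_2 (nat_lit 57) (nat_lit 74) (nat_lit 6) (nat_lit 5) (nat_lit 7) L1191618 (by decide +kernel)
theorem L1191620 : W_2 (nat_lit 4) (nat_lit 0x1b00090004800640002000000000000000000) (nat_lit 0x0) (nat_lit 0x5000380014000000000) := T_2 (nat_lit 55) (nat_lit 72) (nat_lit 4) (nat_lit 5) (nat_lit 7) L1191619 (by decide +kernel)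
theorem L1191621 : W_2 (nat_lit 5) (nat_lit 0x1b00090004800640000000000000000000000) (nat_lit 0x0) (nat_lit 0x8000000000007000380014000000000) := T_2 (nat_lit 73) (nat_lit 123) (nat_lit 5) (nat_lit 5) (nat_lit 4) L1191620 (by decide +kernel)
theorem L1191622 : W_2 (nat_lit 6) (nat_lit 0x1a00090004800640000000000000000000000) (nat_lit 0x0) (nat_lit 0x2000100008000000000007000380014000000000) := T_2 (nat_lit 140) (nat_lit 157) (nat_lit 5) (nat_lit 5) (nat_lit 5) L1191621 (by decide +kernel)
theorem L1191623 : W_2 (nat_lit 7) (nat_lit 0x1200090004800640000000000000000000000) (nat_lit 0x0) (nat_lit 0x12000900008000000000007000380014000000000) := T_2 (nat_lit 143) (nat_lit 160) (nat_lit 5) (nat_lit 8) (nat_lit 5) L1191622 (by decide +kernel)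
theorem L1191624 : W_2 (nat_lit 8) (nat_lit 0x1200090004800240000000000000000000000) (nat_lit 0x0) (nat_lit 0x12000900008000000400027000380014000000000) := T_2 (nat_lit 94) (nat_lit 77) (nat_lit 6) (nat_lit 8) (nat_lit 8) L1191623 (by decide +kernel)
theorem L1191625 : W_2 (nat_lit 2) (nat_lit 0x34001300098006801640000000000000000000000) (nat_lit 0x0) (nat_lit 0x80000000000000000400020000000000000000000000) := D_2 (nat_lit 106) (nat_lit 89) (nat_lit 175) (nat_lit 7) (nat_lit 4) (nat_lit 5) (nat_lit 4) (nat_lit 5) (nat_lit 10) (by decide +kernel)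
theorem L1191626 : W_2 (nat_lit 3) (nat_lit 0x30001300098006801640000000000000000000000) (nat_lit 0x0) (nat_lit 0x8000c000000000000400020000000000000000000000) := T_2 (nat_lit 158) (nat_lit 159) (nat_lit 0) (nat_lit 8) (nat_lit 9) L1191625 (by decide +kernel)
theorem L1191627 : W_2 (nat_lit 4) (nat_lit 0x30001300098006800640000000000000000000000) (nat_lit 0x0) (nat_lit 0x8000c000000000000401820000000000000000000000) := T_2 (nat_lit 96) (nat_lit 95) (nat_lit 1) (nat_lit 11) (nat_lit 5) L1191626 (by decide +kernel)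
theorem L1191628 : W_2 (nat_lit 5) (nat_lit 0x30001300098004800640000000000000000000000) (nat_lit 0x0) (nat_lit 0x8000c000000000002401920000000000000000000000) := T_2 (nat_lit 109) (nat_lit 92) (nat_lit 4) (nat_lit 8) (nat_lit 9) L1191627 (by decide +kernel)
theorem L1191629 : W_2 (nat_lit 6) (nat_lit 0x10001300098004800640000000000000000000000) (nat_lit 0x0) (nat_lit 0x28002c000000000002401920000000000000000000000) := T_2 (nat_lit 161) (nat_lit 177) (nat_lit 5) (nat_lit 8) (nat_lit 6) L1191628 (by decide +kernel)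
theorem L1191630 : W_2 (nat_lit 7) (nat_lit 0x10001300098004800240000000000000000000000) (nat_lit 0x0) (nat_lit 0x28002c000000000002401d20020000000000000000000) := T_2 (nat_lit 94) (nat_lit 77) (nat_lit 6) (nat_lit 8) (nat_lit 8) L1191629 (by decide +kernel)
theorem L1191631 : W_2 (nat_lit 8) (nat_lit 0x1300098004800240000000000000000000000) (nat_lit 0x0) (nat_lit 0x28003c000800000002401d20020000000000000000000) := T_2 (nat_lit 160) (nat_lit 143) (nat_lit 5) (nat_lit 8) (nat_lit 5) L1191630 (by decide +kernel)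
theorem L1191632 : W_2 (nat_lit 9) (nat_lit 0x1300090004800240000000000000000000000) (nat_lit 0x0) (nat_lit 0x28003c000800008002401d20022000000000000000000) := T_2 (nat_lit 123) (nat_lit 73) (nat_lit 5) (nat_lit 5) (nat_lit 4) L1191631 (by decide +kernel)
theorem L1191633 : W_2 (nat_lit 10) (nat_lit 0x1200090004800240000000000000000000000) (nat_lit 0x0) (nat_lit 0x28003e000900008002401d20022000000000000000000) := T_2 (nat_lit 140) (nat_lit 157) (nat_lit 5) (nat_lit 5) (nat_lit 5) L1191632 (by decide +kernel)
theorem L1191634 : W_2 (nat_lit 11) (nat_lit 0x1200080004800240000000000000000000000) (nat_lit 0x0) (nat_lit 0x28003c003e000900018002401d20027000380014000000000) := Q_2 (nat_lit 124) (C_2 L70451 (C_2 L1191605 (C_2 L1191610 (C_2 L1191617 (C_2 L1191624 (C_2 L1191633 N_2)))))) (by decide +kernel)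
theorem L1191635 : W_2 (nat_lit 2) (nat_lit 0x4001e00080004800240000000000000000000000) (nat_lit 0x0) (nat_lit 0x8002000010000000000000000000000000000000) := D_2 (nat_lit 159) (nat_lit 124) (nat_lit 145) (nat_lit 7) (nat_lit 5) (nat_lit 5) (nat_lit 1) (nat_lit 9) (nat_lit 8) (by decide +kernel)
theorem L1191636 : W_2 (nat_lit 3) (nat_lit 0x1e00080004800240000000000000000000000) (nat_lit 0x0) (nat_lit 0xe002000010000000000000000000000000000000) := T_2 (nat_lit 158) (nat_lit 157) (nat_lit 1) (nat_lit 8) (nat_lit 8) L1191635 (by decide +kernel)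
theorem L1191637 : W_2 (nat_lit 4) (nat_lit 0x1a00080004800240000000000000000000000) (nat_lit 0x0) (nat_lit 0xe002400110000000000000000000000000000000) := T_2 (nat_lit 142) (nat_lit 128) (nat_lit 2) (nat_lit 5) (nat_lit 8) L1191636 (by decide +kernel)
theorem L1191638 : W_2 (nat_lit 5) (nat_lit 0x1200080004800240000000000000000000000) (nat_lit 0x0) (nat_lit 0x1e002c00110000000000000000000000000000000) := T_2 (nat_lit 143) (nat_lit 160) (nat_lit 5) (nat_lit 8) (nat_lit 5) L1191637 (by decide +kernel)
theorem L1191639 : W_2 (nat_lit 12) (nat_lit 0x1000080004800240000000000000000000000) (nat_lit 0x0) (nat_lit 0x28003c003f002f0013c002401d20027000380014000000000) := Q_2 (nat_lit 141) (C_2 L1191600 (C_2 L1191394 (C_2 L1191634 (C_2 L1191401 (C_2 L1191375 (C_2 L1191638 N_2)))))) (by decide +kernel)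
theorem L1191640 : W_2 (nat_lit 2) (nat_lit 0x10001000080004800340030000000000000000000) (nat_lit 0x0) (nat_lit 0x200020000000000002000000000000000000000000000) := D_2 (nat_lit 161) (nat_lit 177) (nat_lit 109) (nat_lit 5) (nat_lit 8) (nat_lit 6) (nat_lit 4) (nat_lit 8) (nat_lit 9) (by decide +kernel)
theorem L1191641 : W_2 (nat_lit 3) (nat_lit 0x10001000080004800240030000000000000000000) (nat_lit 0x0) (nat_lit 0x200020000000000002000180000000000000000000000) := T_2 (nat_lit 92) (nat_lit 91) (nat_lit 2) (nat_lit 5) (nat_lit 5) L1191640 (by decide +kernel)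
theorem L1191642 : W_2 (nat_lit 4) (nat_lit 0x10001000080004800240020000000000000000000) (nat_lit 0x0) (nat_lit 0x200020000000000002000180010001000000000000000) := T_2 (nat_lit 76) (nat_lit 60) (nat_lit 6) (nat_lit 8) (nat_lit 7) L1191641 (by decide +kernel)
theorem L1191643 : W_2 (nat_lit 5) (nat_lit 0x1000080004800240020000000000000000000) (nat_lit 0x0) (nat_lit 0x200030000800000002000180010001000000000000000) := T_2 (nat_lit 160) (nat_lit 143) (nat_lit 5) (nat_lit 8) (nat_lit 5) L1191642 (by decide +kernel)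
theorem L1191644 : W_2 (nat_lit 6) (nat_lit 0x1000080004800240000000000000000000000) (nat_lit 0x0) (nat_lit 0x200030000800000002000580030001000000000000000) := T_2 (nat_lit 77) (nat_lit 94) (nat_lit 6) (nat_lit 8) (nat_lit 8) L1191643 (by decide +kernel)
theorem L1191645 : W_2 (nat_lit 16) (nat_lit 0x1000080004800200000000000000000000000) (nat_lit 0x0) (nat_lit 0x28003c003f002f0073c002601df80f7c01fe007f800e00000) := Q_2 (nat_lit 90) (C_2 L1191284 (C_2 L1191290 (C_2 L1191173 (C_2 L1191402 (C_2 L1191482 (C_2 L1191486 (C_2 L1191512 (C_2 L1191639 (C_2 L1191644 N_2))))))))) (by decide +kernel)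
theorem L1191646 : W_2 (nat_lit 2) (nat_lit 0x4001e00090004800200000000000000000000000) (nat_lit 0x0) (nat_lit 0x8002000020000000000000000000000000000000) := D_2 (nat_lit 145) (nat_lit 159) (nat_lit 125) (nat_lit 1) (nat_lit 9) (nat_lit 8) (nat_lit 0) (nat_lit 9) (nat_lit 8) (by decide +kernel)
theorem L1191647 : W_2 (nat_lit 3) (nat_lit 0x4001e00080004800200000000000000000000000) (nat_lit 0x0) (nat_lit 0x8002000038000000000000000000000000000000) := T_2 (nat_lit 124) (nat_lit 123) (nat_lit 0) (nat_lit 8) (nat_lit 8) L1191646 (by decide +kernel)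
theorem L1191648 : W_2 (nat_lit 4) (nat_lit 0x1e00080004800200000000000000000000000) (nat_lit 0x0) (nat_lit 0xe002000038000000000000000000000000000000) := T_2 (nat_lit 158) (nat_lit 157) (nat_lit 1) (nat_lit 8) (nat_lit 8) L1191647 (by decide +kernel)
theorem L1191649 : W_2 (nat_lit 5) (nat_lit 0x1a00080004800200000000000000000000000) (nat_lit 0x0) (nat_lit 0xe002400138000000000000000000000000000000) := T_2 (nat_lit 142) (nat_lit 128) (nat_lit 2) (nat_lit 5) (nat_lit 8) L1191648 (by decide +kernel)
theorem L1191650 : W_2 (nat_lit 6) (nat_lit 0x1200080004800200000000000000000000000) (nat_lit 0x0) (nat_lit 0x1e002c00138000000000000000000000000000000) := T_2 (nat_lit 143) (nat_lit 160) (nat_lit 5) (nat_lit 8) (nat_lit 5) L1191649 (by decide +kernel)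
theorem L1191651 : W_2 (nat_lit 12) (nat_lit 0x1200080004800200000000000000000000000) (nat_lit 0x0) (nat_lit 0x600038001e001fc005c003c0037804f8027c0038000c000000000) := Q_2 (nat_lit 124) (C_2 L242538 (C_2 L242853 (C_2 L70566 (C_2 L90661 (C_2 L71435 (C_2 L70928 (C_2 L242455 N_2))))))) (by decide +kernel)
theorem L1191652 : W_2 (nat_lit 2) (nat_lit 0x1200080005800200000000000000000000000) (nat_lit 0x0) (nat_lit 0x2000400020000000000000000000) := D_2 (nat_lit 94) (nat_lit 77) (nat_lit 109) (nat_lit 6) (nat_lit 8) (nat_lit 8) (nat_lit 2) (nat_lit 5) (nat_lit 6) (by decide +kernel)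
theorem L1191653 : W_2 (nat_lit 2) (nat_lit 0x1200080005800200000000000000000000000) (nat_lit 0x0) (nat_lit 0x100002000400000000000000000000000) := D_2 (nat_lit 109) (nat_lit 128) (nat_lit 94) (nat_lit 3) (nat_lit 5) (nat_lit 6) (nat_lit 2) (nat_lit 5) (nat_lit 6) (by decide +kernel)
theorem L1191654 : W_2 (nat_lit 2) (nat_lit 0x36003200090005800240030000000000000000000) (nat_lit 0x0) (nat_lit 0x400020001000000000000000000) := D_2 (nat_lit 89) (nat_lit 72) (nat_lit 106) (nat_lit 4) (nat_lit 5) (nat_lit 8) (nat_lit 4) (nat_lit 5) (nat_lit 9) (by decide +kernel)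
theorem L1191655 : W_2 (nat_lit 3) (nat_lit 0x36003200090005800200030000000000000000000) (nat_lit 0x0) (nat_lit 0x100000000400060001000000000000000000) := T_2 (nat_lit 90) (nat_lit 140) (nat_lit 5) (nat_lit 5) (nat_lit 5) L1191654 (by decide +kernel)
theorem L1191656 : W_2 (nat_lit 4) (nat_lit 0x34003200090005800200030000000000000000000) (nat_lit 0x0) (nat_lit 0x40002000100000000400060001000000000000000000) := T_2 (nat_lit 157) (nat_lit 174) (nat_lit 5) (nat_lit 5) (nat_lit 6) L1191655 (by decide +kernel)
theorem L1191657 : W_2 (nat_lit 5) (nat_lit 0x34003200080005800200030000000000000000000) (nat_lit 0x0) (nat_lit 0x400020001000100004000e0001000000000000000000) := T_2 (nat_lit 124) (nat_lit 91) (nat_lit 6) (nat_lit 5) (nat_lit 9) L1191656 (by decide +kernel)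
theorem L1191658 : W_2 (nat_lit 6) (nat_lit 0x30003200080005800200030000000000000000000) (nat_lit 0x0) (nat_lit 0x4000e0001000100004000e0001000000000000000000) := T_2 (nat_lit 158) (nat_lit 159) (nat_lit 2) (nat_lit 5) (nat_lit 9) L1191657 (by decide +kernel)
theorem L1191659 : W_2 (nat_lit 7) (nat_lit 0x30001200080005800200030000000000000000000) (nat_lit 0x0) (nat_lit 0x4000e0021001100004000e0001000000000000000000) := T_2 (nat_lit 145) (nat_lit 128) (nat_lit 7) (nat_lit 8) (nat_lit 4) L1191658 (by decide +kernel)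
theorem L1191660 : W_2 (nat_lit 8) (nat_lit 0x30001200080005800200020000000000000000000) (nat_lit 0x0) (nat_lit 0x4000e0021001100004000e0011001000000000000000) := T_2 (nat_lit 76) (nat_lit 60) (nat_lit 6) (nat_lit 8) (nat_lit 7) L1191659 (by decide +kernel)
theorem L1191661 : W_2 (nat_lit 9) (nat_lit 0x10001200080005800200020000000000000000000) (nat_lit 0x0) (nat_lit 0x24002e0021001100004000e0011001000000000000000) := T_2 (nat_lit 161) (nat_lit 177) (nat_lit 5) (nat_lit 8) (nat_lit 6) L1191660 (by decide +kernel)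
theorem L1191662 : W_2 (nat_lit 10) (nat_lit 0x10001200080005800200000000000000000000000) (nat_lit 0x0) (nat_lit 0x24002e0021001100004004e0031001000000000000000) := T_2 (nat_lit 77) (nat_lit 94) (nat_lit 6) (nat_lit 8) (nat_lit 8) L1191661 (by decide +kernel)
theorem L1191663 : W_2 (nat_lit 11) (nat_lit 0x1200080005800200000000000000000000000) (nat_lit 0x0) (nat_lit 0x24003e0029001100004004e0031001000000000000000) := T_2 (nat_lit 160) (nat_lit 143) (nat_lit 5) (nat_lit 8) (nat_lit 5) L1191662 (by decide +kernel)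
theorem L1191664 : W_2 (nat_lit 2) (nat_lit 0x1a00090007800240000000000000000000000) (nat_lit 0x0) (nat_lit 0x4000000000000000080004000000000000000000) := D_2 (nat_lit 91) (nat_lit 158) (nat_lit 74) (nat_lit 6) (nat_lit 5) (nat_lit 9) (nat_lit 6) (nat_lit 5) (nat_lit 8) (by decide +kernel)
theorem L1191665 : W_2 (nat_lit 3) (nat_lit 0x1a00090007800200000000000000000000000) (nat_lit 0x0) (nat_lit 0x40000000000000000e0004000000000000000000) := T_2 (nat_lit 90) (nat_lit 89) (nat_lit 0) (nat_lit 8) (nat_lit 6) L1191664 (by decide +kernel)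
theorem L1191666 : W_2 (nat_lit 4) (nat_lit 0x1a00080007800200000000000000000000000) (nat_lit 0x0) (nat_lit 0x40000000180000000e0004000000000000000000) := T_2 (nat_lit 124) (nat_lit 123) (nat_lit 1) (nat_lit 8) (nat_lit 6) L1191665 (by decide +kernel)
theorem L1191667 : W_2 (nat_lit 5) (nat_lit 0x1a00080005800200000000000000000000000) (nat_lit 0x0) (nat_lit 0x40000001180020000e0004000000000000000000) := T_2 (nat_lit 109) (nat_lit 128) (nat_lit 3) (nat_lit 5) (nat_lit 6) L1191666 (by decide +kernel)
theorem L1191668 : W_2 (nat_lit 6) (nat_lit 0x1200080005800200000000000000000000000) (nat_lit 0x0) (nat_lit 0x140008001180020000e0004000000000000000000) := T_2 (nat_lit 143) (nat_lit 160) (nat_lit 5) (nat_lit 8) (nat_lit 5) L1191667 (by decide +kernel)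
theorem L1191669 : W_2 (nat_lit 12) (nat_lit 0x1200080004800200000000000000000000000) (nat_lit 0x0) (nat_lit 0x24003e0029001180034004e0035001000000000000000) := Q_2 (nat_lit 108) (C_2 L1191652 (C_2 L1191653 (C_2 L1191663 (C_2 L1191668 N_2)))) (by decide +kernel)
theorem L1191670 : W_2 (nat_lit 2) (nat_lit 0x6001200190005800240010000000000000000000) (nat_lit 0x0) (nat_lit 0x400020001000000000000000000) := D_2 (nat_lit 89) (nat_lit 72) (nat_lit 106) (nat_lit 4) (nat_lit 5) (nat_lit 8) (nat_lit 4) (nat_lit 5) (nat_lit 9) (by decide +kernel)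
theorem L1191671 : W_2 (nat_lit 3) (nat_lit 0x6001200190005800200010000000000000000000) (nat_lit 0x0) (nat_lit 0x100000000400060001000000000000000000) := T_2 (nat_lit 90) (nat_lit 140) (nat_lit 5) (nat_lit 5) (nat_lit 5) L1191670 (by decide +kernel)
theorem L1191672 : W_2 (nat_lit 4) (nat_lit 0x4001200190005800200010000000000000000000) (nat_lit 0x0) (nat_lit 0x40002000100000000400060001000000000000000000) := T_2 (nat_lit 157) (nat_lit 174) (nat_lit 5) (nat_lit 5) (nat_lit 6) L1191671 (by decide +kernel)
theorem L1191673 : W_2 (nat_lit 5) (nat_lit 0x1200190005800200010000000000000000000) (nat_lit 0x0) (nat_lit 0x400060001000000004000e0001000000000000000000) := T_2 (nat_lit 158) (nat_lit 91) (nat_lit 6) (nat_lit 5) (nat_lit 9) L1191672 (by decide +kernel)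
theorem L1191674 : W_2 (nat_lit 6) (nat_lit 0x1200190004800200010000000000000000000) (nat_lit 0x0) (nat_lit 0x400060001000000034000e0001000000000000000000) := T_2 (nat_lit 108) (nat_lit 109) (nat_lit 3) (nat_lit 5) (nat_lit 6) L1191673 (by decide +kernel)
theorem L1191675 : W_2 (nat_lit 7) (nat_lit 0x1200190004800200000000000000000000000) (nat_lit 0x0) (nat_lit 0x400060021000000034000e0011000000000000000000) := T_2 (nat_lit 76) (nat_lit 145) (nat_lit 7) (nat_lit 8) (nat_lit 4) L1191674 (by decide +kernel)
theorem L1191676 : W_2 (nat_lit 6) (nat_lit 0x1200190004800200000000000000000000000) (nat_lit 0x0) (nat_lit 0x400060001000000034000e0001000000000000000000) := T_2 (nat_lit 108) (nat_lit 109) (nat_lit 3) (nat_lit 5) (nat_lit 6) L77044 (by decide +kernel)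
theorem L1191677 : W_2 (nat_lit 4) (nat_lit 0x1600190004800200010000000000000000000) (nat_lit 0x0) (nat_lit 0x8000000020000000060003000080000000000000) := T_2 (nat_lit 90) (nat_lit 159) (nat_lit 7) (nat_lit 5) (nat_lit 5) L1191233 (by decide +kernel)
theorem L1191678 : W_2 (nat_lit 5) (nat_lit 0x1200190004800200010000000000000000000) (nat_lit 0x0) (nat_lit 0x8000c00020000000060003000080000000000000) := T_2 (nat_lit 142) (nat_lit 143) (nat_lit 2) (nat_lit 5) (nat_lit 8) L1191677 (by decide +kernel)
theorem L1191679 : W_2 (nat_lit 6) (nat_lit 0x1200190004800200000000000000000000000) (nat_lit 0x0) (nat_lit 0x8002c00020000000060013000080000000000000) := T_2 (nat_lit 76) (nat_lit 145) (nat_lit 7) (nat_lit 8) (nat_lit 4) L1191678 (by decide +kernel)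
theorem L1191680 : W_2 (nat_lit 2) (nat_lit 0x80006801600190005800200000000000000000000000) (nat_lit 0x0) (nat_lit 0x2000100008000000000000000000000000000000000000000) := D_2 (nat_lit 176) (nat_lit 193) (nat_lit 159) (nat_lit 7) (nat_lit 5) (nat_lit 7) (nat_lit 7) (nat_lit 5) (nat_lit 6) (by decide +kernel)
theorem L1191681 : W_2 (nat_lit 3) (nat_lit 0x6801600190005800200000000000000000000000) (nat_lit 0x0) (nat_lit 0x2000180008000000020000000000000000000000000000000) := T_2 (nat_lit 175) (nat_lit 125) (nat_lit 6) (nat_lit 5) (nat_lit 10) L1191680 (by decide +kernel)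
theorem L1191682 : W_2 (nat_lit 4) (nat_lit 0x6001600190005800200000000000000000000000) (nat_lit 0x0) (nat_lit 0x2000180009800000020000000000000000000000000000000) := T_2 (nat_lit 155) (nat_lit 156) (nat_lit 2) (nat_lit 2) (nat_lit 9) L1191681 (by decide +kernel)
theorem L1191683 : W_2 (nat_lit 5) (nat_lit 0x4001600190005800200000000000000000000000) (nat_lit 0x0) (nat_lit 0x20001c000b800000020000000000000000000000000000000) := T_2 (nat_lit 157) (nat_lit 174) (nat_lit 5) (nat_lit 5) (nat_lit 6) L1191682 (by decide +kernel)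
theorem L1191684 : W_2 (nat_lit 6) (nat_lit 0x1600190005800200000000000000000000000) (nat_lit 0x0) (nat_lit 0x20001c000f800000020000000080000000000000000000000) := T_2 (nat_lit 158) (nat_lit 91) (nat_lit 6) (nat_lit 5) (nat_lit 9) L1191683 (by decide +kernel)
theorem L1191685 : W_2 (nat_lit 7) (nat_lit 0x1600190004800200000000000000000000000) (nat_lit 0x0) (nat_lit 0x20001c000f800000020003000080000000000000000000000) := T_2 (nat_lit 108) (nat_lit 109) (nat_lit 3) (nat_lit 5) (nat_lit 6) L1191684 (by decide +kernel)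
theorem L1191686 : W_2 (nat_lit 8) (nat_lit 0x1200190004800200000000000000000000000) (nat_lit 0x0) (nat_lit 0x20001c000f800c00020003000080000000000000000000000) := T_2 (nat_lit 142) (nat_lit 143) (nat_lit 2) (nat_lit 5) (nat_lit 8) L1191685 (by decide +kernel)
theorem L1191687 : W_2 (nat_lit 9) (nat_lit 0x1200180004800200000000000000000000000) (nat_lit 0x0) (nat_lit 0x20001c000f802d000300034000e0013000080000000000000) := Q_2 (nat_lit 124) (C_2 L1191675 (C_2 L1191676 (C_2 L1191679 (C_2 L1191686 N_2)))) (by decide +kernel)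
theorem L1191688 : W_2 (nat_lit 2) (nat_lit 0x1600190004800240002000000000000000000) (nat_lit 0x0) (nat_lit 0x80004000200000000000000) := D_2 (nat_lit 74) (nat_lit 57) (nat_lit 91) (nat_lit 6) (nat_lit 5) (nat_lit 7) (nat_lit 6) (nat_lit 5) (nat_lit 8) (by decide +kernel)
theorem L1191689 : W_2 (nat_lit 3) (nat_lit 0x1600190004800240000000000000000000000) (nat_lit 0x0) (nat_lit 0x20000000080006000200000000000000) := T_2 (nat_lit 73) (nat_lit 125) (nat_lit 7) (nat_lit 5) (nat_lit 4) L1191688 (by decide +kernel)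
theorem L1191690 : W_2 (nat_lit 4) (nat_lit 0x1600190004800200000000000000000000000) (nat_lit 0x0) (nat_lit 0x80000000200000000c0006000200000000000000) := T_2 (nat_lit 90) (nat_lit 159) (nat_lit 7) (nat_lit 5) (nat_lit 5) L1191689 (by decide +kernel)
theorem L1191691 : W_2 (nat_lit 5) (nat_lit 0x1200190004800200000000000000000000000) (nat_lit 0x0) (nat_lit 0x8000c000200000000c0006000200000000000000) := T_2 (nat_lit 142) (nat_lit 143) (nat_lit 2) (nat_lit 5) (nat_lit 8) L1191690 (by decide +kernel)
theorem L1191692 : W_2 (nat_lit 2) (nat_lit 0x1600190005800640002000000000000000000) (nat_lit 0x0) (nat_lit 0x20001000080000000000000) := D_2 (nat_lit 72) (nat_lit 89) (nat_lit 55) (nat_lit 4) (nat_lit 5) (nat_lit 8) (nat_lit 4) (nat_lit 5) (nat_lit 7) (by decide +kernel)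
theorem L1191693 : W_2 (nat_lit 3) (nat_lit 0x1600190005800640000000000000000000000) (nat_lit 0x0) (nat_lit 0x20000000020003000080000000000000) := T_2 (nat_lit 73) (nat_lit 125) (nat_lit 7) (nat_lit 5) (nat_lit 4) L1191692 (by decide +kernel)
theorem L1191694 : W_2 (nat_lit 4) (nat_lit 0x1600190005800600000000000000000000000) (nat_lit 0x0) (nat_lit 0x8000000020000000060003000080000000000000) := T_2 (nat_lit 90) (nat_lit 159) (nat_lit 7) (nat_lit 5) (nat_lit 5) L1191693 (by decide +kernel)
theorem L1191695 : W_2 (nat_lit 5) (nat_lit 0x1200190005800600000000000000000000000) (nat_lit 0x0) (nat_lit 0x8000c00020000000060003000080000000000000) := T_2 (nat_lit 142) (nat_lit 143) (nat_lit 2) (nat_lit 5) (nat_lit 8) L1191694 (by decide +kernel)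
theorem L1191696 : W_2 (nat_lit 6) (nat_lit 0x1200190004800600000000000000000000000) (nat_lit 0x0) (nat_lit 0x8000c00020003000060003000080000000000000) := T_2 (nat_lit 108) (nat_lit 109) (nat_lit 3) (nat_lit 5) (nat_lit 6) L1191695 (by decide +kernel)
theorem L1191697 : W_2 (nat_lit 7) (nat_lit 0x1200190004800200000000000000000000000) (nat_lit 0x0) (nat_lit 0x8000c00020003000460023000080000000000000) := T_2 (nat_lit 94) (nat_lit 77) (nat_lit 6) (nat_lit 8) (nat_lit 8) L1191696 (by decide +kernel)
theorem L1191698 : W_2 (nat_lit 9) (nat_lit 0x1200180004800200000000000000000000000) (nat_lit 0x0) (nat_lit 0x20001c000f800d000300034004e0027000280000000000000) := Q_2 (nat_lit 124) (C_2 L1191686 (C_2 L1191676 (C_2 L1191691 (C_2 L1191697 N_2)))) (by decide +kernel)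
theorem L1191699 : W_2 (nat_lit 2) (nat_lit 0x1200180004800200010000000000000000000) (nat_lit 0x0) (nat_lit 0x400020001000000000000000) := D_2 (nat_lit 77) (nat_lit 60) (nat_lit 94) (nat_lit 6) (nat_lit 8) (nat_lit 7) (nat_lit 6) (nat_lit 8) (nat_lit 8) (by decide +kernel)
theorem L1191700 : W_2 (nat_lit 3) (nat_lit 0x1200180004800200000000000000000000000) (nat_lit 0x0) (nat_lit 0x2000000000000400030001000000000000000) := T_2 (nat_lit 76) (nat_lit 145) (nat_lit 7) (nat_lit 8) (nat_lit 4) L1191699 (by decide +kernel)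
theorem L1191701 : W_2 (nat_lit 10) (nat_lit 0x1200080004800200000000000000000000000) (nat_lit 0x0) (nat_lit 0x20001c000f802d001300034004e0037001280000000000000) := Q_2 (nat_lit 128) (C_2 L1191687 (C_2 L1191698 (C_2 L1191700 N_2))) (by decide +kernel)
theorem L1191702 : W_2 (nat_lit 2) (nat_lit 0x4001e00080005800600000000000000000000000) (nat_lit 0x0) (nat_lit 0x18000000080000000000000000000000) := D_2 (nat_lit 124) (nat_lit 123) (nat_lit 91) (nat_lit 0) (nat_lit 8) (nat_lit 8) (nat_lit 6) (nat_lit 5) (nat_lit 9) (by decide +kernel)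
theorem L1191703 : W_2 (nat_lit 3) (nat_lit 0x1e00080005800600000000000000000000000) (nat_lit 0x0) (nat_lit 0x6000000018000000080000000000000000000000) := T_2 (nat_lit 158) (nat_lit 157) (nat_lit 1) (nat_lit 8) (nat_lit 8) L1191702 (by decide +kernel)
theorem L1191704 : W_2 (nat_lit 4) (nat_lit 0x1a00080005800600000000000000000000000) (nat_lit 0x0) (nat_lit 0x6000400118000000080000000000000000000000) := T_2 (nat_lit 142) (nat_lit 128) (nat_lit 2) (nat_lit 5) (nat_lit 8) L1191703 (by decide +kernel)
theorem L1191705 : W_2 (nat_lit 5) (nat_lit 0x1200080005800600000000000000000000000) (nat_lit 0x0) (nat_lit 0x16000c00118000000080000000000000000000000) := T_2 (nat_lit 143) (nat_lit 160) (nat_lit 5) (nat_lit 8) (nat_lit 5) L1191704 (by decide +kernel)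
theorem L1191706 : W_2 (nat_lit 6) (nat_lit 0x1200080004800600000000000000000000000) (nat_lit 0x0) (nat_lit 0x16000c00118003000080000000000000000000000) := T_2 (nat_lit 108) (nat_lit 109) (nat_lit 2) (nat_lit 5) (nat_lit 6) L1191705 (by decide +kernel)
theorem L1191707 : W_2 (nat_lit 7) (nat_lit 0x1200080004800200000000000000000000000) (nat_lit 0x0) (nat_lit 0x16000c00118003000480020000000000000000000) := T_2 (nat_lit 94) (nat_lit 77) (nat_lit 6) (nat_lit 8) (nat_lit 8) L1191706 (by decide +kernel)
theorem L1191708 : W_2 (nat_lit 2) (nat_lit 0xc001e00080005800600000000000000000000000) (nat_lit 0x0) (nat_lit 0x200000000c0000000000000000000000) := D_2 (nat_lit 125) (nat_lit 91) (nat_lit 90) (nat_lit 5) (nat_lit 6) (nat_lit 5) (nat_lit 4) (nat_lit 6) (nat_lit 9) (by decide +kernel)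
theorem L1191709 : W_2 (nat_lit 3) (nat_lit 0x4001e00080005800600000000000000000000000) (nat_lit 0x0) (nat_lit 0x80020000200000000c0000000000000000000000) := T_2 (nat_lit 159) (nat_lit 145) (nat_lit 1) (nat_lit 9) (nat_lit 8) L1191708 (by decide +kernel)
theorem L1191710 : W_2 (nat_lit 4) (nat_lit 0x4001e00080004800600000000000000000000000) (nat_lit 0x0) (nat_lit 0x80020000200030000c0000000000000000000000) := T_2 (nat_lit 108) (nat_lit 109) (nat_lit 2) (nat_lit 5) (nat_lit 6) L1191709 (by decide +kernel)
theorem L1191711 : W_2 (nat_lit 5) (nat_lit 0x4001e00080004800200000000000000000000000) (nat_lit 0x0) (nat_lit 0x80020000200030004c0020000000000000000000) := T_2 (nat_lit 94) (nat_lit 77) (nat_lit 6) (nat_lit 8) (nat_lit 8) L1191710 (by decide +kernel)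
theorem L1191712 : W_2 (nat_lit 6) (nat_lit 0x1e00080004800200000000000000000000000) (nat_lit 0x0) (nat_lit 0xe0020000200030004c0020000000000000000000) := T_2 (nat_lit 158) (nat_lit 157) (nat_lit 1) (nat_lit 8) (nat_lit 8) L1191711 (by decide +kernel)
theorem L1191713 : W_2 (nat_lit 7) (nat_lit 0x1a00080004800200000000000000000000000) (nat_lit 0x0) (nat_lit 0xe0024001200030004c0020000000000000000000) := T_2 (nat_lit 142) (nat_lit 128) (nat_lit 2) (nat_lit 5) (nat_lit 8) L1191712 (by decide +kernel)
theorem L1191714 : W_2 (nat_lit 8) (nat_lit 0x1200080004800200000000000000000000000) (nat_lit 0x0) (nat_lit 0x1e002c001200030004c0020000000000000000000) := T_2 (nat_lit 143) (nat_lit 160) (nat_lit 5) (nat_lit 8) (nat_lit 5) L1191713 (by decide +kernel)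
theorem L1191715 : W_2 (nat_lit 2) (nat_lit 0x3f00090005800640006000000000000000000) (nat_lit 0x0) (nat_lit 0x20001000080000000000000) := D_2 (nat_lit 72) (nat_lit 55) (nat_lit 89) (nat_lit 4) (nat_lit 5) (nat_lit 7) (nat_lit 4) (nat_lit 5) (nat_lit 8) (by decide +kernel)
theorem L1191716 : W_2 (nat_lit 3) (nat_lit 0x3f00090005800640004000000000000000000) (nat_lit 0x0) (nat_lit 0x20003000280000000000000) := T_2 (nat_lit 73) (nat_lit 57) (nat_lit 6) (nat_lit 5) (nat_lit 7) L1191715 (by decide +kernel)
theorem L1191717 : W_2 (nat_lit 4) (nat_lit 0x3e00090005800640004000000000000000000) (nat_lit 0x0) (nat_lit 0x2000100000000000020003000280000000000000) := T_2 (nat_lit 140) (nat_lit 157) (nat_lit 5) (nat_lit 5) (nat_lit 5) L1191716 (by decide +kernel)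
theorem L1191718 : W_2 (nat_lit 5) (nat_lit 0x3e00090005800640000000000000000000000) (nat_lit 0x0) (nat_lit 0x20001000000000000a0007000280000000000000) := T_2 (nat_lit 74) (nat_lit 91) (nat_lit 6) (nat_lit 5) (nat_lit 8) L1191717 (by decide +kernel)
theorem L1191719 : W_2 (nat_lit 6) (nat_lit 0x3e00090005800600000000000000000000000) (nat_lit 0x0) (nat_lit 0xa0001000000000000e0007000280000000000000) := T_2 (nat_lit 90) (nat_lit 159) (nat_lit 7) (nat_lit 5) (nat_lit 5) L1191718 (by decide +kernel)
theorem L1191720 : W_2 (nat_lit 7) (nat_lit 0x1e00090005800600000000000000000000000) (nat_lit 0x0) (nat_lit 0xa0021000200000000e0007000280000000000000) := T_2 (nat_lit 145) (nat_lit 125) (nat_lit 0) (nat_lit 9) (nat_lit 8) L1191719 (by decide +kernel)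
theorem L1191721 : W_2 (nat_lit 8) (nat_lit 0x1e00080005800600000000000000000000000) (nat_lit 0x0) (nat_lit 0xa0021000380000000e0007000280000000000000) := T_2 (nat_lit 124) (nat_lit 123) (nat_lit 0) (nat_lit 8) (nat_lit 8) L1191720 (by decide +kernel)
theorem L1191722 : W_2 (nat_lit 9) (nat_lit 0x1a00080005800600000000000000000000000) (nat_lit 0x0) (nat_lit 0xa0025001380000000e0007000280000000000000) := T_2 (nat_lit 142) (nat_lit 128) (nat_lit 2) (nat_lit 5) (nat_lit 8) L1191721 (by decide +kernel)
theorem L1191723 : W_2 (nat_lit 10) (nat_lit 0x1200080005800600000000000000000000000) (nat_lit 0x0) (nat_lit 0x1a002d001380000000e0007000280000000000000) := T_2 (nat_lit 143) (nat_lit 160) (nat_lit 5) (nat_lit 8) (nat_lit 5) L1191722 (by decide +kernel)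
theorem L1191724 : W_2 (nat_lit 11) (nat_lit 0x1200080004800600000000000000000000000) (nat_lit 0x0) (nat_lit 0x1a002d001380030000e0007000280000000000000) := T_2 (nat_lit 108) (nat_lit 109) (nat_lit 2) (nat_lit 5) (nat_lit 6) L1191723 (by decide +kernel)
theorem L1191725 : W_2 (nat_lit 12) (nat_lit 0x1200080004800200000000000000000000000) (nat_lit 0x0) (nat_lit 0x1a002d001380030004e0027000280000000000000) := T_2 (nat_lit 94) (nat_lit 77) (nat_lit 6) (nat_lit 8) (nat_lit 8) L1191724 (by decide +kernel)
theorem L1191726 : W_2 (nat_lit 2) (nat_lit 0x1e00090005800640000000000000000000000) (nat_lit 0x0) (nat_lit 0x2000020000000000002000000000000000000) := D_2 (nat_lit 125) (nat_lit 73) (nat_lit 145) (nat_lit 7) (nat_lit 5) (nat_lit 4) (nat_lit 0) (nat_lit 9) (nat_lit 8) (by decide +kernel)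
theorem L1191727 : W_2 (nat_lit 3) (nat_lit 0x1e00090005800600000000000000000000000) (nat_lit 0x0) (nat_lit 0x8002000020000000040002000000000000000000) := T_2 (nat_lit 90) (nat_lit 159) (nat_lit 7) (nat_lit 5) (nat_lit 5) L1191726 (by decide +kernel)
theorem L1191728 : W_2 (nat_lit 4) (nat_lit 0x1e00090004800600000000000000000000000) (nat_lit 0x0) (nat_lit 0x8002000020003000040002000000000000000000) := T_2 (nat_lit 108) (nat_lit 109) (nat_lit 2) (nat_lit 5) (nat_lit 6) L1191727 (by decide +kernel)
theorem L1191729 : W_2 (nat_lit 5) (nat_lit 0x1e00090004800200000000000000000000000) (nat_lit 0x0) (nat_lit 0x8002000020003000440022000000000000000000) := T_2 (nat_lit 94) (nat_lit 77) (nat_lit 6) (nat_lit 8) (nat_lit 8) L1191728 (by decide +kernel)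
theorem L1191730 : W_2 (nat_lit 6) (nat_lit 0x1e00080004800200000000000000000000000) (nat_lit 0x0) (nat_lit 0x8002000038003000440022000000000000000000) := T_2 (nat_lit 124) (nat_lit 123) (nat_lit 0) (nat_lit 8) (nat_lit 8) L1191729 (by decide +kernel)
theorem L1191731 : W_2 (nat_lit 7) (nat_lit 0x1a00080004800200000000000000000000000) (nat_lit 0x0) (nat_lit 0x8002400138003000440022000000000000000000) := T_2 (nat_lit 142) (nat_lit 128) (nat_lit 2) (nat_lit 5) (nat_lit 8) L1191730 (by decide +kernel)
theorem L1191732 : W_2 (nat_lit 8) (nat_lit 0x1200080004800200000000000000000000000) (nat_lit 0x0) (nat_lit 0x18002c00138003000440022000000000000000000) := T_2 (nat_lit 143) (nat_lit 160) (nat_lit 5) (nat_lit 8) (nat_lit 5) L1191731 (by decide +kernel)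
theorem L1191733 : W_2 (nat_lit 13) (nat_lit 0x1000080004800200000000000000000000000) (nat_lit 0x0) (nat_lit 0x600038003e003fc02fc013c0037804f8037c0138000c000000000) := Q_2 (nat_lit 141) (C_2 L1191650 (C_2 L1191651 (C_2 L1191669 (C_2 L1191701 (C_2 L1191707 (C_2 L1191714 (C_2 L1191725 (C_2 L1191732 N_2)))))))) (by decide +kernel)
theorem L1191734 : W_2 (nat_lit 2) (nat_lit 0x1400590006800340033000e00000000000000) (nat_lit 0x0) (nat_lit 0x8000200000000000020000000000000000000000) := D_2 (nat_lit 141) (nat_lit 89) (nat_lit 159) (nat_lit 4) (nat_lit 5) (nat_lit 8) (nat_lit 7) (nat_lit 5) (nat_lit 5) (by decide +kernel)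
theorem L1191735 : W_2 (nat_lit 3) (nat_lit 0x1000590006800340033000e00000000000000) (nat_lit 0x0) (nat_lit 0x8000600020000000020000000000000000000000) := T_2 (nat_lit 142) (nat_lit 125) (nat_lit 7) (nat_lit 5) (nat_lit 4) L1191734 (by decide +kernel)
theorem L1191736 : W_2 (nat_lit 4) (nat_lit 0x1000590006800340032000e00000000000000) (nat_lit 0x0) (nat_lit 0x8000600020000000020001000080000000000000) := T_2 (nat_lit 72) (nat_lit 55) (nat_lit 4) (nat_lit 5) (nat_lit 7) L1191735 (by decide +kernel)
theorem L1191737 : W_2 (nat_lit 5) (nat_lit 0x1000590006800340030000e00000000000000) (nat_lit 0x0) (nat_lit 0x8000600020000000020007000080000000000000) := T_2 (nat_lit 73) (nat_lit 74) (nat_lit 6) (nat_lit 5) (nat_lit 7) L1191736 (by decide +kernel)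
theorem L1191738 : W_2 (nat_lit 6) (nat_lit 0x1000590006800340030000c00000000000000) (nat_lit 0x0) (nat_lit 0x8000600020000000020007000380000000000000) := T_2 (nat_lit 57) (nat_lit 56) (nat_lit 3) (nat_lit 5) (nat_lit 3) L1191737 (by decide +kernel)
theorem L1191739 : W_2 (nat_lit 7) (nat_lit 0x1000590006800340030000800000000000000) (nat_lit 0x0) (nat_lit 0x8000600020000000020007000780020000000000) := T_2 (nat_lit 58) (nat_lit 41) (nat_lit 4) (nat_lit 8) (nat_lit 6) L1191738 (by decide +kernel)
theorem L1191740 : W_2 (nat_lit 8) (nat_lit 0x1000590006800340030000000000000000000) (nat_lit 0x0) (nat_lit 0x8000600020000000020007000f80060000000000) := T_2 (nat_lit 59) (nat_lit 42) (nat_lit 5) (nat_lit 8) (nat_lit 2) L1191739 (by decide +kernel)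
theorem L1191741 : W_2 (nat_lit 9) (nat_lit 0x1000590006800240030000000000000000000) (nat_lit 0x0) (nat_lit 0x28000600020000000120007000f80060000000000) := T_2 (nat_lit 92) (nat_lit 161) (nat_lit 4) (nat_lit 8) (nat_lit 9) L1191740 (by decide +kernel)
theorem L1191742 : W_2 (nat_lit 10) (nat_lit 0x1000190006800240030000000000000000000) (nat_lit 0x0) (nat_lit 0x28000600620000000120007000f80060000000000) := T_2 (nat_lit 130) (nat_lit 129) (nat_lit 0) (nat_lit 11) (nat_lit 7) L1191741 (by decide +kernel)
theorem L1191743 : W_2 (nat_lit 11) (nat_lit 0x1000190004800240030000000000000000000) (nat_lit 0x0) (nat_lit 0x28000600620003000120007000f80060000000000) := T_2 (nat_lit 109) (nat_lit 108) (nat_lit 3) (nat_lit 5) (nat_lit 6) L1191742 (by decide +kernel)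
theorem L1191744 : W_2 (nat_lit 12) (nat_lit 0x1000090004800240030000000000000000000) (nat_lit 0x0) (nat_lit 0x28002600720003000120007000f80060000000000) := T_2 (nat_lit 128) (nat_lit 145) (nat_lit 7) (nat_lit 8) (nat_lit 4) L1191743 (by decide +kernel)
theorem L1191745 : W_2 (nat_lit 13) (nat_lit 0x1000090004800240020000000000000000000) (nat_lit 0x0) (nat_lit 0x28002600720003000120017001f80060000000000) := T_2 (nat_lit 76) (nat_lit 60) (nat_lit 6) (nat_lit 8) (nat_lit 7) L1191744 (by decide +kernel)
theorem L1191746 : W_2 (nat_lit 14) (nat_lit 0x1000090004800240000000000000000000000) (nat_lit 0x0) (nat_lit 0x28002600720003000520037001f80060000000000) := T_2 (nat_lit 77) (nat_lit 94) (nat_lit 6) (nat_lit 8) (nat_lit 8) L1191745 (by decide +kernel)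
theorem L1191747 : W_2 (nat_lit 2) (nat_lit 0x8001000090005800640000000000000000000000) (nat_lit 0x0) (nat_lit 0x600020000000000000000000000000000000) := D_2 (nat_lit 142) (nat_lit 125) (nat_lit 141) (nat_lit 4) (nat_lit 6) (nat_lit 9) (nat_lit 7) (nat_lit 5) (nat_lit 5) (by decide +kernel)
theorem L1191748 : W_2 (nat_lit 3) (nat_lit 0x8001000090004800640000000000000000000000) (nat_lit 0x0) (nat_lit 0x600020003000000000000000000000000000) := T_2 (nat_lit 108) (nat_lit 109) (nat_lit 2) (nat_lit 5) (nat_lit 6) L1191747 (by decide +kernel)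
theorem L1191749 : W_2 (nat_lit 4) (nat_lit 0x8001000090004800240000000000000000000000) (nat_lit 0x0) (nat_lit 0x600020003000400020000000000000000000) := T_2 (nat_lit 94) (nat_lit 77) (nat_lit 6) (nat_lit 8) (nat_lit 8) L1191748 (by decide +kernel)
theorem L1191750 : W_2 (nat_lit 5) (nat_lit 0x8001000090004800240000000000000000000000) (nat_lit 0x0) (nat_lit 0x100006000700000000400020001000000000000000000) := T_2 (nat_lit 141) (nat_lit 142) (nat_lit 7) (nat_lit 5) (nat_lit 5) L244262 (by decide +kernel)
theorem L1191751 : W_2 (nat_lit 2) (nat_lit 0x3c001000090006801640000000000000000000000) (nat_lit 0x0) (nat_lit 0x100000000300000000000000000000000000000000000) := D_2 (nat_lit 141) (nat_lit 140) (nat_lit 176) (nat_lit 0) (nat_lit 8) (nat_lit 9) (nat_lit 7) (nat_lit 5) (nat_lit 6) (by decide +kernel)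
theorem L1191752 : W_2 (nat_lit 3) (nat_lit 0x38001000090006801640000000000000000000000) (nat_lit 0x0) (nat_lit 0x100004002300000000000000000000000000000000000) := T_2 (nat_lit 158) (nat_lit 145) (nat_lit 2) (nat_lit 5) (nat_lit 9) L1191751 (by decide +kernel)
theorem L1191753 : W_2 (nat_lit 4) (nat_lit 0x28001000090006801640000000000000000000000) (nat_lit 0x0) (nat_lit 0x300014002300000000000000000000000000000000000) := T_2 (nat_lit 160) (nat_lit 177) (nat_lit 5) (nat_lit 8) (nat_lit 6) L1191752 (by decide +kernel)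
theorem L1191754 : W_2 (nat_lit 5) (nat_lit 0x8001000090006801640000000000000000000000) (nat_lit 0x0) (nat_lit 0x300034002300000000000100000000000000000000000) := T_2 (nat_lit 161) (nat_lit 92) (nat_lit 4) (nat_lit 8) (nat_lit 9) L1191753 (by decide +kernel)
theorem L1191755 : W_2 (nat_lit 6) (nat_lit 0x8001000090006800640000000000000000000000) (nat_lit 0x0) (nat_lit 0x300034002300000000001900000000000000000000000) := T_2 (nat_lit 96) (nat_lit 95) (nat_lit 1) (nat_lit 11) (nat_lit 5) L1191754 (by decide +kernel)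
theorem L1191756 : W_2 (nat_lit 7) (nat_lit 0x8001000090004800640000000000000000000000) (nat_lit 0x0) (nat_lit 0x300034002300000003001900000000000000000000000) := T_2 (nat_lit 109) (nat_lit 108) (nat_lit 2) (nat_lit 5) (nat_lit 6) L1191755 (by decide +kernel)
theorem L1191757 : W_2 (nat_lit 8) (nat_lit 0x8001000090004800240000000000000000000000) (nat_lit 0x0) (nat_lit 0x300034002300000003001d00020000000000000000000) := T_2 (nat_lit 94) (nat_lit 77) (nat_lit 6) (nat_lit 8) (nat_lit 8) L1191756 (by decide +kernel)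
theorem L1191758 : W_2 (nat_lit 2) (nat_lit 0x44003e001000090006801640000000000000000000000) (nat_lit 0x0) (nat_lit 0x180008000000000000000000000000000000) := D_2 (nat_lit 140) (nat_lit 139) (nat_lit 123) (nat_lit 0) (nat_lit 7) (nat_lit 9) (nat_lit 6) (nat_lit 4) (nat_lit 10) (by decide +kernel)
theorem L1191759 : W_2 (nat_lit 3) (nat_lit 0x44003c001000090006801640000000000000000000000) (nat_lit 0x0) (nat_lit 0x20002000180008000000000000000000000000000000) := T_2 (nat_lit 157) (nat_lit 173) (nat_lit 1) (nat_lit 7) (nat_lit 9) L1191758 (by decide +kernel)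
theorem L1191760 : W_2 (nat_lit 4) (nat_lit 0x4003c001000090006801640000000000000000000000) (nat_lit 0x0) (nat_lit 0xc20002000180008000000000000000000000000000000) := T_2 (nat_lit 178) (nat_lit 179) (nat_lit 3) (nat_lit 5) (nat_lit 9) L1191759 (by decide +kernel)
theorem L1191761 : W_2 (nat_lit 5) (nat_lit 0x3c001000090006801640000000000000000000000) (nat_lit 0x0) (nat_lit 0xce0002000180008000000000000000000000000000000) := T_2 (nat_lit 174) (nat_lit 175) (nat_lit 1) (nat_lit 8) (nat_lit 9) L1191760 (by decide +kernel)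
theorem L1191762 : W_2 (nat_lit 6) (nat_lit 0x38001000090006801640000000000000000000000) (nat_lit 0x0) (nat_lit 0xce0006002180008000000000000000000000000000000) := T_2 (nat_lit 158) (nat_lit 145) (nat_lit 2) (nat_lit 5) (nat_lit 9) L1191761 (by decide +kernel)
theorem L1191763 : W_2 (nat_lit 7) (nat_lit 0x28001000090006801640000000000000000000000) (nat_lit 0x0) (nat_lit 0xee0016002180008000000000000000000000000000000) := T_2 (nat_lit 160) (nat_lit 177) (nat_lit 5) (nat_lit 8) (nat_lit 6) L1191762 (by decide +kernel)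
theorem L1191764 : W_2 (nat_lit 8) (nat_lit 0x8001000090006801640000000000000000000000) (nat_lit 0x0) (nat_lit 0xee0036002180008000000100000000000000000000000) := T_2 (nat_lit 161) (nat_lit 92) (nat_lit 4) (nat_lit 8) (nat_lit 9) L1191763 (by decide +kernel)
theorem L1191765 : W_2 (nat_lit 9) (nat_lit 0x8001000090006800640000000000000000000000) (nat_lit 0x0) (nat_lit 0xee0036002180008000001900000000000000000000000) := T_2 (nat_lit 96) (nat_lit 95) (nat_lit 1) (nat_lit 11) (nat_lit 5) L1191764 (by decide +kernel)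
theorem L1191766 : W_2 (nat_lit 10) (nat_lit 0x8001000090004800640000000000000000000000) (nat_lit 0x0) (nat_lit 0xee0036002180008003001900000000000000000000000) := T_2 (nat_lit 109) (nat_lit 108) (nat_lit 2) (nat_lit 5) (nat_lit 6) L1191765 (by decide +kernel)
theorem L1191767 : W_2 (nat_lit 11) (nat_lit 0x8001000090004800240000000000000000000000) (nat_lit 0x0) (nat_lit 0xee0036002180008003001d00020000000000000000000) := T_2 (nat_lit 94) (nat_lit 77) (nat_lit 6) (nat_lit 8) (nat_lit 8) L1191766 (by decide +kernel)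
theorem L1191768 : W_2 (nat_lit 12) (nat_lit 0x1000090004800240000000000000000000000) (nat_lit 0x0) (nat_lit 0xfe003e002780028003401d20021000000000000000000) := Q_2 (nat_lit 159) (C_2 L1191749 (C_2 L1191750 (C_2 L1191757 (C_2 L1191767 N_2)))) (by decide +kernel)
theorem L1191769 : W_2 (nat_lit 2) (nat_lit 0x1500590006800340032000e00000000000000) (nat_lit 0x0) (nat_lit 0xa000200000000000000000000000000000000000) := D_2 (nat_lit 141) (nat_lit 157) (nat_lit 159) (nat_lit 5) (nat_lit 5) (nat_lit 5) (nat_lit 7) (nat_lit 5) (nat_lit 5) (by decide +kernel)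
theorem L1191770 : W_2 (nat_lit 3) (nat_lit 0x1100590006800340032000e00000000000000) (nat_lit 0x0) (nat_lit 0xa000600020000000000000000000000000000000) := T_2 (nat_lit 142) (nat_lit 125) (nat_lit 7) (nat_lit 5) (nat_lit 4) L1191769 (by decide +kernel)
theorem L1191771 : W_2 (nat_lit 4) (nat_lit 0x1000590006800340032000e00000000000000) (nat_lit 0x0) (nat_lit 0xa000700028000000000000000000000000000000) := T_2 (nat_lit 140) (nat_lit 123) (nat_lit 5) (nat_lit 5) (nat_lit 4) L1191770 (by decide +kernel)
theorem L1191772 : W_2 (nat_lit 5) (nat_lit 0x1000590006800340030000e00000000000000) (nat_lit 0x0) (nat_lit 0xa000700028000000000006000000000000000000) := T_2 (nat_lit 73) (nat_lit 74) (nat_lit 6) (nat_lit 5) (nat_lit 7) L1191771 (by decide +kernel)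
theorem L1191773 : W_2 (nat_lit 6) (nat_lit 0x1000590006800340030000c00000000000000) (nat_lit 0x0) (nat_lit 0xa000700028000000000006000300000000000000) := T_2 (nat_lit 57) (nat_lit 56) (nat_lit 3) (nat_lit 5) (nat_lit 3) L1191772 (by decide +kernel)
theorem L1191774 : W_2 (nat_lit 7) (nat_lit 0x1000590006800340030000800000000000000) (nat_lit 0x0) (nat_lit 0xa000700028000000000006000700020000000000) := T_2 (nat_lit 58) (nat_lit 41) (nat_lit 4) (nat_lit 8) (nat_lit 6) L1191773 (by decide +kernel)
theorem L1191775 : W_2 (nat_lit 8) (nat_lit 0x1000590006800340030000000000000000000) (nat_lit 0x0) (nat_lit 0xa000700028000000000006000f00060000000000) := T_2 (nat_lit 59) (nat_lit 42) (nat_lit 5) (nat_lit 8) (nat_lit 2) L1191774 (by decide +kernel)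
theorem L1191776 : W_2 (nat_lit 9) (nat_lit 0x1000190006800340030000000000000000000) (nat_lit 0x0) (nat_lit 0xa000700628000000000006000f00060000000000) := T_2 (nat_lit 130) (nat_lit 129) (nat_lit 0) (nat_lit 11) (nat_lit 7) L1191775 (by decide +kernel)
theorem L1191777 : W_2 (nat_lit 10) (nat_lit 0x1000190006800240030000000000000000000) (nat_lit 0x0) (nat_lit 0x2a000700628000000100006000f00060000000000) := T_2 (nat_lit 92) (nat_lit 161) (nat_lit 4) (nat_lit 8) (nat_lit 9) L1191776 (by decide +kernel)
theorem L1191778 : W_2 (nat_lit 11) (nat_lit 0x1000190004800240030000000000000000000) (nat_lit 0x0) (nat_lit 0x2a000700628003000100006000f00060000000000) := T_2 (nat_lit 109) (nat_lit 108) (nat_lit 3) (nat_lit 5) (nat_lit 6) L1191777 (by decide +kernel)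
theorem L1191779 : W_2 (nat_lit 12) (nat_lit 0x1000090004800240030000000000000000000) (nat_lit 0x0) (nat_lit 0x2a002700728003000100006000f00060000000000) := T_2 (nat_lit 128) (nat_lit 145) (nat_lit 7) (nat_lit 8) (nat_lit 4) L1191778 (by decide +kernel)
theorem L1191780 : W_2 (nat_lit 13) (nat_lit 0x1000090004800240020000000000000000000) (nat_lit 0x0) (nat_lit 0x2a002700728003000100016001f00060000000000) := T_2 (nat_lit 76) (nat_lit 60) (nat_lit 6) (nat_lit 8) (nat_lit 7) L1191779 (by decide +kernel)
theorem L1191781 : W_2 (nat_lit 14) (nat_lit 0x1000090004800240000000000000000000000) (nat_lit 0x0) (nat_lit 0x2a002700728003000500036001f00060000000000) := T_2 (nat_lit 77) (nat_lit 94) (nat_lit 6) (nat_lit 8) (nat_lit 8) L1191780 (by decide +kernel)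
theorem L1191782 : W_2 (nat_lit 15) (nat_lit 0x1000080004800240000000000000000000000) (nat_lit 0x0) (nat_lit 0xfe003e0027c073e003701d30037001f80074000000000) := Q_2 (nat_lit 124) (C_2 L246444 (C_2 L70722 (C_2 L70712 (C_2 L1191746 (C_2 L1191768 (C_2 L1191781 N_2)))))) (by decide +kernel)
theorem L1191783 : W_2 (nat_lit 16) (nat_lit 0x1000080004800200000000000000000000000) (nat_lit 0x0) (nat_lit 0xfe003e0027c073e003701df80f7c01fe007f800e00020) := Q_2 (nat_lit 90) (C_2 L258934 (C_2 L1191272 (C_2 L1191482 (C_2 L91989 (C_2 L1191181 (C_2 L1191782 (C_2 L1191267 N_2))))))) (by decide +kernel)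
theorem L1191784 : W_2 (nat_lit 6) (nat_lit 0x30001000080004800200000000000000000000000) (nat_lit 0x0) (nat_lit 0x1c003400570000000000000000000000) := T_2 (nat_lit 109) (nat_lit 92) (nat_lit 4) (nat_lit 8) (nat_lit 9) L3755 (by decide +kernel)
theorem L1191785 : W_2 (nat_lit 7) (nat_lit 0x10001000080004800200000000000000000000000) (nat_lit 0x0) (nat_lit 0x20002000000001c003400570000000000000000000000) := T_2 (nat_lit 161) (nat_lit 177) (nat_lit 5) (nat_lit 8) (nat_lit 6) L1191784 (by decide +kernel)
theorem L1191786 : W_2 (nat_lit 8) (nat_lit 0x1000080004800200000000000000000000000) (nat_lit 0x0) (nat_lit 0x20003000080001c003400570000000000000000000000) := T_2 (nat_lit 160) (nat_lit 143) (nat_lit 5) (nat_lit 8) (nat_lit 5) L1191785 (by decide +kernel)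
theorem L1192333 : W_2 (nat_lit 2) (nat_lit 0x4003e00090004c00680000000000000000000000) (nat_lit 0x0) (nat_lit 0x140004000000000000000000) := D_2 (nat_lit 90) (nat_lit 92) (nat_lit 74) (nat_lit 1) (nat_lit 8) (nat_lit 5) (nat_lit 6) (nat_lit 5) (nat_lit 8) (by decide +kernel)
theorem L1192334 : W_2 (nat_lit 3) (nat_lit 0x4003e00090004800680000000000000000000000) (nat_lit 0x0) (nat_lit 0x400160004000000000000000000) := T_2 (nat_lit 106) (nat_lit 89) (nat_lit 4) (nat_lit 5) (nat_lit 9) L1192333 (by decide +kernel)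
theorem L1192335 : W_2 (nat_lit 4) (nat_lit 0x4003e00090004800600000000000000000000000) (nat_lit 0x0) (nat_lit 0x14001e0004000000000000000000) := T_2 (nat_lit 91) (nat_lit 108) (nat_lit 6) (nat_lit 5) (nat_lit 9) L1192334 (by decide +kernel)
theorem L1193229 : W_2 (nat_lit 2) (nat_lit 0x4001e00090004800200000000000000000000000) (nat_lit 0x0) (nat_lit 0x100008000000000000000040000000000000000000000) := D_2 (nat_lit 159) (nat_lit 90) (nat_lit 176) (nat_lit 7) (nat_lit 5) (nat_lit 5) (nat_lit 7) (nat_lit 5) (nat_lit 6) (by decide +kernel)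
theorem L1193230 : W_2 (nat_lit 3) (nat_lit 0x4001e00080004800200000000000000000000000) (nat_lit 0x0) (nat_lit 0x100008000000018000000040000000000000000000000) := T_2 (nat_lit 124) (nat_lit 123) (nat_lit 0) (nat_lit 8) (nat_lit 8) L1193229 (by decide +kernel)
theorem L1193231 : W_2 (nat_lit 4) (nat_lit 0x1e00080004800200000000000000000000000) (nat_lit 0x0) (nat_lit 0x10000e000000018000000040000000000000000000000) := T_2 (nat_lit 158) (nat_lit 157) (nat_lit 1) (nat_lit 8) (nat_lit 8) L1193230 (by decide +kernel)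
theorem L1193232 : W_2 (nat_lit 5) (nat_lit 0x1a00080004800200000000000000000000000) (nat_lit 0x0) (nat_lit 0x10000e000400118000000040000000000000000000000) := T_2 (nat_lit 142) (nat_lit 128) (nat_lit 2) (nat_lit 5) (nat_lit 8) L1193231 (by decide +kernel)
theorem L1193233 : W_2 (nat_lit 6) (nat_lit 0x1200080004800200000000000000000000000) (nat_lit 0x0) (nat_lit 0x10001e000c00118000000040000000000000000000000) := T_2 (nat_lit 143) (nat_lit 160) (nat_lit 5) (nat_lit 8) (nat_lit 5) L1193232 (by decide +kernel)
theorem L1193260 : W_2 (nat_lit 2) (nat_lit 0x36003200090004800240030000000000000000000) (nat_lit 0x0) (nat_lit 0x400020001000000000000000000) := D_2 (nat_lit 89) (nat_lit 72) (nat_lit 106) (nat_lit 4) (nat_lit 5) (nat_lit 8) (nat_lit 4) (nat_lit 5) (nat_lit 9) (by decide +kernel)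
theorem L1193261 : W_2 (nat_lit 3) (nat_lit 0x36003200090004800200030000000000000000000) (nat_lit 0x0) (nat_lit 0x100000000400060001000000000000000000) := T_2 (nat_lit 90) (nat_lit 140) (nat_lit 5) (nat_lit 5) (nat_lit 5) L1193260 (by decide +kernel)
theorem L1193262 : W_2 (nat_lit 4) (nat_lit 0x34003200090004800200030000000000000000000) (nat_lit 0x0) (nat_lit 0x40002000100000000400060001000000000000000000) := T_2 (nat_lit 157) (nat_lit 174) (nat_lit 5) (nat_lit 5) (nat_lit 6) L1193261 (by decide +kernel)
theorem L1193263 : W_2 (nat_lit 5) (nat_lit 0x30003200090004800200030000000000000000000) (nat_lit 0x0) (nat_lit 0x4000e000100000000400060001000000000000000000) := T_2 (nat_lit 158) (nat_lit 159) (nat_lit 2) (nat_lit 5) (nat_lit 9) L1193262 (by decide +kernel)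
theorem L1193264 : W_2 (nat_lit 6) (nat_lit 0x30001200090004800200030000000000000000000) (nat_lit 0x0) (nat_lit 0x4000e002100100000400060001000000000000000000) := T_2 (nat_lit 145) (nat_lit 128) (nat_lit 7) (nat_lit 8) (nat_lit 4) L1193263 (by decide +kernel)
theorem L1193265 : W_2 (nat_lit 7) (nat_lit 0x30001200090004800200020000000000000000000) (nat_lit 0x0) (nat_lit 0x4000e002100100000400060011001000000000000000) := T_2 (nat_lit 76) (nat_lit 60) (nat_lit 6) (nat_lit 8) (nat_lit 7) L1193264 (by decide +kernel)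
theorem L1193266 : W_2 (nat_lit 8) (nat_lit 0x10001200090004800200020000000000000000000) (nat_lit 0x0) (nat_lit 0x24002e002100100000400060011001000000000000000) := T_2 (nat_lit 161) (nat_lit 177) (nat_lit 5) (nat_lit 8) (nat_lit 6) L1193265 (by decide +kernel)
theorem L1193267 : W_2 (nat_lit 9) (nat_lit 0x10001200090004800200000000000000000000000) (nat_lit 0x0) (nat_lit 0x24002e002100100000400460031001000000000000000) := T_2 (nat_lit 77) (nat_lit 94) (nat_lit 6) (nat_lit 8) (nat_lit 8) L1193266 (by decide +kernel)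
theorem L1193268 : W_2 (nat_lit 10) (nat_lit 0x1200090004800200000000000000000000000) (nat_lit 0x0) (nat_lit 0x24003e002900100000400460031001000000000000000) := T_2 (nat_lit 160) (nat_lit 143) (nat_lit 5) (nat_lit 8) (nat_lit 5) L1193267 (by decide +kernel)
theorem L1193269 : W_2 (nat_lit 2) (nat_lit 0x12000900048003c0000000000000000000000) (nat_lit 0x0) (nat_lit 0x20003000000000000000000) := D_2 (nat_lit 72) (nat_lit 73) (nat_lit 89) (nat_lit 0) (nat_lit 8) (nat_lit 5) (nat_lit 4) (nat_lit 5) (nat_lit 8) (by decide +kernel)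
theorem L1193270 : W_2 (nat_lit 3) (nat_lit 0x12000900048002c0000000000000000000000) (nat_lit 0x0) (nat_lit 0x400120003000000000000000000) := T_2 (nat_lit 92) (nat_lit 106) (nat_lit 1) (nat_lit 8) (nat_lit 5) L1193269 (by decide +kernel)
theorem L1193271 : W_2 (nat_lit 4) (nat_lit 0x1200090004800240000000000000000000000) (nat_lit 0x0) (nat_lit 0x4001a0007000000000000000000) := T_2 (nat_lit 91) (nat_lit 74) (nat_lit 6) (nat_lit 5) (nat_lit 8) L1193270 (by decide +kernel)
theorem L1193272 : W_2 (nat_lit 2) (nat_lit 0x1a000900048003c0000000000000000000000) (nat_lit 0x0) (nat_lit 0x1000400020000000000000000000) := D_2 (nat_lit 94) (nat_lit 77) (nat_lit 108) (nat_lit 6) (nat_lit 8) (nat_lit 8) (nat_lit 1) (nat_lit 9) (nat_lit 5) (by decide +kernel)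
theorem L1193273 : W_2 (nat_lit 3) (nat_lit 0x1a000900048002c0000000000000000000000) (nat_lit 0x0) (nat_lit 0x1400500020000000000000000000) := T_2 (nat_lit 92) (nat_lit 106) (nat_lit 1) (nat_lit 8) (nat_lit 5) L1193272 (by decide +kernel)
theorem L1193274 : W_2 (nat_lit 4) (nat_lit 0x1a00090004800240000000000000000000000) (nat_lit 0x0) (nat_lit 0x1400580024000000000000000000) := T_2 (nat_lit 91) (nat_lit 74) (nat_lit 6) (nat_lit 5) (nat_lit 8) L1193273 (by decide +kernel)
theorem L1193275 : W_2 (nat_lit 5) (nat_lit 0x1200090004800240000000000000000000000) (nat_lit 0x0) (nat_lit 0x10000800000001400580024000000000000000000) := T_2 (nat_lit 143) (nat_lit 160) (nat_lit 5) (nat_lit 8) (nat_lit 5) L1193274 (by decide +kernel)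
theorem L1193276 : W_2 (nat_lit 9) (nat_lit 0x1200090004800200000000000000000000000) (nat_lit 0x0) (nat_lit 0x120009000080014005e0027000380014000000000) := Q_2 (nat_lit 90) (C_2 L70595 (C_2 L1191624 (C_2 L1193271 (C_2 L70451 (C_2 L1193275 N_2))))) (by decide +kernel)
theorem L1193277 : W_2 (nat_lit 2) (nat_lit 0x80036003200090005800200030000000000000000000) (nat_lit 0x0) (nat_lit 0x8000400020000000000000000000000) := D_2 (nat_lit 106) (nat_lit 123) (nat_lit 89) (nat_lit 4) (nat_lit 5) (nat_lit 10) (nat_lit 4) (nat_lit 5) (nat_lit 9) (by decide +kernel)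
theorem L1193278 : W_2 (nat_lit 3) (nat_lit 0x36003200090005800200030000000000000000000) (nat_lit 0x0) (nat_lit 0x80000000000028000400020000000000000000000000) := T_2 (nat_lit 175) (nat_lit 125) (nat_lit 6) (nat_lit 5) (nat_lit 10) L1193277 (by decide +kernel)
theorem L1193279 : W_2 (nat_lit 4) (nat_lit 0x34003200090005800200030000000000000000000) (nat_lit 0x0) (nat_lit 0xc0002000000028000400020000000000000000000000) := T_2 (nat_lit 157) (nat_lit 174) (nat_lit 5) (nat_lit 5) (nat_lit 6) L1193278 (by decide +kernel)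
theorem L1193280 : W_2 (nat_lit 5) (nat_lit 0x34003200090004800200030000000000000000000) (nat_lit 0x0) (nat_lit 0xc00020000000280014000a0000000000000000000000) := T_2 (nat_lit 108) (nat_lit 91) (nat_lit 6) (nat_lit 5) (nat_lit 9) L1193279 (by decide +kernel)
theorem L1193281 : W_2 (nat_lit 6) (nat_lit 0x30003200090004800200030000000000000000000) (nat_lit 0x0) (nat_lit 0xc000e0000000280014000a0000000000000000000000) := T_2 (nat_lit 158) (nat_lit 159) (nat_lit 2) (nat_lit 5) (nat_lit 9) L1193280 (by decide +kernel)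
theorem L1193282 : W_2 (nat_lit 7) (nat_lit 0x30001200090004800200030000000000000000000) (nat_lit 0x0) (nat_lit 0xc000e0020001280014000a0000000000000000000000) := T_2 (nat_lit 145) (nat_lit 128) (nat_lit 7) (nat_lit 8) (nat_lit 4) L1193281 (by decide +kernel)
theorem L1193283 : W_2 (nat_lit 8) (nat_lit 0x30001200090004800200020000000000000000000) (nat_lit 0x0) (nat_lit 0xc000e0020001280014000a0010001000000000000000) := T_2 (nat_lit 76) (nat_lit 60) (nat_lit 6) (nat_lit 8) (nat_lit 7) L1193282 (by decide +kernel)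
theorem L1193284 : W_2 (nat_lit 9) (nat_lit 0x10001200090004800200020000000000000000000) (nat_lit 0x0) (nat_lit 0x2c002e0020001280014000a0010001000000000000000) := T_2 (nat_lit 161) (nat_lit 177) (nat_lit 5) (nat_lit 8) (nat_lit 6) L1193283 (by decide +kernel)
theorem L1193285 : W_2 (nat_lit 10) (nat_lit 0x10001200090004800200000000000000000000000) (nat_lit 0x0) (nat_lit 0x2c002e0020001280014004a0030001000000000000000) := T_2 (nat_lit 77) (nat_lit 94) (nat_lit 6) (nat_lit 8) (nat_lit 8) L1193284 (by decide +kernel)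
theorem L1193286 : W_2 (nat_lit 11) (nat_lit 0x1200090004800200000000000000000000000) (nat_lit 0x0) (nat_lit 0x2c003e0028001280014004a0030001000000000000000) := T_2 (nat_lit 160) (nat_lit 143) (nat_lit 5) (nat_lit 8) (nat_lit 5) L1193285 (by decide +kernel)
theorem L1193287 : W_2 (nat_lit 2) (nat_lit 0x34003200090005c00200030000000000000000000) (nat_lit 0x0) (nat_lit 0x80000000000028000000000000000000000000000000) := D_2 (nat_lit 175) (nat_lit 125) (nat_lit 123) (nat_lit 6) (nat_lit 5) (nat_lit 10) (nat_lit 4) (nat_lit 5) (nat_lit 10) (by decide +kernel)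
theorem L1193288 : W_2 (nat_lit 3) (nat_lit 0x34003200090005800200030000000000000000000) (nat_lit 0x0) (nat_lit 0x80000000000028000400020000000000000000000000) := T_2 (nat_lit 106) (nat_lit 89) (nat_lit 4) (nat_lit 5) (nat_lit 9) L1193287 (by decide +kernel)
theorem L1193289 : W_2 (nat_lit 4) (nat_lit 0x34003200090004800200030000000000000000000) (nat_lit 0x0) (nat_lit 0x800000000000280014000a0000000000000000000000) := T_2 (nat_lit 108) (nat_lit 91) (nat_lit 6) (nat_lit 5) (nat_lit 9) L1193288 (by decide +kernel)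
theorem L1193290 : W_2 (nat_lit 5) (nat_lit 0x30003200090004800200030000000000000000000) (nat_lit 0x0) (nat_lit 0x8000c0000000280014000a0000000000000000000000) := T_2 (nat_lit 158) (nat_lit 159) (nat_lit 2) (nat_lit 5) (nat_lit 9) L1193289 (by decide +kernel)
theorem L1193291 : W_2 (nat_lit 6) (nat_lit 0x30001200090004800200030000000000000000000) (nat_lit 0x0) (nat_lit 0x8000c0020001280014000a0000000000000000000000) := T_2 (nat_lit 145) (nat_lit 128) (nat_lit 7) (nat_lit 8) (nat_lit 4) L1193290 (by decide +kernel)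
theorem L1193292 : W_2 (nat_lit 7) (nat_lit 0x30001200090004800200020000000000000000000) (nat_lit 0x0) (nat_lit 0x8000c0020001280014000a0010001000000000000000) := T_2 (nat_lit 76) (nat_lit 60) (nat_lit 6) (nat_lit 8) (nat_lit 7) L1193291 (by decide +kernel)
theorem L1193293 : W_2 (nat_lit 8) (nat_lit 0x10001200090004800200020000000000000000000) (nat_lit 0x0) (nat_lit 0x28002c0020001280014000a0010001000000000000000) := T_2 (nat_lit 161) (nat_lit 177) (nat_lit 5) (nat_lit 8) (nat_lit 6) L1193292 (by decide +kernel)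
theorem L1193294 : W_2 (nat_lit 9) (nat_lit 0x10001200090004800200000000000000000000000) (nat_lit 0x0) (nat_lit 0x28002c0020001280014004a0030001000000000000000) := T_2 (nat_lit 77) (nat_lit 94) (nat_lit 6) (nat_lit 8) (nat_lit 8) L1193293 (by decide +kernel)
theorem L1193295 : W_2 (nat_lit 10) (nat_lit 0x1200090004800200000000000000000000000) (nat_lit 0x0) (nat_lit 0x28003c0028001280014004a0030001000000000000000) := T_2 (nat_lit 160) (nat_lit 143) (nat_lit 5) (nat_lit 8) (nat_lit 5) L1193294 (by decide +kernel)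
theorem L1193296 : W_2 (nat_lit 12) (nat_lit 0x1200080004800200000000000000000000000) (nat_lit 0x0) (nat_lit 0x20003c003e0029c01380014005e0037001380014000000000) := Q_2 (nat_lit 124) (C_2 L242538 (C_2 L1193268 (C_2 L1193276 (C_2 L1193286 (C_2 L1193295 (C_2 L242853 N_2)))))) (by decide +kernel)
theorem L1193297 : W_2 (nat_lit 4) (nat_lit 0x1600190004800200030000000000000000000) (nat_lit 0x0) (nat_lit 0x80000000200000000c0006000200000000000000) := T_2 (nat_lit 90) (nat_lit 159) (nat_lit 7) (nat_lit 5) (nat_lit 5) L1191367 (by decide +kernel)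
theorem L1193298 : W_2 (nat_lit 5) (nat_lit 0x1200190004800200030000000000000000000) (nat_lit 0x0) (nat_lit 0x8000c000200000000c0006000200000000000000) := T_2 (nat_lit 142) (nat_lit 143) (nat_lit 2) (nat_lit 5) (nat_lit 8) L1193297 (by decide +kernel)
theorem L1193299 : W_2 (nat_lit 6) (nat_lit 0x1200090004800200030000000000000000000) (nat_lit 0x0) (nat_lit 0x8002c001200000000c0006000200000000000000) := T_2 (nat_lit 128) (nat_lit 145) (nat_lit 7) (nat_lit 8) (nat_lit 4) L1193298 (by decide +kernel)
theorem L1193300 : W_2 (nat_lit 7) (nat_lit 0x1200090004800200020000000000000000000) (nat_lit 0x0) (nat_lit 0x8002c001200000000c0016001200000000000000) := T_2 (nat_lit 76) (nat_lit 60) (nat_lit 6) (nat_lit 8) (nat_lit 7) L1193299 (by decide +kernel)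
theorem L1193301 : W_2 (nat_lit 8) (nat_lit 0x1200090004800200000000000000000000000) (nat_lit 0x0) (nat_lit 0x8002c001200000004c0036001200000000000000) := T_2 (nat_lit 77) (nat_lit 94) (nat_lit 6) (nat_lit 8) (nat_lit 8) L1193300 (by decide +kernel)
theorem L1193302 : W_2 (nat_lit 2) (nat_lit 0x1600190004800240032000000000000000000) (nat_lit 0x0) (nat_lit 0x20001000080000000000000) := D_2 (nat_lit 72) (nat_lit 89) (nat_lit 55) (nat_lit 4) (nat_lit 5) (nat_lit 8) (nat_lit 4) (nat_lit 5) (nat_lit 7) (by decide +kernel)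
theorem L1193303 : W_2 (nat_lit 3) (nat_lit 0x1600190004800240030000000000000000000) (nat_lit 0x0) (nat_lit 0x20000000020003000080000000000000) := T_2 (nat_lit 73) (nat_lit 125) (nat_lit 7) (nat_lit 5) (nat_lit 4) L1193302 (by decide +kernel)
theorem L1193304 : W_2 (nat_lit 4) (nat_lit 0x1600190004800200030000000000000000000) (nat_lit 0x0) (nat_lit 0x8000000020000000060003000080000000000000) := T_2 (nat_lit 90) (nat_lit 159) (nat_lit 7) (nat_lit 5) (nat_lit 5) L1193303 (by decide +kernel)
theorem L1193305 : W_2 (nat_lit 5) (nat_lit 0x1200190004800200030000000000000000000) (nat_lit 0x0) (nat_lit 0x8000c00020000000060003000080000000000000) := T_2 (nat_lit 142) (nat_lit 143) (nat_lit 2) (nat_lit 5) (nat_lit 8) L1193304 (by decide +kernel)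
theorem L1193306 : W_2 (nat_lit 6) (nat_lit 0x1200090004800200030000000000000000000) (nat_lit 0x0) (nat_lit 0x8002c00120000000060003000080000000000000) := T_2 (nat_lit 128) (nat_lit 145) (nat_lit 7) (nat_lit 8) (nat_lit 4) L1193305 (by decide +kernel)
theorem L1193307 : W_2 (nat_lit 7) (nat_lit 0x1200090004800200020000000000000000000) (nat_lit 0x0) (nat_lit 0x8002c00120000000060013001080000000000000) := T_2 (nat_lit 76) (nat_lit 60) (nat_lit 6) (nat_lit 8) (nat_lit 7) L1193306 (by decide +kernel)
theorem L1193308 : W_2 (nat_lit 8) (nat_lit 0x1200090004800200000000000000000000000) (nat_lit 0x0) (nat_lit 0x8002c00120000000460033001080000000000000) := T_2 (nat_lit 77) (nat_lit 94) (nat_lit 6) (nat_lit 8) (nat_lit 8) L1193307 (by decide +kernel)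
theorem L1193309 : W_2 (nat_lit 2) (nat_lit 0x2000f001680090005c00600000000000000000000000) (nat_lit 0x0) (nat_lit 0x10000c000000000000000000000000000000) := D_2 (nat_lit 123) (nat_lit 140) (nat_lit 122) (nat_lit 5) (nat_lit 4) (nat_lit 6) (nat_lit 6) (nat_lit 3) (nat_lit 10) (by decide +kernel)
theorem L1193310 : W_2 (nat_lit 3) (nat_lit 0x2000f001600090005c00600000000000000000000000) (nat_lit 0x0) (nat_lit 0x1c000c000000000000000000000000000000) := T_2 (nat_lit 139) (nat_lit 138) (nat_lit 0) (nat_lit 6) (nat_lit 9) L1193309 (by decide +kernel)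
theorem L1193311 : W_2 (nat_lit 4) (nat_lit 0xf001600090005c00600000000000000000000000) (nat_lit 0x0) (nat_lit 0x300000001c000c000000000000000000000000000000) := T_2 (nat_lit 173) (nat_lit 172) (nat_lit 1) (nat_lit 6) (nat_lit 9) L1193310 (by decide +kernel)
theorem L1193312 : W_2 (nat_lit 5) (nat_lit 0xe001600090005c00600000000000000000000000) (nat_lit 0x0) (nat_lit 0x300018001c000c000000000000000000000000000000) := T_2 (nat_lit 156) (nat_lit 155) (nat_lit 2) (nat_lit 2) (nat_lit 9) L1193311 (by decide +kernel)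
theorem L1193313 : W_2 (nat_lit 6) (nat_lit 0xe001600090005800600000000000000000000000) (nat_lit 0x0) (nat_lit 0x300018001c000c000400020000000000000000000000) := T_2 (nat_lit 106) (nat_lit 89) (nat_lit 4) (nat_lit 5) (nat_lit 9) L1193312 (by decide +kernel)
theorem L1193314 : W_2 (nat_lit 7) (nat_lit 0xe001200090005800600000000000000000000000) (nat_lit 0x0) (nat_lit 0x30001800dc000c000400020000000000000000000000) := T_2 (nat_lit 142) (nat_lit 143) (nat_lit 1) (nat_lit 8) (nat_lit 8) L1193313 (by decide +kernel)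
theorem L1193315 : W_2 (nat_lit 8) (nat_lit 0xc001200090005800600000000000000000000000) (nat_lit 0x0) (nat_lit 0x70003800dc000c000400020000000000000000000000) := T_2 (nat_lit 157) (nat_lit 174) (nat_lit 5) (nat_lit 5) (nat_lit 6) L1193314 (by decide +kernel)
theorem L1193316 : W_2 (nat_lit 9) (nat_lit 0x4001200090005800600000000000000000000000) (nat_lit 0x0) (nat_lit 0x17000b800dc000c000400020000000000000000000000) := T_2 (nat_lit 159) (nat_lit 176) (nat_lit 7) (nat_lit 5) (nat_lit 6) L1193315 (by decide +kernel)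
theorem L1193317 : W_2 (nat_lit 10) (nat_lit 0x4001200090004800600000000000000000000000) (nat_lit 0x0) (nat_lit 0x17000b800dc000c0014000a0000000000000000000000) := T_2 (nat_lit 108) (nat_lit 91) (nat_lit 6) (nat_lit 5) (nat_lit 9) L1193316 (by decide +kernel)
theorem L1193318 : W_2 (nat_lit 11) (nat_lit 0x4001200090004800200000000000000000000000) (nat_lit 0x0) (nat_lit 0x17000b800dc000c0014004a0020000000000000000000) := T_2 (nat_lit 94) (nat_lit 77) (nat_lit 6) (nat_lit 8) (nat_lit 8) L1193317 (by decide +kernel)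
theorem L1193319 : W_2 (nat_lit 12) (nat_lit 0x1200090004800200000000000000000000000) (nat_lit 0x0) (nat_lit 0x600038001f000f800dc002c0014004a0020000000000000000000) := Q_2 (nat_lit 158) (C_2 L243155 (C_2 L243147 (C_2 L243118 (C_2 L243115 (C_2 L1193318 N_2))))) (by decide +kernel)
theorem L1193320 : W_2 (nat_lit 13) (nat_lit 0x1200080004800200000000000000000000000) (nat_lit 0x0) (nat_lit 0x600038001f000f802dc013c0014004e0037001380008000000000) := Q_2 (nat_lit 124) (C_2 L242538 (C_2 L70566 (C_2 L1193301 (C_2 L1193308 (C_2 L1193319 N_2))))) (by decide +kernel)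
theorem L1193321 : W_2 (nat_lit 2) (nat_lit 0x1e00090004800640000000000000000000000) (nat_lit 0x0) (nat_lit 0x2000020000000000002000000000000000000) := D_2 (nat_lit 125) (nat_lit 73) (nat_lit 145) (nat_lit 7) (nat_lit 5) (nat_lit 4) (nat_lit 0) (nat_lit 9) (nat_lit 8) (by decide +kernel)
theorem L1193322 : W_2 (nat_lit 3) (nat_lit 0x1e00090004800600000000000000000000000) (nat_lit 0x0) (nat_lit 0x8002000020000000040002000000000000000000) := T_2 (nat_lit 90) (nat_lit 159) (nat_lit 7) (nat_lit 5) (nat_lit 5) L1193321 (by decide +kernel)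
theorem L1193323 : W_2 (nat_lit 4) (nat_lit 0x1e00090004800200000000000000000000000) (nat_lit 0x0) (nat_lit 0x8002000020000000440022000000000000000000) := T_2 (nat_lit 94) (nat_lit 77) (nat_lit 6) (nat_lit 8) (nat_lit 8) L1193322 (by decide +kernel)
theorem L1193324 : W_2 (nat_lit 5) (nat_lit 0x1a00090004800200000000000000000000000) (nat_lit 0x0) (nat_lit 0x8002400028000000440022000000000000000000) := T_2 (nat_lit 142) (nat_lit 123) (nat_lit 0) (nat_lit 8) (nat_lit 8) L1193323 (by decide +kernel)
theorem L1193325 : W_2 (nat_lit 6) (nat_lit 0x1200090004800200000000000000000000000) (nat_lit 0x0) (nat_lit 0x18002c00028000000440022000000000000000000) := T_2 (nat_lit 143) (nat_lit 160) (nat_lit 5) (nat_lit 8) (nat_lit 5) L1193324 (by decide +kernel)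
theorem L1193326 : W_2 (nat_lit 13) (nat_lit 0x1200080004800200000000000000000000000) (nat_lit 0x0) (nat_lit 0x600038001f001f802dc003c0014005e002700038001c000000000) := Q_2 (nat_lit 124) (C_2 L242538 (C_2 L70566 (C_2 L1193319 (C_2 L1193276 (C_2 L1193325 (C_2 L242853 N_2)))))) (by decide +kernel)
theorem L1193327 : W_2 (nat_lit 5) (nat_lit 0x4001e00090004800600000000000000000000000) (nat_lit 0x0) (nat_lit 0x20000200014001e0004000000000000000000) := T_2 (nat_lit 145) (nat_lit 125) (nat_lit 0) (nat_lit 9) (nat_lit 8) L1192335 (by decide +kernel)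
theorem L1193328 : W_2 (nat_lit 6) (nat_lit 0x4001e00080004800600000000000000000000000) (nat_lit 0x0) (nat_lit 0x20000380014001e0004000000000000000000) := T_2 (nat_lit 124) (nat_lit 123) (nat_lit 0) (nat_lit 8) (nat_lit 8) L1193327 (by decide +kernel)
theorem L1193329 : W_2 (nat_lit 7) (nat_lit 0x1e00080004800600000000000000000000000) (nat_lit 0x0) (nat_lit 0x60020000380014001e0004000000000000000000) := T_2 (nat_lit 158) (nat_lit 157) (nat_lit 1) (nat_lit 8) (nat_lit 8) L1193328 (by decide +kernel)
theorem L1193330 : W_2 (nat_lit 8) (nat_lit 0x1a00080004800600000000000000000000000) (nat_lit 0x0) (nat_lit 0x60024001380014001e0004000000000000000000) := T_2 (nat_lit 142) (nat_lit 128) (nat_lit 2) (nat_lit 5) (nat_lit 8) L1193329 (by decide +kernel)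
theorem L1193331 : W_2 (nat_lit 9) (nat_lit 0x1200080004800600000000000000000000000) (nat_lit 0x0) (nat_lit 0x16002c001380014001e0004000000000000000000) := T_2 (nat_lit 143) (nat_lit 160) (nat_lit 5) (nat_lit 8) (nat_lit 5) L1193330 (by decide +kernel)
theorem L1193332 : W_2 (nat_lit 10) (nat_lit 0x1200080004800200000000000000000000000) (nat_lit 0x0) (nat_lit 0x16002c001380014005e0024000000000000000000) := T_2 (nat_lit 94) (nat_lit 77) (nat_lit 6) (nat_lit 8) (nat_lit 8) L1193331 (by decide +kernel)
theorem L1193333 : W_2 (nat_lit 2) (nat_lit 0x12000900048006c0000000000000000000000) (nat_lit 0x0) (nat_lit 0x1400100000000000000000000000) := D_2 (nat_lit 92) (nat_lit 108) (nat_lit 106) (nat_lit 1) (nat_lit 9) (nat_lit 5) (nat_lit 1) (nat_lit 8) (nat_lit 5) (by decide +kernel)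
theorem L1193334 : W_2 (nat_lit 3) (nat_lit 0x1200090004800640000000000000000000000) (nat_lit 0x0) (nat_lit 0x1400180004000000000000000000) := T_2 (nat_lit 91) (nat_lit 74) (nat_lit 6) (nat_lit 5) (nat_lit 8) L1193333 (by decide +kernel)
theorem L1193335 : W_2 (nat_lit 4) (nat_lit 0x1200090004800240000000000000000000000) (nat_lit 0x0) (nat_lit 0x1400580024000000000000000000) := T_2 (nat_lit 94) (nat_lit 77) (nat_lit 6) (nat_lit 8) (nat_lit 8) L1193334 (by decide +kernel)
theorem L1193336 : W_2 (nat_lit 8) (nat_lit 0x1200090004800200000000000000000000000) (nat_lit 0x0) (nat_lit 0x80005000280014005e0027000180004000000000) := Q_2 (nat_lit 90) (C_2 L1193271 (C_2 L242448 (C_2 L90459 (C_2 L1193335 N_2)))) (by decide +kernel)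
theorem L1193337 : W_2 (nat_lit 7) (nat_lit 0x1200090004800200000000000000000000000) (nat_lit 0x0) (nat_lit 0x28001c001e0005c0008000400460021000000000000000000) := Q_2 (nat_lit 158) (C_2 L243118 (C_2 L243115 (C_2 L70678 (C_2 L90384 N_2)))) (by decide +kernel)
theorem L1193338 : W_2 (nat_lit 14) (nat_lit 0x1200090004800200000000000000000000000) (nat_lit 0x0) (nat_lit 0x600038001f803f8025c01280014004a0030001000000000000000) := Q_2 (nat_lit 158) (C_2 L243155 (C_2 L243147 (C_2 L243118 (C_2 L243130 N_2)))) (by decide +kernel)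
theorem L1193339 : W_2 (nat_lit 15) (nat_lit 0x1200080004800200000000000000000000000) (nat_lit 0x0) (nat_lit 0x600038001f803f8025c01380014005e003700138000c000000000) := Q_2 (nat_lit 124) (C_2 L242538 (C_2 L70566 (C_2 L242853 (C_2 L1193336 (C_2 L1193337 (C_2 L1193338 (C_2 L90522 N_2))))))) (by decide +kernel)
theorem L1193340 : W_2 (nat_lit 2) (nat_lit 0x1a00180004800200020000000000000000000) (nat_lit 0x0) (nat_lit 0x2000000000000000010001000000000000000) := D_2 (nat_lit 76) (nat_lit 60) (nat_lit 145) (nat_lit 6) (nat_lit 8) (nat_lit 7) (nat_lit 7) (nat_lit 8) (nat_lit 4) (by decide +kernel)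
theorem L1193341 : W_2 (nat_lit 3) (nat_lit 0x1a00080004800200020000000000000000000) (nat_lit 0x0) (nat_lit 0x2400100000000000010001000000000000000) := T_2 (nat_lit 128) (nat_lit 142) (nat_lit 2) (nat_lit 5) (nat_lit 8) L1193340 (by decide +kernel)
theorem L1193342 : W_2 (nat_lit 4) (nat_lit 0x1200080004800200020000000000000000000) (nat_lit 0x0) (nat_lit 0x10002c00100000000000010001000000000000000) := T_2 (nat_lit 143) (nat_lit 160) (nat_lit 5) (nat_lit 8) (nat_lit 5) L1193341 (by decide +kernel)
theorem L1193343 : W_2 (nat_lit 5) (nat_lit 0x1200080004800200000000000000000000000) (nat_lit 0x0) (nat_lit 0x10002c00100000000400030001000000000000000) := T_2 (nat_lit 77) (nat_lit 94) (nat_lit 6) (nat_lit 8) (nat_lit 8) L1193342 (by decide +kernel)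
theorem L1193344 : W_2 (nat_lit 16) (nat_lit 0x1000080004800200000000000000000000000) (nat_lit 0x0) (nat_lit 0x600038003f803f802fc013c0014005e003700138001c000000000) := Q_2 (nat_lit 141) (C_2 L1191650 (C_2 L1193233 (C_2 L1193296 (C_2 L1193320 (C_2 L1193326 (C_2 L1193332 (C_2 L1193339 (C_2 L1193343 N_2)))))))) (by decide +kernel)
theorem L1193345 : W_2 (nat_lit 5) (nat_lit 0x30001000080006800200000000000000000000000) (nat_lit 0x0) (nat_lit 0x11c001400070000000000000000000000) := T_2 (nat_lit 108) (nat_lit 128) (nat_lit 3) (nat_lit 5) (nat_lit 6) L3098 (by decide +kernel)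
theorem L1193346 : W_2 (nat_lit 6) (nat_lit 0x30001000080004800200000000000000000000000) (nat_lit 0x0) (nat_lit 0x11c003400170000000000000000000000) := T_2 (nat_lit 109) (nat_lit 92) (nat_lit 4) (nat_lit 8) (nat_lit 9) L1193345 (by decide +kernel)
theorem L1193347 : W_2 (nat_lit 7) (nat_lit 0x10001000080004800200000000000000000000000) (nat_lit 0x0) (nat_lit 0x20002000000011c003400170000000000000000000000) := T_2 (nat_lit 161) (nat_lit 177) (nat_lit 5) (nat_lit 8) (nat_lit 6) L1193346 (by decide +kernel)
theorem L1193348 : W_2 (nat_lit 8) (nat_lit 0x1000080004800200000000000000000000000) (nat_lit 0x0) (nat_lit 0x20003000080011c003400170000000000000000000000) := T_2 (nat_lit 160) (nat_lit 143) (nat_lit 5) (nat_lit 8) (nat_lit 5) L1193347 (by decide +kernel)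
theorem L1193349 : W_2 (nat_lit 17) (nat_lit 0x1000080004000200000000000000000000000) (nat_lit 0x0) (nat_lit 0x60003800ff803fc02fc073e003f81df80f7c01fe007f800e00020) := Q_2 (nat_lit 107) (C_2 L1191048 (C_2 L1191077 (C_2 L1191273 (C_2 L1191645 (C_2 L1191733 (C_2 L1191783 (C_2 L1191786 (C_2 L1193344 (C_2 L1193348 N_2))))))))) (by decide +kernel)
theorem L1193350 : W_2 (nat_lit 18) (nat_lit 0x1000080004000000000000000000000000000) (nat_lit 0x0) (nat_lit 0x28001c607fb81fff8fbfc7efc7f3e3f3f8fff83ffc0ffe07ff838e00020) := Q_2 (nat_lit 93) (C_2 L1048890 (C_2 L154 (C_2 L1191044 (C_2 L1193349 N_2)))) (by decide +kernel)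
theorem L1204736 : W_2 (nat_lit 9) (nat_lit 0x1000080004000000000000000000000000000) (nat_lit 0x0) (nat_lit 0x28001c000e00030002800f0007a003f00048002000000000000000) := Q_2 (nat_lit 161) (C_2 L1186281 (C_2 L1204728 (C_2 L1193354 (C_2 L1204732 (C_2 L1204735 N_2))))) (by decide +kernel)
theorem L1204853 : W_2 (nat_lit 12) (nat_lit 0x1000080004000000000000000000000000000) (nat_lit 0x0) (nat_lit 0x30001f000fe003e00ef80f3807b803fc0070003000000000000000) := Q_2 (nat_lit 161) (C_2 L1048897 (C_2 L1204735 (C_2 L1204619 (C_2 L1204728 N_2)))) (by decide +kernel)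
theorem L1204854 : W_2 (nat_lit 19) (nat_lit 0x1000080000000000000000000000000000000) (nat_lit 0x0) (nat_lit 0x28001fe07ff81fff8fbfc7efc7f3e3fff9fff83ffc1ffe07ff83fe002a0) := Q_2 (nat_lit 110) (C_2 L1158872 (C_2 L1187129 (C_2 L1190128 (C_2 L1190136 (C_2 L1193350 (C_2 L1204729 (C_2 L1204736 (C_2 L1204744 (C_2 L1204852 (C_2 L1204853 N_2)))))))))) (by decide +kernel)
theorem L1257738 : W_2 (nat_lit 2) (nat_lit 0x700014005a000f0000800000000000000000000000000) (nat_lit 0x0) (nat_lit 0xc0002000000000000000000000000000000000000000) := D_2 (nat_lit 157) (nat_lit 174) (nat_lit 175) (nat_lit 5) (nat_lit 5) (nat_lit 6) (nat_lit 0) (nat_lit 8) (nat_lit 10) (by decide +kernel)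
theorem L1257739 : W_2 (nat_lit 3) (nat_lit 0x700010005a000f0000800000000000000000000000000) (nat_lit 0x0) (nat_lit 0xc000e000000000000000000000000000000000000000) := T_2 (nat_lit 158) (nat_lit 159) (nat_lit 7) (nat_lit 5) (nat_lit 6) L1257738 (by decide +kernel)
theorem L1257740 : W_2 (nat_lit 4) (nat_lit 0x700010005a000f0000000000000000000000000000000) (nat_lit 0x0) (nat_lit 0xc000e000000000000c00000000000000000000000000) := T_2 (nat_lit 107) (nat_lit 106) (nat_lit 0) (nat_lit 8) (nat_lit 7) L1257739 (by decide +kernel)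
theorem L1257741 : W_2 (nat_lit 5) (nat_lit 0x7000100058000f0000000000000000000000000000000) (nat_lit 0x0) (nat_lit 0xc000e000300000000c00000000000000000000000000) := T_2 (nat_lit 141) (nat_lit 140) (nat_lit 1) (nat_lit 8) (nat_lit 7) L1257740 (by decide +kernel)
theorem L1257742 : W_2 (nat_lit 6) (nat_lit 0x7000100058000e0000000000000000000000000000000) (nat_lit 0x0) (nat_lit 0xc000e000300018000c00000000000000000000000000) := T_2 (nat_lit 124) (nat_lit 123) (nat_lit 3) (nat_lit 4) (nat_lit 7) L1257741 (by decide +kernel)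
theorem L1257743 : W_2 (nat_lit 7) (nat_lit 0x7000100058000c0000000000000000000000000000000) (nat_lit 0x0) (nat_lit 0xc000e000300038001c00000000000000000000000000) := T_2 (nat_lit 125) (nat_lit 108) (nat_lit 4) (nat_lit 7) (nat_lit 10) L1257742 (by decide +kernel)
theorem L1257744 : W_2 (nat_lit 8) (nat_lit 0x3000100058000c0000000000000000000000000000000) (nat_lit 0x0) (nat_lit 0x80004c000e000300038001c00000000000000000000000000) := T_2 (nat_lit 178) (nat_lit 195) (nat_lit 7) (nat_lit 7) (nat_lit 7) L1257743 (by decide +kernel)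
theorem L1257745 : W_2 (nat_lit 9) (nat_lit 0x2000100058000c0000000000000000000000000000000) (nat_lit 0x0) (nat_lit 0xa0005c000e000300038001c00000000000000000000000000) := T_2 (nat_lit 176) (nat_lit 193) (nat_lit 5) (nat_lit 7) (nat_lit 7) L1257744 (by decide +kernel)
theorem L1257885 : W_2 (nat_lit 2) (nat_lit 0x58001f0000000000000000000000000000000) (nat_lit 0x0) (nat_lit 0x1c00000000000000000000000000) := D_2 (nat_lit 107) (nat_lit 106) (nat_lit 108) (nat_lit 0) (nat_lit 8) (nat_lit 7) (nat_lit 0) (nat_lit 9) (nat_lit 7) (by decide +kernel)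
theorem L1257899 : W_2 (nat_lit 2) (nat_lit 0x5a000f0001800000000000000000000000000) (nat_lit 0x0) (nat_lit 0x4000000000000000080004000000000000000000) := D_2 (nat_lit 91) (nat_lit 74) (nat_lit 158) (nat_lit 7) (nat_lit 6) (nat_lit 4) (nat_lit 6) (nat_lit 5) (nat_lit 9) (by decide +kernel)
theorem L1257900 : W_2 (nat_lit 3) (nat_lit 0x5a000f0000800000000000000000000000000) (nat_lit 0x0) (nat_lit 0x4000000100001000080004000000000000000000) := T_2 (nat_lit 108) (nat_lit 128) (nat_lit 0) (nat_lit 9) (nat_lit 7) L1257899 (by decide +kernel)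
theorem L1257901 : W_2 (nat_lit 4) (nat_lit 0x5a000f0000000000000000000000000000000) (nat_lit 0x0) (nat_lit 0x4000000100001c00080004000000000000000000) := T_2 (nat_lit 107) (nat_lit 106) (nat_lit 0) (nat_lit 8) (nat_lit 7) L1257900 (by decide +kernel)
theorem L1257902 : W_2 (nat_lit 5) (nat_lit 0x58000f0000000000000000000000000000000) (nat_lit 0x0) (nat_lit 0x4000300100001c00080004000000000000000000) := T_2 (nat_lit 141) (nat_lit 140) (nat_lit 1) (nat_lit 8) (nat_lit 7) L1257901 (by decide +kernel)
theorem L1257903 : W_2 (nat_lit 6) (nat_lit 0x58000e0000000000000000000000000000000) (nat_lit 0x0) (nat_lit 0x4000300118001c00080004000000000000000000) := T_2 (nat_lit 124) (nat_lit 123) (nat_lit 3) (nat_lit 4) (nat_lit 7) L1257902 (by decide +kernel)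
theorem L1283671 : W_2 (nat_lit 13) (nat_lit 0x1000080004000000000000000000000000000) (nat_lit 0x0) (nat_lit 0x28001c000e0003003ef00f7807be03de0046002300000000000000) := Q_2 (nat_lit 161) (C_2 L1204728 (C_2 L1204735 (C_2 L1193354 (C_2 L1134407 (C_2 L1186284 (C_2 L1048908 N_2)))))) (by decide +kernel)
theorem L1283672 : W_2 (nat_lit 18) (nat_lit 0x1000080000000000000000000000000000000) (nat_lit 0x0) (nat_lit 0x28001c000e003b003ef01f7c0ffe07fe03fe01ff002f0005000000) := Q_2 (nat_lit 110) (C_2 L1204744 (C_2 L1204852 (C_2 L1186987 (C_2 L235 (C_2 L1283671 (C_2 L1186986 (C_2 L1186277 N_2))))))) (by decide +kernel)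
theorem L1312793 : W_2 (nat_lit 3) (nat_lit 0x58001e0000000000000000000000000000000) (nat_lit 0x0) (nat_lit 0x18001c00000000000000000000000000) := T_2 (nat_lit 124) (nat_lit 123) (nat_lit 3) (nat_lit 4) (nat_lit 7) L1257885 (by decide +kernel)
theorem L1313363 : W_2 (nat_lit 2) (nat_lit 0x80018000400020005800380000000000000000000000000000000) (nat_lit 0x0) (nat_lit 0x1000100000000000010000000000000000000000000000000000000000) := D_2 (nat_lit 212) (nat_lit 160) (nat_lit 228) (nat_lit 4) (nat_lit 8) (nat_lit 12) (nat_lit 5) (nat_lit 8) (nat_lit 9) (by decide +kernel)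
theorem L1313367 : W_2 (nat_lit 2) (nat_lit 0x18000400030005800380000000000000000000000000000000) (nat_lit 0x0) (nat_lit 0x200000000000000004000200000000000000000000000) := D_2 (nat_lit 110) (nat_lit 93) (nat_lit 177) (nat_lit 5) (nat_lit 8) (nat_lit 5) (nat_lit 5) (nat_lit 8) (nat_lit 6) (by decide +kernel)
theorem L1313368 : W_2 (nat_lit 3) (nat_lit 0x18000400020005800380000000000000000000000000000000) (nat_lit 0x0) (nat_lit 0x100000000200010000000000004000200000000000000000000000) := T_2 (nat_lit 160) (nat_lit 212) (nat_lit 4) (nat_lit 8) (nat_lit 12) L1313367 (by decide +kernel)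
theorem L1315759 : W_2 (nat_lit 14) (nat_lit 0x1000080004000000000000000000000000000) (nat_lit 0x0) (nat_lit 0x28001c003e001b803ee00f600fb803dc00c0006000000000000000) := Q_2 (nat_lit 161) (C_2 L1204728 (C_2 L1204735 (C_2 L1193354 (C_2 L1139155 (C_2 L1186284 (C_2 L1048908 N_2)))))) (by decide +kernel)
theorem L1315760 : W_2 (nat_lit 18) (nat_lit 0x1000080000000000000000000000000000000) (nat_lit 0x0) (nat_lit 0x28001c003e003b803ee01f600ffc07fe01fe01fe000f0005000000) := Q_2 (nat_lit 110) (C_2 L1204744 (C_2 L1204852 (C_2 L1186987 (C_2 L235 (C_2 L1315759 (C_2 L1186986 (C_2 L1158878 N_2))))))) (by decide +kernel)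
theorem L1350172 : W_2 (nat_lit 2) (nat_lit 0x51003f0010800000000000000000000000000) (nat_lit 0x0) (nat_lit 0x880008000000000000000000000000000000) := D_2 (nat_lit 123) (nat_lit 143) (nat_lit 139) (nat_lit 3) (nat_lit 4) (nat_lit 7) (nat_lit 1) (nat_lit 7) (nat_lit 7) (by decide +kernel)
theorem L1350173 : W_2 (nat_lit 3) (nat_lit 0x50003f0010800000000000000000000000000) (nat_lit 0x0) (nat_lit 0xb80008000000000000000000000000000000) := T_2 (nat_lit 140) (nat_lit 141) (nat_lit 1) (nat_lit 8) (nat_lit 7) L1350172 (by decide +kernel)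
theorem L1350174 : W_2 (nat_lit 4) (nat_lit 0x50003e0010800000000000000000000000000) (nat_lit 0x0) (nat_lit 0xb80018000400000000000000000000000000) := T_2 (nat_lit 124) (nat_lit 106) (nat_lit 0) (nat_lit 8) (nat_lit 7) L1350173 (by decide +kernel)
theorem L1350175 : W_2 (nat_lit 5) (nat_lit 0x50003e0010000000000000000000000000000) (nat_lit 0x0) (nat_lit 0xb80018001c00000000000000000000000000) := T_2 (nat_lit 107) (nat_lit 108) (nat_lit 0) (nat_lit 9) (nat_lit 7) L1350174 (by decide +kernel)
theorem L1350176 : W_2 (nat_lit 6) (nat_lit 0x50003c0010000000000000000000000000000) (nat_lit 0x0) (nat_lit 0xb80038009c00000000000000000000000000) := T_2 (nat_lit 125) (nat_lit 111) (nat_lit 2) (nat_lit 6) (nat_lit 7) L1350175 (by decide +kernel)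
theorem L1350177 : W_2 (nat_lit 7) (nat_lit 0x50003c0000000000000000000000000000000) (nat_lit 0x0) (nat_lit 0xb80038039c00000000000000000000000000) := T_2 (nat_lit 112) (nat_lit 113) (nat_lit 2) (nat_lit 7) (nat_lit 7) L1350176 (by decide +kernel)
theorem L1350180 : W_2 (nat_lit 5) (nat_lit 0x50003e0000800000000000000000000000000) (nat_lit 0x0) (nat_lit 0xb80018030400000000000000000000000000) := T_2 (nat_lit 112) (nat_lit 113) (nat_lit 2) (nat_lit 7) (nat_lit 7) L1350174 (by decide +kernel)
theorem L1350181 : W_2 (nat_lit 6) (nat_lit 0x50003e0000000000000000000000000000000) (nat_lit 0x0) (nat_lit 0xb80018031c00000000000000000000000000) := T_2 (nat_lit 107) (nat_lit 108) (nat_lit 0) (nat_lit 9) (nat_lit 7) L1350180 (by decide +kernel)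
theorem L1350183 : W_2 (nat_lit 2) (nat_lit 0x58003f0010000000000000000000000000000) (nat_lit 0x0) (nat_lit 0x1c00000000000000000000000000) := D_2 (nat_lit 107) (nat_lit 108) (nat_lit 106) (nat_lit 0) (nat_lit 9) (nat_lit 7) (nat_lit 0) (nat_lit 8) (nat_lit 7) (by decide +kernel)
theorem L1350184 : W_2 (nat_lit 3) (nat_lit 0x58003e0010000000000000000000000000000) (nat_lit 0x0) (nat_lit 0x18001c00000000000000000000000000) := T_2 (nat_lit 124) (nat_lit 123) (nat_lit 3) (nat_lit 4) (nat_lit 7) L1350183 (by decide +kernel)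
theorem L1350228 : W_2 (nat_lit 2) (nat_lit 0x52003e0010800000000000000000000000000) (nat_lit 0x0) (nat_lit 0x100010000400000000000000000000000000) := D_2 (nat_lit 124) (nat_lit 140) (nat_lit 106) (nat_lit 1) (nat_lit 8) (nat_lit 7) (nat_lit 0) (nat_lit 8) (nat_lit 7) (by decide +kernel)
theorem L1350229 : W_2 (nat_lit 3) (nat_lit 0x52003e0010000000000000000000000000000) (nat_lit 0x0) (nat_lit 0x100010001c00000000000000000000000000) := T_2 (nat_lit 107) (nat_lit 108) (nat_lit 0) (nat_lit 9) (nat_lit 7) L1350228 (by decide +kernel)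
theorem L1350230 : W_2 (nat_lit 4) (nat_lit 0x50003e0010000000000000000000000000000) (nat_lit 0x0) (nat_lit 0x700010001c00000000000000000000000000) := T_2 (nat_lit 141) (nat_lit 142) (nat_lit 1) (nat_lit 9) (nat_lit 7) L1350229 (by decide +kernel)
theorem L1350231 : W_2 (nat_lit 5) (nat_lit 0x50003c0010000000000000000000000000000) (nat_lit 0x0) (nat_lit 0x700030009c00000000000000000000000000) := T_2 (nat_lit 125) (nat_lit 111) (nat_lit 2) (nat_lit 6) (nat_lit 7) L1350230 (by decide +kernel)
theorem L1350232 : W_2 (nat_lit 6) (nat_lit 0x50003c0000000000000000000000000000000) (nat_lit 0x0) (nat_lit 0x700030039c00000000000000000000000000) := T_2 (nat_lit 112) (nat_lit 113) (nat_lit 2) (nat_lit 7) (nat_lit 7) L1350231 (by decide +kernel)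
theorem L1352269 : W_2 (nat_lit 2) (nat_lit 0x100003000500038000c000200008000000000000000000) (nat_lit 0x0) (nat_lit 0x10000c00000000000000) := D_2 (nat_lit 76) (nat_lit 59) (nat_lit 58) (nat_lit 7) (nat_lit 8) (nat_lit 3) (nat_lit 4) (nat_lit 8) (nat_lit 7) (by decide +kernel)
theorem L1352270 : W_2 (nat_lit 3) (nat_lit 0x100003000500038000c000200000000000000000000000) (nat_lit 0x0) (nat_lit 0x100018000c00000000000000) := T_2 (nat_lit 75) (nat_lit 92) (nat_lit 4) (nat_lit 8) (nat_lit 8) L1352269 (by decide +kernel)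
theorem L1352271 : W_2 (nat_lit 4) (nat_lit 0x100003000500038000c000000000000000000000000000) (nat_lit 0x0) (nat_lit 0x800000000000300018000c00000000000000) := T_2 (nat_lit 93) (nat_lit 143) (nat_lit 5) (nat_lit 8) (nat_lit 5) L1352270 (by decide +kernel)
theorem L1352272 : W_2 (nat_lit 5) (nat_lit 0x100002000500038000c000000000000000000000000000) (nat_lit 0x0) (nat_lit 0x200010000800000000000300018000c00000000000000) := T_2 (nat_lit 160) (nat_lit 177) (nat_lit 5) (nat_lit 8) (nat_lit 6) L1352271 (by decide +kernel)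
theorem L1354075 : W_2 (nat_lit 2) (nat_lit 0x8000600020005800180000000000000000000000000000000) (nat_lit 0x0) (nat_lit 0x200010000800000000000000000000000000000000000000000000) := D_2 (nat_lit 196) (nat_lit 179) (nat_lit 213) (nat_lit 7) (nat_lit 8) (nat_lit 7) (nat_lit 7) (nat_lit 8) (nat_lit 8) (by decide +kernel)
theorem L1354076 : W_2 (nat_lit 3) (nat_lit 0x600020005800180000000000000000000000000000000) (nat_lit 0x0) (nat_lit 0x200018000800000000000040000000000000000000000000000000) := T_2 (nat_lit 195) (nat_lit 126) (nat_lit 4) (nat_lit 8) (nat_lit 11) L1354075 (by decide +kernel)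
theorem L1365941 : W_2 (nat_lit 2) (nat_lit 0x4003e00080005000380000000000000000000000000000000) (nat_lit 0x0) (nat_lit 0x18000800000000000000000000000000000000000) := D_2 (nat_lit 160) (nat_lit 159) (nat_lit 143) (nat_lit 0) (nat_lit 10) (nat_lit 10) (nat_lit 6) (nat_lit 7) (nat_lit 11) (by decide +kernel)
theorem L1365942 : W_2 (nat_lit 3) (nat_lit 0x4003c00080005000380000000000000000000000000000000) (nat_lit 0x0) (nat_lit 0x2000200018000800000000000000000000000000000000000) := T_2 (nat_lit 177) (nat_lit 193) (nat_lit 1) (nat_lit 10) (nat_lit 10) L1365941 (by decide +kernel)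
theorem L1366243 : W_2 (nat_lit 2) (nat_lit 0x58003e0010800000000000000000000000000) (nat_lit 0x0) (nat_lit 0x18000400000000000000000000000000) := D_2 (nat_lit 124) (nat_lit 106) (nat_lit 123) (nat_lit 0) (nat_lit 8) (nat_lit 7) (nat_lit 3) (nat_lit 4) (nat_lit 7) (by decide +kernel)
theorem L1366244 : W_2 (nat_lit 3) (nat_lit 0x50003e0010800000000000000000000000000) (nat_lit 0x0) (nat_lit 0xc00018000400000000000000000000000000) := T_2 (nat_lit 143) (nat_lit 142) (nat_lit 1) (nat_lit 10) (nat_lit 7) L1366243 (by decide +kernel)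
theorem L1366245 : W_2 (nat_lit 4) (nat_lit 0x50003e0010000000000000000000000000000) (nat_lit 0x0) (nat_lit 0xc00018001c00000000000000000000000000) := T_2 (nat_lit 107) (nat_lit 108) (nat_lit 0) (nat_lit 9) (nat_lit 7) L1366244 (by decide +kernel)
theorem L1366246 : W_2 (nat_lit 5) (nat_lit 0x50003e0000000000000000000000000000000) (nat_lit 0x0) (nat_lit 0xc00018031c00000000000000000000000000) := T_2 (nat_lit 112) (nat_lit 113) (nat_lit 2) (nat_lit 7) (nat_lit 7) L1366245 (by decide +kernel)
theorem L1366247 : W_2 (nat_lit 2) (nat_lit 0x50003e0000000000000000000000000000000) (nat_lit 0x0) (nat_lit 0xe00000000000000000000000000000000000) := D_2 (nat_lit 142) (nat_lit 143) (nat_lit 141) (nat_lit 1) (nat_lit 10) (nat_lit 7) (nat_lit 1) (nat_lit 9) (nat_lit 7) (by decide +kernel)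
theorem L1366248 : W_2 (nat_lit 7) (nat_lit 0x50003c0000000000000000000000000000000) (nat_lit 0x0) (nat_lit 0xf80038031c00000000000000000000000000) := Q_2 (nat_lit 125) (C_2 L1350181 (C_2 L1366246 (C_2 L1366247 (C_2 L527671 N_2)))) (by decide +kernel)
theorem L1366249 : W_2 (nat_lit 8) (nat_lit 0x5000380000000000000000000000000000000) (nat_lit 0x0) (nat_lit 0x8f80078031c00000000000000000000000000) := T_2 (nat_lit 126) (nat_lit 147) (nat_lit 3) (nat_lit 7) (nat_lit 7) L1366248 (by decide +kernel)
theorem L1366263 : W_2 (nat_lit 2) (nat_lit 0x5800380000000000000000000000000000000) (nat_lit 0x0) (nat_lit 0x600040000000000000000000000000000000) := D_2 (nat_lit 142) (nat_lit 126) (nat_lit 141) (nat_lit 1) (nat_lit 10) (nat_lit 7) (nat_lit 2) (nat_lit 5) (nat_lit 8) (by decide +kernel)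
theorem L1366303 : W_2 (nat_lit 2) (nat_lit 0x40038000900078003a0000000000000000000000000000000) (nat_lit 0x0) (nat_lit 0x8000400020000000000000000000000000000000000000000) := D_2 (nat_lit 178) (nat_lit 195) (nat_lit 161) (nat_lit 1) (nat_lit 11) (nat_lit 10) (nat_lit 0) (nat_lit 11) (nat_lit 10) (by decide +kernel)
theorem L1366304 : W_2 (nat_lit 3) (nat_lit 0x40030000900078003a0000000000000000000000000000000) (nat_lit 0x0) (nat_lit 0x18000c00020000000000000000000000000000000000000000) := T_2 (nat_lit 179) (nat_lit 196) (nat_lit 5) (nat_lit 10) (nat_lit 7) L1366303 (by decide +kernel)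
theorem L1366305 : W_2 (nat_lit 4) (nat_lit 0x40010000900078003a0000000000000000000000000000000) (nat_lit 0x0) (nat_lit 0x58002c00020000000000000000000000000000000000000000) := T_2 (nat_lit 181) (nat_lit 198) (nat_lit 7) (nat_lit 10) (nat_lit 7) L1366304 (by decide +kernel)
theorem L1367373 : W_2 (nat_lit 2) (nat_lit 0x50003800b0001000000000000000000000000) (nat_lit 0x0) (nat_lit 0x800080004000000000000000) := D_2 (nat_lit 79) (nat_lit 95) (nat_lit 62) (nat_lit 6) (nat_lit 10) (nat_lit 8) (nat_lit 5) (nat_lit 11) (nat_lit 3) (by decide +kernel)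
theorem L1367374 : W_2 (nat_lit 3) (nat_lit 0x50003800b0000000000000000000000000000) (nat_lit 0x0) (nat_lit 0x80000000000000001800080004000000000000000) := T_2 (nat_lit 96) (nat_lit 163) (nat_lit 6) (nat_lit 10) (nat_lit 9) L1367373 (by decide +kernel)
theorem L1367375 : W_2 (nat_lit 4) (nat_lit 0x5000380030000000000000000000000000000) (nat_lit 0x0) (nat_lit 0x800000000000c0001800080004000000000000000) := T_2 (nat_lit 115) (nat_lit 114) (nat_lit 1) (nat_lit 13) (nat_lit 6) L1367374 (by decide +kernel)
theorem L1368354 : W_2 (nat_lit 5) (nat_lit 0x400020005000380000000000000000000000000000000) (nat_lit 0x0) (nat_lit 0x14001a0001c000000000004000000000000000000000000000) := T_2 (nat_lit 177) (nat_lit 194) (nat_lit 5) (nat_lit 8) (nat_lit 7) L525871 (by decide +kernel)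
theorem L1368355 : W_2 (nat_lit 2) (nat_lit 0x14000400020005000380000000000000000000000000000000) (nat_lit 0x0) (nat_lit 0x280008000000000000000000000000000000000000000000000000) := D_2 (nat_lit 195) (nat_lit 213) (nat_lit 211) (nat_lit 7) (nat_lit 8) (nat_lit 8) (nat_lit 5) (nat_lit 8) (nat_lit 8) (by decide +kernel)
theorem L1368356 : W_2 (nat_lit 3) (nat_lit 0x10000400020005000380000000000000000000000000000000) (nat_lit 0x0) (nat_lit 0x28000c000200000000000000000000000000000000000000000000) := T_2 (nat_lit 194) (nat_lit 177) (nat_lit 5) (nat_lit 8) (nat_lit 7) L1368355 (by decide +kernel)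
theorem L1368357 : W_2 (nat_lit 4) (nat_lit 0x400020005000380000000000000000000000000000000) (nat_lit 0x0) (nat_lit 0x28001c000a00000000000000000000000000000000000000000000) := T_2 (nat_lit 196) (nat_lit 179) (nat_lit 7) (nat_lit 8) (nat_lit 7) L1368356 (by decide +kernel)
theorem L1368358 : W_2 (nat_lit 3) (nat_lit 0x80018000400020005000380000000000000000000000000000000) (nat_lit 0x0) (nat_lit 0x1000100000000000010000800040000000000000000000000000000000) := T_2 (nat_lit 143) (nat_lit 126) (nat_lit 4) (nat_lit 8) (nat_lit 11) L1313363 (by decide +kernel)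
theorem L1368359 : W_2 (nat_lit 4) (nat_lit 0x18000400020005000380000000000000000000000000000000) (nat_lit 0x0) (nat_lit 0x1000180004000000010000800040000000000000000000000000000000) := T_2 (nat_lit 211) (nat_lit 194) (nat_lit 5) (nat_lit 8) (nat_lit 8) L1368358 (by decide +kernel)
theorem L1368360 : W_2 (nat_lit 5) (nat_lit 0x10000400020005000380000000000000000000000000000000) (nat_lit 0x0) (nat_lit 0x100038000c000000010000800040000000000000000000000000000000) := T_2 (nat_lit 195) (nat_lit 213) (nat_lit 7) (nat_lit 8) (nat_lit 8) L1368359 (by decide +kernel)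
theorem L1368361 : W_2 (nat_lit 6) (nat_lit 0x400020005000380000000000000000000000000000000) (nat_lit 0x0) (nat_lit 0x100038001c000800010000800040000000000000000000000000000000) := T_2 (nat_lit 196) (nat_lit 179) (nat_lit 7) (nat_lit 8) (nat_lit 7) L1368360 (by decide +kernel)
theorem L1368362 : W_2 (nat_lit 4) (nat_lit 0x18000400020005000380000000000000000000000000000000) (nat_lit 0x0) (nat_lit 0x100000000200010000800040004000200000000000000000000000) := T_2 (nat_lit 143) (nat_lit 126) (nat_lit 4) (nat_lit 8) (nat_lit 11) L1313368 (by decide +kernel)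
theorem L1368363 : W_2 (nat_lit 5) (nat_lit 0x10000400020005000380000000000000000000000000000000) (nat_lit 0x0) (nat_lit 0x300008000200010000800040004000200000000000000000000000) := T_2 (nat_lit 195) (nat_lit 213) (nat_lit 7) (nat_lit 8) (nat_lit 8) L1368362 (by decide +kernel)
theorem L1368364 : W_2 (nat_lit 6) (nat_lit 0x400020005000380000000000000000000000000000000) (nat_lit 0x0) (nat_lit 0x300018000a00010000800040004000200000000000000000000000) := T_2 (nat_lit 196) (nat_lit 179) (nat_lit 7) (nat_lit 8) (nat_lit 7) L1368363 (by decide +kernel)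
theorem L1368365 : W_2 (nat_lit 2) (nat_lit 0x8000400020005000380000000000000000000000000000000) (nat_lit 0x0) (nat_lit 0x80004000200000000000000000000000000000000000000000000) := D_2 (nat_lit 194) (nat_lit 177) (nat_lit 211) (nat_lit 5) (nat_lit 8) (nat_lit 7) (nat_lit 5) (nat_lit 8) (nat_lit 8) (by decide +kernel)
theorem L1368366 : W_2 (nat_lit 2) (nat_lit 0x80008000400020005800380000000000000000000000000000000) (nat_lit 0x0) (nat_lit 0x1000100000000000010000000000000000000000000000000000000000) := D_2 (nat_lit 212) (nat_lit 228) (nat_lit 160) (nat_lit 5) (nat_lit 8) (nat_lit 9) (nat_lit 4) (nat_lit 8) (nat_lit 12) (by decide +kernel)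
theorem L1368367 : W_2 (nat_lit 3) (nat_lit 0x80008000400020005000380000000000000000000000000000000) (nat_lit 0x0) (nat_lit 0x1000100000000000010000800040000000000000000000000000000000) := T_2 (nat_lit 143) (nat_lit 126) (nat_lit 4) (nat_lit 8) (nat_lit 11) L1368366 (by decide +kernel)
theorem L1368368 : W_2 (nat_lit 4) (nat_lit 0x8000400020005000380000000000000000000000000000000) (nat_lit 0x0) (nat_lit 0x1000180004000000010000800040000000000000000000000000000000) := T_2 (nat_lit 211) (nat_lit 194) (nat_lit 5) (nat_lit 8) (nat_lit 8) L1368367 (by decide +kernel)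
theorem L1368369 : W_2 (nat_lit 2) (nat_lit 0x5000100008000400020005a00380000000000000000000000000000000) (nat_lit 0x0) (nat_lit 0xa0002000000000000000000000000000000000000000000000000000000000) := D_2 (nat_lit 229) (nat_lit 245) (nat_lit 247) (nat_lit 5) (nat_lit 8) (nat_lit 10) (nat_lit 7) (nat_lit 8) (nat_lit 10) (by decide +kernel)
theorem L1368370 : W_2 (nat_lit 3) (nat_lit 0x1000100008000400020005a00380000000000000000000000000000000) (nat_lit 0x0) (nat_lit 0xa0006000200000000000000000000000000000000000000000000000000000) := T_2 (nat_lit 230) (nat_lit 213) (nat_lit 7) (nat_lit 8) (nat_lit 9) L1368369 (by decide +kernel)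
theorem L1368371 : W_2 (nat_lit 4) (nat_lit 0x100008000400020005a00380000000000000000000000000000000) (nat_lit 0x0) (nat_lit 0xa0007000280000000000000000000000000000000000000000000000000000) := T_2 (nat_lit 228) (nat_lit 211) (nat_lit 5) (nat_lit 8) (nat_lit 9) L1368370 (by decide +kernel)
theorem L1368372 : W_2 (nat_lit 5) (nat_lit 0x8000400020005a00380000000000000000000000000000000) (nat_lit 0x0) (nat_lit 0xa0007000380000000000010000000000000000000000000000000000000000) := T_2 (nat_lit 212) (nat_lit 160) (nat_lit 4) (nat_lit 8) (nat_lit 12) L1368371 (by decide +kernel)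
theorem L1368373 : W_2 (nat_lit 6) (nat_lit 0x8000400020005800380000000000000000000000000000000) (nat_lit 0x0) (nat_lit 0xa0007000380000000000010000600000000000000000000000000000000000) := T_2 (nat_lit 141) (nat_lit 142) (nat_lit 2) (nat_lit 5) (nat_lit 8) L1368372 (by decide +kernel)
theorem L1368374 : W_2 (nat_lit 7) (nat_lit 0x8000400020005000380000000000000000000000000000000) (nat_lit 0x0) (nat_lit 0xa0007000380000000000010000e00040000000000000000000000000000000) := T_2 (nat_lit 143) (nat_lit 126) (nat_lit 4) (nat_lit 8) (nat_lit 11) L1368373 (by decide +kernel)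
theorem L1368375 : W_2 (nat_lit 2) (nat_lit 0x8000400030005a00380000000000000000000000000000000) (nat_lit 0x0) (nat_lit 0x4000200000000000000004000000000000000000000000000) := D_2 (nat_lit 177) (nat_lit 194) (nat_lit 110) (nat_lit 6) (nat_lit 7) (nat_lit 11) (nat_lit 5) (nat_lit 8) (nat_lit 6) (by decide +kernel)
theorem L1368376 : W_2 (nat_lit 3) (nat_lit 0x8000400020005a00380000000000000000000000000000000) (nat_lit 0x0) (nat_lit 0x100004000200010000000000004000000000000000000000000000) := T_2 (nat_lit 160) (nat_lit 212) (nat_lit 4) (nat_lit 8) (nat_lit 12) L1368375 (by decide +kernel)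
theorem L1368377 : W_2 (nat_lit 4) (nat_lit 0x8000400020005800380000000000000000000000000000000) (nat_lit 0x0) (nat_lit 0x100004000200010000600000004000000000000000000000000000) := T_2 (nat_lit 141) (nat_lit 142) (nat_lit 2) (nat_lit 5) (nat_lit 8) L1368376 (by decide +kernel)
theorem L1368378 : W_2 (nat_lit 5) (nat_lit 0x8000400020005000380000000000000000000000000000000) (nat_lit 0x0) (nat_lit 0x100004000200010000e00040004000000000000000000000000000) := T_2 (nat_lit 143) (nat_lit 126) (nat_lit 4) (nat_lit 8) (nat_lit 11) L1368377 (by decide +kernel)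
theorem L1368379 : W_2 (nat_lit 8) (nat_lit 0x400020005000380000000000000000000000000000000) (nat_lit 0x0) (nat_lit 0xa000700038000c000200010000e00040004000000000000000000000000000) := Q_2 (nat_lit 195) (C_2 L1368365 (C_2 L1368368 (C_2 L1368374 (C_2 L1368378 N_2)))) (by decide +kernel)
theorem L1369043 : W_2 (nat_lit 2) (nat_lit 0x4000000052003e0010800000000000000000000000000) (nat_lit 0x0) (nat_lit 0x100010000400000000000000000000000000) := D_2 (nat_lit 124) (nat_lit 106) (nat_lit 140) (nat_lit 0) (nat_lit 8) (nat_lit 7) (nat_lit 1) (nat_lit 8) (nat_lit 7) (by decide +kernel)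
theorem L1369044 : W_2 (nat_lit 3) (nat_lit 0x4000000050003e0010800000000000000000000000000) (nat_lit 0x0) (nat_lit 0x700010000400000000000000000000000000) := T_2 (nat_lit 141) (nat_lit 142) (nat_lit 1) (nat_lit 9) (nat_lit 7) L1369043 (by decide +kernel)
theorem L1369045 : W_2 (nat_lit 4) (nat_lit 0x4000000050003e0010000000000000000000000000000) (nat_lit 0x0) (nat_lit 0x700010001c00000000000000000000000000) := T_2 (nat_lit 107) (nat_lit 108) (nat_lit 0) (nat_lit 9) (nat_lit 7) L1369044 (by decide +kernel)
theorem L1369046 : W_2 (nat_lit 5) (nat_lit 0x4000000050003e0000000000000000000000000000000) (nat_lit 0x0) (nat_lit 0x700010031c00000000000000000000000000) := T_2 (nat_lit 112) (nat_lit 113) (nat_lit 2) (nat_lit 7) (nat_lit 7) L1369045 (by decide +kernel)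
theorem L1369047 : W_2 (nat_lit 2) (nat_lit 0x4000000051003f0010800000000000000000000000000) (nat_lit 0x0) (nat_lit 0x880008000000000000000000000000000000) := D_2 (nat_lit 123) (nat_lit 143) (nat_lit 139) (nat_lit 3) (nat_lit 4) (nat_lit 7) (nat_lit 1) (nat_lit 7) (nat_lit 7) (by decide +kernel)
theorem L1369048 : W_2 (nat_lit 3) (nat_lit 0x4000000050003f0010800000000000000000000000000) (nat_lit 0x0) (nat_lit 0xb80008000000000000000000000000000000) := T_2 (nat_lit 140) (nat_lit 141) (nat_lit 1) (nat_lit 8) (nat_lit 7) L1369047 (by decide +kernel)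
theorem L1369049 : W_2 (nat_lit 4) (nat_lit 0x4000000050003e0010800000000000000000000000000) (nat_lit 0x0) (nat_lit 0xb80018000400000000000000000000000000) := T_2 (nat_lit 124) (nat_lit 106) (nat_lit 0) (nat_lit 8) (nat_lit 7) L1369048 (by decide +kernel)
theorem L1369050 : W_2 (nat_lit 5) (nat_lit 0x4000000050003e0010000000000000000000000000000) (nat_lit 0x0) (nat_lit 0xb80018001c00000000000000000000000000) := T_2 (nat_lit 107) (nat_lit 108) (nat_lit 0) (nat_lit 9) (nat_lit 7) L1369049 (by decide +kernel)
theorem L1369051 : W_2 (nat_lit 6) (nat_lit 0x4000000050003e0000000000000000000000000000000) (nat_lit 0x0) (nat_lit 0xb80018031c00000000000000000000000000) := T_2 (nat_lit 112) (nat_lit 113) (nat_lit 2) (nat_lit 7) (nat_lit 7) L1369050 (by decide +kernel)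
theorem L1369052 : W_2 (nat_lit 2) (nat_lit 0x4000000058003e0000800000000000000000000000000) (nat_lit 0x0) (nat_lit 0x18000400000000000000000000000000) := D_2 (nat_lit 124) (nat_lit 106) (nat_lit 123) (nat_lit 0) (nat_lit 8) (nat_lit 7) (nat_lit 3) (nat_lit 4) (nat_lit 7) (by decide +kernel)
theorem L1369053 : W_2 (nat_lit 3) (nat_lit 0x4000000050003e0000800000000000000000000000000) (nat_lit 0x0) (nat_lit 0xc00018000400000000000000000000000000) := T_2 (nat_lit 143) (nat_lit 142) (nat_lit 1) (nat_lit 10) (nat_lit 7) L1369052 (by decide +kernel)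
theorem L1369054 : W_2 (nat_lit 4) (nat_lit 0x4000000050003e0000000000000000000000000000000) (nat_lit 0x0) (nat_lit 0xc00018001c00000000000000000000000000) := T_2 (nat_lit 107) (nat_lit 108) (nat_lit 0) (nat_lit 9) (nat_lit 7) L1369053 (by decide +kernel)
theorem L1369055 : W_2 (nat_lit 2) (nat_lit 0x4000000050003e0000000000000000000000000000000) (nat_lit 0x0) (nat_lit 0xe00000000000000000000000000000000000) := D_2 (nat_lit 142) (nat_lit 143) (nat_lit 141) (nat_lit 1) (nat_lit 10) (nat_lit 7) (nat_lit 1) (nat_lit 9) (nat_lit 7) (by decide +kernel)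
theorem L1369056 : W_2 (nat_lit 7) (nat_lit 0x4000000050003c0000000000000000000000000000000) (nat_lit 0x0) (nat_lit 0xf80038031c00000000000000000000000000) := Q_2 (nat_lit 125) (C_2 L1369046 (C_2 L1369051 (C_2 L1369054 (C_2 L1369055 N_2)))) (by decide +kernel)
theorem L1369408 : W_2 (nat_lit 4) (nat_lit 0x3c00080005000380000000000000000000000000000000) (nat_lit 0x0) (nat_lit 0xe000200018000800000000000000000000000000000000000) := T_2 (nat_lit 194) (nat_lit 195) (nat_lit 1) (nat_lit 11) (nat_lit 10) L1365942 (by decide +kernel)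
theorem L1369409 : W_2 (nat_lit 5) (nat_lit 0x3400080005000380000000000000000000000000000000) (nat_lit 0x0) (nat_lit 0x1e000a00018000800000000000000000000000000000000000) := T_2 (nat_lit 179) (nat_lit 196) (nat_lit 5) (nat_lit 10) (nat_lit 7) L1369408 (by decide +kernel)
theorem L1369410 : W_2 (nat_lit 6) (nat_lit 0x1400080005000380000000000000000000000000000000) (nat_lit 0x0) (nat_lit 0x5e002a00018000800000000000000000000000000000000000) := T_2 (nat_lit 181) (nat_lit 198) (nat_lit 7) (nat_lit 10) (nat_lit 7) L1369409 (by decide +kernel)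
theorem L1377250 : W_2 (nat_lit 2) (nat_lit 0x22001f000880054003c0010000000000000000000000000000) (nat_lit 0x0) (nat_lit 0x200030000000000000000000000000000000) := D_2 (nat_lit 141) (nat_lit 124) (nat_lit 125) (nat_lit 4) (nat_lit 6) (nat_lit 11) (nat_lit 1) (nat_lit 9) (nat_lit 7) (by decide +kernel)
theorem L1377251 : W_2 (nat_lit 3) (nat_lit 0x22001f000880050003c0010000000000000000000000000000) (nat_lit 0x0) (nat_lit 0xe00030000000000000000000000000000000) := T_2 (nat_lit 142) (nat_lit 143) (nat_lit 1) (nat_lit 10) (nat_lit 7) L1377250 (by decide +kernel)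
theorem L1377252 : W_2 (nat_lit 4) (nat_lit 0x22001f000880050003c0000000000000000000000000000000) (nat_lit 0x0) (nat_lit 0xe00030030000000000000000000000000000) := T_2 (nat_lit 112) (nat_lit 113) (nat_lit 2) (nat_lit 7) (nat_lit 7) L1377251 (by decide +kernel)
theorem L1377253 : W_2 (nat_lit 5) (nat_lit 0x22001f00088005000380000000000000000000000000000000) (nat_lit 0x0) (nat_lit 0x8e00070030000000000000000000000000000) := T_2 (nat_lit 126) (nat_lit 147) (nat_lit 3) (nat_lit 7) (nat_lit 7) L1377252 (by decide +kernel)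
theorem L1379156 : W_2 (nat_lit 8) (nat_lit 0x400000005000380000000000000000000000000000000) (nat_lit 0x0) (nat_lit 0x8f80078031c00000000000000000000000000) := T_2 (nat_lit 126) (nat_lit 147) (nat_lit 3) (nat_lit 7) (nat_lit 7) L1369056 (by decide +kernel)
theorem L1379272 : W_2 (nat_lit 2) (nat_lit 0x3c00080005000380000000000000000000000000000000) (nat_lit 0x0) (nat_lit 0x300000000000010000000000000000000000000000) := D_2 (nat_lit 164) (nat_lit 112) (nat_lit 165) (nat_lit 7) (nat_lit 10) (nat_lit 6) (nat_lit 2) (nat_lit 8) (nat_lit 10) (by decide +kernel)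
theorem L1379273 : W_2 (nat_lit 3) (nat_lit 0x1c00080005000380000000000000000000000000000000) (nat_lit 0x0) (nat_lit 0x40002000300000000000010000000000000000000000000000) := T_2 (nat_lit 181) (nat_lit 198) (nat_lit 7) (nat_lit 10) (nat_lit 7) L1379272 (by decide +kernel)
theorem L1379274 : W_2 (nat_lit 4) (nat_lit 0x1400080005000380000000000000000000000000000000) (nat_lit 0x0) (nat_lit 0x50002800300000000000010000000000000000000000000000) := T_2 (nat_lit 179) (nat_lit 196) (nat_lit 5) (nat_lit 10) (nat_lit 7) L1379273 (by decide +kernel)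
theorem L1379275 : W_2 (nat_lit 2) (nat_lit 0x3400180005000380000000000000000000000000000000) (nat_lit 0x0) (nat_lit 0xa00200000000000000000000000000000000000000000) := D_2 (nat_lit 179) (nat_lit 165) (nat_lit 177) (nat_lit 2) (nat_lit 8) (nat_lit 10) (nat_lit 2) (nat_lit 7) (nat_lit 10) (by decide +kernel)
theorem L1379276 : W_2 (nat_lit 3) (nat_lit 0x3400080005000380000000000000000000000000000000) (nat_lit 0x0) (nat_lit 0xa00300000000000010000000000000000000000000000) := T_2 (nat_lit 164) (nat_lit 112) (nat_lit 7) (nat_lit 10) (nat_lit 6) L1379275 (by decide +kernel)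
theorem L1379277 : W_2 (nat_lit 4) (nat_lit 0x1400080005000380000000000000000000000000000000) (nat_lit 0x0) (nat_lit 0x40002a00300000000000010000000000000000000000000000) := T_2 (nat_lit 181) (nat_lit 198) (nat_lit 7) (nat_lit 10) (nat_lit 7) L1379276 (by decide +kernel)
theorem L1380499 : W_2 (nat_lit 2) (nat_lit 0x108007c0028001d000380000000000000000000000000000000) (nat_lit 0x0) (nat_lit 0x200008000000000000800000000000000000000000000000000) := D_2 (nat_lit 183) (nat_lit 201) (nat_lit 131) (nat_lit 3) (nat_lit 10) (nat_lit 10) (nat_lit 7) (nat_lit 12) (nat_lit 7) (by decide +kernel)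
theorem L1380500 : W_2 (nat_lit 3) (nat_lit 0x8007c0028001d000380000000000000000000000000000000) (nat_lit 0x0) (nat_lit 0x380008000000000000800000000000000000000000000000000) := T_2 (nat_lit 200) (nat_lit 199) (nat_lit 3) (nat_lit 9) (nat_lit 10) L1380499 (by decide +kernel)
theorem L1380501 : W_2 (nat_lit 4) (nat_lit 0x8003c0028001d000380000000000000000000000000000000) (nat_lit 0x0) (nat_lit 0x38000c000400000000800000000000000000000000000000000) := T_2 (nat_lit 182) (nat_lit 166) (nat_lit 2) (nat_lit 9) (nat_lit 10) L1380500 (by decide +kernel)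
theorem L1380502 : W_2 (nat_lit 5) (nat_lit 0x3c0028001d000380000000000000000000000000000000) (nat_lit 0x0) (nat_lit 0x38c00c000400000000800000000000000000000000000000000) := T_2 (nat_lit 195) (nat_lit 194) (nat_lit 1) (nat_lit 11) (nat_lit 10) L1380501 (by decide +kernel)
theorem L1380503 : W_2 (nat_lit 6) (nat_lit 0x3c0028000d000380000000000000000000000000000000) (nat_lit 0x0) (nat_lit 0x38c00c000400030000800000000000000000000000000000000) := T_2 (nat_lit 148) (nat_lit 149) (nat_lit 0) (nat_lit 13) (nat_lit 8) L1380502 (by decide +kernel)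
theorem L1380504 : W_2 (nat_lit 7) (nat_lit 0x3c0008000d000380000000000000000000000000000000) (nat_lit 0x0) (nat_lit 0x38c00c000700030000800000000000000000000000000000000) := T_2 (nat_lit 165) (nat_lit 164) (nat_lit 2) (nat_lit 8) (nat_lit 10) L1380503 (by decide +kernel)
theorem L1390251 : W_2 (nat_lit 2) (nat_lit 0x1e0012000f000580000000000000000000000000000000) (nat_lit 0x0) (nat_lit 0x60002000000000000000000000000000000000000000000000) := D_2 (nat_lit 197) (nat_lit 181) (nat_lit 198) (nat_lit 5) (nat_lit 11) (nat_lit 7) (nat_lit 3) (nat_lit 7) (nat_lit 10) (by decide +kernel)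
theorem L1401500 : W_2 (nat_lit 2) (nat_lit 0x8000600020005800580000000000000000000000000000000) (nat_lit 0x0) (nat_lit 0x200010000800000000000000000000000000000000000000000000) := D_2 (nat_lit 196) (nat_lit 179) (nat_lit 213) (nat_lit 7) (nat_lit 8) (nat_lit 7) (nat_lit 7) (nat_lit 8) (nat_lit 8) (by decide +kernel)
theorem L1401501 : W_2 (nat_lit 3) (nat_lit 0x600020005800580000000000000000000000000000000) (nat_lit 0x0) (nat_lit 0x200018000800000000000040000000000000000000000000000000) := T_2 (nat_lit 195) (nat_lit 126) (nat_lit 4) (nat_lit 8) (nat_lit 11) L1401500 (by decide +kernel)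
theorem L1436712 : W_2 (nat_lit 3) (nat_lit 0xe0012000f000580000000000000000000000000000000) (nat_lit 0x0) (nat_lit 0x60003000080000000000000000000000000000000000000000) := T_2 (nat_lit 180) (nat_lit 163) (nat_lit 2) (nat_lit 7) (nat_lit 10) L1390251 (by decide +kernel)
theorem L1436713 : W_2 (nat_lit 4) (nat_lit 0xc0012000f000580000000000000000000000000000000) (nat_lit 0x0) (nat_lit 0x64003200080000000000000000000000000000000000000000) := T_2 (nat_lit 177) (nat_lit 194) (nat_lit 5) (nat_lit 8) (nat_lit 7) L1436712 (by decide +kernel)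
theorem L1436714 : W_2 (nat_lit 5) (nat_lit 0x40012000f000580000000000000000000000000000000) (nat_lit 0x0) (nat_lit 0x74003a00080000000000000000000000000000000000000000) := T_2 (nat_lit 179) (nat_lit 196) (nat_lit 7) (nat_lit 8) (nat_lit 7) L1436713 (by decide +kernel)
theorem L1436715 : W_2 (nat_lit 6) (nat_lit 0x40012000f000180000000000000000000000000000000) (nat_lit 0x0) (nat_lit 0x74003a00080000000c00000000000000000000000000000000) := T_2 (nat_lit 130) (nat_lit 131) (nat_lit 2) (nat_lit 8) (nat_lit 8) L1436714 (by decide +kernel)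
theorem L1436716 : W_2 (nat_lit 7) (nat_lit 0x12000f000180000000000000000000000000000000) (nat_lit 0x0) (nat_lit 0x7c003e00080000000c00000000000000000000000000000000) := T_2 (nat_lit 178) (nat_lit 195) (nat_lit 6) (nat_lit 8) (nat_lit 11) L1436715 (by decide +kernel)
theorem L1436717 : W_2 (nat_lit 8) (nat_lit 0x2000f000180000000000000000000000000000000) (nat_lit 0x0) (nat_lit 0x7c003e00380000000c00000000000000000000000000000000) := T_2 (nat_lit 164) (nat_lit 165) (nat_lit 3) (nat_lit 8) (nat_lit 8) L1436716 (by decide +kernel)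
theorem L1436718 : W_2 (nat_lit 9) (nat_lit 0xf000180000000000000000000000000000000) (nat_lit 0x0) (nat_lit 0x7c003e003b0000000c00000000000000000000000000000000) := T_2 (nat_lit 161) (nat_lit 160) (nat_lit 1) (nat_lit 11) (nat_lit 8) L1436717 (by decide +kernel)
theorem L1437506 : W_2 (nat_lit 2) (nat_lit 0xd000380000000000000000000000000000000) (nat_lit 0x0) (nat_lit 0x30000400000000000000000000000000000000) := D_2 (nat_lit 148) (nat_lit 149) (nat_lit 130) (nat_lit 0) (nat_lit 13) (nat_lit 8) (nat_lit 3) (nat_lit 8) (nat_lit 7) (by decide +kernel)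
theorem L1437512 : W_2 (nat_lit 2) (nat_lit 0x5000780030000000000000000000000000000) (nat_lit 0x0) (nat_lit 0x1000080000000000000001000000000000000000000000) := D_2 (nat_lit 163) (nat_lit 180) (nat_lit 96) (nat_lit 6) (nat_lit 10) (nat_lit 10) (nat_lit 6) (nat_lit 10) (nat_lit 9) (by decide +kernel)
theorem L1437513 : W_2 (nat_lit 3) (nat_lit 0x5000780020000000000000000000000000000) (nat_lit 0x0) (nat_lit 0x1000080000000040010001000000000000000000000000) := T_2 (nat_lit 112) (nat_lit 126) (nat_lit 2) (nat_lit 7) (nat_lit 7) L1437512 (by decide +kernel)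
theorem L1437514 : W_2 (nat_lit 4) (nat_lit 0x5000780000000000000000000000000000000) (nat_lit 0x0) (nat_lit 0x1000080000000040070001000000000000000000000000) := T_2 (nat_lit 113) (nat_lit 114) (nat_lit 2) (nat_lit 8) (nat_lit 7) L1437513 (by decide +kernel)
theorem L1437515 : W_2 (nat_lit 5) (nat_lit 0x5000380000000000000000000000000000000) (nat_lit 0x0) (nat_lit 0x1000080000800440070001000000000000000000000000) := T_2 (nat_lit 130) (nat_lit 143) (nat_lit 1) (nat_lit 11) (nat_lit 7) L1437514 (by decide +kernel)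
theorem L1437516 : W_2 (nat_lit 5) (nat_lit 0x5000380000000000000000000000000000000) (nat_lit 0x0) (nat_lit 0x80018800400060001000080000000000000000000) := T_2 (nat_lit 130) (nat_lit 143) (nat_lit 1) (nat_lit 11) (nat_lit 7) L523603 (by decide +kernel)
theorem L1437517 : W_2 (nat_lit 3) (nat_lit 0x5000380000000000000000000000000000000) (nat_lit 0x0) (nat_lit 0x38000440000000000000000000000000000000) := T_2 (nat_lit 147) (nat_lit 126) (nat_lit 3) (nat_lit 7) (nat_lit 7) L1437506 (by decide +kernel)
theorem L1445681 : W_2 (nat_lit 2) (nat_lit 0x600000005800380000000000000000000000000000000) (nat_lit 0x0) (nat_lit 0x600040000000000000000000000000000000) := D_2 (nat_lit 142) (nat_lit 141) (nat_lit 126) (nat_lit 2) (nat_lit 5) (nat_lit 8) (nat_lit 1) (nat_lit 10) (nat_lit 7) (by decide +kernel)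
theorem L1445682 : W_2 (nat_lit 3) (nat_lit 0x600000005800180000000000000000000000000000000) (nat_lit 0x0) (nat_lit 0x600640000000000000000000000000000000) := T_2 (nat_lit 129) (nat_lit 130) (nat_lit 1) (nat_lit 11) (nat_lit 7) L1445681 (by decide +kernel)
theorem L1522089 : W_2 (nat_lit 2) (nat_lit 0x90007800380000000000000000000000000000000) (nat_lit 0x0) (nat_lit 0x20001000000000000000008000000000000000000000000000) := D_2 (nat_lit 180) (nat_lit 111) (nat_lit 197) (nat_lit 4) (nat_lit 10) (nat_lit 10) (nat_lit 4) (nat_lit 10) (nat_lit 11) (by decide +kernel)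
theorem L1522090 : W_2 (nat_lit 3) (nat_lit 0x90007800180000000000000000000000000000000) (nat_lit 0x0) (nat_lit 0x20001000000000000600008000000000000000000000000000) := T_2 (nat_lit 129) (nat_lit 130) (nat_lit 2) (nat_lit 7) (nat_lit 8) L1522089 (by decide +kernel)
theorem L1522091 : W_2 (nat_lit 2) (nat_lit 0x200002000900078001c0008000000000000000000000000000) (nat_lit 0x0) (nat_lit 0x8000400020000000000000000000000000000000000000000) := D_2 (nat_lit 178) (nat_lit 161) (nat_lit 195) (nat_lit 6) (nat_lit 8) (nat_lit 10) (nat_lit 7) (nat_lit 7) (nat_lit 7) (by decide +kernel)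
theorem L1522092 : W_2 (nat_lit 3) (nat_lit 0x200000000900078001c0008000000000000000000000000000) (nat_lit 0x0) (nat_lit 0xc000600020000000000000000000000000000000000000000) := T_2 (nat_lit 177) (nat_lit 194) (nat_lit 6) (nat_lit 7) (nat_lit 11) L1522091 (by decide +kernel)
theorem L1522093 : W_2 (nat_lit 4) (nat_lit 0x200000000900078001c0000000000000000000000000000000) (nat_lit 0x0) (nat_lit 0xc000600020000000000008000400000000000000000000000) := T_2 (nat_lit 111) (nat_lit 94) (nat_lit 7) (nat_lit 9) (nat_lit 5) L1522092 (by decide +kernel)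
theorem L1522094 : W_2 (nat_lit 5) (nat_lit 0x900078001c0000000000000000000000000000000) (nat_lit 0x0) (nat_lit 0x2c001600020000000000008000400000000000000000000000) := T_2 (nat_lit 197) (nat_lit 180) (nat_lit 4) (nat_lit 10) (nat_lit 11) L1522093 (by decide +kernel)
theorem L1522095 : W_2 (nat_lit 6) (nat_lit 0x90007800180000000000000000000000000000000) (nat_lit 0x0) (nat_lit 0x2c001600020000000060008000400000000000000000000000) := T_2 (nat_lit 126) (nat_lit 125) (nat_lit 3) (nat_lit 6) (nat_lit 7) L1522094 (by decide +kernel)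
theorem L1522096 : W_2 (nat_lit 5) (nat_lit 0x40000000900078003a0000000000000000000000000000000) (nat_lit 0x0) (nat_lit 0x78003c00020000000000000000000000000000000000000000) := T_2 (nat_lit 180) (nat_lit 197) (nat_lit 4) (nat_lit 10) (nat_lit 11) L1366305 (by decide +kernel)
theorem L1522097 : W_2 (nat_lit 6) (nat_lit 0x4000000090007800380000000000000000000000000000000) (nat_lit 0x0) (nat_lit 0x78003c00020000000060000000000000000000000000000000) := T_2 (nat_lit 125) (nat_lit 126) (nat_lit 3) (nat_lit 6) (nat_lit 7) L1522096 (by decide +kernel)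
theorem L1522098 : W_2 (nat_lit 7) (nat_lit 0x4000000090007800180000000000000000000000000000000) (nat_lit 0x0) (nat_lit 0x78003c00020000000660000000000000000000000000000000) := T_2 (nat_lit 129) (nat_lit 130) (nat_lit 2) (nat_lit 7) (nat_lit 8) L1522097 (by decide +kernel)
theorem L1522099 : W_2 (nat_lit 8) (nat_lit 0x90007800180000000000000000000000000000000) (nat_lit 0x0) (nat_lit 0x7c003e00020000000660000000000000000000000000000000) := T_2 (nat_lit 194) (nat_lit 177) (nat_lit 6) (nat_lit 7) (nat_lit 11) L1522098 (by decide +kernel)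
theorem L1522100 : W_2 (nat_lit 2) (nat_lit 0x40000000900078003c0010000400000000000000000000000) (nat_lit 0x0) (nat_lit 0x800060000000000000000000) := D_2 (nat_lit 95) (nat_lit 77) (nat_lit 78) (nat_lit 4) (nat_lit 10) (nat_lit 8) (nat_lit 5) (nat_lit 10) (nat_lit 4) (by decide +kernel)
theorem L1522101 : W_2 (nat_lit 3) (nat_lit 0x40000000900078003c0000000400000000000000000000000) (nat_lit 0x0) (nat_lit 0x30000800060000000000000000000) := T_2 (nat_lit 112) (nat_lit 113) (nat_lit 2) (nat_lit 7) (nat_lit 7) L1522100 (by decide +kernel)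
theorem L1522102 : W_2 (nat_lit 4) (nat_lit 0x4000000090007800380000000400000000000000000000000) (nat_lit 0x0) (nat_lit 0x60030000800060000000000000000000) := T_2 (nat_lit 126) (nat_lit 125) (nat_lit 3) (nat_lit 6) (nat_lit 7) L1522101 (by decide +kernel)
theorem L1522103 : W_2 (nat_lit 5) (nat_lit 0x4000000090007800180000000400000000000000000000000) (nat_lit 0x0) (nat_lit 0x660030000800060000000000000000000) := T_2 (nat_lit 129) (nat_lit 130) (nat_lit 2) (nat_lit 7) (nat_lit 8) L1522102 (by decide +kernel)
theorem L1522104 : W_2 (nat_lit 6) (nat_lit 0x90007800180000000400000000000000000000000) (nat_lit 0x0) (nat_lit 0x4000200000000000660030000800060000000000000000000) := T_2 (nat_lit 194) (nat_lit 177) (nat_lit 6) (nat_lit 7) (nat_lit 11) L1522103 (by decide +kernel)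
theorem L1522105 : W_2 (nat_lit 7) (nat_lit 0x90007800180000000000000000000000000000000) (nat_lit 0x0) (nat_lit 0x4000200000000000660038000c00060000000000000000000) := T_2 (nat_lit 94) (nat_lit 111) (nat_lit 7) (nat_lit 9) (nat_lit 5) L1522104 (by decide +kernel)
theorem L1522106 : W_2 (nat_lit 9) (nat_lit 0x90007800080000000000000000000000000000000) (nat_lit 0x0) (nat_lit 0x7c003e00020000000760038000c00060000000000000000000) := Q_2 (nat_lit 128) (C_2 L1522090 (C_2 L1522095 (C_2 L1522099 (C_2 L1522105 N_2)))) (by decide +kernel)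
theorem L1522107 : W_2 (nat_lit 10) (nat_lit 0x10007800080000000000000000000000000000000) (nat_lit 0x0) (nat_lit 0x7c003e001a0000000760038000c00060000000000000000000) := T_2 (nat_lit 163) (nat_lit 164) (nat_lit 3) (nat_lit 7) (nat_lit 8) L1522106 (by decide +kernel)
theorem L1529103 : W_2 (nat_lit 2) (nat_lit 0x5a001e0000000000000000000000000000000) (nat_lit 0x0) (nat_lit 0x100018000000000000000000000000000000) := D_2 (nat_lit 124) (nat_lit 123) (nat_lit 140) (nat_lit 3) (nat_lit 4) (nat_lit 7) (nat_lit 1) (nat_lit 8) (nat_lit 7) (by decide +kernel)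
theorem L1529104 : W_2 (nat_lit 3) (nat_lit 0x58001e0000000000000000000000000000000) (nat_lit 0x0) (nat_lit 0x700018000000000000000000000000000000) := T_2 (nat_lit 141) (nat_lit 142) (nat_lit 2) (nat_lit 5) (nat_lit 8) L1529103 (by decide +kernel)
theorem L1529511 : W_2 (nat_lit 2) (nat_lit 0x20005c001e0009000000004000000000000000000) (nat_lit 0x0) (nat_lit 0x4000400020000000000000000000) := D_2 (nat_lit 94) (nat_lit 77) (nat_lit 110) (nat_lit 5) (nat_lit 9) (nat_lit 4) (nat_lit 6) (nat_lit 8) (nat_lit 9) (by decide +kernel)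
theorem L1529512 : W_2 (nat_lit 3) (nat_lit 0x5c001e0009000000004000000000000000000) (nat_lit 0x0) (nat_lit 0x400020000000000004000400020000000000000000000) := T_2 (nat_lit 161) (nat_lit 178) (nat_lit 6) (nat_lit 8) (nat_lit 10) L1529511 (by decide +kernel)
theorem L1529513 : W_2 (nat_lit 4) (nat_lit 0x5c001e0009000000000000000000000000000) (nat_lit 0x0) (nat_lit 0x400020000000000004000480024000000000000000000) := T_2 (nat_lit 74) (nat_lit 91) (nat_lit 7) (nat_lit 6) (nat_lit 4) L1529512 (by decide +kernel)
theorem L1545882 : W_2 (nat_lit 5) (nat_lit 0x5c001e0008000000000000000000000000000) (nat_lit 0x0) (nat_lit 0x400020000000000005800480024000000000000000000) := T_2 (nat_lit 108) (nat_lit 107) (nat_lit 0) (nat_lit 9) (nat_lit 7) L1529513 (by decide +kernel)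
theorem L1567346 : W_2 (nat_lit 2) (nat_lit 0x4001e00080005800280000000000000000000000000000000) (nat_lit 0x0) (nat_lit 0x48002000000000000000000000000000000000000000000000) := D_2 (nat_lit 181) (nat_lit 198) (nat_lit 195) (nat_lit 7) (nat_lit 10) (nat_lit 7) (nat_lit 1) (nat_lit 11) (nat_lit 10) (by decide +kernel)
theorem L1576074 : W_2 (nat_lit 2) (nat_lit 0x80007800280010000c00000000000000000000000) (nat_lit 0x0) (nat_lit 0x20001000080000000000000000000) := D_2 (nat_lit 96) (nat_lit 113) (nat_lit 79) (nat_lit 6) (nat_lit 10) (nat_lit 9) (nat_lit 6) (nat_lit 10) (nat_lit 8) (by decide +kernel)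
theorem L1576075 : W_2 (nat_lit 3) (nat_lit 0x80007800280010000400000000000000000000000) (nat_lit 0x0) (nat_lit 0x200018000a0000000000000000000) := T_2 (nat_lit 95) (nat_lit 77) (nat_lit 4) (nat_lit 10) (nat_lit 8) L1576074 (by decide +kernel)
theorem L1576076 : W_2 (nat_lit 4) (nat_lit 0x80007800280000000400000000000000000000000) (nat_lit 0x0) (nat_lit 0x380018000a0000000000000000000) := T_2 (nat_lit 112) (nat_lit 111) (nat_lit 4) (nat_lit 10) (nat_lit 9) L1576075 (by decide +kernel)
theorem L1576400 : W_2 (nat_lit 3) (nat_lit 0x80007800280000000c00000000000000000000000) (nat_lit 0x0) (nat_lit 0x300010000a0000000000000000000) := T_2 (nat_lit 112) (nat_lit 77) (nat_lit 4) (nat_lit 10) (nat_lit 8) L1576074 (by decide +kernel)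
theorem L1576401 : W_2 (nat_lit 4) (nat_lit 0x7800280000000c00000000000000000000000) (nat_lit 0x0) (nat_lit 0x1800000000000300010000a0000000000000000000) := T_2 (nat_lit 163) (nat_lit 164) (nat_lit 3) (nat_lit 7) (nat_lit 8) L1576400 (by decide +kernel)
theorem L1592978 : W_2 (nat_lit 2) (nat_lit 0xf800480000000000000000000000000000000) (nat_lit 0x0) (nat_lit 0x380000000000000000000000000000000000000000) := D_2 (nat_lit 164) (nat_lit 163) (nat_lit 165) (nat_lit 3) (nat_lit 7) (nat_lit 8) (nat_lit 3) (nat_lit 8) (nat_lit 8) (by decide +kernel)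
theorem L1624138 : W_2 (nat_lit 2) (nat_lit 0x5a000f0004800780000000000000000000000) (nat_lit 0x0) (nat_lit 0x40006000000000000000000) := D_2 (nat_lit 74) (nat_lit 73) (nat_lit 90) (nat_lit 0) (nat_lit 9) (nat_lit 5) (nat_lit 6) (nat_lit 5) (nat_lit 8) (by decide +kernel)
theorem L1624139 : W_2 (nat_lit 3) (nat_lit 0x5a000f0004800700000000000000000000000) (nat_lit 0x0) (nat_lit 0x10000c0006000000000000000000) := T_2 (nat_lit 91) (nat_lit 108) (nat_lit 1) (nat_lit 9) (nat_lit 5) L1624138 (by decide +kernel)
theorem L1624140 : W_2 (nat_lit 4) (nat_lit 0x5a000f0004800600000000000000000000000) (nat_lit 0x0) (nat_lit 0x10001c000e000000000000000000) := T_2 (nat_lit 92) (nat_lit 75) (nat_lit 4) (nat_lit 8) (nat_lit 8) L1624139 (by decide +kernel)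
theorem L1624141 : W_2 (nat_lit 5) (nat_lit 0x5a000f0004800200000000000000000000000) (nat_lit 0x0) (nat_lit 0x10005c002e000000000000000000) := T_2 (nat_lit 94) (nat_lit 77) (nat_lit 6) (nat_lit 8) (nat_lit 8) L1624140 (by decide +kernel)
theorem L1624142 : W_2 (nat_lit 6) (nat_lit 0x5a000f0004000200000000000000000000000) (nat_lit 0x0) (nat_lit 0x1c005c002e000000000000000000) := T_2 (nat_lit 107) (nat_lit 106) (nat_lit 0) (nat_lit 8) (nat_lit 7) L1624141 (by decide +kernel)
theorem L1624143 : W_2 (nat_lit 7) (nat_lit 0x5a000f0004000000000000000000000000000) (nat_lit 0x0) (nat_lit 0x1c007c003e000000000000000000) := T_2 (nat_lit 93) (nat_lit 76) (nat_lit 5) (nat_lit 8) (nat_lit 4) L1624142 (by decide +kernel)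
theorem L1624144 : W_2 (nat_lit 8) (nat_lit 0x58000f0004000000000000000000000000000) (nat_lit 0x0) (nat_lit 0x300000001c007c003e000000000000000000) := T_2 (nat_lit 141) (nat_lit 140) (nat_lit 1) (nat_lit 8) (nat_lit 7) L1624143 (by decide +kernel)
theorem L1624145 : W_2 (nat_lit 9) (nat_lit 0x58000f0000000000000000000000000000000) (nat_lit 0x0) (nat_lit 0x30000000dc007c003e000000000000000000) := T_2 (nat_lit 110) (nat_lit 111) (nat_lit 2) (nat_lit 5) (nat_lit 7) L1624144 (by decide +kernel)
theorem L1638257 : W_2 (nat_lit 2) (nat_lit 0x5800080024000f00080000000000000000000) (nat_lit 0x0) (nat_lit 0x40001000100000000000000000000) := D_2 (nat_lit 96) (nat_lit 114) (nat_lit 80) (nat_lit 3) (nat_lit 8) (nat_lit 5) (nat_lit 2) (nat_lit 8) (nat_lit 5) (by decide +kernel)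
theorem L1638258 : W_2 (nat_lit 3) (nat_lit 0x5800080024000f00000000000000000000000) (nat_lit 0x0) (nat_lit 0x400010001c0000000000000000000) := T_2 (nat_lit 79) (nat_lit 78) (nat_lit 2) (nat_lit 7) (nat_lit 5) L1638257 (by decide +kernel)
theorem L1638291 : W_2 (nat_lit 2) (nat_lit 0x5800080014000f00080000000000000000000) (nat_lit 0x0) (nat_lit 0x200000001000100000000000000000000) := D_2 (nat_lit 96) (nat_lit 80) (nat_lit 129) (nat_lit 2) (nat_lit 8) (nat_lit 5) (nat_lit 6) (nat_lit 10) (nat_lit 8) (by decide +kernel)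
theorem L1638292 : W_2 (nat_lit 3) (nat_lit 0x5800080014000f00000000000000000000000) (nat_lit 0x0) (nat_lit 0x2000000010001c0000000000000000000) := T_2 (nat_lit 79) (nat_lit 78) (nat_lit 2) (nat_lit 7) (nat_lit 5) L1638291 (by decide +kernel)
theorem L1638295 : W_2 (nat_lit 4) (nat_lit 0x5800080004000f00000000000000000000000) (nat_lit 0x0) (nat_lit 0x700010001c0000000000000000000) := T_2 (nat_lit 113) (nat_lit 112) (nat_lit 3) (nat_lit 7) (nat_lit 5) L1638258 (by decide +kernel)
theorem L1638296 : W_2 (nat_lit 5) (nat_lit 0x5800080004000e00000000000000000000000) (nat_lit 0x0) (nat_lit 0x700011001c8000000000000000000) := T_2 (nat_lit 92) (nat_lit 75) (nat_lit 4) (nat_lit 8) (nat_lit 8) L1638295 (by decide +kernel)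
theorem L1640546 : W_2 (nat_lit 2) (nat_lit 0x800078002c0018000000000000000000000000000) (nat_lit 0x0) (nat_lit 0x24001000000000000000000000000) := D_2 (nat_lit 113) (nat_lit 110) (nat_lit 96) (nat_lit 1) (nat_lit 11) (nat_lit 6) (nat_lit 6) (nat_lit 10) (nat_lit 9) (by decide +kernel)
theorem L1640547 : W_2 (nat_lit 3) (nat_lit 0x800078002c0008000000000000000000000000000) (nat_lit 0x0) (nat_lit 0x34001400000000000000000000000) := T_2 (nat_lit 112) (nat_lit 94) (nat_lit 4) (nat_lit 10) (nat_lit 9) L1640546 (by decide +kernel)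
theorem L1642772 : W_2 (nat_lit 2) (nat_lit 0x7800280008000400020001000140000000000) (nat_lit 0x0) (nat_lit 0x8000a000000) := D_2 (nat_lit 43) (nat_lit 25) (nat_lit 27) (nat_lit 4) (nat_lit 9) (nat_lit 5) (nat_lit 6) (nat_lit 9) (nat_lit 5) (by decide +kernel)
theorem L1642773 : W_2 (nat_lit 3) (nat_lit 0x7800280008000400020001000040000000000) (nat_lit 0x0) (nat_lit 0x200018000a000000) := T_2 (nat_lit 44) (nat_lit 61) (nat_lit 6) (nat_lit 9) (nat_lit 6) L1642772 (by decide +kernel)
theorem L1642774 : W_2 (nat_lit 4) (nat_lit 0x7800280008000400020001000000000000000) (nat_lit 0x0) (nat_lit 0x28001c000a000000) := T_2 (nat_lit 42) (nat_lit 59) (nat_lit 4) (nat_lit 9) (nat_lit 6) L1642773 (by decide +kernel)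
theorem L1642775 : W_2 (nat_lit 5) (nat_lit 0x7800280008000400020000000000000000000) (nat_lit 0x0) (nat_lit 0x40000000000038001c000a000000) := T_2 (nat_lit 60) (nat_lit 110) (nat_lit 5) (nat_lit 9) (nat_lit 3) L1642774 (by decide +kernel)
theorem L1643555 : W_2 (nat_lit 2) (nat_lit 0x780008000c000400000000000000000000000) (nat_lit 0x0) (nat_lit 0x200020001000000000000000) := D_2 (nat_lit 77) (nat_lit 93) (nat_lit 60) (nat_lit 6) (nat_lit 8) (nat_lit 8) (nat_lit 5) (nat_lit 9) (nat_lit 3) (by decide +kernel)
theorem L1643556 : W_2 (nat_lit 3) (nat_lit 0x7800080008000400000000000000000000000) (nat_lit 0x0) (nat_lit 0x20000000000004000200020001000000000000000) := T_2 (nat_lit 110) (nat_lit 161) (nat_lit 6) (nat_lit 8) (nat_lit 9) L1643555 (by decide +kernel)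
theorem L1658452 : W_2 (nat_lit 5) (nat_lit 0x80007800080000000400000000000000000000000) (nat_lit 0x0) (nat_lit 0x6000380018000a0000000000000000000) := T_2 (nat_lit 129) (nat_lit 130) (nat_lit 2) (nat_lit 7) (nat_lit 8) L1576076 (by decide +kernel)
theorem L1658453 : W_2 (nat_lit 6) (nat_lit 0x7800080000000400000000000000000000000) (nat_lit 0x0) (nat_lit 0x1800000006000380018000a0000000000000000000) := T_2 (nat_lit 163) (nat_lit 164) (nat_lit 3) (nat_lit 7) (nat_lit 8) L1658452 (by decide +kernel)
theorem L1660889 : W_2 (nat_lit 2) (nat_lit 0x80078000a0000000400000000000000000000000) (nat_lit 0x0) (nat_lit 0x4000400010000000000000000000000000000000) := D_2 (nat_lit 142) (nat_lit 158) (nat_lit 124) (nat_lit 1) (nat_lit 9) (nat_lit 8) (nat_lit 0) (nat_lit 9) (nat_lit 8) (by decide +kernel)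
theorem L1661480 : W_2 (nat_lit 2) (nat_lit 0x4007c00090000000400000000000000000000000) (nat_lit 0x0) (nat_lit 0x2000200008000000000000000000000000000000) := D_2 (nat_lit 141) (nat_lit 157) (nat_lit 123) (nat_lit 1) (nat_lit 8) (nat_lit 8) (nat_lit 0) (nat_lit 8) (nat_lit 8) (by decide +kernel)
theorem L1661481 : W_2 (nat_lit 3) (nat_lit 0x4007c00080000000400000000000000000000000) (nat_lit 0x0) (nat_lit 0x2000200038000000000000000000000000000000) := T_2 (nat_lit 124) (nat_lit 125) (nat_lit 0) (nat_lit 9) (nat_lit 8) L1661480 (by decide +kernel)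
theorem L1661482 : W_2 (nat_lit 4) (nat_lit 0x7c00080000000400000000000000000000000) (nat_lit 0x0) (nat_lit 0xe000200038000000000000000000000000000000) := T_2 (nat_lit 158) (nat_lit 159) (nat_lit 1) (nat_lit 9) (nat_lit 8) L1661481 (by decide +kernel)
theorem L1661543 : W_2 (nat_lit 2) (nat_lit 0x100007800480000000400000000000000000000000) (nat_lit 0x0) (nat_lit 0x200008000800000000000000000000000000000000) := D_2 (nat_lit 147) (nat_lit 131) (nat_lit 165) (nat_lit 2) (nat_lit 8) (nat_lit 8) (nat_lit 3) (nat_lit 8) (nat_lit 8) (by decide +kernel)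
theorem L1661544 : W_2 (nat_lit 3) (nat_lit 0x7800480000000400000000000000000000000) (nat_lit 0x0) (nat_lit 0x380008000800000000000000000000000000000000) := T_2 (nat_lit 164) (nat_lit 163) (nat_lit 3) (nat_lit 7) (nat_lit 8) L1661543 (by decide +kernel)
theorem L1661840 : W_2 (nat_lit 2) (nat_lit 0x80007800080024000f00080000000000000000000) (nat_lit 0x0) (nat_lit 0x40001000100000000000000000000) := D_2 (nat_lit 96) (nat_lit 114) (nat_lit 80) (nat_lit 3) (nat_lit 8) (nat_lit 5) (nat_lit 2) (nat_lit 8) (nat_lit 5) (by decide +kernel)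
theorem L1661841 : W_2 (nat_lit 3) (nat_lit 0x80007800080024000f00000000000000000000000) (nat_lit 0x0) (nat_lit 0x400010001c0000000000000000000) := T_2 (nat_lit 79) (nat_lit 78) (nat_lit 2) (nat_lit 7) (nat_lit 5) L1661840 (by decide +kernel)
theorem L1661842 : W_2 (nat_lit 4) (nat_lit 0x80007800080004000f00000000000000000000000) (nat_lit 0x0) (nat_lit 0x700010001c0000000000000000000) := T_2 (nat_lit 113) (nat_lit 112) (nat_lit 3) (nat_lit 7) (nat_lit 5) L1661841 (by decide +kernel)
theorem L1661843 : W_2 (nat_lit 5) (nat_lit 0x80007800080004000e00000000000000000000000) (nat_lit 0x0) (nat_lit 0x700011001c8000000000000000000) := T_2 (nat_lit 92) (nat_lit 75) (nat_lit 4) (nat_lit 8) (nat_lit 8) L1661842 (by decide +kernel)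
theorem L1661881 : W_2 (nat_lit 2) (nat_lit 0x580008000c000600010000400000000000000) (nat_lit 0x0) (nat_lit 0x800060000000000) := D_2 (nat_lit 59) (nat_lit 42) (nat_lit 41) (nat_lit 7) (nat_lit 8) (nat_lit 2) (nat_lit 4) (nat_lit 8) (nat_lit 6) (by decide +kernel)
theorem L1661882 : W_2 (nat_lit 3) (nat_lit 0x580008000c000600010000000000000000000) (nat_lit 0x0) (nat_lit 0x8000c00060000000000) := T_2 (nat_lit 58) (nat_lit 75) (nat_lit 4) (nat_lit 8) (nat_lit 7) L1661881 (by decide +kernel)
theorem L1662149 : W_2 (nat_lit 2) (nat_lit 0x5800080004000600010000000000000000000) (nat_lit 0x0) (nat_lit 0x100008000400000000000000) := D_2 (nat_lit 75) (nat_lit 58) (nat_lit 92) (nat_lit 4) (nat_lit 8) (nat_lit 7) (nat_lit 4) (nat_lit 8) (nat_lit 8) (by decide +kernel)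
theorem L1662150 : W_2 (nat_lit 3) (nat_lit 0x5800080004000600000000000000000000000) (nat_lit 0x0) (nat_lit 0x40000000100018000400000000000000) := T_2 (nat_lit 76) (nat_lit 126) (nat_lit 5) (nat_lit 8) (nat_lit 4) L1662149 (by decide +kernel)
theorem L1662152 : W_2 (nat_lit 4) (nat_lit 0x580008000c000600000000000000000000000) (nat_lit 0x0) (nat_lit 0x40000000000018000c00060000000000) := T_2 (nat_lit 76) (nat_lit 126) (nat_lit 5) (nat_lit 8) (nat_lit 4) L1661882 (by decide +kernel)
theorem L1662153 : W_2 (nat_lit 5) (nat_lit 0x5800080004000600000000000000000000000) (nat_lit 0x0) (nat_lit 0x20000000040008000000018000c00060000000000) := T_2 (nat_lit 111) (nat_lit 161) (nat_lit 6) (nat_lit 8) (nat_lit 9) L1662152 (by decide +kernel)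
theorem L1662182 : W_2 (nat_lit 2) (nat_lit 0x5800080014000700000000000000000000000) (nat_lit 0x0) (nat_lit 0x28000800000000000000000000000) := D_2 (nat_lit 113) (nat_lit 95) (nat_lit 111) (nat_lit 3) (nat_lit 7) (nat_lit 5) (nat_lit 0) (nat_lit 11) (nat_lit 6) (by decide +kernel)
theorem L1662183 : W_2 (nat_lit 3) (nat_lit 0x5800080014000600000000000000000000000) (nat_lit 0x0) (nat_lit 0x28000900008000000000000000000) := T_2 (nat_lit 92) (nat_lit 75) (nat_lit 4) (nat_lit 8) (nat_lit 8) L1662182 (by decide +kernel)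
theorem L1662184 : W_2 (nat_lit 4) (nat_lit 0x5800080014000700000000000000000000000) (nat_lit 0x0) (nat_lit 0x2000200018001c0000000000000000000) := T_2 (nat_lit 95) (nat_lit 113) (nat_lit 3) (nat_lit 7) (nat_lit 5) L1638292 (by decide +kernel)
theorem L1662185 : W_2 (nat_lit 5) (nat_lit 0x5800080014000600000000000000000000000) (nat_lit 0x0) (nat_lit 0x2000200019001c8000000000000000000) := T_2 (nat_lit 92) (nat_lit 75) (nat_lit 4) (nat_lit 8) (nat_lit 8) L1662184 (by decide +kernel)
theorem L1664320 : W_2 (nat_lit 5) (nat_lit 0x7800080000000c00000000000000000000000) (nat_lit 0x0) (nat_lit 0x1800000006000300010000a0000000000000000000) := T_2 (nat_lit 129) (nat_lit 130) (nat_lit 2) (nat_lit 7) (nat_lit 8) L1576401 (by decide +kernel)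
theorem L1664330 : W_2 (nat_lit 2) (nat_lit 0x84007c00090000000c00000000000000000000000) (nat_lit 0x0) (nat_lit 0x2000200008000000000000000000000000000000) := D_2 (nat_lit 141) (nat_lit 157) (nat_lit 123) (nat_lit 1) (nat_lit 8) (nat_lit 8) (nat_lit 0) (nat_lit 8) (nat_lit 8) (by decide +kernel)
theorem L1664331 : W_2 (nat_lit 3) (nat_lit 0x84007c00080000000c00000000000000000000000) (nat_lit 0x0) (nat_lit 0x2000200038000000000000000000000000000000) := T_2 (nat_lit 124) (nat_lit 125) (nat_lit 0) (nat_lit 9) (nat_lit 8) L1664330 (by decide +kernel)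
theorem L1664332 : W_2 (nat_lit 4) (nat_lit 0x80007c00080000000c00000000000000000000000) (nat_lit 0x0) (nat_lit 0xe000200038000000000000000000000000000000) := T_2 (nat_lit 158) (nat_lit 159) (nat_lit 1) (nat_lit 9) (nat_lit 8) L1664331 (by decide +kernel)
theorem L1664333 : W_2 (nat_lit 5) (nat_lit 0x7c00080000000c00000000000000000000000) (nat_lit 0x0) (nat_lit 0x18e000200038000000000000000000000000000000) := T_2 (nat_lit 163) (nat_lit 164) (nat_lit 3) (nat_lit 7) (nat_lit 8) L1664332 (by decide +kernel)
theorem L1699295 : W_2 (nat_lit 2) (nat_lit 0xc00020005000280018000400000000000000000000000) (nat_lit 0x0) (nat_lit 0x800020001000000000000000) := D_2 (nat_lit 77) (nat_lit 95) (nat_lit 60) (nat_lit 4) (nat_lit 10) (nat_lit 8) (nat_lit 7) (nat_lit 9) (nat_lit 3) (by decide +kernel)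
theorem L1699296 : W_2 (nat_lit 3) (nat_lit 0xc00020005000280008000400000000000000000000000) (nat_lit 0x0) (nat_lit 0x80000000000010000800020001000000000000000) := T_2 (nat_lit 112) (nat_lit 163) (nat_lit 4) (nat_lit 10) (nat_lit 9) L1699295 (by decide +kernel)
theorem L1699297 : W_2 (nat_lit 4) (nat_lit 0xc00020005000280008000000000000000000000000000) (nat_lit 0x0) (nat_lit 0x80000000000014000c00020001000000000000000) := T_2 (nat_lit 94) (nat_lit 110) (nat_lit 6) (nat_lit 8) (nat_lit 9) L1699296 (by decide +kernel)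
theorem L1712260 : W_2 (nat_lit 2) (nat_lit 0x2003f001080000000000000000000000000000000) (nat_lit 0x0) (nat_lit 0xe00000000000000000000000000000000000000000) := D_2 (nat_lit 166) (nat_lit 165) (nat_lit 167) (nat_lit 3) (nat_lit 9) (nat_lit 8) (nat_lit 3) (nat_lit 10) (nat_lit 8) (by decide +kernel)
theorem L1712261 : W_2 (nat_lit 3) (nat_lit 0x2001f001080000000000000000000000000000000) (nat_lit 0x0) (nat_lit 0xe00020002000000000000000000000000000000000) := T_2 (nat_lit 149) (nat_lit 133) (nat_lit 2) (nat_lit 10) (nat_lit 8) L1712260 (by decide +kernel)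
theorem L1712378 : W_2 (nat_lit 2) (nat_lit 0x22000f000880000000000000000000000000000000) (nat_lit 0x0) (nat_lit 0x400010001000000000000000000000000000000000) := D_2 (nat_lit 148) (nat_lit 132) (nat_lit 166) (nat_lit 2) (nat_lit 9) (nat_lit 8) (nat_lit 3) (nat_lit 9) (nat_lit 8) (by decide +kernel)
theorem L1714126 : W_2 (nat_lit 7) (nat_lit 0x22000f00008000400060001a000000000000000000) (nat_lit 0x0) (nat_lit 0x4000100018000e0007800280000000000000000000) := T_2 (nat_lit 96) (nat_lit 95) (nat_lit 0) (nat_lit 11) (nat_lit 5) L100783 (by decide +kernel)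
theorem L1714127 : W_2 (nat_lit 8) (nat_lit 0x22000f000080004000600018000000000000000000) (nat_lit 0x0) (nat_lit 0x4000100018000e0007800286000000000000000000) := T_2 (nat_lit 73) (nat_lit 74) (nat_lit 3) (nat_lit 5) (nat_lit 4) L1714126 (by decide +kernel)
theorem L1714128 : W_2 (nat_lit 9) (nat_lit 0x22000f000080004000600008000000000000000000) (nat_lit 0x0) (nat_lit 0x4000100018000e0007800296000400000000000000) := T_2 (nat_lit 76) (nat_lit 58) (nat_lit 4) (nat_lit 8) (nat_lit 7) L1714127 (by decide +kernel)
theorem L1714129 : W_2 (nat_lit 10) (nat_lit 0x2000f000080004000600008000000000000000000) (nat_lit 0x0) (nat_lit 0x7000100018000e0007800296000400000000000000) := T_2 (nat_lit 165) (nat_lit 164) (nat_lit 3) (nat_lit 8) (nat_lit 8) L1714128 (by decide +kernel)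
theorem L1714130 : W_2 (nat_lit 11) (nat_lit 0x2000f000080004000600000000000000000000000) (nat_lit 0x0) (nat_lit 0x7000100018000e000790029e000400000000000000) := T_2 (nat_lit 75) (nat_lit 92) (nat_lit 4) (nat_lit 8) (nat_lit 8) L1714129 (by decide +kernel)
theorem L1714131 : W_2 (nat_lit 12) (nat_lit 0x2000f000080004000400000000000000000000000) (nat_lit 0x0) (nat_lit 0x7000100018000e0007b002be000400000000000000) := T_2 (nat_lit 93) (nat_lit 77) (nat_lit 6) (nat_lit 8) (nat_lit 8) L1714130 (by decide +kernel)
theorem L1714132 : W_2 (nat_lit 13) (nat_lit 0x2000f000080000000400000000000000000000000) (nat_lit 0x0) (nat_lit 0x7000100018000ec007b002be000400000000000000) := T_2 (nat_lit 110) (nat_lit 111) (nat_lit 6) (nat_lit 8) (nat_lit 9) L1714131 (by decide +kernel)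
theorem L1718727 : W_2 (nat_lit 2) (nat_lit 0x2000f000280018000400000000000000000000000) (nat_lit 0x0) (nat_lit 0x800020001000000000000000) := D_2 (nat_lit 77) (nat_lit 95) (nat_lit 60) (nat_lit 4) (nat_lit 10) (nat_lit 8) (nat_lit 7) (nat_lit 9) (nat_lit 3) (by decide +kernel)
theorem L1718740 : W_2 (nat_lit 3) (nat_lit 0x2000f000080018000400000000000000000000000) (nat_lit 0x0) (nat_lit 0x80000000200000000800020001000000000000000) := T_2 (nat_lit 129) (nat_lit 163) (nat_lit 4) (nat_lit 10) (nat_lit 9) L1718727 (by decide +kernel)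
theorem L1718741 : W_2 (nat_lit 4) (nat_lit 0x2000f000080010000400000000000000000000000) (nat_lit 0x0) (nat_lit 0x8000000020000c000800020001000000000000000) := T_2 (nat_lit 111) (nat_lit 110) (nat_lit 6) (nat_lit 8) (nat_lit 9) L1718740 (by decide +kernel)
theorem L1720352 : W_2 (nat_lit 5) (nat_lit 0x2001f00088000400160001a000000000000000000) (nat_lit 0x0) (nat_lit 0x6000000000000e0006000280000000000000000000) := T_2 (nat_lit 165) (nat_lit 166) (nat_lit 3) (nat_lit 9) (nat_lit 8) L100781 (by decide +kernel)
theorem L1720353 : W_2 (nat_lit 6) (nat_lit 0x2000f00088000400160001a000000000000000000) (nat_lit 0x0) (nat_lit 0x6000100010000e0006000280000000000000000000) := T_2 (nat_lit 148) (nat_lit 132) (nat_lit 2) (nat_lit 9) (nat_lit 8) L1720352 (by decide +kernel)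
theorem L1720354 : W_2 (nat_lit 7) (nat_lit 0x2000f00088000400060001a000000000000000000) (nat_lit 0x0) (nat_lit 0x6000100010000e0007800280000000000000000000) := T_2 (nat_lit 96) (nat_lit 95) (nat_lit 0) (nat_lit 11) (nat_lit 5) L1720353 (by decide +kernel)
theorem L1720355 : W_2 (nat_lit 8) (nat_lit 0x2000f000880004000600018000000000000000000) (nat_lit 0x0) (nat_lit 0x6000100010000e0007800286000000000000000000) := T_2 (nat_lit 73) (nat_lit 74) (nat_lit 3) (nat_lit 5) (nat_lit 4) L1720354 (by decide +kernel)
theorem L1720356 : W_2 (nat_lit 9) (nat_lit 0x2000f000880004000600008000000000000000000) (nat_lit 0x0) (nat_lit 0x6000100010000e0007800296000400000000000000) := T_2 (nat_lit 76) (nat_lit 58) (nat_lit 4) (nat_lit 8) (nat_lit 7) L1720355 (by decide +kernel)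
theorem L1720357 : W_2 (nat_lit 10) (nat_lit 0x2000f000080004000600008000000000000000000) (nat_lit 0x0) (nat_lit 0x600010001c000e0007800296000400000000000000) := T_2 (nat_lit 131) (nat_lit 130) (nat_lit 2) (nat_lit 8) (nat_lit 8) L1720356 (by decide +kernel)
theorem L1720358 : W_2 (nat_lit 11) (nat_lit 0x2000f000080004000600000000000000000000000) (nat_lit 0x0) (nat_lit 0x600010001c000e000790029e000400000000000000) := T_2 (nat_lit 75) (nat_lit 92) (nat_lit 4) (nat_lit 8) (nat_lit 8) L1720357 (by decide +kernel)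
theorem L1720359 : W_2 (nat_lit 12) (nat_lit 0x2000f000080004000400000000000000000000000) (nat_lit 0x0) (nat_lit 0x600010001c000e0007b002be000400000000000000) := T_2 (nat_lit 93) (nat_lit 77) (nat_lit 6) (nat_lit 8) (nat_lit 8) L1720358 (by decide +kernel)
theorem L1720360 : W_2 (nat_lit 13) (nat_lit 0x2000f000080000000400000000000000000000000) (nat_lit 0x0) (nat_lit 0x600010001c000ec007b002be000400000000000000) := T_2 (nat_lit 110) (nat_lit 111) (nat_lit 6) (nat_lit 8) (nat_lit 9) L1720359 (by decide +kernel)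
theorem L1720403 : W_2 (nat_lit 2) (nat_lit 0x2000f000480024001700000000000000000000000) (nat_lit 0x0) (nat_lit 0x10000800040000000000000000000) := D_2 (nat_lit 95) (nat_lit 78) (nat_lit 112) (nat_lit 4) (nat_lit 11) (nat_lit 8) (nat_lit 3) (nat_lit 7) (nat_lit 5) (by decide +kernel)
theorem L1720404 : W_2 (nat_lit 3) (nat_lit 0x2000f000480004001700000000000000000000000) (nat_lit 0x0) (nat_lit 0x80000000000030000800040000000000000000000) := T_2 (nat_lit 113) (nat_lit 163) (nat_lit 5) (nat_lit 11) (nat_lit 5) L1720403 (by decide +kernel)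
theorem L1720405 : W_2 (nat_lit 4) (nat_lit 0x2000f000080004001700000000000000000000000) (nat_lit 0x0) (nat_lit 0x80000000c00030000800040000000000000000000) := T_2 (nat_lit 130) (nat_lit 131) (nat_lit 2) (nat_lit 8) (nat_lit 8) L1720404 (by decide +kernel)
theorem L1720406 : W_2 (nat_lit 5) (nat_lit 0x2000f000080004001600000000000000000000000) (nat_lit 0x0) (nat_lit 0x80000000c00030000900048000000000000000000) := T_2 (nat_lit 92) (nat_lit 75) (nat_lit 4) (nat_lit 8) (nat_lit 8) L1720405 (by decide +kernel)
theorem L1720407 : W_2 (nat_lit 6) (nat_lit 0x2000f000080004001400000000000000000000000) (nat_lit 0x0) (nat_lit 0x80000000c00030000b00068000000000000000000) := T_2 (nat_lit 93) (nat_lit 77) (nat_lit 6) (nat_lit 8) (nat_lit 8) L1720406 (by decide +kernel)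
theorem L1720408 : W_2 (nat_lit 7) (nat_lit 0x2000f000080000001400000000000000000000000) (nat_lit 0x0) (nat_lit 0x80000000c0003c000b00068000000000000000000) := T_2 (nat_lit 110) (nat_lit 111) (nat_lit 6) (nat_lit 8) (nat_lit 9) L1720407 (by decide +kernel)
theorem L1720409 : W_2 (nat_lit 2) (nat_lit 0x2000f000480024003c00000000000000000000000) (nat_lit 0x0) (nat_lit 0x1000000000000c0000000000000000000000000000) := D_2 (nat_lit 114) (nat_lit 115) (nat_lit 164) (nat_lit 3) (nat_lit 9) (nat_lit 5) (nat_lit 6) (nat_lit 11) (nat_lit 9) (by decide +kernel)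
theorem L1720410 : W_2 (nat_lit 3) (nat_lit 0x2000f000480024001c00000000000000000000000) (nat_lit 0x0) (nat_lit 0x1000000000000c0002000100000000000000000000) := T_2 (nat_lit 97) (nat_lit 80) (nat_lit 6) (nat_lit 11) (nat_lit 8) L1720409 (by decide +kernel)
theorem L1720411 : W_2 (nat_lit 4) (nat_lit 0x2000f000480024001400000000000000000000000) (nat_lit 0x0) (nat_lit 0x1000000000000c0002800140000000000000000000) := T_2 (nat_lit 95) (nat_lit 78) (nat_lit 4) (nat_lit 11) (nat_lit 8) L1720410 (by decide +kernel)
theorem L1720412 : W_2 (nat_lit 5) (nat_lit 0x2000f000480004001400000000000000000000000) (nat_lit 0x0) (nat_lit 0x1800000000000e0002800140000000000000000000) := T_2 (nat_lit 113) (nat_lit 163) (nat_lit 5) (nat_lit 11) (nat_lit 5) L1720411 (by decide +kernel)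
theorem L1720413 : W_2 (nat_lit 6) (nat_lit 0x2000f000480000001400000000000000000000000) (nat_lit 0x0) (nat_lit 0x1800000000000ec002800140000000000000000000) := T_2 (nat_lit 110) (nat_lit 111) (nat_lit 6) (nat_lit 8) (nat_lit 9) L1720412 (by decide +kernel)
theorem L1720414 : W_2 (nat_lit 7) (nat_lit 0x2000f000080000001400000000000000000000000) (nat_lit 0x0) (nat_lit 0x180000000c000ec002800140000000000000000000) := T_2 (nat_lit 130) (nat_lit 131) (nat_lit 2) (nat_lit 8) (nat_lit 8) L1720413 (by decide +kernel)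
theorem L1720415 : W_2 (nat_lit 2) (nat_lit 0x2000f000480020001e00000000000000000000000) (nat_lit 0x0) (nat_lit 0x100000000000010000100000000000000000000000) := D_2 (nat_lit 112) (nat_lit 92) (nat_lit 164) (nat_lit 3) (nat_lit 7) (nat_lit 5) (nat_lit 4) (nat_lit 11) (nat_lit 9) (by decide +kernel)
theorem L1720416 : W_2 (nat_lit 3) (nat_lit 0x2000f000480020001c00000000000000000000000) (nat_lit 0x0) (nat_lit 0x100000000000050000300000000000000000000000) := T_2 (nat_lit 93) (nat_lit 114) (nat_lit 3) (nat_lit 8) (nat_lit 5) L1720415 (by decide +kernel)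
theorem L1720417 : W_2 (nat_lit 4) (nat_lit 0x2000f000480020001400000000000000000000000) (nat_lit 0x0) (nat_lit 0x100000000000050000b00040000000000000000000) := T_2 (nat_lit 95) (nat_lit 78) (nat_lit 4) (nat_lit 11) (nat_lit 8) L1720416 (by decide +kernel)
theorem L1720418 : W_2 (nat_lit 5) (nat_lit 0x2000f000480000001400000000000000000000000) (nat_lit 0x0) (nat_lit 0x180000000000070000b00040000000000000000000) := T_2 (nat_lit 113) (nat_lit 163) (nat_lit 5) (nat_lit 11) (nat_lit 5) L1720417 (by decide +kernel)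
theorem L1720419 : W_2 (nat_lit 6) (nat_lit 0x2000f000080000001400000000000000000000000) (nat_lit 0x0) (nat_lit 0x180000000c00070000b00040000000000000000000) := T_2 (nat_lit 130) (nat_lit 131) (nat_lit 2) (nat_lit 8) (nat_lit 8) L1720418 (by decide +kernel)
theorem L1720420 : W_2 (nat_lit 2) (nat_lit 0x2000f000080004001600008000000000000000000) (nat_lit 0x0) (nat_lit 0x800010000400000000000000) := D_2 (nat_lit 76) (nat_lit 58) (nat_lit 95) (nat_lit 4) (nat_lit 8) (nat_lit 7) (nat_lit 0) (nat_lit 11) (nat_lit 5) (by decide +kernel)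
theorem L1720421 : W_2 (nat_lit 3) (nat_lit 0x2000f000080004001600000000000000000000000) (nat_lit 0x0) (nat_lit 0x900018000400000000000000) := T_2 (nat_lit 75) (nat_lit 92) (nat_lit 4) (nat_lit 8) (nat_lit 8) L1720420 (by decide +kernel)
theorem L1720422 : W_2 (nat_lit 4) (nat_lit 0x2000f000080004001400000000000000000000000) (nat_lit 0x0) (nat_lit 0xb00038000400000000000000) := T_2 (nat_lit 93) (nat_lit 77) (nat_lit 6) (nat_lit 8) (nat_lit 8) L1720421 (by decide +kernel)
theorem L1720423 : W_2 (nat_lit 5) (nat_lit 0x2000f000080000001400000000000000000000000) (nat_lit 0x0) (nat_lit 0xc000b00038000400000000000000) := T_2 (nat_lit 110) (nat_lit 111) (nat_lit 6) (nat_lit 8) (nat_lit 9) L1720422 (by decide +kernel)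
theorem L1720424 : W_2 (nat_lit 2) (nat_lit 0x2000f000480068003400000000000000000000000) (nat_lit 0x0) (nat_lit 0x10004200000000000000000000000) := D_2 (nat_lit 112) (nat_lit 98) (nat_lit 93) (nat_lit 2) (nat_lit 9) (nat_lit 6) (nat_lit 0) (nat_lit 12) (nat_lit 6) (by decide +kernel)
theorem L1720425 : W_2 (nat_lit 3) (nat_lit 0x2000f000480028003400000000000000000000000) (nat_lit 0x0) (nat_lit 0x100000000000050004200000000000000000000000) := T_2 (nat_lit 114) (nat_lit 164) (nat_lit 6) (nat_lit 11) (nat_lit 9) L1720424 (by decide +kernel)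
theorem L1720426 : W_2 (nat_lit 4) (nat_lit 0x2000f000480028001400000000000000000000000) (nat_lit 0x0) (nat_lit 0x100000000000050006200100000000000000000000) := T_2 (nat_lit 97) (nat_lit 80) (nat_lit 6) (nat_lit 11) (nat_lit 8) L1720425 (by decide +kernel)
theorem L1720427 : W_2 (nat_lit 5) (nat_lit 0x2000f000480008001400000000000000000000000) (nat_lit 0x0) (nat_lit 0x180000000000070006200100000000000000000000) := T_2 (nat_lit 113) (nat_lit 163) (nat_lit 5) (nat_lit 11) (nat_lit 5) L1720426 (by decide +kernel)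
theorem L1720428 : W_2 (nat_lit 6) (nat_lit 0x2000f000080008001400000000000000000000000) (nat_lit 0x0) (nat_lit 0x180000000c00070006200100000000000000000000) := T_2 (nat_lit 130) (nat_lit 131) (nat_lit 2) (nat_lit 8) (nat_lit 8) L1720427 (by decide +kernel)
theorem L1720429 : W_2 (nat_lit 7) (nat_lit 0x2000f000080000001400000000000000000000000) (nat_lit 0x0) (nat_lit 0x180000000c0007c006200100000000000000000000) := T_2 (nat_lit 111) (nat_lit 110) (nat_lit 6) (nat_lit 8) (nat_lit 9) L1720428 (by decide +kernel)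
theorem L1720430 : W_2 (nat_lit 8) (nat_lit 0x2000f000080000000400000000000000000000000) (nat_lit 0x0) (nat_lit 0x180000000c000fc007b00178000400000000000000) := Q_2 (nat_lit 96) (C_2 L1720408 (C_2 L1720414 (C_2 L1720419 (C_2 L1720423 (C_2 L1720429 N_2))))) (by decide +kernel)
theorem L1808894 : W_2 (nat_lit 2) (nat_lit 0x800078000c000c000400000000000000000000000) (nat_lit 0x0) (nat_lit 0x200030000000000000000000) := D_2 (nat_lit 93) (nat_lit 77) (nat_lit 76) (nat_lit 6) (nat_lit 8) (nat_lit 8) (nat_lit 5) (nat_lit 8) (nat_lit 4) (by decide +kernel)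
theorem L1808895 : W_2 (nat_lit 3) (nat_lit 0x800078000c0008000400000000000000000000000) (nat_lit 0x0) (nat_lit 0x20000000000004000200030000000000000000000) := T_2 (nat_lit 110) (nat_lit 161) (nat_lit 6) (nat_lit 8) (nat_lit 9) L1808894 (by decide +kernel)
theorem L1809066 : W_2 (nat_lit 2) (nat_lit 0x900078002c0000000000000000000000000000000) (nat_lit 0x0) (nat_lit 0x4000200000000000000004000000000000000000000000000) := D_2 (nat_lit 177) (nat_lit 110) (nat_lit 194) (nat_lit 6) (nat_lit 7) (nat_lit 10) (nat_lit 6) (nat_lit 7) (nat_lit 11) (by decide +kernel)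
theorem L1809067 : W_2 (nat_lit 3) (nat_lit 0x800078002c0000000000000000000000000000000) (nat_lit 0x0) (nat_lit 0x4000200018000000000004000000000000000000000000000) := T_2 (nat_lit 160) (nat_lit 159) (nat_lit 1) (nat_lit 10) (nat_lit 8) L1809066 (by decide +kernel)
theorem L1809068 : W_2 (nat_lit 4) (nat_lit 0x800078000c0000000000000000000000000000000) (nat_lit 0x0) (nat_lit 0x4000200018000000600004000000000000000000000000000) := T_2 (nat_lit 129) (nat_lit 130) (nat_lit 2) (nat_lit 7) (nat_lit 8) L1809067 (by decide +kernel)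
theorem L1809284 : W_2 (nat_lit 4) (nat_lit 0x2000180058000c0000000000000000000000000000000) (nat_lit 0x0) (nat_lit 0xa000d00006000000000000000000000000000000000000000) := T_2 (nat_lit 176) (nat_lit 193) (nat_lit 5) (nat_lit 7) (nat_lit 7) L988221 (by decide +kernel)
theorem L1809285 : W_2 (nat_lit 2) (nat_lit 0x300014005e000d00008000a0000000000000000000000) (nat_lit 0x0) (nat_lit 0x40005000000000000000000) := D_2 (nat_lit 90) (nat_lit 74) (nat_lit 72) (nat_lit 6) (nat_lit 5) (nat_lit 8) (nat_lit 4) (nat_lit 5) (nat_lit 8) (by decide +kernel)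
theorem L1809286 : W_2 (nat_lit 3) (nat_lit 0x300014005e000d0000800080000000000000000000000) (nat_lit 0x0) (nat_lit 0x400060005000000000000000000) := T_2 (nat_lit 89) (nat_lit 106) (nat_lit 4) (nat_lit 5) (nat_lit 9) L1809285 (by decide +kernel)
theorem L1809287 : W_2 (nat_lit 4) (nat_lit 0x300014005e000d0000800000000000000000000000000) (nat_lit 0x0) (nat_lit 0x14000e0005000000000000000000) := T_2 (nat_lit 91) (nat_lit 108) (nat_lit 6) (nat_lit 5) (nat_lit 9) L1809286 (by decide +kernel)
theorem L1809288 : W_2 (nat_lit 5) (nat_lit 0x300014005e000d0000000000000000000000000000000) (nat_lit 0x0) (nat_lit 0x8000000000001c000e0005000000000000000000) := T_2 (nat_lit 107) (nat_lit 159) (nat_lit 7) (nat_lit 5) (nat_lit 6) L1809287 (by decide +kernel)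
theorem L1809289 : W_2 (nat_lit 6) (nat_lit 0x300010005e000d0000000000000000000000000000000) (nat_lit 0x0) (nat_lit 0xe000000000001c000e0005000000000000000000) := T_2 (nat_lit 158) (nat_lit 157) (nat_lit 1) (nat_lit 8) (nat_lit 8) L1809288 (by decide +kernel)
theorem L1809290 : W_2 (nat_lit 7) (nat_lit 0x300010005e000c0000000000000000000000000000000) (nat_lit 0x0) (nat_lit 0xe000000018001c000e0005000000000000000000) := T_2 (nat_lit 124) (nat_lit 123) (nat_lit 0) (nat_lit 8) (nat_lit 8) L1809289 (by decide +kernel)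
theorem L1809293 : W_2 (nat_lit 8) (nat_lit 0x300010005c000c0000000000000000000000000000000) (nat_lit 0x0) (nat_lit 0xe000300018001c000e0005000000000000000000) := T_2 (nat_lit 141) (nat_lit 140) (nat_lit 2) (nat_lit 4) (nat_lit 8) L1809290 (by decide +kernel)
theorem L1809294 : W_2 (nat_lit 9) (nat_lit 0x200010005c000c0000000000000000000000000000000) (nat_lit 0x0) (nat_lit 0x200010000e000300018001c000e0005000000000000000000) := T_2 (nat_lit 176) (nat_lit 193) (nat_lit 5) (nat_lit 7) (nat_lit 7) L1809293 (by decide +kernel)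
theorem L1816840 : W_2 (nat_lit 2) (nat_lit 0x100078000c0000000400000000000000000000000) (nat_lit 0x0) (nat_lit 0x4000200000000000000004000000000000000000000000000) := D_2 (nat_lit 177) (nat_lit 110) (nat_lit 194) (nat_lit 6) (nat_lit 7) (nat_lit 10) (nat_lit 6) (nat_lit 7) (nat_lit 11) (by decide +kernel)
theorem L1816841 : W_2 (nat_lit 3) (nat_lit 0x78000c0000000400000000000000000000000) (nat_lit 0x0) (nat_lit 0x4000200018000000000004000000000000000000000000000) := T_2 (nat_lit 160) (nat_lit 159) (nat_lit 1) (nat_lit 10) (nat_lit 8) L1816840 (by decide +kernel)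
theorem L1866976 : W_2 (nat_lit 3) (nat_lit 0x22000f000080000000000000000000000000000000) (nat_lit 0x0) (nat_lit 0x400010001c00000000000000000000000000000000) := T_2 (nat_lit 131) (nat_lit 130) (nat_lit 2) (nat_lit 8) (nat_lit 8) L1712378 (by decide +kernel)
theorem L1866977 : W_2 (nat_lit 4) (nat_lit 0x2000f000080000000000000000000000000000000) (nat_lit 0x0) (nat_lit 0x700010001c00000000000000000000000000000000) := T_2 (nat_lit 165) (nat_lit 164) (nat_lit 3) (nat_lit 8) (nat_lit 8) L1866976 (by decide +kernel)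
theorem L1866978 : W_2 (nat_lit 5) (nat_lit 0xf000080000000000000000000000000000000) (nat_lit 0x0) (nat_lit 0x730010001c00000000000000000000000000000000) := T_2 (nat_lit 161) (nat_lit 160) (nat_lit 1) (nat_lit 11) (nat_lit 8) L1866977 (by decide +kernel)
theorem L1866980 : W_2 (nat_lit 3) (nat_lit 0xf000480000000000000000000000000000000) (nat_lit 0x0) (nat_lit 0x380000800200000000000000000000000000000000) := T_2 (nat_lit 143) (nat_lit 129) (nat_lit 2) (nat_lit 7) (nat_lit 8) L1592978 (by decide +kernel)
theorem L1866981 : W_2 (nat_lit 4) (nat_lit 0xf000080000000000000000000000000000000) (nat_lit 0x0) (nat_lit 0x380000800e00000000000000000000000000000000) := T_2 (nat_lit 130) (nat_lit 131) (nat_lit 2) (nat_lit 8) (nat_lit 8) L1866980 (by decide +kernel)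
theorem L1866982 : W_2 (nat_lit 5) (nat_lit 0x7000080000000000000000000000000000000) (nat_lit 0x0) (nat_lit 0x380008800e40000000000000000000000000000000) := T_2 (nat_lit 147) (nat_lit 126) (nat_lit 0) (nat_lit 11) (nat_lit 8) L1866981 (by decide +kernel)
theorem L1866983 : W_2 (nat_lit 2) (nat_lit 0x11000f000080000000000000000000000000000000) (nat_lit 0x0) (nat_lit 0x88000800000000000000000000000000000000000) := D_2 (nat_lit 143) (nat_lit 163) (nat_lit 159) (nat_lit 3) (nat_lit 7) (nat_lit 8) (nat_lit 1) (nat_lit 10) (nat_lit 8) (by decide +kernel)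
theorem L1866984 : W_2 (nat_lit 3) (nat_lit 0x1000f000080000000000000000000000000000000) (nat_lit 0x0) (nat_lit 0x388000800000000000000000000000000000000000) := T_2 (nat_lit 164) (nat_lit 165) (nat_lit 3) (nat_lit 8) (nat_lit 8) L1866983 (by decide +kernel)
theorem L1866985 : W_2 (nat_lit 4) (nat_lit 0xf000080000000000000000000000000000000) (nat_lit 0x0) (nat_lit 0x3b8000800000000000000000000000000000000000) := T_2 (nat_lit 160) (nat_lit 161) (nat_lit 1) (nat_lit 11) (nat_lit 8) L1866984 (by decide +kernel)
theorem L1866986 : W_2 (nat_lit 2) (nat_lit 0xf800480000000000000000000000000000000) (nat_lit 0x0) (nat_lit 0x38000000000000000000000000000000000000000) := D_2 (nat_lit 160) (nat_lit 159) (nat_lit 161) (nat_lit 1) (nat_lit 10) (nat_lit 8) (nat_lit 1) (nat_lit 11) (nat_lit 8) (by decide +kernel)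
theorem L1866987 : W_2 (nat_lit 3) (nat_lit 0xf000480000000000000000000000000000000) (nat_lit 0x0) (nat_lit 0x38000800200000000000000000000000000000000) := T_2 (nat_lit 143) (nat_lit 129) (nat_lit 2) (nat_lit 7) (nat_lit 8) L1866986 (by decide +kernel)
theorem L1866988 : W_2 (nat_lit 4) (nat_lit 0xf000080000000000000000000000000000000) (nat_lit 0x0) (nat_lit 0x38000800e00000000000000000000000000000000) := T_2 (nat_lit 130) (nat_lit 131) (nat_lit 2) (nat_lit 8) (nat_lit 8) L1866987 (by decide +kernel)
theorem L1866989 : W_2 (nat_lit 6) (nat_lit 0x7000080000000000000000000000000000000) (nat_lit 0x0) (nat_lit 0x7b8018801e00000000000000000000000000000000) := Q_2 (nat_lit 147) (C_2 L1866981 (C_2 L1866978 (C_2 L1866985 (C_2 L1866988 N_2)))) (by decide +kernel)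
theorem L1866990 : W_2 (nat_lit 5) (nat_lit 0x7000080000000000000000000000000000000) (nat_lit 0x0) (nat_lit 0x3b8008800040000000000000000000000000000000) := T_2 (nat_lit 147) (nat_lit 126) (nat_lit 0) (nat_lit 11) (nat_lit 8) L1866985 (by decide +kernel)
theorem L1867015 : W_2 (nat_lit 2) (nat_lit 0x100007800480000000000000000000000000000000) (nat_lit 0x0) (nat_lit 0x200008000800000000000000000000000000000000) := D_2 (nat_lit 147) (nat_lit 165) (nat_lit 131) (nat_lit 3) (nat_lit 8) (nat_lit 8) (nat_lit 2) (nat_lit 8) (nat_lit 8) (by decide +kernel)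
theorem L1867016 : W_2 (nat_lit 3) (nat_lit 0x100007800080000000000000000000000000000000) (nat_lit 0x0) (nat_lit 0x200008000e00000000000000000000000000000000) := T_2 (nat_lit 130) (nat_lit 129) (nat_lit 2) (nat_lit 7) (nat_lit 8) L1867015 (by decide +kernel)
theorem L1867017 : W_2 (nat_lit 4) (nat_lit 0x7800080000000000000000000000000000000) (nat_lit 0x0) (nat_lit 0x380008000e00000000000000000000000000000000) := T_2 (nat_lit 164) (nat_lit 163) (nat_lit 3) (nat_lit 7) (nat_lit 8) L1867016 (by decide +kernel)
theorem L1867018 : W_2 (nat_lit 5) (nat_lit 0x80007800080000000000000000000000000000000) (nat_lit 0x0) (nat_lit 0x4000200018000000660004000000000000000000000000000) := T_2 (nat_lit 126) (nat_lit 125) (nat_lit 0) (nat_lit 10) (nat_lit 8) L1809068 (by decide +kernel)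
theorem L1867019 : W_2 (nat_lit 6) (nat_lit 0x7800080000000000000000000000000000000) (nat_lit 0x0) (nat_lit 0x4000200198000000660004000000000000000000000000000) := T_2 (nat_lit 163) (nat_lit 164) (nat_lit 3) (nat_lit 7) (nat_lit 8) L1867018 (by decide +kernel)
theorem L1867021 : W_2 (nat_lit 2) (nat_lit 0x80007c000a0000000000000000000000000000000) (nat_lit 0x0) (nat_lit 0x1c000000000000000000000000000000000000000) := D_2 (nat_lit 159) (nat_lit 160) (nat_lit 158) (nat_lit 1) (nat_lit 10) (nat_lit 8) (nat_lit 1) (nat_lit 9) (nat_lit 8) (by decide +kernel)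
theorem L1867022 : W_2 (nat_lit 3) (nat_lit 0x800078000a0000000000000000000000000000000) (nat_lit 0x0) (nat_lit 0x1c000400010000000000000000000000000000000) := T_2 (nat_lit 142) (nat_lit 124) (nat_lit 0) (nat_lit 9) (nat_lit 8) L1867021 (by decide +kernel)
theorem L1867023 : W_2 (nat_lit 4) (nat_lit 0x78000a0000000000000000000000000000000) (nat_lit 0x0) (nat_lit 0x19c000400010000000000000000000000000000000) := T_2 (nat_lit 163) (nat_lit 164) (nat_lit 3) (nat_lit 7) (nat_lit 8) L1867022 (by decide +kernel)
theorem L1867024 : W_2 (nat_lit 5) (nat_lit 0x7800080000000000000000000000000000000) (nat_lit 0x0) (nat_lit 0x19c000400070000000000000000000000000000000) := T_2 (nat_lit 125) (nat_lit 126) (nat_lit 0) (nat_lit 10) (nat_lit 8) L1867023 (by decide +kernel)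
theorem L1867026 : W_2 (nat_lit 2) (nat_lit 0x7c00080000000000000000000000000000000) (nat_lit 0x0) (nat_lit 0x70000000000000000000000000000000) := D_2 (nat_lit 125) (nat_lit 126) (nat_lit 124) (nat_lit 0) (nat_lit 10) (nat_lit 8) (nat_lit 0) (nat_lit 9) (nat_lit 8) (by decide +kernel)
theorem L1867027 : W_2 (nat_lit 2) (nat_lit 0x80007e00290000000000000000000000000000000) (nat_lit 0x0) (nat_lit 0xe000000000000000000000000000000000000000) := D_2 (nat_lit 158) (nat_lit 159) (nat_lit 157) (nat_lit 1) (nat_lit 9) (nat_lit 8) (nat_lit 1) (nat_lit 8) (nat_lit 8) (by decide +kernel)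
theorem L1867028 : W_2 (nat_lit 3) (nat_lit 0x80007c00290000000000000000000000000000000) (nat_lit 0x0) (nat_lit 0xe000200008000000000000000000000000000000) := T_2 (nat_lit 141) (nat_lit 123) (nat_lit 0) (nat_lit 8) (nat_lit 8) L1867027 (by decide +kernel)
theorem L1867029 : W_2 (nat_lit 4) (nat_lit 0x7c00290000000000000000000000000000000) (nat_lit 0x0) (nat_lit 0x18e000200008000000000000000000000000000000) := T_2 (nat_lit 163) (nat_lit 164) (nat_lit 3) (nat_lit 7) (nat_lit 8) L1867028 (by decide +kernel)
theorem L1867030 : W_2 (nat_lit 5) (nat_lit 0x7c00280000000000000000000000000000000) (nat_lit 0x0) (nat_lit 0x18e000200038000000000000000000000000000000) := T_2 (nat_lit 124) (nat_lit 125) (nat_lit 0) (nat_lit 9) (nat_lit 8) L1867029 (by decide +kernel)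
theorem L1867031 : W_2 (nat_lit 6) (nat_lit 0x7c00080000000000000000000000000000000) (nat_lit 0x0) (nat_lit 0x18e000200638000000000000000000000000000000) := T_2 (nat_lit 129) (nat_lit 130) (nat_lit 2) (nat_lit 7) (nat_lit 8) L1867030 (by decide +kernel)
theorem L1867032 : W_2 (nat_lit 2) (nat_lit 0x4007e00288000000000000000000000000000000) (nat_lit 0x0) (nat_lit 0x100044000000000000000000000000000000) := D_2 (nat_lit 140) (nat_lit 126) (nat_lit 122) (nat_lit 2) (nat_lit 4) (nat_lit 8) (nat_lit 0) (nat_lit 7) (nat_lit 8) (by decide +kernel)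
theorem L1867033 : W_2 (nat_lit 3) (nat_lit 0x4007e00280000000000000000000000000000000) (nat_lit 0x0) (nat_lit 0x10005c000000000000000000000000000000) := T_2 (nat_lit 123) (nat_lit 124) (nat_lit 0) (nat_lit 8) (nat_lit 8) L1867032 (by decide +kernel)
theorem L1867034 : W_2 (nat_lit 4) (nat_lit 0x4007c00280000000000000000000000000000000) (nat_lit 0x0) (nat_lit 0x200030005c000000000000000000000000000000) := T_2 (nat_lit 141) (nat_lit 157) (nat_lit 1) (nat_lit 8) (nat_lit 8) L1867033 (by decide +kernel)
theorem L1867035 : W_2 (nat_lit 5) (nat_lit 0x4007c00080000000000000000000000000000000) (nat_lit 0x0) (nat_lit 0x200030065c000000000000000000000000000000) := T_2 (nat_lit 129) (nat_lit 130) (nat_lit 2) (nat_lit 7) (nat_lit 8) L1867034 (by decide +kernel)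
theorem L1867036 : W_2 (nat_lit 6) (nat_lit 0x7c00080000000000000000000000000000000) (nat_lit 0x0) (nat_lit 0xe00030065c000000000000000000000000000000) := T_2 (nat_lit 158) (nat_lit 159) (nat_lit 1) (nat_lit 9) (nat_lit 8) L1867035 (by decide +kernel)
theorem L1867037 : W_2 (nat_lit 4) (nat_lit 0x7c00280000000000000000000000000000000) (nat_lit 0x0) (nat_lit 0xe000300060000000000000000000000000000000) := T_2 (nat_lit 126) (nat_lit 125) (nat_lit 0) (nat_lit 10) (nat_lit 8) L673234 (by decide +kernel)
theorem L1867038 : W_2 (nat_lit 5) (nat_lit 0x7c00080000000000000000000000000000000) (nat_lit 0x0) (nat_lit 0xe000300660000000000000000000000000000000) := T_2 (nat_lit 129) (nat_lit 130) (nat_lit 2) (nat_lit 7) (nat_lit 8) L1867037 (by decide +kernel)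
theorem L1867039 : W_2 (nat_lit 7) (nat_lit 0x7800080000000000000000000000000000000) (nat_lit 0x0) (nat_lit 0x18e00070067c000000000000000000000000000000) := Q_2 (nat_lit 142) (C_2 L1867026 (C_2 L1867031 (C_2 L1867036 (C_2 L1867038 N_2)))) (by decide +kernel)
theorem L1906145 : W_2 (nat_lit 2) (nat_lit 0x7000080000001f00008000000000000000000) (nat_lit 0x0) (nat_lit 0x1c0000000000000000000) := D_2 (nat_lit 79) (nat_lit 80) (nat_lit 78) (nat_lit 2) (nat_lit 8) (nat_lit 5) (nat_lit 2) (nat_lit 7) (nat_lit 5) (by decide +kernel)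
theorem L1906234 : W_2 (nat_lit 3) (nat_lit 0x7000080000000f00008000000000000000000) (nat_lit 0x0) (nat_lit 0x10001d0000000000000000000) := T_2 (nat_lit 96) (nat_lit 76) (nat_lit 0) (nat_lit 11) (nat_lit 5) L1906145 (by decide +kernel)
theorem L1909860 : W_2 (nat_lit 4) (nat_lit 0x7000080000000f00000000000000000000000) (nat_lit 0x0) (nat_lit 0x10001dc000000000000000000) := T_2 (nat_lit 75) (nat_lit 74) (nat_lit 0) (nat_lit 10) (nat_lit 5) L1906234 (by decide +kernel)
theorem L1909899 : W_2 (nat_lit 2) (nat_lit 0x7000080020001f00010000000000000000000) (nat_lit 0x0) (nat_lit 0x1c0000000000000000000) := D_2 (nat_lit 79) (nat_lit 78) (nat_lit 80) (nat_lit 2) (nat_lit 7) (nat_lit 5) (nat_lit 2) (nat_lit 8) (nat_lit 5) (by decide +kernel)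
theorem L1909900 : W_2 (nat_lit 3) (nat_lit 0x7000080020001e00010000000000000000000) (nat_lit 0x0) (nat_lit 0x100001001c0000000000000000000) := T_2 (nat_lit 92) (nat_lit 112) (nat_lit 3) (nat_lit 7) (nat_lit 5) L1909899 (by decide +kernel)
theorem L1909901 : W_2 (nat_lit 4) (nat_lit 0x7000080000001e00010000000000000000000) (nat_lit 0x0) (nat_lit 0x700001001c0000000000000000000) := T_2 (nat_lit 113) (nat_lit 114) (nat_lit 3) (nat_lit 8) (nat_lit 5) L1909900 (by decide +kernel)
theorem L1909902 : W_2 (nat_lit 5) (nat_lit 0x7000080000001e00000000000000000000000) (nat_lit 0x0) (nat_lit 0x700001001d8000000000000000000) := T_2 (nat_lit 76) (nat_lit 75) (nat_lit 0) (nat_lit 11) (nat_lit 5) L1909901 (by decide +kernel)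
theorem L1909903 : W_2 (nat_lit 2) (nat_lit 0x7000080020003e00010000000000000000000) (nat_lit 0x0) (nat_lit 0x380000000000000000000) := D_2 (nat_lit 80) (nat_lit 79) (nat_lit 81) (nat_lit 2) (nat_lit 8) (nat_lit 5) (nat_lit 2) (nat_lit 9) (nat_lit 5) (by decide +kernel)
theorem L1909904 : W_2 (nat_lit 3) (nat_lit 0x7000080020001e00010000000000000000000) (nat_lit 0x0) (nat_lit 0x20003a0000000000000000000) := T_2 (nat_lit 97) (nat_lit 77) (nat_lit 0) (nat_lit 12) (nat_lit 5) L1909903 (by decide +kernel)
theorem L1909905 : W_2 (nat_lit 4) (nat_lit 0x7000080000001e00010000000000000000000) (nat_lit 0x0) (nat_lit 0x600020003a0000000000000000000) := T_2 (nat_lit 113) (nat_lit 114) (nat_lit 3) (nat_lit 8) (nat_lit 5) L1909904 (by decide +kernel)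
theorem L1909906 : W_2 (nat_lit 5) (nat_lit 0x7000080000001e00000000000000000000000) (nat_lit 0x0) (nat_lit 0x600020003b8000000000000000000) := T_2 (nat_lit 76) (nat_lit 75) (nat_lit 0) (nat_lit 11) (nat_lit 5) L1909905 (by decide +kernel)
theorem L1909907 : W_2 (nat_lit 2) (nat_lit 0x7000080000001f00080000000000000000000) (nat_lit 0x0) (nat_lit 0x70000000000000000000000000000) := D_2 (nat_lit 113) (nat_lit 114) (nat_lit 112) (nat_lit 3) (nat_lit 8) (nat_lit 5) (nat_lit 3) (nat_lit 7) (nat_lit 5) (by decide +kernel)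
theorem L1909908 : W_2 (nat_lit 3) (nat_lit 0x7000080000001e00080000000000000000000) (nat_lit 0x0) (nat_lit 0x70000100040000000000000000000) := T_2 (nat_lit 92) (nat_lit 78) (nat_lit 2) (nat_lit 7) (nat_lit 5) L1909907 (by decide +kernel)
theorem L1909909 : W_2 (nat_lit 4) (nat_lit 0x7000080000001e00000000000000000000000) (nat_lit 0x0) (nat_lit 0x700001001c0000000000000000000) := T_2 (nat_lit 79) (nat_lit 80) (nat_lit 2) (nat_lit 8) (nat_lit 5) L1909908 (by decide +kernel)
theorem L1909910 : W_2 (nat_lit 2) (nat_lit 0x7000080000001f00080000000000000000000) (nat_lit 0x0) (nat_lit 0x1c000000000000000000) := D_2 (nat_lit 75) (nat_lit 74) (nat_lit 76) (nat_lit 0) (nat_lit 10) (nat_lit 5) (nat_lit 0) (nat_lit 11) (nat_lit 5) (by decide +kernel)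
theorem L1909911 : W_2 (nat_lit 3) (nat_lit 0x7000080000001e00080000000000000000000) (nat_lit 0x0) (nat_lit 0x10005c000000000000000000) := T_2 (nat_lit 92) (nat_lit 78) (nat_lit 2) (nat_lit 7) (nat_lit 5) L1909910 (by decide +kernel)
theorem L1909912 : W_2 (nat_lit 4) (nat_lit 0x7000080000001e00000000000000000000000) (nat_lit 0x0) (nat_lit 0x1001dc000000000000000000) := T_2 (nat_lit 79) (nat_lit 80) (nat_lit 2) (nat_lit 8) (nat_lit 5) L1909911 (by decide +kernel)
theorem L1909913 : W_2 (nat_lit 2) (nat_lit 0x7000080020001f00000000000000000000000) (nat_lit 0x0) (nat_lit 0x1c000000000000000000) := D_2 (nat_lit 75) (nat_lit 74) (nat_lit 76) (nat_lit 0) (nat_lit 10) (nat_lit 5) (nat_lit 0) (nat_lit 11) (nat_lit 5) (by decide +kernel)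
theorem L1909914 : W_2 (nat_lit 3) (nat_lit 0x7000080020001e00000000000000000000000) (nat_lit 0x0) (nat_lit 0x1000010001c000000000000000000) := T_2 (nat_lit 92) (nat_lit 112) (nat_lit 3) (nat_lit 7) (nat_lit 5) L1909913 (by decide +kernel)
theorem L1909915 : W_2 (nat_lit 4) (nat_lit 0x7000080000001e00000000000000000000000) (nat_lit 0x0) (nat_lit 0x7000010001c000000000000000000) := T_2 (nat_lit 113) (nat_lit 114) (nat_lit 3) (nat_lit 8) (nat_lit 5) L1909914 (by decide +kernel)
theorem L1909916 : W_2 (nat_lit 6) (nat_lit 0x7000080000000e00000000000000000000000) (nat_lit 0x0) (nat_lit 0x700031003fc000000000000000000) := Q_2 (nat_lit 96) (C_2 L1909902 (C_2 L1909906 (C_2 L1909909 (C_2 L1909912 (C_2 L1909915 N_2))))) (by decide +kernel)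
theorem L1909921 : W_2 (nat_lit 2) (nat_lit 0x7000080020001e00080000000000000000000) (nat_lit 0x0) (nat_lit 0x600010000000000000000000000000000) := D_2 (nat_lit 129) (nat_lit 112) (nat_lit 130) (nat_lit 6) (nat_lit 10) (nat_lit 8) (nat_lit 5) (nat_lit 11) (nat_lit 4) (by decide +kernel)
theorem L1909922 : W_2 (nat_lit 3) (nat_lit 0x7000080000001e00080000000000000000000) (nat_lit 0x0) (nat_lit 0x600070000000000000000000000000000) := T_2 (nat_lit 113) (nat_lit 114) (nat_lit 3) (nat_lit 8) (nat_lit 5) L1909921 (by decide +kernel)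
theorem L1909923 : W_2 (nat_lit 4) (nat_lit 0x7000080000001e00000000000000000000000) (nat_lit 0x0) (nat_lit 0x600070000000180000000000000000000) := T_2 (nat_lit 79) (nat_lit 80) (nat_lit 2) (nat_lit 8) (nat_lit 5) L1909922 (by decide +kernel)
theorem L1909958 : W_2 (nat_lit 2) (nat_lit 0x7000080040001e00010000000000000000000) (nat_lit 0x0) (nat_lit 0x80002000020000000000000000000) := D_2 (nat_lit 97) (nat_lit 115) (nat_lit 77) (nat_lit 3) (nat_lit 9) (nat_lit 5) (nat_lit 0) (nat_lit 12) (nat_lit 5) (by decide +kernel)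
theorem L1909959 : W_2 (nat_lit 3) (nat_lit 0x7000080040001e00000000000000000000000) (nat_lit 0x0) (nat_lit 0x80002000038000000000000000000) := T_2 (nat_lit 76) (nat_lit 75) (nat_lit 0) (nat_lit 11) (nat_lit 5) L1909958 (by decide +kernel)
theorem L1909960 : W_2 (nat_lit 4) (nat_lit 0x7000080000001e00000000000000000000000) (nat_lit 0x0) (nat_lit 0xe0002000038000000000000000000) := T_2 (nat_lit 114) (nat_lit 113) (nat_lit 3) (nat_lit 8) (nat_lit 5) L1909959 (by decide +kernel)
theorem L1910725 : W_2 (nat_lit 2) (nat_lit 0x7000080020001e000c0000000000000000000) (nat_lit 0x0) (nat_lit 0x600000000000000002000000000000000) := D_2 (nat_lit 130) (nat_lit 129) (nat_lit 61) (nat_lit 5) (nat_lit 11) (nat_lit 4) (nat_lit 4) (nat_lit 11) (nat_lit 7) (by decide +kernel)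
theorem L1910726 : W_2 (nat_lit 3) (nat_lit 0x7000080020001e00080000000000000000000) (nat_lit 0x0) (nat_lit 0x600000000100040002000000000000000) := T_2 (nat_lit 78) (nat_lit 92) (nat_lit 2) (nat_lit 7) (nat_lit 5) L1910725 (by decide +kernel)
theorem L1910727 : W_2 (nat_lit 4) (nat_lit 0x7000080020001e00000000000000000000000) (nat_lit 0x0) (nat_lit 0x6000000001001c0002000000000000000) := T_2 (nat_lit 79) (nat_lit 80) (nat_lit 2) (nat_lit 8) (nat_lit 5) L1910726 (by decide +kernel)
theorem L1910728 : W_2 (nat_lit 5) (nat_lit 0x7000080000001e00000000000000000000000) (nat_lit 0x0) (nat_lit 0x6000600001001c0002000000000000000) := T_2 (nat_lit 113) (nat_lit 114) (nat_lit 3) (nat_lit 8) (nat_lit 5) L1910727 (by decide +kernel)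
theorem L1910729 : W_2 (nat_lit 6) (nat_lit 0x7000080000000e00000000000000000000000) (nat_lit 0x0) (nat_lit 0x6000e00031001fc002000000000000000) := Q_2 (nat_lit 96) (C_2 L1910728 (C_2 L1909960 (C_2 L1909912 N_2))) (by decide +kernel)
theorem L1910750 : W_2 (nat_lit 2) (nat_lit 0x7000080080003e00210000000000000000000) (nat_lit 0x0) (nat_lit 0x100004000400000000000000000000) := D_2 (nat_lit 98) (nat_lit 82) (nat_lit 116) (nat_lit 2) (nat_lit 10) (nat_lit 5) (nat_lit 3) (nat_lit 10) (nat_lit 5) (by decide +kernel)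
theorem L1910751 : W_2 (nat_lit 3) (nat_lit 0x7000080000003e00210000000000000000000) (nat_lit 0x0) (nat_lit 0x1c0004000400000000000000000000) := T_2 (nat_lit 115) (nat_lit 114) (nat_lit 3) (nat_lit 9) (nat_lit 5) L1910750 (by decide +kernel)
theorem L1910752 : W_2 (nat_lit 4) (nat_lit 0x7000080000003e00010000000000000000000) (nat_lit 0x0) (nat_lit 0x1c0004000700000000000000000000) := T_2 (nat_lit 81) (nat_lit 80) (nat_lit 2) (nat_lit 9) (nat_lit 5) L1910751 (by decide +kernel)
theorem L1910753 : W_2 (nat_lit 5) (nat_lit 0x7000080000001e00010000000000000000000) (nat_lit 0x0) (nat_lit 0x1c0006000720000000000000000000) := T_2 (nat_lit 97) (nat_lit 77) (nat_lit 0) (nat_lit 12) (nat_lit 5) L1910752 (by decide +kernel)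
theorem L1910754 : W_2 (nat_lit 6) (nat_lit 0x7000080000001e00000000000000000000000) (nat_lit 0x0) (nat_lit 0x1c0006000738000000000000000000) := T_2 (nat_lit 76) (nat_lit 75) (nat_lit 0) (nat_lit 11) (nat_lit 5) L1910753 (by decide +kernel)
theorem L1955272 : W_2 (nat_lit 2) (nat_lit 0x78002c000c000400020000000000000000000) (nat_lit 0x0) (nat_lit 0x30000800000000000000000000000) := D_2 (nat_lit 112) (nat_lit 113) (nat_lit 95) (nat_lit 1) (nat_lit 11) (nat_lit 6) (nat_lit 4) (nat_lit 10) (nat_lit 8) (by decide +kernel)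
theorem L1955273 : W_2 (nat_lit 3) (nat_lit 0x78002c000c000400000000000000000000000) (nat_lit 0x0) (nat_lit 0x30000800020001000000000000000) := T_2 (nat_lit 77) (nat_lit 60) (nat_lit 5) (nat_lit 9) (nat_lit 3) L1955272 (by decide +kernel)
theorem L1955274 : W_2 (nat_lit 4) (nat_lit 0x780028000c000400000000000000000000000) (nat_lit 0x0) (nat_lit 0x60030000800020001000000000000000) := T_2 (nat_lit 126) (nat_lit 125) (nat_lit 0) (nat_lit 10) (nat_lit 8) L1955273 (by decide +kernel)
theorem L1955275 : W_2 (nat_lit 5) (nat_lit 0x7800280008000400000000000000000000000) (nat_lit 0x0) (nat_lit 0x20000000060034000800020001000000000000000) := T_2 (nat_lit 110) (nat_lit 161) (nat_lit 6) (nat_lit 8) (nat_lit 9) L1955274 (by decide +kernel)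
theorem L1955276 : W_2 (nat_lit 6) (nat_lit 0x7800080008000400000000000000000000000) (nat_lit 0x0) (nat_lit 0x20000000660034000800020001000000000000000) := T_2 (nat_lit 129) (nat_lit 130) (nat_lit 2) (nat_lit 7) (nat_lit 8) L1955275 (by decide +kernel)
theorem L2044384 : W_2 (nat_lit 2) (nat_lit 0x1000080005000280038000000000000000000000000000) (nat_lit 0x0) (nat_lit 0x40002000100000000000000000000000000000000000000000) := D_2 (nat_lit 181) (nat_lit 164) (nat_lit 198) (nat_lit 7) (nat_lit 10) (nat_lit 6) (nat_lit 7) (nat_lit 10) (nat_lit 7) (by decide +kernel)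
theorem L2044385 : W_2 (nat_lit 3) (nat_lit 0x80005000280038000000000000000000000000000) (nat_lit 0x0) (nat_lit 0x40003000100000000400000000000000000000000000000000) := T_2 (nat_lit 180) (nat_lit 130) (nat_lit 6) (nat_lit 10) (nat_lit 10) L2044384 (by decide +kernel)
theorem L2044386 : W_2 (nat_lit 4) (nat_lit 0x5000280038000000000000000000000000000) (nat_lit 0x0) (nat_lit 0x40003000180000000400000001000000000000000000000000) := T_2 (nat_lit 163) (nat_lit 96) (nat_lit 6) (nat_lit 10) (nat_lit 9) L2044385 (by decide +kernel)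
theorem L2054491 : W_2 (nat_lit 2) (nat_lit 0x4003e00080005000280038000000000000000000000000000) (nat_lit 0x0) (nat_lit 0x18000800000000000000000000000000000000000) := D_2 (nat_lit 160) (nat_lit 159) (nat_lit 143) (nat_lit 0) (nat_lit 10) (nat_lit 10) (nat_lit 6) (nat_lit 7) (nat_lit 11) (by decide +kernel)
theorem L2054492 : W_2 (nat_lit 3) (nat_lit 0x4003c00080005000280038000000000000000000000000000) (nat_lit 0x0) (nat_lit 0x2000200018000800000000000000000000000000000000000) := T_2 (nat_lit 177) (nat_lit 193) (nat_lit 1) (nat_lit 10) (nat_lit 10) L2054491 (by decide +kernel)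
theorem L2054493 : W_2 (nat_lit 4) (nat_lit 0x3c00080005000280038000000000000000000000000000) (nat_lit 0x0) (nat_lit 0xe000200018000800000000000000000000000000000000000) := T_2 (nat_lit 194) (nat_lit 195) (nat_lit 1) (nat_lit 11) (nat_lit 10) L2054492 (by decide +kernel)
theorem L2067951 : W_2 (nat_lit 2) (nat_lit 0x1000500008001c000400020000000000000000000) (nat_lit 0x0) (nat_lit 0x80000000200000000800000000000000000000000) := D_2 (nat_lit 129) (nat_lit 163) (nat_lit 95) (nat_lit 4) (nat_lit 10) (nat_lit 9) (nat_lit 4) (nat_lit 10) (nat_lit 8) (by decide +kernel)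
theorem L2067952 : W_2 (nat_lit 3) (nat_lit 0x1000500008001c000400000000000000000000000) (nat_lit 0x0) (nat_lit 0x80000000200000000800020001000000000000000) := T_2 (nat_lit 77) (nat_lit 60) (nat_lit 5) (nat_lit 9) (nat_lit 3) L2067951 (by decide +kernel)
theorem L2070541 : W_2 (nat_lit 2) (nat_lit 0x90007800280014000c00000000000000000000000) (nat_lit 0x0) (nat_lit 0x20001000080000000000000000000) := D_2 (nat_lit 96) (nat_lit 113) (nat_lit 79) (nat_lit 6) (nat_lit 10) (nat_lit 9) (nat_lit 6) (nat_lit 10) (nat_lit 8) (by decide +kernel)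
theorem L2070542 : W_2 (nat_lit 3) (nat_lit 0x90007800280014000400000000000000000000000) (nat_lit 0x0) (nat_lit 0x200018000a0000000000000000000) := T_2 (nat_lit 95) (nat_lit 77) (nat_lit 4) (nat_lit 10) (nat_lit 8) L2070541 (by decide +kernel)
theorem L2070543 : W_2 (nat_lit 4) (nat_lit 0x90007800280004000400000000000000000000000) (nat_lit 0x0) (nat_lit 0x380018000a0000000000000000000) := T_2 (nat_lit 112) (nat_lit 111) (nat_lit 4) (nat_lit 10) (nat_lit 9) L2070542 (by decide +kernel)
theorem L2070544 : W_2 (nat_lit 5) (nat_lit 0x10007800280004000400000000000000000000000) (nat_lit 0x0) (nat_lit 0x1800000000000380018000a0000000000000000000) := T_2 (nat_lit 163) (nat_lit 164) (nat_lit 3) (nat_lit 7) (nat_lit 8) L2070543 (by decide +kernel)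
theorem L2070545 : W_2 (nat_lit 6) (nat_lit 0x10007800080004000400000000000000000000000) (nat_lit 0x0) (nat_lit 0x1800000006000380018000a0000000000000000000) := T_2 (nat_lit 129) (nat_lit 130) (nat_lit 2) (nat_lit 7) (nat_lit 8) L2070544 (by decide +kernel)
theorem L2070569 : W_2 (nat_lit 2) (nat_lit 0x30007000080004000400000000000000000000000) (nat_lit 0x0) (nat_lit 0xc000800000000000000000000000000000000000) := D_2 (nat_lit 159) (nat_lit 143) (nat_lit 158) (nat_lit 1) (nat_lit 10) (nat_lit 8) (nat_lit 2) (nat_lit 5) (nat_lit 9) (by decide +kernel)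
theorem L2070570 : W_2 (nat_lit 3) (nat_lit 0x30005000080004000400000000000000000000000) (nat_lit 0x0) (nat_lit 0xc00a800000000000000000000000000000000000) := T_2 (nat_lit 145) (nat_lit 147) (nat_lit 1) (nat_lit 11) (nat_lit 8) L2070569 (by decide +kernel)
theorem L2070858 : W_2 (nat_lit 2) (nat_lit 0x1000500088003c002400000001000000000000000) (nat_lit 0x0) (nat_lit 0x1000040004000000000000000000000000) := D_2 (nat_lit 114) (nat_lit 132) (nat_lit 98) (nat_lit 3) (nat_lit 9) (nat_lit 6) (nat_lit 2) (nat_lit 9) (nat_lit 6) (by decide +kernel)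
theorem L2070859 : W_2 (nat_lit 3) (nat_lit 0x1000500088003c000400000001000000000000000) (nat_lit 0x0) (nat_lit 0x1000040007000000000000000000000000) := T_2 (nat_lit 97) (nat_lit 96) (nat_lit 2) (nat_lit 8) (nat_lit 6) L2070858 (by decide +kernel)
theorem L2070860 : W_2 (nat_lit 4) (nat_lit 0x1000500008003c000400000001000000000000000) (nat_lit 0x0) (nat_lit 0x1c00040007000000000000000000000000) := T_2 (nat_lit 131) (nat_lit 130) (nat_lit 3) (nat_lit 8) (nat_lit 6) L2070859 (by decide +kernel)
theorem L2070861 : W_2 (nat_lit 5) (nat_lit 0x1000500008003c000400000000000000000000000) (nat_lit 0x0) (nat_lit 0x1c00040007000020001000000000000000) := T_2 (nat_lit 60) (nat_lit 77) (nat_lit 5) (nat_lit 9) (nat_lit 3) L2070860 (by decide +kernel)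
theorem L2070862 : W_2 (nat_lit 6) (nat_lit 0x1000500008001c000400000000000000000000000) (nat_lit 0x0) (nat_lit 0x1c40060007000020001000000000000000) := T_2 (nat_lit 113) (nat_lit 126) (nat_lit 1) (nat_lit 11) (nat_lit 6) L2070861 (by decide +kernel)
theorem L2075504 : W_2 (nat_lit 2) (nat_lit 0x92007e000a0000000280000000000000000000000) (nat_lit 0x0) (nat_lit 0x21000100000000000000000000000000000000000) := D_2 (nat_lit 140) (nat_lit 161) (nat_lit 156) (nat_lit 3) (nat_lit 4) (nat_lit 8) (nat_lit 1) (nat_lit 7) (nat_lit 8) (by decide +kernel)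
theorem L2075505 : W_2 (nat_lit 3) (nat_lit 0x90007e000a0000000280000000000000000000000) (nat_lit 0x0) (nat_lit 0x27000100000000000000000000000000000000000) := T_2 (nat_lit 157) (nat_lit 158) (nat_lit 1) (nat_lit 8) (nat_lit 8) L2075504 (by decide +kernel)
theorem L2075506 : W_2 (nat_lit 4) (nat_lit 0x90007c000a0000000280000000000000000000000) (nat_lit 0x0) (nat_lit 0x27000300100000000000000000000000000000000) := T_2 (nat_lit 141) (nat_lit 128) (nat_lit 2) (nat_lit 5) (nat_lit 8) L2075505 (by decide +kernel)
theorem L2075507 : W_2 (nat_lit 5) (nat_lit 0x90007c000a0000000200000000000000000000000) (nat_lit 0x0) (nat_lit 0x27000300100001000080000000000000000000000) := T_2 (nat_lit 91) (nat_lit 108) (nat_lit 7) (nat_lit 6) (nat_lit 5) L2075506 (by decide +kernel)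
theorem L2075508 : W_2 (nat_lit 6) (nat_lit 0x10007c000a0000000200000000000000000000000) (nat_lit 0x0) (nat_lit 0x1a7000300100001000080000000000000000000000) := T_2 (nat_lit 163) (nat_lit 164) (nat_lit 3) (nat_lit 7) (nat_lit 8) L2075507 (by decide +kernel)
theorem L2075509 : W_2 (nat_lit 7) (nat_lit 0x100078000a0000000200000000000000000000000) (nat_lit 0x0) (nat_lit 0x1a7000700110001000080000000000000000000000) := T_2 (nat_lit 142) (nat_lit 124) (nat_lit 0) (nat_lit 9) (nat_lit 8) L2075508 (by decide +kernel)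
theorem L2075510 : W_2 (nat_lit 8) (nat_lit 0x100078000a0000000000000000000000000000000) (nat_lit 0x0) (nat_lit 0x1a7000700110005000280000000000000000000000) := T_2 (nat_lit 93) (nat_lit 110) (nat_lit 5) (nat_lit 8) (nat_lit 5) L2075509 (by decide +kernel)
theorem L2075511 : W_2 (nat_lit 9) (nat_lit 0x10007800080000000000000000000000000000000) (nat_lit 0x0) (nat_lit 0x1a7000700170005000280000000000000000000000) := T_2 (nat_lit 125) (nat_lit 126) (nat_lit 0) (nat_lit 10) (nat_lit 8) L2075510 (by decide +kernel)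
theorem L2075660 : W_2 (nat_lit 3) (nat_lit 0x10007800380000000000000000000000000000000) (nat_lit 0x0) (nat_lit 0x20001000180000000000008000000000000000000000000000) := T_2 (nat_lit 163) (nat_lit 164) (nat_lit 3) (nat_lit 7) (nat_lit 8) L1522089 (by decide +kernel)
theorem L2084721 : W_2 (nat_lit 2) (nat_lit 0x10001c005a00090000000000000000000000000000000) (nat_lit 0x0) (nat_lit 0x40002000080000000000000000000000000000000000000000000) := D_2 (nat_lit 193) (nat_lit 210) (nat_lit 175) (nat_lit 6) (nat_lit 6) (nat_lit 12) (nat_lit 7) (nat_lit 5) (nat_lit 7) (by decide +kernel)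
theorem L2084722 : W_2 (nat_lit 3) (nat_lit 0x1c005a00090000000000000000000000000000000) (nat_lit 0x0) (nat_lit 0x40002000180000000000000000800000000000000000000000000) := T_2 (nat_lit 176) (nat_lit 107) (nat_lit 7) (nat_lit 5) (nat_lit 6) L2084721 (by decide +kernel)
theorem L2084723 : W_2 (nat_lit 4) (nat_lit 0x18005a00090000000000000000000000000000000) (nat_lit 0x0) (nat_lit 0x40002000180006000000000000800000000000000000000000000) := T_2 (nat_lit 158) (nat_lit 157) (nat_lit 2) (nat_lit 4) (nat_lit 9) L2084722 (by decide +kernel)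
theorem L2092350 : W_2 (nat_lit 2) (nat_lit 0x18005f00080000000000000000000000000000000) (nat_lit 0x0) (nat_lit 0x7000000000000000000000000000000000000000) := D_2 (nat_lit 157) (nat_lit 158) (nat_lit 156) (nat_lit 2) (nat_lit 4) (nat_lit 9) (nat_lit 1) (nat_lit 7) (nat_lit 8) (by decide +kernel)
theorem L2092351 : W_2 (nat_lit 3) (nat_lit 0x18005e00080000000000000000000000000000000) (nat_lit 0x0) (nat_lit 0x7000180000000000000000000000000000000000) := T_2 (nat_lit 140) (nat_lit 139) (nat_lit 3) (nat_lit 3) (nat_lit 8) L2092350 (by decide +kernel)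
theorem L2092353 : W_2 (nat_lit 2) (nat_lit 0x18005e00080000000000000000000000000000000) (nat_lit 0x0) (nat_lit 0x180040000000000000000000000000000000) := D_2 (nat_lit 140) (nat_lit 139) (nat_lit 126) (nat_lit 3) (nat_lit 3) (nat_lit 8) (nat_lit 2) (nat_lit 4) (nat_lit 8) (by decide +kernel)
theorem L2092354 : W_2 (nat_lit 5) (nat_lit 0x18005a00080000000000000000000000000000000) (nat_lit 0x0) (nat_lit 0x200010000000058007c000800040000000000000000000000) := Q_2 (nat_lit 142) (C_2 L1012081 (C_2 L2092353 (C_2 L1012091 N_2))) (by decide +kernel)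
theorem L2093881 : W_2 (nat_lit 2) (nat_lit 0x1c005e00090000000000000000000000000000000) (nat_lit 0x0) (nat_lit 0x2000100000000000000000800000000000000000000000000) := D_2 (nat_lit 176) (nat_lit 193) (nat_lit 107) (nat_lit 4) (nat_lit 6) (nat_lit 11) (nat_lit 7) (nat_lit 5) (nat_lit 6) (by decide +kernel)
theorem L2093882 : W_2 (nat_lit 3) (nat_lit 0x1c005e00080000000000000000000000000000000) (nat_lit 0x0) (nat_lit 0x2000100000000000018000800000000000000000000000000) := T_2 (nat_lit 124) (nat_lit 123) (nat_lit 0) (nat_lit 8) (nat_lit 8) L2093881 (by decide +kernel)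
theorem L2270054 : W_2 (nat_lit 2) (nat_lit 0xd000080020001e00000000000000000000000) (nat_lit 0x0) (nat_lit 0x80000000400000000000040000000000000000000) := D_2 (nat_lit 130) (nat_lit 78) (nat_lit 163) (nat_lit 4) (nat_lit 11) (nat_lit 8) (nat_lit 5) (nat_lit 11) (nat_lit 5) (by decide +kernel)
theorem L2270055 : W_2 (nat_lit 3) (nat_lit 0xd000080000001e00000000000000000000000) (nat_lit 0x0) (nat_lit 0x80000000400060000000040000000000000000000) := T_2 (nat_lit 113) (nat_lit 114) (nat_lit 3) (nat_lit 8) (nat_lit 5) L2270054 (by decide +kernel)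
theorem L2344000 : W_2 (nat_lit 2) (nat_lit 0xd000080000007e000d0000000000000000000) (nat_lit 0x0) (nat_lit 0x1c0000000000000000000000000000) := D_2 (nat_lit 115) (nat_lit 114) (nat_lit 116) (nat_lit 3) (nat_lit 9) (nat_lit 5) (nat_lit 3) (nat_lit 10) (nat_lit 5) (by decide +kernel)
theorem L2344001 : W_2 (nat_lit 3) (nat_lit 0xd000080000003e000d0000000000000000000) (nat_lit 0x0) (nat_lit 0x1c000c000000000000000000000000) := T_2 (nat_lit 98) (nat_lit 99) (nat_lit 0) (nat_lit 14) (nat_lit 5) L2344000 (by decide +kernel)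
theorem L2344002 : W_2 (nat_lit 4) (nat_lit 0xd000080000001e000d0000000000000000000) (nat_lit 0x0) (nat_lit 0x1c000e000020000000000000000000) := T_2 (nat_lit 97) (nat_lit 77) (nat_lit 3) (nat_lit 8) (nat_lit 4) L2344001 (by decide +kernel)
theorem L2344003 : W_2 (nat_lit 5) (nat_lit 0xd000080000001e00090000000000000000000) (nat_lit 0x0) (nat_lit 0x1c000e100060000000000000000000) := T_2 (nat_lit 78) (nat_lit 92) (nat_lit 2) (nat_lit 7) (nat_lit 5) L2344002 (by decide +kernel)
theorem L2344004 : W_2 (nat_lit 6) (nat_lit 0xd000080000001e00010000000000000000000) (nat_lit 0x0) (nat_lit 0x1c000e1001e0000000000000000000) := T_2 (nat_lit 79) (nat_lit 80) (nat_lit 2) (nat_lit 8) (nat_lit 5) L2344003 (by decide +kernel)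
theorem L2344005 : W_2 (nat_lit 7) (nat_lit 0xd000080000001e00000000000000000000000) (nat_lit 0x0) (nat_lit 0x1c000e1001f8000000000000000000) := T_2 (nat_lit 76) (nat_lit 75) (nat_lit 0) (nat_lit 11) (nat_lit 5) L2344004 (by decide +kernel)
theorem L2344006 : W_2 (nat_lit 2) (nat_lit 0xd000280080007e00490000000000000000000) (nat_lit 0x0) (nat_lit 0x8000840000000000000000000) := D_2 (nat_lit 99) (nat_lit 78) (nat_lit 83) (nat_lit 0) (nat_lit 14) (nat_lit 5) (nat_lit 2) (nat_lit 11) (nat_lit 5) (by decide +kernel)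
theorem L2344007 : W_2 (nat_lit 3) (nat_lit 0xd000280080007e00090000000000000000000) (nat_lit 0x0) (nat_lit 0x8000e40000000000000000000) := T_2 (nat_lit 82) (nat_lit 81) (nat_lit 2) (nat_lit 10) (nat_lit 5) L2344006 (by decide +kernel)
theorem L2344008 : W_2 (nat_lit 4) (nat_lit 0xd000280080003e00090000000000000000000) (nat_lit 0x0) (nat_lit 0x10000c000e40000000000000000000) := T_2 (nat_lit 98) (nat_lit 116) (nat_lit 3) (nat_lit 10) (nat_lit 5) L2344007 (by decide +kernel)
theorem L2344009 : W_2 (nat_lit 5) (nat_lit 0xd000280000003e00090000000000000000000) (nat_lit 0x0) (nat_lit 0x1c000c000e40000000000000000000) := T_2 (nat_lit 115) (nat_lit 114) (nat_lit 3) (nat_lit 9) (nat_lit 5) L2344008 (by decide +kernel)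
theorem L2344010 : W_2 (nat_lit 6) (nat_lit 0xd000080000003e00090000000000000000000) (nat_lit 0x0) (nat_lit 0x2001d000c000e40000000000000000000) := T_2 (nat_lit 129) (nat_lit 112) (nat_lit 6) (nat_lit 10) (nat_lit 8) L2344009 (by decide +kernel)
theorem L2344011 : W_2 (nat_lit 7) (nat_lit 0xd000080000001e00090000000000000000000) (nat_lit 0x0) (nat_lit 0x2001d000e000e60000000000000000000) := T_2 (nat_lit 97) (nat_lit 77) (nat_lit 0) (nat_lit 12) (nat_lit 5) L2344010 (by decide +kernel)
theorem L2344012 : W_2 (nat_lit 8) (nat_lit 0xd000080000001e00010000000000000000000) (nat_lit 0x0) (nat_lit 0x2001d000e000fe0000000000000000000) := T_2 (nat_lit 79) (nat_lit 80) (nat_lit 2) (nat_lit 8) (nat_lit 5) L2344011 (by decide +kernel)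
theorem L2344013 : W_2 (nat_lit 9) (nat_lit 0xd000080000001e00000000000000000000000) (nat_lit 0x0) (nat_lit 0x2001d000e000ff8000000000000000000) := T_2 (nat_lit 76) (nat_lit 75) (nat_lit 0) (nat_lit 11) (nat_lit 5) L2344012 (by decide +kernel)
theorem L2344014 : W_2 (nat_lit 2) (nat_lit 0x1d000880040003e00110000000000000000000) (nat_lit 0x0) (nat_lit 0x400020001000000000000000000000000000000000) := D_2 (nat_lit 149) (nat_lit 132) (nat_lit 166) (nat_lit 7) (nat_lit 12) (nat_lit 4) (nat_lit 7) (nat_lit 12) (nat_lit 5) (by decide +kernel)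
theorem L2344015 : W_2 (nat_lit 3) (nat_lit 0xd000880040003e00110000000000000000000) (nat_lit 0x0) (nat_lit 0x500030001000000000000000000000000000000000) := T_2 (nat_lit 148) (nat_lit 164) (nat_lit 5) (nat_lit 12) (nat_lit 5) L2344014 (by decide +kernel)
theorem L2344016 : W_2 (nat_lit 4) (nat_lit 0xd000080040003e00110000000000000000000) (nat_lit 0x0) (nat_lit 0x500030001c00000000000000000000000000000000) := T_2 (nat_lit 131) (nat_lit 130) (nat_lit 5) (nat_lit 12) (nat_lit 4) L2344015 (by decide +kernel)
theorem L2344017 : W_2 (nat_lit 5) (nat_lit 0xd000080000003e00110000000000000000000) (nat_lit 0x0) (nat_lit 0x500030001c000c0000000000000000000000000000) := T_2 (nat_lit 114) (nat_lit 115) (nat_lit 3) (nat_lit 9) (nat_lit 5) L2344016 (by decide +kernel)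
theorem L2344021 : W_2 (nat_lit 2) (nat_lit 0x1d000880040003e00100000000000000000000) (nat_lit 0x0) (nat_lit 0x400020001000000000000000000000000000000000) := D_2 (nat_lit 149) (nat_lit 132) (nat_lit 166) (nat_lit 7) (nat_lit 12) (nat_lit 4) (nat_lit 7) (nat_lit 12) (nat_lit 5) (by decide +kernel)
theorem L2344022 : W_2 (nat_lit 3) (nat_lit 0xd000880040003e00100000000000000000000) (nat_lit 0x0) (nat_lit 0x500030001000000000000000000000000000000000) := T_2 (nat_lit 148) (nat_lit 164) (nat_lit 5) (nat_lit 12) (nat_lit 5) L2344021 (by decide +kernel)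
theorem L2344023 : W_2 (nat_lit 4) (nat_lit 0xd000080040003e00100000000000000000000) (nat_lit 0x0) (nat_lit 0x500030001c00000000000000000000000000000000) := T_2 (nat_lit 131) (nat_lit 130) (nat_lit 5) (nat_lit 12) (nat_lit 4) L2344022 (by decide +kernel)
theorem L2344024 : W_2 (nat_lit 5) (nat_lit 0xd000080000003e00100000000000000000000) (nat_lit 0x0) (nat_lit 0x500030001c000c0000000000000000000000000000) := T_2 (nat_lit 114) (nat_lit 115) (nat_lit 3) (nat_lit 9) (nat_lit 5) L2344023 (by decide +kernel)
theorem L2344025 : W_2 (nat_lit 6) (nat_lit 0xd000080000001e00100000000000000000000) (nat_lit 0x0) (nat_lit 0x500030001c000c0002000200000000000000000000) := T_2 (nat_lit 97) (nat_lit 81) (nat_lit 2) (nat_lit 9) (nat_lit 5) L2344024 (by decide +kernel)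
theorem L2344026 : W_2 (nat_lit 7) (nat_lit 0xd000080000001e00000000000000000000000) (nat_lit 0x0) (nat_lit 0x500030001c000c0002000380000000000000000000) := T_2 (nat_lit 80) (nat_lit 79) (nat_lit 2) (nat_lit 8) (nat_lit 5) L2344025 (by decide +kernel)
theorem L2344027 : W_2 (nat_lit 6) (nat_lit 0xd000080000003e00010000000000000000000) (nat_lit 0x0) (nat_lit 0x500030001c000c0000000300000000000000000000) := T_2 (nat_lit 80) (nat_lit 81) (nat_lit 2) (nat_lit 9) (nat_lit 5) L2344017 (by decide +kernel)
theorem L2344028 : W_2 (nat_lit 7) (nat_lit 0xd000080000001e00010000000000000000000) (nat_lit 0x0) (nat_lit 0x500030001c000c0002000320000000000000000000) := T_2 (nat_lit 97) (nat_lit 77) (nat_lit 0) (nat_lit 12) (nat_lit 5) L2344027 (by decide +kernel)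
theorem L2344029 : W_2 (nat_lit 8) (nat_lit 0xd000080000001e00000000000000000000000) (nat_lit 0x0) (nat_lit 0x500030001c000c0002000338000000000000000000) := T_2 (nat_lit 76) (nat_lit 75) (nat_lit 0) (nat_lit 11) (nat_lit 5) L2344028 (by decide +kernel)
theorem L2344030 : W_2 (nat_lit 2) (nat_lit 0xd000080010001e000f0004800080000000000) (nat_lit 0x0) (nat_lit 0x40006000000) := D_2 (nat_lit 42) (nat_lit 26) (nat_lit 25) (nat_lit 6) (nat_lit 8) (nat_lit 5) (nat_lit 7) (nat_lit 8) (nat_lit 1) (by decide +kernel)
theorem L2344031 : W_2 (nat_lit 3) (nat_lit 0xd000080010001e000f0004800000000000000) (nat_lit 0x0) (nat_lit 0x10000c0006000000) := T_2 (nat_lit 43) (nat_lit 60) (nat_lit 7) (nat_lit 9) (nat_lit 2) L2344030 (by decide +kernel)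
theorem L2344032 : W_2 (nat_lit 4) (nat_lit 0xd000080010001e000f0004000000000000000) (nat_lit 0x0) (nat_lit 0x1c000c0006000000) := T_2 (nat_lit 59) (nat_lit 58) (nat_lit 0) (nat_lit 11) (nat_lit 4) L2344031 (by decide +kernel)
theorem L2344033 : W_2 (nat_lit 5) (nat_lit 0xd000080010001e000d0004000000000000000) (nat_lit 0x0) (nat_lit 0x20009c000c0006000000) := T_2 (nat_lit 77) (nat_lit 63) (nat_lit 2) (nat_lit 8) (nat_lit 4) L2344032 (by decide +kernel)
theorem L2344034 : W_2 (nat_lit 6) (nat_lit 0xd000080010001e000d0000000000000000000) (nat_lit 0x0) (nat_lit 0x2000dc002c0006000000) := T_2 (nat_lit 62) (nat_lit 45) (nat_lit 5) (nat_lit 11) (nat_lit 2) L2344033 (by decide +kernel)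
theorem L2344035 : W_2 (nat_lit 7) (nat_lit 0xd000080000001e000d0000000000000000000) (nat_lit 0x0) (nat_lit 0x20001000000002000dc002c0006000000) := T_2 (nat_lit 112) (nat_lit 129) (nat_lit 6) (nat_lit 10) (nat_lit 8) L2344034 (by decide +kernel)
theorem L2344036 : W_2 (nat_lit 8) (nat_lit 0xd000080000001e00090000000000000000000) (nat_lit 0x0) (nat_lit 0x20001000010006000dc002c0006000000) := T_2 (nat_lit 78) (nat_lit 92) (nat_lit 2) (nat_lit 7) (nat_lit 5) L2344035 (by decide +kernel)
theorem L2344037 : W_2 (nat_lit 9) (nat_lit 0xd000080000001e00010000000000000000000) (nat_lit 0x0) (nat_lit 0x2000100001001e000dc002c0006000000) := T_2 (nat_lit 79) (nat_lit 80) (nat_lit 2) (nat_lit 8) (nat_lit 5) L2344036 (by decide +kernel)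
theorem L2344038 : W_2 (nat_lit 10) (nat_lit 0xd000080000001e00000000000000000000000) (nat_lit 0x0) (nat_lit 0x2000100001001f800dc002c0006000000) := T_2 (nat_lit 76) (nat_lit 75) (nat_lit 0) (nat_lit 11) (nat_lit 5) L2344037 (by decide +kernel)
theorem L2344222 : W_2 (nat_lit 2) (nat_lit 0xd0000800000007c0020000000000000000000) (nat_lit 0x0) (nat_lit 0x1c00000000000000000000000000) := D_2 (nat_lit 107) (nat_lit 106) (nat_lit 108) (nat_lit 1) (nat_lit 8) (nat_lit 5) (nat_lit 1) (nat_lit 9) (nat_lit 5) (by decide +kernel)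
theorem L2344223 : W_2 (nat_lit 3) (nat_lit 0xd000080000000780020000000000000000000) (nat_lit 0x0) (nat_lit 0x1c00040010000000000000000000) := T_2 (nat_lit 90) (nat_lit 76) (nat_lit 2) (nat_lit 5) (nat_lit 5) L2344222 (by decide +kernel)
theorem L2344224 : W_2 (nat_lit 4) (nat_lit 0xd000080000000780000000000000000000000) (nat_lit 0x0) (nat_lit 0x1c00040070000000000000000000) := T_2 (nat_lit 77) (nat_lit 78) (nat_lit 2) (nat_lit 6) (nat_lit 5) L2344223 (by decide +kernel)
theorem L2344231 : W_2 (nat_lit 2) (nat_lit 0xd0000800004007c002c000000000000000000) (nat_lit 0x0) (nat_lit 0x200030000000000000000000000) := D_2 (nat_lit 89) (nat_lit 105) (nat_lit 88) (nat_lit 1) (nat_lit 7) (nat_lit 5) (nat_lit 2) (nat_lit 3) (nat_lit 5) (by decide +kernel)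
theorem L2344232 : W_2 (nat_lit 3) (nat_lit 0xd0000800004007c0024000000000000000000) (nat_lit 0x0) (nat_lit 0x200830008000000000000000000) := T_2 (nat_lit 75) (nat_lit 95) (nat_lit 0) (nat_lit 10) (nat_lit 5) L2344231 (by decide +kernel)
theorem L2344233 : W_2 (nat_lit 4) (nat_lit 0xd0000800000007c0024000000000000000000) (nat_lit 0x0) (nat_lit 0xe00830008000000000000000000) := T_2 (nat_lit 106) (nat_lit 107) (nat_lit 1) (nat_lit 8) (nat_lit 5) L2344232 (by decide +kernel)
theorem L2344234 : W_2 (nat_lit 5) (nat_lit 0xd000080000000780024000000000000000000) (nat_lit 0x0) (nat_lit 0xe00870018000000000000000000) := T_2 (nat_lit 90) (nat_lit 76) (nat_lit 2) (nat_lit 5) (nat_lit 5) L2344233 (by decide +kernel)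
theorem L2344235 : W_2 (nat_lit 6) (nat_lit 0xd000080000000780004000000000000000000) (nat_lit 0x0) (nat_lit 0xe00870078000000000000000000) := T_2 (nat_lit 77) (nat_lit 78) (nat_lit 2) (nat_lit 6) (nat_lit 5) L2344234 (by decide +kernel)
theorem L2344236 : W_2 (nat_lit 7) (nat_lit 0xd000080000000780000000000000000000000) (nat_lit 0x0) (nat_lit 0xe0087007e000000000000000000) := T_2 (nat_lit 74) (nat_lit 73) (nat_lit 0) (nat_lit 9) (nat_lit 5) L2344235 (by decide +kernel)
theorem L2344237 : W_2 (nat_lit 2) (nat_lit 0xd00008000100078000c000000000000000000) (nat_lit 0x0) (nat_lit 0x20000000000000000400020000000000) := D_2 (nat_lit 58) (nat_lit 41) (nat_lit 125) (nat_lit 5) (nat_lit 7) (nat_lit 2) (nat_lit 6) (nat_lit 6) (nat_lit 7) (by decide +kernel)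
theorem L2344238 : W_2 (nat_lit 3) (nat_lit 0xd000080001000780004000000000000000000) (nat_lit 0x0) (nat_lit 0x20000000800008000400020000000000) := T_2 (nat_lit 75) (nat_lit 95) (nat_lit 0) (nat_lit 10) (nat_lit 5) L2344237 (by decide +kernel)
theorem L2344239 : W_2 (nat_lit 4) (nat_lit 0xd000080000000780004000000000000000000) (nat_lit 0x0) (nat_lit 0x20001800800008000400020000000000) := T_2 (nat_lit 108) (nat_lit 107) (nat_lit 1) (nat_lit 9) (nat_lit 5) L2344238 (by decide +kernel)
theorem L2344240 : W_2 (nat_lit 5) (nat_lit 0xd000080000000780000000000000000000000) (nat_lit 0x0) (nat_lit 0x2000180080000e000400020000000000) := T_2 (nat_lit 74) (nat_lit 73) (nat_lit 0) (nat_lit 9) (nat_lit 5) L2344239 (by decide +kernel)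
theorem L2344241 : W_2 (nat_lit 2) (nat_lit 0xd00008000000078003c0012001c0000800000) (nat_lit 0x0) (nat_lit 0xc00020000000000) := D_2 (nat_lit 58) (nat_lit 59) (nat_lit 41) (nat_lit 2) (nat_lit 6) (nat_lit 3) (nat_lit 1) (nat_lit 10) (nat_lit 2) (by decide +kernel)
theorem L2344242 : W_2 (nat_lit 3) (nat_lit 0xd00008000000078003c0012000c0000800000) (nat_lit 0x0) (nat_lit 0xc00120008000000) := T_2 (nat_lit 44) (nat_lit 27) (nat_lit 6) (nat_lit 9) (nat_lit 5) L2344241 (by decide +kernel)
theorem L2344243 : W_2 (nat_lit 4) (nat_lit 0xd00008000000078003c001200080000800000) (nat_lit 0x0) (nat_lit 0xc0016000a000000) := T_2 (nat_lit 42) (nat_lit 25) (nat_lit 4) (nat_lit 9) (nat_lit 5) L2344242 (by decide +kernel)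
theorem L2344244 : W_2 (nat_lit 5) (nat_lit 0xd00008000000078003c001200000000800000) (nat_lit 0x0) (nat_lit 0xc001e000e000000) := T_2 (nat_lit 43) (nat_lit 26) (nat_lit 5) (nat_lit 9) (nat_lit 1) L2344243 (by decide +kernel)
theorem L2344245 : W_2 (nat_lit 6) (nat_lit 0xd00008000000078003c001200000000000000) (nat_lit 0x0) (nat_lit 0xc001f000e800000) := T_2 (nat_lit 23) (nat_lit 40) (nat_lit 7) (nat_lit 6) (nat_lit 1) L2344244 (by decide +kernel)
theorem L2344246 : W_2 (nat_lit 7) (nat_lit 0xd00008000000078003c000200000000000000) (nat_lit 0x0) (nat_lit 0x3c001f000e800000) := T_2 (nat_lit 60) (nat_lit 61) (nat_lit 2) (nat_lit 6) (nat_lit 4) L2344245 (by decide +kernel)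
theorem L2344247 : W_2 (nat_lit 8) (nat_lit 0xd00008000000078003c000000000000000000) (nat_lit 0x0) (nat_lit 0x3f001f000e800000) := T_2 (nat_lit 57) (nat_lit 56) (nat_lit 0) (nat_lit 9) (nat_lit 4) L2344246 (by decide +kernel)
theorem L2344248 : W_2 (nat_lit 9) (nat_lit 0xd000080000000780034000000000000000000) (nat_lit 0x0) (nat_lit 0x800008003f001f000e800000) := T_2 (nat_lit 75) (nat_lit 95) (nat_lit 3) (nat_lit 6) (nat_lit 4) L2344247 (by decide +kernel)
theorem L2344249 : W_2 (nat_lit 10) (nat_lit 0xd000080000000780024000000000000000000) (nat_lit 0x0) (nat_lit 0x840018003f001f000e800000) := T_2 (nat_lit 76) (nat_lit 90) (nat_lit 2) (nat_lit 5) (nat_lit 5) L2344248 (by decide +kernel)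
theorem L2344250 : W_2 (nat_lit 11) (nat_lit 0xd000080000000780004000000000000000000) (nat_lit 0x0) (nat_lit 0x840078003f001f000e800000) := T_2 (nat_lit 77) (nat_lit 78) (nat_lit 2) (nat_lit 6) (nat_lit 5) L2344249 (by decide +kernel)
theorem L2344251 : W_2 (nat_lit 12) (nat_lit 0xd000080000000780000000000000000000000) (nat_lit 0x0) (nat_lit 0x84007e003f001f000e800000) := T_2 (nat_lit 74) (nat_lit 73) (nat_lit 0) (nat_lit 9) (nat_lit 5) L2344250 (by decide +kernel)
theorem L2344252 : W_2 (nat_lit 13) (nat_lit 0xd000080000000700000000000000000000000) (nat_lit 0x0) (nat_lit 0x20001e008f007e003f001f000e800000) := Q_2 (nat_lit 91) (C_2 L2344224 (C_2 L2344236 (C_2 L2344240 (C_2 L2344251 N_2)))) (by decide +kernel)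
theorem L2344277 : W_2 (nat_lit 2) (nat_lit 0xd0000800004007c0021000000000000000000) (nat_lit 0x0) (nat_lit 0x200020000800000000000000000) := D_2 (nat_lit 89) (nat_lit 105) (nat_lit 71) (nat_lit 1) (nat_lit 7) (nat_lit 5) (nat_lit 0) (nat_lit 7) (nat_lit 5) (by decide +kernel)
theorem L2344278 : W_2 (nat_lit 3) (nat_lit 0xd0000800004007c0020000000000000000000) (nat_lit 0x0) (nat_lit 0x200020003800000000000000000) := T_2 (nat_lit 72) (nat_lit 73) (nat_lit 0) (nat_lit 8) (nat_lit 5) L2344277 (by decide +kernel)
theorem L2344279 : W_2 (nat_lit 4) (nat_lit 0xd0000800000007c0020000000000000000000) (nat_lit 0x0) (nat_lit 0xe00020003800000000000000000) := T_2 (nat_lit 106) (nat_lit 107) (nat_lit 1) (nat_lit 8) (nat_lit 5) L2344278 (by decide +kernel)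
theorem L2344280 : W_2 (nat_lit 5) (nat_lit 0xd000080000000780020000000000000000000) (nat_lit 0x0) (nat_lit 0xe00060013800000000000000000) := T_2 (nat_lit 90) (nat_lit 76) (nat_lit 2) (nat_lit 5) (nat_lit 5) L2344279 (by decide +kernel)
theorem L2344294 : W_2 (nat_lit 2) (nat_lit 0xd0000800080007c0002000000000000000000) (nat_lit 0x0) (nat_lit 0x1c00000000000000000000000000) := D_2 (nat_lit 107) (nat_lit 108) (nat_lit 106) (nat_lit 1) (nat_lit 9) (nat_lit 5) (nat_lit 1) (nat_lit 8) (nat_lit 5) (by decide +kernel)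
theorem L2344295 : W_2 (nat_lit 3) (nat_lit 0xd000080008000780002000000000000000000) (nat_lit 0x0) (nat_lit 0x1c00040001000000000000000000) := T_2 (nat_lit 90) (nat_lit 72) (nat_lit 0) (nat_lit 8) (nat_lit 5) L2344294 (by decide +kernel)
theorem L2344296 : W_2 (nat_lit 4) (nat_lit 0xd000080000000780002000000000000000000) (nat_lit 0x0) (nat_lit 0x19c00040001000000000000000000) := T_2 (nat_lit 111) (nat_lit 112) (nat_lit 3) (nat_lit 6) (nat_lit 5) L2344295 (by decide +kernel)
theorem L2344297 : W_2 (nat_lit 5) (nat_lit 0xd000080000000780000000000000000000000) (nat_lit 0x0) (nat_lit 0x19c00040007000000000000000000) := T_2 (nat_lit 73) (nat_lit 74) (nat_lit 0) (nat_lit 9) (nat_lit 5) L2344296 (by decide +kernel)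
theorem L2344306 : W_2 (nat_lit 2) (nat_lit 0xd000080010801f80092000000200000000000) (nat_lit 0x0) (nat_lit 0x400040001000000000000000000) := D_2 (nat_lit 90) (nat_lit 106) (nat_lit 72) (nat_lit 1) (nat_lit 8) (nat_lit 5) (nat_lit 0) (nat_lit 8) (nat_lit 5) (by decide +kernel)
theorem L2344307 : W_2 (nat_lit 3) (nat_lit 0xd000080010801f80090000000200000000000) (nat_lit 0x0) (nat_lit 0x400040007000000000000000000) := T_2 (nat_lit 73) (nat_lit 74) (nat_lit 0) (nat_lit 9) (nat_lit 5) L2344306 (by decide +kernel)
theorem L2344308 : W_2 (nat_lit 4) (nat_lit 0xd000080010001f80090000000200000000000) (nat_lit 0x0) (nat_lit 0x1c00040007000000000000000000) := T_2 (nat_lit 107) (nat_lit 108) (nat_lit 1) (nat_lit 9) (nat_lit 5) L2344307 (by decide +kernel)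
theorem L2344309 : W_2 (nat_lit 5) (nat_lit 0xd000080010001f00090000000200000000000) (nat_lit 0x0) (nat_lit 0x9c000c0007000000000000000000) := T_2 (nat_lit 91) (nat_lit 111) (nat_lit 3) (nat_lit 6) (nat_lit 5) L2344308 (by decide +kernel)
theorem L2344310 : W_2 (nat_lit 6) (nat_lit 0xd000080010001f00090000000000000000000) (nat_lit 0x0) (nat_lit 0x9c000c0007004000200000000000) := T_2 (nat_lit 45) (nat_lit 62) (nat_lit 5) (nat_lit 11) (nat_lit 2) L2344309 (by decide +kernel)
theorem L2350567 : W_2 (nat_lit 11) (nat_lit 0xd000080000000e00000000000000000000000) (nat_lit 0x0) (nat_lit 0x580030001e000f00031003f800dc002c0006000000) := Q_2 (nat_lit 96) (C_2 L2344038 (C_2 L2344029 (C_2 L2344026 (C_2 L2270055 N_2)))) (by decide +kernel)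
theorem L2350568 : W_2 (nat_lit 7) (nat_lit 0xd000080000001f00090000000000000000000) (nat_lit 0x0) (nat_lit 0x39c000c0007004000200000000000) := T_2 (nat_lit 112) (nat_lit 113) (nat_lit 3) (nat_lit 7) (nat_lit 5) L2344310 (by decide +kernel)
theorem L2350569 : W_2 (nat_lit 8) (nat_lit 0xd000080000001e00090000000000000000000) (nat_lit 0x0) (nat_lit 0x39c001c0047004000200000000000) := T_2 (nat_lit 92) (nat_lit 78) (nat_lit 2) (nat_lit 7) (nat_lit 5) L2350568 (by decide +kernel)
theorem L2350570 : W_2 (nat_lit 9) (nat_lit 0xd000080000001e00010000000000000000000) (nat_lit 0x0) (nat_lit 0x39c001c01c7004000200000000000) := T_2 (nat_lit 79) (nat_lit 80) (nat_lit 2) (nat_lit 8) (nat_lit 5) L2350569 (by decide +kernel)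
theorem L2350571 : W_2 (nat_lit 10) (nat_lit 0xd000080000001e00000000000000000000000) (nat_lit 0x0) (nat_lit 0x39c001c01df004000200000000000) := T_2 (nat_lit 76) (nat_lit 75) (nat_lit 0) (nat_lit 11) (nat_lit 5) L2350570 (by decide +kernel)
theorem L2350572 : W_2 (nat_lit 11) (nat_lit 0xd000080000000e00000000000000000000000) (nat_lit 0x0) (nat_lit 0x580030001c001f9c0f1c03ff004000200000000000) := Q_2 (nat_lit 96) (C_2 L2344029 (C_2 L2344005 (C_2 L2344026 (C_2 L2270055 (C_2 L2350571 N_2))))) (by decide +kernel)
theorem L2350573 : W_2 (nat_lit 2) (nat_lit 0xd000080010007e00090000000200000000000) (nat_lit 0x0) (nat_lit 0x20008000040000000000000000000) := D_2 (nat_lit 99) (nat_lit 78) (nat_lit 113) (nat_lit 0) (nat_lit 14) (nat_lit 5) (nat_lit 1) (nat_lit 14) (nat_lit 5) (by decide +kernel)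
theorem L2350574 : W_2 (nat_lit 3) (nat_lit 0xd000080010003e00090000000200000000000) (nat_lit 0x0) (nat_lit 0x2800c000040000000000000000000) := T_2 (nat_lit 98) (nat_lit 111) (nat_lit 1) (nat_lit 13) (nat_lit 5) L2350573 (by decide +kernel)
theorem L2350575 : W_2 (nat_lit 4) (nat_lit 0xd000080010003e00090000000000000000000) (nat_lit 0x0) (nat_lit 0x2800c000040004000200000000000) := T_2 (nat_lit 45) (nat_lit 62) (nat_lit 5) (nat_lit 11) (nat_lit 2) L2350574 (by decide +kernel)
theorem L2350576 : W_2 (nat_lit 5) (nat_lit 0xd000080000003e00090000000000000000000) (nat_lit 0x0) (nat_lit 0x20003800c000040004000200000000000) := T_2 (nat_lit 112) (nat_lit 129) (nat_lit 6) (nat_lit 10) (nat_lit 8) L2350575 (by decide +kernel)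
theorem L2350577 : W_2 (nat_lit 6) (nat_lit 0xd000080000001e00090000000000000000000) (nat_lit 0x0) (nat_lit 0x20003800e000060004000200000000000) := T_2 (nat_lit 97) (nat_lit 77) (nat_lit 0) (nat_lit 12) (nat_lit 5) L2350576 (by decide +kernel)
theorem L2350578 : W_2 (nat_lit 7) (nat_lit 0xd000080000001e00010000000000000000000) (nat_lit 0x0) (nat_lit 0x20003800e0001e0004000200000000000) := T_2 (nat_lit 79) (nat_lit 80) (nat_lit 2) (nat_lit 8) (nat_lit 5) L2350577 (by decide +kernel)
theorem L2350579 : W_2 (nat_lit 8) (nat_lit 0xd000080000001e00000000000000000000000) (nat_lit 0x0) (nat_lit 0x20003800e0001f8004000200000000000) := T_2 (nat_lit 76) (nat_lit 75) (nat_lit 0) (nat_lit 11) (nat_lit 5) L2350578 (by decide +kernel)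
theorem L2350580 : W_2 (nat_lit 10) (nat_lit 0xd000080000000e00000000000000000000000) (nat_lit 0x0) (nat_lit 0x580030001e001f800f000ff8004000200000000000) := Q_2 (nat_lit 96) (C_2 L2344029 (C_2 L2344013 (C_2 L2344026 (C_2 L2270055 (C_2 L2350579 N_2))))) (by decide +kernel)
theorem L2350581 : W_2 (nat_lit 2) (nat_lit 0xd000080010000e00000000000000000000000) (nat_lit 0x0) (nat_lit 0x100000000200000000000020000000000000000000) := D_2 (nat_lit 129) (nat_lit 77) (nat_lit 164) (nat_lit 4) (nat_lit 10) (nat_lit 8) (nat_lit 7) (nat_lit 10) (nat_lit 5) (by decide +kernel)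
theorem L2350582 : W_2 (nat_lit 2) (nat_lit 0xd000080010000f80000000000000000000000) (nat_lit 0x0) (nat_lit 0xe0000000000000000000) := D_2 (nat_lit 78) (nat_lit 77) (nat_lit 79) (nat_lit 2) (nat_lit 6) (nat_lit 5) (nat_lit 2) (nat_lit 7) (nat_lit 5) (by decide +kernel)
theorem L2350583 : W_2 (nat_lit 3) (nat_lit 0xd000080010000f00000000000000000000000) (nat_lit 0x0) (nat_lit 0x80000800e0000000000000000000) := T_2 (nat_lit 91) (nat_lit 111) (nat_lit 3) (nat_lit 6) (nat_lit 5) L2350582 (by decide +kernel)
theorem L2350584 : W_2 (nat_lit 4) (nat_lit 0xd000080010000e00000000000000000000000) (nat_lit 0x0) (nat_lit 0x280001800e0000000000000000000) := T_2 (nat_lit 92) (nat_lit 113) (nat_lit 3) (nat_lit 7) (nat_lit 5) L2350583 (by decide +kernel)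
theorem L2350585 : W_2 (nat_lit 2) (nat_lit 0xd000080010000f80000000000000000000000) (nat_lit 0x0) (nat_lit 0xe000000000000000000) := D_2 (nat_lit 74) (nat_lit 75) (nat_lit 73) (nat_lit 0) (nat_lit 10) (nat_lit 5) (nat_lit 0) (nat_lit 9) (nat_lit 5) (by decide +kernel)
theorem L2350586 : W_2 (nat_lit 3) (nat_lit 0xd000080010000f00000000000000000000000) (nat_lit 0x0) (nat_lit 0x800008000e000000000000000000) := T_2 (nat_lit 91) (nat_lit 111) (nat_lit 3) (nat_lit 6) (nat_lit 5) L2350585 (by decide +kernel)
theorem L2350587 : W_2 (nat_lit 4) (nat_lit 0xd000080010000e00000000000000000000000) (nat_lit 0x0) (nat_lit 0x2800018000e000000000000000000) := T_2 (nat_lit 92) (nat_lit 113) (nat_lit 3) (nat_lit 7) (nat_lit 5) L2350586 (by decide +kernel)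
theorem L2350588 : W_2 (nat_lit 5) (nat_lit 0xd000080000000e00000000000000000000000) (nat_lit 0x0) (nat_lit 0x1000000002000380001800ee000000000000000000) := Q_2 (nat_lit 112) (C_2 L2350581 (C_2 L2350584 (C_2 L2350587 N_2))) (by decide +kernel)
theorem L2350589 : W_2 (nat_lit 2) (nat_lit 0xd000080000001e000f0000800000000000000) (nat_lit 0x0) (nat_lit 0x8000000000000000040002000000) := D_2 (nat_lit 42) (nat_lit 25) (nat_lit 111) (nat_lit 7) (nat_lit 8) (nat_lit 1) (nat_lit 7) (nat_lit 8) (nat_lit 2) (by decide +kernel)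
theorem L2350590 : W_2 (nat_lit 3) (nat_lit 0xd000080000001e000f0000000000000000000) (nat_lit 0x0) (nat_lit 0x8000000000000c00040002000000) := T_2 (nat_lit 59) (nat_lit 58) (nat_lit 0) (nat_lit 11) (nat_lit 4) L2350589 (by decide +kernel)
theorem L2350591 : W_2 (nat_lit 4) (nat_lit 0xd000080000001e000d0000000000000000000) (nat_lit 0x0) (nat_lit 0x8002000020000c00040002000000) := T_2 (nat_lit 77) (nat_lit 97) (nat_lit 3) (nat_lit 8) (nat_lit 4) L2350590 (by decide +kernel)
theorem L2350592 : W_2 (nat_lit 5) (nat_lit 0xd000080000001e00090000000000000000000) (nat_lit 0x0) (nat_lit 0x8002100060000c00040002000000) := T_2 (nat_lit 78) (nat_lit 92) (nat_lit 2) (nat_lit 7) (nat_lit 5) L2350591 (by decide +kernel)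
theorem L2350593 : W_2 (nat_lit 6) (nat_lit 0xd000080000001e00010000000000000000000) (nat_lit 0x0) (nat_lit 0x80021001e0000c00040002000000) := T_2 (nat_lit 79) (nat_lit 80) (nat_lit 2) (nat_lit 8) (nat_lit 5) L2350592 (by decide +kernel)
theorem L2350594 : W_2 (nat_lit 7) (nat_lit 0xd000080000001e00000000000000000000000) (nat_lit 0x0) (nat_lit 0x80021001f8000c00040002000000) := T_2 (nat_lit 76) (nat_lit 75) (nat_lit 0) (nat_lit 11) (nat_lit 5) L2350593 (by decide +kernel)
theorem L2350595 : W_2 (nat_lit 9) (nat_lit 0xd000080000000e00000000000000000000000) (nat_lit 0x0) (nat_lit 0x580030001c001e800f1003f8000c00040002000000) := Q_2 (nat_lit 96) (C_2 L2344029 (C_2 L2344005 (C_2 L2344026 (C_2 L2270055 (C_2 L2350594 N_2))))) (by decide +kernel)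
theorem L2350596 : W_2 (nat_lit 11) (nat_lit 0xd000080000000e00000000000000000000000) (nat_lit 0x0) (nat_lit 0x580030001c000f9c031c03df004000200000000000) := Q_2 (nat_lit 96) (C_2 L2350571 (C_2 L2344026 (C_2 L2270055 N_2))) (by decide +kernel)
theorem L2350597 : W_2 (nat_lit 2) (nat_lit 0xd000080090007e00210000000000000000000) (nat_lit 0x0) (nat_lit 0x100000000200000000000080000000000000000000) := D_2 (nat_lit 129) (nat_lit 79) (nat_lit 164) (nat_lit 6) (nat_lit 10) (nat_lit 8) (nat_lit 7) (nat_lit 10) (nat_lit 5) (by decide +kernel)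
theorem L2350598 : W_2 (nat_lit 3) (nat_lit 0xd000080080007e00210000000000000000000) (nat_lit 0x0) (nat_lit 0x100000000200018000000080000000000000000000) := T_2 (nat_lit 112) (nat_lit 111) (nat_lit 1) (nat_lit 13) (nat_lit 5) L2350597 (by decide +kernel)
theorem L2350599 : W_2 (nat_lit 4) (nat_lit 0xd000080080007e00010000000000000000000) (nat_lit 0x0) (nat_lit 0x100000000200018000000680000000000000000000) := T_2 (nat_lit 81) (nat_lit 82) (nat_lit 2) (nat_lit 10) (nat_lit 5) L2350598 (by decide +kernel)
theorem L2350600 : W_2 (nat_lit 5) (nat_lit 0xd000080080003e00010000000000000000000) (nat_lit 0x0) (nat_lit 0x100000000200118004000680000000000000000000) := T_2 (nat_lit 98) (nat_lit 116) (nat_lit 3) (nat_lit 10) (nat_lit 5) L2350599 (by decide +kernel)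
theorem L2350601 : W_2 (nat_lit 6) (nat_lit 0xd000080000003e00010000000000000000000) (nat_lit 0x0) (nat_lit 0x1000000002001d8004000680000000000000000000) := T_2 (nat_lit 115) (nat_lit 114) (nat_lit 3) (nat_lit 9) (nat_lit 5) L2350600 (by decide +kernel)
theorem L2350602 : W_2 (nat_lit 7) (nat_lit 0xd000080000001e00010000000000000000000) (nat_lit 0x0) (nat_lit 0x1000000002001d80060006a0000000000000000000) := T_2 (nat_lit 97) (nat_lit 77) (nat_lit 0) (nat_lit 12) (nat_lit 5) L2350601 (by decide +kernel)
theorem L2350603 : W_2 (nat_lit 8) (nat_lit 0xd000080000001e00000000000000000000000) (nat_lit 0x0) (nat_lit 0x1000000002001d80060006b8000000000000000000) := T_2 (nat_lit 76) (nat_lit 75) (nat_lit 0) (nat_lit 11) (nat_lit 5) L2350602 (by decide +kernel)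
theorem L2350604 : W_2 (nat_lit 11) (nat_lit 0xd000080000000e00000000000000000000000) (nat_lit 0x0) (nat_lit 0x500030001e001d80071007f800dc002c0006000000) := Q_2 (nat_lit 96) (C_2 L2350594 (C_2 L2344038 (C_2 L2344029 (C_2 L2344026 (C_2 L2350603 N_2))))) (by decide +kernel)
theorem L2350605 : W_2 (nat_lit 2) (nat_lit 0xd000080020001f00000000000000000000000) (nat_lit 0x0) (nat_lit 0x1c000000000000000000) := D_2 (nat_lit 75) (nat_lit 74) (nat_lit 76) (nat_lit 0) (nat_lit 10) (nat_lit 5) (nat_lit 0) (nat_lit 11) (nat_lit 5) (by decide +kernel)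
theorem L2350606 : W_2 (nat_lit 3) (nat_lit 0xd000080020001e00000000000000000000000) (nat_lit 0x0) (nat_lit 0x1000010001c000000000000000000) := T_2 (nat_lit 92) (nat_lit 112) (nat_lit 3) (nat_lit 7) (nat_lit 5) L2350605 (by decide +kernel)
theorem L2350607 : W_2 (nat_lit 4) (nat_lit 0xd000080000001e00000000000000000000000) (nat_lit 0x0) (nat_lit 0x7000010001c000000000000000000) := T_2 (nat_lit 113) (nat_lit 114) (nat_lit 3) (nat_lit 8) (nat_lit 5) L2350606 (by decide +kernel)
theorem L2350608 : W_2 (nat_lit 11) (nat_lit 0xd000080000000e00000000000000000000000) (nat_lit 0x0) (nat_lit 0x80000000600079c0f1c01ff00dc002c0006000000) := Q_2 (nat_lit 96) (C_2 L2350594 (C_2 L2344038 (C_2 L2350579 (C_2 L2350571 (C_2 L2270055 (C_2 L2350607 N_2)))))) (by decide +kernel)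
theorem L2350609 : W_2 (nat_lit 2) (nat_lit 0xd000080011000f80044000000000000000000) (nat_lit 0x0) (nat_lit 0x100000000600000000000000000000000000000000) := D_2 (nat_lit 129) (nat_lit 164) (nat_lit 130) (nat_lit 7) (nat_lit 10) (nat_lit 5) (nat_lit 7) (nat_lit 10) (nat_lit 4) (by decide +kernel)
theorem L2350610 : W_2 (nat_lit 3) (nat_lit 0xd000080011000f80004000000000000000000) (nat_lit 0x0) (nat_lit 0x1000000006000000000000c0000000000000000000) := T_2 (nat_lit 78) (nat_lit 79) (nat_lit 2) (nat_lit 7) (nat_lit 5) L2350609 (by decide +kernel)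
theorem L2350611 : W_2 (nat_lit 4) (nat_lit 0xd000080011000f80000000000000000000000) (nat_lit 0x0) (nat_lit 0x1000000006000000000000c6000000000000000000) := T_2 (nat_lit 74) (nat_lit 73) (nat_lit 0) (nat_lit 9) (nat_lit 5) L2350610 (by decide +kernel)
theorem L2350612 : W_2 (nat_lit 5) (nat_lit 0xd000080010000f80000000000000000000000) (nat_lit 0x0) (nat_lit 0x1000000006000018000000c6000000000000000000) := T_2 (nat_lit 108) (nat_lit 107) (nat_lit 1) (nat_lit 9) (nat_lit 5) L2350611 (by decide +kernel)
theorem L2350613 : W_2 (nat_lit 6) (nat_lit 0xd000080010000f00000000000000000000000) (nat_lit 0x0) (nat_lit 0x1000000006000098000800c6000000000000000000) := T_2 (nat_lit 91) (nat_lit 111) (nat_lit 3) (nat_lit 6) (nat_lit 5) L2350612 (by decide +kernel)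
theorem L2350614 : W_2 (nat_lit 7) (nat_lit 0xd000080010000e00000000000000000000000) (nat_lit 0x0) (nat_lit 0x1000000006000298001800c6000000000000000000) := T_2 (nat_lit 92) (nat_lit 113) (nat_lit 3) (nat_lit 7) (nat_lit 5) L2350613 (by decide +kernel)
theorem L2350615 : W_2 (nat_lit 8) (nat_lit 0xd000080000000e00000000000000000000000) (nat_lit 0x0) (nat_lit 0x1000000006000398001800e6000000000000000000) := Q_2 (nat_lit 112) (C_2 L2350584 (C_2 L2350581 (C_2 L2350614 N_2))) (by decide +kernel)
theorem L2350616 : W_2 (nat_lit 5) (nat_lit 0xd000080000000e00000000000000000000000) (nat_lit 0x0) (nat_lit 0x10000000020003800018002e000000000000000000) := Q_2 (nat_lit 112) (C_2 L2350587 (C_2 L2350581 N_2)) (by decide +kernel)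
theorem L2350617 : W_2 (nat_lit 12) (nat_lit 0xd000080000000600000000000000000000000) (nat_lit 0x0) (nat_lit 0x580030001e001f9c0f9c0fff00dc002c0006000000) := Q_2 (nat_lit 95) (C_2 L2350567 (C_2 L2350572 (C_2 L2350580 (C_2 L2350588 (C_2 L2350595 (C_2 L2350596 (C_2 L2350604 (C_2 L2350608 (C_2 L2350615 (C_2 L2350616 N_2)))))))))) (by decide +kernel)
theorem L2350746 : W_2 (nat_lit 3) (nat_lit 0xd000080001000f80044000000000000000000) (nat_lit 0x0) (nat_lit 0x100000000600018000000000000000000000000000) := T_2 (nat_lit 112) (nat_lit 111) (nat_lit 3) (nat_lit 6) (nat_lit 5) L2350609 (by decide +kernel)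
theorem L2350747 : W_2 (nat_lit 4) (nat_lit 0xd000080000000f80044000000000000000000) (nat_lit 0x0) (nat_lit 0x100000000600019800000000000000000000000000) := T_2 (nat_lit 108) (nat_lit 107) (nat_lit 1) (nat_lit 9) (nat_lit 5) L2350746 (by decide +kernel)
theorem L2350748 : W_2 (nat_lit 5) (nat_lit 0xd000080000000f00044000000000000000000) (nat_lit 0x0) (nat_lit 0x100000000600019800080002000000000000000000) := T_2 (nat_lit 91) (nat_lit 73) (nat_lit 0) (nat_lit 9) (nat_lit 5) L2350747 (by decide +kernel)
theorem L2350749 : W_2 (nat_lit 6) (nat_lit 0xd000080000000f00004000000000000000000) (nat_lit 0x0) (nat_lit 0x1000000006000198000800c2000000000000000000) := T_2 (nat_lit 78) (nat_lit 79) (nat_lit 2) (nat_lit 7) (nat_lit 5) L2350748 (by decide +kernel)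
theorem L2350750 : W_2 (nat_lit 7) (nat_lit 0xd000080000000f00000000000000000000000) (nat_lit 0x0) (nat_lit 0x1000000006000198000800ce000000000000000000) := T_2 (nat_lit 74) (nat_lit 75) (nat_lit 0) (nat_lit 10) (nat_lit 5) L2350749 (by decide +kernel)
theorem L2379101 : W_2 (nat_lit 2) (nat_lit 0x4000000090007800280014000c00000000000000000000000) (nat_lit 0x0) (nat_lit 0x20001000080000000000000000000) := D_2 (nat_lit 96) (nat_lit 113) (nat_lit 79) (nat_lit 6) (nat_lit 10) (nat_lit 9) (nat_lit 6) (nat_lit 10) (nat_lit 8) (by decide +kernel)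
theorem L2379102 : W_2 (nat_lit 3) (nat_lit 0x4000000090007800280014000400000000000000000000000) (nat_lit 0x0) (nat_lit 0x200018000a0000000000000000000) := T_2 (nat_lit 95) (nat_lit 77) (nat_lit 4) (nat_lit 10) (nat_lit 8) L2379101 (by decide +kernel)
theorem L2379103 : W_2 (nat_lit 4) (nat_lit 0x4000000090007800280004000400000000000000000000000) (nat_lit 0x0) (nat_lit 0x380018000a0000000000000000000) := T_2 (nat_lit 112) (nat_lit 111) (nat_lit 4) (nat_lit 10) (nat_lit 9) L2379102 (by decide +kernel)
theorem L2379104 : W_2 (nat_lit 5) (nat_lit 0x4000000010007800280004000400000000000000000000000) (nat_lit 0x0) (nat_lit 0x1800000000000380018000a0000000000000000000) := T_2 (nat_lit 163) (nat_lit 164) (nat_lit 3) (nat_lit 7) (nat_lit 8) L2379103 (by decide +kernel)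
theorem L2379105 : W_2 (nat_lit 6) (nat_lit 0x4000000010007800080004000400000000000000000000000) (nat_lit 0x0) (nat_lit 0x1800000006000380018000a0000000000000000000) := T_2 (nat_lit 129) (nat_lit 130) (nat_lit 2) (nat_lit 7) (nat_lit 8) L2379104 (by decide +kernel)
theorem L2388283 : W_2 (nat_lit 2) (nat_lit 0xd000680014000c00000000000000000000000) (nat_lit 0x0) (nat_lit 0x2800800000000000000000000000000000000) := D_2 (nat_lit 145) (nat_lit 131) (nat_lit 143) (nat_lit 2) (nat_lit 8) (nat_lit 8) (nat_lit 2) (nat_lit 7) (nat_lit 8) (by decide +kernel)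
theorem L2388284 : W_2 (nat_lit 3) (nat_lit 0xd000280014000c00000000000000000000000) (nat_lit 0x0) (nat_lit 0x2800c00000000000040000000000000000000) := T_2 (nat_lit 130) (nat_lit 78) (nat_lit 7) (nat_lit 10) (nat_lit 4) L2388283 (by decide +kernel)
theorem L2388285 : W_2 (nat_lit 4) (nat_lit 0x5000280014000c00000000000000000000000) (nat_lit 0x0) (nat_lit 0x10000a800c00000000000040000000000000000000) := T_2 (nat_lit 147) (nat_lit 164) (nat_lit 7) (nat_lit 10) (nat_lit 5) L2388284 (by decide +kernel)
theorem L2388310 : W_2 (nat_lit 2) (nat_lit 0x100005000280014001c00000000000000000000000) (nat_lit 0x0) (nat_lit 0x2000080000000000020000000000000000000000000000) := D_2 (nat_lit 163) (nat_lit 113) (nat_lit 181) (nat_lit 6) (nat_lit 10) (nat_lit 9) (nat_lit 7) (nat_lit 10) (nat_lit 6) (by decide +kernel)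
theorem L2388311 : W_2 (nat_lit 3) (nat_lit 0x5000280014001c00000000000000000000000) (nat_lit 0x0) (nat_lit 0x2000180008000000020000000000000000000000000000) := T_2 (nat_lit 164) (nat_lit 147) (nat_lit 7) (nat_lit 10) (nat_lit 5) L2388310 (by decide +kernel)
theorem L2388312 : W_2 (nat_lit 4) (nat_lit 0x5000280014000c00000000000000000000000) (nat_lit 0x0) (nat_lit 0x2000180008000000020001000080000000000000000000) := T_2 (nat_lit 96) (nat_lit 79) (nat_lit 6) (nat_lit 10) (nat_lit 8) L2388311 (by decide +kernel)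
theorem L2391850 : W_2 (nat_lit 2) (nat_lit 0x200010005000080004000400000000000000000000000) (nat_lit 0x0) (nat_lit 0x4000000000000800040000000000000000000000000000000) := D_2 (nat_lit 143) (nat_lit 126) (nat_lit 194) (nat_lit 6) (nat_lit 7) (nat_lit 10) (nat_lit 6) (nat_lit 7) (nat_lit 11) (by decide +kernel)
theorem L2391869 : W_2 (nat_lit 2) (nat_lit 0x14000400020005000080004000400000000000000000000000) (nat_lit 0x0) (nat_lit 0x280008000000000000000000000000000000000000000000000000) := D_2 (nat_lit 195) (nat_lit 211) (nat_lit 213) (nat_lit 5) (nat_lit 8) (nat_lit 8) (nat_lit 7) (nat_lit 8) (nat_lit 8) (by decide +kernel)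
theorem L2391870 : W_2 (nat_lit 3) (nat_lit 0x4000400020005000080004000400000000000000000000000) (nat_lit 0x0) (nat_lit 0x280018000800000000000000000000000000000000000000000000) := T_2 (nat_lit 196) (nat_lit 179) (nat_lit 7) (nat_lit 8) (nat_lit 7) L2391869 (by decide +kernel)
theorem L2391871 : W_2 (nat_lit 4) (nat_lit 0x400020005000080004000400000000000000000000000) (nat_lit 0x0) (nat_lit 0x28001c000a00000000000000000000000000000000000000000000) := T_2 (nat_lit 194) (nat_lit 177) (nat_lit 5) (nat_lit 8) (nat_lit 7) L2391870 (by decide +kernel)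
theorem L2391915 : W_2 (nat_lit 2) (nat_lit 0x180005000280014001400000000000000000000000) (nat_lit 0x0) (nat_lit 0x8000000000000800080000000000000000000) := D_2 (nat_lit 95) (nat_lit 147) (nat_lit 79) (nat_lit 7) (nat_lit 10) (nat_lit 5) (nat_lit 6) (nat_lit 10) (nat_lit 8) (by decide +kernel)
theorem L2392068 : W_2 (nat_lit 3) (nat_lit 0x80005000280014001400000000000000000000000) (nat_lit 0x0) (nat_lit 0x2000100008000000000000800080000000000000000000) := T_2 (nat_lit 164) (nat_lit 181) (nat_lit 7) (nat_lit 10) (nat_lit 6) L2391915 (by decide +kernel)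
theorem L2392069 : W_2 (nat_lit 4) (nat_lit 0x80005000280014000400000000000000000000000) (nat_lit 0x0) (nat_lit 0x2000100008000000020001800080000000000000000000) := T_2 (nat_lit 96) (nat_lit 113) (nat_lit 6) (nat_lit 10) (nat_lit 9) L2392068 (by decide +kernel)
theorem L2394537 : W_2 (nat_lit 2) (nat_lit 0x80005000280014000c00000000000000000000000) (nat_lit 0x0) (nat_lit 0x20001000080000000000000000000) := D_2 (nat_lit 96) (nat_lit 113) (nat_lit 79) (nat_lit 6) (nat_lit 10) (nat_lit 9) (nat_lit 6) (nat_lit 10) (nat_lit 8) (by decide +kernel)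
theorem L2394538 : W_2 (nat_lit 3) (nat_lit 0x80005000280014000400000000000000000000000) (nat_lit 0x0) (nat_lit 0x200018000a0000000000000000000) := T_2 (nat_lit 95) (nat_lit 77) (nat_lit 4) (nat_lit 10) (nat_lit 8) L2394537 (by decide +kernel)
theorem L2395071 : W_2 (nat_lit 2) (nat_lit 0x50001000080005000280034000400000000000000000000000) (nat_lit 0x0) (nat_lit 0xa00020000000000000000000000000000000000000000000000000) := D_2 (nat_lit 197) (nat_lit 213) (nat_lit 215) (nat_lit 5) (nat_lit 10) (nat_lit 8) (nat_lit 7) (nat_lit 10) (nat_lit 8) (by decide +kernel)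
theorem L2395072 : W_2 (nat_lit 3) (nat_lit 0x10001000080005000280034000400000000000000000000000) (nat_lit 0x0) (nat_lit 0xa00060002000000000000000000000000000000000000000000000) := T_2 (nat_lit 198) (nat_lit 181) (nat_lit 7) (nat_lit 10) (nat_lit 7) L2395071 (by decide +kernel)
theorem L2395073 : W_2 (nat_lit 4) (nat_lit 0x1000080005000280034000400000000000000000000000) (nat_lit 0x0) (nat_lit 0xa00070002800000000000000000000000000000000000000000000) := T_2 (nat_lit 196) (nat_lit 179) (nat_lit 5) (nat_lit 10) (nat_lit 7) L2395072 (by decide +kernel)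
theorem L2395074 : W_2 (nat_lit 5) (nat_lit 0x80005000280034000400000000000000000000000) (nat_lit 0x0) (nat_lit 0xa00070003800000000000400000000000000000000000000000000) := T_2 (nat_lit 180) (nat_lit 130) (nat_lit 6) (nat_lit 10) (nat_lit 10) L2395073 (by decide +kernel)
theorem L2395188 : W_2 (nat_lit 2) (nat_lit 0x180007000280014000400000000000000000000000) (nat_lit 0x0) (nat_lit 0x600008000000000000000000000000000000000000) := D_2 (nat_lit 165) (nat_lit 147) (nat_lit 166) (nat_lit 3) (nat_lit 8) (nat_lit 8) (nat_lit 0) (nat_lit 13) (nat_lit 9) (by decide +kernel)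
theorem L2395189 : W_2 (nat_lit 3) (nat_lit 0x180005000280014000400000000000000000000000) (nat_lit 0x0) (nat_lit 0x60000a800000000000000000000000000000000000) := T_2 (nat_lit 145) (nat_lit 143) (nat_lit 3) (nat_lit 7) (nat_lit 8) L2395188 (by decide +kernel)
theorem L2407559 : W_2 (nat_lit 2) (nat_lit 0x40001e00080005800080000000000000000000000000000000) (nat_lit 0x0) (nat_lit 0x80002000000000000200000000000000000000000000000000) := D_2 (nat_lit 181) (nat_lit 199) (nat_lit 129) (nat_lit 3) (nat_lit 8) (nat_lit 10) (nat_lit 7) (nat_lit 10) (nat_lit 7) (by decide +kernel)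
theorem L2409138 : W_2 (nat_lit 2) (nat_lit 0x4001e00080005800280000000000000000000000000000000) (nat_lit 0x0) (nat_lit 0x500008000000000000000000000000000) := D_2 (nat_lit 128) (nat_lit 111) (nat_lit 130) (nat_lit 4) (nat_lit 10) (nat_lit 10) (nat_lit 1) (nat_lit 11) (nat_lit 7) (by decide +kernel)
theorem L2409302 : W_2 (nat_lit 2) (nat_lit 0x11000f80000005800080000000000000000000000000000000) (nat_lit 0x0) (nat_lit 0xe000000000000000000000000000000000000000) := D_2 (nat_lit 158) (nat_lit 157) (nat_lit 159) (nat_lit 0) (nat_lit 8) (nat_lit 10) (nat_lit 0) (nat_lit 9) (nat_lit 10) (by decide +kernel)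
theorem L2409303 : W_2 (nat_lit 3) (nat_lit 0x11000f00000005800080000000000000000000000000000000) (nat_lit 0x0) (nat_lit 0x80008000e000000000000000000000000000000000000000) := T_2 (nat_lit 175) (nat_lit 191) (nat_lit 1) (nat_lit 8) (nat_lit 10) L2409302 (by decide +kernel)
theorem L2409304 : W_2 (nat_lit 4) (nat_lit 0x1000f00000005800080000000000000000000000000000000) (nat_lit 0x0) (nat_lit 0x3080008000e000000000000000000000000000000000000000) := T_2 (nat_lit 196) (nat_lit 197) (nat_lit 3) (nat_lit 6) (nat_lit 10) L2409303 (by decide +kernel)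
theorem L2409305 : W_2 (nat_lit 5) (nat_lit 0xf00000005800080000000000000000000000000000000) (nat_lit 0x0) (nat_lit 0x3380008000e000000000000000000000000000000000000000) := T_2 (nat_lit 192) (nat_lit 193) (nat_lit 1) (nat_lit 9) (nat_lit 10) L2409304 (by decide +kernel)
theorem L2409363 : W_2 (nat_lit 2) (nat_lit 0x11000f00000005800080000000000000000000000000000000) (nat_lit 0x0) (nat_lit 0x8800080000000000000000000000000000000000000000000) := D_2 (nat_lit 175) (nat_lit 195) (nat_lit 191) (nat_lit 3) (nat_lit 5) (nat_lit 10) (nat_lit 1) (nat_lit 8) (nat_lit 10) (by decide +kernel)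
theorem L2409364 : W_2 (nat_lit 3) (nat_lit 0x1000f00000005800080000000000000000000000000000000) (nat_lit 0x0) (nat_lit 0x38800080000000000000000000000000000000000000000000) := T_2 (nat_lit 196) (nat_lit 197) (nat_lit 3) (nat_lit 6) (nat_lit 10) L2409363 (by decide +kernel)
theorem L2409365 : W_2 (nat_lit 4) (nat_lit 0xf00000005800080000000000000000000000000000000) (nat_lit 0x0) (nat_lit 0x3b800080000000000000000000000000000000000000000000) := T_2 (nat_lit 192) (nat_lit 193) (nat_lit 1) (nat_lit 9) (nat_lit 10) L2409364 (by decide +kernel)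
theorem L2409583 : W_2 (nat_lit 2) (nat_lit 0x20001e00080005800080000000000000000000000000000000) (nat_lit 0x0) (nat_lit 0x200010000000000000000200000000000000000000000000000000) := D_2 (nat_lit 196) (nat_lit 129) (nat_lit 213) (nat_lit 5) (nat_lit 10) (nat_lit 7) (nat_lit 5) (nat_lit 10) (nat_lit 8) (by decide +kernel)
theorem L2409584 : W_2 (nat_lit 3) (nat_lit 0x20001e00000005800080000000000000000000000000000000) (nat_lit 0x0) (nat_lit 0x200010000000180000000200000000000000000000000000000000) := T_2 (nat_lit 163) (nat_lit 164) (nat_lit 2) (nat_lit 7) (nat_lit 10) L2409583 (by decide +kernel)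
theorem L2409622 : W_2 (nat_lit 2) (nat_lit 0x20001f00000005800080000000000000000000000000000000) (nat_lit 0x0) (nat_lit 0x7000000000000000000000000000000000000000000000000) := D_2 (nat_lit 193) (nat_lit 192) (nat_lit 194) (nat_lit 1) (nat_lit 9) (nat_lit 10) (nat_lit 1) (nat_lit 10) (nat_lit 10) (by decide +kernel)
theorem L2409623 : W_2 (nat_lit 3) (nat_lit 0x20001e00000005800080000000000000000000000000000000) (nat_lit 0x0) (nat_lit 0x17000100000000000000000000000000000000000000000000) := T_2 (nat_lit 176) (nat_lit 196) (nat_lit 3) (nat_lit 6) (nat_lit 10) L2409622 (by decide +kernel)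
theorem L2503608 : W_2 (nat_lit 6) (nat_lit 0xd000080000000000000000000000000000000) (nat_lit 0x0) (nat_lit 0x730012001c40000000000000000000000000000000) := T_2 (nat_lit 145) (nat_lit 126) (nat_lit 0) (nat_lit 11) (nat_lit 8) L1866978 (by decide +kernel)
theorem L2503609 : W_2 (nat_lit 3) (nat_lit 0xd000280000000000000000000000000000000) (nat_lit 0x0) (nat_lit 0x30000540000000000000000000000000000000) := T_2 (nat_lit 128) (nat_lit 126) (nat_lit 3) (nat_lit 7) (nat_lit 7) L1437506 (by decide +kernel)
theorem L2503610 : W_2 (nat_lit 2) (nat_lit 0xd000280010000800040000000000000000000) (nat_lit 0x0) (nat_lit 0x1000080004000000000000000) := D_2 (nat_lit 79) (nat_lit 62) (nat_lit 96) (nat_lit 6) (nat_lit 10) (nat_lit 7) (nat_lit 6) (nat_lit 10) (nat_lit 8) (by decide +kernel)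
theorem L2503611 : W_2 (nat_lit 3) (nat_lit 0xd000280010000800000000000000000000000) (nat_lit 0x0) (nat_lit 0x4000000010000c0004000000000000000) := T_2 (nat_lit 78) (nat_lit 130) (nat_lit 7) (nat_lit 10) (nat_lit 4) L2503610 (by decide +kernel)
theorem L2503612 : W_2 (nat_lit 4) (nat_lit 0xd000280010000000000000000000000000000) (nat_lit 0x0) (nat_lit 0x1000000004000000018000c0004000000000000000) := T_2 (nat_lit 95) (nat_lit 164) (nat_lit 7) (nat_lit 10) (nat_lit 5) L2503611 (by decide +kernel)
theorem L2503613 : W_2 (nat_lit 2) (nat_lit 0xd000280010001c00000000000000000000000) (nat_lit 0x0) (nat_lit 0x80000000000028000000000000000000000000000) := D_2 (nat_lit 163) (nat_lit 113) (nat_lit 111) (nat_lit 6) (nat_lit 10) (nat_lit 9) (nat_lit 4) (nat_lit 10) (nat_lit 9) (by decide +kernel)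
theorem L2503614 : W_2 (nat_lit 3) (nat_lit 0xd000280010001800000000000000000000000) (nat_lit 0x0) (nat_lit 0x80000000000028000400020000000000000000000) := T_2 (nat_lit 94) (nat_lit 77) (nat_lit 4) (nat_lit 10) (nat_lit 8) L2503613 (by decide +kernel)
theorem L2503615 : W_2 (nat_lit 4) (nat_lit 0xd000280010000800000000000000000000000) (nat_lit 0x0) (nat_lit 0x800000000000280014000a0000000000000000000) := T_2 (nat_lit 96) (nat_lit 79) (nat_lit 6) (nat_lit 10) (nat_lit 8) L2503614 (by decide +kernel)
theorem L2503616 : W_2 (nat_lit 5) (nat_lit 0xd000280010000000000000000000000000000) (nat_lit 0x0) (nat_lit 0x180000000000028001c000a0000000000000000000) := T_2 (nat_lit 95) (nat_lit 164) (nat_lit 7) (nat_lit 10) (nat_lit 5) L2503615 (by decide +kernel)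
theorem L2503617 : W_2 (nat_lit 2) (nat_lit 0xd000780030000000000000000000000000000) (nat_lit 0x0) (nat_lit 0x1000080000000000000001000000000000000000000000) := D_2 (nat_lit 163) (nat_lit 96) (nat_lit 180) (nat_lit 6) (nat_lit 10) (nat_lit 9) (nat_lit 6) (nat_lit 10) (nat_lit 10) (by decide +kernel)
theorem L2503618 : W_2 (nat_lit 3) (nat_lit 0xd000780010000000000000000000000000000) (nat_lit 0x0) (nat_lit 0x1000080000000000060001000000000000000000000000) := T_2 (nat_lit 113) (nat_lit 114) (nat_lit 2) (nat_lit 8) (nat_lit 7) L2503617 (by decide +kernel)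
theorem L2503619 : W_2 (nat_lit 4) (nat_lit 0xd000680010000000000000000000000000000) (nat_lit 0x0) (nat_lit 0x1000080010000100060001000000000000000000000000) := T_2 (nat_lit 128) (nat_lit 148) (nat_lit 3) (nat_lit 8) (nat_lit 7) L2503618 (by decide +kernel)
theorem L2503620 : W_2 (nat_lit 2) (nat_lit 0xd000680030000000000000000000000000000) (nat_lit 0x0) (nat_lit 0x80000000000000001000080000000000000000000) := D_2 (nat_lit 96) (nat_lit 79) (nat_lit 163) (nat_lit 5) (nat_lit 11) (nat_lit 4) (nat_lit 6) (nat_lit 10) (nat_lit 9) (by decide +kernel)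
theorem L2503621 : W_2 (nat_lit 2) (nat_lit 0x200008000d000680038000000000000000000000000000) (nat_lit 0x0) (nat_lit 0x1800004000000000000000000000000000) := D_2 (nat_lit 131) (nat_lit 110) (nat_lit 132) (nat_lit 3) (nat_lit 8) (nat_lit 6) (nat_lit 0) (nat_lit 13) (nat_lit 7) (by decide +kernel)
theorem L2503622 : W_2 (nat_lit 3) (nat_lit 0x200008000d000680030000000000000000000000000000) (nat_lit 0x0) (nat_lit 0x180000c000400000000000000000000000) := T_2 (nat_lit 111) (nat_lit 94) (nat_lit 4) (nat_lit 10) (nat_lit 9) L2503621 (by decide +kernel)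
theorem L2503623 : W_2 (nat_lit 4) (nat_lit 0x200000000d000680030000000000000000000000000000) (nat_lit 0x0) (nat_lit 0x100008000000180000c000400000000000000000000000) := T_2 (nat_lit 163) (nat_lit 180) (nat_lit 6) (nat_lit 10) (nat_lit 10) L2503622 (by decide +kernel)
theorem L2503624 : W_2 (nat_lit 5) (nat_lit 0xd000680030000000000000000000000000000) (nat_lit 0x0) (nat_lit 0x300018000000180000c000400000000000000000000000) := T_2 (nat_lit 181) (nat_lit 164) (nat_lit 4) (nat_lit 11) (nat_lit 10) L2503623 (by decide +kernel)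
theorem L2503625 : W_2 (nat_lit 2) (nat_lit 0xb0000d0016800f0004000080000000000000000000) (nat_lit 0x0) (nat_lit 0x10000800008000000000000000000000000000) := D_2 (nat_lit 131) (nat_lit 111) (nat_lit 148) (nat_lit 3) (nat_lit 9) (nat_lit 6) (nat_lit 6) (nat_lit 12) (nat_lit 9) (by decide +kernel)
theorem L2503626 : W_2 (nat_lit 3) (nat_lit 0xb0000d0006800f0004000080000000000000000000) (nat_lit 0x0) (nat_lit 0x10003800008000000000000000000000000000) := T_2 (nat_lit 132) (nat_lit 133) (nat_lit 3) (nat_lit 10) (nat_lit 6) L2503625 (by decide +kernel)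
theorem L2503627 : W_2 (nat_lit 4) (nat_lit 0xb0000d0006800f0000000080000000000000000000) (nat_lit 0x0) (nat_lit 0x1000380000800c000000000000000000000000) := T_2 (nat_lit 98) (nat_lit 99) (nat_lit 2) (nat_lit 10) (nat_lit 6) L2503626 (by decide +kernel)
theorem L2503628 : W_2 (nat_lit 5) (nat_lit 0xb0000d000680070000000080000000000000000000) (nat_lit 0x0) (nat_lit 0x1000380018800c000000000000000000000000) := T_2 (nat_lit 115) (nat_lit 116) (nat_lit 1) (nat_lit 14) (nat_lit 6) L2503627 (by decide +kernel)
theorem L2503629 : W_2 (nat_lit 6) (nat_lit 0xb0000d000680030000000080000000000000000000) (nat_lit 0x0) (nat_lit 0x100038001c800e000000000000000000000000) := T_2 (nat_lit 114) (nat_lit 97) (nat_lit 6) (nat_lit 11) (nat_lit 9) L2503628 (by decide +kernel)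
theorem L2503630 : W_2 (nat_lit 7) (nat_lit 0x30000d000680030000000080000000000000000000) (nat_lit 0x0) (nat_lit 0xc000100038001c800e000000000000000000000000) := T_2 (nat_lit 167) (nat_lit 166) (nat_lit 0) (nat_lit 14) (nat_lit 9) L2503629 (by decide +kernel)
theorem L2503631 : W_2 (nat_lit 8) (nat_lit 0x10000d000680030000000080000000000000000000) (nat_lit 0x0) (nat_lit 0x4000e000100038001c800e000000000000000000000000) := T_2 (nat_lit 165) (nat_lit 182) (nat_lit 7) (nat_lit 11) (nat_lit 6) L2503630 (by decide +kernel)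
theorem L2503632 : W_2 (nat_lit 9) (nat_lit 0xd000680030000000080000000000000000000) (nat_lit 0x0) (nat_lit 0x6000f000100038001c800e000000000000000000000000) := T_2 (nat_lit 164) (nat_lit 181) (nat_lit 4) (nat_lit 11) (nat_lit 10) L2503631 (by decide +kernel)
theorem L2503633 : W_2 (nat_lit 10) (nat_lit 0xd000680030000000000000000000000000000) (nat_lit 0x0) (nat_lit 0x6000f000100038001c800f000080000000000000000000) := T_2 (nat_lit 79) (nat_lit 96) (nat_lit 5) (nat_lit 11) (nat_lit 4) L2503632 (by decide +kernel)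
theorem L2503634 : W_2 (nat_lit 11) (nat_lit 0xd000680010000000000000000000000000000) (nat_lit 0x0) (nat_lit 0x7000f800100038001ec00f400080000000000000000000) := Q_2 (nat_lit 113) (C_2 L2503620 (C_2 L2503624 (C_2 L2503633 N_2))) (by decide +kernel)
theorem L2503635 : W_2 (nat_lit 2) (nat_lit 0x200040003d001e80010000000000000000000000000000) (nat_lit 0x0) (nat_lit 0x100008000000000000000040000000000000000000000000000) := D_2 (nat_lit 183) (nat_lit 114) (nat_lit 200) (nat_lit 4) (nat_lit 13) (nat_lit 10) (nat_lit 4) (nat_lit 13) (nat_lit 11) (by decide +kernel)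
theorem L2503636 : W_2 (nat_lit 3) (nat_lit 0x200000003d001e80010000000000000000000000000000) (nat_lit 0x0) (nat_lit 0x100008000c00000000000040000000000000000000000000000) := T_2 (nat_lit 166) (nat_lit 167) (nat_lit 3) (nat_lit 10) (nat_lit 8) L2503635 (by decide +kernel)
theorem L2503637 : W_2 (nat_lit 4) (nat_lit 0x200000003d001680010000000000000000000000000000) (nat_lit 0x0) (nat_lit 0x100008000c00000000800048000000000000000000000000000) := T_2 (nat_lit 131) (nat_lit 111) (nat_lit 0) (nat_lit 13) (nat_lit 7) L2503636 (by decide +kernel)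
theorem L2503638 : W_2 (nat_lit 5) (nat_lit 0x200000003d000680010000000000000000000000000000) (nat_lit 0x0) (nat_lit 0x100008000c00000003800048000000000000000000000000000) := T_2 (nat_lit 132) (nat_lit 133) (nat_lit 2) (nat_lit 10) (nat_lit 8) L2503637 (by decide +kernel)
theorem L2503639 : W_2 (nat_lit 6) (nat_lit 0x200000001d000680010000000000000000000000000000) (nat_lit 0x0) (nat_lit 0x100008000c00060003800048000000000000000000000000000) := T_2 (nat_lit 149) (nat_lit 150) (nat_lit 0) (nat_lit 14) (nat_lit 8) L2503638 (by decide +kernel)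
theorem L2503640 : W_2 (nat_lit 7) (nat_lit 0x200000000d000680010000000000000000000000000000) (nat_lit 0x0) (nat_lit 0x100008000c00070003900048000000000000000000000000000) := T_2 (nat_lit 148) (nat_lit 128) (nat_lit 3) (nat_lit 8) (nat_lit 7) L2503639 (by decide +kernel)
theorem L2503641 : W_2 (nat_lit 8) (nat_lit 0xd000680010000000000000000000000000000) (nat_lit 0x0) (nat_lit 0x10000a000d00070003900048000000000000000000000000000) := T_2 (nat_lit 181) (nat_lit 164) (nat_lit 4) (nat_lit 11) (nat_lit 10) L2503640 (by decide +kernel)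
theorem L2503642 : W_2 (nat_lit 2) (nat_lit 0x200000000d0006800f8004000080000000000000000000) (nat_lit 0x0) (nat_lit 0x3800000000000000000000000000000000) := D_2 (nat_lit 132) (nat_lit 131) (nat_lit 133) (nat_lit 3) (nat_lit 9) (nat_lit 6) (nat_lit 3) (nat_lit 10) (nat_lit 6) (by decide +kernel)
theorem L2503643 : W_2 (nat_lit 3) (nat_lit 0x200000000d0006800f0004000080000000000000000000) (nat_lit 0x0) (nat_lit 0x3800008002000000000000000000000000) := T_2 (nat_lit 111) (nat_lit 97) (nat_lit 2) (nat_lit 9) (nat_lit 6) L2503642 (by decide +kernel)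
theorem L2503644 : W_2 (nat_lit 4) (nat_lit 0x200000000d0006800f0000000080000000000000000000) (nat_lit 0x0) (nat_lit 0x380000800e000000000000000000000000) := T_2 (nat_lit 98) (nat_lit 99) (nat_lit 2) (nat_lit 10) (nat_lit 6) L2503643 (by decide +kernel)
theorem L2503645 : W_2 (nat_lit 5) (nat_lit 0x200000000d000680070000000080000000000000000000) (nat_lit 0x0) (nat_lit 0x380018800e000000000000000000000000) := T_2 (nat_lit 115) (nat_lit 116) (nat_lit 1) (nat_lit 14) (nat_lit 6) L2503644 (by decide +kernel)
theorem L2503646 : W_2 (nat_lit 6) (nat_lit 0x200000000d000680030000000080000000000000000000) (nat_lit 0x0) (nat_lit 0x39001c800e000000000000000000000000) := T_2 (nat_lit 114) (nat_lit 128) (nat_lit 2) (nat_lit 8) (nat_lit 7) L2503645 (by decide +kernel)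
theorem L2503647 : W_2 (nat_lit 7) (nat_lit 0x200000000d000680030000000000000000000000000000) (nat_lit 0x0) (nat_lit 0x39001c800f000080000000000000000000) := T_2 (nat_lit 79) (nat_lit 96) (nat_lit 5) (nat_lit 11) (nat_lit 4) L2503646 (by decide +kernel)
theorem L2503648 : W_2 (nat_lit 8) (nat_lit 0xd000680030000000000000000000000000000) (nat_lit 0x0) (nat_lit 0x20001000000039001c800f000080000000000000000000) := T_2 (nat_lit 181) (nat_lit 164) (nat_lit 4) (nat_lit 11) (nat_lit 10) L2503647 (by decide +kernel)
theorem L2503649 : W_2 (nat_lit 9) (nat_lit 0xd000680010000000000000000000000000000) (nat_lit 0x0) (nat_lit 0x30001800000039001ec00f400080000000000000000000) := Q_2 (nat_lit 113) (C_2 L2503624 (C_2 L2503620 (C_2 L2503648 N_2))) (by decide +kernel)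
theorem L2503650 : W_2 (nat_lit 2) (nat_lit 0x200040003d001e80090000000000000000000000000000) (nat_lit 0x0) (nat_lit 0x200000000000000004000200000000000000000000) := D_2 (nat_lit 98) (nat_lit 81) (nat_lit 165) (nat_lit 5) (nat_lit 13) (nat_lit 4) (nat_lit 5) (nat_lit 13) (nat_lit 5) (by decide +kernel)
theorem L2503651 : W_2 (nat_lit 3) (nat_lit 0x200040003d001e80010000000000000000000000000000) (nat_lit 0x0) (nat_lit 0x200000000000180004000200000000000000000000) := T_2 (nat_lit 115) (nat_lit 116) (nat_lit 2) (nat_lit 10) (nat_lit 7) L2503650 (by decide +kernel)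
theorem L2503652 : W_2 (nat_lit 4) (nat_lit 0x200000003d001e80010000000000000000000000000000) (nat_lit 0x0) (nat_lit 0xe00000000000180004000200000000000000000000) := T_2 (nat_lit 166) (nat_lit 167) (nat_lit 3) (nat_lit 10) (nat_lit 8) L2503651 (by decide +kernel)
theorem L2503653 : W_2 (nat_lit 5) (nat_lit 0x200000003d001680010000000000000000000000000000) (nat_lit 0x0) (nat_lit 0xe00000000800188004000200000000000000000000) := T_2 (nat_lit 131) (nat_lit 111) (nat_lit 0) (nat_lit 13) (nat_lit 7) L2503652 (by decide +kernel)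
theorem L2503654 : W_2 (nat_lit 6) (nat_lit 0x200000003d000680010000000000000000000000000000) (nat_lit 0x0) (nat_lit 0xe00000003800188004000200000000000000000000) := T_2 (nat_lit 132) (nat_lit 133) (nat_lit 2) (nat_lit 10) (nat_lit 8) L2503653 (by decide +kernel)
theorem L2503655 : W_2 (nat_lit 7) (nat_lit 0x200000001d000680010000000000000000000000000000) (nat_lit 0x0) (nat_lit 0xe00060003800188004000200000000000000000000) := T_2 (nat_lit 149) (nat_lit 150) (nat_lit 0) (nat_lit 14) (nat_lit 8) L2503654 (by decide +kernel)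
theorem L2503656 : W_2 (nat_lit 8) (nat_lit 0x200000000d000680010000000000000000000000000000) (nat_lit 0x0) (nat_lit 0xe00070003900188004000200000000000000000000) := T_2 (nat_lit 148) (nat_lit 128) (nat_lit 3) (nat_lit 8) (nat_lit 7) L2503655 (by decide +kernel)
theorem L2503657 : W_2 (nat_lit 9) (nat_lit 0xd000680010000000000000000000000000000) (nat_lit 0x0) (nat_lit 0x2000f00070003900188004000200000000000000000000) := T_2 (nat_lit 181) (nat_lit 164) (nat_lit 4) (nat_lit 11) (nat_lit 10) L2503656 (by decide +kernel)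
theorem L2503658 : W_2 (nat_lit 12) (nat_lit 0xd000280010000000000000000000000000000) (nat_lit 0x0) (nat_lit 0x10000f000f80070003d001ec00f400280000000000000000000) := Q_2 (nat_lit 130) (C_2 L2503619 (C_2 L2503634 (C_2 L2503641 (C_2 L2503649 (C_2 L2503657 N_2))))) (by decide +kernel)
theorem L2503659 : W_2 (nat_lit 2) (nat_lit 0xd000680030003800000000000000000000000) (nat_lit 0x0) (nat_lit 0xc004000000000000000000000000) := D_2 (nat_lit 111) (nat_lit 110) (nat_lit 98) (nat_lit 2) (nat_lit 8) (nat_lit 6) (nat_lit 1) (nat_lit 13) (nat_lit 5) (by decide +kernel)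
theorem L2503660 : W_2 (nat_lit 3) (nat_lit 0xd000680030001800000000000000000000000) (nat_lit 0x0) (nat_lit 0xc006000100000000000000000000) := T_2 (nat_lit 97) (nat_lit 80) (nat_lit 6) (nat_lit 11) (nat_lit 8) L2503659 (by decide +kernel)
theorem L2503661 : W_2 (nat_lit 4) (nat_lit 0xd000680010001800000000000000000000000) (nat_lit 0x0) (nat_lit 0x8000000000002c006000100000000000000000000) := T_2 (nat_lit 113) (nat_lit 163) (nat_lit 6) (nat_lit 10) (nat_lit 9) L2503660 (by decide +kernel)
theorem L2503662 : W_2 (nat_lit 5) (nat_lit 0xd000680010000800000000000000000000000) (nat_lit 0x0) (nat_lit 0x8000000000002c007000180000000000000000000) := T_2 (nat_lit 96) (nat_lit 79) (nat_lit 6) (nat_lit 10) (nat_lit 8) L2503661 (by decide +kernel)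
theorem L2503663 : W_2 (nat_lit 6) (nat_lit 0xd000680010000000000000000000000000000) (nat_lit 0x0) (nat_lit 0x8000000000002c0078001c0000000000000000000) := T_2 (nat_lit 95) (nat_lit 78) (nat_lit 7) (nat_lit 10) (nat_lit 4) L2503662 (by decide +kernel)
theorem L2503664 : W_2 (nat_lit 2) (nat_lit 0x40003d001e80010000000040000000000000000000) (nat_lit 0x0) (nat_lit 0x100008000000000000000040000000000000000000000000000) := D_2 (nat_lit 183) (nat_lit 114) (nat_lit 200) (nat_lit 4) (nat_lit 13) (nat_lit 10) (nat_lit 4) (nat_lit 13) (nat_lit 11) (by decide +kernel)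
theorem L2503665 : W_2 (nat_lit 3) (nat_lit 0x3d001e80010000000040000000000000000000) (nat_lit 0x0) (nat_lit 0x100008000c00000000000040000000000000000000000000000) := T_2 (nat_lit 166) (nat_lit 167) (nat_lit 3) (nat_lit 10) (nat_lit 8) L2503664 (by decide +kernel)
theorem L2503666 : W_2 (nat_lit 4) (nat_lit 0x3d001680010000000040000000000000000000) (nat_lit 0x0) (nat_lit 0x100008000c00000000800048000000000000000000000000000) := T_2 (nat_lit 131) (nat_lit 111) (nat_lit 0) (nat_lit 13) (nat_lit 7) L2503665 (by decide +kernel)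
theorem L2503667 : W_2 (nat_lit 5) (nat_lit 0x3d000680010000000040000000000000000000) (nat_lit 0x0) (nat_lit 0x100008000c00000003800048000000000000000000000000000) := T_2 (nat_lit 132) (nat_lit 133) (nat_lit 2) (nat_lit 10) (nat_lit 8) L2503666 (by decide +kernel)
theorem L2503668 : W_2 (nat_lit 6) (nat_lit 0x1d000680010000000040000000000000000000) (nat_lit 0x0) (nat_lit 0x100008000c00060003800048000000000000000000000000000) := T_2 (nat_lit 149) (nat_lit 150) (nat_lit 0) (nat_lit 14) (nat_lit 8) L2503667 (by decide +kernel)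
theorem L2503669 : W_2 (nat_lit 7) (nat_lit 0xd000680010000000040000000000000000000) (nat_lit 0x0) (nat_lit 0x100008000c00070003900048000000000000000000000000000) := T_2 (nat_lit 148) (nat_lit 128) (nat_lit 3) (nat_lit 8) (nat_lit 7) L2503668 (by decide +kernel)
theorem L2503670 : W_2 (nat_lit 8) (nat_lit 0xd000680010000000000000000000000000000) (nat_lit 0x0) (nat_lit 0x100008000c00070003900048000800040000000000000000000) := T_2 (nat_lit 78) (nat_lit 95) (nat_lit 7) (nat_lit 10) (nat_lit 4) L2503669 (by decide +kernel)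
theorem L2503671 : W_2 (nat_lit 9) (nat_lit 0xd000280010000000000000000000000000000) (nat_lit 0x0) (nat_lit 0x100009000c80070003d0006c0078001c0000000000000000000) := Q_2 (nat_lit 130) (C_2 L2503619 (C_2 L2503663 (C_2 L2503670 N_2))) (by decide +kernel)
theorem L2503672 : W_2 (nat_lit 2) (nat_lit 0xd000280010000800040000000000000000000) (nat_lit 0x0) (nat_lit 0x400020001000000000000000) := D_2 (nat_lit 77) (nat_lit 94) (nat_lit 60) (nat_lit 4) (nat_lit 10) (nat_lit 8) (nat_lit 4) (nat_lit 10) (nat_lit 7) (by decide +kernel)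
theorem L2503673 : W_2 (nat_lit 3) (nat_lit 0xd000280010000800000000000000000000000) (nat_lit 0x0) (nat_lit 0x400000000400060001000000000000000) := T_2 (nat_lit 78) (nat_lit 130) (nat_lit 7) (nat_lit 10) (nat_lit 4) L2503672 (by decide +kernel)
theorem L2503674 : W_2 (nat_lit 4) (nat_lit 0xd000280010000000000000000000000000000) (nat_lit 0x0) (nat_lit 0x100000000400000000c00060001000000000000000) := T_2 (nat_lit 95) (nat_lit 164) (nat_lit 7) (nat_lit 10) (nat_lit 5) L2503673 (by decide +kernel)
theorem L2503675 : W_2 (nat_lit 13) (nat_lit 0xd000280000000000000000000000000000000) (nat_lit 0x0) (nat_lit 0x10000f000f80070003d001fc00fc003e0005000000000000000) := Q_2 (nat_lit 112) (C_2 L2503612 (C_2 L2503616 (C_2 L2503658 (C_2 L2503671 (C_2 L2503674 N_2))))) (by decide +kernel)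
theorem L2503676 : W_2 (nat_lit 2) (nat_lit 0x18000d000680038000000000000000000000000000) (nat_lit 0x0) (nat_lit 0x1800004000000000000000000000000000) := D_2 (nat_lit 131) (nat_lit 110) (nat_lit 132) (nat_lit 3) (nat_lit 8) (nat_lit 6) (nat_lit 0) (nat_lit 13) (nat_lit 7) (by decide +kernel)
theorem L2503677 : W_2 (nat_lit 3) (nat_lit 0x18000d000280038000000000000000000000000000) (nat_lit 0x0) (nat_lit 0x1000000000001c00004000000000000000000000000000) := T_2 (nat_lit 130) (nat_lit 180) (nat_lit 6) (nat_lit 10) (nat_lit 10) L2503676 (by decide +kernel)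
theorem L2503678 : W_2 (nat_lit 4) (nat_lit 0x18000d000280018000000000000000000000000000) (nat_lit 0x0) (nat_lit 0x1000000000001c00024001000000000000000000000000) := T_2 (nat_lit 113) (nat_lit 96) (nat_lit 6) (nat_lit 10) (nat_lit 9) L2503677 (by decide +kernel)
theorem L2503679 : W_2 (nat_lit 5) (nat_lit 0x8000d000280018000000000000000000000000000) (nat_lit 0x0) (nat_lit 0x3000100000001c00024001000000000000000000000000) := T_2 (nat_lit 164) (nat_lit 181) (nat_lit 7) (nat_lit 10) (nat_lit 6) L2503678 (by decide +kernel)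
theorem L2503680 : W_2 (nat_lit 6) (nat_lit 0x8000d000280010000000000000000000000000000) (nat_lit 0x0) (nat_lit 0x3000100000001c0002c001400000000000000000000000) := T_2 (nat_lit 111) (nat_lit 94) (nat_lit 4) (nat_lit 10) (nat_lit 9) L2503679 (by decide +kernel)
theorem L2503681 : W_2 (nat_lit 2) (nat_lit 0x100008000d000280030000000000000000000000000000) (nat_lit 0x0) (nat_lit 0x40002000100000000000000000000000000000000000000000) := D_2 (nat_lit 181) (nat_lit 164) (nat_lit 198) (nat_lit 7) (nat_lit 10) (nat_lit 6) (nat_lit 7) (nat_lit 10) (nat_lit 7) (by decide +kernel)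
theorem L2503682 : W_2 (nat_lit 3) (nat_lit 0x8000d000280030000000000000000000000000000) (nat_lit 0x0) (nat_lit 0x40003000100000000400000000000000000000000000000000) := T_2 (nat_lit 180) (nat_lit 130) (nat_lit 6) (nat_lit 10) (nat_lit 10) L2503681 (by decide +kernel)
theorem L2503683 : W_2 (nat_lit 4) (nat_lit 0x8000d000280010000000000000000000000000000) (nat_lit 0x0) (nat_lit 0x40003000100000000400020001000000000000000000000000) := T_2 (nat_lit 113) (nat_lit 96) (nat_lit 6) (nat_lit 10) (nat_lit 9) L2503682 (by decide +kernel)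
theorem L2503684 : W_2 (nat_lit 2) (nat_lit 0x100008000d000280010000000000000000000000000000) (nat_lit 0x0) (nat_lit 0x40002000100000000000000000000000000000000000000000) := D_2 (nat_lit 181) (nat_lit 164) (nat_lit 198) (nat_lit 7) (nat_lit 10) (nat_lit 6) (nat_lit 7) (nat_lit 10) (nat_lit 7) (by decide +kernel)
theorem L2503685 : W_2 (nat_lit 2) (nat_lit 0x3000100008000d00028003c000200000000000000000000000) (nat_lit 0x0) (nat_lit 0x800040002000000000000000000000000000000000000000000000) := D_2 (nat_lit 198) (nat_lit 181) (nat_lit 215) (nat_lit 7) (nat_lit 10) (nat_lit 7) (nat_lit 7) (nat_lit 10) (nat_lit 8) (by decide +kernel)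
theorem L2503686 : W_2 (nat_lit 3) (nat_lit 0x1000100008000d00028003c000200000000000000000000000) (nat_lit 0x0) (nat_lit 0xa00060002000000000000000000000000000000000000000000000) := T_2 (nat_lit 197) (nat_lit 213) (nat_lit 5) (nat_lit 10) (nat_lit 8) L2503685 (by decide +kernel)
theorem L2503687 : W_2 (nat_lit 4) (nat_lit 0x1000100008000d00028003c000000000000000000000000000) (nat_lit 0x0) (nat_lit 0xa00060002000000000000000000000300000000000000000000000) := T_2 (nat_lit 93) (nat_lit 92) (nat_lit 0) (nat_lit 11) (nat_lit 6) L2503686 (by decide +kernel)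
theorem L2503688 : W_2 (nat_lit 5) (nat_lit 0x1000100008000d000280038000000000000000000000000000) (nat_lit 0x0) (nat_lit 0xa00060002000000000000040004000300000000000000000000000) := T_2 (nat_lit 110) (nat_lit 126) (nat_lit 1) (nat_lit 11) (nat_lit 6) L2503687 (by decide +kernel)
theorem L2503689 : W_2 (nat_lit 6) (nat_lit 0x1000100008000d000280030000000000000000000000000000) (nat_lit 0x0) (nat_lit 0xa0006000200000000000004000c000700000000000000000000000) := T_2 (nat_lit 111) (nat_lit 94) (nat_lit 4) (nat_lit 10) (nat_lit 9) L2503688 (by decide +kernel)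
theorem L2503690 : W_2 (nat_lit 7) (nat_lit 0x100008000d000280030000000000000000000000000000) (nat_lit 0x0) (nat_lit 0xa0007000280000000000004000c000700000000000000000000000) := T_2 (nat_lit 196) (nat_lit 179) (nat_lit 5) (nat_lit 10) (nat_lit 7) L2503689 (by decide +kernel)
theorem L2503691 : W_2 (nat_lit 8) (nat_lit 0x100008000d000280010000000000000000000000000000) (nat_lit 0x0) (nat_lit 0xa0007000280000000000004002c001700000000000000000000000) := T_2 (nat_lit 113) (nat_lit 96) (nat_lit 6) (nat_lit 10) (nat_lit 9) L2503690 (by decide +kernel)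
theorem L2503692 : W_2 (nat_lit 2) (nat_lit 0x40003000100008000d00028003c000200000000000000000000000) (nat_lit 0x0) (nat_lit 0x10000800040000000000000000000000000000000000000000000000000) := D_2 (nat_lit 215) (nat_lit 198) (nat_lit 232) (nat_lit 7) (nat_lit 10) (nat_lit 8) (nat_lit 7) (nat_lit 10) (nat_lit 9) (by decide +kernel)
theorem L2503693 : W_2 (nat_lit 3) (nat_lit 0x3000100008000d00028003c000200000000000000000000000) (nat_lit 0x0) (nat_lit 0x10000c00040000000100000000000000000000000000000000000000000) := T_2 (nat_lit 214) (nat_lit 164) (nat_lit 6) (nat_lit 10) (nat_lit 12) L2503692 (by decide +kernel)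
theorem L2503694 : W_2 (nat_lit 4) (nat_lit 0x1000100008000d00028003c000200000000000000000000000) (nat_lit 0x0) (nat_lit 0x10000e00060000000100000000000000000000000000000000000000000) := T_2 (nat_lit 197) (nat_lit 213) (nat_lit 5) (nat_lit 10) (nat_lit 8) L2503693 (by decide +kernel)
theorem L2503695 : W_2 (nat_lit 5) (nat_lit 0x100008000d00028003c000200000000000000000000000) (nat_lit 0x0) (nat_lit 0x10000e00070000800100000000000000000000000000000000000000000) := T_2 (nat_lit 196) (nat_lit 179) (nat_lit 5) (nat_lit 10) (nat_lit 7) L2503694 (by decide +kernel)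
theorem L2503696 : W_2 (nat_lit 6) (nat_lit 0x100008000d00028003c000000000000000000000000000) (nat_lit 0x0) (nat_lit 0x10000e00070000800100000000000000000300000000000000000000000) := T_2 (nat_lit 93) (nat_lit 92) (nat_lit 0) (nat_lit 11) (nat_lit 6) L2503695 (by decide +kernel)
theorem L2503697 : W_2 (nat_lit 7) (nat_lit 0x100008000d000280038000000000000000000000000000) (nat_lit 0x0) (nat_lit 0x10000e00070000800100000000040004000300000000000000000000000) := T_2 (nat_lit 110) (nat_lit 126) (nat_lit 1) (nat_lit 11) (nat_lit 6) L2503696 (by decide +kernel)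
theorem L2503698 : W_2 (nat_lit 8) (nat_lit 0x100008000d000280030000000000000000000000000000) (nat_lit 0x0) (nat_lit 0x10000e0007000080010000000004000c000700000000000000000000000) := T_2 (nat_lit 111) (nat_lit 94) (nat_lit 4) (nat_lit 10) (nat_lit 9) L2503697 (by decide +kernel)
theorem L2503699 : W_2 (nat_lit 9) (nat_lit 0x100008000d000280010000000000000000000000000000) (nat_lit 0x0) (nat_lit 0x10000e0007000080010000000004002c001700000000000000000000000) := T_2 (nat_lit 113) (nat_lit 96) (nat_lit 6) (nat_lit 10) (nat_lit 9) L2503698 (by decide +kernel)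
theorem L2503700 : W_2 (nat_lit 2) (nat_lit 0x1000100018000d000280010000000000000000000000000000) (nat_lit 0x0) (nat_lit 0x600020000000000000000000000000000000000000000000000000) := D_2 (nat_lit 197) (nat_lit 214) (nat_lit 213) (nat_lit 6) (nat_lit 10) (nat_lit 12) (nat_lit 5) (nat_lit 10) (nat_lit 8) (by decide +kernel)
theorem L2503701 : W_2 (nat_lit 3) (nat_lit 0x1000100008000d000280010000000000000000000000000000) (nat_lit 0x0) (nat_lit 0x600020002000100000000000000000000000000000000000000000) := T_2 (nat_lit 164) (nat_lit 181) (nat_lit 7) (nat_lit 10) (nat_lit 6) L2503700 (by decide +kernel)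
theorem L2503702 : W_2 (nat_lit 4) (nat_lit 0x100008000d000280010000000000000000000000000000) (nat_lit 0x0) (nat_lit 0x600030002800100000000000000000000000000000000000000000) := T_2 (nat_lit 196) (nat_lit 179) (nat_lit 5) (nat_lit 10) (nat_lit 7) L2503701 (by decide +kernel)
theorem L2503703 : W_2 (nat_lit 10) (nat_lit 0x8000d000280010000000000000000000000000000) (nat_lit 0x0) (nat_lit 0x10000e0007000380010000000004002c001700000000000000000000000) := Q_2 (nat_lit 180) (C_2 L2503684 (C_2 L2503691 (C_2 L2503699 (C_2 L2503702 N_2)))) (by decide +kernel)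
theorem L2503704 : W_2 (nat_lit 2) (nat_lit 0x2000300008000d000280018000000000000000000000000000) (nat_lit 0x0) (nat_lit 0x200010000800000000000000000000000000000000000000000000) := D_2 (nat_lit 196) (nat_lit 213) (nat_lit 179) (nat_lit 5) (nat_lit 10) (nat_lit 8) (nat_lit 5) (nat_lit 10) (nat_lit 7) (by decide +kernel)
theorem L2503705 : W_2 (nat_lit 3) (nat_lit 0x300008000d000280018000000000000000000000000000) (nat_lit 0x0) (nat_lit 0x200030000800000000000400000000000000000000000000000000) := T_2 (nat_lit 197) (nat_lit 130) (nat_lit 6) (nat_lit 10) (nat_lit 11) L2503704 (by decide +kernel)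
theorem L2503706 : W_2 (nat_lit 4) (nat_lit 0x200008000d000280018000000000000000000000000000) (nat_lit 0x0) (nat_lit 0x200070001800000000000400000000000000000000000000000000) := T_2 (nat_lit 180) (nat_lit 198) (nat_lit 7) (nat_lit 10) (nat_lit 7) L2503705 (by decide +kernel)
theorem L2503707 : W_2 (nat_lit 5) (nat_lit 0x200008000d000280010000000000000000000000000000) (nat_lit 0x0) (nat_lit 0x200070001800000000000400008000400000000000000000000000) := T_2 (nat_lit 111) (nat_lit 94) (nat_lit 4) (nat_lit 10) (nat_lit 9) L2503706 (by decide +kernel)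
theorem L2503708 : W_2 (nat_lit 6) (nat_lit 0x8000d000280010000000000000000000000000000) (nat_lit 0x0) (nat_lit 0x200070003800100000000400008000400000000000000000000000) := T_2 (nat_lit 181) (nat_lit 164) (nat_lit 7) (nat_lit 10) (nat_lit 6) L2503707 (by decide +kernel)
theorem L2503709 : W_2 (nat_lit 8) (nat_lit 0x8000d000280030000000000000000000000000000) (nat_lit 0x0) (nat_lit 0xa0007000380000000000044000c000700000000000000000000000) := T_2 (nat_lit 180) (nat_lit 130) (nat_lit 6) (nat_lit 10) (nat_lit 10) L2503690 (by decide +kernel)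
theorem L2503710 : W_2 (nat_lit 9) (nat_lit 0x8000d000280010000000000000000000000000000) (nat_lit 0x0) (nat_lit 0xa0007000380000000000044002c001700000000000000000000000) := T_2 (nat_lit 113) (nat_lit 96) (nat_lit 6) (nat_lit 10) (nat_lit 9) L2503709 (by decide +kernel)
theorem L2503711 : W_2 (nat_lit 9) (nat_lit 0x8000d000280030000000000000000000000000000) (nat_lit 0x0) (nat_lit 0x10000e0007000180010000000044000c000700000000000000000000000) := T_2 (nat_lit 180) (nat_lit 130) (nat_lit 6) (nat_lit 10) (nat_lit 10) L2503698 (by decide +kernel)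
theorem L2503712 : W_2 (nat_lit 10) (nat_lit 0x8000d000280010000000000000000000000000000) (nat_lit 0x0) (nat_lit 0x10000e0007000180010000000044002c001700000000000000000000000) := T_2 (nat_lit 113) (nat_lit 96) (nat_lit 6) (nat_lit 10) (nat_lit 9) L2503711 (by decide +kernel)
theorem L2503713 : W_2 (nat_lit 2) (nat_lit 0xb8000d0016800fc004200000000000000000000000) (nat_lit 0x0) (nat_lit 0x70000000000000000000000000000000000000) := D_2 (nat_lit 149) (nat_lit 148) (nat_lit 150) (nat_lit 5) (nat_lit 13) (nat_lit 5) (nat_lit 7) (nat_lit 13) (nat_lit 5) (by decide +kernel)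
theorem L2503714 : W_2 (nat_lit 3) (nat_lit 0xb8000d0006800fc004200000000000000000000000) (nat_lit 0x0) (nat_lit 0x70003000000000000000000000000000000000) := T_2 (nat_lit 132) (nat_lit 133) (nat_lit 3) (nat_lit 10) (nat_lit 6) L2503713 (by decide +kernel)
theorem L2503715 : W_2 (nat_lit 4) (nat_lit 0xb8000d0006800fc000200000000000000000000000) (nat_lit 0x0) (nat_lit 0x7000300000000c000000000000000000000000) := T_2 (nat_lit 98) (nat_lit 99) (nat_lit 2) (nat_lit 10) (nat_lit 6) L2503714 (by decide +kernel)
theorem L2503716 : W_2 (nat_lit 5) (nat_lit 0xb8000d00068007c000200000000000000000000000) (nat_lit 0x0) (nat_lit 0x7000300018000c000000000000000000000000) := T_2 (nat_lit 115) (nat_lit 116) (nat_lit 1) (nat_lit 14) (nat_lit 6) L2503715 (by decide +kernel)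
theorem L2503717 : W_2 (nat_lit 6) (nat_lit 0xb8000d00068003c000200000000000000000000000) (nat_lit 0x0) (nat_lit 0x700030001c000e000000000000000000000000) := T_2 (nat_lit 114) (nat_lit 97) (nat_lit 6) (nat_lit 11) (nat_lit 9) L2503716 (by decide +kernel)
theorem L2503718 : W_2 (nat_lit 7) (nat_lit 0x38000d00068003c000200000000000000000000000) (nat_lit 0x0) (nat_lit 0xc000700030001c000e000000000000000000000000) := T_2 (nat_lit 167) (nat_lit 166) (nat_lit 0) (nat_lit 14) (nat_lit 9) L2503717 (by decide +kernel)
theorem L2503719 : W_2 (nat_lit 8) (nat_lit 0x18000d00068003c000200000000000000000000000) (nat_lit 0x0) (nat_lit 0x4000e000700030001c000e000000000000000000000000) := T_2 (nat_lit 165) (nat_lit 182) (nat_lit 7) (nat_lit 11) (nat_lit 6) L2503718 (by decide +kernel)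
theorem L2503720 : W_2 (nat_lit 9) (nat_lit 0x18000d00028003c000200000000000000000000000) (nat_lit 0x0) (nat_lit 0x4000e00070003c001c000e000000000000000000000000) := T_2 (nat_lit 130) (nat_lit 131) (nat_lit 3) (nat_lit 8) (nat_lit 6) L2503719 (by decide +kernel)
theorem L2503721 : W_2 (nat_lit 10) (nat_lit 0x18000d00028003c000000000000000000000000000) (nat_lit 0x0) (nat_lit 0x4000e00070003c001c000e300000000000000000000000) := T_2 (nat_lit 93) (nat_lit 92) (nat_lit 0) (nat_lit 11) (nat_lit 6) L2503720 (by decide +kernel)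
theorem L2503722 : W_2 (nat_lit 11) (nat_lit 0x18000d000280038000000000000000000000000000) (nat_lit 0x0) (nat_lit 0x4000e00070003c401c400e300000000000000000000000) := T_2 (nat_lit 110) (nat_lit 126) (nat_lit 1) (nat_lit 11) (nat_lit 6) L2503721 (by decide +kernel)
theorem L2503723 : W_2 (nat_lit 12) (nat_lit 0x18000d000280030000000000000000000000000000) (nat_lit 0x0) (nat_lit 0x4000e00070003c401cc00e700000000000000000000000) := T_2 (nat_lit 111) (nat_lit 94) (nat_lit 4) (nat_lit 10) (nat_lit 9) L2503722 (by decide +kernel)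
theorem L2503724 : W_2 (nat_lit 13) (nat_lit 0x8000d000280030000000000000000000000000000) (nat_lit 0x0) (nat_lit 0x6000f00070003c401cc00e700000000000000000000000) := T_2 (nat_lit 164) (nat_lit 181) (nat_lit 7) (nat_lit 10) (nat_lit 6) L2503723 (by decide +kernel)
theorem L2503725 : W_2 (nat_lit 14) (nat_lit 0x8000d000280010000000000000000000000000000) (nat_lit 0x0) (nat_lit 0x6000f00070003c401ec00f700000000000000000000000) := T_2 (nat_lit 113) (nat_lit 96) (nat_lit 6) (nat_lit 10) (nat_lit 9) L2503724 (by decide +kernel)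
theorem L2503726 : W_2 (nat_lit 15) (nat_lit 0xd000280010000000000000000000000000000) (nat_lit 0x0) (nat_lit 0x10000e00070007800f80070003c401ec00f700000000000000000000000) := Q_2 (nat_lit 163) (C_2 L2503680 (C_2 L2503683 (C_2 L2503703 (C_2 L2503708 (C_2 L2503710 (C_2 L2503712 (C_2 L2503725 N_2))))))) (by decide +kernel)
theorem L2503727 : W_2 (nat_lit 2) (nat_lit 0x8000d000280010000c00000000000000000000000) (nat_lit 0x0) (nat_lit 0x20001000080000000000000000000) := D_2 (nat_lit 96) (nat_lit 79) (nat_lit 113) (nat_lit 6) (nat_lit 10) (nat_lit 8) (nat_lit 6) (nat_lit 10) (nat_lit 9) (by decide +kernel)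
theorem L2503728 : W_2 (nat_lit 3) (nat_lit 0xd000280010000c00000000000000000000000) (nat_lit 0x0) (nat_lit 0x80000000000028001000080000000000000000000) := T_2 (nat_lit 163) (nat_lit 111) (nat_lit 4) (nat_lit 10) (nat_lit 9) L2503727 (by decide +kernel)
theorem L2503729 : W_2 (nat_lit 4) (nat_lit 0xd000280010000400000000000000000000000) (nat_lit 0x0) (nat_lit 0x800000000000280018000a0000000000000000000) := T_2 (nat_lit 95) (nat_lit 77) (nat_lit 4) (nat_lit 10) (nat_lit 8) L2503728 (by decide +kernel)
theorem L2503730 : W_2 (nat_lit 2) (nat_lit 0xd000280030001c00040000000000000000000) (nat_lit 0x0) (nat_lit 0x40000300000000000000000000000) := D_2 (nat_lit 93) (nat_lit 114) (nat_lit 92) (nat_lit 3) (nat_lit 8) (nat_lit 5) (nat_lit 3) (nat_lit 7) (nat_lit 5) (by decide +kernel)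
theorem L2503731 : W_2 (nat_lit 3) (nat_lit 0xd000280010001c00040000000000000000000) (nat_lit 0x0) (nat_lit 0x80000000000060000300000000000000000000000) := T_2 (nat_lit 113) (nat_lit 163) (nat_lit 6) (nat_lit 10) (nat_lit 9) L2503730 (by decide +kernel)
theorem L2503732 : W_2 (nat_lit 4) (nat_lit 0xd000280010001c00000000000000000000000) (nat_lit 0x0) (nat_lit 0x80000000400060000300040000000000000000000) := T_2 (nat_lit 78) (nat_lit 130) (nat_lit 7) (nat_lit 10) (nat_lit 4) L2503731 (by decide +kernel)
theorem L2503733 : W_2 (nat_lit 5) (nat_lit 0xd000280010000c00000000000000000000000) (nat_lit 0x0) (nat_lit 0x800000004000600013000c0000000000000000000) := T_2 (nat_lit 96) (nat_lit 79) (nat_lit 6) (nat_lit 10) (nat_lit 8) L2503732 (by decide +kernel)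
theorem L2503734 : W_2 (nat_lit 6) (nat_lit 0xd000280010000400000000000000000000000) (nat_lit 0x0) (nat_lit 0x80000000400060001b000e0000000000000000000) := T_2 (nat_lit 95) (nat_lit 77) (nat_lit 4) (nat_lit 10) (nat_lit 8) L2503733 (by decide +kernel)
theorem L2503735 : W_2 (nat_lit 2) (nat_lit 0x5000100008000d000280030000400000000000000000000000) (nat_lit 0x0) (nat_lit 0xa00020000000000000000000000000000000000000000000000000) := D_2 (nat_lit 197) (nat_lit 213) (nat_lit 215) (nat_lit 5) (nat_lit 10) (nat_lit 8) (nat_lit 7) (nat_lit 10) (nat_lit 8) (by decide +kernel)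
theorem L2503736 : W_2 (nat_lit 3) (nat_lit 0x1000100008000d000280030000400000000000000000000000) (nat_lit 0x0) (nat_lit 0xa00060002000000000000000000000000000000000000000000000) := T_2 (nat_lit 198) (nat_lit 181) (nat_lit 7) (nat_lit 10) (nat_lit 7) L2503735 (by decide +kernel)
theorem L2503737 : W_2 (nat_lit 4) (nat_lit 0x100008000d000280030000400000000000000000000000) (nat_lit 0x0) (nat_lit 0xa00070002800000000000000000000000000000000000000000000) := T_2 (nat_lit 196) (nat_lit 179) (nat_lit 5) (nat_lit 10) (nat_lit 7) L2503736 (by decide +kernel)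
theorem L2503738 : W_2 (nat_lit 5) (nat_lit 0x8000d000280030000400000000000000000000000) (nat_lit 0x0) (nat_lit 0xa00070003800000000000400000000000000000000000000000000) := T_2 (nat_lit 180) (nat_lit 130) (nat_lit 6) (nat_lit 10) (nat_lit 10) L2503737 (by decide +kernel)
theorem L2503739 : W_2 (nat_lit 6) (nat_lit 0x8000d000280010000400000000000000000000000) (nat_lit 0x0) (nat_lit 0xa00070003800000000000400020001000000000000000000000000) := T_2 (nat_lit 113) (nat_lit 96) (nat_lit 6) (nat_lit 10) (nat_lit 9) L2503738 (by decide +kernel)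
theorem L2503740 : W_2 (nat_lit 7) (nat_lit 0xd000280010000400000000000000000000000) (nat_lit 0x0) (nat_lit 0xa00070003800080000000400028001000000000000000000000000) := T_2 (nat_lit 163) (nat_lit 111) (nat_lit 4) (nat_lit 10) (nat_lit 9) L2503739 (by decide +kernel)
theorem L2503741 : W_2 (nat_lit 2) (nat_lit 0x8000d000280010000c00080000000000000000000) (nat_lit 0x0) (nat_lit 0x400000000000040004000000000000000) := D_2 (nat_lit 78) (nat_lit 130) (nat_lit 62) (nat_lit 7) (nat_lit 10) (nat_lit 4) (nat_lit 6) (nat_lit 10) (nat_lit 7) (by decide +kernel)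
theorem L2503742 : W_2 (nat_lit 3) (nat_lit 0x8000d000280010000c00000000000000000000000) (nat_lit 0x0) (nat_lit 0x4000000010000c0004000000000000000) := T_2 (nat_lit 79) (nat_lit 96) (nat_lit 6) (nat_lit 10) (nat_lit 8) L2503741 (by decide +kernel)
theorem L2503743 : W_2 (nat_lit 4) (nat_lit 0x8000d000280010000400000000000000000000000) (nat_lit 0x0) (nat_lit 0x4000000018000e0004000000000000000) := T_2 (nat_lit 95) (nat_lit 77) (nat_lit 4) (nat_lit 10) (nat_lit 8) L2503742 (by decide +kernel)
theorem L2503744 : W_2 (nat_lit 5) (nat_lit 0xd000280010000400000000000000000000000) (nat_lit 0x0) (nat_lit 0x800000004000080018000e0004000000000000000) := T_2 (nat_lit 163) (nat_lit 111) (nat_lit 4) (nat_lit 10) (nat_lit 9) L2503743 (by decide +kernel)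
theorem L2503745 : W_2 (nat_lit 2) (nat_lit 0x8000d000680010000c00000000000000000000000) (nat_lit 0x0) (nat_lit 0x20001000000000000000020000000000000000000000000000) := D_2 (nat_lit 180) (nat_lit 197) (nat_lit 113) (nat_lit 6) (nat_lit 10) (nat_lit 11) (nat_lit 6) (nat_lit 10) (nat_lit 10) (by decide +kernel)
theorem L2503746 : W_2 (nat_lit 3) (nat_lit 0x8000d000280010000c00000000000000000000000) (nat_lit 0x0) (nat_lit 0x20001000000000000400020000000040000000000000000000) := T_2 (nat_lit 130) (nat_lit 78) (nat_lit 7) (nat_lit 10) (nat_lit 4) L2503745 (by decide +kernel)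
theorem L2503747 : W_2 (nat_lit 4) (nat_lit 0xd000280010000c00000000000000000000000) (nat_lit 0x0) (nat_lit 0x20001000080000000400028000000040000000000000000000) := T_2 (nat_lit 163) (nat_lit 111) (nat_lit 4) (nat_lit 10) (nat_lit 9) L2503746 (by decide +kernel)
theorem L2503748 : W_2 (nat_lit 5) (nat_lit 0xd000280010000400000000000000000000000) (nat_lit 0x0) (nat_lit 0x20001000080000000400028000800060000000000000000000) := T_2 (nat_lit 95) (nat_lit 77) (nat_lit 4) (nat_lit 10) (nat_lit 8) L2503747 (by decide +kernel)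
theorem L2503749 : W_2 (nat_lit 2) (nat_lit 0xd000280010000c00080000000000000000000) (nat_lit 0x0) (nat_lit 0x400000000000040004000000000000000) := D_2 (nat_lit 78) (nat_lit 130) (nat_lit 62) (nat_lit 7) (nat_lit 10) (nat_lit 4) (nat_lit 6) (nat_lit 10) (nat_lit 7) (by decide +kernel)
theorem L2503750 : W_2 (nat_lit 3) (nat_lit 0xd000280010000c00000000000000000000000) (nat_lit 0x0) (nat_lit 0x4000000010000c0004000000000000000) := T_2 (nat_lit 79) (nat_lit 96) (nat_lit 6) (nat_lit 10) (nat_lit 8) L2503749 (by decide +kernel)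
theorem L2503751 : W_2 (nat_lit 4) (nat_lit 0xd000280010000400000000000000000000000) (nat_lit 0x0) (nat_lit 0x4000000018000e0004000000000000000) := T_2 (nat_lit 95) (nat_lit 77) (nat_lit 4) (nat_lit 10) (nat_lit 8) L2503750 (by decide +kernel)
theorem L2503752 : W_2 (nat_lit 8) (nat_lit 0xd000280010000000000000000000000000000) (nat_lit 0x0) (nat_lit 0xa00070003800080000000400068001f000e0004000000000000000) := Q_2 (nat_lit 94) (C_2 L2503729 (C_2 L2503734 (C_2 L2503740 (C_2 L2503744 (C_2 L2503748 (C_2 L2503751 N_2)))))) (by decide +kernel)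
theorem L2503753 : W_2 (nat_lit 16) (nat_lit 0xd000280000000000000000000000000000000) (nat_lit 0x0) (nat_lit 0x10000e00070007800f80070003c401fc00ff000e0005000000000000000) := Q_2 (nat_lit 112) (C_2 L2503674 (C_2 L2503616 (C_2 L2503612 (C_2 L2503726 (C_2 L2503752 N_2))))) (by decide +kernel)
theorem L2503754 : W_2 (nat_lit 2) (nat_lit 0xd0002c0030001c00000000000000000000000) (nat_lit 0x0) (nat_lit 0x40000300000000000000000000000) := D_2 (nat_lit 93) (nat_lit 114) (nat_lit 92) (nat_lit 3) (nat_lit 8) (nat_lit 5) (nat_lit 3) (nat_lit 7) (nat_lit 5) (by decide +kernel)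
theorem L2503755 : W_2 (nat_lit 3) (nat_lit 0xd0002c0010001c00000000000000000000000) (nat_lit 0x0) (nat_lit 0x80000000000060000300000000000000000000000) := T_2 (nat_lit 113) (nat_lit 163) (nat_lit 6) (nat_lit 10) (nat_lit 9) L2503754 (by decide +kernel)
theorem L2503756 : W_2 (nat_lit 4) (nat_lit 0xd0002c0010001800000000000000000000000) (nat_lit 0x0) (nat_lit 0x80000000000060000700020000000000000000000) := T_2 (nat_lit 94) (nat_lit 77) (nat_lit 4) (nat_lit 10) (nat_lit 8) L2503755 (by decide +kernel)
theorem L2503757 : W_2 (nat_lit 5) (nat_lit 0xd0002c0010000800000000000000000000000) (nat_lit 0x0) (nat_lit 0x800000000000600017000a0000000000000000000) := T_2 (nat_lit 96) (nat_lit 79) (nat_lit 6) (nat_lit 10) (nat_lit 8) L2503756 (by decide +kernel)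
theorem L2503758 : W_2 (nat_lit 6) (nat_lit 0xd0002c0010000000000000000000000000000) (nat_lit 0x0) (nat_lit 0x180000000000060001f000a0000000000000000000) := T_2 (nat_lit 95) (nat_lit 164) (nat_lit 7) (nat_lit 10) (nat_lit 5) L2503757 (by decide +kernel)
theorem L2503759 : W_2 (nat_lit 7) (nat_lit 0xd000280010000000000000000000000000000) (nat_lit 0x0) (nat_lit 0x180000000140060001f000a0000000000000000000) := T_2 (nat_lit 126) (nat_lit 128) (nat_lit 3) (nat_lit 7) (nat_lit 7) L2503758 (by decide +kernel)
theorem L2503760 : W_2 (nat_lit 2) (nat_lit 0x8000d000380010001800000000000000000000000) (nat_lit 0x0) (nat_lit 0x1000000000000000008000400000000000000000000000) := D_2 (nat_lit 111) (nat_lit 180) (nat_lit 94) (nat_lit 4) (nat_lit 10) (nat_lit 10) (nat_lit 4) (nat_lit 10) (nat_lit 9) (by decide +kernel)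
theorem L2503761 : W_2 (nat_lit 3) (nat_lit 0xd000380010001800000000000000000000000) (nat_lit 0x0) (nat_lit 0x1000080000000000028000400000000000000000000000) := T_2 (nat_lit 163) (nat_lit 113) (nat_lit 6) (nat_lit 10) (nat_lit 9) L2503760 (by decide +kernel)
theorem L2503762 : W_2 (nat_lit 4) (nat_lit 0xd000280010001800000000000000000000000) (nat_lit 0x0) (nat_lit 0x1000080000000140028000400000000000000000000000) := T_2 (nat_lit 128) (nat_lit 126) (nat_lit 3) (nat_lit 7) (nat_lit 7) L2503761 (by decide +kernel)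
theorem L2503763 : W_2 (nat_lit 5) (nat_lit 0xd000280010000800000000000000000000000) (nat_lit 0x0) (nat_lit 0x1000080000000140028001400080000000000000000000) := T_2 (nat_lit 96) (nat_lit 79) (nat_lit 6) (nat_lit 10) (nat_lit 8) L2503762 (by decide +kernel)
theorem L2503764 : W_2 (nat_lit 6) (nat_lit 0xd000280010000000000000000000000000000) (nat_lit 0x0) (nat_lit 0x1000180000000140028001c00080000000000000000000) := T_2 (nat_lit 95) (nat_lit 164) (nat_lit 7) (nat_lit 10) (nat_lit 5) L2503763 (by decide +kernel)
theorem L2503765 : W_2 (nat_lit 3) (nat_lit 0xd0002c0010000000000000000000000000000) (nat_lit 0x0) (nat_lit 0x40002000180000000000000000800000000000000000000000) := T_2 (nat_lit 164) (nat_lit 95) (nat_lit 7) (nat_lit 10) (nat_lit 5) L455010 (by decide +kernel)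
theorem L2503766 : W_2 (nat_lit 4) (nat_lit 0xd000280010000000000000000000000000000) (nat_lit 0x0) (nat_lit 0x40002000180000000140000000800000000000000000000000) := T_2 (nat_lit 126) (nat_lit 128) (nat_lit 3) (nat_lit 7) (nat_lit 7) L2503765 (by decide +kernel)
theorem L2503767 : W_2 (nat_lit 2) (nat_lit 0x18000d000280038000000000000000000000000000) (nat_lit 0x0) (nat_lit 0x1000000000000100040000000000000000000000000000) := D_2 (nat_lit 128) (nat_lit 114) (nat_lit 180) (nat_lit 1) (nat_lit 12) (nat_lit 6) (nat_lit 4) (nat_lit 10) (nat_lit 10) (by decide +kernel)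
theorem L2503768 : W_2 (nat_lit 3) (nat_lit 0x18000d000280030000000000000000000000000000) (nat_lit 0x0) (nat_lit 0x1000000000000100048000400000000000000000000000) := T_2 (nat_lit 111) (nat_lit 94) (nat_lit 4) (nat_lit 10) (nat_lit 9) L2503767 (by decide +kernel)
theorem L2503769 : W_2 (nat_lit 4) (nat_lit 0x18000d000280010000000000000000000000000000) (nat_lit 0x0) (nat_lit 0x1000000000000100068001400000000000000000000000) := T_2 (nat_lit 113) (nat_lit 96) (nat_lit 6) (nat_lit 10) (nat_lit 9) L2503768 (by decide +kernel)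
theorem L2503770 : W_2 (nat_lit 5) (nat_lit 0x8000d000280010000000000000000000000000000) (nat_lit 0x0) (nat_lit 0x3000100000000100068001400000000000000000000000) := T_2 (nat_lit 164) (nat_lit 181) (nat_lit 7) (nat_lit 10) (nat_lit 6) L2503769 (by decide +kernel)
theorem L2503771 : W_2 (nat_lit 2) (nat_lit 0x5000100008000d0002c0010000000000000000000000000000) (nat_lit 0x0) (nat_lit 0xa00020000000000000000000000000000000000000000000000000) := D_2 (nat_lit 197) (nat_lit 215) (nat_lit 213) (nat_lit 7) (nat_lit 10) (nat_lit 8) (nat_lit 5) (nat_lit 10) (nat_lit 8) (by decide +kernel)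
theorem L2503772 : W_2 (nat_lit 3) (nat_lit 0x4000100008000d0002c0010000000000000000000000000000) (nat_lit 0x0) (nat_lit 0xa00030000800000000000000000000000000000000000000000000) := T_2 (nat_lit 196) (nat_lit 179) (nat_lit 5) (nat_lit 10) (nat_lit 7) L2503771 (by decide +kernel)
theorem L2503773 : W_2 (nat_lit 4) (nat_lit 0x100008000d0002c0010000000000000000000000000000) (nat_lit 0x0) (nat_lit 0xa00070002800000000000000000000000000000000000000000000) := T_2 (nat_lit 198) (nat_lit 181) (nat_lit 7) (nat_lit 10) (nat_lit 7) L2503772 (by decide +kernel)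
theorem L2503774 : W_2 (nat_lit 5) (nat_lit 0x100008000d000280010000000000000000000000000000) (nat_lit 0x0) (nat_lit 0xa00070002800000000000140000000000000000000000000000000) := T_2 (nat_lit 126) (nat_lit 128) (nat_lit 3) (nat_lit 7) (nat_lit 7) L2503773 (by decide +kernel)
theorem L2503775 : W_2 (nat_lit 2) (nat_lit 0x40003000100008000d0002c0030000000000000000000000000000) (nat_lit 0x0) (nat_lit 0x10000800040000000000000000000000000000000000000000000000000) := D_2 (nat_lit 215) (nat_lit 198) (nat_lit 232) (nat_lit 7) (nat_lit 10) (nat_lit 8) (nat_lit 7) (nat_lit 10) (nat_lit 9) (by decide +kernel)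
theorem L2503776 : W_2 (nat_lit 3) (nat_lit 0x3000100008000d0002c0030000000000000000000000000000) (nat_lit 0x0) (nat_lit 0x10000c00040000000100000000000000000000000000000000000000000) := T_2 (nat_lit 214) (nat_lit 164) (nat_lit 6) (nat_lit 10) (nat_lit 12) L2503775 (by decide +kernel)
theorem L2503777 : W_2 (nat_lit 4) (nat_lit 0x1000100008000d0002c0030000000000000000000000000000) (nat_lit 0x0) (nat_lit 0x10000e00060000000100000000000000000000000000000000000000000) := T_2 (nat_lit 197) (nat_lit 213) (nat_lit 5) (nat_lit 10) (nat_lit 8) L2503776 (by decide +kernel)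
theorem L2503778 : W_2 (nat_lit 5) (nat_lit 0x1000100008000d0002c0010000000000000000000000000000) (nat_lit 0x0) (nat_lit 0x10000e00060000000100000000000020001000000000000000000000000) := T_2 (nat_lit 113) (nat_lit 96) (nat_lit 6) (nat_lit 10) (nat_lit 9) L2503777 (by decide +kernel)
theorem L2503779 : W_2 (nat_lit 6) (nat_lit 0x100008000d0002c0010000000000000000000000000000) (nat_lit 0x0) (nat_lit 0x10000e00070000800100000000000020001000000000000000000000000) := T_2 (nat_lit 196) (nat_lit 179) (nat_lit 5) (nat_lit 10) (nat_lit 7) L2503778 (by decide +kernel)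
theorem L2503780 : W_2 (nat_lit 7) (nat_lit 0x100008000d000280010000000000000000000000000000) (nat_lit 0x0) (nat_lit 0x10000e00070000800100000000140020001000000000000000000000000) := T_2 (nat_lit 126) (nat_lit 128) (nat_lit 3) (nat_lit 7) (nat_lit 7) L2503779 (by decide +kernel)
theorem L2503781 : W_2 (nat_lit 8) (nat_lit 0x8000d000280010000000000000000000000000000) (nat_lit 0x0) (nat_lit 0x10000e00070003800100000000140020001000000000000000000000000) := Q_2 (nat_lit 180) (C_2 L2503702 (C_2 L2503684 (C_2 L2503774 (C_2 L2503780 N_2)))) (by decide +kernel)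
theorem L2503782 : W_2 (nat_lit 2) (nat_lit 0x18000d000380010000000000000000000000000000) (nat_lit 0x0) (nat_lit 0x1000000000000000008000400000000000000000000000) := D_2 (nat_lit 111) (nat_lit 94) (nat_lit 180) (nat_lit 4) (nat_lit 10) (nat_lit 9) (nat_lit 4) (nat_lit 10) (nat_lit 10) (by decide +kernel)
theorem L2503783 : W_2 (nat_lit 3) (nat_lit 0x18000d000280010000000000000000000000000000) (nat_lit 0x0) (nat_lit 0x1000000000000140008000400000000000000000000000) := T_2 (nat_lit 128) (nat_lit 126) (nat_lit 3) (nat_lit 7) (nat_lit 7) L2503782 (by decide +kernel)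
theorem L2503784 : W_2 (nat_lit 4) (nat_lit 0x8000d000280010000000000000000000000000000) (nat_lit 0x0) (nat_lit 0x3000100000000140008000400000000000000000000000) := T_2 (nat_lit 164) (nat_lit 181) (nat_lit 7) (nat_lit 10) (nat_lit 6) L2503783 (by decide +kernel)
theorem L2503785 : W_2 (nat_lit 2) (nat_lit 0x8000d000280018000000000000000000000000000) (nat_lit 0x0) (nat_lit 0x1000000000000140000000000000000000000000000000) := D_2 (nat_lit 128) (nat_lit 126) (nat_lit 180) (nat_lit 3) (nat_lit 7) (nat_lit 7) (nat_lit 4) (nat_lit 10) (nat_lit 10) (by decide +kernel)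
theorem L2503786 : W_2 (nat_lit 3) (nat_lit 0x8000d000280010000000000000000000000000000) (nat_lit 0x0) (nat_lit 0x1000000000000140008000400000000000000000000000) := T_2 (nat_lit 111) (nat_lit 94) (nat_lit 4) (nat_lit 10) (nat_lit 9) L2503785 (by decide +kernel)
theorem L2503787 : W_2 (nat_lit 3) (nat_lit 0x8000d000280030000000000000000000000000000) (nat_lit 0x0) (nat_lit 0x14000c000400000000000000000000000) := T_2 (nat_lit 126) (nat_lit 128) (nat_lit 3) (nat_lit 7) (nat_lit 7) L453182 (by decide +kernel)
theorem L2503788 : W_2 (nat_lit 4) (nat_lit 0x8000d000280010000000000000000000000000000) (nat_lit 0x0) (nat_lit 0x14002c001400000000000000000000000) := T_2 (nat_lit 113) (nat_lit 96) (nat_lit 6) (nat_lit 10) (nat_lit 9) L2503787 (by decide +kernel)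
theorem L2503789 : W_2 (nat_lit 11) (nat_lit 0xd000280010000000000000000000000000000) (nat_lit 0x0) (nat_lit 0x10000e0007000380018000000014006c001700000000000000000000000) := Q_2 (nat_lit 163) (C_2 L2503770 (C_2 L2503703 (C_2 L2503781 (C_2 L2503784 (C_2 L2503786 (C_2 L2503788 N_2)))))) (by decide +kernel)
theorem L2503790 : W_2 (nat_lit 2) (nat_lit 0x8000d000280038000000000000000000000000000) (nat_lit 0x0) (nat_lit 0x1000000000000100040000000000000000000000000000) := D_2 (nat_lit 128) (nat_lit 114) (nat_lit 180) (nat_lit 1) (nat_lit 12) (nat_lit 6) (nat_lit 4) (nat_lit 10) (nat_lit 10) (by decide +kernel)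
theorem L2503791 : W_2 (nat_lit 3) (nat_lit 0x8000d000280030000000000000000000000000000) (nat_lit 0x0) (nat_lit 0x1000000000000100048000400000000000000000000000) := T_2 (nat_lit 111) (nat_lit 94) (nat_lit 4) (nat_lit 10) (nat_lit 9) L2503790 (by decide +kernel)
theorem L2503792 : W_2 (nat_lit 4) (nat_lit 0xd000280030000000000000000000000000000) (nat_lit 0x0) (nat_lit 0x1000080000000100048001400000000000000000000000) := T_2 (nat_lit 163) (nat_lit 96) (nat_lit 6) (nat_lit 10) (nat_lit 9) L2503791 (by decide +kernel)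
theorem L2503793 : W_2 (nat_lit 2) (nat_lit 0xd000280030001000000000000000000000000) (nat_lit 0x0) (nat_lit 0x800080004000000000000000) := D_2 (nat_lit 79) (nat_lit 95) (nat_lit 62) (nat_lit 6) (nat_lit 10) (nat_lit 8) (nat_lit 5) (nat_lit 11) (nat_lit 3) (by decide +kernel)
theorem L2503794 : W_2 (nat_lit 3) (nat_lit 0xd000280030000000000000000000000000000) (nat_lit 0x0) (nat_lit 0x80000000000000001800080004000000000000000) := T_2 (nat_lit 96) (nat_lit 163) (nat_lit 6) (nat_lit 10) (nat_lit 9) L2503793 (by decide +kernel)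
theorem L2503795 : W_2 (nat_lit 2) (nat_lit 0xd0002c0038000400000000000000000000000) (nat_lit 0x0) (nat_lit 0x800020001000000000000000) := D_2 (nat_lit 77) (nat_lit 95) (nat_lit 60) (nat_lit 4) (nat_lit 10) (nat_lit 8) (nat_lit 7) (nat_lit 9) (nat_lit 3) (by decide +kernel)
theorem L2503796 : W_2 (nat_lit 3) (nat_lit 0xd0002c0038000000000000000000000000000) (nat_lit 0x0) (nat_lit 0x80000000000000000c00020001000000000000000) := T_2 (nat_lit 94) (nat_lit 163) (nat_lit 4) (nat_lit 10) (nat_lit 9) L2503795 (by decide +kernel)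
theorem L2503797 : W_2 (nat_lit 4) (nat_lit 0xd0002c0030000000000000000000000000000) (nat_lit 0x0) (nat_lit 0x8000000000000c000c00020001000000000000000) := T_2 (nat_lit 111) (nat_lit 110) (nat_lit 1) (nat_lit 11) (nat_lit 6) L2503796 (by decide +kernel)
theorem L2503798 : W_2 (nat_lit 5) (nat_lit 0xd000280030000000000000000000000000000) (nat_lit 0x0) (nat_lit 0x8000000014000c000c00020001000000000000000) := T_2 (nat_lit 126) (nat_lit 128) (nat_lit 3) (nat_lit 7) (nat_lit 7) L2503797 (by decide +kernel)
theorem L2503799 : W_2 (nat_lit 2) (nat_lit 0xd000380030000000000000000000000000000) (nat_lit 0x0) (nat_lit 0xc8000000000000000000000000000) := D_2 (nat_lit 114) (nat_lit 115) (nat_lit 111) (nat_lit 1) (nat_lit 13) (nat_lit 6) (nat_lit 1) (nat_lit 12) (nat_lit 6) (by decide +kernel)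
theorem L2503800 : W_2 (nat_lit 3) (nat_lit 0xd000280030000000000000000000000000000) (nat_lit 0x0) (nat_lit 0x1400c8000000000000000000000000000) := T_2 (nat_lit 128) (nat_lit 126) (nat_lit 3) (nat_lit 7) (nat_lit 7) L2503799 (by decide +kernel)
theorem L2503801 : W_2 (nat_lit 6) (nat_lit 0xd000280010000000000000000000000000000) (nat_lit 0x0) (nat_lit 0x10000800000001400ec001c000a0005000000000000000) := Q_2 (nat_lit 113) (C_2 L2503792 (C_2 L2503794 (C_2 L2503798 (C_2 L2503800 N_2)))) (by decide +kernel)
theorem L2503802 : W_2 (nat_lit 2) (nat_lit 0xd0002c00100008000a0000000000000000000) (nat_lit 0x0) (nat_lit 0x40005000000000000000) := D_2 (nat_lit 78) (nat_lit 62) (nat_lit 60) (nat_lit 6) (nat_lit 10) (nat_lit 7) (nat_lit 4) (nat_lit 10) (nat_lit 7) (by decide +kernel)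
theorem L2503803 : W_2 (nat_lit 3) (nat_lit 0xd0002c0010000800080000000000000000000) (nat_lit 0x0) (nat_lit 0x400060005000000000000000) := T_2 (nat_lit 77) (nat_lit 94) (nat_lit 4) (nat_lit 10) (nat_lit 8) L2503802 (by decide +kernel)
theorem L2503804 : W_2 (nat_lit 4) (nat_lit 0xd0002c0010000800000000000000000000000) (nat_lit 0x0) (nat_lit 0x14000e0005000000000000000) := T_2 (nat_lit 79) (nat_lit 96) (nat_lit 6) (nat_lit 10) (nat_lit 8) L2503803 (by decide +kernel)
theorem L2503805 : W_2 (nat_lit 5) (nat_lit 0xd0002c0010000000000000000000000000000) (nat_lit 0x0) (nat_lit 0x100000000000000001c000e0005000000000000000) := T_2 (nat_lit 95) (nat_lit 164) (nat_lit 7) (nat_lit 10) (nat_lit 5) L2503804 (by decide +kernel)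
theorem L2503806 : W_2 (nat_lit 6) (nat_lit 0xd000280010000000000000000000000000000) (nat_lit 0x0) (nat_lit 0x100000000140000001c000e0005000000000000000) := T_2 (nat_lit 126) (nat_lit 128) (nat_lit 3) (nat_lit 7) (nat_lit 7) L2503805 (by decide +kernel)
theorem L2503807 : W_2 (nat_lit 12) (nat_lit 0xd000280000000000000000000000000000000) (nat_lit 0x0) (nat_lit 0x10000e000700038001800000001400fc001f000e0005000000000000000) := Q_2 (nat_lit 112) (C_2 L2503616 (C_2 L2503759 (C_2 L2503764 (C_2 L2503766 (C_2 L2503789 (C_2 L2503801 (C_2 L2503806 N_2))))))) (by decide +kernel)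
theorem L2503808 : W_2 (nat_lit 17) (nat_lit 0xd000080000000000000000000000000000000) (nat_lit 0x0) (nat_lit 0x10000e0017000f800f80070003f401fc00ff003e0005000000000000000) := Q_2 (nat_lit 129) (C_2 L2503609 (C_2 L2503675 (C_2 L2503753 (C_2 L2503807 N_2)))) (by decide +kernel)
theorem L2503809 : W_2 (nat_lit 2) (nat_lit 0x1f000080000000000000000000000000000000) (nat_lit 0x0) (nat_lit 0x1c00000000000000000000000000000000) := D_2 (nat_lit 131) (nat_lit 130) (nat_lit 132) (nat_lit 2) (nat_lit 8) (nat_lit 8) (nat_lit 2) (nat_lit 9) (nat_lit 8) (by decide +kernel)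
theorem L2503810 : W_2 (nat_lit 3) (nat_lit 0xf000080000000000000000000000000000000) (nat_lit 0x0) (nat_lit 0x10001d00000000000000000000000000000000) := T_2 (nat_lit 148) (nat_lit 128) (nat_lit 0) (nat_lit 12) (nat_lit 8) L2503809 (by decide +kernel)
theorem L2503811 : W_2 (nat_lit 2) (nat_lit 0x2001f000080000000000000000000000000000000) (nat_lit 0x0) (nat_lit 0x700000000000000000000000000000000000000000) := D_2 (nat_lit 165) (nat_lit 164) (nat_lit 166) (nat_lit 3) (nat_lit 8) (nat_lit 8) (nat_lit 3) (nat_lit 9) (nat_lit 8) (by decide +kernel)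
theorem L2503812 : W_2 (nat_lit 3) (nat_lit 0x2000f000080000000000000000000000000000000) (nat_lit 0x0) (nat_lit 0x700010000100000000000000000000000000000000) := T_2 (nat_lit 148) (nat_lit 128) (nat_lit 0) (nat_lit 12) (nat_lit 8) L2503811 (by decide +kernel)
theorem L2503813 : W_2 (nat_lit 4) (nat_lit 0xf000080000000000000000000000000000000) (nat_lit 0x0) (nat_lit 0x730010000100000000000000000000000000000000) := T_2 (nat_lit 161) (nat_lit 160) (nat_lit 1) (nat_lit 11) (nat_lit 8) L2503812 (by decide +kernel)
theorem L2503814 : W_2 (nat_lit 2) (nat_lit 0x2000000018000f000580020000400000000000000000000000) (nat_lit 0x0) (nat_lit 0x200040002000000000000000000000000) := D_2 (nat_lit 114) (nat_lit 97) (nat_lit 129) (nat_lit 6) (nat_lit 11) (nat_lit 9) (nat_lit 2) (nat_lit 8) (nat_lit 7) (by decide +kernel)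
theorem L2503815 : W_2 (nat_lit 3) (nat_lit 0x2000000008000f000580020000400000000000000000000000) (nat_lit 0x0) (nat_lit 0x300000000200040002000000000000000000000000) := T_2 (nat_lit 164) (nat_lit 165) (nat_lit 3) (nat_lit 8) (nat_lit 8) L2503814 (by decide +kernel)
theorem L2503816 : W_2 (nat_lit 4) (nat_lit 0x2000000008000f000580000000400000000000000000000000) (nat_lit 0x0) (nat_lit 0x300000000200060003000000000000000000000000) := T_2 (nat_lit 113) (nat_lit 96) (nat_lit 5) (nat_lit 11) (nat_lit 5) L2503815 (by decide +kernel)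
theorem L2503817 : W_2 (nat_lit 5) (nat_lit 0x2000000008000f000580000000000000000000000000000000) (nat_lit 0x0) (nat_lit 0x300000000200068003400000000000000000000000) := T_2 (nat_lit 94) (nat_lit 111) (nat_lit 7) (nat_lit 9) (nat_lit 5) L2503816 (by decide +kernel)
theorem L2503818 : W_2 (nat_lit 6) (nat_lit 0x8000f000580000000000000000000000000000000) (nat_lit 0x0) (nat_lit 0x20001000300000000200068003400000000000000000000000) := T_2 (nat_lit 197) (nat_lit 180) (nat_lit 6) (nat_lit 10) (nat_lit 11) L2503817 (by decide +kernel)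
theorem L2503819 : W_2 (nat_lit 7) (nat_lit 0x8000f000180000000000000000000000000000000) (nat_lit 0x0) (nat_lit 0x20001000300000000e00068003400000000000000000000000) := T_2 (nat_lit 130) (nat_lit 131) (nat_lit 2) (nat_lit 8) (nat_lit 8) L2503818 (by decide +kernel)
theorem L2503820 : W_2 (nat_lit 2) (nat_lit 0x2000000018000f000580028000000000000000000000000000) (nat_lit 0x0) (nat_lit 0x50000800000000000000000000000) := D_2 (nat_lit 112) (nat_lit 95) (nat_lit 114) (nat_lit 4) (nat_lit 11) (nat_lit 9) (nat_lit 1) (nat_lit 12) (nat_lit 6) (by decide +kernel)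
theorem L2503821 : W_2 (nat_lit 3) (nat_lit 0x2000000018000f000580008000000000000000000000000000) (nat_lit 0x0) (nat_lit 0x70001800000000000000000000000) := T_2 (nat_lit 113) (nat_lit 96) (nat_lit 5) (nat_lit 11) (nat_lit 5) L2503820 (by decide +kernel)
theorem L2503822 : W_2 (nat_lit 4) (nat_lit 0x2000000018000f000180008000000000000000000000000000) (nat_lit 0x0) (nat_lit 0xc00070001800000000000000000000000) := T_2 (nat_lit 130) (nat_lit 131) (nat_lit 2) (nat_lit 8) (nat_lit 8) L2503821 (by decide +kernel)
theorem L2503823 : W_2 (nat_lit 5) (nat_lit 0x2000000018000f000180000000000000000000000000000000) (nat_lit 0x0) (nat_lit 0xc00078001c00000000000000000000000) := T_2 (nat_lit 111) (nat_lit 94) (nat_lit 7) (nat_lit 9) (nat_lit 5) L2503822 (by decide +kernel)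
theorem L2503824 : W_2 (nat_lit 6) (nat_lit 0x18000f000180000000000000000000000000000000) (nat_lit 0x0) (nat_lit 0x20001000000000000c00078001c00000000000000000000000) := T_2 (nat_lit 197) (nat_lit 180) (nat_lit 4) (nat_lit 10) (nat_lit 11) L2503823 (by decide +kernel)
theorem L2503825 : W_2 (nat_lit 7) (nat_lit 0x8000f000180000000000000000000000000000000) (nat_lit 0x0) (nat_lit 0x20001000300000000c00078001c00000000000000000000000) := T_2 (nat_lit 164) (nat_lit 165) (nat_lit 3) (nat_lit 8) (nat_lit 8) L2503824 (by decide +kernel)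
theorem L2503826 : W_2 (nat_lit 2) (nat_lit 0x2000000018000f000580020000000000000000000000000000) (nat_lit 0x0) (nat_lit 0x200040002000000000000000000000000) := D_2 (nat_lit 114) (nat_lit 97) (nat_lit 129) (nat_lit 6) (nat_lit 11) (nat_lit 9) (nat_lit 2) (nat_lit 8) (nat_lit 7) (by decide +kernel)
theorem L2503827 : W_2 (nat_lit 3) (nat_lit 0x2000000008000f000580020000000000000000000000000000) (nat_lit 0x0) (nat_lit 0x300000000200040002000000000000000000000000) := T_2 (nat_lit 164) (nat_lit 165) (nat_lit 3) (nat_lit 8) (nat_lit 8) L2503826 (by decide +kernel)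
theorem L2503828 : W_2 (nat_lit 4) (nat_lit 0x2000000008000f000580000000000000000000000000000000) (nat_lit 0x0) (nat_lit 0x300000000200060003000000000000000000000000) := T_2 (nat_lit 113) (nat_lit 96) (nat_lit 5) (nat_lit 11) (nat_lit 5) L2503827 (by decide +kernel)
theorem L2503829 : W_2 (nat_lit 5) (nat_lit 0x8000f000580000000000000000000000000000000) (nat_lit 0x0) (nat_lit 0x20001000300000000200060003000000000000000000000000) := T_2 (nat_lit 197) (nat_lit 180) (nat_lit 6) (nat_lit 10) (nat_lit 11) L2503828 (by decide +kernel)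
theorem L2503830 : W_2 (nat_lit 6) (nat_lit 0x8000f000180000000000000000000000000000000) (nat_lit 0x0) (nat_lit 0x20001000300000000e00060003000000000000000000000000) := T_2 (nat_lit 130) (nat_lit 131) (nat_lit 2) (nat_lit 8) (nat_lit 8) L2503829 (by decide +kernel)
theorem L2503831 : W_2 (nat_lit 2) (nat_lit 0x100018000f000180000000000000000000000000000000) (nat_lit 0x0) (nat_lit 0x200008000400000000000000000000000) := D_2 (nat_lit 111) (nat_lit 94) (nat_lit 129) (nat_lit 7) (nat_lit 9) (nat_lit 5) (nat_lit 4) (nat_lit 10) (nat_lit 10) (by decide +kernel)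
theorem L2503832 : W_2 (nat_lit 3) (nat_lit 0x18000f000180000000000000000000000000000000) (nat_lit 0x0) (nat_lit 0x20001000000000000200008000400000000000000000000000) := T_2 (nat_lit 180) (nat_lit 197) (nat_lit 4) (nat_lit 10) (nat_lit 11) L2503831 (by decide +kernel)
theorem L2503833 : W_2 (nat_lit 4) (nat_lit 0x8000f000180000000000000000000000000000000) (nat_lit 0x0) (nat_lit 0x20001000300000000200008000400000000000000000000000) := T_2 (nat_lit 164) (nat_lit 165) (nat_lit 3) (nat_lit 8) (nat_lit 8) L2503832 (by decide +kernel)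
theorem L2503834 : W_2 (nat_lit 2) (nat_lit 0x100008000f000580000000400000000000000000000000) (nat_lit 0x0) (nat_lit 0x200020001000000000000000000000000) := D_2 (nat_lit 113) (nat_lit 96) (nat_lit 129) (nat_lit 5) (nat_lit 11) (nat_lit 5) (nat_lit 6) (nat_lit 10) (nat_lit 10) (by decide +kernel)
theorem L2503835 : W_2 (nat_lit 3) (nat_lit 0x8000f000580000000400000000000000000000000) (nat_lit 0x0) (nat_lit 0x20001000000000000200020001000000000000000000000000) := T_2 (nat_lit 180) (nat_lit 197) (nat_lit 6) (nat_lit 10) (nat_lit 11) L2503834 (by decide +kernel)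
theorem L2503836 : W_2 (nat_lit 4) (nat_lit 0x8000f000180000000400000000000000000000000) (nat_lit 0x0) (nat_lit 0x20001000000000000e00020001000000000000000000000000) := T_2 (nat_lit 130) (nat_lit 131) (nat_lit 2) (nat_lit 8) (nat_lit 8) L2503835 (by decide +kernel)
theorem L2503837 : W_2 (nat_lit 5) (nat_lit 0x8000f000180000000000000000000000000000000) (nat_lit 0x0) (nat_lit 0x20001000000000000e00028001400000000000000000000000) := T_2 (nat_lit 94) (nat_lit 111) (nat_lit 7) (nat_lit 9) (nat_lit 5) L2503836 (by decide +kernel)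
theorem L2503838 : W_2 (nat_lit 2) (nat_lit 0x18000f000780008001000000000000000000000000) (nat_lit 0x0) (nat_lit 0x40002000000000000000010000000000000000000000000000) := D_2 (nat_lit 181) (nat_lit 112) (nat_lit 198) (nat_lit 7) (nat_lit 10) (nat_lit 6) (nat_lit 4) (nat_lit 11) (nat_lit 11) (by decide +kernel)
theorem L2503839 : W_2 (nat_lit 3) (nat_lit 0x18000f000580008001000000000000000000000000) (nat_lit 0x0) (nat_lit 0x40003000000000000200010000000000000000000000000000) := T_2 (nat_lit 129) (nat_lit 180) (nat_lit 4) (nat_lit 10) (nat_lit 10) L2503838 (by decide +kernel)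
theorem L2503840 : W_2 (nat_lit 4) (nat_lit 0x8000f000580008001000000000000000000000000) (nat_lit 0x0) (nat_lit 0x40003000300000000200010000000000000000000000000000) := T_2 (nat_lit 164) (nat_lit 165) (nat_lit 3) (nat_lit 8) (nat_lit 8) L2503839 (by decide +kernel)
theorem L2503841 : W_2 (nat_lit 5) (nat_lit 0x8000f000580000001000000000000000000000000) (nat_lit 0x0) (nat_lit 0x40003000300000000200018000400000000000000000000000) := T_2 (nat_lit 111) (nat_lit 94) (nat_lit 7) (nat_lit 9) (nat_lit 5) L2503840 (by decide +kernel)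
theorem L2503842 : W_2 (nat_lit 6) (nat_lit 0x8000f000580000000000000000000000000000000) (nat_lit 0x0) (nat_lit 0x40003000300000000200038001400000000000000000000000) := T_2 (nat_lit 96) (nat_lit 113) (nat_lit 5) (nat_lit 11) (nat_lit 5) L2503841 (by decide +kernel)
theorem L2503843 : W_2 (nat_lit 7) (nat_lit 0x8000f000180000000000000000000000000000000) (nat_lit 0x0) (nat_lit 0x40003000300000000e00038001400000000000000000000000) := T_2 (nat_lit 130) (nat_lit 131) (nat_lit 2) (nat_lit 8) (nat_lit 8) L2503842 (by decide +kernel)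
theorem L2503844 : W_2 (nat_lit 2) (nat_lit 0x18000f000580020000000000000000000000000000) (nat_lit 0x0) (nat_lit 0x200040002000000000000000000000000) := D_2 (nat_lit 114) (nat_lit 129) (nat_lit 97) (nat_lit 2) (nat_lit 8) (nat_lit 7) (nat_lit 6) (nat_lit 11) (nat_lit 9) (by decide +kernel)
theorem L2503845 : W_2 (nat_lit 3) (nat_lit 0x18000f000580000000000000000000000000000000) (nat_lit 0x0) (nat_lit 0x200060003000000000000000000000000) := T_2 (nat_lit 113) (nat_lit 96) (nat_lit 5) (nat_lit 11) (nat_lit 5) L2503844 (by decide +kernel)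
theorem L2503846 : W_2 (nat_lit 4) (nat_lit 0x18000f000180000000000000000000000000000000) (nat_lit 0x0) (nat_lit 0xe00060003000000000000000000000000) := T_2 (nat_lit 130) (nat_lit 131) (nat_lit 2) (nat_lit 8) (nat_lit 8) L2503845 (by decide +kernel)
theorem L2503847 : W_2 (nat_lit 5) (nat_lit 0x8000f000180000000000000000000000000000000) (nat_lit 0x0) (nat_lit 0x300000000e00060003000000000000000000000000) := T_2 (nat_lit 164) (nat_lit 165) (nat_lit 3) (nat_lit 8) (nat_lit 8) L2503846 (by decide +kernel)
theorem L2503848 : W_2 (nat_lit 8) (nat_lit 0xf000180000000000000000000000000000000) (nat_lit 0x0) (nat_lit 0x60003000380000000e00078003c00000000000000000000000) := Q_2 (nat_lit 163) (C_2 L2503819 (C_2 L2503825 (C_2 L2503830 (C_2 L2503833 (C_2 L2503837 (C_2 L2503843 (C_2 L2503847 N_2))))))) (by decide +kernel)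
theorem L2503849 : W_2 (nat_lit 10) (nat_lit 0xf000080000000000000000000000000000000) (nat_lit 0x0) (nat_lit 0x7c003e003b0000000f00078003c00000000000000000000000) := Q_2 (nat_lit 128) (C_2 L1436718 (C_2 L2503848 (C_2 L917541 N_2))) (by decide +kernel)
theorem L2503850 : W_2 (nat_lit 11) (nat_lit 0xd000080000000000000000000000000000000) (nat_lit 0x0) (nat_lit 0x7c003e007b0012001f00078003c00000000000000000000000) := Q_2 (nat_lit 145) (C_2 L1866978 (C_2 L2503810 (C_2 L2503813 (C_2 L2503849 N_2)))) (by decide +kernel)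
theorem L2503851 : W_2 (nat_lit 5) (nat_lit 0xd000080000000000000000000000000000000) (nat_lit 0x0) (nat_lit 0x730012000140000000000000000000000000000000) := T_2 (nat_lit 145) (nat_lit 126) (nat_lit 0) (nat_lit 11) (nat_lit 8) L2503813 (by decide +kernel)
theorem L2503852 : W_2 (nat_lit 4) (nat_lit 0xd000080000000000000000000000000000000) (nat_lit 0x0) (nat_lit 0x12001d40000000000000000000000000000000) := T_2 (nat_lit 145) (nat_lit 126) (nat_lit 0) (nat_lit 11) (nat_lit 8) L2503810 (by decide +kernel)
theorem L2503853 : W_2 (nat_lit 11) (nat_lit 0xd000080000000000000000000000000000000) (nat_lit 0x0) (nat_lit 0x7c003e003b0002000f40078003c00000000000000000000000) := T_2 (nat_lit 145) (nat_lit 126) (nat_lit 0) (nat_lit 11) (nat_lit 8) L2503849 (by decide +kernel)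
theorem L2503854 : W_2 (nat_lit 18) (nat_lit 0x5000080000000000000000000000000000000) (nat_lit 0x0) (nat_lit 0x10000e0017c00fe00fb007a003f401fc00ff003e0005000000000000000) := Q_2 (nat_lit 147) (C_2 L2503608 (C_2 L2503808 (C_2 L2503850 (C_2 L2503851 (C_2 L2503852 (C_2 L2503853 N_2)))))) (by decide +kernel)
theorem L2503855 : W_2 (nat_lit 4) (nat_lit 0x7000080000000000000000000000000000000) (nat_lit 0x0) (nat_lit 0x18001d40000000000000000000000000000000) := T_2 (nat_lit 147) (nat_lit 126) (nat_lit 0) (nat_lit 11) (nat_lit 8) L2503810 (by decide +kernel)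
theorem L2503856 : W_2 (nat_lit 2) (nat_lit 0x400000011000f800880000000000000000000000000000000) (nat_lit 0x0) (nat_lit 0x10001100000000000000000000000000000000) := D_2 (nat_lit 148) (nat_lit 128) (nat_lit 132) (nat_lit 0) (nat_lit 12) (nat_lit 8) (nat_lit 2) (nat_lit 9) (nat_lit 8) (by decide +kernel)
theorem L2503857 : W_2 (nat_lit 3) (nat_lit 0x400000011000f800080000000000000000000000000000000) (nat_lit 0x0) (nat_lit 0x10001d00000000000000000000000000000000) := T_2 (nat_lit 131) (nat_lit 130) (nat_lit 2) (nat_lit 8) (nat_lit 8) L2503856 (by decide +kernel)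
theorem L2503858 : W_2 (nat_lit 4) (nat_lit 0x4000000110007800080000000000000000000000000000000) (nat_lit 0x0) (nat_lit 0x200018001d00000000000000000000000000000000) := T_2 (nat_lit 147) (nat_lit 165) (nat_lit 3) (nat_lit 8) (nat_lit 8) L2503857 (by decide +kernel)
theorem L2503859 : W_2 (nat_lit 5) (nat_lit 0x110007800080000000000000000000000000000000) (nat_lit 0x0) (nat_lit 0x4000200200018001d00000000000000000000000000000000) := T_2 (nat_lit 194) (nat_lit 177) (nat_lit 6) (nat_lit 7) (nat_lit 11) L2503858 (by decide +kernel)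
theorem L2503860 : W_2 (nat_lit 6) (nat_lit 0x10007800080000000000000000000000000000000) (nat_lit 0x0) (nat_lit 0x4000200380018001d00000000000000000000000000000000) := T_2 (nat_lit 164) (nat_lit 163) (nat_lit 3) (nat_lit 7) (nat_lit 8) L2503859 (by decide +kernel)
theorem L2503861 : W_2 (nat_lit 7) (nat_lit 0x7800080000000000000000000000000000000) (nat_lit 0x0) (nat_lit 0x4000200398018001d00000000000000000000000000000000) := T_2 (nat_lit 160) (nat_lit 159) (nat_lit 1) (nat_lit 10) (nat_lit 8) L2503860 (by decide +kernel)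
theorem L2503862 : W_2 (nat_lit 2) (nat_lit 0x400000011000f800180000000000000000000000000000000) (nat_lit 0x0) (nat_lit 0x600200000000000000000000000000000000) := D_2 (nat_lit 142) (nat_lit 141) (nat_lit 129) (nat_lit 2) (nat_lit 5) (nat_lit 8) (nat_lit 2) (nat_lit 6) (nat_lit 8) (by decide +kernel)
theorem L2503863 : W_2 (nat_lit 3) (nat_lit 0x400000011000f800080000000000000000000000000000000) (nat_lit 0x0) (nat_lit 0x10600300000000000000000000000000000000) := T_2 (nat_lit 128) (nat_lit 148) (nat_lit 0) (nat_lit 12) (nat_lit 8) L2503862 (by decide +kernel)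
theorem L2503864 : W_2 (nat_lit 4) (nat_lit 0x4000000110007800080000000000000000000000000000000) (nat_lit 0x0) (nat_lit 0x200018600300000000000000000000000000000000) := T_2 (nat_lit 147) (nat_lit 165) (nat_lit 3) (nat_lit 8) (nat_lit 8) L2503863 (by decide +kernel)
theorem L2503865 : W_2 (nat_lit 5) (nat_lit 0x110007800080000000000000000000000000000000) (nat_lit 0x0) (nat_lit 0x4000200200018600300000000000000000000000000000000) := T_2 (nat_lit 194) (nat_lit 177) (nat_lit 6) (nat_lit 7) (nat_lit 11) L2503864 (by decide +kernel)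
theorem L2503866 : W_2 (nat_lit 6) (nat_lit 0x10007800080000000000000000000000000000000) (nat_lit 0x0) (nat_lit 0x4000200380018600300000000000000000000000000000000) := T_2 (nat_lit 164) (nat_lit 163) (nat_lit 3) (nat_lit 7) (nat_lit 8) L2503865 (by decide +kernel)
theorem L2503867 : W_2 (nat_lit 7) (nat_lit 0x7800080000000000000000000000000000000) (nat_lit 0x0) (nat_lit 0x4000200398018600300000000000000000000000000000000) := T_2 (nat_lit 160) (nat_lit 159) (nat_lit 1) (nat_lit 10) (nat_lit 8) L2503866 (by decide +kernel)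
theorem L2503868 : W_2 (nat_lit 4) (nat_lit 0x10007800280000000000000000000000000000000) (nat_lit 0x0) (nat_lit 0x20001000180000400100008000000000000000000000000000) := T_2 (nat_lit 128) (nat_lit 142) (nat_lit 2) (nat_lit 6) (nat_lit 8) L2075660 (by decide +kernel)
theorem L2503869 : W_2 (nat_lit 5) (nat_lit 0x10007800080000000000000000000000000000000) (nat_lit 0x0) (nat_lit 0x20001000180000400700008000000000000000000000000000) := T_2 (nat_lit 129) (nat_lit 130) (nat_lit 2) (nat_lit 7) (nat_lit 8) L2503868 (by decide +kernel)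
theorem L2503870 : W_2 (nat_lit 6) (nat_lit 0x7800080000000000000000000000000000000) (nat_lit 0x0) (nat_lit 0x20001000198000400700008000000000000000000000000000) := T_2 (nat_lit 160) (nat_lit 159) (nat_lit 1) (nat_lit 10) (nat_lit 8) L2503869 (by decide +kernel)
theorem L2503871 : W_2 (nat_lit 2) (nat_lit 0x7c00280000000000000000000000000000000) (nat_lit 0x0) (nat_lit 0x1c000000000000000000000000000000000000000) := D_2 (nat_lit 159) (nat_lit 158) (nat_lit 160) (nat_lit 1) (nat_lit 9) (nat_lit 8) (nat_lit 1) (nat_lit 10) (nat_lit 8) (by decide +kernel)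
theorem L2503872 : W_2 (nat_lit 3) (nat_lit 0x7800280000000000000000000000000000000) (nat_lit 0x0) (nat_lit 0x1c000400100000000000000000000000000000000) := T_2 (nat_lit 142) (nat_lit 128) (nat_lit 2) (nat_lit 6) (nat_lit 8) L2503871 (by decide +kernel)
theorem L2503873 : W_2 (nat_lit 4) (nat_lit 0x7800080000000000000000000000000000000) (nat_lit 0x0) (nat_lit 0x1c000400700000000000000000000000000000000) := T_2 (nat_lit 129) (nat_lit 130) (nat_lit 2) (nat_lit 7) (nat_lit 8) L2503872 (by decide +kernel)
theorem L2503874 : W_2 (nat_lit 8) (nat_lit 0x7000080000000000000000000000000000000) (nat_lit 0x0) (nat_lit 0x2400120039c018e01f00008000000000000000000000000000) := Q_2 (nat_lit 143) (C_2 L1867017 (C_2 L2503861 (C_2 L2503867 (C_2 L2503870 (C_2 L2503873 N_2))))) (by decide +kernel)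
theorem L2503875 : W_2 (nat_lit 2) (nat_lit 0x1f000080000000000000000000000000000000) (nat_lit 0x0) (nat_lit 0x700000000000000000000000000000000000000000) := D_2 (nat_lit 165) (nat_lit 164) (nat_lit 166) (nat_lit 3) (nat_lit 8) (nat_lit 8) (nat_lit 3) (nat_lit 9) (nat_lit 8) (by decide +kernel)
theorem L2503876 : W_2 (nat_lit 3) (nat_lit 0xf000080000000000000000000000000000000) (nat_lit 0x0) (nat_lit 0x700010000100000000000000000000000000000000) := T_2 (nat_lit 148) (nat_lit 128) (nat_lit 0) (nat_lit 12) (nat_lit 8) L2503875 (by decide +kernel)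
theorem L2503877 : W_2 (nat_lit 4) (nat_lit 0x7000080000000000000000000000000000000) (nat_lit 0x0) (nat_lit 0x700018000140000000000000000000000000000000) := T_2 (nat_lit 147) (nat_lit 126) (nat_lit 0) (nat_lit 11) (nat_lit 8) L2503876 (by decide +kernel)
theorem L2503878 : W_2 (nat_lit 6) (nat_lit 0x7800080000000000000000000000000000000) (nat_lit 0x0) (nat_lit 0x20001000180000400760008000000000000000000000000000) := T_2 (nat_lit 126) (nat_lit 125) (nat_lit 0) (nat_lit 10) (nat_lit 8) L1040469 (by decide +kernel)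
theorem L2503879 : W_2 (nat_lit 8) (nat_lit 0x7000080000000000000000000000000000000) (nat_lit 0x0) (nat_lit 0x2400120019e000f0077c00c000000000000000000000000000) := Q_2 (nat_lit 143) (C_2 L2503873 (C_2 L1867019 (C_2 L1867024 (C_2 L1867039 (C_2 L2503878 N_2))))) (by decide +kernel)
theorem L2503880 : W_2 (nat_lit 9) (nat_lit 0x5000080000000000000000000000000000000) (nat_lit 0x0) (nat_lit 0x2400120079e01af01f7c00c000000000000000000000000000) := Q_2 (nat_lit 145) (C_2 L1866982 (C_2 L2503855 (C_2 L2503874 (C_2 L2503877 (C_2 L2503879 N_2))))) (by decide +kernel)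
theorem L2505976 : W_2 (nat_lit 6) (nat_lit 0x5000080004000600000000000000000000000) (nat_lit 0x0) (nat_lit 0x30000800040008000000018000c00060000000000) := T_2 (nat_lit 143) (nat_lit 160) (nat_lit 5) (nat_lit 8) (nat_lit 5) L1662153 (by decide +kernel)
theorem L2506284 : W_2 (nat_lit 2) (nat_lit 0x2000500028003c001000000000000000000000000) (nat_lit 0x0) (nat_lit 0xc00000000000080000000000000000000) := D_2 (nat_lit 130) (nat_lit 131) (nat_lit 79) (nat_lit 3) (nat_lit 8) (nat_lit 6) (nat_lit 5) (nat_lit 11) (nat_lit 4) (by decide +kernel)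
theorem L2506285 : W_2 (nat_lit 3) (nat_lit 0x2000500028003c000000000000000000000000000) (nat_lit 0x0) (nat_lit 0xc00000003000080000000000000000000) := T_2 (nat_lit 96) (nat_lit 97) (nat_lit 2) (nat_lit 8) (nat_lit 6) L2506284 (by decide +kernel)
theorem L2506387 : W_2 (nat_lit 2) (nat_lit 0x500028003c000000000000000000000000000) (nat_lit 0x0) (nat_lit 0x80000000000000003000000000000000000000000) := D_2 (nat_lit 96) (nat_lit 97) (nat_lit 163) (nat_lit 2) (nat_lit 8) (nat_lit 6) (nat_lit 6) (nat_lit 10) (nat_lit 9) (by decide +kernel)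
theorem L2506389 : W_2 (nat_lit 2) (nat_lit 0x500128007c004000000000000000000000000) (nat_lit 0x0) (nat_lit 0x2000080008000000000000000000000000) := D_2 (nat_lit 115) (nat_lit 133) (nat_lit 99) (nat_lit 3) (nat_lit 10) (nat_lit 6) (nat_lit 2) (nat_lit 10) (nat_lit 6) (by decide +kernel)
theorem L2506390 : W_2 (nat_lit 3) (nat_lit 0x500128007c000000000000000000000000000) (nat_lit 0x0) (nat_lit 0x200008000e000000000000000000000000) := T_2 (nat_lit 98) (nat_lit 97) (nat_lit 2) (nat_lit 9) (nat_lit 6) L2506389 (by decide +kernel)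
theorem L2506391 : W_2 (nat_lit 4) (nat_lit 0x500028007c000000000000000000000000000) (nat_lit 0x0) (nat_lit 0x380008000e000000000000000000000000) := T_2 (nat_lit 132) (nat_lit 131) (nat_lit 3) (nat_lit 9) (nat_lit 6) L2506390 (by decide +kernel)
theorem L2506713 : W_2 (nat_lit 5) (nat_lit 0x5000680000000000000000000000000000000) (nat_lit 0x0) (nat_lit 0x80018800100060001000080000000000000000000) := T_2 (nat_lit 128) (nat_lit 143) (nat_lit 1) (nat_lit 11) (nat_lit 7) L523603 (by decide +kernel)
theorem L2506714 : W_2 (nat_lit 2) (nat_lit 0x5000680020001000000000000000000000000) (nat_lit 0x0) (nat_lit 0x1000080008000000000000000000000000000000000000) := D_2 (nat_lit 163) (nat_lit 180) (nat_lit 147) (nat_lit 6) (nat_lit 10) (nat_lit 10) (nat_lit 5) (nat_lit 11) (nat_lit 5) (by decide +kernel)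
theorem L2506715 : W_2 (nat_lit 3) (nat_lit 0x5000680020000000000000000000000000000) (nat_lit 0x0) (nat_lit 0x1000080008000000000001000080000000000000000000) := T_2 (nat_lit 96) (nat_lit 79) (nat_lit 5) (nat_lit 11) (nat_lit 4) L2506714 (by decide +kernel)
theorem L2506716 : W_2 (nat_lit 2) (nat_lit 0x80005000680020000000000000000000000000000) (nat_lit 0x0) (nat_lit 0x10001000080000000000000000000) := D_2 (nat_lit 96) (nat_lit 79) (nat_lit 112) (nat_lit 5) (nat_lit 11) (nat_lit 4) (nat_lit 6) (nat_lit 10) (nat_lit 9) (by decide +kernel)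
theorem L2506717 : W_2 (nat_lit 3) (nat_lit 0x5000680020000000000000000000000000000) (nat_lit 0x0) (nat_lit 0x1000080000000000010001000080000000000000000000) := T_2 (nat_lit 163) (nat_lit 180) (nat_lit 6) (nat_lit 10) (nat_lit 10) L2506716 (by decide +kernel)
theorem L2506718 : W_2 (nat_lit 2) (nat_lit 0x80005000680038000000000000000000000000000) (nat_lit 0x0) (nat_lit 0x1800004000000000000000000000000000) := D_2 (nat_lit 131) (nat_lit 110) (nat_lit 132) (nat_lit 3) (nat_lit 8) (nat_lit 6) (nat_lit 0) (nat_lit 13) (nat_lit 7) (by decide +kernel)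
theorem L2506719 : W_2 (nat_lit 3) (nat_lit 0x80005000680030000000000000000000000000000) (nat_lit 0x0) (nat_lit 0x180000c000400000000000000000000000) := T_2 (nat_lit 111) (nat_lit 94) (nat_lit 4) (nat_lit 10) (nat_lit 9) L2506718 (by decide +kernel)
theorem L2506720 : W_2 (nat_lit 4) (nat_lit 0x5000680030000000000000000000000000000) (nat_lit 0x0) (nat_lit 0x100008000000180000c000400000000000000000000000) := T_2 (nat_lit 163) (nat_lit 180) (nat_lit 6) (nat_lit 10) (nat_lit 10) L2506719 (by decide +kernel)
theorem L2506721 : W_2 (nat_lit 2) (nat_lit 0xb8000d001680078000000000000000000000000000) (nat_lit 0x0) (nat_lit 0x2000180000000000000000000000000000) := D_2 (nat_lit 115) (nat_lit 133) (nat_lit 116) (nat_lit 3) (nat_lit 10) (nat_lit 6) (nat_lit 1) (nat_lit 14) (nat_lit 6) (by decide +kernel)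
theorem L2506722 : W_2 (nat_lit 3) (nat_lit 0xb8000d001680038000000000000000000000000000) (nat_lit 0x0) (nat_lit 0x20001c0002000000000000000000000000) := T_2 (nat_lit 114) (nat_lit 97) (nat_lit 6) (nat_lit 11) (nat_lit 9) L2506721 (by decide +kernel)
theorem L2506723 : W_2 (nat_lit 4) (nat_lit 0x38000d001680038000000000000000000000000000) (nat_lit 0x0) (nat_lit 0xc000000020001c0002000000000000000000000000) := T_2 (nat_lit 167) (nat_lit 166) (nat_lit 0) (nat_lit 14) (nat_lit 9) L2506722 (by decide +kernel)
theorem L2506724 : W_2 (nat_lit 5) (nat_lit 0x18000d001680038000000000000000000000000000) (nat_lit 0x0) (nat_lit 0x4000e000000020001c0002000000000000000000000000) := T_2 (nat_lit 165) (nat_lit 182) (nat_lit 7) (nat_lit 11) (nat_lit 6) L2506723 (by decide +kernel)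
theorem L2506725 : W_2 (nat_lit 6) (nat_lit 0x180005001680038000000000000000000000000000) (nat_lit 0x0) (nat_lit 0x4000e000080020001c0002800000000000000000000000) := T_2 (nat_lit 147) (nat_lit 95) (nat_lit 7) (nat_lit 10) (nat_lit 5) L2506724 (by decide +kernel)
theorem L2506726 : W_2 (nat_lit 7) (nat_lit 0x80005001680038000000000000000000000000000) (nat_lit 0x0) (nat_lit 0x6000f000080020001c0002800000000000000000000000) := T_2 (nat_lit 164) (nat_lit 181) (nat_lit 7) (nat_lit 10) (nat_lit 6) L2506725 (by decide +kernel)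
theorem L2506727 : W_2 (nat_lit 8) (nat_lit 0x80005000680038000000000000000000000000000) (nat_lit 0x0) (nat_lit 0x6000f000080038001c0002800000000000000000000000) := T_2 (nat_lit 132) (nat_lit 131) (nat_lit 0) (nat_lit 13) (nat_lit 7) L2506726 (by decide +kernel)
theorem L2506728 : W_2 (nat_lit 9) (nat_lit 0x80005000680030000000000000000000000000000) (nat_lit 0x0) (nat_lit 0x6000f000080038001c8002c00000000000000000000000) := T_2 (nat_lit 111) (nat_lit 94) (nat_lit 4) (nat_lit 10) (nat_lit 9) L2506727 (by decide +kernel)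
theorem L2506729 : W_2 (nat_lit 10) (nat_lit 0x5000680030000000000000000000000000000) (nat_lit 0x0) (nat_lit 0x7000f800080038001c8002c00000000000000000000000) := T_2 (nat_lit 163) (nat_lit 180) (nat_lit 6) (nat_lit 10) (nat_lit 10) L2506728 (by decide +kernel)
theorem L2506730 : W_2 (nat_lit 2) (nat_lit 0x180005000680030000800040000000000000000000) (nat_lit 0x0) (nat_lit 0x400020001000000000000000) := D_2 (nat_lit 77) (nat_lit 94) (nat_lit 60) (nat_lit 4) (nat_lit 10) (nat_lit 8) (nat_lit 4) (nat_lit 10) (nat_lit 7) (by decide +kernel)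
theorem L2506731 : W_2 (nat_lit 3) (nat_lit 0x180005000680030000800000000000000000000000) (nat_lit 0x0) (nat_lit 0x400060003000000000000000) := T_2 (nat_lit 78) (nat_lit 61) (nat_lit 7) (nat_lit 10) (nat_lit 3) L2506730 (by decide +kernel)
theorem L2506732 : W_2 (nat_lit 4) (nat_lit 0x180005000680030000000000000000000000000000) (nat_lit 0x0) (nat_lit 0x8000000000000c00060003000000000000000) := T_2 (nat_lit 95) (nat_lit 147) (nat_lit 7) (nat_lit 10) (nat_lit 5) L2506731 (by decide +kernel)
theorem L2506733 : W_2 (nat_lit 5) (nat_lit 0x80005000680030000000000000000000000000000) (nat_lit 0x0) (nat_lit 0x2000100008000000000000c00060003000000000000000) := T_2 (nat_lit 164) (nat_lit 181) (nat_lit 7) (nat_lit 10) (nat_lit 6) L2506732 (by decide +kernel)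
theorem L2506734 : W_2 (nat_lit 6) (nat_lit 0x5000680030000000000000000000000000000) (nat_lit 0x0) (nat_lit 0x3000180008000000000000c00060003000000000000000) := T_2 (nat_lit 163) (nat_lit 180) (nat_lit 6) (nat_lit 10) (nat_lit 10) L2506733 (by decide +kernel)
theorem L2506735 : W_2 (nat_lit 2) (nat_lit 0xb8000d0016800f0004000000000000000000000000) (nat_lit 0x0) (nat_lit 0x10000800008000000000000000000000000000) := D_2 (nat_lit 131) (nat_lit 111) (nat_lit 148) (nat_lit 3) (nat_lit 9) (nat_lit 6) (nat_lit 6) (nat_lit 12) (nat_lit 9) (by decide +kernel)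
theorem L2506736 : W_2 (nat_lit 3) (nat_lit 0xb8000d0006800f0004000000000000000000000000) (nat_lit 0x0) (nat_lit 0x10003800008000000000000000000000000000) := T_2 (nat_lit 132) (nat_lit 133) (nat_lit 3) (nat_lit 10) (nat_lit 6) L2506735 (by decide +kernel)
theorem L2506737 : W_2 (nat_lit 4) (nat_lit 0xb8000d0006800f0000000000000000000000000000) (nat_lit 0x0) (nat_lit 0x1000380000800c000000000000000000000000) := T_2 (nat_lit 98) (nat_lit 99) (nat_lit 2) (nat_lit 10) (nat_lit 6) L2506736 (by decide +kernel)
theorem L2506738 : W_2 (nat_lit 5) (nat_lit 0xb8000d000680070000000000000000000000000000) (nat_lit 0x0) (nat_lit 0x1000380018800c000000000000000000000000) := T_2 (nat_lit 115) (nat_lit 116) (nat_lit 1) (nat_lit 14) (nat_lit 6) L2506737 (by decide +kernel)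
theorem L2506739 : W_2 (nat_lit 6) (nat_lit 0xb8000d000680030000000000000000000000000000) (nat_lit 0x0) (nat_lit 0x100038001c800e000000000000000000000000) := T_2 (nat_lit 114) (nat_lit 97) (nat_lit 6) (nat_lit 11) (nat_lit 9) L2506738 (by decide +kernel)
theorem L2506740 : W_2 (nat_lit 7) (nat_lit 0x38000d000680030000000000000000000000000000) (nat_lit 0x0) (nat_lit 0xc000100038001c800e000000000000000000000000) := T_2 (nat_lit 167) (nat_lit 166) (nat_lit 0) (nat_lit 14) (nat_lit 9) L2506739 (by decide +kernel)
theorem L2506741 : W_2 (nat_lit 8) (nat_lit 0x18000d000680030000000000000000000000000000) (nat_lit 0x0) (nat_lit 0x4000e000100038001c800e000000000000000000000000) := T_2 (nat_lit 165) (nat_lit 182) (nat_lit 7) (nat_lit 11) (nat_lit 6) L2506740 (by decide +kernel)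
theorem L2506742 : W_2 (nat_lit 9) (nat_lit 0x180005000680030000000000000000000000000000) (nat_lit 0x0) (nat_lit 0x4000e000180038001c800e800000000000000000000000) := T_2 (nat_lit 147) (nat_lit 95) (nat_lit 7) (nat_lit 10) (nat_lit 5) L2506741 (by decide +kernel)
theorem L2506743 : W_2 (nat_lit 10) (nat_lit 0x80005000680030000000000000000000000000000) (nat_lit 0x0) (nat_lit 0x6000f000180038001c800e800000000000000000000000) := T_2 (nat_lit 164) (nat_lit 181) (nat_lit 7) (nat_lit 10) (nat_lit 6) L2506742 (by decide +kernel)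
theorem L2506744 : W_2 (nat_lit 11) (nat_lit 0x5000680030000000000000000000000000000) (nat_lit 0x0) (nat_lit 0x7000f800180038001c800e800000000000000000000000) := T_2 (nat_lit 163) (nat_lit 180) (nat_lit 6) (nat_lit 10) (nat_lit 10) L2506743 (by decide +kernel)
theorem L2506745 : W_2 (nat_lit 2) (nat_lit 0x5000680030000800000000000000000000000) (nat_lit 0x0) (nat_lit 0x8000000000000000040002000000000000000) := D_2 (nat_lit 78) (nat_lit 147) (nat_lit 61) (nat_lit 7) (nat_lit 10) (nat_lit 4) (nat_lit 7) (nat_lit 10) (nat_lit 3) (by decide +kernel)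
theorem L2506746 : W_2 (nat_lit 2) (nat_lit 0x5000680078002d001c0000000000000000000) (nat_lit 0x0) (nat_lit 0x1800004000000000000000000000000000) := D_2 (nat_lit 131) (nat_lit 132) (nat_lit 110) (nat_lit 3) (nat_lit 9) (nat_lit 6) (nat_lit 3) (nat_lit 8) (nat_lit 6) (by decide +kernel)
theorem L2506747 : W_2 (nat_lit 3) (nat_lit 0x5000680070002d001c0000000000000000000) (nat_lit 0x0) (nat_lit 0x180000c004000000000000000000000000) := T_2 (nat_lit 111) (nat_lit 98) (nat_lit 2) (nat_lit 9) (nat_lit 6) L2506746 (by decide +kernel)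
theorem L2506748 : W_2 (nat_lit 4) (nat_lit 0x5000680070000d001c0000000000000000000) (nat_lit 0x0) (nat_lit 0x180000c006000000008000000000000000) := T_2 (nat_lit 97) (nat_lit 63) (nat_lit 5) (nat_lit 12) (nat_lit 3) L2506747 (by decide +kernel)
theorem L2506749 : W_2 (nat_lit 5) (nat_lit 0x5000680070000d000c0000000000000000000) (nat_lit 0x0) (nat_lit 0x180000c006000300008000000000000000) := T_2 (nat_lit 80) (nat_lit 81) (nat_lit 1) (nat_lit 13) (nat_lit 4) L2506748 (by decide +kernel)
theorem L2506750 : W_2 (nat_lit 6) (nat_lit 0x5000680070000d00040000000000000000000) (nat_lit 0x0) (nat_lit 0x180000c00600038000c000000000000000) := T_2 (nat_lit 79) (nat_lit 62) (nat_lit 6) (nat_lit 10) (nat_lit 7) L2506749 (by decide +kernel)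
theorem L2506751 : W_2 (nat_lit 7) (nat_lit 0x5000680070000d00000000000000000000000) (nat_lit 0x0) (nat_lit 0x180000c0060003c000e000000000000000) := T_2 (nat_lit 78) (nat_lit 61) (nat_lit 7) (nat_lit 10) (nat_lit 3) L2506750 (by decide +kernel)
theorem L2506752 : W_2 (nat_lit 8) (nat_lit 0x5000680030000d00000000000000000000000) (nat_lit 0x0) (nat_lit 0x18000cc0060003c000e000000000000000) := T_2 (nat_lit 114) (nat_lit 115) (nat_lit 0) (nat_lit 13) (nat_lit 6) L2506751 (by decide +kernel)
theorem L2506753 : W_2 (nat_lit 9) (nat_lit 0x5000680030000c00000000000000000000000) (nat_lit 0x0) (nat_lit 0x18000cc0063003c000e000000000000000) := T_2 (nat_lit 92) (nat_lit 93) (nat_lit 3) (nat_lit 7) (nat_lit 5) L2506752 (by decide +kernel)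
theorem L2506754 : W_2 (nat_lit 10) (nat_lit 0x5000680030000800000000000000000000000) (nat_lit 0x0) (nat_lit 0x18000cc0067003e000e000000000000000) := T_2 (nat_lit 94) (nat_lit 77) (nat_lit 4) (nat_lit 10) (nat_lit 8) L2506753 (by decide +kernel)
theorem L2506755 : W_2 (nat_lit 2) (nat_lit 0xd000680030000e00000000000000000000000) (nat_lit 0x0) (nat_lit 0xc8000000000000000000000000000) := D_2 (nat_lit 114) (nat_lit 115) (nat_lit 111) (nat_lit 0) (nat_lit 13) (nat_lit 6) (nat_lit 0) (nat_lit 12) (nat_lit 6) (by decide +kernel)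
theorem L2506756 : W_2 (nat_lit 3) (nat_lit 0xd000680030000c00000000000000000000000) (nat_lit 0x0) (nat_lit 0xc8000300000000000000000000000) := T_2 (nat_lit 93) (nat_lit 92) (nat_lit 3) (nat_lit 7) (nat_lit 5) L2506755 (by decide +kernel)
theorem L2506757 : W_2 (nat_lit 4) (nat_lit 0xd000680030000800000000000000000000000) (nat_lit 0x0) (nat_lit 0xc8000700020000000000000000000) := T_2 (nat_lit 94) (nat_lit 77) (nat_lit 4) (nat_lit 10) (nat_lit 8) L2506756 (by decide +kernel)
theorem L2506758 : W_2 (nat_lit 5) (nat_lit 0x5000680030000800000000000000000000000) (nat_lit 0x0) (nat_lit 0x1000080000000c8000700020000000000000000000) := T_2 (nat_lit 147) (nat_lit 164) (nat_lit 7) (nat_lit 10) (nat_lit 5) L2506757 (by decide +kernel)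
theorem L2506759 : W_2 (nat_lit 11) (nat_lit 0x5000680030000000000000000000000000000) (nat_lit 0x0) (nat_lit 0x1000080018000cc006f003e000e000000000000000) := Q_2 (nat_lit 95) (C_2 L2506745 (C_2 L2506754 (C_2 L2506758 N_2))) (by decide +kernel)
theorem L2506760 : W_2 (nat_lit 12) (nat_lit 0x5000680020000000000000000000000000000) (nat_lit 0x0) (nat_lit 0x7000f800180038001dc00ef003e000f000000000000000) := Q_2 (nat_lit 112) (C_2 L2506720 (C_2 L2506729 (C_2 L2506734 (C_2 L2506744 (C_2 L2506759 N_2))))) (by decide +kernel)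
theorem L2506761 : W_2 (nat_lit 2) (nat_lit 0x5000680030000800080000000000000000000) (nat_lit 0x0) (nat_lit 0x40006000000000000000) := D_2 (nat_lit 78) (nat_lit 62) (nat_lit 61) (nat_lit 6) (nat_lit 10) (nat_lit 7) (nat_lit 7) (nat_lit 10) (nat_lit 3) (by decide +kernel)
theorem L2506762 : W_2 (nat_lit 3) (nat_lit 0x5000680030000800000000000000000000000) (nat_lit 0x0) (nat_lit 0x10000c0006000000000000000) := T_2 (nat_lit 79) (nat_lit 96) (nat_lit 6) (nat_lit 10) (nat_lit 8) L2506761 (by decide +kernel)
theorem L2506763 : W_2 (nat_lit 4) (nat_lit 0x5000680030001800000000000000000000000) (nat_lit 0x0) (nat_lit 0x10000800000000c006000100000000000000000000) := T_2 (nat_lit 147) (nat_lit 164) (nat_lit 7) (nat_lit 10) (nat_lit 5) L2503660 (by decide +kernel)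
theorem L2506764 : W_2 (nat_lit 5) (nat_lit 0x5000680030000800000000000000000000000) (nat_lit 0x0) (nat_lit 0x10000800000000c007000180000000000000000000) := T_2 (nat_lit 96) (nat_lit 79) (nat_lit 6) (nat_lit 10) (nat_lit 8) L2506763 (by decide +kernel)
theorem L2506765 : W_2 (nat_lit 6) (nat_lit 0x5000680030000000000000000000000000000) (nat_lit 0x0) (nat_lit 0x10000800000000c0078001c0006000000000000000) := Q_2 (nat_lit 95) (C_2 L2506745 (C_2 L2506762 (C_2 L2506764 N_2))) (by decide +kernel)
theorem L2506766 : W_2 (nat_lit 6) (nat_lit 0x5000680030000000000000000000000000000) (nat_lit 0x0) (nat_lit 0x1000080000000c8001f000e0006000000000000000) := Q_2 (nat_lit 95) (C_2 L2506762 (C_2 L2506758 N_2)) (by decide +kernel)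
theorem L2506767 : W_2 (nat_lit 2) (nat_lit 0x40003d00168003000b000040000000000000000000) (nat_lit 0x0) (nat_lit 0x1c0000000000000000000000000000) := D_2 (nat_lit 115) (nat_lit 114) (nat_lit 116) (nat_lit 4) (nat_lit 13) (nat_lit 9) (nat_lit 6) (nat_lit 13) (nat_lit 9) (by decide +kernel)
theorem L2506768 : W_2 (nat_lit 3) (nat_lit 0x3d00168003000b000040000000000000000000) (nat_lit 0x0) (nat_lit 0xc000000000001c0000000000000000000000000000) := T_2 (nat_lit 166) (nat_lit 167) (nat_lit 3) (nat_lit 10) (nat_lit 8) L2506767 (by decide +kernel)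
theorem L2506769 : W_2 (nat_lit 4) (nat_lit 0x3d00068003000b000040000000000000000000) (nat_lit 0x0) (nat_lit 0xc000000030001c0000000000000000000000000000) := T_2 (nat_lit 132) (nat_lit 133) (nat_lit 2) (nat_lit 10) (nat_lit 8) L2506768 (by decide +kernel)
theorem L2506770 : W_2 (nat_lit 5) (nat_lit 0x1d00068003000b000040000000000000000000) (nat_lit 0x0) (nat_lit 0xc000600030001c0000000000000000000000000000) := T_2 (nat_lit 149) (nat_lit 150) (nat_lit 0) (nat_lit 14) (nat_lit 8) L2506769 (by decide +kernel)
theorem L2506771 : W_2 (nat_lit 6) (nat_lit 0xd00068003000b000040000000000000000000) (nat_lit 0x0) (nat_lit 0xe000700030001c0000000000000000000000000000) := T_2 (nat_lit 148) (nat_lit 165) (nat_lit 7) (nat_lit 11) (nat_lit 5) L2506770 (by decide +kernel)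
theorem L2506772 : W_2 (nat_lit 7) (nat_lit 0xd000680030003000040000000000000000000) (nat_lit 0x0) (nat_lit 0xe000700030001c000c000000000000000000000000) := T_2 (nat_lit 99) (nat_lit 98) (nat_lit 1) (nat_lit 14) (nat_lit 5) L2506771 (by decide +kernel)
theorem L2506773 : W_2 (nat_lit 8) (nat_lit 0xd000680030001000040000000000000000000) (nat_lit 0x0) (nat_lit 0xe000700030001c000e000100000000000000000000) := T_2 (nat_lit 97) (nat_lit 80) (nat_lit 6) (nat_lit 11) (nat_lit 8) L2506772 (by decide +kernel)
theorem L2506774 : W_2 (nat_lit 9) (nat_lit 0xd000680030001000000000000000000000000) (nat_lit 0x0) (nat_lit 0xe000700030001c000e800140000000000000000000) := T_2 (nat_lit 78) (nat_lit 95) (nat_lit 7) (nat_lit 10) (nat_lit 4) L2506773 (by decide +kernel)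
theorem L2506775 : W_2 (nat_lit 10) (nat_lit 0xd000680030000000000000000000000000000) (nat_lit 0x0) (nat_lit 0xe000700030001c000f8001c0000000000000000000) := T_2 (nat_lit 96) (nat_lit 79) (nat_lit 5) (nat_lit 11) (nat_lit 4) L2506774 (by decide +kernel)
theorem L2506776 : W_2 (nat_lit 2) (nat_lit 0xb0000d0016800f0004000080000000000000000000) (nat_lit 0x0) (nat_lit 0x70000000000000000000000000000000000000) := D_2 (nat_lit 149) (nat_lit 148) (nat_lit 150) (nat_lit 5) (nat_lit 13) (nat_lit 5) (nat_lit 7) (nat_lit 13) (nat_lit 5) (by decide +kernel)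
theorem L2506777 : W_2 (nat_lit 3) (nat_lit 0xb0000d0006800f0004000080000000000000000000) (nat_lit 0x0) (nat_lit 0x70003000000000000000000000000000000000) := T_2 (nat_lit 132) (nat_lit 133) (nat_lit 3) (nat_lit 10) (nat_lit 6) L2506776 (by decide +kernel)
theorem L2506778 : W_2 (nat_lit 4) (nat_lit 0xb0000d0006800f0000000080000000000000000000) (nat_lit 0x0) (nat_lit 0x7000300000000c000000000000000000000000) := T_2 (nat_lit 98) (nat_lit 99) (nat_lit 2) (nat_lit 10) (nat_lit 6) L2506777 (by decide +kernel)
theorem L2506779 : W_2 (nat_lit 5) (nat_lit 0xb0000d000680070000000080000000000000000000) (nat_lit 0x0) (nat_lit 0x7000300018000c000000000000000000000000) := T_2 (nat_lit 115) (nat_lit 116) (nat_lit 1) (nat_lit 14) (nat_lit 6) L2506778 (by decide +kernel)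
theorem L2506780 : W_2 (nat_lit 6) (nat_lit 0xb0000d000680030000000080000000000000000000) (nat_lit 0x0) (nat_lit 0x700030001c000e000000000000000000000000) := T_2 (nat_lit 114) (nat_lit 97) (nat_lit 6) (nat_lit 11) (nat_lit 9) L2506779 (by decide +kernel)
theorem L2506781 : W_2 (nat_lit 7) (nat_lit 0x30000d000680030000000080000000000000000000) (nat_lit 0x0) (nat_lit 0xc000700030001c000e000000000000000000000000) := T_2 (nat_lit 167) (nat_lit 166) (nat_lit 0) (nat_lit 14) (nat_lit 9) L2506780 (by decide +kernel)
theorem L2506782 : W_2 (nat_lit 8) (nat_lit 0x10000d000680030000000080000000000000000000) (nat_lit 0x0) (nat_lit 0x4000e000700030001c000e000000000000000000000000) := T_2 (nat_lit 165) (nat_lit 182) (nat_lit 7) (nat_lit 11) (nat_lit 6) L2506781 (by decide +kernel)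
theorem L2506783 : W_2 (nat_lit 9) (nat_lit 0xd000680030000000080000000000000000000) (nat_lit 0x0) (nat_lit 0x6000f000700030001c000e000000000000000000000000) := T_2 (nat_lit 164) (nat_lit 181) (nat_lit 4) (nat_lit 11) (nat_lit 10) L2506782 (by decide +kernel)
theorem L2506784 : W_2 (nat_lit 10) (nat_lit 0xd000680030000000000000000000000000000) (nat_lit 0x0) (nat_lit 0x6000f000700030001c000f000080000000000000000000) := T_2 (nat_lit 79) (nat_lit 96) (nat_lit 5) (nat_lit 11) (nat_lit 4) L2506783 (by decide +kernel)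
theorem L2506785 : W_2 (nat_lit 2) (nat_lit 0xd000680030000000000000000000000000000) (nat_lit 0x0) (nat_lit 0x2000100000000000000000800000000000000000000000) := D_2 (nat_lit 164) (nat_lit 181) (nat_lit 95) (nat_lit 4) (nat_lit 11) (nat_lit 10) (nat_lit 7) (nat_lit 10) (nat_lit 5) (by decide +kernel)
theorem L2506786 : W_2 (nat_lit 11) (nat_lit 0x5000680030000000000000000000000000000) (nat_lit 0x0) (nat_lit 0x6000f000780030001c000f8001c0000000000000000000) := Q_2 (nat_lit 147) (C_2 L2506775 (C_2 L2506784 (C_2 L2506785 N_2))) (by decide +kernel)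
theorem L2506788 : W_2 (nat_lit 2) (nat_lit 0x5000680030001c00000000000000000000000) (nat_lit 0x0) (nat_lit 0x40000300000000000000000000000) := D_2 (nat_lit 93) (nat_lit 114) (nat_lit 92) (nat_lit 3) (nat_lit 8) (nat_lit 5) (nat_lit 3) (nat_lit 7) (nat_lit 5) (by decide +kernel)
theorem L2506789 : W_2 (nat_lit 3) (nat_lit 0x5000680030001800000000000000000000000) (nat_lit 0x0) (nat_lit 0x40000700020000000000000000000) := T_2 (nat_lit 94) (nat_lit 77) (nat_lit 4) (nat_lit 10) (nat_lit 8) L2506788 (by decide +kernel)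
theorem L2506790 : W_2 (nat_lit 4) (nat_lit 0x5000680030000800000000000000000000000) (nat_lit 0x0) (nat_lit 0x400017000a0000000000000000000) := T_2 (nat_lit 96) (nat_lit 79) (nat_lit 6) (nat_lit 10) (nat_lit 8) L2506789 (by decide +kernel)
theorem L2506791 : W_2 (nat_lit 2) (nat_lit 0x5000680030000e00000000000000000000000) (nat_lit 0x0) (nat_lit 0xc8000000000000000000000000000) := D_2 (nat_lit 114) (nat_lit 115) (nat_lit 111) (nat_lit 0) (nat_lit 13) (nat_lit 6) (nat_lit 0) (nat_lit 12) (nat_lit 6) (by decide +kernel)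
theorem L2506792 : W_2 (nat_lit 3) (nat_lit 0x5000680030000c00000000000000000000000) (nat_lit 0x0) (nat_lit 0xc8000300000000000000000000000) := T_2 (nat_lit 93) (nat_lit 92) (nat_lit 3) (nat_lit 7) (nat_lit 5) L2506791 (by decide +kernel)
theorem L2506793 : W_2 (nat_lit 4) (nat_lit 0x5000680030000800000000000000000000000) (nat_lit 0x0) (nat_lit 0xc8000700020000000000000000000) := T_2 (nat_lit 94) (nat_lit 77) (nat_lit 4) (nat_lit 10) (nat_lit 8) L2506792 (by decide +kernel)
theorem L2506794 : W_2 (nat_lit 11) (nat_lit 0x5000680030000000000000000000000000000) (nat_lit 0x0) (nat_lit 0x18000cc007f003e000e000000000000000) := Q_2 (nat_lit 95) (C_2 L2506762 (C_2 L2506754 (C_2 L2506790 (C_2 L2506793 N_2)))) (by decide +kernel)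
theorem L2506795 : W_2 (nat_lit 2) (nat_lit 0x5d000680038003000000000000000000000000) (nat_lit 0x0) (nat_lit 0x4000c000000000000000000000000) := D_2 (nat_lit 98) (nat_lit 99) (nat_lit 114) (nat_lit 1) (nat_lit 14) (nat_lit 5) (nat_lit 2) (nat_lit 9) (nat_lit 6) (by decide +kernel)
theorem L2506796 : W_2 (nat_lit 3) (nat_lit 0x5d000680030003000000000000000000000000) (nat_lit 0x0) (nat_lit 0x4c00c000000000000000000000000) := T_2 (nat_lit 111) (nat_lit 110) (nat_lit 2) (nat_lit 8) (nat_lit 6) L2506795 (by decide +kernel)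
theorem L2506797 : W_2 (nat_lit 4) (nat_lit 0x5d000680030001000000000000000000000000) (nat_lit 0x0) (nat_lit 0x4c00e000100000000000000000000) := T_2 (nat_lit 97) (nat_lit 80) (nat_lit 6) (nat_lit 11) (nat_lit 8) L2506796 (by decide +kernel)
theorem L2506798 : W_2 (nat_lit 5) (nat_lit 0x1d000680030001000000000000000000000000) (nat_lit 0x0) (nat_lit 0x6000000004c00e000100000000000000000000) := T_2 (nat_lit 150) (nat_lit 149) (nat_lit 0) (nat_lit 14) (nat_lit 8) L2506797 (by decide +kernel)
theorem L2506799 : W_2 (nat_lit 6) (nat_lit 0xd000680030001000000000000000000000000) (nat_lit 0x0) (nat_lit 0x20007000000004c00e000100000000000000000000) := T_2 (nat_lit 148) (nat_lit 165) (nat_lit 7) (nat_lit 11) (nat_lit 5) L2506798 (by decide +kernel)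
theorem L2506800 : W_2 (nat_lit 7) (nat_lit 0xd000680030000000000000000000000000000) (nat_lit 0x0) (nat_lit 0x20007000000004c00f000180000000000000000000) := T_2 (nat_lit 96) (nat_lit 79) (nat_lit 5) (nat_lit 11) (nat_lit 4) L2506799 (by decide +kernel)
theorem L2506801 : W_2 (nat_lit 2) (nat_lit 0xb0000d0016800f0004000000000000000000000000) (nat_lit 0x0) (nat_lit 0x10000800008000000000000000000000000000) := D_2 (nat_lit 131) (nat_lit 111) (nat_lit 148) (nat_lit 3) (nat_lit 9) (nat_lit 6) (nat_lit 6) (nat_lit 12) (nat_lit 9) (by decide +kernel)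
theorem L2506802 : W_2 (nat_lit 3) (nat_lit 0xb0000d0006800f0004000000000000000000000000) (nat_lit 0x0) (nat_lit 0x10003800008000000000000000000000000000) := T_2 (nat_lit 132) (nat_lit 133) (nat_lit 3) (nat_lit 10) (nat_lit 6) L2506801 (by decide +kernel)
theorem L2506803 : W_2 (nat_lit 4) (nat_lit 0xb0000d0006800f0000000000000000000000000000) (nat_lit 0x0) (nat_lit 0x1000380000800c000000000000000000000000) := T_2 (nat_lit 98) (nat_lit 99) (nat_lit 2) (nat_lit 10) (nat_lit 6) L2506802 (by decide +kernel)
theorem L2506804 : W_2 (nat_lit 5) (nat_lit 0xb0000d000680070000000000000000000000000000) (nat_lit 0x0) (nat_lit 0x1000380018800c000000000000000000000000) := T_2 (nat_lit 115) (nat_lit 116) (nat_lit 1) (nat_lit 14) (nat_lit 6) L2506803 (by decide +kernel)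
theorem L2506805 : W_2 (nat_lit 6) (nat_lit 0xb0000d000680030000000000000000000000000000) (nat_lit 0x0) (nat_lit 0x100038001c800e000000000000000000000000) := T_2 (nat_lit 114) (nat_lit 97) (nat_lit 6) (nat_lit 11) (nat_lit 9) L2506804 (by decide +kernel)
theorem L2506806 : W_2 (nat_lit 7) (nat_lit 0x30000d000680030000000000000000000000000000) (nat_lit 0x0) (nat_lit 0xc000100038001c800e000000000000000000000000) := T_2 (nat_lit 167) (nat_lit 166) (nat_lit 0) (nat_lit 14) (nat_lit 9) L2506805 (by decide +kernel)
theorem L2506807 : W_2 (nat_lit 8) (nat_lit 0x10000d000680030000000000000000000000000000) (nat_lit 0x0) (nat_lit 0x4000e000100038001c800e000000000000000000000000) := T_2 (nat_lit 165) (nat_lit 182) (nat_lit 7) (nat_lit 11) (nat_lit 6) L2506806 (by decide +kernel)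
theorem L2506808 : W_2 (nat_lit 9) (nat_lit 0xd000680030000000000000000000000000000) (nat_lit 0x0) (nat_lit 0x6000f000100038001c800e000000000000000000000000) := T_2 (nat_lit 164) (nat_lit 181) (nat_lit 4) (nat_lit 11) (nat_lit 10) L2506807 (by decide +kernel)
theorem L2506809 : W_2 (nat_lit 2) (nat_lit 0x200000000d000680038003000000000000000000000000) (nat_lit 0x0) (nat_lit 0x4000c000000000000000000000000) := D_2 (nat_lit 98) (nat_lit 99) (nat_lit 114) (nat_lit 1) (nat_lit 14) (nat_lit 5) (nat_lit 2) (nat_lit 9) (nat_lit 6) (by decide +kernel)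
theorem L2506810 : W_2 (nat_lit 3) (nat_lit 0x200000000d000680030003000000000000000000000000) (nat_lit 0x0) (nat_lit 0x4c00c000000000000000000000000) := T_2 (nat_lit 111) (nat_lit 110) (nat_lit 2) (nat_lit 8) (nat_lit 6) L2506809 (by decide +kernel)
theorem L2506811 : W_2 (nat_lit 4) (nat_lit 0x200000000d000680030001000000000000000000000000) (nat_lit 0x0) (nat_lit 0x4c00e000100000000000000000000) := T_2 (nat_lit 97) (nat_lit 80) (nat_lit 6) (nat_lit 11) (nat_lit 8) L2506810 (by decide +kernel)
theorem L2506812 : W_2 (nat_lit 5) (nat_lit 0x200000000d000680030000000000000000000000000000) (nat_lit 0x0) (nat_lit 0x4c00f000180000000000000000000) := T_2 (nat_lit 96) (nat_lit 79) (nat_lit 5) (nat_lit 11) (nat_lit 4) L2506811 (by decide +kernel)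
theorem L2506813 : W_2 (nat_lit 6) (nat_lit 0xd000680030000000000000000000000000000) (nat_lit 0x0) (nat_lit 0x200010000000000004c00f000180000000000000000000) := T_2 (nat_lit 181) (nat_lit 164) (nat_lit 4) (nat_lit 11) (nat_lit 10) L2506812 (by decide +kernel)
theorem L2506814 : W_2 (nat_lit 2) (nat_lit 0x200040003d001e80030001000000000000000000000000) (nat_lit 0x0) (nat_lit 0x100008000000000000000040000000000000000000000000000) := D_2 (nat_lit 183) (nat_lit 114) (nat_lit 200) (nat_lit 4) (nat_lit 13) (nat_lit 10) (nat_lit 4) (nat_lit 13) (nat_lit 11) (by decide +kernel)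
theorem L2506815 : W_2 (nat_lit 3) (nat_lit 0x200000003d001e80030001000000000000000000000000) (nat_lit 0x0) (nat_lit 0x100008000c00000000000040000000000000000000000000000) := T_2 (nat_lit 166) (nat_lit 167) (nat_lit 3) (nat_lit 10) (nat_lit 8) L2506814 (by decide +kernel)
theorem L2506816 : W_2 (nat_lit 4) (nat_lit 0x200000003d001680030001000000000000000000000000) (nat_lit 0x0) (nat_lit 0x100008000c00000000800048000000000000000000000000000) := T_2 (nat_lit 131) (nat_lit 111) (nat_lit 0) (nat_lit 13) (nat_lit 7) L2506815 (by decide +kernel)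
theorem L2506817 : W_2 (nat_lit 5) (nat_lit 0x200000003d000680030001000000000000000000000000) (nat_lit 0x0) (nat_lit 0x100008000c00000003800048000000000000000000000000000) := T_2 (nat_lit 132) (nat_lit 133) (nat_lit 2) (nat_lit 10) (nat_lit 8) L2506816 (by decide +kernel)
theorem L2506818 : W_2 (nat_lit 6) (nat_lit 0x200000001d000680030001000000000000000000000000) (nat_lit 0x0) (nat_lit 0x100008000c00060003800048000000000000000000000000000) := T_2 (nat_lit 149) (nat_lit 150) (nat_lit 0) (nat_lit 14) (nat_lit 8) L2506817 (by decide +kernel)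
theorem L2506819 : W_2 (nat_lit 7) (nat_lit 0x200000000d000680030001000000000000000000000000) (nat_lit 0x0) (nat_lit 0x100008000e00070003800048000000000000000000000000000) := T_2 (nat_lit 148) (nat_lit 165) (nat_lit 7) (nat_lit 11) (nat_lit 5) L2506818 (by decide +kernel)
theorem L2506820 : W_2 (nat_lit 8) (nat_lit 0xd000680030001000000000000000000000000) (nat_lit 0x0) (nat_lit 0x10000a000f00070003800048000000000000000000000000000) := T_2 (nat_lit 181) (nat_lit 164) (nat_lit 4) (nat_lit 11) (nat_lit 10) L2506819 (by decide +kernel)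
theorem L2506821 : W_2 (nat_lit 9) (nat_lit 0xd000680030000000000000000000000000000) (nat_lit 0x0) (nat_lit 0x10000a000f00070003800048001000080000000000000000000) := T_2 (nat_lit 96) (nat_lit 79) (nat_lit 5) (nat_lit 11) (nat_lit 4) L2506820 (by decide +kernel)
theorem L2506822 : W_2 (nat_lit 2) (nat_lit 0x200000001d00168003800b000000000000000000000000) (nat_lit 0x0) (nat_lit 0x60002000000000000000000000000000000000) := D_2 (nat_lit 149) (nat_lit 133) (nat_lit 150) (nat_lit 2) (nat_lit 10) (nat_lit 8) (nat_lit 0) (nat_lit 14) (nat_lit 8) (by decide +kernel)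
theorem L2506823 : W_2 (nat_lit 3) (nat_lit 0x200000000d00168003800b000000000000000000000000) (nat_lit 0x0) (nat_lit 0x200070002000000000000000000000000000000000) := T_2 (nat_lit 148) (nat_lit 165) (nat_lit 7) (nat_lit 11) (nat_lit 5) L2506822 (by decide +kernel)
theorem L2506824 : W_2 (nat_lit 4) (nat_lit 0x200000000d00068003800b000000000000000000000000) (nat_lit 0x0) (nat_lit 0x200070003800000000000000000000000000000000) := T_2 (nat_lit 132) (nat_lit 131) (nat_lit 0) (nat_lit 13) (nat_lit 7) L2506823 (by decide +kernel)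
theorem L2506825 : W_2 (nat_lit 5) (nat_lit 0x200000000d000680038003000000000000000000000000) (nat_lit 0x0) (nat_lit 0x20007000380000000c000000000000000000000000) := T_2 (nat_lit 99) (nat_lit 98) (nat_lit 1) (nat_lit 14) (nat_lit 5) L2506824 (by decide +kernel)
theorem L2506826 : W_2 (nat_lit 6) (nat_lit 0x200000000d000680030003000000000000000000000000) (nat_lit 0x0) (nat_lit 0x20007000380000c00c000000000000000000000000) := T_2 (nat_lit 111) (nat_lit 110) (nat_lit 2) (nat_lit 8) (nat_lit 6) L2506825 (by decide +kernel)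
theorem L2506827 : W_2 (nat_lit 7) (nat_lit 0x200000000d000680030001000000000000000000000000) (nat_lit 0x0) (nat_lit 0x20007000380000c00e000100000000000000000000) := T_2 (nat_lit 97) (nat_lit 80) (nat_lit 6) (nat_lit 11) (nat_lit 8) L2506826 (by decide +kernel)
theorem L2506828 : W_2 (nat_lit 8) (nat_lit 0xd000680030001000000000000000000000000) (nat_lit 0x0) (nat_lit 0x200030007000380000c00e000100000000000000000000) := T_2 (nat_lit 181) (nat_lit 164) (nat_lit 4) (nat_lit 11) (nat_lit 10) L2506827 (by decide +kernel)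
theorem L2506829 : W_2 (nat_lit 9) (nat_lit 0xd000680030000000000000000000000000000) (nat_lit 0x0) (nat_lit 0x200030007000380000c00f000180000000000000000000) := T_2 (nat_lit 96) (nat_lit 79) (nat_lit 5) (nat_lit 11) (nat_lit 4) L2506828 (by decide +kernel)
theorem L2506830 : W_2 (nat_lit 11) (nat_lit 0x5000680030000000000000000000000000000) (nat_lit 0x0) (nat_lit 0x10000e000f000780038001cc00f000180000000000000000000) := Q_2 (nat_lit 147) (C_2 L2506784 (C_2 L2506800 (C_2 L2506808 (C_2 L2506813 (C_2 L2506821 (C_2 L2506829 N_2)))))) (by decide +kernel)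
theorem L2506831 : W_2 (nat_lit 5) (nat_lit 0x5000680030000000000000000000000000000) (nat_lit 0x0) (nat_lit 0x80000000c8000f00060002000000000000000) := Q_2 (nat_lit 95) (C_2 L2506745 (C_2 L2506793 N_2)) (by decide +kernel)
theorem L2506832 : W_2 (nat_lit 12) (nat_lit 0x5000680020000000000000000000000000000) (nat_lit 0x0) (nat_lit 0x10000e000f000780038001dc00ff003e000e000000000000000) := Q_2 (nat_lit 112) (C_2 L2506759 (C_2 L2506765 (C_2 L2506766 (C_2 L2506786 (C_2 L2506794 (C_2 L2506830 (C_2 L2506831 N_2))))))) (by decide +kernel)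
theorem L2506833 : W_2 (nat_lit 2) (nat_lit 0x80005000680020000000000000000000000000000) (nat_lit 0x0) (nat_lit 0x8000000010001000000000000000000000000) := D_2 (nat_lit 96) (nat_lit 112) (nat_lit 147) (nat_lit 6) (nat_lit 10) (nat_lit 9) (nat_lit 5) (nat_lit 11) (nat_lit 5) (by decide +kernel)
theorem L2506834 : W_2 (nat_lit 3) (nat_lit 0x5000680020000000000000000000000000000) (nat_lit 0x0) (nat_lit 0x1000080008000000010001000000000000000000000000) := T_2 (nat_lit 163) (nat_lit 180) (nat_lit 6) (nat_lit 10) (nat_lit 10) L2506833 (by decide +kernel)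
theorem L2506835 : W_2 (nat_lit 13) (nat_lit 0x5000680000000000000000000000000000000) (nat_lit 0x0) (nat_lit 0x10000f000f800780038001fc00ff003e000f000000000000000) := Q_2 (nat_lit 113) (C_2 L2506715 (C_2 L2506717 (C_2 L2506760 (C_2 L2506832 (C_2 L2506834 N_2))))) (by decide +kernel)
theorem L2506836 : W_2 (nat_lit 2) (nat_lit 0x5000780020001000000000000000000000000) (nat_lit 0x0) (nat_lit 0x1000080000000000010000000000000000000000000000) := D_2 (nat_lit 163) (nat_lit 180) (nat_lit 112) (nat_lit 6) (nat_lit 10) (nat_lit 10) (nat_lit 6) (nat_lit 10) (nat_lit 9) (by decide +kernel)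
theorem L2506837 : W_2 (nat_lit 3) (nat_lit 0x5000780020000000000000000000000000000) (nat_lit 0x0) (nat_lit 0x1000080000000000010001000080000000000000000000) := T_2 (nat_lit 96) (nat_lit 79) (nat_lit 5) (nat_lit 11) (nat_lit 4) L2506836 (by decide +kernel)
theorem L2506838 : W_2 (nat_lit 4) (nat_lit 0x5000780000000000000000000000000000000) (nat_lit 0x0) (nat_lit 0x1000080000000000070001000080000000000000000000) := T_2 (nat_lit 113) (nat_lit 114) (nat_lit 2) (nat_lit 8) (nat_lit 7) L2506837 (by decide +kernel)
theorem L2506839 : W_2 (nat_lit 5) (nat_lit 0x5000680000000000000000000000000000000) (nat_lit 0x0) (nat_lit 0x1000080000800100070001000080000000000000000000) := T_2 (nat_lit 128) (nat_lit 143) (nat_lit 1) (nat_lit 11) (nat_lit 7) L2506838 (by decide +kernel)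
theorem L2506840 : W_2 (nat_lit 2) (nat_lit 0x15000f80058000000000000000000000000000) (nat_lit 0x0) (nat_lit 0x1000080000000000000000400000000000000000000000) := D_2 (nat_lit 163) (nat_lit 180) (nat_lit 94) (nat_lit 4) (nat_lit 10) (nat_lit 10) (nat_lit 4) (nat_lit 10) (nat_lit 9) (by decide +kernel)
theorem L2506841 : W_2 (nat_lit 3) (nat_lit 0x15000f80048000000000000000000000000000) (nat_lit 0x0) (nat_lit 0x1000080000001000010000400000000000000000000000) := T_2 (nat_lit 112) (nat_lit 132) (nat_lit 0) (nat_lit 13) (nat_lit 7) L2506840 (by decide +kernel)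
theorem L2506842 : W_2 (nat_lit 4) (nat_lit 0x15000f80040000000000000000000000000000) (nat_lit 0x0) (nat_lit 0x100008000000100001c000400000000000000000000000) := T_2 (nat_lit 111) (nat_lit 110) (nat_lit 0) (nat_lit 12) (nat_lit 7) L2506841 (by decide +kernel)
theorem L2506843 : W_2 (nat_lit 5) (nat_lit 0x15000f80000000000000000000000000000000) (nat_lit 0x0) (nat_lit 0x10000800000010000dc000400000000000000000000000) := T_2 (nat_lit 114) (nat_lit 115) (nat_lit 2) (nat_lit 9) (nat_lit 7) L2506842 (by decide +kernel)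
theorem L2506844 : W_2 (nat_lit 6) (nat_lit 0x15000780000000000000000000000000000000) (nat_lit 0x0) (nat_lit 0x10000800200018000dc000400000000000000000000000) := T_2 (nat_lit 131) (nat_lit 149) (nat_lit 3) (nat_lit 9) (nat_lit 7) L2506843 (by decide +kernel)
theorem L2506845 : W_2 (nat_lit 7) (nat_lit 0x5000780000000000000000000000000000000) (nat_lit 0x0) (nat_lit 0x10000800380018000dc000400000000000000000000000) := T_2 (nat_lit 148) (nat_lit 147) (nat_lit 3) (nat_lit 8) (nat_lit 7) L2506844 (by decide +kernel)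
theorem L2506846 : W_2 (nat_lit 8) (nat_lit 0x5000680000000000000000000000000000000) (nat_lit 0x0) (nat_lit 0x10000800388019000dc000400000000000000000000000) := T_2 (nat_lit 128) (nat_lit 143) (nat_lit 1) (nat_lit 11) (nat_lit 7) L2506845 (by decide +kernel)
theorem L2506847 : W_2 (nat_lit 2) (nat_lit 0xd000780030003800000000000000000000000) (nat_lit 0x0) (nat_lit 0xc004000000000000000000000000) := D_2 (nat_lit 111) (nat_lit 110) (nat_lit 98) (nat_lit 2) (nat_lit 8) (nat_lit 6) (nat_lit 1) (nat_lit 13) (nat_lit 5) (by decide +kernel)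
theorem L2506848 : W_2 (nat_lit 3) (nat_lit 0xd000780020003800000000000000000000000) (nat_lit 0x0) (nat_lit 0x10000000000001c004000000000000000000000000) := T_2 (nat_lit 112) (nat_lit 164) (nat_lit 7) (nat_lit 10) (nat_lit 5) L2506847 (by decide +kernel)
theorem L2506849 : W_2 (nat_lit 4) (nat_lit 0xd000780020001800000000000000000000000) (nat_lit 0x0) (nat_lit 0x10000000000001c006000100000000000000000000) := T_2 (nat_lit 97) (nat_lit 80) (nat_lit 6) (nat_lit 11) (nat_lit 8) L2506848 (by decide +kernel)
theorem L2506850 : W_2 (nat_lit 5) (nat_lit 0xd000780020001000000000000000000000000) (nat_lit 0x0) (nat_lit 0x10000000000001c006800140000000000000000000) := T_2 (nat_lit 95) (nat_lit 78) (nat_lit 4) (nat_lit 11) (nat_lit 8) L2506849 (by decide +kernel)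
theorem L2506851 : W_2 (nat_lit 6) (nat_lit 0xd000780020000000000000000000000000000) (nat_lit 0x0) (nat_lit 0x10000000000001c0078001c0000000000000000000) := T_2 (nat_lit 96) (nat_lit 79) (nat_lit 5) (nat_lit 11) (nat_lit 4) L2506850 (by decide +kernel)
theorem L2506852 : W_2 (nat_lit 7) (nat_lit 0x5000780020000000000000000000000000000) (nat_lit 0x0) (nat_lit 0x10001800000001c0078001c0000000000000000000) := T_2 (nat_lit 147) (nat_lit 148) (nat_lit 3) (nat_lit 8) (nat_lit 7) L2506851 (by decide +kernel)
theorem L2506853 : W_2 (nat_lit 8) (nat_lit 0x5000780000000000000000000000000000000) (nat_lit 0x0) (nat_lit 0x10001800000007c0078001c0000000000000000000) := T_2 (nat_lit 113) (nat_lit 114) (nat_lit 2) (nat_lit 8) (nat_lit 7) L2506852 (by decide +kernel)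
theorem L2506854 : W_2 (nat_lit 9) (nat_lit 0x5000680000000000000000000000000000000) (nat_lit 0x0) (nat_lit 0x10001880010007c0078001c0000000000000000000) := T_2 (nat_lit 128) (nat_lit 143) (nat_lit 1) (nat_lit 11) (nat_lit 7) L2506853 (by decide +kernel)
theorem L2506855 : W_2 (nat_lit 2) (nat_lit 0x15000f80018000000000000000000000000000) (nat_lit 0x0) (nat_lit 0x80000000000000000400020000000000000000000) := D_2 (nat_lit 94) (nat_lit 77) (nat_lit 163) (nat_lit 7) (nat_lit 9) (nat_lit 4) (nat_lit 4) (nat_lit 10) (nat_lit 9) (by decide +kernel)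
theorem L2506856 : W_2 (nat_lit 3) (nat_lit 0x15000f80008000000000000000000000000000) (nat_lit 0x0) (nat_lit 0x80000001000010000400020000000000000000000) := T_2 (nat_lit 112) (nat_lit 132) (nat_lit 0) (nat_lit 13) (nat_lit 7) L2506855 (by decide +kernel)
theorem L2506857 : W_2 (nat_lit 4) (nat_lit 0x15000f80000000000000000000000000000000) (nat_lit 0x0) (nat_lit 0x8000000100001c000400020000000000000000000) := T_2 (nat_lit 111) (nat_lit 110) (nat_lit 0) (nat_lit 12) (nat_lit 7) L2506856 (by decide +kernel)
theorem L2506858 : W_2 (nat_lit 5) (nat_lit 0x15000780000000000000000000000000000000) (nat_lit 0x0) (nat_lit 0x8002000180001c000400020000000000000000000) := T_2 (nat_lit 131) (nat_lit 149) (nat_lit 3) (nat_lit 9) (nat_lit 7) L2506857 (by decide +kernel)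
theorem L2506859 : W_2 (nat_lit 6) (nat_lit 0x5000780000000000000000000000000000000) (nat_lit 0x0) (nat_lit 0x8003800180001c000400020000000000000000000) := T_2 (nat_lit 148) (nat_lit 147) (nat_lit 3) (nat_lit 8) (nat_lit 7) L2506858 (by decide +kernel)
theorem L2506860 : W_2 (nat_lit 7) (nat_lit 0x5000680000000000000000000000000000000) (nat_lit 0x0) (nat_lit 0x8003880190001c000400020000000000000000000) := T_2 (nat_lit 128) (nat_lit 143) (nat_lit 1) (nat_lit 11) (nat_lit 7) L2506859 (by decide +kernel)
theorem L2506861 : W_2 (nat_lit 14) (nat_lit 0x5000280000000000000000000000000000000) (nat_lit 0x0) (nat_lit 0x10000f000f80078803d001fc00ff003e000f000000000000000) := Q_2 (nat_lit 130) (C_2 L2506713 (C_2 L2506835 (C_2 L2506839 (C_2 L2506846 (C_2 L2506854 (C_2 L2506860 N_2)))))) (by decide +kernel)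
theorem L2506862 : W_2 (nat_lit 9) (nat_lit 0x5000280000000000000000000000000000000) (nat_lit 0x0) (nat_lit 0x1000080038f80578071c01000080000000000000000000) := Q_2 (nat_lit 128) (C_2 L1366249 (C_2 L1437517 (C_2 L1437516 (C_2 L1437515 N_2)))) (by decide +kernel)
theorem L2506863 : W_2 (nat_lit 2) (nat_lit 0xd000280030001c00000000000000000000000) (nat_lit 0x0) (nat_lit 0x40000300000000000000000000000) := D_2 (nat_lit 93) (nat_lit 114) (nat_lit 92) (nat_lit 3) (nat_lit 8) (nat_lit 5) (nat_lit 3) (nat_lit 7) (nat_lit 5) (by decide +kernel)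
theorem L2506864 : W_2 (nat_lit 3) (nat_lit 0xd000280010001c00000000000000000000000) (nat_lit 0x0) (nat_lit 0x80000000000060000300000000000000000000000) := T_2 (nat_lit 113) (nat_lit 163) (nat_lit 6) (nat_lit 10) (nat_lit 9) L2506863 (by decide +kernel)
theorem L2506865 : W_2 (nat_lit 4) (nat_lit 0xd000280010000c00000000000000000000000) (nat_lit 0x0) (nat_lit 0x80000000000060001300080000000000000000000) := T_2 (nat_lit 96) (nat_lit 79) (nat_lit 6) (nat_lit 10) (nat_lit 8) L2506864 (by decide +kernel)
theorem L2506866 : W_2 (nat_lit 5) (nat_lit 0x5000280010000c00000000000000000000000) (nat_lit 0x0) (nat_lit 0x180008000000060001300080000000000000000000) := T_2 (nat_lit 147) (nat_lit 164) (nat_lit 7) (nat_lit 10) (nat_lit 5) L2506865 (by decide +kernel)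
theorem L2506867 : W_2 (nat_lit 6) (nat_lit 0x5000280010000800000000000000000000000) (nat_lit 0x0) (nat_lit 0x1800080000000600017000a0000000000000000000) := T_2 (nat_lit 94) (nat_lit 77) (nat_lit 4) (nat_lit 10) (nat_lit 8) L2506866 (by decide +kernel)
theorem L2506868 : W_2 (nat_lit 2) (nat_lit 0x5000280010001c00000000000000000000000) (nat_lit 0x0) (nat_lit 0x80000000000028000000000000000000000000000) := D_2 (nat_lit 163) (nat_lit 113) (nat_lit 111) (nat_lit 6) (nat_lit 10) (nat_lit 9) (nat_lit 4) (nat_lit 10) (nat_lit 9) (by decide +kernel)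
theorem L2506869 : W_2 (nat_lit 3) (nat_lit 0x5000280010001800000000000000000000000) (nat_lit 0x0) (nat_lit 0x80000000000028000400020000000000000000000) := T_2 (nat_lit 94) (nat_lit 77) (nat_lit 4) (nat_lit 10) (nat_lit 8) L2506868 (by decide +kernel)
theorem L2506870 : W_2 (nat_lit 4) (nat_lit 0x5000280010000800000000000000000000000) (nat_lit 0x0) (nat_lit 0x800000000000280014000a0000000000000000000) := T_2 (nat_lit 96) (nat_lit 79) (nat_lit 6) (nat_lit 10) (nat_lit 8) L2506869 (by decide +kernel)
theorem L2506871 : W_2 (nat_lit 2) (nat_lit 0x100005000280010001800000000000000000000000) (nat_lit 0x0) (nat_lit 0x2000080000000000020000000000000000000000000000) := D_2 (nat_lit 163) (nat_lit 113) (nat_lit 181) (nat_lit 6) (nat_lit 10) (nat_lit 9) (nat_lit 7) (nat_lit 10) (nat_lit 6) (by decide +kernel)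
theorem L2506872 : W_2 (nat_lit 3) (nat_lit 0x5000280010001800000000000000000000000) (nat_lit 0x0) (nat_lit 0x2000180008000000020000000000000000000000000000) := T_2 (nat_lit 164) (nat_lit 147) (nat_lit 7) (nat_lit 10) (nat_lit 5) L2506871 (by decide +kernel)
theorem L2506873 : W_2 (nat_lit 4) (nat_lit 0x5000280010000800000000000000000000000) (nat_lit 0x0) (nat_lit 0x2000180008000000020001000080000000000000000000) := T_2 (nat_lit 96) (nat_lit 79) (nat_lit 6) (nat_lit 10) (nat_lit 8) L2506872 (by decide +kernel)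
theorem L2506874 : W_2 (nat_lit 2) (nat_lit 0xd000280018001c00000000000000000000000) (nat_lit 0x0) (nat_lit 0x4006000000000000000000000000) := D_2 (nat_lit 97) (nat_lit 98) (nat_lit 110) (nat_lit 1) (nat_lit 13) (nat_lit 5) (nat_lit 1) (nat_lit 12) (nat_lit 5) (by decide +kernel)
theorem L2506875 : W_2 (nat_lit 3) (nat_lit 0xd000280010001c00000000000000000000000) (nat_lit 0x0) (nat_lit 0x8000000000000c006000000000000000000000000) := T_2 (nat_lit 111) (nat_lit 163) (nat_lit 4) (nat_lit 10) (nat_lit 9) L2506874 (by decide +kernel)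
theorem L2506876 : W_2 (nat_lit 4) (nat_lit 0x5000280010001c00000000000000000000000) (nat_lit 0x0) (nat_lit 0x18000800000000c006000000000000000000000000) := T_2 (nat_lit 147) (nat_lit 164) (nat_lit 7) (nat_lit 10) (nat_lit 5) L2506875 (by decide +kernel)
theorem L2506877 : W_2 (nat_lit 5) (nat_lit 0x5000280010001800000000000000000000000) (nat_lit 0x0) (nat_lit 0x18000800000000c006400020000000000000000000) := T_2 (nat_lit 94) (nat_lit 77) (nat_lit 4) (nat_lit 10) (nat_lit 8) L2506876 (by decide +kernel)
theorem L2506878 : W_2 (nat_lit 6) (nat_lit 0x5000280010000800000000000000000000000) (nat_lit 0x0) (nat_lit 0x18000800000000c0074000a0000000000000000000) := T_2 (nat_lit 96) (nat_lit 79) (nat_lit 6) (nat_lit 10) (nat_lit 8) L2506877 (by decide +kernel)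
theorem L2506879 : W_2 (nat_lit 2) (nat_lit 0xd00028003c000c00000000000000000000000) (nat_lit 0x0) (nat_lit 0xc0000200000000000000000000000) := D_2 (nat_lit 114) (nat_lit 115) (nat_lit 93) (nat_lit 0) (nat_lit 13) (nat_lit 6) (nat_lit 0) (nat_lit 12) (nat_lit 6) (by decide +kernel)
theorem L2506880 : W_2 (nat_lit 3) (nat_lit 0xd00028001c000c00000000000000000000000) (nat_lit 0x0) (nat_lit 0x400e0000200000000000000000000000) := T_2 (nat_lit 113) (nat_lit 126) (nat_lit 1) (nat_lit 11) (nat_lit 6) L2506879 (by decide +kernel)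
theorem L2506881 : W_2 (nat_lit 4) (nat_lit 0xd000280018000c00000000000000000000000) (nat_lit 0x0) (nat_lit 0x200000000400e4000200000000000000000000000) := T_2 (nat_lit 110) (nat_lit 161) (nat_lit 6) (nat_lit 8) (nat_lit 9) L2506880 (by decide +kernel)
theorem L2506882 : W_2 (nat_lit 5) (nat_lit 0xd000280010000c00000000000000000000000) (nat_lit 0x0) (nat_lit 0xa00000000400ec000200000000000000000000000) := T_2 (nat_lit 111) (nat_lit 163) (nat_lit 4) (nat_lit 10) (nat_lit 9) L2506881 (by decide +kernel)
theorem L2506883 : W_2 (nat_lit 6) (nat_lit 0x5000280010000c00000000000000000000000) (nat_lit 0x0) (nat_lit 0x1a00080000400ec000200000000000000000000000) := T_2 (nat_lit 147) (nat_lit 164) (nat_lit 7) (nat_lit 10) (nat_lit 5) L2506882 (by decide +kernel)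
theorem L2506884 : W_2 (nat_lit 7) (nat_lit 0x5000280010000800000000000000000000000) (nat_lit 0x0) (nat_lit 0x1a00080000400ec000600020000000000000000000) := T_2 (nat_lit 94) (nat_lit 77) (nat_lit 4) (nat_lit 10) (nat_lit 8) L2506883 (by decide +kernel)
theorem L2506885 : W_2 (nat_lit 2) (nat_lit 0x50002800100008000a0000000000000000000) (nat_lit 0x0) (nat_lit 0x40005000000000000000) := D_2 (nat_lit 78) (nat_lit 60) (nat_lit 62) (nat_lit 4) (nat_lit 10) (nat_lit 7) (nat_lit 6) (nat_lit 10) (nat_lit 7) (by decide +kernel)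
theorem L2506886 : W_2 (nat_lit 3) (nat_lit 0x5000280010000800020000000000000000000) (nat_lit 0x0) (nat_lit 0x10000c0005000000000000000) := T_2 (nat_lit 79) (nat_lit 96) (nat_lit 6) (nat_lit 10) (nat_lit 8) L2506885 (by decide +kernel)
theorem L2506887 : W_2 (nat_lit 4) (nat_lit 0x5000280010000800000000000000000000000) (nat_lit 0x0) (nat_lit 0x14000e0005000000000000000) := T_2 (nat_lit 77) (nat_lit 94) (nat_lit 4) (nat_lit 10) (nat_lit 8) L2506886 (by decide +kernel)
theorem L2506888 : W_2 (nat_lit 8) (nat_lit 0x5000280010000000000000000000000000000) (nat_lit 0x0) (nat_lit 0x20001a00080000400ec007f000e0005000000000000000) := Q_2 (nat_lit 95) (C_2 L2506867 (C_2 L2506870 (C_2 L2506873 (C_2 L2506878 (C_2 L2506884 (C_2 L2506887 N_2)))))) (by decide +kernel)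
theorem L2506889 : W_2 (nat_lit 4) (nat_lit 0x5000280010000800000000000000000000000) (nat_lit 0x0) (nat_lit 0x100008000400000000400060001000000000000000) := T_2 (nat_lit 147) (nat_lit 164) (nat_lit 7) (nat_lit 10) (nat_lit 5) L2503673 (by decide +kernel)
theorem L2506890 : W_2 (nat_lit 5) (nat_lit 0x5000280010000000000000000000000000000) (nat_lit 0x0) (nat_lit 0x2000180008000400020001c000e0005000000000000000) := Q_2 (nat_lit 95) (C_2 L2506887 (C_2 L2506873 (C_2 L2506889 N_2))) (by decide +kernel)
theorem L2506891 : W_2 (nat_lit 2) (nat_lit 0x180005000280010000800000000000000000000000) (nat_lit 0x0) (nat_lit 0x20001000080000000000000000000) := D_2 (nat_lit 96) (nat_lit 79) (nat_lit 113) (nat_lit 6) (nat_lit 10) (nat_lit 8) (nat_lit 6) (nat_lit 10) (nat_lit 9) (by decide +kernel)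
theorem L2506892 : W_2 (nat_lit 3) (nat_lit 0x180005000280010000000000000000000000000000) (nat_lit 0x0) (nat_lit 0x8000000020001800080000000000000000000) := T_2 (nat_lit 95) (nat_lit 147) (nat_lit 7) (nat_lit 10) (nat_lit 5) L2506891 (by decide +kernel)
theorem L2506893 : W_2 (nat_lit 4) (nat_lit 0x80005000280010000000000000000000000000000) (nat_lit 0x0) (nat_lit 0x2000100008000000020001800080000000000000000000) := T_2 (nat_lit 164) (nat_lit 181) (nat_lit 7) (nat_lit 10) (nat_lit 6) L2506892 (by decide +kernel)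
theorem L2506894 : W_2 (nat_lit 4) (nat_lit 0x80005000280030000000000000000000000000000) (nat_lit 0x0) (nat_lit 0x40003000100000000400008000400000000000000000000000) := T_2 (nat_lit 111) (nat_lit 94) (nat_lit 4) (nat_lit 10) (nat_lit 9) L2044385 (by decide +kernel)
theorem L2506895 : W_2 (nat_lit 5) (nat_lit 0x80005000280010000000000000000000000000000) (nat_lit 0x0) (nat_lit 0x40003000100000000400028001400000000000000000000000) := T_2 (nat_lit 113) (nat_lit 96) (nat_lit 6) (nat_lit 10) (nat_lit 9) L2506894 (by decide +kernel)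
theorem L2506896 : W_2 (nat_lit 2) (nat_lit 0x1000080005000280010000000000000000000000000000) (nat_lit 0x0) (nat_lit 0x40002000100000000000000000000000000000000000000000) := D_2 (nat_lit 181) (nat_lit 164) (nat_lit 198) (nat_lit 7) (nat_lit 10) (nat_lit 6) (nat_lit 7) (nat_lit 10) (nat_lit 7) (by decide +kernel)
theorem L2506897 : W_2 (nat_lit 2) (nat_lit 0x50001000080005000280018000000000000000000000000000) (nat_lit 0x0) (nat_lit 0xa00020000000000000000000000000000000000000000000000000) := D_2 (nat_lit 197) (nat_lit 213) (nat_lit 215) (nat_lit 5) (nat_lit 10) (nat_lit 8) (nat_lit 7) (nat_lit 10) (nat_lit 8) (by decide +kernel)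
theorem L2506898 : W_2 (nat_lit 3) (nat_lit 0x10001000080005000280018000000000000000000000000000) (nat_lit 0x0) (nat_lit 0xa00060002000000000000000000000000000000000000000000000) := T_2 (nat_lit 198) (nat_lit 181) (nat_lit 7) (nat_lit 10) (nat_lit 7) L2506897 (by decide +kernel)
theorem L2506899 : W_2 (nat_lit 4) (nat_lit 0x1000080005000280018000000000000000000000000000) (nat_lit 0x0) (nat_lit 0xa00070002800000000000000000000000000000000000000000000) := T_2 (nat_lit 196) (nat_lit 179) (nat_lit 5) (nat_lit 10) (nat_lit 7) L2506898 (by decide +kernel)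
theorem L2506900 : W_2 (nat_lit 5) (nat_lit 0x1000080005000280010000000000000000000000000000) (nat_lit 0x0) (nat_lit 0xa00070002800000000000000008000400000000000000000000000) := T_2 (nat_lit 111) (nat_lit 94) (nat_lit 4) (nat_lit 10) (nat_lit 9) L2506899 (by decide +kernel)
theorem L2506901 : W_2 (nat_lit 2) (nat_lit 0x3000100008000d000280018000000000000000000000000000) (nat_lit 0x0) (nat_lit 0x400000000000100000000000000000800000000000000000000000) := D_2 (nat_lit 164) (nat_lit 214) (nat_lit 95) (nat_lit 6) (nat_lit 10) (nat_lit 12) (nat_lit 7) (nat_lit 10) (nat_lit 5) (by decide +kernel)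
theorem L2506902 : W_2 (nat_lit 3) (nat_lit 0x30001000080005000280018000000000000000000000000000) (nat_lit 0x0) (nat_lit 0x400000000000100008000400000000800000000000000000000000) := T_2 (nat_lit 147) (nat_lit 130) (nat_lit 6) (nat_lit 10) (nat_lit 11) L2506901 (by decide +kernel)
theorem L2506903 : W_2 (nat_lit 4) (nat_lit 0x10001000080005000280018000000000000000000000000000) (nat_lit 0x0) (nat_lit 0x600020000000100008000400000000800000000000000000000000) := T_2 (nat_lit 197) (nat_lit 213) (nat_lit 5) (nat_lit 10) (nat_lit 8) L2506902 (by decide +kernel)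
theorem L2506904 : W_2 (nat_lit 5) (nat_lit 0x10001000080005000280010000000000000000000000000000) (nat_lit 0x0) (nat_lit 0x600020000000100008000400008000c00000000000000000000000) := T_2 (nat_lit 111) (nat_lit 94) (nat_lit 4) (nat_lit 10) (nat_lit 9) L2506903 (by decide +kernel)
theorem L2506905 : W_2 (nat_lit 6) (nat_lit 0x1000080005000280010000000000000000000000000000) (nat_lit 0x0) (nat_lit 0x600030000800100008000400008000c00000000000000000000000) := T_2 (nat_lit 196) (nat_lit 179) (nat_lit 5) (nat_lit 10) (nat_lit 7) L2506904 (by decide +kernel)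
theorem L2506906 : W_2 (nat_lit 7) (nat_lit 0x80005000280010000000000000000000000000000) (nat_lit 0x0) (nat_lit 0xe00070003800100008000400008000c00000000000000000000000) := Q_2 (nat_lit 180) (C_2 L2506896 (C_2 L2506900 (C_2 L2506905 N_2))) (by decide +kernel)
theorem L2506907 : W_2 (nat_lit 2) (nat_lit 0x8000500028003c000000000000000000000000000) (nat_lit 0x0) (nat_lit 0x1000000000000c00000000000000000000000000000000) := D_2 (nat_lit 130) (nat_lit 180) (nat_lit 131) (nat_lit 6) (nat_lit 10) (nat_lit 10) (nat_lit 3) (nat_lit 8) (nat_lit 6) (by decide +kernel)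
theorem L2506908 : W_2 (nat_lit 3) (nat_lit 0x80005000280038000000000000000000000000000) (nat_lit 0x0) (nat_lit 0x1000000000000c40004000000000000000000000000000) := T_2 (nat_lit 110) (nat_lit 126) (nat_lit 1) (nat_lit 11) (nat_lit 6) L2506907 (by decide +kernel)
theorem L2506909 : W_2 (nat_lit 4) (nat_lit 0x80005000280030000000000000000000000000000) (nat_lit 0x0) (nat_lit 0x1000000000000c4000c000400000000000000000000000) := T_2 (nat_lit 111) (nat_lit 94) (nat_lit 4) (nat_lit 10) (nat_lit 9) L2506908 (by decide +kernel)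
theorem L2506910 : W_2 (nat_lit 5) (nat_lit 0x80005000280010000000000000000000000000000) (nat_lit 0x0) (nat_lit 0x1000000000000c4002c001400000000000000000000000) := T_2 (nat_lit 113) (nat_lit 96) (nat_lit 6) (nat_lit 10) (nat_lit 9) L2506909 (by decide +kernel)
theorem L2506911 : W_2 (nat_lit 8) (nat_lit 0x5000280010000000000000000000000000000) (nat_lit 0x0) (nat_lit 0xe00070003800180008000c4002c001c00080000000000000000000) := Q_2 (nat_lit 163) (C_2 L2506893 (C_2 L2506895 (C_2 L2506906 (C_2 L2506910 N_2)))) (by decide +kernel)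
theorem L2506912 : W_2 (nat_lit 2) (nat_lit 0x2000080005000280030000000000000000000000000000) (nat_lit 0x0) (nat_lit 0x40001000000000000400000000000000000000000000000000) := D_2 (nat_lit 180) (nat_lit 198) (nat_lit 130) (nat_lit 7) (nat_lit 10) (nat_lit 7) (nat_lit 6) (nat_lit 10) (nat_lit 10) (by decide +kernel)
theorem L2506913 : W_2 (nat_lit 3) (nat_lit 0x2000080005000280010000000000000000000000000000) (nat_lit 0x0) (nat_lit 0x40001000000000000400020001000000000000000000000000) := T_2 (nat_lit 113) (nat_lit 96) (nat_lit 6) (nat_lit 10) (nat_lit 9) L2506912 (by decide +kernel)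
theorem L2506914 : W_2 (nat_lit 4) (nat_lit 0x80005000280010000000000000000000000000000) (nat_lit 0x0) (nat_lit 0x40003000100000000400020001000000000000000000000000) := T_2 (nat_lit 181) (nat_lit 164) (nat_lit 7) (nat_lit 10) (nat_lit 6) L2506913 (by decide +kernel)
theorem L2506915 : W_2 (nat_lit 2) (nat_lit 0x180005000280010001400000000000000000000000) (nat_lit 0x0) (nat_lit 0x8000a0000000000000000000) := D_2 (nat_lit 95) (nat_lit 77) (nat_lit 79) (nat_lit 4) (nat_lit 10) (nat_lit 8) (nat_lit 6) (nat_lit 10) (nat_lit 8) (by decide +kernel)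
theorem L2506916 : W_2 (nat_lit 3) (nat_lit 0x180005000280010000400000000000000000000000) (nat_lit 0x0) (nat_lit 0x200018000a0000000000000000000) := T_2 (nat_lit 96) (nat_lit 113) (nat_lit 6) (nat_lit 10) (nat_lit 9) L2506915 (by decide +kernel)
theorem L2506917 : W_2 (nat_lit 4) (nat_lit 0x180005000280010000000000000000000000000000) (nat_lit 0x0) (nat_lit 0x28001c000a0000000000000000000) := T_2 (nat_lit 94) (nat_lit 111) (nat_lit 4) (nat_lit 10) (nat_lit 9) L2506916 (by decide +kernel)
theorem L2506918 : W_2 (nat_lit 5) (nat_lit 0x80005000280010000000000000000000000000000) (nat_lit 0x0) (nat_lit 0x2000100000000000028001c000a0000000000000000000) := T_2 (nat_lit 164) (nat_lit 181) (nat_lit 7) (nat_lit 10) (nat_lit 6) L2506917 (by decide +kernel)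
theorem L2506919 : W_2 (nat_lit 2) (nat_lit 0x1e00080005000280010000000000000000000000000000) (nat_lit 0x0) (nat_lit 0x6000000020000000000000000000000000000000000000000) := D_2 (nat_lit 194) (nat_lit 193) (nat_lit 161) (nat_lit 1) (nat_lit 10) (nat_lit 10) (nat_lit 5) (nat_lit 8) (nat_lit 7) (by decide +kernel)
theorem L2506920 : W_2 (nat_lit 3) (nat_lit 0x1a00080005000280010000000000000000000000000000) (nat_lit 0x0) (nat_lit 0x6000400120000000000000000000000000000000000000000) := T_2 (nat_lit 178) (nat_lit 164) (nat_lit 2) (nat_lit 7) (nat_lit 10) L2506919 (by decide +kernel)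
theorem L2506921 : W_2 (nat_lit 4) (nat_lit 0x1200080005000280010000000000000000000000000000) (nat_lit 0x0) (nat_lit 0x16000c00120000000000000000000000000000000000000000) := T_2 (nat_lit 179) (nat_lit 196) (nat_lit 5) (nat_lit 10) (nat_lit 7) L2506920 (by decide +kernel)
theorem L2506922 : W_2 (nat_lit 2) (nat_lit 0x1a00090005000280014000400020000000000000000000) (nat_lit 0x0) (nat_lit 0x4000000000000800040000000000000000000000000000000) := D_2 (nat_lit 143) (nat_lit 126) (nat_lit 194) (nat_lit 6) (nat_lit 7) (nat_lit 10) (nat_lit 6) (nat_lit 7) (nat_lit 11) (by decide +kernel)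
theorem L2506923 : W_2 (nat_lit 3) (nat_lit 0x1a00080005000280014000400020000000000000000000) (nat_lit 0x0) (nat_lit 0x4000000030000800040000000000000000000000000000000) := T_2 (nat_lit 160) (nat_lit 161) (nat_lit 5) (nat_lit 8) (nat_lit 6) L2506922 (by decide +kernel)
theorem L2506924 : W_2 (nat_lit 4) (nat_lit 0x1a00080005000280010000400020000000000000000000) (nat_lit 0x0) (nat_lit 0x4000000030000800040004000200000000000000000000000) := T_2 (nat_lit 110) (nat_lit 93) (nat_lit 6) (nat_lit 8) (nat_lit 8) L2506923 (by decide +kernel)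
theorem L2506925 : W_2 (nat_lit 5) (nat_lit 0x1a00080005000280010000400000000000000000000000) (nat_lit 0x0) (nat_lit 0x4000000030000800040004000a00020000000000000000000) := T_2 (nat_lit 77) (nat_lit 95) (nat_lit 4) (nat_lit 10) (nat_lit 8) L2506924 (by decide +kernel)
theorem L2506926 : W_2 (nat_lit 6) (nat_lit 0x1a00080005000280010000000000000000000000000000) (nat_lit 0x0) (nat_lit 0x400000003000080004000c000e00020000000000000000000) := T_2 (nat_lit 94) (nat_lit 111) (nat_lit 4) (nat_lit 10) (nat_lit 9) L2506925 (by decide +kernel)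
theorem L2506927 : W_2 (nat_lit 7) (nat_lit 0x1200080005000280010000000000000000000000000000) (nat_lit 0x0) (nat_lit 0x1400080003000080004000c000e00020000000000000000000) := T_2 (nat_lit 179) (nat_lit 196) (nat_lit 5) (nat_lit 10) (nat_lit 7) L2506926 (by decide +kernel)
theorem L2506928 : W_2 (nat_lit 2) (nat_lit 0x4001e00080005000280018000000000000000000000000000) (nat_lit 0x0) (nat_lit 0x18000800000000000000000000000000000000000) := D_2 (nat_lit 160) (nat_lit 159) (nat_lit 143) (nat_lit 0) (nat_lit 10) (nat_lit 10) (nat_lit 6) (nat_lit 7) (nat_lit 11) (by decide +kernel)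
theorem L2506929 : W_2 (nat_lit 3) (nat_lit 0x1e00080005000280018000000000000000000000000000) (nat_lit 0x0) (nat_lit 0x6000000018000800000000000000000000000000000000000) := T_2 (nat_lit 194) (nat_lit 193) (nat_lit 1) (nat_lit 10) (nat_lit 10) L2506928 (by decide +kernel)
theorem L2506930 : W_2 (nat_lit 4) (nat_lit 0x1a00080005000280018000000000000000000000000000) (nat_lit 0x0) (nat_lit 0x6000400118000800000000000000000000000000000000000) := T_2 (nat_lit 178) (nat_lit 164) (nat_lit 2) (nat_lit 7) (nat_lit 10) L2506929 (by decide +kernel)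
theorem L2506931 : W_2 (nat_lit 5) (nat_lit 0x1200080005000280018000000000000000000000000000) (nat_lit 0x0) (nat_lit 0x16000c00118000800000000000000000000000000000000000) := T_2 (nat_lit 179) (nat_lit 196) (nat_lit 5) (nat_lit 10) (nat_lit 7) L2506930 (by decide +kernel)
theorem L2506932 : W_2 (nat_lit 6) (nat_lit 0x1200080005000280010000000000000000000000000000) (nat_lit 0x0) (nat_lit 0x16000c00118000800000008000400000000000000000000000) := T_2 (nat_lit 111) (nat_lit 94) (nat_lit 4) (nat_lit 10) (nat_lit 9) L2506931 (by decide +kernel)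
theorem L2506933 : W_2 (nat_lit 2) (nat_lit 0x20001e00090005000280014000000000000000000000000000) (nat_lit 0x0) (nat_lit 0x800040000000200000000000000000000000) := D_2 (nat_lit 143) (nat_lit 93) (nat_lit 126) (nat_lit 5) (nat_lit 8) (nat_lit 5) (nat_lit 6) (nat_lit 7) (nat_lit 10) (by decide +kernel)
theorem L2506934 : W_2 (nat_lit 3) (nat_lit 0x20001e00090005000280010000000000000000000000000000) (nat_lit 0x0) (nat_lit 0x20000800040004000200000000000000000000000) := T_2 (nat_lit 110) (nat_lit 161) (nat_lit 5) (nat_lit 8) (nat_lit 6) L2506933 (by decide +kernel)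
theorem L2506935 : W_2 (nat_lit 4) (nat_lit 0x1e00090005000280010000000000000000000000000000) (nat_lit 0x0) (nat_lit 0x60000000020000800040004000200000000000000000000000) := T_2 (nat_lit 197) (nat_lit 198) (nat_lit 3) (nat_lit 7) (nat_lit 10) L2506934 (by decide +kernel)
theorem L2506936 : W_2 (nat_lit 5) (nat_lit 0x1e00080005000280010000000000000000000000000000) (nat_lit 0x0) (nat_lit 0x60000000038000800040004000200000000000000000000000) := T_2 (nat_lit 160) (nat_lit 159) (nat_lit 0) (nat_lit 10) (nat_lit 10) L2506935 (by decide +kernel)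
theorem L2506937 : W_2 (nat_lit 6) (nat_lit 0x1a00080005000280010000000000000000000000000000) (nat_lit 0x0) (nat_lit 0x60000400138000800040004000200000000000000000000000) := T_2 (nat_lit 178) (nat_lit 164) (nat_lit 2) (nat_lit 7) (nat_lit 10) L2506936 (by decide +kernel)
theorem L2506938 : W_2 (nat_lit 7) (nat_lit 0x1200080005000280010000000000000000000000000000) (nat_lit 0x0) (nat_lit 0x70000c00138000800040004000200000000000000000000000) := T_2 (nat_lit 179) (nat_lit 196) (nat_lit 5) (nat_lit 10) (nat_lit 7) L2506937 (by decide +kernel)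
theorem L2506939 : W_2 (nat_lit 2) (nat_lit 0x1200090005000280014000400020000000000000000000) (nat_lit 0x0) (nat_lit 0x4000000000000800040000000000000000000000000000000) := D_2 (nat_lit 143) (nat_lit 126) (nat_lit 194) (nat_lit 6) (nat_lit 7) (nat_lit 10) (nat_lit 6) (nat_lit 7) (nat_lit 11) (by decide +kernel)
theorem L2506940 : W_2 (nat_lit 3) (nat_lit 0x1200080005000280014000400020000000000000000000) (nat_lit 0x0) (nat_lit 0x4000000030000800040000000000000000000000000000000) := T_2 (nat_lit 160) (nat_lit 161) (nat_lit 5) (nat_lit 8) (nat_lit 6) L2506939 (by decide +kernel)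
theorem L2506941 : W_2 (nat_lit 4) (nat_lit 0x1200080005000280010000400020000000000000000000) (nat_lit 0x0) (nat_lit 0x4000000030000800040004000200000000000000000000000) := T_2 (nat_lit 110) (nat_lit 93) (nat_lit 6) (nat_lit 8) (nat_lit 8) L2506940 (by decide +kernel)
theorem L2506942 : W_2 (nat_lit 5) (nat_lit 0x1200080005000280010000400000000000000000000000) (nat_lit 0x0) (nat_lit 0x4000000030000800040004000a00020000000000000000000) := T_2 (nat_lit 77) (nat_lit 95) (nat_lit 4) (nat_lit 10) (nat_lit 8) L2506941 (by decide +kernel)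
theorem L2506943 : W_2 (nat_lit 6) (nat_lit 0x1200080005000280010000000000000000000000000000) (nat_lit 0x0) (nat_lit 0x400000003000080004000c000e00020000000000000000000) := T_2 (nat_lit 94) (nat_lit 111) (nat_lit 4) (nat_lit 10) (nat_lit 9) L2506942 (by decide +kernel)
theorem L2506944 : W_2 (nat_lit 8) (nat_lit 0x1000080005000280010000000000000000000000000000) (nat_lit 0x0) (nat_lit 0x76000e0013800080004000c000e00020000000000000000000) := Q_2 (nat_lit 177) (C_2 L2506921 (C_2 L2506927 (C_2 L2506932 (C_2 L2506938 (C_2 L2506943 N_2))))) (by decide +kernel)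
theorem L2506945 : W_2 (nat_lit 2) (nat_lit 0x1a00590005000280014000400020000000000000000000) (nat_lit 0x0) (nat_lit 0x4000000000000800040000000000000000000000000000000) := D_2 (nat_lit 143) (nat_lit 126) (nat_lit 194) (nat_lit 6) (nat_lit 7) (nat_lit 10) (nat_lit 6) (nat_lit 7) (nat_lit 11) (by decide +kernel)
theorem L2506946 : W_2 (nat_lit 3) (nat_lit 0x1a00580005000280014000400020000000000000000000) (nat_lit 0x0) (nat_lit 0x4000000030000800040000000000000000000000000000000) := T_2 (nat_lit 160) (nat_lit 161) (nat_lit 5) (nat_lit 8) (nat_lit 6) L2506945 (by decide +kernel)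
theorem L2506947 : W_2 (nat_lit 4) (nat_lit 0x1a00580005000280010000400020000000000000000000) (nat_lit 0x0) (nat_lit 0x4000000030000800040004000200000000000000000000000) := T_2 (nat_lit 110) (nat_lit 93) (nat_lit 6) (nat_lit 8) (nat_lit 8) L2506946 (by decide +kernel)
theorem L2506948 : W_2 (nat_lit 5) (nat_lit 0x1a00180005000280010000400020000000000000000000) (nat_lit 0x0) (nat_lit 0x4000000630000800040004000200000000000000000000000) := T_2 (nat_lit 166) (nat_lit 165) (nat_lit 1) (nat_lit 13) (nat_lit 9) L2506947 (by decide +kernel)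
theorem L2506949 : W_2 (nat_lit 6) (nat_lit 0x1800180005000280010000400020000000000000000000) (nat_lit 0x0) (nat_lit 0x4000600630000800040004000200000000000000000000000) := T_2 (nat_lit 177) (nat_lit 178) (nat_lit 2) (nat_lit 7) (nat_lit 10) L2506948 (by decide +kernel)
theorem L2506950 : W_2 (nat_lit 7) (nat_lit 0x1000180005000280010000400020000000000000000000) (nat_lit 0x0) (nat_lit 0x14000e00630000800040004000200000000000000000000000) := T_2 (nat_lit 179) (nat_lit 196) (nat_lit 5) (nat_lit 10) (nat_lit 7) L2506949 (by decide +kernel)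
theorem L2506951 : W_2 (nat_lit 8) (nat_lit 0x1000180005000280010000400000000000000000000000) (nat_lit 0x0) (nat_lit 0x14000e00630000800040004000a00020000000000000000000) := T_2 (nat_lit 77) (nat_lit 95) (nat_lit 4) (nat_lit 10) (nat_lit 8) L2506950 (by decide +kernel)
theorem L2506952 : W_2 (nat_lit 9) (nat_lit 0x1000080005000280010000400000000000000000000000) (nat_lit 0x0) (nat_lit 0x14002e00730000800040004000a00020000000000000000000) := T_2 (nat_lit 164) (nat_lit 181) (nat_lit 7) (nat_lit 10) (nat_lit 6) L2506951 (by decide +kernel)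
theorem L2506953 : W_2 (nat_lit 10) (nat_lit 0x1000080005000280010000000000000000000000000000) (nat_lit 0x0) (nat_lit 0x14002e0073000080004000c000e00020000000000000000000) := T_2 (nat_lit 94) (nat_lit 111) (nat_lit 4) (nat_lit 10) (nat_lit 9) L2506952 (by decide +kernel)
theorem L2506954 : W_2 (nat_lit 11) (nat_lit 0x80005000280010000000000000000000000000000) (nat_lit 0x0) (nat_lit 0xa00076003e0073800080004000c000e00020000000000000000000) := Q_2 (nat_lit 180) (C_2 L2506900 (C_2 L2506896 (C_2 L2506944 (C_2 L2506953 N_2)))) (by decide +kernel)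
theorem L2506955 : W_2 (nat_lit 12) (nat_lit 0x5000280010000000000000000000000000000) (nat_lit 0x0) (nat_lit 0xa00076003e007b8000800c4002c001e000a0000000000000000000) := Q_2 (nat_lit 163) (C_2 L2506914 (C_2 L2506918 (C_2 L2506954 (C_2 L2506910 N_2)))) (by decide +kernel)
theorem L2506956 : W_2 (nat_lit 2) (nat_lit 0x5000280010000800040000000000000000000) (nat_lit 0x0) (nat_lit 0x1000080004000000000000000) := D_2 (nat_lit 79) (nat_lit 96) (nat_lit 62) (nat_lit 6) (nat_lit 10) (nat_lit 8) (nat_lit 6) (nat_lit 10) (nat_lit 7) (by decide +kernel)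
theorem L2506957 : W_2 (nat_lit 2) (nat_lit 0x5000280010000800040005000000000000000) (nat_lit 0x0) (nat_lit 0x2000280000000000) := D_2 (nat_lit 61) (nat_lit 45) (nat_lit 43) (nat_lit 6) (nat_lit 10) (nat_lit 6) (nat_lit 4) (nat_lit 10) (nat_lit 6) (by decide +kernel)
theorem L2506958 : W_2 (nat_lit 3) (nat_lit 0x5000280010000800040004000000000000000) (nat_lit 0x0) (nat_lit 0x20003000280000000000) := T_2 (nat_lit 60) (nat_lit 77) (nat_lit 4) (nat_lit 10) (nat_lit 7) L2506957 (by decide +kernel)
theorem L2506959 : W_2 (nat_lit 4) (nat_lit 0x5000280010000800040000000000000000000) (nat_lit 0x0) (nat_lit 0xa0007000280000000000) := T_2 (nat_lit 62) (nat_lit 79) (nat_lit 6) (nat_lit 10) (nat_lit 7) L2506958 (by decide +kernel)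
theorem L2506960 : W_2 (nat_lit 2) (nat_lit 0x5000280030000800040007000000000000000) (nat_lit 0x0) (nat_lit 0x80000000000000001000000000000100000000000) := D_2 (nat_lit 96) (nat_lit 44) (nat_lit 163) (nat_lit 7) (nat_lit 10) (nat_lit 2) (nat_lit 6) (nat_lit 10) (nat_lit 9) (by decide +kernel)
theorem L2506961 : W_2 (nat_lit 3) (nat_lit 0x5000280010000800040007000000000000000) (nat_lit 0x0) (nat_lit 0x80000000400020001000000000000100000000000) := T_2 (nat_lit 113) (nat_lit 130) (nat_lit 7) (nat_lit 10) (nat_lit 3) L2506960 (by decide +kernel)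
theorem L2506962 : W_2 (nat_lit 4) (nat_lit 0x5000280010000800040003000000000000000) (nat_lit 0x0) (nat_lit 0x80000000400020001000000004000300000000000) := T_2 (nat_lit 62) (nat_lit 45) (nat_lit 6) (nat_lit 10) (nat_lit 6) L2506961 (by decide +kernel)
theorem L2506963 : W_2 (nat_lit 5) (nat_lit 0x5000280010000800040001000000000000000) (nat_lit 0x0) (nat_lit 0x80000000400020001000000006000380000000000) := T_2 (nat_lit 61) (nat_lit 43) (nat_lit 4) (nat_lit 10) (nat_lit 6) L2506962 (by decide +kernel)
theorem L2506964 : W_2 (nat_lit 6) (nat_lit 0x5000280010000800040000000000000000000) (nat_lit 0x0) (nat_lit 0x80000000400020001000020007000380000000000) := T_2 (nat_lit 60) (nat_lit 77) (nat_lit 4) (nat_lit 10) (nat_lit 7) L2506963 (by decide +kernel)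
theorem L2506965 : W_2 (nat_lit 2) (nat_lit 0x5000280030001800068000000000000000000) (nat_lit 0x0) (nat_lit 0x400000000000000002000100000000000) := D_2 (nat_lit 61) (nat_lit 44) (nat_lit 130) (nat_lit 7) (nat_lit 10) (nat_lit 2) (nat_lit 7) (nat_lit 10) (nat_lit 3) (by decide +kernel)
theorem L2506966 : W_2 (nat_lit 3) (nat_lit 0x5000280010001800068000000000000000000) (nat_lit 0x0) (nat_lit 0x80000000400020000000000002000100000000000) := T_2 (nat_lit 113) (nat_lit 163) (nat_lit 6) (nat_lit 10) (nat_lit 9) L2506965 (by decide +kernel)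
theorem L2506967 : W_2 (nat_lit 4) (nat_lit 0x5000280010001800060000000000000000000) (nat_lit 0x0) (nat_lit 0x80000000400020000000018002000100000000000) := T_2 (nat_lit 75) (nat_lit 76) (nat_lit 3) (nat_lit 7) (nat_lit 4) L2506966 (by decide +kernel)
theorem L2506968 : W_2 (nat_lit 5) (nat_lit 0x5000280010000800060000000000000000000) (nat_lit 0x0) (nat_lit 0x80000000400020001000098002000100000000000) := T_2 (nat_lit 96) (nat_lit 79) (nat_lit 6) (nat_lit 10) (nat_lit 8) L2506967 (by decide +kernel)
theorem L2506969 : W_2 (nat_lit 6) (nat_lit 0x5000280010000800040000000000000000000) (nat_lit 0x0) (nat_lit 0x800000004000200010000b8003000100000000000) := T_2 (nat_lit 77) (nat_lit 60) (nat_lit 4) (nat_lit 10) (nat_lit 7) L2506968 (by decide +kernel)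
theorem L2506970 : W_2 (nat_lit 7) (nat_lit 0x5000280010000800000000000000000000000) (nat_lit 0x0) (nat_lit 0x800000004000200010000f8007000380000000000) := Q_2 (nat_lit 78) (C_2 L2506956 (C_2 L2506959 (C_2 L2506964 (C_2 L2506969 N_2)))) (by decide +kernel)
theorem L2506971 : W_2 (nat_lit 2) (nat_lit 0xd000280010000800080000000000000000000) (nat_lit 0x0) (nat_lit 0x400000000000040004000000000000000) := D_2 (nat_lit 78) (nat_lit 130) (nat_lit 62) (nat_lit 7) (nat_lit 10) (nat_lit 4) (nat_lit 6) (nat_lit 10) (nat_lit 7) (by decide +kernel)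
theorem L2506972 : W_2 (nat_lit 3) (nat_lit 0x5000280010000800080000000000000000000) (nat_lit 0x0) (nat_lit 0x100008000400000000000040004000000000000000) := T_2 (nat_lit 147) (nat_lit 164) (nat_lit 7) (nat_lit 10) (nat_lit 5) L2506971 (by decide +kernel)
theorem L2506973 : W_2 (nat_lit 4) (nat_lit 0x5000280010000800000000000000000000000) (nat_lit 0x0) (nat_lit 0x1000080004000000010000c0004000000000000000) := T_2 (nat_lit 79) (nat_lit 96) (nat_lit 6) (nat_lit 10) (nat_lit 8) L2506972 (by decide +kernel)
theorem L2506974 : W_2 (nat_lit 2) (nat_lit 0xd000280010000800040005000000000000000) (nat_lit 0x0) (nat_lit 0x2000280000000000) := D_2 (nat_lit 61) (nat_lit 45) (nat_lit 43) (nat_lit 6) (nat_lit 10) (nat_lit 6) (nat_lit 4) (nat_lit 10) (nat_lit 6) (by decide +kernel)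
theorem L2506975 : W_2 (nat_lit 3) (nat_lit 0xd000280010000800040004000000000000000) (nat_lit 0x0) (nat_lit 0x20003000280000000000) := T_2 (nat_lit 60) (nat_lit 77) (nat_lit 4) (nat_lit 10) (nat_lit 7) L2506974 (by decide +kernel)
theorem L2506976 : W_2 (nat_lit 4) (nat_lit 0xd000280010000800040000000000000000000) (nat_lit 0x0) (nat_lit 0xa0007000280000000000) := T_2 (nat_lit 62) (nat_lit 79) (nat_lit 6) (nat_lit 10) (nat_lit 7) L2506975 (by decide +kernel)
theorem L2506977 : W_2 (nat_lit 5) (nat_lit 0xd000280010000800000000000000000000000) (nat_lit 0x0) (nat_lit 0x4000000000000e0007000280000000000) := T_2 (nat_lit 78) (nat_lit 130) (nat_lit 7) (nat_lit 10) (nat_lit 4) L2506976 (by decide +kernel)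
theorem L2506978 : W_2 (nat_lit 6) (nat_lit 0x5000280010000800000000000000000000000) (nat_lit 0x0) (nat_lit 0x1000080004000000000000e0007000280000000000) := T_2 (nat_lit 147) (nat_lit 164) (nat_lit 7) (nat_lit 10) (nat_lit 5) L2506977 (by decide +kernel)
theorem L2506979 : W_2 (nat_lit 2) (nat_lit 0x80005000280010000800000000000000000000000) (nat_lit 0x0) (nat_lit 0x2000100008000000000000000000000000000000000000) := D_2 (nat_lit 164) (nat_lit 147) (nat_lit 181) (nat_lit 7) (nat_lit 10) (nat_lit 5) (nat_lit 7) (nat_lit 10) (nat_lit 6) (by decide +kernel)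
theorem L2506980 : W_2 (nat_lit 2) (nat_lit 0x2000080005000280030000800000000000000000000000) (nat_lit 0x0) (nat_lit 0x40001000000000000400000000000000000000000000000000) := D_2 (nat_lit 180) (nat_lit 198) (nat_lit 130) (nat_lit 7) (nat_lit 10) (nat_lit 7) (nat_lit 6) (nat_lit 10) (nat_lit 10) (by decide +kernel)
theorem L2506981 : W_2 (nat_lit 3) (nat_lit 0x2000080005000280010000800000000000000000000000) (nat_lit 0x0) (nat_lit 0x40001000000000000400020001000000000000000000000000) := T_2 (nat_lit 113) (nat_lit 96) (nat_lit 6) (nat_lit 10) (nat_lit 9) L2506980 (by decide +kernel)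
theorem L2506982 : W_2 (nat_lit 4) (nat_lit 0x80005000280010000800000000000000000000000) (nat_lit 0x0) (nat_lit 0x40003000100000000400020001000000000000000000000000) := T_2 (nat_lit 181) (nat_lit 164) (nat_lit 7) (nat_lit 10) (nat_lit 6) L2506981 (by decide +kernel)
theorem L2506983 : W_2 (nat_lit 2) (nat_lit 0x50001000080005000280030000800000000000000000000000) (nat_lit 0x0) (nat_lit 0xa00020000000000000000000000000000000000000000000000000) := D_2 (nat_lit 197) (nat_lit 213) (nat_lit 215) (nat_lit 5) (nat_lit 10) (nat_lit 8) (nat_lit 7) (nat_lit 10) (nat_lit 8) (by decide +kernel)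
theorem L2506984 : W_2 (nat_lit 3) (nat_lit 0x10001000080005000280030000800000000000000000000000) (nat_lit 0x0) (nat_lit 0xa00060002000000000000000000000000000000000000000000000) := T_2 (nat_lit 198) (nat_lit 181) (nat_lit 7) (nat_lit 10) (nat_lit 7) L2506983 (by decide +kernel)
theorem L2506985 : W_2 (nat_lit 4) (nat_lit 0x1000080005000280030000800000000000000000000000) (nat_lit 0x0) (nat_lit 0xa00070002800000000000000000000000000000000000000000000) := T_2 (nat_lit 196) (nat_lit 179) (nat_lit 5) (nat_lit 10) (nat_lit 7) L2506984 (by decide +kernel)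
theorem L2506986 : W_2 (nat_lit 5) (nat_lit 0x80005000280030000800000000000000000000000) (nat_lit 0x0) (nat_lit 0xa00070003800000000000400000000000000000000000000000000) := T_2 (nat_lit 180) (nat_lit 130) (nat_lit 6) (nat_lit 10) (nat_lit 10) L2506985 (by decide +kernel)
theorem L2506987 : W_2 (nat_lit 6) (nat_lit 0x80005000280010000800000000000000000000000) (nat_lit 0x0) (nat_lit 0xa00070003800000000000400020001000000000000000000000000) := T_2 (nat_lit 113) (nat_lit 96) (nat_lit 6) (nat_lit 10) (nat_lit 9) L2506986 (by decide +kernel)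
theorem L2506988 : W_2 (nat_lit 2) (nat_lit 0x8000d000280030000800000000000000000000000) (nat_lit 0x0) (nat_lit 0x1000000000000400000000000040000000000000000000) := D_2 (nat_lit 130) (nat_lit 78) (nat_lit 180) (nat_lit 7) (nat_lit 10) (nat_lit 4) (nat_lit 6) (nat_lit 10) (nat_lit 10) (by decide +kernel)
theorem L2506989 : W_2 (nat_lit 3) (nat_lit 0x80005000280030000800000000000000000000000) (nat_lit 0x0) (nat_lit 0x1000100008000400000000000040000000000000000000) := T_2 (nat_lit 147) (nat_lit 164) (nat_lit 7) (nat_lit 10) (nat_lit 5) L2506988 (by decide +kernel)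
theorem L2506990 : W_2 (nat_lit 4) (nat_lit 0x80005000280010000800000000000000000000000) (nat_lit 0x0) (nat_lit 0x1000100008000400020001000040000000000000000000) := T_2 (nat_lit 113) (nat_lit 96) (nat_lit 6) (nat_lit 10) (nat_lit 9) L2506989 (by decide +kernel)
theorem L2506991 : W_2 (nat_lit 7) (nat_lit 0x5000280010000800000000000000000000000) (nat_lit 0x0) (nat_lit 0xa00070003800180008000400020001000040000000000000000000) := Q_2 (nat_lit 163) (C_2 L2506979 (C_2 L2506982 (C_2 L2506987 (C_2 L2506990 N_2)))) (by decide +kernel)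
theorem L2506992 : W_2 (nat_lit 8) (nat_lit 0x5000280010000000000000000000000000000) (nat_lit 0x0) (nat_lit 0xa000700038001800080004000200018000f8007000380000000000) := Q_2 (nat_lit 95) (C_2 L2506873 (C_2 L2506970 (C_2 L2506973 (C_2 L2506978 (C_2 L2506991 N_2))))) (by decide +kernel)
theorem L2506993 : W_2 (nat_lit 2) (nat_lit 0x380009000500028003c000200000000000000000000000) (nat_lit 0x0) (nat_lit 0x600020000000000000000000000000000000000000000) := D_2 (nat_lit 161) (nat_lit 178) (nat_lit 177) (nat_lit 0) (nat_lit 11) (nat_lit 10) (nat_lit 5) (nat_lit 8) (nat_lit 6) (by decide +kernel)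
theorem L2506994 : W_2 (nat_lit 3) (nat_lit 0x380008000500028003c000200000000000000000000000) (nat_lit 0x0) (nat_lit 0x600030000800000000000000000000000000000000000) := T_2 (nat_lit 160) (nat_lit 143) (nat_lit 5) (nat_lit 8) (nat_lit 5) L2506993 (by decide +kernel)
theorem L2506995 : W_2 (nat_lit 4) (nat_lit 0x380008000500028003c000000000000000000000000000) (nat_lit 0x0) (nat_lit 0x600030000800000000000300000000000000000000000) := T_2 (nat_lit 93) (nat_lit 92) (nat_lit 0) (nat_lit 11) (nat_lit 6) L2506994 (by decide +kernel)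
theorem L2506996 : W_2 (nat_lit 5) (nat_lit 0x3800080005000280038000000000000000000000000000) (nat_lit 0x0) (nat_lit 0x600030000800040004000300000000000000000000000) := T_2 (nat_lit 110) (nat_lit 126) (nat_lit 1) (nat_lit 11) (nat_lit 6) L2506995 (by decide +kernel)
theorem L2506997 : W_2 (nat_lit 6) (nat_lit 0x3800080005000280018000000000000000000000000000) (nat_lit 0x0) (nat_lit 0x600030000800040024001300000000000000000000000) := T_2 (nat_lit 113) (nat_lit 96) (nat_lit 6) (nat_lit 10) (nat_lit 9) L2506996 (by decide +kernel)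
theorem L2506998 : W_2 (nat_lit 7) (nat_lit 0x3000080005000280018000000000000000000000000000) (nat_lit 0x0) (nat_lit 0x10000e00030000800040024001300000000000000000000000) := T_2 (nat_lit 179) (nat_lit 196) (nat_lit 5) (nat_lit 10) (nat_lit 7) L2506997 (by decide +kernel)
theorem L2506999 : W_2 (nat_lit 8) (nat_lit 0x2000080005000280018000000000000000000000000000) (nat_lit 0x0) (nat_lit 0x50001e00030000800040024001300000000000000000000000) := T_2 (nat_lit 180) (nat_lit 198) (nat_lit 7) (nat_lit 10) (nat_lit 7) L2506998 (by decide +kernel)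
theorem L2507000 : W_2 (nat_lit 9) (nat_lit 0x2000080005000280010000000000000000000000000000) (nat_lit 0x0) (nat_lit 0x50001e0003000080004002c001700000000000000000000000) := T_2 (nat_lit 111) (nat_lit 94) (nat_lit 4) (nat_lit 10) (nat_lit 9) L2506999 (by decide +kernel)
theorem L2507001 : W_2 (nat_lit 10) (nat_lit 0x80005000280010000000000000000000000000000) (nat_lit 0x0) (nat_lit 0x50003e0013000080004002c001700000000000000000000000) := T_2 (nat_lit 181) (nat_lit 164) (nat_lit 7) (nat_lit 10) (nat_lit 6) L2507000 (by decide +kernel)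
theorem L2507002 : W_2 (nat_lit 2) (nat_lit 0x80003000100008000d000280018000000000000000000000000000) (nat_lit 0x0) (nat_lit 0x10000400000000000100000000000000000000000000000000000000000) := D_2 (nat_lit 214) (nat_lit 164) (nat_lit 232) (nat_lit 6) (nat_lit 10) (nat_lit 12) (nat_lit 7) (nat_lit 10) (nat_lit 9) (by decide +kernel)
theorem L2507003 : W_2 (nat_lit 3) (nat_lit 0x3000100008000d000280018000000000000000000000000000) (nat_lit 0x0) (nat_lit 0x10000c00040000000100000000000000000000000000000000000000000) := T_2 (nat_lit 215) (nat_lit 198) (nat_lit 7) (nat_lit 10) (nat_lit 8) L2507002 (by decide +kernel)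
theorem L2507004 : W_2 (nat_lit 4) (nat_lit 0x30001000080005000280018000000000000000000000000000) (nat_lit 0x0) (nat_lit 0x10000c00040000000100008000400000000000000000000000000000000) := T_2 (nat_lit 147) (nat_lit 130) (nat_lit 6) (nat_lit 10) (nat_lit 11) L2507003 (by decide +kernel)
theorem L2507005 : W_2 (nat_lit 5) (nat_lit 0x10001000080005000280018000000000000000000000000000) (nat_lit 0x0) (nat_lit 0x10000e00060000000100008000400000000000000000000000000000000) := T_2 (nat_lit 197) (nat_lit 213) (nat_lit 5) (nat_lit 10) (nat_lit 8) L2507004 (by decide +kernel)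
theorem L2507006 : W_2 (nat_lit 6) (nat_lit 0x10001000080005000280010000000000000000000000000000) (nat_lit 0x0) (nat_lit 0x10000e00060000000100008000400008000400000000000000000000000) := T_2 (nat_lit 111) (nat_lit 94) (nat_lit 4) (nat_lit 10) (nat_lit 9) L2507005 (by decide +kernel)
theorem L2507007 : W_2 (nat_lit 7) (nat_lit 0x1000080005000280010000000000000000000000000000) (nat_lit 0x0) (nat_lit 0x10000e00070000800100008000400008000400000000000000000000000) := T_2 (nat_lit 196) (nat_lit 179) (nat_lit 5) (nat_lit 10) (nat_lit 7) L2507006 (by decide +kernel)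
theorem L2507008 : W_2 (nat_lit 2) (nat_lit 0x30001000180005000280010000000000000000000000000000) (nat_lit 0x0) (nat_lit 0x400000000000000008000400000000000000000000000000000000) := D_2 (nat_lit 147) (nat_lit 130) (nat_lit 214) (nat_lit 6) (nat_lit 10) (nat_lit 11) (nat_lit 6) (nat_lit 10) (nat_lit 12) (by decide +kernel)
theorem L2507009 : W_2 (nat_lit 3) (nat_lit 0x10001000180005000280010000000000000000000000000000) (nat_lit 0x0) (nat_lit 0x600020000000000008000400000000000000000000000000000000) := T_2 (nat_lit 197) (nat_lit 213) (nat_lit 5) (nat_lit 10) (nat_lit 8) L2507008 (by decide +kernel)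
theorem L2507010 : W_2 (nat_lit 4) (nat_lit 0x10001000080005000280010000000000000000000000000000) (nat_lit 0x0) (nat_lit 0x600020002000100008000400000000000000000000000000000000) := T_2 (nat_lit 164) (nat_lit 181) (nat_lit 7) (nat_lit 10) (nat_lit 6) L2507009 (by decide +kernel)
theorem L2507011 : W_2 (nat_lit 5) (nat_lit 0x1000080005000280010000000000000000000000000000) (nat_lit 0x0) (nat_lit 0x600030002800100008000400000000000000000000000000000000) := T_2 (nat_lit 196) (nat_lit 179) (nat_lit 5) (nat_lit 10) (nat_lit 7) L2507010 (by decide +kernel)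
theorem L2507012 : W_2 (nat_lit 8) (nat_lit 0x80005000280010000000000000000000000000000) (nat_lit 0x0) (nat_lit 0x10000e00070003800100008000400008000400000000000000000000000) := Q_2 (nat_lit 180) (C_2 L2506900 (C_2 L2506896 (C_2 L2507007 (C_2 L2507011 N_2)))) (by decide +kernel)
theorem L2507074 : W_2 (nat_lit 2) (nat_lit 0x500028003c000200000000000000000000000) (nat_lit 0x0) (nat_lit 0x40000400020000000000000000000) := D_2 (nat_lit 94) (nat_lit 114) (nat_lit 77) (nat_lit 0) (nat_lit 12) (nat_lit 6) (nat_lit 6) (nat_lit 8) (nat_lit 8) (by decide +kernel)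
theorem L2507075 : W_2 (nat_lit 3) (nat_lit 0x500028003c000000000000000000000000000) (nat_lit 0x0) (nat_lit 0x40000700020000000000000000000) := T_2 (nat_lit 93) (nat_lit 92) (nat_lit 0) (nat_lit 11) (nat_lit 6) L2507074 (by decide +kernel)
theorem L2507076 : W_2 (nat_lit 4) (nat_lit 0x500028001c000000000000000000000000000) (nat_lit 0x0) (nat_lit 0x40060000700020000000000000000000) := T_2 (nat_lit 113) (nat_lit 126) (nat_lit 1) (nat_lit 11) (nat_lit 6) L2507075 (by decide +kernel)
theorem L2507077 : W_2 (nat_lit 4) (nat_lit 0x500028003c000000000000000000000000000) (nat_lit 0x0) (nat_lit 0x20000000c00000003400080000000000000000000) := T_2 (nat_lit 161) (nat_lit 94) (nat_lit 6) (nat_lit 8) (nat_lit 9) L2506285 (by decide +kernel)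
theorem L2507078 : W_2 (nat_lit 5) (nat_lit 0x500028001c000000000000000000000000000) (nat_lit 0x0) (nat_lit 0x20000000c40020003400080000000000000000000) := T_2 (nat_lit 113) (nat_lit 126) (nat_lit 1) (nat_lit 11) (nat_lit 6) L2507077 (by decide +kernel)
theorem L2507079 : W_2 (nat_lit 2) (nat_lit 0x3000500028001c000200000000000000000000000) (nat_lit 0x0) (nat_lit 0x20000100008000000000000000000) := D_2 (nat_lit 92) (nat_lit 75) (nat_lit 113) (nat_lit 4) (nat_lit 8) (nat_lit 8) (nat_lit 0) (nat_lit 11) (nat_lit 6) (by decide +kernel)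
theorem L2507080 : W_2 (nat_lit 3) (nat_lit 0x3000500028001c000000000000000000000000000) (nat_lit 0x0) (nat_lit 0x800000020000300008000000000000000000) := T_2 (nat_lit 93) (nat_lit 143) (nat_lit 5) (nat_lit 8) (nat_lit 5) L2507079 (by decide +kernel)
theorem L2507081 : W_2 (nat_lit 4) (nat_lit 0x2000500028001c000000000000000000000000000) (nat_lit 0x0) (nat_lit 0x200010000800000020000300008000000000000000000) := T_2 (nat_lit 160) (nat_lit 177) (nat_lit 5) (nat_lit 8) (nat_lit 6) L2507080 (by decide +kernel)
theorem L2507082 : W_2 (nat_lit 5) (nat_lit 0x500028001c000000000000000000000000000) (nat_lit 0x0) (nat_lit 0x200030000800000020000700008000000000000000000) := T_2 (nat_lit 161) (nat_lit 94) (nat_lit 6) (nat_lit 8) (nat_lit 9) L2507081 (by decide +kernel)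
theorem L2507083 : W_2 (nat_lit 2) (nat_lit 0x500068003c000200000000000000000000000) (nat_lit 0x0) (nat_lit 0x3000080000000000000000000) := D_2 (nat_lit 96) (nat_lit 79) (nat_lit 97) (nat_lit 5) (nat_lit 11) (nat_lit 4) (nat_lit 2) (nat_lit 8) (nat_lit 6) (by decide +kernel)
theorem L2507084 : W_2 (nat_lit 3) (nat_lit 0x500028003c000200000000000000000000000) (nat_lit 0x0) (nat_lit 0xc00000003000080000000000000000000) := T_2 (nat_lit 130) (nat_lit 131) (nat_lit 3) (nat_lit 8) (nat_lit 6) L2507083 (by decide +kernel)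
theorem L2507085 : W_2 (nat_lit 4) (nat_lit 0x500028003c000000000000000000000000000) (nat_lit 0x0) (nat_lit 0xc00000003300080000000000000000000) := T_2 (nat_lit 93) (nat_lit 92) (nat_lit 0) (nat_lit 11) (nat_lit 6) L2507084 (by decide +kernel)
theorem L2507086 : W_2 (nat_lit 5) (nat_lit 0x500028001c000000000000000000000000000) (nat_lit 0x0) (nat_lit 0xc40020003300080000000000000000000) := T_2 (nat_lit 113) (nat_lit 126) (nat_lit 1) (nat_lit 11) (nat_lit 6) L2507085 (by decide +kernel)
theorem L2507087 : W_2 (nat_lit 2) (nat_lit 0x500028001c000400000000000000000000000) (nat_lit 0x0) (nat_lit 0x200020001000000000000000) := D_2 (nat_lit 77) (nat_lit 93) (nat_lit 60) (nat_lit 6) (nat_lit 8) (nat_lit 8) (nat_lit 7) (nat_lit 9) (nat_lit 3) (by decide +kernel)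
theorem L2507088 : W_2 (nat_lit 3) (nat_lit 0x500028001c000000000000000000000000000) (nat_lit 0x0) (nat_lit 0x20000000000000000600020001000000000000000) := T_2 (nat_lit 94) (nat_lit 161) (nat_lit 6) (nat_lit 8) (nat_lit 9) L2507087 (by decide +kernel)
theorem L2507089 : W_2 (nat_lit 6) (nat_lit 0x5000280018000000000000000000000000000) (nat_lit 0x0) (nat_lit 0x200030000800c400640037000a8001000000000000000) := Q_2 (nat_lit 110) (C_2 L2507076 (C_2 L2507078 (C_2 L2507082 (C_2 L2507086 (C_2 L2507088 N_2))))) (by decide +kernel)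
theorem L2507090 : W_2 (nat_lit 4) (nat_lit 0x80005000280018000000000000000000000000000) (nat_lit 0x0) (nat_lit 0x1000000000000c40024001000000000000000000000000) := T_2 (nat_lit 113) (nat_lit 96) (nat_lit 6) (nat_lit 10) (nat_lit 9) L2506908 (by decide +kernel)
theorem L2507091 : W_2 (nat_lit 5) (nat_lit 0x5000280018000000000000000000000000000) (nat_lit 0x0) (nat_lit 0x1000080000000c40024001400000000000000000000000) := T_2 (nat_lit 163) (nat_lit 94) (nat_lit 4) (nat_lit 10) (nat_lit 9) L2507090 (by decide +kernel)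
theorem L2507092 : W_2 (nat_lit 4) (nat_lit 0x80005000280018000000000000000000000000000) (nat_lit 0x0) (nat_lit 0x40003000100000000400020001000000000000000000000000) := T_2 (nat_lit 113) (nat_lit 96) (nat_lit 6) (nat_lit 10) (nat_lit 9) L2044385 (by decide +kernel)
theorem L2507093 : W_2 (nat_lit 5) (nat_lit 0x5000280018000000000000000000000000000) (nat_lit 0x0) (nat_lit 0x40003000180000000400020001400000000000000000000000) := T_2 (nat_lit 163) (nat_lit 94) (nat_lit 4) (nat_lit 10) (nat_lit 9) L2507092 (by decide +kernel)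
theorem L2507094 : W_2 (nat_lit 3) (nat_lit 0x300009000500028003c000200000000000000000000000) (nat_lit 0x0) (nat_lit 0x10000e00020000000000000000000000000000000000000000) := T_2 (nat_lit 179) (nat_lit 196) (nat_lit 5) (nat_lit 10) (nat_lit 7) L2506993 (by decide +kernel)
theorem L2507095 : W_2 (nat_lit 4) (nat_lit 0x200009000500028003c000200000000000000000000000) (nat_lit 0x0) (nat_lit 0x50001e00020000000000000000000000000000000000000000) := T_2 (nat_lit 180) (nat_lit 198) (nat_lit 7) (nat_lit 10) (nat_lit 7) L2507094 (by decide +kernel)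
theorem L2507096 : W_2 (nat_lit 5) (nat_lit 0x200008000500028003c000200000000000000000000000) (nat_lit 0x0) (nat_lit 0x50001e00030000800000000000000000000000000000000000) := T_2 (nat_lit 160) (nat_lit 143) (nat_lit 5) (nat_lit 8) (nat_lit 5) L2507095 (by decide +kernel)
theorem L2507097 : W_2 (nat_lit 6) (nat_lit 0x8000500028003c000200000000000000000000000) (nat_lit 0x0) (nat_lit 0x50003e00130000800000000000000000000000000000000000) := T_2 (nat_lit 181) (nat_lit 164) (nat_lit 7) (nat_lit 10) (nat_lit 6) L2507096 (by decide +kernel)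
theorem L2507098 : W_2 (nat_lit 7) (nat_lit 0x8000500028003c000000000000000000000000000) (nat_lit 0x0) (nat_lit 0x50003e00130000800000000000300000000000000000000000) := T_2 (nat_lit 93) (nat_lit 92) (nat_lit 0) (nat_lit 11) (nat_lit 6) L2507097 (by decide +kernel)
theorem L2507099 : W_2 (nat_lit 8) (nat_lit 0x80005000280038000000000000000000000000000) (nat_lit 0x0) (nat_lit 0x50003e00130000800040004000300000000000000000000000) := T_2 (nat_lit 110) (nat_lit 126) (nat_lit 1) (nat_lit 11) (nat_lit 6) L2507098 (by decide +kernel)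
theorem L2507100 : W_2 (nat_lit 9) (nat_lit 0x80005000280018000000000000000000000000000) (nat_lit 0x0) (nat_lit 0x50003e00130000800040024001300000000000000000000000) := T_2 (nat_lit 113) (nat_lit 96) (nat_lit 6) (nat_lit 10) (nat_lit 9) L2507099 (by decide +kernel)
theorem L2507101 : W_2 (nat_lit 10) (nat_lit 0x5000280018000000000000000000000000000) (nat_lit 0x0) (nat_lit 0x50003e001b0000800040024001700000000000000000000000) := T_2 (nat_lit 163) (nat_lit 94) (nat_lit 4) (nat_lit 10) (nat_lit 9) L2507100 (by decide +kernel)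
theorem L2507102 : W_2 (nat_lit 3) (nat_lit 0x5000280038000000000000000000000000000) (nat_lit 0x0) (nat_lit 0x80000000040004003000000000000000000000000) := T_2 (nat_lit 110) (nat_lit 126) (nat_lit 1) (nat_lit 11) (nat_lit 6) L2506387 (by decide +kernel)
theorem L2507103 : W_2 (nat_lit 5) (nat_lit 0x5000280078000000000000000000000000000) (nat_lit 0x0) (nat_lit 0x384008400e000000000000000000000000) := T_2 (nat_lit 110) (nat_lit 126) (nat_lit 1) (nat_lit 11) (nat_lit 6) L2506391 (by decide +kernel)
theorem L2507104 : W_2 (nat_lit 2) (nat_lit 0x1000050016800f8002000000008000000000000000) (nat_lit 0x0) (nat_lit 0x3000080000000000000000000000000000000000000000) := D_2 (nat_lit 163) (nat_lit 181) (nat_lit 180) (nat_lit 7) (nat_lit 10) (nat_lit 6) (nat_lit 6) (nat_lit 10) (nat_lit 10) (by decide +kernel)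
theorem L2507105 : W_2 (nat_lit 3) (nat_lit 0x50016800f8002000000008000000000000000) (nat_lit 0x0) (nat_lit 0x3000180008000000000000000000000000000000000000) := T_2 (nat_lit 164) (nat_lit 147) (nat_lit 6) (nat_lit 11) (nat_lit 9) L2507104 (by decide +kernel)
theorem L2507106 : W_2 (nat_lit 4) (nat_lit 0x50016800f8002000000000000000000000000) (nat_lit 0x0) (nat_lit 0x3000180008000000000000000100008000000000000000) := T_2 (nat_lit 63) (nat_lit 80) (nat_lit 7) (nat_lit 12) (nat_lit 3) L2507105 (by decide +kernel)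
theorem L2507107 : W_2 (nat_lit 5) (nat_lit 0x50012800f8002000000000000000000000000) (nat_lit 0x0) (nat_lit 0x3000180008000400100000000100008000000000000000) := T_2 (nat_lit 130) (nat_lit 116) (nat_lit 1) (nat_lit 14) (nat_lit 6) L2507106 (by decide +kernel)
theorem L2507108 : W_2 (nat_lit 6) (nat_lit 0x5001280078002000000000000000000000000) (nat_lit 0x0) (nat_lit 0x3000180008002400180000000100008000000000000000) := T_2 (nat_lit 115) (nat_lit 133) (nat_lit 3) (nat_lit 10) (nat_lit 6) L2507107 (by decide +kernel)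
theorem L2507109 : W_2 (nat_lit 7) (nat_lit 0x5001280078000000000000000000000000000) (nat_lit 0x0) (nat_lit 0x3000180008002400180006000100008000000000000000) := T_2 (nat_lit 97) (nat_lit 98) (nat_lit 2) (nat_lit 9) (nat_lit 6) L2507108 (by decide +kernel)
theorem L2507110 : W_2 (nat_lit 8) (nat_lit 0x5000280078000000000000000000000000000) (nat_lit 0x0) (nat_lit 0x3000180008003c00180006000100008000000000000000) := T_2 (nat_lit 132) (nat_lit 131) (nat_lit 3) (nat_lit 9) (nat_lit 6) L2507109 (by decide +kernel)
theorem L2507111 : W_2 (nat_lit 2) (nat_lit 0x58002801fc004200000000000000000000000) (nat_lit 0x0) (nat_lit 0x7000000000000000000000000000000000) := D_2 (nat_lit 133) (nat_lit 132) (nat_lit 134) (nat_lit 3) (nat_lit 10) (nat_lit 6) (nat_lit 3) (nat_lit 11) (nat_lit 6) (by decide +kernel)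
theorem L2507112 : W_2 (nat_lit 3) (nat_lit 0x58002800fc004200000000000000000000000) (nat_lit 0x0) (nat_lit 0x7400100000000000000000000000000000) := T_2 (nat_lit 116) (nat_lit 130) (nat_lit 1) (nat_lit 14) (nat_lit 6) L2507111 (by decide +kernel)
theorem L2507113 : W_2 (nat_lit 4) (nat_lit 0x580028007c004200000000000000000000000) (nat_lit 0x0) (nat_lit 0x7400180008000000000000000000000000) := T_2 (nat_lit 115) (nat_lit 99) (nat_lit 2) (nat_lit 10) (nat_lit 6) L2507112 (by decide +kernel)
theorem L2507114 : W_2 (nat_lit 5) (nat_lit 0x500028007c004200000000000000000000000) (nat_lit 0x0) (nat_lit 0x10000807400180008000000000000000000000000) := T_2 (nat_lit 143) (nat_lit 160) (nat_lit 5) (nat_lit 8) (nat_lit 5) L2507113 (by decide +kernel)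
theorem L2507115 : W_2 (nat_lit 6) (nat_lit 0x500028007c000200000000000000000000000) (nat_lit 0x0) (nat_lit 0x1000080740018000e000000000000000000000000) := T_2 (nat_lit 98) (nat_lit 97) (nat_lit 2) (nat_lit 9) (nat_lit 6) L2507114 (by decide +kernel)
theorem L2507116 : W_2 (nat_lit 7) (nat_lit 0x500028007c000000000000000000000000000) (nat_lit 0x0) (nat_lit 0x1000080740018000e300000000000000000000000) := T_2 (nat_lit 93) (nat_lit 92) (nat_lit 0) (nat_lit 11) (nat_lit 6) L2507115 (by decide +kernel)
theorem L2507117 : W_2 (nat_lit 8) (nat_lit 0x5000280078000000000000000000000000000) (nat_lit 0x0) (nat_lit 0x1000080744018400e300000000000000000000000) := T_2 (nat_lit 110) (nat_lit 126) (nat_lit 1) (nat_lit 11) (nat_lit 6) L2507116 (by decide +kernel)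
theorem L2507118 : W_2 (nat_lit 2) (nat_lit 0x5000a80078000000000000000000000000000) (nat_lit 0x0) (nat_lit 0x440004000000000000000000000000000) := D_2 (nat_lit 110) (nat_lit 130) (nat_lit 126) (nat_lit 3) (nat_lit 8) (nat_lit 6) (nat_lit 1) (nat_lit 11) (nat_lit 6) (by decide +kernel)
theorem L2507119 : W_2 (nat_lit 3) (nat_lit 0x5000280078000000000000000000000000000) (nat_lit 0x0) (nat_lit 0x1c40004000000000000000000000000000) := T_2 (nat_lit 131) (nat_lit 132) (nat_lit 3) (nat_lit 9) (nat_lit 6) L2507118 (by decide +kernel)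
theorem L2507120 : W_2 (nat_lit 2) (nat_lit 0x18000580068017c000200000000000000000000000) (nat_lit 0x0) (nat_lit 0x8000000000006000000000000000000000000) := D_2 (nat_lit 97) (nat_lit 147) (nat_lit 98) (nat_lit 6) (nat_lit 11) (nat_lit 9) (nat_lit 2) (nat_lit 9) (nat_lit 6) (by decide +kernel)
theorem L2507121 : W_2 (nat_lit 3) (nat_lit 0x8000580068017c000200000000000000000000000) (nat_lit 0x0) (nat_lit 0x2000100008000000000006000000000000000000000000) := T_2 (nat_lit 164) (nat_lit 181) (nat_lit 7) (nat_lit 10) (nat_lit 6) L2507120 (by decide +kernel)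
theorem L2507122 : W_2 (nat_lit 4) (nat_lit 0x8000500068017c000200000000000000000000000) (nat_lit 0x0) (nat_lit 0x2000110008800000000006000000000000000000000000) := T_2 (nat_lit 143) (nat_lit 160) (nat_lit 5) (nat_lit 8) (nat_lit 5) L2507121 (by decide +kernel)
theorem L2507123 : W_2 (nat_lit 5) (nat_lit 0x500068017c000200000000000000000000000) (nat_lit 0x0) (nat_lit 0x3000190008800000000006000000000000000000000000) := T_2 (nat_lit 163) (nat_lit 180) (nat_lit 6) (nat_lit 10) (nat_lit 10) L2507122 (by decide +kernel)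
theorem L2507124 : W_2 (nat_lit 6) (nat_lit 0x500068007c000200000000000000000000000) (nat_lit 0x0) (nat_lit 0x3000190008800000180006000000000000000000000000) := T_2 (nat_lit 116) (nat_lit 115) (nat_lit 1) (nat_lit 14) (nat_lit 6) L2507123 (by decide +kernel)
theorem L2507125 : W_2 (nat_lit 7) (nat_lit 0x500028007c000200000000000000000000000) (nat_lit 0x0) (nat_lit 0x3000190008800c00180006000000000000000000000000) := T_2 (nat_lit 130) (nat_lit 131) (nat_lit 3) (nat_lit 8) (nat_lit 6) L2507124 (by decide +kernel)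
theorem L2507126 : W_2 (nat_lit 8) (nat_lit 0x500028007c000000000000000000000000000) (nat_lit 0x0) (nat_lit 0x3000190008800c00180006300000000000000000000000) := T_2 (nat_lit 93) (nat_lit 92) (nat_lit 0) (nat_lit 11) (nat_lit 6) L2507125 (by decide +kernel)
theorem L2507127 : W_2 (nat_lit 9) (nat_lit 0x5000280078000000000000000000000000000) (nat_lit 0x0) (nat_lit 0x3000190008800c40184006300000000000000000000000) := T_2 (nat_lit 110) (nat_lit 126) (nat_lit 1) (nat_lit 11) (nat_lit 6) L2507126 (by decide +kernel)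
theorem L2507128 : W_2 (nat_lit 10) (nat_lit 0x5000280038000000000000000000000000000) (nat_lit 0x0) (nat_lit 0x3000190008807c401c400e300100008000000000000000) := Q_2 (nat_lit 114) (C_2 L2507103 (C_2 L2507110 (C_2 L2507117 (C_2 L2507119 (C_2 L2507127 N_2))))) (by decide +kernel)
theorem L2507129 : W_2 (nat_lit 5) (nat_lit 0x5000280038000000000000000000000000000) (nat_lit 0x0) (nat_lit 0xc40004003300080000000000000000000) := T_2 (nat_lit 110) (nat_lit 126) (nat_lit 1) (nat_lit 11) (nat_lit 6) L2507085 (by decide +kernel)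
theorem L2507130 : W_2 (nat_lit 11) (nat_lit 0x5000280018000000000000000000000000000) (nat_lit 0x0) (nat_lit 0x40003000190008807c401e400f300180008000000000000000) := Q_2 (nat_lit 113) (C_2 L2044386 (C_2 L2507102 (C_2 L2507128 (C_2 L2507129 N_2)))) (by decide +kernel)
theorem L2507131 : W_2 (nat_lit 3) (nat_lit 0x5000280018000400000000000000000000000) (nat_lit 0x0) (nat_lit 0x20000000000004000200020001000000000000000) := T_2 (nat_lit 110) (nat_lit 161) (nat_lit 6) (nat_lit 8) (nat_lit 9) L2507087 (by decide +kernel)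
theorem L2507132 : W_2 (nat_lit 4) (nat_lit 0x5000280018000000000000000000000000000) (nat_lit 0x0) (nat_lit 0xa0000000000004000600020001000000000000000) := T_2 (nat_lit 94) (nat_lit 163) (nat_lit 4) (nat_lit 10) (nat_lit 9) L2507131 (by decide +kernel)
theorem L2507133 : W_2 (nat_lit 12) (nat_lit 0x5000280010000000000000000000000000000) (nat_lit 0x0) (nat_lit 0x50003e001b0008807c401ec00f7001a8009000000000000000) := Q_2 (nat_lit 111) (C_2 L2507089 (C_2 L2507091 (C_2 L2507093 (C_2 L2507101 (C_2 L2507130 (C_2 L2507132 N_2)))))) (by decide +kernel)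
theorem L2507134 : W_2 (nat_lit 7) (nat_lit 0x5000280010000000000000000000000000000) (nat_lit 0x0) (nat_lit 0x18000800040000c007c000e0007000280000000000) := Q_2 (nat_lit 95) (C_2 L2506978 (C_2 L2506887 (C_2 L2506973 (C_2 L2506878 (C_2 L2506889 N_2))))) (by decide +kernel)
theorem L2507135 : W_2 (nat_lit 2) (nat_lit 0x800050006800380008000c0000000000000000000) (nat_lit 0x0) (nat_lit 0x840004000000000000000000000000000) := D_2 (nat_lit 110) (nat_lit 131) (nat_lit 126) (nat_lit 3) (nat_lit 8) (nat_lit 6) (nat_lit 1) (nat_lit 11) (nat_lit 6) (by decide +kernel)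
theorem L2507136 : W_2 (nat_lit 3) (nat_lit 0x800050006800300008000c0000000000000000000) (nat_lit 0x0) (nat_lit 0x84000c000400000000000000000000000) := T_2 (nat_lit 111) (nat_lit 94) (nat_lit 4) (nat_lit 10) (nat_lit 9) L2507135 (by decide +kernel)
theorem L2507137 : W_2 (nat_lit 4) (nat_lit 0x50006800300008000c0000000000000000000) (nat_lit 0x0) (nat_lit 0x100008000000084000c000400000000000000000000000) := T_2 (nat_lit 163) (nat_lit 180) (nat_lit 6) (nat_lit 10) (nat_lit 10) L2507136 (by decide +kernel)
theorem L2507138 : W_2 (nat_lit 5) (nat_lit 0x50006800100008000c0000000000000000000) (nat_lit 0x0) (nat_lit 0x100008000000084002c000400000002000000000000000) := T_2 (nat_lit 113) (nat_lit 61) (nat_lit 7) (nat_lit 10) (nat_lit 3) L2507137 (by decide +kernel)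
theorem L2507139 : W_2 (nat_lit 6) (nat_lit 0x50002800100008000c0000000000000000000) (nat_lit 0x0) (nat_lit 0x1000080008000c4002c000400000002000000000000000) := T_2 (nat_lit 130) (nat_lit 147) (nat_lit 7) (nat_lit 10) (nat_lit 4) L2507138 (by decide +kernel)
theorem L2507140 : W_2 (nat_lit 7) (nat_lit 0x5000280010000800080000000000000000000) (nat_lit 0x0) (nat_lit 0x1000080008000c4002c000400040006000000000000000) := T_2 (nat_lit 78) (nat_lit 62) (nat_lit 6) (nat_lit 10) (nat_lit 7) L2507139 (by decide +kernel)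
theorem L2507141 : W_2 (nat_lit 8) (nat_lit 0x5000280010000800000000000000000000000) (nat_lit 0x0) (nat_lit 0x1000080008000c4002c0014000c0006000000000000000) := T_2 (nat_lit 79) (nat_lit 96) (nat_lit 6) (nat_lit 10) (nat_lit 8) L2507140 (by decide +kernel)
theorem L2507142 : W_2 (nat_lit 2) (nat_lit 0x500028003c000c00000000000000000000000) (nat_lit 0x0) (nat_lit 0xc0000200000000000000000000000) := D_2 (nat_lit 114) (nat_lit 115) (nat_lit 93) (nat_lit 0) (nat_lit 13) (nat_lit 6) (nat_lit 0) (nat_lit 12) (nat_lit 6) (by decide +kernel)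
theorem L2507143 : W_2 (nat_lit 3) (nat_lit 0x500028001c000c00000000000000000000000) (nat_lit 0x0) (nat_lit 0x400e0000200000000000000000000000) := T_2 (nat_lit 113) (nat_lit 126) (nat_lit 1) (nat_lit 11) (nat_lit 6) L2507142 (by decide +kernel)
theorem L2507144 : W_2 (nat_lit 4) (nat_lit 0x5000280018000c00000000000000000000000) (nat_lit 0x0) (nat_lit 0x200000000400e4000200000000000000000000000) := T_2 (nat_lit 110) (nat_lit 161) (nat_lit 6) (nat_lit 8) (nat_lit 9) L2507143 (by decide +kernel)
theorem L2507145 : W_2 (nat_lit 5) (nat_lit 0x5000280010000c00000000000000000000000) (nat_lit 0x0) (nat_lit 0xa00000000400ec000200000000000000000000000) := T_2 (nat_lit 111) (nat_lit 163) (nat_lit 4) (nat_lit 10) (nat_lit 9) L2507144 (by decide +kernel)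
theorem L2507146 : W_2 (nat_lit 6) (nat_lit 0x5000280010000800000000000000000000000) (nat_lit 0x0) (nat_lit 0xa00000000400ec000600020000000000000000000) := T_2 (nat_lit 94) (nat_lit 77) (nat_lit 4) (nat_lit 10) (nat_lit 8) L2507145 (by decide +kernel)
theorem L2507147 : W_2 (nat_lit 9) (nat_lit 0x5000280010000000000000000000000000000) (nat_lit 0x0) (nat_lit 0x10000a0008000c400ec001e000f8007000380000000000) := Q_2 (nat_lit 95) (C_2 L2506887 (C_2 L2506970 (C_2 L2507141 (C_2 L2507146 N_2)))) (by decide +kernel)
theorem L2507315 : W_2 (nat_lit 2) (nat_lit 0x380009000500028003c000a00000000000000000000000) (nat_lit 0x0) (nat_lit 0x600020000000000000000000000000000000000000000) := D_2 (nat_lit 161) (nat_lit 178) (nat_lit 177) (nat_lit 0) (nat_lit 11) (nat_lit 10) (nat_lit 5) (nat_lit 8) (nat_lit 6) (by decide +kernel)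
theorem L2507316 : W_2 (nat_lit 3) (nat_lit 0x380008000500028003c000a00000000000000000000000) (nat_lit 0x0) (nat_lit 0x600030000800000000000000000000000000000000000) := T_2 (nat_lit 160) (nat_lit 143) (nat_lit 5) (nat_lit 8) (nat_lit 5) L2507315 (by decide +kernel)
theorem L2507317 : W_2 (nat_lit 4) (nat_lit 0x380008000500028003c000800000000000000000000000) (nat_lit 0x0) (nat_lit 0x600030000800000000000300000000000000000000000) := T_2 (nat_lit 93) (nat_lit 92) (nat_lit 0) (nat_lit 11) (nat_lit 6) L2507316 (by decide +kernel)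
theorem L2507318 : W_2 (nat_lit 5) (nat_lit 0x3800080005000280038000800000000000000000000000) (nat_lit 0x0) (nat_lit 0x600030000800040004000300000000000000000000000) := T_2 (nat_lit 110) (nat_lit 126) (nat_lit 1) (nat_lit 11) (nat_lit 6) L2507317 (by decide +kernel)
theorem L2507319 : W_2 (nat_lit 6) (nat_lit 0x3000080005000280038000800000000000000000000000) (nat_lit 0x0) (nat_lit 0x10000e00030000800040004000300000000000000000000000) := T_2 (nat_lit 179) (nat_lit 196) (nat_lit 5) (nat_lit 10) (nat_lit 7) L2507318 (by decide +kernel)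
theorem L2507320 : W_2 (nat_lit 7) (nat_lit 0x3000080005000280018000800000000000000000000000) (nat_lit 0x0) (nat_lit 0x10000e00030000800440024000300000000000000000000000) := T_2 (nat_lit 113) (nat_lit 130) (nat_lit 6) (nat_lit 10) (nat_lit 10) L2507319 (by decide +kernel)
theorem L2507321 : W_2 (nat_lit 8) (nat_lit 0x2000080005000280018000800000000000000000000000) (nat_lit 0x0) (nat_lit 0x50001e00030000800440024000300000000000000000000000) := T_2 (nat_lit 180) (nat_lit 198) (nat_lit 7) (nat_lit 10) (nat_lit 7) L2507320 (by decide +kernel)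
theorem L2507322 : W_2 (nat_lit 9) (nat_lit 0x2000080005000280010000800000000000000000000000) (nat_lit 0x0) (nat_lit 0x50001e0003000080044002c000700000000000000000000000) := T_2 (nat_lit 111) (nat_lit 94) (nat_lit 4) (nat_lit 10) (nat_lit 9) L2507321 (by decide +kernel)
theorem L2507323 : W_2 (nat_lit 10) (nat_lit 0x80005000280010000800000000000000000000000) (nat_lit 0x0) (nat_lit 0x50003e0013000080044002c000700000000000000000000000) := T_2 (nat_lit 181) (nat_lit 164) (nat_lit 7) (nat_lit 10) (nat_lit 6) L2507322 (by decide +kernel)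
theorem L2507324 : W_2 (nat_lit 2) (nat_lit 0x3000080005000680018000800000000000000000000000) (nat_lit 0x0) (nat_lit 0x20000000000008000000000000000040000000000000000000) := D_2 (nat_lit 147) (nat_lit 197) (nat_lit 78) (nat_lit 6) (nat_lit 10) (nat_lit 11) (nat_lit 7) (nat_lit 10) (nat_lit 4) (by decide +kernel)
theorem L2507325 : W_2 (nat_lit 3) (nat_lit 0x3000080005000280018000800000000000000000000000) (nat_lit 0x0) (nat_lit 0x20000000000008000400020000000040000000000000000000) := T_2 (nat_lit 130) (nat_lit 113) (nat_lit 6) (nat_lit 10) (nat_lit 10) L2507324 (by decide +kernel)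
theorem L2507326 : W_2 (nat_lit 4) (nat_lit 0x1000080005000280018000800000000000000000000000) (nat_lit 0x0) (nat_lit 0x60002000000008000400020000000040000000000000000000) := T_2 (nat_lit 181) (nat_lit 198) (nat_lit 7) (nat_lit 10) (nat_lit 7) L2507325 (by decide +kernel)
theorem L2507327 : W_2 (nat_lit 5) (nat_lit 0x1000080005000280010000800000000000000000000000) (nat_lit 0x0) (nat_lit 0x60002000000008000400028000400040000000000000000000) := T_2 (nat_lit 111) (nat_lit 94) (nat_lit 4) (nat_lit 10) (nat_lit 9) L2507326 (by decide +kernel)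
theorem L2507328 : W_2 (nat_lit 2) (nat_lit 0x50001000080005001680018000800000000000000000000000) (nat_lit 0x0) (nat_lit 0xa00020000000000000000000000000000000000000000000000000) := D_2 (nat_lit 197) (nat_lit 215) (nat_lit 213) (nat_lit 7) (nat_lit 10) (nat_lit 8) (nat_lit 5) (nat_lit 10) (nat_lit 8) (by decide +kernel)
theorem L2507329 : W_2 (nat_lit 3) (nat_lit 0x40001000080005001680018000800000000000000000000000) (nat_lit 0x0) (nat_lit 0xa00030000800000000000000000000000000000000000000000000) := T_2 (nat_lit 196) (nat_lit 179) (nat_lit 5) (nat_lit 10) (nat_lit 7) L2507328 (by decide +kernel)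
theorem L2507330 : W_2 (nat_lit 4) (nat_lit 0x1000080005001680018000800000000000000000000000) (nat_lit 0x0) (nat_lit 0xa00070002800000000000000000000000000000000000000000000) := T_2 (nat_lit 198) (nat_lit 181) (nat_lit 7) (nat_lit 10) (nat_lit 7) L2507329 (by decide +kernel)
theorem L2507331 : W_2 (nat_lit 5) (nat_lit 0x1000080005000680018000800000000000000000000000) (nat_lit 0x0) (nat_lit 0xa00070002800000000001800000000000000000000000000000000) := T_2 (nat_lit 132) (nat_lit 131) (nat_lit 0) (nat_lit 13) (nat_lit 7) L2507330 (by decide +kernel)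
theorem L2507332 : W_2 (nat_lit 6) (nat_lit 0x1000080005000680010000800000000000000000000000) (nat_lit 0x0) (nat_lit 0xa00070002800000000001800008000400000000000000000000000) := T_2 (nat_lit 111) (nat_lit 94) (nat_lit 4) (nat_lit 10) (nat_lit 9) L2507331 (by decide +kernel)
theorem L2507333 : W_2 (nat_lit 7) (nat_lit 0x1000080005000280010000800000000000000000000000) (nat_lit 0x0) (nat_lit 0xa00070002800000000001c00028000400000000000000000000000) := T_2 (nat_lit 130) (nat_lit 113) (nat_lit 6) (nat_lit 10) (nat_lit 10) L2507332 (by decide +kernel)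
theorem L2507334 : W_2 (nat_lit 2) (nat_lit 0x3000080005000680010000800000000000000000000000) (nat_lit 0x0) (nat_lit 0x20000000000008000000000000000040000000000000000000) := D_2 (nat_lit 147) (nat_lit 197) (nat_lit 78) (nat_lit 6) (nat_lit 10) (nat_lit 11) (nat_lit 7) (nat_lit 10) (nat_lit 4) (by decide +kernel)
theorem L2507335 : W_2 (nat_lit 3) (nat_lit 0x3000080005000280010000800000000000000000000000) (nat_lit 0x0) (nat_lit 0x20000000000008000400020000000040000000000000000000) := T_2 (nat_lit 130) (nat_lit 113) (nat_lit 6) (nat_lit 10) (nat_lit 10) L2507334 (by decide +kernel)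
theorem L2507336 : W_2 (nat_lit 4) (nat_lit 0x1000080005000280010000800000000000000000000000) (nat_lit 0x0) (nat_lit 0x60002000000008000400020000000040000000000000000000) := T_2 (nat_lit 181) (nat_lit 198) (nat_lit 7) (nat_lit 10) (nat_lit 7) L2507335 (by decide +kernel)
theorem L2507337 : W_2 (nat_lit 2) (nat_lit 0x50001000080005000280010000800000000000000000000000) (nat_lit 0x0) (nat_lit 0xa00020000000000000000000000000000000000000000000000000) := D_2 (nat_lit 197) (nat_lit 213) (nat_lit 215) (nat_lit 5) (nat_lit 10) (nat_lit 8) (nat_lit 7) (nat_lit 10) (nat_lit 8) (by decide +kernel)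
theorem L2507338 : W_2 (nat_lit 3) (nat_lit 0x10001000080005000280010000800000000000000000000000) (nat_lit 0x0) (nat_lit 0xa00060002000000000000000000000000000000000000000000000) := T_2 (nat_lit 198) (nat_lit 181) (nat_lit 7) (nat_lit 10) (nat_lit 7) L2507337 (by decide +kernel)
theorem L2507339 : W_2 (nat_lit 4) (nat_lit 0x1000080005000280010000800000000000000000000000) (nat_lit 0x0) (nat_lit 0xa00070002800000000000000000000000000000000000000000000) := T_2 (nat_lit 196) (nat_lit 179) (nat_lit 5) (nat_lit 10) (nat_lit 7) L2507338 (by decide +kernel)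
theorem L2507340 : W_2 (nat_lit 2) (nat_lit 0x1800080005000680010000800000000000000000000000) (nat_lit 0x0) (nat_lit 0x20000000000008000000000000000040000000000000000000) := D_2 (nat_lit 147) (nat_lit 197) (nat_lit 78) (nat_lit 6) (nat_lit 10) (nat_lit 11) (nat_lit 7) (nat_lit 10) (nat_lit 4) (by decide +kernel)
theorem L2507341 : W_2 (nat_lit 3) (nat_lit 0x1800080005000280010000800000000000000000000000) (nat_lit 0x0) (nat_lit 0x20000000000008000400020000000040000000000000000000) := T_2 (nat_lit 130) (nat_lit 113) (nat_lit 6) (nat_lit 10) (nat_lit 10) L2507340 (by decide +kernel)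
theorem L2507342 : W_2 (nat_lit 4) (nat_lit 0x1000080005000280010000800000000000000000000000) (nat_lit 0x0) (nat_lit 0x30000800000008000400020000000040000000000000000000) := T_2 (nat_lit 179) (nat_lit 196) (nat_lit 5) (nat_lit 10) (nat_lit 7) L2507341 (by decide +kernel)
theorem L2507343 : W_2 (nat_lit 8) (nat_lit 0x1000080005000280018000800000000000000000000000) (nat_lit 0x0) (nat_lit 0x50002e00030000800440024000300000000000000000000000) := T_2 (nat_lit 181) (nat_lit 198) (nat_lit 7) (nat_lit 10) (nat_lit 7) L2507320 (by decide +kernel)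
theorem L2507344 : W_2 (nat_lit 9) (nat_lit 0x1000080005000280010000800000000000000000000000) (nat_lit 0x0) (nat_lit 0x50002e0003000080044002c000700000000000000000000000) := T_2 (nat_lit 111) (nat_lit 94) (nat_lit 4) (nat_lit 10) (nat_lit 9) L2507343 (by decide +kernel)
theorem L2507345 : W_2 (nat_lit 10) (nat_lit 0x80005000280010000800000000000000000000000) (nat_lit 0x0) (nat_lit 0xa00070003e00030008801c4002c000700040000000000000000000) := Q_2 (nat_lit 180) (C_2 L2507327 (C_2 L2507333 (C_2 L2507336 (C_2 L2507339 (C_2 L2507342 (C_2 L2507344 N_2)))))) (by decide +kernel)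
theorem L2507346 : W_2 (nat_lit 2) (nat_lit 0x8000d000680018000800000000000000000000000) (nat_lit 0x0) (nat_lit 0x20001000000000000000020000000000000000000000000000) := D_2 (nat_lit 180) (nat_lit 197) (nat_lit 113) (nat_lit 6) (nat_lit 10) (nat_lit 11) (nat_lit 6) (nat_lit 10) (nat_lit 10) (by decide +kernel)
theorem L2507347 : W_2 (nat_lit 3) (nat_lit 0x8000d000280018000800000000000000000000000) (nat_lit 0x0) (nat_lit 0x20001000000000000400020000000040000000000000000000) := T_2 (nat_lit 130) (nat_lit 78) (nat_lit 7) (nat_lit 10) (nat_lit 4) L2507346 (by decide +kernel)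
theorem L2507348 : W_2 (nat_lit 4) (nat_lit 0x80005000280018000800000000000000000000000) (nat_lit 0x0) (nat_lit 0x20001000100008000400020000000040000000000000000000) := T_2 (nat_lit 147) (nat_lit 164) (nat_lit 7) (nat_lit 10) (nat_lit 5) L2507347 (by decide +kernel)
theorem L2507349 : W_2 (nat_lit 5) (nat_lit 0x80005000280010000800000000000000000000000) (nat_lit 0x0) (nat_lit 0x20001000100008000400028000400040000000000000000000) := T_2 (nat_lit 111) (nat_lit 94) (nat_lit 4) (nat_lit 10) (nat_lit 9) L2507348 (by decide +kernel)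
theorem L2507350 : W_2 (nat_lit 11) (nat_lit 0x5000280010000800000000000000000000000) (nat_lit 0x0) (nat_lit 0xa00070003e001b0008801c4002c000700040000000000000000000) := Q_2 (nat_lit 163) (C_2 L2506979 (C_2 L2507323 (C_2 L2507345 (C_2 L2507349 N_2)))) (by decide +kernel)
theorem L2507351 : W_2 (nat_lit 12) (nat_lit 0x5000280010000000000000000000000000000) (nat_lit 0x0) (nat_lit 0xa00070003e001b0008801c400ec000f000e0007000280000000000) := Q_2 (nat_lit 95) (C_2 L2506978 (C_2 L2507146 (C_2 L2507350 N_2))) (by decide +kernel)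
theorem L2507352 : W_2 (nat_lit 2) (nat_lit 0x40003d0016800bc005c00000000000000000000000) (nat_lit 0x0) (nat_lit 0x100008000400000000000000000000) := D_2 (nat_lit 99) (nat_lit 82) (nat_lit 116) (nat_lit 6) (nat_lit 13) (nat_lit 8) (nat_lit 6) (nat_lit 13) (nat_lit 9) (by decide +kernel)
theorem L2507353 : W_2 (nat_lit 3) (nat_lit 0x3d0016800bc005c00000000000000000000000) (nat_lit 0x0) (nat_lit 0xc00000000000100008000400000000000000000000) := T_2 (nat_lit 166) (nat_lit 167) (nat_lit 3) (nat_lit 10) (nat_lit 8) L2507352 (by decide +kernel)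
theorem L2507354 : W_2 (nat_lit 4) (nat_lit 0x3d0006800bc005c00000000000000000000000) (nat_lit 0x0) (nat_lit 0xc00000003000100008000400000000000000000000) := T_2 (nat_lit 132) (nat_lit 133) (nat_lit 2) (nat_lit 10) (nat_lit 8) L2507353 (by decide +kernel)
theorem L2507355 : W_2 (nat_lit 5) (nat_lit 0x1d0006800bc005c00000000000000000000000) (nat_lit 0x0) (nat_lit 0xc00060003000100008000400000000000000000000) := T_2 (nat_lit 149) (nat_lit 150) (nat_lit 0) (nat_lit 14) (nat_lit 8) L2507354 (by decide +kernel)
theorem L2507356 : W_2 (nat_lit 6) (nat_lit 0xd0006800bc005c00000000000000000000000) (nat_lit 0x0) (nat_lit 0xe00070003000100008000400000000000000000000) := T_2 (nat_lit 148) (nat_lit 165) (nat_lit 7) (nat_lit 11) (nat_lit 5) L2507355 (by decide +kernel)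
theorem L2507357 : W_2 (nat_lit 7) (nat_lit 0xd0002800bc005c00000000000000000000000) (nat_lit 0x0) (nat_lit 0xe00070003c00100008000400000000000000000000) := T_2 (nat_lit 130) (nat_lit 131) (nat_lit 3) (nat_lit 8) (nat_lit 6) L2507356 (by decide +kernel)
theorem L2507358 : W_2 (nat_lit 8) (nat_lit 0xd00028003c005c00000000000000000000000) (nat_lit 0x0) (nat_lit 0xe00070003c001c0008000400000000000000000000) := T_2 (nat_lit 115) (nat_lit 114) (nat_lit 0) (nat_lit 13) (nat_lit 6) L2507357 (by decide +kernel)
theorem L2507359 : W_2 (nat_lit 9) (nat_lit 0xd00028001c005c00000000000000000000000) (nat_lit 0x0) (nat_lit 0xe00070003c401e0008000400000000000000000000) := T_2 (nat_lit 113) (nat_lit 126) (nat_lit 1) (nat_lit 11) (nat_lit 6) L2507358 (by decide +kernel)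
theorem L2507360 : W_2 (nat_lit 10) (nat_lit 0xd000280018005c00000000000000000000000) (nat_lit 0x0) (nat_lit 0xe20070003c401e4008000400000000000000000000) := T_2 (nat_lit 110) (nat_lit 161) (nat_lit 6) (nat_lit 8) (nat_lit 9) L2507359 (by decide +kernel)
theorem L2507361 : W_2 (nat_lit 11) (nat_lit 0x5000280018005c00000000000000000000000) (nat_lit 0x0) (nat_lit 0xf20078003c401e4008000400000000000000000000) := T_2 (nat_lit 147) (nat_lit 164) (nat_lit 7) (nat_lit 10) (nat_lit 5) L2507360 (by decide +kernel)
theorem L2507362 : W_2 (nat_lit 12) (nat_lit 0x5000280018005800000000000000000000000) (nat_lit 0x0) (nat_lit 0xf20078003c401e4008400420000000000000000000) := T_2 (nat_lit 94) (nat_lit 77) (nat_lit 4) (nat_lit 10) (nat_lit 8) L2507361 (by decide +kernel)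
theorem L2507363 : W_2 (nat_lit 13) (nat_lit 0x5000280018001800000000000000000000000) (nat_lit 0x0) (nat_lit 0xf20078003c401e400e400420000000000000000000) := T_2 (nat_lit 98) (nat_lit 97) (nat_lit 1) (nat_lit 13) (nat_lit 5) L2507362 (by decide +kernel)
theorem L2507364 : W_2 (nat_lit 14) (nat_lit 0x5000280018000800000000000000000000000) (nat_lit 0x0) (nat_lit 0xf20078003c401e400f4004a0000000000000000000) := T_2 (nat_lit 96) (nat_lit 79) (nat_lit 6) (nat_lit 10) (nat_lit 8) L2507363 (by decide +kernel)
theorem L2507365 : W_2 (nat_lit 5) (nat_lit 0x5000280018000800000000000000000000000) (nat_lit 0x0) (nat_lit 0x200000000400e4000600020000000000000000000) := T_2 (nat_lit 94) (nat_lit 77) (nat_lit 4) (nat_lit 10) (nat_lit 8) L2507144 (by decide +kernel)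
theorem L2507366 : W_2 (nat_lit 2) (nat_lit 0x5000280018003800000000000000000000000) (nat_lit 0x0) (nat_lit 0x4000400020000000000000000000) := D_2 (nat_lit 94) (nat_lit 77) (nat_lit 110) (nat_lit 4) (nat_lit 10) (nat_lit 8) (nat_lit 1) (nat_lit 12) (nat_lit 5) (by decide +kernel)
theorem L2507367 : W_2 (nat_lit 3) (nat_lit 0x5000280018001800000000000000000000000) (nat_lit 0x0) (nat_lit 0x4006400020000000000000000000) := T_2 (nat_lit 97) (nat_lit 98) (nat_lit 1) (nat_lit 13) (nat_lit 5) L2507366 (by decide +kernel)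
theorem L2507368 : W_2 (nat_lit 4) (nat_lit 0x5000280018000800000000000000000000000) (nat_lit 0x0) (nat_lit 0x40074000a0000000000000000000) := T_2 (nat_lit 96) (nat_lit 79) (nat_lit 6) (nat_lit 10) (nat_lit 8) L2507367 (by decide +kernel)
theorem L2507369 : W_2 (nat_lit 2) (nat_lit 0xd000280058003f00000000000000000000000) (nat_lit 0x0) (nat_lit 0x1c000000000000000000) := D_2 (nat_lit 75) (nat_lit 76) (nat_lit 74) (nat_lit 0) (nat_lit 11) (nat_lit 5) (nat_lit 0) (nat_lit 10) (nat_lit 5) (by decide +kernel)
theorem L2507370 : W_2 (nat_lit 3) (nat_lit 0xd000280058003e00000000000000000000000) (nat_lit 0x0) (nat_lit 0x18001c000000000000000000) := T_2 (nat_lit 92) (nat_lit 91) (nat_lit 3) (nat_lit 6) (nat_lit 5) L2507369 (by decide +kernel)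
theorem L2507371 : W_2 (nat_lit 4) (nat_lit 0xd000280058003c00000000000000000000000) (nat_lit 0x0) (nat_lit 0x2000038001c000000000000000000) := T_2 (nat_lit 93) (nat_lit 113) (nat_lit 3) (nat_lit 8) (nat_lit 5) L2507370 (by decide +kernel)
theorem L2507372 : W_2 (nat_lit 5) (nat_lit 0xd000280018003c00000000000000000000000) (nat_lit 0x0) (nat_lit 0xe000038001c000000000000000000) := T_2 (nat_lit 114) (nat_lit 115) (nat_lit 3) (nat_lit 9) (nat_lit 5) L2507371 (by decide +kernel)
theorem L2507373 : W_2 (nat_lit 6) (nat_lit 0xd000280018003800000000000000000000000) (nat_lit 0x0) (nat_lit 0xe000078003c000000000000000000) := T_2 (nat_lit 94) (nat_lit 77) (nat_lit 4) (nat_lit 10) (nat_lit 8) L2507372 (by decide +kernel)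
theorem L2507374 : W_2 (nat_lit 7) (nat_lit 0xd000280018001800000000000000000000000) (nat_lit 0x0) (nat_lit 0xe000678003c000000000000000000) := T_2 (nat_lit 97) (nat_lit 98) (nat_lit 1) (nat_lit 13) (nat_lit 5) L2507373 (by decide +kernel)
theorem L2507375 : W_2 (nat_lit 8) (nat_lit 0xd000280018000800000000000000000000000) (nat_lit 0x0) (nat_lit 0xe00077800bc000000000000000000) := T_2 (nat_lit 96) (nat_lit 79) (nat_lit 6) (nat_lit 10) (nat_lit 8) L2507374 (by decide +kernel)
theorem L2507376 : W_2 (nat_lit 9) (nat_lit 0x5000280018000800000000000000000000000) (nat_lit 0x0) (nat_lit 0x1000080000000e00077800bc000000000000000000) := T_2 (nat_lit 147) (nat_lit 164) (nat_lit 7) (nat_lit 10) (nat_lit 5) L2507375 (by decide +kernel)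
theorem L2507377 : W_2 (nat_lit 2) (nat_lit 0xd000280018003800000000000000000000000) (nat_lit 0x0) (nat_lit 0x24000400000000000000000000000) := D_2 (nat_lit 110) (nat_lit 94) (nat_lit 113) (nat_lit 1) (nat_lit 12) (nat_lit 5) (nat_lit 2) (nat_lit 8) (nat_lit 6) (by decide +kernel)
theorem L2507378 : W_2 (nat_lit 3) (nat_lit 0xd000280018001800000000000000000000000) (nat_lit 0x0) (nat_lit 0x24006400000000000000000000000) := T_2 (nat_lit 97) (nat_lit 98) (nat_lit 1) (nat_lit 13) (nat_lit 5) L2507377 (by decide +kernel)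
theorem L2507379 : W_2 (nat_lit 4) (nat_lit 0xd000280018000800000000000000000000000) (nat_lit 0x0) (nat_lit 0x24007400080000000000000000000) := T_2 (nat_lit 96) (nat_lit 79) (nat_lit 6) (nat_lit 10) (nat_lit 8) L2507378 (by decide +kernel)
theorem L2507380 : W_2 (nat_lit 5) (nat_lit 0x5000280018000800000000000000000000000) (nat_lit 0x0) (nat_lit 0x100008000000024007400080000000000000000000) := T_2 (nat_lit 147) (nat_lit 164) (nat_lit 7) (nat_lit 10) (nat_lit 5) L2507379 (by decide +kernel)
theorem L2507381 : W_2 (nat_lit 2) (nat_lit 0x1d001680038003800000000000000000000000) (nat_lit 0x0) (nat_lit 0x60002000000000000000000000000000000000) := D_2 (nat_lit 149) (nat_lit 133) (nat_lit 150) (nat_lit 2) (nat_lit 10) (nat_lit 8) (nat_lit 0) (nat_lit 14) (nat_lit 8) (by decide +kernel)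
theorem L2507382 : W_2 (nat_lit 3) (nat_lit 0xd001680038003800000000000000000000000) (nat_lit 0x0) (nat_lit 0x200070002000000000000000000000000000000000) := T_2 (nat_lit 148) (nat_lit 165) (nat_lit 7) (nat_lit 11) (nat_lit 5) L2507381 (by decide +kernel)
theorem L2507383 : W_2 (nat_lit 4) (nat_lit 0xd000680038003800000000000000000000000) (nat_lit 0x0) (nat_lit 0x200070003800000000000000000000000000000000) := T_2 (nat_lit 132) (nat_lit 131) (nat_lit 0) (nat_lit 13) (nat_lit 7) L2507382 (by decide +kernel)
theorem L2507384 : W_2 (nat_lit 5) (nat_lit 0xd000280038003800000000000000000000000) (nat_lit 0x0) (nat_lit 0x200070003c00000000000100000000000000000000) := T_2 (nat_lit 130) (nat_lit 80) (nat_lit 6) (nat_lit 11) (nat_lit 8) L2507383 (by decide +kernel)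
theorem L2507385 : W_2 (nat_lit 6) (nat_lit 0xd000280018003800000000000000000000000) (nat_lit 0x0) (nat_lit 0x200070003c00024000000100000000000000000000) := T_2 (nat_lit 113) (nat_lit 110) (nat_lit 2) (nat_lit 8) (nat_lit 6) L2507384 (by decide +kernel)
theorem L2507386 : W_2 (nat_lit 7) (nat_lit 0x5000280018003800000000000000000000000) (nat_lit 0x0) (nat_lit 0x300078003c00024000000100000000000000000000) := T_2 (nat_lit 147) (nat_lit 164) (nat_lit 7) (nat_lit 10) (nat_lit 5) L2507385 (by decide +kernel)
theorem L2507387 : W_2 (nat_lit 8) (nat_lit 0x5000280018001800000000000000000000000) (nat_lit 0x0) (nat_lit 0x300078003c00024006000100000000000000000000) := T_2 (nat_lit 97) (nat_lit 98) (nat_lit 1) (nat_lit 13) (nat_lit 5) L2507386 (by decide +kernel)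
theorem L2507388 : W_2 (nat_lit 9) (nat_lit 0x5000280018000800000000000000000000000) (nat_lit 0x0) (nat_lit 0x300078003c00024007000180000000000000000000) := T_2 (nat_lit 96) (nat_lit 79) (nat_lit 6) (nat_lit 10) (nat_lit 8) L2507387 (by decide +kernel)
theorem L2507389 : W_2 (nat_lit 15) (nat_lit 0x5000280010000800000000000000000000000) (nat_lit 0x0) (nat_lit 0xf20078003c401ec00f7805bc000000000000000000) := Q_2 (nat_lit 111) (C_2 L2507364 (C_2 L2507365 (C_2 L2507368 (C_2 L2507376 (C_2 L2507380 (C_2 L2507388 N_2)))))) (by decide +kernel)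
theorem L2507390 : W_2 (nat_lit 16) (nat_lit 0x5000280010000000000000000000000000000) (nat_lit 0x0) (nat_lit 0xf20078003c401ec00ff805fc007000280000000000) := Q_2 (nat_lit 95) (C_2 L2506978 (C_2 L2506887 (C_2 L2506973 (C_2 L2507389 (C_2 L2506889 N_2))))) (by decide +kernel)
theorem L2507391 : W_2 (nat_lit 12) (nat_lit 0x18000d000280018000000000000000000000000000) (nat_lit 0x0) (nat_lit 0x4000e00070003c401e400f300000000000000000000000) := T_2 (nat_lit 113) (nat_lit 96) (nat_lit 6) (nat_lit 10) (nat_lit 9) L2503722 (by decide +kernel)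
theorem L2507392 : W_2 (nat_lit 13) (nat_lit 0x180005000280018000000000000000000000000000) (nat_lit 0x0) (nat_lit 0x4000e00078003c401e400fb00000000000000000000000) := T_2 (nat_lit 147) (nat_lit 95) (nat_lit 7) (nat_lit 10) (nat_lit 5) L2507391 (by decide +kernel)
theorem L2507393 : W_2 (nat_lit 14) (nat_lit 0x80005000280018000000000000000000000000000) (nat_lit 0x0) (nat_lit 0x6000f00078003c401e400fb00000000000000000000000) := T_2 (nat_lit 164) (nat_lit 181) (nat_lit 7) (nat_lit 10) (nat_lit 6) L2507392 (by decide +kernel)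
theorem L2507394 : W_2 (nat_lit 15) (nat_lit 0x80005000280010000000000000000000000000000) (nat_lit 0x0) (nat_lit 0x6000f00078003c401ec00ff00000000000000000000000) := T_2 (nat_lit 111) (nat_lit 94) (nat_lit 4) (nat_lit 10) (nat_lit 9) L2507393 (by decide +kernel)
theorem L2507395 : W_2 (nat_lit 16) (nat_lit 0x5000280010000000000000000000000000000) (nat_lit 0x0) (nat_lit 0x10000e00070007e00fb0078803c401ec00ff00000000000000000000000) := Q_2 (nat_lit 163) (C_2 L2506914 (C_2 L2507012 (C_2 L2507001 (C_2 L2506910 (C_2 L2507394 N_2))))) (by decide +kernel)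
theorem L2507396 : W_2 (nat_lit 17) (nat_lit 0x5000280000000000000000000000000000000) (nat_lit 0x0) (nat_lit 0x10000e00076007e00fb8078807c401fc00ff805fc00f000380000000000) := Q_2 (nat_lit 112) (C_2 L2506888 (C_2 L2506890 (C_2 L2506911 (C_2 L2506955 (C_2 L2506992 (C_2 L2507133 (C_2 L2507134 (C_2 L2507147 (C_2 L2507351 (C_2 L2507390 (C_2 L2507395 N_2))))))))))) (by decide +kernel)
theorem L2507397 : W_2 (nat_lit 8) (nat_lit 0x5000380000000000000000000000000000000) (nat_lit 0x0) (nat_lit 0x8b80078039c00000000000000000000000000) := T_2 (nat_lit 126) (nat_lit 147) (nat_lit 3) (nat_lit 7) (nat_lit 7) L1350177 (by decide +kernel)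
theorem L2507409 : W_2 (nat_lit 2) (nat_lit 0x58002c0004000000000000000000000000000) (nat_lit 0x0) (nat_lit 0x200010000000000000000200000000000000000000000) := D_2 (nat_lit 160) (nat_lit 177) (nat_lit 93) (nat_lit 6) (nat_lit 7) (nat_lit 10) (nat_lit 5) (nat_lit 8) (nat_lit 5) (by decide +kernel)
theorem L2507410 : W_2 (nat_lit 2) (nat_lit 0x2000200058002c0004000000000000000000000000000) (nat_lit 0x0) (nat_lit 0xc000400000000000000000000000000000000000000000000) := D_2 (nat_lit 178) (nat_lit 194) (nat_lit 195) (nat_lit 5) (nat_lit 8) (nat_lit 7) (nat_lit 4) (nat_lit 8) (nat_lit 11) (by decide +kernel)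
theorem L2507411 : W_2 (nat_lit 3) (nat_lit 0x200058002c0004000000000000000000000000000) (nat_lit 0x0) (nat_lit 0xc000600010000000000000000000000000000000000000000) := T_2 (nat_lit 177) (nat_lit 160) (nat_lit 6) (nat_lit 7) (nat_lit 10) L2507410 (by decide +kernel)
theorem L2507801 : W_2 (nat_lit 2) (nat_lit 0x54003e0008800000020000000000000000000) (nat_lit 0x0) (nat_lit 0x10004400000000000000000000000000) := D_2 (nat_lit 124) (nat_lit 110) (nat_lit 106) (nat_lit 2) (nat_lit 5) (nat_lit 7) (nat_lit 0) (nat_lit 8) (nat_lit 7) (by decide +kernel)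
theorem L2507802 : W_2 (nat_lit 3) (nat_lit 0x54003e0008000000020000000000000000000) (nat_lit 0x0) (nat_lit 0x10005c00000000000000000000000000) := T_2 (nat_lit 107) (nat_lit 108) (nat_lit 0) (nat_lit 9) (nat_lit 7) L2507801 (by decide +kernel)
theorem L2507803 : W_2 (nat_lit 4) (nat_lit 0x54003c0008000000020000000000000000000) (nat_lit 0x0) (nat_lit 0x200030005c00000000000000000000000000) := T_2 (nat_lit 125) (nat_lit 141) (nat_lit 1) (nat_lit 9) (nat_lit 7) L2507802 (by decide +kernel)
theorem L2507804 : W_2 (nat_lit 5) (nat_lit 0x54003c0008000000000000000000000000000) (nat_lit 0x0) (nat_lit 0x200030005c00400020000000000000000000) := T_2 (nat_lit 77) (nat_lit 94) (nat_lit 7) (nat_lit 9) (nat_lit 4) L2507803 (by decide +kernel)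
theorem L2507805 : W_2 (nat_lit 6) (nat_lit 0x50003c0008000000000000000000000000000) (nat_lit 0x0) (nat_lit 0xe00030005c00400020000000000000000000) := T_2 (nat_lit 142) (nat_lit 143) (nat_lit 1) (nat_lit 10) (nat_lit 7) L2507804 (by decide +kernel)
theorem L2507806 : W_2 (nat_lit 7) (nat_lit 0x5000380008000000000000000000000000000) (nat_lit 0x0) (nat_lit 0x8e00070005c00400020000000000000000000) := T_2 (nat_lit 126) (nat_lit 147) (nat_lit 3) (nat_lit 7) (nat_lit 7) L2507805 (by decide +kernel)
theorem L2507810 : W_2 (nat_lit 2) (nat_lit 0x50003e0008000000000000000000000000000) (nat_lit 0x0) (nat_lit 0xe00000000000000000000000000000000000) := D_2 (nat_lit 142) (nat_lit 143) (nat_lit 141) (nat_lit 1) (nat_lit 10) (nat_lit 7) (nat_lit 1) (nat_lit 9) (nat_lit 7) (by decide +kernel)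
theorem L2507811 : W_2 (nat_lit 2) (nat_lit 0x14000000051003f0008800000020000000000000000000) (nat_lit 0x0) (nat_lit 0x880008000000000000000000000000000000) := D_2 (nat_lit 123) (nat_lit 143) (nat_lit 139) (nat_lit 3) (nat_lit 4) (nat_lit 7) (nat_lit 1) (nat_lit 7) (nat_lit 7) (by decide +kernel)
theorem L2507812 : W_2 (nat_lit 3) (nat_lit 0x14000000050003f0008800000020000000000000000000) (nat_lit 0x0) (nat_lit 0xb80008000000000000000000000000000000) := T_2 (nat_lit 140) (nat_lit 141) (nat_lit 1) (nat_lit 8) (nat_lit 7) L2507811 (by decide +kernel)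
theorem L2507813 : W_2 (nat_lit 4) (nat_lit 0x14000000050003e0008800000020000000000000000000) (nat_lit 0x0) (nat_lit 0xb80018000400000000000000000000000000) := T_2 (nat_lit 124) (nat_lit 106) (nat_lit 0) (nat_lit 8) (nat_lit 7) L2507812 (by decide +kernel)
theorem L2507814 : W_2 (nat_lit 5) (nat_lit 0x14000000050003e0008000000020000000000000000000) (nat_lit 0x0) (nat_lit 0xb80018001c00000000000000000000000000) := T_2 (nat_lit 107) (nat_lit 108) (nat_lit 0) (nat_lit 9) (nat_lit 7) L2507813 (by decide +kernel)
theorem L2507815 : W_2 (nat_lit 6) (nat_lit 0x4000000050003e0008000000020000000000000000000) (nat_lit 0x0) (nat_lit 0x1000080000b80018001c00000000000000000000000000) := T_2 (nat_lit 180) (nat_lit 163) (nat_lit 4) (nat_lit 10) (nat_lit 10) L2507814 (by decide +kernel)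
theorem L2507816 : W_2 (nat_lit 7) (nat_lit 0x50003e0008000000020000000000000000000) (nat_lit 0x0) (nat_lit 0x14000a0000b80018001c00000000000000000000000000) := T_2 (nat_lit 178) (nat_lit 161) (nat_lit 6) (nat_lit 8) (nat_lit 10) L2507815 (by decide +kernel)
theorem L2507817 : W_2 (nat_lit 8) (nat_lit 0x50003e0008000000000000000000000000000) (nat_lit 0x0) (nat_lit 0x14000a0000b80018001c00400020000000000000000000) := T_2 (nat_lit 77) (nat_lit 94) (nat_lit 7) (nat_lit 9) (nat_lit 4) L2507816 (by decide +kernel)
theorem L2507818 : W_2 (nat_lit 2) (nat_lit 0x10000000050003f0008800000000000000000000000000) (nat_lit 0x0) (nat_lit 0xc00008000000000000000000000000000000) := D_2 (nat_lit 143) (nat_lit 142) (nat_lit 123) (nat_lit 1) (nat_lit 10) (nat_lit 7) (nat_lit 3) (nat_lit 4) (nat_lit 7) (by decide +kernel)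
theorem L2507819 : W_2 (nat_lit 3) (nat_lit 0x10000000050003e0008800000000000000000000000000) (nat_lit 0x0) (nat_lit 0xc00018000400000000000000000000000000) := T_2 (nat_lit 124) (nat_lit 106) (nat_lit 0) (nat_lit 8) (nat_lit 7) L2507818 (by decide +kernel)
theorem L2507820 : W_2 (nat_lit 4) (nat_lit 0x50003e0008800000000000000000000000000) (nat_lit 0x0) (nat_lit 0x1000080000c00018000400000000000000000000000000) := T_2 (nat_lit 180) (nat_lit 163) (nat_lit 4) (nat_lit 10) (nat_lit 10) L2507819 (by decide +kernel)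
theorem L2507821 : W_2 (nat_lit 5) (nat_lit 0x50003e0008000000000000000000000000000) (nat_lit 0x0) (nat_lit 0x1000080000c00018001c00000000000000000000000000) := T_2 (nat_lit 107) (nat_lit 108) (nat_lit 0) (nat_lit 9) (nat_lit 7) L2507820 (by decide +kernel)
theorem L2507822 : W_2 (nat_lit 2) (nat_lit 0x14000000050003f0008800000020000000000000000000) (nat_lit 0x0) (nat_lit 0x700000000000000000000000000000000000) := D_2 (nat_lit 141) (nat_lit 142) (nat_lit 140) (nat_lit 1) (nat_lit 9) (nat_lit 7) (nat_lit 1) (nat_lit 8) (nat_lit 7) (by decide +kernel)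
theorem L2507823 : W_2 (nat_lit 3) (nat_lit 0x14000000050003e0008800000020000000000000000000) (nat_lit 0x0) (nat_lit 0x700010000400000000000000000000000000) := T_2 (nat_lit 124) (nat_lit 106) (nat_lit 0) (nat_lit 8) (nat_lit 7) L2507822 (by decide +kernel)
theorem L2507824 : W_2 (nat_lit 4) (nat_lit 0x10000000050003e0008800000020000000000000000000) (nat_lit 0x0) (nat_lit 0x400020000700010000400000000000000000000000000) := T_2 (nat_lit 178) (nat_lit 161) (nat_lit 6) (nat_lit 8) (nat_lit 10) L2507823 (by decide +kernel)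
theorem L2507825 : W_2 (nat_lit 5) (nat_lit 0x10000000050003e0008000000020000000000000000000) (nat_lit 0x0) (nat_lit 0x400020000700010001c00000000000000000000000000) := T_2 (nat_lit 107) (nat_lit 108) (nat_lit 0) (nat_lit 9) (nat_lit 7) L2507824 (by decide +kernel)
theorem L2507826 : W_2 (nat_lit 6) (nat_lit 0x50003e0008000000020000000000000000000) (nat_lit 0x0) (nat_lit 0x14000a0000700010001c00000000000000000000000000) := T_2 (nat_lit 180) (nat_lit 163) (nat_lit 4) (nat_lit 10) (nat_lit 10) L2507825 (by decide +kernel)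
theorem L2507827 : W_2 (nat_lit 7) (nat_lit 0x50003e0008000000000000000000000000000) (nat_lit 0x0) (nat_lit 0x14000a0000700010001c00400020000000000000000000) := T_2 (nat_lit 77) (nat_lit 94) (nat_lit 7) (nat_lit 9) (nat_lit 4) L2507826 (by decide +kernel)
theorem L2507828 : W_2 (nat_lit 9) (nat_lit 0x50003c0008000000000000000000000000000) (nat_lit 0x0) (nat_lit 0x14000a0000f80038001c00400020000000000000000000) := Q_2 (nat_lit 125) (C_2 L2507810 (C_2 L2507817 (C_2 L2507821 (C_2 L2507827 N_2)))) (by decide +kernel)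
theorem L2507829 : W_2 (nat_lit 10) (nat_lit 0x5000380008000000000000000000000000000) (nat_lit 0x0) (nat_lit 0x14000a0008f80078001c00400020000000000000000000) := T_2 (nat_lit 126) (nat_lit 147) (nat_lit 3) (nat_lit 7) (nat_lit 7) L2507828 (by decide +kernel)
theorem L2507838 : W_2 (nat_lit 2) (nat_lit 0x5000380008000400000000000000000000000) (nat_lit 0x0) (nat_lit 0x400020000000000004000000000000000000000000000) := D_2 (nat_lit 161) (nat_lit 178) (nat_lit 110) (nat_lit 6) (nat_lit 8) (nat_lit 10) (nat_lit 6) (nat_lit 8) (nat_lit 9) (by decide +kernel)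
theorem L2507839 : W_2 (nat_lit 3) (nat_lit 0x5000380008000000000000000000000000000) (nat_lit 0x0) (nat_lit 0x400020000000000004000400020000000000000000000) := T_2 (nat_lit 94) (nat_lit 77) (nat_lit 7) (nat_lit 9) (nat_lit 4) L2507838 (by decide +kernel)
theorem L2507840 : W_2 (nat_lit 2) (nat_lit 0x14000000054003e0008800000000000000000000000000) (nat_lit 0x0) (nat_lit 0x10004400000000000000000000000000) := D_2 (nat_lit 124) (nat_lit 110) (nat_lit 106) (nat_lit 2) (nat_lit 5) (nat_lit 7) (nat_lit 0) (nat_lit 8) (nat_lit 7) (by decide +kernel)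
theorem L2507841 : W_2 (nat_lit 3) (nat_lit 0x14000000054003e0008000000000000000000000000000) (nat_lit 0x0) (nat_lit 0x10005c00000000000000000000000000) := T_2 (nat_lit 107) (nat_lit 108) (nat_lit 0) (nat_lit 9) (nat_lit 7) L2507840 (by decide +kernel)
theorem L2507842 : W_2 (nat_lit 4) (nat_lit 0x14000000054003c0008000000000000000000000000000) (nat_lit 0x0) (nat_lit 0x200030005c00000000000000000000000000) := T_2 (nat_lit 125) (nat_lit 141) (nat_lit 1) (nat_lit 9) (nat_lit 7) L2507841 (by decide +kernel)
theorem L2507843 : W_2 (nat_lit 5) (nat_lit 0x4000000054003c0008000000000000000000000000000) (nat_lit 0x0) (nat_lit 0x1000080000200030005c00000000000000000000000000) := T_2 (nat_lit 180) (nat_lit 163) (nat_lit 4) (nat_lit 10) (nat_lit 10) L2507842 (by decide +kernel)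
theorem L2507844 : W_2 (nat_lit 6) (nat_lit 0x4000000050003c0008000000000000000000000000000) (nat_lit 0x0) (nat_lit 0x1000080000e00030005c00000000000000000000000000) := T_2 (nat_lit 142) (nat_lit 143) (nat_lit 1) (nat_lit 10) (nat_lit 7) L2507843 (by decide +kernel)
theorem L2507845 : W_2 (nat_lit 7) (nat_lit 0x400000005000380008000000000000000000000000000) (nat_lit 0x0) (nat_lit 0x1000080008e00070005c00000000000000000000000000) := T_2 (nat_lit 126) (nat_lit 147) (nat_lit 3) (nat_lit 7) (nat_lit 7) L2507844 (by decide +kernel)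
theorem L2507846 : W_2 (nat_lit 8) (nat_lit 0x5000380008000000000000000000000000000) (nat_lit 0x0) (nat_lit 0x14000a0008e00070005c00000000000000000000000000) := T_2 (nat_lit 178) (nat_lit 161) (nat_lit 6) (nat_lit 8) (nat_lit 10) L2507845 (by decide +kernel)
theorem L2507848 : W_2 (nat_lit 6) (nat_lit 0x400080005000380008000000000000000000000000000) (nat_lit 0x0) (nat_lit 0x2000100008000000010001c000c0006000000000000000) := T_2 (nat_lit 112) (nat_lit 94) (nat_lit 4) (nat_lit 10) (nat_lit 9) L527825 (by decide +kernel)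
theorem L2507849 : W_2 (nat_lit 7) (nat_lit 0x400000005000380008000000000000000000000000000) (nat_lit 0x0) (nat_lit 0x3000180008000000010001c000c0006000000000000000) := T_2 (nat_lit 163) (nat_lit 180) (nat_lit 4) (nat_lit 10) (nat_lit 10) L2507848 (by decide +kernel)
theorem L2507850 : W_2 (nat_lit 8) (nat_lit 0x5000380008000000000000000000000000000) (nat_lit 0x0) (nat_lit 0x34001a0008000000010001c000c0006000000000000000) := T_2 (nat_lit 178) (nat_lit 161) (nat_lit 6) (nat_lit 8) (nat_lit 10) L2507849 (by decide +kernel)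
theorem L2507851 : W_2 (nat_lit 6) (nat_lit 0x1000020005000380008000000000000000000000000000) (nat_lit 0x0) (nat_lit 0x200010000800000004000700018000c00000000000000) := T_2 (nat_lit 110) (nat_lit 94) (nat_lit 6) (nat_lit 8) (nat_lit 9) L1352272 (by decide +kernel)
theorem L2507852 : W_2 (nat_lit 7) (nat_lit 0x1000000005000380008000000000000000000000000000) (nat_lit 0x0) (nat_lit 0x600030000800000004000700018000c00000000000000) := T_2 (nat_lit 161) (nat_lit 178) (nat_lit 6) (nat_lit 8) (nat_lit 10) L2507851 (by decide +kernel)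
theorem L2507853 : W_2 (nat_lit 8) (nat_lit 0x5000380008000000000000000000000000000) (nat_lit 0x0) (nat_lit 0x16000b0000800000004000700018000c00000000000000) := T_2 (nat_lit 180) (nat_lit 163) (nat_lit 4) (nat_lit 10) (nat_lit 10) L2507852 (by decide +kernel)
theorem L2507936 : W_2 (nat_lit 2) (nat_lit 0x400180005000280018000800000000000000000000000) (nat_lit 0x0) (nat_lit 0x20001000080000000000000000000) := D_2 (nat_lit 96) (nat_lit 79) (nat_lit 113) (nat_lit 6) (nat_lit 10) (nat_lit 8) (nat_lit 6) (nat_lit 10) (nat_lit 9) (by decide +kernel)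
theorem L2507937 : W_2 (nat_lit 3) (nat_lit 0x400180005000280018000000000000000000000000000) (nat_lit 0x0) (nat_lit 0x8000000020001800080000000000000000000) := T_2 (nat_lit 95) (nat_lit 147) (nat_lit 7) (nat_lit 10) (nat_lit 5) L2507936 (by decide +kernel)
theorem L2507938 : W_2 (nat_lit 4) (nat_lit 0x400080005000280018000000000000000000000000000) (nat_lit 0x0) (nat_lit 0x2000100008000000020001800080000000000000000000) := T_2 (nat_lit 164) (nat_lit 181) (nat_lit 7) (nat_lit 10) (nat_lit 6) L2507937 (by decide +kernel)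
theorem L2511321 : W_2 (nat_lit 2) (nat_lit 0xe00030005000280000000000000000000000000000000) (nat_lit 0x0) (nat_lit 0x100000c000000000000000000000000000000000000000) := D_2 (nat_lit 159) (nat_lit 158) (nat_lit 180) (nat_lit 3) (nat_lit 5) (nat_lit 9) (nat_lit 0) (nat_lit 10) (nat_lit 10) (by decide +kernel)
theorem L2511322 : W_2 (nat_lit 3) (nat_lit 0x600030005000280000000000000000000000000000000) (nat_lit 0x0) (nat_lit 0x1000180000c000000000000000000000000000000000000000) := T_2 (nat_lit 179) (nat_lit 196) (nat_lit 7) (nat_lit 8) (nat_lit 7) L2511321 (by decide +kernel)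
theorem L2511323 : W_2 (nat_lit 4) (nat_lit 0x600020005000280000000000000000000000000000000) (nat_lit 0x0) (nat_lit 0x1000180001c000000000004000000000000000000000000000) := T_2 (nat_lit 160) (nat_lit 110) (nat_lit 5) (nat_lit 8) (nat_lit 6) L2511322 (by decide +kernel)
theorem L2511324 : W_2 (nat_lit 5) (nat_lit 0x400020005000280000000000000000000000000000000) (nat_lit 0x0) (nat_lit 0x14001a0001c000000000004000000000000000000000000000) := T_2 (nat_lit 177) (nat_lit 194) (nat_lit 5) (nat_lit 8) (nat_lit 7) L2511323 (by decide +kernel)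
theorem L2511334 : W_2 (nat_lit 2) (nat_lit 0x80018000400020005800280000000000000000000000000000000) (nat_lit 0x0) (nat_lit 0x1000100000000000010000000000000000000000000000000000000000) := D_2 (nat_lit 212) (nat_lit 228) (nat_lit 160) (nat_lit 5) (nat_lit 8) (nat_lit 9) (nat_lit 4) (nat_lit 8) (nat_lit 12) (by decide +kernel)
theorem L2511335 : W_2 (nat_lit 3) (nat_lit 0x80018000400020005000280000000000000000000000000000000) (nat_lit 0x0) (nat_lit 0x1000100000000000010000800040000000000000000000000000000000) := T_2 (nat_lit 143) (nat_lit 126) (nat_lit 4) (nat_lit 8) (nat_lit 11) L2511334 (by decide +kernel)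
theorem L2511336 : W_2 (nat_lit 4) (nat_lit 0x18000400020005000280000000000000000000000000000000) (nat_lit 0x0) (nat_lit 0x1000180004000000010000800040000000000000000000000000000000) := T_2 (nat_lit 211) (nat_lit 194) (nat_lit 5) (nat_lit 8) (nat_lit 8) L2511335 (by decide +kernel)
theorem L2511337 : W_2 (nat_lit 5) (nat_lit 0x10000400020005000280000000000000000000000000000000) (nat_lit 0x0) (nat_lit 0x100038000c000000010000800040000000000000000000000000000000) := T_2 (nat_lit 195) (nat_lit 213) (nat_lit 7) (nat_lit 8) (nat_lit 8) L2511336 (by decide +kernel)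
theorem L2511338 : W_2 (nat_lit 6) (nat_lit 0x400020005000280000000000000000000000000000000) (nat_lit 0x0) (nat_lit 0x100038001c000800010000800040000000000000000000000000000000) := T_2 (nat_lit 196) (nat_lit 179) (nat_lit 7) (nat_lit 8) (nat_lit 7) L2511337 (by decide +kernel)
theorem L2511339 : W_2 (nat_lit 2) (nat_lit 0x18000400030005800280000000000000000000000000000000) (nat_lit 0x0) (nat_lit 0x200000000000000004000200000000000000000000000) := D_2 (nat_lit 110) (nat_lit 93) (nat_lit 177) (nat_lit 5) (nat_lit 8) (nat_lit 5) (nat_lit 5) (nat_lit 8) (nat_lit 6) (by decide +kernel)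
theorem L2511340 : W_2 (nat_lit 3) (nat_lit 0x18000400020005800280000000000000000000000000000000) (nat_lit 0x0) (nat_lit 0x100000000200010000000000004000200000000000000000000000) := T_2 (nat_lit 160) (nat_lit 212) (nat_lit 4) (nat_lit 8) (nat_lit 12) L2511339 (by decide +kernel)
theorem L2511341 : W_2 (nat_lit 4) (nat_lit 0x18000400020005000280000000000000000000000000000000) (nat_lit 0x0) (nat_lit 0x100000000200010000800040004000200000000000000000000000) := T_2 (nat_lit 143) (nat_lit 126) (nat_lit 4) (nat_lit 8) (nat_lit 11) L2511340 (by decide +kernel)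
theorem L2511342 : W_2 (nat_lit 5) (nat_lit 0x10000400020005000280000000000000000000000000000000) (nat_lit 0x0) (nat_lit 0x300008000200010000800040004000200000000000000000000000) := T_2 (nat_lit 195) (nat_lit 213) (nat_lit 7) (nat_lit 8) (nat_lit 8) L2511341 (by decide +kernel)
theorem L2511343 : W_2 (nat_lit 6) (nat_lit 0x400020005000280000000000000000000000000000000) (nat_lit 0x0) (nat_lit 0x300018000a00010000800040004000200000000000000000000000) := T_2 (nat_lit 196) (nat_lit 179) (nat_lit 7) (nat_lit 8) (nat_lit 7) L2511342 (by decide +kernel)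
theorem L2511344 : W_2 (nat_lit 2) (nat_lit 0x8000400020005000280000000000000000000000000000000) (nat_lit 0x0) (nat_lit 0x80004000200000000000000000000000000000000000000000000) := D_2 (nat_lit 194) (nat_lit 177) (nat_lit 211) (nat_lit 5) (nat_lit 8) (nat_lit 7) (nat_lit 5) (nat_lit 8) (nat_lit 8) (by decide +kernel)
theorem L2511345 : W_2 (nat_lit 2) (nat_lit 0x80008000400020005800280000000000000000000000000000000) (nat_lit 0x0) (nat_lit 0x1000100000000000010000000000000000000000000000000000000000) := D_2 (nat_lit 212) (nat_lit 228) (nat_lit 160) (nat_lit 5) (nat_lit 8) (nat_lit 9) (nat_lit 4) (nat_lit 8) (nat_lit 12) (by decide +kernel)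
theorem L2511346 : W_2 (nat_lit 3) (nat_lit 0x80008000400020005000280000000000000000000000000000000) (nat_lit 0x0) (nat_lit 0x1000100000000000010000800040000000000000000000000000000000) := T_2 (nat_lit 143) (nat_lit 126) (nat_lit 4) (nat_lit 8) (nat_lit 11) L2511345 (by decide +kernel)
theorem L2511347 : W_2 (nat_lit 4) (nat_lit 0x8000400020005000280000000000000000000000000000000) (nat_lit 0x0) (nat_lit 0x1000180004000000010000800040000000000000000000000000000000) := T_2 (nat_lit 211) (nat_lit 194) (nat_lit 5) (nat_lit 8) (nat_lit 8) L2511346 (by decide +kernel)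
theorem L2511348 : W_2 (nat_lit 2) (nat_lit 0x5000100008000400020005800280000000000000000000000000000000) (nat_lit 0x0) (nat_lit 0xa0002000000000000000000000000000000000000000000000000000000000) := D_2 (nat_lit 229) (nat_lit 245) (nat_lit 247) (nat_lit 5) (nat_lit 8) (nat_lit 10) (nat_lit 7) (nat_lit 8) (nat_lit 10) (by decide +kernel)
theorem L2511349 : W_2 (nat_lit 3) (nat_lit 0x1000100008000400020005800280000000000000000000000000000000) (nat_lit 0x0) (nat_lit 0xa0006000200000000000000000000000000000000000000000000000000000) := T_2 (nat_lit 230) (nat_lit 213) (nat_lit 7) (nat_lit 8) (nat_lit 9) L2511348 (by decide +kernel)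
theorem L2511350 : W_2 (nat_lit 4) (nat_lit 0x100008000400020005800280000000000000000000000000000000) (nat_lit 0x0) (nat_lit 0xa0007000280000000000000000000000000000000000000000000000000000) := T_2 (nat_lit 228) (nat_lit 211) (nat_lit 5) (nat_lit 8) (nat_lit 9) L2511349 (by decide +kernel)
theorem L2511351 : W_2 (nat_lit 5) (nat_lit 0x8000400020005800280000000000000000000000000000000) (nat_lit 0x0) (nat_lit 0xa0007000380000000000010000000000000000000000000000000000000000) := T_2 (nat_lit 212) (nat_lit 160) (nat_lit 4) (nat_lit 8) (nat_lit 12) L2511350 (by decide +kernel)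
theorem L2511352 : W_2 (nat_lit 6) (nat_lit 0x8000400020005000280000000000000000000000000000000) (nat_lit 0x0) (nat_lit 0xa0007000380000000000010000800040000000000000000000000000000000) := T_2 (nat_lit 143) (nat_lit 126) (nat_lit 4) (nat_lit 8) (nat_lit 11) L2511351 (by decide +kernel)
theorem L2511353 : W_2 (nat_lit 2) (nat_lit 0x8000600020005800280000000000000000000000000000000) (nat_lit 0x0) (nat_lit 0x100000000000010000000000004000000000000000000000000000) := D_2 (nat_lit 160) (nat_lit 110) (nat_lit 212) (nat_lit 5) (nat_lit 8) (nat_lit 6) (nat_lit 4) (nat_lit 8) (nat_lit 12) (by decide +kernel)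
theorem L2511354 : W_2 (nat_lit 3) (nat_lit 0x8000400020005800280000000000000000000000000000000) (nat_lit 0x0) (nat_lit 0x100004000200010000000000004000000000000000000000000000) := T_2 (nat_lit 177) (nat_lit 194) (nat_lit 5) (nat_lit 8) (nat_lit 7) L2511353 (by decide +kernel)
theorem L2511355 : W_2 (nat_lit 4) (nat_lit 0x8000400020005000280000000000000000000000000000000) (nat_lit 0x0) (nat_lit 0x100004000200010000800040004000000000000000000000000000) := T_2 (nat_lit 143) (nat_lit 126) (nat_lit 4) (nat_lit 8) (nat_lit 11) L2511354 (by decide +kernel)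
theorem L2511356 : W_2 (nat_lit 7) (nat_lit 0x400020005000280000000000000000000000000000000) (nat_lit 0x0) (nat_lit 0xa000700038000c000200010000800040004000000000000000000000000000) := Q_2 (nat_lit 195) (C_2 L2511344 (C_2 L2511347 (C_2 L2511352 (C_2 L2511355 N_2)))) (by decide +kernel)
theorem L2511363 : W_2 (nat_lit 2) (nat_lit 0x14000400020005000280000000000000000000000000000000) (nat_lit 0x0) (nat_lit 0x280008000000000000000000000000000000000000000000000000) := D_2 (nat_lit 195) (nat_lit 211) (nat_lit 213) (nat_lit 5) (nat_lit 8) (nat_lit 8) (nat_lit 7) (nat_lit 8) (nat_lit 8) (by decide +kernel)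
theorem L2511364 : W_2 (nat_lit 3) (nat_lit 0x4000400020005000280000000000000000000000000000000) (nat_lit 0x0) (nat_lit 0x280018000800000000000000000000000000000000000000000000) := T_2 (nat_lit 196) (nat_lit 179) (nat_lit 7) (nat_lit 8) (nat_lit 7) L2511363 (by decide +kernel)
theorem L2511365 : W_2 (nat_lit 4) (nat_lit 0x400020005000280000000000000000000000000000000) (nat_lit 0x0) (nat_lit 0x28001c000a00000000000000000000000000000000000000000000) := T_2 (nat_lit 194) (nat_lit 177) (nat_lit 5) (nat_lit 8) (nat_lit 7) L2511364 (by decide +kernel)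
theorem L2512182 : W_2 (nat_lit 2) (nat_lit 0x1e00080005000280000000000000000000000000000000) (nat_lit 0x0) (nat_lit 0x60002000000000000000000000000000000000000000000000) := D_2 (nat_lit 198) (nat_lit 181) (nat_lit 197) (nat_lit 7) (nat_lit 10) (nat_lit 7) (nat_lit 3) (nat_lit 7) (nat_lit 10) (by decide +kernel)
theorem L2512195 : W_2 (nat_lit 2) (nat_lit 0x4001e00080005000280000000000000000000000000000000) (nat_lit 0x0) (nat_lit 0x18000800000000000000000000000000000000000) := D_2 (nat_lit 160) (nat_lit 159) (nat_lit 143) (nat_lit 0) (nat_lit 10) (nat_lit 10) (nat_lit 6) (nat_lit 7) (nat_lit 11) (by decide +kernel)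
theorem L2512196 : W_2 (nat_lit 3) (nat_lit 0x1e00080005000280000000000000000000000000000000) (nat_lit 0x0) (nat_lit 0x6000000018000800000000000000000000000000000000000) := T_2 (nat_lit 194) (nat_lit 193) (nat_lit 1) (nat_lit 10) (nat_lit 10) L2512195 (by decide +kernel)
theorem L2512197 : W_2 (nat_lit 4) (nat_lit 0x1600080005000280000000000000000000000000000000) (nat_lit 0x0) (nat_lit 0x6000800118000800000000000000000000000000000000000) := T_2 (nat_lit 179) (nat_lit 164) (nat_lit 2) (nat_lit 7) (nat_lit 10) L2512196 (by decide +kernel)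
theorem L2512565 : W_2 (nat_lit 2) (nat_lit 0x50001400080005000380000000000000000000000000000000) (nat_lit 0x0) (nat_lit 0xa00020000000000000000000000000000000000000000000000000) := D_2 (nat_lit 197) (nat_lit 215) (nat_lit 213) (nat_lit 7) (nat_lit 10) (nat_lit 8) (nat_lit 5) (nat_lit 10) (nat_lit 8) (by decide +kernel)
theorem L2512566 : W_2 (nat_lit 3) (nat_lit 0x40001400080005000380000000000000000000000000000000) (nat_lit 0x0) (nat_lit 0xa00030000800000000000000000000000000000000000000000000) := T_2 (nat_lit 196) (nat_lit 179) (nat_lit 5) (nat_lit 10) (nat_lit 7) L2512565 (by decide +kernel)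
theorem L2512679 : W_2 (nat_lit 2) (nat_lit 0x40003000140008002d000380000000000000000000000000000000) (nat_lit 0x0) (nat_lit 0x10000800040000000000000000000000000000000000000000000000000) := D_2 (nat_lit 215) (nat_lit 198) (nat_lit 232) (nat_lit 7) (nat_lit 10) (nat_lit 8) (nat_lit 7) (nat_lit 10) (nat_lit 9) (by decide +kernel)
theorem L2512680 : W_2 (nat_lit 3) (nat_lit 0x3000140008002d000380000000000000000000000000000000) (nat_lit 0x0) (nat_lit 0x10000c00040000000100000000000000000000000000000000000000000) := T_2 (nat_lit 214) (nat_lit 164) (nat_lit 6) (nat_lit 10) (nat_lit 12) L2512679 (by decide +kernel)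
theorem L2512681 : W_2 (nat_lit 4) (nat_lit 0x1000140008002d000380000000000000000000000000000000) (nat_lit 0x0) (nat_lit 0x10000e00060000000100000000000000000000000000000000000000000) := T_2 (nat_lit 197) (nat_lit 213) (nat_lit 5) (nat_lit 10) (nat_lit 8) L2512680 (by decide +kernel)
theorem L2512682 : W_2 (nat_lit 5) (nat_lit 0x1000140008000d000380000000000000000000000000000000) (nat_lit 0x0) (nat_lit 0x10000e00060000000100030000000000000000000000000000000000000) := T_2 (nat_lit 149) (nat_lit 148) (nat_lit 0) (nat_lit 13) (nat_lit 8) L2512681 (by decide +kernel)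
theorem L2512742 : W_2 (nat_lit 7) (nat_lit 0x1400080005000280000000000000000000000000000000) (nat_lit 0x0) (nat_lit 0x5e002a00018000800100008000000000000000000000000000) := T_2 (nat_lit 128) (nat_lit 111) (nat_lit 4) (nat_lit 10) (nat_lit 10) L1369410 (by decide +kernel)
theorem L2512743 : W_2 (nat_lit 5) (nat_lit 0x3400080005000280038000000000000000000000000000) (nat_lit 0x0) (nat_lit 0x1e000a00018000800000000000000000000000000000000000) := T_2 (nat_lit 179) (nat_lit 196) (nat_lit 5) (nat_lit 10) (nat_lit 7) L2054493 (by decide +kernel)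
theorem L2512744 : W_2 (nat_lit 6) (nat_lit 0x3400080005000280030000000000000000000000000000) (nat_lit 0x0) (nat_lit 0x1e000a00018000800000008000400000000000000000000000) := T_2 (nat_lit 111) (nat_lit 94) (nat_lit 4) (nat_lit 10) (nat_lit 9) L2512743 (by decide +kernel)
theorem L2512745 : W_2 (nat_lit 7) (nat_lit 0x3400080005000280010000000000000000000000000000) (nat_lit 0x0) (nat_lit 0x1e000a00018000800000028001400000000000000000000000) := T_2 (nat_lit 113) (nat_lit 96) (nat_lit 6) (nat_lit 10) (nat_lit 9) L2512744 (by decide +kernel)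
theorem L2512746 : W_2 (nat_lit 8) (nat_lit 0x3400080005000280000000000000000000000000000000) (nat_lit 0x0) (nat_lit 0x1e000a00118000800000038001400000000000000000000000) := T_2 (nat_lit 112) (nat_lit 164) (nat_lit 7) (nat_lit 10) (nat_lit 6) L2512745 (by decide +kernel)
theorem L2512747 : W_2 (nat_lit 9) (nat_lit 0x1400080005000280000000000000000000000000000000) (nat_lit 0x0) (nat_lit 0x5e002a00118000800000038001400000000000000000000000) := T_2 (nat_lit 181) (nat_lit 198) (nat_lit 7) (nat_lit 10) (nat_lit 7) L2512746 (by decide +kernel)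
theorem L2512748 : W_2 (nat_lit 3) (nat_lit 0x1c00080005000280000000000000000000000000000000) (nat_lit 0x0) (nat_lit 0x60002200100000000000000000000000000000000000000000) := T_2 (nat_lit 177) (nat_lit 164) (nat_lit 2) (nat_lit 7) (nat_lit 10) L2512182 (by decide +kernel)
theorem L2512749 : W_2 (nat_lit 4) (nat_lit 0x1400080005000280000000000000000000000000000000) (nat_lit 0x0) (nat_lit 0x70002a00100000000000000000000000000000000000000000) := T_2 (nat_lit 179) (nat_lit 196) (nat_lit 5) (nat_lit 10) (nat_lit 7) L2512748 (by decide +kernel)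
theorem L2512750 : W_2 (nat_lit 5) (nat_lit 0x1400080005000280000000000000000000000000000000) (nat_lit 0x0) (nat_lit 0x50002800300000000100018000000000000000000000000000) := T_2 (nat_lit 128) (nat_lit 111) (nat_lit 4) (nat_lit 10) (nat_lit 10) L1379274 (by decide +kernel)
theorem L2512751 : W_2 (nat_lit 5) (nat_lit 0x1400080005000280000000000000000000000000000000) (nat_lit 0x0) (nat_lit 0x40002a00300000000100018000000000000000000000000000) := T_2 (nat_lit 128) (nat_lit 111) (nat_lit 4) (nat_lit 10) (nat_lit 10) L1379277 (by decide +kernel)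
theorem L2512752 : W_2 (nat_lit 4) (nat_lit 0x1c00080005000280000000000000000000000000000000) (nat_lit 0x0) (nat_lit 0x6000200118000800000000000000000000000000000000000) := T_2 (nat_lit 177) (nat_lit 164) (nat_lit 2) (nat_lit 7) (nat_lit 10) L2512196 (by decide +kernel)
theorem L2512753 : W_2 (nat_lit 5) (nat_lit 0x1400080005000280000000000000000000000000000000) (nat_lit 0x0) (nat_lit 0x16000a00118000800000000000000000000000000000000000) := T_2 (nat_lit 179) (nat_lit 196) (nat_lit 5) (nat_lit 10) (nat_lit 7) L2512752 (by decide +kernel)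
theorem L2512754 : W_2 (nat_lit 2) (nat_lit 0x3400080005000280008000000000000000000000000000) (nat_lit 0x0) (nat_lit 0x100000000000010000400000000000000000000000) := D_2 (nat_lit 112) (nat_lit 164) (nat_lit 94) (nat_lit 7) (nat_lit 10) (nat_lit 6) (nat_lit 4) (nat_lit 10) (nat_lit 9) (by decide +kernel)
theorem L2512755 : W_2 (nat_lit 3) (nat_lit 0x1400080005000280008000000000000000000000000000) (nat_lit 0x0) (nat_lit 0x40002000100000000000010000400000000000000000000000) := T_2 (nat_lit 181) (nat_lit 198) (nat_lit 7) (nat_lit 10) (nat_lit 7) L2512754 (by decide +kernel)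
theorem L2512756 : W_2 (nat_lit 4) (nat_lit 0x1400080005000280000000000000000000000000000000) (nat_lit 0x0) (nat_lit 0x40002000100000000100018000400000000000000000000000) := T_2 (nat_lit 111) (nat_lit 128) (nat_lit 4) (nat_lit 10) (nat_lit 10) L2512755 (by decide +kernel)
theorem L2512757 : W_2 (nat_lit 10) (nat_lit 0x400080005000280000000000000000000000000000000) (nat_lit 0x0) (nat_lit 0x7e003a00318000800100038001400000000000000000000000) := Q_2 (nat_lit 180) (C_2 L2512742 (C_2 L2512747 (C_2 L2512749 (C_2 L2512750 (C_2 L2512751 (C_2 L2512753 (C_2 L2512756 N_2))))))) (by decide +kernel)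
theorem L2512758 : W_2 (nat_lit 5) (nat_lit 0x400080005000280010000000000000000000000000000) (nat_lit 0x0) (nat_lit 0x2000100008000000028001c00080000000000000000000) := T_2 (nat_lit 111) (nat_lit 94) (nat_lit 4) (nat_lit 10) (nat_lit 9) L2507938 (by decide +kernel)
theorem L2512759 : W_2 (nat_lit 2) (nat_lit 0x400180005000280010000800000000000000000000000) (nat_lit 0x0) (nat_lit 0x20001000080000000000000000000) := D_2 (nat_lit 96) (nat_lit 79) (nat_lit 113) (nat_lit 6) (nat_lit 10) (nat_lit 8) (nat_lit 6) (nat_lit 10) (nat_lit 9) (by decide +kernel)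
theorem L2512760 : W_2 (nat_lit 3) (nat_lit 0x400180005000280010000000000000000000000000000) (nat_lit 0x0) (nat_lit 0x8000000020001800080000000000000000000) := T_2 (nat_lit 95) (nat_lit 147) (nat_lit 7) (nat_lit 10) (nat_lit 5) L2512759 (by decide +kernel)
theorem L2512761 : W_2 (nat_lit 4) (nat_lit 0x400080005000280010000000000000000000000000000) (nat_lit 0x0) (nat_lit 0x2000100008000000020001800080000000000000000000) := T_2 (nat_lit 164) (nat_lit 181) (nat_lit 7) (nat_lit 10) (nat_lit 6) L2512760 (by decide +kernel)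
theorem L2512762 : W_2 (nat_lit 2) (nat_lit 0x4003c0009000500028003c000200000000000000000000000) (nat_lit 0x0) (nat_lit 0x2000200008000000000000000000000000000000000000000) := D_2 (nat_lit 177) (nat_lit 159) (nat_lit 193) (nat_lit 0) (nat_lit 10) (nat_lit 10) (nat_lit 1) (nat_lit 10) (nat_lit 10) (by decide +kernel)
theorem L2512763 : W_2 (nat_lit 3) (nat_lit 0x3c0009000500028003c000200000000000000000000000) (nat_lit 0x0) (nat_lit 0xe000200008000000000000000000000000000000000000000) := T_2 (nat_lit 194) (nat_lit 195) (nat_lit 1) (nat_lit 11) (nat_lit 10) L2512762 (by decide +kernel)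
theorem L2512764 : W_2 (nat_lit 4) (nat_lit 0x340009000500028003c000200000000000000000000000) (nat_lit 0x0) (nat_lit 0x1e000a00008000000000000000000000000000000000000000) := T_2 (nat_lit 179) (nat_lit 196) (nat_lit 5) (nat_lit 10) (nat_lit 7) L2512763 (by decide +kernel)
theorem L2512765 : W_2 (nat_lit 5) (nat_lit 0x240009000500028003c000200000000000000000000000) (nat_lit 0x0) (nat_lit 0x5e001a00008000000000000000000000000000000000000000) := T_2 (nat_lit 180) (nat_lit 198) (nat_lit 7) (nat_lit 10) (nat_lit 7) L2512764 (by decide +kernel)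
theorem L2512766 : W_2 (nat_lit 6) (nat_lit 0x240008000500028003c000200000000000000000000000) (nat_lit 0x0) (nat_lit 0x5e001a00018000800000000000000000000000000000000000) := T_2 (nat_lit 160) (nat_lit 143) (nat_lit 5) (nat_lit 8) (nat_lit 5) L2512765 (by decide +kernel)
theorem L2512767 : W_2 (nat_lit 7) (nat_lit 0x40008000500028003c000200000000000000000000000) (nat_lit 0x0) (nat_lit 0x5e003a00118000800000000000000000000000000000000000) := T_2 (nat_lit 181) (nat_lit 164) (nat_lit 7) (nat_lit 10) (nat_lit 6) L2512766 (by decide +kernel)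
theorem L2512768 : W_2 (nat_lit 8) (nat_lit 0x40008000500028003c000000000000000000000000000) (nat_lit 0x0) (nat_lit 0x5e003a00118000800000000000300000000000000000000000) := T_2 (nat_lit 93) (nat_lit 92) (nat_lit 0) (nat_lit 11) (nat_lit 6) L2512767 (by decide +kernel)
theorem L2512769 : W_2 (nat_lit 9) (nat_lit 0x400080005000280038000000000000000000000000000) (nat_lit 0x0) (nat_lit 0x5e003a00118000800040004000300000000000000000000000) := T_2 (nat_lit 110) (nat_lit 126) (nat_lit 1) (nat_lit 11) (nat_lit 6) L2512768 (by decide +kernel)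
theorem L2512770 : W_2 (nat_lit 10) (nat_lit 0x400080005000280030000000000000000000000000000) (nat_lit 0x0) (nat_lit 0x5e003a0011800080004000c000700000000000000000000000) := T_2 (nat_lit 111) (nat_lit 94) (nat_lit 4) (nat_lit 10) (nat_lit 9) L2512769 (by decide +kernel)
theorem L2512771 : W_2 (nat_lit 11) (nat_lit 0x400080005000280010000000000000000000000000000) (nat_lit 0x0) (nat_lit 0x5e003a0011800080004002c001700000000000000000000000) := T_2 (nat_lit 113) (nat_lit 96) (nat_lit 6) (nat_lit 10) (nat_lit 9) L2512770 (by decide +kernel)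
theorem L2512772 : W_2 (nat_lit 2) (nat_lit 0x400180005000280010000800000000000000000000000) (nat_lit 0x0) (nat_lit 0x8000400020000000000000000000) := D_2 (nat_lit 94) (nat_lit 111) (nat_lit 77) (nat_lit 4) (nat_lit 10) (nat_lit 9) (nat_lit 4) (nat_lit 10) (nat_lit 8) (by decide +kernel)
theorem L2512773 : W_2 (nat_lit 3) (nat_lit 0x400180005000280010000000000000000000000000000) (nat_lit 0x0) (nat_lit 0x8000000008000c00020000000000000000000) := T_2 (nat_lit 95) (nat_lit 147) (nat_lit 7) (nat_lit 10) (nat_lit 5) L2512772 (by decide +kernel)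
theorem L2512774 : W_2 (nat_lit 4) (nat_lit 0x400080005000280010000000000000000000000000000) (nat_lit 0x0) (nat_lit 0x2000100008000000008000c00020000000000000000000) := T_2 (nat_lit 164) (nat_lit 181) (nat_lit 7) (nat_lit 10) (nat_lit 6) L2512773 (by decide +kernel)
theorem L2512775 : W_2 (nat_lit 2) (nat_lit 0x400080005000280010001400000000000000000000000) (nat_lit 0x0) (nat_lit 0x8000a0000000000000000000) := D_2 (nat_lit 95) (nat_lit 77) (nat_lit 79) (nat_lit 4) (nat_lit 10) (nat_lit 8) (nat_lit 6) (nat_lit 10) (nat_lit 8) (by decide +kernel)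
theorem L2512776 : W_2 (nat_lit 3) (nat_lit 0x400080005000280010000400000000000000000000000) (nat_lit 0x0) (nat_lit 0x200018000a0000000000000000000) := T_2 (nat_lit 96) (nat_lit 113) (nat_lit 6) (nat_lit 10) (nat_lit 9) L2512775 (by decide +kernel)
theorem L2512777 : W_2 (nat_lit 4) (nat_lit 0x400080005000280010000000000000000000000000000) (nat_lit 0x0) (nat_lit 0x28001c000a0000000000000000000) := T_2 (nat_lit 94) (nat_lit 111) (nat_lit 4) (nat_lit 10) (nat_lit 9) L2512776 (by decide +kernel)
theorem L2512778 : W_2 (nat_lit 12) (nat_lit 0x400080005000280000000000000000000000000000000) (nat_lit 0x0) (nat_lit 0x5e003a0011800880004003c001f000a0000000000000000000) := Q_2 (nat_lit 112) (C_2 L2512758 (C_2 L2512761 (C_2 L2512771 (C_2 L2512774 (C_2 L2512777 N_2))))) (by decide +kernel)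
theorem L2512779 : W_2 (nat_lit 2) (nat_lit 0x400180005000280038000000000000000000000000000) (nat_lit 0x0) (nat_lit 0x140004000000000000000000000000000) := D_2 (nat_lit 126) (nat_lit 128) (nat_lit 110) (nat_lit 2) (nat_lit 7) (nat_lit 7) (nat_lit 1) (nat_lit 11) (nat_lit 6) (by decide +kernel)
theorem L2512780 : W_2 (nat_lit 3) (nat_lit 0x400180005000280018000000000000000000000000000) (nat_lit 0x0) (nat_lit 0x140024001000000000000000000000000) := T_2 (nat_lit 113) (nat_lit 96) (nat_lit 6) (nat_lit 10) (nat_lit 9) L2512779 (by decide +kernel)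
theorem L2512781 : W_2 (nat_lit 4) (nat_lit 0x400180005000280010000000000000000000000000000) (nat_lit 0x0) (nat_lit 0x14002c001400000000000000000000000) := T_2 (nat_lit 111) (nat_lit 94) (nat_lit 4) (nat_lit 10) (nat_lit 9) L2512780 (by decide +kernel)
theorem L2512782 : W_2 (nat_lit 5) (nat_lit 0x400080005000280010000000000000000000000000000) (nat_lit 0x0) (nat_lit 0x200010000000014002c001400000000000000000000000) := T_2 (nat_lit 164) (nat_lit 181) (nat_lit 7) (nat_lit 10) (nat_lit 6) L2512781 (by decide +kernel)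
theorem L2512783 : W_2 (nat_lit 6) (nat_lit 0x400080005000280000000000000000000000000000000) (nat_lit 0x0) (nat_lit 0x200010000800014003c001c000a0000000000000000000) := Q_2 (nat_lit 112) (C_2 L2512777 (C_2 L2512761 (C_2 L2512782 (C_2 L2512774 N_2)))) (by decide +kernel)
theorem L2512784 : W_2 (nat_lit 2) (nat_lit 0x3c00080005000280000000000000000000000000000000) (nat_lit 0x0) (nat_lit 0x300000000000010000000000000000000000000000) := D_2 (nat_lit 164) (nat_lit 112) (nat_lit 165) (nat_lit 7) (nat_lit 10) (nat_lit 6) (nat_lit 2) (nat_lit 8) (nat_lit 10) (by decide +kernel)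
theorem L2512785 : W_2 (nat_lit 3) (nat_lit 0x1c00080005000280000000000000000000000000000000) (nat_lit 0x0) (nat_lit 0x40002000300000000000010000000000000000000000000000) := T_2 (nat_lit 181) (nat_lit 198) (nat_lit 7) (nat_lit 10) (nat_lit 7) L2512784 (by decide +kernel)
theorem L2512786 : W_2 (nat_lit 4) (nat_lit 0x1400080005000280000000000000000000000000000000) (nat_lit 0x0) (nat_lit 0x50002800300000000000010000000000000000000000000000) := T_2 (nat_lit 179) (nat_lit 196) (nat_lit 5) (nat_lit 10) (nat_lit 7) L2512785 (by decide +kernel)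
theorem L2512787 : W_2 (nat_lit 2) (nat_lit 0x3400180005000280000000000000000000000000000000) (nat_lit 0x0) (nat_lit 0xa00200000000000000000000000000000000000000000) := D_2 (nat_lit 179) (nat_lit 165) (nat_lit 177) (nat_lit 2) (nat_lit 8) (nat_lit 10) (nat_lit 2) (nat_lit 7) (nat_lit 10) (by decide +kernel)
theorem L2512788 : W_2 (nat_lit 3) (nat_lit 0x3400080005000280000000000000000000000000000000) (nat_lit 0x0) (nat_lit 0xa00300000000000010000000000000000000000000000) := T_2 (nat_lit 164) (nat_lit 112) (nat_lit 7) (nat_lit 10) (nat_lit 6) L2512787 (by decide +kernel)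
theorem L2512789 : W_2 (nat_lit 4) (nat_lit 0x1400080005000280000000000000000000000000000000) (nat_lit 0x0) (nat_lit 0x40002a00300000000000010000000000000000000000000000) := T_2 (nat_lit 181) (nat_lit 198) (nat_lit 7) (nat_lit 10) (nat_lit 7) L2512788 (by decide +kernel)
theorem L2512790 : W_2 (nat_lit 2) (nat_lit 0x4003e00080005000280000000000000000000000000000000) (nat_lit 0x0) (nat_lit 0x18000800000000000000000000000000000000000) := D_2 (nat_lit 160) (nat_lit 159) (nat_lit 143) (nat_lit 0) (nat_lit 10) (nat_lit 10) (nat_lit 6) (nat_lit 7) (nat_lit 11) (by decide +kernel)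
theorem L2512791 : W_2 (nat_lit 3) (nat_lit 0x4003c00080005000280000000000000000000000000000000) (nat_lit 0x0) (nat_lit 0x2000200018000800000000000000000000000000000000000) := T_2 (nat_lit 177) (nat_lit 193) (nat_lit 1) (nat_lit 10) (nat_lit 10) L2512790 (by decide +kernel)
theorem L2512792 : W_2 (nat_lit 4) (nat_lit 0x3c00080005000280000000000000000000000000000000) (nat_lit 0x0) (nat_lit 0xe000200018000800000000000000000000000000000000000) := T_2 (nat_lit 194) (nat_lit 195) (nat_lit 1) (nat_lit 11) (nat_lit 10) L2512791 (by decide +kernel)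
theorem L2512793 : W_2 (nat_lit 5) (nat_lit 0x3400080005000280000000000000000000000000000000) (nat_lit 0x0) (nat_lit 0x1e000a00018000800000000000000000000000000000000000) := T_2 (nat_lit 179) (nat_lit 196) (nat_lit 5) (nat_lit 10) (nat_lit 7) L2512792 (by decide +kernel)
theorem L2512794 : W_2 (nat_lit 6) (nat_lit 0x1400080005000280000000000000000000000000000000) (nat_lit 0x0) (nat_lit 0x5e002a00018000800000000000000000000000000000000000) := T_2 (nat_lit 181) (nat_lit 198) (nat_lit 7) (nat_lit 10) (nat_lit 7) L2512793 (by decide +kernel)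
theorem L2512795 : W_2 (nat_lit 2) (nat_lit 0x20001400080005000280000000000000000000000000000000) (nat_lit 0x0) (nat_lit 0x800040002000000000000000000000000000000000000000000000) := D_2 (nat_lit 198) (nat_lit 181) (nat_lit 215) (nat_lit 7) (nat_lit 10) (nat_lit 7) (nat_lit 7) (nat_lit 10) (nat_lit 8) (by decide +kernel)
theorem L2512796 : W_2 (nat_lit 2) (nat_lit 0x600020001400180005000280000000000000000000000000000000) (nat_lit 0x0) (nat_lit 0x8000000000002000000000000000010000000000000000000000000000) := D_2 (nat_lit 181) (nat_lit 231) (nat_lit 112) (nat_lit 6) (nat_lit 10) (nat_lit 13) (nat_lit 7) (nat_lit 10) (nat_lit 6) (by decide +kernel)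
theorem L2512797 : W_2 (nat_lit 3) (nat_lit 0x600020001400080005000280000000000000000000000000000000) (nat_lit 0x0) (nat_lit 0x8000000000002000100008000000010000000000000000000000000000) := T_2 (nat_lit 164) (nat_lit 147) (nat_lit 6) (nat_lit 10) (nat_lit 12) L2512796 (by decide +kernel)
theorem L2512798 : W_2 (nat_lit 4) (nat_lit 0x200020001400080005000280000000000000000000000000000000) (nat_lit 0x0) (nat_lit 0xc000400000002000100008000000010000000000000000000000000000) := T_2 (nat_lit 214) (nat_lit 230) (nat_lit 5) (nat_lit 10) (nat_lit 9) L2512797 (by decide +kernel)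
theorem L2512799 : W_2 (nat_lit 5) (nat_lit 0x20001400080005000280000000000000000000000000000000) (nat_lit 0x0) (nat_lit 0xc000600010002000100008000000010000000000000000000000000000) := T_2 (nat_lit 213) (nat_lit 196) (nat_lit 5) (nat_lit 10) (nat_lit 8) L2512798 (by decide +kernel)
theorem L2512800 : W_2 (nat_lit 2) (nat_lit 0xa00020001400080005000280000000000000000000000000000000) (nat_lit 0x0) (nat_lit 0x14000400000000000000000000000000000000000000000000000000000) := D_2 (nat_lit 214) (nat_lit 230) (nat_lit 232) (nat_lit 5) (nat_lit 10) (nat_lit 9) (nat_lit 7) (nat_lit 10) (nat_lit 9) (by decide +kernel)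
theorem L2512801 : W_2 (nat_lit 3) (nat_lit 0x200020001400080005000280000000000000000000000000000000) (nat_lit 0x0) (nat_lit 0x14000c00040000000000000000000000000000000000000000000000000) := T_2 (nat_lit 215) (nat_lit 198) (nat_lit 7) (nat_lit 10) (nat_lit 8) L2512800 (by decide +kernel)
theorem L2512802 : W_2 (nat_lit 4) (nat_lit 0x20001400080005000280000000000000000000000000000000) (nat_lit 0x0) (nat_lit 0x14000e00050000000000000000000000000000000000000000000000000) := T_2 (nat_lit 213) (nat_lit 196) (nat_lit 5) (nat_lit 10) (nat_lit 8) L2512801 (by decide +kernel)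
theorem L2512803 : W_2 (nat_lit 6) (nat_lit 0x1400080005000280000000000000000000000000000000) (nat_lit 0x0) (nat_lit 0x1c000e00070002000100008000000010000000000000000000000000000) := Q_2 (nat_lit 197) (C_2 L2512795 (C_2 L2512799 (C_2 L2512802 N_2))) (by decide +kernel)
theorem L2512804 : W_2 (nat_lit 7) (nat_lit 0x400080005000280000000000000000000000000000000) (nat_lit 0x0) (nat_lit 0x1c000e0007e003a00318008800000010000000000000000000000000000) := Q_2 (nat_lit 180) (C_2 L2512753 (C_2 L2512749 (C_2 L2512786 (C_2 L2512789 (C_2 L2512794 (C_2 L2512803 N_2)))))) (by decide +kernel)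
theorem L2512805 : W_2 (nat_lit 8) (nat_lit 0x340008000d000380000000000000000000000000000000) (nat_lit 0x0) (nat_lit 0x39c00c800700030000800000000000000000000000000000000) := T_2 (nat_lit 179) (nat_lit 196) (nat_lit 5) (nat_lit 10) (nat_lit 7) L1380504 (by decide +kernel)
theorem L2512806 : W_2 (nat_lit 9) (nat_lit 0x3400080005000380000000000000000000000000000000) (nat_lit 0x0) (nat_lit 0x39c00c800700038000840000000000000000000000000000000) := T_2 (nat_lit 147) (nat_lit 126) (nat_lit 3) (nat_lit 7) (nat_lit 7) L2512805 (by decide +kernel)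
theorem L2512807 : W_2 (nat_lit 10) (nat_lit 0x3400080005000280000000000000000000000000000000) (nat_lit 0x0) (nat_lit 0x39c00c800700038000940008000000000000000000000000000) := T_2 (nat_lit 128) (nat_lit 111) (nat_lit 4) (nat_lit 10) (nat_lit 10) L2512806 (by decide +kernel)
theorem L2512808 : W_2 (nat_lit 11) (nat_lit 0x1400080005000280000000000000000000000000000000) (nat_lit 0x0) (nat_lit 0x3dc00e800700038000940008000000000000000000000000000) := T_2 (nat_lit 181) (nat_lit 198) (nat_lit 7) (nat_lit 10) (nat_lit 7) L2512807 (by decide +kernel)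
theorem L2512809 : W_2 (nat_lit 2) (nat_lit 0x600016000800058003c0000000000000000000000000000000) (nat_lit 0x0) (nat_lit 0x8000000010000000000004000000000000000000000000000) := D_2 (nat_lit 160) (nat_lit 195) (nat_lit 110) (nat_lit 7) (nat_lit 7) (nat_lit 7) (nat_lit 6) (nat_lit 7) (nat_lit 10) (by decide +kernel)
theorem L2512810 : W_2 (nat_lit 3) (nat_lit 0x600014000800058003c0000000000000000000000000000000) (nat_lit 0x0) (nat_lit 0x8000a00010000000000004000000000000000000000000000) := T_2 (nat_lit 177) (nat_lit 179) (nat_lit 3) (nat_lit 7) (nat_lit 10) L2512809 (by decide +kernel)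
theorem L2512811 : W_2 (nat_lit 4) (nat_lit 0x400014000800058003c0000000000000000000000000000000) (nat_lit 0x0) (nat_lit 0x800028000a00010000000000004000000000000000000000000000) := T_2 (nat_lit 197) (nat_lit 215) (nat_lit 7) (nat_lit 10) (nat_lit 8) L2512810 (by decide +kernel)
theorem L2512812 : W_2 (nat_lit 5) (nat_lit 0x400014000800050003c0000000000000000000000000000000) (nat_lit 0x0) (nat_lit 0x800028000a00010000c00000004000000000000000000000000000) := T_2 (nat_lit 143) (nat_lit 142) (nat_lit 1) (nat_lit 10) (nat_lit 7) L2512811 (by decide +kernel)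
theorem L2512813 : W_2 (nat_lit 6) (nat_lit 0x40001400080005000380000000000000000000000000000000) (nat_lit 0x0) (nat_lit 0x800028000a00010008c00040004000000000000000000000000000) := T_2 (nat_lit 126) (nat_lit 147) (nat_lit 3) (nat_lit 7) (nat_lit 7) L2512812 (by decide +kernel)
theorem L2512814 : W_2 (nat_lit 7) (nat_lit 0x40001400080005000280000000000000000000000000000000) (nat_lit 0x0) (nat_lit 0x800028000a00010008c0014000c000000000000000000000000000) := T_2 (nat_lit 128) (nat_lit 111) (nat_lit 4) (nat_lit 10) (nat_lit 10) L2512813 (by decide +kernel)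
theorem L2512815 : W_2 (nat_lit 8) (nat_lit 0x1400080005000280000000000000000000000000000000) (nat_lit 0x0) (nat_lit 0x800068002a00010008c0014000c000000000000000000000000000) := T_2 (nat_lit 198) (nat_lit 181) (nat_lit 7) (nat_lit 10) (nat_lit 7) L2512814 (by decide +kernel)
theorem L2512816 : W_2 (nat_lit 2) (nat_lit 0x700016000800058003c0000000000000000000000000000000) (nat_lit 0x0) (nat_lit 0x4000000010000000000004000000000000000000000000000) := D_2 (nat_lit 160) (nat_lit 110) (nat_lit 194) (nat_lit 6) (nat_lit 7) (nat_lit 10) (nat_lit 6) (nat_lit 7) (nat_lit 11) (by decide +kernel)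
theorem L2512817 : W_2 (nat_lit 3) (nat_lit 0x700014000800058003c0000000000000000000000000000000) (nat_lit 0x0) (nat_lit 0xc000200010000000000004000000000000000000000000000) := T_2 (nat_lit 177) (nat_lit 195) (nat_lit 0) (nat_lit 11) (nat_lit 11) L2512816 (by decide +kernel)
theorem L2512818 : W_2 (nat_lit 4) (nat_lit 0x600014000800058003c0000000000000000000000000000000) (nat_lit 0x0) (nat_lit 0x20001c000200010000000000004000000000000000000000000000) := T_2 (nat_lit 196) (nat_lit 213) (nat_lit 5) (nat_lit 10) (nat_lit 8) L2512817 (by decide +kernel)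
theorem L2512819 : W_2 (nat_lit 5) (nat_lit 0x400014000800058003c0000000000000000000000000000000) (nat_lit 0x0) (nat_lit 0xa0003c000200010000000000004000000000000000000000000000) := T_2 (nat_lit 197) (nat_lit 215) (nat_lit 7) (nat_lit 10) (nat_lit 8) L2512818 (by decide +kernel)
theorem L2512820 : W_2 (nat_lit 6) (nat_lit 0x400014000800050003c0000000000000000000000000000000) (nat_lit 0x0) (nat_lit 0xa0003c000200010000c00000004000000000000000000000000000) := T_2 (nat_lit 143) (nat_lit 142) (nat_lit 1) (nat_lit 10) (nat_lit 7) L2512819 (by decide +kernel)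
theorem L2512821 : W_2 (nat_lit 7) (nat_lit 0x40001400080005000380000000000000000000000000000000) (nat_lit 0x0) (nat_lit 0xa0003c000200010008c00040004000000000000000000000000000) := T_2 (nat_lit 126) (nat_lit 147) (nat_lit 3) (nat_lit 7) (nat_lit 7) L2512820 (by decide +kernel)
theorem L2512822 : W_2 (nat_lit 8) (nat_lit 0x40001400080005000280000000000000000000000000000000) (nat_lit 0x0) (nat_lit 0xa0003c000200010008c0014000c000000000000000000000000000) := T_2 (nat_lit 128) (nat_lit 111) (nat_lit 4) (nat_lit 10) (nat_lit 10) L2512821 (by decide +kernel)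
theorem L2512823 : W_2 (nat_lit 9) (nat_lit 0x1400080005000280000000000000000000000000000000) (nat_lit 0x0) (nat_lit 0xa0007c002200010008c0014000c000000000000000000000000000) := T_2 (nat_lit 198) (nat_lit 181) (nat_lit 7) (nat_lit 10) (nat_lit 7) L2512822 (by decide +kernel)
theorem L2512824 : W_2 (nat_lit 12) (nat_lit 0x400080005000280000000000000000000000000000000) (nat_lit 0x0) (nat_lit 0xa003fe00fa00718038c0094000c000000000000000000000000000) := Q_2 (nat_lit 180) (C_2 L2512794 (C_2 L2512749 (C_2 L2512808 (C_2 L2512815 (C_2 L2512753 (C_2 L2512823 N_2)))))) (by decide +kernel)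
theorem L2512825 : W_2 (nat_lit 4) (nat_lit 0x40001400080005000280000000000000000000000000000000) (nat_lit 0x0) (nat_lit 0xa00030000800000000000100008000000000000000000000000000) := T_2 (nat_lit 128) (nat_lit 111) (nat_lit 4) (nat_lit 10) (nat_lit 10) L2512566 (by decide +kernel)
theorem L2512826 : W_2 (nat_lit 5) (nat_lit 0x1400080005000280000000000000000000000000000000) (nat_lit 0x0) (nat_lit 0xa00070002800000000000100008000000000000000000000000000) := T_2 (nat_lit 198) (nat_lit 181) (nat_lit 7) (nat_lit 10) (nat_lit 7) L2512825 (by decide +kernel)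
theorem L2512827 : W_2 (nat_lit 2) (nat_lit 0x700016000800058003c0010000000000000000000000000000) (nat_lit 0x0) (nat_lit 0x4000000010000000000004000000000000000000000000000) := D_2 (nat_lit 160) (nat_lit 110) (nat_lit 194) (nat_lit 6) (nat_lit 7) (nat_lit 10) (nat_lit 6) (nat_lit 7) (nat_lit 11) (by decide +kernel)
theorem L2512828 : W_2 (nat_lit 3) (nat_lit 0x700014000800058003c0010000000000000000000000000000) (nat_lit 0x0) (nat_lit 0xc000200010000000000004000000000000000000000000000) := T_2 (nat_lit 177) (nat_lit 195) (nat_lit 0) (nat_lit 11) (nat_lit 11) L2512827 (by decide +kernel)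
theorem L2512829 : W_2 (nat_lit 4) (nat_lit 0x300014000800058003c0010000000000000000000000000000) (nat_lit 0x0) (nat_lit 0x80004c000200010000000000004000000000000000000000000000) := T_2 (nat_lit 198) (nat_lit 215) (nat_lit 7) (nat_lit 10) (nat_lit 8) L2512828 (by decide +kernel)
theorem L2512830 : W_2 (nat_lit 5) (nat_lit 0x100014000800058003c0010000000000000000000000000000) (nat_lit 0x0) (nat_lit 0xa0006c000200010000000000004000000000000000000000000000) := T_2 (nat_lit 197) (nat_lit 213) (nat_lit 5) (nat_lit 10) (nat_lit 8) L2512829 (by decide +kernel)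
theorem L2512831 : W_2 (nat_lit 6) (nat_lit 0x100014000800050003c0010000000000000000000000000000) (nat_lit 0x0) (nat_lit 0xa0006c000200010000c00000004000000000000000000000000000) := T_2 (nat_lit 143) (nat_lit 142) (nat_lit 1) (nat_lit 10) (nat_lit 7) L2512830 (by decide +kernel)
theorem L2512832 : W_2 (nat_lit 7) (nat_lit 0x100014000800050003c0000000000000000000000000000000) (nat_lit 0x0) (nat_lit 0xa0006c000200010000c00000034000000000000000000000000000) := T_2 (nat_lit 112) (nat_lit 113) (nat_lit 2) (nat_lit 7) (nat_lit 7) L2512831 (by decide +kernel)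
theorem L2512833 : W_2 (nat_lit 8) (nat_lit 0x10001400080005000380000000000000000000000000000000) (nat_lit 0x0) (nat_lit 0xa0006c000200010008c00040034000000000000000000000000000) := T_2 (nat_lit 126) (nat_lit 147) (nat_lit 3) (nat_lit 7) (nat_lit 7) L2512832 (by decide +kernel)
theorem L2512834 : W_2 (nat_lit 9) (nat_lit 0x10001400080005000280000000000000000000000000000000) (nat_lit 0x0) (nat_lit 0xa0006c000200010008c0014003c000000000000000000000000000) := T_2 (nat_lit 128) (nat_lit 111) (nat_lit 4) (nat_lit 10) (nat_lit 10) L2512833 (by decide +kernel)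
theorem L2512835 : W_2 (nat_lit 10) (nat_lit 0x1400080005000280000000000000000000000000000000) (nat_lit 0x0) (nat_lit 0xa0007c000a00010008c0014003c000000000000000000000000000) := T_2 (nat_lit 196) (nat_lit 179) (nat_lit 5) (nat_lit 10) (nat_lit 7) L2512834 (by decide +kernel)
theorem L2512843 : W_2 (nat_lit 4) (nat_lit 0x1600080005000280000000000000000000000000000000) (nat_lit 0x0) (nat_lit 0x16000800018000800000000000000000000000000000000000) := T_2 (nat_lit 179) (nat_lit 196) (nat_lit 5) (nat_lit 10) (nat_lit 7) L2512196 (by decide +kernel)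
theorem L2512844 : W_2 (nat_lit 2) (nat_lit 0x16000800058003c0010000000000000000000000000000) (nat_lit 0x0) (nat_lit 0x8000000010000000000004000000000000000000000000000) := D_2 (nat_lit 160) (nat_lit 195) (nat_lit 110) (nat_lit 7) (nat_lit 7) (nat_lit 7) (nat_lit 6) (nat_lit 7) (nat_lit 10) (by decide +kernel)
theorem L2512845 : W_2 (nat_lit 3) (nat_lit 0x16000800050003c0010000000000000000000000000000) (nat_lit 0x0) (nat_lit 0x8000000010000c00000004000000000000000000000000000) := T_2 (nat_lit 143) (nat_lit 142) (nat_lit 1) (nat_lit 10) (nat_lit 7) L2512844 (by decide +kernel)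
theorem L2512846 : W_2 (nat_lit 4) (nat_lit 0x16000800050003c0000000000000000000000000000000) (nat_lit 0x0) (nat_lit 0x8000000010000c00000034000000000000000000000000000) := T_2 (nat_lit 112) (nat_lit 113) (nat_lit 2) (nat_lit 7) (nat_lit 7) L2512845 (by decide +kernel)
theorem L2512847 : W_2 (nat_lit 5) (nat_lit 0x1600080005000380000000000000000000000000000000) (nat_lit 0x0) (nat_lit 0x8000000010008c00040034000000000000000000000000000) := T_2 (nat_lit 126) (nat_lit 147) (nat_lit 3) (nat_lit 7) (nat_lit 7) L2512846 (by decide +kernel)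
theorem L2512848 : W_2 (nat_lit 6) (nat_lit 0x1600080005000280000000000000000000000000000000) (nat_lit 0x0) (nat_lit 0x8000000010008c0014003c000000000000000000000000000) := T_2 (nat_lit 128) (nat_lit 111) (nat_lit 4) (nat_lit 10) (nat_lit 10) L2512847 (by decide +kernel)
theorem L2512849 : W_2 (nat_lit 2) (nat_lit 0x2001f800840058003f0010000000000000000000000000000) (nat_lit 0x0) (nat_lit 0x1c00000000000000000000000000) := D_2 (nat_lit 107) (nat_lit 108) (nat_lit 106) (nat_lit 0) (nat_lit 9) (nat_lit 7) (nat_lit 0) (nat_lit 8) (nat_lit 7) (by decide +kernel)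
theorem L2512850 : W_2 (nat_lit 3) (nat_lit 0x2001f800840058003d0010000000000000000000000000000) (nat_lit 0x0) (nat_lit 0x28001c00000000000000000000000000) := T_2 (nat_lit 125) (nat_lit 123) (nat_lit 3) (nat_lit 4) (nat_lit 7) L2512849 (by decide +kernel)
theorem L2512851 : W_2 (nat_lit 4) (nat_lit 0x2001f800840058003c0010000000000000000000000000000) (nat_lit 0x0) (nat_lit 0x200038001c00000000000000000000000000) := T_2 (nat_lit 124) (nat_lit 141) (nat_lit 7) (nat_lit 5) (nat_lit 7) L2512850 (by decide +kernel)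
theorem L2512852 : W_2 (nat_lit 5) (nat_lit 0x2001f000840058003c0010000000000000000000000000000) (nat_lit 0x0) (nat_lit 0x80002000200038001c00000000000000000000000000) := T_2 (nat_lit 175) (nat_lit 157) (nat_lit 0) (nat_lit 8) (nat_lit 10) L2512851 (by decide +kernel)
theorem L2512853 : W_2 (nat_lit 6) (nat_lit 0x2001f000800058003c0010000000000000000000000000000) (nat_lit 0x0) (nat_lit 0x8000e000200038001c00000000000000000000000000) := T_2 (nat_lit 158) (nat_lit 159) (nat_lit 0) (nat_lit 9) (nat_lit 10) L2512852 (by decide +kernel)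
theorem L2512854 : W_2 (nat_lit 7) (nat_lit 0x2001e000800058003c0010000000000000000000000000000) (nat_lit 0x0) (nat_lit 0x100018000e000200038001c00000000000000000000000000) := T_2 (nat_lit 176) (nat_lit 192) (nat_lit 1) (nat_lit 9) (nat_lit 10) L2512853 (by decide +kernel)
theorem L2512855 : W_2 (nat_lit 8) (nat_lit 0x1e000800058003c0010000000000000000000000000000) (nat_lit 0x0) (nat_lit 0x700018000e000200038001c00000000000000000000000000) := T_2 (nat_lit 193) (nat_lit 194) (nat_lit 1) (nat_lit 10) (nat_lit 10) L2512854 (by decide +kernel)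
theorem L2512856 : W_2 (nat_lit 9) (nat_lit 0x16000800058003c0010000000000000000000000000000) (nat_lit 0x0) (nat_lit 0x1700098000e000200038001c00000000000000000000000000) := T_2 (nat_lit 179) (nat_lit 196) (nat_lit 5) (nat_lit 10) (nat_lit 7) L2512855 (by decide +kernel)
theorem L2512857 : W_2 (nat_lit 10) (nat_lit 0x16000800050003c0010000000000000000000000000000) (nat_lit 0x0) (nat_lit 0x1700098000e000e00038001c00000000000000000000000000) := T_2 (nat_lit 143) (nat_lit 142) (nat_lit 1) (nat_lit 10) (nat_lit 7) L2512856 (by decide +kernel)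
theorem L2512858 : W_2 (nat_lit 11) (nat_lit 0x16000800050003c0000000000000000000000000000000) (nat_lit 0x0) (nat_lit 0x1700098000e000e00038031c00000000000000000000000000) := T_2 (nat_lit 112) (nat_lit 113) (nat_lit 2) (nat_lit 7) (nat_lit 7) L2512857 (by decide +kernel)
theorem L2512859 : W_2 (nat_lit 12) (nat_lit 0x1600080005000380000000000000000000000000000000) (nat_lit 0x0) (nat_lit 0x1700098000e008e00078031c00000000000000000000000000) := T_2 (nat_lit 126) (nat_lit 147) (nat_lit 3) (nat_lit 7) (nat_lit 7) L2512858 (by decide +kernel)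
theorem L2512860 : W_2 (nat_lit 13) (nat_lit 0x1600080005000280000000000000000000000000000000) (nat_lit 0x0) (nat_lit 0x1700098000e008e00178039c00000000000000000000000000) := T_2 (nat_lit 128) (nat_lit 111) (nat_lit 4) (nat_lit 10) (nat_lit 10) L2512859 (by decide +kernel)
theorem L2512861 : W_2 (nat_lit 2) (nat_lit 0x2001e00088005000280000000000000000000000000000000) (nat_lit 0x0) (nat_lit 0x1000100004000000000000000000000000000000000000000) := D_2 (nat_lit 176) (nat_lit 192) (nat_lit 158) (nat_lit 1) (nat_lit 9) (nat_lit 10) (nat_lit 0) (nat_lit 9) (nat_lit 10) (by decide +kernel)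
theorem L2512862 : W_2 (nat_lit 3) (nat_lit 0x2001e00080005000280000000000000000000000000000000) (nat_lit 0x0) (nat_lit 0x100010001c000000000000000000000000000000000000000) := T_2 (nat_lit 159) (nat_lit 160) (nat_lit 0) (nat_lit 10) (nat_lit 10) L2512861 (by decide +kernel)
theorem L2512863 : W_2 (nat_lit 4) (nat_lit 0x1e00080005000280000000000000000000000000000000) (nat_lit 0x0) (nat_lit 0x700010001c000000000000000000000000000000000000000) := T_2 (nat_lit 193) (nat_lit 194) (nat_lit 1) (nat_lit 10) (nat_lit 10) L2512862 (by decide +kernel)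
theorem L2512864 : W_2 (nat_lit 5) (nat_lit 0x1600080005000280000000000000000000000000000000) (nat_lit 0x0) (nat_lit 0x1700090001c000000000000000000000000000000000000000) := T_2 (nat_lit 179) (nat_lit 196) (nat_lit 5) (nat_lit 10) (nat_lit 7) L2512863 (by decide +kernel)
theorem L2512865 : W_2 (nat_lit 14) (nat_lit 0x1400080005000280000000000000000000000000000000) (nat_lit 0x0) (nat_lit 0x1f000b8001e008e0017803dc00000000000000000000000000) := Q_2 (nat_lit 177) (C_2 L2512843 (C_2 L2512848 (C_2 L2512860 (C_2 L2512864 N_2)))) (by decide +kernel)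
theorem L2512866 : W_2 (nat_lit 15) (nat_lit 0x400080005000280000000000000000000000000000000) (nat_lit 0x0) (nat_lit 0xa0007f003b8001e008e0017803dc00000000000000000000000000) := Q_2 (nat_lit 180) (C_2 L2512823 (C_2 L2512794 (C_2 L2512826 (C_2 L2512815 (C_2 L2512835 (C_2 L2512865 N_2)))))) (by decide +kernel)
theorem L2512867 : W_2 (nat_lit 9) (nat_lit 0x1c000800058003c0010000000000000000000000000000) (nat_lit 0x0) (nat_lit 0x700038010e000200038001c00000000000000000000000000) := T_2 (nat_lit 177) (nat_lit 164) (nat_lit 2) (nat_lit 7) (nat_lit 10) L2512855 (by decide +kernel)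
theorem L2512868 : W_2 (nat_lit 10) (nat_lit 0x14000800058003c0010000000000000000000000000000) (nat_lit 0x0) (nat_lit 0x17000b8010e000200038001c00000000000000000000000000) := T_2 (nat_lit 179) (nat_lit 196) (nat_lit 5) (nat_lit 10) (nat_lit 7) L2512867 (by decide +kernel)
theorem L2512869 : W_2 (nat_lit 11) (nat_lit 0x14000800050003c0010000000000000000000000000000) (nat_lit 0x0) (nat_lit 0x17000b8010e000e00038001c00000000000000000000000000) := T_2 (nat_lit 143) (nat_lit 142) (nat_lit 1) (nat_lit 10) (nat_lit 7) L2512868 (by decide +kernel)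
theorem L2512870 : W_2 (nat_lit 12) (nat_lit 0x14000800050003c0000000000000000000000000000000) (nat_lit 0x0) (nat_lit 0x17000b8010e000e00038031c00000000000000000000000000) := T_2 (nat_lit 112) (nat_lit 113) (nat_lit 2) (nat_lit 7) (nat_lit 7) L2512869 (by decide +kernel)
theorem L2512871 : W_2 (nat_lit 13) (nat_lit 0x1400080005000380000000000000000000000000000000) (nat_lit 0x0) (nat_lit 0x17000b8010e008e00078031c00000000000000000000000000) := T_2 (nat_lit 126) (nat_lit 147) (nat_lit 3) (nat_lit 7) (nat_lit 7) L2512870 (by decide +kernel)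
theorem L2512872 : W_2 (nat_lit 14) (nat_lit 0x1400080005000280000000000000000000000000000000) (nat_lit 0x0) (nat_lit 0x17000b8010e008e00178039c00000000000000000000000000) := T_2 (nat_lit 128) (nat_lit 111) (nat_lit 4) (nat_lit 10) (nat_lit 10) L2512871 (by decide +kernel)
theorem L2512873 : W_2 (nat_lit 6) (nat_lit 0x10001400080005000380000000000000000000000000000000) (nat_lit 0x0) (nat_lit 0x10000e00060000000100038000040000000000000000000000000000000) := T_2 (nat_lit 147) (nat_lit 126) (nat_lit 3) (nat_lit 7) (nat_lit 7) L2512682 (by decide +kernel)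
theorem L2512874 : W_2 (nat_lit 7) (nat_lit 0x10001400080005000280000000000000000000000000000000) (nat_lit 0x0) (nat_lit 0x10000e00060000000100038000140008000000000000000000000000000) := T_2 (nat_lit 128) (nat_lit 111) (nat_lit 4) (nat_lit 10) (nat_lit 10) L2512873 (by decide +kernel)
theorem L2512875 : W_2 (nat_lit 8) (nat_lit 0x1400080005000280000000000000000000000000000000) (nat_lit 0x0) (nat_lit 0x10000e00070000800100038000140008000000000000000000000000000) := T_2 (nat_lit 196) (nat_lit 179) (nat_lit 5) (nat_lit 10) (nat_lit 7) L2512874 (by decide +kernel)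
theorem L2512876 : W_2 (nat_lit 6) (nat_lit 0x22001f00088005000280000000000000000000000000000000) (nat_lit 0x0) (nat_lit 0x8e00170038000000000000000000000000000) := T_2 (nat_lit 128) (nat_lit 111) (nat_lit 4) (nat_lit 10) (nat_lit 10) L1377253 (by decide +kernel)
theorem L2512877 : W_2 (nat_lit 7) (nat_lit 0x22001f00080005000280000000000000000000000000000000) (nat_lit 0x0) (nat_lit 0xc008e00170038000000000000000000000000000) := T_2 (nat_lit 159) (nat_lit 158) (nat_lit 0) (nat_lit 9) (nat_lit 10) L2512876 (by decide +kernel)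
theorem L2512878 : W_2 (nat_lit 8) (nat_lit 0x22001e00080005000280000000000000000000000000000000) (nat_lit 0x0) (nat_lit 0x100010000c008e00170038000000000000000000000000000) := T_2 (nat_lit 176) (nat_lit 192) (nat_lit 1) (nat_lit 9) (nat_lit 10) L2512877 (by decide +kernel)
theorem L2512879 : W_2 (nat_lit 9) (nat_lit 0x2001e00080005000280000000000000000000000000000000) (nat_lit 0x0) (nat_lit 0x6100010000c008e00170038000000000000000000000000000) := T_2 (nat_lit 197) (nat_lit 198) (nat_lit 3) (nat_lit 7) (nat_lit 10) L2512878 (by decide +kernel)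
theorem L2512880 : W_2 (nat_lit 10) (nat_lit 0x1e00080005000280000000000000000000000000000000) (nat_lit 0x0) (nat_lit 0x6700010000c008e00170038000000000000000000000000000) := T_2 (nat_lit 193) (nat_lit 194) (nat_lit 1) (nat_lit 10) (nat_lit 10) L2512879 (by decide +kernel)
theorem L2512881 : W_2 (nat_lit 11) (nat_lit 0x1600080005000280000000000000000000000000000000) (nat_lit 0x0) (nat_lit 0x6700090010c008e00170038000000000000000000000000000) := T_2 (nat_lit 179) (nat_lit 164) (nat_lit 2) (nat_lit 7) (nat_lit 10) L2512880 (by decide +kernel)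
theorem L2512882 : W_2 (nat_lit 2) (nat_lit 0x22001f000800050003c0010000000000000000000000000000) (nat_lit 0x0) (nat_lit 0x1c000000000000000000000000000000000000000) := D_2 (nat_lit 159) (nat_lit 158) (nat_lit 160) (nat_lit 0) (nat_lit 9) (nat_lit 10) (nat_lit 0) (nat_lit 10) (nat_lit 10) (by decide +kernel)
theorem L2512883 : W_2 (nat_lit 3) (nat_lit 0x22001e000800050003c0010000000000000000000000000000) (nat_lit 0x0) (nat_lit 0x100010001c000000000000000000000000000000000000000) := T_2 (nat_lit 176) (nat_lit 192) (nat_lit 1) (nat_lit 9) (nat_lit 10) L2512882 (by decide +kernel)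
theorem L2512884 : W_2 (nat_lit 4) (nat_lit 0x2001e000800050003c0010000000000000000000000000000) (nat_lit 0x0) (nat_lit 0x6100010001c000000000000000000000000000000000000000) := T_2 (nat_lit 197) (nat_lit 198) (nat_lit 3) (nat_lit 7) (nat_lit 10) L2512883 (by decide +kernel)
theorem L2512885 : W_2 (nat_lit 5) (nat_lit 0x1e000800050003c0010000000000000000000000000000) (nat_lit 0x0) (nat_lit 0x6700010001c000000000000000000000000000000000000000) := T_2 (nat_lit 193) (nat_lit 194) (nat_lit 1) (nat_lit 10) (nat_lit 10) L2512884 (by decide +kernel)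
theorem L2512886 : W_2 (nat_lit 6) (nat_lit 0x16000800050003c0010000000000000000000000000000) (nat_lit 0x0) (nat_lit 0x6700090011c000000000000000000000000000000000000000) := T_2 (nat_lit 179) (nat_lit 164) (nat_lit 2) (nat_lit 7) (nat_lit 10) L2512885 (by decide +kernel)
theorem L2512887 : W_2 (nat_lit 7) (nat_lit 0x16000800050003c0000000000000000000000000000000) (nat_lit 0x0) (nat_lit 0x6700090011c000000000030000000000000000000000000000) := T_2 (nat_lit 112) (nat_lit 113) (nat_lit 2) (nat_lit 7) (nat_lit 7) L2512886 (by decide +kernel)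
theorem L2512888 : W_2 (nat_lit 8) (nat_lit 0x1600080005000380000000000000000000000000000000) (nat_lit 0x0) (nat_lit 0x6700090011c008000040030000000000000000000000000000) := T_2 (nat_lit 126) (nat_lit 147) (nat_lit 3) (nat_lit 7) (nat_lit 7) L2512887 (by decide +kernel)
theorem L2512889 : W_2 (nat_lit 9) (nat_lit 0x1600080005000280000000000000000000000000000000) (nat_lit 0x0) (nat_lit 0x6700090011c008000140038000000000000000000000000000) := T_2 (nat_lit 128) (nat_lit 111) (nat_lit 4) (nat_lit 10) (nat_lit 10) L2512888 (by decide +kernel)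
theorem L2512890 : W_2 (nat_lit 12) (nat_lit 0x1400080005000280000000000000000000000000000000) (nat_lit 0x0) (nat_lit 0x6f000b0011c008e0017003c000000000000000000000000000) := Q_2 (nat_lit 177) (C_2 L2512197 (C_2 L2512848 (C_2 L2512881 (C_2 L2512889 N_2)))) (by decide +kernel)
theorem L2512891 : W_2 (nat_lit 2) (nat_lit 0x80002000140008000d000380000000000000000000000000000000) (nat_lit 0x0) (nat_lit 0x10000400000000000100000000000000000000000000000000000000000) := D_2 (nat_lit 214) (nat_lit 232) (nat_lit 164) (nat_lit 7) (nat_lit 10) (nat_lit 9) (nat_lit 6) (nat_lit 10) (nat_lit 12) (by decide +kernel)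
theorem L2512892 : W_2 (nat_lit 3) (nat_lit 0x800020001400080005000380000000000000000000000000000000) (nat_lit 0x0) (nat_lit 0x10000400000000000100008000040000000000000000000000000000000) := T_2 (nat_lit 147) (nat_lit 126) (nat_lit 3) (nat_lit 7) (nat_lit 7) L2512891 (by decide +kernel)
theorem L2512893 : W_2 (nat_lit 4) (nat_lit 0x800020001400080005000280000000000000000000000000000000) (nat_lit 0x0) (nat_lit 0x10000400000000000100008000140008000000000000000000000000000) := T_2 (nat_lit 128) (nat_lit 111) (nat_lit 4) (nat_lit 10) (nat_lit 10) L2512892 (by decide +kernel)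
theorem L2512894 : W_2 (nat_lit 5) (nat_lit 0x20001400080005000280000000000000000000000000000000) (nat_lit 0x0) (nat_lit 0x10000c00040000000100008000140008000000000000000000000000000) := T_2 (nat_lit 215) (nat_lit 198) (nat_lit 7) (nat_lit 10) (nat_lit 8) L2512893 (by decide +kernel)
theorem L2512895 : W_2 (nat_lit 2) (nat_lit 0x20002000140008000d000380000000000000000000000000000000) (nat_lit 0x0) (nat_lit 0x4000400000000000100000000000000000000000000000000000000000) := D_2 (nat_lit 214) (nat_lit 230) (nat_lit 164) (nat_lit 5) (nat_lit 10) (nat_lit 9) (nat_lit 6) (nat_lit 10) (nat_lit 12) (by decide +kernel)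
theorem L2512896 : W_2 (nat_lit 3) (nat_lit 0x200020001400080005000380000000000000000000000000000000) (nat_lit 0x0) (nat_lit 0x4000400000000000100008000040000000000000000000000000000000) := T_2 (nat_lit 147) (nat_lit 126) (nat_lit 3) (nat_lit 7) (nat_lit 7) L2512895 (by decide +kernel)
theorem L2512897 : W_2 (nat_lit 4) (nat_lit 0x200020001400080005000280000000000000000000000000000000) (nat_lit 0x0) (nat_lit 0x4000400000000000100008000140008000000000000000000000000000) := T_2 (nat_lit 128) (nat_lit 111) (nat_lit 4) (nat_lit 10) (nat_lit 10) L2512896 (by decide +kernel)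
theorem L2512898 : W_2 (nat_lit 5) (nat_lit 0x20001400080005000280000000000000000000000000000000) (nat_lit 0x0) (nat_lit 0x4000600010000000100008000140008000000000000000000000000000) := T_2 (nat_lit 213) (nat_lit 196) (nat_lit 5) (nat_lit 10) (nat_lit 8) L2512897 (by decide +kernel)
theorem L2512899 : W_2 (nat_lit 3) (nat_lit 0x700016000800050003c0010000000000000000000000000000) (nat_lit 0x0) (nat_lit 0x4000000010000c00000004000000000000000000000000000) := T_2 (nat_lit 143) (nat_lit 142) (nat_lit 1) (nat_lit 10) (nat_lit 7) L2512827 (by decide +kernel)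
theorem L2512900 : W_2 (nat_lit 4) (nat_lit 0x700016000800050003c0000000000000000000000000000000) (nat_lit 0x0) (nat_lit 0x4000000010000c00000034000000000000000000000000000) := T_2 (nat_lit 112) (nat_lit 113) (nat_lit 2) (nat_lit 7) (nat_lit 7) L2512899 (by decide +kernel)
theorem L2512901 : W_2 (nat_lit 5) (nat_lit 0x70001600080005000380000000000000000000000000000000) (nat_lit 0x0) (nat_lit 0x4000000010008c00040034000000000000000000000000000) := T_2 (nat_lit 126) (nat_lit 147) (nat_lit 3) (nat_lit 7) (nat_lit 7) L2512900 (by decide +kernel)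
theorem L2512902 : W_2 (nat_lit 6) (nat_lit 0x70001600080005000280000000000000000000000000000000) (nat_lit 0x0) (nat_lit 0x4000000010008c0014003c000000000000000000000000000) := T_2 (nat_lit 128) (nat_lit 111) (nat_lit 4) (nat_lit 10) (nat_lit 10) L2512901 (by decide +kernel)
theorem L2512903 : W_2 (nat_lit 7) (nat_lit 0x70001400080005000280000000000000000000000000000000) (nat_lit 0x0) (nat_lit 0xc000200010008c0014003c000000000000000000000000000) := T_2 (nat_lit 177) (nat_lit 195) (nat_lit 0) (nat_lit 11) (nat_lit 11) L2512902 (by decide +kernel)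
theorem L2512904 : W_2 (nat_lit 8) (nat_lit 0x30001400080005000280000000000000000000000000000000) (nat_lit 0x0) (nat_lit 0x80004c000200010008c0014003c000000000000000000000000000) := T_2 (nat_lit 198) (nat_lit 215) (nat_lit 7) (nat_lit 10) (nat_lit 8) L2512903 (by decide +kernel)
theorem L2512905 : W_2 (nat_lit 9) (nat_lit 0x20001400080005000280000000000000000000000000000000) (nat_lit 0x0) (nat_lit 0xa0005c000200010008c0014003c000000000000000000000000000) := T_2 (nat_lit 196) (nat_lit 213) (nat_lit 5) (nat_lit 10) (nat_lit 8) L2512904 (by decide +kernel)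
theorem L2512906 : W_2 (nat_lit 10) (nat_lit 0x1400080005000280000000000000000000000000000000) (nat_lit 0x0) (nat_lit 0x14000e0007c000200110008c0014003c000000000000000000000000000) := Q_2 (nat_lit 197) (C_2 L2512802 (C_2 L2512894 (C_2 L2512898 (C_2 L2512905 N_2)))) (by decide +kernel)
theorem L2512907 : W_2 (nat_lit 15) (nat_lit 0x400080005000280000000000000000000000000000000) (nat_lit 0x0) (nat_lit 0x14000e0007f001b8011e038e0017803dc00000000000000000000000000) := Q_2 (nat_lit 180) (C_2 L2512753 (C_2 L2512865 (C_2 L2512872 (C_2 L2512875 (C_2 L2512890 (C_2 L2512906 N_2)))))) (by decide +kernel)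
theorem L2512908 : W_2 (nat_lit 16) (nat_lit 0x400000005000280000000000000000000000000000000) (nat_lit 0x0) (nat_lit 0x1c000e003ff00fb8079e038e0097803dc01f000a0000000000000000000) := Q_2 (nat_lit 163) (C_2 L2512757 (C_2 L2512778 (C_2 L2512783 (C_2 L2512804 (C_2 L2512824 (C_2 L2512866 (C_2 L2512907 N_2))))))) (by decide +kernel)
theorem L2512909 : W_2 (nat_lit 5) (nat_lit 0x400000005000380000000000000000000000000000000) (nat_lit 0x0) (nat_lit 0x28001c000a00020000000000008000000000000000000000000000) := T_2 (nat_lit 161) (nat_lit 111) (nat_lit 6) (nat_lit 8) (nat_lit 10) L1368357 (by decide +kernel)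
theorem L2512910 : W_2 (nat_lit 9) (nat_lit 0x400000005000280000000000000000000000000000000) (nat_lit 0x0) (nat_lit 0x28001c000a00020008f80178039c00000000000000000000000000) := Q_2 (nat_lit 128) (C_2 L2512909 (C_2 L1379156 N_2)) (by decide +kernel)
theorem L2512911 : W_2 (nat_lit 8) (nat_lit 0x400000005000280000000000000000000000000000000) (nat_lit 0x0) (nat_lit 0xa000700038001c001a0003c000800040004000200000000000000000000000) := Q_2 (nat_lit 161) (C_2 L2511365 (C_2 L2511338 (C_2 L2511324 (C_2 L2511343 (C_2 L2511356 N_2))))) (by decide +kernel)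
theorem L2512912 : W_2 (nat_lit 5) (nat_lit 0x400020005000280008000000000000000000000000000) (nat_lit 0x0) (nat_lit 0x10000800080000000000014000c00020001000000000000000) := T_2 (nat_lit 179) (nat_lit 196) (nat_lit 7) (nat_lit 8) (nat_lit 7) L1699297 (by decide +kernel)
theorem L2512913 : W_2 (nat_lit 6) (nat_lit 0x400020005000280000000000000000000000000000000) (nat_lit 0x0) (nat_lit 0x1000080008000000010001c000c00020001000000000000000) := T_2 (nat_lit 111) (nat_lit 128) (nat_lit 6) (nat_lit 8) (nat_lit 10) L2512912 (by decide +kernel)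
theorem L2512914 : W_2 (nat_lit 2) (nat_lit 0x600020005000280004000000000000000000000000000) (nat_lit 0x0) (nat_lit 0x100008000400000000000000000000000) := D_2 (nat_lit 111) (nat_lit 128) (nat_lit 94) (nat_lit 6) (nat_lit 8) (nat_lit 10) (nat_lit 6) (nat_lit 8) (nat_lit 9) (by decide +kernel)
theorem L2512915 : W_2 (nat_lit 3) (nat_lit 0x600020005000280000000000000000000000000000000) (nat_lit 0x0) (nat_lit 0x1000000010000c000400000000000000000000000) := T_2 (nat_lit 110) (nat_lit 160) (nat_lit 5) (nat_lit 8) (nat_lit 6) L2512914 (by decide +kernel)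
theorem L2512916 : W_2 (nat_lit 4) (nat_lit 0x400020005000280000000000000000000000000000000) (nat_lit 0x0) (nat_lit 0x400020001000000010000c000400000000000000000000000) := T_2 (nat_lit 177) (nat_lit 194) (nat_lit 5) (nat_lit 8) (nat_lit 7) L2512915 (by decide +kernel)
theorem L2512917 : W_2 (nat_lit 7) (nat_lit 0x400000005000280000000000000000000000000000000) (nat_lit 0x0) (nat_lit 0x28001c000a000b000000010001c000c00020001000000000000000) := Q_2 (nat_lit 161) (C_2 L2511365 (C_2 L2512913 (C_2 L2512916 N_2))) (by decide +kernel)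
theorem L2512918 : W_2 (nat_lit 8) (nat_lit 0x400000005000380000000000000000000000000000000) (nat_lit 0x0) (nat_lit 0x30001a0008000000018001c000c0006000000000000000) := T_2 (nat_lit 111) (nat_lit 161) (nat_lit 6) (nat_lit 8) (nat_lit 10) L2507849 (by decide +kernel)
theorem L2512919 : W_2 (nat_lit 2) (nat_lit 0x4000000058003c0000000000000000000000000000000) (nat_lit 0x0) (nat_lit 0x8000000020000000000008000000000000000000000000000) := D_2 (nat_lit 161) (nat_lit 111) (nat_lit 195) (nat_lit 6) (nat_lit 8) (nat_lit 10) (nat_lit 4) (nat_lit 8) (nat_lit 11) (by decide +kernel)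
theorem L2512920 : W_2 (nat_lit 3) (nat_lit 0x4000000050003c0000000000000000000000000000000) (nat_lit 0x0) (nat_lit 0x8000000020000c00000008000000000000000000000000000) := T_2 (nat_lit 143) (nat_lit 142) (nat_lit 1) (nat_lit 10) (nat_lit 7) L2512919 (by decide +kernel)
theorem L2512921 : W_2 (nat_lit 4) (nat_lit 0x400000005000380000000000000000000000000000000) (nat_lit 0x0) (nat_lit 0x8000000020008c00040008000000000000000000000000000) := T_2 (nat_lit 126) (nat_lit 147) (nat_lit 3) (nat_lit 7) (nat_lit 7) L2512920 (by decide +kernel)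
theorem L2512922 : W_2 (nat_lit 7) (nat_lit 0x400000005000380000000000000000000000000000000) (nat_lit 0x0) (nat_lit 0x100038001c000800030000800040008000000000000000000000000000) := T_2 (nat_lit 161) (nat_lit 111) (nat_lit 6) (nat_lit 8) (nat_lit 10) L1368361 (by decide +kernel)
theorem L2512923 : W_2 (nat_lit 9) (nat_lit 0x400000005000280000000000000000000000000000000) (nat_lit 0x0) (nat_lit 0x100038001c0038001b0008f80178039c01c000c0006000000000000000) := Q_2 (nat_lit 128) (C_2 L2512918 (C_2 L1379156 (C_2 L2512921 (C_2 L2512922 N_2)))) (by decide +kernel)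
theorem L2512924 : W_2 (nat_lit 2) (nat_lit 0xe000300058003c0000000000000000000000000000000) (nat_lit 0x0) (nat_lit 0x100000c000000000000000000000000000000000000000) := D_2 (nat_lit 159) (nat_lit 158) (nat_lit 180) (nat_lit 3) (nat_lit 5) (nat_lit 9) (nat_lit 0) (nat_lit 10) (nat_lit 10) (by decide +kernel)
theorem L2512925 : W_2 (nat_lit 3) (nat_lit 0x6000300058003c0000000000000000000000000000000) (nat_lit 0x0) (nat_lit 0x1000180000c000000000000000000000000000000000000000) := T_2 (nat_lit 179) (nat_lit 196) (nat_lit 7) (nat_lit 8) (nat_lit 7) L2512924 (by decide +kernel)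
theorem L2512926 : W_2 (nat_lit 4) (nat_lit 0x6000200058003c0000000000000000000000000000000) (nat_lit 0x0) (nat_lit 0x1000180001c000000000004000000000000000000000000000) := T_2 (nat_lit 160) (nat_lit 110) (nat_lit 6) (nat_lit 7) (nat_lit 10) L2512925 (by decide +kernel)
theorem L2512927 : W_2 (nat_lit 5) (nat_lit 0x4000200058003c0000000000000000000000000000000) (nat_lit 0x0) (nat_lit 0x14001a0001c000000000004000000000000000000000000000) := T_2 (nat_lit 177) (nat_lit 194) (nat_lit 5) (nat_lit 8) (nat_lit 7) L2512926 (by decide +kernel)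
theorem L2512928 : W_2 (nat_lit 6) (nat_lit 0x4000000058003c0000000000000000000000000000000) (nat_lit 0x0) (nat_lit 0x14001a0003c00000000000c000000000000000000000000000) := T_2 (nat_lit 161) (nat_lit 111) (nat_lit 6) (nat_lit 8) (nat_lit 10) L2512927 (by decide +kernel)
theorem L2512929 : W_2 (nat_lit 7) (nat_lit 0x4000000050003c0000000000000000000000000000000) (nat_lit 0x0) (nat_lit 0x14001a0003c000c0000000c000000000000000000000000000) := T_2 (nat_lit 143) (nat_lit 142) (nat_lit 1) (nat_lit 10) (nat_lit 7) L2512928 (by decide +kernel)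
theorem L2512930 : W_2 (nat_lit 8) (nat_lit 0x400000005000380000000000000000000000000000000) (nat_lit 0x0) (nat_lit 0x14001a0003c008c0004000c000000000000000000000000000) := T_2 (nat_lit 126) (nat_lit 147) (nat_lit 3) (nat_lit 7) (nat_lit 7) L2512929 (by decide +kernel)
theorem L2512931 : W_2 (nat_lit 6) (nat_lit 0x400000005000380000000000000000000000000000000) (nat_lit 0x0) (nat_lit 0x14001a0003c00000000000c000000000000000000000000000) := T_2 (nat_lit 161) (nat_lit 111) (nat_lit 6) (nat_lit 8) (nat_lit 10) L1368354 (by decide +kernel)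
theorem L2512932 : W_2 (nat_lit 9) (nat_lit 0x400000005000280000000000000000000000000000000) (nat_lit 0x0) (nat_lit 0x14003a001bc008f8017803dc01c000c0006000000000000000) := Q_2 (nat_lit 128) (C_2 L2512918 (C_2 L1379156 (C_2 L2512930 (C_2 L2512931 N_2)))) (by decide +kernel)
theorem L2512933 : W_2 (nat_lit 7) (nat_lit 0x400000005000380000000000000000000000000000000) (nat_lit 0x0) (nat_lit 0x300018000a0003000080004000c000200000000000000000000000) := T_2 (nat_lit 161) (nat_lit 111) (nat_lit 6) (nat_lit 8) (nat_lit 10) L1368364 (by decide +kernel)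
theorem L2512934 : W_2 (nat_lit 9) (nat_lit 0x400000005000280000000000000000000000000000000) (nat_lit 0x0) (nat_lit 0x300018003a001b0008f8017803dc01e000c0006000000000000000) := Q_2 (nat_lit 128) (C_2 L2512918 (C_2 L2512921 (C_2 L1379156 (C_2 L2512933 N_2)))) (by decide +kernel)
theorem L2512935 : W_2 (nat_lit 9) (nat_lit 0x400000005000380000000000000000000000000000000) (nat_lit 0x0) (nat_lit 0xa000700038000c000200030000e0004000c000000000000000000000000000) := T_2 (nat_lit 161) (nat_lit 111) (nat_lit 6) (nat_lit 8) (nat_lit 10) L1368379 (by decide +kernel)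
theorem L2512936 : W_2 (nat_lit 10) (nat_lit 0x400000005000280000000000000000000000000000000) (nat_lit 0x0) (nat_lit 0xa000700038000c0032001b0008f8017803dc01c000c0006000000000000000) := Q_2 (nat_lit 128) (C_2 L2512918 (C_2 L2512921 (C_2 L1379156 (C_2 L2512935 N_2)))) (by decide +kernel)
theorem L2512937 : W_2 (nat_lit 17) (nat_lit 0x5000280000000000000000000000000000000) (nat_lit 0x0) (nat_lit 0xa001f000f803ff00ff807be038f8097803dc01f000e0007000000000000000) := Q_2 (nat_lit 178) (C_2 L2512908 (C_2 L2512910 (C_2 L2512911 (C_2 L2512917 (C_2 L2512923 (C_2 L2512932 (C_2 L2512934 (C_2 L2512936 N_2)))))))) (by decide +kernel)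
theorem L2512938 : W_2 (nat_lit 11) (nat_lit 0x5000380000000000000000000000000000000) (nat_lit 0x0) (nat_lit 0x16000b0008f8007800dc00700038000c00000000000000) := Q_2 (nat_lit 111) (C_2 L2507853 (C_2 L2507806 (C_2 L2507829 (C_2 L2507839 (C_2 L2507846 N_2))))) (by decide +kernel)
theorem L2512939 : W_2 (nat_lit 3) (nat_lit 0x5000380000000000000000000000000000000) (nat_lit 0x0) (nat_lit 0xe00440000000000000000000000000000000) := T_2 (nat_lit 143) (nat_lit 130) (nat_lit 1) (nat_lit 11) (nat_lit 7) L1366263 (by decide +kernel)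
theorem L2512940 : W_2 (nat_lit 12) (nat_lit 0x5000280000000000000000000000000000000) (nat_lit 0x0) (nat_lit 0x16000b0038f8057806dc017000b8000c00000000000000) := Q_2 (nat_lit 128) (C_2 L1437517 (C_2 L1437516 (C_2 L2512938 (C_2 L2512939 N_2)))) (by decide +kernel)
theorem L2512941 : W_2 (nat_lit 2) (nat_lit 0x100000000d000f80008000000000000000000000000000) (nat_lit 0x0) (nat_lit 0x3000010000000000000000000000000000) := D_2 (nat_lit 132) (nat_lit 112) (nat_lit 133) (nat_lit 0) (nat_lit 13) (nat_lit 7) (nat_lit 1) (nat_lit 14) (nat_lit 7) (by decide +kernel)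
theorem L2512942 : W_2 (nat_lit 3) (nat_lit 0x100000000d000780008000000000000000000000000000) (nat_lit 0x0) (nat_lit 0x3800014000000000000000000000000000) := T_2 (nat_lit 131) (nat_lit 110) (nat_lit 0) (nat_lit 12) (nat_lit 7) L2512941 (by decide +kernel)
theorem L2512943 : W_2 (nat_lit 4) (nat_lit 0x1000000005000780008000000000000000000000000000) (nat_lit 0x0) (nat_lit 0x18003800014000000000000000000000000000) := T_2 (nat_lit 147) (nat_lit 148) (nat_lit 3) (nat_lit 8) (nat_lit 7) L2512942 (by decide +kernel)
theorem L2512944 : W_2 (nat_lit 5) (nat_lit 0x5000780008000000000000000000000000000) (nat_lit 0x0) (nat_lit 0x1000080018003800014000000000000000000000000000) := T_2 (nat_lit 180) (nat_lit 163) (nat_lit 4) (nat_lit 10) (nat_lit 10) L2512943 (by decide +kernel)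
theorem L2512945 : W_2 (nat_lit 9) (nat_lit 0x5000380008000000000000000000000000000) (nat_lit 0x0) (nat_lit 0x14001a0038003c000f40078001c0000000000000000000) := Q_2 (nat_lit 130) (C_2 L530988 (C_2 L605246 (C_2 L605233 (C_2 L2512944 N_2)))) (by decide +kernel)
theorem L2512946 : W_2 (nat_lit 10) (nat_lit 0x5000380000000000000000000000000000000) (nat_lit 0x0) (nat_lit 0x34001a0038003c000fc007c001e0006000000000000000) := Q_2 (nat_lit 111) (C_2 L2507850 (C_2 L610848 (C_2 L2507839 (C_2 L2512945 N_2)))) (by decide +kernel)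
theorem L2512947 : W_2 (nat_lit 7) (nat_lit 0x5000380000000000000000000000000000000) (nat_lit 0x0) (nat_lit 0x8700070039c00000000000000000000000000) := T_2 (nat_lit 126) (nat_lit 147) (nat_lit 3) (nat_lit 7) (nat_lit 7) L1350232 (by decide +kernel)
theorem L2512948 : W_2 (nat_lit 6) (nat_lit 0x100002000500038000c000000000000000000000000000) (nat_lit 0x0) (nat_lit 0x200010000000c40070003000080000000000000000000) := T_2 (nat_lit 160) (nat_lit 177) (nat_lit 5) (nat_lit 8) (nat_lit 6) L1149269 (by decide +kernel)
theorem L2512949 : W_2 (nat_lit 7) (nat_lit 0x1000020005000380008000000000000000000000000000) (nat_lit 0x0) (nat_lit 0x200010000000c40074003400080000000000000000000) := T_2 (nat_lit 110) (nat_lit 94) (nat_lit 6) (nat_lit 8) (nat_lit 9) L2512948 (by decide +kernel)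
theorem L2512950 : W_2 (nat_lit 8) (nat_lit 0x1000000005000380008000000000000000000000000000) (nat_lit 0x0) (nat_lit 0x600030000000c40074003400080000000000000000000) := T_2 (nat_lit 161) (nat_lit 178) (nat_lit 6) (nat_lit 8) (nat_lit 10) L2512949 (by decide +kernel)
theorem L2512951 : W_2 (nat_lit 9) (nat_lit 0x5000380008000000000000000000000000000) (nat_lit 0x0) (nat_lit 0x16000b0000000c40074003400080000000000000000000) := T_2 (nat_lit 180) (nat_lit 163) (nat_lit 4) (nat_lit 10) (nat_lit 10) L2512950 (by decide +kernel)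
theorem L2512952 : W_2 (nat_lit 2) (nat_lit 0x400000005000780048000000000000000000000000000) (nat_lit 0x0) (nat_lit 0x800084000000000000000000000000000) := D_2 (nat_lit 131) (nat_lit 110) (nat_lit 115) (nat_lit 0) (nat_lit 12) (nat_lit 7) (nat_lit 2) (nat_lit 9) (nat_lit 7) (by decide +kernel)
theorem L2512953 : W_2 (nat_lit 3) (nat_lit 0x400000005000780008000000000000000000000000000) (nat_lit 0x0) (nat_lit 0x8000e4000000000000000000000000000) := T_2 (nat_lit 114) (nat_lit 113) (nat_lit 2) (nat_lit 8) (nat_lit 7) L2512952 (by decide +kernel)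
theorem L2512954 : W_2 (nat_lit 4) (nat_lit 0x5000780008000000000000000000000000000) (nat_lit 0x0) (nat_lit 0x4000200000008000e4000000000000000000000000000) := T_2 (nat_lit 178) (nat_lit 161) (nat_lit 6) (nat_lit 8) (nat_lit 10) L2512953 (by decide +kernel)
theorem L2512955 : W_2 (nat_lit 7) (nat_lit 0x5000780008000000000000000000000000000) (nat_lit 0x0) (nat_lit 0x14000a00700018001c4000000000000000000000000000) := T_2 (nat_lit 131) (nat_lit 110) (nat_lit 0) (nat_lit 12) (nat_lit 7) L530994 (by decide +kernel)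
theorem L2512956 : W_2 (nat_lit 2) (nat_lit 0x1400000015000f80018000000000000000000000000000) (nat_lit 0x0) (nat_lit 0x60020000000000000000000000000000) := D_2 (nat_lit 126) (nat_lit 125) (nat_lit 113) (nat_lit 2) (nat_lit 6) (nat_lit 7) (nat_lit 2) (nat_lit 7) (nat_lit 7) (by decide +kernel)
theorem L2512957 : W_2 (nat_lit 3) (nat_lit 0x1400000015000f80008000000000000000000000000000) (nat_lit 0x0) (nat_lit 0x1060030000000000000000000000000000) := T_2 (nat_lit 112) (nat_lit 132) (nat_lit 0) (nat_lit 13) (nat_lit 7) L2512956 (by decide +kernel)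
theorem L2512958 : W_2 (nat_lit 4) (nat_lit 0x1400000005000f80008000000000000000000000000000) (nat_lit 0x0) (nat_lit 0x30001060030000000000000000000000000000) := T_2 (nat_lit 148) (nat_lit 149) (nat_lit 3) (nat_lit 9) (nat_lit 7) L2512957 (by decide +kernel)
theorem L2512959 : W_2 (nat_lit 5) (nat_lit 0x400000005000f80008000000000000000000000000000) (nat_lit 0x0) (nat_lit 0x1000080030001060030000000000000000000000000000) := T_2 (nat_lit 180) (nat_lit 163) (nat_lit 4) (nat_lit 10) (nat_lit 10) L2512958 (by decide +kernel)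
theorem L2512960 : W_2 (nat_lit 6) (nat_lit 0x400000005000780008000000000000000000000000000) (nat_lit 0x0) (nat_lit 0x1000080030001860034000000000000000000000000000) := T_2 (nat_lit 131) (nat_lit 110) (nat_lit 0) (nat_lit 12) (nat_lit 7) L2512959 (by decide +kernel)
theorem L2512961 : W_2 (nat_lit 7) (nat_lit 0x5000780008000000000000000000000000000) (nat_lit 0x0) (nat_lit 0x14000a0030001860034000000000000000000000000000) := T_2 (nat_lit 178) (nat_lit 161) (nat_lit 6) (nat_lit 8) (nat_lit 10) L2512960 (by decide +kernel)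
theorem L2512962 : W_2 (nat_lit 8) (nat_lit 0x5000380008000000000000000000000000000) (nat_lit 0x0) (nat_lit 0x14000a0070001c601f4001000080000000000000000000) := Q_2 (nat_lit 130) (C_2 L2512954 (C_2 L605233 (C_2 L2512955 (C_2 L2512961 N_2)))) (by decide +kernel)
theorem L2512963 : W_2 (nat_lit 10) (nat_lit 0x5000380000000000000000000000000000000) (nat_lit 0x0) (nat_lit 0x16000b0070001c601fc0034000a0000000000000000000) := Q_2 (nat_lit 111) (C_2 L2507839 (C_2 L610848 (C_2 L2512951 (C_2 L2512962 N_2)))) (by decide +kernel)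
theorem L2512964 : W_2 (nat_lit 11) (nat_lit 0x5000280000000000000000000000000000000) (nat_lit 0x0) (nat_lit 0x36001b0078703d701fdc07c001e0006000000000000000) := Q_2 (nat_lit 128) (C_2 L1437517 (C_2 L2512946 (C_2 L2512947 (C_2 L2512963 N_2)))) (by decide +kernel)
theorem L2512965 : W_2 (nat_lit 5) (nat_lit 0x5000380000000000000000000000000000000) (nat_lit 0x0) (nat_lit 0x1000080000800400070001000080000000000000000000) := T_2 (nat_lit 130) (nat_lit 143) (nat_lit 1) (nat_lit 11) (nat_lit 7) L2506838 (by decide +kernel)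
theorem L2512966 : W_2 (nat_lit 8) (nat_lit 0x5000380010000000000000000000000000000) (nat_lit 0x0) (nat_lit 0x14000a00000000000e8007c000e0007000000000000000) := Q_2 (nat_lit 111) (C_2 L527810 (C_2 L527809 (C_2 L527761 N_2))) (by decide +kernel)
theorem L2512967 : W_2 (nat_lit 6) (nat_lit 0x5000380010000000000000000000000000000) (nat_lit 0x0) (nat_lit 0x700070029c00000000000000000000000000) := T_2 (nat_lit 126) (nat_lit 113) (nat_lit 2) (nat_lit 7) (nat_lit 7) L1350231 (by decide +kernel)
theorem L2512968 : W_2 (nat_lit 5) (nat_lit 0x5000380010000000000000000000000000000) (nat_lit 0x0) (nat_lit 0x800000000400e0001800080004000000000000000) := T_2 (nat_lit 113) (nat_lit 126) (nat_lit 2) (nat_lit 7) (nat_lit 7) L1367375 (by decide +kernel)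
theorem L2512969 : W_2 (nat_lit 2) (nat_lit 0x50003800180008000c0000000000000000000) (nat_lit 0x0) (nat_lit 0x1000080000000000000000400000000000000000000000) := D_2 (nat_lit 163) (nat_lit 180) (nat_lit 94) (nat_lit 4) (nat_lit 10) (nat_lit 10) (nat_lit 4) (nat_lit 10) (nat_lit 9) (by decide +kernel)
theorem L2512970 : W_2 (nat_lit 3) (nat_lit 0x50003800100008000c0000000000000000000) (nat_lit 0x0) (nat_lit 0x1000080000000000008000400000002000000000000000) := T_2 (nat_lit 111) (nat_lit 61) (nat_lit 5) (nat_lit 10) (nat_lit 3) L2512969 (by decide +kernel)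
theorem L2512971 : W_2 (nat_lit 4) (nat_lit 0x5000380010000800080000000000000000000) (nat_lit 0x0) (nat_lit 0x1000080000000000008000400040006000000000000000) := T_2 (nat_lit 78) (nat_lit 62) (nat_lit 6) (nat_lit 10) (nat_lit 7) L2512970 (by decide +kernel)
theorem L2512972 : W_2 (nat_lit 5) (nat_lit 0x5000380010000800000000000000000000000) (nat_lit 0x0) (nat_lit 0x10000800000000000080014000c0006000000000000000) := T_2 (nat_lit 79) (nat_lit 96) (nat_lit 6) (nat_lit 10) (nat_lit 8) L2512971 (by decide +kernel)
theorem L2512973 : W_2 (nat_lit 2) (nat_lit 0x50003800100008000c0002000000000000000) (nat_lit 0x0) (nat_lit 0x20001000080000000000) := D_2 (nat_lit 60) (nat_lit 43) (nat_lit 77) (nat_lit 4) (nat_lit 10) (nat_lit 6) (nat_lit 4) (nat_lit 10) (nat_lit 7) (by decide +kernel)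
theorem L2512974 : W_2 (nat_lit 3) (nat_lit 0x50003800100008000c0000000000000000000) (nat_lit 0x0) (nat_lit 0x8000000020003000080000000000) := T_2 (nat_lit 61) (nat_lit 111) (nat_lit 5) (nat_lit 10) (nat_lit 3) L2512973 (by decide +kernel)
theorem L2512975 : W_2 (nat_lit 4) (nat_lit 0x5000380010000800080000000000000000000) (nat_lit 0x0) (nat_lit 0x8000000060007000080000000000) := T_2 (nat_lit 78) (nat_lit 62) (nat_lit 6) (nat_lit 10) (nat_lit 7) L2512974 (by decide +kernel)
theorem L2512976 : W_2 (nat_lit 5) (nat_lit 0x5000380010000800000000000000000000000) (nat_lit 0x0) (nat_lit 0x80010000e0007000080000000000) := T_2 (nat_lit 79) (nat_lit 96) (nat_lit 6) (nat_lit 10) (nat_lit 8) L2512975 (by decide +kernel)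
theorem L2512977 : W_2 (nat_lit 2) (nat_lit 0x5000380018000c00000000000000000000000) (nat_lit 0x0) (nat_lit 0x400020000000000004000000000000000000000000000) := D_2 (nat_lit 161) (nat_lit 178) (nat_lit 110) (nat_lit 6) (nat_lit 8) (nat_lit 10) (nat_lit 6) (nat_lit 8) (nat_lit 9) (by decide +kernel)
theorem L2512978 : W_2 (nat_lit 3) (nat_lit 0x5000380010000c00000000000000000000000) (nat_lit 0x0) (nat_lit 0x4000a000000000000c000000000000000000000000000) := T_2 (nat_lit 111) (nat_lit 163) (nat_lit 4) (nat_lit 10) (nat_lit 9) L2512977 (by decide +kernel)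
theorem L2512979 : W_2 (nat_lit 4) (nat_lit 0x5000380010000800000000000000000000000) (nat_lit 0x0) (nat_lit 0x4000a000000000000c000400020000000000000000000) := T_2 (nat_lit 94) (nat_lit 77) (nat_lit 4) (nat_lit 10) (nat_lit 8) L2512978 (by decide +kernel)
theorem L2512980 : W_2 (nat_lit 6) (nat_lit 0x5000380010000000000000000000000000000) (nat_lit 0x0) (nat_lit 0x14000a000000000000c001c000e0007000080000000000) := Q_2 (nat_lit 95) (C_2 L527336 (C_2 L2512972 (C_2 L2512976 (C_2 L2512979 N_2)))) (by decide +kernel)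
theorem L2512981 : W_2 (nat_lit 9) (nat_lit 0x5000380000000000000000000000000000000) (nat_lit 0x0) (nat_lit 0x14000a00007000700fdc07c000e0007000080000000000) := Q_2 (nat_lit 112) (C_2 L2512966 (C_2 L2512967 (C_2 L2512968 (C_2 L2512980 N_2)))) (by decide +kernel)
theorem L2512982 : W_2 (nat_lit 11) (nat_lit 0x5000280000000000000000000000000000000) (nat_lit 0x0) (nat_lit 0x16000b0070f01d701fdc07c000e0007000080000000000) := Q_2 (nat_lit 128) (C_2 L2512939 (C_2 L2512963 (C_2 L2512965 (C_2 L2512981 N_2)))) (by decide +kernel)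
theorem L2512983 : W_2 (nat_lit 7) (nat_lit 0x5000380000000000000000000000000000000) (nat_lit 0x0) (nat_lit 0x80038801c0001c000400020000000000000000000) := T_2 (nat_lit 130) (nat_lit 143) (nat_lit 1) (nat_lit 11) (nat_lit 7) L2506859 (by decide +kernel)
theorem L2512984 : W_2 (nat_lit 12) (nat_lit 0x5000280000000000000000000000000000000) (nat_lit 0x0) (nat_lit 0x16000b0038f81d7801dc00700038000c00000000000000) := Q_2 (nat_lit 128) (C_2 L2512939 (C_2 L1437517 (C_2 L2512983 (C_2 L2512938 N_2)))) (by decide +kernel)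
theorem L2512985 : W_2 (nat_lit 9) (nat_lit 0x5000380000000000000000000000000000000) (nat_lit 0x0) (nat_lit 0x10001880040007c0078001c0000000000000000000) := T_2 (nat_lit 130) (nat_lit 143) (nat_lit 1) (nat_lit 11) (nat_lit 7) L2506853 (by decide +kernel)
theorem L2512986 : W_2 (nat_lit 10) (nat_lit 0x5000280000000000000000000000000000000) (nat_lit 0x0) (nat_lit 0x100018f8057807dc078001c0000000000000000000) := Q_2 (nat_lit 128) (C_2 L2512947 (C_2 L2507397 (C_2 L2512985 (C_2 L2512939 N_2)))) (by decide +kernel)
theorem L2512987 : W_2 (nat_lit 10) (nat_lit 0x5000280000000000000000000000000000000) (nat_lit 0x0) (nat_lit 0x14000a0000f005700fdc07c000e0007000080000000000) := Q_2 (nat_lit 128) (C_2 L2512965 (C_2 L2512981 (C_2 L2512939 N_2))) (by decide +kernel)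
theorem L2512988 : W_2 (nat_lit 18) (nat_lit 0x5000080000000000000000000000000000000) (nat_lit 0x0) (nat_lit 0xa001f000f803ff00ff80fbe078f87f781fdc0ff807fc00fc00380000000000) := Q_2 (nat_lit 129) (C_2 L2506861 (C_2 L2506862 (C_2 L2507396 (C_2 L2512937 (C_2 L2512940 (C_2 L2512964 (C_2 L2512982 (C_2 L2512984 (C_2 L2512986 (C_2 L2512987 N_2)))))))))) (by decide +kernel)
theorem L2512989 : W_2 (nat_lit 11) (nat_lit 0x7800080000000000000000000000000000000) (nat_lit 0x0) (nat_lit 0x7c003e001b8000000760038000c00060000000000000000000) := T_2 (nat_lit 160) (nat_lit 159) (nat_lit 1) (nat_lit 10) (nat_lit 8) L1522107 (by decide +kernel)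
theorem L2512990 : W_2 (nat_lit 12) (nat_lit 0x7000080000000000000000000000000000000) (nat_lit 0x0) (nat_lit 0x7c003e001bc000c00770038000c00060000000000000000000) := Q_2 (nat_lit 143) (C_2 L2503878 (C_2 L2512989 (C_2 L1867024 (C_2 L2503873 N_2)))) (by decide +kernel)
theorem L2512991 : W_2 (nat_lit 13) (nat_lit 0x5000080000000000000000000000000000000) (nat_lit 0x0) (nat_lit 0x7c003e007bc01ae01f70038000c00060000000000000000000) := Q_2 (nat_lit 145) (C_2 L2503874 (C_2 L2503877 (C_2 L1866990 (C_2 L2512990 (C_2 L2503855 N_2))))) (by decide +kernel)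
theorem L2512992 : W_2 (nat_lit 5) (nat_lit 0x7000080000000000000000000000000000000) (nat_lit 0x0) (nat_lit 0x7b8018801d00000000000000000000000000000000) := Q_2 (nat_lit 147) (C_2 L2503876 (C_2 L1866985 (C_2 L2503810 N_2))) (by decide +kernel)
theorem L2512993 : W_2 (nat_lit 4) (nat_lit 0x7800080000000000000000000000000000000) (nat_lit 0x0) (nat_lit 0x200018000000060004000200000000000000000000000) := T_2 (nat_lit 126) (nat_lit 125) (nat_lit 0) (nat_lit 10) (nat_lit 8) L1103747 (by decide +kernel)
theorem L2512994 : W_2 (nat_lit 2) (nat_lit 0x84007c000a0000000000000000000000000000000) (nat_lit 0x0) (nat_lit 0x2000200100000000000000000000000000000000) := D_2 (nat_lit 141) (nat_lit 128) (nat_lit 157) (nat_lit 2) (nat_lit 5) (nat_lit 8) (nat_lit 1) (nat_lit 8) (nat_lit 8) (by decide +kernel)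
theorem L2512995 : W_2 (nat_lit 3) (nat_lit 0x80007c000a0000000000000000000000000000000) (nat_lit 0x0) (nat_lit 0xe000200100000000000000000000000000000000) := T_2 (nat_lit 158) (nat_lit 159) (nat_lit 1) (nat_lit 9) (nat_lit 8) L2512994 (by decide +kernel)
theorem L2512996 : W_2 (nat_lit 4) (nat_lit 0x800078000a0000000000000000000000000000000) (nat_lit 0x0) (nat_lit 0xe000600110000000000000000000000000000000) := T_2 (nat_lit 142) (nat_lit 124) (nat_lit 0) (nat_lit 9) (nat_lit 8) L2512995 (by decide +kernel)
theorem L2512997 : W_2 (nat_lit 5) (nat_lit 0x80007800080000000000000000000000000000000) (nat_lit 0x0) (nat_lit 0xe000600170000000000000000000000000000000) := T_2 (nat_lit 125) (nat_lit 126) (nat_lit 0) (nat_lit 10) (nat_lit 8) L2512996 (by decide +kernel)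
theorem L2512998 : W_2 (nat_lit 6) (nat_lit 0x7800080000000000000000000000000000000) (nat_lit 0x0) (nat_lit 0x18e000600170000000000000000000000000000000) := T_2 (nat_lit 163) (nat_lit 164) (nat_lit 3) (nat_lit 7) (nat_lit 8) L2512997 (by decide +kernel)
theorem L2512999 : W_2 (nat_lit 2) (nat_lit 0x200090007800080000000000000000000000000000000) (nat_lit 0x0) (nat_lit 0x20000000000004000200000000000000000000000) := D_2 (nat_lit 110) (nat_lit 93) (nat_lit 161) (nat_lit 5) (nat_lit 8) (nat_lit 5) (nat_lit 5) (nat_lit 8) (nat_lit 6) (by decide +kernel)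
theorem L2513000 : W_2 (nat_lit 3) (nat_lit 0x90007800080000000000000000000000000000000) (nat_lit 0x0) (nat_lit 0x4000200020000000000004000200000000000000000000000) := T_2 (nat_lit 177) (nat_lit 194) (nat_lit 6) (nat_lit 7) (nat_lit 11) L2512999 (by decide +kernel)
theorem L2513001 : W_2 (nat_lit 4) (nat_lit 0x10007800080000000000000000000000000000000) (nat_lit 0x0) (nat_lit 0x40002001a0000000000004000200000000000000000000000) := T_2 (nat_lit 163) (nat_lit 164) (nat_lit 3) (nat_lit 7) (nat_lit 8) L2513000 (by decide +kernel)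
theorem L2513002 : W_2 (nat_lit 5) (nat_lit 0x7800080000000000000000000000000000000) (nat_lit 0x0) (nat_lit 0x40002001b8000000000004000200000000000000000000000) := T_2 (nat_lit 160) (nat_lit 159) (nat_lit 1) (nat_lit 10) (nat_lit 8) L2513001 (by decide +kernel)
theorem L2513003 : W_2 (nat_lit 2) (nat_lit 0x7e00080000000000000000000000000000000) (nat_lit 0x0) (nat_lit 0x38000000000000000000000000000000) := D_2 (nat_lit 124) (nat_lit 125) (nat_lit 123) (nat_lit 0) (nat_lit 9) (nat_lit 8) (nat_lit 0) (nat_lit 8) (nat_lit 8) (by decide +kernel)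
theorem L2513004 : W_2 (nat_lit 3) (nat_lit 0x7c00080000000000000000000000000000000) (nat_lit 0x0) (nat_lit 0x200138000000000000000000000000000000) := T_2 (nat_lit 141) (nat_lit 128) (nat_lit 2) (nat_lit 5) (nat_lit 8) L2513003 (by decide +kernel)
theorem L2513005 : W_2 (nat_lit 2) (nat_lit 0x7f00080000000000000000000000000000000) (nat_lit 0x0) (nat_lit 0x7000000000000000000000000000000000000000) := D_2 (nat_lit 157) (nat_lit 156) (nat_lit 158) (nat_lit 1) (nat_lit 7) (nat_lit 8) (nat_lit 1) (nat_lit 8) (nat_lit 8) (by decide +kernel)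
theorem L2513006 : W_2 (nat_lit 3) (nat_lit 0x7e00080000000000000000000000000000000) (nat_lit 0x0) (nat_lit 0x7000100040000000000000000000000000000000) := T_2 (nat_lit 140) (nat_lit 126) (nat_lit 2) (nat_lit 4) (nat_lit 8) L2513005 (by decide +kernel)
theorem L2513007 : W_2 (nat_lit 4) (nat_lit 0x7c00080000000000000000000000000000000) (nat_lit 0x0) (nat_lit 0x7000300140000000000000000000000000000000) := T_2 (nat_lit 141) (nat_lit 128) (nat_lit 2) (nat_lit 5) (nat_lit 8) L2513006 (by decide +kernel)
theorem L2513008 : W_2 (nat_lit 5) (nat_lit 0x7800080000000000000000000000000000000) (nat_lit 0x0) (nat_lit 0x7000700178000000000000000000000000000000) := Q_2 (nat_lit 142) (C_2 L2513004 (C_2 L1867026 (C_2 L2513007 N_2))) (by decide +kernel)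
theorem L2513009 : W_2 (nat_lit 7) (nat_lit 0x7000080000000000000000000000000000000) (nat_lit 0x0) (nat_lit 0x40002001bf000f00178004000200000000000000000000000) := Q_2 (nat_lit 143) (C_2 L1867024 (C_2 L2512993 (C_2 L2512998 (C_2 L2513002 (C_2 L2513008 N_2))))) (by decide +kernel)
theorem L2513010 : W_2 (nat_lit 8) (nat_lit 0x5000080000000000000000000000000000000) (nat_lit 0x0) (nat_lit 0x40002007bf01af01d78004000200000000000000000000000) := Q_2 (nat_lit 145) (C_2 L2512992 (C_2 L2503877 (C_2 L1866990 (C_2 L2513009 (C_2 L2503855 N_2))))) (by decide +kernel)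
theorem L2513011 : W_2 (nat_lit 5) (nat_lit 0x7000080000000000000000000000000000000) (nat_lit 0x0) (nat_lit 0x780018801f00000000000000000000000000000000) := Q_2 (nat_lit 147) (C_2 L2503876 (C_2 L1866981 (C_2 L2503810 N_2))) (by decide +kernel)
theorem L2513012 : W_2 (nat_lit 2) (nat_lit 0x80007800280008000000000000000000000000000) (nat_lit 0x0) (nat_lit 0x100010000400000000000000000000000) := D_2 (nat_lit 94) (nat_lit 112) (nat_lit 128) (nat_lit 4) (nat_lit 10) (nat_lit 9) (nat_lit 7) (nat_lit 9) (nat_lit 5) (by decide +kernel)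
theorem L2513013 : W_2 (nat_lit 3) (nat_lit 0x7800280008000000000000000000000000000) (nat_lit 0x0) (nat_lit 0x180000000100010000400000000000000000000000) := T_2 (nat_lit 163) (nat_lit 164) (nat_lit 3) (nat_lit 7) (nat_lit 8) L2513012 (by decide +kernel)
theorem L2513014 : W_2 (nat_lit 4) (nat_lit 0x7800080008000000000000000000000000000) (nat_lit 0x0) (nat_lit 0x180000000700010000400000000000000000000000) := T_2 (nat_lit 129) (nat_lit 130) (nat_lit 2) (nat_lit 7) (nat_lit 8) L2513013 (by decide +kernel)
theorem L2513015 : W_2 (nat_lit 4) (nat_lit 0x800078000c0008000000000000000000000000000) (nat_lit 0x0) (nat_lit 0x600034001400000000000000000000000) := T_2 (nat_lit 129) (nat_lit 130) (nat_lit 2) (nat_lit 7) (nat_lit 8) L1640547 (by decide +kernel)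
theorem L2513016 : W_2 (nat_lit 5) (nat_lit 0x80007800080008000000000000000000000000000) (nat_lit 0x0) (nat_lit 0x660034001400000000000000000000000) := T_2 (nat_lit 126) (nat_lit 125) (nat_lit 0) (nat_lit 10) (nat_lit 8) L2513015 (by decide +kernel)
theorem L2513017 : W_2 (nat_lit 6) (nat_lit 0x7800080008000000000000000000000000000) (nat_lit 0x0) (nat_lit 0x180000000660034001400000000000000000000000) := T_2 (nat_lit 163) (nat_lit 164) (nat_lit 3) (nat_lit 7) (nat_lit 8) L2513016 (by decide +kernel)
theorem L2513018 : W_2 (nat_lit 4) (nat_lit 0x800078000c0008000000000000000000000000000) (nat_lit 0x0) (nat_lit 0x20000000100004000600030000000000000000000) := T_2 (nat_lit 94) (nat_lit 128) (nat_lit 7) (nat_lit 9) (nat_lit 5) L1808895 (by decide +kernel)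
theorem L2513019 : W_2 (nat_lit 5) (nat_lit 0x80007800080008000000000000000000000000000) (nat_lit 0x0) (nat_lit 0x20000000160004000600030000000000000000000) := T_2 (nat_lit 126) (nat_lit 125) (nat_lit 0) (nat_lit 10) (nat_lit 8) L2513018 (by decide +kernel)
theorem L2513020 : W_2 (nat_lit 6) (nat_lit 0x7800080008000000000000000000000000000) (nat_lit 0x0) (nat_lit 0x1a0000000160004000600030000000000000000000) := T_2 (nat_lit 163) (nat_lit 164) (nat_lit 3) (nat_lit 7) (nat_lit 8) L2513019 (by decide +kernel)
theorem L2513021 : W_2 (nat_lit 2) (nat_lit 0x500010000800078002c0008000000000000000000000000000) (nat_lit 0x0) (nat_lit 0xa00020000000000000000000000000000000000000000000000000) := D_2 (nat_lit 197) (nat_lit 213) (nat_lit 215) (nat_lit 5) (nat_lit 10) (nat_lit 8) (nat_lit 7) (nat_lit 10) (nat_lit 8) (by decide +kernel)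
theorem L2513022 : W_2 (nat_lit 3) (nat_lit 0x100010000800078002c0008000000000000000000000000000) (nat_lit 0x0) (nat_lit 0xa00060002000000000000000000000000000000000000000000000) := T_2 (nat_lit 198) (nat_lit 181) (nat_lit 7) (nat_lit 10) (nat_lit 7) L2513021 (by decide +kernel)
theorem L2513023 : W_2 (nat_lit 4) (nat_lit 0x10000800078002c0008000000000000000000000000000) (nat_lit 0x0) (nat_lit 0xa00070002800000000000000000000000000000000000000000000) := T_2 (nat_lit 196) (nat_lit 179) (nat_lit 5) (nat_lit 10) (nat_lit 7) L2513022 (by decide +kernel)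
theorem L2513024 : W_2 (nat_lit 5) (nat_lit 0x1000080007800280008000000000000000000000000000) (nat_lit 0x0) (nat_lit 0xa00070002800000000000060000000000000000000000000000000) := T_2 (nat_lit 126) (nat_lit 125) (nat_lit 0) (nat_lit 10) (nat_lit 8) L2513023 (by decide +kernel)
theorem L2513025 : W_2 (nat_lit 6) (nat_lit 0x80007800280008000000000000000000000000000) (nat_lit 0x0) (nat_lit 0xa00070003800000000000160000000000000000000000000000000) := T_2 (nat_lit 180) (nat_lit 128) (nat_lit 4) (nat_lit 10) (nat_lit 10) L2513024 (by decide +kernel)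
theorem L2513026 : W_2 (nat_lit 7) (nat_lit 0x80007800080008000000000000000000000000000) (nat_lit 0x0) (nat_lit 0xa00070003800000000000760000000000000000000000000000000) := T_2 (nat_lit 129) (nat_lit 130) (nat_lit 2) (nat_lit 7) (nat_lit 8) L2513025 (by decide +kernel)
theorem L2513027 : W_2 (nat_lit 8) (nat_lit 0x7800080008000000000000000000000000000) (nat_lit 0x0) (nat_lit 0xa00070003800180000000760000000000000000000000000000000) := T_2 (nat_lit 163) (nat_lit 164) (nat_lit 3) (nat_lit 7) (nat_lit 8) L2513026 (by decide +kernel)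
theorem L2513028 : W_2 (nat_lit 2) (nat_lit 0x7800080008000400000000000000000000000) (nat_lit 0x0) (nat_lit 0x80000000100000000000020000000000000000000) := D_2 (nat_lit 128) (nat_lit 77) (nat_lit 163) (nat_lit 5) (nat_lit 9) (nat_lit 4) (nat_lit 7) (nat_lit 9) (nat_lit 5) (by decide +kernel)
theorem L2513029 : W_2 (nat_lit 2) (nat_lit 0x7800080008000400000000000000000000000) (nat_lit 0x0) (nat_lit 0x20000000100004000000000000000000000000000) := D_2 (nat_lit 161) (nat_lit 110) (nat_lit 128) (nat_lit 6) (nat_lit 8) (nat_lit 9) (nat_lit 5) (nat_lit 9) (nat_lit 5) (by decide +kernel)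
theorem L2513030 : W_2 (nat_lit 7) (nat_lit 0x7800080008000000000000000000000000000) (nat_lit 0x0) (nat_lit 0xa0000000760034000e00020001000000000000000) := Q_2 (nat_lit 94) (C_2 L1643556 (C_2 L1955276 (C_2 L2513028 (C_2 L2513029 N_2)))) (by decide +kernel)
theorem L2513031 : W_2 (nat_lit 6) (nat_lit 0x7800280008000400000000000000000000000) (nat_lit 0x0) (nat_lit 0x1000040000000200038001c000a000000) := T_2 (nat_lit 77) (nat_lit 128) (nat_lit 7) (nat_lit 9) (nat_lit 4) L1642775 (by decide +kernel)
theorem L2513032 : W_2 (nat_lit 7) (nat_lit 0x7800080008000400000000000000000000000) (nat_lit 0x0) (nat_lit 0x7000040000000200038001c000a000000) := T_2 (nat_lit 129) (nat_lit 130) (nat_lit 2) (nat_lit 7) (nat_lit 8) L2513031 (by decide +kernel)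
theorem L2513033 : W_2 (nat_lit 2) (nat_lit 0x7800080008000400000000000000000000000) (nat_lit 0x0) (nat_lit 0x20000000100000000000020000000000000000000) := D_2 (nat_lit 128) (nat_lit 77) (nat_lit 161) (nat_lit 5) (nat_lit 9) (nat_lit 4) (nat_lit 5) (nat_lit 9) (nat_lit 5) (by decide +kernel)
theorem L2513034 : W_2 (nat_lit 8) (nat_lit 0x7800080008000000000000000000000000000) (nat_lit 0x0) (nat_lit 0x20000000760034000c000200038001c000a000000) := Q_2 (nat_lit 94) (C_2 L2513029 (C_2 L1955276 (C_2 L2513032 (C_2 L2513033 N_2)))) (by decide +kernel)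
theorem L2513035 : W_2 (nat_lit 9) (nat_lit 0x7800080000000000000000000000000000000) (nat_lit 0x0) (nat_lit 0xa000700038001a000000076003c001e000300038001c000a000000) := Q_2 (nat_lit 111) (C_2 L2513014 (C_2 L2513017 (C_2 L2513020 (C_2 L2513027 (C_2 L2513030 (C_2 L2513034 N_2)))))) (by decide +kernel)
theorem L2513036 : W_2 (nat_lit 6) (nat_lit 0x7800280000000000000000000000000000000) (nat_lit 0x0) (nat_lit 0x18e000600138000000000000000000000000000000) := T_2 (nat_lit 142) (nat_lit 128) (nat_lit 2) (nat_lit 6) (nat_lit 8) L1867030 (by decide +kernel)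
theorem L2513037 : W_2 (nat_lit 7) (nat_lit 0x7800080000000000000000000000000000000) (nat_lit 0x0) (nat_lit 0x18e000600738000000000000000000000000000000) := T_2 (nat_lit 129) (nat_lit 130) (nat_lit 2) (nat_lit 7) (nat_lit 8) L2513036 (by decide +kernel)
theorem L2513038 : W_2 (nat_lit 2) (nat_lit 0x84007e00288000000000000000000000000000000) (nat_lit 0x0) (nat_lit 0x100044000000000000000000000000000000) := D_2 (nat_lit 140) (nat_lit 126) (nat_lit 122) (nat_lit 2) (nat_lit 4) (nat_lit 8) (nat_lit 0) (nat_lit 7) (nat_lit 8) (by decide +kernel)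
theorem L2513039 : W_2 (nat_lit 3) (nat_lit 0x84007e00280000000000000000000000000000000) (nat_lit 0x0) (nat_lit 0x10005c000000000000000000000000000000) := T_2 (nat_lit 123) (nat_lit 124) (nat_lit 0) (nat_lit 8) (nat_lit 8) L2513038 (by decide +kernel)
theorem L2513040 : W_2 (nat_lit 4) (nat_lit 0x84007c00280000000000000000000000000000000) (nat_lit 0x0) (nat_lit 0x200030005c000000000000000000000000000000) := T_2 (nat_lit 141) (nat_lit 157) (nat_lit 1) (nat_lit 8) (nat_lit 8) L2513039 (by decide +kernel)
theorem L2513041 : W_2 (nat_lit 5) (nat_lit 0x80007c00280000000000000000000000000000000) (nat_lit 0x0) (nat_lit 0xe00030005c000000000000000000000000000000) := T_2 (nat_lit 158) (nat_lit 159) (nat_lit 1) (nat_lit 9) (nat_lit 8) L2513040 (by decide +kernel)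
theorem L2513042 : W_2 (nat_lit 6) (nat_lit 0x80007800280000000000000000000000000000000) (nat_lit 0x0) (nat_lit 0xe00070015c000000000000000000000000000000) := T_2 (nat_lit 142) (nat_lit 128) (nat_lit 2) (nat_lit 6) (nat_lit 8) L2513041 (by decide +kernel)
theorem L2513043 : W_2 (nat_lit 7) (nat_lit 0x80007800080000000000000000000000000000000) (nat_lit 0x0) (nat_lit 0xe00070075c000000000000000000000000000000) := T_2 (nat_lit 129) (nat_lit 130) (nat_lit 2) (nat_lit 7) (nat_lit 8) L2513042 (by decide +kernel)
theorem L2513044 : W_2 (nat_lit 8) (nat_lit 0x7800080000000000000000000000000000000) (nat_lit 0x0) (nat_lit 0x18e00070075c000000000000000000000000000000) := T_2 (nat_lit 163) (nat_lit 164) (nat_lit 3) (nat_lit 7) (nat_lit 8) L2513043 (by decide +kernel)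
theorem L2513045 : W_2 (nat_lit 10) (nat_lit 0x7000080000000000000000000000000000000) (nat_lit 0x0) (nat_lit 0xa000700038001af000f0077c03c001e000300038001c000a000000) := Q_2 (nat_lit 143) (C_2 L2513008 (C_2 L2513035 (C_2 L2513037 (C_2 L1867039 (C_2 L2513044 N_2))))) (by decide +kernel)
theorem L2513046 : W_2 (nat_lit 11) (nat_lit 0x5000080000000000000000000000000000000) (nat_lit 0x0) (nat_lit 0xa000700038007af01af01f7c03c001e000300038001c000a000000) := Q_2 (nat_lit 145) (C_2 L2513011 (C_2 L2503877 (C_2 L1866982 (C_2 L2513045 (C_2 L2503855 N_2))))) (by decide +kernel)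
theorem L2513047 : W_2 (nat_lit 4) (nat_lit 0x2001f000080000000000000000000000000000000) (nat_lit 0x0) (nat_lit 0xe00020003800000000000000000000000000000000) := T_2 (nat_lit 132) (nat_lit 131) (nat_lit 2) (nat_lit 9) (nat_lit 8) L1712261 (by decide +kernel)
theorem L2513048 : W_2 (nat_lit 5) (nat_lit 0x2000f000080000000000000000000000000000000) (nat_lit 0x0) (nat_lit 0xe00030003900000000000000000000000000000000) := T_2 (nat_lit 148) (nat_lit 128) (nat_lit 0) (nat_lit 12) (nat_lit 8) L2513047 (by decide +kernel)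
theorem L2513049 : W_2 (nat_lit 6) (nat_lit 0xf000080000000000000000000000000000000) (nat_lit 0x0) (nat_lit 0xe30030003900000000000000000000000000000000) := T_2 (nat_lit 161) (nat_lit 160) (nat_lit 1) (nat_lit 11) (nat_lit 8) L2513048 (by decide +kernel)
theorem L2513050 : W_2 (nat_lit 4) (nat_lit 0xf000080000000000000000000000000000000) (nat_lit 0x0) (nat_lit 0x400030010000100008000400000000000000000000000) := T_2 (nat_lit 128) (nat_lit 148) (nat_lit 0) (nat_lit 12) (nat_lit 8) L917541 (by decide +kernel)
theorem L2513051 : W_2 (nat_lit 7) (nat_lit 0x7000080000000000000000000000000000000) (nat_lit 0x0) (nat_lit 0x400fb8038803900008000400000000000000000000000) := Q_2 (nat_lit 147) (C_2 L2503876 (C_2 L1866985 (C_2 L2513049 (C_2 L2513050 N_2)))) (by decide +kernel)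
theorem L2513052 : W_2 (nat_lit 11) (nat_lit 0x7000080000000000000000000000000000000) (nat_lit 0x0) (nat_lit 0x7c003e007b0018001f00078003c00000000000000000000000) := Q_2 (nat_lit 147) (C_2 L2503876 (C_2 L2513050 (C_2 L1866978 (C_2 L2503849 N_2)))) (by decide +kernel)
theorem L2513053 : W_2 (nat_lit 2) (nat_lit 0x80007800380000000000000000000000000000000) (nat_lit 0x0) (nat_lit 0x1000000000000000008000400000000000000000000000) := D_2 (nat_lit 111) (nat_lit 94) (nat_lit 180) (nat_lit 7) (nat_lit 9) (nat_lit 5) (nat_lit 4) (nat_lit 10) (nat_lit 10) (by decide +kernel)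
theorem L2513054 : W_2 (nat_lit 3) (nat_lit 0x80007800280000000000000000000000000000000) (nat_lit 0x0) (nat_lit 0x1000000000400100008000400000000000000000000000) := T_2 (nat_lit 128) (nat_lit 142) (nat_lit 2) (nat_lit 6) (nat_lit 8) L2513053 (by decide +kernel)
theorem L2513055 : W_2 (nat_lit 4) (nat_lit 0x80007800080000000000000000000000000000000) (nat_lit 0x0) (nat_lit 0x1000000000400700008000400000000000000000000000) := T_2 (nat_lit 129) (nat_lit 130) (nat_lit 2) (nat_lit 7) (nat_lit 8) L2513054 (by decide +kernel)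
theorem L2513056 : W_2 (nat_lit 5) (nat_lit 0x7800080000000000000000000000000000000) (nat_lit 0x0) (nat_lit 0x1000180000400700008000400000000000000000000000) := T_2 (nat_lit 163) (nat_lit 164) (nat_lit 3) (nat_lit 7) (nat_lit 8) L2513055 (by decide +kernel)
theorem L2513057 : W_2 (nat_lit 8) (nat_lit 0x7000080000000000000000000000000000000) (nat_lit 0x0) (nat_lit 0x40012001be000e0073800c000600000000000000000000000) := Q_2 (nat_lit 143) (C_2 L2513037 (C_2 L2513002 (C_2 L2513056 (C_2 L2503873 N_2)))) (by decide +kernel)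
theorem L2513058 : W_2 (nat_lit 5) (nat_lit 0x7000080000000000000000000000000000000) (nat_lit 0x0) (nat_lit 0x400038018801f00008000400000000000000000000000) := Q_2 (nat_lit 147) (C_2 L2503810 (C_2 L2513050 (C_2 L1866988 N_2))) (by decide +kernel)
theorem L2513059 : W_2 (nat_lit 12) (nat_lit 0x5000080000000000000000000000000000000) (nat_lit 0x0) (nat_lit 0x7c003e00fbe03ae03f3807c003e00000000000000000000000) := Q_2 (nat_lit 145) (C_2 L2512992 (C_2 L2513011 (C_2 L1866989 (C_2 L2513051 (C_2 L2513052 (C_2 L2513057 (C_2 L2513058 N_2))))))) (by decide +kernel)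
theorem L2514376 : W_2 (nat_lit 2) (nat_lit 0xd00008000c000700000000000000000000000) (nat_lit 0x0) (nat_lit 0x100000c0000000000000000000000) := D_2 (nat_lit 91) (nat_lit 112) (nat_lit 90) (nat_lit 3) (nat_lit 6) (nat_lit 5) (nat_lit 3) (nat_lit 5) (nat_lit 5) (by decide +kernel)
theorem L2514377 : W_2 (nat_lit 3) (nat_lit 0xd000080004000700000000000000000000000) (nat_lit 0x0) (nat_lit 0x200000000000180000c0000000000000000000000) := T_2 (nat_lit 111) (nat_lit 161) (nat_lit 6) (nat_lit 8) (nat_lit 9) L2514376 (by decide +kernel)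
theorem L2519317 : W_2 (nat_lit 2) (nat_lit 0x10005800080004000000000000000000000000000) (nat_lit 0x0) (nat_lit 0x4000200020000000000000000000000000000000000000000) := D_2 (nat_lit 177) (nat_lit 194) (nat_lit 161) (nat_lit 6) (nat_lit 7) (nat_lit 11) (nat_lit 5) (nat_lit 8) (nat_lit 6) (by decide +kernel)
theorem L2519318 : W_2 (nat_lit 3) (nat_lit 0x10005800080000000000000000000000000000000) (nat_lit 0x0) (nat_lit 0x4000200020000000000004000200000000000000000000000) := T_2 (nat_lit 110) (nat_lit 93) (nat_lit 5) (nat_lit 8) (nat_lit 5) L2519317 (by decide +kernel)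
theorem L2519319 : W_2 (nat_lit 2) (nat_lit 0x30001a0058000f0000000000000000000000000000000) (nat_lit 0x0) (nat_lit 0x400000000c00000000000000000000000000) := D_2 (nat_lit 107) (nat_lit 106) (nat_lit 142) (nat_lit 0) (nat_lit 8) (nat_lit 7) (nat_lit 4) (nat_lit 6) (nat_lit 10) (by decide +kernel)
theorem L2519320 : W_2 (nat_lit 3) (nat_lit 0x30001a0058000e0000000000000000000000000000000) (nat_lit 0x0) (nat_lit 0x400018000c00000000000000000000000000) := T_2 (nat_lit 124) (nat_lit 123) (nat_lit 3) (nat_lit 4) (nat_lit 7) L2519319 (by decide +kernel)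
theorem L2519321 : W_2 (nat_lit 4) (nat_lit 0x30001a0058000c0000000000000000000000000000000) (nat_lit 0x0) (nat_lit 0x400038001c00000000000000000000000000) := T_2 (nat_lit 125) (nat_lit 108) (nat_lit 4) (nat_lit 7) (nat_lit 10) L2519320 (by decide +kernel)
theorem L2519322 : W_2 (nat_lit 5) (nat_lit 0x20001a0058000c0000000000000000000000000000000) (nat_lit 0x0) (nat_lit 0x2000100000000400038001c00000000000000000000000000) := T_2 (nat_lit 176) (nat_lit 193) (nat_lit 5) (nat_lit 7) (nat_lit 7) L2519321 (by decide +kernel)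
theorem L2519323 : W_2 (nat_lit 6) (nat_lit 0x2000180058000c0000000000000000000000000000000) (nat_lit 0x0) (nat_lit 0x2000100006000400038001c00000000000000000000000000) := T_2 (nat_lit 157) (nat_lit 158) (nat_lit 2) (nat_lit 4) (nat_lit 9) L2519322 (by decide +kernel)
theorem L2519324 : W_2 (nat_lit 2) (nat_lit 0x60001c0058000e8000000000000000000000000000000) (nat_lit 0x0) (nat_lit 0x1800020000000000000000000000000000000000000000) := D_2 (nat_lit 179) (nat_lit 180) (nat_lit 161) (nat_lit 0) (nat_lit 10) (nat_lit 10) (nat_lit 3) (nat_lit 5) (nat_lit 9) (by decide +kernel)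
theorem L2519325 : W_2 (nat_lit 3) (nat_lit 0x6000180058000e8000000000000000000000000000000) (nat_lit 0x0) (nat_lit 0x1800026000000000000000000000000000000000000000) := T_2 (nat_lit 158) (nat_lit 157) (nat_lit 3) (nat_lit 4) (nat_lit 9) L2519324 (by decide +kernel)
theorem L2519326 : W_2 (nat_lit 4) (nat_lit 0x2000180058000e8000000000000000000000000000000) (nat_lit 0x0) (nat_lit 0x8001c00026000000000000000000000000000000000000000) := T_2 (nat_lit 178) (nat_lit 195) (nat_lit 7) (nat_lit 7) (nat_lit 7) L2519325 (by decide +kernel)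
theorem L2519327 : W_2 (nat_lit 5) (nat_lit 0x2000180058000e0000000000000000000000000000000) (nat_lit 0x0) (nat_lit 0x8001c00026000000018000000000000000000000000000000) := T_2 (nat_lit 123) (nat_lit 124) (nat_lit 3) (nat_lit 4) (nat_lit 7) L2519326 (by decide +kernel)
theorem L2519328 : W_2 (nat_lit 6) (nat_lit 0x2000180058000c0000000000000000000000000000000) (nat_lit 0x0) (nat_lit 0x8001c00026000000038001000000000000000000000000000) := T_2 (nat_lit 125) (nat_lit 108) (nat_lit 4) (nat_lit 7) (nat_lit 10) L2519327 (by decide +kernel)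
theorem L2519329 : W_2 (nat_lit 7) (nat_lit 0x200018005800080000000000000000000000000000000) (nat_lit 0x0) (nat_lit 0x3a001d00026000400078001c00000000000000000000000000) := Q_2 (nat_lit 126) (C_2 L1809284 (C_2 L2519323 (C_2 L1015448 (C_2 L2519328 N_2)))) (by decide +kernel)
theorem L2519330 : W_2 (nat_lit 8) (nat_lit 0x18005800080000000000000000000000000000000) (nat_lit 0x0) (nat_lit 0x3e001f00026000400078001c00000000000000000000000000) := T_2 (nat_lit 177) (nat_lit 194) (nat_lit 6) (nat_lit 7) (nat_lit 11) L2519329 (by decide +kernel)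
theorem L2519331 : W_2 (nat_lit 4) (nat_lit 0x18005e00080000000000000000000000000000000) (nat_lit 0x0) (nat_lit 0x2000100006000000018000800000000000000000000000000) := T_2 (nat_lit 158) (nat_lit 157) (nat_lit 2) (nat_lit 4) (nat_lit 9) L2093882 (by decide +kernel)
theorem L2519332 : W_2 (nat_lit 5) (nat_lit 0x18005c00080000000000000000000000000000000) (nat_lit 0x0) (nat_lit 0x2000100007000380058000800000000000000000000000000) := Q_2 (nat_lit 141) (C_2 L2092353 (C_2 L2092351 (C_2 L2519331 N_2))) (by decide +kernel)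
theorem L2519333 : W_2 (nat_lit 2) (nat_lit 0x38001a005c000a0000000000000000000000000000000) (nat_lit 0x0) (nat_lit 0x60001000000000000000000000000000000000000000) := D_2 (nat_lit 174) (nat_lit 173) (nat_lit 156) (nat_lit 2) (nat_lit 3) (nat_lit 10) (nat_lit 0) (nat_lit 7) (nat_lit 10) (by decide +kernel)
theorem L2519334 : W_2 (nat_lit 3) (nat_lit 0x30001a005c000a0000000000000000000000000000000) (nat_lit 0x0) (nat_lit 0x10000e0001000000000000000000000000000000000000000) := T_2 (nat_lit 175) (nat_lit 192) (nat_lit 5) (nat_lit 6) (nat_lit 7) L2519333 (by decide +kernel)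
theorem L2519335 : W_2 (nat_lit 4) (nat_lit 0x30001a005c00080000000000000000000000000000000) (nat_lit 0x0) (nat_lit 0x10000e0001000000020001000000000000000000000000000) := T_2 (nat_lit 125) (nat_lit 108) (nat_lit 7) (nat_lit 6) (nat_lit 6) L2519334 (by decide +kernel)
theorem L2519336 : W_2 (nat_lit 5) (nat_lit 0x10001a005c00080000000000000000000000000000000) (nat_lit 0x0) (nat_lit 0x50002e0001000000020001000000000000000000000000000) := T_2 (nat_lit 177) (nat_lit 194) (nat_lit 6) (nat_lit 7) (nat_lit 11) L2519335 (by decide +kernel)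
theorem L2519337 : W_2 (nat_lit 6) (nat_lit 0x100018005c00080000000000000000000000000000000) (nat_lit 0x0) (nat_lit 0x50002e0007000000020001000000000000000000000000000) := T_2 (nat_lit 157) (nat_lit 158) (nat_lit 2) (nat_lit 4) (nat_lit 9) L2519336 (by decide +kernel)
theorem L2519338 : W_2 (nat_lit 7) (nat_lit 0x18005c00080000000000000000000000000000000) (nat_lit 0x0) (nat_lit 0xe00070003e00070000000300018000c0000000000000000000000) := Q_2 (nat_lit 176) (C_2 L1012083 (C_2 L1011438 (C_2 L2519337 N_2))) (by decide +kernel)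
theorem L2519339 : W_2 (nat_lit 2) (nat_lit 0x100018005c00080000000000000000000000000000000) (nat_lit 0x0) (nat_lit 0x40002000000000000000040000000000000000000000000000000) := D_2 (nat_lit 193) (nat_lit 210) (nat_lit 126) (nat_lit 6) (nat_lit 6) (nat_lit 12) (nat_lit 6) (nat_lit 6) (nat_lit 11) (by decide +kernel)
theorem L2519340 : W_2 (nat_lit 7) (nat_lit 0x18005c00080000000000000000000000000000000) (nat_lit 0x0) (nat_lit 0xc00070003e0007000000060001000000000000000000000000000) := Q_2 (nat_lit 176) (C_2 L1012083 (C_2 L2519337 (C_2 L2519339 N_2))) (by decide +kernel)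
theorem L2519341 : W_2 (nat_lit 2) (nat_lit 0x400000001c005e000b0001800000000000000000000000000) (nat_lit 0x0) (nat_lit 0x40000400020000000000000000000000) := D_2 (nat_lit 106) (nat_lit 126) (nat_lit 89) (nat_lit 0) (nat_lit 8) (nat_lit 7) (nat_lit 4) (nat_lit 5) (nat_lit 9) (by decide +kernel)
theorem L2519342 : W_2 (nat_lit 3) (nat_lit 0x400000001c005e00090001800000000000000000000000000) (nat_lit 0x0) (nat_lit 0x80000000000060000400020000000000000000000000) := T_2 (nat_lit 125) (nat_lit 175) (nat_lit 6) (nat_lit 5) (nat_lit 10) L2519341 (by decide +kernel)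
theorem L2519343 : W_2 (nat_lit 4) (nat_lit 0x400000001c005e00090000800000000000000000000000000) (nat_lit 0x0) (nat_lit 0x800000000000600014000a0000000000000000000000) := T_2 (nat_lit 108) (nat_lit 91) (nat_lit 6) (nat_lit 5) (nat_lit 9) L2519342 (by decide +kernel)
theorem L2519344 : W_2 (nat_lit 5) (nat_lit 0x400000001c005e00090000000000000000000000000000000) (nat_lit 0x0) (nat_lit 0x80000000000060001c000e0000000000000000000000) := T_2 (nat_lit 107) (nat_lit 90) (nat_lit 7) (nat_lit 5) (nat_lit 5) L2519343 (by decide +kernel)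
theorem L2519345 : W_2 (nat_lit 6) (nat_lit 0x1c005e00090000000000000000000000000000000) (nat_lit 0x0) (nat_lit 0x4000280000000000060001c000e0000000000000000000000) := T_2 (nat_lit 194) (nat_lit 177) (nat_lit 6) (nat_lit 7) (nat_lit 11) L2519344 (by decide +kernel)
theorem L2519346 : W_2 (nat_lit 7) (nat_lit 0x1c005e00080000000000000000000000000000000) (nat_lit 0x0) (nat_lit 0x4000280000000000078001c000e0000000000000000000000) := T_2 (nat_lit 124) (nat_lit 123) (nat_lit 0) (nat_lit 8) (nat_lit 8) L2519345 (by decide +kernel)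
theorem L2519347 : W_2 (nat_lit 8) (nat_lit 0x18005e00080000000000000000000000000000000) (nat_lit 0x0) (nat_lit 0x4000280006000000078001c000e0000000000000000000000) := T_2 (nat_lit 158) (nat_lit 157) (nat_lit 2) (nat_lit 4) (nat_lit 9) L2519346 (by decide +kernel)
theorem L2519348 : W_2 (nat_lit 9) (nat_lit 0x18005c00080000000000000000000000000000000) (nat_lit 0x0) (nat_lit 0x4000280007000380078001c000e0000000000000000000000) := Q_2 (nat_lit 141) (C_2 L2092353 (C_2 L2092351 (C_2 L2519347 N_2))) (by decide +kernel)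
theorem L2519349 : W_2 (nat_lit 10) (nat_lit 0x18005800080000000000000000000000000000000) (nat_lit 0x0) (nat_lit 0xe00070003e000700078007c001c000e0000000000000000000000) := Q_2 (nat_lit 142) (C_2 L1012087 (C_2 L2519332 (C_2 L2519338 (C_2 L2519340 (C_2 L2519348 N_2))))) (by decide +kernel)
theorem L2519350 : W_2 (nat_lit 3) (nat_lit 0x40001c005800080000000000000000000000000000000) (nat_lit 0x0) (nat_lit 0x4001b00000000000000000000000000000000000000000000) := T_2 (nat_lit 177) (nat_lit 194) (nat_lit 6) (nat_lit 7) (nat_lit 11) L1078326 (by decide +kernel)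
theorem L2519351 : W_2 (nat_lit 4) (nat_lit 0x400018005800080000000000000000000000000000000) (nat_lit 0x0) (nat_lit 0x4001b00006000000000000000000000000000000000000000) := T_2 (nat_lit 158) (nat_lit 157) (nat_lit 2) (nat_lit 4) (nat_lit 9) L2519350 (by decide +kernel)
theorem L2519352 : W_2 (nat_lit 2) (nat_lit 0x40003c005800080000000000000000000000000000000) (nat_lit 0x0) (nat_lit 0x100008000000000000000040000000000000000000000000000000) := D_2 (nat_lit 195) (nat_lit 126) (nat_lit 212) (nat_lit 4) (nat_lit 8) (nat_lit 11) (nat_lit 4) (nat_lit 8) (nat_lit 12) (by decide +kernel)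
theorem L2519353 : W_2 (nat_lit 3) (nat_lit 0x40001c005800080000000000000000000000000000000) (nat_lit 0x0) (nat_lit 0x100008000800020000000040000000000000000000000000000000) := T_2 (nat_lit 161) (nat_lit 179) (nat_lit 3) (nat_lit 5) (nat_lit 9) L2519352 (by decide +kernel)
theorem L2519354 : W_2 (nat_lit 4) (nat_lit 0x400018005800080000000000000000000000000000000) (nat_lit 0x0) (nat_lit 0x100008000800026000000040000000000000000000000000000000) := T_2 (nat_lit 158) (nat_lit 157) (nat_lit 2) (nat_lit 4) (nat_lit 9) L2519353 (by decide +kernel)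
theorem L2519355 : W_2 (nat_lit 2) (nat_lit 0x800060001a005800080000000000000000000000000000000) (nat_lit 0x0) (nat_lit 0x2000100000000000020000000000000000000000000000000000000000) := D_2 (nat_lit 212) (nat_lit 229) (nat_lit 161) (nat_lit 4) (nat_lit 8) (nat_lit 13) (nat_lit 4) (nat_lit 8) (nat_lit 12) (by decide +kernel)
theorem L2519356 : W_2 (nat_lit 3) (nat_lit 0x60001a005800080000000000000000000000000000000) (nat_lit 0x0) (nat_lit 0x2000100008000000020000000040000000000000000000000000000000) := T_2 (nat_lit 195) (nat_lit 126) (nat_lit 7) (nat_lit 7) (nat_lit 7) L2519355 (by decide +kernel)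
theorem L2519357 : W_2 (nat_lit 4) (nat_lit 0x600018005800080000000000000000000000000000000) (nat_lit 0x0) (nat_lit 0x2000100008000000026000000040000000000000000000000000000000) := T_2 (nat_lit 157) (nat_lit 158) (nat_lit 3) (nat_lit 4) (nat_lit 9) L2519356 (by decide +kernel)
theorem L2519358 : W_2 (nat_lit 5) (nat_lit 0x400018005800080000000000000000000000000000000) (nat_lit 0x0) (nat_lit 0x200010000c000200026000000040000000000000000000000000000000) := T_2 (nat_lit 177) (nat_lit 194) (nat_lit 6) (nat_lit 7) (nat_lit 11) L2519357 (by decide +kernel)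
theorem L2519359 : W_2 (nat_lit 7) (nat_lit 0x18005800080000000000000000000000000000000) (nat_lit 0x0) (nat_lit 0x200014003f001f00026000000040000000000000000000000000000000) := Q_2 (nat_lit 178) (C_2 L2519351 (C_2 L2519354 (C_2 L1012109 (C_2 L2519358 N_2)))) (by decide +kernel)
theorem L2519360 : W_2 (nat_lit 5) (nat_lit 0x18005c00080000000000000000000000000000000) (nat_lit 0x0) (nat_lit 0x2000100027000380018000800000000000000000000000000) := Q_2 (nat_lit 141) (C_2 L2519331 (C_2 L2092351 (C_2 L1012088 N_2))) (by decide +kernel)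
theorem L2519361 : W_2 (nat_lit 2) (nat_lit 0x800068003c005e000a0000000000000000000000000000000) (nat_lit 0x0) (nat_lit 0x200010000100000000000000000000000000000000000000000000) := D_2 (nat_lit 196) (nat_lit 176) (nat_lit 213) (nat_lit 3) (nat_lit 5) (nat_lit 10) (nat_lit 7) (nat_lit 8) (nat_lit 8) (by decide +kernel)
theorem L2519362 : W_2 (nat_lit 3) (nat_lit 0x68003c005e000a0000000000000000000000000000000) (nat_lit 0x0) (nat_lit 0x300018000100000000000000000000000000000000000000000000) := T_2 (nat_lit 195) (nat_lit 212) (nat_lit 4) (nat_lit 8) (nat_lit 12) L2519361 (by decide +kernel)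
theorem L2519363 : W_2 (nat_lit 4) (nat_lit 0x28003c005e000a0000000000000000000000000000000) (nat_lit 0x0) (nat_lit 0x300018000d00000000000000000000000000000000000000000000) := T_2 (nat_lit 178) (nat_lit 179) (nat_lit 3) (nat_lit 5) (nat_lit 9) L2519362 (by decide +kernel)
theorem L2519364 : W_2 (nat_lit 5) (nat_lit 0x28001c005e000a0000000000000000000000000000000) (nat_lit 0x0) (nat_lit 0x300018000d40020000000000000000000000000000000000000000) := T_2 (nat_lit 161) (nat_lit 174) (nat_lit 1) (nat_lit 8) (nat_lit 9) L2519363 (by decide +kernel)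
theorem L2519365 : W_2 (nat_lit 6) (nat_lit 0x20001c005e000a0000000000000000000000000000000) (nat_lit 0x0) (nat_lit 0x300019000dc0020000000000000000000000000000000000000000) := T_2 (nat_lit 175) (nat_lit 192) (nat_lit 6) (nat_lit 5) (nat_lit 11) L2519364 (by decide +kernel)
theorem L2519366 : W_2 (nat_lit 7) (nat_lit 0x20001c005e00080000000000000000000000000000000) (nat_lit 0x0) (nat_lit 0x300019000dc0020000000020001000000000000000000000000000) := T_2 (nat_lit 125) (nat_lit 108) (nat_lit 7) (nat_lit 6) (nat_lit 6) L2519365 (by decide +kernel)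
theorem L2519367 : W_2 (nat_lit 8) (nat_lit 0x200018005e00080000000000000000000000000000000) (nat_lit 0x0) (nat_lit 0x300019000dc0026000000020001000000000000000000000000000) := T_2 (nat_lit 158) (nat_lit 157) (nat_lit 2) (nat_lit 4) (nat_lit 9) L2519366 (by decide +kernel)
theorem L2519368 : W_2 (nat_lit 9) (nat_lit 0x18005e00080000000000000000000000000000000) (nat_lit 0x0) (nat_lit 0x30001d000fc0026000000020001000000000000000000000000000) := T_2 (nat_lit 177) (nat_lit 194) (nat_lit 6) (nat_lit 7) (nat_lit 11) L2519367 (by decide +kernel)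
theorem L2519369 : W_2 (nat_lit 10) (nat_lit 0x18005c00080000000000000000000000000000000) (nat_lit 0x0) (nat_lit 0x30001d000fc0027000380020001000000000000000000000000000) := Q_2 (nat_lit 141) (C_2 L2092351 (C_2 L1012088 (C_2 L2519368 N_2))) (by decide +kernel)
theorem L2519370 : W_2 (nat_lit 2) (nat_lit 0x400008001c005e00090001800000000000000000000000000) (nat_lit 0x0) (nat_lit 0x800040020000000000000000000000000000000000000000) := D_2 (nat_lit 174) (nat_lit 191) (nat_lit 161) (nat_lit 5) (nat_lit 5) (nat_lit 7) (nat_lit 1) (nat_lit 8) (nat_lit 9) (by decide +kernel)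
theorem L2519371 : W_2 (nat_lit 3) (nat_lit 0x400000001c005e00090001800000000000000000000000000) (nat_lit 0x0) (nat_lit 0x8000c0020000000020000000000000000000000000000000) := T_2 (nat_lit 175) (nat_lit 125) (nat_lit 6) (nat_lit 5) (nat_lit 10) L2519370 (by decide +kernel)
theorem L2519372 : W_2 (nat_lit 4) (nat_lit 0x400000001c005e00090000800000000000000000000000000) (nat_lit 0x0) (nat_lit 0x8000c0020000000020001000080000000000000000000000) := T_2 (nat_lit 108) (nat_lit 91) (nat_lit 6) (nat_lit 5) (nat_lit 9) L2519371 (by decide +kernel)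
theorem L2519373 : W_2 (nat_lit 5) (nat_lit 0x400000001c005e00090000000000000000000000000000000) (nat_lit 0x0) (nat_lit 0x8000c00200000000200018000c0000000000000000000000) := T_2 (nat_lit 107) (nat_lit 90) (nat_lit 7) (nat_lit 5) (nat_lit 5) L2519372 (by decide +kernel)
theorem L2519374 : W_2 (nat_lit 6) (nat_lit 0x400000001c005e00080000000000000000000000000000000) (nat_lit 0x0) (nat_lit 0x8000c00200000000380018000c0000000000000000000000) := T_2 (nat_lit 124) (nat_lit 123) (nat_lit 0) (nat_lit 8) (nat_lit 8) L2519373 (by decide +kernel)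
theorem L2519375 : W_2 (nat_lit 7) (nat_lit 0x4000000018005e00080000000000000000000000000000000) (nat_lit 0x0) (nat_lit 0x8000c00260000000380018000c0000000000000000000000) := T_2 (nat_lit 158) (nat_lit 157) (nat_lit 2) (nat_lit 4) (nat_lit 9) L2519374 (by decide +kernel)
theorem L2519376 : W_2 (nat_lit 8) (nat_lit 0x18005e00080000000000000000000000000000000) (nat_lit 0x0) (nat_lit 0x48002c00260000000380018000c0000000000000000000000) := T_2 (nat_lit 194) (nat_lit 177) (nat_lit 6) (nat_lit 7) (nat_lit 11) L2519375 (by decide +kernel)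
theorem L2519377 : W_2 (nat_lit 9) (nat_lit 0x18005c00080000000000000000000000000000000) (nat_lit 0x0) (nat_lit 0x48002c00270003800380018000c0000000000000000000000) := Q_2 (nat_lit 141) (C_2 L2092351 (C_2 L1012088 (C_2 L2519376 N_2))) (by decide +kernel)
theorem L2519378 : W_2 (nat_lit 11) (nat_lit 0x18005800080000000000000000000000000000000) (nat_lit 0x0) (nat_lit 0x3e001f800fe002700078003c0018000c0000000000000000000000) := Q_2 (nat_lit 142) (C_2 L2519338 (C_2 L2519360 (C_2 L2519369 (C_2 L1012092 (C_2 L2519377 N_2))))) (by decide +kernel)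
theorem L2519379 : W_2 (nat_lit 2) (nat_lit 0x48003c005a00080000000000000000000000000000000) (nat_lit 0x0) (nat_lit 0x100008000000000000000040000000000000000000000000000000) := D_2 (nat_lit 195) (nat_lit 126) (nat_lit 212) (nat_lit 4) (nat_lit 8) (nat_lit 11) (nat_lit 4) (nat_lit 8) (nat_lit 12) (by decide +kernel)
theorem L2519380 : W_2 (nat_lit 3) (nat_lit 0x8003c005a00080000000000000000000000000000000) (nat_lit 0x0) (nat_lit 0x100008000c00000000000040000000000000000000000000000000) := T_2 (nat_lit 178) (nat_lit 179) (nat_lit 3) (nat_lit 5) (nat_lit 9) L2519379 (by decide +kernel)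
theorem L2519381 : W_2 (nat_lit 4) (nat_lit 0x3c005a00080000000000000000000000000000000) (nat_lit 0x0) (nat_lit 0x100008000cc0000000000040000000000000000000000000000000) := T_2 (nat_lit 175) (nat_lit 174) (nat_lit 1) (nat_lit 8) (nat_lit 9) L2519380 (by decide +kernel)
theorem L2519382 : W_2 (nat_lit 5) (nat_lit 0x1c005a00080000000000000000000000000000000) (nat_lit 0x0) (nat_lit 0x100008000cc0020000100040000000000000000000000000000000) := T_2 (nat_lit 161) (nat_lit 140) (nat_lit 0) (nat_lit 8) (nat_lit 9) L2519381 (by decide +kernel)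
theorem L2519383 : W_2 (nat_lit 6) (nat_lit 0x18005a00080000000000000000000000000000000) (nat_lit 0x0) (nat_lit 0x100008000cc0026000100040000000000000000000000000000000) := T_2 (nat_lit 158) (nat_lit 157) (nat_lit 2) (nat_lit 4) (nat_lit 9) L2519382 (by decide +kernel)
theorem L2519384 : W_2 (nat_lit 4) (nat_lit 0x18005a00090000000000000000000000000000000) (nat_lit 0x0) (nat_lit 0x2000100000000400028000800040000000000000000000000) := T_2 (nat_lit 142) (nat_lit 123) (nat_lit 0) (nat_lit 8) (nat_lit 8) L1012090 (by decide +kernel)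
theorem L2519385 : W_2 (nat_lit 2) (nat_lit 0x1c005a000b8000000000000000000000000000000) (nat_lit 0x0) (nat_lit 0x80000000000000001400000000000000000000000000) := D_2 (nat_lit 175) (nat_lit 106) (nat_lit 108) (nat_lit 4) (nat_lit 5) (nat_lit 10) (nat_lit 6) (nat_lit 5) (nat_lit 10) (by decide +kernel)
theorem L2519386 : W_2 (nat_lit 3) (nat_lit 0x1c005a00098000000000000000000000000000000) (nat_lit 0x0) (nat_lit 0x80000000000060001400000000000000000000000000) := T_2 (nat_lit 125) (nat_lit 126) (nat_lit 3) (nat_lit 4) (nat_lit 7) L2519385 (by decide +kernel)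
theorem L2519387 : W_2 (nat_lit 4) (nat_lit 0x18005a00098000000000000000000000000000000) (nat_lit 0x0) (nat_lit 0x80006000000060001400000000000000000000000000) := T_2 (nat_lit 158) (nat_lit 157) (nat_lit 2) (nat_lit 4) (nat_lit 9) L2519386 (by decide +kernel)
theorem L2519388 : W_2 (nat_lit 5) (nat_lit 0x18005a00090000000000000000000000000000000) (nat_lit 0x0) (nat_lit 0x80006000400068001400000000000000000000000000) := T_2 (nat_lit 123) (nat_lit 142) (nat_lit 0) (nat_lit 8) (nat_lit 8) L2519387 (by decide +kernel)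
theorem L2519389 : W_2 (nat_lit 6) (nat_lit 0x18005a00080000000000000000000000000000000) (nat_lit 0x0) (nat_lit 0x40002000180006000400078001c00040000000000000000000000) := Q_2 (nat_lit 124) (C_2 L2084723 (C_2 L2519384 (C_2 L2519388 N_2))) (by decide +kernel)
theorem L2519390 : W_2 (nat_lit 7) (nat_lit 0x18005800080000000000000000000000000000000) (nat_lit 0x0) (nat_lit 0x14000a000dc002600078007c001c00040000000000000000000000) := Q_2 (nat_lit 141) (C_2 L2092354 (C_2 L2519383 (C_2 L1012133 (C_2 L2519389 N_2)))) (by decide +kernel)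
theorem L2519391 : W_2 (nat_lit 2) (nat_lit 0x16000180058000f0000800000000000000000000000000) (nat_lit 0x0) (nat_lit 0x2000100000000400000000000000000000000000000000000) := D_2 (nat_lit 176) (nat_lit 193) (nat_lit 142) (nat_lit 5) (nat_lit 7) (nat_lit 7) (nat_lit 4) (nat_lit 6) (nat_lit 10) (by decide +kernel)
theorem L2519392 : W_2 (nat_lit 3) (nat_lit 0x16000180058000f0000000000000000000000000000000) (nat_lit 0x0) (nat_lit 0x2000100000000400000000c00000000000000000000000000) := T_2 (nat_lit 107) (nat_lit 106) (nat_lit 0) (nat_lit 8) (nat_lit 7) L2519391 (by decide +kernel)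
theorem L2519393 : W_2 (nat_lit 4) (nat_lit 0x6000180058000f0000000000000000000000000000000) (nat_lit 0x0) (nat_lit 0x2001900000000400000000c00000000000000000000000000) := T_2 (nat_lit 180) (nat_lit 179) (nat_lit 0) (nat_lit 10) (nat_lit 10) L2519392 (by decide +kernel)
theorem L2519394 : W_2 (nat_lit 5) (nat_lit 0x2000180058000f0000000000000000000000000000000) (nat_lit 0x0) (nat_lit 0xa001d00000000400000000c00000000000000000000000000) := T_2 (nat_lit 178) (nat_lit 195) (nat_lit 7) (nat_lit 7) (nat_lit 7) L2519393 (by decide +kernel)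
theorem L2519395 : W_2 (nat_lit 6) (nat_lit 0x2000180058000e0000000000000000000000000000000) (nat_lit 0x0) (nat_lit 0xa001d00000000400018000c00000000000000000000000000) := T_2 (nat_lit 124) (nat_lit 123) (nat_lit 3) (nat_lit 4) (nat_lit 7) L2519394 (by decide +kernel)
theorem L2519396 : W_2 (nat_lit 7) (nat_lit 0x2000180058000c0000000000000000000000000000000) (nat_lit 0x0) (nat_lit 0xa001d00000000400038001c00000000000000000000000000) := T_2 (nat_lit 125) (nat_lit 108) (nat_lit 4) (nat_lit 7) (nat_lit 10) L2519395 (by decide +kernel)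
theorem L2519397 : W_2 (nat_lit 2) (nat_lit 0x3000180058000f0000000000000000000000000000000) (nat_lit 0x0) (nat_lit 0x400000000c00000000000000000000000000) := D_2 (nat_lit 107) (nat_lit 142) (nat_lit 106) (nat_lit 4) (nat_lit 6) (nat_lit 10) (nat_lit 0) (nat_lit 8) (nat_lit 7) (by decide +kernel)
theorem L2519398 : W_2 (nat_lit 3) (nat_lit 0x2000180058000f0000000000000000000000000000000) (nat_lit 0x0) (nat_lit 0x2000100000000400000000c00000000000000000000000000) := T_2 (nat_lit 176) (nat_lit 193) (nat_lit 5) (nat_lit 7) (nat_lit 7) L2519397 (by decide +kernel)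
theorem L2519399 : W_2 (nat_lit 4) (nat_lit 0x2000180058000e0000000000000000000000000000000) (nat_lit 0x0) (nat_lit 0x2000100000000400018000c00000000000000000000000000) := T_2 (nat_lit 124) (nat_lit 123) (nat_lit 3) (nat_lit 4) (nat_lit 7) L2519398 (by decide +kernel)
theorem L2519400 : W_2 (nat_lit 5) (nat_lit 0x2000180058000c0000000000000000000000000000000) (nat_lit 0x0) (nat_lit 0x2000100000000400038001c00000000000000000000000000) := T_2 (nat_lit 125) (nat_lit 108) (nat_lit 4) (nat_lit 7) (nat_lit 10) L2519399 (by decide +kernel)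
theorem L2519401 : W_2 (nat_lit 2) (nat_lit 0x1600018005a000f0000800040005000000000000000000) (nat_lit 0x0) (nat_lit 0x2000280000000000000) := D_2 (nat_lit 73) (nat_lit 57) (nat_lit 55) (nat_lit 6) (nat_lit 5) (nat_lit 7) (nat_lit 4) (nat_lit 5) (nat_lit 7) (by decide +kernel)
theorem L2519402 : W_2 (nat_lit 3) (nat_lit 0x1600018005a000f0000800040004000000000000000000) (nat_lit 0x0) (nat_lit 0x20003000280000000000000) := T_2 (nat_lit 72) (nat_lit 89) (nat_lit 4) (nat_lit 5) (nat_lit 8) L2519401 (by decide +kernel)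
theorem L2519403 : W_2 (nat_lit 4) (nat_lit 0x1600018005a000f0000800040000000000000000000000) (nat_lit 0x0) (nat_lit 0xa0007000280000000000000) := T_2 (nat_lit 74) (nat_lit 91) (nat_lit 6) (nat_lit 5) (nat_lit 8) L2519402 (by decide +kernel)
theorem L2519404 : W_2 (nat_lit 5) (nat_lit 0x1600018005a000f0000800000000000000000000000000) (nat_lit 0x0) (nat_lit 0x4000000000000e0007000280000000000000) := T_2 (nat_lit 90) (nat_lit 142) (nat_lit 7) (nat_lit 5) (nat_lit 5) L2519403 (by decide +kernel)
theorem L2519405 : W_2 (nat_lit 6) (nat_lit 0x1600018005a000f0000000000000000000000000000000) (nat_lit 0x0) (nat_lit 0x400000000c000e0007000280000000000000) := T_2 (nat_lit 107) (nat_lit 106) (nat_lit 0) (nat_lit 8) (nat_lit 7) L2519404 (by decide +kernel)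
theorem L2519406 : W_2 (nat_lit 7) (nat_lit 0x16000180058000f0000000000000000000000000000000) (nat_lit 0x0) (nat_lit 0x700000000c000e0007000280000000000000) := T_2 (nat_lit 141) (nat_lit 140) (nat_lit 1) (nat_lit 8) (nat_lit 7) L2519405 (by decide +kernel)
theorem L2519407 : W_2 (nat_lit 8) (nat_lit 0x16000180058000e0000000000000000000000000000000) (nat_lit 0x0) (nat_lit 0x700018000c000e0007000280000000000000) := T_2 (nat_lit 124) (nat_lit 123) (nat_lit 3) (nat_lit 4) (nat_lit 7) L2519406 (by decide +kernel)
theorem L2519408 : W_2 (nat_lit 9) (nat_lit 0x16000180058000c0000000000000000000000000000000) (nat_lit 0x0) (nat_lit 0x700038001c000e0007000280000000000000) := T_2 (nat_lit 125) (nat_lit 108) (nat_lit 4) (nat_lit 7) (nat_lit 10) L2519407 (by decide +kernel)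
theorem L2519409 : W_2 (nat_lit 10) (nat_lit 0x6000180058000c0000000000000000000000000000000) (nat_lit 0x0) (nat_lit 0x1800000000700038001c000e0007000280000000000000) := T_2 (nat_lit 180) (nat_lit 179) (nat_lit 0) (nat_lit 10) (nat_lit 10) L2519408 (by decide +kernel)
theorem L2519410 : W_2 (nat_lit 11) (nat_lit 0x2000180058000c0000000000000000000000000000000) (nat_lit 0x0) (nat_lit 0x8001c00000000700038001c000e0007000280000000000000) := T_2 (nat_lit 178) (nat_lit 195) (nat_lit 7) (nat_lit 7) (nat_lit 7) L2519409 (by decide +kernel)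
theorem L2519411 : W_2 (nat_lit 12) (nat_lit 0x200018005800080000000000000000000000000000000) (nat_lit 0x0) (nat_lit 0x3a001d00020000700078001c000e0007000280000000000000) := Q_2 (nat_lit 126) (C_2 L1015448 (C_2 L2519396 (C_2 L2519400 (C_2 L2519410 N_2)))) (by decide +kernel)
theorem L2519412 : W_2 (nat_lit 13) (nat_lit 0x18005800080000000000000000000000000000000) (nat_lit 0x0) (nat_lit 0x3e001f00020000700078001c000e0007000280000000000000) := T_2 (nat_lit 177) (nat_lit 194) (nat_lit 6) (nat_lit 7) (nat_lit 11) L2519411 (by decide +kernel)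
theorem L2519413 : W_2 (nat_lit 2) (nat_lit 0x160001a005a000f0000800040005000000000000000000) (nat_lit 0x0) (nat_lit 0x2000280000000000000) := D_2 (nat_lit 73) (nat_lit 57) (nat_lit 55) (nat_lit 6) (nat_lit 5) (nat_lit 7) (nat_lit 4) (nat_lit 5) (nat_lit 7) (by decide +kernel)
theorem L2519414 : W_2 (nat_lit 3) (nat_lit 0x160001a005a000f0000800040004000000000000000000) (nat_lit 0x0) (nat_lit 0x20003000280000000000000) := T_2 (nat_lit 72) (nat_lit 89) (nat_lit 4) (nat_lit 5) (nat_lit 8) L2519413 (by decide +kernel)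
theorem L2519415 : W_2 (nat_lit 4) (nat_lit 0x160001a005a000f0000800040000000000000000000000) (nat_lit 0x0) (nat_lit 0xa0007000280000000000000) := T_2 (nat_lit 74) (nat_lit 91) (nat_lit 6) (nat_lit 5) (nat_lit 8) L2519414 (by decide +kernel)
theorem L2519416 : W_2 (nat_lit 5) (nat_lit 0x160001a005a000f0000800000000000000000000000000) (nat_lit 0x0) (nat_lit 0x4000000000000e0007000280000000000000) := T_2 (nat_lit 90) (nat_lit 142) (nat_lit 7) (nat_lit 5) (nat_lit 5) L2519415 (by decide +kernel)
theorem L2519417 : W_2 (nat_lit 6) (nat_lit 0x160001a0058000f0000800000000000000000000000000) (nat_lit 0x0) (nat_lit 0x7000000000000e0007000280000000000000) := T_2 (nat_lit 141) (nat_lit 140) (nat_lit 1) (nat_lit 8) (nat_lit 7) L2519416 (by decide +kernel)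
theorem L2519418 : W_2 (nat_lit 7) (nat_lit 0x160001a0058000f0000000000000000000000000000000) (nat_lit 0x0) (nat_lit 0x700000000c000e0007000280000000000000) := T_2 (nat_lit 107) (nat_lit 106) (nat_lit 0) (nat_lit 8) (nat_lit 7) L2519417 (by decide +kernel)
theorem L2519419 : W_2 (nat_lit 8) (nat_lit 0x60001a0058000f0000000000000000000000000000000) (nat_lit 0x0) (nat_lit 0x1800000000700000000c000e0007000280000000000000) := T_2 (nat_lit 180) (nat_lit 179) (nat_lit 0) (nat_lit 10) (nat_lit 10) L2519418 (by decide +kernel)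
theorem L2519420 : W_2 (nat_lit 9) (nat_lit 0x60001a0058000e0000000000000000000000000000000) (nat_lit 0x0) (nat_lit 0x1800000000700018000c000e0007000280000000000000) := T_2 (nat_lit 124) (nat_lit 123) (nat_lit 3) (nat_lit 4) (nat_lit 7) L2519419 (by decide +kernel)
theorem L2519421 : W_2 (nat_lit 10) (nat_lit 0x60001a0058000c0000000000000000000000000000000) (nat_lit 0x0) (nat_lit 0x1800000000700038001c000e0007000280000000000000) := T_2 (nat_lit 125) (nat_lit 108) (nat_lit 4) (nat_lit 7) (nat_lit 10) L2519420 (by decide +kernel)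
theorem L2519422 : W_2 (nat_lit 11) (nat_lit 0x60001a005800080000000000000000000000000000000) (nat_lit 0x0) (nat_lit 0x8001800000000700078001c000e0007000280000000000000) := T_2 (nat_lit 126) (nat_lit 195) (nat_lit 7) (nat_lit 7) (nat_lit 7) L2519421 (by decide +kernel)
theorem L2519423 : W_2 (nat_lit 12) (nat_lit 0x600018005800080000000000000000000000000000000) (nat_lit 0x0) (nat_lit 0x8001800006000700078001c000e0007000280000000000000) := T_2 (nat_lit 157) (nat_lit 158) (nat_lit 3) (nat_lit 4) (nat_lit 9) L2519422 (by decide +kernel)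
theorem L2519424 : W_2 (nat_lit 13) (nat_lit 0x400018005800080000000000000000000000000000000) (nat_lit 0x0) (nat_lit 0xc001a00006000700078001c000e0007000280000000000000) := T_2 (nat_lit 177) (nat_lit 194) (nat_lit 6) (nat_lit 7) (nat_lit 11) L2519423 (by decide +kernel)
theorem L2519425 : W_2 (nat_lit 2) (nat_lit 0x400040003c005800080000000000000000000000000000000) (nat_lit 0x0) (nat_lit 0x180008000000000000000000000000000000000000000000000000) := D_2 (nat_lit 195) (nat_lit 212) (nat_lit 211) (nat_lit 4) (nat_lit 8) (nat_lit 12) (nat_lit 5) (nat_lit 8) (nat_lit 8) (by decide +kernel)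
theorem L2519426 : W_2 (nat_lit 3) (nat_lit 0x400040001c005800080000000000000000000000000000000) (nat_lit 0x0) (nat_lit 0x180008000800020000000000000000000000000000000000000000) := T_2 (nat_lit 161) (nat_lit 179) (nat_lit 3) (nat_lit 5) (nat_lit 9) L2519425 (by decide +kernel)
theorem L2519427 : W_2 (nat_lit 4) (nat_lit 0x40001c005800080000000000000000000000000000000) (nat_lit 0x0) (nat_lit 0x18000c000a00020000000000000000000000000000000000000000) := T_2 (nat_lit 194) (nat_lit 177) (nat_lit 6) (nat_lit 7) (nat_lit 11) L2519426 (by decide +kernel)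
theorem L2519428 : W_2 (nat_lit 5) (nat_lit 0x400018005800080000000000000000000000000000000) (nat_lit 0x0) (nat_lit 0x18000c000a00026000000000000000000000000000000000000000) := T_2 (nat_lit 158) (nat_lit 157) (nat_lit 2) (nat_lit 4) (nat_lit 9) L2519427 (by decide +kernel)
theorem L2519429 : W_2 (nat_lit 2) (nat_lit 0x60001c005800080000000000000000000000000000000) (nat_lit 0x0) (nat_lit 0x1800020000000000000000000000000000000000000000) := D_2 (nat_lit 179) (nat_lit 161) (nat_lit 180) (nat_lit 3) (nat_lit 5) (nat_lit 9) (nat_lit 0) (nat_lit 10) (nat_lit 10) (by decide +kernel)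
theorem L2519430 : W_2 (nat_lit 3) (nat_lit 0x40001c005800080000000000000000000000000000000) (nat_lit 0x0) (nat_lit 0x4001a00020000000000000000000000000000000000000000) := T_2 (nat_lit 177) (nat_lit 194) (nat_lit 6) (nat_lit 7) (nat_lit 11) L2519429 (by decide +kernel)
theorem L2519431 : W_2 (nat_lit 4) (nat_lit 0x400018005800080000000000000000000000000000000) (nat_lit 0x0) (nat_lit 0x4001a00026000000000000000000000000000000000000000) := T_2 (nat_lit 158) (nat_lit 157) (nat_lit 2) (nat_lit 4) (nat_lit 9) L2519430 (by decide +kernel)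
theorem L2519432 : W_2 (nat_lit 11) (nat_lit 0x600018005800080000000000000000000000000000000) (nat_lit 0x0) (nat_lit 0x8001800000000700078001c000e0007000280000000000000) := T_2 (nat_lit 126) (nat_lit 195) (nat_lit 7) (nat_lit 7) (nat_lit 7) L2519409 (by decide +kernel)
theorem L2519433 : W_2 (nat_lit 12) (nat_lit 0x400018005800080000000000000000000000000000000) (nat_lit 0x0) (nat_lit 0xc001a00000000700078001c000e0007000280000000000000) := T_2 (nat_lit 177) (nat_lit 194) (nat_lit 6) (nat_lit 7) (nat_lit 11) L2519432 (by decide +kernel)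
theorem L2519434 : W_2 (nat_lit 14) (nat_lit 0x18005800080000000000000000000000000000000) (nat_lit 0x0) (nat_lit 0x200018000c001e00026000700078001c000e0007000280000000000000) := Q_2 (nat_lit 178) (C_2 L2519358 (C_2 L2519424 (C_2 L2519428 (C_2 L2519354 (C_2 L2519431 (C_2 L2519433 N_2)))))) (by decide +kernel)
theorem L2519435 : W_2 (nat_lit 15) (nat_lit 0x10005800080000000000000000000000000000000) (nat_lit 0x0) (nat_lit 0x20003e003f801fe002f00078007c001c000e0007000280000000000000) := Q_2 (nat_lit 159) (C_2 L2519330 (C_2 L2519349 (C_2 L2519359 (C_2 L2519378 (C_2 L2519390 (C_2 L2519412 (C_2 L2519434 N_2))))))) (by decide +kernel)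
theorem L2519436 : W_2 (nat_lit 2) (nat_lit 0x200010005800080000000000000000000000000000000) (nat_lit 0x0) (nat_lit 0x40004000200000000000000000000000) := D_2 (nat_lit 110) (nat_lit 93) (nat_lit 126) (nat_lit 5) (nat_lit 8) (nat_lit 5) (nat_lit 6) (nat_lit 7) (nat_lit 10) (by decide +kernel)
theorem L2519437 : W_2 (nat_lit 3) (nat_lit 0x10005800080000000000000000000000000000000) (nat_lit 0x0) (nat_lit 0x4000200000000000040004000200000000000000000000000) := T_2 (nat_lit 177) (nat_lit 194) (nat_lit 6) (nat_lit 7) (nat_lit 11) L2519436 (by decide +kernel)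
theorem L2520867 : W_2 (nat_lit 2) (nat_lit 0x300010005a000f0000800000000000000000000000000) (nat_lit 0x0) (nat_lit 0xc000400000000000000000000000000000000000) := D_2 (nat_lit 159) (nat_lit 142) (nat_lit 158) (nat_lit 4) (nat_lit 6) (nat_lit 10) (nat_lit 7) (nat_lit 5) (nat_lit 6) (by decide +kernel)
theorem L2520868 : W_2 (nat_lit 3) (nat_lit 0x300010005a000f0000000000000000000000000000000) (nat_lit 0x0) (nat_lit 0xc000400000000c00000000000000000000000000) := T_2 (nat_lit 107) (nat_lit 106) (nat_lit 0) (nat_lit 8) (nat_lit 7) L2520867 (by decide +kernel)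
theorem L2520869 : W_2 (nat_lit 4) (nat_lit 0x3000100058000f0000000000000000000000000000000) (nat_lit 0x0) (nat_lit 0xc000700000000c00000000000000000000000000) := T_2 (nat_lit 141) (nat_lit 140) (nat_lit 1) (nat_lit 8) (nat_lit 7) L2520868 (by decide +kernel)
theorem L2520870 : W_2 (nat_lit 5) (nat_lit 0x3000100058000e0000000000000000000000000000000) (nat_lit 0x0) (nat_lit 0xc000700018000c00000000000000000000000000) := T_2 (nat_lit 124) (nat_lit 123) (nat_lit 3) (nat_lit 4) (nat_lit 7) L2520869 (by decide +kernel)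
theorem L2520871 : W_2 (nat_lit 6) (nat_lit 0x3000100058000c0000000000000000000000000000000) (nat_lit 0x0) (nat_lit 0xc000700038001c00000000000000000000000000) := T_2 (nat_lit 125) (nat_lit 108) (nat_lit 4) (nat_lit 7) (nat_lit 10) L2520870 (by decide +kernel)
theorem L2520872 : W_2 (nat_lit 7) (nat_lit 0x2000100058000c0000000000000000000000000000000) (nat_lit 0x0) (nat_lit 0x200010000c000700038001c00000000000000000000000000) := T_2 (nat_lit 176) (nat_lit 193) (nat_lit 5) (nat_lit 7) (nat_lit 7) L2520871 (by decide +kernel)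
theorem L2521743 : W_2 (nat_lit 8) (nat_lit 0x6000100058000c0000000000000000000000000000000) (nat_lit 0x0) (nat_lit 0x20001c000e000300038001c00000000000000000000000000) := T_2 (nat_lit 176) (nat_lit 193) (nat_lit 5) (nat_lit 7) (nat_lit 7) L1257743 (by decide +kernel)
theorem L2521744 : W_2 (nat_lit 9) (nat_lit 0x600010005800080000000000000000000000000000000) (nat_lit 0x0) (nat_lit 0xa0001c000e000300078001c00000000000000000000000000) := T_2 (nat_lit 126) (nat_lit 195) (nat_lit 7) (nat_lit 7) (nat_lit 7) L2521743 (by decide +kernel)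
theorem L2521746 : W_2 (nat_lit 2) (nat_lit 0x4003e00000005800080000000000000000000000000000000) (nat_lit 0x0) (nat_lit 0xe0000000000000000000000000000000000000000000000000) := D_2 (nat_lit 198) (nat_lit 197) (nat_lit 199) (nat_lit 3) (nat_lit 7) (nat_lit 10) (nat_lit 3) (nat_lit 8) (nat_lit 10) (by decide +kernel)
theorem L2521747 : W_2 (nat_lit 3) (nat_lit 0x4001e00000005800080000000000000000000000000000000) (nat_lit 0x0) (nat_lit 0xe8002000000000000000000000000000000000000000000000) := T_2 (nat_lit 181) (nat_lit 195) (nat_lit 1) (nat_lit 11) (nat_lit 10) L2521746 (by decide +kernel)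
theorem L2521750 : W_2 (nat_lit 4) (nat_lit 0x1e00000005800080000000000000000000000000000000) (nat_lit 0x0) (nat_lit 0xee002000000000000000000000000000000000000000000000) := T_2 (nat_lit 194) (nat_lit 193) (nat_lit 1) (nat_lit 10) (nat_lit 10) L2521747 (by decide +kernel)
theorem L2521751 : W_2 (nat_lit 4) (nat_lit 0x1e00000005800080000000000000000000000000000000) (nat_lit 0x0) (nat_lit 0x77000100000000000000000000000000000000000000000000) := T_2 (nat_lit 197) (nat_lit 198) (nat_lit 3) (nat_lit 7) (nat_lit 10) L2409623 (by decide +kernel)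
theorem L2521752 : W_2 (nat_lit 4) (nat_lit 0x1e00000005800080000000000000000000000000000000) (nat_lit 0x0) (nat_lit 0x200070000000180000000200000000000000000000000000000000) := T_2 (nat_lit 197) (nat_lit 198) (nat_lit 3) (nat_lit 7) (nat_lit 10) L2409584 (by decide +kernel)
theorem L2521753 : W_2 (nat_lit 3) (nat_lit 0x4001e00080005800080000000000000000000000000000000) (nat_lit 0x0) (nat_lit 0x58002000000000000200000000000000000000000000000000) := T_2 (nat_lit 129) (nat_lit 196) (nat_lit 5) (nat_lit 10) (nat_lit 7) L1567346 (by decide +kernel)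
theorem L2521754 : W_2 (nat_lit 4) (nat_lit 0x1e00080005800080000000000000000000000000000000) (nat_lit 0x0) (nat_lit 0x5e002000000000000200000000000000000000000000000000) := T_2 (nat_lit 194) (nat_lit 193) (nat_lit 1) (nat_lit 10) (nat_lit 10) L2521753 (by decide +kernel)
theorem L2521755 : W_2 (nat_lit 5) (nat_lit 0x1e00000005800080000000000000000000000000000000) (nat_lit 0x0) (nat_lit 0x5e002000180000000200000000000000000000000000000000) := T_2 (nat_lit 163) (nat_lit 164) (nat_lit 2) (nat_lit 7) (nat_lit 10) L2521754 (by decide +kernel)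
theorem L2521756 : W_2 (nat_lit 2) (nat_lit 0x14003e00080005800080000000000000000000000000000000) (nat_lit 0x0) (nat_lit 0x200020000100000000000000000000000000000000000000000000) := D_2 (nat_lit 197) (nat_lit 176) (nat_lit 213) (nat_lit 3) (nat_lit 6) (nat_lit 10) (nat_lit 5) (nat_lit 10) (nat_lit 8) (by decide +kernel)
theorem L2521757 : W_2 (nat_lit 3) (nat_lit 0x4003e00080005800080000000000000000000000000000000) (nat_lit 0x0) (nat_lit 0x200030000100000000000200000000000000000000000000000000) := T_2 (nat_lit 196) (nat_lit 129) (nat_lit 5) (nat_lit 10) (nat_lit 7) L2521756 (by decide +kernel)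
theorem L2521758 : W_2 (nat_lit 4) (nat_lit 0x4001e00080005800080000000000000000000000000000000) (nat_lit 0x0) (nat_lit 0x200038002100000000000200000000000000000000000000000000) := T_2 (nat_lit 181) (nat_lit 195) (nat_lit 1) (nat_lit 11) (nat_lit 10) L2521757 (by decide +kernel)
theorem L2521759 : W_2 (nat_lit 5) (nat_lit 0x4001e00000005800080000000000000000000000000000000) (nat_lit 0x0) (nat_lit 0x200038002100180000000200000000000000000000000000000000) := T_2 (nat_lit 163) (nat_lit 164) (nat_lit 2) (nat_lit 7) (nat_lit 10) L2521758 (by decide +kernel)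
theorem L2521760 : W_2 (nat_lit 6) (nat_lit 0x1e00000005800080000000000000000000000000000000) (nat_lit 0x0) (nat_lit 0x20003e002100180000000200000000000000000000000000000000) := T_2 (nat_lit 194) (nat_lit 193) (nat_lit 1) (nat_lit 10) (nat_lit 10) L2521759 (by decide +kernel)
theorem L2521761 : W_2 (nat_lit 7) (nat_lit 0xe00000005800080000000000000000000000000000000) (nat_lit 0x0) (nat_lit 0x2000ff003100180000000200000000000000000000000000000000) := Q_2 (nat_lit 180) (C_2 L2521750 (C_2 L2521751 (C_2 L2521752 (C_2 L2521755 (C_2 L2521760 N_2))))) (by decide +kernel)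
theorem L2521793 : W_2 (nat_lit 2) (nat_lit 0x4003e00000005800080000000000000000000000000000000) (nat_lit 0x0) (nat_lit 0x380000000000000000000000000000000000000000) := D_2 (nat_lit 164) (nat_lit 163) (nat_lit 165) (nat_lit 2) (nat_lit 7) (nat_lit 10) (nat_lit 2) (nat_lit 8) (nat_lit 10) (by decide +kernel)
theorem L2521794 : W_2 (nat_lit 3) (nat_lit 0x4001e00000005800080000000000000000000000000000000) (nat_lit 0x0) (nat_lit 0x8002000380000000000000000000000000000000000000000) := T_2 (nat_lit 181) (nat_lit 195) (nat_lit 1) (nat_lit 11) (nat_lit 10) L2521793 (by decide +kernel)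
theorem L2521795 : W_2 (nat_lit 4) (nat_lit 0x4000e00000005800080000000000000000000000000000000) (nat_lit 0x0) (nat_lit 0xa003000380000000000000000000000000000000000000000) := T_2 (nat_lit 180) (nat_lit 193) (nat_lit 1) (nat_lit 10) (nat_lit 10) L2521794 (by decide +kernel)
theorem L2521803 : W_2 (nat_lit 2) (nat_lit 0x10000f80000005800080000000000000000000000000000000) (nat_lit 0x0) (nat_lit 0xe000000000000000000000000000000000000000) := D_2 (nat_lit 158) (nat_lit 157) (nat_lit 159) (nat_lit 0) (nat_lit 8) (nat_lit 10) (nat_lit 0) (nat_lit 9) (nat_lit 10) (by decide +kernel)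
theorem L2521804 : W_2 (nat_lit 3) (nat_lit 0x10000f00000005800080000000000000000000000000000000) (nat_lit 0x0) (nat_lit 0x800008000e000000000000000000000000000000000000000) := T_2 (nat_lit 175) (nat_lit 195) (nat_lit 3) (nat_lit 5) (nat_lit 10) L2521803 (by decide +kernel)
theorem L2521805 : W_2 (nat_lit 4) (nat_lit 0xf00000005800080000000000000000000000000000000) (nat_lit 0x0) (nat_lit 0x3800008000e000000000000000000000000000000000000000) := T_2 (nat_lit 196) (nat_lit 197) (nat_lit 3) (nat_lit 6) (nat_lit 10) L2521804 (by decide +kernel)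
theorem L2521808 : W_2 (nat_lit 10) (nat_lit 0x600000005800080000000000000000000000000000000) (nat_lit 0x0) (nat_lit 0xe0001c001e000300078001c00000000000000000000000000) := T_2 (nat_lit 160) (nat_lit 194) (nat_lit 6) (nat_lit 7) (nat_lit 11) L2521744 (by decide +kernel)
theorem L2523210 : W_2 (nat_lit 2) (nat_lit 0x200010005800080000000000000000000000000000000) (nat_lit 0x0) (nat_lit 0x20000000040004000000000000000000000000000) := D_2 (nat_lit 110) (nat_lit 126) (nat_lit 161) (nat_lit 6) (nat_lit 7) (nat_lit 10) (nat_lit 5) (nat_lit 8) (nat_lit 6) (by decide +kernel)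
theorem L2523211 : W_2 (nat_lit 3) (nat_lit 0x10005800080000000000000000000000000000000) (nat_lit 0x0) (nat_lit 0x4000200020000000040004000000000000000000000000000) := T_2 (nat_lit 177) (nat_lit 194) (nat_lit 6) (nat_lit 7) (nat_lit 11) L2523210 (by decide +kernel)
theorem L2528627 : W_2 (nat_lit 2) (nat_lit 0x80018000400020005800080004000400000000000000000000000) (nat_lit 0x0) (nat_lit 0x1000100000000000010000000000000000000000000000000000000000) := D_2 (nat_lit 212) (nat_lit 228) (nat_lit 160) (nat_lit 5) (nat_lit 8) (nat_lit 9) (nat_lit 4) (nat_lit 8) (nat_lit 12) (by decide +kernel)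
theorem L2528628 : W_2 (nat_lit 3) (nat_lit 0x80018000400020005000080004000400000000000000000000000) (nat_lit 0x0) (nat_lit 0x1000100000000000010000800040000000000000000000000000000000) := T_2 (nat_lit 143) (nat_lit 126) (nat_lit 4) (nat_lit 8) (nat_lit 11) L2528627 (by decide +kernel)
theorem L2528629 : W_2 (nat_lit 4) (nat_lit 0x18000400020005000080004000400000000000000000000000) (nat_lit 0x0) (nat_lit 0x1000180004000000010000800040000000000000000000000000000000) := T_2 (nat_lit 211) (nat_lit 194) (nat_lit 5) (nat_lit 8) (nat_lit 8) L2528628 (by decide +kernel)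
theorem L2528630 : W_2 (nat_lit 5) (nat_lit 0x10000400020005000080004000400000000000000000000000) (nat_lit 0x0) (nat_lit 0x100038000c000000010000800040000000000000000000000000000000) := T_2 (nat_lit 195) (nat_lit 213) (nat_lit 7) (nat_lit 8) (nat_lit 8) L2528629 (by decide +kernel)
theorem L2555900 : W_2 (nat_lit 7) (nat_lit 0x5000080004000400000000000000000000000) (nat_lit 0x0) (nat_lit 0x30000800040008000200038000c00060000000000) := T_2 (nat_lit 93) (nat_lit 77) (nat_lit 6) (nat_lit 8) (nat_lit 8) L2505976 (by decide +kernel)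
theorem L2555901 : W_2 (nat_lit 4) (nat_lit 0x5000080004000600000000000000000000000) (nat_lit 0x0) (nat_lit 0x10000800040000000100018000400000000000000) := T_2 (nat_lit 143) (nat_lit 160) (nat_lit 5) (nat_lit 8) (nat_lit 5) L1662150 (by decide +kernel)
theorem L2555902 : W_2 (nat_lit 5) (nat_lit 0x5000080004000400000000000000000000000) (nat_lit 0x0) (nat_lit 0x10000800040000000300038000400000000000000) := T_2 (nat_lit 93) (nat_lit 77) (nat_lit 6) (nat_lit 8) (nat_lit 8) L2555901 (by decide +kernel)
theorem L2555969 : W_2 (nat_lit 2) (nat_lit 0x10005800080004000400000000000000000000000) (nat_lit 0x0) (nat_lit 0x4000200000000000040000000000000000000000000000000) := D_2 (nat_lit 177) (nat_lit 194) (nat_lit 126) (nat_lit 6) (nat_lit 7) (nat_lit 11) (nat_lit 6) (nat_lit 7) (nat_lit 10) (by decide +kernel)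
theorem L2555970 : W_2 (nat_lit 7) (nat_lit 0x4000000010005800080004000400000000000000000000000) (nat_lit 0x0) (nat_lit 0x1880020006000380018000a0000000000000000000) := T_2 (nat_lit 145) (nat_lit 159) (nat_lit 1) (nat_lit 10) (nat_lit 8) L2379105 (by decide +kernel)
theorem L2555971 : W_2 (nat_lit 8) (nat_lit 0x10005800080004000400000000000000000000000) (nat_lit 0x0) (nat_lit 0x40002001880020006000380018000a0000000000000000000) := T_2 (nat_lit 194) (nat_lit 177) (nat_lit 6) (nat_lit 7) (nat_lit 11) L2555970 (by decide +kernel)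
theorem L2555972 : W_2 (nat_lit 7) (nat_lit 0x10005800080004000400000000000000000000000) (nat_lit 0x0) (nat_lit 0x1880020006000380018000a0000000000000000000) := T_2 (nat_lit 145) (nat_lit 159) (nat_lit 1) (nat_lit 10) (nat_lit 8) L2070545 (by decide +kernel)
theorem L2555973 : W_2 (nat_lit 9) (nat_lit 0x10005000080004000400000000000000000000000) (nat_lit 0x0) (nat_lit 0x40002001880028006400380018000a0000000000000000000) := Q_2 (nat_lit 143) (C_2 L2555969 (C_2 L2555971 (C_2 L2555972 N_2))) (by decide +kernel)
theorem L2555974 : W_2 (nat_lit 2) (nat_lit 0x10005000080004000400000000000000000000000) (nat_lit 0x0) (nat_lit 0x200020000000000008000000000000000000000000000) := D_2 (nat_lit 161) (nat_lit 177) (nat_lit 111) (nat_lit 5) (nat_lit 8) (nat_lit 6) (nat_lit 6) (nat_lit 8) (nat_lit 9) (by decide +kernel)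
theorem L2555975 : W_2 (nat_lit 3) (nat_lit 0x10005000080004000400000000000000000000000) (nat_lit 0x0) (nat_lit 0x4000200020000800040000000000000000000000000000000) := T_2 (nat_lit 177) (nat_lit 161) (nat_lit 5) (nat_lit 8) (nat_lit 6) L2391850 (by decide +kernel)
theorem L2556017 : W_2 (nat_lit 2) (nat_lit 0x9000500088003c002400000000000000000000000) (nat_lit 0x0) (nat_lit 0x1000040004000000000000000000000000) := D_2 (nat_lit 114) (nat_lit 98) (nat_lit 132) (nat_lit 2) (nat_lit 9) (nat_lit 6) (nat_lit 3) (nat_lit 9) (nat_lit 6) (by decide +kernel)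
theorem L2556018 : W_2 (nat_lit 3) (nat_lit 0x9000500008003c002400000000000000000000000) (nat_lit 0x0) (nat_lit 0x1c00040004000000000000000000000000) := T_2 (nat_lit 131) (nat_lit 130) (nat_lit 3) (nat_lit 8) (nat_lit 6) L2556017 (by decide +kernel)
theorem L2556019 : W_2 (nat_lit 4) (nat_lit 0x9000500008003c000400000000000000000000000) (nat_lit 0x0) (nat_lit 0x1c00040007000000000000000000000000) := T_2 (nat_lit 97) (nat_lit 96) (nat_lit 2) (nat_lit 8) (nat_lit 6) L2556018 (by decide +kernel)
theorem L2556020 : W_2 (nat_lit 5) (nat_lit 0x9000500008001c000400000000000000000000000) (nat_lit 0x0) (nat_lit 0x1c40060007000000000000000000000000) := T_2 (nat_lit 113) (nat_lit 126) (nat_lit 1) (nat_lit 11) (nat_lit 6) L2556019 (by decide +kernel)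
theorem L2556021 : W_2 (nat_lit 6) (nat_lit 0x1000500008001c000400000000000000000000000) (nat_lit 0x0) (nat_lit 0x80000001e40060007000000000000000000000000) := T_2 (nat_lit 163) (nat_lit 129) (nat_lit 4) (nat_lit 10) (nat_lit 9) L2556020 (by decide +kernel)
theorem L2556022 : W_2 (nat_lit 7) (nat_lit 0x1000500008000c000400000000000000000000000) (nat_lit 0x0) (nat_lit 0x80000001e40070007800020001000000000000000) := Q_2 (nat_lit 112) (C_2 L2067952 (C_2 L2070862 (C_2 L2556021 N_2))) (by decide +kernel)
theorem L2556023 : W_2 (nat_lit 8) (nat_lit 0x10005000080004000400000000000000000000000) (nat_lit 0x0) (nat_lit 0xa0000001e40078007800020001000000000000000) := T_2 (nat_lit 111) (nat_lit 161) (nat_lit 6) (nat_lit 8) (nat_lit 9) L2556022 (by decide +kernel)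
theorem L2556024 : W_2 (nat_lit 10) (nat_lit 0x5000080004000400000000000000000000000) (nat_lit 0x0) (nat_lit 0x40002001b8002801e400780078000a0001000000000000000) := Q_2 (nat_lit 160) (C_2 L2555973 (C_2 L2555974 (C_2 L2555975 (C_2 L2556023 N_2)))) (by decide +kernel)
theorem L2556025 : W_2 (nat_lit 2) (nat_lit 0x500008000c000400000000000000000000000) (nat_lit 0x0) (nat_lit 0x200020001000000000000000) := D_2 (nat_lit 77) (nat_lit 93) (nat_lit 60) (nat_lit 6) (nat_lit 8) (nat_lit 8) (nat_lit 5) (nat_lit 9) (nat_lit 3) (by decide +kernel)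
theorem L2556026 : W_2 (nat_lit 3) (nat_lit 0x5000080004000400000000000000000000000) (nat_lit 0x0) (nat_lit 0x20000000000008000200020001000000000000000) := T_2 (nat_lit 111) (nat_lit 161) (nat_lit 6) (nat_lit 8) (nat_lit 9) L2556025 (by decide +kernel)
theorem L2556027 : W_2 (nat_lit 2) (nat_lit 0x48003c005800080004000400000000000000000000000) (nat_lit 0x0) (nat_lit 0x100008000000000000000040000000000000000000000000000000) := D_2 (nat_lit 195) (nat_lit 126) (nat_lit 212) (nat_lit 4) (nat_lit 8) (nat_lit 11) (nat_lit 4) (nat_lit 8) (nat_lit 12) (by decide +kernel)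
theorem L2556028 : W_2 (nat_lit 3) (nat_lit 0x8003c005800080004000400000000000000000000000) (nat_lit 0x0) (nat_lit 0x100008000c00000000000040000000000000000000000000000000) := T_2 (nat_lit 178) (nat_lit 179) (nat_lit 3) (nat_lit 5) (nat_lit 9) L2556027 (by decide +kernel)
theorem L2556029 : W_2 (nat_lit 4) (nat_lit 0x3c005800080004000400000000000000000000000) (nat_lit 0x0) (nat_lit 0x100008000cc0000000000040000000000000000000000000000000) := T_2 (nat_lit 175) (nat_lit 174) (nat_lit 1) (nat_lit 8) (nat_lit 9) L2556028 (by decide +kernel)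
theorem L2556030 : W_2 (nat_lit 5) (nat_lit 0x38005800080004000400000000000000000000000) (nat_lit 0x0) (nat_lit 0x100008000cc0006000000040000000000000000000000000000000) := T_2 (nat_lit 158) (nat_lit 157) (nat_lit 2) (nat_lit 4) (nat_lit 9) L2556029 (by decide +kernel)
theorem L2556031 : W_2 (nat_lit 6) (nat_lit 0x30005800080004000400000000000000000000000) (nat_lit 0x0) (nat_lit 0x100008000cc000e002000040000000000000000000000000000000) := T_2 (nat_lit 159) (nat_lit 145) (nat_lit 1) (nat_lit 10) (nat_lit 8) L2556030 (by decide +kernel)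
theorem L2556032 : W_2 (nat_lit 7) (nat_lit 0x30005000080004000400000000000000000000000) (nat_lit 0x0) (nat_lit 0x100008000cc000e002800040000000200000000000000000000000) := T_2 (nat_lit 143) (nat_lit 93) (nat_lit 5) (nat_lit 8) (nat_lit 5) L2556031 (by decide +kernel)
theorem L2556033 : W_2 (nat_lit 8) (nat_lit 0x20005000080004000400000000000000000000000) (nat_lit 0x0) (nat_lit 0x100008000ec001e002800040000000200000000000000000000000) := T_2 (nat_lit 160) (nat_lit 177) (nat_lit 5) (nat_lit 8) (nat_lit 6) L2556032 (by decide +kernel)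
theorem L2556034 : W_2 (nat_lit 9) (nat_lit 0x5000080004000400000000000000000000000) (nat_lit 0x0) (nat_lit 0x100008000ec003e002800040008000200000000000000000000000) := T_2 (nat_lit 161) (nat_lit 111) (nat_lit 6) (nat_lit 8) (nat_lit 9) L2556033 (by decide +kernel)
theorem L2556035 : W_2 (nat_lit 11) (nat_lit 0x5000080000000400000000000000000000000) (nat_lit 0x0) (nat_lit 0x10000c000ec01be002801e4007c007b000b8001c00060000000000) := Q_2 (nat_lit 110) (C_2 L2555900 (C_2 L2555902 (C_2 L2556024 (C_2 L2556026 (C_2 L2556034 N_2))))) (by decide +kernel)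
theorem L2556124 : W_2 (nat_lit 5) (nat_lit 0x5000280014000400000000000000000000000) (nat_lit 0x0) (nat_lit 0x20001800080000000200018000a0000000000000000000) := T_2 (nat_lit 95) (nat_lit 77) (nat_lit 4) (nat_lit 10) (nat_lit 8) L2388312 (by decide +kernel)
theorem L2556125 : W_2 (nat_lit 5) (nat_lit 0x5000280014000400000000000000000000000) (nat_lit 0x0) (nat_lit 0x2000180008000000028001800080000000000000000000) := T_2 (nat_lit 163) (nat_lit 111) (nat_lit 4) (nat_lit 10) (nat_lit 9) L2392069 (by decide +kernel)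
theorem L2556126 : W_2 (nat_lit 4) (nat_lit 0x5000280014000400000000000000000000000) (nat_lit 0x0) (nat_lit 0x800000000000280018000a0000000000000000000) := T_2 (nat_lit 163) (nat_lit 111) (nat_lit 4) (nat_lit 10) (nat_lit 9) L2394538 (by decide +kernel)
theorem L2556127 : W_2 (nat_lit 6) (nat_lit 0x80005000280014000400000000000000000000000) (nat_lit 0x0) (nat_lit 0xa00070003800000000000400020001000000000000000000000000) := T_2 (nat_lit 113) (nat_lit 96) (nat_lit 6) (nat_lit 10) (nat_lit 9) L2395074 (by decide +kernel)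
theorem L2556128 : W_2 (nat_lit 7) (nat_lit 0x5000280014000400000000000000000000000) (nat_lit 0x0) (nat_lit 0xa00070003800080000000400028001000000000000000000000000) := T_2 (nat_lit 163) (nat_lit 111) (nat_lit 4) (nat_lit 10) (nat_lit 9) L2556127 (by decide +kernel)
theorem L2556129 : W_2 (nat_lit 2) (nat_lit 0x80005000280014000c00000000000000000000000) (nat_lit 0x0) (nat_lit 0x2000100008000000000000000000000000000000000000) := D_2 (nat_lit 164) (nat_lit 181) (nat_lit 147) (nat_lit 7) (nat_lit 10) (nat_lit 6) (nat_lit 7) (nat_lit 10) (nat_lit 5) (by decide +kernel)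
theorem L2556130 : W_2 (nat_lit 3) (nat_lit 0x80005000280014000400000000000000000000000) (nat_lit 0x0) (nat_lit 0x2000100008000000000000800020000000000000000000) := T_2 (nat_lit 95) (nat_lit 77) (nat_lit 4) (nat_lit 10) (nat_lit 8) L2556129 (by decide +kernel)
theorem L2556131 : W_2 (nat_lit 4) (nat_lit 0x5000280014000400000000000000000000000) (nat_lit 0x0) (nat_lit 0x2000180008000000008000800020000000000000000000) := T_2 (nat_lit 163) (nat_lit 111) (nat_lit 4) (nat_lit 10) (nat_lit 9) L2556130 (by decide +kernel)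
theorem L2556132 : W_2 (nat_lit 2) (nat_lit 0xd000280094003c00240000000000000000000) (nat_lit 0x0) (nat_lit 0x100004000400000000000000000000) := D_2 (nat_lit 98) (nat_lit 82) (nat_lit 116) (nat_lit 2) (nat_lit 10) (nat_lit 5) (nat_lit 3) (nat_lit 10) (nat_lit 5) (by decide +kernel)
theorem L2556133 : W_2 (nat_lit 3) (nat_lit 0xd000280014003c00240000000000000000000) (nat_lit 0x0) (nat_lit 0x1c0004000400000000000000000000) := T_2 (nat_lit 115) (nat_lit 114) (nat_lit 3) (nat_lit 9) (nat_lit 5) L2556132 (by decide +kernel)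
theorem L2556134 : W_2 (nat_lit 4) (nat_lit 0xd000280014003c00040000000000000000000) (nat_lit 0x0) (nat_lit 0x1c0004000700000000000000000000) := T_2 (nat_lit 81) (nat_lit 80) (nat_lit 2) (nat_lit 9) (nat_lit 5) L2556133 (by decide +kernel)
theorem L2556135 : W_2 (nat_lit 5) (nat_lit 0xd000280014003c00000000000000000000000) (nat_lit 0x0) (nat_lit 0x4001c0004000740000000000000000000) := T_2 (nat_lit 78) (nat_lit 130) (nat_lit 7) (nat_lit 10) (nat_lit 4) L2556134 (by decide +kernel)
theorem L2556136 : W_2 (nat_lit 6) (nat_lit 0x5000280014003c00000000000000000000000) (nat_lit 0x0) (nat_lit 0x1000080004001c0004000740000000000000000000) := T_2 (nat_lit 147) (nat_lit 164) (nat_lit 7) (nat_lit 10) (nat_lit 5) L2556135 (by decide +kernel)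
theorem L2556137 : W_2 (nat_lit 7) (nat_lit 0x5000280014001c00000000000000000000000) (nat_lit 0x0) (nat_lit 0x1000080004001c8006000740000000000000000000) := T_2 (nat_lit 97) (nat_lit 111) (nat_lit 1) (nat_lit 12) (nat_lit 5) L2556136 (by decide +kernel)
theorem L2556138 : W_2 (nat_lit 8) (nat_lit 0x5000280014000c00000000000000000000000) (nat_lit 0x0) (nat_lit 0x1000080004001c80070007c0000000000000000000) := T_2 (nat_lit 96) (nat_lit 79) (nat_lit 6) (nat_lit 10) (nat_lit 8) L2556137 (by decide +kernel)
theorem L2556139 : W_2 (nat_lit 9) (nat_lit 0x5000280014000400000000000000000000000) (nat_lit 0x0) (nat_lit 0x1000080004001c80078007e0000000000000000000) := T_2 (nat_lit 95) (nat_lit 77) (nat_lit 4) (nat_lit 10) (nat_lit 8) L2556138 (by decide +kernel)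
theorem L2556140 : W_2 (nat_lit 10) (nat_lit 0x5000080014000400000000000000000000000) (nat_lit 0x0) (nat_lit 0xa000700038001800080006001e80078007e0000000000000000000) := Q_2 (nat_lit 129) (C_2 L2556124 (C_2 L2556125 (C_2 L2556126 (C_2 L2556128 (C_2 L2556131 (C_2 L2556139 N_2)))))) (by decide +kernel)
theorem L2556355 : W_2 (nat_lit 6) (nat_lit 0x400020005000080004000400000000000000000000000) (nat_lit 0x0) (nat_lit 0x100038001c000800010000800040000000000000000000000000000000) := T_2 (nat_lit 196) (nat_lit 179) (nat_lit 7) (nat_lit 8) (nat_lit 7) L2528630 (by decide +kernel)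
theorem L2556356 : W_2 (nat_lit 2) (nat_lit 0x400020005000080004000400000000000000000000000) (nat_lit 0x0) (nat_lit 0x4000200010000000000000000000000000000000000000000) := D_2 (nat_lit 177) (nat_lit 160) (nat_lit 194) (nat_lit 5) (nat_lit 8) (nat_lit 6) (nat_lit 5) (nat_lit 8) (nat_lit 7) (by decide +kernel)
theorem L2556357 : W_2 (nat_lit 2) (nat_lit 0x18000400030005000080004000400000000000000000000000) (nat_lit 0x0) (nat_lit 0x100000000000000000800040000000000000000000000000000000) := D_2 (nat_lit 143) (nat_lit 212) (nat_lit 126) (nat_lit 4) (nat_lit 8) (nat_lit 12) (nat_lit 4) (nat_lit 8) (nat_lit 11) (by decide +kernel)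
theorem L2556358 : W_2 (nat_lit 3) (nat_lit 0x10000400030005000080004000400000000000000000000000) (nat_lit 0x0) (nat_lit 0x300008000000000000800040000000000000000000000000000000) := T_2 (nat_lit 195) (nat_lit 213) (nat_lit 7) (nat_lit 8) (nat_lit 8) L2556357 (by decide +kernel)
theorem L2556359 : W_2 (nat_lit 4) (nat_lit 0x10000400020005000080004000400000000000000000000000) (nat_lit 0x0) (nat_lit 0x300008000200010000800040000000000000000000000000000000) := T_2 (nat_lit 160) (nat_lit 177) (nat_lit 5) (nat_lit 8) (nat_lit 6) L2556358 (by decide +kernel)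
theorem L2556360 : W_2 (nat_lit 5) (nat_lit 0x400020005000080004000400000000000000000000000) (nat_lit 0x0) (nat_lit 0x300018000a00010000800040000000000000000000000000000000) := T_2 (nat_lit 196) (nat_lit 179) (nat_lit 7) (nat_lit 8) (nat_lit 7) L2556359 (by decide +kernel)
theorem L2556473 : W_2 (nat_lit 7) (nat_lit 0x20005000080004000400000000000000000000000) (nat_lit 0x0) (nat_lit 0x100038001c000e00010000800040000000000000000000000000000000) := Q_2 (nat_lit 178) (C_2 L2556360 (C_2 L2391871 (C_2 L2556355 (C_2 L2556356 N_2)))) (by decide +kernel)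
theorem L2556474 : W_2 (nat_lit 8) (nat_lit 0x5000080004000400000000000000000000000) (nat_lit 0x0) (nat_lit 0x100038001c000e00030000800040008000000000000000000000000000) := T_2 (nat_lit 161) (nat_lit 111) (nat_lit 6) (nat_lit 8) (nat_lit 9) L2556473 (by decide +kernel)
theorem L2556475 : W_2 (nat_lit 9) (nat_lit 0x5000080000000400000000000000000000000) (nat_lit 0x0) (nat_lit 0x100038001c000e0003000080004000c000300038001400000000000000) := Q_2 (nat_lit 110) (C_2 L2556026 (C_2 L2555902 (C_2 L2556474 N_2))) (by decide +kernel)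
theorem L2556476 : W_2 (nat_lit 2) (nat_lit 0xf800480000000400000000000000000000000) (nat_lit 0x0) (nat_lit 0x380000000000000000000000000000000000000000) := D_2 (nat_lit 164) (nat_lit 165) (nat_lit 163) (nat_lit 3) (nat_lit 8) (nat_lit 8) (nat_lit 3) (nat_lit 7) (nat_lit 8) (by decide +kernel)
theorem L2556477 : W_2 (nat_lit 3) (nat_lit 0xf000480000000400000000000000000000000) (nat_lit 0x0) (nat_lit 0x380000800200000000000000000000000000000000) := T_2 (nat_lit 143) (nat_lit 129) (nat_lit 2) (nat_lit 7) (nat_lit 8) L2556476 (by decide +kernel)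
theorem L2556478 : W_2 (nat_lit 4) (nat_lit 0xf000080000000400000000000000000000000) (nat_lit 0x0) (nat_lit 0x380000800e00000000000000000000000000000000) := T_2 (nat_lit 130) (nat_lit 131) (nat_lit 2) (nat_lit 8) (nat_lit 8) L2556477 (by decide +kernel)
theorem L2556479 : W_2 (nat_lit 5) (nat_lit 0x7000080000000400000000000000000000000) (nat_lit 0x0) (nat_lit 0x380008800e40000000000000000000000000000000) := T_2 (nat_lit 147) (nat_lit 126) (nat_lit 0) (nat_lit 11) (nat_lit 8) L2556478 (by decide +kernel)
theorem L2556480 : W_2 (nat_lit 2) (nat_lit 0x18000f000480000000400000000000000000000000) (nat_lit 0x0) (nat_lit 0x1000000000000000020001000000000000000000000000) := D_2 (nat_lit 113) (nat_lit 96) (nat_lit 180) (nat_lit 5) (nat_lit 11) (nat_lit 5) (nat_lit 5) (nat_lit 11) (nat_lit 6) (by decide +kernel)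
theorem L2556481 : W_2 (nat_lit 3) (nat_lit 0x10000f000480000000400000000000000000000000) (nat_lit 0x0) (nat_lit 0x1000080000800000020001000000000000000000000000) := T_2 (nat_lit 163) (nat_lit 143) (nat_lit 3) (nat_lit 7) (nat_lit 8) L2556480 (by decide +kernel)
theorem L2556482 : W_2 (nat_lit 4) (nat_lit 0xf000480000000400000000000000000000000) (nat_lit 0x0) (nat_lit 0x1000380000800000020001000000000000000000000000) := T_2 (nat_lit 164) (nat_lit 165) (nat_lit 3) (nat_lit 8) (nat_lit 8) L2556481 (by decide +kernel)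
theorem L2556483 : W_2 (nat_lit 5) (nat_lit 0xf000080000000400000000000000000000000) (nat_lit 0x0) (nat_lit 0x1000380000800c00020001000000000000000000000000) := T_2 (nat_lit 130) (nat_lit 131) (nat_lit 2) (nat_lit 8) (nat_lit 8) L2556482 (by decide +kernel)
theorem L2556484 : W_2 (nat_lit 6) (nat_lit 0x7000080000000400000000000000000000000) (nat_lit 0x0) (nat_lit 0x1000380008800c40020001000000000000000000000000) := T_2 (nat_lit 147) (nat_lit 126) (nat_lit 0) (nat_lit 11) (nat_lit 8) L2556483 (by decide +kernel)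
theorem L2556558 : W_2 (nat_lit 2) (nat_lit 0x80007001680010000400000000000000000000000) (nat_lit 0x0) (nat_lit 0x1000000000000000020001000000000000000000000000) := D_2 (nat_lit 113) (nat_lit 96) (nat_lit 180) (nat_lit 6) (nat_lit 10) (nat_lit 9) (nat_lit 6) (nat_lit 10) (nat_lit 10) (by decide +kernel)
theorem L2556559 : W_2 (nat_lit 3) (nat_lit 0x7001680010000400000000000000000000000) (nat_lit 0x0) (nat_lit 0x1000080000000000028001000000000000000000000000) := T_2 (nat_lit 163) (nat_lit 111) (nat_lit 4) (nat_lit 10) (nat_lit 9) L2556558 (by decide +kernel)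
theorem L2556560 : W_2 (nat_lit 4) (nat_lit 0x7000680010000400000000000000000000000) (nat_lit 0x0) (nat_lit 0x1000080000001800028001000000000000000000000000) := T_2 (nat_lit 132) (nat_lit 131) (nat_lit 1) (nat_lit 13) (nat_lit 7) L2556559 (by decide +kernel)
theorem L2556561 : W_2 (nat_lit 2) (nat_lit 0x80007000680010000c00000000000000000000000) (nat_lit 0x0) (nat_lit 0x20001000080000000000000000000) := D_2 (nat_lit 96) (nat_lit 79) (nat_lit 113) (nat_lit 6) (nat_lit 10) (nat_lit 8) (nat_lit 6) (nat_lit 10) (nat_lit 9) (by decide +kernel)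
theorem L2556562 : W_2 (nat_lit 3) (nat_lit 0x7000680010000c00000000000000000000000) (nat_lit 0x0) (nat_lit 0x80000000000028001000080000000000000000000) := T_2 (nat_lit 163) (nat_lit 111) (nat_lit 4) (nat_lit 10) (nat_lit 9) L2556561 (by decide +kernel)
theorem L2556563 : W_2 (nat_lit 4) (nat_lit 0x7000680010000400000000000000000000000) (nat_lit 0x0) (nat_lit 0x800000000000280018000a0000000000000000000) := T_2 (nat_lit 95) (nat_lit 77) (nat_lit 4) (nat_lit 10) (nat_lit 8) L2556562 (by decide +kernel)
theorem L2556564 : W_2 (nat_lit 2) (nat_lit 0x7001680030001c00000000000000000000000) (nat_lit 0x0) (nat_lit 0x40000300000000000000000000000) := D_2 (nat_lit 93) (nat_lit 114) (nat_lit 92) (nat_lit 3) (nat_lit 8) (nat_lit 5) (nat_lit 3) (nat_lit 7) (nat_lit 5) (by decide +kernel)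
theorem L2556565 : W_2 (nat_lit 3) (nat_lit 0x7001680010001c00000000000000000000000) (nat_lit 0x0) (nat_lit 0x80000000000060000300000000000000000000000) := T_2 (nat_lit 113) (nat_lit 163) (nat_lit 6) (nat_lit 10) (nat_lit 9) L2556564 (by decide +kernel)
theorem L2556566 : W_2 (nat_lit 4) (nat_lit 0x7001680010000c00000000000000000000000) (nat_lit 0x0) (nat_lit 0x80000000000060001300080000000000000000000) := T_2 (nat_lit 96) (nat_lit 79) (nat_lit 6) (nat_lit 10) (nat_lit 8) L2556565 (by decide +kernel)
theorem L2556567 : W_2 (nat_lit 5) (nat_lit 0x7000680010000c00000000000000000000000) (nat_lit 0x0) (nat_lit 0x80000001800060001300080000000000000000000) := T_2 (nat_lit 132) (nat_lit 131) (nat_lit 1) (nat_lit 13) (nat_lit 7) L2556566 (by decide +kernel)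
theorem L2556568 : W_2 (nat_lit 6) (nat_lit 0x7000680010000400000000000000000000000) (nat_lit 0x0) (nat_lit 0x80000001800060001b000a0000000000000000000) := T_2 (nat_lit 95) (nat_lit 77) (nat_lit 4) (nat_lit 10) (nat_lit 8) L2556567 (by decide +kernel)
theorem L2556569 : W_2 (nat_lit 2) (nat_lit 0x7001680018001c00000000000000000000000) (nat_lit 0x0) (nat_lit 0x4006000000000000000000000000) := D_2 (nat_lit 97) (nat_lit 98) (nat_lit 110) (nat_lit 1) (nat_lit 13) (nat_lit 5) (nat_lit 1) (nat_lit 12) (nat_lit 5) (by decide +kernel)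
theorem L2556570 : W_2 (nat_lit 3) (nat_lit 0x7001680018000c00000000000000000000000) (nat_lit 0x0) (nat_lit 0x4007000080000000000000000000) := T_2 (nat_lit 96) (nat_lit 79) (nat_lit 6) (nat_lit 10) (nat_lit 8) L2556569 (by decide +kernel)
theorem L2556571 : W_2 (nat_lit 4) (nat_lit 0x7000680018000c00000000000000000000000) (nat_lit 0x0) (nat_lit 0x1800004007000080000000000000000000) := T_2 (nat_lit 132) (nat_lit 131) (nat_lit 1) (nat_lit 13) (nat_lit 7) L2556570 (by decide +kernel)
theorem L2556572 : W_2 (nat_lit 5) (nat_lit 0x7000680010000c00000000000000000000000) (nat_lit 0x0) (nat_lit 0x8000000180000c007000080000000000000000000) := T_2 (nat_lit 111) (nat_lit 163) (nat_lit 4) (nat_lit 10) (nat_lit 9) L2556571 (by decide +kernel)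
theorem L2556573 : W_2 (nat_lit 6) (nat_lit 0x7000680010000400000000000000000000000) (nat_lit 0x0) (nat_lit 0x8000000180000c0078000a0000000000000000000) := T_2 (nat_lit 95) (nat_lit 77) (nat_lit 4) (nat_lit 10) (nat_lit 8) L2556572 (by decide +kernel)
theorem L2556574 : W_2 (nat_lit 2) (nat_lit 0x2000080007001680010000c00000000000000000000000) (nat_lit 0x0) (nat_lit 0x40001000000000000000020000000000000000000000000000) := D_2 (nat_lit 180) (nat_lit 113) (nat_lit 198) (nat_lit 6) (nat_lit 10) (nat_lit 10) (nat_lit 7) (nat_lit 10) (nat_lit 7) (by decide +kernel)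
theorem L2556575 : W_2 (nat_lit 3) (nat_lit 0x80007001680010000c00000000000000000000000) (nat_lit 0x0) (nat_lit 0x40003000100000000000020000000000000000000000000000) := T_2 (nat_lit 181) (nat_lit 164) (nat_lit 7) (nat_lit 10) (nat_lit 6) L2556574 (by decide +kernel)
theorem L2556576 : W_2 (nat_lit 4) (nat_lit 0x80007000680010000c00000000000000000000000) (nat_lit 0x0) (nat_lit 0x40003000100000001800020000000000000000000000000000) := T_2 (nat_lit 132) (nat_lit 131) (nat_lit 1) (nat_lit 13) (nat_lit 7) L2556575 (by decide +kernel)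
theorem L2556577 : W_2 (nat_lit 5) (nat_lit 0x7000680010000c00000000000000000000000) (nat_lit 0x0) (nat_lit 0x40003000180000001800028000000000000000000000000000) := T_2 (nat_lit 163) (nat_lit 111) (nat_lit 4) (nat_lit 10) (nat_lit 9) L2556576 (by decide +kernel)
theorem L2556578 : W_2 (nat_lit 6) (nat_lit 0x7000680010000400000000000000000000000) (nat_lit 0x0) (nat_lit 0x40003000180000001800028000800020000000000000000000) := T_2 (nat_lit 95) (nat_lit 77) (nat_lit 4) (nat_lit 10) (nat_lit 8) L2556577 (by decide +kernel)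
theorem L2556579 : W_2 (nat_lit 2) (nat_lit 0x7001680010000d000c0002000100000000000) (nat_lit 0x0) (nat_lit 0x1000080004000000) := D_2 (nat_lit 43) (nat_lit 26) (nat_lit 60) (nat_lit 4) (nat_lit 10) (nat_lit 5) (nat_lit 4) (nat_lit 10) (nat_lit 6) (by decide +kernel)
theorem L2556580 : W_2 (nat_lit 3) (nat_lit 0x7001680010000d000c0002000000000000000) (nat_lit 0x0) (nat_lit 0x8000000000001000180004000000) := T_2 (nat_lit 44) (nat_lit 111) (nat_lit 5) (nat_lit 10) (nat_lit 2) L2556579 (by decide +kernel)
theorem L2556581 : W_2 (nat_lit 4) (nat_lit 0x7001680010000d000c0000000000000000000) (nat_lit 0x0) (nat_lit 0x28000000000003000180004000000) := T_2 (nat_lit 61) (nat_lit 113) (nat_lit 7) (nat_lit 10) (nat_lit 3) L2556580 (by decide +kernel)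
theorem L2556582 : W_2 (nat_lit 5) (nat_lit 0x7001680010000c000c0000000000000000000) (nat_lit 0x0) (nat_lit 0x28000300000003000180004000000) := T_2 (nat_lit 92) (nat_lit 93) (nat_lit 2) (nat_lit 7) (nat_lit 5) L2556581 (by decide +kernel)
theorem L2556583 : W_2 (nat_lit 6) (nat_lit 0x7001680010000c00080000000000000000000) (nat_lit 0x0) (nat_lit 0x28000300040007000180004000000) := T_2 (nat_lit 78) (nat_lit 62) (nat_lit 6) (nat_lit 10) (nat_lit 7) L2556582 (by decide +kernel)
theorem L2556584 : W_2 (nat_lit 7) (nat_lit 0x7001680010000c00000000000000000000000) (nat_lit 0x0) (nat_lit 0x280013000c0007000180004000000) := T_2 (nat_lit 79) (nat_lit 96) (nat_lit 6) (nat_lit 10) (nat_lit 8) L2556583 (by decide +kernel)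
theorem L2556585 : W_2 (nat_lit 8) (nat_lit 0x7000680010000c00000000000000000000000) (nat_lit 0x0) (nat_lit 0x18000280013000c0007000180004000000) := T_2 (nat_lit 132) (nat_lit 131) (nat_lit 1) (nat_lit 13) (nat_lit 7) L2556584 (by decide +kernel)
theorem L2556586 : W_2 (nat_lit 9) (nat_lit 0x7000680010000400000000000000000000000) (nat_lit 0x0) (nat_lit 0x1800028001b000e0007000180004000000) := T_2 (nat_lit 95) (nat_lit 77) (nat_lit 4) (nat_lit 10) (nat_lit 8) L2556585 (by decide +kernel)
theorem L2556587 : W_2 (nat_lit 10) (nat_lit 0x7000680000000400000000000000000000000) (nat_lit 0x0) (nat_lit 0x4000300018000000180007c007b000e0007000180004000000) := Q_2 (nat_lit 112) (C_2 L2556560 (C_2 L2556563 (C_2 L2556568 (C_2 L2556573 (C_2 L2556578 (C_2 L2556586 N_2)))))) (by decide +kernel)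
theorem L2556588 : W_2 (nat_lit 11) (nat_lit 0x7000480000000400000000000000000000000) (nat_lit 0x0) (nat_lit 0x40003000180000801a0007c007b000e0007000180004000000) := T_2 (nat_lit 129) (nat_lit 143) (nat_lit 2) (nat_lit 7) (nat_lit 8) L2556587 (by decide +kernel)
theorem L2556589 : W_2 (nat_lit 4) (nat_lit 0x7000480000000400000000000000000000000) (nat_lit 0x0) (nat_lit 0x380008800a00000000000000000000000000000000) := T_2 (nat_lit 143) (nat_lit 129) (nat_lit 2) (nat_lit 7) (nat_lit 8) L1661544 (by decide +kernel)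
theorem L2556590 : W_2 (nat_lit 5) (nat_lit 0x7000480000000400000000000000000000000) (nat_lit 0x0) (nat_lit 0x1000380008800800020001000000000000000000000000) := T_2 (nat_lit 147) (nat_lit 131) (nat_lit 2) (nat_lit 8) (nat_lit 8) L2556482 (by decide +kernel)
theorem L2556591 : W_2 (nat_lit 2) (nat_lit 0x7000680000000400000000000000000000000) (nat_lit 0x0) (nat_lit 0x8001800000000000000000000000000000000) := D_2 (nat_lit 131) (nat_lit 147) (nat_lit 132) (nat_lit 2) (nat_lit 8) (nat_lit 8) (nat_lit 1) (nat_lit 13) (nat_lit 7) (by decide +kernel)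
theorem L2556592 : W_2 (nat_lit 2) (nat_lit 0x7000680010000c00000000000000000000000) (nat_lit 0x0) (nat_lit 0x100008000000000000000040000000000000000000) := D_2 (nat_lit 147) (nat_lit 78) (nat_lit 164) (nat_lit 7) (nat_lit 10) (nat_lit 4) (nat_lit 7) (nat_lit 10) (nat_lit 5) (by decide +kernel)
theorem L2556593 : W_2 (nat_lit 3) (nat_lit 0x7000680010000400000000000000000000000) (nat_lit 0x0) (nat_lit 0x100008000000000000800060000000000000000000) := T_2 (nat_lit 95) (nat_lit 77) (nat_lit 4) (nat_lit 10) (nat_lit 8) L2556592 (by decide +kernel)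
theorem L2556594 : W_2 (nat_lit 2) (nat_lit 0x80007000680010000400000000000000000000000) (nat_lit 0x0) (nat_lit 0x1000000000000000020001000000000000000000000000) := D_2 (nat_lit 113) (nat_lit 96) (nat_lit 180) (nat_lit 6) (nat_lit 10) (nat_lit 9) (nat_lit 6) (nat_lit 10) (nat_lit 10) (by decide +kernel)
theorem L2556595 : W_2 (nat_lit 3) (nat_lit 0x7000680010000400000000000000000000000) (nat_lit 0x0) (nat_lit 0x1000080000000000028001000000000000000000000000) := T_2 (nat_lit 163) (nat_lit 111) (nat_lit 4) (nat_lit 10) (nat_lit 9) L2556594 (by decide +kernel)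
theorem L2556596 : W_2 (nat_lit 5) (nat_lit 0x7000680000000400000000000000000000000) (nat_lit 0x0) (nat_lit 0x10001800080000000380018000e0000000000000000000) := Q_2 (nat_lit 112) (C_2 L2556563 (C_2 L2556593 (C_2 L2556595 N_2))) (by decide +kernel)
theorem L2556597 : W_2 (nat_lit 11) (nat_lit 0x7000480000000400000000000000000000000) (nat_lit 0x0) (nat_lit 0x40003000180008001a0007c007b000e0007000180004000000) := Q_2 (nat_lit 129) (C_2 L2556591 (C_2 L2556587 (C_2 L2556596 N_2))) (by decide +kernel)
theorem L2556598 : W_2 (nat_lit 2) (nat_lit 0x7000c80000000400000000000000000000000) (nat_lit 0x0) (nat_lit 0x801200000000000000000000000000000000) := D_2 (nat_lit 129) (nat_lit 143) (nat_lit 132) (nat_lit 2) (nat_lit 7) (nat_lit 8) (nat_lit 1) (nat_lit 13) (nat_lit 7) (by decide +kernel)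
theorem L2556599 : W_2 (nat_lit 3) (nat_lit 0x7000480000000400000000000000000000000) (nat_lit 0x0) (nat_lit 0x8801a00000000000000000000000000000000) := T_2 (nat_lit 131) (nat_lit 147) (nat_lit 2) (nat_lit 8) (nat_lit 8) L2556598 (by decide +kernel)
theorem L2556600 : W_2 (nat_lit 6) (nat_lit 0x7000480000000400000000000000000000000) (nat_lit 0x0) (nat_lit 0x10001800088002000380018000e0000000000000000000) := T_2 (nat_lit 129) (nat_lit 143) (nat_lit 2) (nat_lit 7) (nat_lit 8) L2556596 (by decide +kernel)
theorem L2556601 : W_2 (nat_lit 12) (nat_lit 0x7000080000000400000000000000000000000) (nat_lit 0x0) (nat_lit 0x40003000380008801e0007c007b000e0007000180004000000) := Q_2 (nat_lit 130) (C_2 L2556588 (C_2 L2556589 (C_2 L2556590 (C_2 L2556597 (C_2 L2556599 (C_2 L2556600 N_2)))))) (by decide +kernel)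
theorem L2556602 : W_2 (nat_lit 2) (nat_lit 0x70000c0000000400000000000000000000000) (nat_lit 0x0) (nat_lit 0x800030000000000000000000000000000000) := D_2 (nat_lit 125) (nat_lit 143) (nat_lit 124) (nat_lit 0) (nat_lit 10) (nat_lit 8) (nat_lit 3) (nat_lit 5) (nat_lit 7) (by decide +kernel)
theorem L2556603 : W_2 (nat_lit 3) (nat_lit 0x7000080000000400000000000000000000000) (nat_lit 0x0) (nat_lit 0x8800070000000000000000000000000000000) := T_2 (nat_lit 126) (nat_lit 147) (nat_lit 0) (nat_lit 11) (nat_lit 8) L2556602 (by decide +kernel)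
theorem L2556604 : W_2 (nat_lit 2) (nat_lit 0x20000f000880000000400000000000000000000000) (nat_lit 0x0) (nat_lit 0x400010001000000000000000000000000000000000) := D_2 (nat_lit 148) (nat_lit 132) (nat_lit 166) (nat_lit 2) (nat_lit 9) (nat_lit 8) (nat_lit 3) (nat_lit 9) (nat_lit 8) (by decide +kernel)
theorem L2556605 : W_2 (nat_lit 3) (nat_lit 0xf000880000000400000000000000000000000) (nat_lit 0x0) (nat_lit 0x700010001000000000000000000000000000000000) := T_2 (nat_lit 165) (nat_lit 164) (nat_lit 3) (nat_lit 8) (nat_lit 8) L2556604 (by decide +kernel)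
theorem L2556606 : W_2 (nat_lit 4) (nat_lit 0xf000080000000400000000000000000000000) (nat_lit 0x0) (nat_lit 0x700010001c00000000000000000000000000000000) := T_2 (nat_lit 131) (nat_lit 130) (nat_lit 2) (nat_lit 8) (nat_lit 8) L2556605 (by decide +kernel)
theorem L2556607 : W_2 (nat_lit 5) (nat_lit 0x7000080000000400000000000000000000000) (nat_lit 0x0) (nat_lit 0x700018001c40000000000000000000000000000000) := T_2 (nat_lit 147) (nat_lit 126) (nat_lit 0) (nat_lit 11) (nat_lit 8) L2556606 (by decide +kernel)
theorem L2556608 : W_2 (nat_lit 4) (nat_lit 0x7800080000000400000000000000000000000) (nat_lit 0x0) (nat_lit 0x4000200018000000060004000000000000000000000000000) := T_2 (nat_lit 126) (nat_lit 125) (nat_lit 0) (nat_lit 10) (nat_lit 8) L1816841 (by decide +kernel)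
theorem L2556609 : W_2 (nat_lit 7) (nat_lit 0x7000080000000400000000000000000000000) (nat_lit 0x0) (nat_lit 0x400020019800080066003c0018000a0000000000000000000) := Q_2 (nat_lit 143) (C_2 L2556608 (C_2 L1658453 N_2)) (by decide +kernel)
theorem L2556610 : W_2 (nat_lit 13) (nat_lit 0x5000080000000400000000000000000000000) (nat_lit 0x0) (nat_lit 0x4400320079801a801e7007c007b000e0007000180004000000) := Q_2 (nat_lit 145) (C_2 L2556479 (C_2 L2556484 (C_2 L2556601 (C_2 L2556603 (C_2 L2556607 (C_2 L2556609 N_2)))))) (by decide +kernel)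
theorem L2556611 : W_2 (nat_lit 2) (nat_lit 0x11000f000080000000400000000000000000000000) (nat_lit 0x0) (nat_lit 0x88000800000000000000000000000000000000000) := D_2 (nat_lit 143) (nat_lit 163) (nat_lit 159) (nat_lit 3) (nat_lit 7) (nat_lit 8) (nat_lit 1) (nat_lit 10) (nat_lit 8) (by decide +kernel)
theorem L2556612 : W_2 (nat_lit 3) (nat_lit 0x1000f000080000000400000000000000000000000) (nat_lit 0x0) (nat_lit 0x388000800000000000000000000000000000000000) := T_2 (nat_lit 164) (nat_lit 165) (nat_lit 3) (nat_lit 8) (nat_lit 8) L2556611 (by decide +kernel)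
theorem L2556613 : W_2 (nat_lit 4) (nat_lit 0xf000080000000400000000000000000000000) (nat_lit 0x0) (nat_lit 0x3b8000800000000000000000000000000000000000) := T_2 (nat_lit 160) (nat_lit 161) (nat_lit 1) (nat_lit 11) (nat_lit 8) L2556612 (by decide +kernel)
theorem L2556614 : W_2 (nat_lit 2) (nat_lit 0xa000f000680008000400000000000000000000000) (nat_lit 0x0) (nat_lit 0x1000000000000000020001000000000000000000000000) := D_2 (nat_lit 113) (nat_lit 96) (nat_lit 180) (nat_lit 5) (nat_lit 11) (nat_lit 5) (nat_lit 6) (nat_lit 10) (nat_lit 10) (by decide +kernel)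
theorem L2556615 : W_2 (nat_lit 3) (nat_lit 0x2000f000680008000400000000000000000000000) (nat_lit 0x0) (nat_lit 0x1000080000000000030001000000000000000000000000) := T_2 (nat_lit 163) (nat_lit 112) (nat_lit 4) (nat_lit 10) (nat_lit 9) L2556614 (by decide +kernel)
theorem L2556616 : W_2 (nat_lit 4) (nat_lit 0x2000f000680000000400000000000000000000000) (nat_lit 0x0) (nat_lit 0x100008000000000003c001000000000000000000000000) := T_2 (nat_lit 111) (nat_lit 110) (nat_lit 6) (nat_lit 8) (nat_lit 9) L2556615 (by decide +kernel)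
theorem L2556617 : W_2 (nat_lit 5) (nat_lit 0x2000f000480000000400000000000000000000000) (nat_lit 0x0) (nat_lit 0x100008000080020003c001000000000000000000000000) := T_2 (nat_lit 129) (nat_lit 143) (nat_lit 2) (nat_lit 7) (nat_lit 8) L2556616 (by decide +kernel)
theorem L2556618 : W_2 (nat_lit 6) (nat_lit 0x2000f000080000000400000000000000000000000) (nat_lit 0x0) (nat_lit 0x1000080000800e0003c001000000000000000000000000) := T_2 (nat_lit 130) (nat_lit 131) (nat_lit 2) (nat_lit 8) (nat_lit 8) L2556617 (by decide +kernel)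
theorem L2556619 : W_2 (nat_lit 7) (nat_lit 0xf000080000000400000000000000000000000) (nat_lit 0x0) (nat_lit 0x10000b0000800e0003c001000000000000000000000000) := T_2 (nat_lit 161) (nat_lit 160) (nat_lit 1) (nat_lit 11) (nat_lit 8) L2556618 (by decide +kernel)
theorem L2556620 : W_2 (nat_lit 8) (nat_lit 0x7000080000000400000000000000000000000) (nat_lit 0x0) (nat_lit 0x10007b8018801e0003c001000000000000000000000000) := Q_2 (nat_lit 147) (C_2 L2556613 (C_2 L2556606 (C_2 L2556619 N_2))) (by decide +kernel)
theorem L2556621 : W_2 (nat_lit 9) (nat_lit 0x5000080000000400000000000000000000000) (nat_lit 0x0) (nat_lit 0x40012007b801a801e7003c0018000a0000000000000000000) := Q_2 (nat_lit 145) (C_2 L2556607 (C_2 L2556609 (C_2 L2556620 (C_2 L2556603 N_2)))) (by decide +kernel)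
theorem L2556622 : W_2 (nat_lit 2) (nat_lit 0xf800480000000400000000000000000000000) (nat_lit 0x0) (nat_lit 0x38000000000000000000000000000000000000000) := D_2 (nat_lit 160) (nat_lit 159) (nat_lit 161) (nat_lit 1) (nat_lit 10) (nat_lit 8) (nat_lit 1) (nat_lit 11) (nat_lit 8) (by decide +kernel)
theorem L2556623 : W_2 (nat_lit 3) (nat_lit 0xf000480000000400000000000000000000000) (nat_lit 0x0) (nat_lit 0x38000800200000000000000000000000000000000) := T_2 (nat_lit 143) (nat_lit 129) (nat_lit 2) (nat_lit 7) (nat_lit 8) L2556622 (by decide +kernel)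
theorem L2556624 : W_2 (nat_lit 4) (nat_lit 0xf000080000000400000000000000000000000) (nat_lit 0x0) (nat_lit 0x38000800e00000000000000000000000000000000) := T_2 (nat_lit 130) (nat_lit 131) (nat_lit 2) (nat_lit 8) (nat_lit 8) L2556623 (by decide +kernel)
theorem L2556625 : W_2 (nat_lit 5) (nat_lit 0x7000080000000400000000000000000000000) (nat_lit 0x0) (nat_lit 0x7b8018801e00000000000000000000000000000000) := Q_2 (nat_lit 147) (C_2 L2556613 (C_2 L2556606 (C_2 L2556624 N_2))) (by decide +kernel)
theorem L2556626 : W_2 (nat_lit 2) (nat_lit 0x80007c000a0000000400000000000000000000000) (nat_lit 0x0) (nat_lit 0x1c000000000000000000000000000000000000000) := D_2 (nat_lit 159) (nat_lit 160) (nat_lit 158) (nat_lit 1) (nat_lit 10) (nat_lit 8) (nat_lit 1) (nat_lit 9) (nat_lit 8) (by decide +kernel)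
theorem L2556627 : W_2 (nat_lit 3) (nat_lit 0x800078000a0000000400000000000000000000000) (nat_lit 0x0) (nat_lit 0x1c000400010000000000000000000000000000000) := T_2 (nat_lit 142) (nat_lit 124) (nat_lit 0) (nat_lit 9) (nat_lit 8) L2556626 (by decide +kernel)
theorem L2556628 : W_2 (nat_lit 4) (nat_lit 0x78000a0000000400000000000000000000000) (nat_lit 0x0) (nat_lit 0x19c000400010000000000000000000000000000000) := T_2 (nat_lit 163) (nat_lit 164) (nat_lit 3) (nat_lit 7) (nat_lit 8) L2556627 (by decide +kernel)
theorem L2556629 : W_2 (nat_lit 5) (nat_lit 0x7800080000000400000000000000000000000) (nat_lit 0x0) (nat_lit 0x19c000400070000000000000000000000000000000) := T_2 (nat_lit 125) (nat_lit 126) (nat_lit 0) (nat_lit 10) (nat_lit 8) L2556628 (by decide +kernel)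
theorem L2556630 : W_2 (nat_lit 3) (nat_lit 0x8007800080000000400000000000000000000000) (nat_lit 0x0) (nat_lit 0x4000400070000000000000000000000000000000) := T_2 (nat_lit 125) (nat_lit 126) (nat_lit 0) (nat_lit 10) (nat_lit 8) L1660889 (by decide +kernel)
theorem L2556631 : W_2 (nat_lit 4) (nat_lit 0x7800080000000400000000000000000000000) (nat_lit 0x0) (nat_lit 0x1c000400070000000000000000000000000000000) := T_2 (nat_lit 159) (nat_lit 160) (nat_lit 1) (nat_lit 10) (nat_lit 8) L2556630 (by decide +kernel)
theorem L2556632 : W_2 (nat_lit 7) (nat_lit 0x7000080000000400000000000000000000000) (nat_lit 0x0) (nat_lit 0x19c000c006700380018000a0000000000000000000) := Q_2 (nat_lit 143) (C_2 L2556629 (C_2 L1658453 (C_2 L2556631 N_2))) (by decide +kernel)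
theorem L2556633 : W_2 (nat_lit 8) (nat_lit 0x5000080000000400000000000000000000000) (nat_lit 0x0) (nat_lit 0x7bc01ac01e700380018000a0000000000000000000) := Q_2 (nat_lit 145) (C_2 L2556607 (C_2 L2556625 (C_2 L2556603 (C_2 L2556632 N_2)))) (by decide +kernel)
theorem L2556645 : W_2 (nat_lit 2) (nat_lit 0x84007e00088000000400000000000000000000000) (nat_lit 0x0) (nat_lit 0x100044000000000000000000000000000000) := D_2 (nat_lit 140) (nat_lit 126) (nat_lit 122) (nat_lit 2) (nat_lit 4) (nat_lit 8) (nat_lit 0) (nat_lit 7) (nat_lit 8) (by decide +kernel)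
theorem L2556646 : W_2 (nat_lit 3) (nat_lit 0x84007e00080000000400000000000000000000000) (nat_lit 0x0) (nat_lit 0x10005c000000000000000000000000000000) := T_2 (nat_lit 123) (nat_lit 124) (nat_lit 0) (nat_lit 8) (nat_lit 8) L2556645 (by decide +kernel)
theorem L2556647 : W_2 (nat_lit 4) (nat_lit 0x84007c00080000000400000000000000000000000) (nat_lit 0x0) (nat_lit 0x200030005c000000000000000000000000000000) := T_2 (nat_lit 141) (nat_lit 157) (nat_lit 1) (nat_lit 8) (nat_lit 8) L2556646 (by decide +kernel)
theorem L2556648 : W_2 (nat_lit 5) (nat_lit 0x80007c00080000000400000000000000000000000) (nat_lit 0x0) (nat_lit 0xe00030005c000000000000000000000000000000) := T_2 (nat_lit 158) (nat_lit 159) (nat_lit 1) (nat_lit 9) (nat_lit 8) L2556647 (by decide +kernel)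
theorem L2556649 : W_2 (nat_lit 6) (nat_lit 0x7c00080000000400000000000000000000000) (nat_lit 0x0) (nat_lit 0x18e00030005c000000000000000000000000000000) := T_2 (nat_lit 163) (nat_lit 164) (nat_lit 3) (nat_lit 7) (nat_lit 8) L2556648 (by decide +kernel)
theorem L2556650 : W_2 (nat_lit 2) (nat_lit 0x7c00080000000400000000000000000000000) (nat_lit 0x0) (nat_lit 0x70000000000000000000000000000000) := D_2 (nat_lit 125) (nat_lit 124) (nat_lit 126) (nat_lit 0) (nat_lit 9) (nat_lit 8) (nat_lit 0) (nat_lit 10) (nat_lit 8) (by decide +kernel)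
theorem L2556651 : W_2 (nat_lit 2) (nat_lit 0x4007c000c0000000400000000000000000000000) (nat_lit 0x0) (nat_lit 0x2000300000000000000000000000000000000000) := D_2 (nat_lit 141) (nat_lit 157) (nat_lit 140) (nat_lit 1) (nat_lit 8) (nat_lit 8) (nat_lit 2) (nat_lit 4) (nat_lit 8) (by decide +kernel)
theorem L2556652 : W_2 (nat_lit 3) (nat_lit 0x4007c00080000000400000000000000000000000) (nat_lit 0x0) (nat_lit 0x2000300060000000000000000000000000000000) := T_2 (nat_lit 126) (nat_lit 125) (nat_lit 0) (nat_lit 10) (nat_lit 8) L2556651 (by decide +kernel)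
theorem L2556653 : W_2 (nat_lit 4) (nat_lit 0x7c00080000000400000000000000000000000) (nat_lit 0x0) (nat_lit 0xe000300060000000000000000000000000000000) := T_2 (nat_lit 158) (nat_lit 159) (nat_lit 1) (nat_lit 9) (nat_lit 8) L2556652 (by decide +kernel)
theorem L2556654 : W_2 (nat_lit 7) (nat_lit 0x7800080000000400000000000000000000000) (nat_lit 0x0) (nat_lit 0x18e00070007c000000000000000000000000000000) := Q_2 (nat_lit 142) (C_2 L1661482 (C_2 L2556649 (C_2 L2556650 (C_2 L2556653 N_2)))) (by decide +kernel)
theorem L2556655 : W_2 (nat_lit 2) (nat_lit 0x4007e00288000000400000000000000000000000) (nat_lit 0x0) (nat_lit 0x100044000000000000000000000000000000) := D_2 (nat_lit 140) (nat_lit 126) (nat_lit 122) (nat_lit 2) (nat_lit 4) (nat_lit 8) (nat_lit 0) (nat_lit 7) (nat_lit 8) (by decide +kernel)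
theorem L2556656 : W_2 (nat_lit 3) (nat_lit 0x4007e00280000000400000000000000000000000) (nat_lit 0x0) (nat_lit 0x10005c000000000000000000000000000000) := T_2 (nat_lit 123) (nat_lit 124) (nat_lit 0) (nat_lit 8) (nat_lit 8) L2556655 (by decide +kernel)
theorem L2556657 : W_2 (nat_lit 4) (nat_lit 0x4007c00280000000400000000000000000000000) (nat_lit 0x0) (nat_lit 0x200030005c000000000000000000000000000000) := T_2 (nat_lit 141) (nat_lit 157) (nat_lit 1) (nat_lit 8) (nat_lit 8) L2556656 (by decide +kernel)
theorem L2556658 : W_2 (nat_lit 5) (nat_lit 0x4007c00080000000400000000000000000000000) (nat_lit 0x0) (nat_lit 0x200030065c000000000000000000000000000000) := T_2 (nat_lit 129) (nat_lit 130) (nat_lit 2) (nat_lit 7) (nat_lit 8) L2556657 (by decide +kernel)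
theorem L2556659 : W_2 (nat_lit 6) (nat_lit 0x7c00080000000400000000000000000000000) (nat_lit 0x0) (nat_lit 0xe00030065c000000000000000000000000000000) := T_2 (nat_lit 158) (nat_lit 159) (nat_lit 1) (nat_lit 9) (nat_lit 8) L2556658 (by decide +kernel)
theorem L2556660 : W_2 (nat_lit 7) (nat_lit 0x7800080000000400000000000000000000000) (nat_lit 0x0) (nat_lit 0xe00070067c000000000000000000000000000000) := Q_2 (nat_lit 142) (C_2 L2556653 (C_2 L1661482 (C_2 L2556659 (C_2 L2556650 N_2)))) (by decide +kernel)
theorem L2556661 : W_2 (nat_lit 8) (nat_lit 0x7000080000000400000000000000000000000) (nat_lit 0x0) (nat_lit 0x18e000f0067c0380018000a0000000000000000000) := Q_2 (nat_lit 143) (C_2 L2556654 (C_2 L1658453 (C_2 L2556660 N_2))) (by decide +kernel)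
theorem L2556662 : W_2 (nat_lit 13) (nat_lit 0x5000080000000400000000000000000000000) (nat_lit 0x0) (nat_lit 0x4000300078e01af01e7c07c007b000e0007000180004000000) := Q_2 (nat_lit 145) (C_2 L2556607 (C_2 L2556601 (C_2 L2556603 (C_2 L2556661 N_2)))) (by decide +kernel)
theorem L2556663 : W_2 (nat_lit 6) (nat_lit 0x5000080004000e00000000000000000000000) (nat_lit 0x0) (nat_lit 0x100008000000700011001c8000000000000000000) := T_2 (nat_lit 143) (nat_lit 160) (nat_lit 5) (nat_lit 8) (nat_lit 5) L1638296 (by decide +kernel)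
theorem L2556664 : W_2 (nat_lit 2) (nat_lit 0x5000080014000f00080000000000000000000) (nat_lit 0x0) (nat_lit 0x200000001000100000000000000000000) := D_2 (nat_lit 96) (nat_lit 80) (nat_lit 129) (nat_lit 2) (nat_lit 8) (nat_lit 5) (nat_lit 6) (nat_lit 10) (nat_lit 8) (by decide +kernel)
theorem L2556665 : W_2 (nat_lit 3) (nat_lit 0x5000080014000f00000000000000000000000) (nat_lit 0x0) (nat_lit 0x2000000010001c0000000000000000000) := T_2 (nat_lit 79) (nat_lit 78) (nat_lit 2) (nat_lit 7) (nat_lit 5) L2556664 (by decide +kernel)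
theorem L2556666 : W_2 (nat_lit 4) (nat_lit 0x5000080004000f00000000000000000000000) (nat_lit 0x0) (nat_lit 0x2000300010001c0000000000000000000) := T_2 (nat_lit 112) (nat_lit 113) (nat_lit 3) (nat_lit 7) (nat_lit 5) L2556665 (by decide +kernel)
theorem L2556667 : W_2 (nat_lit 5) (nat_lit 0x5000080004000e00000000000000000000000) (nat_lit 0x0) (nat_lit 0x2000300011001c8000000000000000000) := T_2 (nat_lit 92) (nat_lit 75) (nat_lit 4) (nat_lit 8) (nat_lit 8) L2556666 (by decide +kernel)
theorem L2556668 : W_2 (nat_lit 2) (nat_lit 0x5800080024001e00080000000000000000000) (nat_lit 0x0) (nat_lit 0x600010000000000000000000000000000) := D_2 (nat_lit 129) (nat_lit 130) (nat_lit 112) (nat_lit 5) (nat_lit 11) (nat_lit 4) (nat_lit 6) (nat_lit 10) (nat_lit 8) (by decide +kernel)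
theorem L2556669 : W_2 (nat_lit 3) (nat_lit 0x5800080024001e00000000000000000000000) (nat_lit 0x0) (nat_lit 0x600010000000180000000000000000000) := T_2 (nat_lit 79) (nat_lit 80) (nat_lit 2) (nat_lit 8) (nat_lit 5) L2556668 (by decide +kernel)
theorem L2556670 : W_2 (nat_lit 4) (nat_lit 0x5800080004001e00000000000000000000000) (nat_lit 0x0) (nat_lit 0x600070000000180000000000000000000) := T_2 (nat_lit 113) (nat_lit 114) (nat_lit 3) (nat_lit 8) (nat_lit 5) L2556669 (by decide +kernel)
theorem L2556671 : W_2 (nat_lit 5) (nat_lit 0x5000080004001e00000000000000000000000) (nat_lit 0x0) (nat_lit 0x10000800600070000000180000000000000000000) := T_2 (nat_lit 143) (nat_lit 160) (nat_lit 5) (nat_lit 8) (nat_lit 5) L2556670 (by decide +kernel)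
theorem L2556672 : W_2 (nat_lit 2) (nat_lit 0x5800080044001e00110000000000000000000) (nat_lit 0x0) (nat_lit 0x80002000200000000000000000000) := D_2 (nat_lit 97) (nat_lit 115) (nat_lit 81) (nat_lit 3) (nat_lit 9) (nat_lit 5) (nat_lit 2) (nat_lit 9) (nat_lit 5) (by decide +kernel)
theorem L2556673 : W_2 (nat_lit 3) (nat_lit 0x5800080044001e00010000000000000000000) (nat_lit 0x0) (nat_lit 0x80002000380000000000000000000) := T_2 (nat_lit 80) (nat_lit 79) (nat_lit 2) (nat_lit 8) (nat_lit 5) L2556672 (by decide +kernel)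
theorem L2556674 : W_2 (nat_lit 4) (nat_lit 0x5800080004001e00010000000000000000000) (nat_lit 0x0) (nat_lit 0xe0002000380000000000000000000) := T_2 (nat_lit 114) (nat_lit 113) (nat_lit 3) (nat_lit 8) (nat_lit 5) L2556673 (by decide +kernel)
theorem L2556675 : W_2 (nat_lit 5) (nat_lit 0x5000080004001e00010000000000000000000) (nat_lit 0x0) (nat_lit 0x100008000000e0002000380000000000000000000) := T_2 (nat_lit 143) (nat_lit 160) (nat_lit 5) (nat_lit 8) (nat_lit 5) L2556674 (by decide +kernel)
theorem L2556676 : W_2 (nat_lit 6) (nat_lit 0x5000080004001e00000000000000000000000) (nat_lit 0x0) (nat_lit 0x100008000000e0002000398000000000000000000) := T_2 (nat_lit 76) (nat_lit 75) (nat_lit 0) (nat_lit 11) (nat_lit 5) L2556675 (by decide +kernel)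
theorem L2556677 : W_2 (nat_lit 2) (nat_lit 0x5000080024001e00090000000000000000000) (nat_lit 0x0) (nat_lit 0x600010000000000000000000000000000) := D_2 (nat_lit 129) (nat_lit 130) (nat_lit 112) (nat_lit 5) (nat_lit 11) (nat_lit 4) (nat_lit 6) (nat_lit 10) (nat_lit 8) (by decide +kernel)
theorem L2556678 : W_2 (nat_lit 3) (nat_lit 0x5000080024001e00010000000000000000000) (nat_lit 0x0) (nat_lit 0x600010000000180000000000000000000) := T_2 (nat_lit 79) (nat_lit 80) (nat_lit 2) (nat_lit 8) (nat_lit 5) L2556677 (by decide +kernel)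
theorem L2556679 : W_2 (nat_lit 4) (nat_lit 0x5000080024001e00000000000000000000000) (nat_lit 0x0) (nat_lit 0x600010000000198000000000000000000) := T_2 (nat_lit 76) (nat_lit 75) (nat_lit 0) (nat_lit 11) (nat_lit 5) L2556678 (by decide +kernel)
theorem L2556680 : W_2 (nat_lit 5) (nat_lit 0x5000080004001e00000000000000000000000) (nat_lit 0x0) (nat_lit 0x600070000000198000000000000000000) := T_2 (nat_lit 113) (nat_lit 114) (nat_lit 3) (nat_lit 8) (nat_lit 5) L2556679 (by decide +kernel)
theorem L2556681 : W_2 (nat_lit 2) (nat_lit 0x3001d000880044003e00110000000000000000000) (nat_lit 0x0) (nat_lit 0x400020001000000000000000000000000000000000) := D_2 (nat_lit 149) (nat_lit 132) (nat_lit 166) (nat_lit 7) (nat_lit 12) (nat_lit 4) (nat_lit 7) (nat_lit 12) (nat_lit 5) (by decide +kernel)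
theorem L2556682 : W_2 (nat_lit 3) (nat_lit 0x3000d000880044003e00110000000000000000000) (nat_lit 0x0) (nat_lit 0x500030001000000000000000000000000000000000) := T_2 (nat_lit 148) (nat_lit 164) (nat_lit 5) (nat_lit 12) (nat_lit 5) L2556681 (by decide +kernel)
theorem L2556683 : W_2 (nat_lit 4) (nat_lit 0x3000d000080044003e00110000000000000000000) (nat_lit 0x0) (nat_lit 0x500030001c00000000000000000000000000000000) := T_2 (nat_lit 131) (nat_lit 130) (nat_lit 5) (nat_lit 12) (nat_lit 4) L2556682 (by decide +kernel)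
theorem L2556684 : W_2 (nat_lit 5) (nat_lit 0x30005000080044003e00110000000000000000000) (nat_lit 0x0) (nat_lit 0x50003a001c00000000000000000000000000000000) := T_2 (nat_lit 147) (nat_lit 145) (nat_lit 1) (nat_lit 11) (nat_lit 8) L2556683 (by decide +kernel)
theorem L2556685 : W_2 (nat_lit 6) (nat_lit 0x10005000080044003e00110000000000000000000) (nat_lit 0x0) (nat_lit 0x20052003a001c00000000000000000000000000000000) := T_2 (nat_lit 161) (nat_lit 177) (nat_lit 5) (nat_lit 8) (nat_lit 6) L2556684 (by decide +kernel)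
theorem L2556686 : W_2 (nat_lit 7) (nat_lit 0x10005000080004003e00110000000000000000000) (nat_lit 0x0) (nat_lit 0x20052003a001c000c0000000000000000000000000000) := T_2 (nat_lit 114) (nat_lit 115) (nat_lit 3) (nat_lit 9) (nat_lit 5) L2556685 (by decide +kernel)
theorem L2556687 : W_2 (nat_lit 8) (nat_lit 0x5000080004003e00110000000000000000000) (nat_lit 0x0) (nat_lit 0x20053003a801c000c0000000000000000000000000000) := T_2 (nat_lit 160) (nat_lit 143) (nat_lit 5) (nat_lit 8) (nat_lit 5) L2556686 (by decide +kernel)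
theorem L2556688 : W_2 (nat_lit 9) (nat_lit 0x5000080004001e00110000000000000000000) (nat_lit 0x0) (nat_lit 0x20053003a801c000c0002000200000000000000000000) := T_2 (nat_lit 97) (nat_lit 81) (nat_lit 2) (nat_lit 9) (nat_lit 5) L2556687 (by decide +kernel)
theorem L2556689 : W_2 (nat_lit 10) (nat_lit 0x5000080004001e00100000000000000000000) (nat_lit 0x0) (nat_lit 0x20053003a801c000c0002000218000000000000000000) := T_2 (nat_lit 76) (nat_lit 75) (nat_lit 0) (nat_lit 11) (nat_lit 5) L2556688 (by decide +kernel)
theorem L2556690 : W_2 (nat_lit 11) (nat_lit 0x5000080004001e00000000000000000000000) (nat_lit 0x0) (nat_lit 0x20053003a801c000c0002000398000000000000000000) := T_2 (nat_lit 80) (nat_lit 79) (nat_lit 2) (nat_lit 8) (nat_lit 5) L2556689 (by decide +kernel)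
theorem L2556691 : W_2 (nat_lit 2) (nat_lit 0x3000d000080024001e00010000000000000000000) (nat_lit 0x0) (nat_lit 0x80000000400000000000040000000000000000000) := D_2 (nat_lit 130) (nat_lit 78) (nat_lit 163) (nat_lit 4) (nat_lit 11) (nat_lit 8) (nat_lit 5) (nat_lit 11) (nat_lit 5) (by decide +kernel)
theorem L2556692 : W_2 (nat_lit 3) (nat_lit 0x3000d000080004001e00010000000000000000000) (nat_lit 0x0) (nat_lit 0x80000000400060000000040000000000000000000) := T_2 (nat_lit 113) (nat_lit 114) (nat_lit 3) (nat_lit 8) (nat_lit 5) L2556691 (by decide +kernel)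
theorem L2556693 : W_2 (nat_lit 4) (nat_lit 0x30005000080004001e00010000000000000000000) (nat_lit 0x0) (nat_lit 0x8000a000400060000000040000000000000000000) := T_2 (nat_lit 147) (nat_lit 145) (nat_lit 1) (nat_lit 11) (nat_lit 8) L2556692 (by decide +kernel)
theorem L2556694 : W_2 (nat_lit 5) (nat_lit 0x10005000080004001e00010000000000000000000) (nat_lit 0x0) (nat_lit 0x2000a000a000400060000000040000000000000000000) := T_2 (nat_lit 161) (nat_lit 177) (nat_lit 5) (nat_lit 8) (nat_lit 6) L2556693 (by decide +kernel)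
theorem L2556695 : W_2 (nat_lit 6) (nat_lit 0x10005000080004001e00000000000000000000000) (nat_lit 0x0) (nat_lit 0x2000a000a000400060000000058000000000000000000) := T_2 (nat_lit 76) (nat_lit 75) (nat_lit 0) (nat_lit 11) (nat_lit 5) L2556694 (by decide +kernel)
theorem L2556696 : W_2 (nat_lit 7) (nat_lit 0x5000080004001e00000000000000000000000) (nat_lit 0x0) (nat_lit 0x2000b000a800400060000000058000000000000000000) := T_2 (nat_lit 160) (nat_lit 143) (nat_lit 5) (nat_lit 8) (nat_lit 5) L2556695 (by decide +kernel)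
theorem L2556697 : W_2 (nat_lit 2) (nat_lit 0x5000680004001e00090000000000000000000) (nat_lit 0x0) (nat_lit 0x10002800000000000000000000000000000000000) := D_2 (nat_lit 143) (nat_lit 160) (nat_lit 145) (nat_lit 5) (nat_lit 8) (nat_lit 5) (nat_lit 2) (nat_lit 7) (nat_lit 8) (by decide +kernel)
theorem L2556698 : W_2 (nat_lit 3) (nat_lit 0x5000280004001e00090000000000000000000) (nat_lit 0x0) (nat_lit 0x10002800400020000000000000000000000000000) := T_2 (nat_lit 130) (nat_lit 113) (nat_lit 5) (nat_lit 11) (nat_lit 4) L2556697 (by decide +kernel)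
theorem L2556699 : W_2 (nat_lit 4) (nat_lit 0x5000080004001e00090000000000000000000) (nat_lit 0x0) (nat_lit 0x10002800600030000000000000000000000000000) := T_2 (nat_lit 129) (nat_lit 112) (nat_lit 6) (nat_lit 10) (nat_lit 8) L2556698 (by decide +kernel)
theorem L2556700 : W_2 (nat_lit 5) (nat_lit 0x5000080004001e00080000000000000000000) (nat_lit 0x0) (nat_lit 0x10002800600030000000018000000000000000000) := T_2 (nat_lit 76) (nat_lit 75) (nat_lit 0) (nat_lit 11) (nat_lit 5) L2556699 (by decide +kernel)
theorem L2556701 : W_2 (nat_lit 6) (nat_lit 0x5000080004001e00000000000000000000000) (nat_lit 0x0) (nat_lit 0x10002800600030000000198000000000000000000) := T_2 (nat_lit 79) (nat_lit 80) (nat_lit 2) (nat_lit 8) (nat_lit 5) L2556700 (by decide +kernel)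
theorem L2556702 : W_2 (nat_lit 12) (nat_lit 0x5000080004000e00000000000000000000000) (nat_lit 0x0) (nat_lit 0x2005b003a801e000f00030003d8000000000000000000) := Q_2 (nat_lit 96) (C_2 L2556671 (C_2 L2556676 (C_2 L2556680 (C_2 L2556690 (C_2 L2556696 (C_2 L2556701 N_2)))))) (by decide +kernel)
theorem L2556703 : W_2 (nat_lit 2) (nat_lit 0x5800c80024001f00080000000000000000000) (nat_lit 0x0) (nat_lit 0x8000a000000000000000000000000000000000000) := D_2 (nat_lit 147) (nat_lit 145) (nat_lit 163) (nat_lit 2) (nat_lit 8) (nat_lit 8) (nat_lit 5) (nat_lit 11) (nat_lit 5) (by decide +kernel)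
theorem L2556704 : W_2 (nat_lit 3) (nat_lit 0x5800480024001f00080000000000000000000) (nat_lit 0x0) (nat_lit 0x8001a000800000000000000000000000000000000) := T_2 (nat_lit 131) (nat_lit 148) (nat_lit 7) (nat_lit 11) (nat_lit 4) L2556703 (by decide +kernel)
theorem L2556705 : W_2 (nat_lit 4) (nat_lit 0x5800080024001f00080000000000000000000) (nat_lit 0x0) (nat_lit 0x8001a000e00000000000000000000000000000000) := T_2 (nat_lit 130) (nat_lit 129) (nat_lit 5) (nat_lit 11) (nat_lit 4) L2556704 (by decide +kernel)
theorem L2556706 : W_2 (nat_lit 5) (nat_lit 0x5800080004001f00080000000000000000000) (nat_lit 0x0) (nat_lit 0x8001a000e00060000000000000000000000000000) := T_2 (nat_lit 113) (nat_lit 114) (nat_lit 3) (nat_lit 8) (nat_lit 5) L2556705 (by decide +kernel)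
theorem L2556707 : W_2 (nat_lit 6) (nat_lit 0x5800080004000f00080000000000000000000) (nat_lit 0x0) (nat_lit 0x8001a000e00060001000100000000000000000000) := T_2 (nat_lit 96) (nat_lit 80) (nat_lit 2) (nat_lit 8) (nat_lit 5) L2556706 (by decide +kernel)
theorem L2556708 : W_2 (nat_lit 7) (nat_lit 0x5800080004000f00000000000000000000000) (nat_lit 0x0) (nat_lit 0x8001a000e000600010001c0000000000000000000) := T_2 (nat_lit 79) (nat_lit 78) (nat_lit 2) (nat_lit 7) (nat_lit 5) L2556707 (by decide +kernel)
theorem L2556709 : W_2 (nat_lit 8) (nat_lit 0x5800080004000e00000000000000000000000) (nat_lit 0x0) (nat_lit 0x8001a000e000600011001c8000000000000000000) := T_2 (nat_lit 92) (nat_lit 75) (nat_lit 4) (nat_lit 8) (nat_lit 8) L2556708 (by decide +kernel)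
theorem L2556710 : W_2 (nat_lit 9) (nat_lit 0x5000080004000e00000000000000000000000) (nat_lit 0x0) (nat_lit 0x9001a800e000600011001c8000000000000000000) := T_2 (nat_lit 143) (nat_lit 160) (nat_lit 5) (nat_lit 8) (nat_lit 5) L2556709 (by decide +kernel)
theorem L2556711 : W_2 (nat_lit 2) (nat_lit 0x5000080004000e00008000000000000000000) (nat_lit 0x0) (nat_lit 0x1000010000400000000000000) := D_2 (nat_lit 76) (nat_lit 58) (nat_lit 96) (nat_lit 4) (nat_lit 8) (nat_lit 7) (nat_lit 0) (nat_lit 11) (nat_lit 5) (by decide +kernel)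
theorem L2556712 : W_2 (nat_lit 3) (nat_lit 0x5000080004000e00000000000000000000000) (nat_lit 0x0) (nat_lit 0x1100018000400000000000000) := T_2 (nat_lit 75) (nat_lit 92) (nat_lit 4) (nat_lit 8) (nat_lit 8) L2556711 (by decide +kernel)
theorem L2556713 : W_2 (nat_lit 2) (nat_lit 0x3000d000080014000f00040000000000000000000) (nat_lit 0x0) (nat_lit 0x100000000600000000000000000000000000000000) := D_2 (nat_lit 129) (nat_lit 130) (nat_lit 164) (nat_lit 7) (nat_lit 10) (nat_lit 4) (nat_lit 7) (nat_lit 10) (nat_lit 5) (by decide +kernel)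
theorem L2556714 : W_2 (nat_lit 3) (nat_lit 0x30005000080014000f00040000000000000000000) (nat_lit 0x0) (nat_lit 0x10000a000600000000000000000000000000000000) := T_2 (nat_lit 147) (nat_lit 145) (nat_lit 1) (nat_lit 11) (nat_lit 8) L2556713 (by decide +kernel)
theorem L2556715 : W_2 (nat_lit 4) (nat_lit 0x10005000080014000f00040000000000000000000) (nat_lit 0x0) (nat_lit 0x20012000a000600000000000000000000000000000000) := T_2 (nat_lit 161) (nat_lit 177) (nat_lit 5) (nat_lit 8) (nat_lit 6) L2556714 (by decide +kernel)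
theorem L2556716 : W_2 (nat_lit 5) (nat_lit 0x10005000080014000f00000000000000000000000) (nat_lit 0x0) (nat_lit 0x20012000a0006000000000000c0000000000000000000) := T_2 (nat_lit 78) (nat_lit 79) (nat_lit 2) (nat_lit 7) (nat_lit 5) L2556715 (by decide +kernel)
theorem L2556717 : W_2 (nat_lit 6) (nat_lit 0x10005000080004000f00000000000000000000000) (nat_lit 0x0) (nat_lit 0x20012000a0006000300000000c0000000000000000000) := T_2 (nat_lit 112) (nat_lit 113) (nat_lit 3) (nat_lit 7) (nat_lit 5) L2556716 (by decide +kernel)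
theorem L2556718 : W_2 (nat_lit 7) (nat_lit 0x10005000080004000e00000000000000000000000) (nat_lit 0x0) (nat_lit 0x20012000a0006000300001000c8000000000000000000) := T_2 (nat_lit 92) (nat_lit 75) (nat_lit 4) (nat_lit 8) (nat_lit 8) L2556717 (by decide +kernel)
theorem L2556719 : W_2 (nat_lit 8) (nat_lit 0x5000080004000e00000000000000000000000) (nat_lit 0x0) (nat_lit 0x20013000a8006000300001000c8000000000000000000) := T_2 (nat_lit 160) (nat_lit 143) (nat_lit 5) (nat_lit 8) (nat_lit 5) L2556718 (by decide +kernel)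
theorem L2556720 : W_2 (nat_lit 2) (nat_lit 0x5800080024001f00000000000000000000000) (nat_lit 0x0) (nat_lit 0x1c0000000000000000000) := D_2 (nat_lit 79) (nat_lit 78) (nat_lit 80) (nat_lit 2) (nat_lit 7) (nat_lit 5) (nat_lit 2) (nat_lit 8) (nat_lit 5) (by decide +kernel)
theorem L2556721 : W_2 (nat_lit 3) (nat_lit 0x5800080024001e00000000000000000000000) (nat_lit 0x0) (nat_lit 0x100001001c0000000000000000000) := T_2 (nat_lit 92) (nat_lit 112) (nat_lit 3) (nat_lit 7) (nat_lit 5) L2556720 (by decide +kernel)
theorem L2556722 : W_2 (nat_lit 4) (nat_lit 0x5800080004001e00000000000000000000000) (nat_lit 0x0) (nat_lit 0x700001001c0000000000000000000) := T_2 (nat_lit 113) (nat_lit 114) (nat_lit 3) (nat_lit 8) (nat_lit 5) L2556721 (by decide +kernel)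
theorem L2556723 : W_2 (nat_lit 5) (nat_lit 0x5000080004001e00000000000000000000000) (nat_lit 0x0) (nat_lit 0x100008000000700001001c0000000000000000000) := T_2 (nat_lit 143) (nat_lit 160) (nat_lit 5) (nat_lit 8) (nat_lit 5) L2556722 (by decide +kernel)
theorem L2556724 : W_2 (nat_lit 2) (nat_lit 0x5000080004001f00080000000000000000000) (nat_lit 0x0) (nat_lit 0x200030000000000000000000000000000) := D_2 (nat_lit 112) (nat_lit 129) (nat_lit 113) (nat_lit 6) (nat_lit 10) (nat_lit 8) (nat_lit 3) (nat_lit 7) (nat_lit 5) (by decide +kernel)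
theorem L2556725 : W_2 (nat_lit 3) (nat_lit 0x5000080004001e00080000000000000000000) (nat_lit 0x0) (nat_lit 0x200030000100040000000000000000000) := T_2 (nat_lit 92) (nat_lit 78) (nat_lit 2) (nat_lit 7) (nat_lit 5) L2556724 (by decide +kernel)
theorem L2556726 : W_2 (nat_lit 4) (nat_lit 0x5000080004001e00000000000000000000000) (nat_lit 0x0) (nat_lit 0x2000300001001c0000000000000000000) := T_2 (nat_lit 79) (nat_lit 80) (nat_lit 2) (nat_lit 8) (nat_lit 5) L2556725 (by decide +kernel)
theorem L2556727 : W_2 (nat_lit 6) (nat_lit 0x5000080004001f00080000000000000000000) (nat_lit 0x0) (nat_lit 0x9001a800e00060000000000000000000000000000) := T_2 (nat_lit 143) (nat_lit 160) (nat_lit 5) (nat_lit 8) (nat_lit 5) L2556706 (by decide +kernel)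
theorem L2556728 : W_2 (nat_lit 7) (nat_lit 0x5000080004001e00080000000000000000000) (nat_lit 0x0) (nat_lit 0x9001a800e00060000100040000000000000000000) := T_2 (nat_lit 92) (nat_lit 78) (nat_lit 2) (nat_lit 7) (nat_lit 5) L2556727 (by decide +kernel)
theorem L2556729 : W_2 (nat_lit 8) (nat_lit 0x5000080004001e00000000000000000000000) (nat_lit 0x0) (nat_lit 0x9001a800e000600001001c0000000000000000000) := T_2 (nat_lit 79) (nat_lit 80) (nat_lit 2) (nat_lit 8) (nat_lit 5) L2556728 (by decide +kernel)
theorem L2556730 : W_2 (nat_lit 2) (nat_lit 0x3001d000880044003e00100000000000000000000) (nat_lit 0x0) (nat_lit 0x400020001000000000000000000000000000000000) := D_2 (nat_lit 149) (nat_lit 132) (nat_lit 166) (nat_lit 7) (nat_lit 12) (nat_lit 4) (nat_lit 7) (nat_lit 12) (nat_lit 5) (by decide +kernel)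
theorem L2556731 : W_2 (nat_lit 3) (nat_lit 0x3000d000880044003e00100000000000000000000) (nat_lit 0x0) (nat_lit 0x500030001000000000000000000000000000000000) := T_2 (nat_lit 148) (nat_lit 164) (nat_lit 5) (nat_lit 12) (nat_lit 5) L2556730 (by decide +kernel)
theorem L2556732 : W_2 (nat_lit 4) (nat_lit 0x3000d000080044003e00100000000000000000000) (nat_lit 0x0) (nat_lit 0x500030001c00000000000000000000000000000000) := T_2 (nat_lit 131) (nat_lit 130) (nat_lit 5) (nat_lit 12) (nat_lit 4) L2556731 (by decide +kernel)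
theorem L2556733 : W_2 (nat_lit 5) (nat_lit 0x3000d000080004003e00100000000000000000000) (nat_lit 0x0) (nat_lit 0x500030001c000c0000000000000000000000000000) := T_2 (nat_lit 114) (nat_lit 115) (nat_lit 3) (nat_lit 9) (nat_lit 5) L2556732 (by decide +kernel)
theorem L2556734 : W_2 (nat_lit 6) (nat_lit 0x30005000080004003e00100000000000000000000) (nat_lit 0x0) (nat_lit 0x50003a001c000c0000000000000000000000000000) := T_2 (nat_lit 147) (nat_lit 145) (nat_lit 1) (nat_lit 11) (nat_lit 8) L2556733 (by decide +kernel)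
theorem L2556735 : W_2 (nat_lit 7) (nat_lit 0x10005000080004003e00100000000000000000000) (nat_lit 0x0) (nat_lit 0x20052003a001c000c0000000000000000000000000000) := T_2 (nat_lit 161) (nat_lit 177) (nat_lit 5) (nat_lit 8) (nat_lit 6) L2556734 (by decide +kernel)
theorem L2556736 : W_2 (nat_lit 8) (nat_lit 0x10005000080004001e00100000000000000000000) (nat_lit 0x0) (nat_lit 0x20052003a001c000c0002000200000000000000000000) := T_2 (nat_lit 97) (nat_lit 81) (nat_lit 2) (nat_lit 9) (nat_lit 5) L2556735 (by decide +kernel)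
theorem L2556737 : W_2 (nat_lit 9) (nat_lit 0x5000080004001e00100000000000000000000) (nat_lit 0x0) (nat_lit 0x20053003a801c000c0002000200000000000000000000) := T_2 (nat_lit 160) (nat_lit 143) (nat_lit 5) (nat_lit 8) (nat_lit 5) L2556736 (by decide +kernel)
theorem L2556738 : W_2 (nat_lit 10) (nat_lit 0x5000080004001e00000000000000000000000) (nat_lit 0x0) (nat_lit 0x20053003a801c000c0002000380000000000000000000) := T_2 (nat_lit 80) (nat_lit 79) (nat_lit 2) (nat_lit 8) (nat_lit 5) L2556737 (by decide +kernel)
theorem L2556739 : W_2 (nat_lit 2) (nat_lit 0x3000d000080024001f00000000000000000000000) (nat_lit 0x0) (nat_lit 0x80000000400000000000040000000000000000000) := D_2 (nat_lit 130) (nat_lit 78) (nat_lit 163) (nat_lit 4) (nat_lit 11) (nat_lit 8) (nat_lit 5) (nat_lit 11) (nat_lit 5) (by decide +kernel)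
theorem L2556740 : W_2 (nat_lit 3) (nat_lit 0x30005000080024001f00000000000000000000000) (nat_lit 0x0) (nat_lit 0x8000a000400000000000040000000000000000000) := T_2 (nat_lit 147) (nat_lit 145) (nat_lit 1) (nat_lit 11) (nat_lit 8) L2556739 (by decide +kernel)
theorem L2556741 : W_2 (nat_lit 4) (nat_lit 0x10005000080024001f00000000000000000000000) (nat_lit 0x0) (nat_lit 0x2000a000a000400000000000040000000000000000000) := T_2 (nat_lit 161) (nat_lit 177) (nat_lit 5) (nat_lit 8) (nat_lit 6) L2556740 (by decide +kernel)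
theorem L2556742 : W_2 (nat_lit 5) (nat_lit 0x5000080024001f00000000000000000000000) (nat_lit 0x0) (nat_lit 0x2000b000a800400000000000040000000000000000000) := T_2 (nat_lit 160) (nat_lit 143) (nat_lit 5) (nat_lit 8) (nat_lit 5) L2556741 (by decide +kernel)
theorem L2556743 : W_2 (nat_lit 6) (nat_lit 0x5000080024001e00000000000000000000000) (nat_lit 0x0) (nat_lit 0x2000b000a800400010000100040000000000000000000) := T_2 (nat_lit 92) (nat_lit 112) (nat_lit 3) (nat_lit 7) (nat_lit 5) L2556742 (by decide +kernel)
theorem L2556744 : W_2 (nat_lit 7) (nat_lit 0x5000080004001e00000000000000000000000) (nat_lit 0x0) (nat_lit 0x2000b000a800400070000100040000000000000000000) := T_2 (nat_lit 113) (nat_lit 114) (nat_lit 3) (nat_lit 8) (nat_lit 5) L2556743 (by decide +kernel)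
theorem L2556745 : W_2 (nat_lit 11) (nat_lit 0x5000080004000e00000000000000000000000) (nat_lit 0x0) (nat_lit 0x2005b003a801e000f00031003c0000000000000000000) := Q_2 (nat_lit 96) (C_2 L2556671 (C_2 L2556723 (C_2 L2556726 (C_2 L2556729 (C_2 L2556738 (C_2 L2556744 N_2)))))) (by decide +kernel)
theorem L2556746 : W_2 (nat_lit 13) (nat_lit 0x5000080004000600000000000000000000000) (nat_lit 0x0) (nat_lit 0x2005b003a801e000f00039003d8000400000000000000) := Q_2 (nat_lit 95) (C_2 L2556663 (C_2 L2556667 (C_2 L2556702 (C_2 L2556710 (C_2 L2556712 (C_2 L2556719 (C_2 L2556745 N_2))))))) (by decide +kernel)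
theorem L2556747 : W_2 (nat_lit 14) (nat_lit 0x5000080004000400000000000000000000000) (nat_lit 0x0) (nat_lit 0x2005b003a801e000f0003b003f8000400000000000000) := T_2 (nat_lit 93) (nat_lit 77) (nat_lit 6) (nat_lit 8) (nat_lit 8) L2556746 (by decide +kernel)
theorem L2556748 : W_2 (nat_lit 6) (nat_lit 0x5000080014000600000000000000000000000) (nat_lit 0x0) (nat_lit 0x100008002000200019001c8000000000000000000) := T_2 (nat_lit 143) (nat_lit 160) (nat_lit 5) (nat_lit 8) (nat_lit 5) L1662185 (by decide +kernel)
theorem L2556749 : W_2 (nat_lit 7) (nat_lit 0x5000080014000400000000000000000000000) (nat_lit 0x0) (nat_lit 0x10000800200020001b001e8000000000000000000) := T_2 (nat_lit 93) (nat_lit 77) (nat_lit 6) (nat_lit 8) (nat_lit 8) L2556748 (by decide +kernel)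
theorem L2556750 : W_2 (nat_lit 4) (nat_lit 0x5000080014000600000000000000000000000) (nat_lit 0x0) (nat_lit 0x10000800000028000900008000000000000000000) := T_2 (nat_lit 143) (nat_lit 160) (nat_lit 5) (nat_lit 8) (nat_lit 5) L1662183 (by decide +kernel)
theorem L2556751 : W_2 (nat_lit 5) (nat_lit 0x5000080014000400000000000000000000000) (nat_lit 0x0) (nat_lit 0x10000800000028000b00028000000000000000000) := T_2 (nat_lit 93) (nat_lit 77) (nat_lit 6) (nat_lit 8) (nat_lit 8) L2556750 (by decide +kernel)
theorem L2556752 : W_2 (nat_lit 2) (nat_lit 0x180005800280014001e00000000000000000000000) (nat_lit 0x0) (nat_lit 0x100018000000000000000000) := D_2 (nat_lit 75) (nat_lit 92) (nat_lit 76) (nat_lit 4) (nat_lit 8) (nat_lit 8) (nat_lit 0) (nat_lit 11) (nat_lit 5) (by decide +kernel)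
theorem L2556753 : W_2 (nat_lit 3) (nat_lit 0x180005800280014001c00000000000000000000000) (nat_lit 0x0) (nat_lit 0x10000000000000000300018000000000000000000) := T_2 (nat_lit 93) (nat_lit 160) (nat_lit 5) (nat_lit 8) (nat_lit 5) L2556752 (by decide +kernel)
theorem L2556754 : W_2 (nat_lit 4) (nat_lit 0x180005000280014001c00000000000000000000000) (nat_lit 0x0) (nat_lit 0x10002800000000000300018000000000000000000) := T_2 (nat_lit 143) (nat_lit 145) (nat_lit 3) (nat_lit 7) (nat_lit 8) L2556753 (by decide +kernel)
theorem L2556755 : W_2 (nat_lit 5) (nat_lit 0x80005000280014001c00000000000000000000000) (nat_lit 0x0) (nat_lit 0x2000110002800000000000300018000000000000000000) := T_2 (nat_lit 164) (nat_lit 181) (nat_lit 7) (nat_lit 10) (nat_lit 6) L2556754 (by decide +kernel)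
theorem L2556756 : W_2 (nat_lit 6) (nat_lit 0x5000280014001c00000000000000000000000) (nat_lit 0x0) (nat_lit 0x2000190002800000020000300018000000000000000000) := T_2 (nat_lit 163) (nat_lit 113) (nat_lit 6) (nat_lit 10) (nat_lit 9) L2556755 (by decide +kernel)
theorem L2556757 : W_2 (nat_lit 7) (nat_lit 0x5000280014000c00000000000000000000000) (nat_lit 0x0) (nat_lit 0x2000190002800000020001300098000000000000000000) := T_2 (nat_lit 96) (nat_lit 79) (nat_lit 6) (nat_lit 10) (nat_lit 8) L2556756 (by decide +kernel)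
theorem L2556758 : W_2 (nat_lit 2) (nat_lit 0x5000280034001c00000000000000000000000) (nat_lit 0x0) (nat_lit 0x40000300000000000000000000000) := D_2 (nat_lit 93) (nat_lit 114) (nat_lit 92) (nat_lit 3) (nat_lit 8) (nat_lit 5) (nat_lit 3) (nat_lit 7) (nat_lit 5) (by decide +kernel)
theorem L2556759 : W_2 (nat_lit 3) (nat_lit 0x5000280014001c00000000000000000000000) (nat_lit 0x0) (nat_lit 0x80000000000060000300000000000000000000000) := T_2 (nat_lit 113) (nat_lit 163) (nat_lit 6) (nat_lit 10) (nat_lit 9) L2556758 (by decide +kernel)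
theorem L2556760 : W_2 (nat_lit 4) (nat_lit 0x5000280014000c00000000000000000000000) (nat_lit 0x0) (nat_lit 0x80000000000060001300080000000000000000000) := T_2 (nat_lit 96) (nat_lit 79) (nat_lit 6) (nat_lit 10) (nat_lit 8) L2556759 (by decide +kernel)
theorem L2556761 : W_2 (nat_lit 8) (nat_lit 0x5000280014000400000000000000000000000) (nat_lit 0x0) (nat_lit 0x200019000a800c00060001b000d8000000000000000000) := Q_2 (nat_lit 95) (C_2 L2388312 (C_2 L2556757 (C_2 L2388285 (C_2 L2556760 N_2)))) (by decide +kernel)
theorem L2556762 : W_2 (nat_lit 4) (nat_lit 0x80005000280014000400000000000000000000000) (nat_lit 0x0) (nat_lit 0x200070000a800000000000000000000000000000000000) := T_2 (nat_lit 164) (nat_lit 181) (nat_lit 7) (nat_lit 10) (nat_lit 6) L2395189 (by decide +kernel)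
theorem L2556763 : W_2 (nat_lit 5) (nat_lit 0x5000280014000400000000000000000000000) (nat_lit 0x0) (nat_lit 0x200078000a800000008000000000000000000000000000) := T_2 (nat_lit 163) (nat_lit 111) (nat_lit 4) (nat_lit 10) (nat_lit 9) L2556762 (by decide +kernel)
theorem L2556764 : W_2 (nat_lit 2) (nat_lit 0xc00034001000180005800280034000400000000000000000000000) (nat_lit 0x0) (nat_lit 0x200010000000000000000200000000000000000000000) := D_2 (nat_lit 160) (nat_lit 93) (nat_lit 177) (nat_lit 5) (nat_lit 8) (nat_lit 5) (nat_lit 6) (nat_lit 7) (nat_lit 11) (by decide +kernel)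
theorem L2556765 : W_2 (nat_lit 3) (nat_lit 0xc00030001000180005800280034000400000000000000000000000) (nat_lit 0x0) (nat_lit 0xc000200010000000000000000200000000000000000000000) := T_2 (nat_lit 194) (nat_lit 195) (nat_lit 3) (nat_lit 7) (nat_lit 11) L2556764 (by decide +kernel)
theorem L2556766 : W_2 (nat_lit 4) (nat_lit 0xc00030001000180005000280034000400000000000000000000000) (nat_lit 0x0) (nat_lit 0xc000200010002800000000000200000000000000000000000) := T_2 (nat_lit 143) (nat_lit 145) (nat_lit 3) (nat_lit 7) (nat_lit 8) L2556765 (by decide +kernel)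
theorem L2556767 : W_2 (nat_lit 5) (nat_lit 0xc00030001000080005000280034000400000000000000000000000) (nat_lit 0x0) (nat_lit 0xc00020011000a800000000000200000000000000000000000) := T_2 (nat_lit 164) (nat_lit 147) (nat_lit 6) (nat_lit 10) (nat_lit 12) L2556766 (by decide +kernel)
theorem L2556768 : W_2 (nat_lit 6) (nat_lit 0x800030001000080005000280034000400000000000000000000000) (nat_lit 0x0) (nat_lit 0x1000040000c00020011000a800000000000200000000000000000000000) := T_2 (nat_lit 214) (nat_lit 232) (nat_lit 7) (nat_lit 10) (nat_lit 9) L2556767 (by decide +kernel)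
theorem L2556769 : W_2 (nat_lit 7) (nat_lit 0x30001000080005000280034000400000000000000000000000) (nat_lit 0x0) (nat_lit 0x10000c0004c00020011000a800000000000200000000000000000000000) := T_2 (nat_lit 215) (nat_lit 198) (nat_lit 7) (nat_lit 10) (nat_lit 8) L2556768 (by decide +kernel)
theorem L2556770 : W_2 (nat_lit 8) (nat_lit 0x10001000080005000280034000400000000000000000000000) (nat_lit 0x0) (nat_lit 0x10000e0006c00020011000a800000000000200000000000000000000000) := T_2 (nat_lit 197) (nat_lit 213) (nat_lit 5) (nat_lit 10) (nat_lit 8) L2556769 (by decide +kernel)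
theorem L2556771 : W_2 (nat_lit 9) (nat_lit 0x1000080005000280034000400000000000000000000000) (nat_lit 0x0) (nat_lit 0x10000e0007c000a0011000a800000000000200000000000000000000000) := T_2 (nat_lit 196) (nat_lit 179) (nat_lit 5) (nat_lit 10) (nat_lit 7) L2556770 (by decide +kernel)
theorem L2556772 : W_2 (nat_lit 10) (nat_lit 0x80005000280034000400000000000000000000000) (nat_lit 0x0) (nat_lit 0x10000e0007c001a0011000a800400000000200000000000000000000000) := T_2 (nat_lit 180) (nat_lit 130) (nat_lit 6) (nat_lit 10) (nat_lit 10) L2556771 (by decide +kernel)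
theorem L2556773 : W_2 (nat_lit 11) (nat_lit 0x80005000280014000400000000000000000000000) (nat_lit 0x0) (nat_lit 0x10000e0007c001a0011000a800400020001200000000000000000000000) := T_2 (nat_lit 113) (nat_lit 96) (nat_lit 6) (nat_lit 10) (nat_lit 9) L2556772 (by decide +kernel)
theorem L2556774 : W_2 (nat_lit 12) (nat_lit 0x5000280014000400000000000000000000000) (nat_lit 0x0) (nat_lit 0x10000e0007c001a0019000a800400028001200000000000000000000000) := T_2 (nat_lit 163) (nat_lit 111) (nat_lit 4) (nat_lit 10) (nat_lit 9) L2556773 (by decide +kernel)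
theorem L2556775 : W_2 (nat_lit 2) (nat_lit 0xd000280054003e00100000000000000000000) (nat_lit 0x0) (nat_lit 0x100018000000000000000000) := D_2 (nat_lit 75) (nat_lit 76) (nat_lit 92) (nat_lit 0) (nat_lit 11) (nat_lit 5) (nat_lit 4) (nat_lit 8) (nat_lit 8) (by decide +kernel)
theorem L2556776 : W_2 (nat_lit 3) (nat_lit 0xd000280054003c00100000000000000000000) (nat_lit 0x0) (nat_lit 0x20000300018000000000000000000) := T_2 (nat_lit 93) (nat_lit 113) (nat_lit 3) (nat_lit 8) (nat_lit 5) L2556775 (by decide +kernel)
theorem L2556777 : W_2 (nat_lit 4) (nat_lit 0xd000280014003c00100000000000000000000) (nat_lit 0x0) (nat_lit 0xe0000300018000000000000000000) := T_2 (nat_lit 114) (nat_lit 115) (nat_lit 3) (nat_lit 9) (nat_lit 5) L2556776 (by decide +kernel)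
theorem L2556778 : W_2 (nat_lit 5) (nat_lit 0xd000280014003c00000000000000000000000) (nat_lit 0x0) (nat_lit 0xe0000300318000000000000000000) := T_2 (nat_lit 80) (nat_lit 81) (nat_lit 2) (nat_lit 9) (nat_lit 5) L2556777 (by decide +kernel)
theorem L2556779 : W_2 (nat_lit 6) (nat_lit 0x5000280014003c00000000000000000000000) (nat_lit 0x0) (nat_lit 0x1000080000000e0000300318000000000000000000) := T_2 (nat_lit 147) (nat_lit 164) (nat_lit 7) (nat_lit 10) (nat_lit 5) L2556778 (by decide +kernel)
theorem L2556780 : W_2 (nat_lit 7) (nat_lit 0x5000280014001c00000000000000000000000) (nat_lit 0x0) (nat_lit 0x1000080000000e8002300318000000000000000000) := T_2 (nat_lit 97) (nat_lit 111) (nat_lit 1) (nat_lit 12) (nat_lit 5) L2556779 (by decide +kernel)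
theorem L2556781 : W_2 (nat_lit 8) (nat_lit 0x5000280014000c00000000000000000000000) (nat_lit 0x0) (nat_lit 0x1000080000000e8003300398000000000000000000) := T_2 (nat_lit 96) (nat_lit 79) (nat_lit 6) (nat_lit 10) (nat_lit 8) L2556780 (by decide +kernel)
theorem L2556782 : W_2 (nat_lit 2) (nat_lit 0x5000280054003e00000000000000000000000) (nat_lit 0x0) (nat_lit 0x100018000000000000000000) := D_2 (nat_lit 75) (nat_lit 76) (nat_lit 92) (nat_lit 0) (nat_lit 11) (nat_lit 5) (nat_lit 4) (nat_lit 8) (nat_lit 8) (by decide +kernel)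
theorem L2556783 : W_2 (nat_lit 3) (nat_lit 0x5000280054003c00000000000000000000000) (nat_lit 0x0) (nat_lit 0x20000300018000000000000000000) := T_2 (nat_lit 93) (nat_lit 113) (nat_lit 3) (nat_lit 8) (nat_lit 5) L2556782 (by decide +kernel)
theorem L2556784 : W_2 (nat_lit 4) (nat_lit 0x5000280014003c00000000000000000000000) (nat_lit 0x0) (nat_lit 0xe0000300018000000000000000000) := T_2 (nat_lit 114) (nat_lit 115) (nat_lit 3) (nat_lit 9) (nat_lit 5) L2556783 (by decide +kernel)
theorem L2556785 : W_2 (nat_lit 5) (nat_lit 0x5000280014001c00000000000000000000000) (nat_lit 0x0) (nat_lit 0xe8002300018000000000000000000) := T_2 (nat_lit 97) (nat_lit 111) (nat_lit 1) (nat_lit 12) (nat_lit 5) L2556784 (by decide +kernel)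
theorem L2556786 : W_2 (nat_lit 6) (nat_lit 0x5000280014000c00000000000000000000000) (nat_lit 0x0) (nat_lit 0xe8003300098000000000000000000) := T_2 (nat_lit 96) (nat_lit 79) (nat_lit 6) (nat_lit 10) (nat_lit 8) L2556785 (by decide +kernel)
theorem L2556787 : W_2 (nat_lit 9) (nat_lit 0x5000280014000400000000000000000000000) (nat_lit 0x0) (nat_lit 0x10000a800c001e8007b007d8000000000000000000) := Q_2 (nat_lit 95) (C_2 L2556138 (C_2 L2388285 (C_2 L2556781 (C_2 L2556786 N_2)))) (by decide +kernel)
theorem L2556788 : W_2 (nat_lit 13) (nat_lit 0x5000080014000400000000000000000000000) (nat_lit 0x0) (nat_lit 0x10000e0007c003a0079000a800e001e8007b007d8000000000000000000) := Q_2 (nat_lit 129) (C_2 L2556128 (C_2 L2556761 (C_2 L2556125 (C_2 L2556763 (C_2 L2556774 (C_2 L2556787 N_2)))))) (by decide +kernel)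
theorem L2556789 : W_2 (nat_lit 2) (nat_lit 0x5800080014000700000000000000000000000) (nat_lit 0x0) (nat_lit 0x28000080000000000000000000000) := D_2 (nat_lit 111) (nat_lit 91) (nat_lit 113) (nat_lit 3) (nat_lit 6) (nat_lit 5) (nat_lit 0) (nat_lit 11) (nat_lit 6) (by decide +kernel)
theorem L2556790 : W_2 (nat_lit 3) (nat_lit 0x5800080014000600000000000000000000000) (nat_lit 0x0) (nat_lit 0x28000180008000000000000000000) := T_2 (nat_lit 92) (nat_lit 75) (nat_lit 4) (nat_lit 8) (nat_lit 8) L2556789 (by decide +kernel)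
theorem L2556791 : W_2 (nat_lit 4) (nat_lit 0x5000080014000600000000000000000000000) (nat_lit 0x0) (nat_lit 0x10000800000028000180008000000000000000000) := T_2 (nat_lit 143) (nat_lit 160) (nat_lit 5) (nat_lit 8) (nat_lit 5) L2556790 (by decide +kernel)
theorem L2556792 : W_2 (nat_lit 5) (nat_lit 0x5000080014000400000000000000000000000) (nat_lit 0x0) (nat_lit 0x10000800000028000380028000000000000000000) := T_2 (nat_lit 93) (nat_lit 77) (nat_lit 6) (nat_lit 8) (nat_lit 8) L2556791 (by decide +kernel)
theorem L2556793 : W_2 (nat_lit 2) (nat_lit 0x5800080014800780002000000000000000000) (nat_lit 0x0) (nat_lit 0x400040001000000000000000000) := D_2 (nat_lit 90) (nat_lit 106) (nat_lit 72) (nat_lit 1) (nat_lit 8) (nat_lit 5) (nat_lit 0) (nat_lit 8) (nat_lit 5) (by decide +kernel)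
theorem L2556794 : W_2 (nat_lit 3) (nat_lit 0x5800080014800780000000000000000000000) (nat_lit 0x0) (nat_lit 0x400040007000000000000000000) := T_2 (nat_lit 73) (nat_lit 74) (nat_lit 0) (nat_lit 9) (nat_lit 5) L2556793 (by decide +kernel)
theorem L2556795 : W_2 (nat_lit 4) (nat_lit 0x5800080014000780000000000000000000000) (nat_lit 0x0) (nat_lit 0x1c00040007000000000000000000) := T_2 (nat_lit 107) (nat_lit 108) (nat_lit 1) (nat_lit 9) (nat_lit 5) L2556794 (by decide +kernel)
theorem L2556796 : W_2 (nat_lit 5) (nat_lit 0x5800080014000700000000000000000000000) (nat_lit 0x0) (nat_lit 0x9c000c0007000000000000000000) := T_2 (nat_lit 91) (nat_lit 111) (nat_lit 3) (nat_lit 6) (nat_lit 5) L2556795 (by decide +kernel)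
theorem L2556797 : W_2 (nat_lit 6) (nat_lit 0x5800080014000600000000000000000000000) (nat_lit 0x0) (nat_lit 0x9c001c000f000000000000000000) := T_2 (nat_lit 92) (nat_lit 75) (nat_lit 4) (nat_lit 8) (nat_lit 8) L2556796 (by decide +kernel)
theorem L2556798 : W_2 (nat_lit 7) (nat_lit 0x5000080014000600000000000000000000000) (nat_lit 0x0) (nat_lit 0x10000800000009c001c000f000000000000000000) := T_2 (nat_lit 143) (nat_lit 160) (nat_lit 5) (nat_lit 8) (nat_lit 5) L2556797 (by decide +kernel)
theorem L2556799 : W_2 (nat_lit 8) (nat_lit 0x5000080014000400000000000000000000000) (nat_lit 0x0) (nat_lit 0x10000800000009c003c002f000000000000000000) := T_2 (nat_lit 93) (nat_lit 77) (nat_lit 6) (nat_lit 8) (nat_lit 8) L2556798 (by decide +kernel)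
theorem L2556800 : W_2 (nat_lit 14) (nat_lit 0x5000080004000400000000000000000000000) (nat_lit 0x0) (nat_lit 0x10000e0007c003a0079000a800e001f9c07bc07ff000000000000000000) := Q_2 (nat_lit 112) (C_2 L2556749 (C_2 L2556140 (C_2 L2556751 (C_2 L2556788 (C_2 L2556792 (C_2 L2556799 N_2)))))) (by decide +kernel)
theorem L2556801 : W_2 (nat_lit 4) (nat_lit 0x20005000080004000400000000000000000000000) (nat_lit 0x0) (nat_lit 0x20001c00a800000000000000000000000000000000000) := T_2 (nat_lit 160) (nat_lit 177) (nat_lit 5) (nat_lit 8) (nat_lit 6) L2070570 (by decide +kernel)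
theorem L2556802 : W_2 (nat_lit 5) (nat_lit 0x5000080004000400000000000000000000000) (nat_lit 0x0) (nat_lit 0x20003c00a800000008000000000000000000000000000) := T_2 (nat_lit 161) (nat_lit 111) (nat_lit 6) (nat_lit 8) (nat_lit 9) L2556801 (by decide +kernel)
theorem L2556803 : W_2 (nat_lit 15) (nat_lit 0x5000080000000400000000000000000000000) (nat_lit 0x0) (nat_lit 0x10000e0007c003a007bc03a801e001fdc07bc07ff001400000000000000) := Q_2 (nat_lit 110) (C_2 L2556747 (C_2 L2556026 (C_2 L2556800 (C_2 L2556802 N_2)))) (by decide +kernel)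
theorem L2556815 : W_2 (nat_lit 2) (nat_lit 0x84007e00088000000c00000000000000000000000) (nat_lit 0x0) (nat_lit 0x100044000000000000000000000000000000) := D_2 (nat_lit 140) (nat_lit 126) (nat_lit 122) (nat_lit 2) (nat_lit 4) (nat_lit 8) (nat_lit 0) (nat_lit 7) (nat_lit 8) (by decide +kernel)
theorem L2556816 : W_2 (nat_lit 3) (nat_lit 0x84007e00080000000c00000000000000000000000) (nat_lit 0x0) (nat_lit 0x10005c000000000000000000000000000000) := T_2 (nat_lit 123) (nat_lit 124) (nat_lit 0) (nat_lit 8) (nat_lit 8) L2556815 (by decide +kernel)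
theorem L2556817 : W_2 (nat_lit 4) (nat_lit 0x84007c00080000000c00000000000000000000000) (nat_lit 0x0) (nat_lit 0x200030005c000000000000000000000000000000) := T_2 (nat_lit 141) (nat_lit 157) (nat_lit 1) (nat_lit 8) (nat_lit 8) L2556816 (by decide +kernel)
theorem L2556818 : W_2 (nat_lit 5) (nat_lit 0x80007c00080000000c00000000000000000000000) (nat_lit 0x0) (nat_lit 0xe00030005c000000000000000000000000000000) := T_2 (nat_lit 158) (nat_lit 159) (nat_lit 1) (nat_lit 9) (nat_lit 8) L2556817 (by decide +kernel)
theorem L2556819 : W_2 (nat_lit 6) (nat_lit 0x7c00080000000c00000000000000000000000) (nat_lit 0x0) (nat_lit 0x18e00030005c000000000000000000000000000000) := T_2 (nat_lit 163) (nat_lit 164) (nat_lit 3) (nat_lit 7) (nat_lit 8) L2556818 (by decide +kernel)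
theorem L2556820 : W_2 (nat_lit 2) (nat_lit 0x7c00080000000c00000000000000000000000) (nat_lit 0x0) (nat_lit 0x70000000000000000000000000000000) := D_2 (nat_lit 125) (nat_lit 124) (nat_lit 126) (nat_lit 0) (nat_lit 9) (nat_lit 8) (nat_lit 0) (nat_lit 10) (nat_lit 8) (by decide +kernel)
theorem L2556821 : W_2 (nat_lit 2) (nat_lit 0x4007c000c0000000c00000000000000000000000) (nat_lit 0x0) (nat_lit 0x2000300000000000000000000000000000000000) := D_2 (nat_lit 141) (nat_lit 157) (nat_lit 140) (nat_lit 1) (nat_lit 8) (nat_lit 8) (nat_lit 2) (nat_lit 4) (nat_lit 8) (by decide +kernel)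
theorem L2556822 : W_2 (nat_lit 3) (nat_lit 0x4007c00080000000c00000000000000000000000) (nat_lit 0x0) (nat_lit 0x2000300060000000000000000000000000000000) := T_2 (nat_lit 126) (nat_lit 125) (nat_lit 0) (nat_lit 10) (nat_lit 8) L2556821 (by decide +kernel)
theorem L2556823 : W_2 (nat_lit 4) (nat_lit 0x7c00080000000c00000000000000000000000) (nat_lit 0x0) (nat_lit 0xe000300060000000000000000000000000000000) := T_2 (nat_lit 158) (nat_lit 159) (nat_lit 1) (nat_lit 9) (nat_lit 8) L2556822 (by decide +kernel)
theorem L2556824 : W_2 (nat_lit 7) (nat_lit 0x7800080000000c00000000000000000000000) (nat_lit 0x0) (nat_lit 0x18e00070007c000000000000000000000000000000) := Q_2 (nat_lit 142) (C_2 L1664333 (C_2 L2556819 (C_2 L2556820 (C_2 L2556823 N_2)))) (by decide +kernel)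
theorem L2556825 : W_2 (nat_lit 2) (nat_lit 0x200090007800080000000c00000000000000000000000) (nat_lit 0x0) (nat_lit 0x20000000000004000200000000000000000000000) := D_2 (nat_lit 110) (nat_lit 93) (nat_lit 161) (nat_lit 5) (nat_lit 8) (nat_lit 5) (nat_lit 5) (nat_lit 8) (nat_lit 6) (by decide +kernel)
theorem L2556826 : W_2 (nat_lit 3) (nat_lit 0x90007800080000000c00000000000000000000000) (nat_lit 0x0) (nat_lit 0x4000200020000000000004000200000000000000000000000) := T_2 (nat_lit 177) (nat_lit 194) (nat_lit 6) (nat_lit 7) (nat_lit 11) L2556825 (by decide +kernel)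
theorem L2556827 : W_2 (nat_lit 4) (nat_lit 0x10007800080000000c00000000000000000000000) (nat_lit 0x0) (nat_lit 0x40002001a0000000000004000200000000000000000000000) := T_2 (nat_lit 163) (nat_lit 164) (nat_lit 3) (nat_lit 7) (nat_lit 8) L2556826 (by decide +kernel)
theorem L2556828 : W_2 (nat_lit 5) (nat_lit 0x7800080000000c00000000000000000000000) (nat_lit 0x0) (nat_lit 0x40002001b8000000000004000200000000000000000000000) := T_2 (nat_lit 160) (nat_lit 159) (nat_lit 1) (nat_lit 10) (nat_lit 8) L2556827 (by decide +kernel)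
theorem L2556829 : W_2 (nat_lit 2) (nat_lit 0x7000080010000f00020000000080000000000) (nat_lit 0x0) (nat_lit 0x800c0000000000000000000) := D_2 (nat_lit 78) (nat_lit 79) (nat_lit 91) (nat_lit 2) (nat_lit 7) (nat_lit 5) (nat_lit 2) (nat_lit 6) (nat_lit 5) (by decide +kernel)
theorem L2556830 : W_2 (nat_lit 3) (nat_lit 0x7000080010000e00020000000080000000000) (nat_lit 0x0) (nat_lit 0x200001800c0000000000000000000) := T_2 (nat_lit 92) (nat_lit 113) (nat_lit 3) (nat_lit 7) (nat_lit 5) L2556829 (by decide +kernel)
theorem L2556831 : W_2 (nat_lit 4) (nat_lit 0x7000080010000e00020000000000000000000) (nat_lit 0x0) (nat_lit 0x200001800c0001000080000000000) := T_2 (nat_lit 43) (nat_lit 60) (nat_lit 7) (nat_lit 9) (nat_lit 2) L2556830 (by decide +kernel)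
theorem L2556834 : W_2 (nat_lit 2) (nat_lit 0x7800080004000e00000000000000000000000) (nat_lit 0x0) (nat_lit 0x60000000000010000000000000000000) := D_2 (nat_lit 126) (nat_lit 76) (nat_lit 125) (nat_lit 5) (nat_lit 8) (nat_lit 4) (nat_lit 0) (nat_lit 10) (nat_lit 8) (by decide +kernel)
theorem L2556835 : W_2 (nat_lit 3) (nat_lit 0x7000080004000e00000000000000000000000) (nat_lit 0x0) (nat_lit 0x10000800060000000000010000000000000000000) := T_2 (nat_lit 143) (nat_lit 160) (nat_lit 5) (nat_lit 8) (nat_lit 5) L2556834 (by decide +kernel)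
theorem L2556836 : W_2 (nat_lit 4) (nat_lit 0x7000080000000e00000000000000000000000) (nat_lit 0x0) (nat_lit 0x10000800060004000000030000000000000000000) := T_2 (nat_lit 110) (nat_lit 77) (nat_lit 6) (nat_lit 8) (nat_lit 8) L2556835 (by decide +kernel)
theorem L2556837 : W_2 (nat_lit 2) (nat_lit 0x7000080000000f00000000000000000000000) (nat_lit 0x0) (nat_lit 0x400000000c000000000000000000) := D_2 (nat_lit 75) (nat_lit 74) (nat_lit 110) (nat_lit 0) (nat_lit 10) (nat_lit 5) (nat_lit 4) (nat_lit 8) (nat_lit 8) (by decide +kernel)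
theorem L2556838 : W_2 (nat_lit 2) (nat_lit 0x7000080010000f00080000000000000000000) (nat_lit 0x0) (nat_lit 0x200000001000100000000000000000000) := D_2 (nat_lit 96) (nat_lit 80) (nat_lit 129) (nat_lit 2) (nat_lit 8) (nat_lit 5) (nat_lit 6) (nat_lit 10) (nat_lit 8) (by decide +kernel)
theorem L2556839 : W_2 (nat_lit 3) (nat_lit 0x7000080010000f00000000000000000000000) (nat_lit 0x0) (nat_lit 0x2000000010001c0000000000000000000) := T_2 (nat_lit 79) (nat_lit 78) (nat_lit 2) (nat_lit 7) (nat_lit 5) L2556838 (by decide +kernel)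
theorem L2556840 : W_2 (nat_lit 4) (nat_lit 0x7000080000000f00000000000000000000000) (nat_lit 0x0) (nat_lit 0x2000300010001c0000000000000000000) := T_2 (nat_lit 112) (nat_lit 113) (nat_lit 3) (nat_lit 7) (nat_lit 5) L2556839 (by decide +kernel)
theorem L2556841 : W_2 (nat_lit 5) (nat_lit 0x7000080000000e00000000000000000000000) (nat_lit 0x0) (nat_lit 0x2000340011001dc000000000000000000) := Q_2 (nat_lit 92) (C_2 L1909860 (C_2 L2556837 (C_2 L2556840 N_2))) (by decide +kernel)
theorem L2556842 : W_2 (nat_lit 6) (nat_lit 0x7800080004000e00000000000000000000000) (nat_lit 0x0) (nat_lit 0x1800000000000700011001c8000000000000000000) := T_2 (nat_lit 163) (nat_lit 164) (nat_lit 3) (nat_lit 7) (nat_lit 8) L1661843 (by decide +kernel)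
theorem L2556843 : W_2 (nat_lit 7) (nat_lit 0x7000080004000e00000000000000000000000) (nat_lit 0x0) (nat_lit 0x1900008000000700011001c8000000000000000000) := T_2 (nat_lit 143) (nat_lit 160) (nat_lit 5) (nat_lit 8) (nat_lit 5) L2556842 (by decide +kernel)
theorem L2556844 : W_2 (nat_lit 8) (nat_lit 0x7000080000000e00000000000000000000000) (nat_lit 0x0) (nat_lit 0x1900008000000740011001e8000000000000000000) := T_2 (nat_lit 110) (nat_lit 77) (nat_lit 6) (nat_lit 8) (nat_lit 8) L2556843 (by decide +kernel)
theorem L2556845 : W_2 (nat_lit 9) (nat_lit 0x7000080000000c00000000000000000000000) (nat_lit 0x0) (nat_lit 0x1900008002600740033003fc000000000000000000) := Q_2 (nat_lit 93) (C_2 L1909916 (C_2 L2556836 (C_2 L2556841 (C_2 L2556844 N_2)))) (by decide +kernel)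
theorem L2556846 : W_2 (nat_lit 2) (nat_lit 0x100078002c0000000c00000000000000000000000) (nat_lit 0x0) (nat_lit 0x4000200000000000000004000000000000000000000000000) := D_2 (nat_lit 177) (nat_lit 110) (nat_lit 194) (nat_lit 6) (nat_lit 7) (nat_lit 10) (nat_lit 6) (nat_lit 7) (nat_lit 11) (by decide +kernel)
theorem L2556847 : W_2 (nat_lit 3) (nat_lit 0x78002c0000000c00000000000000000000000) (nat_lit 0x0) (nat_lit 0x4000200018000000000004000000000000000000000000000) := T_2 (nat_lit 160) (nat_lit 159) (nat_lit 1) (nat_lit 10) (nat_lit 8) L2556846 (by decide +kernel)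
theorem L2556848 : W_2 (nat_lit 4) (nat_lit 0x78000c0000000c00000000000000000000000) (nat_lit 0x0) (nat_lit 0x4000200018000000600004000000000000000000000000000) := T_2 (nat_lit 129) (nat_lit 130) (nat_lit 2) (nat_lit 7) (nat_lit 8) L2556847 (by decide +kernel)
theorem L2556849 : W_2 (nat_lit 5) (nat_lit 0x7800080000000c00000000000000000000000) (nat_lit 0x0) (nat_lit 0x4000200018000000660004000000000000000000000000000) := T_2 (nat_lit 126) (nat_lit 125) (nat_lit 0) (nat_lit 10) (nat_lit 8) L2556848 (by decide +kernel)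
theorem L2556850 : W_2 (nat_lit 8) (nat_lit 0x7000080000000c00000000000000000000000) (nat_lit 0x0) (nat_lit 0x400020019e000f0067c0340010000a0000000000000000000) := Q_2 (nat_lit 143) (C_2 L1664320 (C_2 L2556824 (C_2 L2556849 N_2))) (by decide +kernel)
theorem L2556851 : W_2 (nat_lit 2) (nat_lit 0x40000000100078002c0030001c00000000000000000000000) (nat_lit 0x0) (nat_lit 0x40000300000000000000000000000) := D_2 (nat_lit 93) (nat_lit 114) (nat_lit 92) (nat_lit 3) (nat_lit 8) (nat_lit 5) (nat_lit 3) (nat_lit 7) (nat_lit 5) (by decide +kernel)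
theorem L2556852 : W_2 (nat_lit 3) (nat_lit 0x40000000100078002c0010001c00000000000000000000000) (nat_lit 0x0) (nat_lit 0x80000000000060000300000000000000000000000) := T_2 (nat_lit 113) (nat_lit 163) (nat_lit 6) (nat_lit 10) (nat_lit 9) L2556851 (by decide +kernel)
theorem L2556853 : W_2 (nat_lit 4) (nat_lit 0x40000000100078002c0010000c00000000000000000000000) (nat_lit 0x0) (nat_lit 0x80000000000060001300080000000000000000000) := T_2 (nat_lit 96) (nat_lit 79) (nat_lit 6) (nat_lit 10) (nat_lit 8) L2556852 (by decide +kernel)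
theorem L2556854 : W_2 (nat_lit 5) (nat_lit 0x100078002c0010000c00000000000000000000000) (nat_lit 0x0) (nat_lit 0x4000200080000000000060001300080000000000000000000) := T_2 (nat_lit 194) (nat_lit 177) (nat_lit 6) (nat_lit 7) (nat_lit 11) L2556853 (by decide +kernel)
theorem L2556855 : W_2 (nat_lit 6) (nat_lit 0x100078002c0000000c00000000000000000000000) (nat_lit 0x0) (nat_lit 0x40002000800000000000700013000a0000000000000000000) := T_2 (nat_lit 112) (nat_lit 77) (nat_lit 4) (nat_lit 10) (nat_lit 8) L2556854 (by decide +kernel)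
theorem L2556856 : W_2 (nat_lit 7) (nat_lit 0x78002c0000000c00000000000000000000000) (nat_lit 0x0) (nat_lit 0x40002000980000000000700013000a0000000000000000000) := T_2 (nat_lit 160) (nat_lit 159) (nat_lit 1) (nat_lit 10) (nat_lit 8) L2556855 (by decide +kernel)
theorem L2556857 : W_2 (nat_lit 8) (nat_lit 0x78000c0000000c00000000000000000000000) (nat_lit 0x0) (nat_lit 0x40002000980000006000700013000a0000000000000000000) := T_2 (nat_lit 129) (nat_lit 130) (nat_lit 2) (nat_lit 7) (nat_lit 8) L2556856 (by decide +kernel)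
theorem L2556858 : W_2 (nat_lit 9) (nat_lit 0x7800080000000c00000000000000000000000) (nat_lit 0x0) (nat_lit 0x40002000980000006600700013000a0000000000000000000) := T_2 (nat_lit 126) (nat_lit 125) (nat_lit 0) (nat_lit 10) (nat_lit 8) L2556857 (by decide +kernel)
theorem L2556859 : W_2 (nat_lit 2) (nat_lit 0x7c002a0010000c00000000000000000000000) (nat_lit 0x0) (nat_lit 0x1c000000000000000000000000000000000000000) := D_2 (nat_lit 159) (nat_lit 160) (nat_lit 158) (nat_lit 1) (nat_lit 10) (nat_lit 8) (nat_lit 1) (nat_lit 9) (nat_lit 8) (by decide +kernel)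
theorem L2556860 : W_2 (nat_lit 3) (nat_lit 0x78002a0010000c00000000000000000000000) (nat_lit 0x0) (nat_lit 0x1c000400010000000000000000000000000000000) := T_2 (nat_lit 142) (nat_lit 124) (nat_lit 0) (nat_lit 9) (nat_lit 8) L2556859 (by decide +kernel)
theorem L2556861 : W_2 (nat_lit 4) (nat_lit 0x78002a0000000c00000000000000000000000) (nat_lit 0x0) (nat_lit 0x1c000400010010000000020000000000000000000) := T_2 (nat_lit 112) (nat_lit 77) (nat_lit 4) (nat_lit 10) (nat_lit 8) L2556860 (by decide +kernel)
theorem L2556862 : W_2 (nat_lit 5) (nat_lit 0x7800280000000c00000000000000000000000) (nat_lit 0x0) (nat_lit 0x1c000400070010000000020000000000000000000) := T_2 (nat_lit 125) (nat_lit 126) (nat_lit 0) (nat_lit 10) (nat_lit 8) L2556861 (by decide +kernel)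
theorem L2556863 : W_2 (nat_lit 6) (nat_lit 0x7800080000000c00000000000000000000000) (nat_lit 0x0) (nat_lit 0x1c000400670010000000020000000000000000000) := T_2 (nat_lit 129) (nat_lit 130) (nat_lit 2) (nat_lit 7) (nat_lit 8) L2556862 (by decide +kernel)
theorem L2556864 : W_2 (nat_lit 10) (nat_lit 0x7000080000000c00000000000000000000000) (nat_lit 0x0) (nat_lit 0x400020019e000f0067c0700013000a0000000000000000000) := Q_2 (nat_lit 143) (C_2 L2556824 (C_2 L1664320 (C_2 L2556858 (C_2 L2556863 N_2)))) (by decide +kernel)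
theorem L2556865 : W_2 (nat_lit 2) (nat_lit 0x7800080000000e00000000000000000000000) (nat_lit 0x0) (nat_lit 0x18000000000004000000000000000000000000000) := D_2 (nat_lit 160) (nat_lit 159) (nat_lit 110) (nat_lit 1) (nat_lit 10) (nat_lit 8) (nat_lit 5) (nat_lit 8) (nat_lit 5) (by decide +kernel)
theorem L2556866 : W_2 (nat_lit 2) (nat_lit 0x80007c000a0000000e00000000000000000000000) (nat_lit 0x0) (nat_lit 0x1c000000000000000000000000000000000000000) := D_2 (nat_lit 159) (nat_lit 160) (nat_lit 158) (nat_lit 1) (nat_lit 10) (nat_lit 8) (nat_lit 1) (nat_lit 9) (nat_lit 8) (by decide +kernel)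
theorem L2556867 : W_2 (nat_lit 3) (nat_lit 0x800078000a0000000e00000000000000000000000) (nat_lit 0x0) (nat_lit 0x1c000400010000000000000000000000000000000) := T_2 (nat_lit 142) (nat_lit 124) (nat_lit 0) (nat_lit 9) (nat_lit 8) L2556866 (by decide +kernel)
theorem L2556868 : W_2 (nat_lit 4) (nat_lit 0x78000a0000000e00000000000000000000000) (nat_lit 0x0) (nat_lit 0x19c000400010000000000000000000000000000000) := T_2 (nat_lit 163) (nat_lit 164) (nat_lit 3) (nat_lit 7) (nat_lit 8) L2556867 (by decide +kernel)
theorem L2556869 : W_2 (nat_lit 5) (nat_lit 0x7800080000000e00000000000000000000000) (nat_lit 0x0) (nat_lit 0x19c000400070000000000000000000000000000000) := T_2 (nat_lit 125) (nat_lit 126) (nat_lit 0) (nat_lit 10) (nat_lit 8) L2556868 (by decide +kernel)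
theorem L2556870 : W_2 (nat_lit 2) (nat_lit 0x800078000c0000001f00090000000000000000000) (nat_lit 0x0) (nat_lit 0x70000000000000000000000000000) := D_2 (nat_lit 113) (nat_lit 114) (nat_lit 112) (nat_lit 3) (nat_lit 8) (nat_lit 5) (nat_lit 3) (nat_lit 7) (nat_lit 5) (by decide +kernel)
theorem L2556871 : W_2 (nat_lit 3) (nat_lit 0x800078000c0000001e00090000000000000000000) (nat_lit 0x0) (nat_lit 0x70000100040000000000000000000) := T_2 (nat_lit 92) (nat_lit 78) (nat_lit 2) (nat_lit 7) (nat_lit 5) L2556870 (by decide +kernel)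
theorem L2556872 : W_2 (nat_lit 4) (nat_lit 0x800078000c0000001e00010000000000000000000) (nat_lit 0x0) (nat_lit 0x700001001c0000000000000000000) := T_2 (nat_lit 79) (nat_lit 80) (nat_lit 2) (nat_lit 8) (nat_lit 5) L2556871 (by decide +kernel)
theorem L2556873 : W_2 (nat_lit 5) (nat_lit 0x800078000c0000000e00010000000000000000000) (nat_lit 0x0) (nat_lit 0x700011001c8000000000000000000) := T_2 (nat_lit 96) (nat_lit 75) (nat_lit 0) (nat_lit 11) (nat_lit 5) L2556872 (by decide +kernel)
theorem L2556874 : W_2 (nat_lit 6) (nat_lit 0x800078000c0000000e00000000000000000000000) (nat_lit 0x0) (nat_lit 0x740011001d8000000000000000000) := T_2 (nat_lit 76) (nat_lit 110) (nat_lit 5) (nat_lit 8) (nat_lit 4) L2556873 (by decide +kernel)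
theorem L2556875 : W_2 (nat_lit 7) (nat_lit 0x80007800080000000e00000000000000000000000) (nat_lit 0x0) (nat_lit 0x600740011001d8000000000000000000) := T_2 (nat_lit 126) (nat_lit 125) (nat_lit 0) (nat_lit 10) (nat_lit 8) L2556874 (by decide +kernel)
theorem L2556876 : W_2 (nat_lit 8) (nat_lit 0x7800080000000e00000000000000000000000) (nat_lit 0x0) (nat_lit 0x1800000000600740011001d8000000000000000000) := T_2 (nat_lit 163) (nat_lit 164) (nat_lit 3) (nat_lit 7) (nat_lit 8) L2556875 (by decide +kernel)
theorem L2556877 : W_2 (nat_lit 9) (nat_lit 0x7000080000000e00000000000000000000000) (nat_lit 0x0) (nat_lit 0x19c000c000700740011001d8000000000000000000) := Q_2 (nat_lit 143) (C_2 L2556865 (C_2 L2556869 (C_2 L2556876 N_2))) (by decide +kernel)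
theorem L2556878 : W_2 (nat_lit 10) (nat_lit 0x7000080000000c00000000000000000000000) (nat_lit 0x0) (nat_lit 0x19c000c000700740033003fc000000000000000000) := Q_2 (nat_lit 93) (C_2 L2556844 (C_2 L1909916 (C_2 L2556836 (C_2 L2556877 N_2)))) (by decide +kernel)
theorem L2556879 : W_2 (nat_lit 2) (nat_lit 0x78002c0030001c00000000000000000000000) (nat_lit 0x0) (nat_lit 0x40000300000000000000000000000) := D_2 (nat_lit 93) (nat_lit 114) (nat_lit 92) (nat_lit 3) (nat_lit 8) (nat_lit 5) (nat_lit 3) (nat_lit 7) (nat_lit 5) (by decide +kernel)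
theorem L2556880 : W_2 (nat_lit 3) (nat_lit 0x78002c0010001c00000000000000000000000) (nat_lit 0x0) (nat_lit 0x80000000000060000300000000000000000000000) := T_2 (nat_lit 113) (nat_lit 163) (nat_lit 6) (nat_lit 10) (nat_lit 9) L2556879 (by decide +kernel)
theorem L2556881 : W_2 (nat_lit 4) (nat_lit 0x78002c0010000c00000000000000000000000) (nat_lit 0x0) (nat_lit 0x80000000000060001300080000000000000000000) := T_2 (nat_lit 96) (nat_lit 79) (nat_lit 6) (nat_lit 10) (nat_lit 8) L2556880 (by decide +kernel)
theorem L2556882 : W_2 (nat_lit 5) (nat_lit 0x78002c0000000c00000000000000000000000) (nat_lit 0x0) (nat_lit 0x800000000000700013000a0000000000000000000) := T_2 (nat_lit 112) (nat_lit 77) (nat_lit 4) (nat_lit 10) (nat_lit 8) L2556881 (by decide +kernel)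
theorem L2556883 : W_2 (nat_lit 6) (nat_lit 0x78000c0000000c00000000000000000000000) (nat_lit 0x0) (nat_lit 0x800000006000700013000a0000000000000000000) := T_2 (nat_lit 129) (nat_lit 130) (nat_lit 2) (nat_lit 7) (nat_lit 8) L2556882 (by decide +kernel)
theorem L2556884 : W_2 (nat_lit 7) (nat_lit 0x7800080000000c00000000000000000000000) (nat_lit 0x0) (nat_lit 0x800000006600700013000a0000000000000000000) := T_2 (nat_lit 126) (nat_lit 125) (nat_lit 0) (nat_lit 10) (nat_lit 8) L2556883 (by decide +kernel)
theorem L2556885 : W_2 (nat_lit 2) (nat_lit 0x4007e002a0000000f80020000000000000000000) (nat_lit 0x0) (nat_lit 0xe000000000000000000) := D_2 (nat_lit 74) (nat_lit 73) (nat_lit 75) (nat_lit 0) (nat_lit 9) (nat_lit 5) (nat_lit 0) (nat_lit 10) (nat_lit 5) (by decide +kernel)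
theorem L2556886 : W_2 (nat_lit 3) (nat_lit 0x4007e002a0000000e80020000000000000000000) (nat_lit 0x0) (nat_lit 0x10004e000000000000000000) := T_2 (nat_lit 92) (nat_lit 78) (nat_lit 2) (nat_lit 6) (nat_lit 5) L2556885 (by decide +kernel)
theorem L2556887 : W_2 (nat_lit 4) (nat_lit 0x4007e002a0000000e00020000000000000000000) (nat_lit 0x0) (nat_lit 0x100018004e000000000000000000) := T_2 (nat_lit 91) (nat_lit 108) (nat_lit 5) (nat_lit 6) (nat_lit 5) L2556886 (by decide +kernel)
theorem L2556888 : W_2 (nat_lit 5) (nat_lit 0x4007c002a0000000e00020000000000000000000) (nat_lit 0x0) (nat_lit 0x200020000000100018004e000000000000000000) := T_2 (nat_lit 141) (nat_lit 157) (nat_lit 1) (nat_lit 8) (nat_lit 8) L2556887 (by decide +kernel)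
theorem L2556889 : W_2 (nat_lit 6) (nat_lit 0x7c002a0000000e00020000000000000000000) (nat_lit 0x0) (nat_lit 0xe00020000000100018004e000000000000000000) := T_2 (nat_lit 158) (nat_lit 159) (nat_lit 1) (nat_lit 9) (nat_lit 8) L2556888 (by decide +kernel)
theorem L2556890 : W_2 (nat_lit 7) (nat_lit 0x7c002a0000000c00020000000000000000000) (nat_lit 0x0) (nat_lit 0xe00020000000500038004e000000000000000000) := T_2 (nat_lit 93) (nat_lit 110) (nat_lit 6) (nat_lit 8) (nat_lit 8) L2556889 (by decide +kernel)
theorem L2556891 : W_2 (nat_lit 8) (nat_lit 0x78002a0000000c00020000000000000000000) (nat_lit 0x0) (nat_lit 0xe00060001000500038004e000000000000000000) := T_2 (nat_lit 142) (nat_lit 124) (nat_lit 0) (nat_lit 9) (nat_lit 8) L2556890 (by decide +kernel)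
theorem L2556892 : W_2 (nat_lit 9) (nat_lit 0x78002a0000000c00000000000000000000000) (nat_lit 0x0) (nat_lit 0xe00060001001500038006e000000000000000000) := T_2 (nat_lit 77) (nat_lit 112) (nat_lit 4) (nat_lit 10) (nat_lit 8) L2556891 (by decide +kernel)
theorem L2556893 : W_2 (nat_lit 10) (nat_lit 0x7800280000000c00000000000000000000000) (nat_lit 0x0) (nat_lit 0xe00060007001500038006e000000000000000000) := T_2 (nat_lit 125) (nat_lit 126) (nat_lit 0) (nat_lit 10) (nat_lit 8) L2556892 (by decide +kernel)
theorem L2556894 : W_2 (nat_lit 11) (nat_lit 0x7800080000000c00000000000000000000000) (nat_lit 0x0) (nat_lit 0xe00060067001500038006e000000000000000000) := T_2 (nat_lit 129) (nat_lit 130) (nat_lit 2) (nat_lit 7) (nat_lit 8) L2556893 (by decide +kernel)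
theorem L2556895 : W_2 (nat_lit 12) (nat_lit 0x7000080000000c00000000000000000000000) (nat_lit 0x0) (nat_lit 0x18e000f0067c0750013800ee000000000000000000) := Q_2 (nat_lit 143) (C_2 L1664320 (C_2 L2556824 (C_2 L2556884 (C_2 L2556894 N_2)))) (by decide +kernel)
theorem L2556896 : W_2 (nat_lit 2) (nat_lit 0x4000000010007800280010000f00000000000000000000000) (nat_lit 0x0) (nat_lit 0x10000c0000000000000000000) := D_2 (nat_lit 79) (nat_lit 78) (nat_lit 96) (nat_lit 2) (nat_lit 7) (nat_lit 5) (nat_lit 6) (nat_lit 10) (nat_lit 8) (by decide +kernel)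
theorem L2556897 : W_2 (nat_lit 3) (nat_lit 0x4000000010007800280010000e00000000000000000000000) (nat_lit 0x0) (nat_lit 0x200011000c0000000000000000000) := T_2 (nat_lit 92) (nat_lit 113) (nat_lit 3) (nat_lit 7) (nat_lit 5) L2556896 (by decide +kernel)
theorem L2556898 : W_2 (nat_lit 4) (nat_lit 0x4000000010007800280010000c00000000000000000000000) (nat_lit 0x0) (nat_lit 0x240013000c0000000000000000000) := T_2 (nat_lit 93) (nat_lit 110) (nat_lit 5) (nat_lit 8) (nat_lit 5) L2556897 (by decide +kernel)
theorem L2556899 : W_2 (nat_lit 5) (nat_lit 0x4000000010007800280000000c00000000000000000000000) (nat_lit 0x0) (nat_lit 0x340013000e0000000000000000000) := T_2 (nat_lit 112) (nat_lit 77) (nat_lit 4) (nat_lit 10) (nat_lit 8) L2556898 (by decide +kernel)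
theorem L2556900 : W_2 (nat_lit 6) (nat_lit 0x10007800280000000c00000000000000000000000) (nat_lit 0x0) (nat_lit 0x40002000000000000000340013000e0000000000000000000) := T_2 (nat_lit 194) (nat_lit 177) (nat_lit 6) (nat_lit 7) (nat_lit 11) L2556899 (by decide +kernel)
theorem L2556901 : W_2 (nat_lit 7) (nat_lit 0x10007800080000000c00000000000000000000000) (nat_lit 0x0) (nat_lit 0x40002000000000006000340013000e0000000000000000000) := T_2 (nat_lit 129) (nat_lit 130) (nat_lit 2) (nat_lit 7) (nat_lit 8) L2556900 (by decide +kernel)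
theorem L2556902 : W_2 (nat_lit 8) (nat_lit 0x7800080000000c00000000000000000000000) (nat_lit 0x0) (nat_lit 0x40002000180000006000340013000e0000000000000000000) := T_2 (nat_lit 160) (nat_lit 159) (nat_lit 1) (nat_lit 10) (nat_lit 8) L2556901 (by decide +kernel)
theorem L2556903 : W_2 (nat_lit 9) (nat_lit 0x7000080000000c00000000000000000000000) (nat_lit 0x0) (nat_lit 0x40002001b80008006000340013000e0000000000000000000) := Q_2 (nat_lit 143) (C_2 L1664320 (C_2 L2556828 (C_2 L2556902 N_2))) (by decide +kernel)
theorem L2556904 : W_2 (nat_lit 2) (nat_lit 0x800078002c0040001e00110000000000000000000) (nat_lit 0x0) (nat_lit 0x80002000200000000000000000000) := D_2 (nat_lit 97) (nat_lit 115) (nat_lit 81) (nat_lit 3) (nat_lit 9) (nat_lit 5) (nat_lit 2) (nat_lit 9) (nat_lit 5) (by decide +kernel)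
theorem L2556905 : W_2 (nat_lit 3) (nat_lit 0x800078002c0040001e00010000000000000000000) (nat_lit 0x0) (nat_lit 0x80002000380000000000000000000) := T_2 (nat_lit 80) (nat_lit 79) (nat_lit 2) (nat_lit 8) (nat_lit 5) L2556904 (by decide +kernel)
theorem L2556906 : W_2 (nat_lit 4) (nat_lit 0x800078002c0000001e00010000000000000000000) (nat_lit 0x0) (nat_lit 0xe0002000380000000000000000000) := T_2 (nat_lit 114) (nat_lit 113) (nat_lit 3) (nat_lit 8) (nat_lit 5) L2556905 (by decide +kernel)
theorem L2556907 : W_2 (nat_lit 5) (nat_lit 0x78002c0000001e00010000000000000000000) (nat_lit 0x0) (nat_lit 0x1800000000000e0002000380000000000000000000) := T_2 (nat_lit 163) (nat_lit 164) (nat_lit 3) (nat_lit 7) (nat_lit 8) L2556906 (by decide +kernel)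
theorem L2556908 : W_2 (nat_lit 6) (nat_lit 0x78002c0000000e00010000000000000000000) (nat_lit 0x0) (nat_lit 0x1800000000000e0003000388000000000000000000) := T_2 (nat_lit 96) (nat_lit 75) (nat_lit 0) (nat_lit 11) (nat_lit 5) L2556907 (by decide +kernel)
theorem L2556909 : W_2 (nat_lit 7) (nat_lit 0x78002c0000000e00000000000000000000000) (nat_lit 0x0) (nat_lit 0x1800000000000e4003000398000000000000000000) := T_2 (nat_lit 76) (nat_lit 110) (nat_lit 5) (nat_lit 8) (nat_lit 4) L2556908 (by decide +kernel)
theorem L2556910 : W_2 (nat_lit 8) (nat_lit 0x78000c0000000e00000000000000000000000) (nat_lit 0x0) (nat_lit 0x1800000006000e4003000398000000000000000000) := T_2 (nat_lit 129) (nat_lit 130) (nat_lit 2) (nat_lit 7) (nat_lit 8) L2556909 (by decide +kernel)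
theorem L2556911 : W_2 (nat_lit 9) (nat_lit 0x7800080000000e00000000000000000000000) (nat_lit 0x0) (nat_lit 0x1800000006600e4003000398000000000000000000) := T_2 (nat_lit 126) (nat_lit 125) (nat_lit 0) (nat_lit 10) (nat_lit 8) L2556910 (by decide +kernel)
theorem L2556912 : W_2 (nat_lit 10) (nat_lit 0x7000080000000e00000000000000000000000) (nat_lit 0x0) (nat_lit 0x19c000c006700e4003000398000000000000000000) := Q_2 (nat_lit 143) (C_2 L2556869 (C_2 L2556865 (C_2 L2556911 N_2))) (by decide +kernel)
theorem L2556913 : W_2 (nat_lit 2) (nat_lit 0x84007e002a0000000f80020000000000000000000) (nat_lit 0x0) (nat_lit 0xe000000000000000000) := D_2 (nat_lit 74) (nat_lit 75) (nat_lit 73) (nat_lit 0) (nat_lit 10) (nat_lit 5) (nat_lit 0) (nat_lit 9) (nat_lit 5) (by decide +kernel)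
theorem L2556914 : W_2 (nat_lit 3) (nat_lit 0x84007e002a0000000e80020000000000000000000) (nat_lit 0x0) (nat_lit 0x10004e000000000000000000) := T_2 (nat_lit 92) (nat_lit 78) (nat_lit 2) (nat_lit 6) (nat_lit 5) L2556913 (by decide +kernel)
theorem L2556915 : W_2 (nat_lit 4) (nat_lit 0x84007e002a0000000e00020000000000000000000) (nat_lit 0x0) (nat_lit 0x100018004e000000000000000000) := T_2 (nat_lit 91) (nat_lit 108) (nat_lit 5) (nat_lit 6) (nat_lit 5) L2556914 (by decide +kernel)
theorem L2556916 : W_2 (nat_lit 5) (nat_lit 0x84007c002a0000000e00020000000000000000000) (nat_lit 0x0) (nat_lit 0x200020000000100018004e000000000000000000) := T_2 (nat_lit 141) (nat_lit 157) (nat_lit 1) (nat_lit 8) (nat_lit 8) L2556915 (by decide +kernel)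
theorem L2556917 : W_2 (nat_lit 6) (nat_lit 0x80007c002a0000000e00020000000000000000000) (nat_lit 0x0) (nat_lit 0xe00020000000100018004e000000000000000000) := T_2 (nat_lit 158) (nat_lit 159) (nat_lit 1) (nat_lit 9) (nat_lit 8) L2556916 (by decide +kernel)
theorem L2556918 : W_2 (nat_lit 7) (nat_lit 0x800078002a0000000e00020000000000000000000) (nat_lit 0x0) (nat_lit 0xe00060001000100018004e000000000000000000) := T_2 (nat_lit 142) (nat_lit 124) (nat_lit 0) (nat_lit 9) (nat_lit 8) L2556917 (by decide +kernel)
theorem L2556919 : W_2 (nat_lit 8) (nat_lit 0x80007800280000000e00020000000000000000000) (nat_lit 0x0) (nat_lit 0xe00060007000100018004e000000000000000000) := T_2 (nat_lit 125) (nat_lit 126) (nat_lit 0) (nat_lit 10) (nat_lit 8) L2556918 (by decide +kernel)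
theorem L2556920 : W_2 (nat_lit 9) (nat_lit 0x7800280000000e00020000000000000000000) (nat_lit 0x0) (nat_lit 0x18e00060007000100018004e000000000000000000) := T_2 (nat_lit 163) (nat_lit 164) (nat_lit 3) (nat_lit 7) (nat_lit 8) L2556919 (by decide +kernel)
theorem L2556921 : W_2 (nat_lit 10) (nat_lit 0x7800080000000e00020000000000000000000) (nat_lit 0x0) (nat_lit 0x18e00060067000100018004e000000000000000000) := T_2 (nat_lit 129) (nat_lit 130) (nat_lit 2) (nat_lit 7) (nat_lit 8) L2556920 (by decide +kernel)
theorem L2556922 : W_2 (nat_lit 11) (nat_lit 0x7800080000000e00000000000000000000000) (nat_lit 0x0) (nat_lit 0x18e00060067000500018006e000000000000000000) := T_2 (nat_lit 77) (nat_lit 110) (nat_lit 6) (nat_lit 8) (nat_lit 8) L2556921 (by decide +kernel)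
theorem L2556923 : W_2 (nat_lit 2) (nat_lit 0x7800080000000e00000000000000000000000) (nat_lit 0x0) (nat_lit 0x10000000000004000000020000000000000000000) := D_2 (nat_lit 110) (nat_lit 77) (nat_lit 160) (nat_lit 6) (nat_lit 8) (nat_lit 8) (nat_lit 5) (nat_lit 8) (nat_lit 5) (by decide +kernel)
theorem L2556924 : W_2 (nat_lit 12) (nat_lit 0x7000080000000e00000000000000000000000) (nat_lit 0x0) (nat_lit 0x19e000e0067000500018006e000000000000000000) := Q_2 (nat_lit 143) (C_2 L2556869 (C_2 L2556865 (C_2 L2556922 (C_2 L2556923 N_2)))) (by decide +kernel)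
theorem L2556925 : W_2 (nat_lit 13) (nat_lit 0x7000080000000c00000000000000000000000) (nat_lit 0x0) (nat_lit 0x19e000e006700e50033803fe002000000000000000) := Q_2 (nat_lit 93) (C_2 L2556836 (C_2 L1910729 (C_2 L2556912 (C_2 L2556924 N_2)))) (by decide +kernel)
theorem L2556926 : W_2 (nat_lit 2) (nat_lit 0x7000080000001e00020000000000000000000) (nat_lit 0x0) (nat_lit 0x2000018000000000000000000) := D_2 (nat_lit 76) (nat_lit 75) (nat_lit 97) (nat_lit 0) (nat_lit 11) (nat_lit 5) (nat_lit 0) (nat_lit 12) (nat_lit 5) (by decide +kernel)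
theorem L2556927 : W_2 (nat_lit 3) (nat_lit 0x7000080000001e00000000000000000000000) (nat_lit 0x0) (nat_lit 0x4002000038000000000000000000) := T_2 (nat_lit 77) (nat_lit 110) (nat_lit 6) (nat_lit 8) (nat_lit 8) L2556926 (by decide +kernel)
theorem L2556928 : W_2 (nat_lit 7) (nat_lit 0x7000080000000e00000000000000000000000) (nat_lit 0x0) (nat_lit 0x6001f40070007b8000000000000000000) := Q_2 (nat_lit 96) (C_2 L1910754 (C_2 L1909923 (C_2 L2556927 N_2))) (by decide +kernel)
theorem L2556929 : W_2 (nat_lit 2) (nat_lit 0x7000080014000f00080000000000000000000) (nat_lit 0x0) (nat_lit 0x200000001000100000000000000000000) := D_2 (nat_lit 96) (nat_lit 80) (nat_lit 129) (nat_lit 2) (nat_lit 8) (nat_lit 5) (nat_lit 6) (nat_lit 10) (nat_lit 8) (by decide +kernel)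
theorem L2556930 : W_2 (nat_lit 3) (nat_lit 0x7000080014000f00000000000000000000000) (nat_lit 0x0) (nat_lit 0x2000000010001c0000000000000000000) := T_2 (nat_lit 79) (nat_lit 78) (nat_lit 2) (nat_lit 7) (nat_lit 5) L2556929 (by decide +kernel)
theorem L2556931 : W_2 (nat_lit 4) (nat_lit 0x7000080004000f00000000000000000000000) (nat_lit 0x0) (nat_lit 0x2000300010001c0000000000000000000) := T_2 (nat_lit 112) (nat_lit 113) (nat_lit 3) (nat_lit 7) (nat_lit 5) L2556930 (by decide +kernel)
theorem L2556932 : W_2 (nat_lit 5) (nat_lit 0x7000080004000e00000000000000000000000) (nat_lit 0x0) (nat_lit 0x2000300011001c8000000000000000000) := T_2 (nat_lit 92) (nat_lit 75) (nat_lit 4) (nat_lit 8) (nat_lit 8) L2556931 (by decide +kernel)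
theorem L2556933 : W_2 (nat_lit 6) (nat_lit 0x7000080000000e00000000000000000000000) (nat_lit 0x0) (nat_lit 0x2000340011001e8000000000000000000) := T_2 (nat_lit 110) (nat_lit 77) (nat_lit 6) (nat_lit 8) (nat_lit 8) L2556932 (by decide +kernel)
theorem L2556934 : W_2 (nat_lit 2) (nat_lit 0x7000080004000e00008000000000000000000) (nat_lit 0x0) (nat_lit 0x1000010000400000000000000) := D_2 (nat_lit 76) (nat_lit 58) (nat_lit 96) (nat_lit 4) (nat_lit 8) (nat_lit 7) (nat_lit 0) (nat_lit 11) (nat_lit 5) (by decide +kernel)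
theorem L2556935 : W_2 (nat_lit 3) (nat_lit 0x7000080004000e00000000000000000000000) (nat_lit 0x0) (nat_lit 0x1100018000400000000000000) := T_2 (nat_lit 75) (nat_lit 92) (nat_lit 4) (nat_lit 8) (nat_lit 8) L2556934 (by decide +kernel)
theorem L2556936 : W_2 (nat_lit 4) (nat_lit 0x7000080000000e00000000000000000000000) (nat_lit 0x0) (nat_lit 0x4001100038000400000000000000) := T_2 (nat_lit 110) (nat_lit 77) (nat_lit 6) (nat_lit 8) (nat_lit 8) L2556935 (by decide +kernel)
theorem L2556937 : W_2 (nat_lit 5) (nat_lit 0x7000080000000e00020000000000000000000) (nat_lit 0x0) (nat_lit 0x2000300001800c0001000080000000000) := T_2 (nat_lit 112) (nat_lit 129) (nat_lit 4) (nat_lit 10) (nat_lit 8) L2556831 (by decide +kernel)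
theorem L2556938 : W_2 (nat_lit 6) (nat_lit 0x7000080000000e00000000000000000000000) (nat_lit 0x0) (nat_lit 0x2000340001800e0001000080000000000) := T_2 (nat_lit 77) (nat_lit 110) (nat_lit 6) (nat_lit 8) (nat_lit 8) L2556937 (by decide +kernel)
theorem L2556939 : W_2 (nat_lit 8) (nat_lit 0x7000080000000c00000000000000000000000) (nat_lit 0x0) (nat_lit 0x6001f40073807fc003400080000000000) := Q_2 (nat_lit 93) (C_2 L2556841 (C_2 L1910729 (C_2 L1909916 (C_2 L2556928 (C_2 L2556933 (C_2 L2556936 (C_2 L2556938 N_2))))))) (by decide +kernel)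
theorem L2556940 : W_2 (nat_lit 2) (nat_lit 0x800078002c0000001c00000000000000000000000) (nat_lit 0x0) (nat_lit 0x30000000080000000000000000000) := D_2 (nat_lit 112) (nat_lit 79) (nat_lit 113) (nat_lit 6) (nat_lit 10) (nat_lit 8) (nat_lit 6) (nat_lit 10) (nat_lit 9) (by decide +kernel)
theorem L2556941 : W_2 (nat_lit 3) (nat_lit 0x800078000c0000001c00000000000000000000000) (nat_lit 0x0) (nat_lit 0x600030000000080000000000000000000) := T_2 (nat_lit 129) (nat_lit 130) (nat_lit 2) (nat_lit 7) (nat_lit 8) L2556940 (by decide +kernel)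
theorem L2556942 : W_2 (nat_lit 4) (nat_lit 0x78000c0000001c00000000000000000000000) (nat_lit 0x0) (nat_lit 0x180000000600030000000080000000000000000000) := T_2 (nat_lit 163) (nat_lit 164) (nat_lit 3) (nat_lit 7) (nat_lit 8) L2556941 (by decide +kernel)
theorem L2556943 : W_2 (nat_lit 5) (nat_lit 0x7800080000001c00000000000000000000000) (nat_lit 0x0) (nat_lit 0x180000000660030000000080000000000000000000) := T_2 (nat_lit 126) (nat_lit 125) (nat_lit 0) (nat_lit 10) (nat_lit 8) L2556942 (by decide +kernel)
theorem L2556944 : W_2 (nat_lit 2) (nat_lit 0x200090007800080000001c00000000000000000000000) (nat_lit 0x0) (nat_lit 0x60004000000000000000000000000000) := D_2 (nat_lit 126) (nat_lit 125) (nat_lit 110) (nat_lit 0) (nat_lit 10) (nat_lit 8) (nat_lit 6) (nat_lit 7) (nat_lit 10) (by decide +kernel)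
theorem L2556945 : W_2 (nat_lit 3) (nat_lit 0x90007800080000001c00000000000000000000000) (nat_lit 0x0) (nat_lit 0x4000200000000000060004000000000000000000000000000) := T_2 (nat_lit 177) (nat_lit 194) (nat_lit 6) (nat_lit 7) (nat_lit 11) L2556944 (by decide +kernel)
theorem L2556946 : W_2 (nat_lit 4) (nat_lit 0x10007800080000001c00000000000000000000000) (nat_lit 0x0) (nat_lit 0x4000200180000000060004000000000000000000000000000) := T_2 (nat_lit 163) (nat_lit 164) (nat_lit 3) (nat_lit 7) (nat_lit 8) L2556945 (by decide +kernel)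
theorem L2556947 : W_2 (nat_lit 5) (nat_lit 0x7800080000001c00000000000000000000000) (nat_lit 0x0) (nat_lit 0x4000200198000000060004000000000000000000000000000) := T_2 (nat_lit 160) (nat_lit 159) (nat_lit 1) (nat_lit 10) (nat_lit 8) L2556946 (by decide +kernel)
theorem L2556948 : W_2 (nat_lit 2) (nat_lit 0x80007800280000001c00000000000000000000000) (nat_lit 0x0) (nat_lit 0x30000000080000000000000000000) := D_2 (nat_lit 112) (nat_lit 79) (nat_lit 113) (nat_lit 6) (nat_lit 10) (nat_lit 8) (nat_lit 6) (nat_lit 10) (nat_lit 9) (by decide +kernel)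
theorem L2556949 : W_2 (nat_lit 3) (nat_lit 0x7800280000001c00000000000000000000000) (nat_lit 0x0) (nat_lit 0x180000000000030000000080000000000000000000) := T_2 (nat_lit 163) (nat_lit 164) (nat_lit 3) (nat_lit 7) (nat_lit 8) L2556948 (by decide +kernel)
theorem L2556950 : W_2 (nat_lit 4) (nat_lit 0x7800080000001c00000000000000000000000) (nat_lit 0x0) (nat_lit 0x180000000600030000000080000000000000000000) := T_2 (nat_lit 129) (nat_lit 130) (nat_lit 2) (nat_lit 7) (nat_lit 8) L2556949 (by decide +kernel)
theorem L2556951 : W_2 (nat_lit 2) (nat_lit 0x100078002c0010001c00000000000000000000000) (nat_lit 0x0) (nat_lit 0x4000200000000000000004000000000000000000000000000) := D_2 (nat_lit 177) (nat_lit 110) (nat_lit 194) (nat_lit 6) (nat_lit 7) (nat_lit 10) (nat_lit 6) (nat_lit 7) (nat_lit 11) (by decide +kernel)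
theorem L2556952 : W_2 (nat_lit 3) (nat_lit 0x78002c0010001c00000000000000000000000) (nat_lit 0x0) (nat_lit 0x4000200018000000000004000000000000000000000000000) := T_2 (nat_lit 160) (nat_lit 159) (nat_lit 1) (nat_lit 10) (nat_lit 8) L2556951 (by decide +kernel)
theorem L2556953 : W_2 (nat_lit 4) (nat_lit 0x78002c0000001c00000000000000000000000) (nat_lit 0x0) (nat_lit 0x4000200018000000000014000000080000000000000000000) := T_2 (nat_lit 112) (nat_lit 79) (nat_lit 6) (nat_lit 10) (nat_lit 8) L2556952 (by decide +kernel)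
theorem L2556954 : W_2 (nat_lit 5) (nat_lit 0x7800280000001c00000000000000000000000) (nat_lit 0x0) (nat_lit 0x4000200018000000060014000000080000000000000000000) := T_2 (nat_lit 126) (nat_lit 125) (nat_lit 0) (nat_lit 10) (nat_lit 8) L2556953 (by decide +kernel)
theorem L2556955 : W_2 (nat_lit 6) (nat_lit 0x7800080000001c00000000000000000000000) (nat_lit 0x0) (nat_lit 0x4000200018000000660014000000080000000000000000000) := T_2 (nat_lit 129) (nat_lit 130) (nat_lit 2) (nat_lit 7) (nat_lit 8) L2556954 (by decide +kernel)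
theorem L2556956 : W_2 (nat_lit 7) (nat_lit 0x7000080000001c00000000000000000000000) (nat_lit 0x0) (nat_lit 0x4000200198000800660034000000080000000000000000000) := Q_2 (nat_lit 143) (C_2 L2556943 (C_2 L2556947 (C_2 L2556950 (C_2 L2556955 N_2)))) (by decide +kernel)
theorem L2556957 : W_2 (nat_lit 6) (nat_lit 0x7000080000001c00000000000000000000000) (nat_lit 0x0) (nat_lit 0x6000700003001dc002000000000000000) := Q_2 (nat_lit 93) (C_2 L1910728 (C_2 L1909915 (C_2 L1909923 (C_2 L1909912 N_2)))) (by decide +kernel)
theorem L2556958 : W_2 (nat_lit 2) (nat_lit 0x7000080040001e00110000000000000000000) (nat_lit 0x0) (nat_lit 0x80002000200000000000000000000) := D_2 (nat_lit 97) (nat_lit 115) (nat_lit 81) (nat_lit 3) (nat_lit 9) (nat_lit 5) (nat_lit 2) (nat_lit 9) (nat_lit 5) (by decide +kernel)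
theorem L2556959 : W_2 (nat_lit 3) (nat_lit 0x7000080040001e00010000000000000000000) (nat_lit 0x0) (nat_lit 0x80002000380000000000000000000) := T_2 (nat_lit 80) (nat_lit 79) (nat_lit 2) (nat_lit 8) (nat_lit 5) L2556958 (by decide +kernel)
theorem L2556960 : W_2 (nat_lit 4) (nat_lit 0x7000080000001e00010000000000000000000) (nat_lit 0x0) (nat_lit 0xe0002000380000000000000000000) := T_2 (nat_lit 114) (nat_lit 113) (nat_lit 3) (nat_lit 8) (nat_lit 5) L2556959 (by decide +kernel)
theorem L2556961 : W_2 (nat_lit 5) (nat_lit 0x7000080000001e00000000000000000000000) (nat_lit 0x0) (nat_lit 0xe0002000398000000000000000000) := T_2 (nat_lit 76) (nat_lit 75) (nat_lit 0) (nat_lit 11) (nat_lit 5) L2556960 (by decide +kernel)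
theorem L2556962 : W_2 (nat_lit 6) (nat_lit 0x7000080000001c00000000000000000000000) (nat_lit 0x0) (nat_lit 0xf00023003dc000000000000000000) := Q_2 (nat_lit 93) (C_2 L1909915 (C_2 L2556961 (C_2 L1909909 (C_2 L1909912 N_2)))) (by decide +kernel)
theorem L2556963 : W_2 (nat_lit 2) (nat_lit 0x7000080000001e00008000000000000000000) (nat_lit 0x0) (nat_lit 0x4000100004000000000000000000) := D_2 (nat_lit 92) (nat_lit 74) (nat_lit 110) (nat_lit 0) (nat_lit 10) (nat_lit 5) (nat_lit 4) (nat_lit 8) (nat_lit 8) (by decide +kernel)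
theorem L2556964 : W_2 (nat_lit 3) (nat_lit 0x7000080000001e00000000000000000000000) (nat_lit 0x0) (nat_lit 0x400010001c000000000000000000) := T_2 (nat_lit 75) (nat_lit 76) (nat_lit 0) (nat_lit 11) (nat_lit 5) L2556963 (by decide +kernel)
theorem L2556965 : W_2 (nat_lit 6) (nat_lit 0x7000080000001c00000000000000000000000) (nat_lit 0x0) (nat_lit 0x6000e40023003dc002000000000000000) := Q_2 (nat_lit 93) (C_2 L2556961 (C_2 L1910728 (C_2 L1909912 (C_2 L2556964 N_2)))) (by decide +kernel)
theorem L2556966 : W_2 (nat_lit 2) (nat_lit 0x40000000900078002c0000001f00080000000000000000000) (nat_lit 0x0) (nat_lit 0x1c000000000000000000) := D_2 (nat_lit 75) (nat_lit 74) (nat_lit 76) (nat_lit 0) (nat_lit 10) (nat_lit 5) (nat_lit 0) (nat_lit 11) (nat_lit 5) (by decide +kernel)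
theorem L2556967 : W_2 (nat_lit 3) (nat_lit 0x40000000900078002c0000001e00080000000000000000000) (nat_lit 0x0) (nat_lit 0x10005c000000000000000000) := T_2 (nat_lit 92) (nat_lit 78) (nat_lit 2) (nat_lit 7) (nat_lit 5) L2556966 (by decide +kernel)
theorem L2556968 : W_2 (nat_lit 4) (nat_lit 0x40000000900078002c0000001c00080000000000000000000) (nat_lit 0x0) (nat_lit 0x30015c000000000000000000) := T_2 (nat_lit 93) (nat_lit 80) (nat_lit 2) (nat_lit 8) (nat_lit 5) L2556967 (by decide +kernel)
theorem L2556969 : W_2 (nat_lit 5) (nat_lit 0x900078002c0000001c00080000000000000000000) (nat_lit 0x0) (nat_lit 0x400020000000000000000000030015c000000000000000000) := T_2 (nat_lit 194) (nat_lit 177) (nat_lit 6) (nat_lit 7) (nat_lit 11) L2556968 (by decide +kernel)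
theorem L2556970 : W_2 (nat_lit 6) (nat_lit 0x900078002c0000001c00000000000000000000000) (nat_lit 0x0) (nat_lit 0x40002000000000000000100003001dc000000000000000000) := T_2 (nat_lit 79) (nat_lit 112) (nat_lit 6) (nat_lit 10) (nat_lit 8) L2556969 (by decide +kernel)
theorem L2556971 : W_2 (nat_lit 7) (nat_lit 0x800078002c0000001c00000000000000000000000) (nat_lit 0x0) (nat_lit 0x40002000180000000000100003001dc000000000000000000) := T_2 (nat_lit 160) (nat_lit 159) (nat_lit 1) (nat_lit 10) (nat_lit 8) L2556970 (by decide +kernel)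
theorem L2556972 : W_2 (nat_lit 8) (nat_lit 0x800078000c0000001c00000000000000000000000) (nat_lit 0x0) (nat_lit 0x40002000180000006000100003001dc000000000000000000) := T_2 (nat_lit 129) (nat_lit 130) (nat_lit 2) (nat_lit 7) (nat_lit 8) L2556971 (by decide +kernel)
theorem L2556973 : W_2 (nat_lit 9) (nat_lit 0x78000c0000001c00000000000000000000000) (nat_lit 0x0) (nat_lit 0x40002001980000006000100003001dc000000000000000000) := T_2 (nat_lit 163) (nat_lit 164) (nat_lit 3) (nat_lit 7) (nat_lit 8) L2556972 (by decide +kernel)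
theorem L2556974 : W_2 (nat_lit 10) (nat_lit 0x7800080000001c00000000000000000000000) (nat_lit 0x0) (nat_lit 0x40002001980000006600100003001dc000000000000000000) := T_2 (nat_lit 126) (nat_lit 125) (nat_lit 0) (nat_lit 10) (nat_lit 8) L2556973 (by decide +kernel)
theorem L2556975 : W_2 (nat_lit 2) (nat_lit 0x800078002c0000001e00080000000000000000000) (nat_lit 0x0) (nat_lit 0x4000000018000000000000000000) := D_2 (nat_lit 76) (nat_lit 75) (nat_lit 110) (nat_lit 0) (nat_lit 11) (nat_lit 5) (nat_lit 5) (nat_lit 8) (nat_lit 4) (by decide +kernel)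
theorem L2556976 : W_2 (nat_lit 3) (nat_lit 0x800078002c0000001c00080000000000000000000) (nat_lit 0x0) (nat_lit 0x4000200118000000000000000000) := T_2 (nat_lit 93) (nat_lit 80) (nat_lit 2) (nat_lit 8) (nat_lit 5) L2556975 (by decide +kernel)
theorem L2556977 : W_2 (nat_lit 4) (nat_lit 0x80007800280000001c00080000000000000000000) (nat_lit 0x0) (nat_lit 0x60004000200118000000000000000000) := T_2 (nat_lit 126) (nat_lit 125) (nat_lit 0) (nat_lit 10) (nat_lit 8) L2556976 (by decide +kernel)
theorem L2556978 : W_2 (nat_lit 5) (nat_lit 0x80007800280000001c00000000000000000000000) (nat_lit 0x0) (nat_lit 0x60014000200198000000000000000000) := T_2 (nat_lit 79) (nat_lit 112) (nat_lit 6) (nat_lit 10) (nat_lit 8) L2556977 (by decide +kernel)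
theorem L2556979 : W_2 (nat_lit 6) (nat_lit 0x7800280000001c00000000000000000000000) (nat_lit 0x0) (nat_lit 0x180000000060014000200198000000000000000000) := T_2 (nat_lit 163) (nat_lit 164) (nat_lit 3) (nat_lit 7) (nat_lit 8) L2556978 (by decide +kernel)
theorem L2556980 : W_2 (nat_lit 7) (nat_lit 0x7800080000001c00000000000000000000000) (nat_lit 0x0) (nat_lit 0x180000000660014000200198000000000000000000) := T_2 (nat_lit 129) (nat_lit 130) (nat_lit 2) (nat_lit 7) (nat_lit 8) L2556979 (by decide +kernel)
theorem L2556981 : W_2 (nat_lit 2) (nat_lit 0x4000000090007800080000001e00080000000000000000000) (nat_lit 0x0) (nat_lit 0x600010000000000000000000000000000) := D_2 (nat_lit 129) (nat_lit 130) (nat_lit 112) (nat_lit 2) (nat_lit 7) (nat_lit 8) (nat_lit 6) (nat_lit 10) (nat_lit 8) (by decide +kernel)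
theorem L2556982 : W_2 (nat_lit 3) (nat_lit 0x4000000090007800080000001e00000000000000000000000) (nat_lit 0x0) (nat_lit 0x600010000000180000000000000000000) := T_2 (nat_lit 79) (nat_lit 80) (nat_lit 2) (nat_lit 8) (nat_lit 5) L2556981 (by decide +kernel)
theorem L2556983 : W_2 (nat_lit 4) (nat_lit 0x4000000090007800080000001c00000000000000000000000) (nat_lit 0x0) (nat_lit 0x600014000200180000000000000000000) := T_2 (nat_lit 93) (nat_lit 110) (nat_lit 5) (nat_lit 8) (nat_lit 5) L2556982 (by decide +kernel)
theorem L2556984 : W_2 (nat_lit 5) (nat_lit 0x90007800080000001c00000000000000000000000) (nat_lit 0x0) (nat_lit 0x4000200000000000600014000200180000000000000000000) := T_2 (nat_lit 194) (nat_lit 177) (nat_lit 6) (nat_lit 7) (nat_lit 11) L2556983 (by decide +kernel)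
theorem L2556985 : W_2 (nat_lit 6) (nat_lit 0x10007800080000001c00000000000000000000000) (nat_lit 0x0) (nat_lit 0x4000200180000000600014000200180000000000000000000) := T_2 (nat_lit 163) (nat_lit 164) (nat_lit 3) (nat_lit 7) (nat_lit 8) L2556984 (by decide +kernel)
theorem L2556986 : W_2 (nat_lit 7) (nat_lit 0x7800080000001c00000000000000000000000) (nat_lit 0x0) (nat_lit 0x4000200198000000600014000200180000000000000000000) := T_2 (nat_lit 160) (nat_lit 159) (nat_lit 1) (nat_lit 10) (nat_lit 8) L2556985 (by decide +kernel)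
theorem L2556987 : W_2 (nat_lit 11) (nat_lit 0x7000080000001c00000000000000000000000) (nat_lit 0x0) (nat_lit 0x40002001980008006600140003001dc000000000000000000) := Q_2 (nat_lit 143) (C_2 L2556955 (C_2 L2556974 (C_2 L2556947 (C_2 L2556980 (C_2 L2556986 N_2))))) (by decide +kernel)
theorem L2556988 : W_2 (nat_lit 2) (nat_lit 0x40000000900078002c0060001c00000000000000000000000) (nat_lit 0x0) (nat_lit 0x180002000000000000000000000000) := D_2 (nat_lit 115) (nat_lit 116) (nat_lit 97) (nat_lit 0) (nat_lit 14) (nat_lit 6) (nat_lit 3) (nat_lit 9) (nat_lit 5) (by decide +kernel)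
theorem L2556989 : W_2 (nat_lit 3) (nat_lit 0x40000000900078002c0020001c00000000000000000000000) (nat_lit 0x0) (nat_lit 0x1c0002200000000000000000000000) := T_2 (nat_lit 114) (nat_lit 93) (nat_lit 3) (nat_lit 8) (nat_lit 5) L2556988 (by decide +kernel)
theorem L2556990 : W_2 (nat_lit 4) (nat_lit 0x900078002c0020001c00000000000000000000000) (nat_lit 0x0) (nat_lit 0x40002000000000000001c0002200000000000000000000000) := T_2 (nat_lit 194) (nat_lit 177) (nat_lit 6) (nat_lit 7) (nat_lit 11) L2556989 (by decide +kernel)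
theorem L2556991 : W_2 (nat_lit 5) (nat_lit 0x900078002c0000001c00000000000000000000000) (nat_lit 0x0) (nat_lit 0x40002000000000000001f0002200000000000000000000000) := T_2 (nat_lit 113) (nat_lit 112) (nat_lit 6) (nat_lit 10) (nat_lit 9) L2556990 (by decide +kernel)
theorem L2556992 : W_2 (nat_lit 6) (nat_lit 0x800078002c0000001c00000000000000000000000) (nat_lit 0x0) (nat_lit 0x40002000180000000001f0002200000000000000000000000) := T_2 (nat_lit 160) (nat_lit 159) (nat_lit 1) (nat_lit 10) (nat_lit 8) L2556991 (by decide +kernel)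
theorem L2556993 : W_2 (nat_lit 7) (nat_lit 0x800078000c0000001c00000000000000000000000) (nat_lit 0x0) (nat_lit 0x40002000180000006001f0002200000000000000000000000) := T_2 (nat_lit 129) (nat_lit 130) (nat_lit 2) (nat_lit 7) (nat_lit 8) L2556992 (by decide +kernel)
theorem L2556994 : W_2 (nat_lit 8) (nat_lit 0x78000c0000001c00000000000000000000000) (nat_lit 0x0) (nat_lit 0x40002001980000006001f0002200000000000000000000000) := T_2 (nat_lit 163) (nat_lit 164) (nat_lit 3) (nat_lit 7) (nat_lit 8) L2556993 (by decide +kernel)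
theorem L2556995 : W_2 (nat_lit 9) (nat_lit 0x7800080000001c00000000000000000000000) (nat_lit 0x0) (nat_lit 0x40002001980000006601f0002200000000000000000000000) := T_2 (nat_lit 126) (nat_lit 125) (nat_lit 0) (nat_lit 10) (nat_lit 8) L2556994 (by decide +kernel)
theorem L2556996 : W_2 (nat_lit 2) (nat_lit 0x800078002c0020001e00000000000000000000000) (nat_lit 0x0) (nat_lit 0x4000000018000000000000000000) := D_2 (nat_lit 76) (nat_lit 75) (nat_lit 110) (nat_lit 0) (nat_lit 11) (nat_lit 5) (nat_lit 5) (nat_lit 8) (nat_lit 4) (by decide +kernel)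
theorem L2556997 : W_2 (nat_lit 3) (nat_lit 0x800078002c0020001c00000000000000000000000) (nat_lit 0x0) (nat_lit 0x44000200018000000000000000000) := T_2 (nat_lit 93) (nat_lit 114) (nat_lit 3) (nat_lit 8) (nat_lit 5) L2556996 (by decide +kernel)
theorem L2556998 : W_2 (nat_lit 4) (nat_lit 0x800078002c0000001c00000000000000000000000) (nat_lit 0x0) (nat_lit 0x74000200018000000000000000000) := T_2 (nat_lit 113) (nat_lit 112) (nat_lit 6) (nat_lit 10) (nat_lit 9) L2556997 (by decide +kernel)
theorem L2556999 : W_2 (nat_lit 5) (nat_lit 0x800078000c0000001c00000000000000000000000) (nat_lit 0x0) (nat_lit 0x600074000200018000000000000000000) := T_2 (nat_lit 129) (nat_lit 130) (nat_lit 2) (nat_lit 7) (nat_lit 8) L2556998 (by decide +kernel)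
theorem L2557000 : W_2 (nat_lit 6) (nat_lit 0x78000c0000001c00000000000000000000000) (nat_lit 0x0) (nat_lit 0x180000000600074000200018000000000000000000) := T_2 (nat_lit 163) (nat_lit 164) (nat_lit 3) (nat_lit 7) (nat_lit 8) L2556999 (by decide +kernel)
theorem L2557001 : W_2 (nat_lit 7) (nat_lit 0x7800080000001c00000000000000000000000) (nat_lit 0x0) (nat_lit 0x180000000660074000200018000000000000000000) := T_2 (nat_lit 126) (nat_lit 125) (nat_lit 0) (nat_lit 10) (nat_lit 8) L2557000 (by decide +kernel)
theorem L2557002 : W_2 (nat_lit 2) (nat_lit 0x4000000090007800280020001c00000000000000000000000) (nat_lit 0x0) (nat_lit 0x44000200000000000000000000000) := D_2 (nat_lit 93) (nat_lit 110) (nat_lit 114) (nat_lit 5) (nat_lit 8) (nat_lit 5) (nat_lit 3) (nat_lit 8) (nat_lit 5) (by decide +kernel)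
theorem L2557003 : W_2 (nat_lit 3) (nat_lit 0x4000000090007800280000001c00000000000000000000000) (nat_lit 0x0) (nat_lit 0x74000200000000000000000000000) := T_2 (nat_lit 113) (nat_lit 112) (nat_lit 6) (nat_lit 10) (nat_lit 9) L2557002 (by decide +kernel)
theorem L2557004 : W_2 (nat_lit 4) (nat_lit 0x90007800280000001c00000000000000000000000) (nat_lit 0x0) (nat_lit 0x4000200000000000000074000200000000000000000000000) := T_2 (nat_lit 194) (nat_lit 177) (nat_lit 6) (nat_lit 7) (nat_lit 11) L2557003 (by decide +kernel)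
theorem L2557005 : W_2 (nat_lit 5) (nat_lit 0x10007800280000001c00000000000000000000000) (nat_lit 0x0) (nat_lit 0x4000200180000000000074000200000000000000000000000) := T_2 (nat_lit 163) (nat_lit 164) (nat_lit 3) (nat_lit 7) (nat_lit 8) L2557004 (by decide +kernel)
theorem L2557006 : W_2 (nat_lit 6) (nat_lit 0x7800280000001c00000000000000000000000) (nat_lit 0x0) (nat_lit 0x4000200198000000000074000200000000000000000000000) := T_2 (nat_lit 160) (nat_lit 159) (nat_lit 1) (nat_lit 10) (nat_lit 8) L2557005 (by decide +kernel)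
theorem L2557007 : W_2 (nat_lit 7) (nat_lit 0x7800080000001c00000000000000000000000) (nat_lit 0x0) (nat_lit 0x4000200198000000600074000200000000000000000000000) := T_2 (nat_lit 129) (nat_lit 130) (nat_lit 2) (nat_lit 7) (nat_lit 8) L2557006 (by decide +kernel)
theorem L2557008 : W_2 (nat_lit 2) (nat_lit 0x4000000010007800280020001e00000000000000000000000) (nat_lit 0x0) (nat_lit 0x80000000000010000100000000000000000000000) := D_2 (nat_lit 112) (nat_lit 92) (nat_lit 163) (nat_lit 3) (nat_lit 7) (nat_lit 5) (nat_lit 6) (nat_lit 10) (nat_lit 9) (by decide +kernel)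
theorem L2557009 : W_2 (nat_lit 3) (nat_lit 0x4000000010007800280000001e00000000000000000000000) (nat_lit 0x0) (nat_lit 0x80000000000070000100000000000000000000000) := T_2 (nat_lit 113) (nat_lit 114) (nat_lit 3) (nat_lit 8) (nat_lit 5) L2557008 (by decide +kernel)
theorem L2557010 : W_2 (nat_lit 4) (nat_lit 0x4000000010007800280000001c00000000000000000000000) (nat_lit 0x0) (nat_lit 0x80000000000074000300000000000000000000000) := T_2 (nat_lit 93) (nat_lit 110) (nat_lit 5) (nat_lit 8) (nat_lit 5) L2557009 (by decide +kernel)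
theorem L2557011 : W_2 (nat_lit 5) (nat_lit 0x10007800280000001c00000000000000000000000) (nat_lit 0x0) (nat_lit 0x4000200080000000000074000300000000000000000000000) := T_2 (nat_lit 194) (nat_lit 177) (nat_lit 6) (nat_lit 7) (nat_lit 11) L2557010 (by decide +kernel)
theorem L2557012 : W_2 (nat_lit 6) (nat_lit 0x10007800080000001c00000000000000000000000) (nat_lit 0x0) (nat_lit 0x4000200080000000600074000300000000000000000000000) := T_2 (nat_lit 129) (nat_lit 130) (nat_lit 2) (nat_lit 7) (nat_lit 8) L2557011 (by decide +kernel)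
theorem L2557013 : W_2 (nat_lit 7) (nat_lit 0x7800080000001c00000000000000000000000) (nat_lit 0x0) (nat_lit 0x4000200098000000600074000300000000000000000000000) := T_2 (nat_lit 160) (nat_lit 159) (nat_lit 1) (nat_lit 10) (nat_lit 8) L2557012 (by decide +kernel)
theorem L2557014 : W_2 (nat_lit 2) (nat_lit 0x100078002c0000001c00000000000000000000000) (nat_lit 0x0) (nat_lit 0x200000000000000004000200000000000000000000000) := D_2 (nat_lit 110) (nat_lit 93) (nat_lit 177) (nat_lit 5) (nat_lit 8) (nat_lit 5) (nat_lit 6) (nat_lit 7) (nat_lit 10) (by decide +kernel)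
theorem L2557015 : W_2 (nat_lit 3) (nat_lit 0x78002c0000001c00000000000000000000000) (nat_lit 0x0) (nat_lit 0x200018000000000004000200000000000000000000000) := T_2 (nat_lit 160) (nat_lit 159) (nat_lit 1) (nat_lit 10) (nat_lit 8) L2557014 (by decide +kernel)
theorem L2557016 : W_2 (nat_lit 4) (nat_lit 0x78000c0000001c00000000000000000000000) (nat_lit 0x0) (nat_lit 0x200018000000600004000200000000000000000000000) := T_2 (nat_lit 129) (nat_lit 130) (nat_lit 2) (nat_lit 7) (nat_lit 8) L2557015 (by decide +kernel)
theorem L2557017 : W_2 (nat_lit 5) (nat_lit 0x7800080000001c00000000000000000000000) (nat_lit 0x0) (nat_lit 0x200018000000660004000200000000000000000000000) := T_2 (nat_lit 126) (nat_lit 125) (nat_lit 0) (nat_lit 10) (nat_lit 8) L2557016 (by decide +kernel)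
theorem L2557018 : W_2 (nat_lit 10) (nat_lit 0x7000080000001c00000000000000000000000) (nat_lit 0x0) (nat_lit 0x40002001980008006601f4002300018000000000000000000) := Q_2 (nat_lit 143) (C_2 L2556947 (C_2 L2556995 (C_2 L2557001 (C_2 L2557007 (C_2 L2557013 (C_2 L2557017 N_2)))))) (by decide +kernel)
theorem L2557019 : W_2 (nat_lit 12) (nat_lit 0x7000080000000c00000000000000000000000) (nat_lit 0x0) (nat_lit 0x40002001980008006601f40033003dc002000000000000000) := Q_2 (nat_lit 96) (C_2 L2556956 (C_2 L2556957 (C_2 L2556962 (C_2 L2556965 (C_2 L2556987 (C_2 L2557018 N_2)))))) (by decide +kernel)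
theorem L2557020 : W_2 (nat_lit 2) (nat_lit 0x800078002c0010000e000c0000000000000000000) (nat_lit 0x0) (nat_lit 0x10000000000004000000010000000000000000000) := D_2 (nat_lit 110) (nat_lit 76) (nat_lit 160) (nat_lit 5) (nat_lit 8) (nat_lit 4) (nat_lit 5) (nat_lit 8) (nat_lit 5) (by decide +kernel)
theorem L2557021 : W_2 (nat_lit 3) (nat_lit 0x800078002c0010000c000c0000000000000000000) (nat_lit 0x0) (nat_lit 0x10000000000004000300010000000000000000000) := T_2 (nat_lit 93) (nat_lit 92) (nat_lit 2) (nat_lit 7) (nat_lit 5) L2557020 (by decide +kernel)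
theorem L2557022 : W_2 (nat_lit 4) (nat_lit 0x800078002c0010000c00080000000000000000000) (nat_lit 0x0) (nat_lit 0x10000000000004000300050004000000000000000) := T_2 (nat_lit 78) (nat_lit 62) (nat_lit 6) (nat_lit 10) (nat_lit 7) L2557021 (by decide +kernel)
theorem L2557023 : W_2 (nat_lit 5) (nat_lit 0x800078002c0010000c00000000000000000000000) (nat_lit 0x0) (nat_lit 0x100000000000040013000d0004000000000000000) := T_2 (nat_lit 79) (nat_lit 96) (nat_lit 6) (nat_lit 10) (nat_lit 8) L2557022 (by decide +kernel)
theorem L2557024 : W_2 (nat_lit 6) (nat_lit 0x800078002c0000000c00000000000000000000000) (nat_lit 0x0) (nat_lit 0x100000000000140013000f0004000000000000000) := T_2 (nat_lit 112) (nat_lit 77) (nat_lit 4) (nat_lit 10) (nat_lit 8) L2557023 (by decide +kernel)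
theorem L2557025 : W_2 (nat_lit 7) (nat_lit 0x78002c0000000c00000000000000000000000) (nat_lit 0x0) (nat_lit 0x1900000000000140013000f0004000000000000000) := T_2 (nat_lit 163) (nat_lit 164) (nat_lit 3) (nat_lit 7) (nat_lit 8) L2557024 (by decide +kernel)
theorem L2557026 : W_2 (nat_lit 8) (nat_lit 0x78000c0000000c00000000000000000000000) (nat_lit 0x0) (nat_lit 0x1900000006000140013000f0004000000000000000) := T_2 (nat_lit 129) (nat_lit 130) (nat_lit 2) (nat_lit 7) (nat_lit 8) L2557025 (by decide +kernel)
theorem L2557027 : W_2 (nat_lit 9) (nat_lit 0x7800080000000c00000000000000000000000) (nat_lit 0x0) (nat_lit 0x1900000006600140013000f0004000000000000000) := T_2 (nat_lit 126) (nat_lit 125) (nat_lit 0) (nat_lit 10) (nat_lit 8) L2557026 (by decide +kernel)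
theorem L2557028 : W_2 (nat_lit 12) (nat_lit 0x7000080000000c00000000000000000000000) (nat_lit 0x0) (nat_lit 0x40002001be000e006700150013800fe004000000000000000) := Q_2 (nat_lit 143) (C_2 L2556863 (C_2 L2557027 (C_2 L2556828 (C_2 L2556894 N_2)))) (by decide +kernel)
theorem L2557029 : W_2 (nat_lit 2) (nat_lit 0x80007c002a0010000f80044000000000000000000) (nat_lit 0x0) (nat_lit 0x10000000000001800000000000000000000000000) := D_2 (nat_lit 108) (nat_lit 107) (nat_lit 160) (nat_lit 1) (nat_lit 9) (nat_lit 5) (nat_lit 7) (nat_lit 6) (nat_lit 5) (by decide +kernel)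
theorem L2557030 : W_2 (nat_lit 3) (nat_lit 0x80007c002a0010000f00044000000000000000000) (nat_lit 0x0) (nat_lit 0x10000000000001800080002000000000000000000) := T_2 (nat_lit 91) (nat_lit 73) (nat_lit 0) (nat_lit 9) (nat_lit 5) L2557029 (by decide +kernel)
theorem L2557031 : W_2 (nat_lit 4) (nat_lit 0x800078002a0010000f00044000000000000000000) (nat_lit 0x0) (nat_lit 0x10000400010001800080002000000000000000000) := T_2 (nat_lit 142) (nat_lit 124) (nat_lit 0) (nat_lit 9) (nat_lit 8) L2557030 (by decide +kernel)
theorem L2557032 : W_2 (nat_lit 5) (nat_lit 0x800078002a0010000f00040000000000000000000) (nat_lit 0x0) (nat_lit 0x1000040001000180008000e000000000000000000) := T_2 (nat_lit 74) (nat_lit 75) (nat_lit 0) (nat_lit 10) (nat_lit 5) L2557031 (by decide +kernel)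
theorem L2557033 : W_2 (nat_lit 6) (nat_lit 0x800078002a0010000f00000000000000000000000) (nat_lit 0x0) (nat_lit 0x100004000100018000800ce000000000000000000) := T_2 (nat_lit 78) (nat_lit 79) (nat_lit 2) (nat_lit 7) (nat_lit 5) L2557032 (by decide +kernel)
theorem L2557034 : W_2 (nat_lit 7) (nat_lit 0x800078002a0010000e00000000000000000000000) (nat_lit 0x0) (nat_lit 0x100004000100218001800ce000000000000000000) := T_2 (nat_lit 92) (nat_lit 113) (nat_lit 3) (nat_lit 7) (nat_lit 5) L2557033 (by decide +kernel)
theorem L2557035 : W_2 (nat_lit 8) (nat_lit 0x800078002a0000000e00000000000000000000000) (nat_lit 0x0) (nat_lit 0x100004000100318001800ee000000000000000000) := T_2 (nat_lit 112) (nat_lit 77) (nat_lit 4) (nat_lit 10) (nat_lit 8) L2557034 (by decide +kernel)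
theorem L2557036 : W_2 (nat_lit 9) (nat_lit 0x80007800280000000e00000000000000000000000) (nat_lit 0x0) (nat_lit 0x100004000700318001800ee000000000000000000) := T_2 (nat_lit 125) (nat_lit 126) (nat_lit 0) (nat_lit 10) (nat_lit 8) L2557035 (by decide +kernel)
theorem L2557037 : W_2 (nat_lit 10) (nat_lit 0x80007800080000000e00000000000000000000000) (nat_lit 0x0) (nat_lit 0x100004006700318001800ee000000000000000000) := T_2 (nat_lit 129) (nat_lit 130) (nat_lit 2) (nat_lit 7) (nat_lit 8) L2557036 (by decide +kernel)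
theorem L2557038 : W_2 (nat_lit 11) (nat_lit 0x7800080000000e00000000000000000000000) (nat_lit 0x0) (nat_lit 0x1900004006700318001800ee000000000000000000) := T_2 (nat_lit 163) (nat_lit 164) (nat_lit 3) (nat_lit 7) (nat_lit 8) L2557037 (by decide +kernel)
theorem L2557039 : W_2 (nat_lit 2) (nat_lit 0x78000c0000000e00000000000000000000000) (nat_lit 0x0) (nat_lit 0x4000000030000000000000000000) := D_2 (nat_lit 110) (nat_lit 77) (nat_lit 76) (nat_lit 6) (nat_lit 8) (nat_lit 8) (nat_lit 5) (nat_lit 8) (nat_lit 4) (by decide +kernel)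
theorem L2557040 : W_2 (nat_lit 3) (nat_lit 0x7800080000000e00000000000000000000000) (nat_lit 0x0) (nat_lit 0x60004000000030000000000000000000) := T_2 (nat_lit 126) (nat_lit 125) (nat_lit 0) (nat_lit 10) (nat_lit 8) L2557039 (by decide +kernel)
theorem L2557041 : W_2 (nat_lit 3) (nat_lit 0x7800080000000e00000000000000000000000) (nat_lit 0x0) (nat_lit 0x10000000060004000000010000000000000000000) := T_2 (nat_lit 110) (nat_lit 160) (nat_lit 5) (nat_lit 8) (nat_lit 5) L2556834 (by decide +kernel)
theorem L2557042 : W_2 (nat_lit 12) (nat_lit 0x7800080000000c00000000000000000000000) (nat_lit 0x0) (nat_lit 0x1900004006700358003800fe000000000000000000) := Q_2 (nat_lit 93) (C_2 L2556923 (C_2 L2557038 (C_2 L2557040 (C_2 L2557041 N_2)))) (by decide +kernel)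
theorem L2557043 : W_2 (nat_lit 13) (nat_lit 0x7000080000000c00000000000000000000000) (nat_lit 0x0) (nat_lit 0x40002001be000e006700358003800fe000000000000000000) := Q_2 (nat_lit 143) (C_2 L2556863 (C_2 L2557042 (C_2 L2556849 (C_2 L2556828 (C_2 L2556894 N_2))))) (by decide +kernel)
theorem L2557044 : W_2 (nat_lit 2) (nat_lit 0x800078002c0030000e00000000000000000000000) (nat_lit 0x0) (nat_lit 0x10000000000004000000010000000000000000000) := D_2 (nat_lit 110) (nat_lit 76) (nat_lit 160) (nat_lit 5) (nat_lit 8) (nat_lit 4) (nat_lit 5) (nat_lit 8) (nat_lit 5) (by decide +kernel)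
theorem L2557045 : W_2 (nat_lit 3) (nat_lit 0x800078002c0030000c00000000000000000000000) (nat_lit 0x0) (nat_lit 0x10000000000004000300010000000000000000000) := T_2 (nat_lit 93) (nat_lit 92) (nat_lit 3) (nat_lit 7) (nat_lit 5) L2557044 (by decide +kernel)
theorem L2557046 : W_2 (nat_lit 4) (nat_lit 0x800078002c0010000c00000000000000000000000) (nat_lit 0x0) (nat_lit 0x10000000000024001300010000000000000000000) := T_2 (nat_lit 113) (nat_lit 96) (nat_lit 6) (nat_lit 10) (nat_lit 9) L2557045 (by decide +kernel)
theorem L2557047 : W_2 (nat_lit 5) (nat_lit 0x800078002c0000000c00000000000000000000000) (nat_lit 0x0) (nat_lit 0x10000000000034001300030000000000000000000) := T_2 (nat_lit 112) (nat_lit 77) (nat_lit 4) (nat_lit 10) (nat_lit 8) L2557046 (by decide +kernel)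
theorem L2557048 : W_2 (nat_lit 6) (nat_lit 0x78002c0000000c00000000000000000000000) (nat_lit 0x0) (nat_lit 0x190000000000034001300030000000000000000000) := T_2 (nat_lit 163) (nat_lit 164) (nat_lit 3) (nat_lit 7) (nat_lit 8) L2557047 (by decide +kernel)
theorem L2557049 : W_2 (nat_lit 7) (nat_lit 0x78000c0000000c00000000000000000000000) (nat_lit 0x0) (nat_lit 0x190000000600034001300030000000000000000000) := T_2 (nat_lit 129) (nat_lit 130) (nat_lit 2) (nat_lit 7) (nat_lit 8) L2557048 (by decide +kernel)
theorem L2557050 : W_2 (nat_lit 8) (nat_lit 0x7800080000000c00000000000000000000000) (nat_lit 0x0) (nat_lit 0x190000000660034001300030000000000000000000) := T_2 (nat_lit 126) (nat_lit 125) (nat_lit 0) (nat_lit 10) (nat_lit 8) L2557049 (by decide +kernel)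
theorem L2557051 : W_2 (nat_lit 12) (nat_lit 0x7000080000000c00000000000000000000000) (nat_lit 0x0) (nat_lit 0x40002001be000e0067003500138007e000000000000000000) := Q_2 (nat_lit 143) (C_2 L2556863 (C_2 L2557050 (C_2 L2556828 (C_2 L2556894 N_2)))) (by decide +kernel)
theorem L2557052 : W_2 (nat_lit 14) (nat_lit 0x7000080000000400000000000000000000000) (nat_lit 0x0) (nat_lit 0x40002001be000f0067c1f5807b807fe007400080000000000) := Q_2 (nat_lit 95) (C_2 L2556845 (C_2 L2556850 (C_2 L2556864 (C_2 L2556878 (C_2 L2556895 (C_2 L2556903 (C_2 L2556925 (C_2 L2556939 (C_2 L2557019 (C_2 L2557028 (C_2 L2557043 (C_2 L2557051 N_2)))))))))))) (by decide +kernel)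
theorem L2557053 : W_2 (nat_lit 15) (nat_lit 0x5000080000000400000000000000000000000) (nat_lit 0x0) (nat_lit 0x40002007be01af01e7c1f5807b807fe007400080000000000) := Q_2 (nat_lit 145) (C_2 L2556625 (C_2 L2556607 (C_2 L2556603 (C_2 L2557052 N_2)))) (by decide +kernel)
theorem L2557054 : W_2 (nat_lit 5) (nat_lit 0xd000080000000400000000000000000000000) (nat_lit 0x0) (nat_lit 0x700012001c40000000000000000000000000000000) := T_2 (nat_lit 145) (nat_lit 126) (nat_lit 0) (nat_lit 11) (nat_lit 8) L2556606 (by decide +kernel)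
theorem L2557055 : W_2 (nat_lit 4) (nat_lit 0xd000080004000600000000000000000000000) (nat_lit 0x0) (nat_lit 0x200000000000180001c0008000000000000000000) := T_2 (nat_lit 92) (nat_lit 75) (nat_lit 4) (nat_lit 8) (nat_lit 8) L2514377 (by decide +kernel)
theorem L2557056 : W_2 (nat_lit 5) (nat_lit 0xd000080000000600000000000000000000000) (nat_lit 0x0) (nat_lit 0x2000000000001c0001c0028000000000000000000) := T_2 (nat_lit 110) (nat_lit 77) (nat_lit 6) (nat_lit 8) (nat_lit 8) L2557055 (by decide +kernel)
theorem L2557057 : W_2 (nat_lit 2) (nat_lit 0xd000080000000700000000000000000000000) (nat_lit 0x0) (nat_lit 0x4000000028000000000000000000) := D_2 (nat_lit 110) (nat_lit 77) (nat_lit 75) (nat_lit 6) (nat_lit 8) (nat_lit 8) (nat_lit 4) (nat_lit 8) (nat_lit 8) (by decide +kernel)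
theorem L2557058 : W_2 (nat_lit 2) (nat_lit 0xd000080000001f00008000000000000000000) (nat_lit 0x0) (nat_lit 0x70000000000000000000000000000) := D_2 (nat_lit 113) (nat_lit 112) (nat_lit 114) (nat_lit 3) (nat_lit 7) (nat_lit 5) (nat_lit 3) (nat_lit 8) (nat_lit 5) (by decide +kernel)
theorem L2557059 : W_2 (nat_lit 3) (nat_lit 0xd000080000000f00008000000000000000000) (nat_lit 0x0) (nat_lit 0x70001000010000000000000000000) := T_2 (nat_lit 96) (nat_lit 76) (nat_lit 0) (nat_lit 11) (nat_lit 5) L2557058 (by decide +kernel)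
theorem L2557060 : W_2 (nat_lit 4) (nat_lit 0xd000080000000700008000000000000000000) (nat_lit 0x0) (nat_lit 0x70001800014000000000000000000) := T_2 (nat_lit 95) (nat_lit 74) (nat_lit 0) (nat_lit 10) (nat_lit 5) L2557059 (by decide +kernel)
theorem L2557061 : W_2 (nat_lit 5) (nat_lit 0xd000080000000700000000000000000000000) (nat_lit 0x0) (nat_lit 0x7400180001c000000000000000000) := T_2 (nat_lit 75) (nat_lit 110) (nat_lit 4) (nat_lit 8) (nat_lit 8) L2557060 (by decide +kernel)
theorem L2557062 : W_2 (nat_lit 6) (nat_lit 0xd000080000000700020000000000000000000) (nat_lit 0x0) (nat_lit 0xe000e0053800000000000000000) := T_2 (nat_lit 91) (nat_lit 78) (nat_lit 2) (nat_lit 6) (nat_lit 5) L2344280 (by decide +kernel)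
theorem L2557063 : W_2 (nat_lit 7) (nat_lit 0xd000080000000700000000000000000000000) (nat_lit 0x0) (nat_lit 0x4e000e0073800000000000000000) := T_2 (nat_lit 77) (nat_lit 110) (nat_lit 6) (nat_lit 8) (nat_lit 8) L2557062 (by decide +kernel)
theorem L2557064 : W_2 (nat_lit 14) (nat_lit 0xd000080000000600000000000000000000000) (nat_lit 0x0) (nat_lit 0x20075e019f007f803f001f000e800000) := Q_2 (nat_lit 92) (C_2 L2344252 (C_2 L2557057 (C_2 L2557061 (C_2 L2557063 N_2)))) (by decide +kernel)
theorem L2557065 : W_2 (nat_lit 2) (nat_lit 0xd00008002c001e00010000000000000000000) (nat_lit 0x0) (nat_lit 0x80000000400000000000040000000000000000000) := D_2 (nat_lit 130) (nat_lit 163) (nat_lit 78) (nat_lit 5) (nat_lit 11) (nat_lit 5) (nat_lit 4) (nat_lit 11) (nat_lit 8) (by decide +kernel)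
theorem L2557066 : W_2 (nat_lit 3) (nat_lit 0xd00008000c001e00010000000000000000000) (nat_lit 0x0) (nat_lit 0x80000000400060000000040000000000000000000) := T_2 (nat_lit 113) (nat_lit 114) (nat_lit 3) (nat_lit 8) (nat_lit 5) L2557065 (by decide +kernel)
theorem L2557067 : W_2 (nat_lit 4) (nat_lit 0xd00008000c001e00000000000000000000000) (nat_lit 0x0) (nat_lit 0x80000000400060000000058000000000000000000) := T_2 (nat_lit 76) (nat_lit 75) (nat_lit 0) (nat_lit 11) (nat_lit 5) L2557066 (by decide +kernel)
theorem L2557068 : W_2 (nat_lit 5) (nat_lit 0xd00008000c000e00000000000000000000000) (nat_lit 0x0) (nat_lit 0x80000000400060003000058000000000000000000) := T_2 (nat_lit 96) (nat_lit 97) (nat_lit 1) (nat_lit 12) (nat_lit 5) L2557067 (by decide +kernel)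
theorem L2557069 : W_2 (nat_lit 6) (nat_lit 0xd000080004000e00000000000000000000000) (nat_lit 0x0) (nat_lit 0xa0000000400068003000058000000000000000000) := T_2 (nat_lit 111) (nat_lit 161) (nat_lit 6) (nat_lit 8) (nat_lit 9) L2557068 (by decide +kernel)
theorem L2557070 : W_2 (nat_lit 7) (nat_lit 0xd000080000000e00000000000000000000000) (nat_lit 0x0) (nat_lit 0xa000000040006c003000078000000000000000000) := T_2 (nat_lit 110) (nat_lit 77) (nat_lit 6) (nat_lit 8) (nat_lit 8) L2557069 (by decide +kernel)
theorem L2557071 : W_2 (nat_lit 2) (nat_lit 0xd000080000001e00020000000000000000000) (nat_lit 0x0) (nat_lit 0x2000018000000000000000000) := D_2 (nat_lit 76) (nat_lit 75) (nat_lit 97) (nat_lit 0) (nat_lit 11) (nat_lit 5) (nat_lit 0) (nat_lit 12) (nat_lit 5) (by decide +kernel)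
theorem L2557072 : W_2 (nat_lit 3) (nat_lit 0xd000080000001e00000000000000000000000) (nat_lit 0x0) (nat_lit 0x4002000038000000000000000000) := T_2 (nat_lit 77) (nat_lit 110) (nat_lit 6) (nat_lit 8) (nat_lit 8) L2557071 (by decide +kernel)
theorem L2557073 : W_2 (nat_lit 10) (nat_lit 0xd000080000000e00000000000000000000000) (nat_lit 0x0) (nat_lit 0x580030001e001f400f000ff8000000000000000000) := Q_2 (nat_lit 96) (C_2 L2344013 (C_2 L2344029 (C_2 L2344026 (C_2 L2270055 (C_2 L2557072 N_2))))) (by decide +kernel)
theorem L2557074 : W_2 (nat_lit 2) (nat_lit 0xd00008003c001e00010000000000000000000) (nat_lit 0x0) (nat_lit 0x200000000000180000000000000000000) := D_2 (nat_lit 79) (nat_lit 80) (nat_lit 129) (nat_lit 2) (nat_lit 8) (nat_lit 5) (nat_lit 6) (nat_lit 10) (nat_lit 8) (by decide +kernel)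
theorem L2557075 : W_2 (nat_lit 3) (nat_lit 0xd00008002c001e00010000000000000000000) (nat_lit 0x0) (nat_lit 0x240010000000180000000000000000000) := T_2 (nat_lit 112) (nat_lit 126) (nat_lit 1) (nat_lit 11) (nat_lit 6) L2557074 (by decide +kernel)
theorem L2557076 : W_2 (nat_lit 4) (nat_lit 0xd00008000c001e00010000000000000000000) (nat_lit 0x0) (nat_lit 0x240070000000180000000000000000000) := T_2 (nat_lit 113) (nat_lit 114) (nat_lit 3) (nat_lit 8) (nat_lit 5) L2557075 (by decide +kernel)
theorem L2557077 : W_2 (nat_lit 5) (nat_lit 0xd00008000c001e00000000000000000000000) (nat_lit 0x0) (nat_lit 0x240070000000198000000000000000000) := T_2 (nat_lit 76) (nat_lit 75) (nat_lit 0) (nat_lit 11) (nat_lit 5) L2557076 (by decide +kernel)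
theorem L2557078 : W_2 (nat_lit 6) (nat_lit 0xd00008000c000e00000000000000000000000) (nat_lit 0x0) (nat_lit 0x240070003000198000000000000000000) := T_2 (nat_lit 96) (nat_lit 97) (nat_lit 1) (nat_lit 12) (nat_lit 5) L2557077 (by decide +kernel)
theorem L2557079 : W_2 (nat_lit 7) (nat_lit 0xd000080004000e00000000000000000000000) (nat_lit 0x0) (nat_lit 0x20000000240078003000198000000000000000000) := T_2 (nat_lit 111) (nat_lit 161) (nat_lit 6) (nat_lit 8) (nat_lit 9) L2557078 (by decide +kernel)
theorem L2557080 : W_2 (nat_lit 8) (nat_lit 0xd000080000000e00000000000000000000000) (nat_lit 0x0) (nat_lit 0x2000000024007c0030001b8000000000000000000) := T_2 (nat_lit 110) (nat_lit 77) (nat_lit 6) (nat_lit 8) (nat_lit 8) L2557079 (by decide +kernel)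
theorem L2557081 : W_2 (nat_lit 2) (nat_lit 0xd000080038003e00110000000440000000000) (nat_lit 0x0) (nat_lit 0x180000000200000000000000000000000000000000) := D_2 (nat_lit 129) (nat_lit 164) (nat_lit 163) (nat_lit 7) (nat_lit 10) (nat_lit 5) (nat_lit 6) (nat_lit 10) (nat_lit 9) (by decide +kernel)
theorem L2557082 : W_2 (nat_lit 3) (nat_lit 0xd000080028003e00110000000440000000000) (nat_lit 0x0) (nat_lit 0x180000000200010004000000000000000000000000) := T_2 (nat_lit 112) (nat_lit 98) (nat_lit 1) (nat_lit 13) (nat_lit 5) L2557081 (by decide +kernel)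
theorem L2557083 : W_2 (nat_lit 4) (nat_lit 0xd000080028003e00110000000400000000000) (nat_lit 0x0) (nat_lit 0x180000000200010004000000000800040000000000) := T_2 (nat_lit 42) (nat_lit 59) (nat_lit 7) (nat_lit 8) (nat_lit 2) L2557082 (by decide +kernel)
theorem L2557084 : W_2 (nat_lit 5) (nat_lit 0xd000080028003e00110000000000000000000) (nat_lit 0x0) (nat_lit 0x180000000200010004000000008800440000000000) := T_2 (nat_lit 46) (nat_lit 63) (nat_lit 5) (nat_lit 12) (nat_lit 2) L2557083 (by decide +kernel)
theorem L2557085 : W_2 (nat_lit 6) (nat_lit 0xd000080020003e00110000000000000000000) (nat_lit 0x0) (nat_lit 0x18000000020001c004000000008800440000000000) := T_2 (nat_lit 111) (nat_lit 110) (nat_lit 1) (nat_lit 12) (nat_lit 5) L2557084 (by decide +kernel)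
theorem L2557086 : W_2 (nat_lit 7) (nat_lit 0xd000080020001e00110000000000000000000) (nat_lit 0x0) (nat_lit 0x18000000020001c006000200008800440000000000) := T_2 (nat_lit 97) (nat_lit 81) (nat_lit 2) (nat_lit 9) (nat_lit 5) L2557085 (by decide +kernel)
theorem L2557087 : W_2 (nat_lit 8) (nat_lit 0xd000080020001e00010000000000000000000) (nat_lit 0x0) (nat_lit 0x18000000020001c006000380008800440000000000) := T_2 (nat_lit 80) (nat_lit 79) (nat_lit 2) (nat_lit 8) (nat_lit 5) L2557086 (by decide +kernel)
theorem L2557088 : W_2 (nat_lit 9) (nat_lit 0xd000080000001e00010000000000000000000) (nat_lit 0x0) (nat_lit 0x18000000020007c006000380008800440000000000) := T_2 (nat_lit 113) (nat_lit 114) (nat_lit 3) (nat_lit 8) (nat_lit 5) L2557087 (by decide +kernel)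
theorem L2557089 : W_2 (nat_lit 10) (nat_lit 0xd000080000001e00000000000000000000000) (nat_lit 0x0) (nat_lit 0x18000000020007c006000398008800440000000000) := T_2 (nat_lit 76) (nat_lit 75) (nat_lit 0) (nat_lit 11) (nat_lit 5) L2557088 (by decide +kernel)
theorem L2557090 : W_2 (nat_lit 2) (nat_lit 0xd000480018003e00110000000040000000000) (nat_lit 0x0) (nat_lit 0x80000000200000000000040000000000000000000) := D_2 (nat_lit 129) (nat_lit 163) (nat_lit 78) (nat_lit 4) (nat_lit 10) (nat_lit 9) (nat_lit 7) (nat_lit 10) (nat_lit 4) (by decide +kernel)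
theorem L2557091 : W_2 (nat_lit 3) (nat_lit 0xd000480008003e00110000000040000000000) (nat_lit 0x0) (nat_lit 0x80000000200010004000040000000000000000000) := T_2 (nat_lit 112) (nat_lit 98) (nat_lit 1) (nat_lit 13) (nat_lit 5) L2557090 (by decide +kernel)
theorem L2557092 : W_2 (nat_lit 4) (nat_lit 0xd000480008003e00110000000000000000000) (nat_lit 0x0) (nat_lit 0x80000000200010004000040000800040000000000) := T_2 (nat_lit 42) (nat_lit 59) (nat_lit 7) (nat_lit 8) (nat_lit 2) L2557091 (by decide +kernel)
theorem L2557093 : W_2 (nat_lit 5) (nat_lit 0xd000080008003e00110000000000000000000) (nat_lit 0x0) (nat_lit 0x80000000600030004000040000800040000000000) := T_2 (nat_lit 130) (nat_lit 113) (nat_lit 6) (nat_lit 11) (nat_lit 8) L2557092 (by decide +kernel)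
theorem L2557094 : W_2 (nat_lit 6) (nat_lit 0xd000080000003e00110000000000000000000) (nat_lit 0x0) (nat_lit 0x8000000060003c004000040000800040000000000) := T_2 (nat_lit 111) (nat_lit 110) (nat_lit 1) (nat_lit 12) (nat_lit 5) L2557093 (by decide +kernel)
theorem L2557095 : W_2 (nat_lit 7) (nat_lit 0xd000080000001e00110000000000000000000) (nat_lit 0x0) (nat_lit 0x8000000060003c006000240000800040000000000) := T_2 (nat_lit 97) (nat_lit 81) (nat_lit 2) (nat_lit 9) (nat_lit 5) L2557094 (by decide +kernel)
theorem L2557096 : W_2 (nat_lit 8) (nat_lit 0xd000080000001e00100000000000000000000) (nat_lit 0x0) (nat_lit 0x8000000060003c006000258000800040000000000) := T_2 (nat_lit 76) (nat_lit 75) (nat_lit 0) (nat_lit 11) (nat_lit 5) L2557095 (by decide +kernel)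
theorem L2557097 : W_2 (nat_lit 9) (nat_lit 0xd000080000001e00000000000000000000000) (nat_lit 0x0) (nat_lit 0x8000000060003c0060003d8000800040000000000) := T_2 (nat_lit 80) (nat_lit 79) (nat_lit 2) (nat_lit 8) (nat_lit 5) L2557096 (by decide +kernel)
theorem L2557098 : W_2 (nat_lit 11) (nat_lit 0xd000080000000e00000000000000000000000) (nat_lit 0x0) (nat_lit 0x580030001e000fc0070003d8008800440000000000) := Q_2 (nat_lit 96) (C_2 L2270055 (C_2 L2344026 (C_2 L2557089 (C_2 L2557097 N_2)))) (by decide +kernel)
theorem L2557099 : W_2 (nat_lit 2) (nat_lit 0xd00008002c001e00080000000000000000000) (nat_lit 0x0) (nat_lit 0x240010000000000000000000000000000) := D_2 (nat_lit 112) (nat_lit 126) (nat_lit 129) (nat_lit 1) (nat_lit 11) (nat_lit 6) (nat_lit 6) (nat_lit 10) (nat_lit 8) (by decide +kernel)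
theorem L2557100 : W_2 (nat_lit 3) (nat_lit 0xd00008000c001e00080000000000000000000) (nat_lit 0x0) (nat_lit 0x240070000000000000000000000000000) := T_2 (nat_lit 113) (nat_lit 114) (nat_lit 3) (nat_lit 8) (nat_lit 5) L2557099 (by decide +kernel)
theorem L2557101 : W_2 (nat_lit 4) (nat_lit 0xd00008000c001e00000000000000000000000) (nat_lit 0x0) (nat_lit 0x240070000000180000000000000000000) := T_2 (nat_lit 79) (nat_lit 80) (nat_lit 2) (nat_lit 8) (nat_lit 5) L2557100 (by decide +kernel)
theorem L2557102 : W_2 (nat_lit 5) (nat_lit 0xd00008000c000e00000000000000000000000) (nat_lit 0x0) (nat_lit 0x240070003000180000000000000000000) := T_2 (nat_lit 96) (nat_lit 97) (nat_lit 1) (nat_lit 12) (nat_lit 5) L2557101 (by decide +kernel)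
theorem L2557103 : W_2 (nat_lit 6) (nat_lit 0xd000080004000e00000000000000000000000) (nat_lit 0x0) (nat_lit 0x20000000240078003000180000000000000000000) := T_2 (nat_lit 111) (nat_lit 161) (nat_lit 6) (nat_lit 8) (nat_lit 9) L2557102 (by decide +kernel)
theorem L2557104 : W_2 (nat_lit 7) (nat_lit 0xd000080000000e00000000000000000000000) (nat_lit 0x0) (nat_lit 0x2000000024007c0030001a0000000000000000000) := T_2 (nat_lit 110) (nat_lit 77) (nat_lit 6) (nat_lit 8) (nat_lit 8) L2557103 (by decide +kernel)
theorem L2557105 : W_2 (nat_lit 2) (nat_lit 0xd00008001c001e00090001c00200000000000) (nat_lit 0x0) (nat_lit 0x40002000100000000000) := D_2 (nat_lit 61) (nat_lit 78) (nat_lit 44) (nat_lit 3) (nat_lit 7) (nat_lit 3) (nat_lit 2) (nat_lit 7) (nat_lit 3) (by decide +kernel)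
theorem L2557106 : W_2 (nat_lit 3) (nat_lit 0xd00008001c001e00090000c00200000000000) (nat_lit 0x0) (nat_lit 0x40003000180000000000) := T_2 (nat_lit 60) (nat_lit 43) (nat_lit 6) (nat_lit 8) (nat_lit 6) L2557105 (by decide +kernel)
theorem L2557107 : W_2 (nat_lit 4) (nat_lit 0xd00008001c001e00090000c00000000000000) (nat_lit 0x0) (nat_lit 0x40007000380000000000) := T_2 (nat_lit 45) (nat_lit 62) (nat_lit 5) (nat_lit 11) (nat_lit 2) L2557106 (by decide +kernel)
theorem L2557108 : W_2 (nat_lit 5) (nat_lit 0xd00008001c001e00090000800000000000000) (nat_lit 0x0) (nat_lit 0x400074003a0000000000) := T_2 (nat_lit 58) (nat_lit 41) (nat_lit 4) (nat_lit 8) (nat_lit 6) L2557107 (by decide +kernel)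
theorem L2557109 : W_2 (nat_lit 6) (nat_lit 0xd00008000c001e00090000800000000000000) (nat_lit 0x0) (nat_lit 0x2000100000000400074003a0000000000) := T_2 (nat_lit 112) (nat_lit 129) (nat_lit 6) (nat_lit 10) (nat_lit 8) L2557108 (by decide +kernel)
theorem L2557110 : W_2 (nat_lit 7) (nat_lit 0xd00008000c001e00090000000000000000000) (nat_lit 0x0) (nat_lit 0x200010000000040007c003e0000000000) := T_2 (nat_lit 59) (nat_lit 42) (nat_lit 7) (nat_lit 8) (nat_lit 2) L2557109 (by decide +kernel)
theorem L2557111 : W_2 (nat_lit 8) (nat_lit 0xd00008000c001e00010000000000000000000) (nat_lit 0x0) (nat_lit 0x2000100000001c0007c003e0000000000) := T_2 (nat_lit 79) (nat_lit 80) (nat_lit 2) (nat_lit 8) (nat_lit 5) L2557110 (by decide +kernel)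
theorem L2557112 : W_2 (nat_lit 9) (nat_lit 0xd00008000c001e00000000000000000000000) (nat_lit 0x0) (nat_lit 0x2000100000001d8007c003e0000000000) := T_2 (nat_lit 76) (nat_lit 75) (nat_lit 0) (nat_lit 11) (nat_lit 5) L2557111 (by decide +kernel)
theorem L2557113 : W_2 (nat_lit 10) (nat_lit 0xd00008000c000e00000000000000000000000) (nat_lit 0x0) (nat_lit 0x2000100030001d8007c003e0000000000) := T_2 (nat_lit 96) (nat_lit 97) (nat_lit 1) (nat_lit 12) (nat_lit 5) L2557112 (by decide +kernel)
theorem L2557114 : W_2 (nat_lit 11) (nat_lit 0xd000080004000e00000000000000000000000) (nat_lit 0x0) (nat_lit 0x200000002000180030001d8007c003e0000000000) := T_2 (nat_lit 111) (nat_lit 161) (nat_lit 6) (nat_lit 8) (nat_lit 9) L2557113 (by decide +kernel)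
theorem L2557115 : W_2 (nat_lit 12) (nat_lit 0xd000080000000e00000000000000000000000) (nat_lit 0x0) (nat_lit 0x2000000020001c0030001f8007c003e0000000000) := T_2 (nat_lit 110) (nat_lit 77) (nat_lit 6) (nat_lit 8) (nat_lit 8) L2557114 (by decide +kernel)
theorem L2557116 : W_2 (nat_lit 2) (nat_lit 0xd00008001c000e00000000000000000000000) (nat_lit 0x0) (nat_lit 0x40060000000000000000000000000000) := D_2 (nat_lit 113) (nat_lit 126) (nat_lit 114) (nat_lit 1) (nat_lit 11) (nat_lit 6) (nat_lit 0) (nat_lit 12) (nat_lit 6) (by decide +kernel)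
theorem L2557117 : W_2 (nat_lit 3) (nat_lit 0xd000080014000e00000000000000000000000) (nat_lit 0x0) (nat_lit 0x20000000040068000000000000000000000000000) := T_2 (nat_lit 111) (nat_lit 161) (nat_lit 6) (nat_lit 8) (nat_lit 9) L2557116 (by decide +kernel)
theorem L2557118 : W_2 (nat_lit 4) (nat_lit 0xd000080010000e00000000000000000000000) (nat_lit 0x0) (nat_lit 0x2000000004006c000000020000000000000000000) := T_2 (nat_lit 110) (nat_lit 77) (nat_lit 6) (nat_lit 8) (nat_lit 8) L2557117 (by decide +kernel)
theorem L2557119 : W_2 (nat_lit 2) (nat_lit 0xd000280038000e002c0000000000000000000) (nat_lit 0x0) (nat_lit 0x20000000040004000000000000000000000000000) := D_2 (nat_lit 110) (nat_lit 161) (nat_lit 126) (nat_lit 6) (nat_lit 8) (nat_lit 9) (nat_lit 1) (nat_lit 11) (nat_lit 6) (by decide +kernel)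
theorem L2557120 : W_2 (nat_lit 3) (nat_lit 0xd000280018000e002c0000000000000000000) (nat_lit 0x0) (nat_lit 0x20000000040064000000000000000000000000000) := T_2 (nat_lit 113) (nat_lit 114) (nat_lit 0) (nat_lit 12) (nat_lit 6) L2557119 (by decide +kernel)
theorem L2557121 : W_2 (nat_lit 4) (nat_lit 0xd000280010000e002c0000000000000000000) (nat_lit 0x0) (nat_lit 0xa000000004006c000000000000000000000000000) := T_2 (nat_lit 111) (nat_lit 163) (nat_lit 4) (nat_lit 10) (nat_lit 9) L2557120 (by decide +kernel)
theorem L2557122 : W_2 (nat_lit 5) (nat_lit 0xd000280010000e000c0000000000000000000) (nat_lit 0x0) (nat_lit 0xa000000004006c000000300000000000000000000) := T_2 (nat_lit 81) (nat_lit 80) (nat_lit 1) (nat_lit 13) (nat_lit 4) L2557121 (by decide +kernel)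
theorem L2557123 : W_2 (nat_lit 6) (nat_lit 0xd000280010000e00040000000000000000000) (nat_lit 0x0) (nat_lit 0xa000000004006c000000380004000000000000000) := T_2 (nat_lit 79) (nat_lit 62) (nat_lit 6) (nat_lit 10) (nat_lit 7) L2557122 (by decide +kernel)
theorem L2557124 : W_2 (nat_lit 7) (nat_lit 0xd000280010000e00000000000000000000000) (nat_lit 0x0) (nat_lit 0xa000000044006c0000003c0004000000000000000) := T_2 (nat_lit 78) (nat_lit 130) (nat_lit 7) (nat_lit 10) (nat_lit 4) L2557123 (by decide +kernel)
theorem L2557125 : W_2 (nat_lit 8) (nat_lit 0xd000080010000e00000000000000000000000) (nat_lit 0x0) (nat_lit 0x1a000000064006c0000003c0004000000000000000) := T_2 (nat_lit 129) (nat_lit 164) (nat_lit 7) (nat_lit 10) (nat_lit 5) L2557124 (by decide +kernel)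
theorem L2557126 : W_2 (nat_lit 9) (nat_lit 0xd000080000000e00000000000000000000000) (nat_lit 0x0) (nat_lit 0x1a000000064007c0000003e0004000000000000000) := Q_2 (nat_lit 112) (C_2 L2350581 (C_2 L2557118 (C_2 L2557125 N_2))) (by decide +kernel)
theorem L2557127 : W_2 (nat_lit 13) (nat_lit 0xd000080000000600000000000000000000000) (nat_lit 0x0) (nat_lit 0x5a0030001e401fc00f800ff800fc007e0000000000) := Q_2 (nat_lit 95) (C_2 L2350580 (C_2 L2557070 (C_2 L2557073 (C_2 L2557080 (C_2 L2557098 (C_2 L2557104 (C_2 L2557115 (C_2 L2557126 N_2)))))))) (by decide +kernel)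
theorem L2557128 : W_2 (nat_lit 2) (nat_lit 0xd000080000001f00008000000000000000000) (nat_lit 0x0) (nat_lit 0x1c0000000000000000000) := D_2 (nat_lit 79) (nat_lit 78) (nat_lit 80) (nat_lit 2) (nat_lit 7) (nat_lit 5) (nat_lit 2) (nat_lit 8) (nat_lit 5) (by decide +kernel)
theorem L2557129 : W_2 (nat_lit 3) (nat_lit 0xd000080000000f00008000000000000000000) (nat_lit 0x0) (nat_lit 0x10001d0000000000000000000) := T_2 (nat_lit 96) (nat_lit 76) (nat_lit 0) (nat_lit 11) (nat_lit 5) L2557128 (by decide +kernel)
theorem L2557130 : W_2 (nat_lit 4) (nat_lit 0xd000080000000700008000000000000000000) (nat_lit 0x0) (nat_lit 0x18001d4000000000000000000) := T_2 (nat_lit 95) (nat_lit 74) (nat_lit 0) (nat_lit 10) (nat_lit 5) L2557129 (by decide +kernel)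
theorem L2557131 : W_2 (nat_lit 5) (nat_lit 0xd000080000000700000000000000000000000) (nat_lit 0x0) (nat_lit 0x40018001dc000000000000000000) := T_2 (nat_lit 75) (nat_lit 110) (nat_lit 4) (nat_lit 8) (nat_lit 8) L2557130 (by decide +kernel)
theorem L2557132 : W_2 (nat_lit 14) (nat_lit 0xd000080000000600000000000000000000000) (nat_lit 0x0) (nat_lit 0x20005e019f01ff803f001f000e800000) := Q_2 (nat_lit 92) (C_2 L2557063 (C_2 L2344252 (C_2 L2557131 (C_2 L2557057 N_2)))) (by decide +kernel)
theorem L2557133 : W_2 (nat_lit 4) (nat_lit 0xd000080000000f00000000000000000000000) (nat_lit 0x0) (nat_lit 0x10001dc000000000000000000) := T_2 (nat_lit 75) (nat_lit 74) (nat_lit 0) (nat_lit 10) (nat_lit 5) L2557129 (by decide +kernel)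
theorem L2557134 : W_2 (nat_lit 7) (nat_lit 0xd000080000000f00000000000000000000000) (nat_lit 0x0) (nat_lit 0x1000000006000398000800c6000000000000000000) := T_2 (nat_lit 112) (nat_lit 113) (nat_lit 3) (nat_lit 7) (nat_lit 5) L2350613 (by decide +kernel)
theorem L2557135 : W_2 (nat_lit 2) (nat_lit 0xd000280011000f80000000000000000000000) (nat_lit 0x0) (nat_lit 0x4000000000000c0000000000000000000) := D_2 (nat_lit 78) (nat_lit 130) (nat_lit 79) (nat_lit 7) (nat_lit 10) (nat_lit 4) (nat_lit 2) (nat_lit 7) (nat_lit 5) (by decide +kernel)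
theorem L2557136 : W_2 (nat_lit 3) (nat_lit 0xd000080011000f80000000000000000000000) (nat_lit 0x0) (nat_lit 0x1000000006000000000000c0000000000000000000) := T_2 (nat_lit 129) (nat_lit 164) (nat_lit 7) (nat_lit 10) (nat_lit 5) L2557135 (by decide +kernel)
theorem L2557137 : W_2 (nat_lit 4) (nat_lit 0xd000080010000f80000000000000000000000) (nat_lit 0x0) (nat_lit 0x1000000006000018000000c0000000000000000000) := T_2 (nat_lit 108) (nat_lit 107) (nat_lit 1) (nat_lit 9) (nat_lit 5) L2557136 (by decide +kernel)
theorem L2557138 : W_2 (nat_lit 5) (nat_lit 0xd000080010000f00000000000000000000000) (nat_lit 0x0) (nat_lit 0x1000000006000098000800c0000000000000000000) := T_2 (nat_lit 91) (nat_lit 111) (nat_lit 3) (nat_lit 6) (nat_lit 5) L2557137 (by decide +kernel)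
theorem L2557139 : W_2 (nat_lit 6) (nat_lit 0xd000080000000f00000000000000000000000) (nat_lit 0x0) (nat_lit 0x1000000006000398000800c0000000000000000000) := T_2 (nat_lit 112) (nat_lit 113) (nat_lit 3) (nat_lit 7) (nat_lit 5) L2557138 (by decide +kernel)
theorem L2557140 : W_2 (nat_lit 4) (nat_lit 0xd000080000000f00000000000000000000000) (nat_lit 0x0) (nat_lit 0x7000100001c000000000000000000) := T_2 (nat_lit 75) (nat_lit 74) (nat_lit 0) (nat_lit 10) (nat_lit 5) L2557059 (by decide +kernel)
theorem L2557141 : W_2 (nat_lit 8) (nat_lit 0xd000080000000700000000000000000000000) (nat_lit 0x0) (nat_lit 0x1000000006000798018801de000000000000000000) := Q_2 (nat_lit 95) (C_2 L2350750 (C_2 L2557133 (C_2 L2557134 (C_2 L2557139 (C_2 L2557140 N_2))))) (by decide +kernel)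
theorem L2557142 : W_2 (nat_lit 4) (nat_lit 0xd000080000000700000000000000000000000) (nat_lit 0x0) (nat_lit 0x2000000000001c0000c0008000000000000000000) := T_2 (nat_lit 110) (nat_lit 75) (nat_lit 4) (nat_lit 8) (nat_lit 8) L2514377 (by decide +kernel)
theorem L2557143 : W_2 (nat_lit 2) (nat_lit 0xd000080000800780002000000000000000000) (nat_lit 0x0) (nat_lit 0x400040001000000000000000000) := D_2 (nat_lit 90) (nat_lit 72) (nat_lit 106) (nat_lit 0) (nat_lit 8) (nat_lit 5) (nat_lit 1) (nat_lit 8) (nat_lit 5) (by decide +kernel)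
theorem L2557144 : W_2 (nat_lit 3) (nat_lit 0xd000080000000780002000000000000000000) (nat_lit 0x0) (nat_lit 0x1c00040001000000000000000000) := T_2 (nat_lit 107) (nat_lit 108) (nat_lit 1) (nat_lit 9) (nat_lit 5) L2557143 (by decide +kernel)
theorem L2557145 : W_2 (nat_lit 4) (nat_lit 0xd000080000000780000000000000000000000) (nat_lit 0x0) (nat_lit 0x1c00040007000000000000000000) := T_2 (nat_lit 73) (nat_lit 74) (nat_lit 0) (nat_lit 9) (nat_lit 5) L2557144 (by decide +kernel)
theorem L2557146 : W_2 (nat_lit 2) (nat_lit 0xd000080008000780000000000000000000000) (nat_lit 0x0) (nat_lit 0x20000000000004000040000000000000000000000) := D_2 (nat_lit 110) (nat_lit 90) (nat_lit 161) (nat_lit 3) (nat_lit 5) (nat_lit 5) (nat_lit 6) (nat_lit 8) (nat_lit 9) (by decide +kernel)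
theorem L2557147 : W_2 (nat_lit 3) (nat_lit 0xd000080000000780000000000000000000000) (nat_lit 0x0) (nat_lit 0x2000000000001c000040000000000000000000000) := T_2 (nat_lit 111) (nat_lit 112) (nat_lit 3) (nat_lit 6) (nat_lit 5) L2557146 (by decide +kernel)
theorem L2557148 : W_2 (nat_lit 4) (nat_lit 0xd000080011000780000000000000000000000) (nat_lit 0x0) (nat_lit 0x1000000006000200008000c0000000000000000000) := T_2 (nat_lit 95) (nat_lit 113) (nat_lit 3) (nat_lit 7) (nat_lit 5) L2557136 (by decide +kernel)
theorem L2557149 : W_2 (nat_lit 5) (nat_lit 0xd000080010000780000000000000000000000) (nat_lit 0x0) (nat_lit 0x1000000006000218008000c0000000000000000000) := T_2 (nat_lit 108) (nat_lit 107) (nat_lit 1) (nat_lit 9) (nat_lit 5) L2557148 (by decide +kernel)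
theorem L2557150 : W_2 (nat_lit 6) (nat_lit 0xd000080000000780000000000000000000000) (nat_lit 0x0) (nat_lit 0x1000000006000398008000c0000000000000000000) := T_2 (nat_lit 112) (nat_lit 111) (nat_lit 3) (nat_lit 6) (nat_lit 5) L2557149 (by decide +kernel)
theorem L2557151 : W_2 (nat_lit 7) (nat_lit 0xd000080000000700000000000000000000000) (nat_lit 0x0) (nat_lit 0x12000000060003dc008c00c7000000000000000000) := Q_2 (nat_lit 91) (C_2 L2344297 (C_2 L2557145 (C_2 L2557147 (C_2 L2557150 N_2)))) (by decide +kernel)
theorem L2557152 : W_2 (nat_lit 9) (nat_lit 0xd000080000000600000000000000000000000) (nat_lit 0x0) (nat_lit 0x12000000060007dc019c01df000000000000000000) := Q_2 (nat_lit 92) (C_2 L2557131 (C_2 L2557141 (C_2 L2557142 (C_2 L2557151 N_2)))) (by decide +kernel)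
theorem L2557153 : W_2 (nat_lit 2) (nat_lit 0xd000080008000600000000000000000000000) (nat_lit 0x0) (nat_lit 0x20000000000004000000020000000000000000000) := D_2 (nat_lit 110) (nat_lit 77) (nat_lit 161) (nat_lit 6) (nat_lit 8) (nat_lit 8) (nat_lit 6) (nat_lit 8) (nat_lit 9) (by decide +kernel)
theorem L2557154 : W_2 (nat_lit 2) (nat_lit 0xd00008001c000600000000000000000000000) (nat_lit 0x0) (nat_lit 0x40060000000000000000000000000000) := D_2 (nat_lit 113) (nat_lit 126) (nat_lit 114) (nat_lit 1) (nat_lit 11) (nat_lit 6) (nat_lit 0) (nat_lit 12) (nat_lit 6) (by decide +kernel)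
theorem L2557155 : W_2 (nat_lit 3) (nat_lit 0xd000080018000600000000000000000000000) (nat_lit 0x0) (nat_lit 0x40064000000020000000000000000000) := T_2 (nat_lit 110) (nat_lit 77) (nat_lit 6) (nat_lit 8) (nat_lit 8) L2557154 (by decide +kernel)
theorem L2557156 : W_2 (nat_lit 2) (nat_lit 0x8000d000480038000680000000000000000000000) (nat_lit 0x0) (nat_lit 0x1000100000000000000000800000000000000000000000) := D_2 (nat_lit 164) (nat_lit 95) (nat_lit 180) (nat_lit 4) (nat_lit 11) (nat_lit 9) (nat_lit 5) (nat_lit 11) (nat_lit 6) (by decide +kernel)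
theorem L2557157 : W_2 (nat_lit 3) (nat_lit 0x8000d000080038000680000000000000000000000) (nat_lit 0x0) (nat_lit 0x1000100000000400000001800000000000000000000000) := T_2 (nat_lit 130) (nat_lit 96) (nat_lit 5) (nat_lit 11) (nat_lit 5) L2557156 (by decide +kernel)
theorem L2557158 : W_2 (nat_lit 4) (nat_lit 0x8000d000080018000680000000000000000000000) (nat_lit 0x0) (nat_lit 0x1000100000000400060001800000000000000000000000) := T_2 (nat_lit 113) (nat_lit 114) (nat_lit 0) (nat_lit 12) (nat_lit 6) L2557157 (by decide +kernel)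
theorem L2557159 : W_2 (nat_lit 5) (nat_lit 0x8000d000080018000600000000000000000000000) (nat_lit 0x0) (nat_lit 0x1000100000000400060001980000000000000000000000) := T_2 (nat_lit 91) (nat_lit 92) (nat_lit 3) (nat_lit 6) (nat_lit 5) L2557158 (by decide +kernel)
theorem L2557160 : W_2 (nat_lit 6) (nat_lit 0xd000080018000600000000000000000000000) (nat_lit 0x0) (nat_lit 0x1000180000000600060001980000000000000000000000) := T_2 (nat_lit 163) (nat_lit 129) (nat_lit 4) (nat_lit 10) (nat_lit 9) L2557159 (by decide +kernel)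
theorem L2557161 : W_2 (nat_lit 2) (nat_lit 0xd00028001c000e80000000000000000000000) (nat_lit 0x0) (nat_lit 0x3000080000000000000000000) := D_2 (nat_lit 96) (nat_lit 97) (nat_lit 79) (nat_lit 1) (nat_lit 12) (nat_lit 5) (nat_lit 6) (nat_lit 10) (nat_lit 8) (by decide +kernel)
theorem L2557162 : W_2 (nat_lit 3) (nat_lit 0xd00028001c000680000000000000000000000) (nat_lit 0x0) (nat_lit 0x100000000000000003800080000000000000000000) := T_2 (nat_lit 95) (nat_lit 164) (nat_lit 7) (nat_lit 10) (nat_lit 5) L2557161 (by decide +kernel)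
theorem L2557163 : W_2 (nat_lit 4) (nat_lit 0xd00028001c000600000000000000000000000) (nat_lit 0x0) (nat_lit 0x100000000000000003980080000000000000000000) := T_2 (nat_lit 91) (nat_lit 92) (nat_lit 3) (nat_lit 6) (nat_lit 5) L2557162 (by decide +kernel)
theorem L2557164 : W_2 (nat_lit 5) (nat_lit 0xd00008001c000600000000000000000000000) (nat_lit 0x0) (nat_lit 0x180000000200000003980080000000000000000000) := T_2 (nat_lit 129) (nat_lit 163) (nat_lit 4) (nat_lit 10) (nat_lit 9) L2557163 (by decide +kernel)
theorem L2557165 : W_2 (nat_lit 6) (nat_lit 0xd000080018000600000000000000000000000) (nat_lit 0x0) (nat_lit 0x1800000002000040039800a0000000000000000000) := T_2 (nat_lit 110) (nat_lit 77) (nat_lit 6) (nat_lit 8) (nat_lit 8) L2557164 (by decide +kernel)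
theorem L2557166 : W_2 (nat_lit 7) (nat_lit 0xd000080008000600000000000000000000000) (nat_lit 0x0) (nat_lit 0x10001800000006400740039800a0000000000000000000) := Q_2 (nat_lit 112) (C_2 L2557155 (C_2 L2557160 (C_2 L2557165 N_2))) (by decide +kernel)
theorem L2557167 : W_2 (nat_lit 2) (nat_lit 0xd000080038000600000000000000000000000) (nat_lit 0x0) (nat_lit 0x980000000000000000000000) := D_2 (nat_lit 92) (nat_lit 91) (nat_lit 95) (nat_lit 3) (nat_lit 6) (nat_lit 5) (nat_lit 3) (nat_lit 7) (nat_lit 5) (by decide +kernel)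
theorem L2557168 : W_2 (nat_lit 3) (nat_lit 0xd000080018000600000000000000000000000) (nat_lit 0x0) (nat_lit 0x60000980000000000000000000000) := T_2 (nat_lit 113) (nat_lit 114) (nat_lit 0) (nat_lit 12) (nat_lit 6) L2557167 (by decide +kernel)
theorem L2557169 : W_2 (nat_lit 2) (nat_lit 0x8000d000480038000600000000000000000000000) (nat_lit 0x0) (nat_lit 0x1000100000000000000000800000000000000000000000) := D_2 (nat_lit 164) (nat_lit 95) (nat_lit 180) (nat_lit 4) (nat_lit 11) (nat_lit 9) (nat_lit 5) (nat_lit 11) (nat_lit 6) (by decide +kernel)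
theorem L2557170 : W_2 (nat_lit 3) (nat_lit 0x8000d000080038000600000000000000000000000) (nat_lit 0x0) (nat_lit 0x1000100000000400000001800000000000000000000000) := T_2 (nat_lit 130) (nat_lit 96) (nat_lit 5) (nat_lit 11) (nat_lit 5) L2557169 (by decide +kernel)
theorem L2557171 : W_2 (nat_lit 4) (nat_lit 0x8000d000080018000600000000000000000000000) (nat_lit 0x0) (nat_lit 0x1000100000000400060001800000000000000000000000) := T_2 (nat_lit 113) (nat_lit 114) (nat_lit 0) (nat_lit 12) (nat_lit 6) L2557170 (by decide +kernel)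
theorem L2557172 : W_2 (nat_lit 5) (nat_lit 0xd000080018000600000000000000000000000) (nat_lit 0x0) (nat_lit 0x1000180000000600060001800000000000000000000000) := T_2 (nat_lit 163) (nat_lit 129) (nat_lit 4) (nat_lit 10) (nat_lit 9) L2557171 (by decide +kernel)
theorem L2557173 : W_2 (nat_lit 2) (nat_lit 0x8000d000480038000680000000000000000000000) (nat_lit 0x0) (nat_lit 0x20001000100000000000000000000000000000000000000000) := D_2 (nat_lit 180) (nat_lit 164) (nat_lit 197) (nat_lit 5) (nat_lit 11) (nat_lit 6) (nat_lit 6) (nat_lit 10) (nat_lit 11) (by decide +kernel)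
theorem L2557174 : W_2 (nat_lit 3) (nat_lit 0x8000d000080038000680000000000000000000000) (nat_lit 0x0) (nat_lit 0x20001000100000000400000001000000000000000000000000) := T_2 (nat_lit 130) (nat_lit 96) (nat_lit 5) (nat_lit 11) (nat_lit 5) L2557173 (by decide +kernel)
theorem L2557175 : W_2 (nat_lit 4) (nat_lit 0xd000080038000680000000000000000000000) (nat_lit 0x0) (nat_lit 0x20001000180000000600000001000000000000000000000000) := T_2 (nat_lit 163) (nat_lit 129) (nat_lit 4) (nat_lit 10) (nat_lit 9) L2557174 (by decide +kernel)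
theorem L2557176 : W_2 (nat_lit 5) (nat_lit 0xd000080038000600000000000000000000000) (nat_lit 0x0) (nat_lit 0x20001000180000000600000001180000000000000000000000) := T_2 (nat_lit 91) (nat_lit 92) (nat_lit 3) (nat_lit 6) (nat_lit 5) L2557175 (by decide +kernel)
theorem L2557177 : W_2 (nat_lit 6) (nat_lit 0xd000080018000600000000000000000000000) (nat_lit 0x0) (nat_lit 0x20001000180000000600060001180000000000000000000000) := T_2 (nat_lit 113) (nat_lit 114) (nat_lit 0) (nat_lit 12) (nat_lit 6) L2557176 (by decide +kernel)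
theorem L2557178 : W_2 (nat_lit 2) (nat_lit 0xd000280018000600000000000000000000000) (nat_lit 0x0) (nat_lit 0x100000000000000000800020000000000000000000) := D_2 (nat_lit 95) (nat_lit 77) (nat_lit 164) (nat_lit 4) (nat_lit 10) (nat_lit 8) (nat_lit 7) (nat_lit 10) (nat_lit 5) (by decide +kernel)
theorem L2557179 : W_2 (nat_lit 3) (nat_lit 0xd000080018000600000000000000000000000) (nat_lit 0x0) (nat_lit 0x180000000200000000800020000000000000000000) := T_2 (nat_lit 129) (nat_lit 163) (nat_lit 4) (nat_lit 10) (nat_lit 9) L2557178 (by decide +kernel)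
theorem L2557180 : W_2 (nat_lit 7) (nat_lit 0xd000080008000600000000000000000000000) (nat_lit 0x0) (nat_lit 0x20001000180000000600070001980020000000000000000000) := Q_2 (nat_lit 112) (C_2 L2557160 (C_2 L2557168 (C_2 L2557172 (C_2 L2557177 (C_2 L2557179 N_2))))) (by decide +kernel)
theorem L2557181 : W_2 (nat_lit 2) (nat_lit 0x2000d000280018000e80040000000000000000000) (nat_lit 0x0) (nat_lit 0x1000080004000000000000000) := D_2 (nat_lit 79) (nat_lit 62) (nat_lit 96) (nat_lit 6) (nat_lit 10) (nat_lit 7) (nat_lit 6) (nat_lit 10) (nat_lit 8) (by decide +kernel)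
theorem L2557182 : W_2 (nat_lit 3) (nat_lit 0x2000d000280018000e80000000000000000000000) (nat_lit 0x0) (nat_lit 0x4000000010000c0004000000000000000) := T_2 (nat_lit 78) (nat_lit 130) (nat_lit 7) (nat_lit 10) (nat_lit 4) L2557181 (by decide +kernel)
theorem L2557183 : W_2 (nat_lit 4) (nat_lit 0x2000d000280018000680000000000000000000000) (nat_lit 0x0) (nat_lit 0x1000000004000000018000c0004000000000000000) := T_2 (nat_lit 95) (nat_lit 164) (nat_lit 7) (nat_lit 10) (nat_lit 5) L2557182 (by decide +kernel)
theorem L2557184 : W_2 (nat_lit 5) (nat_lit 0x2000d000280018000600000000000000000000000) (nat_lit 0x0) (nat_lit 0x1000000004000000019800c0004000000000000000) := T_2 (nat_lit 91) (nat_lit 92) (nat_lit 3) (nat_lit 6) (nat_lit 5) L2557183 (by decide +kernel)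
theorem L2557185 : W_2 (nat_lit 6) (nat_lit 0x2000d000080018000600000000000000000000000) (nat_lit 0x0) (nat_lit 0x1800000006000000019800c0004000000000000000) := T_2 (nat_lit 129) (nat_lit 163) (nat_lit 4) (nat_lit 10) (nat_lit 9) L2557184 (by decide +kernel)
theorem L2557186 : W_2 (nat_lit 7) (nat_lit 0xd000080018000600000000000000000000000) (nat_lit 0x0) (nat_lit 0x1a00000006000040019800c0004000000000000000) := T_2 (nat_lit 161) (nat_lit 110) (nat_lit 6) (nat_lit 8) (nat_lit 9) L2557185 (by decide +kernel)
theorem L2557187 : W_2 (nat_lit 8) (nat_lit 0xd000080008000600000000000000000000000) (nat_lit 0x0) (nat_lit 0x200010001a00000006000740019800c0004000000000000000) := Q_2 (nat_lit 112) (C_2 L2557177 (C_2 L2557168 (C_2 L2557172 (C_2 L2557186 N_2)))) (by decide +kernel)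
theorem L2557188 : W_2 (nat_lit 9) (nat_lit 0xd000080000000600000000000000000000000) (nat_lit 0x0) (nat_lit 0x200010001a000000064007c0039800e0004000000000000000) := Q_2 (nat_lit 111) (C_2 L2557153 (C_2 L2557166 (C_2 L2557180 (C_2 L2557187 N_2)))) (by decide +kernel)
theorem L2557189 : W_2 (nat_lit 15) (nat_lit 0xd000080000000400000000000000000000000) (nat_lit 0x0) (nat_lit 0x200010005a0030001e601fde0fbf0fff80ff007f000e800000) := Q_2 (nat_lit 93) (C_2 L2557056 (C_2 L2350617 (C_2 L2557064 (C_2 L2557127 (C_2 L2557132 (C_2 L2557152 (C_2 L2557188 N_2))))))) (by decide +kernel)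
theorem L2557190 : W_2 (nat_lit 14) (nat_lit 0xf000080000000400000000000000000000000) (nat_lit 0x0) (nat_lit 0x7300100018000ec007b002be000400000000000000) := T_2 (nat_lit 161) (nat_lit 160) (nat_lit 1) (nat_lit 11) (nat_lit 8) L1714132 (by decide +kernel)
theorem L2557191 : W_2 (nat_lit 14) (nat_lit 0xf000080000000400000000000000000000000) (nat_lit 0x0) (nat_lit 0x630010001c000ec007b002be000400000000000000) := T_2 (nat_lit 161) (nat_lit 160) (nat_lit 1) (nat_lit 11) (nat_lit 8) L1720360 (by decide +kernel)
theorem L2557192 : W_2 (nat_lit 2) (nat_lit 0x12000f000280010000400000000000000000000000) (nat_lit 0x0) (nat_lit 0x8000000000000c000000000000000000000000000) := D_2 (nat_lit 111) (nat_lit 110) (nat_lit 163) (nat_lit 6) (nat_lit 8) (nat_lit 9) (nat_lit 4) (nat_lit 10) (nat_lit 9) (by decide +kernel)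
theorem L2557193 : W_2 (nat_lit 3) (nat_lit 0x12000f000080010000400000000000000000000000) (nat_lit 0x0) (nat_lit 0x8000000020000c000800000000000000000000000) := T_2 (nat_lit 129) (nat_lit 95) (nat_lit 7) (nat_lit 10) (nat_lit 5) L2557192 (by decide +kernel)
theorem L2557194 : W_2 (nat_lit 4) (nat_lit 0x10000f000080010000400000000000000000000000) (nat_lit 0x0) (nat_lit 0xb000000020000c000800000000000000000000000) := T_2 (nat_lit 161) (nat_lit 160) (nat_lit 1) (nat_lit 11) (nat_lit 8) L2557193 (by decide +kernel)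
theorem L2557195 : W_2 (nat_lit 5) (nat_lit 0xf000080010000400000000000000000000000) (nat_lit 0x0) (nat_lit 0x3b000000020000c000800000000000000000000000) := T_2 (nat_lit 164) (nat_lit 165) (nat_lit 3) (nat_lit 8) (nat_lit 8) L2557194 (by decide +kernel)
theorem L2557196 : W_2 (nat_lit 2) (nat_lit 0x10000f000080030000e00000000000000000000000) (nat_lit 0x0) (nat_lit 0xc8000000000000000000000000000) := D_2 (nat_lit 114) (nat_lit 115) (nat_lit 111) (nat_lit 0) (nat_lit 13) (nat_lit 6) (nat_lit 0) (nat_lit 12) (nat_lit 6) (by decide +kernel)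
theorem L2557197 : W_2 (nat_lit 3) (nat_lit 0x10000f000080030000c00000000000000000000000) (nat_lit 0x0) (nat_lit 0xc8000300000000000000000000000) := T_2 (nat_lit 93) (nat_lit 92) (nat_lit 3) (nat_lit 7) (nat_lit 5) L2557196 (by decide +kernel)
theorem L2557198 : W_2 (nat_lit 4) (nat_lit 0x10000f000080010000c00000000000000000000000) (nat_lit 0x0) (nat_lit 0x4000e8000300000000000000000000000) := T_2 (nat_lit 113) (nat_lit 130) (nat_lit 4) (nat_lit 11) (nat_lit 9) L2557197 (by decide +kernel)
theorem L2557199 : W_2 (nat_lit 5) (nat_lit 0x10000f000080010000400000000000000000000000) (nat_lit 0x0) (nat_lit 0x6000e8000b00000000000000000000000) := T_2 (nat_lit 95) (nat_lit 129) (nat_lit 7) (nat_lit 10) (nat_lit 5) L2557198 (by decide +kernel)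
theorem L2557200 : W_2 (nat_lit 6) (nat_lit 0xf000080010000400000000000000000000000) (nat_lit 0x0) (nat_lit 0x3000000006000e8000b00000000000000000000000) := T_2 (nat_lit 164) (nat_lit 165) (nat_lit 3) (nat_lit 8) (nat_lit 8) L2557199 (by decide +kernel)
theorem L2557201 : W_2 (nat_lit 2) (nat_lit 0x12000f000480030000400000000000000000000000) (nat_lit 0x0) (nat_lit 0x1000080000000000000001000000000000000000000000) := D_2 (nat_lit 163) (nat_lit 96) (nat_lit 180) (nat_lit 5) (nat_lit 11) (nat_lit 5) (nat_lit 5) (nat_lit 11) (nat_lit 6) (by decide +kernel)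
theorem L2557202 : W_2 (nat_lit 3) (nat_lit 0x12000f000080030000400000000000000000000000) (nat_lit 0x0) (nat_lit 0x1000080000000400000001800000000000000000000000) := T_2 (nat_lit 130) (nat_lit 95) (nat_lit 4) (nat_lit 11) (nat_lit 9) L2557201 (by decide +kernel)
theorem L2557203 : W_2 (nat_lit 4) (nat_lit 0x10000f000080030000400000000000000000000000) (nat_lit 0x0) (nat_lit 0x10000b0000000400000001800000000000000000000000) := T_2 (nat_lit 161) (nat_lit 160) (nat_lit 1) (nat_lit 11) (nat_lit 8) L2557202 (by decide +kernel)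
theorem L2557204 : W_2 (nat_lit 5) (nat_lit 0xf000080030000400000000000000000000000) (nat_lit 0x0) (nat_lit 0x10003b0000000400000001800000000000000000000000) := T_2 (nat_lit 164) (nat_lit 165) (nat_lit 3) (nat_lit 8) (nat_lit 8) L2557203 (by decide +kernel)
theorem L2557205 : W_2 (nat_lit 2) (nat_lit 0x10000f000480030000400000000000000000000000) (nat_lit 0x0) (nat_lit 0x1000080000000000000001000000000000000000000000) := D_2 (nat_lit 163) (nat_lit 96) (nat_lit 180) (nat_lit 5) (nat_lit 11) (nat_lit 5) (nat_lit 5) (nat_lit 11) (nat_lit 6) (by decide +kernel)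
theorem L2557206 : W_2 (nat_lit 3) (nat_lit 0x10000f000080030000400000000000000000000000) (nat_lit 0x0) (nat_lit 0x1000080000000400000001800000000000000000000000) := T_2 (nat_lit 130) (nat_lit 95) (nat_lit 4) (nat_lit 11) (nat_lit 9) L2557205 (by decide +kernel)
theorem L2557207 : W_2 (nat_lit 4) (nat_lit 0xf000080030000400000000000000000000000) (nat_lit 0x0) (nat_lit 0x1000380000000400000001800000000000000000000000) := T_2 (nat_lit 164) (nat_lit 165) (nat_lit 3) (nat_lit 8) (nat_lit 8) L2557206 (by decide +kernel)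
theorem L2557208 : W_2 (nat_lit 2) (nat_lit 0x12000f000080034000600000000000000000000000) (nat_lit 0x0) (nat_lit 0x900008000000000000000000) := D_2 (nat_lit 92) (nat_lit 75) (nat_lit 95) (nat_lit 4) (nat_lit 8) (nat_lit 8) (nat_lit 3) (nat_lit 7) (nat_lit 5) (by decide +kernel)
theorem L2557209 : W_2 (nat_lit 3) (nat_lit 0x12000f000080034000400000000000000000000000) (nat_lit 0x0) (nat_lit 0xb00028000000000000000000) := T_2 (nat_lit 93) (nat_lit 77) (nat_lit 6) (nat_lit 8) (nat_lit 8) L2557208 (by decide +kernel)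
theorem L2557210 : W_2 (nat_lit 4) (nat_lit 0x12000f000080030000400000000000000000000000) (nat_lit 0x0) (nat_lit 0xc000b00028000000000000000000) := T_2 (nat_lit 110) (nat_lit 111) (nat_lit 6) (nat_lit 8) (nat_lit 9) L2557209 (by decide +kernel)
theorem L2557211 : W_2 (nat_lit 5) (nat_lit 0x10000f000080030000400000000000000000000000) (nat_lit 0x0) (nat_lit 0x3000000000000c000b00028000000000000000000) := T_2 (nat_lit 161) (nat_lit 160) (nat_lit 1) (nat_lit 11) (nat_lit 8) L2557210 (by decide +kernel)
theorem L2557212 : W_2 (nat_lit 6) (nat_lit 0xf000080030000400000000000000000000000) (nat_lit 0x0) (nat_lit 0x33000000000000c000b00028000000000000000000) := T_2 (nat_lit 164) (nat_lit 165) (nat_lit 3) (nat_lit 8) (nat_lit 8) L2557211 (by decide +kernel)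
theorem L2557213 : W_2 (nat_lit 2) (nat_lit 0x12000f000080078000400000000000000000000000) (nat_lit 0x0) (nat_lit 0x400000006000000000000000000000000) := D_2 (nat_lit 97) (nat_lit 98) (nat_lit 130) (nat_lit 2) (nat_lit 9) (nat_lit 6) (nat_lit 6) (nat_lit 11) (nat_lit 9) (by decide +kernel)
theorem L2557214 : W_2 (nat_lit 3) (nat_lit 0x12000f000080038000400000000000000000000000) (nat_lit 0x0) (nat_lit 0x400040006200000000000000000000000) := T_2 (nat_lit 114) (nat_lit 93) (nat_lit 0) (nat_lit 12) (nat_lit 6) L2557213 (by decide +kernel)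
theorem L2557215 : W_2 (nat_lit 4) (nat_lit 0x12000f000080030000400000000000000000000000) (nat_lit 0x0) (nat_lit 0x40004c006200000000000000000000000) := T_2 (nat_lit 111) (nat_lit 110) (nat_lit 6) (nat_lit 8) (nat_lit 9) L2557214 (by decide +kernel)
theorem L2557216 : W_2 (nat_lit 5) (nat_lit 0x2000f000080030000400000000000000000000000) (nat_lit 0x0) (nat_lit 0x30000000040004c006200000000000000000000000) := T_2 (nat_lit 164) (nat_lit 165) (nat_lit 3) (nat_lit 8) (nat_lit 8) L2557215 (by decide +kernel)
theorem L2557217 : W_2 (nat_lit 6) (nat_lit 0xf000080030000400000000000000000000000) (nat_lit 0x0) (nat_lit 0x33000000040004c006200000000000000000000000) := T_2 (nat_lit 161) (nat_lit 160) (nat_lit 1) (nat_lit 11) (nat_lit 8) L2557216 (by decide +kernel)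
theorem L2557218 : W_2 (nat_lit 2) (nat_lit 0x2000f000080034000600000000000000000000000) (nat_lit 0x0) (nat_lit 0x900008000000000000000000) := D_2 (nat_lit 92) (nat_lit 75) (nat_lit 95) (nat_lit 4) (nat_lit 8) (nat_lit 8) (nat_lit 3) (nat_lit 7) (nat_lit 5) (by decide +kernel)
theorem L2557219 : W_2 (nat_lit 3) (nat_lit 0x2000f000080034000400000000000000000000000) (nat_lit 0x0) (nat_lit 0xb00028000000000000000000) := T_2 (nat_lit 93) (nat_lit 77) (nat_lit 6) (nat_lit 8) (nat_lit 8) L2557218 (by decide +kernel)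
theorem L2557220 : W_2 (nat_lit 4) (nat_lit 0x2000f000080030000400000000000000000000000) (nat_lit 0x0) (nat_lit 0xc000b00028000000000000000000) := T_2 (nat_lit 110) (nat_lit 111) (nat_lit 6) (nat_lit 8) (nat_lit 9) L2557219 (by decide +kernel)
theorem L2557221 : W_2 (nat_lit 5) (nat_lit 0xf000080030000400000000000000000000000) (nat_lit 0x0) (nat_lit 0x3000000000000c000b00028000000000000000000) := T_2 (nat_lit 161) (nat_lit 160) (nat_lit 1) (nat_lit 11) (nat_lit 8) L2557220 (by decide +kernel)
theorem L2557222 : W_2 (nat_lit 7) (nat_lit 0xf000080010000400000000000000000000000) (nat_lit 0x0) (nat_lit 0x10003b000000040006c007b00028000000000000000000) := Q_2 (nat_lit 113) (C_2 L2557204 (C_2 L2557207 (C_2 L2557212 (C_2 L2557217 (C_2 L2557221 N_2))))) (by decide +kernel)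
theorem L2557223 : W_2 (nat_lit 2) (nat_lit 0x12000f000080030000e00000000000000000000000) (nat_lit 0x0) (nat_lit 0xc0001000000000000000000000000) := D_2 (nat_lit 114) (nat_lit 115) (nat_lit 96) (nat_lit 0) (nat_lit 13) (nat_lit 6) (nat_lit 3) (nat_lit 8) (nat_lit 5) (by decide +kernel)
theorem L2557224 : W_2 (nat_lit 3) (nat_lit 0x12000f000080030000c00000000000000000000000) (nat_lit 0x0) (nat_lit 0xc0001300000000000000000000000) := T_2 (nat_lit 93) (nat_lit 92) (nat_lit 3) (nat_lit 7) (nat_lit 5) L2557223 (by decide +kernel)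
theorem L2557225 : W_2 (nat_lit 4) (nat_lit 0x12000f000080010000c00000000000000000000000) (nat_lit 0x0) (nat_lit 0x4000e0001300000000000000000000000) := T_2 (nat_lit 113) (nat_lit 130) (nat_lit 4) (nat_lit 11) (nat_lit 9) L2557224 (by decide +kernel)
theorem L2557226 : W_2 (nat_lit 5) (nat_lit 0x12000f000080010000400000000000000000000000) (nat_lit 0x0) (nat_lit 0x6000e0001b00000000000000000000000) := T_2 (nat_lit 95) (nat_lit 129) (nat_lit 7) (nat_lit 10) (nat_lit 5) L2557225 (by decide +kernel)
theorem L2557227 : W_2 (nat_lit 6) (nat_lit 0x2000f000080010000400000000000000000000000) (nat_lit 0x0) (nat_lit 0x3000000006000e0001b00000000000000000000000) := T_2 (nat_lit 164) (nat_lit 165) (nat_lit 3) (nat_lit 8) (nat_lit 8) L2557226 (by decide +kernel)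
theorem L2557228 : W_2 (nat_lit 7) (nat_lit 0xf000080010000400000000000000000000000) (nat_lit 0x0) (nat_lit 0x3300000006000e0001b00000000000000000000000) := T_2 (nat_lit 161) (nat_lit 160) (nat_lit 1) (nat_lit 11) (nat_lit 8) L2557227 (by decide +kernel)
theorem L2557229 : W_2 (nat_lit 2) (nat_lit 0x12000f000280018000400000000000000000000000) (nat_lit 0x0) (nat_lit 0x40002000000000000400000000000000000000000000000000) := D_2 (nat_lit 181) (nat_lit 130) (nat_lit 198) (nat_lit 4) (nat_lit 11) (nat_lit 10) (nat_lit 4) (nat_lit 11) (nat_lit 11) (by decide +kernel)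
theorem L2557230 : W_2 (nat_lit 3) (nat_lit 0x12000f000080018000400000000000000000000000) (nat_lit 0x0) (nat_lit 0x40002000080000000600000000000000000000000000000000) := T_2 (nat_lit 129) (nat_lit 163) (nat_lit 4) (nat_lit 10) (nat_lit 9) L2557229 (by decide +kernel)
theorem L2557231 : W_2 (nat_lit 4) (nat_lit 0x12000f000080010000400000000000000000000000) (nat_lit 0x0) (nat_lit 0x4000200008000000060000c000000000000000000000000000) := T_2 (nat_lit 111) (nat_lit 110) (nat_lit 6) (nat_lit 8) (nat_lit 9) L2557230 (by decide +kernel)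
theorem L2557232 : W_2 (nat_lit 5) (nat_lit 0x10000f000080010000400000000000000000000000) (nat_lit 0x0) (nat_lit 0x400020000b000000060000c000000000000000000000000000) := T_2 (nat_lit 161) (nat_lit 160) (nat_lit 1) (nat_lit 11) (nat_lit 8) L2557231 (by decide +kernel)
theorem L2557233 : W_2 (nat_lit 6) (nat_lit 0xf000080010000400000000000000000000000) (nat_lit 0x0) (nat_lit 0x400020003b000000060000c000000000000000000000000000) := T_2 (nat_lit 164) (nat_lit 165) (nat_lit 3) (nat_lit 8) (nat_lit 8) L2557232 (by decide +kernel)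
theorem L2557234 : W_2 (nat_lit 5) (nat_lit 0xf000080010000400000000000000000000000) (nat_lit 0x0) (nat_lit 0xb000000020000c000800020001000000000000000) := T_2 (nat_lit 161) (nat_lit 160) (nat_lit 1) (nat_lit 11) (nat_lit 8) L1718741 (by decide +kernel)
theorem L2557235 : W_2 (nat_lit 8) (nat_lit 0xf000080000000400000000000000000000000) (nat_lit 0x0) (nat_lit 0x400030003b00000006000fc007b00028001000000000000000) := Q_2 (nat_lit 112) (C_2 L2557195 (C_2 L2557200 (C_2 L2557222 (C_2 L2557228 (C_2 L2557233 (C_2 L2557234 N_2)))))) (by decide +kernel)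
theorem L2557236 : W_2 (nat_lit 9) (nat_lit 0xf000080000000400000000000000000000000) (nat_lit 0x0) (nat_lit 0x1b0000000c000fc007b00178000400000000000000) := T_2 (nat_lit 161) (nat_lit 160) (nat_lit 1) (nat_lit 11) (nat_lit 8) L1720430 (by decide +kernel)
theorem L2557237 : W_2 (nat_lit 15) (nat_lit 0xd000080000000400000000000000000000000) (nat_lit 0x0) (nat_lit 0x400030007b0012001e000fc007b003fe001400000000000000) := Q_2 (nat_lit 145) (C_2 L2557190 (C_2 L2556606 (C_2 L2557191 (C_2 L2557235 (C_2 L2557236 N_2))))) (by decide +kernel)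
theorem L2557238 : W_2 (nat_lit 15) (nat_lit 0xd000080000000400000000000000000000000) (nat_lit 0x0) (nat_lit 0x7300120018400ec007b002be000400000000000000) := T_2 (nat_lit 145) (nat_lit 126) (nat_lit 0) (nat_lit 11) (nat_lit 8) L2557190 (by decide +kernel)
theorem L2557239 : W_2 (nat_lit 15) (nat_lit 0xd000080000000400000000000000000000000) (nat_lit 0x0) (nat_lit 0x630012001c400ec007b002be000400000000000000) := T_2 (nat_lit 145) (nat_lit 126) (nat_lit 0) (nat_lit 11) (nat_lit 8) L2557191 (by decide +kernel)
theorem L2557240 : W_2 (nat_lit 9) (nat_lit 0xd000080000000400000000000000000000000) (nat_lit 0x0) (nat_lit 0x400030003b00020006400fc007b00028001000000000000000) := T_2 (nat_lit 145) (nat_lit 126) (nat_lit 0) (nat_lit 11) (nat_lit 8) L2557235 (by decide +kernel)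
theorem L2557241 : W_2 (nat_lit 16) (nat_lit 0x5000080000000400000000000000000000000) (nat_lit 0x0) (nat_lit 0x600030007b003a001e601fde0fbf0fff80ff007f000e800000) := Q_2 (nat_lit 147) (C_2 L2557054 (C_2 L2557189 (C_2 L2557237 (C_2 L2557238 (C_2 L2557239 (C_2 L2557240 N_2)))))) (by decide +kernel)
theorem L2557242 : W_2 (nat_lit 2) (nat_lit 0x200090007800280010000400000000000000000000000) (nat_lit 0x0) (nat_lit 0x20000000000004000200000000000000000000000) := D_2 (nat_lit 110) (nat_lit 93) (nat_lit 161) (nat_lit 5) (nat_lit 8) (nat_lit 5) (nat_lit 5) (nat_lit 8) (nat_lit 6) (by decide +kernel)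
theorem L2557243 : W_2 (nat_lit 3) (nat_lit 0x90007800280010000400000000000000000000000) (nat_lit 0x0) (nat_lit 0x4000200020000000000004000200000000000000000000000) := T_2 (nat_lit 177) (nat_lit 194) (nat_lit 6) (nat_lit 7) (nat_lit 11) L2557242 (by decide +kernel)
theorem L2557244 : W_2 (nat_lit 4) (nat_lit 0x90007800280000000400000000000000000000000) (nat_lit 0x0) (nat_lit 0x400020002000000000001c000200000000000000000000000) := T_2 (nat_lit 112) (nat_lit 111) (nat_lit 4) (nat_lit 10) (nat_lit 9) L2557243 (by decide +kernel)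
theorem L2557245 : W_2 (nat_lit 5) (nat_lit 0x80007800280000000400000000000000000000000) (nat_lit 0x0) (nat_lit 0x400020003800000000001c000200000000000000000000000) := T_2 (nat_lit 160) (nat_lit 159) (nat_lit 1) (nat_lit 10) (nat_lit 8) L2557244 (by decide +kernel)
theorem L2557246 : W_2 (nat_lit 6) (nat_lit 0x7800280000000400000000000000000000000) (nat_lit 0x0) (nat_lit 0x40002001b800000000001c000200000000000000000000000) := T_2 (nat_lit 163) (nat_lit 164) (nat_lit 3) (nat_lit 7) (nat_lit 8) L2557245 (by decide +kernel)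
theorem L2557247 : W_2 (nat_lit 7) (nat_lit 0x7800080000000400000000000000000000000) (nat_lit 0x0) (nat_lit 0x40002001b800000060001c000200000000000000000000000) := T_2 (nat_lit 129) (nat_lit 130) (nat_lit 2) (nat_lit 7) (nat_lit 8) L2557246 (by decide +kernel)
theorem L2557248 : W_2 (nat_lit 2) (nat_lit 0x800078002c000c000400000000000000000000000) (nat_lit 0x0) (nat_lit 0x10000000000000000200010000000000000000000) := D_2 (nat_lit 93) (nat_lit 160) (nat_lit 76) (nat_lit 5) (nat_lit 8) (nat_lit 5) (nat_lit 5) (nat_lit 8) (nat_lit 4) (by decide +kernel)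
theorem L2557249 : W_2 (nat_lit 3) (nat_lit 0x800078002c0008000400000000000000000000000) (nat_lit 0x0) (nat_lit 0x30000000000004000200010000000000000000000) := T_2 (nat_lit 110) (nat_lit 161) (nat_lit 6) (nat_lit 8) (nat_lit 9) L2557248 (by decide +kernel)
theorem L2557250 : W_2 (nat_lit 4) (nat_lit 0x800078002c0000000400000000000000000000000) (nat_lit 0x0) (nat_lit 0x3000000000001c000200010000000000000000000) := T_2 (nat_lit 111) (nat_lit 112) (nat_lit 4) (nat_lit 10) (nat_lit 9) L2557249 (by decide +kernel)
theorem L2557251 : W_2 (nat_lit 5) (nat_lit 0x80007800280000000400000000000000000000000) (nat_lit 0x0) (nat_lit 0x3000000006001c000200010000000000000000000) := T_2 (nat_lit 126) (nat_lit 125) (nat_lit 0) (nat_lit 10) (nat_lit 8) L2557250 (by decide +kernel)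
theorem L2557252 : W_2 (nat_lit 6) (nat_lit 0x80007800080000000400000000000000000000000) (nat_lit 0x0) (nat_lit 0x3000000066001c000200010000000000000000000) := T_2 (nat_lit 129) (nat_lit 130) (nat_lit 2) (nat_lit 7) (nat_lit 8) L2557251 (by decide +kernel)
theorem L2557253 : W_2 (nat_lit 7) (nat_lit 0x7800080000000400000000000000000000000) (nat_lit 0x0) (nat_lit 0x1b000000066001c000200010000000000000000000) := T_2 (nat_lit 163) (nat_lit 164) (nat_lit 3) (nat_lit 7) (nat_lit 8) L2557252 (by decide +kernel)
theorem L2557254 : W_2 (nat_lit 8) (nat_lit 0x7000080000000400000000000000000000000) (nat_lit 0x0) (nat_lit 0x40002001be000f0067c01c000200010000000000000000000) := Q_2 (nat_lit 143) (C_2 L2556654 (C_2 L2556660 (C_2 L2556608 (C_2 L2557247 (C_2 L2557253 N_2))))) (by decide +kernel)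
theorem L2557255 : W_2 (nat_lit 9) (nat_lit 0x5000080000000400000000000000000000000) (nat_lit 0x0) (nat_lit 0x40002007be01af01e7c01c000200010000000000000000000) := Q_2 (nat_lit 145) (C_2 L2556625 (C_2 L2556607 (C_2 L2556603 (C_2 L2557254 N_2)))) (by decide +kernel)
theorem L2557256 : W_2 (nat_lit 17) (nat_lit 0x5000080000000000000000000000000000000) (nat_lit 0x0) (nat_lit 0x11000f8007c003ec07be03af01e7c1fde0fff0fff80ff007f000e800000) := Q_2 (nat_lit 94) (C_2 L2556035 (C_2 L2556475 (C_2 L2556610 (C_2 L2556621 (C_2 L2556633 (C_2 L2556662 (C_2 L2556803 (C_2 L2557053 (C_2 L2557241 (C_2 L2557255 N_2)))))))))) (by decide +kernel)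
theorem L2557257 : W_2 (nat_lit 5) (nat_lit 0x7000080000000000000000000000000000000) (nat_lit 0x0) (nat_lit 0x400030018000140008000400000000000000000000000) := T_2 (nat_lit 147) (nat_lit 126) (nat_lit 0) (nat_lit 11) (nat_lit 8) L2513050 (by decide +kernel)
theorem L2557258 : W_2 (nat_lit 8) (nat_lit 0x5000080000000000000000000000000000000) (nat_lit 0x0) (nat_lit 0x4000600fbf03af0397800c000600000000000000000000000) := Q_2 (nat_lit 145) (C_2 L2513009 (C_2 L2513051 (C_2 L2503877 (C_2 L1866990 (C_2 L2557257 N_2))))) (by decide +kernel)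
theorem L2557295 : W_2 (nat_lit 3) (nat_lit 0x200000005800080000000000000000000000000000000) (nat_lit 0x0) (nat_lit 0x4000000030000000040004000000000000000000000000000) := T_2 (nat_lit 160) (nat_lit 194) (nat_lit 6) (nat_lit 7) (nat_lit 11) L2523210 (by decide +kernel)
theorem L2557296 : W_2 (nat_lit 3) (nat_lit 0x200000005800080000000000000000000000000000000) (nat_lit 0x0) (nat_lit 0x4000000010000000040004000200000000000000000000000) := T_2 (nat_lit 160) (nat_lit 194) (nat_lit 6) (nat_lit 7) (nat_lit 11) L2519436 (by decide +kernel)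
theorem L2557297 : W_2 (nat_lit 2) (nat_lit 0x8000600020005800080000000000000000000000000000000) (nat_lit 0x0) (nat_lit 0x200010000800000000000000000000000000000000000000000000) := D_2 (nat_lit 196) (nat_lit 179) (nat_lit 213) (nat_lit 7) (nat_lit 8) (nat_lit 7) (nat_lit 7) (nat_lit 8) (nat_lit 8) (by decide +kernel)
theorem L2557298 : W_2 (nat_lit 3) (nat_lit 0x600020005800080000000000000000000000000000000) (nat_lit 0x0) (nat_lit 0x200018000800000000000040000000000000000000000000000000) := T_2 (nat_lit 195) (nat_lit 126) (nat_lit 4) (nat_lit 8) (nat_lit 11) L2557297 (by decide +kernel)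
theorem L2557299 : W_2 (nat_lit 4) (nat_lit 0x600000005800080000000000000000000000000000000) (nat_lit 0x0) (nat_lit 0x20001c000800020000000040000000000000000000000000000000) := T_2 (nat_lit 161) (nat_lit 194) (nat_lit 5) (nat_lit 8) (nat_lit 7) L2557298 (by decide +kernel)
theorem L2557300 : W_2 (nat_lit 2) (nat_lit 0x600000005800080000000000000000000000000000000) (nat_lit 0x0) (nat_lit 0x4000000030000000000000000000000000000000000000000) := D_2 (nat_lit 194) (nat_lit 161) (nat_lit 160) (nat_lit 5) (nat_lit 8) (nat_lit 7) (nat_lit 6) (nat_lit 7) (nat_lit 11) (by decide +kernel)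
theorem L2557301 : W_2 (nat_lit 2) (nat_lit 0x780014005e000f0000800000000000000000000000000) (nat_lit 0x0) (nat_lit 0x800040020000000000000000000000000000000000000000) := D_2 (nat_lit 174) (nat_lit 191) (nat_lit 161) (nat_lit 5) (nat_lit 5) (nat_lit 7) (nat_lit 2) (nat_lit 4) (nat_lit 10) (by decide +kernel)
theorem L2557302 : W_2 (nat_lit 3) (nat_lit 0x700014005e000f0000800000000000000000000000000) (nat_lit 0x0) (nat_lit 0x18000c0020000000000000000000000000000000000000000) := T_2 (nat_lit 175) (nat_lit 192) (nat_lit 6) (nat_lit 5) (nat_lit 11) L2557301 (by decide +kernel)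
theorem L2557303 : W_2 (nat_lit 4) (nat_lit 0x700010005e000f0000800000000000000000000000000) (nat_lit 0x0) (nat_lit 0x18000c0026000000000000000000000000000000000000000) := T_2 (nat_lit 158) (nat_lit 157) (nat_lit 1) (nat_lit 8) (nat_lit 8) L2557302 (by decide +kernel)
theorem L2557304 : W_2 (nat_lit 5) (nat_lit 0x700010005a000f0000800000000000000000000000000) (nat_lit 0x0) (nat_lit 0x18000c0026000400100000000000000000000000000000000) := T_2 (nat_lit 142) (nat_lit 128) (nat_lit 2) (nat_lit 5) (nat_lit 8) L2557303 (by decide +kernel)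
theorem L2557305 : W_2 (nat_lit 6) (nat_lit 0x700010005a000f0000000000000000000000000000000) (nat_lit 0x0) (nat_lit 0x18000c0026000400100000c00000000000000000000000000) := T_2 (nat_lit 107) (nat_lit 106) (nat_lit 0) (nat_lit 8) (nat_lit 7) L2557304 (by decide +kernel)
theorem L2557306 : W_2 (nat_lit 7) (nat_lit 0x7000100058000f0000000000000000000000000000000) (nat_lit 0x0) (nat_lit 0x18000c0026000700100000c00000000000000000000000000) := T_2 (nat_lit 141) (nat_lit 140) (nat_lit 1) (nat_lit 8) (nat_lit 7) L2557305 (by decide +kernel)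
theorem L2557307 : W_2 (nat_lit 8) (nat_lit 0x7000100058000e0000000000000000000000000000000) (nat_lit 0x0) (nat_lit 0x18000c0026000700118000c00000000000000000000000000) := T_2 (nat_lit 124) (nat_lit 123) (nat_lit 3) (nat_lit 4) (nat_lit 7) L2557306 (by decide +kernel)
theorem L2557308 : W_2 (nat_lit 9) (nat_lit 0x7000100058000c0000000000000000000000000000000) (nat_lit 0x0) (nat_lit 0x18000c0026000700138001c00000000000000000000000000) := T_2 (nat_lit 125) (nat_lit 108) (nat_lit 4) (nat_lit 7) (nat_lit 10) L2557307 (by decide +kernel)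
theorem L2557309 : W_2 (nat_lit 10) (nat_lit 0x6000100058000c0000000000000000000000000000000) (nat_lit 0x0) (nat_lit 0x38001c0026000700138001c00000000000000000000000000) := T_2 (nat_lit 176) (nat_lit 193) (nat_lit 5) (nat_lit 7) (nat_lit 7) L2557308 (by decide +kernel)
theorem L2557310 : W_2 (nat_lit 11) (nat_lit 0x600010005800080000000000000000000000000000000) (nat_lit 0x0) (nat_lit 0xb8001c0026000700178001c00000000000000000000000000) := T_2 (nat_lit 126) (nat_lit 195) (nat_lit 7) (nat_lit 7) (nat_lit 7) L2557309 (by decide +kernel)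
theorem L2557311 : W_2 (nat_lit 5) (nat_lit 0xe00010005800080000000000000000000000000000000) (nat_lit 0x0) (nat_lit 0x200070001100188000000000000000000000000000000000000000) := T_2 (nat_lit 180) (nat_lit 159) (nat_lit 0) (nat_lit 10) (nat_lit 10) L1079278 (by decide +kernel)
theorem L2557312 : W_2 (nat_lit 2) (nat_lit 0x10000f80010005800080000000000000000000000000000000) (nat_lit 0x0) (nat_lit 0x3800000000000000000000000000000000000000000000000) := D_2 (nat_lit 192) (nat_lit 191) (nat_lit 193) (nat_lit 1) (nat_lit 8) (nat_lit 10) (nat_lit 1) (nat_lit 9) (nat_lit 10) (by decide +kernel)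
theorem L2557313 : W_2 (nat_lit 3) (nat_lit 0x10000f00010005800080000000000000000000000000000000) (nat_lit 0x0) (nat_lit 0xb800080000000000000000000000000000000000000000000) := T_2 (nat_lit 175) (nat_lit 195) (nat_lit 3) (nat_lit 5) (nat_lit 10) L2557312 (by decide +kernel)
theorem L2557314 : W_2 (nat_lit 4) (nat_lit 0x10000e00010005800080000000000000000000000000000000) (nat_lit 0x0) (nat_lit 0x2b800180000000000000000000000000000000000000000000) := T_2 (nat_lit 176) (nat_lit 197) (nat_lit 3) (nat_lit 6) (nat_lit 10) L2557313 (by decide +kernel)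
theorem L2557315 : W_2 (nat_lit 5) (nat_lit 0xe00010005800080000000000000000000000000000000) (nat_lit 0x0) (nat_lit 0x3b800180020000000000000000000000000000000000000000) := T_2 (nat_lit 196) (nat_lit 161) (nat_lit 7) (nat_lit 8) (nat_lit 7) L2557314 (by decide +kernel)
theorem L2557316 : W_2 (nat_lit 2) (nat_lit 0xe00030005800080000000000000000000000000000000) (nat_lit 0x0) (nat_lit 0x3000008000000000000000000000000000000000000000) := D_2 (nat_lit 180) (nat_lit 159) (nat_lit 181) (nat_lit 0) (nat_lit 10) (nat_lit 10) (nat_lit 0) (nat_lit 11) (nat_lit 10) (by decide +kernel)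
theorem L2557317 : W_2 (nat_lit 3) (nat_lit 0xe00010005800080000000000000000000000000000000) (nat_lit 0x0) (nat_lit 0x10003000028000000000000000000000000000000000000000) := T_2 (nat_lit 161) (nat_lit 196) (nat_lit 7) (nat_lit 8) (nat_lit 7) L2557316 (by decide +kernel)
theorem L2557318 : W_2 (nat_lit 2) (nat_lit 0x3e00010005800080000000000000000000000000000000) (nat_lit 0x0) (nat_lit 0xe0000000000000000000000000000000000000000000000000) := D_2 (nat_lit 198) (nat_lit 197) (nat_lit 199) (nat_lit 3) (nat_lit 7) (nat_lit 10) (nat_lit 3) (nat_lit 8) (nat_lit 10) (by decide +kernel)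
theorem L2557319 : W_2 (nat_lit 3) (nat_lit 0x1e00010005800080000000000000000000000000000000) (nat_lit 0x0) (nat_lit 0xe0002000020000000000000000000000000000000000000000) := T_2 (nat_lit 181) (nat_lit 161) (nat_lit 0) (nat_lit 11) (nat_lit 10) L2557318 (by decide +kernel)
theorem L2557320 : W_2 (nat_lit 4) (nat_lit 0xe00010005800080000000000000000000000000000000) (nat_lit 0x0) (nat_lit 0xe0003000028000000000000000000000000000000000000000) := T_2 (nat_lit 180) (nat_lit 159) (nat_lit 0) (nat_lit 10) (nat_lit 10) L2557319 (by decide +kernel)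
theorem L2557321 : W_2 (nat_lit 6) (nat_lit 0x600010005800080000000000000000000000000000000) (nat_lit 0x0) (nat_lit 0x2000fb8039801a8000000000000000000000000000000000000000) := Q_2 (nat_lit 179) (C_2 L2557311 (C_2 L2557315 (C_2 L2557317 (C_2 L2557320 N_2)))) (by decide +kernel)
theorem L2557322 : W_2 (nat_lit 2) (nat_lit 0xe00030005c00180000000000000000000000000000000) (nat_lit 0x0) (nat_lit 0x640000000000000000000000000000000) := D_2 (nat_lit 129) (nat_lit 130) (nat_lit 126) (nat_lit 1) (nat_lit 11) (nat_lit 7) (nat_lit 1) (nat_lit 10) (nat_lit 7) (by decide +kernel)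
theorem L2557323 : W_2 (nat_lit 3) (nat_lit 0xe00030005800180000000000000000000000000000000) (nat_lit 0x0) (nat_lit 0x600640000000000000000000000000000000) := T_2 (nat_lit 142) (nat_lit 141) (nat_lit 2) (nat_lit 5) (nat_lit 8) L2557322 (by decide +kernel)
theorem L2557324 : W_2 (nat_lit 4) (nat_lit 0xe00030005800080000000000000000000000000000000) (nat_lit 0x0) (nat_lit 0x600740008000000000000000000000000000) := T_2 (nat_lit 128) (nat_lit 111) (nat_lit 6) (nat_lit 8) (nat_lit 10) L2557323 (by decide +kernel)
theorem L2557325 : W_2 (nat_lit 5) (nat_lit 0xe00010005800080000000000000000000000000000000) (nat_lit 0x0) (nat_lit 0x10000000020000600740008000000000000000000000000000) := T_2 (nat_lit 161) (nat_lit 196) (nat_lit 7) (nat_lit 8) (nat_lit 7) L2557324 (by decide +kernel)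
theorem L2557326 : W_2 (nat_lit 6) (nat_lit 0x600010005800080000000000000000000000000000000) (nat_lit 0x0) (nat_lit 0x2000f00039001a8000600740008000000000000000000000000000) := Q_2 (nat_lit 179) (C_2 L2557320 (C_2 L2557311 (C_2 L2557325 N_2))) (by decide +kernel)
theorem L2557327 : W_2 (nat_lit 2) (nat_lit 0x600010005e000f0000800000000000000000000000000) (nat_lit 0x0) (nat_lit 0x8000000000000000040002000000000000000000) := D_2 (nat_lit 90) (nat_lit 159) (nat_lit 73) (nat_lit 7) (nat_lit 5) (nat_lit 5) (nat_lit 7) (nat_lit 5) (nat_lit 4) (by decide +kernel)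
theorem L2557328 : W_2 (nat_lit 3) (nat_lit 0x600010005a000f0000800000000000000000000000000) (nat_lit 0x0) (nat_lit 0x8000400100000000040002000000000000000000) := T_2 (nat_lit 142) (nat_lit 128) (nat_lit 2) (nat_lit 5) (nat_lit 8) L2557327 (by decide +kernel)
theorem L2557329 : W_2 (nat_lit 4) (nat_lit 0x600010005a000f0000000000000000000000000000000) (nat_lit 0x0) (nat_lit 0x8000400100000c00040002000000000000000000) := T_2 (nat_lit 107) (nat_lit 106) (nat_lit 0) (nat_lit 8) (nat_lit 7) L2557328 (by decide +kernel)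
theorem L2557330 : W_2 (nat_lit 5) (nat_lit 0x6000100058000f0000000000000000000000000000000) (nat_lit 0x0) (nat_lit 0x8000700100000c00040002000000000000000000) := T_2 (nat_lit 141) (nat_lit 140) (nat_lit 1) (nat_lit 8) (nat_lit 7) L2557329 (by decide +kernel)
theorem L2557331 : W_2 (nat_lit 6) (nat_lit 0x6000100058000e0000000000000000000000000000000) (nat_lit 0x0) (nat_lit 0x8000700118000c00040002000000000000000000) := T_2 (nat_lit 124) (nat_lit 123) (nat_lit 3) (nat_lit 4) (nat_lit 7) L2557330 (by decide +kernel)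
theorem L2557332 : W_2 (nat_lit 7) (nat_lit 0x6000100058000c0000000000000000000000000000000) (nat_lit 0x0) (nat_lit 0x8000700138001c00040002000000000000000000) := T_2 (nat_lit 125) (nat_lit 108) (nat_lit 4) (nat_lit 7) (nat_lit 10) L2557331 (by decide +kernel)
theorem L2557333 : W_2 (nat_lit 8) (nat_lit 0x600010005800080000000000000000000000000000000) (nat_lit 0x0) (nat_lit 0x8000000008000700178001c00040002000000000000000000) := T_2 (nat_lit 126) (nat_lit 195) (nat_lit 7) (nat_lit 7) (nat_lit 7) L2557332 (by decide +kernel)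
theorem L2557334 : W_2 (nat_lit 12) (nat_lit 0x600000005800080000000000000000000000000000000) (nat_lit 0x0) (nat_lit 0x2000fb8039c01be000700778009c00040002000000000000000000) := Q_2 (nat_lit 160) (C_2 L2521744 (C_2 L2557310 (C_2 L2557321 (C_2 L2557326 (C_2 L2557333 N_2))))) (by decide +kernel)
theorem L2557335 : W_2 (nat_lit 13) (nat_lit 0x200000005800080000000000000000000000000000000) (nat_lit 0x0) (nat_lit 0x2000ff803dc01be000700778009c00040002000000000000000000) := Q_2 (nat_lit 178) (C_2 L2521808 (C_2 L2557299 (C_2 L2557300 (C_2 L2557334 N_2)))) (by decide +kernel)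
theorem L2557336 : W_2 (nat_lit 2) (nat_lit 0x2001f00008005c00080000000000000000000000000000000) (nat_lit 0x0) (nat_lit 0x200110000000000000000000000000000000) := D_2 (nat_lit 141) (nat_lit 124) (nat_lit 128) (nat_lit 4) (nat_lit 6) (nat_lit 11) (nat_lit 2) (nat_lit 5) (nat_lit 8) (by decide +kernel)
theorem L2557337 : W_2 (nat_lit 3) (nat_lit 0x2001f00008005800080000000000000000000000000000000) (nat_lit 0x0) (nat_lit 0x600150000000000000000000000000000000) := T_2 (nat_lit 142) (nat_lit 126) (nat_lit 6) (nat_lit 6) (nat_lit 11) L2557336 (by decide +kernel)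
theorem L2557338 : W_2 (nat_lit 4) (nat_lit 0x2000f00008005800080000000000000000000000000000000) (nat_lit 0x0) (nat_lit 0x4001000000000600150000000000000000000000000000000) := T_2 (nat_lit 180) (nat_lit 194) (nat_lit 1) (nat_lit 10) (nat_lit 10) L2557337 (by decide +kernel)
theorem L2557339 : W_2 (nat_lit 5) (nat_lit 0xf00008005800080000000000000000000000000000000) (nat_lit 0x0) (nat_lit 0x7001000000000600150000000000000000000000000000000) := T_2 (nat_lit 193) (nat_lit 192) (nat_lit 1) (nat_lit 9) (nat_lit 10) L2557338 (by decide +kernel)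
theorem L2557340 : W_2 (nat_lit 6) (nat_lit 0xf00000005800080000000000000000000000000000000) (nat_lit 0x0) (nat_lit 0x700100000c000600150000000000000000000000000000000) := T_2 (nat_lit 159) (nat_lit 158) (nat_lit 0) (nat_lit 9) (nat_lit 10) L2557339 (by decide +kernel)
theorem L2557341 : W_2 (nat_lit 7) (nat_lit 0xe00000005800080000000000000000000000000000000) (nat_lit 0x0) (nat_lit 0x3f80118000e000600150000000000000000000000000000000) := Q_2 (nat_lit 176) (C_2 L2521805 (C_2 L2409365 (C_2 L2409305 (C_2 L2557340 N_2)))) (by decide +kernel)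
theorem L2557342 : W_2 (nat_lit 2) (nat_lit 0x44001e00080005800080000000000000000000000000000000) (nat_lit 0x0) (nat_lit 0x80002000000000000200000000000000000000000000000000) := D_2 (nat_lit 181) (nat_lit 199) (nat_lit 129) (nat_lit 3) (nat_lit 8) (nat_lit 10) (nat_lit 7) (nat_lit 10) (nat_lit 7) (by decide +kernel)
theorem L2557343 : W_2 (nat_lit 3) (nat_lit 0x44001e00000005800080000000000000000000000000000000) (nat_lit 0x0) (nat_lit 0x80002000180000000200000000000000000000000000000000) := T_2 (nat_lit 163) (nat_lit 164) (nat_lit 2) (nat_lit 7) (nat_lit 10) L2557342 (by decide +kernel)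
theorem L2557344 : W_2 (nat_lit 4) (nat_lit 0x4001e00000005800080000000000000000000000000000000) (nat_lit 0x0) (nat_lit 0xe0002000180000000200000000000000000000000000000000) := T_2 (nat_lit 198) (nat_lit 197) (nat_lit 3) (nat_lit 7) (nat_lit 10) L2557343 (by decide +kernel)
theorem L2557345 : W_2 (nat_lit 5) (nat_lit 0x1e00000005800080000000000000000000000000000000) (nat_lit 0x0) (nat_lit 0xe6002000180000000200000000000000000000000000000000) := T_2 (nat_lit 194) (nat_lit 193) (nat_lit 1) (nat_lit 10) (nat_lit 10) L2557344 (by decide +kernel)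
theorem L2557346 : W_2 (nat_lit 3) (nat_lit 0x4001e00080005800080000000000000000000000000000000) (nat_lit 0x0) (nat_lit 0x10000000000000000700008000000000000000000000000000) := T_2 (nat_lit 129) (nat_lit 196) (nat_lit 5) (nat_lit 10) (nat_lit 7) L2409138 (by decide +kernel)
theorem L2557347 : W_2 (nat_lit 4) (nat_lit 0x4001e00000005800080000000000000000000000000000000) (nat_lit 0x0) (nat_lit 0x10000000180000000700008000000000000000000000000000) := T_2 (nat_lit 163) (nat_lit 164) (nat_lit 2) (nat_lit 7) (nat_lit 10) L2557346 (by decide +kernel)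
theorem L2557348 : W_2 (nat_lit 5) (nat_lit 0x1e00000005800080000000000000000000000000000000) (nat_lit 0x0) (nat_lit 0x16000000180000000700008000000000000000000000000000) := T_2 (nat_lit 194) (nat_lit 193) (nat_lit 1) (nat_lit 10) (nat_lit 10) L2557347 (by decide +kernel)
theorem L2557349 : W_2 (nat_lit 6) (nat_lit 0xe00000005800080000000000000000000000000000000) (nat_lit 0x0) (nat_lit 0x2000f7003100180000000700008000000000000000000000000000) := Q_2 (nat_lit 180) (C_2 L2521752 (C_2 L2521751 (C_2 L2557345 (C_2 L2557348 N_2)))) (by decide +kernel)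
theorem L2557350 : W_2 (nat_lit 2) (nat_lit 0x20001e00080005800080000000000000000000000000000000) (nat_lit 0x0) (nat_lit 0x200010000100000000000000000000000000000000000000000000) := D_2 (nat_lit 196) (nat_lit 176) (nat_lit 213) (nat_lit 3) (nat_lit 6) (nat_lit 10) (nat_lit 5) (nat_lit 10) (nat_lit 8) (by decide +kernel)
theorem L2557351 : W_2 (nat_lit 3) (nat_lit 0x1e00080005800080000000000000000000000000000000) (nat_lit 0x0) (nat_lit 0x200070000100000000000000000000000000000000000000000000) := T_2 (nat_lit 197) (nat_lit 198) (nat_lit 3) (nat_lit 7) (nat_lit 10) L2557350 (by decide +kernel)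
theorem L2557352 : W_2 (nat_lit 4) (nat_lit 0x1e00000005800080000000000000000000000000000000) (nat_lit 0x0) (nat_lit 0x200070000100180000000000000000000000000000000000000000) := T_2 (nat_lit 163) (nat_lit 164) (nat_lit 2) (nat_lit 7) (nat_lit 10) L2557351 (by decide +kernel)
theorem L2557353 : W_2 (nat_lit 3) (nat_lit 0x40001e00000005800080000000000000000000000000000000) (nat_lit 0x0) (nat_lit 0x80002000180000000200000000000000000000000000000000) := T_2 (nat_lit 163) (nat_lit 164) (nat_lit 2) (nat_lit 7) (nat_lit 10) L2407559 (by decide +kernel)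
theorem L2557354 : W_2 (nat_lit 4) (nat_lit 0x1e00000005800080000000000000000000000000000000) (nat_lit 0x0) (nat_lit 0xe0002000180000000200000000000000000000000000000000) := T_2 (nat_lit 198) (nat_lit 197) (nat_lit 3) (nat_lit 7) (nat_lit 10) L2557353 (by decide +kernel)
theorem L2557355 : W_2 (nat_lit 2) (nat_lit 0x22001f00008005c00080000000000000000000000000000000) (nat_lit 0x0) (nat_lit 0x200110000000000000000000000000000000) := D_2 (nat_lit 141) (nat_lit 124) (nat_lit 128) (nat_lit 4) (nat_lit 6) (nat_lit 11) (nat_lit 2) (nat_lit 5) (nat_lit 8) (by decide +kernel)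
theorem L2557356 : W_2 (nat_lit 3) (nat_lit 0x22001f00008005800080000000000000000000000000000000) (nat_lit 0x0) (nat_lit 0x600150000000000000000000000000000000) := T_2 (nat_lit 142) (nat_lit 126) (nat_lit 6) (nat_lit 6) (nat_lit 11) L2557355 (by decide +kernel)
theorem L2557357 : W_2 (nat_lit 4) (nat_lit 0x22001f00000005800080000000000000000000000000000000) (nat_lit 0x0) (nat_lit 0xc000600150000000000000000000000000000000) := T_2 (nat_lit 159) (nat_lit 158) (nat_lit 0) (nat_lit 9) (nat_lit 10) L2557356 (by decide +kernel)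
theorem L2557358 : W_2 (nat_lit 5) (nat_lit 0x20001f00000005800080000000000000000000000000000000) (nat_lit 0x0) (nat_lit 0x300000000c000600150000000000000000000000000000000) := T_2 (nat_lit 193) (nat_lit 192) (nat_lit 1) (nat_lit 9) (nat_lit 10) L2557357 (by decide +kernel)
theorem L2557359 : W_2 (nat_lit 6) (nat_lit 0x20001e00000005800080000000000000000000000000000000) (nat_lit 0x0) (nat_lit 0x1300010000c000600150000000000000000000000000000000) := T_2 (nat_lit 176) (nat_lit 196) (nat_lit 3) (nat_lit 6) (nat_lit 10) L2557358 (by decide +kernel)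
theorem L2557360 : W_2 (nat_lit 7) (nat_lit 0x1e00000005800080000000000000000000000000000000) (nat_lit 0x0) (nat_lit 0x7300010000c000600150000000000000000000000000000000) := T_2 (nat_lit 197) (nat_lit 198) (nat_lit 3) (nat_lit 7) (nat_lit 10) L2557359 (by decide +kernel)
theorem L2557361 : W_2 (nat_lit 2) (nat_lit 0x1e00080005800280000000000000000000000000000000) (nat_lit 0x0) (nat_lit 0x500008000000000000000000000000000) := D_2 (nat_lit 128) (nat_lit 111) (nat_lit 130) (nat_lit 4) (nat_lit 10) (nat_lit 10) (nat_lit 1) (nat_lit 11) (nat_lit 7) (by decide +kernel)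
theorem L2557362 : W_2 (nat_lit 3) (nat_lit 0x1e00080005800080000000000000000000000000000000) (nat_lit 0x0) (nat_lit 0x10000000000000000700008000000000000000000000000000) := T_2 (nat_lit 129) (nat_lit 196) (nat_lit 5) (nat_lit 10) (nat_lit 7) L2557361 (by decide +kernel)
theorem L2557363 : W_2 (nat_lit 4) (nat_lit 0x1e00000005800080000000000000000000000000000000) (nat_lit 0x0) (nat_lit 0x10000000180000000700008000000000000000000000000000) := T_2 (nat_lit 163) (nat_lit 164) (nat_lit 2) (nat_lit 7) (nat_lit 10) L2557362 (by decide +kernel)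
theorem L2557364 : W_2 (nat_lit 8) (nat_lit 0xe00000005800080000000000000000000000000000000) (nat_lit 0x0) (nat_lit 0x2000f300310018c000600750008000000000000000000000000000) := Q_2 (nat_lit 180) (C_2 L2521752 (C_2 L2557352 (C_2 L2557354 (C_2 L2557360 (C_2 L2557363 N_2))))) (by decide +kernel)
theorem L2557365 : W_2 (nat_lit 5) (nat_lit 0xe00000005800080000000000000000000000000000000) (nat_lit 0x0) (nat_lit 0xfe003000180000000700008000000000000000000000000000) := Q_2 (nat_lit 180) (C_2 L2557363 (C_2 L2521750 N_2)) (by decide +kernel)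
theorem L2557366 : W_2 (nat_lit 5) (nat_lit 0x22001e00000005800080000000000000000000000000000000) (nat_lit 0x0) (nat_lit 0x100010000c000600150000000000000000000000000000000) := T_2 (nat_lit 176) (nat_lit 192) (nat_lit 1) (nat_lit 9) (nat_lit 10) L2557357 (by decide +kernel)
theorem L2557367 : W_2 (nat_lit 6) (nat_lit 0x2001e00000005800080000000000000000000000000000000) (nat_lit 0x0) (nat_lit 0x6100010000c000600150000000000000000000000000000000) := T_2 (nat_lit 197) (nat_lit 198) (nat_lit 3) (nat_lit 7) (nat_lit 10) L2557366 (by decide +kernel)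
theorem L2557368 : W_2 (nat_lit 7) (nat_lit 0x1e00000005800080000000000000000000000000000000) (nat_lit 0x0) (nat_lit 0x6700010000c000600150000000000000000000000000000000) := T_2 (nat_lit 193) (nat_lit 194) (nat_lit 1) (nat_lit 10) (nat_lit 10) L2557367 (by decide +kernel)
theorem L2557369 : W_2 (nat_lit 2) (nat_lit 0x4003e00080005800080000000000000000000000000000000) (nat_lit 0x0) (nat_lit 0xc0000000000000000200000000000000000000000000000000) := D_2 (nat_lit 198) (nat_lit 199) (nat_lit 129) (nat_lit 3) (nat_lit 8) (nat_lit 10) (nat_lit 7) (nat_lit 10) (nat_lit 7) (by decide +kernel)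
theorem L2557370 : W_2 (nat_lit 3) (nat_lit 0x4001e00080005800080000000000000000000000000000000) (nat_lit 0x0) (nat_lit 0xc8002000000000000200000000000000000000000000000000) := T_2 (nat_lit 181) (nat_lit 195) (nat_lit 1) (nat_lit 11) (nat_lit 10) L2557369 (by decide +kernel)
theorem L2557371 : W_2 (nat_lit 4) (nat_lit 0x1e00080005800080000000000000000000000000000000) (nat_lit 0x0) (nat_lit 0xce002000000000000200000000000000000000000000000000) := T_2 (nat_lit 194) (nat_lit 193) (nat_lit 1) (nat_lit 10) (nat_lit 10) L2557370 (by decide +kernel)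
theorem L2557372 : W_2 (nat_lit 5) (nat_lit 0x1e00000005800080000000000000000000000000000000) (nat_lit 0x0) (nat_lit 0xce002000180000000200000000000000000000000000000000) := T_2 (nat_lit 163) (nat_lit 164) (nat_lit 2) (nat_lit 7) (nat_lit 10) L2557371 (by decide +kernel)
theorem L2557373 : W_2 (nat_lit 4) (nat_lit 0x1e00000005800080000000000000000000000000000000) (nat_lit 0x0) (nat_lit 0xe002000380000000000000000000000000000000000000000) := T_2 (nat_lit 194) (nat_lit 193) (nat_lit 1) (nat_lit 10) (nat_lit 10) L2521794 (by decide +kernel)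
theorem L2557374 : W_2 (nat_lit 8) (nat_lit 0xe00000005800080000000000000000000000000000000) (nat_lit 0x0) (nat_lit 0xef00310038c000600350000000000000000000000000000000) := Q_2 (nat_lit 180) (C_2 L2557354 (C_2 L2521750 (C_2 L2557368 (C_2 L2557372 (C_2 L2557373 N_2))))) (by decide +kernel)
theorem L2557375 : W_2 (nat_lit 2) (nat_lit 0x20801fc0004005f80084000000000000000000000000000000) (nat_lit 0x0) (nat_lit 0x20001800000000000000000000000000000000000000) := D_2 (nat_lit 156) (nat_lit 155) (nat_lit 173) (nat_lit 1) (nat_lit 6) (nat_lit 8) (nat_lit 7) (nat_lit 3) (nat_lit 7) (by decide +kernel)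
theorem L2557376 : W_2 (nat_lit 3) (nat_lit 0x20801fc0004005f00084000000000000000000000000000000) (nat_lit 0x0) (nat_lit 0x20001800080002000000000000000000000000000000) := T_2 (nat_lit 139) (nat_lit 121) (nat_lit 0) (nat_lit 6) (nat_lit 8) L2557375 (by decide +kernel)
theorem L2557377 : W_2 (nat_lit 4) (nat_lit 0x20801fc0004005f00080000000000000000000000000000000) (nat_lit 0x0) (nat_lit 0x2000180008000e000000000000000000000000000000) := T_2 (nat_lit 122) (nat_lit 123) (nat_lit 0) (nat_lit 7) (nat_lit 8) L2557376 (by decide +kernel)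
theorem L2557378 : W_2 (nat_lit 5) (nat_lit 0x20801fc0004005e00080000000000000000000000000000000) (nat_lit 0x0) (nat_lit 0x2000180018004e000000000000000000000000000000) := T_2 (nat_lit 140) (nat_lit 126) (nat_lit 2) (nat_lit 4) (nat_lit 8) L2557377 (by decide +kernel)
theorem L2557379 : W_2 (nat_lit 6) (nat_lit 0x20801fc0004005a00080000000000000000000000000000000) (nat_lit 0x0) (nat_lit 0x2000180058014e000000000000000000000000000000) := T_2 (nat_lit 142) (nat_lit 128) (nat_lit 2) (nat_lit 5) (nat_lit 8) L2557378 (by decide +kernel)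
theorem L2557380 : W_2 (nat_lit 7) (nat_lit 0x20801fc0004005800080000000000000000000000000000000) (nat_lit 0x0) (nat_lit 0x2000180078015e000000000000000000000000000000) := T_2 (nat_lit 141) (nat_lit 124) (nat_lit 5) (nat_lit 5) (nat_lit 7) L2557379 (by decide +kernel)
theorem L2557381 : W_2 (nat_lit 8) (nat_lit 0x20801f80004005800080000000000000000000000000000000) (nat_lit 0x0) (nat_lit 0x40006000180078015e000000000000000000000000000000) := T_2 (nat_lit 174) (nat_lit 190) (nat_lit 1) (nat_lit 7) (nat_lit 10) L2557380 (by decide +kernel)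
theorem L2557382 : W_2 (nat_lit 9) (nat_lit 0x20001f80004005800080000000000000000000000000000000) (nat_lit 0x0) (nat_lit 0x1c0006000180078015e000000000000000000000000000000) := T_2 (nat_lit 191) (nat_lit 192) (nat_lit 1) (nat_lit 8) (nat_lit 10) L2557381 (by decide +kernel)
theorem L2557383 : W_2 (nat_lit 10) (nat_lit 0x20001f00004005800080000000000000000000000000000000) (nat_lit 0x0) (nat_lit 0x1c000e000380078015e000000000000000000000000000000) := T_2 (nat_lit 175) (nat_lit 157) (nat_lit 0) (nat_lit 8) (nat_lit 10) L2557382 (by decide +kernel)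
theorem L2557384 : W_2 (nat_lit 11) (nat_lit 0x20001f00000005800080000000000000000000000000000000) (nat_lit 0x0) (nat_lit 0x1c000e000f80078015e000000000000000000000000000000) := T_2 (nat_lit 158) (nat_lit 159) (nat_lit 0) (nat_lit 9) (nat_lit 10) L2557383 (by decide +kernel)
theorem L2557385 : W_2 (nat_lit 12) (nat_lit 0x20001e00000005800080000000000000000000000000000000) (nat_lit 0x0) (nat_lit 0x11c001e000f80078015e000000000000000000000000000000) := T_2 (nat_lit 176) (nat_lit 196) (nat_lit 3) (nat_lit 6) (nat_lit 10) L2557384 (by decide +kernel)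
theorem L2557386 : W_2 (nat_lit 13) (nat_lit 0x1e00000005800080000000000000000000000000000000) (nat_lit 0x0) (nat_lit 0x71c001e000f80078015e000000000000000000000000000000) := T_2 (nat_lit 197) (nat_lit 198) (nat_lit 3) (nat_lit 7) (nat_lit 10) L2557385 (by decide +kernel)
theorem L2557387 : W_2 (nat_lit 14) (nat_lit 0xe00000005800080000000000000000000000000000000) (nat_lit 0x0) (nat_lit 0x2000f1c031e018f80078075e008000000000000000000000000000) := Q_2 (nat_lit 180) (C_2 L2557363 (C_2 L2557352 (C_2 L2557354 (C_2 L2557386 N_2)))) (by decide +kernel)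
theorem L2557388 : W_2 (nat_lit 2) (nat_lit 0x44003e00000005800380000000000000000000000000000000) (nat_lit 0x0) (nat_lit 0x600040000000000000000000000000000000) := D_2 (nat_lit 142) (nat_lit 126) (nat_lit 141) (nat_lit 1) (nat_lit 10) (nat_lit 7) (nat_lit 2) (nat_lit 5) (nat_lit 8) (by decide +kernel)
theorem L2557389 : W_2 (nat_lit 3) (nat_lit 0x44003e00000005800280000000000000000000000000000000) (nat_lit 0x0) (nat_lit 0x600540000000000000000000000000000000) := T_2 (nat_lit 128) (nat_lit 130) (nat_lit 1) (nat_lit 11) (nat_lit 7) L2557388 (by decide +kernel)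
theorem L2557390 : W_2 (nat_lit 4) (nat_lit 0x44003e00000005800080000000000000000000000000000000) (nat_lit 0x0) (nat_lit 0x80000600740000000000000000000000000000000) := T_2 (nat_lit 129) (nat_lit 163) (nat_lit 7) (nat_lit 10) (nat_lit 7) L2557389 (by decide +kernel)
theorem L2557391 : W_2 (nat_lit 5) (nat_lit 0x4003e00000005800080000000000000000000000000000000) (nat_lit 0x0) (nat_lit 0xc0000000080000600740000000000000000000000000000000) := T_2 (nat_lit 198) (nat_lit 199) (nat_lit 3) (nat_lit 8) (nat_lit 10) L2557390 (by decide +kernel)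
theorem L2557392 : W_2 (nat_lit 6) (nat_lit 0x4001e00000005800080000000000000000000000000000000) (nat_lit 0x0) (nat_lit 0xc8002000080000600740000000000000000000000000000000) := T_2 (nat_lit 181) (nat_lit 195) (nat_lit 1) (nat_lit 11) (nat_lit 10) L2557391 (by decide +kernel)
theorem L2557393 : W_2 (nat_lit 7) (nat_lit 0x1e00000005800080000000000000000000000000000000) (nat_lit 0x0) (nat_lit 0xce002000080000600740000000000000000000000000000000) := T_2 (nat_lit 194) (nat_lit 193) (nat_lit 1) (nat_lit 10) (nat_lit 10) L2557392 (by decide +kernel)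
theorem L2557394 : W_2 (nat_lit 2) (nat_lit 0x84003e00200005800080000000000000000000000000000000) (nat_lit 0x0) (nat_lit 0x100004000400000000000000000000000000000000000000000) := D_2 (nat_lit 182) (nat_lit 166) (nat_lit 200) (nat_lit 2) (nat_lit 9) (nat_lit 10) (nat_lit 3) (nat_lit 9) (nat_lit 10) (by decide +kernel)
theorem L2557395 : W_2 (nat_lit 3) (nat_lit 0x4003e00200005800080000000000000000000000000000000) (nat_lit 0x0) (nat_lit 0x1c0004000400000000000000000000000000000000000000000) := T_2 (nat_lit 199) (nat_lit 198) (nat_lit 3) (nat_lit 8) (nat_lit 10) L2557394 (by decide +kernel)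
theorem L2557396 : W_2 (nat_lit 4) (nat_lit 0x4003e00000005800080000000000000000000000000000000) (nat_lit 0x0) (nat_lit 0x1c0004000700000000000000000000000000000000000000000) := T_2 (nat_lit 165) (nat_lit 164) (nat_lit 2) (nat_lit 8) (nat_lit 10) L2557395 (by decide +kernel)
theorem L2557397 : W_2 (nat_lit 5) (nat_lit 0x4001e00000005800080000000000000000000000000000000) (nat_lit 0x0) (nat_lit 0x1c8006000700000000000000000000000000000000000000000) := T_2 (nat_lit 181) (nat_lit 195) (nat_lit 1) (nat_lit 11) (nat_lit 10) L2557396 (by decide +kernel)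
theorem L2557398 : W_2 (nat_lit 6) (nat_lit 0x1e00000005800080000000000000000000000000000000) (nat_lit 0x0) (nat_lit 0x1ce006000700000000000000000000000000000000000000000) := T_2 (nat_lit 194) (nat_lit 193) (nat_lit 1) (nat_lit 10) (nat_lit 10) L2557397 (by decide +kernel)
theorem L2557399 : W_2 (nat_lit 8) (nat_lit 0xe00000005800080000000000000000000000000000000) (nat_lit 0x0) (nat_lit 0x1de007000780000600740008000000000000000000000000000) := Q_2 (nat_lit 180) (C_2 L2557373 (C_2 L2557363 (C_2 L2557393 (C_2 L2557398 N_2)))) (by decide +kernel)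
theorem L2557400 : W_2 (nat_lit 2) (nat_lit 0x2000f00008005c00080000000000000000000000000000000) (nat_lit 0x0) (nat_lit 0x200110000000000000000000000000000000) := D_2 (nat_lit 141) (nat_lit 124) (nat_lit 128) (nat_lit 4) (nat_lit 6) (nat_lit 11) (nat_lit 2) (nat_lit 5) (nat_lit 8) (by decide +kernel)
theorem L2557401 : W_2 (nat_lit 3) (nat_lit 0x2000f00008005800080000000000000000000000000000000) (nat_lit 0x0) (nat_lit 0x600150000000000000000000000000000000) := T_2 (nat_lit 142) (nat_lit 126) (nat_lit 6) (nat_lit 6) (nat_lit 11) L2557400 (by decide +kernel)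
theorem L2557402 : W_2 (nat_lit 4) (nat_lit 0xf00008005800080000000000000000000000000000000) (nat_lit 0x0) (nat_lit 0x3000000000000600150000000000000000000000000000000) := T_2 (nat_lit 193) (nat_lit 192) (nat_lit 1) (nat_lit 9) (nat_lit 10) L2557401 (by decide +kernel)
theorem L2557403 : W_2 (nat_lit 5) (nat_lit 0xf00000005800080000000000000000000000000000000) (nat_lit 0x0) (nat_lit 0x300000000c000600150000000000000000000000000000000) := T_2 (nat_lit 159) (nat_lit 158) (nat_lit 0) (nat_lit 9) (nat_lit 10) L2557402 (by decide +kernel)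
theorem L2557404 : W_2 (nat_lit 6) (nat_lit 0xe00000005800080000000000000000000000000000000) (nat_lit 0x0) (nat_lit 0x3b80018000e000600150000000000000000000000000000000) := Q_2 (nat_lit 176) (C_2 L2521805 (C_2 L2409365 (C_2 L2409305 (C_2 L2557403 N_2)))) (by decide +kernel)
theorem L2557405 : W_2 (nat_lit 15) (nat_lit 0x600000005800080000000000000000000000000000000) (nat_lit 0x0) (nat_lit 0x2001ffc079e078f80078075e008000000000000000000000000000) := Q_2 (nat_lit 179) (C_2 L2521761 (C_2 L2557341 (C_2 L2557349 (C_2 L2557364 (C_2 L2557365 (C_2 L2557374 (C_2 L2557387 (C_2 L2557399 (C_2 L2557404 N_2))))))))) (by decide +kernel)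
theorem L2557406 : W_2 (nat_lit 2) (nat_lit 0xe00000005800080000000000000000000000000000000) (nat_lit 0x0) (nat_lit 0x14000000020000000000000000000000000000000000000000) := D_2 (nat_lit 161) (nat_lit 194) (nat_lit 196) (nat_lit 5) (nat_lit 8) (nat_lit 7) (nat_lit 7) (nat_lit 8) (nat_lit 7) (by decide +kernel)
theorem L2557407 : W_2 (nat_lit 4) (nat_lit 0x10000e00000005800080000000000000000000000000000000) (nat_lit 0x0) (nat_lit 0x2800018000e000000000000000000000000000000000000000) := T_2 (nat_lit 176) (nat_lit 197) (nat_lit 3) (nat_lit 6) (nat_lit 10) L2521804 (by decide +kernel)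
theorem L2557408 : W_2 (nat_lit 5) (nat_lit 0xe00000005800080000000000000000000000000000000) (nat_lit 0x0) (nat_lit 0x3800018002e000000000000000000000000000000000000000) := T_2 (nat_lit 196) (nat_lit 161) (nat_lit 7) (nat_lit 8) (nat_lit 7) L2557407 (by decide +kernel)
theorem L2557409 : W_2 (nat_lit 5) (nat_lit 0xe00000005800080000000000000000000000000000000) (nat_lit 0x0) (nat_lit 0xe0030003a0000000000000000000000000000000000000000) := T_2 (nat_lit 194) (nat_lit 161) (nat_lit 5) (nat_lit 8) (nat_lit 7) L2521795 (by decide +kernel)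
theorem L2557410 : W_2 (nat_lit 6) (nat_lit 0x600000005800080000000000000000000000000000000) (nat_lit 0x0) (nat_lit 0xfe0039803ae000000700008000000000000000000000000000) := Q_2 (nat_lit 179) (C_2 L2557365 (C_2 L2557406 (C_2 L2557408 (C_2 L2557409 N_2)))) (by decide +kernel)
theorem L2557411 : W_2 (nat_lit 2) (nat_lit 0x600020005c00180000000000000000000000000000000) (nat_lit 0x0) (nat_lit 0x640000000000000000000000000000000) := D_2 (nat_lit 129) (nat_lit 130) (nat_lit 126) (nat_lit 1) (nat_lit 11) (nat_lit 7) (nat_lit 1) (nat_lit 10) (nat_lit 7) (by decide +kernel)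
theorem L2557412 : W_2 (nat_lit 3) (nat_lit 0x600020005800180000000000000000000000000000000) (nat_lit 0x0) (nat_lit 0x600640000000000000000000000000000000) := T_2 (nat_lit 142) (nat_lit 141) (nat_lit 2) (nat_lit 5) (nat_lit 8) L2557411 (by decide +kernel)
theorem L2557413 : W_2 (nat_lit 4) (nat_lit 0x600020005800080000000000000000000000000000000) (nat_lit 0x0) (nat_lit 0x600740008000000000000000000000000000) := T_2 (nat_lit 128) (nat_lit 111) (nat_lit 6) (nat_lit 8) (nat_lit 10) L2557412 (by decide +kernel)
theorem L2557414 : W_2 (nat_lit 5) (nat_lit 0x600000005800080000000000000000000000000000000) (nat_lit 0x0) (nat_lit 0x4000000020000600740008000000000000000000000000000) := T_2 (nat_lit 161) (nat_lit 194) (nat_lit 5) (nat_lit 8) (nat_lit 7) L2557413 (by decide +kernel)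
theorem L2557415 : W_2 (nat_lit 4) (nat_lit 0x600000005800580000000000000000000000000000000) (nat_lit 0x0) (nat_lit 0x200018000800020000000040008000000000000000000000000000) := T_2 (nat_lit 161) (nat_lit 111) (nat_lit 6) (nat_lit 8) (nat_lit 10) L1401501 (by decide +kernel)
theorem L2557416 : W_2 (nat_lit 5) (nat_lit 0x600000005800180000000000000000000000000000000) (nat_lit 0x0) (nat_lit 0x200018000800020000000640008000000000000000000000000000) := T_2 (nat_lit 130) (nat_lit 129) (nat_lit 1) (nat_lit 11) (nat_lit 7) L2557415 (by decide +kernel)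
theorem L2557417 : W_2 (nat_lit 4) (nat_lit 0x600000005800180000000000000000000000000000000) (nat_lit 0x0) (nat_lit 0x200018000800020000000040008000000000000000000000000000) := T_2 (nat_lit 161) (nat_lit 111) (nat_lit 6) (nat_lit 8) (nat_lit 10) L1354076 (by decide +kernel)
theorem L2557418 : W_2 (nat_lit 2) (nat_lit 0x600000005800380008000400000000000000000000000) (nat_lit 0x0) (nat_lit 0x1000080000000000010000000000000000000000000000) := D_2 (nat_lit 163) (nat_lit 180) (nat_lit 112) (nat_lit 4) (nat_lit 10) (nat_lit 10) (nat_lit 4) (nat_lit 10) (nat_lit 9) (by decide +kernel)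
theorem L2557419 : W_2 (nat_lit 3) (nat_lit 0x600000005800380008000000000000000000000000000) (nat_lit 0x0) (nat_lit 0x1000080000000000010000400020000000000000000000) := T_2 (nat_lit 94) (nat_lit 77) (nat_lit 7) (nat_lit 9) (nat_lit 4) L2557418 (by decide +kernel)
theorem L2557420 : W_2 (nat_lit 4) (nat_lit 0x600000005800180008000000000000000000000000000) (nat_lit 0x0) (nat_lit 0x1000080000000600010000400020000000000000000000) := T_2 (nat_lit 129) (nat_lit 130) (nat_lit 1) (nat_lit 11) (nat_lit 7) L2557419 (by decide +kernel)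
theorem L2557421 : W_2 (nat_lit 5) (nat_lit 0x600000005800180000000000000000000000000000000) (nat_lit 0x0) (nat_lit 0x10000a0000000600018000400020000000000000000000) := T_2 (nat_lit 111) (nat_lit 161) (nat_lit 6) (nat_lit 8) (nat_lit 10) L2557420 (by decide +kernel)
theorem L2557422 : W_2 (nat_lit 6) (nat_lit 0x600000005800080000000000000000000000000000000) (nat_lit 0x0) (nat_lit 0x2000180018000a0000600740018000400020000000000000000000) := Q_2 (nat_lit 128) (C_2 L1445682 (C_2 L2557416 (C_2 L2557417 (C_2 L2557421 N_2)))) (by decide +kernel)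
theorem L2557423 : W_2 (nat_lit 16) (nat_lit 0x200000005800080000000000000000000000000000000) (nat_lit 0x0) (nat_lit 0x2001ffc07de07af80078075e018000400020000000000000000000) := Q_2 (nat_lit 178) (C_2 L2557299 (C_2 L2557405 (C_2 L2557410 (C_2 L2557414 (C_2 L2557422 N_2))))) (by decide +kernel)
theorem L2557424 : W_2 (nat_lit 2) (nat_lit 0x200010005800080000000000000000000000000000000) (nat_lit 0x0) (nat_lit 0x20000000000004000200000000000000000000000) := D_2 (nat_lit 110) (nat_lit 161) (nat_lit 93) (nat_lit 5) (nat_lit 8) (nat_lit 6) (nat_lit 5) (nat_lit 8) (nat_lit 5) (by decide +kernel)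
theorem L2557425 : W_2 (nat_lit 3) (nat_lit 0x200000005800080000000000000000000000000000000) (nat_lit 0x0) (nat_lit 0x4000000030000000000004000200000000000000000000000) := T_2 (nat_lit 160) (nat_lit 194) (nat_lit 6) (nat_lit 7) (nat_lit 11) L2557424 (by decide +kernel)
theorem L2557426 : W_2 (nat_lit 6) (nat_lit 0x600010005a000f0000800000000000000000000000000) (nat_lit 0x0) (nat_lit 0x38001c0026000400100000000000000000000000000000000) := T_2 (nat_lit 176) (nat_lit 193) (nat_lit 5) (nat_lit 7) (nat_lit 7) L2557304 (by decide +kernel)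
theorem L2557427 : W_2 (nat_lit 7) (nat_lit 0x6000100058000f0000800000000000000000000000000) (nat_lit 0x0) (nat_lit 0x38001c0026000700100000000000000000000000000000000) := T_2 (nat_lit 141) (nat_lit 140) (nat_lit 1) (nat_lit 8) (nat_lit 7) L2557426 (by decide +kernel)
theorem L2557428 : W_2 (nat_lit 8) (nat_lit 0x6000100058000f0000000000000000000000000000000) (nat_lit 0x0) (nat_lit 0x38001c0026000700100000c00000000000000000000000000) := T_2 (nat_lit 107) (nat_lit 106) (nat_lit 0) (nat_lit 8) (nat_lit 7) L2557427 (by decide +kernel)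
theorem L2557429 : W_2 (nat_lit 9) (nat_lit 0x2000100058000f0000000000000000000000000000000) (nat_lit 0x0) (nat_lit 0xb8005c0026000700100000c00000000000000000000000000) := T_2 (nat_lit 178) (nat_lit 195) (nat_lit 7) (nat_lit 7) (nat_lit 7) L2557428 (by decide +kernel)
theorem L2557430 : W_2 (nat_lit 10) (nat_lit 0x2000100058000e0000000000000000000000000000000) (nat_lit 0x0) (nat_lit 0xb8005c0026000700118000c00000000000000000000000000) := T_2 (nat_lit 124) (nat_lit 123) (nat_lit 3) (nat_lit 4) (nat_lit 7) L2557429 (by decide +kernel)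
theorem L2557431 : W_2 (nat_lit 11) (nat_lit 0x2000100058000c0000000000000000000000000000000) (nat_lit 0x0) (nat_lit 0xb8005c0026000700138001c00000000000000000000000000) := T_2 (nat_lit 125) (nat_lit 108) (nat_lit 4) (nat_lit 7) (nat_lit 10) L2557430 (by decide +kernel)
theorem L2557432 : W_2 (nat_lit 2) (nat_lit 0xf40030005c001c0000000000000000000000000000000) (nat_lit 0x0) (nat_lit 0x100000c000000000000000000000000000000000000000) := D_2 (nat_lit 159) (nat_lit 158) (nat_lit 180) (nat_lit 3) (nat_lit 5) (nat_lit 9) (nat_lit 0) (nat_lit 10) (nat_lit 10) (by decide +kernel)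
theorem L2557433 : W_2 (nat_lit 3) (nat_lit 0x740030005c001c0000000000000000000000000000000) (nat_lit 0x0) (nat_lit 0x1000180000c000000000000000000000000000000000000000) := T_2 (nat_lit 179) (nat_lit 196) (nat_lit 7) (nat_lit 8) (nat_lit 7) L2557432 (by decide +kernel)
theorem L2557434 : W_2 (nat_lit 4) (nat_lit 0x700030005c001c0000000000000000000000000000000) (nat_lit 0x0) (nat_lit 0x100018c000c000000000000000000000000000000000000000) := T_2 (nat_lit 174) (nat_lit 175) (nat_lit 2) (nat_lit 4) (nat_lit 10) L2557433 (by decide +kernel)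
theorem L2557435 : W_2 (nat_lit 5) (nat_lit 0x700010005c001c0000000000000000000000000000000) (nat_lit 0x0) (nat_lit 0x100018c002c000000000008000000000000000000000000000) := T_2 (nat_lit 161) (nat_lit 111) (nat_lit 6) (nat_lit 8) (nat_lit 10) L2557434 (by decide +kernel)
theorem L2557436 : W_2 (nat_lit 6) (nat_lit 0x300010005c001c0000000000000000000000000000000) (nat_lit 0x0) (nat_lit 0x18001cc002c000000000008000000000000000000000000000) := T_2 (nat_lit 178) (nat_lit 195) (nat_lit 7) (nat_lit 7) (nat_lit 7) L2557435 (by decide +kernel)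
theorem L2557437 : W_2 (nat_lit 7) (nat_lit 0x300010005c000c0000000000000000000000000000000) (nat_lit 0x0) (nat_lit 0x18001cc002c000000300008000000000000000000000000000) := T_2 (nat_lit 128) (nat_lit 129) (nat_lit 1) (nat_lit 10) (nat_lit 7) L2557436 (by decide +kernel)
theorem L2557438 : W_2 (nat_lit 8) (nat_lit 0x200010005c000c0000000000000000000000000000000) (nat_lit 0x0) (nat_lit 0x1a001dc002c000000300008000000000000000000000000000) := T_2 (nat_lit 176) (nat_lit 193) (nat_lit 5) (nat_lit 7) (nat_lit 7) L2557437 (by decide +kernel)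
theorem L2557439 : W_2 (nat_lit 10) (nat_lit 0x2000100058000c0000000000000000000000000000000) (nat_lit 0x0) (nat_lit 0x1a001dc002e000700318009c000e0005000000000000000000) := Q_2 (nat_lit 142) (C_2 L1809294 (C_2 L2557438 (C_2 L655328 N_2))) (by decide +kernel)
theorem L2557440 : W_2 (nat_lit 5) (nat_lit 0x7000100058000f0000000000000000000000000000000) (nat_lit 0x0) (nat_lit 0x30001800028000400000000c00000000000000000000000000) := T_2 (nat_lit 107) (nat_lit 106) (nat_lit 0) (nat_lit 8) (nat_lit 7) L1005416 (by decide +kernel)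
theorem L2557441 : W_2 (nat_lit 6) (nat_lit 0x6000100058000f0000000000000000000000000000000) (nat_lit 0x0) (nat_lit 0x32001900028000400000000c00000000000000000000000000) := T_2 (nat_lit 176) (nat_lit 193) (nat_lit 5) (nat_lit 7) (nat_lit 7) L2557440 (by decide +kernel)
theorem L2557442 : W_2 (nat_lit 7) (nat_lit 0x6000100058000e0000000000000000000000000000000) (nat_lit 0x0) (nat_lit 0x32001900028000400018000c00000000000000000000000000) := T_2 (nat_lit 124) (nat_lit 123) (nat_lit 3) (nat_lit 4) (nat_lit 7) L2557441 (by decide +kernel)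
theorem L2557443 : W_2 (nat_lit 8) (nat_lit 0x6000100058000c0000000000000000000000000000000) (nat_lit 0x0) (nat_lit 0x32001900028000400038001c00000000000000000000000000) := T_2 (nat_lit 125) (nat_lit 108) (nat_lit 4) (nat_lit 7) (nat_lit 10) L2557442 (by decide +kernel)
theorem L2557444 : W_2 (nat_lit 9) (nat_lit 0x2000100058000c0000000000000000000000000000000) (nat_lit 0x0) (nat_lit 0x3a001d00028000400038001c00000000000000000000000000) := T_2 (nat_lit 178) (nat_lit 195) (nat_lit 7) (nat_lit 7) (nat_lit 7) L2557443 (by decide +kernel)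
theorem L2557445 : W_2 (nat_lit 9) (nat_lit 0x2000100058000c0000000000000000000000000000000) (nat_lit 0x0) (nat_lit 0x1a001dc002e000700318008800000000000000000000000000) := Q_2 (nat_lit 142) (C_2 L2557438 (C_2 L655328 (C_2 L655064 N_2))) (by decide +kernel)
theorem L2557446 : W_2 (nat_lit 2) (nat_lit 0xf00014005e000e0000000000000000000000000000000) (nat_lit 0x0) (nat_lit 0x30000000020000000000000000000000000000000000000000) := D_2 (nat_lit 196) (nat_lit 161) (nat_lit 197) (nat_lit 7) (nat_lit 8) (nat_lit 7) (nat_lit 3) (nat_lit 6) (nat_lit 10) (by decide +kernel)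
theorem L2557447 : W_2 (nat_lit 3) (nat_lit 0x700014005e000e0000000000000000000000000000000) (nat_lit 0x0) (nat_lit 0x30000800028000000000000000000000000000000000000000) := T_2 (nat_lit 179) (nat_lit 159) (nat_lit 0) (nat_lit 9) (nat_lit 10) L2557446 (by decide +kernel)
theorem L2557448 : W_2 (nat_lit 4) (nat_lit 0x600014005e000e0000000000000000000000000000000) (nat_lit 0x0) (nat_lit 0x32000900028000000000000000000000000000000000000000) := T_2 (nat_lit 176) (nat_lit 193) (nat_lit 5) (nat_lit 7) (nat_lit 7) L2557447 (by decide +kernel)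
theorem L2557449 : W_2 (nat_lit 5) (nat_lit 0x600010005e000e0000000000000000000000000000000) (nat_lit 0x0) (nat_lit 0x3200090002e000000000000000000000000000000000000000) := T_2 (nat_lit 158) (nat_lit 157) (nat_lit 1) (nat_lit 8) (nat_lit 8) L2557448 (by decide +kernel)
theorem L2557450 : W_2 (nat_lit 6) (nat_lit 0x600010005e000c0000000000000000000000000000000) (nat_lit 0x0) (nat_lit 0x3200090002e000000020001000000000000000000000000000) := T_2 (nat_lit 125) (nat_lit 108) (nat_lit 4) (nat_lit 7) (nat_lit 10) L2557449 (by decide +kernel)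
theorem L2557451 : W_2 (nat_lit 7) (nat_lit 0x600010005c000c0000000000000000000000000000000) (nat_lit 0x0) (nat_lit 0x3200090002e000300020001000000000000000000000000000) := T_2 (nat_lit 141) (nat_lit 140) (nat_lit 2) (nat_lit 4) (nat_lit 8) L2557450 (by decide +kernel)
theorem L2557452 : W_2 (nat_lit 8) (nat_lit 0x200010005c000c0000000000000000000000000000000) (nat_lit 0x0) (nat_lit 0x3a000d0002e000300020001000000000000000000000000000) := T_2 (nat_lit 178) (nat_lit 195) (nat_lit 7) (nat_lit 7) (nat_lit 7) L2557451 (by decide +kernel)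
theorem L2557453 : W_2 (nat_lit 9) (nat_lit 0x2000100058000c0000000000000000000000000000000) (nat_lit 0x0) (nat_lit 0x3a001dc002e000700320009000000000000000000000000000) := Q_2 (nat_lit 142) (C_2 L2557438 (C_2 L655328 (C_2 L2557452 N_2))) (by decide +kernel)
theorem L2557454 : W_2 (nat_lit 8) (nat_lit 0x2000100058000c0000000000000000000000000000000) (nat_lit 0x0) (nat_lit 0x8000400008000700138001c00040002000000000000000000) := T_2 (nat_lit 178) (nat_lit 195) (nat_lit 7) (nat_lit 7) (nat_lit 7) L2557332 (by decide +kernel)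
theorem L2557455 : W_2 (nat_lit 12) (nat_lit 0x200010005800080000000000000000000000000000000) (nat_lit 0x0) (nat_lit 0x3b801dc002e000700378009c000e0007000000000000000000) := Q_2 (nat_lit 126) (C_2 L2520872 (C_2 L2557431 (C_2 L1257745 (C_2 L2557439 (C_2 L2557444 (C_2 L2557445 (C_2 L2557453 (C_2 L2557454 N_2)))))))) (by decide +kernel)
theorem L2557456 : W_2 (nat_lit 13) (nat_lit 0x200000005800080000000000000000000000000000000) (nat_lit 0x0) (nat_lit 0x3b801dc003e00070037800dc002e0007000000000000000000) := Q_2 (nat_lit 160) (C_2 L2557424 (C_2 L2519436 (C_2 L2523210 (C_2 L2557455 N_2)))) (by decide +kernel)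
theorem L2557457 : W_2 (nat_lit 17) (nat_lit 0x5800080000000000000000000000000000000) (nat_lit 0x0) (nat_lit 0x2001ffc07fe07bf80078077e01dc006e0027000000000000000000) := Q_2 (nat_lit 177) (C_2 L2557295 (C_2 L2557296 (C_2 L2557335 (C_2 L2557423 (C_2 L2557425 (C_2 L2557456 N_2)))))) (by decide +kernel)
theorem L2557458 : W_2 (nat_lit 6) (nat_lit 0x5800080000000000000000000000000000000) (nat_lit 0x0) (nat_lit 0x120019800240076000c000600000000000000000000000) := Q_2 (nat_lit 145) (C_2 L2513056 (C_2 L2512993 N_2)) (by decide +kernel)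
theorem L2557459 : W_2 (nat_lit 12) (nat_lit 0x5800080000000000000000000000000000000) (nat_lit 0x0) (nat_lit 0x7c003e001bf00270077c038000c00060000000000000000000) := Q_2 (nat_lit 145) (C_2 L2513056 (C_2 L2512989 (C_2 L2513008 (C_2 L1867039 N_2)))) (by decide +kernel)
theorem L2557460 : W_2 (nat_lit 12) (nat_lit 0x5800080000000000000000000000000000000) (nat_lit 0x0) (nat_lit 0xa0007c003e001b800200076003c001e000700038001c000a000000) := Q_2 (nat_lit 145) (C_2 L2513035 (C_2 L2512989 (C_2 L2512993 (C_2 L2513002 N_2)))) (by decide +kernel)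
theorem L2557461 : W_2 (nat_lit 10) (nat_lit 0x10005800080000000000000000000000000000000) (nat_lit 0x0) (nat_lit 0x1af002700170005000280000000000000000000000) := T_2 (nat_lit 145) (nat_lit 159) (nat_lit 1) (nat_lit 10) (nat_lit 8) L2075511 (by decide +kernel)
theorem L2557462 : W_2 (nat_lit 16) (nat_lit 0x5800080000000000000000000000000000000) (nat_lit 0x0) (nat_lit 0x20003e003f801fe01bf00278017c005c002e0007000280000000000000) := Q_2 (nat_lit 160) (C_2 L2523211 (C_2 L2519437 (C_2 L2519435 (C_2 L2519318 (C_2 L2557461 N_2))))) (by decide +kernel)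
theorem L2557463 : W_2 (nat_lit 10) (nat_lit 0x5800080000000000000000000000000000000) (nat_lit 0x0) (nat_lit 0xa000700038001af00270077c03c001e000300038001c000a000000) := Q_2 (nat_lit 145) (C_2 L2513056 (C_2 L2513035 (C_2 L2513008 (C_2 L1867039 N_2)))) (by decide +kernel)
theorem L2557464 : W_2 (nat_lit 6) (nat_lit 0x5800080000000000000000000000000000000) (nat_lit 0x0) (nat_lit 0x40012001bc00240070000c000600000000000000000000000) := Q_2 (nat_lit 145) (C_2 L2513056 (C_2 L2513002 (C_2 L2503873 N_2))) (by decide +kernel)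
theorem L2557465 : W_2 (nat_lit 8) (nat_lit 0x10005800080000000000000000000000000000000) (nat_lit 0x0) (nat_lit 0x14000a000dc002e00278007c001c00040000000000000000000000) := T_2 (nat_lit 159) (nat_lit 145) (nat_lit 1) (nat_lit 10) (nat_lit 8) L2519390 (by decide +kernel)
theorem L2557466 : W_2 (nat_lit 16) (nat_lit 0x5800080000000000000000000000000000000) (nat_lit 0x0) (nat_lit 0x20003e003f801fe003f00278007c005c002e0007000280000000000000) := Q_2 (nat_lit 160) (C_2 L2523211 (C_2 L2519437 (C_2 L2519435 (C_2 L2519318 (C_2 L2557465 N_2))))) (by decide +kernel)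
theorem L2557467 : W_2 (nat_lit 6) (nat_lit 0x58000c0000000000000000000000000000000) (nat_lit 0x0) (nat_lit 0x20001000180002400720008000000000000000000000000000) := T_2 (nat_lit 145) (nat_lit 125) (nat_lit 0) (nat_lit 10) (nat_lit 8) L1040469 (by decide +kernel)
theorem L2557468 : W_2 (nat_lit 2) (nat_lit 0x58001c0000000000000000000000000000000) (nat_lit 0x0) (nat_lit 0x600200000000000000000000000000000000) := D_2 (nat_lit 142) (nat_lit 129) (nat_lit 141) (nat_lit 1) (nat_lit 10) (nat_lit 7) (nat_lit 2) (nat_lit 5) (nat_lit 8) (by decide +kernel)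
theorem L2557469 : W_2 (nat_lit 4) (nat_lit 0x58003c0010000000000000000000000000000) (nat_lit 0x0) (nat_lit 0x38009c00000000000000000000000000) := T_2 (nat_lit 125) (nat_lit 111) (nat_lit 2) (nat_lit 6) (nat_lit 7) L1350184 (by decide +kernel)
theorem L2557470 : W_2 (nat_lit 5) (nat_lit 0x58003c0000000000000000000000000000000) (nat_lit 0x0) (nat_lit 0x38039c00000000000000000000000000) := T_2 (nat_lit 112) (nat_lit 113) (nat_lit 2) (nat_lit 7) (nat_lit 7) L2557469 (by decide +kernel)
theorem L2557471 : W_2 (nat_lit 6) (nat_lit 0x58001c0000000000000000000000000000000) (nat_lit 0x0) (nat_lit 0x638039c00000000000000000000000000) := T_2 (nat_lit 129) (nat_lit 130) (nat_lit 1) (nat_lit 11) (nat_lit 7) L2557470 (by decide +kernel)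
theorem L2557472 : W_2 (nat_lit 6) (nat_lit 0x58001e0008000000000000000000000000000) (nat_lit 0x0) (nat_lit 0x400020000600000005800480024000000000000000000) := T_2 (nat_lit 142) (nat_lit 141) (nat_lit 2) (nat_lit 5) (nat_lit 8) L1545882 (by decide +kernel)
theorem L2557473 : W_2 (nat_lit 7) (nat_lit 0x58001e0000000000000000000000000000000) (nat_lit 0x0) (nat_lit 0x40002000060000001d800480024000000000000000000) := T_2 (nat_lit 111) (nat_lit 112) (nat_lit 2) (nat_lit 6) (nat_lit 7) L2557472 (by decide +kernel)
theorem L2557474 : W_2 (nat_lit 8) (nat_lit 0x58001c0000000000000000000000000000000) (nat_lit 0x0) (nat_lit 0x40002000070003801dc00480024000000000000000000) := Q_2 (nat_lit 125) (C_2 L1529104 (C_2 L1312793 (C_2 L2557473 N_2))) (by decide +kernel)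
theorem L2557475 : W_2 (nat_lit 9) (nat_lit 0x58000c0000000000000000000000000000000) (nat_lit 0x0) (nat_lit 0x40002000070073803dc00480024000000000000000000) := Q_2 (nat_lit 128) (C_2 L2557468 (C_2 L2557471 (C_2 L2557474 N_2))) (by decide +kernel)
theorem L2557476 : W_2 (nat_lit 7) (nat_lit 0x58000c0000000000000000000000000000000) (nat_lit 0x0) (nat_lit 0x4002300138001c00080004000000000000000000) := T_2 (nat_lit 125) (nat_lit 145) (nat_lit 0) (nat_lit 10) (nat_lit 8) L1257903 (by decide +kernel)
theorem L2557477 : W_2 (nat_lit 10) (nat_lit 0x58000e0000000000000000000000000000000) (nat_lit 0x0) (nat_lit 0x30001800dc007c003e000000000000000000) := T_2 (nat_lit 124) (nat_lit 123) (nat_lit 3) (nat_lit 4) (nat_lit 7) L1624145 (by decide +kernel)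
theorem L2557478 : W_2 (nat_lit 11) (nat_lit 0x58000c0000000000000000000000000000000) (nat_lit 0x0) (nat_lit 0x230003800dc007c003e000000000000000000) := T_2 (nat_lit 125) (nat_lit 145) (nat_lit 0) (nat_lit 10) (nat_lit 8) L2557477 (by decide +kernel)
theorem L2557479 : W_2 (nat_lit 2) (nat_lit 0xb00058003c001c000000000000000000000000000) (nat_lit 0x0) (nat_lit 0x2000100002000000000000000000000000000000000000) := D_2 (nat_lit 164) (nat_lit 145) (nat_lit 181) (nat_lit 3) (nat_lit 7) (nat_lit 8) (nat_lit 7) (nat_lit 10) (nat_lit 6) (by decide +kernel)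
theorem L2557480 : W_2 (nat_lit 3) (nat_lit 0x300058003c001c000000000000000000000000000) (nat_lit 0x0) (nat_lit 0x3000180002000000000000000000000000000000000000) := T_2 (nat_lit 163) (nat_lit 180) (nat_lit 4) (nat_lit 10) (nat_lit 10) L2557479 (by decide +kernel)
theorem L2557481 : W_2 (nat_lit 4) (nat_lit 0x300058003c0014000000000000000000000000000) (nat_lit 0x0) (nat_lit 0x3000180002000000008000400000000000000000000000) := T_2 (nat_lit 111) (nat_lit 94) (nat_lit 6) (nat_lit 8) (nat_lit 9) L2557480 (by decide +kernel)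
theorem L2557482 : W_2 (nat_lit 5) (nat_lit 0x300058003c0004000000000000000000000000000) (nat_lit 0x0) (nat_lit 0x3000180002000000038000400000000000000000000000) := T_2 (nat_lit 112) (nat_lit 113) (nat_lit 2) (nat_lit 7) (nat_lit 7) L2557481 (by decide +kernel)
theorem L2557483 : W_2 (nat_lit 6) (nat_lit 0x200058003c0004000000000000000000000000000) (nat_lit 0x0) (nat_lit 0x3200190002000000038000400000000000000000000000) := T_2 (nat_lit 160) (nat_lit 177) (nat_lit 6) (nat_lit 7) (nat_lit 10) L2557482 (by decide +kernel)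
theorem L2557484 : W_2 (nat_lit 7) (nat_lit 0x200058002c0004000000000000000000000000000) (nat_lit 0x0) (nat_lit 0x3200190002400100038000400000000000000000000000) := T_2 (nat_lit 128) (nat_lit 142) (nat_lit 1) (nat_lit 10) (nat_lit 7) L2557483 (by decide +kernel)
theorem L2557485 : W_2 (nat_lit 2) (nat_lit 0x200058002c000c000000000000000000000000000) (nat_lit 0x0) (nat_lit 0x400000000400100000000000000000000000000000000) := D_2 (nat_lit 128) (nat_lit 142) (nat_lit 178) (nat_lit 1) (nat_lit 10) (nat_lit 7) (nat_lit 6) (nat_lit 8) (nat_lit 10) (by decide +kernel)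
theorem L2557486 : W_2 (nat_lit 3) (nat_lit 0x200058002c0004000000000000000000000000000) (nat_lit 0x0) (nat_lit 0x400000000400100008000400000000000000000000000) := T_2 (nat_lit 111) (nat_lit 94) (nat_lit 6) (nat_lit 8) (nat_lit 9) L2557485 (by decide +kernel)
theorem L2557487 : W_2 (nat_lit 8) (nat_lit 0x58002c0004000000000000000000000000000) (nat_lit 0x0) (nat_lit 0xc0036001b0002400100038000400000000000000000000000) := Q_2 (nat_lit 161) (C_2 L2507411 (C_2 L2557484 (C_2 L2557486 N_2))) (by decide +kernel)
theorem L2557488 : W_2 (nat_lit 6) (nat_lit 0x58002c0004000200000000000000000000000) (nat_lit 0x0) (nat_lit 0x80000400100038000580028000000000000000000) := T_2 (nat_lit 128) (nat_lit 142) (nat_lit 1) (nat_lit 10) (nat_lit 7) L1115455 (by decide +kernel)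
theorem L2557489 : W_2 (nat_lit 7) (nat_lit 0x58002c0004000000000000000000000000000) (nat_lit 0x0) (nat_lit 0x80000400100038000780038000000000000000000) := T_2 (nat_lit 93) (nat_lit 76) (nat_lit 5) (nat_lit 8) (nat_lit 4) L2557488 (by decide +kernel)
theorem L2557490 : W_2 (nat_lit 9) (nat_lit 0x58002c0000000000000000000000000000000) (nat_lit 0x0) (nat_lit 0xc0036001b000240010003c000780038000000000000000000) := Q_2 (nat_lit 110) (C_2 L2557487 (C_2 L2507409 (C_2 L2557489 N_2))) (by decide +kernel)
theorem L2557491 : W_2 (nat_lit 2) (nat_lit 0x58002c0000000000000000000000000000000) (nat_lit 0x0) (nat_lit 0x400500000000000000000000000000000000) := D_2 (nat_lit 128) (nat_lit 142) (nat_lit 130) (nat_lit 1) (nat_lit 10) (nat_lit 7) (nat_lit 1) (nat_lit 11) (nat_lit 7) (by decide +kernel)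
theorem L2557492 : W_2 (nat_lit 11) (nat_lit 0x58000c0000000000000000000000000000000) (nat_lit 0x0) (nat_lit 0xa0007c003e001b000240070003c001f800f8004000000000000000) := Q_2 (nat_lit 129) (C_2 L2557490 (C_2 L2557491 (C_2 L1281214 N_2))) (by decide +kernel)
theorem L2557493 : W_2 (nat_lit 12) (nat_lit 0x5800080000000000000000000000000000000) (nat_lit 0x0) (nat_lit 0xa0007c003e001b400270077803dc01fc00fe004000000000000000) := Q_2 (nat_lit 126) (C_2 L2557467 (C_2 L2557475 (C_2 L2557476 (C_2 L2557478 (C_2 L2557492 N_2))))) (by decide +kernel)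
theorem L2557494 : W_2 (nat_lit 9) (nat_lit 0x5800080000000000000000000000000000000) (nat_lit 0x0) (nat_lit 0x40002001bf00270077c004000200000000000000000000000) := Q_2 (nat_lit 145) (C_2 L2513002 (C_2 L2513044 (C_2 L2513008 N_2))) (by decide +kernel)
theorem L2557495 : W_2 (nat_lit 18) (nat_lit 0x5000080000000000000000000000000000000) (nat_lit 0x0) (nat_lit 0x2000be01ffc07fe07bf802f8077e03dc01fe00ff007a801c000a000000) := Q_2 (nat_lit 143) (C_2 L2557457 (C_2 L2557458 (C_2 L2557459 (C_2 L2557460 (C_2 L2557462 (C_2 L2557463 (C_2 L2557464 (C_2 L2557466 (C_2 L2557493 (C_2 L2557494 N_2)))))))))) (by decide +kernel)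
theorem L2557496 : W_2 (nat_lit 6) (nat_lit 0x7000080000000000000000000000000000000) (nat_lit 0x0) (nat_lit 0x20001f000f00778004000200000000000000000000000) := Q_2 (nat_lit 143) (C_2 L2512993 (C_2 L2513008 (C_2 L2503873 N_2))) (by decide +kernel)
theorem L2557497 : W_2 (nat_lit 5) (nat_lit 0x7000080000000000000000000000000000000) (nat_lit 0x0) (nat_lit 0x38008800e40000000000000000000000000000000) := T_2 (nat_lit 147) (nat_lit 126) (nat_lit 0) (nat_lit 11) (nat_lit 8) L1866988 (by decide +kernel)
theorem L2557498 : W_2 (nat_lit 7) (nat_lit 0x5000080000000000000000000000000000000) (nat_lit 0x0) (nat_lit 0x60003f01af01f7800c000600000000000000000000000) := Q_2 (nat_lit 145) (C_2 L2557496 (C_2 L2557257 (C_2 L2503855 (C_2 L2513058 (C_2 L2557497 N_2))))) (by decide +kernel)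
theorem L2557499 : W_2 (nat_lit 19) (nat_lit 0x1000080000000000000000000000000000000) (nat_lit 0x0) (nat_lit 0xa001f000fe03ffc0ffe0fbf87ef87f7e1fde0fff0fff80ff807f000e800000) := Q_2 (nat_lit 146) (C_2 L2503854 (C_2 L2503880 (C_2 L2512988 (C_2 L2512991 (C_2 L2513010 (C_2 L2513046 (C_2 L2513059 (C_2 L2557256 (C_2 L2557258 (C_2 L2557495 (C_2 L2557498 N_2))))))))))) (by decide +kernel)
end Crest.Agent.Helper32.Snaky.R1_1
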