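import Crest.Agent.Helper32.Snaky.Gen.R1_1_p1
set_option autoImplicit false
set_option maxRecDepth 100000
set_option linter.all false
set_option Elab.async false
namespace Crest.Agent.Helper32.Snaky.R1_1
@[reducible] def W_3 (d M Bz Z : Nat) : Prop := Crest.Agent.Helper32.Snaky.Wins (nat_lit 17) d M Bz Z
theorem D_3 {d M Bz Z : Nat} (m t1 t2 o1 x1 y1 o2 x2 y2 : Nat) (h : Crest.Agent.Helper32.Snaky.chkDoubleC (nat_lit 17) d M Bz Z m t1 t2 o1 x1 y1 o2 x2 y2 = true) : W_3 d M Bz Z := Crest.Agent.Helper32.Snaky.doubleC m t1 t2 o1 x1 y1 o2 x2 y2 h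
theorem T_3 {d M Bz Z cd cM cBz cZ : Nat} (m t o x y : Nat) (child : W_3 cd cM cBz cZ) (h : Crest.Agent.Helper32.Snaky.chkThreatC (nat_lit 17) d M Bz Z cd cM cBz cZ m t o x y = true) : W_3 d M Bz Z := Crest.Agent.Helper32.Snaky.threatC m t o x y child h
theorem Q_3 {d M Bz Z : Nat} (m : Nat) {l : List Crest.Agent.Helper32.Snaky.Spec} (kids : Crest.Agent.Helper32.Snaky.AllWins (nat_lit 17) l) (h : Crest.Agent.Helper32.Snaky.chkQuiet d M Bz Z m l = true) : W_3 d M Bz Z := Crest.Agent.Helper32.Snaky.quiet m kids h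
theorem C_3 {cd cM cBz cZ : Nat} {l : List Crest.Agent.Helper32.Snaky.Spec} (h : W_3 cd cM cBz cZ) (hl : Crest.Agent.Helper32.Snaky.AllWins (nat_lit 17) l) : Crest.Agent.Helper32.Snaky.AllWins (nat_lit 17) ((cd, cM, cBz, cZ) :: l) := Crest.Agent.Helper32.Snaky.AllWins.cons h hl
theorem N_3 : Crest.Agent.Helper32.Snaky.AllWins (nat_lit 17) [] := Crest.Agent.Helper32.Snaky.AllWins.nil
theorem L24 : W_3 (nat_lit 6) (nat_lit 0x400020001000080000000000000000000000000000000) (nat_lit 0x0) (nat_lit 0x14001a0001c000000040006000000000000000000000000000) := T_3 (nat_lit 126) (nat_lit 109) (nat_lit 4) (nat_lit 8) (nat_lit 10) L23 (by decide +kernel)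
theorem L39 : W_3 (nat_lit 7) (nat_lit 0x20001000080000000000000000000000000000000) (nat_lit 0x0) (nat_lit 0x28001c001e0001c00000014000e000500000000000000000000000) := Q_3 (nat_lit 178) (C_3 L19 (C_3 L35 (C_3 L24 (C_3 L38 N_3)))) (by decide +kernel)
theorem L768 : W_3 (nat_lit 2) (nat_lit 0x20001000180004000200010000800000000000000) (nat_lit 0x0) (nat_lit 0x8000400020000000000) := D_3 (nat_lit 58) (nat_lit 75) (nat_lit 41) (nat_lit 4) (nat_lit 8) (nat_lit 7) (nat_lit 4) (nat_lit 8) (nat_lit 6) (by decide +kernel)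
theorem L1463 : W_3 (nat_lit 2) (nat_lit 0x20001000180004000200020000000000000000000) (nat_lit 0x0) (nat_lit 0x2000000000000000010001000000000000000) := D_3 (nat_lit 76) (nat_lit 145) (nat_lit 60) (nat_lit 7) (nat_lit 8) (nat_lit 4) (nat_lit 6) (nat_lit 8) (nat_lit 7) (by decide +kernel)
theorem L1464 : W_3 (nat_lit 3) (nat_lit 0x20001000180004000200000000000000000000000) (nat_lit 0x0) (nat_lit 0x2000000000000400030001000000000000000) := T_3 (nat_lit 77) (nat_lit 94) (nat_lit 6) (nat_lit 8) (nat_lit 8) L1463 (by decide +kernel)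
theorem L19841 : W_3 (nat_lit 2) (nat_lit 0x20001000180004000300020000000000000000000) (nat_lit 0x0) (nat_lit 0x2000000000000000010001000000000000000) := D_3 (nat_lit 76) (nat_lit 145) (nat_lit 60) (nat_lit 7) (nat_lit 8) (nat_lit 4) (nat_lit 6) (nat_lit 8) (nat_lit 7) (by decide +kernel)
theorem L19842 : W_3 (nat_lit 3) (nat_lit 0x20001000180004000300000000000000000000000) (nat_lit 0x0) (nat_lit 0x2000000000000400030001000000000000000) := T_3 (nat_lit 77) (nat_lit 94) (nat_lit 6) (nat_lit 8) (nat_lit 8) L19841 (by decide +kernel)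
theorem L19843 : W_3 (nat_lit 4) (nat_lit 0x20001000180004000100000000000000000000000) (nat_lit 0x0) (nat_lit 0x2000000000000600038001000000000000000) := T_3 (nat_lit 93) (nat_lit 75) (nat_lit 4) (nat_lit 8) (nat_lit 8) L19842 (by decide +kernel)
theorem L19844 : W_3 (nat_lit 5) (nat_lit 0x20001000180004000000000000000000000000000) (nat_lit 0x0) (nat_lit 0x2000000002000700038001000000000000000) := T_3 (nat_lit 92) (nat_lit 109) (nat_lit 4) (nat_lit 8) (nat_lit 9) L19843 (by decide +kernel)
theorem L76450 : W_3 (nat_lit 2) (nat_lit 0x1000180004000200010000000000000000000) (nat_lit 0x0) (nat_lit 0x400020001000000000000000) := D_3 (nat_lit 77) (nat_lit 94) (nat_lit 60) (nat_lit 6) (nat_lit 8) (nat_lit 8) (nat_lit 6) (nat_lit 8) (nat_lit 7) (by decide +kernel)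
theorem L76698 : W_3 (nat_lit 2) (nat_lit 0x11000780044000600000000000000000000000) (nat_lit 0x0) (nat_lit 0x20000800080000000000000000000000000000) := D_3 (nat_lit 131) (nat_lit 149) (nat_lit 115) (nat_lit 3) (nat_lit 9) (nat_lit 7) (nat_lit 2) (nat_lit 9) (nat_lit 7) (by decide +kernel)
theorem L76699 : W_3 (nat_lit 3) (nat_lit 0x11000780004000600000000000000000000000) (nat_lit 0x0) (nat_lit 0x200008000e0000000000000000000000000000) := T_3 (nat_lit 114) (nat_lit 113) (nat_lit 2) (nat_lit 8) (nat_lit 7) L76698 (by decide +kernel)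
theorem L76700 : W_3 (nat_lit 4) (nat_lit 0x1000780004000600000000000000000000000) (nat_lit 0x0) (nat_lit 0x380008000e0000000000000000000000000000) := T_3 (nat_lit 148) (nat_lit 147) (nat_lit 3) (nat_lit 8) (nat_lit 7) L76699 (by decide +kernel)
theorem L132061 : W_3 (nat_lit 2) (nat_lit 0x10000e0006000000000000000000000000000) (nat_lit 0x0) (nat_lit 0x2000018000000000000000000000000000000) := D_3 (nat_lit 124) (nat_lit 123) (nat_lit 145) (nat_lit 2) (nat_lit 4) (nat_lit 7) (nat_lit 3) (nat_lit 5) (nat_lit 7) (by decide +kernel)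
theorem L140017 : W_3 (nat_lit 2) (nat_lit 0x10003f0006000400000000000000000000000) (nat_lit 0x0) (nat_lit 0x700000000000000000000000000000000000) := D_3 (nat_lit 141) (nat_lit 142) (nat_lit 140) (nat_lit 1) (nat_lit 9) (nat_lit 7) (nat_lit 1) (nat_lit 8) (nat_lit 7) (by decide +kernel)
theorem L140018 : W_3 (nat_lit 3) (nat_lit 0x10003e0006000400000000000000000000000) (nat_lit 0x0) (nat_lit 0x700018000000000000000000000000000000) := T_3 (nat_lit 124) (nat_lit 123) (nat_lit 2) (nat_lit 4) (nat_lit 7) L140017 (by decide +kernel)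
theorem L142615 : W_3 (nat_lit 2) (nat_lit 0x1000380006000400000000000000000000000) (nat_lit 0x0) (nat_lit 0x40001800000000000000000000000000) := D_3 (nat_lit 108) (nat_lit 126) (nat_lit 107) (nat_lit 0) (nat_lit 10) (nat_lit 7) (nat_lit 3) (nat_lit 5) (nat_lit 6) (by decide +kernel)
theorem L170903 : W_3 (nat_lit 2) (nat_lit 0x10001e0006000000000000000000000000000) (nat_lit 0x0) (nat_lit 0x600001000000000000000000000000000) := D_3 (nat_lit 129) (nat_lit 108) (nat_lit 130) (nat_lit 0) (nat_lit 10) (nat_lit 7) (nat_lit 0) (nat_lit 11) (nat_lit 7) (by decide +kernel)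
theorem L188152 : W_3 (nat_lit 2) (nat_lit 0x10003c0014000400020000000000000000000) (nat_lit 0x0) (nat_lit 0xc000000000000800000000000000000000000) := D_3 (nat_lit 146) (nat_lit 147) (nat_lit 95) (nat_lit 3) (nat_lit 7) (nat_lit 7) (nat_lit 4) (nat_lit 10) (nat_lit 8) (by decide +kernel)
theorem L188153 : W_3 (nat_lit 3) (nat_lit 0x10003c0014000400000000000000000000000) (nat_lit 0x0) (nat_lit 0xc000000000000a00020000000000000000000) := T_3 (nat_lit 77) (nat_lit 93) (nat_lit 6) (nat_lit 8) (nat_lit 8) L188152 (by decide +kernel)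
theorem L188154 : W_3 (nat_lit 4) (nat_lit 0x10003c0004000400000000000000000000000) (nat_lit 0x0) (nat_lit 0xc000000030000a00020000000000000000000) := T_3 (nat_lit 112) (nat_lit 113) (nat_lit 2) (nat_lit 7) (nat_lit 7) L188153 (by decide +kernel)
theorem L188156 : W_3 (nat_lit 2) (nat_lit 0x52003f0014400400000000000000000000000) (nat_lit 0x0) (nat_lit 0x8002200000000000000000000000000) := D_3 (nat_lit 123) (nat_lit 109) (nat_lit 105) (nat_lit 2) (nat_lit 4) (nat_lit 7) (nat_lit 0) (nat_lit 7) (nat_lit 7) (by decide +kernel)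
theorem L188157 : W_3 (nat_lit 3) (nat_lit 0x52003f0014000400000000000000000000000) (nat_lit 0x0) (nat_lit 0x8002e00000000000000000000000000) := T_3 (nat_lit 106) (nat_lit 107) (nat_lit 0) (nat_lit 8) (nat_lit 7) L188156 (by decide +kernel)
theorem L188158 : W_3 (nat_lit 4) (nat_lit 0x52003e0014000400000000000000000000000) (nat_lit 0x0) (nat_lit 0x100018002e00000000000000000000000000) := T_3 (nat_lit 124) (nat_lit 140) (nat_lit 1) (nat_lit 8) (nat_lit 7) L188157 (by decide +kernel)
theorem L188159 : W_3 (nat_lit 5) (nat_lit 0x12003e0014000400000000000000000000000) (nat_lit 0x0) (nat_lit 0xc100018002e00000000000000000000000000) := T_3 (nat_lit 146) (nat_lit 147) (nat_lit 3) (nat_lit 7) (nat_lit 7) L188158 (by decide +kernel)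
theorem L188160 : W_3 (nat_lit 6) (nat_lit 0x10003e0014000400000000000000000000000) (nat_lit 0x0) (nat_lit 0xc700018002e00000000000000000000000000) := T_3 (nat_lit 141) (nat_lit 142) (nat_lit 1) (nat_lit 9) (nat_lit 7) L188159 (by decide +kernel)
theorem L188161 : W_3 (nat_lit 7) (nat_lit 0x10003e0004000400000000000000000000000) (nat_lit 0x0) (nat_lit 0xc700018032e00000000000000000000000000) := T_3 (nat_lit 112) (nat_lit 113) (nat_lit 2) (nat_lit 7) (nat_lit 7) L188160 (by decide +kernel)
theorem L208568 : W_3 (nat_lit 3) (nat_lit 0x1000180006000400000000000000000000000) (nat_lit 0x0) (nat_lit 0x640001800000000000000000000000000) := T_3 (nat_lit 129) (nat_lit 130) (nat_lit 0) (nat_lit 11) (nat_lit 7) L142615 (by decide +kernel)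
theorem L208584 : W_3 (nat_lit 2) (nat_lit 0x10007c0024000400000000000000000000000) (nat_lit 0x0) (nat_lit 0x1c000000000000000000000000000000000000) := D_3 (nat_lit 147) (nat_lit 148) (nat_lit 146) (nat_lit 3) (nat_lit 8) (nat_lit 7) (nat_lit 3) (nat_lit 7) (nat_lit 7) (by decide +kernel)
theorem L208585 : W_3 (nat_lit 3) (nat_lit 0x1000780024000400000000000000000000000) (nat_lit 0x0) (nat_lit 0x1c000040010000000000000000000000000000) := T_3 (nat_lit 126) (nat_lit 112) (nat_lit 2) (nat_lit 7) (nat_lit 7) L208584 (by decide +kernel)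
theorem L208586 : W_3 (nat_lit 4) (nat_lit 0x1000780004000400000000000000000000000) (nat_lit 0x0) (nat_lit 0x1c000040070000000000000000000000000000) := T_3 (nat_lit 113) (nat_lit 114) (nat_lit 2) (nat_lit 8) (nat_lit 7) L208585 (by decide +kernel)
theorem L208587 : W_3 (nat_lit 5) (nat_lit 0x1000380004000400000000000000000000000) (nat_lit 0x0) (nat_lit 0x1c000440072000000000000000000000000000) := T_3 (nat_lit 130) (nat_lit 109) (nat_lit 0) (nat_lit 11) (nat_lit 7) L208586 (by decide +kernel)
theorem L208588 : W_3 (nat_lit 2) (nat_lit 0x10003e0004000400000000000000000000000) (nat_lit 0x0) (nat_lit 0x3800000000000000000000000000) := D_3 (nat_lit 108) (nat_lit 109) (nat_lit 107) (nat_lit 0) (nat_lit 10) (nat_lit 7) (nat_lit 0) (nat_lit 9) (nat_lit 7) (by decide +kernel)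
theorem L208589 : W_3 (nat_lit 2) (nat_lit 0x12003e0004800400000000000000000000000) (nat_lit 0x0) (nat_lit 0x100010000400000000000000000000000000) := D_3 (nat_lit 124) (nat_lit 140) (nat_lit 106) (nat_lit 1) (nat_lit 8) (nat_lit 7) (nat_lit 0) (nat_lit 8) (nat_lit 7) (by decide +kernel)
theorem L208590 : W_3 (nat_lit 3) (nat_lit 0x12003e0004000400000000000000000000000) (nat_lit 0x0) (nat_lit 0x100010001c00000000000000000000000000) := T_3 (nat_lit 107) (nat_lit 108) (nat_lit 0) (nat_lit 9) (nat_lit 7) L208589 (by decide +kernel)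
theorem L208591 : W_3 (nat_lit 4) (nat_lit 0x10003e0004000400000000000000000000000) (nat_lit 0x0) (nat_lit 0x700010001c00000000000000000000000000) := T_3 (nat_lit 141) (nat_lit 142) (nat_lit 1) (nat_lit 9) (nat_lit 7) L208590 (by decide +kernel)
theorem L208592 : W_3 (nat_lit 4) (nat_lit 0x10003e0004000400000000000000000000000) (nat_lit 0x0) (nat_lit 0x700018003000000000000000000000000000) := T_3 (nat_lit 109) (nat_lit 108) (nat_lit 0) (nat_lit 10) (nat_lit 7) L140018 (by decide +kernel)
theorem L208593 : W_3 (nat_lit 8) (nat_lit 0x10003c0004000400000000000000000000000) (nat_lit 0x0) (nat_lit 0xc700038033e00000000000000000000000000) := Q_3 (nat_lit 125) (C_3 L208588 (C_3 L188161 (C_3 L208591 (C_3 L208592 N_3)))) (by decide +kernel)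
theorem L208633 : W_3 (nat_lit 5) (nat_lit 0x1000380004000600000000000000000000000) (nat_lit 0x0) (nat_lit 0x38000c000e2000000000000000000000000000) := T_3 (nat_lit 130) (nat_lit 109) (nat_lit 0) (nat_lit 11) (nat_lit 7) L76700 (by decide +kernel)
theorem L208700 : W_3 (nat_lit 2) (nat_lit 0x1000180004000200028000000000000000000) (nat_lit 0x0) (nat_lit 0x10001400000000000000) := D_3 (nat_lit 76) (nat_lit 58) (nat_lit 60) (nat_lit 4) (nat_lit 8) (nat_lit 7) (nat_lit 6) (nat_lit 8) (nat_lit 7) (by decide +kernel)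
theorem L208701 : W_3 (nat_lit 3) (nat_lit 0x1000180004000200008000000000000000000) (nat_lit 0x0) (nat_lit 0x400030001400000000000000) := T_3 (nat_lit 77) (nat_lit 94) (nat_lit 6) (nat_lit 8) (nat_lit 8) L208700 (by decide +kernel)
theorem L208702 : W_3 (nat_lit 4) (nat_lit 0x1000180004000200000000000000000000000) (nat_lit 0x0) (nat_lit 0x500038001400000000000000) := T_3 (nat_lit 75) (nat_lit 92) (nat_lit 4) (nat_lit 8) (nat_lit 8) L208701 (by decide +kernel)
theorem L208705 : W_3 (nat_lit 5) (nat_lit 0x1000180006000000000000000000000000000) (nat_lit 0x0) (nat_lit 0x4000600030000000040001800100000000000000000000000) := T_3 (nat_lit 161) (nat_lit 92) (nat_lit 4) (nat_lit 8) (nat_lit 9) L130998 (by decide +kernel)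
theorem L208706 : W_3 (nat_lit 2) (nat_lit 0x1000580006800100000000000000000000000) (nat_lit 0x0) (nat_lit 0x200008000400000000000000) := D_3 (nat_lit 75) (nat_lit 93) (nat_lit 58) (nat_lit 4) (nat_lit 8) (nat_lit 8) (nat_lit 7) (nat_lit 7) (nat_lit 3) (by decide +kernel)
theorem L208707 : W_3 (nat_lit 3) (nat_lit 0x1000580006800000000000000000000000000) (nat_lit 0x0) (nat_lit 0x20000000000000000300008000400000000000000) := T_3 (nat_lit 92) (nat_lit 161) (nat_lit 4) (nat_lit 8) (nat_lit 9) L208706 (by decide +kernel)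
theorem L208708 : W_3 (nat_lit 4) (nat_lit 0x1000180006800000000000000000000000000) (nat_lit 0x0) (nat_lit 0x20000000600000000300008000400000000000000) := T_3 (nat_lit 130) (nat_lit 129) (nat_lit 0) (nat_lit 11) (nat_lit 7) L208707 (by decide +kernel)
theorem L208709 : W_3 (nat_lit 5) (nat_lit 0x1000180006000000000000000000000000000) (nat_lit 0x0) (nat_lit 0x20000000600001800300008000400000000000000) := T_3 (nat_lit 107) (nat_lit 108) (nat_lit 3) (nat_lit 5) (nat_lit 6) L208708 (by decide +kernel)
theorem L208710 : W_3 (nat_lit 2) (nat_lit 0x200020001000580006000000000000000000000000000) (nat_lit 0x0) (nat_lit 0x4000400000000000040000000000000000000000000000000) := D_3 (nat_lit 178) (nat_lit 126) (nat_lit 194) (nat_lit 4) (nat_lit 8) (nat_lit 10) (nat_lit 5) (nat_lit 8) (nat_lit 7) (by decide +kernel)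
theorem L208711 : W_3 (nat_lit 3) (nat_lit 0x20001000580006000000000000000000000000000) (nat_lit 0x0) (nat_lit 0x4000600010000000040000000000000000000000000000000) := T_3 (nat_lit 177) (nat_lit 160) (nat_lit 5) (nat_lit 8) (nat_lit 6) L208710 (by decide +kernel)
theorem L208712 : W_3 (nat_lit 4) (nat_lit 0x20001000180006000000000000000000000000000) (nat_lit 0x0) (nat_lit 0x4000600010000000640000000000000000000000000000000) := T_3 (nat_lit 130) (nat_lit 129) (nat_lit 0) (nat_lit 11) (nat_lit 7) L208711 (by decide +kernel)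
theorem L208713 : W_3 (nat_lit 5) (nat_lit 0x1000180006000000000000000000000000000) (nat_lit 0x0) (nat_lit 0x4000600030000000640000000100000000000000000000000) := T_3 (nat_lit 161) (nat_lit 92) (nat_lit 4) (nat_lit 8) (nat_lit 9) L208712 (by decide +kernel)
theorem L208714 : W_3 (nat_lit 6) (nat_lit 0x1000180004000000000000000000000000000) (nat_lit 0x0) (nat_lit 0x4000600030000000640003800300008000400000000000000) := Q_3 (nat_lit 109) (C_3 L130609 (C_3 L208705 (C_3 L208709 (C_3 L208713 N_3)))) (by decide +kernel)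
theorem L211824 : W_3 (nat_lit 2) (nat_lit 0xd000780024000600000000000000000000000) (nat_lit 0x0) (nat_lit 0x80000000000000001000080000000000000000000) := D_3 (nat_lit 96) (nat_lit 79) (nat_lit 163) (nat_lit 5) (nat_lit 11) (nat_lit 4) (nat_lit 5) (nat_lit 11) (nat_lit 5) (by decide +kernel)
theorem L216906 : W_3 (nat_lit 2) (nat_lit 0x11000780044000000000000000000000000000) (nat_lit 0x0) (nat_lit 0x20000800080000000000000000000000000000) := D_3 (nat_lit 131) (nat_lit 115) (nat_lit 149) (nat_lit 2) (nat_lit 9) (nat_lit 7) (nat_lit 3) (nat_lit 9) (nat_lit 7) (by decide +kernel)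
theorem L216907 : W_3 (nat_lit 3) (nat_lit 0x1000780044000000000000000000000000000) (nat_lit 0x0) (nat_lit 0x38000800080000000000000000000000000000) := T_3 (nat_lit 148) (nat_lit 147) (nat_lit 3) (nat_lit 8) (nat_lit 7) L216906 (by decide +kernel)
theorem L216908 : W_3 (nat_lit 4) (nat_lit 0x1000780004000000000000000000000000000) (nat_lit 0x0) (nat_lit 0x380008000e0000000000000000000000000000) := T_3 (nat_lit 114) (nat_lit 113) (nat_lit 2) (nat_lit 8) (nat_lit 7) L216907 (by decide +kernel)
theorem L216909 : W_3 (nat_lit 2) (nat_lit 0x21000f80084000000000000000000000000000) (nat_lit 0x0) (nat_lit 0x40001000100000000000000000000000000000) := D_3 (nat_lit 132) (nat_lit 150) (nat_lit 116) (nat_lit 3) (nat_lit 10) (nat_lit 7) (nat_lit 2) (nat_lit 10) (nat_lit 7) (by decide +kernel)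
theorem L216910 : W_3 (nat_lit 3) (nat_lit 0x21000f80004000000000000000000000000000) (nat_lit 0x0) (nat_lit 0x400010001c0000000000000000000000000000) := T_3 (nat_lit 115) (nat_lit 114) (nat_lit 2) (nat_lit 9) (nat_lit 7) L216909 (by decide +kernel)
theorem L216911 : W_3 (nat_lit 4) (nat_lit 0x1000f80004000000000000000000000000000) (nat_lit 0x0) (nat_lit 0x700010001c0000000000000000000000000000) := T_3 (nat_lit 149) (nat_lit 148) (nat_lit 3) (nat_lit 9) (nat_lit 7) L216910 (by decide +kernel)
theorem L216962 : W_3 (nat_lit 2) (nat_lit 0x10007800340018001c0000000000000000000) (nat_lit 0x0) (nat_lit 0x400600000000000000000000) := D_3 (nat_lit 81) (nat_lit 82) (nat_lit 94) (nat_lit 1) (nat_lit 14) (nat_lit 4) (nat_lit 1) (nat_lit 13) (nat_lit 4) (by decide +kernel)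
theorem L216963 : W_3 (nat_lit 3) (nat_lit 0x10007800340018000c0000000000000000000) (nat_lit 0x0) (nat_lit 0x400700008000000000000000) := T_3 (nat_lit 80) (nat_lit 63) (nat_lit 6) (nat_lit 11) (nat_lit 7) L216962 (by decide +kernel)
theorem L216964 : W_3 (nat_lit 4) (nat_lit 0x10007800340008000c0000000000000000000) (nat_lit 0x0) (nat_lit 0x4000000000001400700008000000000000000) := T_3 (nat_lit 96) (nat_lit 146) (nat_lit 6) (nat_lit 10) (nat_lit 8) L216963 (by decide +kernel)
theorem L216965 : W_3 (nat_lit 5) (nat_lit 0x1000780034000800040000000000000000000) (nat_lit 0x0) (nat_lit 0x400000000000140078000c000000000000000) := T_3 (nat_lit 79) (nat_lit 62) (nat_lit 6) (nat_lit 10) (nat_lit 7) L216964 (by decide +kernel)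
theorem L218378 : W_3 (nat_lit 2) (nat_lit 0x1000380034000400000000000000000000000) (nat_lit 0x0) (nat_lit 0x4000c0000000000000000000000000000) := D_3 (nat_lit 114) (nat_lit 130) (nat_lit 115) (nat_lit 2) (nat_lit 8) (nat_lit 7) (nat_lit 1) (nat_lit 13) (nat_lit 6) (by decide +kernel)
theorem L218379 : W_3 (nat_lit 3) (nat_lit 0x1000380024000400000000000000000000000) (nat_lit 0x0) (nat_lit 0x4400d0000000000000000000000000000) := T_3 (nat_lit 112) (nat_lit 126) (nat_lit 2) (nat_lit 7) (nat_lit 7) L218378 (by decide +kernel)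
theorem L284556 : W_3 (nat_lit 2) (nat_lit 0x94007e0049000000020000000000000000000) (nat_lit 0x0) (nat_lit 0x800084000000000000000000000000000) := D_3 (nat_lit 131) (nat_lit 110) (nat_lit 115) (nat_lit 0) (nat_lit 12) (nat_lit 7) (nat_lit 2) (nat_lit 9) (nat_lit 7) (by decide +kernel)
theorem L284557 : W_3 (nat_lit 3) (nat_lit 0x94007e0009000000020000000000000000000) (nat_lit 0x0) (nat_lit 0x8000e4000000000000000000000000000) := T_3 (nat_lit 114) (nat_lit 113) (nat_lit 2) (nat_lit 8) (nat_lit 7) L284556 (by decide +kernel)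
theorem L284558 : W_3 (nat_lit 4) (nat_lit 0x94003e0009000000020000000000000000000) (nat_lit 0x0) (nat_lit 0x10000c000e4000000000000000000000000000) := T_3 (nat_lit 130) (nat_lit 148) (nat_lit 3) (nat_lit 8) (nat_lit 7) L284557 (by decide +kernel)
theorem L284559 : W_3 (nat_lit 5) (nat_lit 0x14003e0009000000020000000000000000000) (nat_lit 0x0) (nat_lit 0x1c000c000e4000000000000000000000000000) := T_3 (nat_lit 147) (nat_lit 146) (nat_lit 3) (nat_lit 7) (nat_lit 7) L284558 (by decide +kernel)
theorem L284560 : W_3 (nat_lit 6) (nat_lit 0x10003e0009000000020000000000000000000) (nat_lit 0x0) (nat_lit 0x1c600c000e4000000000000000000000000000) := T_3 (nat_lit 142) (nat_lit 141) (nat_lit 1) (nat_lit 9) (nat_lit 7) L284559 (by decide +kernel)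
theorem L284561 : W_3 (nat_lit 7) (nat_lit 0x10001e0009000000020000000000000000000) (nat_lit 0x0) (nat_lit 0x1c600e000e6000000000000000000000000000) := T_3 (nat_lit 129) (nat_lit 109) (nat_lit 0) (nat_lit 10) (nat_lit 7) L284560 (by decide +kernel)
theorem L284562 : W_3 (nat_lit 8) (nat_lit 0x10001e0009000000000000000000000000000) (nat_lit 0x0) (nat_lit 0x1c600e000e6000400020000000000000000000) := T_3 (nat_lit 77) (nat_lit 94) (nat_lit 5) (nat_lit 9) (nat_lit 4) L284561 (by decide +kernel)
theorem L284563 : W_3 (nat_lit 9) (nat_lit 0x10001e0008000000000000000000000000000) (nat_lit 0x0) (nat_lit 0x1c600e000e7800400020000000000000000000) := T_3 (nat_lit 108) (nat_lit 107) (nat_lit 0) (nat_lit 9) (nat_lit 7) L284562 (by decide +kernel)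
theorem L286768 : W_3 (nat_lit 2) (nat_lit 0x11000f0003000000008000000000000000000) (nat_lit 0x0) (nat_lit 0x8000c000000000000000000000000000000) := D_3 (nat_lit 123) (nat_lit 122) (nat_lit 139) (nat_lit 2) (nat_lit 3) (nat_lit 7) (nat_lit 1) (nat_lit 7) (nat_lit 7) (by decide +kernel)
theorem L286769 : W_3 (nat_lit 3) (nat_lit 0x10000f0003000000008000000000000000000) (nat_lit 0x0) (nat_lit 0x38000c000000000000000000000000000000) := T_3 (nat_lit 140) (nat_lit 141) (nat_lit 1) (nat_lit 8) (nat_lit 7) L286768 (by decide +kernel)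
theorem L286770 : W_3 (nat_lit 4) (nat_lit 0x10000f0003000000000000000000000000000) (nat_lit 0x0) (nat_lit 0x38000c000000100008000000000000000000) := T_3 (nat_lit 75) (nat_lit 92) (nat_lit 7) (nat_lit 7) (nat_lit 4) L286769 (by decide +kernel)
theorem L287579 : W_3 (nat_lit 2) (nat_lit 0x10000e0003000080008000000000000000000) (nat_lit 0x0) (nat_lit 0x4000600000000000000) := D_3 (nat_lit 74) (nat_lit 58) (nat_lit 57) (nat_lit 6) (nat_lit 6) (nat_lit 7) (nat_lit 7) (nat_lit 6) (nat_lit 3) (by decide +kernel)
theorem L298929 : W_3 (nat_lit 2) (nat_lit 0x10000f000340008000c000000000000000000) (nat_lit 0x0) (nat_lit 0xc000200000000000000000000000000) := D_3 (nat_lit 123) (nat_lit 122) (nat_lit 105) (nat_lit 2) (nat_lit 3) (nat_lit 7) (nat_lit 0) (nat_lit 7) (nat_lit 7) (by decide +kernel)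
theorem L298930 : W_3 (nat_lit 3) (nat_lit 0x10000e000340008000c000000000000000000) (nat_lit 0x0) (nat_lit 0x20001c000200000000000000000000000000) := T_3 (nat_lit 124) (nat_lit 141) (nat_lit 5) (nat_lit 6) (nat_lit 4) L298929 (by decide +kernel)
theorem L298950 : W_3 (nat_lit 4) (nat_lit 0x10000c000340008000c000000000000000000) (nat_lit 0x0) (nat_lit 0x20003c000200000000000400000000000000) := T_3 (nat_lit 125) (nat_lit 58) (nat_lit 6) (nat_lit 6) (nat_lit 7) L298930 (by decide +kernel)
theorem L298951 : W_3 (nat_lit 5) (nat_lit 0x10000c0003400080004000000000000000000) (nat_lit 0x0) (nat_lit 0x20003c000200100008000400000000000000) := T_3 (nat_lit 75) (nat_lit 92) (nat_lit 7) (nat_lit 7) (nat_lit 4) L298950 (by decide +kernel)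
theorem L317823 : W_3 (nat_lit 2) (nat_lit 0x200012001e0008800000000000000000000000000) (nat_lit 0x0) (nat_lit 0x100010000400000000000000000000000000) := D_3 (nat_lit 124) (nat_lit 140) (nat_lit 106) (nat_lit 1) (nat_lit 8) (nat_lit 7) (nat_lit 0) (nat_lit 8) (nat_lit 7) (by decide +kernel)
theorem L317824 : W_3 (nat_lit 3) (nat_lit 0x200012001e0008000000000000000000000000000) (nat_lit 0x0) (nat_lit 0x100010001c00000000000000000000000000) := T_3 (nat_lit 107) (nat_lit 108) (nat_lit 0) (nat_lit 9) (nat_lit 7) L317823 (by decide +kernel)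
theorem L317825 : W_3 (nat_lit 4) (nat_lit 0x200010001e0008000000000000000000000000000) (nat_lit 0x0) (nat_lit 0x700010001c00000000000000000000000000) := T_3 (nat_lit 141) (nat_lit 142) (nat_lit 1) (nat_lit 9) (nat_lit 7) L317824 (by decide +kernel)
theorem L317826 : W_3 (nat_lit 5) (nat_lit 0x200010001c0008000000000000000000000000000) (nat_lit 0x0) (nat_lit 0x700030011c00000000000000000000000000) := T_3 (nat_lit 125) (nat_lit 112) (nat_lit 2) (nat_lit 6) (nat_lit 7) L317825 (by decide +kernel)
theorem L321564 : W_3 (nat_lit 2) (nat_lit 0x1000f800200010001c0000000000000000000000000000000) (nat_lit 0x0) (nat_lit 0xe000000000000000000000000000000000000000) := D_3 (nat_lit 158) (nat_lit 159) (nat_lit 157) (nat_lit 0) (nat_lit 9) (nat_lit 10) (nat_lit 0) (nat_lit 8) (nat_lit 10) (by decide +kernel)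
theorem L321593 : W_3 (nat_lit 2) (nat_lit 0x1000f800220010001c0000000000000000000000000000000) (nat_lit 0x0) (nat_lit 0x40011000000000000000000000000000000000000000) := D_3 (nat_lit 174) (nat_lit 160) (nat_lit 156) (nat_lit 2) (nat_lit 4) (nat_lit 10) (nat_lit 0) (nat_lit 7) (nat_lit 10) (by decide +kernel)
theorem L321594 : W_3 (nat_lit 3) (nat_lit 0x1000f800200010001c0000000000000000000000000000000) (nat_lit 0x0) (nat_lit 0x40017000000000000000000000000000000000000000) := T_3 (nat_lit 157) (nat_lit 158) (nat_lit 0) (nat_lit 8) (nat_lit 10) L321593 (by decide +kernel)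
theorem L321595 : W_3 (nat_lit 4) (nat_lit 0x1000f000200010001c0000000000000000000000000000000) (nat_lit 0x0) (nat_lit 0x8000c0017000000000000000000000000000000000000000) := T_3 (nat_lit 175) (nat_lit 191) (nat_lit 1) (nat_lit 8) (nat_lit 10) L321594 (by decide +kernel)
theorem L321596 : W_3 (nat_lit 5) (nat_lit 0xf000200010001c0000000000000000000000000000000) (nat_lit 0x0) (nat_lit 0x38000c0017000000000000000000000000000000000000000) := T_3 (nat_lit 192) (nat_lit 193) (nat_lit 1) (nat_lit 9) (nat_lit 10) L321595 (by decide +kernel)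
theorem L321599 : W_3 (nat_lit 2) (nat_lit 0x1000f800300010001c0000000000000000000000000000000) (nat_lit 0x0) (nat_lit 0x3000008000000000000000000000000000000000000000) := D_3 (nat_lit 180) (nat_lit 181) (nat_lit 159) (nat_lit 0) (nat_lit 11) (nat_lit 10) (nat_lit 0) (nat_lit 10) (nat_lit 10) (by decide +kernel)
theorem L321600 : W_3 (nat_lit 3) (nat_lit 0x1000f800200010001c0000000000000000000000000000000) (nat_lit 0x0) (nat_lit 0x3040018000000000000000000000000000000000000000) := T_3 (nat_lit 160) (nat_lit 174) (nat_lit 2) (nat_lit 4) (nat_lit 10) L321599 (by decide +kernel)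
theorem L321601 : W_3 (nat_lit 4) (nat_lit 0x1000f000200010001c0000000000000000000000000000000) (nat_lit 0x0) (nat_lit 0x8030c0018000000000000000000000000000000000000000) := T_3 (nat_lit 175) (nat_lit 191) (nat_lit 1) (nat_lit 8) (nat_lit 10) L321600 (by decide +kernel)
theorem L321605 : W_3 (nat_lit 2) (nat_lit 0x40001f001280010001c0000000000000000000000000000000) (nat_lit 0x0) (nat_lit 0x80002000200000000000000000000000000000000000000000) := D_3 (nat_lit 181) (nat_lit 199) (nat_lit 165) (nat_lit 3) (nat_lit 8) (nat_lit 10) (nat_lit 2) (nat_lit 8) (nat_lit 10) (by decide +kernel)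
theorem L321606 : W_3 (nat_lit 3) (nat_lit 0x40001f000280010001c0000000000000000000000000000000) (nat_lit 0x0) (nat_lit 0x80002000380000000000000000000000000000000000000000) := T_3 (nat_lit 164) (nat_lit 163) (nat_lit 2) (nat_lit 7) (nat_lit 10) L321605 (by decide +kernel)
theorem L321607 : W_3 (nat_lit 4) (nat_lit 0x1f000280010001c0000000000000000000000000000000) (nat_lit 0x0) (nat_lit 0xe0002000380000000000000000000000000000000000000000) := T_3 (nat_lit 198) (nat_lit 197) (nat_lit 3) (nat_lit 7) (nat_lit 10) L321606 (by decide +kernel)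
theorem L321608 : W_3 (nat_lit 5) (nat_lit 0xf000280010001c0000000000000000000000000000000) (nat_lit 0x0) (nat_lit 0xe0003000390000000000000000000000000000000000000000) := T_3 (nat_lit 180) (nat_lit 160) (nat_lit 0) (nat_lit 10) (nat_lit 10) L321607 (by decide +kernel)
theorem L321609 : W_3 (nat_lit 6) (nat_lit 0xf000200010001c0000000000000000000000000000000) (nat_lit 0x0) (nat_lit 0xe000300039c000000000000000000000000000000000000000) := T_3 (nat_lit 159) (nat_lit 158) (nat_lit 0) (nat_lit 9) (nat_lit 10) L321608 (by decide +kernel)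
theorem L339446 : W_3 (nat_lit 2) (nat_lit 0x34001e0009000e00000000000000000000000) (nat_lit 0x0) (nat_lit 0x6000100000000000000000000000) := D_3 (nat_lit 109) (nat_lit 110) (nat_lit 92) (nat_lit 2) (nat_lit 6) (nat_lit 6) (nat_lit 1) (nat_lit 10) (nat_lit 5) (by decide +kernel)
theorem L339447 : W_3 (nat_lit 3) (nat_lit 0x34001e0009000600000000000000000000000) (nat_lit 0x0) (nat_lit 0x6000900040000000000000000000) := T_3 (nat_lit 95) (nat_lit 78) (nat_lit 6) (nat_lit 9) (nat_lit 8) L339446 (by decide +kernel)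
theorem L339448 : W_3 (nat_lit 4) (nat_lit 0x34001e0009000400000000000000000000000) (nat_lit 0x0) (nat_lit 0x6000b00050000000000000000000) := T_3 (nat_lit 93) (nat_lit 76) (nat_lit 4) (nat_lit 9) (nat_lit 8) L339447 (by decide +kernel)
theorem L339449 : W_3 (nat_lit 5) (nat_lit 0x34001e0009000000000000000000000000000) (nat_lit 0x0) (nat_lit 0x6000f00070000000000000000000) := T_3 (nat_lit 94) (nat_lit 77) (nat_lit 5) (nat_lit 9) (nat_lit 4) L339448 (by decide +kernel)
theorem L339450 : W_3 (nat_lit 6) (nat_lit 0x14001e0009000000000000000000000000000) (nat_lit 0x0) (nat_lit 0x6000000006000f00070000000000000000000) := T_3 (nat_lit 145) (nat_lit 146) (nat_lit 3) (nat_lit 6) (nat_lit 7) L339449 (by decide +kernel)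
theorem L339451 : W_3 (nat_lit 7) (nat_lit 0x14001e0001000000000000000000000000000) (nat_lit 0x0) (nat_lit 0x600000001e000f00070000000000000000000) := T_3 (nat_lit 111) (nat_lit 112) (nat_lit 2) (nat_lit 6) (nat_lit 7) L339450 (by decide +kernel)
theorem L339452 : W_3 (nat_lit 8) (nat_lit 0x10001e0001000000000000000000000000000) (nat_lit 0x0) (nat_lit 0x660000001e000f00070000000000000000000) := T_3 (nat_lit 142) (nat_lit 141) (nat_lit 1) (nat_lit 9) (nat_lit 7) L339451 (by decide +kernel)
theorem L339453 : W_3 (nat_lit 9) (nat_lit 0x10001e0000000000000000000000000000000) (nat_lit 0x0) (nat_lit 0x660000001f800f00070000000000000000000) := T_3 (nat_lit 108) (nat_lit 107) (nat_lit 0) (nat_lit 9) (nat_lit 7) L339452 (by decide +kernel)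
theorem L339984 : W_3 (nat_lit 2) (nat_lit 0x200050003e0000000000000000000000000000000) (nat_lit 0x0) (nat_lit 0x38000000000000000000000000000) := D_3 (nat_lit 112) (nat_lit 113) (nat_lit 111) (nat_lit 2) (nat_lit 7) (nat_lit 7) (nat_lit 2) (nat_lit 6) (nat_lit 7) (by decide +kernel)
theorem L346050 : W_3 (nat_lit 2) (nat_lit 0x200010001e0003000000000000000000000000000) (nat_lit 0x0) (nat_lit 0x4000100008000000000000000000) := D_3 (nat_lit 92) (nat_lit 75) (nat_lit 110) (nat_lit 7) (nat_lit 7) (nat_lit 4) (nat_lit 4) (nat_lit 8) (nat_lit 9) (by decide +kernel)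
theorem L346051 : W_3 (nat_lit 3) (nat_lit 0x10001e0003000000000000000000000000000) (nat_lit 0x0) (nat_lit 0x400020000000000004000100008000000000000000000) := T_3 (nat_lit 161) (nat_lit 178) (nat_lit 4) (nat_lit 8) (nat_lit 10) L346050 (by decide +kernel)
theorem L346052 : W_3 (nat_lit 4) (nat_lit 0x10001e0002000000000000000000000000000) (nat_lit 0x0) (nat_lit 0x400020000000000005800100008000000000000000000) := T_3 (nat_lit 108) (nat_lit 107) (nat_lit 0) (nat_lit 9) (nat_lit 7) L346051 (by decide +kernel)
theorem L346061 : W_3 (nat_lit 8) (nat_lit 0x10001e0000000000000000000000000000000) (nat_lit 0x0) (nat_lit 0x78003c002600000007800100008000000000000000000) := Q_3 (nat_lit 109) (C_3 L285908 (C_3 L346052 (C_3 L346054 (C_3 L346060 N_3)))) (by decide +kernel)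
theorem L346070 : W_3 (nat_lit 3) (nat_lit 0x10000e0003000080000000000000000000000) (nat_lit 0x0) (nat_lit 0x10000c000600000000000000) := T_3 (nat_lit 75) (nat_lit 92) (nat_lit 7) (nat_lit 7) (nat_lit 4) L287579 (by decide +kernel)
theorem L499546 : W_3 (nat_lit 2) (nat_lit 0x10001e0000000000000000000000000000000) (nat_lit 0x0) (nat_lit 0x6000010000000000000000000000000000000) := D_3 (nat_lit 145) (nat_lit 146) (nat_lit 124) (nat_lit 3) (nat_lit 6) (nat_lit 7) (nat_lit 3) (nat_lit 5) (nat_lit 7) (by decide +kernel)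
theorem L499560 : W_3 (nat_lit 8) (nat_lit 0x10001c0000000000000000000000000000000) (nat_lit 0x0) (nat_lit 0x3e700e30071c00000000000000000000000000) := Q_3 (nat_lit 125) (C_3 L339465 (C_3 L499546 (C_3 L499559 N_3))) (by decide +kernel)
theorem L499561 : W_3 (nat_lit 4) (nat_lit 0x10003c0000000000000000000000000000000) (nat_lit 0x0) (nat_lit 0x1c000400007000000000000000000000000000) := T_3 (nat_lit 109) (nat_lit 108) (nat_lit 0) (nat_lit 10) (nat_lit 7) L346014 (by decide +kernel)
theorem L499591 : W_3 (nat_lit 2) (nat_lit 0x200010001c0002000000000000000000000000000) (nat_lit 0x0) (nat_lit 0x4000100008000000000000000000) := D_3 (nat_lit 92) (nat_lit 75) (nat_lit 110) (nat_lit 7) (nat_lit 7) (nat_lit 4) (nat_lit 4) (nat_lit 8) (nat_lit 9) (by decide +kernel)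
theorem L499592 : W_3 (nat_lit 3) (nat_lit 0x10001c0002000000000000000000000000000) (nat_lit 0x0) (nat_lit 0x400020000000000004000100008000000000000000000) := T_3 (nat_lit 161) (nat_lit 178) (nat_lit 4) (nat_lit 8) (nat_lit 10) L499591 (by decide +kernel)
theorem L499594 : W_3 (nat_lit 9) (nat_lit 0x10001c0000000000000000000000000000000) (nat_lit 0x0) (nat_lit 0x78003c006700030007c00100008000000000000000000) := Q_3 (nat_lit 125) (C_3 L499546 (C_3 L339465 (C_3 L346061 N_3))) (by decide +kernel)
theorem L499595 : W_3 (nat_lit 2) (nat_lit 0x1000fc0012000000008000000000000000000) (nat_lit 0x0) (nat_lit 0x38000000000000000000000000000000000000) := D_3 (nat_lit 148) (nat_lit 147) (nat_lit 149) (nat_lit 3) (nat_lit 8) (nat_lit 7) (nat_lit 3) (nat_lit 9) (nat_lit 7) (by decide +kernel)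
theorem L499596 : W_3 (nat_lit 3) (nat_lit 0x10007c0012000000008000000000000000000) (nat_lit 0x0) (nat_lit 0x3a000800000000000000000000000000000000) := T_3 (nat_lit 131) (nat_lit 145) (nat_lit 1) (nat_lit 12) (nat_lit 7) L499595 (by decide +kernel)
theorem L499597 : W_3 (nat_lit 4) (nat_lit 0x10003c0012000000008000000000000000000) (nat_lit 0x0) (nat_lit 0x3a000c00004000000000000000000000000000) := T_3 (nat_lit 130) (nat_lit 110) (nat_lit 0) (nat_lit 11) (nat_lit 7) L499596 (by decide +kernel)
theorem L499598 : W_3 (nat_lit 5) (nat_lit 0x10003c0002000000008000000000000000000) (nat_lit 0x0) (nat_lit 0x3a000c00034000000000000000000000000000) := T_3 (nat_lit 112) (nat_lit 113) (nat_lit 2) (nat_lit 7) (nat_lit 7) L499597 (by decide +kernel)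
theorem L499599 : W_3 (nat_lit 6) (nat_lit 0x10003c0002000000000000000000000000000) (nat_lit 0x0) (nat_lit 0x3a000c00034000100008000000000000000000) := T_3 (nat_lit 75) (nat_lit 92) (nat_lit 7) (nat_lit 7) (nat_lit 4) L499598 (by decide +kernel)
theorem L499600 : W_3 (nat_lit 7) (nat_lit 0x10001c0002000000000000000000000000000) (nat_lit 0x0) (nat_lit 0x3a000e00035000100008000000000000000000) := T_3 (nat_lit 129) (nat_lit 108) (nat_lit 0) (nat_lit 10) (nat_lit 7) L499599 (by decide +kernel)
theorem L499601 : W_3 (nat_lit 2) (nat_lit 0x400000001000fc0022000000008000000000000000000) (nat_lit 0x0) (nat_lit 0x38000000000000000000000000000000000000) := D_3 (nat_lit 148) (nat_lit 147) (nat_lit 149) (nat_lit 3) (nat_lit 8) (nat_lit 7) (nat_lit 3) (nat_lit 9) (nat_lit 7) (by decide +kernel)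
theorem L499602 : W_3 (nat_lit 3) (nat_lit 0x4000000010007c0022000000008000000000000000000) (nat_lit 0x0) (nat_lit 0x3a000800000000000000000000000000000000) := T_3 (nat_lit 131) (nat_lit 145) (nat_lit 1) (nat_lit 12) (nat_lit 7) L499601 (by decide +kernel)
theorem L499603 : W_3 (nat_lit 4) (nat_lit 0x4000000010003c0022000000008000000000000000000) (nat_lit 0x0) (nat_lit 0x3a000c00040000000000000000000000000000) := T_3 (nat_lit 130) (nat_lit 114) (nat_lit 2) (nat_lit 8) (nat_lit 7) L499602 (by decide +kernel)
theorem L499604 : W_3 (nat_lit 5) (nat_lit 0x4000000010003c0022000000000000000000000000000) (nat_lit 0x0) (nat_lit 0x3a000c00040000100008000000000000000000) := T_3 (nat_lit 75) (nat_lit 92) (nat_lit 7) (nat_lit 7) (nat_lit 4) L499603 (by decide +kernel)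
theorem L499605 : W_3 (nat_lit 6) (nat_lit 0x4000000010003c0002000000000000000000000000000) (nat_lit 0x0) (nat_lit 0x3a000c00070000100008000000000000000000) := T_3 (nat_lit 113) (nat_lit 112) (nat_lit 2) (nat_lit 7) (nat_lit 7) L499604 (by decide +kernel)
theorem L499606 : W_3 (nat_lit 7) (nat_lit 0x10003c0002000000000000000000000000000) (nat_lit 0x0) (nat_lit 0x40002003a000c00070000100008000000000000000000) := T_3 (nat_lit 178) (nat_lit 161) (nat_lit 4) (nat_lit 8) (nat_lit 10) L499605 (by decide +kernel)
theorem L499607 : W_3 (nat_lit 8) (nat_lit 0x10001c0002000000000000000000000000000) (nat_lit 0x0) (nat_lit 0x40002003a000e00071000100008000000000000000000) := T_3 (nat_lit 129) (nat_lit 108) (nat_lit 0) (nat_lit 10) (nat_lit 7) L499606 (by decide +kernel)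
theorem L499608 : W_3 (nat_lit 9) (nat_lit 0x10001c0000000000000000000000000000000) (nat_lit 0x0) (nat_lit 0x40002003a000e000f7000100008000000000000000000) := Q_3 (nat_lit 109) (C_3 L499592 (C_3 L499600 (C_3 L499607 (C_3 L346029 N_3)))) (by decide +kernel)
theorem L499641 : W_3 (nat_lit 2) (nat_lit 0x340030003c0004000200000000000000000000000) (nat_lit 0x0) (nat_lit 0x2000100008000000000000000000) := D_3 (nat_lit 92) (nat_lit 109) (nat_lit 75) (nat_lit 4) (nat_lit 8) (nat_lit 9) (nat_lit 4) (nat_lit 8) (nat_lit 8) (by decide +kernel)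
theorem L499642 : W_3 (nat_lit 3) (nat_lit 0x340030003c0004000000000000000000000000000) (nat_lit 0x0) (nat_lit 0x2000300018000000000000000000) := T_3 (nat_lit 93) (nat_lit 76) (nat_lit 7) (nat_lit 8) (nat_lit 4) L499641 (by decide +kernel)
theorem L499660 : W_3 (nat_lit 4) (nat_lit 0x340030003c0000000000000000000000000000000) (nat_lit 0x0) (nat_lit 0x200000000000000006000300018000000000000000000) := T_3 (nat_lit 110) (nat_lit 177) (nat_lit 5) (nat_lit 8) (nat_lit 6) L499642 (by decide +kernel)
theorem L499661 : W_3 (nat_lit 5) (nat_lit 0x300030003c0000000000000000000000000000000) (nat_lit 0x0) (nat_lit 0x20000c000000000006000300018000000000000000000) := T_3 (nat_lit 158) (nat_lit 159) (nat_lit 2) (nat_lit 5) (nat_lit 9) L499660 (by decide +kernel)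
theorem L499676 : W_3 (nat_lit 2) (nat_lit 0x4000200038003000be0000000000000000000000000000000) (nat_lit 0x0) (nat_lit 0x100000000600000000000000000000000000000000000) := D_3 (nat_lit 142) (nat_lit 141) (nat_lit 176) (nat_lit 1) (nat_lit 9) (nat_lit 7) (nat_lit 7) (nat_lit 6) (nat_lit 7) (by decide +kernel)
theorem L499677 : W_3 (nat_lit 3) (nat_lit 0x4000200038003000bc0000000000000000000000000000000) (nat_lit 0x0) (nat_lit 0x100000000600030000000000000000000000000000000) := T_3 (nat_lit 125) (nat_lit 124) (nat_lit 3) (nat_lit 5) (nat_lit 7) L499676 (by decide +kernel)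
theorem L499678 : W_3 (nat_lit 4) (nat_lit 0x200038003000bc0000000000000000000000000000000) (nat_lit 0x0) (nat_lit 0x80004000100000000600030000000000000000000000000000000) := T_3 (nat_lit 194) (nat_lit 211) (nat_lit 6) (nat_lit 7) (nat_lit 12) L499677 (by decide +kernel)
theorem L499679 : W_3 (nat_lit 5) (nat_lit 0x200030003000bc0000000000000000000000000000000) (nat_lit 0x0) (nat_lit 0x8000400010000c000600030000000000000000000000000000000) := T_3 (nat_lit 159) (nat_lit 158) (nat_lit 2) (nat_lit 5) (nat_lit 9) L499678 (by decide +kernel)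
theorem L499680 : W_3 (nat_lit 6) (nat_lit 0x30003000bc0000000000000000000000000000000) (nat_lit 0x0) (nat_lit 0x8000400030000c000600030004000000000000000000000000000) := T_3 (nat_lit 177) (nat_lit 110) (nat_lit 5) (nat_lit 8) (nat_lit 6) L499679 (by decide +kernel)
theorem L499681 : W_3 (nat_lit 7) (nat_lit 0x300030003c0000000000000000000000000000000) (nat_lit 0x0) (nat_lit 0x8000400030000c000600c30004000000000000000000000000000) := T_3 (nat_lit 131) (nat_lit 130) (nat_lit 1) (nat_lit 12) (nat_lit 7) L499680 (by decide +kernel)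
theorem L499682 : W_3 (nat_lit 2) (nat_lit 0x180038003400be0000000000000000000000000000000) (nat_lit 0x0) (nat_lit 0x260000000000000000000000000000000000000000000) := D_3 (nat_lit 174) (nat_lit 177) (nat_lit 173) (nat_lit 2) (nat_lit 4) (nat_lit 10) (nat_lit 2) (nat_lit 3) (nat_lit 10) (by decide +kernel)
theorem L499683 : W_3 (nat_lit 3) (nat_lit 0x100038003400be0000000000000000000000000000000) (nat_lit 0x0) (nat_lit 0x10002e0000000000000000000000000000000000000000000) := T_3 (nat_lit 175) (nat_lit 192) (nat_lit 5) (nat_lit 6) (nat_lit 7) L499682 (by decide +kernel)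
theorem L499684 : W_3 (nat_lit 4) (nat_lit 0x38003400be0000000000000000000000000000000) (nat_lit 0x0) (nat_lit 0x10003e0000000000000002000000000000000000000000000) := T_3 (nat_lit 176) (nat_lit 109) (nat_lit 6) (nat_lit 6) (nat_lit 10) L499683 (by decide +kernel)
theorem L499685 : W_3 (nat_lit 5) (nat_lit 0x30003400be0000000000000000000000000000000) (nat_lit 0x0) (nat_lit 0x10003e000c000000000002000000000000000000000000000) := T_3 (nat_lit 159) (nat_lit 158) (nat_lit 2) (nat_lit 5) (nat_lit 9) L499684 (by decide +kernel)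
theorem L499686 : W_3 (nat_lit 6) (nat_lit 0x30003000be0000000000000000000000000000000) (nat_lit 0x0) (nat_lit 0x10003e000c000600000002000000000000000000000000000) := T_3 (nat_lit 142) (nat_lit 141) (nat_lit 1) (nat_lit 9) (nat_lit 7) L499685 (by decide +kernel)
theorem L499687 : W_3 (nat_lit 7) (nat_lit 0x300030003e0000000000000000000000000000000) (nat_lit 0x0) (nat_lit 0x10003e000c000600c00002000000000000000000000000000) := T_3 (nat_lit 131) (nat_lit 130) (nat_lit 1) (nat_lit 12) (nat_lit 7) L499686 (by decide +kernel)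
theorem L499688 : W_3 (nat_lit 8) (nat_lit 0x300030003c0000000000000000000000000000000) (nat_lit 0x0) (nat_lit 0x10003e000c000600c30002000000000000000000000000000) := T_3 (nat_lit 125) (nat_lit 124) (nat_lit 3) (nat_lit 5) (nat_lit 7) L499687 (by decide +kernel)
theorem L499689 : W_3 (nat_lit 2) (nat_lit 0x38003400be0002000000000000000000000000000) (nat_lit 0x0) (nat_lit 0x4000100008000000000000000000) := D_3 (nat_lit 92) (nat_lit 75) (nat_lit 110) (nat_lit 7) (nat_lit 7) (nat_lit 4) (nat_lit 4) (nat_lit 8) (nat_lit 9) (by decide +kernel)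
theorem L499690 : W_3 (nat_lit 3) (nat_lit 0x38003400be0000000000000000000000000000000) (nat_lit 0x0) (nat_lit 0x100000000000000006000100008000000000000000000) := T_3 (nat_lit 109) (nat_lit 176) (nat_lit 6) (nat_lit 6) (nat_lit 10) L499689 (by decide +kernel)
theorem L499691 : W_3 (nat_lit 4) (nat_lit 0x38003000be0000000000000000000000000000000) (nat_lit 0x0) (nat_lit 0x100000000600000006000100008000000000000000000) := T_3 (nat_lit 142) (nat_lit 141) (nat_lit 1) (nat_lit 9) (nat_lit 7) L499690 (by decide +kernel)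
theorem L499692 : W_3 (nat_lit 5) (nat_lit 0x380030003e0000000000000000000000000000000) (nat_lit 0x0) (nat_lit 0x100000000600c00006000100008000000000000000000) := T_3 (nat_lit 131) (nat_lit 130) (nat_lit 1) (nat_lit 12) (nat_lit 7) L499691 (by decide +kernel)
theorem L499693 : W_3 (nat_lit 6) (nat_lit 0x380030003c0000000000000000000000000000000) (nat_lit 0x0) (nat_lit 0x100000000600c30006000100008000000000000000000) := T_3 (nat_lit 125) (nat_lit 124) (nat_lit 3) (nat_lit 5) (nat_lit 7) L499692 (by decide +kernel)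
theorem L499694 : W_3 (nat_lit 7) (nat_lit 0x300030003c0000000000000000000000000000000) (nat_lit 0x0) (nat_lit 0x10000c000600c30006000100008000000000000000000) := T_3 (nat_lit 159) (nat_lit 158) (nat_lit 2) (nat_lit 5) (nat_lit 9) L499693 (by decide +kernel)
theorem L499695 : W_3 (nat_lit 2) (nat_lit 0x30003000bc0004000100000000000000000000000) (nat_lit 0x0) (nat_lit 0x200018000000000000000000) := D_3 (nat_lit 93) (nat_lit 76) (nat_lit 75) (nat_lit 7) (nat_lit 8) (nat_lit 4) (nat_lit 4) (nat_lit 8) (nat_lit 8) (by decide +kernel)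
theorem L499696 : W_3 (nat_lit 3) (nat_lit 0x30003000bc0004000000000000000000000000000) (nat_lit 0x0) (nat_lit 0x2000300018000000000000000000) := T_3 (nat_lit 92) (nat_lit 109) (nat_lit 4) (nat_lit 8) (nat_lit 9) L499695 (by decide +kernel)
theorem L499697 : W_3 (nat_lit 4) (nat_lit 0x30003000bc0000000000000000000000000000000) (nat_lit 0x0) (nat_lit 0x200000000000000006000300018000000000000000000) := T_3 (nat_lit 110) (nat_lit 177) (nat_lit 5) (nat_lit 8) (nat_lit 6) L499696 (by decide +kernel)
theorem L499698 : W_3 (nat_lit 5) (nat_lit 0x300030003c0000000000000000000000000000000) (nat_lit 0x0) (nat_lit 0x200000000000c00006000300018000000000000000000) := T_3 (nat_lit 131) (nat_lit 130) (nat_lit 1) (nat_lit 12) (nat_lit 7) L499697 (by decide +kernel)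
theorem L499699 : W_3 (nat_lit 9) (nat_lit 0x200030003c0000000000000000000000000000000) (nat_lit 0x0) (nat_lit 0x800050003e001c000600c30006000300018000000000000000000) := Q_3 (nat_lit 160) (C_3 L499681 (C_3 L499688 (C_3 L499661 (C_3 L499694 (C_3 L499698 N_3))))) (by decide +kernel)
theorem L499708 : W_3 (nat_lit 2) (nat_lit 0xb0003c0000000000000000000000000000000) (nat_lit 0x0) (nat_lit 0x10000c00000000000000000000000000000000) := D_3 (nat_lit 130) (nat_lit 148) (nat_lit 131) (nat_lit 3) (nat_lit 8) (nat_lit 7) (nat_lit 1) (nat_lit 12) (nat_lit 7) (by decide +kernel)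
theorem L499709 : W_3 (nat_lit 3) (nat_lit 0x30003c0000000000000000000000000000000) (nat_lit 0x0) (nat_lit 0x1c000c00000000000000000000000000000000) := T_3 (nat_lit 147) (nat_lit 146) (nat_lit 3) (nat_lit 7) (nat_lit 7) L499708 (by decide +kernel)
theorem L499718 : W_3 (nat_lit 2) (nat_lit 0x200030003c0000000000000000000000000000000) (nat_lit 0x0) (nat_lit 0x8000400000000000000002000000000000000000000000000) := D_3 (nat_lit 178) (nat_lit 195) (nat_lit 109) (nat_lit 6) (nat_lit 8) (nat_lit 11) (nat_lit 4) (nat_lit 8) (nat_lit 10) (by decide +kernel)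
theorem L504430 : W_3 (nat_lit 2) (nat_lit 0x10003c0012000100000000000000000000000) (nat_lit 0x0) (nat_lit 0x400020000000000004000000000000000000000000000) := D_3 (nat_lit 161) (nat_lit 178) (nat_lit 110) (nat_lit 4) (nat_lit 8) (nat_lit 10) (nat_lit 4) (nat_lit 8) (nat_lit 9) (by decide +kernel)
theorem L504431 : W_3 (nat_lit 3) (nat_lit 0x10003c0012000000000000000000000000000) (nat_lit 0x0) (nat_lit 0x400020000000000004000100008000000000000000000) := T_3 (nat_lit 92) (nat_lit 75) (nat_lit 7) (nat_lit 7) (nat_lit 4) L504430 (by decide +kernel)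
theorem L504432 : W_3 (nat_lit 4) (nat_lit 0x10003c0002000000000000000000000000000) (nat_lit 0x0) (nat_lit 0x400020000000000034000100008000000000000000000) := T_3 (nat_lit 112) (nat_lit 113) (nat_lit 2) (nat_lit 7) (nat_lit 7) L504431 (by decide +kernel)
theorem L504792 : W_3 (nat_lit 2) (nat_lit 0x200010003f0010000000000000000000000000000) (nat_lit 0x0) (nat_lit 0x700000000000000000000000000000000000) := D_3 (nat_lit 141) (nat_lit 140) (nat_lit 142) (nat_lit 1) (nat_lit 8) (nat_lit 7) (nat_lit 1) (nat_lit 9) (nat_lit 7) (by decide +kernel)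
theorem L504793 : W_3 (nat_lit 3) (nat_lit 0x200010003e0010000000000000000000000000000) (nat_lit 0x0) (nat_lit 0x2700010000000000000000000000000000000) := T_3 (nat_lit 124) (nat_lit 145) (nat_lit 3) (nat_lit 5) (nat_lit 7) L504792 (by decide +kernel)
theorem L508859 : W_3 (nat_lit 2) (nat_lit 0x200090007c0000000000000000000000000000000) (nat_lit 0x0) (nat_lit 0x70000000000000000000000000000) := D_3 (nat_lit 113) (nat_lit 114) (nat_lit 112) (nat_lit 2) (nat_lit 8) (nat_lit 7) (nat_lit 2) (nat_lit 7) (nat_lit 7) (by decide +kernel)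
theorem L519072 : W_3 (nat_lit 2) (nat_lit 0x10007c0020000000000000000000000000000) (nat_lit 0x0) (nat_lit 0x1c000000000000000000000000000000000000) := D_3 (nat_lit 147) (nat_lit 146) (nat_lit 148) (nat_lit 3) (nat_lit 7) (nat_lit 7) (nat_lit 3) (nat_lit 8) (nat_lit 7) (by decide +kernel)
theorem L523573 : W_3 (nat_lit 5) (nat_lit 0x1000780000000000000000000000000000000) (nat_lit 0x0) (nat_lit 0x380008000e6000000000000000000000000000) := T_3 (nat_lit 110) (nat_lit 109) (nat_lit 0) (nat_lit 11) (nat_lit 7) L216908 (by decide +kernel)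
theorem L523574 : W_3 (nat_lit 3) (nat_lit 0x1000780020000000000000000000000000000) (nat_lit 0x0) (nat_lit 0x1c000040010000000000000000000000000000) := T_3 (nat_lit 126) (nat_lit 112) (nat_lit 2) (nat_lit 7) (nat_lit 7) L519072 (by decide +kernel)
theorem L523575 : W_3 (nat_lit 4) (nat_lit 0x1000780000000000000000000000000000000) (nat_lit 0x0) (nat_lit 0x1c000040070000000000000000000000000000) := T_3 (nat_lit 113) (nat_lit 114) (nat_lit 2) (nat_lit 8) (nat_lit 7) L523574 (by decide +kernel)
theorem L523577 : W_3 (nat_lit 3) (nat_lit 0x1000780000000000000000000000000000000) (nat_lit 0x0) (nat_lit 0x20008000e0000000000000000000000000000) := T_3 (nat_lit 131) (nat_lit 145) (nat_lit 1) (nat_lit 12) (nat_lit 7) L523576 (by decide +kernel)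
theorem L523578 : W_3 (nat_lit 2) (nat_lit 0x12000f000780004000000000000000000000000000) (nat_lit 0x0) (nat_lit 0x40002000000000000000010000000000000000000000000000) := D_3 (nat_lit 181) (nat_lit 112) (nat_lit 198) (nat_lit 4) (nat_lit 11) (nat_lit 10) (nat_lit 4) (nat_lit 11) (nat_lit 11) (by decide +kernel)
theorem L523579 : W_3 (nat_lit 3) (nat_lit 0x2000f000780004000000000000000000000000000) (nat_lit 0x0) (nat_lit 0x40002000300000000000010000000000000000000000000000) := T_3 (nat_lit 164) (nat_lit 165) (nat_lit 3) (nat_lit 8) (nat_lit 8) L523578 (by decide +kernel)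
theorem L523580 : W_3 (nat_lit 4) (nat_lit 0xf000780004000000000000000000000000000) (nat_lit 0x0) (nat_lit 0x40002000330000000000010000000000000000000000000000) := T_3 (nat_lit 161) (nat_lit 160) (nat_lit 1) (nat_lit 11) (nat_lit 8) L523579 (by decide +kernel)
theorem L523581 : W_3 (nat_lit 5) (nat_lit 0xd000780004000000000000000000000000000) (nat_lit 0x0) (nat_lit 0x40002000330002000800010000000000000000000000000000) := T_3 (nat_lit 145) (nat_lit 131) (nat_lit 2) (nat_lit 8) (nat_lit 8) L523580 (by decide +kernel)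
theorem L523582 : W_3 (nat_lit 6) (nat_lit 0xd000780000000000000000000000000000000) (nat_lit 0x0) (nat_lit 0x40002000330002000800016000000000000000000000000000) := T_3 (nat_lit 110) (nat_lit 109) (nat_lit 0) (nat_lit 11) (nat_lit 7) L523581 (by decide +kernel)
theorem L523583 : W_3 (nat_lit 7) (nat_lit 0x9000780000000000000000000000000000000) (nat_lit 0x0) (nat_lit 0x40002000330006000840016000000000000000000000000000) := T_3 (nat_lit 146) (nat_lit 126) (nat_lit 3) (nat_lit 7) (nat_lit 7) L523582 (by decide +kernel)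
theorem L523584 : W_3 (nat_lit 8) (nat_lit 0x1000780000000000000000000000000000000) (nat_lit 0x0) (nat_lit 0x4000200033001e000840016000000000000000000000000000) := T_3 (nat_lit 147) (nat_lit 148) (nat_lit 3) (nat_lit 8) (nat_lit 7) L523583 (by decide +kernel)
theorem L523585 : W_3 (nat_lit 9) (nat_lit 0x1000380000000000000000000000000000000) (nat_lit 0x0) (nat_lit 0x4000200033003e000c400f6000000000000000000000000000) := Q_3 (nat_lit 130) (C_3 L523573 (C_3 L523575 (C_3 L523577 (C_3 L523584 N_3)))) (by decide +kernel)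
theorem L523586 : W_3 (nat_lit 2) (nat_lit 0xd000f80080000000000000000000000000000) (nat_lit 0x0) (nat_lit 0x3000100000000000000000000000000000) := D_3 (nat_lit 132) (nat_lit 133) (nat_lit 116) (nat_lit 1) (nat_lit 14) (nat_lit 7) (nat_lit 2) (nat_lit 10) (nat_lit 7) (by decide +kernel)
theorem L523587 : W_3 (nat_lit 3) (nat_lit 0xd000f80000000000000000000000000000000) (nat_lit 0x0) (nat_lit 0x30001c0000000000000000000000000000) := T_3 (nat_lit 115) (nat_lit 114) (nat_lit 2) (nat_lit 9) (nat_lit 7) L523586 (by decide +kernel)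
theorem L523588 : W_3 (nat_lit 4) (nat_lit 0xd000780000000000000000000000000000000) (nat_lit 0x0) (nat_lit 0x20038001c0000000000000000000000000000) := T_3 (nat_lit 131) (nat_lit 145) (nat_lit 2) (nat_lit 8) (nat_lit 8) L523587 (by decide +kernel)
theorem L523589 : W_3 (nat_lit 5) (nat_lit 0x9000780000000000000000000000000000000) (nat_lit 0x0) (nat_lit 0x60038401c0000000000000000000000000000) := T_3 (nat_lit 146) (nat_lit 126) (nat_lit 3) (nat_lit 7) (nat_lit 7) L523588 (by decide +kernel)
theorem L523590 : W_3 (nat_lit 6) (nat_lit 0x1000780000000000000000000000000000000) (nat_lit 0x0) (nat_lit 0x1e0038401c0000000000000000000000000000) := T_3 (nat_lit 147) (nat_lit 148) (nat_lit 3) (nat_lit 8) (nat_lit 7) L523589 (by decide +kernel)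
theorem L523591 : W_3 (nat_lit 2) (nat_lit 0x1000f80000000000000000000000000000000) (nat_lit 0x0) (nat_lit 0x38000000000000000000000000000000000000) := D_3 (nat_lit 148) (nat_lit 147) (nat_lit 149) (nat_lit 3) (nat_lit 8) (nat_lit 7) (nat_lit 3) (nat_lit 9) (nat_lit 7) (by decide +kernel)
theorem L523592 : W_3 (nat_lit 3) (nat_lit 0x1000780000000000000000000000000000000) (nat_lit 0x0) (nat_lit 0x3a000800000000000000000000000000000000) := T_3 (nat_lit 131) (nat_lit 145) (nat_lit 1) (nat_lit 12) (nat_lit 7) L523591 (by decide +kernel)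
theorem L523593 : W_3 (nat_lit 7) (nat_lit 0x1000380000000000000000000000000000000) (nat_lit 0x0) (nat_lit 0x3e003c401f0000000000000000000000000000) := Q_3 (nat_lit 130) (C_3 L523575 (C_3 L523577 (C_3 L523590 (C_3 L523592 N_3)))) (by decide +kernel)
theorem L523594 : W_3 (nat_lit 2) (nat_lit 0x1000780022000000000000000000000000000) (nat_lit 0x0) (nat_lit 0x40011000000000000000000000000000) := D_3 (nat_lit 126) (nat_lit 112) (nat_lit 108) (nat_lit 2) (nat_lit 7) (nat_lit 7) (nat_lit 0) (nat_lit 10) (nat_lit 7) (by decide +kernel)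
theorem L523595 : W_3 (nat_lit 3) (nat_lit 0x1000780002000000000000000000000000000) (nat_lit 0x0) (nat_lit 0x40071000000000000000000000000000) := T_3 (nat_lit 113) (nat_lit 114) (nat_lit 2) (nat_lit 8) (nat_lit 7) L523594 (by decide +kernel)
theorem L523596 : W_3 (nat_lit 4) (nat_lit 0x1000780000000000000000000000000000000) (nat_lit 0x0) (nat_lit 0x40077000000000000000000000000000) := T_3 (nat_lit 109) (nat_lit 110) (nat_lit 0) (nat_lit 11) (nat_lit 7) L523595 (by decide +kernel)
theorem L523597 : W_3 (nat_lit 2) (nat_lit 0x90007c0000000000000000000000000000000) (nat_lit 0x0) (nat_lit 0x7000000000000000000000000000) := D_3 (nat_lit 109) (nat_lit 108) (nat_lit 110) (nat_lit 0) (nat_lit 10) (nat_lit 7) (nat_lit 0) (nat_lit 11) (nat_lit 7) (by decide +kernel)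
theorem L523598 : W_3 (nat_lit 3) (nat_lit 0x9000780000000000000000000000000000000) (nat_lit 0x0) (nat_lit 0x4000040007000000000000000000000000000) := T_3 (nat_lit 126) (nat_lit 146) (nat_lit 3) (nat_lit 7) (nat_lit 7) L523597 (by decide +kernel)
theorem L523599 : W_3 (nat_lit 4) (nat_lit 0x1000780000000000000000000000000000000) (nat_lit 0x0) (nat_lit 0x1c000040007000000000000000000000000000) := T_3 (nat_lit 147) (nat_lit 148) (nat_lit 3) (nat_lit 8) (nat_lit 7) L523598 (by decide +kernel)
theorem L523600 : W_3 (nat_lit 6) (nat_lit 0x1000380000000000000000000000000000000) (nat_lit 0x0) (nat_lit 0x3c000c400f7000000000000000000000000000) := Q_3 (nat_lit 130) (C_3 L523575 (C_3 L523573 (C_3 L523596 (C_3 L523599 N_3)))) (by decide +kernel)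
theorem L524205 : W_3 (nat_lit 2) (nat_lit 0x9000780014000800000000000000000000000) (nat_lit 0x0) (nat_lit 0x2000100004000000000000000000000000000000000000) := D_3 (nat_lit 164) (nat_lit 181) (nat_lit 146) (nat_lit 4) (nat_lit 11) (nat_lit 10) (nat_lit 7) (nat_lit 10) (nat_lit 5) (by decide +kernel)
theorem L524206 : W_3 (nat_lit 3) (nat_lit 0x9000780014000000000000000000000000000) (nat_lit 0x0) (nat_lit 0x2000100004000000000000800040000000000000000000) := T_3 (nat_lit 95) (nat_lit 78) (nat_lit 7) (nat_lit 10) (nat_lit 4) L524205 (by decide +kernel)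
theorem L524207 : W_3 (nat_lit 4) (nat_lit 0x9000780010000000000000000000000000000) (nat_lit 0x0) (nat_lit 0x2000100004000000006000800040000000000000000000) := T_3 (nat_lit 110) (nat_lit 109) (nat_lit 0) (nat_lit 11) (nat_lit 7) L524206 (by decide +kernel)
theorem L524208 : W_3 (nat_lit 5) (nat_lit 0x1000780010000000000000000000000000000) (nat_lit 0x0) (nat_lit 0x200010001c000000006000800040000000000000000000) := T_3 (nat_lit 147) (nat_lit 148) (nat_lit 3) (nat_lit 8) (nat_lit 7) L524207 (by decide +kernel)
theorem L524209 : W_3 (nat_lit 2) (nat_lit 0x9000780030000000000000000000000000000) (nat_lit 0x0) (nat_lit 0x2000100000000000000000800000000000000000000000) := D_3 (nat_lit 164) (nat_lit 95) (nat_lit 181) (nat_lit 4) (nat_lit 11) (nat_lit 9) (nat_lit 4) (nat_lit 11) (nat_lit 10) (by decide +kernel)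
theorem L524210 : W_3 (nat_lit 3) (nat_lit 0x9000780010000000000000000000000000000) (nat_lit 0x0) (nat_lit 0x2000100000000000060000800000000000000000000000) := T_3 (nat_lit 113) (nat_lit 114) (nat_lit 2) (nat_lit 8) (nat_lit 7) L524209 (by decide +kernel)
theorem L524211 : W_3 (nat_lit 4) (nat_lit 0x1000780010000000000000000000000000000) (nat_lit 0x0) (nat_lit 0x2000100018000000060000800000000000000000000000) := T_3 (nat_lit 147) (nat_lit 148) (nat_lit 3) (nat_lit 8) (nat_lit 7) L524210 (by decide +kernel)
theorem L524212 : W_3 (nat_lit 6) (nat_lit 0x1000780030000800040000000000000000000) (nat_lit 0x0) (nat_lit 0x400000000600140078000c000000000000000) := T_3 (nat_lit 110) (nat_lit 109) (nat_lit 0) (nat_lit 11) (nat_lit 7) L216965 (by decide +kernel)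
theorem L524213 : W_3 (nat_lit 7) (nat_lit 0x1000780030000800000000000000000000000) (nat_lit 0x0) (nat_lit 0x40000000060014007c000e000000000000000) := T_3 (nat_lit 78) (nat_lit 61) (nat_lit 7) (nat_lit 10) (nat_lit 3) L524212 (by decide +kernel)
theorem L524214 : W_3 (nat_lit 8) (nat_lit 0x1000780010000800000000000000000000000) (nat_lit 0x0) (nat_lit 0x40000000660014007c000e000000000000000) := T_3 (nat_lit 113) (nat_lit 114) (nat_lit 2) (nat_lit 8) (nat_lit 7) L524213 (by decide +kernel)
theorem L524215 : W_3 (nat_lit 2) (nat_lit 0x1000780010000800040000000000000000000) (nat_lit 0x0) (nat_lit 0x60000000000002000000000000000) := D_3 (nat_lit 113) (nat_lit 114) (nat_lit 61) (nat_lit 2) (nat_lit 8) (nat_lit 7) (nat_lit 7) (nat_lit 10) (nat_lit 3) (by decide +kernel)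
theorem L524216 : W_3 (nat_lit 3) (nat_lit 0x1000780010000800000000000000000000000) (nat_lit 0x0) (nat_lit 0x2000000060000000040002000000000000000) := T_3 (nat_lit 78) (nat_lit 145) (nat_lit 5) (nat_lit 10) (nat_lit 4) L524215 (by decide +kernel)
theorem L524217 : W_3 (nat_lit 2) (nat_lit 0x10007800100008000e0000000000000000000) (nat_lit 0x0) (nat_lit 0x4000000000001400000000000000000000000) := D_3 (nat_lit 146) (nat_lit 94) (nat_lit 96) (nat_lit 4) (nat_lit 10) (nat_lit 8) (nat_lit 6) (nat_lit 10) (nat_lit 8) (by decide +kernel)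
theorem L524218 : W_3 (nat_lit 3) (nat_lit 0x1000780010000800060000000000000000000) (nat_lit 0x0) (nat_lit 0x4000000000001400080004000000000000000) := T_3 (nat_lit 79) (nat_lit 62) (nat_lit 6) (nat_lit 10) (nat_lit 7) L524217 (by decide +kernel)
theorem L524219 : W_3 (nat_lit 4) (nat_lit 0x1000780010000800040000000000000000000) (nat_lit 0x0) (nat_lit 0x40000000000014000a0005000000000000000) := T_3 (nat_lit 77) (nat_lit 60) (nat_lit 4) (nat_lit 10) (nat_lit 7) L524218 (by decide +kernel)
theorem L524220 : W_3 (nat_lit 5) (nat_lit 0x1000780010000800000000000000000000000) (nat_lit 0x0) (nat_lit 0x60000000000014000e0005000000000000000) := T_3 (nat_lit 78) (nat_lit 145) (nat_lit 5) (nat_lit 10) (nat_lit 4) L524219 (by decide +kernel)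
theorem L524223 : W_3 (nat_lit 2) (nat_lit 0x1000780010000c00020000000000000000000) (nat_lit 0x0) (nat_lit 0x6000200000000000000000000000) := D_3 (nat_lit 110) (nat_lit 109) (nat_lit 93) (nat_lit 0) (nat_lit 11) (nat_lit 7) (nat_lit 6) (nat_lit 8) (nat_lit 8) (by decide +kernel)
theorem L524224 : W_3 (nat_lit 3) (nat_lit 0x1000780010000c00000000000000000000000) (nat_lit 0x0) (nat_lit 0x4000000006000200020000000000000000000) := T_3 (nat_lit 77) (nat_lit 146) (nat_lit 4) (nat_lit 10) (nat_lit 8) L524223 (by decide +kernel)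
theorem L524225 : W_3 (nat_lit 2) (nat_lit 0x5000780034000c00000000000000000000000) (nat_lit 0x0) (nat_lit 0x80000000000000001000080000000000000000000) := D_3 (nat_lit 96) (nat_lit 79) (nat_lit 163) (nat_lit 6) (nat_lit 10) (nat_lit 8) (nat_lit 6) (nat_lit 10) (nat_lit 9) (by decide +kernel)
theorem L524226 : W_3 (nat_lit 3) (nat_lit 0x1000780034000c00000000000000000000000) (nat_lit 0x0) (nat_lit 0x800040000000000010000a0000000000000000000) := T_3 (nat_lit 146) (nat_lit 77) (nat_lit 4) (nat_lit 10) (nat_lit 8) L524225 (by decide +kernel)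
theorem L524227 : W_3 (nat_lit 4) (nat_lit 0x1000780014000c00000000000000000000000) (nat_lit 0x0) (nat_lit 0x800040000000600010000a0000000000000000000) := T_3 (nat_lit 113) (nat_lit 114) (nat_lit 2) (nat_lit 8) (nat_lit 7) L524226 (by decide +kernel)
theorem L524228 : W_3 (nat_lit 5) (nat_lit 0x1000780010000c00000000000000000000000) (nat_lit 0x0) (nat_lit 0x800040000000660010000a0000000000000000000) := T_3 (nat_lit 110) (nat_lit 109) (nat_lit 0) (nat_lit 11) (nat_lit 7) L524227 (by decide +kernel)
theorem L524229 : W_3 (nat_lit 2) (nat_lit 0x5000780030000c00000000000000000000000) (nat_lit 0x0) (nat_lit 0x1000080000000000000001000000000000000000000000) := D_3 (nat_lit 163) (nat_lit 96) (nat_lit 180) (nat_lit 6) (nat_lit 10) (nat_lit 9) (nat_lit 6) (nat_lit 10) (nat_lit 10) (by decide +kernel)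
theorem L524230 : W_3 (nat_lit 3) (nat_lit 0x5000780010000c00000000000000000000000) (nat_lit 0x0) (nat_lit 0x1000080000000000060001000000000000000000000000) := T_3 (nat_lit 113) (nat_lit 114) (nat_lit 2) (nat_lit 8) (nat_lit 7) L524229 (by decide +kernel)
theorem L524231 : W_3 (nat_lit 4) (nat_lit 0x1000780010000c00000000000000000000000) (nat_lit 0x0) (nat_lit 0x1000080004000000060001000020000000000000000000) := T_3 (nat_lit 146) (nat_lit 77) (nat_lit 4) (nat_lit 10) (nat_lit 8) L524230 (by decide +kernel)
theorem L524232 : W_3 (nat_lit 2) (nat_lit 0x1000780030000e00000000000000000000000) (nat_lit 0x0) (nat_lit 0x6000000020000000000000000000) := D_3 (nat_lit 110) (nat_lit 109) (nat_lit 77) (nat_lit 0) (nat_lit 11) (nat_lit 7) (nat_lit 6) (nat_lit 8) (nat_lit 8) (by decide +kernel)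
theorem L524233 : W_3 (nat_lit 3) (nat_lit 0x1000780030000c00000000000000000000000) (nat_lit 0x0) (nat_lit 0x6000300020000000000000000000) := T_3 (nat_lit 93) (nat_lit 92) (nat_lit 3) (nat_lit 7) (nat_lit 5) L524232 (by decide +kernel)
theorem L524234 : W_3 (nat_lit 4) (nat_lit 0x1000780010000c00000000000000000000000) (nat_lit 0x0) (nat_lit 0x66000300020000000000000000000) := T_3 (nat_lit 113) (nat_lit 114) (nat_lit 2) (nat_lit 8) (nat_lit 7) L524233 (by decide +kernel)
theorem L524235 : W_3 (nat_lit 2) (nat_lit 0x1000780034000e00010000000000000000000) (nat_lit 0x0) (nat_lit 0x1000008000400000000000000) := D_3 (nat_lit 75) (nat_lit 58) (nat_lit 96) (nat_lit 4) (nat_lit 8) (nat_lit 7) (nat_lit 0) (nat_lit 11) (nat_lit 5) (by decide +kernel)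
theorem L524236 : W_3 (nat_lit 3) (nat_lit 0x1000780034000e00000000000000000000000) (nat_lit 0x0) (nat_lit 0x2000000000001000018000400000000000000) := T_3 (nat_lit 76) (nat_lit 145) (nat_lit 7) (nat_lit 8) (nat_lit 4) L524235 (by decide +kernel)
theorem L524237 : W_3 (nat_lit 4) (nat_lit 0x1000780034000c00000000000000000000000) (nat_lit 0x0) (nat_lit 0x2000000000001300018000400000000000000) := T_3 (nat_lit 93) (nat_lit 92) (nat_lit 3) (nat_lit 7) (nat_lit 5) L524236 (by decide +kernel)
theorem L524238 : W_3 (nat_lit 5) (nat_lit 0x1000780014000c00000000000000000000000) (nat_lit 0x0) (nat_lit 0x2000000060001300018000400000000000000) := T_3 (nat_lit 113) (nat_lit 114) (nat_lit 2) (nat_lit 8) (nat_lit 7) L524237 (by decide +kernel)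
theorem L524239 : W_3 (nat_lit 6) (nat_lit 0x1000780010000c00000000000000000000000) (nat_lit 0x0) (nat_lit 0x2000000066001300018000400000000000000) := T_3 (nat_lit 110) (nat_lit 109) (nat_lit 0) (nat_lit 11) (nat_lit 7) L524238 (by decide +kernel)
theorem L524240 : W_3 (nat_lit 7) (nat_lit 0x1000780010000800000000000000000000000) (nat_lit 0x0) (nat_lit 0x10000800060000000660017000b8000400000000000000) := Q_3 (nat_lit 94) (C_3 L524224 (C_3 L524228 (C_3 L524231 (C_3 L524234 (C_3 L524239 N_3))))) (by decide +kernel)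
theorem L524241 : W_3 (nat_lit 9) (nat_lit 0x1000780010000000000000000000000000000) (nat_lit 0x0) (nat_lit 0x1000080006000000066001f007f800f400000000000000) := Q_3 (nat_lit 95) (C_3 L524214 (C_3 L524216 (C_3 L524220 (C_3 L524240 N_3)))) (by decide +kernel)
theorem L524242 : W_3 (nat_lit 2) (nat_lit 0x180009000780034001000080000000000000000000) (nat_lit 0x0) (nat_lit 0x2000100008000000000000000) := D_3 (nat_lit 80) (nat_lit 97) (nat_lit 63) (nat_lit 6) (nat_lit 11) (nat_lit 8) (nat_lit 6) (nat_lit 11) (nat_lit 7) (by decide +kernel)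
theorem L524243 : W_3 (nat_lit 3) (nat_lit 0x180009000780034001000000000000000000000000) (nat_lit 0x0) (nat_lit 0x200018000c000000000000000) := T_3 (nat_lit 79) (nat_lit 62) (nat_lit 5) (nat_lit 11) (nat_lit 3) L524242 (by decide +kernel)
theorem L524244 : W_3 (nat_lit 4) (nat_lit 0x180009000780034000000000000000000000000000) (nat_lit 0x0) (nat_lit 0x400000000000300018000c000000000000000) := T_3 (nat_lit 96) (nat_lit 146) (nat_lit 6) (nat_lit 10) (nat_lit 9) L524243 (by decide +kernel)
theorem L524245 : W_3 (nat_lit 5) (nat_lit 0x100009000780034000000000000000000000000000) (nat_lit 0x0) (nat_lit 0x100008000400000000000300018000c000000000000000) := T_3 (nat_lit 163) (nat_lit 180) (nat_lit 5) (nat_lit 11) (nat_lit 6) L524244 (by decide +kernel)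
theorem L524246 : W_3 (nat_lit 6) (nat_lit 0x9000780034000000000000000000000000000) (nat_lit 0x0) (nat_lit 0x300018000400000000000300018000c000000000000000) := T_3 (nat_lit 164) (nat_lit 181) (nat_lit 4) (nat_lit 11) (nat_lit 10) L524245 (by decide +kernel)
theorem L524247 : W_3 (nat_lit 7) (nat_lit 0x9000780030000000000000000000000000000) (nat_lit 0x0) (nat_lit 0x300018000400000000600300018000c000000000000000) := T_3 (nat_lit 110) (nat_lit 109) (nat_lit 0) (nat_lit 11) (nat_lit 7) L524246 (by decide +kernel)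
theorem L524248 : W_3 (nat_lit 8) (nat_lit 0x1000780030000000000000000000000000000) (nat_lit 0x0) (nat_lit 0x300018001c00000000600300018000c000000000000000) := T_3 (nat_lit 147) (nat_lit 148) (nat_lit 3) (nat_lit 8) (nat_lit 7) L524247 (by decide +kernel)
theorem L524249 : W_3 (nat_lit 9) (nat_lit 0x1000780010000000000000000000000000000) (nat_lit 0x0) (nat_lit 0x300018001c00000006600300018000c000000000000000) := T_3 (nat_lit 113) (nat_lit 114) (nat_lit 2) (nat_lit 8) (nat_lit 7) L524248 (by decide +kernel)
theorem L524250 : W_3 (nat_lit 10) (nat_lit 0x1000780000000000000000000000000000000) (nat_lit 0x0) (nat_lit 0x300018001e000000076003f007f800f400000000000000) := Q_3 (nat_lit 112) (C_3 L524208 (C_3 L524211 (C_3 L524241 (C_3 L524249 N_3)))) (by decide +kernel)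
theorem L524251 : W_3 (nat_lit 11) (nat_lit 0x1000380000000000000000000000000000000) (nat_lit 0x0) (nat_lit 0x300018003e000c000f6003f007f800f400000000000000) := Q_3 (nat_lit 130) (C_3 L523573 (C_3 L523592 (C_3 L523577 (C_3 L524250 N_3)))) (by decide +kernel)
theorem L524252 : W_3 (nat_lit 5) (nat_lit 0x1000380000000000000000000000000000000) (nat_lit 0x0) (nat_lit 0x3a000c40077000000000000000000000000000) := Q_3 (nat_lit 130) (C_3 L523596 (C_3 L523592 N_3)) (by decide +kernel)
theorem L524254 : W_3 (nat_lit 2) (nat_lit 0x50003e0000000000000000000000000000000) (nat_lit 0x0) (nat_lit 0x3800000000000000000000000000) := D_3 (nat_lit 108) (nat_lit 109) (nat_lit 107) (nat_lit 0) (nat_lit 10) (nat_lit 7) (nat_lit 0) (nat_lit 9) (nat_lit 7) (by decide +kernel)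
theorem L524255 : W_3 (nat_lit 3) (nat_lit 0x50003c0000000000000000000000000000000) (nat_lit 0x0) (nat_lit 0x2000020003800000000000000000000000000) := T_3 (nat_lit 125) (nat_lit 145) (nat_lit 3) (nat_lit 6) (nat_lit 7) L524254 (by decide +kernel)
theorem L524256 : W_3 (nat_lit 4) (nat_lit 0x10003c0000000000000000000000000000000) (nat_lit 0x0) (nat_lit 0xe000020003800000000000000000000000000) := T_3 (nat_lit 146) (nat_lit 147) (nat_lit 3) (nat_lit 7) (nat_lit 7) L524255 (by decide +kernel)
theorem L524257 : W_3 (nat_lit 5) (nat_lit 0x10003c0000000000000000000000000000000) (nat_lit 0x0) (nat_lit 0x400020000000000037000100008000000000000000000) := T_3 (nat_lit 109) (nat_lit 108) (nat_lit 0) (nat_lit 10) (nat_lit 7) L504432 (by decide +kernel)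
theorem L524286 : W_3 (nat_lit 2) (nat_lit 0xd0003800100008000a0000000000000000000) (nat_lit 0x0) (nat_lit 0x40005000000000000000) := D_3 (nat_lit 78) (nat_lit 62) (nat_lit 60) (nat_lit 6) (nat_lit 10) (nat_lit 7) (nat_lit 4) (nat_lit 10) (nat_lit 7) (by decide +kernel)
theorem L524287 : W_3 (nat_lit 3) (nat_lit 0xd000380010000800080000000000000000000) (nat_lit 0x0) (nat_lit 0x400060005000000000000000) := T_3 (nat_lit 77) (nat_lit 94) (nat_lit 4) (nat_lit 10) (nat_lit 8) L524286 (by decide +kernel)
theorem L524288 : W_3 (nat_lit 4) (nat_lit 0xd000380010000800000000000000000000000) (nat_lit 0x0) (nat_lit 0x14000e0005000000000000000) := T_3 (nat_lit 79) (nat_lit 96) (nat_lit 6) (nat_lit 10) (nat_lit 8) L524287 (by decide +kernel)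
theorem L524970 : W_3 (nat_lit 2) (nat_lit 0x5000380030001c00000000000000000000000) (nat_lit 0x0) (nat_lit 0x40000300000000000000000000000) := D_3 (nat_lit 93) (nat_lit 114) (nat_lit 92) (nat_lit 3) (nat_lit 8) (nat_lit 5) (nat_lit 3) (nat_lit 7) (nat_lit 5) (by decide +kernel)
theorem L524971 : W_3 (nat_lit 3) (nat_lit 0x5000380010001c00000000000000000000000) (nat_lit 0x0) (nat_lit 0x80000000000060000300000000000000000000000) := T_3 (nat_lit 113) (nat_lit 163) (nat_lit 6) (nat_lit 10) (nat_lit 9) L524970 (by decide +kernel)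
theorem L524972 : W_3 (nat_lit 4) (nat_lit 0x5000380010001800000000000000000000000) (nat_lit 0x0) (nat_lit 0x80000000000060000700020000000000000000000) := T_3 (nat_lit 94) (nat_lit 77) (nat_lit 4) (nat_lit 10) (nat_lit 8) L524971 (by decide +kernel)
theorem L524973 : W_3 (nat_lit 5) (nat_lit 0x5000380010000800000000000000000000000) (nat_lit 0x0) (nat_lit 0x800000000000600017000a0000000000000000000) := T_3 (nat_lit 96) (nat_lit 79) (nat_lit 6) (nat_lit 10) (nat_lit 8) L524972 (by decide +kernel)
theorem L524989 : W_3 (nat_lit 2) (nat_lit 0x100005000380010001800000000000000000000000) (nat_lit 0x0) (nat_lit 0x2000080000000000020000000000000000000000000000) := D_3 (nat_lit 163) (nat_lit 181) (nat_lit 113) (nat_lit 7) (nat_lit 10) (nat_lit 6) (nat_lit 6) (nat_lit 10) (nat_lit 9) (by decide +kernel)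
theorem L524990 : W_3 (nat_lit 3) (nat_lit 0x100005000380010000800000000000000000000000) (nat_lit 0x0) (nat_lit 0x2000080000000000020001000080000000000000000000) := T_3 (nat_lit 96) (nat_lit 79) (nat_lit 6) (nat_lit 10) (nat_lit 8) L524989 (by decide +kernel)
theorem L524991 : W_3 (nat_lit 4) (nat_lit 0x5000380010000800000000000000000000000) (nat_lit 0x0) (nat_lit 0x2000180008000000020001000080000000000000000000) := T_3 (nat_lit 164) (nat_lit 147) (nat_lit 7) (nat_lit 10) (nat_lit 5) L524990 (by decide +kernel)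
theorem L524992 : W_3 (nat_lit 5) (nat_lit 0x5000380010000800000000000000000000000) (nat_lit 0x0) (nat_lit 0x1000080000000000014000e0005000000000000000) := T_3 (nat_lit 147) (nat_lit 164) (nat_lit 7) (nat_lit 10) (nat_lit 5) L524288 (by decide +kernel)
theorem L527281 : W_3 (nat_lit 2) (nat_lit 0x1000380010000c000e0000000000000000000) (nat_lit 0x0) (nat_lit 0x300100000000000000000000) := D_3 (nat_lit 93) (nat_lit 92) (nat_lit 80) (nat_lit 2) (nat_lit 7) (nat_lit 5) (nat_lit 1) (nat_lit 12) (nat_lit 4) (by decide +kernel)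
theorem L527282 : W_3 (nat_lit 3) (nat_lit 0x10003800100008000e0000000000000000000) (nat_lit 0x0) (nat_lit 0x4000000000000700100000000000000000000) := T_3 (nat_lit 94) (nat_lit 146) (nat_lit 4) (nat_lit 10) (nat_lit 8) L527281 (by decide +kernel)
theorem L527283 : W_3 (nat_lit 4) (nat_lit 0x1000380010000800060000000000000000000) (nat_lit 0x0) (nat_lit 0x4000000000000700180004000000000000000) := T_3 (nat_lit 79) (nat_lit 62) (nat_lit 6) (nat_lit 10) (nat_lit 7) L527282 (by decide +kernel)
theorem L527284 : W_3 (nat_lit 5) (nat_lit 0x1000380010000800040000000000000000000) (nat_lit 0x0) (nat_lit 0x40000000000007001a0005000000000000000) := T_3 (nat_lit 77) (nat_lit 60) (nat_lit 4) (nat_lit 10) (nat_lit 7) L527283 (by decide +kernel)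
theorem L527285 : W_3 (nat_lit 2) (nat_lit 0x1000380010000800040005000000000000000) (nat_lit 0x0) (nat_lit 0x2000280000000000) := D_3 (nat_lit 61) (nat_lit 43) (nat_lit 45) (nat_lit 4) (nat_lit 10) (nat_lit 6) (nat_lit 6) (nat_lit 10) (nat_lit 6) (by decide +kernel)
theorem L527286 : W_3 (nat_lit 3) (nat_lit 0x1000380010000800040001000000000000000) (nat_lit 0x0) (nat_lit 0x80006000280000000000) := T_3 (nat_lit 62) (nat_lit 79) (nat_lit 6) (nat_lit 10) (nat_lit 7) L527285 (by decide +kernel)
theorem L527287 : W_3 (nat_lit 4) (nat_lit 0x1000380010000800040000000000000000000) (nat_lit 0x0) (nat_lit 0xa0007000280000000000) := T_3 (nat_lit 60) (nat_lit 77) (nat_lit 4) (nat_lit 10) (nat_lit 7) L527286 (by decide +kernel)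
theorem L527288 : W_3 (nat_lit 2) (nat_lit 0x1000380010000800040002000000000000000) (nat_lit 0x0) (nat_lit 0x80004000200000000000) := D_3 (nat_lit 62) (nat_lit 79) (nat_lit 45) (nat_lit 6) (nat_lit 10) (nat_lit 7) (nat_lit 6) (nat_lit 10) (nat_lit 6) (by decide +kernel)
theorem L527289 : W_3 (nat_lit 2) (nat_lit 0x1000380010000800040002000280000000000) (nat_lit 0x0) (nat_lit 0x100014000000) := D_3 (nat_lit 44) (nat_lit 28) (nat_lit 26) (nat_lit 6) (nat_lit 10) (nat_lit 5) (nat_lit 4) (nat_lit 10) (nat_lit 5) (by decide +kernel)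
theorem L527290 : W_3 (nat_lit 3) (nat_lit 0x1000380010000800040002000200000000000) (nat_lit 0x0) (nat_lit 0x1000180014000000) := T_3 (nat_lit 43) (nat_lit 60) (nat_lit 4) (nat_lit 10) (nat_lit 6) L527289 (by decide +kernel)
theorem L527291 : W_3 (nat_lit 4) (nat_lit 0x1000380010000800040002000000000000000) (nat_lit 0x0) (nat_lit 0x5000380014000000) := T_3 (nat_lit 45) (nat_lit 62) (nat_lit 6) (nat_lit 10) (nat_lit 6) L527290 (by decide +kernel)
theorem L527292 : W_3 (nat_lit 2) (nat_lit 0x1000380010001800040002000380000000000) (nat_lit 0x0) (nat_lit 0x4000000000000000080000000000008000000) := D_3 (nat_lit 79) (nat_lit 27) (nat_lit 146) (nat_lit 7) (nat_lit 10) (nat_lit 1) (nat_lit 6) (nat_lit 10) (nat_lit 8) (by decide +kernel)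
theorem L527293 : W_3 (nat_lit 3) (nat_lit 0x1000380010000800040002000380000000000) (nat_lit 0x0) (nat_lit 0x4000000020001000080000000000008000000) := T_3 (nat_lit 96) (nat_lit 113) (nat_lit 7) (nat_lit 10) (nat_lit 2) L527292 (by decide +kernel)
theorem L527294 : W_3 (nat_lit 4) (nat_lit 0x1000380010000800040002000180000000000) (nat_lit 0x0) (nat_lit 0x4000000020001000080000000200018000000) := T_3 (nat_lit 45) (nat_lit 28) (nat_lit 6) (nat_lit 10) (nat_lit 5) L527293 (by decide +kernel)
theorem L527295 : W_3 (nat_lit 5) (nat_lit 0x1000380010000800040002000080000000000) (nat_lit 0x0) (nat_lit 0x400000002000100008000000030001c000000) := T_3 (nat_lit 44) (nat_lit 26) (nat_lit 4) (nat_lit 10) (nat_lit 5) L527294 (by decide +kernel)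
theorem L527296 : W_3 (nat_lit 6) (nat_lit 0x1000380010000800040002000000000000000) (nat_lit 0x0) (nat_lit 0x400000002000100008000100038001c000000) := T_3 (nat_lit 43) (nat_lit 60) (nat_lit 4) (nat_lit 10) (nat_lit 6) L527295 (by decide +kernel)
theorem L527297 : W_3 (nat_lit 2) (nat_lit 0x10003800100018000c0003400000000000000) (nat_lit 0x0) (nat_lit 0x20000000000000000100008000000) := D_3 (nat_lit 44) (nat_lit 27) (nat_lit 113) (nat_lit 7) (nat_lit 10) (nat_lit 1) (nat_lit 7) (nat_lit 10) (nat_lit 2) (by decide +kernel)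
theorem L527298 : W_3 (nat_lit 3) (nat_lit 0x10003800100008000c0003400000000000000) (nat_lit 0x0) (nat_lit 0x4000000020001000000000000100008000000) := T_3 (nat_lit 96) (nat_lit 146) (nat_lit 6) (nat_lit 10) (nat_lit 8) L527297 (by decide +kernel)
theorem L527299 : W_3 (nat_lit 4) (nat_lit 0x10003800100008000c0003000000000000000) (nat_lit 0x0) (nat_lit 0x4000000020001000000000c00100008000000) := T_3 (nat_lit 58) (nat_lit 59) (nat_lit 3) (nat_lit 7) (nat_lit 3) L527298 (by decide +kernel)
theorem L527300 : W_3 (nat_lit 5) (nat_lit 0x1000380010000800040003000000000000000) (nat_lit 0x0) (nat_lit 0x4000000020001000080004c00100008000000) := T_3 (nat_lit 79) (nat_lit 62) (nat_lit 6) (nat_lit 10) (nat_lit 7) L527299 (by decide +kernel)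
theorem L527301 : W_3 (nat_lit 6) (nat_lit 0x1000380010000800040002000000000000000) (nat_lit 0x0) (nat_lit 0x4000000020001000080005c00180008000000) := T_3 (nat_lit 60) (nat_lit 43) (nat_lit 4) (nat_lit 10) (nat_lit 6) L527300 (by decide +kernel)
theorem L527302 : W_3 (nat_lit 7) (nat_lit 0x1000380010000800040000000000000000000) (nat_lit 0x0) (nat_lit 0x4000000020001000080007c0038001c000000) := Q_3 (nat_lit 61) (C_3 L527288 (C_3 L527291 (C_3 L527296 (C_3 L527301 N_3)))) (by decide +kernel)
theorem L527303 : W_3 (nat_lit 2) (nat_lit 0x1000380010000c000c0000000000000000000) (nat_lit 0x0) (nat_lit 0x4000000000001000020000000000000000000) := D_3 (nat_lit 146) (nat_lit 77) (nat_lit 96) (nat_lit 4) (nat_lit 10) (nat_lit 8) (nat_lit 6) (nat_lit 10) (nat_lit 8) (by decide +kernel)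
theorem L527304 : W_3 (nat_lit 3) (nat_lit 0x1000380010000c00040000000000000000000) (nat_lit 0x0) (nat_lit 0x40000000000010000a0004000000000000000) := T_3 (nat_lit 79) (nat_lit 62) (nat_lit 6) (nat_lit 10) (nat_lit 7) L527303 (by decide +kernel)
theorem L527305 : W_3 (nat_lit 2) (nat_lit 0x1000380010000e000c0000000000000000000) (nat_lit 0x0) (nat_lit 0x320000000000000000000) := D_3 (nat_lit 80) (nat_lit 81) (nat_lit 77) (nat_lit 1) (nat_lit 13) (nat_lit 4) (nat_lit 1) (nat_lit 12) (nat_lit 4) (by decide +kernel)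
theorem L527306 : W_3 (nat_lit 3) (nat_lit 0x1000380010000c000c0000000000000000000) (nat_lit 0x0) (nat_lit 0x300320000000000000000000) := T_3 (nat_lit 93) (nat_lit 92) (nat_lit 2) (nat_lit 7) (nat_lit 5) L527305 (by decide +kernel)
theorem L527307 : W_3 (nat_lit 4) (nat_lit 0x1000380010000c00040000000000000000000) (nat_lit 0x0) (nat_lit 0x3003a0004000000000000000) := T_3 (nat_lit 79) (nat_lit 62) (nat_lit 6) (nat_lit 10) (nat_lit 7) L527306 (by decide +kernel)
theorem L527308 : W_3 (nat_lit 2) (nat_lit 0x1000380010000e000c0000000000000000000) (nat_lit 0x0) (nat_lit 0x4000000000001000100000000000000000000) := D_3 (nat_lit 96) (nat_lit 146) (nat_lit 80) (nat_lit 6) (nat_lit 10) (nat_lit 8) (nat_lit 2) (nat_lit 8) (nat_lit 5) (by decide +kernel)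
theorem L527309 : W_3 (nat_lit 3) (nat_lit 0x1000380010000c000c0000000000000000000) (nat_lit 0x0) (nat_lit 0x4000000000001300100000000000000000000) := T_3 (nat_lit 93) (nat_lit 92) (nat_lit 2) (nat_lit 7) (nat_lit 5) L527308 (by decide +kernel)
theorem L527310 : W_3 (nat_lit 4) (nat_lit 0x1000380010000c00040000000000000000000) (nat_lit 0x0) (nat_lit 0x4000000000001300180004000000000000000) := T_3 (nat_lit 79) (nat_lit 62) (nat_lit 6) (nat_lit 10) (nat_lit 7) L527309 (by decide +kernel)
theorem L527311 : W_3 (nat_lit 2) (nat_lit 0x1000380010000e00060000000000000000000) (nat_lit 0x0) (nat_lit 0x20000180000000000000000000000) := D_3 (nat_lit 92) (nat_lit 113) (nat_lit 91) (nat_lit 3) (nat_lit 7) (nat_lit 5) (nat_lit 2) (nat_lit 6) (nat_lit 5) (by decide +kernel)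
theorem L527312 : W_3 (nat_lit 3) (nat_lit 0x1000380010000c00060000000000000000000) (nat_lit 0x0) (nat_lit 0x24000380000000000000000000000) := T_3 (nat_lit 93) (nat_lit 110) (nat_lit 6) (nat_lit 8) (nat_lit 8) L527311 (by decide +kernel)
theorem L527313 : W_3 (nat_lit 4) (nat_lit 0x1000380010000c00040000000000000000000) (nat_lit 0x0) (nat_lit 0x4000000024000380020000000000000000000) := T_3 (nat_lit 77) (nat_lit 146) (nat_lit 4) (nat_lit 10) (nat_lit 8) L527312 (by decide +kernel)
theorem L527314 : W_3 (nat_lit 5) (nat_lit 0x1000380010000800040000000000000000000) (nat_lit 0x0) (nat_lit 0x40000000240017803a0004000000000000000) := Q_3 (nat_lit 94) (C_3 L527304 (C_3 L527307 (C_3 L527310 (C_3 L527313 N_3)))) (by decide +kernel)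
theorem L527315 : W_3 (nat_lit 4) (nat_lit 0x1000380010000800060000000000000000000) (nat_lit 0x0) (nat_lit 0x4000000024000780000000000000000000000) := T_3 (nat_lit 94) (nat_lit 146) (nat_lit 4) (nat_lit 10) (nat_lit 8) L527312 (by decide +kernel)
theorem L527316 : W_3 (nat_lit 5) (nat_lit 0x1000380010000800040000000000000000000) (nat_lit 0x0) (nat_lit 0x4000000024000780020001000000000000000) := T_3 (nat_lit 77) (nat_lit 60) (nat_lit 4) (nat_lit 10) (nat_lit 7) L527315 (by decide +kernel)
theorem L527317 : W_3 (nat_lit 8) (nat_lit 0x1000380010000800000000000000000000000) (nat_lit 0x0) (nat_lit 0x40000000240017803e0007c0038001c000000) := Q_3 (nat_lit 78) (C_3 L527284 (C_3 L527287 (C_3 L527302 (C_3 L527314 (C_3 L527316 N_3))))) (by decide +kernel)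
theorem L527318 : W_3 (nat_lit 5) (nat_lit 0x1000380010000800000000000000000000000) (nat_lit 0x0) (nat_lit 0x20000000000000000e0007000280000000000) := T_3 (nat_lit 78) (nat_lit 145) (nat_lit 5) (nat_lit 10) (nat_lit 4) L527287 (by decide +kernel)
theorem L527319 : W_3 (nat_lit 8) (nat_lit 0x1000380010000800000000000000000000000) (nat_lit 0x0) (nat_lit 0x60000000200010000c0007c0038001c000000) := T_3 (nat_lit 78) (nat_lit 145) (nat_lit 5) (nat_lit 10) (nat_lit 4) L527302 (by decide +kernel)
theorem L527320 : W_3 (nat_lit 6) (nat_lit 0x1000380010000800000000000000000000000) (nat_lit 0x0) (nat_lit 0x60000000240017803e0004000000000000000) := T_3 (nat_lit 78) (nat_lit 145) (nat_lit 5) (nat_lit 10) (nat_lit 4) L527314 (by decide +kernel)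
theorem L527321 : W_3 (nat_lit 2) (nat_lit 0xd000380010000c00000000000000000000000) (nat_lit 0x0) (nat_lit 0x32000000000000000000000000000000000000) := D_3 (nat_lit 148) (nat_lit 149) (nat_lit 145) (nat_lit 0) (nat_lit 13) (nat_lit 8) (nat_lit 0) (nat_lit 12) (nat_lit 8) (by decide +kernel)
theorem L527322 : W_3 (nat_lit 3) (nat_lit 0x5000380010000c00000000000000000000000) (nat_lit 0x0) (nat_lit 0x10003a000000000000000000000000000000000000) := T_3 (nat_lit 147) (nat_lit 164) (nat_lit 7) (nat_lit 10) (nat_lit 5) L527321 (by decide +kernel)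
theorem L527323 : W_3 (nat_lit 4) (nat_lit 0x5000380010000800000000000000000000000) (nat_lit 0x0) (nat_lit 0x10003a000000000000400020000000000000000000) := T_3 (nat_lit 94) (nat_lit 77) (nat_lit 4) (nat_lit 10) (nat_lit 8) L527322 (by decide +kernel)
theorem L527324 : W_3 (nat_lit 6) (nat_lit 0x1000380010000800000000000000000000000) (nat_lit 0x0) (nat_lit 0x200018003e0000000600017000a0000000000000000000) := Q_3 (nat_lit 146) (C_3 L527323 (C_3 L524991 (C_3 L524973 N_3))) (by decide +kernel)
theorem L527325 : W_3 (nat_lit 6) (nat_lit 0x1000380010000800000000000000000000000) (nat_lit 0x0) (nat_lit 0x6000000024000780060001000000000000000) := T_3 (nat_lit 78) (nat_lit 145) (nat_lit 5) (nat_lit 10) (nat_lit 4) L527316 (by decide +kernel)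
theorem L527326 : W_3 (nat_lit 9) (nat_lit 0x1000380010000000000000000000000000000) (nat_lit 0x0) (nat_lit 0x200018003e000000064001f803e0007c0038001c000000) := Q_3 (nat_lit 95) (C_3 L527317 (C_3 L527318 (C_3 L527319 (C_3 L527320 (C_3 L527324 (C_3 L527325 N_3)))))) (by decide +kernel)
theorem L527327 : W_3 (nat_lit 4) (nat_lit 0x10003c0010000000000000000000000000000) (nat_lit 0x0) (nat_lit 0x400020000000000007000100008000000000000000000) := T_3 (nat_lit 109) (nat_lit 108) (nat_lit 0) (nat_lit 10) (nat_lit 7) L504431 (by decide +kernel)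
theorem L527328 : W_3 (nat_lit 5) (nat_lit 0x1000380010000000000000000000000000000) (nat_lit 0x0) (nat_lit 0x400020000000040027000100008000000000000000000) := T_3 (nat_lit 126) (nat_lit 113) (nat_lit 2) (nat_lit 7) (nat_lit 7) L527327 (by decide +kernel)
theorem L527329 : W_3 (nat_lit 2) (nat_lit 0x50003c0011000000000000000000000000000) (nat_lit 0x0) (nat_lit 0x2000020000800000000000000000000000000) := D_3 (nat_lit 125) (nat_lit 145) (nat_lit 107) (nat_lit 3) (nat_lit 6) (nat_lit 7) (nat_lit 0) (nat_lit 9) (nat_lit 7) (by decide +kernel)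
theorem L527330 : W_3 (nat_lit 3) (nat_lit 0x10003c0011000000000000000000000000000) (nat_lit 0x0) (nat_lit 0xe000020000800000000000000000000000000) := T_3 (nat_lit 146) (nat_lit 147) (nat_lit 3) (nat_lit 7) (nat_lit 7) L527329 (by decide +kernel)
theorem L527331 : W_3 (nat_lit 4) (nat_lit 0x10003c0010000000000000000000000000000) (nat_lit 0x0) (nat_lit 0xe000020003800000000000000000000000000) := T_3 (nat_lit 108) (nat_lit 109) (nat_lit 0) (nat_lit 10) (nat_lit 7) L527330 (by decide +kernel)
theorem L527332 : W_3 (nat_lit 5) (nat_lit 0x1000380010000000000000000000000000000) (nat_lit 0x0) (nat_lit 0xe000060023800000000000000000000000000) := T_3 (nat_lit 126) (nat_lit 113) (nat_lit 2) (nat_lit 7) (nat_lit 7) L527331 (by decide +kernel)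
theorem L527333 : W_3 (nat_lit 2) (nat_lit 0x5000380010000800000000000000000000000) (nat_lit 0x0) (nat_lit 0x100008000040000000000000000000000000000000) := D_3 (nat_lit 147) (nat_lit 126) (nat_lit 164) (nat_lit 3) (nat_lit 7) (nat_lit 7) (nat_lit 7) (nat_lit 10) (nat_lit 5) (by decide +kernel)
theorem L527337 : W_3 (nat_lit 6) (nat_lit 0x1000380010000800000000000000000000000) (nat_lit 0x0) (nat_lit 0x10000c0000400000014000e0005000000000000000) := Q_3 (nat_lit 146) (C_3 L527333 (C_3 L524992 (C_3 L527336 N_3))) (by decide +kernel)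
theorem L527338 : W_3 (nat_lit 2) (nat_lit 0x50003800100008000c0000000000000000000) (nat_lit 0x0) (nat_lit 0x100008000040000000000000000000000000000000) := D_3 (nat_lit 147) (nat_lit 126) (nat_lit 164) (nat_lit 3) (nat_lit 7) (nat_lit 7) (nat_lit 7) (nat_lit 10) (nat_lit 5) (by decide +kernel)
theorem L527339 : W_3 (nat_lit 3) (nat_lit 0x10003800100008000c0000000000000000000) (nat_lit 0x0) (nat_lit 0x10000c000040000001000000000000000000000000) := T_3 (nat_lit 146) (nat_lit 96) (nat_lit 6) (nat_lit 10) (nat_lit 8) L527338 (by decide +kernel)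
theorem L527340 : W_3 (nat_lit 4) (nat_lit 0x1000380010000800040000000000000000000) (nat_lit 0x0) (nat_lit 0x10000c000040000001000080004000000000000000) := T_3 (nat_lit 79) (nat_lit 62) (nat_lit 6) (nat_lit 10) (nat_lit 7) L527339 (by decide +kernel)
theorem L527341 : W_3 (nat_lit 5) (nat_lit 0x1000380010000800000000000000000000000) (nat_lit 0x0) (nat_lit 0x10000e0000400000010000c0004000000000000000) := T_3 (nat_lit 78) (nat_lit 145) (nat_lit 5) (nat_lit 10) (nat_lit 4) L527340 (by decide +kernel)
theorem L527372 : W_3 (nat_lit 2) (nat_lit 0x5000380014001e00000000000000000000000) (nat_lit 0x0) (nat_lit 0x2000000000000000018000000000000000000) := D_3 (nat_lit 76) (nat_lit 75) (nat_lit 145) (nat_lit 0) (nat_lit 11) (nat_lit 5) (nat_lit 7) (nat_lit 8) (nat_lit 4) (by decide +kernel)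
theorem L527376 : W_3 (nat_lit 2) (nat_lit 0x5000380014001e00000000000000000000000) (nat_lit 0x0) (nat_lit 0x100018000000000000000000) := D_3 (nat_lit 75) (nat_lit 76) (nat_lit 92) (nat_lit 0) (nat_lit 11) (nat_lit 5) (nat_lit 4) (nat_lit 8) (nat_lit 8) (by decide +kernel)
theorem L527382 : W_3 (nat_lit 3) (nat_lit 0x5000380010001e00000000000000000000000) (nat_lit 0x0) (nat_lit 0x6000100018000000000000000000) := T_3 (nat_lit 110) (nat_lit 109) (nat_lit 1) (nat_lit 11) (nat_lit 5) L527376 (by decide +kernel)
theorem L527383 : W_3 (nat_lit 4) (nat_lit 0x5000380010001a00000000000000000000000) (nat_lit 0x0) (nat_lit 0x6000500038000000000000000000) := T_3 (nat_lit 94) (nat_lit 77) (nat_lit 4) (nat_lit 10) (nat_lit 8) L527382 (by decide +kernel)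
theorem L527384 : W_3 (nat_lit 5) (nat_lit 0x5000380010000a00000000000000000000000) (nat_lit 0x0) (nat_lit 0x60015000b8000000000000000000) := T_3 (nat_lit 96) (nat_lit 79) (nat_lit 6) (nat_lit 10) (nat_lit 8) L527383 (by decide +kernel)
theorem L527385 : W_3 (nat_lit 2) (nat_lit 0x5000380010001f00008000000000000000000) (nat_lit 0x0) (nat_lit 0x40003000000000000000000000000000) := D_3 (nat_lit 109) (nat_lit 108) (nat_lit 126) (nat_lit 1) (nat_lit 10) (nat_lit 5) (nat_lit 7) (nat_lit 7) (nat_lit 4) (by decide +kernel)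
theorem L527386 : W_3 (nat_lit 3) (nat_lit 0x5000380010001e00008000000000000000000) (nat_lit 0x0) (nat_lit 0x40003000100004000000000000000000) := T_3 (nat_lit 92) (nat_lit 74) (nat_lit 0) (nat_lit 10) (nat_lit 5) L527385 (by decide +kernel)
theorem L527387 : W_3 (nat_lit 4) (nat_lit 0x5000380010001e00000000000000000000000) (nat_lit 0x0) (nat_lit 0x4000300010001c000000000000000000) := T_3 (nat_lit 75) (nat_lit 76) (nat_lit 0) (nat_lit 11) (nat_lit 5) L527386 (by decide +kernel)
theorem L527388 : W_3 (nat_lit 5) (nat_lit 0x5000380010000e00000000000000000000000) (nat_lit 0x0) (nat_lit 0x4000300110009c000000000000000000) := T_3 (nat_lit 96) (nat_lit 79) (nat_lit 6) (nat_lit 10) (nat_lit 8) L527387 (by decide +kernel)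
theorem L527389 : W_3 (nat_lit 6) (nat_lit 0x5000380010000a00000000000000000000000) (nat_lit 0x0) (nat_lit 0x400030015000bc000000000000000000) := T_3 (nat_lit 94) (nat_lit 77) (nat_lit 4) (nat_lit 10) (nat_lit 8) L527388 (by decide +kernel)
theorem L527390 : W_3 (nat_lit 3) (nat_lit 0x5000380010001e00000000000000000000000) (nat_lit 0x0) (nat_lit 0x2000000006000000018000000000000000000) := T_3 (nat_lit 110) (nat_lit 109) (nat_lit 1) (nat_lit 11) (nat_lit 5) L527372 (by decide +kernel)
theorem L527391 : W_3 (nat_lit 4) (nat_lit 0x5000380010001a00000000000000000000000) (nat_lit 0x0) (nat_lit 0x2000000006000400038000000000000000000) := T_3 (nat_lit 94) (nat_lit 77) (nat_lit 4) (nat_lit 10) (nat_lit 8) L527390 (by decide +kernel)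
theorem L527392 : W_3 (nat_lit 5) (nat_lit 0x5000380010000a00000000000000000000000) (nat_lit 0x0) (nat_lit 0x20000000060014000b8000000000000000000) := T_3 (nat_lit 96) (nat_lit 79) (nat_lit 6) (nat_lit 10) (nat_lit 8) L527391 (by decide +kernel)
theorem L527440 : W_3 (nat_lit 2) (nat_lit 0x1000380014000f00000000000000000000000) (nat_lit 0x0) (nat_lit 0x3001000000000000000000000000) := D_3 (nat_lit 109) (nat_lit 108) (nat_lit 96) (nat_lit 1) (nat_lit 10) (nat_lit 5) (nat_lit 1) (nat_lit 11) (nat_lit 5) (by decide +kernel)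
theorem L527532 : W_3 (nat_lit 3) (nat_lit 0x1000380014000b00000000000000000000000) (nat_lit 0x0) (nat_lit 0x3001400020000000000000000000) := T_3 (nat_lit 94) (nat_lit 77) (nat_lit 6) (nat_lit 8) (nat_lit 8) L527440 (by decide +kernel)
theorem L527533 : W_3 (nat_lit 4) (nat_lit 0x1000380014000a00000000000000000000000) (nat_lit 0x0) (nat_lit 0x3001500028000000000000000000) := T_3 (nat_lit 92) (nat_lit 75) (nat_lit 4) (nat_lit 8) (nat_lit 8) L527532 (by decide +kernel)
theorem L527534 : W_3 (nat_lit 2) (nat_lit 0x1000380014000a00010000000000000000000) (nat_lit 0x0) (nat_lit 0x400020001000000000000000) := D_3 (nat_lit 77) (nat_lit 60) (nat_lit 94) (nat_lit 6) (nat_lit 8) (nat_lit 7) (nat_lit 6) (nat_lit 8) (nat_lit 8) (by decide +kernel)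
theorem L527535 : W_3 (nat_lit 3) (nat_lit 0x1000380014000a00000000000000000000000) (nat_lit 0x0) (nat_lit 0x2000000000000400030001000000000000000) := T_3 (nat_lit 76) (nat_lit 145) (nat_lit 7) (nat_lit 8) (nat_lit 4) L527534 (by decide +kernel)
theorem L527536 : W_3 (nat_lit 2) (nat_lit 0x1000380016000b00010000000000000000000) (nat_lit 0x0) (nat_lit 0x1800400000000000000000000000) := D_3 (nat_lit 108) (nat_lit 107) (nat_lit 94) (nat_lit 3) (nat_lit 5) (nat_lit 6) (nat_lit 1) (nat_lit 10) (nat_lit 5) (by decide +kernel)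
theorem L527537 : W_3 (nat_lit 3) (nat_lit 0x1000380014000b00010000000000000000000) (nat_lit 0x0) (nat_lit 0x20000000000003800400000000000000000000000) := T_3 (nat_lit 109) (nat_lit 161) (nat_lit 4) (nat_lit 8) (nat_lit 9) L527536 (by decide +kernel)
theorem L527538 : W_3 (nat_lit 4) (nat_lit 0x1000380014000b00000000000000000000000) (nat_lit 0x0) (nat_lit 0x20002000000003800400010000000000000000000) := T_3 (nat_lit 76) (nat_lit 145) (nat_lit 7) (nat_lit 8) (nat_lit 4) L527537 (by decide +kernel)
theorem L527539 : W_3 (nat_lit 5) (nat_lit 0x1000380014000a00000000000000000000000) (nat_lit 0x0) (nat_lit 0x20002000000003800500018000000000000000000) := T_3 (nat_lit 92) (nat_lit 75) (nat_lit 4) (nat_lit 8) (nat_lit 8) L527538 (by decide +kernel)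
theorem L527540 : W_3 (nat_lit 2) (nat_lit 0x1000380016000b00010001000000000000000) (nat_lit 0x0) (nat_lit 0x8000c0000000000) := D_3 (nat_lit 59) (nat_lit 43) (nat_lit 42) (nat_lit 6) (nat_lit 8) (nat_lit 6) (nat_lit 5) (nat_lit 8) (nat_lit 2) (by decide +kernel)
theorem L527541 : W_3 (nat_lit 3) (nat_lit 0x1000380014000b00010001000000000000000) (nat_lit 0x0) (nat_lit 0x200000000000020000000000008000c0000000000) := T_3 (nat_lit 109) (nat_lit 161) (nat_lit 4) (nat_lit 8) (nat_lit 9) L527540 (by decide +kernel)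
theorem L527542 : W_3 (nat_lit 4) (nat_lit 0x1000380014000b00010000000000000000000) (nat_lit 0x0) (nat_lit 0x200000000000020000000200018000c0000000000) := T_3 (nat_lit 60) (nat_lit 77) (nat_lit 6) (nat_lit 8) (nat_lit 7) L527541 (by decide +kernel)
theorem L527543 : W_3 (nat_lit 5) (nat_lit 0x1000380014000b00000000000000000000000) (nat_lit 0x0) (nat_lit 0x200020000000020000000300018000c0000000000) := T_3 (nat_lit 76) (nat_lit 145) (nat_lit 7) (nat_lit 8) (nat_lit 4) L527542 (by decide +kernel)
theorem L527544 : W_3 (nat_lit 6) (nat_lit 0x1000380014000a00000000000000000000000) (nat_lit 0x0) (nat_lit 0x200020000000020001000380018000c0000000000) := T_3 (nat_lit 92) (nat_lit 75) (nat_lit 4) (nat_lit 8) (nat_lit 8) L527543 (by decide +kernel)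
theorem L527571 : W_3 (nat_lit 2) (nat_lit 0x5000380010000a00000000000000000000000) (nat_lit 0x0) (nat_lit 0x100008000040000000000000000000000000000000) := D_3 (nat_lit 147) (nat_lit 164) (nat_lit 126) (nat_lit 7) (nat_lit 10) (nat_lit 5) (nat_lit 3) (nat_lit 7) (nat_lit 7) (by decide +kernel)
theorem L527572 : W_3 (nat_lit 7) (nat_lit 0x1000380010000a00000000000000000000000) (nat_lit 0x0) (nat_lit 0x10000c0000400070015000bc000000000000000000) := Q_3 (nat_lit 146) (C_3 L527384 (C_3 L527389 (C_3 L527571 N_3))) (by decide +kernel)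
theorem L527573 : W_3 (nat_lit 7) (nat_lit 0x1000380010000a00000000000000000000000) (nat_lit 0x0) (nat_lit 0x200020000000078015000380018000c0000000000) := Q_3 (nat_lit 110) (C_3 L527544 (C_3 L527533 (C_3 L527535 (C_3 L527539 N_3)))) (by decide +kernel)
theorem L527574 : W_3 (nat_lit 2) (nat_lit 0xd000380010000a00000000000000000000000) (nat_lit 0x0) (nat_lit 0x32000000000000000000000000000000000000) := D_3 (nat_lit 148) (nat_lit 149) (nat_lit 145) (nat_lit 0) (nat_lit 13) (nat_lit 8) (nat_lit 0) (nat_lit 12) (nat_lit 8) (by decide +kernel)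
theorem L527575 : W_3 (nat_lit 3) (nat_lit 0x5000380010000a00000000000000000000000) (nat_lit 0x0) (nat_lit 0x10003a000000000000000000000000000000000000) := T_3 (nat_lit 147) (nat_lit 164) (nat_lit 7) (nat_lit 10) (nat_lit 5) L527574 (by decide +kernel)
theorem L527576 : W_3 (nat_lit 7) (nat_lit 0x1000380010000a00000000000000000000000) (nat_lit 0x0) (nat_lit 0x10003e0000400030015000bc000000000000000000) := Q_3 (nat_lit 146) (C_3 L527575 (C_3 L527571 (C_3 L527389 N_3))) (by decide +kernel)
theorem L527577 : W_3 (nat_lit 6) (nat_lit 0x1000380010000a00000000000000000000000) (nat_lit 0x0) (nat_lit 0x10003e0000400060014000b8000000000000000000) := Q_3 (nat_lit 146) (C_3 L527575 (C_3 L527571 (C_3 L527392 N_3))) (by decide +kernel)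
theorem L527578 : W_3 (nat_lit 2) (nat_lit 0x200010003c0012000a00000000000000000000000) (nat_lit 0x0) (nat_lit 0x4000100008000000000000000000) := D_3 (nat_lit 92) (nat_lit 75) (nat_lit 110) (nat_lit 7) (nat_lit 7) (nat_lit 4) (nat_lit 4) (nat_lit 8) (nat_lit 9) (by decide +kernel)
theorem L527579 : W_3 (nat_lit 3) (nat_lit 0x10003c0012000a00000000000000000000000) (nat_lit 0x0) (nat_lit 0x400020000000000004000100008000000000000000000) := T_3 (nat_lit 161) (nat_lit 178) (nat_lit 4) (nat_lit 8) (nat_lit 10) L527578 (by decide +kernel)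
theorem L527580 : W_3 (nat_lit 4) (nat_lit 0x10003c0010000a00000000000000000000000) (nat_lit 0x0) (nat_lit 0x400020000000000007000100008000000000000000000) := T_3 (nat_lit 109) (nat_lit 108) (nat_lit 0) (nat_lit 10) (nat_lit 7) L527579 (by decide +kernel)
theorem L527581 : W_3 (nat_lit 2) (nat_lit 0x54003e0012001e00000000000000000000000) (nat_lit 0x0) (nat_lit 0x100018000000000000000000) := D_3 (nat_lit 75) (nat_lit 76) (nat_lit 92) (nat_lit 0) (nat_lit 11) (nat_lit 5) (nat_lit 7) (nat_lit 7) (nat_lit 4) (by decide +kernel)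
theorem L527582 : W_3 (nat_lit 3) (nat_lit 0x54003e0012001a00000000000000000000000) (nat_lit 0x0) (nat_lit 0x4000500018000000000000000000) := T_3 (nat_lit 94) (nat_lit 110) (nat_lit 1) (nat_lit 11) (nat_lit 5) L527581 (by decide +kernel)
theorem L527583 : W_3 (nat_lit 4) (nat_lit 0x54003e0012000a00000000000000000000000) (nat_lit 0x0) (nat_lit 0x4001500098000000000000000000) := T_3 (nat_lit 96) (nat_lit 79) (nat_lit 6) (nat_lit 10) (nat_lit 8) L527582 (by decide +kernel)
theorem L527584 : W_3 (nat_lit 5) (nat_lit 0x50003e0012000a00000000000000000000000) (nat_lit 0x0) (nat_lit 0x600000004001500098000000000000000000) := T_3 (nat_lit 142) (nat_lit 141) (nat_lit 1) (nat_lit 9) (nat_lit 7) L527583 (by decide +kernel)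
theorem L527585 : W_3 (nat_lit 6) (nat_lit 0x50003c0012000a00000000000000000000000) (nat_lit 0x0) (nat_lit 0x2600020004001500098000000000000000000) := T_3 (nat_lit 125) (nat_lit 145) (nat_lit 3) (nat_lit 6) (nat_lit 7) L527584 (by decide +kernel)
theorem L527586 : W_3 (nat_lit 7) (nat_lit 0x10003c0012000a00000000000000000000000) (nat_lit 0x0) (nat_lit 0xe600020004001500098000000000000000000) := T_3 (nat_lit 146) (nat_lit 147) (nat_lit 3) (nat_lit 7) (nat_lit 7) L527585 (by decide +kernel)
theorem L527587 : W_3 (nat_lit 8) (nat_lit 0x10003c0010000a00000000000000000000000) (nat_lit 0x0) (nat_lit 0xe600020007001500098000000000000000000) := T_3 (nat_lit 109) (nat_lit 108) (nat_lit 0) (nat_lit 10) (nat_lit 7) L527586 (by decide +kernel)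
theorem L527588 : W_3 (nat_lit 2) (nat_lit 0x50003e0010000a00000000000000000000000) (nat_lit 0x0) (nat_lit 0x3800000000000000000000000000) := D_3 (nat_lit 108) (nat_lit 109) (nat_lit 107) (nat_lit 0) (nat_lit 10) (nat_lit 7) (nat_lit 0) (nat_lit 9) (nat_lit 7) (by decide +kernel)
theorem L527589 : W_3 (nat_lit 3) (nat_lit 0x50003c0010000a00000000000000000000000) (nat_lit 0x0) (nat_lit 0x2000020003800000000000000000000000000) := T_3 (nat_lit 125) (nat_lit 145) (nat_lit 3) (nat_lit 6) (nat_lit 7) L527588 (by decide +kernel)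
theorem L527590 : W_3 (nat_lit 4) (nat_lit 0x10003c0010000a00000000000000000000000) (nat_lit 0x0) (nat_lit 0xe000020003800000000000000000000000000) := T_3 (nat_lit 146) (nat_lit 147) (nat_lit 3) (nat_lit 7) (nat_lit 7) L527589 (by decide +kernel)
theorem L527591 : W_3 (nat_lit 2) (nat_lit 0x52003f8014401a00009000000000000000000) (nat_lit 0x0) (nat_lit 0x400010000400000000000000) := D_3 (nat_lit 76) (nat_lit 58) (nat_lit 94) (nat_lit 4) (nat_lit 8) (nat_lit 7) (nat_lit 0) (nat_lit 11) (nat_lit 5) (by decide +kernel)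
theorem L527592 : W_3 (nat_lit 3) (nat_lit 0x52003f8014401a00001000000000000000000) (nat_lit 0x0) (nat_lit 0x500018000400000000000000) := T_3 (nat_lit 75) (nat_lit 92) (nat_lit 4) (nat_lit 8) (nat_lit 8) L527591 (by decide +kernel)
theorem L527593 : W_3 (nat_lit 4) (nat_lit 0x52003f8014401a00000000000000000000000) (nat_lit 0x0) (nat_lit 0x520019000400000000000000) := T_3 (nat_lit 72) (nat_lit 89) (nat_lit 7) (nat_lit 4) (nat_lit 4) L527592 (by decide +kernel)
theorem L527594 : W_3 (nat_lit 5) (nat_lit 0x52003f8010401a00000000000000000000000) (nat_lit 0x0) (nat_lit 0x6000520019000400000000000000) := T_3 (nat_lit 110) (nat_lit 109) (nat_lit 2) (nat_lit 4) (nat_lit 7) L527593 (by decide +kernel)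
theorem L527595 : W_3 (nat_lit 6) (nat_lit 0x52003f0010401a00000000000000000000000) (nat_lit 0x0) (nat_lit 0x8006200520019000400000000000000) := T_3 (nat_lit 123) (nat_lit 105) (nat_lit 0) (nat_lit 7) (nat_lit 7) L527594 (by decide +kernel)
theorem L527596 : W_3 (nat_lit 7) (nat_lit 0x52003f0010001a00000000000000000000000) (nat_lit 0x0) (nat_lit 0x8006e00520019000400000000000000) := T_3 (nat_lit 106) (nat_lit 107) (nat_lit 0) (nat_lit 8) (nat_lit 7) L527595 (by decide +kernel)
theorem L527597 : W_3 (nat_lit 8) (nat_lit 0x52003e0010001a00000000000000000000000) (nat_lit 0x0) (nat_lit 0x100018006e00520019000400000000000000) := T_3 (nat_lit 124) (nat_lit 140) (nat_lit 1) (nat_lit 8) (nat_lit 7) L527596 (by decide +kernel)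
theorem L527598 : W_3 (nat_lit 9) (nat_lit 0x52003e0010000a00000000000000000000000) (nat_lit 0x0) (nat_lit 0x100018006e01520099000400000000000000) := T_3 (nat_lit 96) (nat_lit 79) (nat_lit 6) (nat_lit 10) (nat_lit 8) L527597 (by decide +kernel)
theorem L527599 : W_3 (nat_lit 10) (nat_lit 0x50003e0010000a00000000000000000000000) (nat_lit 0x0) (nat_lit 0x700018006e01520099000400000000000000) := T_3 (nat_lit 141) (nat_lit 142) (nat_lit 1) (nat_lit 9) (nat_lit 7) L527598 (by decide +kernel)
theorem L527600 : W_3 (nat_lit 11) (nat_lit 0x50003c0010000a00000000000000000000000) (nat_lit 0x0) (nat_lit 0x2700038006e01520099000400000000000000) := T_3 (nat_lit 125) (nat_lit 145) (nat_lit 3) (nat_lit 6) (nat_lit 7) L527599 (by decide +kernel)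
theorem L527601 : W_3 (nat_lit 12) (nat_lit 0x10003c0010000a00000000000000000000000) (nat_lit 0x0) (nat_lit 0xe700038006e01520099000400000000000000) := T_3 (nat_lit 146) (nat_lit 147) (nat_lit 3) (nat_lit 7) (nat_lit 7) L527600 (by decide +kernel)
theorem L527602 : W_3 (nat_lit 2) (nat_lit 0x52003e0010800a00000000000000000000000) (nat_lit 0x0) (nat_lit 0x100010000400000000000000000000000000) := D_3 (nat_lit 124) (nat_lit 140) (nat_lit 106) (nat_lit 1) (nat_lit 8) (nat_lit 7) (nat_lit 0) (nat_lit 8) (nat_lit 7) (by decide +kernel)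
theorem L527603 : W_3 (nat_lit 3) (nat_lit 0x52003e0010000a00000000000000000000000) (nat_lit 0x0) (nat_lit 0x100010001c00000000000000000000000000) := T_3 (nat_lit 107) (nat_lit 108) (nat_lit 0) (nat_lit 9) (nat_lit 7) L527602 (by decide +kernel)
theorem L527604 : W_3 (nat_lit 4) (nat_lit 0x50003e0010000a00000000000000000000000) (nat_lit 0x0) (nat_lit 0x700010001c00000000000000000000000000) := T_3 (nat_lit 141) (nat_lit 142) (nat_lit 1) (nat_lit 9) (nat_lit 7) L527603 (by decide +kernel)
theorem L527605 : W_3 (nat_lit 5) (nat_lit 0x50003c0010000a00000000000000000000000) (nat_lit 0x0) (nat_lit 0x2700030001c00000000000000000000000000) := T_3 (nat_lit 125) (nat_lit 145) (nat_lit 3) (nat_lit 6) (nat_lit 7) L527604 (by decide +kernel)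
theorem L527606 : W_3 (nat_lit 6) (nat_lit 0x10003c0010000a00000000000000000000000) (nat_lit 0x0) (nat_lit 0xe700030001c00000000000000000000000000) := T_3 (nat_lit 146) (nat_lit 147) (nat_lit 3) (nat_lit 7) (nat_lit 7) L527605 (by decide +kernel)
theorem L527607 : W_3 (nat_lit 13) (nat_lit 0x1000380010000a00000000000000000000000) (nat_lit 0x0) (nat_lit 0x40002000e700078007e01520099000400000000000000) := Q_3 (nat_lit 126) (C_3 L527580 (C_3 L527587 (C_3 L527590 (C_3 L527601 (C_3 L527606 N_3))))) (by decide +kernel)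
theorem L527608 : W_3 (nat_lit 2) (nat_lit 0x5000380012001e00000000000000000000000) (nat_lit 0x0) (nat_lit 0x40001000100000000000000000000000) := D_3 (nat_lit 108) (nat_lit 92) (nat_lit 126) (nat_lit 1) (nat_lit 10) (nat_lit 5) (nat_lit 0) (nat_lit 10) (nat_lit 7) (by decide +kernel)
theorem L527609 : W_3 (nat_lit 3) (nat_lit 0x5000380010001e00000000000000000000000) (nat_lit 0x0) (nat_lit 0x40007000100000000000000000000000) := T_3 (nat_lit 109) (nat_lit 110) (nat_lit 1) (nat_lit 11) (nat_lit 5) L527608 (by decide +kernel)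
theorem L527610 : W_3 (nat_lit 4) (nat_lit 0x5000380010001a00000000000000000000000) (nat_lit 0x0) (nat_lit 0x40007000500020000000000000000000) := T_3 (nat_lit 94) (nat_lit 77) (nat_lit 4) (nat_lit 10) (nat_lit 8) L527609 (by decide +kernel)
theorem L527611 : W_3 (nat_lit 5) (nat_lit 0x5000380010000a00000000000000000000000) (nat_lit 0x0) (nat_lit 0x400070015000a0000000000000000000) := T_3 (nat_lit 96) (nat_lit 79) (nat_lit 6) (nat_lit 10) (nat_lit 8) L527610 (by decide +kernel)
theorem L527612 : W_3 (nat_lit 6) (nat_lit 0x1000380010000a00000000000000000000000) (nat_lit 0x0) (nat_lit 0x10003e0000400070015000a0000000000000000000) := Q_3 (nat_lit 146) (C_3 L527611 (C_3 L527575 N_3)) (by decide +kernel)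
theorem L527613 : W_3 (nat_lit 2) (nat_lit 0x5000380010001e00008000000000000000000) (nat_lit 0x0) (nat_lit 0x4000100004000000000000000000) := D_3 (nat_lit 92) (nat_lit 74) (nat_lit 110) (nat_lit 0) (nat_lit 10) (nat_lit 5) (nat_lit 4) (nat_lit 8) (nat_lit 8) (by decide +kernel)
theorem L527614 : W_3 (nat_lit 3) (nat_lit 0x5000380010001e00000000000000000000000) (nat_lit 0x0) (nat_lit 0x400010001c000000000000000000) := T_3 (nat_lit 75) (nat_lit 76) (nat_lit 0) (nat_lit 11) (nat_lit 5) L527613 (by decide +kernel)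
theorem L527615 : W_3 (nat_lit 4) (nat_lit 0x5000380010001a00000000000000000000000) (nat_lit 0x0) (nat_lit 0x400050003c000000000000000000) := T_3 (nat_lit 94) (nat_lit 77) (nat_lit 4) (nat_lit 10) (nat_lit 8) L527614 (by decide +kernel)
theorem L527616 : W_3 (nat_lit 5) (nat_lit 0x5000380010000a00000000000000000000000) (nat_lit 0x0) (nat_lit 0x40015000bc000000000000000000) := T_3 (nat_lit 96) (nat_lit 79) (nat_lit 6) (nat_lit 10) (nat_lit 8) L527615 (by decide +kernel)
theorem L527617 : W_3 (nat_lit 6) (nat_lit 0x1000380010000a00000000000000000000000) (nat_lit 0x0) (nat_lit 0x10003e0000000040015000bc000000000000000000) := Q_3 (nat_lit 146) (C_3 L527616 (C_3 L527575 N_3)) (by decide +kernel)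
theorem L527618 : W_3 (nat_lit 2) (nat_lit 0x4000200070003c0014001b00000000000000000000000) (nat_lit 0x0) (nat_lit 0x4000200010000000000000000000000000000000000000000) := D_3 (nat_lit 177) (nat_lit 160) (nat_lit 194) (nat_lit 5) (nat_lit 8) (nat_lit 6) (nat_lit 5) (nat_lit 8) (nat_lit 7) (by decide +kernel)
theorem L527619 : W_3 (nat_lit 3) (nat_lit 0x200070003c0014001b00000000000000000000000) (nat_lit 0x0) (nat_lit 0xc000600010000000000000000000000000000000000000000) := T_3 (nat_lit 178) (nat_lit 195) (nat_lit 6) (nat_lit 8) (nat_lit 11) L527618 (by decide +kernel)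
theorem L527620 : W_3 (nat_lit 4) (nat_lit 0x70003c0014001b00000000000000000000000) (nat_lit 0x0) (nat_lit 0xc000600030000000000002000000000000000000000000000) := T_3 (nat_lit 161) (nat_lit 109) (nat_lit 4) (nat_lit 8) (nat_lit 9) L527619 (by decide +kernel)
theorem L527621 : W_3 (nat_lit 5) (nat_lit 0x70003c0014001a00000000000000000000000) (nat_lit 0x0) (nat_lit 0xc000600030000000000002000100008000000000000000000) := T_3 (nat_lit 92) (nat_lit 75) (nat_lit 4) (nat_lit 8) (nat_lit 8) L527620 (by decide +kernel)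
theorem L527622 : W_3 (nat_lit 6) (nat_lit 0x70003c0010001a00000000000000000000000) (nat_lit 0x0) (nat_lit 0xc000600030000000000006000100018000000000000000000) := T_3 (nat_lit 110) (nat_lit 76) (nat_lit 7) (nat_lit 8) (nat_lit 4) L527621 (by decide +kernel)
theorem L527623 : W_3 (nat_lit 7) (nat_lit 0x70003c0010000a00000000000000000000000) (nat_lit 0x0) (nat_lit 0xc000600030000000000006001100098000000000000000000) := T_3 (nat_lit 96) (nat_lit 79) (nat_lit 6) (nat_lit 10) (nat_lit 8) L527622 (by decide +kernel)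
theorem L527624 : W_3 (nat_lit 8) (nat_lit 0x50003c0010000a00000000000000000000000) (nat_lit 0x0) (nat_lit 0xc000600030002000020006001100098000000000000000000) := T_3 (nat_lit 145) (nat_lit 125) (nat_lit 3) (nat_lit 6) (nat_lit 7) L527623 (by decide +kernel)
theorem L527625 : W_3 (nat_lit 9) (nat_lit 0x10003c0010000a00000000000000000000000) (nat_lit 0x0) (nat_lit 0xc00060003000e000020006001100098000000000000000000) := T_3 (nat_lit 146) (nat_lit 147) (nat_lit 3) (nat_lit 7) (nat_lit 7) L527624 (by decide +kernel)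
theorem L527626 : W_3 (nat_lit 10) (nat_lit 0x1000380010000a00000000000000000000000) (nat_lit 0x0) (nat_lit 0xc00060003000e700070007c01100098000000000000000000) := Q_3 (nat_lit 126) (C_3 L527580 (C_3 L527606 (C_3 L527625 N_3))) (by decide +kernel)
theorem L527627 : W_3 (nat_lit 2) (nat_lit 0x1000380014000f00000000000000000000000) (nat_lit 0x0) (nat_lit 0x20000000000003000000000000000000000000000) := D_3 (nat_lit 109) (nat_lit 108) (nat_lit 161) (nat_lit 1) (nat_lit 10) (nat_lit 5) (nat_lit 4) (nat_lit 8) (nat_lit 9) (by decide +kernel)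
theorem L527628 : W_3 (nat_lit 3) (nat_lit 0x1000380014000b00000000000000000000000) (nat_lit 0x0) (nat_lit 0x20000000000003000400020000000000000000000) := T_3 (nat_lit 94) (nat_lit 77) (nat_lit 6) (nat_lit 8) (nat_lit 8) L527627 (by decide +kernel)
theorem L527629 : W_3 (nat_lit 4) (nat_lit 0x1000380014000a00000000000000000000000) (nat_lit 0x0) (nat_lit 0x20000000000003000500028000000000000000000) := T_3 (nat_lit 92) (nat_lit 75) (nat_lit 4) (nat_lit 8) (nat_lit 8) L527628 (by decide +kernel)
theorem L527630 : W_3 (nat_lit 7) (nat_lit 0x1000380010000a00000000000000000000000) (nat_lit 0x0) (nat_lit 0x200020000000078005000380018000c0000000000) := Q_3 (nat_lit 110) (C_3 L527544 (C_3 L527629 (C_3 L527535 (C_3 L527539 N_3)))) (by decide +kernel)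
theorem L527631 : W_3 (nat_lit 14) (nat_lit 0x1000380010000800000000000000000000000) (nat_lit 0x0) (nat_lit 0xc00060013003e700078007e017200bd001c000c0000000000) := Q_3 (nat_lit 93) (C_3 L527572 (C_3 L527573 (C_3 L527576 (C_3 L527577 (C_3 L527607 (C_3 L527612 (C_3 L527617 (C_3 L527626 (C_3 L527630 N_3))))))))) (by decide +kernel)
theorem L527632 : W_3 (nat_lit 2) (nat_lit 0x5000380010000800060000000000000000000) (nat_lit 0x0) (nat_lit 0x100008000040000000000000000000000000000000) := D_3 (nat_lit 147) (nat_lit 126) (nat_lit 164) (nat_lit 3) (nat_lit 7) (nat_lit 7) (nat_lit 7) (nat_lit 10) (nat_lit 5) (by decide +kernel)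
theorem L527633 : W_3 (nat_lit 3) (nat_lit 0x1000380010000800060000000000000000000) (nat_lit 0x0) (nat_lit 0x10000c000040000000400000000000000000000000) := T_3 (nat_lit 146) (nat_lit 94) (nat_lit 4) (nat_lit 10) (nat_lit 8) L527632 (by decide +kernel)
theorem L527634 : W_3 (nat_lit 4) (nat_lit 0x1000380010000800040000000000000000000) (nat_lit 0x0) (nat_lit 0x10000c000040000000400020001000000000000000) := T_3 (nat_lit 77) (nat_lit 60) (nat_lit 4) (nat_lit 10) (nat_lit 7) L527633 (by decide +kernel)
theorem L527635 : W_3 (nat_lit 5) (nat_lit 0x1000380010000800000000000000000000000) (nat_lit 0x0) (nat_lit 0x10000e000040000000400060001000000000000000) := T_3 (nat_lit 78) (nat_lit 145) (nat_lit 5) (nat_lit 10) (nat_lit 4) L527634 (by decide +kernel)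
theorem L527636 : W_3 (nat_lit 15) (nat_lit 0x1000380010000000000000000000000000000) (nat_lit 0x0) (nat_lit 0xc00060013003e700078007e01f200fd007c002c0000000000) := Q_3 (nat_lit 95) (C_3 L527337 (C_3 L527318 (C_3 L527341 (C_3 L527631 (C_3 L527635 N_3))))) (by decide +kernel)
theorem L527637 : W_3 (nat_lit 16) (nat_lit 0x1000380000000000000000000000000000000) (nat_lit 0x0) (nat_lit 0xc0026001b003e700078077e01fa03fd007c003c001c000000) := Q_3 (nat_lit 112) (C_3 L527326 (C_3 L527328 (C_3 L527332 (C_3 L527636 N_3)))) (by decide +kernel)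
theorem L527638 : W_3 (nat_lit 5) (nat_lit 0x1000380000000000000000000000000000000) (nat_lit 0x0) (nat_lit 0x3e000c400e7000000000000000000000000000) := Q_3 (nat_lit 130) (C_3 L523592 (C_3 L523599 (C_3 L523577 N_3))) (by decide +kernel)
theorem L527639 : W_3 (nat_lit 5) (nat_lit 0x1000780004000000000000000000000000000) (nat_lit 0x0) (nat_lit 0x720018001c0000000000000000000000000000) := T_3 (nat_lit 131) (nat_lit 145) (nat_lit 1) (nat_lit 12) (nat_lit 7) L216911 (by decide +kernel)
theorem L527640 : W_3 (nat_lit 6) (nat_lit 0x1000780000000000000000000000000000000) (nat_lit 0x0) (nat_lit 0x720018001c6000000000000000000000000000) := T_3 (nat_lit 110) (nat_lit 109) (nat_lit 0) (nat_lit 11) (nat_lit 7) L527639 (by decide +kernel)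
theorem L527641 : W_3 (nat_lit 2) (nat_lit 0x30007c0002000000000000000000000000000) (nat_lit 0x0) (nat_lit 0x4000030000000000000000000000000000000) := D_3 (nat_lit 125) (nat_lit 124) (nat_lit 146) (nat_lit 3) (nat_lit 5) (nat_lit 7) (nat_lit 3) (nat_lit 6) (nat_lit 7) (by decide +kernel)
theorem L527642 : W_3 (nat_lit 3) (nat_lit 0x3000780002000000000000000000000000000) (nat_lit 0x0) (nat_lit 0x4000070001000000000000000000000000000) := T_3 (nat_lit 126) (nat_lit 108) (nat_lit 0) (nat_lit 10) (nat_lit 7) L527641 (by decide +kernel)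
theorem L527643 : W_3 (nat_lit 4) (nat_lit 0x3000780000000000000000000000000000000) (nat_lit 0x0) (nat_lit 0x4000070007000000000000000000000000000) := T_3 (nat_lit 109) (nat_lit 110) (nat_lit 0) (nat_lit 11) (nat_lit 7) L527642 (by decide +kernel)
theorem L527644 : W_3 (nat_lit 5) (nat_lit 0x1000780000000000000000000000000000000) (nat_lit 0x0) (nat_lit 0x6000870007000000000000000000000000000) := T_3 (nat_lit 145) (nat_lit 131) (nat_lit 1) (nat_lit 12) (nat_lit 7) L527643 (by decide +kernel)
theorem L527645 : W_3 (nat_lit 7) (nat_lit 0x1000380000000000000000000000000000000) (nat_lit 0x0) (nat_lit 0x76001c701f7000000000000000000000000000) := Q_3 (nat_lit 130) (C_3 L523577 (C_3 L523596 (C_3 L527640 (C_3 L527644 N_3)))) (by decide +kernel)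
theorem L527646 : W_3 (nat_lit 2) (nat_lit 0xe00030003000bd0000000000000000000000000000000) (nat_lit 0x0) (nat_lit 0x100000c000000000000000000000000000000000000000) := D_3 (nat_lit 159) (nat_lit 158) (nat_lit 180) (nat_lit 3) (nat_lit 5) (nat_lit 9) (nat_lit 0) (nat_lit 10) (nat_lit 10) (by decide +kernel)
theorem L527647 : W_3 (nat_lit 3) (nat_lit 0xe00020003000bd0000000000000000000000000000000) (nat_lit 0x0) (nat_lit 0x100001c000000000004000000000000000000000000000) := T_3 (nat_lit 160) (nat_lit 110) (nat_lit 5) (nat_lit 8) (nat_lit 6) L527646 (by decide +kernel)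
theorem L527648 : W_3 (nat_lit 4) (nat_lit 0xc00020003000bd0000000000000000000000000000000) (nat_lit 0x0) (nat_lit 0x400120001c000000000004000000000000000000000000000) := T_3 (nat_lit 177) (nat_lit 194) (nat_lit 5) (nat_lit 8) (nat_lit 7) L527647 (by decide +kernel)
theorem L527649 : W_3 (nat_lit 5) (nat_lit 0x400020003000bd0000000000000000000000000000000) (nat_lit 0x0) (nat_lit 0x14001a0001c000000000004000000000000000000000000000) := T_3 (nat_lit 179) (nat_lit 196) (nat_lit 7) (nat_lit 8) (nat_lit 7) L527648 (by decide +kernel)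
theorem L527650 : W_3 (nat_lit 6) (nat_lit 0x400020003000bc0000000000000000000000000000000) (nat_lit 0x0) (nat_lit 0x14001a0001c000000030004000000000000000000000000000) := T_3 (nat_lit 124) (nat_lit 125) (nat_lit 3) (nat_lit 5) (nat_lit 7) L527649 (by decide +kernel)
theorem L527651 : W_3 (nat_lit 7) (nat_lit 0x20003000bc0000000000000000000000000000000) (nat_lit 0x0) (nat_lit 0x1c001e0001c000000030004000000000000000000000000000) := T_3 (nat_lit 178) (nat_lit 195) (nat_lit 6) (nat_lit 8) (nat_lit 11) L527650 (by decide +kernel)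
theorem L527652 : W_3 (nat_lit 8) (nat_lit 0x200030003c0000000000000000000000000000000) (nat_lit 0x0) (nat_lit 0x1c001e0001c000000c30004000000000000000000000000000) := T_3 (nat_lit 131) (nat_lit 130) (nat_lit 1) (nat_lit 12) (nat_lit 7) L527651 (by decide +kernel)
theorem L527653 : W_3 (nat_lit 10) (nat_lit 0x30003c0000000000000000000000000000000) (nat_lit 0x0) (nat_lit 0x8001d001fe003c000600c30006000300018000000000000000000) := Q_3 (nat_lit 161) (C_3 L499718 (C_3 L499699 (C_3 L527652 N_3))) (by decide +kernel)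
theorem L527654 : W_3 (nat_lit 2) (nat_lit 0x30003c0000000000000000000000000000000) (nat_lit 0x0) (nat_lit 0x4000030000000000000000000000000000000) := D_3 (nat_lit 125) (nat_lit 124) (nat_lit 146) (nat_lit 3) (nat_lit 5) (nat_lit 7) (nat_lit 3) (nat_lit 6) (nat_lit 7) (by decide +kernel)
theorem L527655 : W_3 (nat_lit 11) (nat_lit 0x10003c0000000000000000000000000000000) (nat_lit 0x0) (nat_lit 0x8001d001fe003c01e600c30006000300018000000000000000000) := Q_3 (nat_lit 145) (C_3 L527653 (C_3 L499709 (C_3 L527654 N_3))) (by decide +kernel)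
theorem L527672 : W_3 (nat_lit 5) (nat_lit 0x50003c0000000000000000000000000000000) (nat_lit 0x0) (nat_lit 0x2700030001c00000000000000000000000000) := T_3 (nat_lit 125) (nat_lit 145) (nat_lit 3) (nat_lit 6) (nat_lit 7) L527671 (by decide +kernel)
theorem L527673 : W_3 (nat_lit 6) (nat_lit 0x10003c0000000000000000000000000000000) (nat_lit 0x0) (nat_lit 0xe700030001c00000000000000000000000000) := T_3 (nat_lit 146) (nat_lit 147) (nat_lit 3) (nat_lit 7) (nat_lit 7) L527672 (by decide +kernel)
theorem L527674 : W_3 (nat_lit 12) (nat_lit 0x1000380000000000000000000000000000000) (nat_lit 0x0) (nat_lit 0x8001d001fe003c07e701c701c7c00300018000000000000000000) := Q_3 (nat_lit 126) (C_3 L527655 (C_3 L499561 (C_3 L524256 (C_3 L527660 (C_3 L527668 (C_3 L527673 N_3)))))) (by decide +kernel)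
theorem L527675 : W_3 (nat_lit 2) (nat_lit 0x70003c0020000000000000000000000000000) (nat_lit 0x0) (nat_lit 0xc00040000000000000000000000000000) := D_3 (nat_lit 130) (nat_lit 131) (nat_lit 114) (nat_lit 1) (nat_lit 12) (nat_lit 7) (nat_lit 2) (nat_lit 8) (nat_lit 7) (by decide +kernel)
theorem L527676 : W_3 (nat_lit 3) (nat_lit 0x70003c0000000000000000000000000000000) (nat_lit 0x0) (nat_lit 0xc00070000000000000000000000000000) := T_3 (nat_lit 113) (nat_lit 112) (nat_lit 2) (nat_lit 7) (nat_lit 7) L527675 (by decide +kernel)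
theorem L527677 : W_3 (nat_lit 4) (nat_lit 0x50003c0000000000000000000000000000000) (nat_lit 0x0) (nat_lit 0x2000c20070000000000000000000000000000) := T_3 (nat_lit 145) (nat_lit 125) (nat_lit 3) (nat_lit 6) (nat_lit 7) L527676 (by decide +kernel)
theorem L527678 : W_3 (nat_lit 5) (nat_lit 0x10003c0000000000000000000000000000000) (nat_lit 0x0) (nat_lit 0xe000c20070000000000000000000000000000) := T_3 (nat_lit 146) (nat_lit 147) (nat_lit 3) (nat_lit 7) (nat_lit 7) L527677 (by decide +kernel)
theorem L527679 : W_3 (nat_lit 7) (nat_lit 0x1000380000000000000000000000000000000) (nat_lit 0x0) (nat_lit 0x40002000e700c70077c00100008000000000000000000) := Q_3 (nat_lit 126) (C_3 L527678 (C_3 L524257 (C_3 L527673 N_3))) (by decide +kernel)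
theorem L527680 : W_3 (nat_lit 12) (nat_lit 0x1000380000000000000000000000000000000) (nat_lit 0x0) (nat_lit 0x8001d001fe003c01e700c70037c00300018000000000000000000) := Q_3 (nat_lit 126) (C_3 L527655 (C_3 L527673 (C_3 L524257 N_3))) (by decide +kernel)
theorem L527681 : W_3 (nat_lit 17) (nat_lit 0x1000180000000000000000000000000000000) (nat_lit 0x0) (nat_lit 0x8005d003fe03bc07e703e781f7e03fa07fd00fc003c001c000000) := Q_3 (nat_lit 129) (C_3 L523585 (C_3 L523593 (C_3 L523600 (C_3 L524251 (C_3 L524252 (C_3 L527637 (C_3 L527638 (C_3 L527645 (C_3 L527674 (C_3 L527679 (C_3 L527680 N_3))))))))))) (by decide +kernel)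
theorem L527684 : W_3 (nat_lit 2) (nat_lit 0x100018003c000200020000000000000000000) (nat_lit 0x0) (nat_lit 0x10001800000000000000) := D_3 (nat_lit 76) (nat_lit 59) (nat_lit 60) (nat_lit 7) (nat_lit 8) (nat_lit 3) (nat_lit 6) (nat_lit 8) (nat_lit 7) (by decide +kernel)
theorem L527685 : W_3 (nat_lit 3) (nat_lit 0x100018003c000000020000000000000000000) (nat_lit 0x0) (nat_lit 0x300010001800000000000000) := T_3 (nat_lit 93) (nat_lit 92) (nat_lit 0) (nat_lit 11) (nat_lit 6) L527684 (by decide +kernel)
theorem L527686 : W_3 (nat_lit 4) (nat_lit 0x100018001c000000020000000000000000000) (nat_lit 0x0) (nat_lit 0x60000300010001800000000000000) := T_3 (nat_lit 113) (nat_lit 114) (nat_lit 1) (nat_lit 12) (nat_lit 6) L527685 (by decide +kernel)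
theorem L527687 : W_3 (nat_lit 5) (nat_lit 0x100018001c000000000000000000000000000) (nat_lit 0x0) (nat_lit 0x60000700030001800000000000000) := T_3 (nat_lit 77) (nat_lit 94) (nat_lit 5) (nat_lit 9) (nat_lit 4) L527686 (by decide +kernel)
theorem L527688 : W_3 (nat_lit 2) (nat_lit 0x100058003e000000020000000000000000000) (nat_lit 0x0) (nat_lit 0x3800000000000000000000000) := D_3 (nat_lit 96) (nat_lit 97) (nat_lit 95) (nat_lit 2) (nat_lit 8) (nat_lit 6) (nat_lit 2) (nat_lit 7) (nat_lit 6) (by decide +kernel)
theorem L527689 : W_3 (nat_lit 3) (nat_lit 0x100058003c000000020000000000000000000) (nat_lit 0x0) (nat_lit 0x200002003800000000000000000000000) := T_3 (nat_lit 109) (nat_lit 129) (nat_lit 3) (nat_lit 7) (nat_lit 6) L527688 (by decide +kernel)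
theorem L527690 : W_3 (nat_lit 4) (nat_lit 0x100018003c000000020000000000000000000) (nat_lit 0x0) (nat_lit 0xe00002003800000000000000000000000) := T_3 (nat_lit 130) (nat_lit 131) (nat_lit 3) (nat_lit 8) (nat_lit 6) L527689 (by decide +kernel)
theorem L527691 : W_3 (nat_lit 5) (nat_lit 0x100018003c000000000000000000000000000) (nat_lit 0x0) (nat_lit 0xe00002003c00020000000000000000000) := T_3 (nat_lit 77) (nat_lit 94) (nat_lit 5) (nat_lit 9) (nat_lit 4) L527690 (by decide +kernel)
theorem L527692 : W_3 (nat_lit 6) (nat_lit 0x100018001c000000000000000000000000000) (nat_lit 0x0) (nat_lit 0xe00062003c00020000000000000000000) := T_3 (nat_lit 113) (nat_lit 114) (nat_lit 1) (nat_lit 12) (nat_lit 6) L527691 (by decide +kernel)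
theorem L527693 : W_3 (nat_lit 2) (nat_lit 0x100058003e000200000000000000000000000) (nat_lit 0x0) (nat_lit 0x3800000000000000000000000) := D_3 (nat_lit 96) (nat_lit 97) (nat_lit 95) (nat_lit 2) (nat_lit 8) (nat_lit 6) (nat_lit 2) (nat_lit 7) (nat_lit 6) (by decide +kernel)
theorem L527694 : W_3 (nat_lit 3) (nat_lit 0x100058003c000200000000000000000000000) (nat_lit 0x0) (nat_lit 0x200002003800000000000000000000000) := T_3 (nat_lit 109) (nat_lit 129) (nat_lit 3) (nat_lit 7) (nat_lit 6) L527693 (by decide +kernel)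
theorem L527695 : W_3 (nat_lit 4) (nat_lit 0x100018003c000200000000000000000000000) (nat_lit 0x0) (nat_lit 0xe00002003800000000000000000000000) := T_3 (nat_lit 130) (nat_lit 131) (nat_lit 3) (nat_lit 8) (nat_lit 6) L527694 (by decide +kernel)
theorem L527696 : W_3 (nat_lit 5) (nat_lit 0x100018003c000000000000000000000000000) (nat_lit 0x0) (nat_lit 0xe00002003b00000000000000000000000) := T_3 (nat_lit 93) (nat_lit 92) (nat_lit 0) (nat_lit 11) (nat_lit 6) L527695 (by decide +kernel)
theorem L527697 : W_3 (nat_lit 6) (nat_lit 0x100018001c000000000000000000000000000) (nat_lit 0x0) (nat_lit 0xe00062003b00000000000000000000000) := T_3 (nat_lit 113) (nat_lit 114) (nat_lit 1) (nat_lit 12) (nat_lit 6) L527696 (by decide +kernel)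
theorem L527698 : W_3 (nat_lit 2) (nat_lit 0x100018001e000000000000000000000000000) (nat_lit 0x0) (nat_lit 0x600001000000000000000000000000000) := D_3 (nat_lit 129) (nat_lit 130) (nat_lit 108) (nat_lit 3) (nat_lit 7) (nat_lit 6) (nat_lit 3) (nat_lit 6) (nat_lit 6) (by decide +kernel)
theorem L527699 : W_3 (nat_lit 2) (nat_lit 0x100018001e800900020002000000000000000) (nat_lit 0x0) (nat_lit 0x200008000400000000000000) := D_3 (nat_lit 75) (nat_lit 93) (nat_lit 58) (nat_lit 4) (nat_lit 8) (nat_lit 8) (nat_lit 7) (nat_lit 7) (nat_lit 3) (by decide +kernel)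
theorem L527700 : W_3 (nat_lit 3) (nat_lit 0x100018001e800800020002000000000000000) (nat_lit 0x0) (nat_lit 0x380008000400000000000000) := T_3 (nat_lit 92) (nat_lit 91) (nat_lit 0) (nat_lit 10) (nat_lit 6) L527699 (by decide +kernel)
theorem L527701 : W_3 (nat_lit 4) (nat_lit 0x100018001e800800020000000000000000000) (nat_lit 0x0) (nat_lit 0x380048002400000000000000) := T_3 (nat_lit 61) (nat_lit 78) (nat_lit 5) (nat_lit 10) (nat_lit 3) L527700 (by decide +kernel)
theorem L527702 : W_3 (nat_lit 5) (nat_lit 0x100018001e000800020000000000000000000) (nat_lit 0x0) (nat_lit 0x1800380048002400000000000000) := T_3 (nat_lit 107) (nat_lit 108) (nat_lit 3) (nat_lit 5) (nat_lit 6) L527701 (by decide +kernel)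
theorem L527703 : W_3 (nat_lit 6) (nat_lit 0x100018001e000000020000000000000000000) (nat_lit 0x0) (nat_lit 0x1801b80048002400000000000000) := T_3 (nat_lit 95) (nat_lit 96) (nat_lit 2) (nat_lit 7) (nat_lit 6) L527702 (by decide +kernel)
theorem L527704 : W_3 (nat_lit 7) (nat_lit 0x100018001e000000000000000000000000000) (nat_lit 0x0) (nat_lit 0x1801f80068002400000000000000) := T_3 (nat_lit 77) (nat_lit 94) (nat_lit 5) (nat_lit 9) (nat_lit 4) L527703 (by decide +kernel)
theorem L527705 : W_3 (nat_lit 2) (nat_lit 0x100018001e000100000000000000000000000) (nat_lit 0x0) (nat_lit 0x200008000400000000000000) := D_3 (nat_lit 75) (nat_lit 93) (nat_lit 58) (nat_lit 4) (nat_lit 8) (nat_lit 8) (nat_lit 7) (nat_lit 7) (nat_lit 3) (by decide +kernel)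
theorem L527706 : W_3 (nat_lit 3) (nat_lit 0x100018001e000000000000000000000000000) (nat_lit 0x0) (nat_lit 0x380008000400000000000000) := T_3 (nat_lit 92) (nat_lit 91) (nat_lit 0) (nat_lit 10) (nat_lit 6) L527705 (by decide +kernel)
theorem L527707 : W_3 (nat_lit 8) (nat_lit 0x100018001c000000000000000000000000000) (nat_lit 0x0) (nat_lit 0x600003801f80068002400000000000000) := Q_3 (nat_lit 109) (C_3 L527698 (C_3 L527704 (C_3 L527706 N_3))) (by decide +kernel)
theorem L527708 : W_3 (nat_lit 9) (nat_lit 0x1000180018000000000000000000000000000) (nat_lit 0x0) (nat_lit 0xe00067803f80078003c00000000000000) := Q_3 (nat_lit 110) (C_3 L527687 (C_3 L527692 (C_3 L527697 (C_3 L527707 N_3)))) (by decide +kernel)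
theorem L527710 : W_3 (nat_lit 3) (nat_lit 0x1000180018000000020000000000000000000) (nat_lit 0x0) (nat_lit 0x60064000000000000000000000000000) := T_3 (nat_lit 126) (nat_lit 125) (nat_lit 2) (nat_lit 6) (nat_lit 7) L527709 (by decide +kernel)
theorem L527711 : W_3 (nat_lit 4) (nat_lit 0x1000180018000000000000000000000000000) (nat_lit 0x0) (nat_lit 0x60064000400020000000000000000000) := T_3 (nat_lit 77) (nat_lit 94) (nat_lit 5) (nat_lit 9) (nat_lit 4) L527710 (by decide +kernel)
theorem L527714 : W_3 (nat_lit 2) (nat_lit 0x10001c001e000800020000000000000000000) (nat_lit 0x0) (nat_lit 0x180008000000000000000000) := D_3 (nat_lit 92) (nat_lit 75) (nat_lit 91) (nat_lit 7) (nat_lit 7) (nat_lit 4) (nat_lit 0) (nat_lit 10) (nat_lit 6) (by decide +kernel)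
theorem L527715 : W_3 (nat_lit 3) (nat_lit 0x100018001e000800020000000000000000000) (nat_lit 0x0) (nat_lit 0x60000000180008000000000000000000) := T_3 (nat_lit 126) (nat_lit 125) (nat_lit 2) (nat_lit 6) (nat_lit 7) L527714 (by decide +kernel)
theorem L527716 : W_3 (nat_lit 4) (nat_lit 0x100018001e000000020000000000000000000) (nat_lit 0x0) (nat_lit 0x60000001980008000000000000000000) := T_3 (nat_lit 95) (nat_lit 96) (nat_lit 2) (nat_lit 7) (nat_lit 6) L527715 (by decide +kernel)
theorem L527717 : W_3 (nat_lit 5) (nat_lit 0x100018001e000000000000000000000000000) (nat_lit 0x0) (nat_lit 0x60000001d80028000000000000000000) := T_3 (nat_lit 77) (nat_lit 94) (nat_lit 5) (nat_lit 9) (nat_lit 4) L527716 (by decide +kernel)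
theorem L527718 : W_3 (nat_lit 6) (nat_lit 0x100018001c000000000000000000000000000) (nat_lit 0x0) (nat_lit 0x660003001d80028000000000000000000) := Q_3 (nat_lit 109) (C_3 L527698 (C_3 L527717 N_3)) (by decide +kernel)
theorem L527719 : W_3 (nat_lit 2) (nat_lit 0x10001a001e000000020000000000000000000) (nat_lit 0x0) (nat_lit 0x10001800000000000000000000000000) := D_3 (nat_lit 108) (nat_lit 107) (nat_lit 124) (nat_lit 3) (nat_lit 5) (nat_lit 6) (nat_lit 1) (nat_lit 9) (nat_lit 6) (by decide +kernel)
theorem L527720 : W_3 (nat_lit 3) (nat_lit 0x100018001e000000020000000000000000000) (nat_lit 0x0) (nat_lit 0x70001800000000000000000000000000) := T_3 (nat_lit 125) (nat_lit 126) (nat_lit 2) (nat_lit 6) (nat_lit 7) L527719 (by decide +kernel)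
theorem L527721 : W_3 (nat_lit 4) (nat_lit 0x100018001e000000000000000000000000000) (nat_lit 0x0) (nat_lit 0x70001800400020000000000000000000) := T_3 (nat_lit 77) (nat_lit 94) (nat_lit 5) (nat_lit 9) (nat_lit 4) L527720 (by decide +kernel)
theorem L527722 : W_3 (nat_lit 6) (nat_lit 0x100018001c000000000000000000000000000) (nat_lit 0x0) (nat_lit 0x70003801f80028000400000000000000) := Q_3 (nat_lit 109) (C_3 L527717 (C_3 L527706 (C_3 L527721 N_3))) (by decide +kernel)
theorem L527723 : W_3 (nat_lit 2) (nat_lit 0x50003c001e000800020000000000000000000) (nat_lit 0x0) (nat_lit 0x40003000000000000000) := D_3 (nat_lit 78) (nat_lit 60) (nat_lit 61) (nat_lit 4) (nat_lit 10) (nat_lit 7) (nat_lit 5) (nat_lit 10) (nat_lit 3) (by decide +kernel)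
theorem L527724 : W_3 (nat_lit 3) (nat_lit 0x50003c001e000000020000000000000000000) (nat_lit 0x0) (nat_lit 0x1800040003000000000000000) := T_3 (nat_lit 95) (nat_lit 96) (nat_lit 2) (nat_lit 7) (nat_lit 6) L527723 (by decide +kernel)
theorem L527725 : W_3 (nat_lit 4) (nat_lit 0x10003c001e000000020000000000000000000) (nat_lit 0x0) (nat_lit 0xc000000000001800040003000000000000000) := T_3 (nat_lit 146) (nat_lit 147) (nat_lit 3) (nat_lit 7) (nat_lit 7) L527724 (by decide +kernel)
theorem L527726 : W_3 (nat_lit 5) (nat_lit 0x10001c001e000000020000000000000000000) (nat_lit 0x0) (nat_lit 0xc000600000001800040003000000000000000) := T_3 (nat_lit 129) (nat_lit 130) (nat_lit 3) (nat_lit 7) (nat_lit 6) L527725 (by decide +kernel)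
theorem L527727 : W_3 (nat_lit 6) (nat_lit 0x100018001e000000020000000000000000000) (nat_lit 0x0) (nat_lit 0xc000660000001800040003000000000000000) := T_3 (nat_lit 126) (nat_lit 125) (nat_lit 2) (nat_lit 6) (nat_lit 7) L527726 (by decide +kernel)
theorem L527728 : W_3 (nat_lit 7) (nat_lit 0x100018001e000000000000000000000000000) (nat_lit 0x0) (nat_lit 0xc000660000001c00060003000000000000000) := T_3 (nat_lit 77) (nat_lit 94) (nat_lit 5) (nat_lit 9) (nat_lit 4) L527727 (by decide +kernel)
theorem L527729 : W_3 (nat_lit 8) (nat_lit 0x100018001c000000000000000000000000000) (nat_lit 0x0) (nat_lit 0xc000660002001f80068003400000000000000) := Q_3 (nat_lit 109) (C_3 L527717 (C_3 L527706 (C_3 L527728 N_3))) (by decide +kernel)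
theorem L527730 : W_3 (nat_lit 8) (nat_lit 0x100018001c000000000000000000000000000) (nat_lit 0x0) (nat_lit 0xc000670003801c00060003000000000000000) := Q_3 (nat_lit 109) (C_3 L527721 (C_3 L527728 (C_3 L527698 N_3))) (by decide +kernel)
theorem L527731 : W_3 (nat_lit 4) (nat_lit 0x100018001c000000000000000000000000000) (nat_lit 0x0) (nat_lit 0x600003000380008000400000000000000) := Q_3 (nat_lit 109) (C_3 L527706 (C_3 L527698 N_3)) (by decide +kernel)
theorem L527732 : W_3 (nat_lit 2) (nat_lit 0x10001a001c000600000000800000000000000) (nat_lit 0x0) (nat_lit 0x180008000000000000000000) := D_3 (nat_lit 92) (nat_lit 91) (nat_lit 75) (nat_lit 3) (nat_lit 6) (nat_lit 5) (nat_lit 4) (nat_lit 8) (nat_lit 8) (by decide +kernel)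
theorem L527733 : W_3 (nat_lit 3) (nat_lit 0x10001a001c000200000000800000000000000) (nat_lit 0x0) (nat_lit 0x580028000000000000000000) := T_3 (nat_lit 94) (nat_lit 77) (nat_lit 6) (nat_lit 8) (nat_lit 8) L527732 (by decide +kernel)
theorem L527734 : W_3 (nat_lit 4) (nat_lit 0x10001a001c000200000000000000000000000) (nat_lit 0x0) (nat_lit 0x580038000800000000000000) := T_3 (nat_lit 59) (nat_lit 76) (nat_lit 7) (nat_lit 8) (nat_lit 3) L527733 (by decide +kernel)
theorem L527735 : W_3 (nat_lit 5) (nat_lit 0x100018001c000200000000000000000000000) (nat_lit 0x0) (nat_lit 0x60000000580038000800000000000000) := T_3 (nat_lit 125) (nat_lit 126) (nat_lit 2) (nat_lit 6) (nat_lit 7) L527734 (by decide +kernel)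
theorem L527736 : W_3 (nat_lit 2) (nat_lit 0x100018001c000300000000000000000000000) (nat_lit 0x0) (nat_lit 0x4c0000000000000000000000) := D_3 (nat_lit 91) (nat_lit 94) (nat_lit 90) (nat_lit 3) (nat_lit 6) (nat_lit 5) (nat_lit 3) (nat_lit 5) (nat_lit 5) (by decide +kernel)
theorem L527737 : W_3 (nat_lit 3) (nat_lit 0x100018001c000200000000000000000000000) (nat_lit 0x0) (nat_lit 0x5c0008000000000000000000) := T_3 (nat_lit 92) (nat_lit 75) (nat_lit 4) (nat_lit 8) (nat_lit 8) L527736 (by decide +kernel)
theorem L527738 : W_3 (nat_lit 2) (nat_lit 0x100018001c000200010000000000000000000) (nat_lit 0x0) (nat_lit 0x400020001000000000000000) := D_3 (nat_lit 77) (nat_lit 94) (nat_lit 60) (nat_lit 6) (nat_lit 8) (nat_lit 8) (nat_lit 6) (nat_lit 8) (nat_lit 7) (by decide +kernel)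
theorem L527739 : W_3 (nat_lit 3) (nat_lit 0x100018001c000200000000000000000000000) (nat_lit 0x0) (nat_lit 0x400030001800000000000000) := T_3 (nat_lit 76) (nat_lit 59) (nat_lit 7) (nat_lit 8) (nat_lit 3) L527738 (by decide +kernel)
theorem L527740 : W_3 (nat_lit 2) (nat_lit 0x10001a001c000200010000000000000000000) (nat_lit 0x0) (nat_lit 0x100008000400000000000000) := D_3 (nat_lit 75) (nat_lit 92) (nat_lit 58) (nat_lit 4) (nat_lit 8) (nat_lit 8) (nat_lit 4) (nat_lit 8) (nat_lit 7) (by decide +kernel)
theorem L527741 : W_3 (nat_lit 3) (nat_lit 0x10001a001c000200000000000000000000000) (nat_lit 0x0) (nat_lit 0x100018000c00000000000000) := T_3 (nat_lit 76) (nat_lit 59) (nat_lit 7) (nat_lit 8) (nat_lit 3) L527740 (by decide +kernel)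
theorem L527742 : W_3 (nat_lit 4) (nat_lit 0x100018001c000200000000000000000000000) (nat_lit 0x0) (nat_lit 0x60000000100018000c00000000000000) := T_3 (nat_lit 125) (nat_lit 126) (nat_lit 2) (nat_lit 6) (nat_lit 7) L527741 (by decide +kernel)
theorem L527743 : W_3 (nat_lit 6) (nat_lit 0x100018001c000000000000000000000000000) (nat_lit 0x0) (nat_lit 0x600000007c0038001c00000000000000) := Q_3 (nat_lit 93) (C_3 L527735 (C_3 L527737 (C_3 L527739 (C_3 L527742 N_3)))) (by decide +kernel)
theorem L527744 : W_3 (nat_lit 9) (nat_lit 0x1000180018000000000000000000000000000) (nat_lit 0x0) (nat_lit 0xc000670007801fc0078003c00000000000000) := Q_3 (nat_lit 110) (C_3 L527707 (C_3 L527718 (C_3 L527722 (C_3 L527729 (C_3 L527730 (C_3 L527731 (C_3 L527743 N_3))))))) (by decide +kernel)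
theorem L527745 : W_3 (nat_lit 10) (nat_lit 0x1000180008000000000000000000000000000) (nat_lit 0x0) (nat_lit 0xc000e70077803fc0078003c00000000000000) := Q_3 (nat_lit 112) (C_3 L527708 (C_3 L527711 (C_3 L527713 (C_3 L527744 N_3)))) (by decide +kernel)
theorem L529624 : W_3 (nat_lit 2) (nat_lit 0x12001e0008800000020000000000000000000) (nat_lit 0x0) (nat_lit 0x100010000400000000000000000000000000) := D_3 (nat_lit 124) (nat_lit 140) (nat_lit 106) (nat_lit 1) (nat_lit 8) (nat_lit 7) (nat_lit 0) (nat_lit 8) (nat_lit 7) (by decide +kernel)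
theorem L529625 : W_3 (nat_lit 3) (nat_lit 0x12001e0008000000020000000000000000000) (nat_lit 0x0) (nat_lit 0x100010001c00000000000000000000000000) := T_3 (nat_lit 107) (nat_lit 108) (nat_lit 0) (nat_lit 9) (nat_lit 7) L529624 (by decide +kernel)
theorem L529626 : W_3 (nat_lit 4) (nat_lit 0x10001e0008000000020000000000000000000) (nat_lit 0x0) (nat_lit 0x700010001c00000000000000000000000000) := T_3 (nat_lit 141) (nat_lit 142) (nat_lit 1) (nat_lit 9) (nat_lit 7) L529625 (by decide +kernel)
theorem L529627 : W_3 (nat_lit 5) (nat_lit 0x10001c0008000000020000000000000000000) (nat_lit 0x0) (nat_lit 0x700030011c00000000000000000000000000) := T_3 (nat_lit 125) (nat_lit 112) (nat_lit 2) (nat_lit 6) (nat_lit 7) L529626 (by decide +kernel)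
theorem L529628 : W_3 (nat_lit 6) (nat_lit 0x10001c0008000000000000000000000000000) (nat_lit 0x0) (nat_lit 0x700030011c00400020000000000000000000) := T_3 (nat_lit 77) (nat_lit 94) (nat_lit 5) (nat_lit 9) (nat_lit 4) L529627 (by decide +kernel)
theorem L531295 : W_3 (nat_lit 2) (nat_lit 0x200010003e0008000000000000000000000000000) (nat_lit 0x0) (nat_lit 0x3800000000000000000000000000) := D_3 (nat_lit 108) (nat_lit 109) (nat_lit 107) (nat_lit 0) (nat_lit 10) (nat_lit 7) (nat_lit 0) (nat_lit 9) (nat_lit 7) (by decide +kernel)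
theorem L532300 : W_3 (nat_lit 5) (nat_lit 0x400000001000580028000000000000000000000000000) (nat_lit 0x0) (nat_lit 0x100008001c000240040001000000000000000000000000) := T_3 (nat_lit 129) (nat_lit 114) (nat_lit 2) (nat_lit 8) (nat_lit 7) L531342 (by decide +kernel)
theorem L532301 : W_3 (nat_lit 6) (nat_lit 0x1000580028000000000000000000000000000) (nat_lit 0x0) (nat_lit 0x14000a001c000240040001000000000000000000000000) := T_3 (nat_lit 178) (nat_lit 161) (nat_lit 6) (nat_lit 8) (nat_lit 10) L532300 (by decide +kernel)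
theorem L535724 : W_3 (nat_lit 5) (nat_lit 0x10001e0008000000000000000000000000000) (nat_lit 0x0) (nat_lit 0x700010001c00400020000000000000000000) := T_3 (nat_lit 77) (nat_lit 94) (nat_lit 5) (nat_lit 9) (nat_lit 4) L529626 (by decide +kernel)
theorem L552952 : W_3 (nat_lit 2) (nat_lit 0x10017a00180018000e0000000000000000000) (nat_lit 0x0) (nat_lit 0x2000018000000000000000000) := D_3 (nat_lit 76) (nat_lit 97) (nat_lit 75) (nat_lit 3) (nat_lit 8) (nat_lit 4) (nat_lit 3) (nat_lit 7) (nat_lit 4) (by decide +kernel)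
theorem L552953 : W_3 (nat_lit 3) (nat_lit 0x10017a00180008000e0000000000000000000) (nat_lit 0x0) (nat_lit 0x4000000000003000018000000000000000000) := T_3 (nat_lit 96) (nat_lit 146) (nat_lit 6) (nat_lit 10) (nat_lit 8) L552952 (by decide +kernel)
theorem L552954 : W_3 (nat_lit 4) (nat_lit 0x10007a00180008000e0000000000000000000) (nat_lit 0x0) (nat_lit 0x4001800000003000018000000000000000000) := T_3 (nat_lit 132) (nat_lit 131) (nat_lit 0) (nat_lit 13) (nat_lit 7) L552953 (by decide +kernel)
theorem L552955 : W_3 (nat_lit 5) (nat_lit 0x10003a00180008000e0000000000000000000) (nat_lit 0x0) (nat_lit 0xc001c00000003000018000000000000000000) := T_3 (nat_lit 130) (nat_lit 147) (nat_lit 7) (nat_lit 10) (nat_lit 4) L552954 (by decide +kernel)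
theorem L552956 : W_3 (nat_lit 6) (nat_lit 0x10003a0018000800060000000000000000000) (nat_lit 0x0) (nat_lit 0xc001c00000003000098004000000000000000) := T_3 (nat_lit 79) (nat_lit 62) (nat_lit 6) (nat_lit 10) (nat_lit 7) L552955 (by decide +kernel)
theorem L554908 : W_3 (nat_lit 2) (nat_lit 0x8000400020001000180000000000000000000000000000000) (nat_lit 0x0) (nat_lit 0x200010000800000000000000000000000000000000000000000000) := D_3 (nat_lit 196) (nat_lit 213) (nat_lit 179) (nat_lit 7) (nat_lit 8) (nat_lit 8) (nat_lit 7) (nat_lit 8) (nat_lit 7) (by decide +kernel)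
theorem L556569 : W_3 (nat_lit 7) (nat_lit 0xf00020001000180000000000000000000000000000000) (nat_lit 0x0) (nat_lit 0xe000300039c000000040002000000000000000000000000000) := T_3 (nat_lit 126) (nat_lit 109) (nat_lit 4) (nat_lit 8) (nat_lit 10) L321609 (by decide +kernel)
theorem L556570 : W_3 (nat_lit 3) (nat_lit 0x1000f000200010001c0000000000000000000000000000000) (nat_lit 0x0) (nat_lit 0x80008000e000000000000000000000000000000000000000) := T_3 (nat_lit 175) (nat_lit 191) (nat_lit 1) (nat_lit 8) (nat_lit 10) L321564 (by decide +kernel)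
theorem L556571 : W_3 (nat_lit 4) (nat_lit 0x1000f00020001000180000000000000000000000000000000) (nat_lit 0x0) (nat_lit 0x80008000e000000040002000000000000000000000000000) := T_3 (nat_lit 126) (nat_lit 109) (nat_lit 4) (nat_lit 8) (nat_lit 10) L556570 (by decide +kernel)
theorem L556572 : W_3 (nat_lit 5) (nat_lit 0xf00020001000180000000000000000000000000000000) (nat_lit 0x0) (nat_lit 0x380008000e000000040002000000000000000000000000000) := T_3 (nat_lit 192) (nat_lit 193) (nat_lit 1) (nat_lit 9) (nat_lit 10) L556571 (by decide +kernel)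
theorem L556573 : W_3 (nat_lit 2) (nat_lit 0x42001f00128001000180000000000000000000000000000000) (nat_lit 0x0) (nat_lit 0x80002000200000000000000000000000000000000000000000) := D_3 (nat_lit 181) (nat_lit 199) (nat_lit 165) (nat_lit 3) (nat_lit 8) (nat_lit 10) (nat_lit 2) (nat_lit 8) (nat_lit 10) (by decide +kernel)
theorem L556574 : W_3 (nat_lit 3) (nat_lit 0x42001f00028001000180000000000000000000000000000000) (nat_lit 0x0) (nat_lit 0x80002000380000000000000000000000000000000000000000) := T_3 (nat_lit 164) (nat_lit 163) (nat_lit 2) (nat_lit 7) (nat_lit 10) L556573 (by decide +kernel)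
theorem L556575 : W_3 (nat_lit 4) (nat_lit 0x2001f00028001000180000000000000000000000000000000) (nat_lit 0x0) (nat_lit 0xe0002000380000000000000000000000000000000000000000) := T_3 (nat_lit 198) (nat_lit 197) (nat_lit 3) (nat_lit 7) (nat_lit 10) L556574 (by decide +kernel)
theorem L556576 : W_3 (nat_lit 5) (nat_lit 0x2000f00028001000180000000000000000000000000000000) (nat_lit 0x0) (nat_lit 0xe0003000390000000000000000000000000000000000000000) := T_3 (nat_lit 180) (nat_lit 160) (nat_lit 0) (nat_lit 10) (nat_lit 10) L556575 (by decide +kernel)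
theorem L556577 : W_3 (nat_lit 6) (nat_lit 0xf00028001000180000000000000000000000000000000) (nat_lit 0x0) (nat_lit 0xe3003000390000000000000000000000000000000000000000) := T_3 (nat_lit 193) (nat_lit 192) (nat_lit 1) (nat_lit 9) (nat_lit 10) L556576 (by decide +kernel)
theorem L556578 : W_3 (nat_lit 7) (nat_lit 0xf00020001000180000000000000000000000000000000) (nat_lit 0x0) (nat_lit 0xe300300039c000000000000000000000000000000000000000) := T_3 (nat_lit 159) (nat_lit 158) (nat_lit 0) (nat_lit 9) (nat_lit 10) L556577 (by decide +kernel)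
theorem L556579 : W_3 (nat_lit 6) (nat_lit 0xf00020001000180000000000000000000000000000000) (nat_lit 0x0) (nat_lit 0x38000c0017000000040002000000000000000000000000000) := T_3 (nat_lit 126) (nat_lit 109) (nat_lit 4) (nat_lit 8) (nat_lit 10) L321596 (by decide +kernel)
theorem L556580 : W_3 (nat_lit 5) (nat_lit 0x1000f00020001000180000000000000000000000000000000) (nat_lit 0x0) (nat_lit 0x8030c0018000000040002000000000000000000000000000) := T_3 (nat_lit 126) (nat_lit 109) (nat_lit 4) (nat_lit 8) (nat_lit 10) L321601 (by decide +kernel)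
theorem L556581 : W_3 (nat_lit 6) (nat_lit 0xf00020001000180000000000000000000000000000000) (nat_lit 0x0) (nat_lit 0x38030c0018000000040002000000000000000000000000000) := T_3 (nat_lit 192) (nat_lit 193) (nat_lit 1) (nat_lit 9) (nat_lit 10) L556580 (by decide +kernel)
theorem L556582 : W_3 (nat_lit 8) (nat_lit 0xe00020001000180000000000000000000000000000000) (nat_lit 0x0) (nat_lit 0xe38031c039f000000040002000000000000000000000000000) := Q_3 (nat_lit 176) (C_3 L556569 (C_3 L556572 (C_3 L556578 (C_3 L556579 (C_3 L556581 N_3))))) (by decide +kernel)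
theorem L556583 : W_3 (nat_lit 9) (nat_lit 0x600020001000180000000000000000000000000000000) (nat_lit 0x0) (nat_lit 0xf38039c039f000000040002000000000000000000000000000) := T_3 (nat_lit 179) (nat_lit 196) (nat_lit 7) (nat_lit 8) (nat_lit 7) L556582 (by decide +kernel)
theorem L557561 : W_3 (nat_lit 3) (nat_lit 0x20009000780000000000000000000000000000000) (nat_lit 0x0) (nat_lit 0x4000040070000000000000000000000000000) := T_3 (nat_lit 126) (nat_lit 146) (nat_lit 3) (nat_lit 7) (nat_lit 7) L508859 (by decide +kernel)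
theorem L557562 : W_3 (nat_lit 4) (nat_lit 0x20001000780000000000000000000000000000000) (nat_lit 0x0) (nat_lit 0x1c000040070000000000000000000000000000) := T_3 (nat_lit 147) (nat_lit 148) (nat_lit 3) (nat_lit 8) (nat_lit 7) L557561 (by decide +kernel)
theorem L557572 : W_3 (nat_lit 2) (nat_lit 0x20011000780040000000000000000000000000000) (nat_lit 0x0) (nat_lit 0x20000800080000000000000000000000000000) := D_3 (nat_lit 131) (nat_lit 149) (nat_lit 115) (nat_lit 3) (nat_lit 9) (nat_lit 7) (nat_lit 2) (nat_lit 9) (nat_lit 7) (by decide +kernel)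
theorem L557573 : W_3 (nat_lit 3) (nat_lit 0x20011000780000000000000000000000000000000) (nat_lit 0x0) (nat_lit 0x200008000e0000000000000000000000000000) := T_3 (nat_lit 114) (nat_lit 113) (nat_lit 2) (nat_lit 8) (nat_lit 7) L557572 (by decide +kernel)
theorem L557574 : W_3 (nat_lit 4) (nat_lit 0x20001000780000000000000000000000000000000) (nat_lit 0x0) (nat_lit 0x380008000e0000000000000000000000000000) := T_3 (nat_lit 148) (nat_lit 147) (nat_lit 3) (nat_lit 8) (nat_lit 7) L557573 (by decide +kernel)
theorem L567174 : W_3 (nat_lit 8) (nat_lit 0x100018000e000000000000000000000000000) (nat_lit 0x0) (nat_lit 0xc000660010001f80068003400000000000000) := Q_3 (nat_lit 112) (C_3 L527717 (C_3 L527728 (C_3 L527706 N_3))) (by decide +kernel)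
theorem L567175 : W_3 (nat_lit 2) (nat_lit 0x100018000e000000000000000000000000000) (nat_lit 0x0) (nat_lit 0x600001000000000000000000000000000) := D_3 (nat_lit 129) (nat_lit 130) (nat_lit 108) (nat_lit 0) (nat_lit 11) (nat_lit 7) (nat_lit 3) (nat_lit 6) (nat_lit 6) (by decide +kernel)
theorem L567176 : W_3 (nat_lit 2) (nat_lit 0x10001a000f000080020000000000000000000) (nat_lit 0x0) (nat_lit 0x40010000100000000000000000000000) := D_3 (nat_lit 112) (nat_lit 126) (nat_lit 92) (nat_lit 2) (nat_lit 6) (nat_lit 7) (nat_lit 0) (nat_lit 10) (nat_lit 6) (by decide +kernel)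
theorem L567177 : W_3 (nat_lit 3) (nat_lit 0x10001a000f000000020000000000000000000) (nat_lit 0x0) (nat_lit 0x400100001c0000000000000000000000) := T_3 (nat_lit 91) (nat_lit 90) (nat_lit 0) (nat_lit 9) (nat_lit 6) L567176 (by decide +kernel)
theorem L567178 : W_3 (nat_lit 4) (nat_lit 0x100018000f000000020000000000000000000) (nat_lit 0x0) (nat_lit 0x700100001c0000000000000000000000) := T_3 (nat_lit 125) (nat_lit 124) (nat_lit 1) (nat_lit 9) (nat_lit 6) L567177 (by decide +kernel)
theorem L567179 : W_3 (nat_lit 5) (nat_lit 0x100018000e000000020000000000000000000) (nat_lit 0x0) (nat_lit 0x700118001c0000000000000000000000) := T_3 (nat_lit 108) (nat_lit 107) (nat_lit 3) (nat_lit 5) (nat_lit 6) L567178 (by decide +kernel)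
theorem L567180 : W_3 (nat_lit 6) (nat_lit 0x100018000e000000000000000000000000000) (nat_lit 0x0) (nat_lit 0x700118005c0020000000000000000000) := T_3 (nat_lit 77) (nat_lit 94) (nat_lit 5) (nat_lit 9) (nat_lit 4) L567179 (by decide +kernel)
theorem L567181 : W_3 (nat_lit 9) (nat_lit 0x100018000c000000000000000000000000000) (nat_lit 0x0) (nat_lit 0xc000670013801fc0068003400000000000000) := Q_3 (nat_lit 109) (C_3 L567174 (C_3 L567175 (C_3 L567180 N_3))) (by decide +kernel)
theorem L567182 : W_3 (nat_lit 2) (nat_lit 0x100038005e000900020000000000000000000) (nat_lit 0x0) (nat_lit 0x40003000000000000000) := D_3 (nat_lit 78) (nat_lit 60) (nat_lit 61) (nat_lit 4) (nat_lit 10) (nat_lit 7) (nat_lit 5) (nat_lit 10) (nat_lit 3) (by decide +kernel)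
theorem L567183 : W_3 (nat_lit 3) (nat_lit 0x100038005e000100020000000000000000000) (nat_lit 0x0) (nat_lit 0x1800040003000000000000000) := T_3 (nat_lit 95) (nat_lit 96) (nat_lit 2) (nat_lit 7) (nat_lit 6) L567182 (by decide +kernel)
theorem L567184 : W_3 (nat_lit 4) (nat_lit 0x100038005e000000020000000000000000000) (nat_lit 0x0) (nat_lit 0x1980040003000000000000000) := T_3 (nat_lit 92) (nat_lit 91) (nat_lit 0) (nat_lit 10) (nat_lit 6) L567183 (by decide +kernel)
theorem L567185 : W_3 (nat_lit 5) (nat_lit 0x100018005e000000020000000000000000000) (nat_lit 0x0) (nat_lit 0x600000001980040003000000000000000) := T_3 (nat_lit 129) (nat_lit 130) (nat_lit 3) (nat_lit 7) (nat_lit 6) L567184 (by decide +kernel)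
theorem L567186 : W_3 (nat_lit 6) (nat_lit 0x100018001e000000020000000000000000000) (nat_lit 0x0) (nat_lit 0x600060001980040003000000000000000) := T_3 (nat_lit 114) (nat_lit 113) (nat_lit 1) (nat_lit 12) (nat_lit 6) L567185 (by decide +kernel)
theorem L567187 : W_3 (nat_lit 7) (nat_lit 0x100018001e000000000000000000000000000) (nat_lit 0x0) (nat_lit 0x600060001d80060003000000000000000) := T_3 (nat_lit 77) (nat_lit 94) (nat_lit 5) (nat_lit 9) (nat_lit 4) L567186 (by decide +kernel)
theorem L567188 : W_3 (nat_lit 2) (nat_lit 0x100018001e000000000000000000000000000) (nat_lit 0x0) (nat_lit 0x40060000000000000000000000000000) := D_3 (nat_lit 113) (nat_lit 114) (nat_lit 126) (nat_lit 1) (nat_lit 12) (nat_lit 6) (nat_lit 1) (nat_lit 11) (nat_lit 6) (by decide +kernel)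
theorem L567189 : W_3 (nat_lit 8) (nat_lit 0x100018000e000000000000000000000000000) (nat_lit 0x0) (nat_lit 0xc000660070001d80068003000000000000000) := Q_3 (nat_lit 112) (C_3 L527717 (C_3 L527728 (C_3 L567187 (C_3 L567188 N_3)))) (by decide +kernel)
theorem L567190 : W_3 (nat_lit 9) (nat_lit 0x100018000c000000000000000000000000000) (nat_lit 0x0) (nat_lit 0xc000670073801dc0068003000000000000000) := Q_3 (nat_lit 109) (C_3 L567189 (C_3 L567180 (C_3 L567175 N_3))) (by decide +kernel)
theorem L567191 : W_3 (nat_lit 2) (nat_lit 0x100018001c000000000000000000000000000) (nat_lit 0x0) (nat_lit 0x40060000000000000000000000000000) := D_3 (nat_lit 113) (nat_lit 126) (nat_lit 114) (nat_lit 1) (nat_lit 11) (nat_lit 6) (nat_lit 1) (nat_lit 12) (nat_lit 6) (by decide +kernel)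
theorem L567192 : W_3 (nat_lit 7) (nat_lit 0x100018000c000000000000000000000000000) (nat_lit 0x0) (nat_lit 0x600700007c0038001c00000000000000) := Q_3 (nat_lit 112) (C_3 L527743 (C_3 L567191 (C_3 L527687 N_3))) (by decide +kernel)
theorem L567193 : W_3 (nat_lit 2) (nat_lit 0x100058001e000000020000000000000000000) (nat_lit 0x0) (nat_lit 0x800060000000000000000000000000000) := D_3 (nat_lit 113) (nat_lit 114) (nat_lit 131) (nat_lit 1) (nat_lit 12) (nat_lit 6) (nat_lit 3) (nat_lit 8) (nat_lit 6) (by decide +kernel)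
theorem L567194 : W_3 (nat_lit 3) (nat_lit 0x100018001e000000020000000000000000000) (nat_lit 0x0) (nat_lit 0xe00060000000000000000000000000000) := T_3 (nat_lit 130) (nat_lit 129) (nat_lit 3) (nat_lit 7) (nat_lit 6) L567193 (by decide +kernel)
theorem L567195 : W_3 (nat_lit 4) (nat_lit 0x100018001e000000000000000000000000000) (nat_lit 0x0) (nat_lit 0xe00060000400020000000000000000000) := T_3 (nat_lit 77) (nat_lit 94) (nat_lit 5) (nat_lit 9) (nat_lit 4) L567194 (by decide +kernel)
theorem L567196 : W_3 (nat_lit 8) (nat_lit 0x100018000e000000000000000000000000000) (nat_lit 0x0) (nat_lit 0xe00070001f80068003400000000000000) := Q_3 (nat_lit 112) (C_3 L527706 (C_3 L567187 (C_3 L567195 N_3))) (by decide +kernel)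
theorem L567197 : W_3 (nat_lit 2) (nat_lit 0x10001a003f000080020000000000000000000) (nat_lit 0x0) (nat_lit 0x3800000000000000000000000) := D_3 (nat_lit 96) (nat_lit 95) (nat_lit 97) (nat_lit 2) (nat_lit 7) (nat_lit 6) (nat_lit 2) (nat_lit 8) (nat_lit 6) (by decide +kernel)
theorem L567198 : W_3 (nat_lit 3) (nat_lit 0x10001a001f000080020000000000000000000) (nat_lit 0x0) (nat_lit 0x60003800000000000000000000000) := T_3 (nat_lit 113) (nat_lit 114) (nat_lit 1) (nat_lit 12) (nat_lit 6) L567197 (by decide +kernel)
theorem L567199 : W_3 (nat_lit 4) (nat_lit 0x10001a000f000080020000000000000000000) (nat_lit 0x0) (nat_lit 0x70003900000000000000000000000) := T_3 (nat_lit 112) (nat_lit 92) (nat_lit 0) (nat_lit 10) (nat_lit 6) L567198 (by decide +kernel)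
theorem L567200 : W_3 (nat_lit 5) (nat_lit 0x10001a000f000000020000000000000000000) (nat_lit 0x0) (nat_lit 0x700039c0000000000000000000000) := T_3 (nat_lit 91) (nat_lit 90) (nat_lit 0) (nat_lit 9) (nat_lit 6) L567199 (by decide +kernel)
theorem L567201 : W_3 (nat_lit 6) (nat_lit 0x100018000f000000020000000000000000000) (nat_lit 0x0) (nat_lit 0x300700039c0000000000000000000000) := T_3 (nat_lit 125) (nat_lit 124) (nat_lit 1) (nat_lit 9) (nat_lit 6) L567200 (by decide +kernel)
theorem L567202 : W_3 (nat_lit 7) (nat_lit 0x100018000e000000020000000000000000000) (nat_lit 0x0) (nat_lit 0x300718039c0000000000000000000000) := T_3 (nat_lit 108) (nat_lit 107) (nat_lit 3) (nat_lit 5) (nat_lit 6) L567201 (by decide +kernel)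
theorem L567203 : W_3 (nat_lit 8) (nat_lit 0x100018000e000000000000000000000000000) (nat_lit 0x0) (nat_lit 0x30071803dc0020000000000000000000) := T_3 (nat_lit 77) (nat_lit 94) (nat_lit 5) (nat_lit 9) (nat_lit 4) L567202 (by decide +kernel)
theorem L567204 : W_3 (nat_lit 9) (nat_lit 0x100018000c000000000000000000000000000) (nat_lit 0x0) (nat_lit 0xe30073803fc0068003400000000000000) := Q_3 (nat_lit 109) (C_3 L567196 (C_3 L567175 (C_3 L567203 N_3))) (by decide +kernel)
theorem L567205 : W_3 (nat_lit 2) (nat_lit 0x100038000c000000000000000000000000000) (nat_lit 0x0) (nat_lit 0xc00002000000000000000000000000000) := D_3 (nat_lit 130) (nat_lit 109) (nat_lit 131) (nat_lit 0) (nat_lit 11) (nat_lit 7) (nat_lit 0) (nat_lit 12) (nat_lit 7) (by decide +kernel)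
theorem L567206 : W_3 (nat_lit 2) (nat_lit 0x100038001c000000000000000000000000000) (nat_lit 0x0) (nat_lit 0x40060000000000000000000000000000) := D_3 (nat_lit 113) (nat_lit 126) (nat_lit 114) (nat_lit 2) (nat_lit 7) (nat_lit 7) (nat_lit 1) (nat_lit 12) (nat_lit 6) (by decide +kernel)
theorem L567207 : W_3 (nat_lit 2) (nat_lit 0x100038003d000200020000000000000000000) (nat_lit 0x0) (nat_lit 0x10001800000000000000) := D_3 (nat_lit 76) (nat_lit 59) (nat_lit 60) (nat_lit 7) (nat_lit 8) (nat_lit 3) (nat_lit 6) (nat_lit 8) (nat_lit 7) (by decide +kernel)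
theorem L567208 : W_3 (nat_lit 3) (nat_lit 0x100038003d000000020000000000000000000) (nat_lit 0x0) (nat_lit 0x300010001800000000000000) := T_3 (nat_lit 93) (nat_lit 92) (nat_lit 0) (nat_lit 11) (nat_lit 6) L567207 (by decide +kernel)
theorem L567209 : W_3 (nat_lit 4) (nat_lit 0x100038001d000000020000000000000000000) (nat_lit 0x0) (nat_lit 0x60000300010001800000000000000) := T_3 (nat_lit 113) (nat_lit 114) (nat_lit 1) (nat_lit 12) (nat_lit 6) L567208 (by decide +kernel)
theorem L567210 : W_3 (nat_lit 5) (nat_lit 0x100038001c000000020000000000000000000) (nat_lit 0x0) (nat_lit 0x63000300010001800000000000000) := T_3 (nat_lit 108) (nat_lit 109) (nat_lit 3) (nat_lit 6) (nat_lit 6) L567209 (by decide +kernel)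
theorem L567211 : W_3 (nat_lit 6) (nat_lit 0x100038001c000000000000000000000000000) (nat_lit 0x0) (nat_lit 0x63000700030001800000000000000) := T_3 (nat_lit 77) (nat_lit 94) (nat_lit 5) (nat_lit 9) (nat_lit 4) L567210 (by decide +kernel)
theorem L567212 : W_3 (nat_lit 2) (nat_lit 0x100038001e000800020000000000000000000) (nat_lit 0x0) (nat_lit 0x40003000000000000000) := D_3 (nat_lit 78) (nat_lit 60) (nat_lit 61) (nat_lit 4) (nat_lit 10) (nat_lit 7) (nat_lit 5) (nat_lit 10) (nat_lit 3) (by decide +kernel)
theorem L567213 : W_3 (nat_lit 3) (nat_lit 0x100038001e000000020000000000000000000) (nat_lit 0x0) (nat_lit 0x1800040003000000000000000) := T_3 (nat_lit 95) (nat_lit 96) (nat_lit 2) (nat_lit 7) (nat_lit 6) L567212 (by decide +kernel)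
theorem L567214 : W_3 (nat_lit 4) (nat_lit 0x100038001c000000020000000000000000000) (nat_lit 0x0) (nat_lit 0x3001800040003000000000000000) := T_3 (nat_lit 109) (nat_lit 108) (nat_lit 3) (nat_lit 6) (nat_lit 6) L567213 (by decide +kernel)
theorem L567215 : W_3 (nat_lit 5) (nat_lit 0x100038001c000000000000000000000000000) (nat_lit 0x0) (nat_lit 0x3001c00060003000000000000000) := T_3 (nat_lit 77) (nat_lit 94) (nat_lit 5) (nat_lit 9) (nat_lit 4) L567214 (by decide +kernel)
theorem L567216 : W_3 (nat_lit 7) (nat_lit 0x100038000c000000000000000000000000000) (nat_lit 0x0) (nat_lit 0x40073001f00070003800000000000000) := Q_3 (nat_lit 112) (C_3 L567206 (C_3 L567211 (C_3 L567215 N_3))) (by decide +kernel)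
theorem L567217 : W_3 (nat_lit 2) (nat_lit 0x90007c000c000000020000000000000000000) (nat_lit 0x0) (nat_lit 0x70000000000000000000000000000) := D_3 (nat_lit 113) (nat_lit 112) (nat_lit 114) (nat_lit 2) (nat_lit 7) (nat_lit 7) (nat_lit 2) (nat_lit 8) (nat_lit 7) (by decide +kernel)
theorem L567218 : W_3 (nat_lit 3) (nat_lit 0x900078000c000000020000000000000000000) (nat_lit 0x0) (nat_lit 0x4000040070000000000000000000000000000) := T_3 (nat_lit 126) (nat_lit 146) (nat_lit 3) (nat_lit 7) (nat_lit 7) L567217 (by decide +kernel)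
theorem L567219 : W_3 (nat_lit 4) (nat_lit 0x100078000c000000020000000000000000000) (nat_lit 0x0) (nat_lit 0x1c000040070000000000000000000000000000) := T_3 (nat_lit 147) (nat_lit 148) (nat_lit 3) (nat_lit 8) (nat_lit 7) L567218 (by decide +kernel)
theorem L567220 : W_3 (nat_lit 5) (nat_lit 0x100078000c000000000000000000000000000) (nat_lit 0x0) (nat_lit 0x1c000040070000400020000000000000000000) := T_3 (nat_lit 77) (nat_lit 94) (nat_lit 5) (nat_lit 9) (nat_lit 4) L567219 (by decide +kernel)
theorem L567221 : W_3 (nat_lit 6) (nat_lit 0x100038000c000000000000000000000000000) (nat_lit 0x0) (nat_lit 0x1c000c40070000400020000000000000000000) := T_3 (nat_lit 130) (nat_lit 131) (nat_lit 0) (nat_lit 12) (nat_lit 7) L567220 (by decide +kernel)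
theorem L567222 : W_3 (nat_lit 8) (nat_lit 0x100018000c000000000000000000000000000) (nat_lit 0x0) (nat_lit 0x1c000e40073001f00070003800000000000000) := Q_3 (nat_lit 129) (C_3 L567205 (C_3 L567216 (C_3 L567221 N_3))) (by decide +kernel)
theorem L567223 : W_3 (nat_lit 2) (nat_lit 0x10003c000c000000000000000000000000000) (nat_lit 0x0) (nat_lit 0x20030000000000000000000000000000) := D_3 (nat_lit 112) (nat_lit 113) (nat_lit 125) (nat_lit 2) (nat_lit 7) (nat_lit 7) (nat_lit 2) (nat_lit 6) (nat_lit 7) (by decide +kernel)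
theorem L567224 : W_3 (nat_lit 5) (nat_lit 0x10003c000e000000020000000000000000000) (nat_lit 0x0) (nat_lit 0xc000000030001800040003000000000000000) := T_3 (nat_lit 112) (nat_lit 113) (nat_lit 2) (nat_lit 7) (nat_lit 7) L527725 (by decide +kernel)
theorem L567225 : W_3 (nat_lit 6) (nat_lit 0x10003c000c000000020000000000000000000) (nat_lit 0x0) (nat_lit 0xc000000033001800040003000000000000000) := T_3 (nat_lit 109) (nat_lit 108) (nat_lit 3) (nat_lit 6) (nat_lit 6) L567224 (by decide +kernel)
theorem L567226 : W_3 (nat_lit 7) (nat_lit 0x10003c000c000000000000000000000000000) (nat_lit 0x0) (nat_lit 0xc000000033001c00060003000000000000000) := T_3 (nat_lit 77) (nat_lit 94) (nat_lit 5) (nat_lit 9) (nat_lit 4) L567225 (by decide +kernel)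
theorem L567227 : W_3 (nat_lit 2) (nat_lit 0x50003c000d000000000000000000000000000) (nat_lit 0x0) (nat_lit 0x30000800000000000000000000000000) := D_3 (nat_lit 125) (nat_lit 124) (nat_lit 107) (nat_lit 2) (nat_lit 5) (nat_lit 7) (nat_lit 0) (nat_lit 9) (nat_lit 7) (by decide +kernel)
theorem L567228 : W_3 (nat_lit 3) (nat_lit 0x50003c000c000000000000000000000000000) (nat_lit 0x0) (nat_lit 0x30003800000000000000000000000000) := T_3 (nat_lit 108) (nat_lit 109) (nat_lit 3) (nat_lit 6) (nat_lit 6) L567227 (by decide +kernel)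
theorem L567229 : W_3 (nat_lit 4) (nat_lit 0x10003c000c000000000000000000000000000) (nat_lit 0x0) (nat_lit 0xc000030003800000000000000000000000000) := T_3 (nat_lit 146) (nat_lit 147) (nat_lit 3) (nat_lit 7) (nat_lit 7) L567228 (by decide +kernel)
theorem L567230 : W_3 (nat_lit 8) (nat_lit 0x100038000c000000000000000000000000000) (nat_lit 0x0) (nat_lit 0xc000070033801c00060003000000000000000) := Q_3 (nat_lit 126) (C_3 L567223 (C_3 L567226 (C_3 L567229 N_3))) (by decide +kernel)
theorem L567231 : W_3 (nat_lit 9) (nat_lit 0x100018000c000000000000000000000000000) (nat_lit 0x0) (nat_lit 0x1c000e70073801c00060003000000000000000) := Q_3 (nat_lit 129) (C_3 L567221 (C_3 L567205 (C_3 L567230 N_3))) (by decide +kernel)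
theorem L567296 : W_3 (nat_lit 2) (nat_lit 0x100038000c000200010000000000000000000) (nat_lit 0x0) (nat_lit 0x100008000400000000000000) := D_3 (nat_lit 75) (nat_lit 92) (nat_lit 58) (nat_lit 4) (nat_lit 8) (nat_lit 8) (nat_lit 4) (nat_lit 8) (nat_lit 7) (by decide +kernel)
theorem L567297 : W_3 (nat_lit 3) (nat_lit 0x100038000c000200000000000000000000000) (nat_lit 0x0) (nat_lit 0x100018000c00000000000000) := T_3 (nat_lit 76) (nat_lit 59) (nat_lit 7) (nat_lit 8) (nat_lit 3) L567296 (by decide +kernel)
theorem L567298 : W_3 (nat_lit 2) (nat_lit 0x100038000c000200020000000000000000000) (nat_lit 0x0) (nat_lit 0x10001800000000000000) := D_3 (nat_lit 76) (nat_lit 59) (nat_lit 60) (nat_lit 7) (nat_lit 8) (nat_lit 3) (nat_lit 6) (nat_lit 8) (nat_lit 7) (by decide +kernel)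
theorem L567299 : W_3 (nat_lit 3) (nat_lit 0x100038000c000200000000000000000000000) (nat_lit 0x0) (nat_lit 0x400030001800000000000000) := T_3 (nat_lit 77) (nat_lit 94) (nat_lit 6) (nat_lit 8) (nat_lit 8) L567298 (by decide +kernel)
theorem L567300 : W_3 (nat_lit 2) (nat_lit 0x100038000c000780000000000000000000000) (nat_lit 0x0) (nat_lit 0x3800000000000000000000000000) := D_3 (nat_lit 108) (nat_lit 107) (nat_lit 109) (nat_lit 1) (nat_lit 9) (nat_lit 5) (nat_lit 3) (nat_lit 6) (nat_lit 6) (by decide +kernel)
theorem L567301 : W_3 (nat_lit 3) (nat_lit 0x100038000c000380000000000000000000000) (nat_lit 0x0) (nat_lit 0x3800400020000000000000000000) := T_3 (nat_lit 94) (nat_lit 77) (nat_lit 6) (nat_lit 8) (nat_lit 8) L567300 (by decide +kernel)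
theorem L567302 : W_3 (nat_lit 4) (nat_lit 0x100038000c000300000000000000000000000) (nat_lit 0x0) (nat_lit 0x38004c0020000000000000000000) := T_3 (nat_lit 91) (nat_lit 90) (nat_lit 3) (nat_lit 5) (nat_lit 5) L567301 (by decide +kernel)
theorem L567303 : W_3 (nat_lit 5) (nat_lit 0x100038000c000200000000000000000000000) (nat_lit 0x0) (nat_lit 0x38005c0028000000000000000000) := T_3 (nat_lit 92) (nat_lit 75) (nat_lit 4) (nat_lit 8) (nat_lit 8) L567302 (by decide +kernel)
theorem L567304 : W_3 (nat_lit 6) (nat_lit 0x100038000c000000000000000000000000000) (nat_lit 0x0) (nat_lit 0x38007c0038001c00000000000000) := Q_3 (nat_lit 93) (C_3 L567297 (C_3 L567299 (C_3 L567303 N_3))) (by decide +kernel)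
theorem L567305 : W_3 (nat_lit 2) (nat_lit 0xd00078002c000000020000000000000000000) (nat_lit 0x0) (nat_lit 0x1000080000000000000001000000000000000000000000) := D_3 (nat_lit 163) (nat_lit 180) (nat_lit 96) (nat_lit 6) (nat_lit 10) (nat_lit 10) (nat_lit 5) (nat_lit 11) (nat_lit 5) (by decide +kernel)
theorem L567306 : W_3 (nat_lit 3) (nat_lit 0x900078002c000000020000000000000000000) (nat_lit 0x0) (nat_lit 0x1000080004000040000001000000000000000000000000) := T_3 (nat_lit 146) (nat_lit 126) (nat_lit 3) (nat_lit 7) (nat_lit 7) L567305 (by decide +kernel)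
theorem L567307 : W_3 (nat_lit 4) (nat_lit 0x100078002c000000020000000000000000000) (nat_lit 0x0) (nat_lit 0x100008001c000040000001000000000000000000000000) := T_3 (nat_lit 147) (nat_lit 148) (nat_lit 3) (nat_lit 8) (nat_lit 7) L567306 (by decide +kernel)
theorem L567308 : W_3 (nat_lit 5) (nat_lit 0x100078000c000000020000000000000000000) (nat_lit 0x0) (nat_lit 0x100008001c000040060001000000000000000000000000) := T_3 (nat_lit 113) (nat_lit 114) (nat_lit 2) (nat_lit 8) (nat_lit 7) L567307 (by decide +kernel)
theorem L567309 : W_3 (nat_lit 6) (nat_lit 0x100038000c000000020000000000000000000) (nat_lit 0x0) (nat_lit 0x100008001c000c40060001000000000000000000000000) := T_3 (nat_lit 130) (nat_lit 131) (nat_lit 0) (nat_lit 12) (nat_lit 7) L567308 (by decide +kernel)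
theorem L567310 : W_3 (nat_lit 7) (nat_lit 0x100038000c000000000000000000000000000) (nat_lit 0x0) (nat_lit 0x100008001c000c40060001400020000000000000000000) := T_3 (nat_lit 77) (nat_lit 94) (nat_lit 5) (nat_lit 9) (nat_lit 4) L567309 (by decide +kernel)
theorem L567311 : W_3 (nat_lit 8) (nat_lit 0x100018000c000000000000000000000000000) (nat_lit 0x0) (nat_lit 0x100008001c000e400638017c0038001c00000000000000) := Q_3 (nat_lit 129) (C_3 L567205 (C_3 L567304 (C_3 L567310 N_3))) (by decide +kernel)
theorem L567312 : W_3 (nat_lit 4) (nat_lit 0x100018000e000000000000000000000000000) (nat_lit 0x0) (nat_lit 0x40070000380008000400000000000000) := Q_3 (nat_lit 112) (C_3 L567188 (C_3 L527706 N_3)) (by decide +kernel)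
theorem L567313 : W_3 (nat_lit 5) (nat_lit 0x100018000c000000000000000000000000000) (nat_lit 0x0) (nat_lit 0x640073000380008000400000000000000) := Q_3 (nat_lit 109) (C_3 L567312 (C_3 L567175 N_3)) (by decide +kernel)
theorem L567314 : W_3 (nat_lit 10) (nat_lit 0x1000180004000000000000000000000000000) (nat_lit 0x0) (nat_lit 0x100008001c000e7007b803fc0078003c00000000000000) := Q_3 (nat_lit 111) (C_3 L567181 (C_3 L567190 (C_3 L567192 (C_3 L567204 (C_3 L567222 (C_3 L567231 (C_3 L567311 (C_3 L567313 N_3)))))))) (by decide +kernel)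
theorem L567315 : W_3 (nat_lit 2) (nat_lit 0x100018000c000000000000000000000000000) (nat_lit 0x0) (nat_lit 0x20000000000000000400020000000000000000000) := D_3 (nat_lit 94) (nat_lit 77) (nat_lit 161) (nat_lit 5) (nat_lit 9) (nat_lit 4) (nat_lit 6) (nat_lit 8) (nat_lit 9) (by decide +kernel)
theorem L567316 : W_3 (nat_lit 2) (nat_lit 0x100018000c000000000000000000000000000) (nat_lit 0x0) (nat_lit 0x400020000000000000000400000000000000000000000) := D_3 (nat_lit 161) (nat_lit 178) (nat_lit 94) (nat_lit 6) (nat_lit 8) (nat_lit 10) (nat_lit 6) (nat_lit 8) (nat_lit 9) (by decide +kernel)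
theorem L567317 : W_3 (nat_lit 2) (nat_lit 0x3000100018000e000000000000000000000000000) (nat_lit 0x0) (nat_lit 0x200001800000000000000000000000000) := D_3 (nat_lit 108) (nat_lit 129) (nat_lit 107) (nat_lit 3) (nat_lit 6) (nat_lit 6) (nat_lit 3) (nat_lit 5) (nat_lit 6) (by decide +kernel)
theorem L567318 : W_3 (nat_lit 3) (nat_lit 0x3000100018000c000000000000000000000000000) (nat_lit 0x0) (nat_lit 0x200003800100000000000000000000000) := T_3 (nat_lit 109) (nat_lit 92) (nat_lit 4) (nat_lit 8) (nat_lit 9) L567317 (by decide +kernel)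
theorem L567319 : W_3 (nat_lit 4) (nat_lit 0x2000100018000c000000000000000000000000000) (nat_lit 0x0) (nat_lit 0x200010000000200003800100000000000000000000000) := T_3 (nat_lit 160) (nat_lit 177) (nat_lit 5) (nat_lit 8) (nat_lit 6) L567318 (by decide +kernel)
theorem L567320 : W_3 (nat_lit 5) (nat_lit 0x100018000c000000000000000000000000000) (nat_lit 0x0) (nat_lit 0x600030000000200003800100000000000000000000000) := T_3 (nat_lit 161) (nat_lit 178) (nat_lit 6) (nat_lit 8) (nat_lit 10) L567319 (by decide +kernel)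
theorem L567321 : W_3 (nat_lit 10) (nat_lit 0x1000180004000000000000000000000000000) (nat_lit 0x0) (nat_lit 0x60003001c000e7007b801d00060003000000000000000) := Q_3 (nat_lit 111) (C_3 L567231 (C_3 L567315 (C_3 L567316 (C_3 L567320 N_3)))) (by decide +kernel)
theorem L567322 : W_3 (nat_lit 3) (nat_lit 0x1000180004000200030000000000000000000) (nat_lit 0x0) (nat_lit 0x8000000008000c00020000000000) := T_3 (nat_lit 58) (nat_lit 75) (nat_lit 4) (nat_lit 8) (nat_lit 7) L92 (by decide +kernel)
theorem L567323 : W_3 (nat_lit 4) (nat_lit 0x1000180004000200020000000000000000000) (nat_lit 0x0) (nat_lit 0x8000000018001c00020000000000) := T_3 (nat_lit 76) (nat_lit 60) (nat_lit 6) (nat_lit 8) (nat_lit 7) L567322 (by decide +kernel)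
theorem L567324 : W_3 (nat_lit 5) (nat_lit 0x1000180004000200000000000000000000000) (nat_lit 0x0) (nat_lit 0x8000400038001c00020000000000) := T_3 (nat_lit 77) (nat_lit 94) (nat_lit 6) (nat_lit 8) (nat_lit 8) L567323 (by decide +kernel)
theorem L567325 : W_3 (nat_lit 2) (nat_lit 0x20001000180004000300000000000000000000000) (nat_lit 0x0) (nat_lit 0x400000000000000008000400000000000000000000000) := D_3 (nat_lit 111) (nat_lit 94) (nat_lit 178) (nat_lit 6) (nat_lit 8) (nat_lit 9) (nat_lit 6) (nat_lit 8) (nat_lit 10) (by decide +kernel)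
theorem L567326 : W_3 (nat_lit 3) (nat_lit 0x1000180004000300000000000000000000000) (nat_lit 0x0) (nat_lit 0x40002000000000000a000400000000000000000000000) := T_3 (nat_lit 161) (nat_lit 109) (nat_lit 4) (nat_lit 8) (nat_lit 9) L567325 (by decide +kernel)
theorem L567327 : W_3 (nat_lit 4) (nat_lit 0x1000180004000200000000000000000000000) (nat_lit 0x0) (nat_lit 0x40002000000000000a000500008000000000000000000) := T_3 (nat_lit 92) (nat_lit 75) (nat_lit 4) (nat_lit 8) (nat_lit 8) L567326 (by decide +kernel)
theorem L567328 : W_3 (nat_lit 2) (nat_lit 0x200020001000180004000300000000000000000000000) (nat_lit 0x0) (nat_lit 0x4000400000000000000008000000000000000000000000000) := D_3 (nat_lit 178) (nat_lit 111) (nat_lit 194) (nat_lit 6) (nat_lit 8) (nat_lit 10) (nat_lit 5) (nat_lit 8) (nat_lit 7) (by decide +kernel)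
theorem L567329 : W_3 (nat_lit 3) (nat_lit 0x20001000180004000300000000000000000000000) (nat_lit 0x0) (nat_lit 0x4000600010000000000008000000000000000000000000000) := T_3 (nat_lit 177) (nat_lit 160) (nat_lit 5) (nat_lit 8) (nat_lit 6) L567328 (by decide +kernel)
theorem L567330 : W_3 (nat_lit 4) (nat_lit 0x1000180004000300000000000000000000000) (nat_lit 0x0) (nat_lit 0x400060003000000000000a000000000000000000000000000) := T_3 (nat_lit 161) (nat_lit 109) (nat_lit 4) (nat_lit 8) (nat_lit 9) L567329 (by decide +kernel)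
theorem L567331 : W_3 (nat_lit 5) (nat_lit 0x1000180004000200000000000000000000000) (nat_lit 0x0) (nat_lit 0x400060003000000000000a000100008000000000000000000) := T_3 (nat_lit 92) (nat_lit 75) (nat_lit 4) (nat_lit 8) (nat_lit 8) L567330 (by decide +kernel)
theorem L567332 : W_3 (nat_lit 2) (nat_lit 0x200020001000180006000600000000000000000000000) (nat_lit 0x0) (nat_lit 0x4000400000000000040000000000000000000000000000000) := D_3 (nat_lit 178) (nat_lit 194) (nat_lit 126) (nat_lit 5) (nat_lit 8) (nat_lit 7) (nat_lit 4) (nat_lit 8) (nat_lit 10) (by decide +kernel)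
theorem L567333 : W_3 (nat_lit 3) (nat_lit 0x200020001000180004000600000000000000000000000) (nat_lit 0x0) (nat_lit 0x4000400000000000040002000100000000000000000000000) := T_3 (nat_lit 109) (nat_lit 92) (nat_lit 4) (nat_lit 8) (nat_lit 9) L567332 (by decide +kernel)
theorem L567334 : W_3 (nat_lit 4) (nat_lit 0x20001000180004000600000000000000000000000) (nat_lit 0x0) (nat_lit 0x4000600010000000040002000100000000000000000000000) := T_3 (nat_lit 177) (nat_lit 160) (nat_lit 5) (nat_lit 8) (nat_lit 6) L567333 (by decide +kernel)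
theorem L567335 : W_3 (nat_lit 5) (nat_lit 0x1000180004000600000000000000000000000) (nat_lit 0x0) (nat_lit 0x400060003000000004000a000100000000000000000000000) := T_3 (nat_lit 161) (nat_lit 111) (nat_lit 6) (nat_lit 8) (nat_lit 9) L567334 (by decide +kernel)
theorem L567336 : W_3 (nat_lit 6) (nat_lit 0x1000180004000200000000000000000000000) (nat_lit 0x0) (nat_lit 0x400060003000000004000a000500020000000000000000000) := T_3 (nat_lit 94) (nat_lit 77) (nat_lit 6) (nat_lit 8) (nat_lit 8) L567335 (by decide +kernel)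
theorem L567337 : W_3 (nat_lit 7) (nat_lit 0x1000180004000000000000000000000000000) (nat_lit 0x0) (nat_lit 0x400060003000000004000a000700038001c00020000000000) := Q_3 (nat_lit 93) (C_3 L208702 (C_3 L567324 (C_3 L567327 (C_3 L567331 (C_3 L567336 N_3))))) (by decide +kernel)
theorem L567338 : W_3 (nat_lit 2) (nat_lit 0x3000100018000e000200030000000000000000000) (nat_lit 0x0) (nat_lit 0x200001800000000000000000000000000) := D_3 (nat_lit 108) (nat_lit 129) (nat_lit 107) (nat_lit 3) (nat_lit 6) (nat_lit 6) (nat_lit 3) (nat_lit 5) (nat_lit 6) (by decide +kernel)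
theorem L567339 : W_3 (nat_lit 3) (nat_lit 0x3000100018000c000200030000000000000000000) (nat_lit 0x0) (nat_lit 0x200003800100000000000000000000000) := T_3 (nat_lit 109) (nat_lit 92) (nat_lit 4) (nat_lit 8) (nat_lit 9) L567338 (by decide +kernel)
theorem L567340 : W_3 (nat_lit 4) (nat_lit 0x2000100018000c000200030000000000000000000) (nat_lit 0x0) (nat_lit 0x200010000000200003800100000000000000000000000) := T_3 (nat_lit 160) (nat_lit 177) (nat_lit 5) (nat_lit 8) (nat_lit 6) L567339 (by decide +kernel)
theorem L567341 : W_3 (nat_lit 5) (nat_lit 0x100018000c000200030000000000000000000) (nat_lit 0x0) (nat_lit 0x600030000000200003800100000000000000000000000) := T_3 (nat_lit 161) (nat_lit 178) (nat_lit 6) (nat_lit 8) (nat_lit 10) L567340 (by decide +kernel)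
theorem L567342 : W_3 (nat_lit 6) (nat_lit 0x1000180004000200030000000000000000000) (nat_lit 0x0) (nat_lit 0x60003000000020000b800100000000800000000000000) := T_3 (nat_lit 111) (nat_lit 59) (nat_lit 7) (nat_lit 8) (nat_lit 3) L567341 (by decide +kernel)
theorem L567343 : W_3 (nat_lit 7) (nat_lit 0x1000180004000200020000000000000000000) (nat_lit 0x0) (nat_lit 0x60003000000020000b800100010001800000000000000) := T_3 (nat_lit 76) (nat_lit 60) (nat_lit 6) (nat_lit 8) (nat_lit 7) L567342 (by decide +kernel)
theorem L567344 : W_3 (nat_lit 8) (nat_lit 0x1000180004000200000000000000000000000) (nat_lit 0x0) (nat_lit 0x60003000000020000b800500030001800000000000000) := T_3 (nat_lit 77) (nat_lit 94) (nat_lit 6) (nat_lit 8) (nat_lit 8) L567343 (by decide +kernel)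
theorem L567345 : W_3 (nat_lit 9) (nat_lit 0x1000180004000000000000000000000000000) (nat_lit 0x0) (nat_lit 0x400060003000000020000b800700038001c00020000000000) := Q_3 (nat_lit 93) (C_3 L567324 (C_3 L567331 (C_3 L208702 (C_3 L567344 N_3)))) (by decide +kernel)
theorem L567346 : W_3 (nat_lit 2) (nat_lit 0x1000180004000400000000000000000000000) (nat_lit 0x0) (nat_lit 0x8000200020000000000000000000) := D_3 (nat_lit 77) (nat_lit 111) (nat_lit 93) (nat_lit 5) (nat_lit 9) (nat_lit 4) (nat_lit 6) (nat_lit 8) (nat_lit 8) (by decide +kernel)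
theorem L567347 : W_3 (nat_lit 2) (nat_lit 0x1000180004000400000000000000000000000) (nat_lit 0x0) (nat_lit 0x20000000000008000000020000000000000000000) := D_3 (nat_lit 111) (nat_lit 77) (nat_lit 161) (nat_lit 5) (nat_lit 9) (nat_lit 4) (nat_lit 6) (nat_lit 8) (nat_lit 9) (by decide +kernel)
theorem L567348 : W_3 (nat_lit 6) (nat_lit 0x1000380004000400000000000000000000000) (nat_lit 0x0) (nat_lit 0x38000c000e2000200020000000000000000000) := T_3 (nat_lit 93) (nat_lit 77) (nat_lit 6) (nat_lit 8) (nat_lit 8) L208633 (by decide +kernel)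
theorem L567350 : W_3 (nat_lit 2) (nat_lit 0x12003f0014400400000000000000000000000) (nat_lit 0x0) (nat_lit 0x8002200000000000000000000000000) := D_3 (nat_lit 123) (nat_lit 109) (nat_lit 105) (nat_lit 2) (nat_lit 4) (nat_lit 7) (nat_lit 0) (nat_lit 7) (nat_lit 7) (by decide +kernel)
theorem L567351 : W_3 (nat_lit 3) (nat_lit 0x12003f0014000400000000000000000000000) (nat_lit 0x0) (nat_lit 0x8002e00000000000000000000000000) := T_3 (nat_lit 106) (nat_lit 107) (nat_lit 0) (nat_lit 8) (nat_lit 7) L567350 (by decide +kernel)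
theorem L567352 : W_3 (nat_lit 4) (nat_lit 0x12003e0014000400000000000000000000000) (nat_lit 0x0) (nat_lit 0x100018002e00000000000000000000000000) := T_3 (nat_lit 124) (nat_lit 140) (nat_lit 1) (nat_lit 8) (nat_lit 7) L567351 (by decide +kernel)
theorem L567353 : W_3 (nat_lit 5) (nat_lit 0x12003e0004000400000000000000000000000) (nat_lit 0x0) (nat_lit 0x100018032e00000000000000000000000000) := T_3 (nat_lit 112) (nat_lit 113) (nat_lit 2) (nat_lit 7) (nat_lit 7) L567352 (by decide +kernel)
theorem L567354 : W_3 (nat_lit 6) (nat_lit 0x10003e0004000400000000000000000000000) (nat_lit 0x0) (nat_lit 0x700018032e00000000000000000000000000) := T_3 (nat_lit 141) (nat_lit 142) (nat_lit 1) (nat_lit 9) (nat_lit 7) L567353 (by decide +kernel)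
theorem L567355 : W_3 (nat_lit 7) (nat_lit 0x10003c0004000400000000000000000000000) (nat_lit 0x0) (nat_lit 0x700038033e00000000000000000000000000) := Q_3 (nat_lit 125) (C_3 L208592 (C_3 L208588 (C_3 L567354 (C_3 L208591 N_3)))) (by decide +kernel)
theorem L567356 : W_3 (nat_lit 2) (nat_lit 0x52003f0004400600000000000000000000000) (nat_lit 0x0) (nat_lit 0x8002200000000000000000000000000) := D_3 (nat_lit 123) (nat_lit 109) (nat_lit 105) (nat_lit 2) (nat_lit 4) (nat_lit 7) (nat_lit 0) (nat_lit 7) (nat_lit 7) (by decide +kernel)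
theorem L567357 : W_3 (nat_lit 3) (nat_lit 0x52003f0004000600000000000000000000000) (nat_lit 0x0) (nat_lit 0x8002e00000000000000000000000000) := T_3 (nat_lit 106) (nat_lit 107) (nat_lit 0) (nat_lit 8) (nat_lit 7) L567356 (by decide +kernel)
theorem L567358 : W_3 (nat_lit 4) (nat_lit 0x52003e0004000600000000000000000000000) (nat_lit 0x0) (nat_lit 0x100018002e00000000000000000000000000) := T_3 (nat_lit 124) (nat_lit 140) (nat_lit 1) (nat_lit 8) (nat_lit 7) L567357 (by decide +kernel)
theorem L567359 : W_3 (nat_lit 5) (nat_lit 0x52003e0004000400000000000000000000000) (nat_lit 0x0) (nat_lit 0x100018002e00200020000000000000000000) := T_3 (nat_lit 93) (nat_lit 77) (nat_lit 6) (nat_lit 8) (nat_lit 8) L567358 (by decide +kernel)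
theorem L567360 : W_3 (nat_lit 6) (nat_lit 0x50003e0004000400000000000000000000000) (nat_lit 0x0) (nat_lit 0x700018002e00200020000000000000000000) := T_3 (nat_lit 141) (nat_lit 142) (nat_lit 1) (nat_lit 9) (nat_lit 7) L567359 (by decide +kernel)
theorem L567361 : W_3 (nat_lit 7) (nat_lit 0x10003e0004000400000000000000000000000) (nat_lit 0x0) (nat_lit 0xc700018002e00200020000000000000000000) := T_3 (nat_lit 146) (nat_lit 147) (nat_lit 3) (nat_lit 7) (nat_lit 7) L567360 (by decide +kernel)
theorem L567362 : W_3 (nat_lit 8) (nat_lit 0x10003c0004000400000000000000000000000) (nat_lit 0x0) (nat_lit 0xc700038003e00200020000000000000000000) := Q_3 (nat_lit 125) (C_3 L208592 (C_3 L208588 (C_3 L567361 (C_3 L208591 N_3)))) (by decide +kernel)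
theorem L567363 : W_3 (nat_lit 9) (nat_lit 0x1000380004000400000000000000000000000) (nat_lit 0x0) (nat_lit 0xc700078033e00a00020000000000000000000) := Q_3 (nat_lit 126) (C_3 L208593 (C_3 L188154 (C_3 L567355 (C_3 L567362 N_3)))) (by decide +kernel)
theorem L567364 : W_3 (nat_lit 2) (nat_lit 0x1000380006000600000000000000000000000) (nat_lit 0x0) (nat_lit 0x40001800000000000000000000000000) := D_3 (nat_lit 108) (nat_lit 126) (nat_lit 107) (nat_lit 0) (nat_lit 10) (nat_lit 7) (nat_lit 3) (nat_lit 5) (nat_lit 6) (by decide +kernel)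
theorem L567365 : W_3 (nat_lit 3) (nat_lit 0x1000380004000600000000000000000000000) (nat_lit 0x0) (nat_lit 0x440003800000000000000000000000000) := T_3 (nat_lit 109) (nat_lit 130) (nat_lit 0) (nat_lit 11) (nat_lit 7) L567364 (by decide +kernel)
theorem L567366 : W_3 (nat_lit 4) (nat_lit 0x1000380004000400000000000000000000000) (nat_lit 0x0) (nat_lit 0x440003800200020000000000000000000) := T_3 (nat_lit 93) (nat_lit 77) (nat_lit 6) (nat_lit 8) (nat_lit 8) L567365 (by decide +kernel)
theorem L567383 : W_3 (nat_lit 2) (nat_lit 0x1000380074000c00020000000000000000000) (nat_lit 0x0) (nat_lit 0x40001000080000000000) := D_3 (nat_lit 60) (nat_lit 78) (nat_lit 43) (nat_lit 4) (nat_lit 10) (nat_lit 7) (nat_lit 7) (nat_lit 9) (nat_lit 2) (by decide +kernel)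
theorem L567384 : W_3 (nat_lit 3) (nat_lit 0x1000380074000400020000000000000000000) (nat_lit 0x0) (nat_lit 0x4000000000000800040001000080000000000) := T_3 (nat_lit 95) (nat_lit 146) (nat_lit 4) (nat_lit 10) (nat_lit 8) L567383 (by decide +kernel)
theorem L567385 : W_3 (nat_lit 4) (nat_lit 0x1000380064000400020000000000000000000) (nat_lit 0x0) (nat_lit 0x4000000090000800040001000080000000000) := T_3 (nat_lit 112) (nat_lit 115) (nat_lit 1) (nat_lit 13) (nat_lit 6) L567384 (by decide +kernel)
theorem L567386 : W_3 (nat_lit 5) (nat_lit 0x1000380064000400000000000000000000000) (nat_lit 0x0) (nat_lit 0x4000000090000a00060001000080000000000) := T_3 (nat_lit 77) (nat_lit 93) (nat_lit 6) (nat_lit 8) (nat_lit 8) L567385 (by decide +kernel)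
theorem L567387 : W_3 (nat_lit 6) (nat_lit 0x1000380024000400000000000000000000000) (nat_lit 0x0) (nat_lit 0x40004000d0000a00060001000080000000000) := T_3 (nat_lit 114) (nat_lit 130) (nat_lit 2) (nat_lit 8) (nat_lit 7) L567386 (by decide +kernel)
theorem L567388 : W_3 (nat_lit 2) (nat_lit 0x10003800b4000c00020000000000000000000) (nat_lit 0x0) (nat_lit 0x40001000080000000000) := D_3 (nat_lit 60) (nat_lit 78) (nat_lit 43) (nat_lit 4) (nat_lit 10) (nat_lit 7) (nat_lit 7) (nat_lit 9) (nat_lit 2) (by decide +kernel)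
theorem L567389 : W_3 (nat_lit 3) (nat_lit 0x10003800b4000400020000000000000000000) (nat_lit 0x0) (nat_lit 0x4000000000000800040001000080000000000) := T_3 (nat_lit 95) (nat_lit 146) (nat_lit 4) (nat_lit 10) (nat_lit 8) L567388 (by decide +kernel)
theorem L567390 : W_3 (nat_lit 4) (nat_lit 0x1000380034000400020000000000000000000) (nat_lit 0x0) (nat_lit 0x40000000c0000800040001000080000000000) := T_3 (nat_lit 115) (nat_lit 114) (nat_lit 1) (nat_lit 13) (nat_lit 6) L567389 (by decide +kernel)
theorem L567391 : W_3 (nat_lit 5) (nat_lit 0x1000380024000400020000000000000000000) (nat_lit 0x0) (nat_lit 0x40000400d0000800040001000080000000000) := T_3 (nat_lit 112) (nat_lit 126) (nat_lit 2) (nat_lit 7) (nat_lit 7) L567390 (by decide +kernel)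
theorem L567392 : W_3 (nat_lit 6) (nat_lit 0x1000380024000400000000000000000000000) (nat_lit 0x0) (nat_lit 0x40000400d0000a00060001000080000000000) := T_3 (nat_lit 77) (nat_lit 93) (nat_lit 6) (nat_lit 8) (nat_lit 8) L567391 (by decide +kernel)
theorem L567393 : W_3 (nat_lit 3) (nat_lit 0x9000780024000600000000000000000000000) (nat_lit 0x0) (nat_lit 0x80004000040000001000080000000000000000000) := T_3 (nat_lit 146) (nat_lit 126) (nat_lit 3) (nat_lit 7) (nat_lit 7) L211824 (by decide +kernel)
theorem L567394 : W_3 (nat_lit 4) (nat_lit 0x1000780024000600000000000000000000000) (nat_lit 0x0) (nat_lit 0x8001c000040000001000080000000000000000000) := T_3 (nat_lit 147) (nat_lit 148) (nat_lit 3) (nat_lit 8) (nat_lit 7) L567393 (by decide +kernel)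
theorem L567395 : W_3 (nat_lit 5) (nat_lit 0x1000780024000400000000000000000000000) (nat_lit 0x0) (nat_lit 0x8001c0000400000012000a0000000000000000000) := T_3 (nat_lit 93) (nat_lit 77) (nat_lit 6) (nat_lit 8) (nat_lit 8) L567394 (by decide +kernel)
theorem L567396 : W_3 (nat_lit 6) (nat_lit 0x1000380024000400000000000000000000000) (nat_lit 0x0) (nat_lit 0x8001c0004400400012000a0000000000000000000) := T_3 (nat_lit 130) (nat_lit 114) (nat_lit 2) (nat_lit 8) (nat_lit 7) L567395 (by decide +kernel)
theorem L567397 : W_3 (nat_lit 2) (nat_lit 0x1000080005000380034000400020000000000000000000) (nat_lit 0x0) (nat_lit 0x40002000100000000000000000000000000000000000000000) := D_3 (nat_lit 181) (nat_lit 164) (nat_lit 198) (nat_lit 7) (nat_lit 10) (nat_lit 6) (nat_lit 7) (nat_lit 10) (nat_lit 7) (by decide +kernel)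
theorem L567398 : W_3 (nat_lit 3) (nat_lit 0x80005000380034000400020000000000000000000) (nat_lit 0x0) (nat_lit 0x40003000100000000400000000000000000000000000000000) := T_3 (nat_lit 180) (nat_lit 130) (nat_lit 6) (nat_lit 10) (nat_lit 10) L567397 (by decide +kernel)
theorem L567399 : W_3 (nat_lit 4) (nat_lit 0x5000380034000400020000000000000000000) (nat_lit 0x0) (nat_lit 0x40003000180000000400000001000000000000000000000000) := T_3 (nat_lit 163) (nat_lit 96) (nat_lit 6) (nat_lit 10) (nat_lit 9) L567398 (by decide +kernel)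
theorem L567400 : W_3 (nat_lit 5) (nat_lit 0x1000380034000400020000000000000000000) (nat_lit 0x0) (nat_lit 0x40003000180004000400000001800000000000000000000000) := T_3 (nat_lit 146) (nat_lit 95) (nat_lit 4) (nat_lit 10) (nat_lit 8) L567399 (by decide +kernel)
theorem L567401 : W_3 (nat_lit 6) (nat_lit 0x1000380034000400000000000000000000000) (nat_lit 0x0) (nat_lit 0x40003000180004000400000001a00020000000000000000000) := T_3 (nat_lit 77) (nat_lit 93) (nat_lit 6) (nat_lit 8) (nat_lit 8) L567400 (by decide +kernel)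
theorem L567402 : W_3 (nat_lit 7) (nat_lit 0x1000380024000400000000000000000000000) (nat_lit 0x0) (nat_lit 0x40003000180004000440010001a00020000000000000000000) := T_3 (nat_lit 112) (nat_lit 126) (nat_lit 2) (nat_lit 7) (nat_lit 7) L567401 (by decide +kernel)
theorem L567403 : W_3 (nat_lit 8) (nat_lit 0x1000380004000400000000000000000000000) (nat_lit 0x0) (nat_lit 0x4000300018001c0004400f0001a000e0001000080000000000) := Q_3 (nat_lit 113) (C_3 L218379 (C_3 L567387 (C_3 L567392 (C_3 L567396 (C_3 L567402 N_3))))) (by decide +kernel)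
theorem L567404 : W_3 (nat_lit 10) (nat_lit 0x1000180004000400000000000000000000000) (nat_lit 0x0) (nat_lit 0x4000300018003c700e780f3e01a000e0001000080000000000) := Q_3 (nat_lit 129) (C_3 L208587 (C_3 L567348 (C_3 L567363 (C_3 L567366 (C_3 L567403 N_3))))) (by decide +kernel)
theorem L567405 : W_3 (nat_lit 2) (nat_lit 0x200020001000180006000400000000000000000000000) (nat_lit 0x0) (nat_lit 0x4000400000000000040000000000000000000000000000000) := D_3 (nat_lit 178) (nat_lit 126) (nat_lit 194) (nat_lit 4) (nat_lit 8) (nat_lit 10) (nat_lit 5) (nat_lit 8) (nat_lit 7) (by decide +kernel)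
theorem L567406 : W_3 (nat_lit 3) (nat_lit 0x20001000180006000400000000000000000000000) (nat_lit 0x0) (nat_lit 0x4000600010000000040000000000000000000000000000000) := T_3 (nat_lit 177) (nat_lit 160) (nat_lit 5) (nat_lit 8) (nat_lit 6) L567405 (by decide +kernel)
theorem L567407 : W_3 (nat_lit 4) (nat_lit 0x1000180006000400000000000000000000000) (nat_lit 0x0) (nat_lit 0x4000600030000000040008000000000000000000000000000) := T_3 (nat_lit 161) (nat_lit 111) (nat_lit 6) (nat_lit 8) (nat_lit 9) L567406 (by decide +kernel)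
theorem L567408 : W_3 (nat_lit 2) (nat_lit 0x1000180007000400000000000000000000000) (nat_lit 0x0) (nat_lit 0x20000000000008000800000000000000000000000) := D_3 (nat_lit 111) (nat_lit 161) (nat_lit 95) (nat_lit 6) (nat_lit 8) (nat_lit 9) (nat_lit 2) (nat_lit 6) (nat_lit 6) (by decide +kernel)
theorem L567409 : W_3 (nat_lit 3) (nat_lit 0x1000180006000400000000000000000000000) (nat_lit 0x0) (nat_lit 0x20000000000009800800000000000000000000000) := T_3 (nat_lit 108) (nat_lit 107) (nat_lit 3) (nat_lit 5) (nat_lit 6) L567408 (by decide +kernel)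
theorem L567410 : W_3 (nat_lit 5) (nat_lit 0x1000180004000400000000000000000000000) (nat_lit 0x0) (nat_lit 0x400060003000000064000b800800000000000000000000000) := Q_3 (nat_lit 109) (C_3 L567407 (C_3 L208568 (C_3 L567409 N_3))) (by decide +kernel)
theorem L567411 : W_3 (nat_lit 11) (nat_lit 0x1000180004000000000000000000000000000) (nat_lit 0x0) (nat_lit 0x440036001b003c700e780fbe01e000e0001000080000000000) := Q_3 (nat_lit 94) (C_3 L567346 (C_3 L567347 (C_3 L567404 (C_3 L567410 N_3)))) (by decide +kernel)
theorem L567412 : W_3 (nat_lit 2) (nat_lit 0x100018000c000200018000000000000000000) (nat_lit 0x0) (nat_lit 0x400020000000000000000400000000000000000000000) := D_3 (nat_lit 161) (nat_lit 178) (nat_lit 94) (nat_lit 6) (nat_lit 8) (nat_lit 10) (nat_lit 6) (nat_lit 8) (nat_lit 9) (by decide +kernel)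
theorem L567413 : W_3 (nat_lit 3) (nat_lit 0x1000180004000200018000000000000000000) (nat_lit 0x0) (nat_lit 0x400020000000000008000400000000800000000000000) := T_3 (nat_lit 111) (nat_lit 59) (nat_lit 7) (nat_lit 8) (nat_lit 3) L567412 (by decide +kernel)
theorem L567414 : W_3 (nat_lit 4) (nat_lit 0x1000180004000200008000000000000000000) (nat_lit 0x0) (nat_lit 0x400020000000000008000400010000c00000000000000) := T_3 (nat_lit 76) (nat_lit 58) (nat_lit 4) (nat_lit 8) (nat_lit 7) L567413 (by decide +kernel)
theorem L567415 : W_3 (nat_lit 5) (nat_lit 0x1000180004000200000000000000000000000) (nat_lit 0x0) (nat_lit 0x400020000000000008000500018000c00000000000000) := T_3 (nat_lit 75) (nat_lit 92) (nat_lit 4) (nat_lit 8) (nat_lit 8) L567414 (by decide +kernel)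
theorem L567416 : W_3 (nat_lit 2) (nat_lit 0x100018000c000700000000000000000000000) (nat_lit 0x0) (nat_lit 0x100000c0000000000000000000000) := D_3 (nat_lit 91) (nat_lit 112) (nat_lit 90) (nat_lit 3) (nat_lit 6) (nat_lit 5) (nat_lit 3) (nat_lit 5) (nat_lit 5) (by decide +kernel)
theorem L567417 : W_3 (nat_lit 3) (nat_lit 0x1000180004000700000000000000000000000) (nat_lit 0x0) (nat_lit 0x200000000000180000c0000000000000000000000) := T_3 (nat_lit 111) (nat_lit 161) (nat_lit 6) (nat_lit 8) (nat_lit 9) L567416 (by decide +kernel)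
theorem L567418 : W_3 (nat_lit 4) (nat_lit 0x1000180004000300000000000000000000000) (nat_lit 0x0) (nat_lit 0x200000000000180004c0020000000000000000000) := T_3 (nat_lit 94) (nat_lit 77) (nat_lit 6) (nat_lit 8) (nat_lit 8) L567417 (by decide +kernel)
theorem L567419 : W_3 (nat_lit 5) (nat_lit 0x1000180004000200000000000000000000000) (nat_lit 0x0) (nat_lit 0x200000000000180005c0028000000000000000000) := T_3 (nat_lit 92) (nat_lit 75) (nat_lit 4) (nat_lit 8) (nat_lit 8) L567418 (by decide +kernel)
theorem L567420 : W_3 (nat_lit 3) (nat_lit 0x1000180004000200018000000000000000000) (nat_lit 0x0) (nat_lit 0x8000000020001800080000000000) := T_3 (nat_lit 60) (nat_lit 77) (nat_lit 6) (nat_lit 8) (nat_lit 7) L127 (by decide +kernel)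
theorem L567421 : W_3 (nat_lit 4) (nat_lit 0x1000180004000200008000000000000000000) (nat_lit 0x0) (nat_lit 0x8000000030001c00080000000000) := T_3 (nat_lit 76) (nat_lit 58) (nat_lit 4) (nat_lit 8) (nat_lit 7) L567420 (by decide +kernel)
theorem L567422 : W_3 (nat_lit 5) (nat_lit 0x1000180004000200000000000000000000000) (nat_lit 0x0) (nat_lit 0x8000100038001c00080000000000) := T_3 (nat_lit 75) (nat_lit 92) (nat_lit 4) (nat_lit 8) (nat_lit 8) L567421 (by decide +kernel)
theorem L567424 : W_3 (nat_lit 2) (nat_lit 0x100018000c000200020000000000000000000) (nat_lit 0x0) (nat_lit 0x10001800000000000000) := D_3 (nat_lit 76) (nat_lit 59) (nat_lit 60) (nat_lit 7) (nat_lit 8) (nat_lit 3) (nat_lit 6) (nat_lit 8) (nat_lit 7) (by decide +kernel)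
theorem L567425 : W_3 (nat_lit 3) (nat_lit 0x100018000c000200000000000000000000000) (nat_lit 0x0) (nat_lit 0x400030001800000000000000) := T_3 (nat_lit 77) (nat_lit 94) (nat_lit 6) (nat_lit 8) (nat_lit 8) L567424 (by decide +kernel)
theorem L568033 : W_3 (nat_lit 2) (nat_lit 0x1000180004000200010000800000000000000) (nat_lit 0x0) (nat_lit 0x20001000080000000000) := D_3 (nat_lit 60) (nat_lit 43) (nat_lit 77) (nat_lit 6) (nat_lit 8) (nat_lit 6) (nat_lit 6) (nat_lit 8) (nat_lit 7) (by decide +kernel)
theorem L568034 : W_3 (nat_lit 3) (nat_lit 0x1000180004000200010000000000000000000) (nat_lit 0x0) (nat_lit 0x8000000020001800080000000000) := T_3 (nat_lit 59) (nat_lit 111) (nat_lit 7) (nat_lit 8) (nat_lit 3) L568033 (by decide +kernel)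
theorem L568038 : W_3 (nat_lit 2) (nat_lit 0x100018000c000200010000000000000000000) (nat_lit 0x0) (nat_lit 0x20000000000000000400020000000000000000000) := D_3 (nat_lit 94) (nat_lit 77) (nat_lit 161) (nat_lit 6) (nat_lit 8) (nat_lit 8) (nat_lit 6) (nat_lit 8) (nat_lit 9) (by decide +kernel)
theorem L568039 : W_3 (nat_lit 3) (nat_lit 0x1000180004000200010000000000000000000) (nat_lit 0x0) (nat_lit 0x20000000000008000400020000800000000000000) := T_3 (nat_lit 111) (nat_lit 59) (nat_lit 7) (nat_lit 8) (nat_lit 3) L568038 (by decide +kernel)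
theorem L568040 : W_3 (nat_lit 6) (nat_lit 0x1000180004000200000000000000000000000) (nat_lit 0x0) (nat_lit 0x20000000000008000400030001c000e0005000000) := Q_3 (nat_lit 76) (C_3 L76450 (C_3 L568034 (C_3 L568037 (C_3 L568039 N_3)))) (by decide +kernel)
theorem L568041 : W_3 (nat_lit 7) (nat_lit 0x1000180004000000000000000000000000000) (nat_lit 0x0) (nat_lit 0x4000200000000000180007c0038001c000e0005000000) := Q_3 (nat_lit 93) (C_3 L567324 (C_3 L208702 (C_3 L567415 (C_3 L567419 (C_3 L567422 (C_3 L568040 N_3)))))) (by decide +kernel)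
theorem L568042 : W_3 (nat_lit 12) (nat_lit 0x1000180000000000000000000000000000000) (nat_lit 0x0) (nat_lit 0x440036001b003c700e780ffe03fc00f8003c000e0005000000) := Q_3 (nat_lit 110) (C_3 L208714 (C_3 L567314 (C_3 L567321 (C_3 L567337 (C_3 L567345 (C_3 L567411 (C_3 L568041 N_3))))))) (by decide +kernel)
theorem L568043 : W_3 (nat_lit 2) (nat_lit 0x12001e0008000000000000000000000000000) (nat_lit 0x0) (nat_lit 0x100010004000000000000000000000000000) := D_3 (nat_lit 124) (nat_lit 110) (nat_lit 140) (nat_lit 2) (nat_lit 5) (nat_lit 7) (nat_lit 1) (nat_lit 8) (nat_lit 7) (by decide +kernel)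
theorem L568044 : W_3 (nat_lit 3) (nat_lit 0x12001e0000000000000000000000000000000) (nat_lit 0x0) (nat_lit 0x10001001c000000000000000000000000000) := T_3 (nat_lit 111) (nat_lit 112) (nat_lit 2) (nat_lit 6) (nat_lit 7) L568043 (by decide +kernel)
theorem L568045 : W_3 (nat_lit 4) (nat_lit 0x10001e0000000000000000000000000000000) (nat_lit 0x0) (nat_lit 0x70001001c000000000000000000000000000) := T_3 (nat_lit 141) (nat_lit 142) (nat_lit 1) (nat_lit 9) (nat_lit 7) L568044 (by decide +kernel)
theorem L568046 : W_3 (nat_lit 5) (nat_lit 0x10001c0000000000000000000000000000000) (nat_lit 0x0) (nat_lit 0x70023003fc00000000000000000000000000) := Q_3 (nat_lit 125) (C_3 L339465 (C_3 L339462 (C_3 L568045 N_3))) (by decide +kernel)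
theorem L568047 : W_3 (nat_lit 5) (nat_lit 0x10001c0000000000000000000000000000000) (nat_lit 0x0) (nat_lit 0x600023003b800000000000000000000000000) := Q_3 (nat_lit 125) (C_3 L499546 (C_3 L339462 N_3)) (by decide +kernel)
theorem L568048 : W_3 (nat_lit 10) (nat_lit 0x10001c0000000000000000000000000000000) (nat_lit 0x0) (nat_lit 0x670003001f800f00070000000000000000000) := Q_3 (nat_lit 125) (C_3 L568045 (C_3 L499546 (C_3 L339453 N_3))) (by decide +kernel)
theorem L568076 : W_3 (nat_lit 8) (nat_lit 0x10001c0000000000000000000000000000000) (nat_lit 0x0) (nat_lit 0x3e700e3007c000000000000000000000000000) := Q_3 (nat_lit 125) (C_3 L568045 (C_3 L499559 (C_3 L499546 N_3))) (by decide +kernel)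
theorem L568077 : W_3 (nat_lit 7) (nat_lit 0x10001c0000000000000000000000000000000) (nat_lit 0x0) (nat_lit 0x8006700230003c00100008000000000000000000) := Q_3 (nat_lit 125) (C_3 L499546 (C_3 L339465 (C_3 L284587 N_3))) (by decide +kernel)
theorem L568078 : W_3 (nat_lit 12) (nat_lit 0x1000180000000000000000000000000000000) (nat_lit 0x0) (nat_lit 0x100008807e701e701ffc01f80078003000000000000000) := Q_3 (nat_lit 126) (C_3 L499560 (C_3 L568046 (C_3 L568047 (C_3 L568048 (C_3 L568075 (C_3 L568076 (C_3 L568077 N_3))))))) (by decide +kernel)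
theorem L568081 : W_3 (nat_lit 2) (nat_lit 0x10001e0008000000020000000000000000000) (nat_lit 0x0) (nat_lit 0x2000010004000000000000000000000000000) := D_3 (nat_lit 124) (nat_lit 110) (nat_lit 145) (nat_lit 2) (nat_lit 5) (nat_lit 7) (nat_lit 3) (nat_lit 5) (nat_lit 7) (by decide +kernel)
theorem L568082 : W_3 (nat_lit 3) (nat_lit 0x10001c0008000000020000000000000000000) (nat_lit 0x0) (nat_lit 0x2000030014000000000000000000000000000) := T_3 (nat_lit 125) (nat_lit 112) (nat_lit 2) (nat_lit 6) (nat_lit 7) L568081 (by decide +kernel)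
theorem L568083 : W_3 (nat_lit 4) (nat_lit 0x10001c0008000000000000000000000000000) (nat_lit 0x0) (nat_lit 0x2000030014000400020000000000000000000) := T_3 (nat_lit 77) (nat_lit 94) (nat_lit 5) (nat_lit 9) (nat_lit 4) L568082 (by decide +kernel)
theorem L568084 : W_3 (nat_lit 10) (nat_lit 0x10001c0008000000000000000000000000000) (nat_lit 0x0) (nat_lit 0x100008000e000200037001d80068003000000000000000) := Q_3 (nat_lit 129) (C_3 L568056 (C_3 L568069 (C_3 L568064 (C_3 L568057 N_3)))) (by decide +kernel)
theorem L568086 : W_3 (nat_lit 10) (nat_lit 0x10001c0008000000000000000000000000000) (nat_lit 0x0) (nat_lit 0x1e700e300e7c00400020000000000000000000) := Q_3 (nat_lit 125) (C_3 L568085 (C_3 L535724 (C_3 L284563 N_3))) (by decide +kernel)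
theorem L568088 : W_3 (nat_lit 11) (nat_lit 0x1000180008000000000000000000000000000) (nat_lit 0x0) (nat_lit 0x100008001e700e700f7c01d80068003000000000000000) := Q_3 (nat_lit 126) (C_3 L529628 (C_3 L568083 (C_3 L568084 (C_3 L568086 (C_3 L568087 N_3))))) (by decide +kernel)
theorem L568093 : W_3 (nat_lit 2) (nat_lit 0x14000000050003c001e000000000000000000000000000) (nat_lit 0x0) (nat_lit 0x180008000000000000000000) := D_3 (nat_lit 92) (nat_lit 91) (nat_lit 75) (nat_lit 0) (nat_lit 10) (nat_lit 6) (nat_lit 7) (nat_lit 7) (nat_lit 4) (by decide +kernel)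
theorem L568094 : W_3 (nat_lit 3) (nat_lit 0x14000000050003c001a000000000000000000000000000) (nat_lit 0x0) (nat_lit 0x400004000180008000000000000000000) := T_3 (nat_lit 110) (nat_lit 130) (nat_lit 3) (nat_lit 7) (nat_lit 6) L568093 (by decide +kernel)
theorem L568095 : W_3 (nat_lit 4) (nat_lit 0x14000000050003c0018000000000000000000000000000) (nat_lit 0x0) (nat_lit 0x400007000180008000000000000000000) := T_3 (nat_lit 109) (nat_lit 108) (nat_lit 0) (nat_lit 10) (nat_lit 7) L568094 (by decide +kernel)
theorem L568096 : W_3 (nat_lit 5) (nat_lit 0x4000000050003c0018000000000000000000000000000) (nat_lit 0x0) (nat_lit 0x1000080000000400007000180008000000000000000000) := T_3 (nat_lit 180) (nat_lit 163) (nat_lit 4) (nat_lit 10) (nat_lit 10) L568095 (by decide +kernel)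
theorem L568097 : W_3 (nat_lit 6) (nat_lit 0x4000000050003c0008000000000000000000000000000) (nat_lit 0x0) (nat_lit 0x1000080000000400037000180008000000000000000000) := T_3 (nat_lit 112) (nat_lit 113) (nat_lit 2) (nat_lit 7) (nat_lit 7) L568096 (by decide +kernel)
theorem L568098 : W_3 (nat_lit 7) (nat_lit 0x4000000010003c0008000000000000000000000000000) (nat_lit 0x0) (nat_lit 0x100008000c000400037000180008000000000000000000) := T_3 (nat_lit 146) (nat_lit 147) (nat_lit 3) (nat_lit 7) (nat_lit 7) L568097 (by decide +kernel)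
theorem L568099 : W_3 (nat_lit 8) (nat_lit 0x10003c0008000000000000000000000000000) (nat_lit 0x0) (nat_lit 0x14000a000c000400037000180008000000000000000000) := T_3 (nat_lit 178) (nat_lit 161) (nat_lit 6) (nat_lit 8) (nat_lit 10) L568098 (by decide +kernel)
theorem L568100 : W_3 (nat_lit 2) (nat_lit 0x4000000090007c001a000000008000000000000000000) (nat_lit 0x0) (nat_lit 0x2001800000000000000000000000000000000) := D_3 (nat_lit 131) (nat_lit 145) (nat_lit 132) (nat_lit 1) (nat_lit 12) (nat_lit 7) (nat_lit 0) (nat_lit 13) (nat_lit 7) (by decide +kernel)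
theorem L568101 : W_3 (nat_lit 3) (nat_lit 0x4000000090003c001a000000008000000000000000000) (nat_lit 0x0) (nat_lit 0x12001c00000000000000000000000000000000) := T_3 (nat_lit 130) (nat_lit 148) (nat_lit 3) (nat_lit 8) (nat_lit 7) L568100 (by decide +kernel)
theorem L568102 : W_3 (nat_lit 4) (nat_lit 0x4000000010003c001a000000008000000000000000000) (nat_lit 0x0) (nat_lit 0x1e001c00000000000000000000000000000000) := T_3 (nat_lit 147) (nat_lit 146) (nat_lit 3) (nat_lit 7) (nat_lit 7) L568101 (by decide +kernel)
theorem L568103 : W_3 (nat_lit 5) (nat_lit 0x4000000010003c000a000000008000000000000000000) (nat_lit 0x0) (nat_lit 0x1e001c00030000000000000000000000000000) := T_3 (nat_lit 112) (nat_lit 113) (nat_lit 2) (nat_lit 7) (nat_lit 7) L568102 (by decide +kernel)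
theorem L568104 : W_3 (nat_lit 6) (nat_lit 0x4000000010003c000a000000000000000000000000000) (nat_lit 0x0) (nat_lit 0x1e001c00030000100008000000000000000000) := T_3 (nat_lit 75) (nat_lit 92) (nat_lit 7) (nat_lit 7) (nat_lit 4) L568103 (by decide +kernel)
theorem L568105 : W_3 (nat_lit 7) (nat_lit 0x10003c000a000000000000000000000000000) (nat_lit 0x0) (nat_lit 0x40002001e001c00030000100008000000000000000000) := T_3 (nat_lit 178) (nat_lit 161) (nat_lit 6) (nat_lit 8) (nat_lit 10) L568104 (by decide +kernel)
theorem L568106 : W_3 (nat_lit 8) (nat_lit 0x10003c0008000000000000000000000000000) (nat_lit 0x0) (nat_lit 0x40002001e001c00033000100008000000000000000000) := T_3 (nat_lit 109) (nat_lit 108) (nat_lit 0) (nat_lit 10) (nat_lit 7) L568105 (by decide +kernel)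
theorem L568107 : W_3 (nat_lit 2) (nat_lit 0x4000000010007c000a000000008000000000000000000) (nat_lit 0x0) (nat_lit 0x70000000000000000000000000000) := D_3 (nat_lit 113) (nat_lit 112) (nat_lit 114) (nat_lit 2) (nat_lit 7) (nat_lit 7) (nat_lit 2) (nat_lit 8) (nat_lit 7) (by decide +kernel)
theorem L568108 : W_3 (nat_lit 3) (nat_lit 0x4000000010003c000a000000008000000000000000000) (nat_lit 0x0) (nat_lit 0x400074000000000000000000000000000) := T_3 (nat_lit 130) (nat_lit 110) (nat_lit 0) (nat_lit 11) (nat_lit 7) L568107 (by decide +kernel)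
theorem L568109 : W_3 (nat_lit 4) (nat_lit 0x4000000010003c000a000000000000000000000000000) (nat_lit 0x0) (nat_lit 0x400074000100008000000000000000000) := T_3 (nat_lit 75) (nat_lit 92) (nat_lit 7) (nat_lit 7) (nat_lit 4) L568108 (by decide +kernel)
theorem L568110 : W_3 (nat_lit 5) (nat_lit 0x10003c000a000000000000000000000000000) (nat_lit 0x0) (nat_lit 0x400020000000400074000100008000000000000000000) := T_3 (nat_lit 178) (nat_lit 161) (nat_lit 6) (nat_lit 8) (nat_lit 10) L568109 (by decide +kernel)
theorem L568111 : W_3 (nat_lit 6) (nat_lit 0x10003c0008000000000000000000000000000) (nat_lit 0x0) (nat_lit 0x400020000000400077000100008000000000000000000) := T_3 (nat_lit 109) (nat_lit 108) (nat_lit 0) (nat_lit 10) (nat_lit 7) L568110 (by decide +kernel)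
theorem L568117 : W_3 (nat_lit 2) (nat_lit 0x14000000050007c004a000000008000000000000000000) (nat_lit 0x0) (nat_lit 0x2000800080000000000000000000000000000) := D_3 (nat_lit 131) (nat_lit 145) (nat_lit 115) (nat_lit 1) (nat_lit 12) (nat_lit 7) (nat_lit 2) (nat_lit 9) (nat_lit 7) (by decide +kernel)
theorem L568118 : W_3 (nat_lit 3) (nat_lit 0x14000000050007c000a000000008000000000000000000) (nat_lit 0x0) (nat_lit 0x20008000e0000000000000000000000000000) := T_3 (nat_lit 114) (nat_lit 113) (nat_lit 2) (nat_lit 8) (nat_lit 7) L568117 (by decide +kernel)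
theorem L568119 : W_3 (nat_lit 4) (nat_lit 0x14000000050003c000a000000008000000000000000000) (nat_lit 0x0) (nat_lit 0x2000c000e4000000000000000000000000000) := T_3 (nat_lit 130) (nat_lit 110) (nat_lit 0) (nat_lit 11) (nat_lit 7) L568118 (by decide +kernel)
theorem L568120 : W_3 (nat_lit 5) (nat_lit 0x14000000050003c000a000000000000000000000000000) (nat_lit 0x0) (nat_lit 0x2000c000e4000100008000000000000000000) := T_3 (nat_lit 75) (nat_lit 92) (nat_lit 7) (nat_lit 7) (nat_lit 4) L568119 (by decide +kernel)
theorem L568121 : W_3 (nat_lit 6) (nat_lit 0x10000000050003c000a000000000000000000000000000) (nat_lit 0x0) (nat_lit 0x400020002000c000e4000100008000000000000000000) := T_3 (nat_lit 178) (nat_lit 161) (nat_lit 6) (nat_lit 8) (nat_lit 10) L568120 (by decide +kernel)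
theorem L568122 : W_3 (nat_lit 7) (nat_lit 0x10000000050003c0008000000000000000000000000000) (nat_lit 0x0) (nat_lit 0x400020002000c000e7000100008000000000000000000) := T_3 (nat_lit 109) (nat_lit 108) (nat_lit 0) (nat_lit 10) (nat_lit 7) L568121 (by decide +kernel)
theorem L568123 : W_3 (nat_lit 8) (nat_lit 0x50003c0008000000000000000000000000000) (nat_lit 0x0) (nat_lit 0x14000a0002000c000e7000100008000000000000000000) := T_3 (nat_lit 180) (nat_lit 163) (nat_lit 4) (nat_lit 10) (nat_lit 10) L568122 (by decide +kernel)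
theorem L568124 : W_3 (nat_lit 9) (nat_lit 0x10003c0008000000000000000000000000000) (nat_lit 0x0) (nat_lit 0x14000a000e000c000e7000100008000000000000000000) := T_3 (nat_lit 146) (nat_lit 147) (nat_lit 3) (nat_lit 7) (nat_lit 7) L568123 (by decide +kernel)
theorem L568129 : W_3 (nat_lit 2) (nat_lit 0x1400000005001fc000a000000008000000000000000000) (nat_lit 0x0) (nat_lit 0x1c0000000000000000000000000000) := D_3 (nat_lit 115) (nat_lit 114) (nat_lit 116) (nat_lit 2) (nat_lit 9) (nat_lit 7) (nat_lit 2) (nat_lit 10) (nat_lit 7) (by decide +kernel)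
theorem L568130 : W_3 (nat_lit 3) (nat_lit 0x1400000005000fc000a000000008000000000000000000) (nat_lit 0x0) (nat_lit 0x10001d0000000000000000000000000000) := T_3 (nat_lit 132) (nat_lit 112) (nat_lit 0) (nat_lit 13) (nat_lit 7) L568129 (by decide +kernel)
theorem L568131 : W_3 (nat_lit 4) (nat_lit 0x14000000050007c000a000000008000000000000000000) (nat_lit 0x0) (nat_lit 0x20018001d0000000000000000000000000000) := T_3 (nat_lit 131) (nat_lit 145) (nat_lit 1) (nat_lit 12) (nat_lit 7) L568130 (by decide +kernel)
theorem L568132 : W_3 (nat_lit 5) (nat_lit 0x14000000050003c000a000000008000000000000000000) (nat_lit 0x0) (nat_lit 0x2001c001d4000000000000000000000000000) := T_3 (nat_lit 130) (nat_lit 110) (nat_lit 0) (nat_lit 11) (nat_lit 7) L568131 (by decide +kernel)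
theorem L568133 : W_3 (nat_lit 6) (nat_lit 0x14000000050003c000a000000000000000000000000000) (nat_lit 0x0) (nat_lit 0x2001c001d4000100008000000000000000000) := T_3 (nat_lit 75) (nat_lit 92) (nat_lit 7) (nat_lit 7) (nat_lit 4) L568132 (by decide +kernel)
theorem L568134 : W_3 (nat_lit 7) (nat_lit 0x10000000050003c000a000000000000000000000000000) (nat_lit 0x0) (nat_lit 0x400020002001c001d4000100008000000000000000000) := T_3 (nat_lit 178) (nat_lit 161) (nat_lit 6) (nat_lit 8) (nat_lit 10) L568133 (by decide +kernel)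
theorem L568135 : W_3 (nat_lit 8) (nat_lit 0x10000000050003c0008000000000000000000000000000) (nat_lit 0x0) (nat_lit 0x400020002001c001d7000100008000000000000000000) := T_3 (nat_lit 109) (nat_lit 108) (nat_lit 0) (nat_lit 10) (nat_lit 7) L568134 (by decide +kernel)
theorem L568136 : W_3 (nat_lit 9) (nat_lit 0x50003c0008000000000000000000000000000) (nat_lit 0x0) (nat_lit 0x14000a0002001c001d7000100008000000000000000000) := T_3 (nat_lit 180) (nat_lit 163) (nat_lit 4) (nat_lit 10) (nat_lit 10) L568135 (by decide +kernel)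
theorem L568137 : W_3 (nat_lit 10) (nat_lit 0x10003c0008000000000000000000000000000) (nat_lit 0x0) (nat_lit 0x14000a000e001c001d7000100008000000000000000000) := T_3 (nat_lit 146) (nat_lit 147) (nat_lit 3) (nat_lit 7) (nat_lit 7) L568136 (by decide +kernel)
theorem L568138 : W_3 (nat_lit 11) (nat_lit 0x10001c0008000000000000000000000000000) (nat_lit 0x0) (nat_lit 0x14000a001e001e001f7001980048002000000000000000) := Q_3 (nat_lit 129) (C_3 L568056 (C_3 L568099 (C_3 L568106 (C_3 L568111 (C_3 L568116 (C_3 L568124 (C_3 L568128 (C_3 L568137 N_3)))))))) (by decide +kernel)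
theorem L568139 : W_3 (nat_lit 2) (nat_lit 0x4000000034001e000b000000000000000000000000000) (nat_lit 0x0) (nat_lit 0x8000000000000000100008000000000000000000) := D_3 (nat_lit 92) (nat_lit 75) (nat_lit 159) (nat_lit 7) (nat_lit 7) (nat_lit 4) (nat_lit 6) (nat_lit 6) (nat_lit 9) (by decide +kernel)
theorem L568140 : W_3 (nat_lit 3) (nat_lit 0x4000000034001e0009000000000000000000000000000) (nat_lit 0x0) (nat_lit 0x8000000200002000100008000000000000000000) := T_3 (nat_lit 109) (nat_lit 129) (nat_lit 0) (nat_lit 10) (nat_lit 7) L568139 (by decide +kernel)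
theorem L568141 : W_3 (nat_lit 4) (nat_lit 0x4000000034001e0008000000000000000000000000000) (nat_lit 0x0) (nat_lit 0x8000000200003800100008000000000000000000) := T_3 (nat_lit 108) (nat_lit 107) (nat_lit 0) (nat_lit 9) (nat_lit 7) L568140 (by decide +kernel)
theorem L568142 : W_3 (nat_lit 5) (nat_lit 0x4000000030001e0008000000000000000000000000000) (nat_lit 0x0) (nat_lit 0x8000600200003800100008000000000000000000) := T_3 (nat_lit 142) (nat_lit 141) (nat_lit 1) (nat_lit 9) (nat_lit 7) L568141 (by decide +kernel)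
theorem L568143 : W_3 (nat_lit 6) (nat_lit 0x4000000010001e0008000000000000000000000000000) (nat_lit 0x0) (nat_lit 0x8006600200003800100008000000000000000000) := T_3 (nat_lit 145) (nat_lit 146) (nat_lit 3) (nat_lit 6) (nat_lit 7) L568142 (by decide +kernel)
theorem L568144 : W_3 (nat_lit 7) (nat_lit 0x10001e0008000000000000000000000000000) (nat_lit 0x0) (nat_lit 0x400028006600200003800100008000000000000000000) := T_3 (nat_lit 178) (nat_lit 161) (nat_lit 6) (nat_lit 8) (nat_lit 10) L568143 (by decide +kernel)
theorem L568145 : W_3 (nat_lit 8) (nat_lit 0x10001c0008000000000000000000000000000) (nat_lit 0x0) (nat_lit 0x400028006600230007c00100008000000000000000000) := Q_3 (nat_lit 125) (C_3 L568091 (C_3 L568085 (C_3 L568144 N_3))) (by decide +kernel)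
theorem L568146 : W_3 (nat_lit 12) (nat_lit 0x1000180008000000000000000000000000000) (nat_lit 0x0) (nat_lit 0x14000a801e601e701f7c01980048002000000000000000) := Q_3 (nat_lit 126) (C_3 L568087 (C_3 L568092 (C_3 L568138 (C_3 L568145 N_3)))) (by decide +kernel)
theorem L568147 : W_3 (nat_lit 13) (nat_lit 0x1000180000000000000000000000000000000) (nat_lit 0x0) (nat_lit 0x14000a801e701e701ffc01d80068003000000000000000) := Q_3 (nat_lit 111) (C_3 L568080 (C_3 L527683 (C_3 L568088 (C_3 L568090 (C_3 L568146 N_3))))) (by decide +kernel)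
theorem L569833 : W_3 (nat_lit 2) (nat_lit 0x200010003e0001000000000000000000000000000) (nat_lit 0x0) (nat_lit 0x38000000000000000000000000000) := D_3 (nat_lit 112) (nat_lit 113) (nat_lit 111) (nat_lit 2) (nat_lit 7) (nat_lit 7) (nat_lit 2) (nat_lit 6) (nat_lit 7) (by decide +kernel)
theorem L569834 : W_3 (nat_lit 3) (nat_lit 0x200010003c0001000000000000000000000000000) (nat_lit 0x0) (nat_lit 0x20038800000000000000000000000000) := T_3 (nat_lit 125) (nat_lit 107) (nat_lit 0) (nat_lit 9) (nat_lit 7) L569833 (by decide +kernel)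
theorem L582734 : W_3 (nat_lit 2) (nat_lit 0x200010007c0000000400000000000000000000000) (nat_lit 0x0) (nat_lit 0x70000000000000000000000000000) := D_3 (nat_lit 113) (nat_lit 112) (nat_lit 114) (nat_lit 2) (nat_lit 7) (nat_lit 7) (nat_lit 2) (nat_lit 8) (nat_lit 7) (by decide +kernel)
theorem L586163 : W_3 (nat_lit 4) (nat_lit 0x200010003c0000000000000000000000000000000) (nat_lit 0x0) (nat_lit 0x2003b800000000000000000000000000) := T_3 (nat_lit 108) (nat_lit 109) (nat_lit 0) (nat_lit 10) (nat_lit 7) L569834 (by decide +kernel)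
theorem L586265 : W_3 (nat_lit 2) (nat_lit 0x2000d000780020000000000000000000000000000) (nat_lit 0x0) (nat_lit 0x80000000000000001000080000000000000000000) := D_3 (nat_lit 96) (nat_lit 79) (nat_lit 163) (nat_lit 5) (nat_lit 11) (nat_lit 4) (nat_lit 5) (nat_lit 11) (nat_lit 5) (by decide +kernel)
theorem L586266 : W_3 (nat_lit 3) (nat_lit 0x20009000780020000000000000000000000000000) (nat_lit 0x0) (nat_lit 0x80004000040000001000080000000000000000000) := T_3 (nat_lit 146) (nat_lit 126) (nat_lit 3) (nat_lit 7) (nat_lit 7) L586265 (by decide +kernel)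
theorem L586267 : W_3 (nat_lit 4) (nat_lit 0x20001000780020000000000000000000000000000) (nat_lit 0x0) (nat_lit 0x8001c000040000001000080000000000000000000) := T_3 (nat_lit 147) (nat_lit 148) (nat_lit 3) (nat_lit 8) (nat_lit 7) L586266 (by decide +kernel)
theorem L586268 : W_3 (nat_lit 5) (nat_lit 0x20001000380020000000000000000000000000000) (nat_lit 0x0) (nat_lit 0x8001c000440040001000080000000000000000000) := T_3 (nat_lit 130) (nat_lit 114) (nat_lit 2) (nat_lit 8) (nat_lit 7) L586267 (by decide +kernel)
theorem L586269 : W_3 (nat_lit 2) (nat_lit 0x20001000380060000000000000000000000000000) (nat_lit 0x0) (nat_lit 0x98000000000000000000000000000) := D_3 (nat_lit 112) (nat_lit 115) (nat_lit 111) (nat_lit 1) (nat_lit 13) (nat_lit 6) (nat_lit 1) (nat_lit 12) (nat_lit 6) (by decide +kernel)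
theorem L586270 : W_3 (nat_lit 3) (nat_lit 0x20001000380020000000000000000000000000000) (nat_lit 0x0) (nat_lit 0x4000d8000000000000000000000000000) := T_3 (nat_lit 114) (nat_lit 130) (nat_lit 2) (nat_lit 8) (nat_lit 7) L586269 (by decide +kernel)
theorem L586271 : W_3 (nat_lit 2) (nat_lit 0x20001000380030000000000000000000000000000) (nat_lit 0x0) (nat_lit 0xc8000000000000000000000000000) := D_3 (nat_lit 114) (nat_lit 115) (nat_lit 111) (nat_lit 1) (nat_lit 13) (nat_lit 6) (nat_lit 1) (nat_lit 12) (nat_lit 6) (by decide +kernel)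
theorem L586272 : W_3 (nat_lit 3) (nat_lit 0x20001000380020000000000000000000000000000) (nat_lit 0x0) (nat_lit 0x400d8000000000000000000000000000) := T_3 (nat_lit 112) (nat_lit 126) (nat_lit 2) (nat_lit 7) (nat_lit 7) L586271 (by decide +kernel)
theorem L586273 : W_3 (nat_lit 2) (nat_lit 0x20005000380020000000000000000000000000000) (nat_lit 0x0) (nat_lit 0x8000040010000000000000000000000000000) := D_3 (nat_lit 126) (nat_lit 112) (nat_lit 147) (nat_lit 2) (nat_lit 7) (nat_lit 7) (nat_lit 3) (nat_lit 7) (nat_lit 7) (by decide +kernel)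
theorem L586274 : W_3 (nat_lit 2) (nat_lit 0xa0005000380030000000000000000000000000000) (nat_lit 0x0) (nat_lit 0x1000000000000400008000000000000000000000000000) := D_3 (nat_lit 180) (nat_lit 111) (nat_lit 130) (nat_lit 4) (nat_lit 10) (nat_lit 10) (nat_lit 6) (nat_lit 10) (nat_lit 10) (by decide +kernel)
theorem L586275 : W_3 (nat_lit 3) (nat_lit 0x20005000380030000000000000000000000000000) (nat_lit 0x0) (nat_lit 0x1000080000000400008001000000000000000000000000) := T_3 (nat_lit 163) (nat_lit 96) (nat_lit 6) (nat_lit 10) (nat_lit 9) L586274 (by decide +kernel)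
theorem L586276 : W_3 (nat_lit 4) (nat_lit 0x20005000380020000000000000000000000000000) (nat_lit 0x0) (nat_lit 0x1000080000000440018001000000000000000000000000) := T_3 (nat_lit 112) (nat_lit 126) (nat_lit 2) (nat_lit 7) (nat_lit 7) L586275 (by decide +kernel)
theorem L586277 : W_3 (nat_lit 2) (nat_lit 0xa0005000380020000000000000000000000000000) (nat_lit 0x0) (nat_lit 0x1000000000000400008000000000000000000000000000) := D_3 (nat_lit 180) (nat_lit 111) (nat_lit 130) (nat_lit 4) (nat_lit 10) (nat_lit 10) (nat_lit 6) (nat_lit 10) (nat_lit 10) (by decide +kernel)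
theorem L586278 : W_3 (nat_lit 2) (nat_lit 0x38000a0005000380020000000000000000000000000000) (nat_lit 0x0) (nat_lit 0x100000000000010001000000000000000000000000) := D_3 (nat_lit 112) (nat_lit 164) (nat_lit 96) (nat_lit 7) (nat_lit 10) (nat_lit 6) (nat_lit 6) (nat_lit 10) (nat_lit 9) (by decide +kernel)
theorem L586279 : W_3 (nat_lit 3) (nat_lit 0x18000a0005000380020000000000000000000000000000) (nat_lit 0x0) (nat_lit 0x40002000100000000000010001000000000000000000000000) := T_3 (nat_lit 181) (nat_lit 198) (nat_lit 7) (nat_lit 10) (nat_lit 7) L586278 (by decide +kernel)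
theorem L586280 : W_3 (nat_lit 4) (nat_lit 0x10000a0005000380020000000000000000000000000000) (nat_lit 0x0) (nat_lit 0x50002800100000000000010001000000000000000000000000) := T_3 (nat_lit 179) (nat_lit 196) (nat_lit 5) (nat_lit 10) (nat_lit 7) L586279 (by decide +kernel)
theorem L586281 : W_3 (nat_lit 5) (nat_lit 0xa0005000380020000000000000000000000000000) (nat_lit 0x0) (nat_lit 0x50003800100000000400010001000000000000000000000000) := T_3 (nat_lit 180) (nat_lit 130) (nat_lit 6) (nat_lit 10) (nat_lit 10) L586280 (by decide +kernel)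
theorem L586282 : W_3 (nat_lit 2) (nat_lit 0xa0005000380030000000000000000000000000000) (nat_lit 0x0) (nat_lit 0x1000000000000000008000400000000000000000000000) := D_3 (nat_lit 111) (nat_lit 94) (nat_lit 180) (nat_lit 4) (nat_lit 10) (nat_lit 9) (nat_lit 4) (nat_lit 10) (nat_lit 10) (by decide +kernel)
theorem L586283 : W_3 (nat_lit 3) (nat_lit 0xa0005000380020000000000000000000000000000) (nat_lit 0x0) (nat_lit 0x1000000000000000018001400000000000000000000000) := T_3 (nat_lit 112) (nat_lit 96) (nat_lit 6) (nat_lit 10) (nat_lit 9) L586282 (by decide +kernel)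
theorem L586284 : W_3 (nat_lit 2) (nat_lit 0x1a000d000380038000000000000000000000000000) (nat_lit 0x0) (nat_lit 0x30000400000000000000000000000000000000) := D_3 (nat_lit 148) (nat_lit 130) (nat_lit 149) (nat_lit 3) (nat_lit 8) (nat_lit 7) (nat_lit 0) (nat_lit 13) (nat_lit 8) (by decide +kernel)
theorem L586285 : W_3 (nat_lit 3) (nat_lit 0x1a0005000380038000000000000000000000000000) (nat_lit 0x0) (nat_lit 0x38000400000000800000000000000000000000) := T_3 (nat_lit 147) (nat_lit 95) (nat_lit 7) (nat_lit 10) (nat_lit 5) L586284 (by decide +kernel)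
theorem L586286 : W_3 (nat_lit 4) (nat_lit 0xa0005000380038000000000000000000000000000) (nat_lit 0x0) (nat_lit 0x2000100038000400000000800000000000000000000000) := T_3 (nat_lit 164) (nat_lit 181) (nat_lit 7) (nat_lit 10) (nat_lit 6) L586285 (by decide +kernel)
theorem L586287 : W_3 (nat_lit 5) (nat_lit 0xa0005000380030000000000000000000000000000) (nat_lit 0x0) (nat_lit 0x2000100038000400008000c00000000000000000000000) := T_3 (nat_lit 111) (nat_lit 94) (nat_lit 4) (nat_lit 10) (nat_lit 9) L586286 (by decide +kernel)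
theorem L586288 : W_3 (nat_lit 6) (nat_lit 0xa0005000380020000000000000000000000000000) (nat_lit 0x0) (nat_lit 0x2000100038000400018001c00000000000000000000000) := T_3 (nat_lit 112) (nat_lit 96) (nat_lit 6) (nat_lit 10) (nat_lit 9) L586287 (by decide +kernel)
theorem L586289 : W_3 (nat_lit 7) (nat_lit 0x20005000380020000000000000000000000000000) (nat_lit 0x0) (nat_lit 0x50003800180038000400018001c00000000000000000000000) := Q_3 (nat_lit 163) (C_3 L586277 (C_3 L586281 (C_3 L586283 (C_3 L586288 N_3)))) (by decide +kernel)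
theorem L586290 : W_3 (nat_lit 2) (nat_lit 0x2000d000380020000000000000000000000000000) (nat_lit 0x0) (nat_lit 0x30000400000000000000000000000000000000) := D_3 (nat_lit 148) (nat_lit 149) (nat_lit 130) (nat_lit 0) (nat_lit 13) (nat_lit 8) (nat_lit 3) (nat_lit 8) (nat_lit 7) (by decide +kernel)
theorem L586291 : W_3 (nat_lit 3) (nat_lit 0x20005000380020000000000000000000000000000) (nat_lit 0x0) (nat_lit 0x38000440000000000000000000000000000000) := T_3 (nat_lit 147) (nat_lit 126) (nat_lit 3) (nat_lit 7) (nat_lit 7) L586290 (by decide +kernel)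
theorem L586292 : W_3 (nat_lit 8) (nat_lit 0x20001000380020000000000000000000000000000) (nat_lit 0x0) (nat_lit 0x5000380018003c000440018001c00000000000000000000000) := Q_3 (nat_lit 146) (C_3 L586273 (C_3 L586276 (C_3 L586289 (C_3 L586291 N_3)))) (by decide +kernel)
theorem L586293 : W_3 (nat_lit 9) (nat_lit 0x20001000380000000000000000000000000000000) (nat_lit 0x0) (nat_lit 0x5000380018003c0004400f8001c00080000000000000000000) := Q_3 (nat_lit 113) (C_3 L586268 (C_3 L586270 (C_3 L586272 (C_3 L586292 N_3)))) (by decide +kernel)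
theorem L586294 : W_3 (nat_lit 2) (nat_lit 0x20001000f80000000000000000000000000000000) (nat_lit 0x0) (nat_lit 0x38000000000000000000000000000000000000) := D_3 (nat_lit 148) (nat_lit 147) (nat_lit 149) (nat_lit 3) (nat_lit 8) (nat_lit 7) (nat_lit 3) (nat_lit 9) (nat_lit 7) (by decide +kernel)
theorem L586295 : W_3 (nat_lit 3) (nat_lit 0x20001000780000000000000000000000000000000) (nat_lit 0x0) (nat_lit 0x3a000800000000000000000000000000000000) := T_3 (nat_lit 131) (nat_lit 145) (nat_lit 1) (nat_lit 12) (nat_lit 7) L586294 (by decide +kernel)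
theorem L586296 : W_3 (nat_lit 2) (nat_lit 0x20001000f80000000000000000000000000000000) (nat_lit 0x0) (nat_lit 0xe0000000000000000000000000000) := D_3 (nat_lit 114) (nat_lit 113) (nat_lit 115) (nat_lit 2) (nat_lit 8) (nat_lit 7) (nat_lit 2) (nat_lit 9) (nat_lit 7) (by decide +kernel)
theorem L586297 : W_3 (nat_lit 3) (nat_lit 0x20001000780000000000000000000000000000000) (nat_lit 0x0) (nat_lit 0x20008000e0000000000000000000000000000) := T_3 (nat_lit 131) (nat_lit 145) (nat_lit 1) (nat_lit 12) (nat_lit 7) L586296 (by decide +kernel)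
theorem L586298 : W_3 (nat_lit 5) (nat_lit 0x20001000380000000000000000000000000000000) (nat_lit 0x0) (nat_lit 0x3e000c400f0000000000000000000000000000) := Q_3 (nat_lit 130) (C_3 L586295 (C_3 L557574 (C_3 L586297 (C_3 L557562 N_3)))) (by decide +kernel)
theorem L586299 : W_3 (nat_lit 3) (nat_lit 0x20005000780020000000000000000000000000000) (nat_lit 0x0) (nat_lit 0x80018000000000001000080000000000000000000) := T_3 (nat_lit 147) (nat_lit 148) (nat_lit 3) (nat_lit 8) (nat_lit 7) L586265 (by decide +kernel)
theorem L586300 : W_3 (nat_lit 4) (nat_lit 0x20005000780000000000000000000000000000000) (nat_lit 0x0) (nat_lit 0x80018000000060001000080000000000000000000) := T_3 (nat_lit 113) (nat_lit 114) (nat_lit 2) (nat_lit 8) (nat_lit 7) L586299 (by decide +kernel)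
theorem L586301 : W_3 (nat_lit 2) (nat_lit 0x20005000780020001000000000000000000000000) (nat_lit 0x0) (nat_lit 0x1000080000000000010000000000000000000000000000) := D_3 (nat_lit 163) (nat_lit 180) (nat_lit 112) (nat_lit 6) (nat_lit 10) (nat_lit 10) (nat_lit 6) (nat_lit 10) (nat_lit 9) (by decide +kernel)
theorem L586302 : W_3 (nat_lit 3) (nat_lit 0x20005000780020000000000000000000000000000) (nat_lit 0x0) (nat_lit 0x1000080000000000010001000080000000000000000000) := T_3 (nat_lit 96) (nat_lit 79) (nat_lit 5) (nat_lit 11) (nat_lit 4) L586301 (by decide +kernel)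
theorem L586303 : W_3 (nat_lit 4) (nat_lit 0x20005000780000000000000000000000000000000) (nat_lit 0x0) (nat_lit 0x1000080000000000070001000080000000000000000000) := T_3 (nat_lit 113) (nat_lit 114) (nat_lit 2) (nat_lit 8) (nat_lit 7) L586302 (by decide +kernel)
theorem L586304 : W_3 (nat_lit 2) (nat_lit 0x12000f000780000000000000000000000000000000) (nat_lit 0x0) (nat_lit 0x40002000000000000000010000000000000000000000000000) := D_3 (nat_lit 181) (nat_lit 112) (nat_lit 198) (nat_lit 4) (nat_lit 11) (nat_lit 10) (nat_lit 4) (nat_lit 11) (nat_lit 11) (by decide +kernel)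
theorem L586305 : W_3 (nat_lit 3) (nat_lit 0x2000f000780000000000000000000000000000000) (nat_lit 0x0) (nat_lit 0x40002000300000000000010000000000000000000000000000) := T_3 (nat_lit 164) (nat_lit 165) (nat_lit 3) (nat_lit 8) (nat_lit 8) L586304 (by decide +kernel)
theorem L586306 : W_3 (nat_lit 4) (nat_lit 0x2000d000780000000000000000000000000000000) (nat_lit 0x0) (nat_lit 0x40002000310002000000010000000000000000000000000000) := T_3 (nat_lit 145) (nat_lit 160) (nat_lit 1) (nat_lit 11) (nat_lit 8) L586305 (by decide +kernel)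
theorem L586307 : W_3 (nat_lit 5) (nat_lit 0x20005000780000000000000000000000000000000) (nat_lit 0x0) (nat_lit 0x4000200031001a000000010000000000000000000000000000) := T_3 (nat_lit 147) (nat_lit 148) (nat_lit 3) (nat_lit 8) (nat_lit 7) L586306 (by decide +kernel)
theorem L586308 : W_3 (nat_lit 6) (nat_lit 0x20001000780000000000000000000000000000000) (nat_lit 0x0) (nat_lit 0x4000300039001e000000070001000080000000000000000000) := Q_3 (nat_lit 146) (C_3 L586300 (C_3 L586303 (C_3 L586307 N_3))) (by decide +kernel)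
theorem L586309 : W_3 (nat_lit 7) (nat_lit 0x20001000380000000000000000000000000000000) (nat_lit 0x0) (nat_lit 0x4000300039003e000c000f0001000080000000000000000000) := Q_3 (nat_lit 130) (C_3 L586295 (C_3 L586297 (C_3 L557574 (C_3 L586308 N_3)))) (by decide +kernel)
theorem L586310 : W_3 (nat_lit 2) (nat_lit 0x200092007e0021000000000000000000000000000) (nat_lit 0x0) (nat_lit 0x2100010000000000000000000000000000000) := D_3 (nat_lit 124) (nat_lit 145) (nat_lit 140) (nat_lit 3) (nat_lit 5) (nat_lit 7) (nat_lit 1) (nat_lit 8) (nat_lit 7) (by decide +kernel)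
theorem L586311 : W_3 (nat_lit 3) (nat_lit 0x200090007e0021000000000000000000000000000) (nat_lit 0x0) (nat_lit 0x2700010000000000000000000000000000000) := T_3 (nat_lit 141) (nat_lit 142) (nat_lit 1) (nat_lit 9) (nat_lit 7) L586310 (by decide +kernel)
theorem L586312 : W_3 (nat_lit 4) (nat_lit 0x200090007c0021000000000000000000000000000) (nat_lit 0x0) (nat_lit 0x2700030000800000000000000000000000000) := T_3 (nat_lit 125) (nat_lit 107) (nat_lit 0) (nat_lit 9) (nat_lit 7) L586311 (by decide +kernel)
theorem L586313 : W_3 (nat_lit 5) (nat_lit 0x200010007c0021000000000000000000000000000) (nat_lit 0x0) (nat_lit 0x1a700030000800000000000000000000000000) := T_3 (nat_lit 147) (nat_lit 148) (nat_lit 3) (nat_lit 8) (nat_lit 7) L586312 (by decide +kernel)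
theorem L586314 : W_3 (nat_lit 6) (nat_lit 0x200010007c0020000000000000000000000000000) (nat_lit 0x0) (nat_lit 0x1a700030003800000000000000000000000000) := T_3 (nat_lit 108) (nat_lit 109) (nat_lit 0) (nat_lit 10) (nat_lit 7) L586313 (by decide +kernel)
theorem L586315 : W_3 (nat_lit 7) (nat_lit 0x20001000780020000000000000000000000000000) (nat_lit 0x0) (nat_lit 0x1a700070013800000000000000000000000000) := T_3 (nat_lit 126) (nat_lit 112) (nat_lit 2) (nat_lit 7) (nat_lit 7) L586314 (by decide +kernel)
theorem L586316 : W_3 (nat_lit 8) (nat_lit 0x20001000780000000000000000000000000000000) (nat_lit 0x0) (nat_lit 0x1a700070073800000000000000000000000000) := T_3 (nat_lit 113) (nat_lit 114) (nat_lit 2) (nat_lit 8) (nat_lit 7) L586315 (by decide +kernel)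
theorem L586317 : W_3 (nat_lit 9) (nat_lit 0x20001000380000000000000000000000000000000) (nat_lit 0x0) (nat_lit 0x3a700c700f3800000000000000000000000000) := Q_3 (nat_lit 130) (C_3 L586295 (C_3 L586297 (C_3 L557574 (C_3 L586316 N_3)))) (by decide +kernel)
theorem L586318 : W_3 (nat_lit 2) (nat_lit 0x200050003c0001000000000000000000000000000) (nat_lit 0x0) (nat_lit 0x2000020000800000000000000000000000000) := D_3 (nat_lit 125) (nat_lit 145) (nat_lit 107) (nat_lit 3) (nat_lit 6) (nat_lit 7) (nat_lit 0) (nat_lit 9) (nat_lit 7) (by decide +kernel)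
theorem L586319 : W_3 (nat_lit 3) (nat_lit 0x200010003c0001000000000000000000000000000) (nat_lit 0x0) (nat_lit 0xe000020000800000000000000000000000000) := T_3 (nat_lit 146) (nat_lit 147) (nat_lit 3) (nat_lit 7) (nat_lit 7) L586318 (by decide +kernel)
theorem L586320 : W_3 (nat_lit 4) (nat_lit 0x200010003c0000000000000000000000000000000) (nat_lit 0x0) (nat_lit 0xe000020003800000000000000000000000000) := T_3 (nat_lit 108) (nat_lit 109) (nat_lit 0) (nat_lit 10) (nat_lit 7) L586319 (by decide +kernel)
theorem L586350 : W_3 (nat_lit 3) (nat_lit 0x200050003c0000000000000000000000000000000) (nat_lit 0x0) (nat_lit 0x2000020038000000000000000000000000000) := T_3 (nat_lit 125) (nat_lit 145) (nat_lit 3) (nat_lit 6) (nat_lit 7) L339984 (by decide +kernel)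
theorem L586351 : W_3 (nat_lit 4) (nat_lit 0x200010003c0000000000000000000000000000000) (nat_lit 0x0) (nat_lit 0xe000020038000000000000000000000000000) := T_3 (nat_lit 146) (nat_lit 147) (nat_lit 3) (nat_lit 7) (nat_lit 7) L586350 (by decide +kernel)
theorem L586352 : W_3 (nat_lit 10) (nat_lit 0x20001000380000000000000000000000000000000) (nat_lit 0x0) (nat_lit 0x100008000e00006003b803d000fc004000000000000000) := Q_3 (nat_lit 126) (C_3 L586320 (C_3 L586163 (C_3 L586349 (C_3 L586351 N_3)))) (by decide +kernel)
theorem L586353 : W_3 (nat_lit 5) (nat_lit 0x20001000780000000000000000000000000000000) (nat_lit 0x0) (nat_lit 0x8001c000040060001000080000000000000000000) := T_3 (nat_lit 113) (nat_lit 114) (nat_lit 2) (nat_lit 8) (nat_lit 7) L586267 (by decide +kernel)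
theorem L586354 : W_3 (nat_lit 6) (nat_lit 0x20001000380000000000000000000000000000000) (nat_lit 0x0) (nat_lit 0x8003e000c400e0001000080000000000000000000) := Q_3 (nat_lit 130) (C_3 L586295 (C_3 L586297 (C_3 L557574 (C_3 L586353 N_3)))) (by decide +kernel)
theorem L586355 : W_3 (nat_lit 2) (nat_lit 0x200010003e0001000000000000000000000000000) (nat_lit 0x0) (nat_lit 0x6000010000000000000000000000000000000) := D_3 (nat_lit 145) (nat_lit 124) (nat_lit 146) (nat_lit 3) (nat_lit 5) (nat_lit 7) (nat_lit 3) (nat_lit 6) (nat_lit 7) (by decide +kernel)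
theorem L586356 : W_3 (nat_lit 3) (nat_lit 0x200010003c0001000000000000000000000000000) (nat_lit 0x0) (nat_lit 0x6000030000800000000000000000000000000) := T_3 (nat_lit 125) (nat_lit 107) (nat_lit 0) (nat_lit 9) (nat_lit 7) L586355 (by decide +kernel)
theorem L586357 : W_3 (nat_lit 4) (nat_lit 0x200010003c0000000000000000000000000000000) (nat_lit 0x0) (nat_lit 0x6000030003800000000000000000000000000) := T_3 (nat_lit 108) (nat_lit 109) (nat_lit 0) (nat_lit 10) (nat_lit 7) L586356 (by decide +kernel)
theorem L586358 : W_3 (nat_lit 2) (nat_lit 0x200010007c0008000000000000000000000000000) (nat_lit 0x0) (nat_lit 0x70000000000000000000000000000) := D_3 (nat_lit 113) (nat_lit 112) (nat_lit 114) (nat_lit 2) (nat_lit 7) (nat_lit 7) (nat_lit 2) (nat_lit 8) (nat_lit 7) (by decide +kernel)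
theorem L586359 : W_3 (nat_lit 2) (nat_lit 0x20001000fc000a000000000000000000000000000) (nat_lit 0x0) (nat_lit 0xe0000000000000000000000000000) := D_3 (nat_lit 114) (nat_lit 113) (nat_lit 115) (nat_lit 2) (nat_lit 8) (nat_lit 7) (nat_lit 2) (nat_lit 9) (nat_lit 7) (by decide +kernel)
theorem L586360 : W_3 (nat_lit 3) (nat_lit 0x200010007c000a000000000000000000000000000) (nat_lit 0x0) (nat_lit 0x20008000e0000000000000000000000000000) := T_3 (nat_lit 131) (nat_lit 145) (nat_lit 1) (nat_lit 12) (nat_lit 7) L586359 (by decide +kernel)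
theorem L586361 : W_3 (nat_lit 4) (nat_lit 0x200010007c0008000000000000000000000000000) (nat_lit 0x0) (nat_lit 0x20008000e3000000000000000000000000000) := T_3 (nat_lit 109) (nat_lit 108) (nat_lit 0) (nat_lit 10) (nat_lit 7) L586360 (by decide +kernel)
theorem L586362 : W_3 (nat_lit 2) (nat_lit 0x20001001fc000a000000000000000000000000000) (nat_lit 0x0) (nat_lit 0x70000000000000000000000000000000000000) := D_3 (nat_lit 149) (nat_lit 148) (nat_lit 150) (nat_lit 3) (nat_lit 9) (nat_lit 7) (nat_lit 3) (nat_lit 10) (nat_lit 7) (by decide +kernel)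
theorem L586363 : W_3 (nat_lit 3) (nat_lit 0x20001000fc000a000000000000000000000000000) (nat_lit 0x0) (nat_lit 0x70001000010000000000000000000000000000) := T_3 (nat_lit 132) (nat_lit 112) (nat_lit 0) (nat_lit 13) (nat_lit 7) L586362 (by decide +kernel)
theorem L586364 : W_3 (nat_lit 4) (nat_lit 0x200010007c000a000000000000000000000000000) (nat_lit 0x0) (nat_lit 0x72001800010000000000000000000000000000) := T_3 (nat_lit 131) (nat_lit 145) (nat_lit 1) (nat_lit 12) (nat_lit 7) L586363 (by decide +kernel)
theorem L586365 : W_3 (nat_lit 5) (nat_lit 0x200010007c0008000000000000000000000000000) (nat_lit 0x0) (nat_lit 0x72001800013000000000000000000000000000) := T_3 (nat_lit 109) (nat_lit 108) (nat_lit 0) (nat_lit 10) (nat_lit 7) L586364 (by decide +kernel)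
theorem L586366 : W_3 (nat_lit 6) (nat_lit 0x200010003c0008000000000000000000000000000) (nat_lit 0x0) (nat_lit 0x72001c000f3000000000000000000000000000) := Q_3 (nat_lit 130) (C_3 L586358 (C_3 L586361 (C_3 L586365 N_3))) (by decide +kernel)
theorem L586379 : W_3 (nat_lit 2) (nat_lit 0x200010003c0012000c00028000000000000000000) (nat_lit 0x0) (nat_lit 0x40001000080000000000) := D_3 (nat_lit 60) (nat_lit 78) (nat_lit 43) (nat_lit 4) (nat_lit 10) (nat_lit 7) (nat_lit 7) (nat_lit 9) (nat_lit 2) (by decide +kernel)
theorem L586380 : W_3 (nat_lit 3) (nat_lit 0x200010003c0012000400028000000000000000000) (nat_lit 0x0) (nat_lit 0x4000000000000800040001000080000000000) := T_3 (nat_lit 95) (nat_lit 146) (nat_lit 4) (nat_lit 10) (nat_lit 8) L586379 (by decide +kernel)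
theorem L586381 : W_3 (nat_lit 4) (nat_lit 0x200010003c0002000400028000000000000000000) (nat_lit 0x0) (nat_lit 0x4000000030000800040001000080000000000) := T_3 (nat_lit 112) (nat_lit 113) (nat_lit 2) (nat_lit 7) (nat_lit 7) L586380 (by decide +kernel)
theorem L586382 : W_3 (nat_lit 5) (nat_lit 0x200010003c0002000400020000000000000000000) (nat_lit 0x0) (nat_lit 0x4000000030000900048001000080000000000) := T_3 (nat_lit 75) (nat_lit 92) (nat_lit 7) (nat_lit 7) (nat_lit 4) L586381 (by decide +kernel)
theorem L586383 : W_3 (nat_lit 6) (nat_lit 0x200010003c0002000400000000000000000000000) (nat_lit 0x0) (nat_lit 0x4000000038000900068001000080000000000) := T_3 (nat_lit 77) (nat_lit 111) (nat_lit 5) (nat_lit 9) (nat_lit 4) L586382 (by decide +kernel)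
theorem L586384 : W_3 (nat_lit 7) (nat_lit 0x200010003c0000000400000000000000000000000) (nat_lit 0x0) (nat_lit 0x400000003b000900068001000080000000000) := T_3 (nat_lit 109) (nat_lit 108) (nat_lit 0) (nat_lit 10) (nat_lit 7) L586383 (by decide +kernel)
theorem L586385 : W_3 (nat_lit 2) (nat_lit 0x200010007c0040000400000000000000000000000) (nat_lit 0x0) (nat_lit 0x2000800080000000000000000000000000000) := D_3 (nat_lit 131) (nat_lit 145) (nat_lit 115) (nat_lit 1) (nat_lit 12) (nat_lit 7) (nat_lit 2) (nat_lit 9) (nat_lit 7) (by decide +kernel)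
theorem L586386 : W_3 (nat_lit 3) (nat_lit 0x200010007c0000000400000000000000000000000) (nat_lit 0x0) (nat_lit 0x20008000e0000000000000000000000000000) := T_3 (nat_lit 114) (nat_lit 113) (nat_lit 2) (nat_lit 8) (nat_lit 7) L586385 (by decide +kernel)
theorem L586387 : W_3 (nat_lit 2) (nat_lit 0x20021001fc0002000400008000000000000000000) (nat_lit 0x0) (nat_lit 0x1c0000000000000000000000000000) := D_3 (nat_lit 115) (nat_lit 116) (nat_lit 114) (nat_lit 2) (nat_lit 10) (nat_lit 7) (nat_lit 2) (nat_lit 9) (nat_lit 7) (by decide +kernel)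
theorem L586388 : W_3 (nat_lit 3) (nat_lit 0x20021000fc0002000400008000000000000000000) (nat_lit 0x0) (nat_lit 0x400010001c0000000000000000000000000000) := T_3 (nat_lit 132) (nat_lit 150) (nat_lit 3) (nat_lit 10) (nat_lit 7) L586387 (by decide +kernel)
theorem L586389 : W_3 (nat_lit 4) (nat_lit 0x20021000fc0002000400000000000000000000000) (nat_lit 0x0) (nat_lit 0x400010001c0000100008000000000000000000) := T_3 (nat_lit 75) (nat_lit 92) (nat_lit 7) (nat_lit 7) (nat_lit 4) L586388 (by decide +kernel)
theorem L586390 : W_3 (nat_lit 5) (nat_lit 0x20001000fc0002000400000000000000000000000) (nat_lit 0x0) (nat_lit 0x700010001c0000100008000000000000000000) := T_3 (nat_lit 149) (nat_lit 148) (nat_lit 3) (nat_lit 9) (nat_lit 7) L586389 (by decide +kernel)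
theorem L586391 : W_3 (nat_lit 6) (nat_lit 0x20001000fc0000000400000000000000000000000) (nat_lit 0x0) (nat_lit 0x700010001c3000100008000000000000000000) := T_3 (nat_lit 109) (nat_lit 108) (nat_lit 0) (nat_lit 10) (nat_lit 7) L586390 (by decide +kernel)
theorem L586392 : W_3 (nat_lit 7) (nat_lit 0x200010007c0000000400000000000000000000000) (nat_lit 0x0) (nat_lit 0x720018001c3000100008000000000000000000) := T_3 (nat_lit 131) (nat_lit 145) (nat_lit 1) (nat_lit 12) (nat_lit 7) L586391 (by decide +kernel)
theorem L586393 : W_3 (nat_lit 2) (nat_lit 0x200030007c0012000c00038000000000000000000) (nat_lit 0x0) (nat_lit 0x3200000000000000000000000) := D_3 (nat_lit 96) (nat_lit 97) (nat_lit 93) (nat_lit 0) (nat_lit 12) (nat_lit 5) (nat_lit 0) (nat_lit 11) (nat_lit 5) (by decide +kernel)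
theorem L586394 : W_3 (nat_lit 3) (nat_lit 0x200030007c0012000c00028000000000000000000) (nat_lit 0x0) (nat_lit 0x3200014000000000000000000) := T_3 (nat_lit 76) (nat_lit 74) (nat_lit 3) (nat_lit 6) (nat_lit 4) L586393 (by decide +kernel)
theorem L586395 : W_3 (nat_lit 4) (nat_lit 0x200030007c0012000c00008000000000000000000) (nat_lit 0x0) (nat_lit 0x4000000000003200034000000000000000000) := T_3 (nat_lit 77) (nat_lit 146) (nat_lit 4) (nat_lit 10) (nat_lit 8) L586394 (by decide +kernel)
theorem L586396 : W_3 (nat_lit 5) (nat_lit 0x200030007c0012000c00000000000000000000000) (nat_lit 0x0) (nat_lit 0x400000000000330003c000000000000000000) := T_3 (nat_lit 75) (nat_lit 92) (nat_lit 7) (nat_lit 7) (nat_lit 4) L586395 (by decide +kernel)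
theorem L586397 : W_3 (nat_lit 6) (nat_lit 0x200030007c0012000400000000000000000000000) (nat_lit 0x0) (nat_lit 0x4000000000003b0007c000000000000000000) := T_3 (nat_lit 95) (nat_lit 78) (nat_lit 5) (nat_lit 10) (nat_lit 4) L586396 (by decide +kernel)
theorem L586398 : W_3 (nat_lit 7) (nat_lit 0x200030007c0010000400000000000000000000000) (nat_lit 0x0) (nat_lit 0x4000000003003b0007c000000000000000000) := T_3 (nat_lit 109) (nat_lit 108) (nat_lit 0) (nat_lit 10) (nat_lit 7) L586397 (by decide +kernel)
theorem L586399 : W_3 (nat_lit 8) (nat_lit 0x200030007c0000000400000000000000000000000) (nat_lit 0x0) (nat_lit 0x4000000033003b0007c000000000000000000) := T_3 (nat_lit 112) (nat_lit 113) (nat_lit 2) (nat_lit 7) (nat_lit 7) L586398 (by decide +kernel)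
theorem L586400 : W_3 (nat_lit 9) (nat_lit 0x200010007c0000000400000000000000000000000) (nat_lit 0x0) (nat_lit 0x6000800033003b0007c000000000000000000) := T_3 (nat_lit 145) (nat_lit 131) (nat_lit 1) (nat_lit 12) (nat_lit 7) L586399 (by decide +kernel)
theorem L586401 : W_3 (nat_lit 10) (nat_lit 0x200010003c0000000400000000000000000000000) (nat_lit 0x0) (nat_lit 0x76001c001f3003b0007c000000000000000000) := Q_3 (nat_lit 130) (C_3 L586386 (C_3 L582734 (C_3 L586392 (C_3 L586400 N_3)))) (by decide +kernel)
theorem L586402 : W_3 (nat_lit 2) (nat_lit 0x200030007c0002000400008000000000000000000) (nat_lit 0x0) (nat_lit 0x70000000000000000000000000000) := D_3 (nat_lit 113) (nat_lit 112) (nat_lit 114) (nat_lit 2) (nat_lit 7) (nat_lit 7) (nat_lit 2) (nat_lit 8) (nat_lit 7) (by decide +kernel)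
theorem L586403 : W_3 (nat_lit 3) (nat_lit 0x200030003c0002000400008000000000000000000) (nat_lit 0x0) (nat_lit 0xc00070000000000000000000000000000) := T_3 (nat_lit 130) (nat_lit 131) (nat_lit 1) (nat_lit 12) (nat_lit 7) L586402 (by decide +kernel)
theorem L586404 : W_3 (nat_lit 4) (nat_lit 0x200030003c0002000400000000000000000000000) (nat_lit 0x0) (nat_lit 0xc00070000100008000000000000000000) := T_3 (nat_lit 75) (nat_lit 92) (nat_lit 7) (nat_lit 7) (nat_lit 4) L586403 (by decide +kernel)
theorem L586405 : W_3 (nat_lit 5) (nat_lit 0x200010003c0002000400000000000000000000000) (nat_lit 0x0) (nat_lit 0x2000c00078000100008000000000000000000) := T_3 (nat_lit 145) (nat_lit 111) (nat_lit 5) (nat_lit 9) (nat_lit 5) L586404 (by decide +kernel)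
theorem L586406 : W_3 (nat_lit 6) (nat_lit 0x200010003c0000000400000000000000000000000) (nat_lit 0x0) (nat_lit 0x2000c0007b000100008000000000000000000) := T_3 (nat_lit 109) (nat_lit 108) (nat_lit 0) (nat_lit 10) (nat_lit 7) L586405 (by decide +kernel)
theorem L586407 : W_3 (nat_lit 11) (nat_lit 0x200010003c0000000000000000000000000000000) (nat_lit 0x0) (nat_lit 0x76001c001fb003f0007c001000080000000000) := Q_3 (nat_lit 94) (C_3 L586384 (C_3 L586401 (C_3 L586337 (C_3 L586406 N_3)))) (by decide +kernel)
theorem L586408 : W_3 (nat_lit 4) (nat_lit 0x200010003c0010000000000000000000000000000) (nat_lit 0x0) (nat_lit 0x2700030008000000000000000000000000000) := T_3 (nat_lit 125) (nat_lit 111) (nat_lit 2) (nat_lit 6) (nat_lit 7) L504793 (by decide +kernel)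
theorem L586409 : W_3 (nat_lit 5) (nat_lit 0x200010003c0000000000000000000000000000000) (nat_lit 0x0) (nat_lit 0x2700030038000000000000000000000000000) := T_3 (nat_lit 112) (nat_lit 113) (nat_lit 2) (nat_lit 7) (nat_lit 7) L586408 (by decide +kernel)
theorem L586410 : W_3 (nat_lit 12) (nat_lit 0x20001000380000000000000000000000000000000) (nat_lit 0x0) (nat_lit 0x76701c701fb803f0007c001000080000000000) := Q_3 (nat_lit 126) (C_3 L586357 (C_3 L586163 (C_3 L586407 (C_3 L586409 N_3)))) (by decide +kernel)
theorem L586411 : W_3 (nat_lit 2) (nat_lit 0x20001000380008000000000000000000000000000) (nat_lit 0x0) (nat_lit 0x2000000000000400020000000000000000000) := D_3 (nat_lit 94) (nat_lit 77) (nat_lit 145) (nat_lit 5) (nat_lit 9) (nat_lit 4) (nat_lit 5) (nat_lit 9) (nat_lit 5) (by decide +kernel)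
theorem L586412 : W_3 (nat_lit 2) (nat_lit 0x200050003e0008000000000000000000000000000) (nat_lit 0x0) (nat_lit 0x3800000000000000000000000000) := D_3 (nat_lit 108) (nat_lit 109) (nat_lit 107) (nat_lit 0) (nat_lit 10) (nat_lit 7) (nat_lit 0) (nat_lit 9) (nat_lit 7) (by decide +kernel)
theorem L586413 : W_3 (nat_lit 3) (nat_lit 0x200050003c0008000000000000000000000000000) (nat_lit 0x0) (nat_lit 0x20013800000000000000000000000000) := T_3 (nat_lit 125) (nat_lit 112) (nat_lit 2) (nat_lit 6) (nat_lit 7) L586412 (by decide +kernel)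
theorem L586415 : W_3 (nat_lit 3) (nat_lit 0x200010003c0008000000000000000000000000000) (nat_lit 0x0) (nat_lit 0x20013800000000000000000000000000) := T_3 (nat_lit 125) (nat_lit 112) (nat_lit 2) (nat_lit 6) (nat_lit 7) L531295 (by decide +kernel)
theorem L586417 : W_3 (nat_lit 2) (nat_lit 0x100002000d000380008000000020000000000000000000) (nat_lit 0x0) (nat_lit 0x30000400000000000000000000000000000000) := D_3 (nat_lit 148) (nat_lit 149) (nat_lit 130) (nat_lit 0) (nat_lit 13) (nat_lit 8) (nat_lit 3) (nat_lit 8) (nat_lit 7) (by decide +kernel)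
theorem L586418 : W_3 (nat_lit 3) (nat_lit 0x1000020005000380008000000020000000000000000000) (nat_lit 0x0) (nat_lit 0x38000440000000000000000000000000000000) := T_3 (nat_lit 147) (nat_lit 126) (nat_lit 3) (nat_lit 7) (nat_lit 7) L586417 (by decide +kernel)
theorem L586419 : W_3 (nat_lit 4) (nat_lit 0x20005000380008000000020000000000000000000) (nat_lit 0x0) (nat_lit 0x1000080038000440000000000000000000000000000000) := T_3 (nat_lit 180) (nat_lit 163) (nat_lit 4) (nat_lit 10) (nat_lit 10) L586418 (by decide +kernel)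
theorem L586420 : W_3 (nat_lit 5) (nat_lit 0x20005000380008000000000000000000000000000) (nat_lit 0x0) (nat_lit 0x1000080038000440000000400020000000000000000000) := T_3 (nat_lit 77) (nat_lit 94) (nat_lit 7) (nat_lit 9) (nat_lit 4) L586419 (by decide +kernel)
theorem L586421 : W_3 (nat_lit 2) (nat_lit 0x20005000380008000400000000000000000000000) (nat_lit 0x0) (nat_lit 0x1000080000000000010000000000000000000000000000) := D_3 (nat_lit 163) (nat_lit 180) (nat_lit 112) (nat_lit 4) (nat_lit 10) (nat_lit 10) (nat_lit 4) (nat_lit 10) (nat_lit 9) (by decide +kernel)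
theorem L586422 : W_3 (nat_lit 3) (nat_lit 0x20005000380008000000000000000000000000000) (nat_lit 0x0) (nat_lit 0x1000080000000000010000400020000000000000000000) := T_3 (nat_lit 94) (nat_lit 77) (nat_lit 7) (nat_lit 9) (nat_lit 4) L586421 (by decide +kernel)
theorem L586423 : W_3 (nat_lit 2) (nat_lit 0x10000200050003e0008000000000000000000000000000) (nat_lit 0x0) (nat_lit 0x3800000000000000000000000000) := D_3 (nat_lit 108) (nat_lit 109) (nat_lit 107) (nat_lit 0) (nat_lit 10) (nat_lit 7) (nat_lit 0) (nat_lit 9) (nat_lit 7) (by decide +kernel)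
theorem L586424 : W_3 (nat_lit 3) (nat_lit 0x10000200050003c0008000000000000000000000000000) (nat_lit 0x0) (nat_lit 0x20013800000000000000000000000000) := T_3 (nat_lit 125) (nat_lit 112) (nat_lit 2) (nat_lit 6) (nat_lit 7) L586423 (by decide +kernel)
theorem L586425 : W_3 (nat_lit 4) (nat_lit 0x1000020005000380008000000000000000000000000000) (nat_lit 0x0) (nat_lit 0x8000060013800000000000000000000000000) := T_3 (nat_lit 126) (nat_lit 147) (nat_lit 3) (nat_lit 7) (nat_lit 7) L586424 (by decide +kernel)
theorem L586426 : W_3 (nat_lit 5) (nat_lit 0x20005000380008000000000000000000000000000) (nat_lit 0x0) (nat_lit 0x1000080008000060013800000000000000000000000000) := T_3 (nat_lit 180) (nat_lit 163) (nat_lit 4) (nat_lit 10) (nat_lit 10) L586425 (by decide +kernel)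
theorem L586427 : W_3 (nat_lit 4) (nat_lit 0x20005000380008000000000000000000000000000) (nat_lit 0x0) (nat_lit 0x8000060013800000000000000000000000000) := T_3 (nat_lit 126) (nat_lit 147) (nat_lit 3) (nat_lit 7) (nat_lit 7) L586413 (by decide +kernel)
theorem L586428 : W_3 (nat_lit 6) (nat_lit 0x20001000380008000000000000000000000000000) (nat_lit 0x0) (nat_lit 0x100008003c000460013800400020000000000000000000) := Q_3 (nat_lit 146) (C_3 L586420 (C_3 L586422 (C_3 L586426 (C_3 L586427 N_3)))) (by decide +kernel)
theorem L586429 : W_3 (nat_lit 2) (nat_lit 0x2000b000780008000000000000000000000000000) (nat_lit 0x0) (nat_lit 0x10004000040000000000000000000000000000000) := D_3 (nat_lit 146) (nat_lit 126) (nat_lit 160) (nat_lit 3) (nat_lit 7) (nat_lit 7) (nat_lit 1) (nat_lit 11) (nat_lit 8) (by decide +kernel)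
theorem L586430 : W_3 (nat_lit 3) (nat_lit 0x20003000780008000000000000000000000000000) (nat_lit 0x0) (nat_lit 0x1001c000040000000000000000000000000000000) := T_3 (nat_lit 147) (nat_lit 148) (nat_lit 3) (nat_lit 8) (nat_lit 7) L586429 (by decide +kernel)
theorem L586431 : W_3 (nat_lit 4) (nat_lit 0x20003000380008000000000000000000000000000) (nat_lit 0x0) (nat_lit 0x1001c000c40000000000000000000000000000000) := T_3 (nat_lit 130) (nat_lit 131) (nat_lit 1) (nat_lit 12) (nat_lit 7) L586430 (by decide +kernel)
theorem L586432 : W_3 (nat_lit 5) (nat_lit 0x20001000380008000000000000000000000000000) (nat_lit 0x0) (nat_lit 0x1001e000c40000000400000000000000000000000) := T_3 (nat_lit 145) (nat_lit 94) (nat_lit 5) (nat_lit 9) (nat_lit 5) L586431 (by decide +kernel)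
theorem L586433 : W_3 (nat_lit 2) (nat_lit 0x200050003c0009000000000000000000000000000) (nat_lit 0x0) (nat_lit 0x2000020000800000000000000000000000000) := D_3 (nat_lit 125) (nat_lit 145) (nat_lit 107) (nat_lit 3) (nat_lit 6) (nat_lit 7) (nat_lit 0) (nat_lit 9) (nat_lit 7) (by decide +kernel)
theorem L586434 : W_3 (nat_lit 3) (nat_lit 0x200010003c0009000000000000000000000000000) (nat_lit 0x0) (nat_lit 0xe000020000800000000000000000000000000) := T_3 (nat_lit 146) (nat_lit 147) (nat_lit 3) (nat_lit 7) (nat_lit 7) L586433 (by decide +kernel)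
theorem L586435 : W_3 (nat_lit 4) (nat_lit 0x200010003c0008000000000000000000000000000) (nat_lit 0x0) (nat_lit 0xe000020003800000000000000000000000000) := T_3 (nat_lit 108) (nat_lit 109) (nat_lit 0) (nat_lit 10) (nat_lit 7) L586434 (by decide +kernel)
theorem L586436 : W_3 (nat_lit 2) (nat_lit 0x20009001fc0008000000000000000000000000000) (nat_lit 0x0) (nat_lit 0x1c0000000000000000000000000000) := D_3 (nat_lit 115) (nat_lit 114) (nat_lit 116) (nat_lit 2) (nat_lit 9) (nat_lit 7) (nat_lit 2) (nat_lit 10) (nat_lit 7) (by decide +kernel)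
theorem L586437 : W_3 (nat_lit 3) (nat_lit 0x20009000fc0008000000000000000000000000000) (nat_lit 0x0) (nat_lit 0x10001d0000000000000000000000000000) := T_3 (nat_lit 132) (nat_lit 112) (nat_lit 0) (nat_lit 13) (nat_lit 7) L586436 (by decide +kernel)
theorem L586438 : W_3 (nat_lit 4) (nat_lit 0x200090007c0008000000000000000000000000000) (nat_lit 0x0) (nat_lit 0x20018001d0000000000000000000000000000) := T_3 (nat_lit 131) (nat_lit 145) (nat_lit 1) (nat_lit 12) (nat_lit 7) L586437 (by decide +kernel)
theorem L586439 : W_3 (nat_lit 5) (nat_lit 0x200090003c0008000000000000000000000000000) (nat_lit 0x0) (nat_lit 0x12001c001d0000000000000000000000000000) := T_3 (nat_lit 130) (nat_lit 148) (nat_lit 3) (nat_lit 8) (nat_lit 7) L586438 (by decide +kernel)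
theorem L586440 : W_3 (nat_lit 6) (nat_lit 0x200010003c0008000000000000000000000000000) (nat_lit 0x0) (nat_lit 0x1e001c001d0000000000000000000000000000) := T_3 (nat_lit 147) (nat_lit 146) (nat_lit 3) (nat_lit 7) (nat_lit 7) L586439 (by decide +kernel)
theorem L586441 : W_3 (nat_lit 7) (nat_lit 0x20001000380008000000000000000000000000000) (nat_lit 0x0) (nat_lit 0x1e001c601d3800000000000000000000000000) := Q_3 (nat_lit 126) (C_3 L586435 (C_3 L586415 (C_3 L586440 N_3))) (by decide +kernel)
theorem L586442 : W_3 (nat_lit 8) (nat_lit 0x20001000380000000000000000000000000000000) (nat_lit 0x0) (nat_lit 0x100009003e001c601db800400020000000000000000000) := Q_3 (nat_lit 111) (C_3 L586411 (C_3 L586428 (C_3 L586432 (C_3 L586441 N_3)))) (by decide +kernel)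
theorem L586443 : W_3 (nat_lit 13) (nat_lit 0x20001000180000000000000000000000000000000) (nat_lit 0x0) (nat_lit 0x5000380039007e701e701fb803f000fc005000080000000000) := Q_3 (nat_lit 129) (C_3 L586293 (C_3 L586298 (C_3 L586309 (C_3 L586317 (C_3 L586352 (C_3 L586354 (C_3 L586410 (C_3 L586442 N_3)))))))) (by decide +kernel)
theorem L586444 : W_3 (nat_lit 10) (nat_lit 0x400020001000180000000000000000000000000000000) (nat_lit 0x0) (nat_lit 0xf7803bc039f000000040002000000000000000000000000000) := T_3 (nat_lit 177) (nat_lit 194) (nat_lit 5) (nat_lit 8) (nat_lit 7) L556583 (by decide +kernel)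
theorem L586445 : W_3 (nat_lit 11) (nat_lit 0x20001000180000000000000000000000000000000) (nat_lit 0x0) (nat_lit 0xf7803fc039f00000004000a000000000000000000000000000) := T_3 (nat_lit 178) (nat_lit 111) (nat_lit 6) (nat_lit 8) (nat_lit 10) L586444 (by decide +kernel)
theorem L586446 : W_3 (nat_lit 3) (nat_lit 0x400020001000180000000000000000000000000000000) (nat_lit 0x0) (nat_lit 0x200018000800000002000000000000000000000000000000000000) := T_3 (nat_lit 195) (nat_lit 145) (nat_lit 6) (nat_lit 8) (nat_lit 11) L554908 (by decide +kernel)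
theorem L586447 : W_3 (nat_lit 11) (nat_lit 0x20001000180000000000000000000000000000000) (nat_lit 0x0) (nat_lit 0x2800ff803fc039f002000040002000000000000000000000000000) := Q_3 (nat_lit 178) (C_3 L586444 (C_3 L9 (C_3 L586446 N_3))) (by decide +kernel)
theorem L586448 : W_3 (nat_lit 4) (nat_lit 0x20001000180000000000000000000000000000000) (nat_lit 0x0) (nat_lit 0x200018000c00000002000000008000000000000000000000000000) := T_3 (nat_lit 178) (nat_lit 111) (nat_lit 6) (nat_lit 8) (nat_lit 10) L586446 (by decide +kernel)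
theorem L586449 : W_3 (nat_lit 5) (nat_lit 0x20001000180000000000000000000000000000000) (nat_lit 0x0) (nat_lit 0x8000c00060000000200004000a000000000000000000000000000) := T_3 (nat_lit 178) (nat_lit 111) (nat_lit 6) (nat_lit 8) (nat_lit 10) L9 (by decide +kernel)
theorem L586450 : W_3 (nat_lit 14) (nat_lit 0x1000180000000000000000000000000000000) (nat_lit 0x0) (nat_lit 0x2800ff803fc03bf07e701e701fb803f000fc005000080000000000) := Q_3 (nat_lit 161) (C_3 L586443 (C_3 L586445 (C_3 L586447 (C_3 L586448 (C_3 L586449 N_3))))) (by decide +kernel)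
theorem L586456 : W_3 (nat_lit 12) (nat_lit 0x1000180008000000000000000000000000000) (nat_lit 0x0) (nat_lit 0x14000a001e001e701f7c01980048002000000000000000) := Q_3 (nat_lit 126) (C_3 L568092 (C_3 L568138 (C_3 L568087 (C_3 L586455 N_3)))) (by decide +kernel)
theorem L586457 : W_3 (nat_lit 13) (nat_lit 0x1000180000000000000000000000000000000) (nat_lit 0x0) (nat_lit 0x14000a001e001e701ffc03fc0078003c00000000000000) := Q_3 (nat_lit 111) (C_3 L527745 (C_3 L568090 (C_3 L568080 (C_3 L586456 N_3)))) (by decide +kernel)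
theorem L588245 : W_3 (nat_lit 2) (nat_lit 0x300010001a001f001080000000000000000000000) (nat_lit 0x0) (nat_lit 0x60002000000000000000000000000) := D_3 (nat_lit 113) (nat_lit 114) (nat_lit 97) (nat_lit 1) (nat_lit 12) (nat_lit 6) (nat_lit 2) (nat_lit 8) (nat_lit 6) (by decide +kernel)
theorem L588246 : W_3 (nat_lit 3) (nat_lit 0x300010001a001f000080000000000000000000000) (nat_lit 0x0) (nat_lit 0x60003800000000000000000000000) := T_3 (nat_lit 96) (nat_lit 95) (nat_lit 2) (nat_lit 7) (nat_lit 6) L588245 (by decide +kernel)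
theorem L588247 : W_3 (nat_lit 4) (nat_lit 0x300010001a000f000080000000000000000000000) (nat_lit 0x0) (nat_lit 0x40070003800000000000000000000000) := T_3 (nat_lit 112) (nat_lit 126) (nat_lit 2) (nat_lit 6) (nat_lit 7) L588246 (by decide +kernel)
theorem L588248 : W_3 (nat_lit 5) (nat_lit 0x300010001a000f000000000000000000000000000) (nat_lit 0x0) (nat_lit 0x400700038c0000000000000000000000) := T_3 (nat_lit 91) (nat_lit 90) (nat_lit 0) (nat_lit 9) (nat_lit 6) L588247 (by decide +kernel)
theorem L588249 : W_3 (nat_lit 6) (nat_lit 0x3000100018000f000000000000000000000000000) (nat_lit 0x0) (nat_lit 0x700700038c0000000000000000000000) := T_3 (nat_lit 125) (nat_lit 124) (nat_lit 1) (nat_lit 9) (nat_lit 6) L588248 (by decide +kernel)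
theorem L588267 : W_3 (nat_lit 2) (nat_lit 0x200010001a001f001080000000000000000000000) (nat_lit 0x0) (nat_lit 0x60002000000000000000000000000) := D_3 (nat_lit 113) (nat_lit 114) (nat_lit 97) (nat_lit 1) (nat_lit 12) (nat_lit 6) (nat_lit 2) (nat_lit 8) (nat_lit 6) (by decide +kernel)
theorem L588268 : W_3 (nat_lit 3) (nat_lit 0x200010001a001f000080000000000000000000000) (nat_lit 0x0) (nat_lit 0x60003800000000000000000000000) := T_3 (nat_lit 96) (nat_lit 95) (nat_lit 2) (nat_lit 7) (nat_lit 6) L588267 (by decide +kernel)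
theorem L588269 : W_3 (nat_lit 4) (nat_lit 0x200010001a000f000080000000000000000000000) (nat_lit 0x0) (nat_lit 0x40070003800000000000000000000000) := T_3 (nat_lit 112) (nat_lit 126) (nat_lit 2) (nat_lit 6) (nat_lit 7) L588268 (by decide +kernel)
theorem L588270 : W_3 (nat_lit 5) (nat_lit 0x200010001a000f000000000000000000000000000) (nat_lit 0x0) (nat_lit 0x400700038c0000000000000000000000) := T_3 (nat_lit 91) (nat_lit 90) (nat_lit 0) (nat_lit 9) (nat_lit 6) L588269 (by decide +kernel)
theorem L588271 : W_3 (nat_lit 6) (nat_lit 0x2000100018000f000000000000000000000000000) (nat_lit 0x0) (nat_lit 0x700700038c0000000000000000000000) := T_3 (nat_lit 125) (nat_lit 124) (nat_lit 1) (nat_lit 9) (nat_lit 6) L588270 (by decide +kernel)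
theorem L588272 : W_3 (nat_lit 7) (nat_lit 0x2000100018000e000000000000000000000000000) (nat_lit 0x0) (nat_lit 0x700718038c0000000000000000000000) := T_3 (nat_lit 108) (nat_lit 107) (nat_lit 3) (nat_lit 5) (nat_lit 6) L588271 (by decide +kernel)
theorem L588273 : W_3 (nat_lit 8) (nat_lit 0x2000100018000c000000000000000000000000000) (nat_lit 0x0) (nat_lit 0x700738039c0000000000000000000000) := T_3 (nat_lit 109) (nat_lit 92) (nat_lit 4) (nat_lit 8) (nat_lit 9) L588272 (by decide +kernel)
theorem L588311 : W_3 (nat_lit 2) (nat_lit 0x40000000100058003c001800000000000000000000000) (nat_lit 0x0) (nat_lit 0x8000000000000000040002000000000000000) := D_3 (nat_lit 78) (nat_lit 61) (nat_lit 147) (nat_lit 7) (nat_lit 10) (nat_lit 3) (nat_lit 4) (nat_lit 11) (nat_lit 8) (by decide +kernel)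
theorem L588312 : W_3 (nat_lit 3) (nat_lit 0x40000000100018003c001800000000000000000000000) (nat_lit 0x0) (nat_lit 0x8000c00000000000040002000000000000000) := T_3 (nat_lit 130) (nat_lit 131) (nat_lit 3) (nat_lit 8) (nat_lit 6) L588311 (by decide +kernel)
theorem L588313 : W_3 (nat_lit 4) (nat_lit 0x40000000100018003c001000000000000000000000000) (nat_lit 0x0) (nat_lit 0x8000c00002000800040002000000000000000) := T_3 (nat_lit 95) (nat_lit 109) (nat_lit 2) (nat_lit 7) (nat_lit 6) L588312 (by decide +kernel)
theorem L588314 : W_3 (nat_lit 5) (nat_lit 0x40000000100018003c000000000000000000000000000) (nat_lit 0x0) (nat_lit 0x8000c00002003800040002000000000000000) := T_3 (nat_lit 96) (nat_lit 97) (nat_lit 2) (nat_lit 8) (nat_lit 6) L588313 (by decide +kernel)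
theorem L588713 : W_3 (nat_lit 6) (nat_lit 0x40000000100018002c000000000000000000000000000) (nat_lit 0x0) (nat_lit 0x8000c00052003800040002000000000000000) := T_3 (nat_lit 112) (nat_lit 114) (nat_lit 1) (nat_lit 12) (nat_lit 6) L588314 (by decide +kernel)
theorem L588714 : W_3 (nat_lit 7) (nat_lit 0x100018002c000000000000000000000000000) (nat_lit 0x0) (nat_lit 0x400020008000c00052003800040002000000000000000) := T_3 (nat_lit 178) (nat_lit 161) (nat_lit 6) (nat_lit 8) (nat_lit 10) L588713 (by decide +kernel)
theorem L588751 : W_3 (nat_lit 2) (nat_lit 0x100018002c000200000000000000000000000) (nat_lit 0x0) (nat_lit 0x2000000000000000010000800000000000000) := D_3 (nat_lit 76) (nat_lit 59) (nat_lit 145) (nat_lit 7) (nat_lit 8) (nat_lit 3) (nat_lit 7) (nat_lit 8) (nat_lit 4) (by decide +kernel)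
theorem L591009 : W_3 (nat_lit 2) (nat_lit 0x100018003c000200000000000000000000000) (nat_lit 0x0) (nat_lit 0x2000000000000000010000800000000000000) := D_3 (nat_lit 76) (nat_lit 145) (nat_lit 59) (nat_lit 7) (nat_lit 8) (nat_lit 4) (nat_lit 7) (nat_lit 8) (nat_lit 3) (by decide +kernel)
theorem L591010 : W_3 (nat_lit 3) (nat_lit 0x100018003c000000000000000000000000000) (nat_lit 0x0) (nat_lit 0x2000000000000300010000800000000000000) := T_3 (nat_lit 93) (nat_lit 92) (nat_lit 0) (nat_lit 11) (nat_lit 6) L591009 (by decide +kernel)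
theorem L591011 : W_3 (nat_lit 4) (nat_lit 0x100018002c000000000000000000000000000) (nat_lit 0x0) (nat_lit 0x2000000050000300010000800000000000000) := T_3 (nat_lit 112) (nat_lit 114) (nat_lit 1) (nat_lit 12) (nat_lit 6) L591010 (by decide +kernel)
theorem L591012 : W_3 (nat_lit 2) (nat_lit 0x3000100018002c000300000000000000000000000) (nat_lit 0x0) (nat_lit 0x2000000000000000010000800000000000000) := D_3 (nat_lit 76) (nat_lit 59) (nat_lit 145) (nat_lit 7) (nat_lit 8) (nat_lit 3) (nat_lit 7) (nat_lit 8) (nat_lit 4) (by decide +kernel)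
theorem L591013 : W_3 (nat_lit 3) (nat_lit 0x3000100018002c000100000000000000000000000) (nat_lit 0x0) (nat_lit 0x2000000000000200018000800000000000000) := T_3 (nat_lit 93) (nat_lit 75) (nat_lit 4) (nat_lit 8) (nat_lit 8) L591012 (by decide +kernel)
theorem L591014 : W_3 (nat_lit 4) (nat_lit 0x3000100018002c000000000000000000000000000) (nat_lit 0x0) (nat_lit 0x2000000002000300018000800000000000000) := T_3 (nat_lit 92) (nat_lit 109) (nat_lit 4) (nat_lit 8) (nat_lit 9) L591013 (by decide +kernel)
theorem L591015 : W_3 (nat_lit 5) (nat_lit 0x2000100018002c000000000000000000000000000) (nat_lit 0x0) (nat_lit 0x200010002000000002000300018000800000000000000) := T_3 (nat_lit 160) (nat_lit 177) (nat_lit 5) (nat_lit 8) (nat_lit 6) L591014 (by decide +kernel)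
theorem L591016 : W_3 (nat_lit 6) (nat_lit 0x100018002c000000000000000000000000000) (nat_lit 0x0) (nat_lit 0x600030002000000002000300018000800000000000000) := T_3 (nat_lit 161) (nat_lit 178) (nat_lit 6) (nat_lit 8) (nat_lit 10) L591015 (by decide +kernel)
theorem L591017 : W_3 (nat_lit 8) (nat_lit 0x1000180028000000000000000000000000000) (nat_lit 0x0) (nat_lit 0x60003000a000c00056003b00058002800000000000000) := Q_3 (nat_lit 110) (C_3 L591011 (C_3 L588714 (C_3 L591016 N_3))) (by decide +kernel)
theorem L591018 : W_3 (nat_lit 3) (nat_lit 0x1000180028000000000000000000000000000) (nat_lit 0x0) (nat_lit 0x60054000000000000000000000000000) := T_3 (nat_lit 112) (nat_lit 114) (nat_lit 1) (nat_lit 12) (nat_lit 6) L586942 (by decide +kernel)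
theorem L591703 : W_3 (nat_lit 15) (nat_lit 0x1000580028000000000000000000000000000) (nat_lit 0x0) (nat_lit 0x17800f8007e003a001c00080005000f8001f000e000300000000000) := Q_3 (nat_lit 147) (C_3 L591237 (C_3 L591248 (C_3 L591211 (C_3 L591209 (C_3 L591222 (C_3 L591228 (C_3 L591096 N_3))))))) (by decide +kernel)
theorem L592926 : W_3 (nat_lit 2) (nat_lit 0x200030001c0008000000000000000000000000000) (nat_lit 0x0) (nat_lit 0xc000020000000000000000000000000000000) := D_3 (nat_lit 146) (nat_lit 147) (nat_lit 125) (nat_lit 0) (nat_lit 11) (nat_lit 8) (nat_lit 3) (nat_lit 6) (nat_lit 7) (by decide +kernel)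
theorem L600226 : W_3 (nat_lit 2) (nat_lit 0x400180009000580028001000000000000000000000000) (nat_lit 0x0) (nat_lit 0x10000800040000000000000000000) := D_3 (nat_lit 95) (nat_lit 78) (nat_lit 112) (nat_lit 4) (nat_lit 11) (nat_lit 8) (nat_lit 4) (nat_lit 11) (nat_lit 9) (by decide +kernel)
theorem L600227 : W_3 (nat_lit 3) (nat_lit 0x400180009000580028000000000000000000000000000) (nat_lit 0x0) (nat_lit 0x4000000010001800040000000000000000000) := T_3 (nat_lit 96) (nat_lit 146) (nat_lit 5) (nat_lit 11) (nat_lit 5) L600226 (by decide +kernel)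
theorem L600228 : W_3 (nat_lit 4) (nat_lit 0x400100009000580028000000000000000000000000000) (nat_lit 0x0) (nat_lit 0x1000080004000000010001800040000000000000000000) := T_3 (nat_lit 163) (nat_lit 180) (nat_lit 5) (nat_lit 11) (nat_lit 6) L600227 (by decide +kernel)
theorem L600229 : W_3 (nat_lit 5) (nat_lit 0x100009000580028000000000000000000000000000) (nat_lit 0x0) (nat_lit 0x14000a0004000000010001800040000000000000000000) := T_3 (nat_lit 178) (nat_lit 161) (nat_lit 6) (nat_lit 8) (nat_lit 10) L600228 (by decide +kernel)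
theorem L602166 : W_3 (nat_lit 2) (nat_lit 0x200010001e0008000000000000000000000000000) (nat_lit 0x0) (nat_lit 0x6000010000000000000000000000000000000) := D_3 (nat_lit 145) (nat_lit 146) (nat_lit 124) (nat_lit 3) (nat_lit 6) (nat_lit 7) (nat_lit 3) (nat_lit 5) (nat_lit 7) (by decide +kernel)
theorem L602167 : W_3 (nat_lit 2) (nat_lit 0x200010001e000a000000000000000000000000000) (nat_lit 0x0) (nat_lit 0x4000100008000000000000000000) := D_3 (nat_lit 92) (nat_lit 110) (nat_lit 75) (nat_lit 4) (nat_lit 8) (nat_lit 9) (nat_lit 7) (nat_lit 7) (nat_lit 4) (by decide +kernel)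
theorem L602168 : W_3 (nat_lit 2) (nat_lit 0x280034001e000b000000008000000000000000000) (nat_lit 0x0) (nat_lit 0x80014000000000000000000000000000000000000000) := D_3 (nat_lit 158) (nat_lit 175) (nat_lit 160) (nat_lit 5) (nat_lit 6) (nat_lit 6) (nat_lit 2) (nat_lit 5) (nat_lit 9) (by decide +kernel)
theorem L602169 : W_3 (nat_lit 3) (nat_lit 0x200034001e000b000000008000000000000000000) (nat_lit 0x0) (nat_lit 0x18001c000000000000000000000000000000000000000) := T_3 (nat_lit 159) (nat_lit 176) (nat_lit 6) (nat_lit 6) (nat_lit 10) L602168 (by decide +kernel)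
theorem L602170 : W_3 (nat_lit 4) (nat_lit 0x200034001e000a000000008000000000000000000) (nat_lit 0x0) (nat_lit 0x18001c000000000001800000000000000000000000000) := T_3 (nat_lit 108) (nat_lit 107) (nat_lit 0) (nat_lit 9) (nat_lit 7) L602169 (by decide +kernel)
theorem L602171 : W_3 (nat_lit 5) (nat_lit 0x200030001e000a000000008000000000000000000) (nat_lit 0x0) (nat_lit 0x18001c000600000001800000000000000000000000000) := T_3 (nat_lit 142) (nat_lit 141) (nat_lit 1) (nat_lit 9) (nat_lit 7) L602170 (by decide +kernel)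
theorem L602172 : W_3 (nat_lit 6) (nat_lit 0x200030001e000a000000000000000000000000000) (nat_lit 0x0) (nat_lit 0x18001c000600000001800100008000000000000000000) := T_3 (nat_lit 75) (nat_lit 92) (nat_lit 7) (nat_lit 7) (nat_lit 4) L602171 (by decide +kernel)
theorem L602173 : W_3 (nat_lit 7) (nat_lit 0x200010001e000a000000000000000000000000000) (nat_lit 0x0) (nat_lit 0x18001c006600000001800100008000000000000000000) := T_3 (nat_lit 145) (nat_lit 146) (nat_lit 3) (nat_lit 6) (nat_lit 7) L602172 (by decide +kernel)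
theorem L602174 : W_3 (nat_lit 2) (nat_lit 0x280034001e000b000000000000000000000000000) (nat_lit 0x0) (nat_lit 0x80014000000000000000000000000000000000000000) := D_3 (nat_lit 158) (nat_lit 160) (nat_lit 175) (nat_lit 2) (nat_lit 5) (nat_lit 9) (nat_lit 5) (nat_lit 6) (nat_lit 6) (by decide +kernel)
theorem L602175 : W_3 (nat_lit 3) (nat_lit 0x280034001e000a000000000000000000000000000) (nat_lit 0x0) (nat_lit 0x80014000000000001800000000000000000000000000) := T_3 (nat_lit 108) (nat_lit 107) (nat_lit 0) (nat_lit 9) (nat_lit 7) L602174 (by decide +kernel)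
theorem L602176 : W_3 (nat_lit 4) (nat_lit 0x200034001e000a000000000000000000000000000) (nat_lit 0x0) (nat_lit 0x18001c000000000001800000000000000000000000000) := T_3 (nat_lit 159) (nat_lit 176) (nat_lit 6) (nat_lit 6) (nat_lit 10) L602175 (by decide +kernel)
theorem L602177 : W_3 (nat_lit 5) (nat_lit 0x200014001e000a000000000000000000000000000) (nat_lit 0x0) (nat_lit 0x18001c006000000001800000000000000000000000000) := T_3 (nat_lit 145) (nat_lit 146) (nat_lit 3) (nat_lit 6) (nat_lit 7) L602176 (by decide +kernel)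
theorem L602178 : W_3 (nat_lit 6) (nat_lit 0x200010001e000a000000000000000000000000000) (nat_lit 0x0) (nat_lit 0x18001c006600000001800000000000000000000000000) := T_3 (nat_lit 142) (nat_lit 141) (nat_lit 1) (nat_lit 9) (nat_lit 7) L602177 (by decide +kernel)
theorem L602179 : W_3 (nat_lit 8) (nat_lit 0x200010001e0008000000000000000000000000000) (nat_lit 0x0) (nat_lit 0x18001c006600000007800100008000000000000000000) := Q_3 (nat_lit 109) (C_3 L602167 (C_3 L602173 (C_3 L602178 N_3))) (by decide +kernel)
theorem L602180 : W_3 (nat_lit 9) (nat_lit 0x200010001c0008000000000000000000000000000) (nat_lit 0x0) (nat_lit 0x18001c006700030007c00100008000000000000000000) := Q_3 (nat_lit 125) (C_3 L317825 (C_3 L602166 (C_3 L602179 N_3))) (by decide +kernel)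
theorem L602181 : W_3 (nat_lit 3) (nat_lit 0x200010001c0008000000000000000000000000000) (nat_lit 0x0) (nat_lit 0x6000030010000000000000000000000000000) := T_3 (nat_lit 125) (nat_lit 112) (nat_lit 2) (nat_lit 6) (nat_lit 7) L602166 (by decide +kernel)
theorem L602396 : W_3 (nat_lit 2) (nat_lit 0x20001000180004000200000000000000000000000) (nat_lit 0x0) (nat_lit 0x8000400020000000000000000000) := D_3 (nat_lit 94) (nat_lit 111) (nat_lit 77) (nat_lit 6) (nat_lit 8) (nat_lit 9) (nat_lit 6) (nat_lit 8) (nat_lit 8) (by decide +kernel)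
theorem L602397 : W_3 (nat_lit 2) (nat_lit 0x2000100018000c000200000000000000000000000) (nat_lit 0x0) (nat_lit 0x2000000000000000010000800000000000000) := D_3 (nat_lit 76) (nat_lit 59) (nat_lit 145) (nat_lit 7) (nat_lit 8) (nat_lit 3) (nat_lit 7) (nat_lit 8) (nat_lit 4) (by decide +kernel)
theorem L602398 : W_3 (nat_lit 3) (nat_lit 0x20001000180004000200000000000000000000000) (nat_lit 0x0) (nat_lit 0x2000000008000400010000800000000000000) := T_3 (nat_lit 111) (nat_lit 94) (nat_lit 6) (nat_lit 8) (nat_lit 9) L602397 (by decide +kernel)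
theorem L602399 : W_3 (nat_lit 3) (nat_lit 0x20001000180004000200010000000000000000000) (nat_lit 0x0) (nat_lit 0x8000000008000c00020000000000) := T_3 (nat_lit 59) (nat_lit 111) (nat_lit 7) (nat_lit 8) (nat_lit 3) L768 (by decide +kernel)
theorem L602400 : W_3 (nat_lit 4) (nat_lit 0x20001000180004000200000000000000000000000) (nat_lit 0x0) (nat_lit 0x2000000008000000018000c00020000000000) := T_3 (nat_lit 76) (nat_lit 145) (nat_lit 7) (nat_lit 8) (nat_lit 4) L602399 (by decide +kernel)
theorem L602401 : W_3 (nat_lit 5) (nat_lit 0x20001000180004000000000000000000000000000) (nat_lit 0x0) (nat_lit 0x2000000008000600038001c00020000000000) := Q_3 (nat_lit 93) (C_3 L1464 (C_3 L602396 (C_3 L602398 (C_3 L602400 N_3)))) (by decide +kernel)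
theorem L602402 : W_3 (nat_lit 7) (nat_lit 0x30001000180007000000000000000000000000000) (nat_lit 0x0) (nat_lit 0x70078003cc0000000000000000000000) := T_3 (nat_lit 111) (nat_lit 94) (nat_lit 6) (nat_lit 8) (nat_lit 9) L588249 (by decide +kernel)
theorem L602403 : W_3 (nat_lit 8) (nat_lit 0x30001000180006000000000000000000000000000) (nat_lit 0x0) (nat_lit 0x70079803cc0000000000000000000000) := T_3 (nat_lit 108) (nat_lit 107) (nat_lit 3) (nat_lit 5) (nat_lit 6) L602402 (by decide +kernel)
theorem L602404 : W_3 (nat_lit 9) (nat_lit 0x30001000180004000000000000000000000000000) (nat_lit 0x0) (nat_lit 0x7007b803dc0000000000000000000000) := T_3 (nat_lit 109) (nat_lit 92) (nat_lit 4) (nat_lit 8) (nat_lit 9) L602403 (by decide +kernel)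
theorem L602405 : W_3 (nat_lit 10) (nat_lit 0x20001000180004000000000000000000000000000) (nat_lit 0x0) (nat_lit 0x20001000000007007b803dc0000000000000000000000) := T_3 (nat_lit 160) (nat_lit 177) (nat_lit 5) (nat_lit 8) (nat_lit 6) L602404 (by decide +kernel)
theorem L602406 : W_3 (nat_lit 2) (nat_lit 0x30001000180004000300010000800000000000000) (nat_lit 0x0) (nat_lit 0x20001000080000000000) := D_3 (nat_lit 60) (nat_lit 43) (nat_lit 77) (nat_lit 6) (nat_lit 8) (nat_lit 6) (nat_lit 6) (nat_lit 8) (nat_lit 7) (by decide +kernel)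
theorem L602407 : W_3 (nat_lit 3) (nat_lit 0x30001000180004000300010000000000000000000) (nat_lit 0x0) (nat_lit 0x8000000020001800080000000000) := T_3 (nat_lit 59) (nat_lit 111) (nat_lit 7) (nat_lit 8) (nat_lit 3) L602406 (by decide +kernel)
theorem L602408 : W_3 (nat_lit 4) (nat_lit 0x30001000180004000300000000000000000000000) (nat_lit 0x0) (nat_lit 0x2000000008000000030001800080000000000) := T_3 (nat_lit 76) (nat_lit 145) (nat_lit 7) (nat_lit 8) (nat_lit 4) L602407 (by decide +kernel)
theorem L602409 : W_3 (nat_lit 5) (nat_lit 0x30001000180004000100000000000000000000000) (nat_lit 0x0) (nat_lit 0x2000000008000200038001800080000000000) := T_3 (nat_lit 93) (nat_lit 75) (nat_lit 4) (nat_lit 8) (nat_lit 8) L602408 (by decide +kernel)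
theorem L602410 : W_3 (nat_lit 6) (nat_lit 0x30001000180004000000000000000000000000000) (nat_lit 0x0) (nat_lit 0x200000000a000300038001800080000000000) := T_3 (nat_lit 92) (nat_lit 109) (nat_lit 4) (nat_lit 8) (nat_lit 9) L602409 (by decide +kernel)
theorem L602411 : W_3 (nat_lit 7) (nat_lit 0x20001000180004000000000000000000000000000) (nat_lit 0x0) (nat_lit 0x20001000200000000a000300038001800080000000000) := T_3 (nat_lit 160) (nat_lit 177) (nat_lit 5) (nat_lit 8) (nat_lit 6) L602410 (by decide +kernel)
theorem L602412 : W_3 (nat_lit 11) (nat_lit 0x20001000180000000000000000000000000000000) (nat_lit 0x0) (nat_lit 0x20001000200007007f803fc0038001c000a0000000000) := Q_3 (nat_lit 110) (C_3 L602401 (C_3 L602405 (C_3 L19844 (C_3 L602411 N_3)))) (by decide +kernel)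
theorem L602413 : W_3 (nat_lit 12) (nat_lit 0x1000180000000000000000000000000000000) (nat_lit 0x0) (nat_lit 0x2800ff803fc03bf00200007007f803fc0038001c000a0000000000) := Q_3 (nat_lit 161) (C_3 L586449 (C_3 L586445 (C_3 L602412 (C_3 L586448 (C_3 L586447 N_3))))) (by decide +kernel)
theorem L602477 : W_3 (nat_lit 2) (nat_lit 0x40000000100038003c001000080000000000000000000) (nat_lit 0x0) (nat_lit 0x80004000000000000800000000000000000000000) := D_3 (nat_lit 146) (nat_lit 163) (nat_lit 95) (nat_lit 6) (nat_lit 10) (nat_lit 9) (nat_lit 6) (nat_lit 10) (nat_lit 8) (by decide +kernel)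
theorem L602478 : W_3 (nat_lit 3) (nat_lit 0x40000000100038003c001000000000000000000000000) (nat_lit 0x0) (nat_lit 0x80004000000000000800080004000000000000000) := T_3 (nat_lit 79) (nat_lit 62) (nat_lit 5) (nat_lit 11) (nat_lit 3) L602477 (by decide +kernel)
theorem L602479 : W_3 (nat_lit 4) (nat_lit 0x40000000100038003c000000000000000000000000000) (nat_lit 0x0) (nat_lit 0x80004000000000003800080004000000000000000) := T_3 (nat_lit 96) (nat_lit 97) (nat_lit 2) (nat_lit 8) (nat_lit 6) L602478 (by decide +kernel)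
theorem L602480 : W_3 (nat_lit 5) (nat_lit 0x100038003c000000000000000000000000000) (nat_lit 0x0) (nat_lit 0x4000a0004000000000003800080004000000000000000) := T_3 (nat_lit 178) (nat_lit 161) (nat_lit 6) (nat_lit 8) (nat_lit 10) L602479 (by decide +kernel)
theorem L602492 : W_3 (nat_lit 2) (nat_lit 0x100038000c000200000000000000000000000) (nat_lit 0x0) (nat_lit 0x2000000000000000010000800000000000000) := D_3 (nat_lit 76) (nat_lit 59) (nat_lit 145) (nat_lit 7) (nat_lit 8) (nat_lit 3) (nat_lit 7) (nat_lit 8) (nat_lit 4) (by decide +kernel)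
theorem L603036 : W_3 (nat_lit 2) (nat_lit 0x100038000e000300000000000000000000000) (nat_lit 0x0) (nat_lit 0x100000c0000000000000000000000) := D_3 (nat_lit 91) (nat_lit 90) (nat_lit 112) (nat_lit 3) (nat_lit 5) (nat_lit 5) (nat_lit 0) (nat_lit 10) (nat_lit 6) (by decide +kernel)
theorem L603037 : W_3 (nat_lit 3) (nat_lit 0x100038000e000200000000000000000000000) (nat_lit 0x0) (nat_lit 0x100001c0008000000000000000000) := T_3 (nat_lit 92) (nat_lit 75) (nat_lit 4) (nat_lit 8) (nat_lit 8) L603036 (by decide +kernel)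
theorem L603038 : W_3 (nat_lit 4) (nat_lit 0x100038000c000200000000000000000000000) (nat_lit 0x0) (nat_lit 0x130001c0008000000000000000000) := T_3 (nat_lit 109) (nat_lit 108) (nat_lit 3) (nat_lit 6) (nat_lit 6) L603037 (by decide +kernel)
theorem L603039 : W_3 (nat_lit 5) (nat_lit 0x100038000c000000000000000000000000000) (nat_lit 0x0) (nat_lit 0x20000000130003c0018000c00000000000000) := Q_3 (nat_lit 93) (C_3 L602492 (C_3 L567297 (C_3 L603038 N_3))) (by decide +kernel)
theorem L603040 : W_3 (nat_lit 2) (nat_lit 0x100078000c000300000000000000000000000) (nat_lit 0x0) (nat_lit 0x70000000000000000000000000000) := D_3 (nat_lit 113) (nat_lit 114) (nat_lit 112) (nat_lit 2) (nat_lit 8) (nat_lit 7) (nat_lit 0) (nat_lit 11) (nat_lit 6) (by decide +kernel)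
theorem L603041 : W_3 (nat_lit 3) (nat_lit 0x100078000c000200000000000000000000000) (nat_lit 0x0) (nat_lit 0x70000100008000000000000000000) := T_3 (nat_lit 92) (nat_lit 75) (nat_lit 4) (nat_lit 8) (nat_lit 8) L603040 (by decide +kernel)
theorem L603042 : W_3 (nat_lit 4) (nat_lit 0x100038000c000200000000000000000000000) (nat_lit 0x0) (nat_lit 0xc00070000100008000000000000000000) := T_3 (nat_lit 130) (nat_lit 131) (nat_lit 0) (nat_lit 12) (nat_lit 7) L603041 (by decide +kernel)
theorem L603043 : W_3 (nat_lit 5) (nat_lit 0x100038000c000000000000000000000000000) (nat_lit 0x0) (nat_lit 0x2000c00070000300018000c00000000000000) := Q_3 (nat_lit 93) (C_3 L602492 (C_3 L567297 (C_3 L603042 N_3))) (by decide +kernel)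
theorem L603044 : W_3 (nat_lit 6) (nat_lit 0x100018000c000000000000000000000000000) (nat_lit 0x0) (nat_lit 0x2000e000730003c0018000c00000000000000) := Q_3 (nat_lit 129) (C_3 L603039 (C_3 L567205 (C_3 L603043 N_3))) (by decide +kernel)
theorem L604597 : W_3 (nat_lit 2) (nat_lit 0x40000000100018003e001000000000000000000000000) (nat_lit 0x0) (nat_lit 0x200001800000000000000000000000000) := D_3 (nat_lit 108) (nat_lit 107) (nat_lit 129) (nat_lit 3) (nat_lit 5) (nat_lit 6) (nat_lit 3) (nat_lit 6) (nat_lit 6) (by decide +kernel)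
theorem L604598 : W_3 (nat_lit 3) (nat_lit 0x40000000100018003c001000000000000000000000000) (nat_lit 0x0) (nat_lit 0x200003800800000000000000000000000) := T_3 (nat_lit 109) (nat_lit 95) (nat_lit 2) (nat_lit 7) (nat_lit 6) L604597 (by decide +kernel)
theorem L604599 : W_3 (nat_lit 4) (nat_lit 0x40000000100018003c000000000000000000000000000) (nat_lit 0x0) (nat_lit 0x200003803800000000000000000000000) := T_3 (nat_lit 96) (nat_lit 97) (nat_lit 2) (nat_lit 8) (nat_lit 6) L604598 (by decide +kernel)
theorem L604888 : W_3 (nat_lit 4) (nat_lit 0x100038003c000000000000000000000000000) (nat_lit 0x0) (nat_lit 0x4000c00000003000080004000000000000000) := T_3 (nat_lit 130) (nat_lit 131) (nat_lit 3) (nat_lit 8) (nat_lit 6) L604887 (by decide +kernel)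
theorem L604913 : W_3 (nat_lit 2) (nat_lit 0x100018003e001000000000000000000000000) (nat_lit 0x0) (nat_lit 0xe00000000000000000000000000000000) := D_3 (nat_lit 130) (nat_lit 129) (nat_lit 131) (nat_lit 3) (nat_lit 7) (nat_lit 6) (nat_lit 3) (nat_lit 8) (nat_lit 6) (by decide +kernel)
theorem L604914 : W_3 (nat_lit 3) (nat_lit 0x100018003c001000000000000000000000000) (nat_lit 0x0) (nat_lit 0xe00002000800000000000000000000000) := T_3 (nat_lit 109) (nat_lit 95) (nat_lit 2) (nat_lit 7) (nat_lit 6) L604913 (by decide +kernel)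
theorem L604915 : W_3 (nat_lit 4) (nat_lit 0x100018003c000000000000000000000000000) (nat_lit 0x0) (nat_lit 0xe00002003800000000000000000000000) := T_3 (nat_lit 96) (nat_lit 97) (nat_lit 2) (nat_lit 8) (nat_lit 6) L604914 (by decide +kernel)
theorem L605220 : W_3 (nat_lit 2) (nat_lit 0x2d001f800a8000000000000000000000000000) (nat_lit 0x0) (nat_lit 0x1000080000000000000001000000000000000000000000) := D_3 (nat_lit 163) (nat_lit 180) (nat_lit 96) (nat_lit 6) (nat_lit 10) (nat_lit 10) (nat_lit 5) (nat_lit 11) (nat_lit 5) (by decide +kernel)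
theorem L605221 : W_3 (nat_lit 3) (nat_lit 0x29001f800a8000000000000000000000000000) (nat_lit 0x0) (nat_lit 0x1000080004002000000001000000000000000000000000) := T_3 (nat_lit 146) (nat_lit 133) (nat_lit 1) (nat_lit 14) (nat_lit 7) L605220 (by decide +kernel)
theorem L605222 : W_3 (nat_lit 4) (nat_lit 0x29001f80028000000000000000000000000000) (nat_lit 0x0) (nat_lit 0x1000080004002000180001000000000000000000000000) := T_3 (nat_lit 115) (nat_lit 116) (nat_lit 2) (nat_lit 10) (nat_lit 7) L605221 (by decide +kernel)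
theorem L605223 : W_3 (nat_lit 5) (nat_lit 0x9001f80028000000000000000000000000000) (nat_lit 0x0) (nat_lit 0x1000080064002000180001000000000000000000000000) := T_3 (nat_lit 149) (nat_lit 150) (nat_lit 3) (nat_lit 10) (nat_lit 7) L605222 (by decide +kernel)
theorem L605224 : W_3 (nat_lit 6) (nat_lit 0x9000f80028000000000000000000000000000) (nat_lit 0x0) (nat_lit 0x1000080064003000190001000000000000000000000000) := T_3 (nat_lit 132) (nat_lit 112) (nat_lit 0) (nat_lit 13) (nat_lit 7) L605223 (by decide +kernel)
theorem L605225 : W_3 (nat_lit 7) (nat_lit 0x9000780028000000000000000000000000000) (nat_lit 0x0) (nat_lit 0x1000080066003800190001000000000000000000000000) := T_3 (nat_lit 131) (nat_lit 145) (nat_lit 1) (nat_lit 12) (nat_lit 7) L605224 (by decide +kernel)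
theorem L605226 : W_3 (nat_lit 8) (nat_lit 0x1000780028000000000000000000000000000) (nat_lit 0x0) (nat_lit 0x100008007e003800190001000000000000000000000000) := T_3 (nat_lit 147) (nat_lit 148) (nat_lit 3) (nat_lit 8) (nat_lit 7) L605225 (by decide +kernel)
theorem L605277 : W_3 (nat_lit 2) (nat_lit 0x100058003e001000000000000000000000000) (nat_lit 0x0) (nat_lit 0x380000000000000000000000) := D_3 (nat_lit 92) (nat_lit 91) (nat_lit 93) (nat_lit 0) (nat_lit 10) (nat_lit 6) (nat_lit 0) (nat_lit 11) (nat_lit 6) (by decide +kernel)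
theorem L605278 : W_3 (nat_lit 3) (nat_lit 0x100058003c001000000000000000000000000) (nat_lit 0x0) (nat_lit 0x2000b80000000000000000000000) := T_3 (nat_lit 109) (nat_lit 95) (nat_lit 2) (nat_lit 7) (nat_lit 6) L605277 (by decide +kernel)
theorem L605279 : W_3 (nat_lit 4) (nat_lit 0x100058003c000000000000000000000000000) (nat_lit 0x0) (nat_lit 0x2003b80000000000000000000000) := T_3 (nat_lit 96) (nat_lit 97) (nat_lit 2) (nat_lit 8) (nat_lit 6) L605278 (by decide +kernel)
theorem L605280 : W_3 (nat_lit 5) (nat_lit 0x1000580038000000000000000000000000000) (nat_lit 0x0) (nat_lit 0x800006003b80000000000000000000000) := T_3 (nat_lit 110) (nat_lit 131) (nat_lit 3) (nat_lit 8) (nat_lit 6) L605279 (by decide +kernel)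
theorem L605281 : W_3 (nat_lit 6) (nat_lit 0x1000580028000000000000000000000000000) (nat_lit 0x0) (nat_lit 0x800056003b80000000000000000000000) := T_3 (nat_lit 112) (nat_lit 114) (nat_lit 1) (nat_lit 12) (nat_lit 6) L605280 (by decide +kernel)
theorem L605311 : W_3 (nat_lit 2) (nat_lit 0x40000000100058003c000200000000000000000000000) (nat_lit 0x0) (nat_lit 0x2000000000000000010000800000000000000) := D_3 (nat_lit 76) (nat_lit 145) (nat_lit 59) (nat_lit 7) (nat_lit 8) (nat_lit 4) (nat_lit 7) (nat_lit 8) (nat_lit 3) (by decide +kernel)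
theorem L605312 : W_3 (nat_lit 3) (nat_lit 0x40000000100058003c000000000000000000000000000) (nat_lit 0x0) (nat_lit 0x2000000000000300010000800000000000000) := T_3 (nat_lit 93) (nat_lit 92) (nat_lit 0) (nat_lit 11) (nat_lit 6) L605311 (by decide +kernel)
theorem L605313 : W_3 (nat_lit 4) (nat_lit 0x400000001000580038000000000000000000000000000) (nat_lit 0x0) (nat_lit 0x2000800004000300010000800000000000000) := T_3 (nat_lit 110) (nat_lit 131) (nat_lit 3) (nat_lit 8) (nat_lit 6) L605312 (by decide +kernel)
theorem L605314 : W_3 (nat_lit 5) (nat_lit 0x1000580038000000000000000000000000000) (nat_lit 0x0) (nat_lit 0x400020002000800004000300010000800000000000000) := T_3 (nat_lit 178) (nat_lit 161) (nat_lit 6) (nat_lit 8) (nat_lit 10) L605313 (by decide +kernel)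
theorem L605315 : W_3 (nat_lit 6) (nat_lit 0x1000580028000000000000000000000000000) (nat_lit 0x0) (nat_lit 0x400020002000800054000300010000800000000000000) := T_3 (nat_lit 112) (nat_lit 114) (nat_lit 1) (nat_lit 12) (nat_lit 6) L605314 (by decide +kernel)
theorem L605334 : W_3 (nat_lit 5) (nat_lit 0x100058002c000000000000000000000000000) (nat_lit 0x0) (nat_lit 0x100008000800012003800040000000000000000000) := T_3 (nat_lit 112) (nat_lit 131) (nat_lit 3) (nat_lit 8) (nat_lit 6) L605333 (by decide +kernel)
theorem L605378 : W_3 (nat_lit 2) (nat_lit 0x100078000c000200000000000000000000000) (nat_lit 0x0) (nat_lit 0x2000000000000000010000800000000000000) := D_3 (nat_lit 76) (nat_lit 145) (nat_lit 59) (nat_lit 7) (nat_lit 8) (nat_lit 4) (nat_lit 7) (nat_lit 8) (nat_lit 3) (by decide +kernel)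
theorem L605379 : W_3 (nat_lit 4) (nat_lit 0x100078000c000000000000000000000000000) (nat_lit 0x0) (nat_lit 0x2000000070000300018000800000000000000) := Q_3 (nat_lit 93) (C_3 L605378 (C_3 L603041 N_3)) (by decide +kernel)
theorem L605380 : W_3 (nat_lit 5) (nat_lit 0x1000780008000000000000000000000000000) (nat_lit 0x0) (nat_lit 0x2000000076000300018000800000000000000) := T_3 (nat_lit 110) (nat_lit 109) (nat_lit 0) (nat_lit 11) (nat_lit 7) L605379 (by decide +kernel)
theorem L606190 : W_3 (nat_lit 2) (nat_lit 0x1000580028000000000000000000000000000) (nat_lit 0x0) (nat_lit 0x200050000000000000000000000000000) := D_3 (nat_lit 114) (nat_lit 129) (nat_lit 112) (nat_lit 2) (nat_lit 8) (nat_lit 7) (nat_lit 1) (nat_lit 12) (nat_lit 6) (by decide +kernel)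
theorem L606191 : W_3 (nat_lit 8) (nat_lit 0x9000580028000000000000000000000000000) (nat_lit 0x0) (nat_lit 0x1000080076003a00190001000000000000000000000000) := T_3 (nat_lit 129) (nat_lit 148) (nat_lit 3) (nat_lit 8) (nat_lit 7) L605225 (by decide +kernel)
theorem L606192 : W_3 (nat_lit 2) (nat_lit 0x400000009003f800a8000000000000000000000000000) (nat_lit 0x0) (nat_lit 0xe0000000000000000000000000000000000000) := D_3 (nat_lit 150) (nat_lit 149) (nat_lit 151) (nat_lit 3) (nat_lit 10) (nat_lit 7) (nat_lit 3) (nat_lit 11) (nat_lit 7) (by decide +kernel)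
theorem L606193 : W_3 (nat_lit 3) (nat_lit 0x400000009001f800a8000000000000000000000000000) (nat_lit 0x0) (nat_lit 0xe4002000000000000000000000000000000000) := T_3 (nat_lit 133) (nat_lit 146) (nat_lit 1) (nat_lit 14) (nat_lit 7) L606192 (by decide +kernel)
theorem L606194 : W_3 (nat_lit 4) (nat_lit 0x400000009001f80028000000000000000000000000000) (nat_lit 0x0) (nat_lit 0xe4002000180000000000000000000000000000) := T_3 (nat_lit 115) (nat_lit 116) (nat_lit 2) (nat_lit 10) (nat_lit 7) L606193 (by decide +kernel)
theorem L606195 : W_3 (nat_lit 5) (nat_lit 0x9001f80028000000000000000000000000000) (nat_lit 0x0) (nat_lit 0x4000200e4002000180000000000000000000000000000) := T_3 (nat_lit 178) (nat_lit 161) (nat_lit 6) (nat_lit 8) (nat_lit 10) L606194 (by decide +kernel)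
theorem L606196 : W_3 (nat_lit 6) (nat_lit 0x9000f80028000000000000000000000000000) (nat_lit 0x0) (nat_lit 0x4000200e4003000190000000000000000000000000000) := T_3 (nat_lit 132) (nat_lit 112) (nat_lit 0) (nat_lit 13) (nat_lit 7) L606195 (by decide +kernel)
theorem L606197 : W_3 (nat_lit 7) (nat_lit 0x9000780028000000000000000000000000000) (nat_lit 0x0) (nat_lit 0x4000200e6003800190000000000000000000000000000) := T_3 (nat_lit 131) (nat_lit 145) (nat_lit 1) (nat_lit 12) (nat_lit 7) L606196 (by decide +kernel)
theorem L606198 : W_3 (nat_lit 8) (nat_lit 0x9000580028000000000000000000000000000) (nat_lit 0x0) (nat_lit 0x4000200f6003a00190000000000000000000000000000) := T_3 (nat_lit 129) (nat_lit 148) (nat_lit 3) (nat_lit 8) (nat_lit 7) L606197 (by decide +kernel)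
theorem L606199 : W_3 (nat_lit 2) (nat_lit 0x30000b000780028000000000000000000000000000) (nat_lit 0x0) (nat_lit 0x2000000000000000010000800000000000000000000000) := D_3 (nat_lit 112) (nat_lit 95) (nat_lit 181) (nat_lit 4) (nat_lit 11) (nat_lit 9) (nat_lit 4) (nat_lit 11) (nat_lit 10) (by decide +kernel)
theorem L606200 : W_3 (nat_lit 3) (nat_lit 0x30000b000580028000000000000000000000000000) (nat_lit 0x0) (nat_lit 0x2000000000000a00010000800000000000000000000000) := T_3 (nat_lit 129) (nat_lit 131) (nat_lit 1) (nat_lit 12) (nat_lit 7) L606199 (by decide +kernel)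
theorem L606201 : W_3 (nat_lit 4) (nat_lit 0x300009000580028000000000000000000000000000) (nat_lit 0x0) (nat_lit 0x2000000006000a00010000800000000000000000000000) := T_3 (nat_lit 145) (nat_lit 146) (nat_lit 3) (nat_lit 8) (nat_lit 8) L606200 (by decide +kernel)
theorem L606202 : W_3 (nat_lit 5) (nat_lit 0x100009000580028000000000000000000000000000) (nat_lit 0x0) (nat_lit 0x6000200006000a00010000800000000000000000000000) := T_3 (nat_lit 165) (nat_lit 182) (nat_lit 7) (nat_lit 11) (nat_lit 6) L606201 (by decide +kernel)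
theorem L606203 : W_3 (nat_lit 2) (nat_lit 0x400380009000780038000000000000000000000000000) (nat_lit 0x0) (nat_lit 0x2001800000000000000000000000000000000) := D_3 (nat_lit 131) (nat_lit 145) (nat_lit 132) (nat_lit 1) (nat_lit 12) (nat_lit 7) (nat_lit 0) (nat_lit 13) (nat_lit 7) (by decide +kernel)
theorem L606204 : W_3 (nat_lit 3) (nat_lit 0x400380009000580038000000000000000000000000000) (nat_lit 0x0) (nat_lit 0x2000000002001a00000000000000000000000000000000) := T_3 (nat_lit 129) (nat_lit 181) (nat_lit 4) (nat_lit 11) (nat_lit 10) L606203 (by decide +kernel)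
theorem L606205 : W_3 (nat_lit 4) (nat_lit 0x400380009000580028000000000000000000000000000) (nat_lit 0x0) (nat_lit 0x2000000002001a00010000800000000000000000000000) := T_3 (nat_lit 112) (nat_lit 95) (nat_lit 4) (nat_lit 11) (nat_lit 9) L606204 (by decide +kernel)
theorem L606206 : W_3 (nat_lit 5) (nat_lit 0x400180009000580028000000000000000000000000000) (nat_lit 0x0) (nat_lit 0x6000200002001a00010000800000000000000000000000) := T_3 (nat_lit 165) (nat_lit 182) (nat_lit 7) (nat_lit 11) (nat_lit 6) L606205 (by decide +kernel)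
theorem L606207 : W_3 (nat_lit 6) (nat_lit 0x180009000580028000000000000000000000000000) (nat_lit 0x0) (nat_lit 0x6400220002001a00010000800000000000000000000000) := T_3 (nat_lit 178) (nat_lit 161) (nat_lit 6) (nat_lit 8) (nat_lit 10) L606206 (by decide +kernel)
theorem L606208 : W_3 (nat_lit 7) (nat_lit 0x100009000580028000000000000000000000000000) (nat_lit 0x0) (nat_lit 0x74002a0002001a00010000800000000000000000000000) := T_3 (nat_lit 163) (nat_lit 180) (nat_lit 5) (nat_lit 11) (nat_lit 6) L606207 (by decide +kernel)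
theorem L606209 : W_3 (nat_lit 8) (nat_lit 0x9000580028000000000000000000000000000) (nat_lit 0x0) (nat_lit 0x74003a0006001a00010001800040000000000000000000) := Q_3 (nat_lit 164) (C_3 L600229 (C_3 L606202 (C_3 L606208 (C_3 L591827 N_3)))) (by decide +kernel)
theorem L606210 : W_3 (nat_lit 9) (nat_lit 0x1000580028000000000000000000000000000) (nat_lit 0x0) (nat_lit 0x74003b00fe003a001900078001c000a000000000000000) := Q_3 (nat_lit 147) (C_3 L605320 (C_3 L591237 (C_3 L606191 (C_3 L605298 (C_3 L606198 (C_3 L606209 N_3)))))) (by decide +kernel)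
theorem L606211 : W_3 (nat_lit 16) (nat_lit 0x1000180028000000000000000000000000000) (nat_lit 0x0) (nat_lit 0x1f800f801fe00fb00fe007e003d000f8001f000e000300000000000) := Q_3 (nat_lit 130) (C_3 L605321 (C_3 L591703 (C_3 L606190 (C_3 L605304 (C_3 L606210 N_3))))) (by decide +kernel)
theorem L606212 : W_3 (nat_lit 2) (nat_lit 0x400000001000780028000000000000000000000000000) (nat_lit 0x0) (nat_lit 0x800006000000000000000000000000000) := D_3 (nat_lit 110) (nat_lit 131) (nat_lit 109) (nat_lit 0) (nat_lit 12) (nat_lit 7) (nat_lit 0) (nat_lit 11) (nat_lit 7) (by decide +kernel)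
theorem L606213 : W_3 (nat_lit 3) (nat_lit 0x400000001000580028000000000000000000000000000) (nat_lit 0x0) (nat_lit 0xa00046000000000000000000000000000) := T_3 (nat_lit 129) (nat_lit 114) (nat_lit 2) (nat_lit 8) (nat_lit 7) L606212 (by decide +kernel)
theorem L606214 : W_3 (nat_lit 4) (nat_lit 0x1000580028000000000000000000000000000) (nat_lit 0x0) (nat_lit 0x400020000000a00046000000000000000000000000000) := T_3 (nat_lit 178) (nat_lit 161) (nat_lit 6) (nat_lit 8) (nat_lit 10) L606213 (by decide +kernel)
theorem L606215 : W_3 (nat_lit 2) (nat_lit 0x100058002c000000000000000000000000000) (nat_lit 0x0) (nat_lit 0xa00010000000000000000000000000000) := D_3 (nat_lit 131) (nat_lit 112) (nat_lit 129) (nat_lit 3) (nat_lit 8) (nat_lit 6) (nat_lit 0) (nat_lit 12) (nat_lit 7) (by decide +kernel)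
theorem L606216 : W_3 (nat_lit 2) (nat_lit 0x100058002c000000000000000000000000000) (nat_lit 0x0) (nat_lit 0xa00002000000000000000000000000000) := D_3 (nat_lit 129) (nat_lit 131) (nat_lit 109) (nat_lit 0) (nat_lit 12) (nat_lit 7) (nat_lit 0) (nat_lit 11) (nat_lit 7) (by decide +kernel)
theorem L606217 : W_3 (nat_lit 2) (nat_lit 0x4000000010005a003f000080000000000000000000000) (nat_lit 0x0) (nat_lit 0x3800000000000000000000000) := D_3 (nat_lit 96) (nat_lit 97) (nat_lit 95) (nat_lit 2) (nat_lit 8) (nat_lit 6) (nat_lit 2) (nat_lit 7) (nat_lit 6) (by decide +kernel)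
theorem L606218 : W_3 (nat_lit 3) (nat_lit 0x4000000010005a002f000080000000000000000000000) (nat_lit 0x0) (nat_lit 0x10003900000000000000000000000) := T_3 (nat_lit 112) (nat_lit 92) (nat_lit 0) (nat_lit 10) (nat_lit 6) L606217 (by decide +kernel)
theorem L606219 : W_3 (nat_lit 4) (nat_lit 0x4000000010005a002f000000000000000000000000000) (nat_lit 0x0) (nat_lit 0x100039c0000000000000000000000) := T_3 (nat_lit 91) (nat_lit 90) (nat_lit 0) (nat_lit 9) (nat_lit 6) L606218 (by decide +kernel)
theorem L606220 : W_3 (nat_lit 5) (nat_lit 0x40000000100058002f000000000000000000000000000) (nat_lit 0x0) (nat_lit 0x300100039c0000000000000000000000) := T_3 (nat_lit 125) (nat_lit 124) (nat_lit 1) (nat_lit 9) (nat_lit 6) L606219 (by decide +kernel)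
theorem L606221 : W_3 (nat_lit 6) (nat_lit 0x40000000100058002e000000000000000000000000000) (nat_lit 0x0) (nat_lit 0x300118039c0000000000000000000000) := T_3 (nat_lit 108) (nat_lit 107) (nat_lit 3) (nat_lit 5) (nat_lit 6) L606220 (by decide +kernel)
theorem L606222 : W_3 (nat_lit 7) (nat_lit 0x40000000100058002c000000000000000000000000000) (nat_lit 0x0) (nat_lit 0x2300138039c0000000000000000000000) := T_3 (nat_lit 109) (nat_lit 129) (nat_lit 0) (nat_lit 11) (nat_lit 7) L606221 (by decide +kernel)
theorem L606223 : W_3 (nat_lit 8) (nat_lit 0x100058002c000000000000000000000000000) (nat_lit 0x0) (nat_lit 0x4000200000002300138039c0000000000000000000000) := T_3 (nat_lit 178) (nat_lit 161) (nat_lit 6) (nat_lit 8) (nat_lit 10) L606222 (by decide +kernel)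
theorem L606224 : W_3 (nat_lit 9) (nat_lit 0x1000580028000000000000000000000000000) (nat_lit 0x0) (nat_lit 0x400120008000a300178039c0040000000000000000000) := Q_3 (nat_lit 110) (C_3 L606215 (C_3 L605334 (C_3 L606216 (C_3 L606223 N_3)))) (by decide +kernel)
theorem L606225 : W_3 (nat_lit 10) (nat_lit 0x1000180028000000000000000000000000000) (nat_lit 0x0) (nat_lit 0x400120008000e30057803bc0040000000000000000000) := Q_3 (nat_lit 130) (C_3 L606190 (C_3 L605281 (C_3 L606214 (C_3 L606224 N_3)))) (by decide +kernel)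
theorem L606226 : W_3 (nat_lit 2) (nat_lit 0x1000780028000000000000000000000000000) (nat_lit 0x0) (nat_lit 0x2000800004000000000000000000000000000) := D_3 (nat_lit 131) (nat_lit 145) (nat_lit 110) (nat_lit 1) (nat_lit 12) (nat_lit 7) (nat_lit 0) (nat_lit 12) (nat_lit 7) (by decide +kernel)
theorem L606227 : W_3 (nat_lit 3) (nat_lit 0x1000580028000000000000000000000000000) (nat_lit 0x0) (nat_lit 0x2000a00044000000000000000000000000000) := T_3 (nat_lit 129) (nat_lit 114) (nat_lit 2) (nat_lit 8) (nat_lit 7) L606226 (by decide +kernel)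
theorem L606228 : W_3 (nat_lit 2) (nat_lit 0x1000780028000000000000000000000000000) (nat_lit 0x0) (nat_lit 0x800006000000000000000000000000000) := D_3 (nat_lit 110) (nat_lit 131) (nat_lit 109) (nat_lit 0) (nat_lit 12) (nat_lit 7) (nat_lit 0) (nat_lit 11) (nat_lit 7) (by decide +kernel)
theorem L606229 : W_3 (nat_lit 3) (nat_lit 0x1000780038000000000000000000000000000) (nat_lit 0x0) (nat_lit 0x2000100018000000000000800000000000000000000000) := T_3 (nat_lit 147) (nat_lit 148) (nat_lit 3) (nat_lit 8) (nat_lit 7) L605172 (by decide +kernel)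
theorem L606230 : W_3 (nat_lit 4) (nat_lit 0x1000780038000000000000000000000000000) (nat_lit 0x0) (nat_lit 0x4000000006003000080004000000000000000) := T_3 (nat_lit 110) (nat_lit 109) (nat_lit 3) (nat_lit 7) (nat_lit 6) L604887 (by decide +kernel)
theorem L606231 : W_3 (nat_lit 5) (nat_lit 0x1000780028000000000000000000000000000) (nat_lit 0x0) (nat_lit 0x200010001c000000016003800080004000000000000000) := Q_3 (nat_lit 112) (C_3 L606229 (C_3 L606230 N_3)) (by decide +kernel)
theorem L606232 : W_3 (nat_lit 9) (nat_lit 0x1000580028000000000000000000000000000) (nat_lit 0x0) (nat_lit 0x300018007e003a00196003800080004000000000000000) := Q_3 (nat_lit 129) (C_3 L606226 (C_3 L606228 (C_3 L605226 (C_3 L606231 N_3)))) (by decide +kernel)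
theorem L606233 : W_3 (nat_lit 10) (nat_lit 0x1000180028000000000000000000000000000) (nat_lit 0x0) (nat_lit 0x300018007e003e001d6003b80080004000000000000000) := Q_3 (nat_lit 130) (C_3 L606190 (C_3 L605281 (C_3 L606227 (C_3 L606232 N_3)))) (by decide +kernel)
theorem L606234 : W_3 (nat_lit 2) (nat_lit 0x3000100018006e000000000000000000000000000) (nat_lit 0x0) (nat_lit 0x200001800000000000000000000000000) := D_3 (nat_lit 108) (nat_lit 129) (nat_lit 107) (nat_lit 3) (nat_lit 6) (nat_lit 6) (nat_lit 3) (nat_lit 5) (nat_lit 6) (by decide +kernel)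
theorem L606235 : W_3 (nat_lit 3) (nat_lit 0x3000100018006c000000000000000000000000000) (nat_lit 0x0) (nat_lit 0x200003800100000000000000000000000) := T_3 (nat_lit 109) (nat_lit 92) (nat_lit 4) (nat_lit 8) (nat_lit 9) L606234 (by decide +kernel)
theorem L606236 : W_3 (nat_lit 4) (nat_lit 0x2000100018006c000000000000000000000000000) (nat_lit 0x0) (nat_lit 0x200010000000200003800100000000000000000000000) := T_3 (nat_lit 160) (nat_lit 177) (nat_lit 5) (nat_lit 8) (nat_lit 6) L606235 (by decide +kernel)
theorem L606237 : W_3 (nat_lit 5) (nat_lit 0x100018006c000000000000000000000000000) (nat_lit 0x0) (nat_lit 0x600030000000200003800100000000000000000000000) := T_3 (nat_lit 161) (nat_lit 178) (nat_lit 6) (nat_lit 8) (nat_lit 10) L606236 (by decide +kernel)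
theorem L606238 : W_3 (nat_lit 6) (nat_lit 0x100018002c000000000000000000000000000) (nat_lit 0x0) (nat_lit 0x600030000000200053800100000000000000000000000) := T_3 (nat_lit 114) (nat_lit 112) (nat_lit 1) (nat_lit 12) (nat_lit 6) L606237 (by decide +kernel)
theorem L606239 : W_3 (nat_lit 5) (nat_lit 0x40000000100018002c000000000000000000000000000) (nat_lit 0x0) (nat_lit 0x200053803800000000000000000000000) := T_3 (nat_lit 112) (nat_lit 114) (nat_lit 1) (nat_lit 12) (nat_lit 6) L604599 (by decide +kernel)
theorem L606240 : W_3 (nat_lit 6) (nat_lit 0x100018002c000000000000000000000000000) (nat_lit 0x0) (nat_lit 0x400020000000200053803800000000000000000000000) := T_3 (nat_lit 178) (nat_lit 161) (nat_lit 6) (nat_lit 8) (nat_lit 10) L606239 (by decide +kernel)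
theorem L606241 : W_3 (nat_lit 7) (nat_lit 0x1000180028000000000000000000000000000) (nat_lit 0x0) (nat_lit 0x600030002000200057803b00018000800000000000000) := Q_3 (nat_lit 110) (C_3 L591011 (C_3 L591016 (C_3 L606238 (C_3 L606240 N_3)))) (by decide +kernel)
theorem L606242 : W_3 (nat_lit 5) (nat_lit 0x2000100078002c000000000000000000000000000) (nat_lit 0x0) (nat_lit 0x120009001e000000000001000000000000000000000000) := T_3 (nat_lit 147) (nat_lit 148) (nat_lit 3) (nat_lit 8) (nat_lit 7) L605372 (by decide +kernel)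
theorem L606243 : W_3 (nat_lit 6) (nat_lit 0x20001000780028000000000000000000000000000) (nat_lit 0x0) (nat_lit 0x120009001e000000006001000000000000000000000000) := T_3 (nat_lit 110) (nat_lit 109) (nat_lit 0) (nat_lit 11) (nat_lit 7) L606242 (by decide +kernel)
theorem L606244 : W_3 (nat_lit 7) (nat_lit 0x20001000580028000000000000000000000000000) (nat_lit 0x0) (nat_lit 0x120009001e000200046001000000000000000000000000) := T_3 (nat_lit 129) (nat_lit 114) (nat_lit 2) (nat_lit 8) (nat_lit 7) L606243 (by decide +kernel)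
theorem L606245 : W_3 (nat_lit 8) (nat_lit 0x1000580028000000000000000000000000000) (nat_lit 0x0) (nat_lit 0x16000b001e000200046001000000000000000000000000) := T_3 (nat_lit 161) (nat_lit 178) (nat_lit 6) (nat_lit 8) (nat_lit 10) L606244 (by decide +kernel)
theorem L606246 : W_3 (nat_lit 2) (nat_lit 0x400000001000f80028000000000000000000000000000) (nat_lit 0x0) (nat_lit 0x38000000000000000000000000000000000000) := D_3 (nat_lit 148) (nat_lit 147) (nat_lit 149) (nat_lit 3) (nat_lit 8) (nat_lit 7) (nat_lit 3) (nat_lit 9) (nat_lit 7) (by decide +kernel)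
theorem L606247 : W_3 (nat_lit 3) (nat_lit 0x400000001000780028000000000000000000000000000) (nat_lit 0x0) (nat_lit 0x3a000800000000000000000000000000000000) := T_3 (nat_lit 131) (nat_lit 145) (nat_lit 1) (nat_lit 12) (nat_lit 7) L606246 (by decide +kernel)
theorem L606248 : W_3 (nat_lit 4) (nat_lit 0x1000780028000000000000000000000000000) (nat_lit 0x0) (nat_lit 0x40002003a000800000000000000000000000000000000) := T_3 (nat_lit 178) (nat_lit 161) (nat_lit 6) (nat_lit 8) (nat_lit 10) L606247 (by decide +kernel)
theorem L606249 : W_3 (nat_lit 6) (nat_lit 0x9000780028000000000000000000000000000) (nat_lit 0x0) (nat_lit 0x16000b0006000000006001000000000000000000000000) := T_3 (nat_lit 161) (nat_lit 178) (nat_lit 6) (nat_lit 8) (nat_lit 10) L605373 (by decide +kernel)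
theorem L606250 : W_3 (nat_lit 7) (nat_lit 0x1000780028000000000000000000000000000) (nat_lit 0x0) (nat_lit 0x16000b001e000000006001000000000000000000000000) := T_3 (nat_lit 147) (nat_lit 148) (nat_lit 3) (nat_lit 8) (nat_lit 7) L606249 (by decide +kernel)
theorem L606251 : W_3 (nat_lit 8) (nat_lit 0x1000580028000000000000000000000000000) (nat_lit 0x0) (nat_lit 0x16000b003e000a00006001000000000000000000000000) := Q_3 (nat_lit 129) (C_3 L606226 (C_3 L606228 (C_3 L606248 (C_3 L606250 N_3)))) (by decide +kernel)
theorem L606252 : W_3 (nat_lit 14) (nat_lit 0x1000180028000000000000000000000000000) (nat_lit 0x0) (nat_lit 0x1f800f801fe00fb007e007e003c60078001c000e000200000000000) := Q_3 (nat_lit 130) (C_3 L606227 (C_3 L605304 (C_3 L606214 (C_3 L606245 (C_3 L606251 N_3))))) (by decide +kernel)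
theorem L606253 : W_3 (nat_lit 9) (nat_lit 0x1000180028000000000000000000000000000) (nat_lit 0x0) (nat_lit 0x16000b003e000e00056001300010000800000000000000) := Q_3 (nat_lit 130) (C_3 L606227 (C_3 L605315 (C_3 L606251 (C_3 L606214 (C_3 L606190 N_3))))) (by decide +kernel)
theorem L606449 : W_3 (nat_lit 2) (nat_lit 0x3400b00078002c000200000000000000000000000) (nat_lit 0x0) (nat_lit 0x10000100008000000000000000000) := D_3 (nat_lit 92) (nat_lit 75) (nat_lit 112) (nat_lit 4) (nat_lit 8) (nat_lit 8) (nat_lit 0) (nat_lit 11) (nat_lit 6) (by decide +kernel)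
theorem L606450 : W_3 (nat_lit 3) (nat_lit 0x3400b00078002c000000000000000000000000000) (nat_lit 0x0) (nat_lit 0x10000300018000000000000000000) := T_3 (nat_lit 93) (nat_lit 76) (nat_lit 7) (nat_lit 8) (nat_lit 4) L606449 (by decide +kernel)
theorem L606451 : W_3 (nat_lit 4) (nat_lit 0x3000b00078002c000000000000000000000000000) (nat_lit 0x0) (nat_lit 0xc000000000010000300018000000000000000000) := T_3 (nat_lit 158) (nat_lit 159) (nat_lit 2) (nat_lit 5) (nat_lit 9) L606450 (by decide +kernel)
theorem L606452 : W_3 (nat_lit 5) (nat_lit 0x3000900078002c000000000000000000000000000) (nat_lit 0x0) (nat_lit 0xc006000000010000300018000000000000000000) := T_3 (nat_lit 145) (nat_lit 146) (nat_lit 1) (nat_lit 11) (nat_lit 8) L606451 (by decide +kernel)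
theorem L606453 : W_3 (nat_lit 6) (nat_lit 0x2000900078002c000000000000000000000000000) (nat_lit 0x0) (nat_lit 0x20001c006000000010000300018000000000000000000) := T_3 (nat_lit 160) (nat_lit 177) (nat_lit 5) (nat_lit 8) (nat_lit 6) L606452 (by decide +kernel)
theorem L606454 : W_3 (nat_lit 7) (nat_lit 0x20009000780028000000000000000000000000000) (nat_lit 0x0) (nat_lit 0x20001c006000000016000300018000000000000000000) := T_3 (nat_lit 110) (nat_lit 109) (nat_lit 0) (nat_lit 11) (nat_lit 7) L606453 (by decide +kernel)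
theorem L606455 : W_3 (nat_lit 8) (nat_lit 0x20001000780028000000000000000000000000000) (nat_lit 0x0) (nat_lit 0x20001c01e000000016000300018000000000000000000) := T_3 (nat_lit 147) (nat_lit 148) (nat_lit 3) (nat_lit 8) (nat_lit 7) L606454 (by decide +kernel)
theorem L606456 : W_3 (nat_lit 9) (nat_lit 0x1000780028000000000000000000000000000) (nat_lit 0x0) (nat_lit 0x60003c01e000000016000300018000000000000000000) := T_3 (nat_lit 161) (nat_lit 178) (nat_lit 6) (nat_lit 8) (nat_lit 10) L606455 (by decide +kernel)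
theorem L606457 : W_3 (nat_lit 10) (nat_lit 0x1000580028000000000000000000000000000) (nat_lit 0x0) (nat_lit 0x60003c03e000a00016000300018000000000000000000) := Q_3 (nat_lit 129) (C_3 L606228 (C_3 L606248 (C_3 L606456 N_3))) (by decide +kernel)
theorem L606458 : W_3 (nat_lit 11) (nat_lit 0x1000180028000000000000000000000000000) (nat_lit 0x0) (nat_lit 0x60003c03e000e00056000300018000800000000000000) := Q_3 (nat_lit 130) (C_3 L606227 (C_3 L606214 (C_3 L606190 (C_3 L605315 (C_3 L606457 N_3))))) (by decide +kernel)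
theorem L606459 : W_3 (nat_lit 2) (nat_lit 0x100018002c000200000000000000000000000) (nat_lit 0x0) (nat_lit 0x10000100008000000000000000000) := D_3 (nat_lit 92) (nat_lit 112) (nat_lit 75) (nat_lit 0) (nat_lit 11) (nat_lit 6) (nat_lit 4) (nat_lit 8) (nat_lit 8) (by decide +kernel)
theorem L606460 : W_3 (nat_lit 3) (nat_lit 0x100018002c000000000000000000000000000) (nat_lit 0x0) (nat_lit 0x2000000010000300018000800000000000000) := Q_3 (nat_lit 93) (C_3 L606459 (C_3 L588751 N_3)) (by decide +kernel)
theorem L606461 : W_3 (nat_lit 2) (nat_lit 0x3000100018002e000000000000000000000000000) (nat_lit 0x0) (nat_lit 0x200001800000000000000000000000000) := D_3 (nat_lit 108) (nat_lit 129) (nat_lit 107) (nat_lit 3) (nat_lit 6) (nat_lit 6) (nat_lit 3) (nat_lit 5) (nat_lit 6) (by decide +kernel)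
theorem L606462 : W_3 (nat_lit 3) (nat_lit 0x3000100018002c000000000000000000000000000) (nat_lit 0x0) (nat_lit 0x200003800100000000000000000000000) := T_3 (nat_lit 109) (nat_lit 92) (nat_lit 4) (nat_lit 8) (nat_lit 9) L606461 (by decide +kernel)
theorem L606463 : W_3 (nat_lit 4) (nat_lit 0x2000100018002c000000000000000000000000000) (nat_lit 0x0) (nat_lit 0x200010000000200003800100000000000000000000000) := T_3 (nat_lit 160) (nat_lit 177) (nat_lit 5) (nat_lit 8) (nat_lit 6) L606462 (by decide +kernel)
theorem L606464 : W_3 (nat_lit 5) (nat_lit 0x100018002c000000000000000000000000000) (nat_lit 0x0) (nat_lit 0x600030000000200003800100000000000000000000000) := T_3 (nat_lit 161) (nat_lit 178) (nat_lit 6) (nat_lit 8) (nat_lit 10) L606463 (by decide +kernel)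
theorem L606465 : W_3 (nat_lit 6) (nat_lit 0x2000100058002c000000000000000000000000000) (nat_lit 0x0) (nat_lit 0x120009001e000200002001000000000000000000000000) := T_3 (nat_lit 129) (nat_lit 109) (nat_lit 0) (nat_lit 11) (nat_lit 7) L606242 (by decide +kernel)
theorem L606466 : W_3 (nat_lit 7) (nat_lit 0x100058002c000000000000000000000000000) (nat_lit 0x0) (nat_lit 0x16000b001e000200002001000000000000000000000000) := T_3 (nat_lit 161) (nat_lit 178) (nat_lit 6) (nat_lit 8) (nat_lit 10) L606465 (by decide +kernel)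
theorem L606467 : W_3 (nat_lit 8) (nat_lit 0x100018002c000000000000000000000000000) (nat_lit 0x0) (nat_lit 0x16001b001e000e00012003800040000000000000000000) := Q_3 (nat_lit 130) (C_3 L606216 (C_3 L605334 (C_3 L606215 (C_3 L606466 N_3)))) (by decide +kernel)
theorem L606468 : W_3 (nat_lit 9) (nat_lit 0x1000180028000000000000000000000000000) (nat_lit 0x0) (nat_lit 0x16001b001e000e00017803b00058000800000000000000) := Q_3 (nat_lit 110) (C_3 L591016 (C_3 L606460 (C_3 L606464 (C_3 L606467 N_3)))) (by decide +kernel)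
theorem L606469 : W_3 (nat_lit 17) (nat_lit 0x1000180008000000000000000000000000000) (nat_lit 0x0) (nat_lit 0x1f800f801fe00fbc0fe007e303f780fbc01f800e800300000000000) := Q_3 (nat_lit 113) (C_3 L606211 (C_3 L606225 (C_3 L606233 (C_3 L591017 (C_3 L606241 (C_3 L606252 (C_3 L606253 (C_3 L606458 (C_3 L606468 N_3))))))))) (by decide +kernel)
theorem L606470 : W_3 (nat_lit 2) (nat_lit 0x100018000c000200000000000000000000000) (nat_lit 0x0) (nat_lit 0x2000000000000000010000800000000000000) := D_3 (nat_lit 76) (nat_lit 145) (nat_lit 59) (nat_lit 7) (nat_lit 8) (nat_lit 4) (nat_lit 7) (nat_lit 8) (nat_lit 3) (by decide +kernel)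
theorem L606471 : W_3 (nat_lit 2) (nat_lit 0x100018000e000380020000000000000000000) (nat_lit 0x0) (nat_lit 0x600001000000000000000000000000000) := D_3 (nat_lit 129) (nat_lit 130) (nat_lit 108) (nat_lit 0) (nat_lit 11) (nat_lit 7) (nat_lit 3) (nat_lit 6) (nat_lit 6) (by decide +kernel)
theorem L606472 : W_3 (nat_lit 3) (nat_lit 0x100018000c000380020000000000000000000) (nat_lit 0x0) (nat_lit 0x600013000000000000000000000000000) := T_3 (nat_lit 109) (nat_lit 112) (nat_lit 0) (nat_lit 10) (nat_lit 6) L606471 (by decide +kernel)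
theorem L606473 : W_3 (nat_lit 4) (nat_lit 0x100018000c000300020000000000000000000) (nat_lit 0x0) (nat_lit 0x6000130000c0000000000000000000000) := T_3 (nat_lit 91) (nat_lit 90) (nat_lit 3) (nat_lit 5) (nat_lit 5) L606472 (by decide +kernel)
theorem L606474 : W_3 (nat_lit 5) (nat_lit 0x100018000c000200020000000000000000000) (nat_lit 0x0) (nat_lit 0x6000130001c0008000000000000000000) := T_3 (nat_lit 92) (nat_lit 75) (nat_lit 4) (nat_lit 8) (nat_lit 8) L606473 (by decide +kernel)
theorem L606475 : W_3 (nat_lit 6) (nat_lit 0x100018000c000200000000000000000000000) (nat_lit 0x0) (nat_lit 0x6000130005c0028000000000000000000) := T_3 (nat_lit 77) (nat_lit 94) (nat_lit 6) (nat_lit 8) (nat_lit 8) L606474 (by decide +kernel)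
theorem L606476 : W_3 (nat_lit 7) (nat_lit 0x100018000c000000000000000000000000000) (nat_lit 0x0) (nat_lit 0x20006000130007c0038001800000000000000) := Q_3 (nat_lit 93) (C_3 L567425 (C_3 L606470 (C_3 L606475 N_3))) (by decide +kernel)
theorem L606477 : W_3 (nat_lit 2) (nat_lit 0x100018003e000000020000000000000000000) (nat_lit 0x0) (nat_lit 0x3800000000000000000000000) := D_3 (nat_lit 96) (nat_lit 95) (nat_lit 97) (nat_lit 2) (nat_lit 7) (nat_lit 6) (nat_lit 2) (nat_lit 8) (nat_lit 6) (by decide +kernel)
theorem L606478 : W_3 (nat_lit 3) (nat_lit 0x100018001e000000020000000000000000000) (nat_lit 0x0) (nat_lit 0x60003800000000000000000000000) := T_3 (nat_lit 113) (nat_lit 114) (nat_lit 1) (nat_lit 12) (nat_lit 6) L606477 (by decide +kernel)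
theorem L606479 : W_3 (nat_lit 4) (nat_lit 0x100018001e000000000000000000000000000) (nat_lit 0x0) (nat_lit 0x60003c00020000000000000000000) := T_3 (nat_lit 77) (nat_lit 94) (nat_lit 5) (nat_lit 9) (nat_lit 4) L606478 (by decide +kernel)
theorem L606480 : W_3 (nat_lit 2) (nat_lit 0x100058001e000100000000000000000000000) (nat_lit 0x0) (nat_lit 0x800060000000000000000000000000000) := D_3 (nat_lit 113) (nat_lit 114) (nat_lit 131) (nat_lit 1) (nat_lit 12) (nat_lit 6) (nat_lit 3) (nat_lit 8) (nat_lit 6) (by decide +kernel)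
theorem L606481 : W_3 (nat_lit 3) (nat_lit 0x100018001e000100000000000000000000000) (nat_lit 0x0) (nat_lit 0xe00060000000000000000000000000000) := T_3 (nat_lit 130) (nat_lit 129) (nat_lit 3) (nat_lit 7) (nat_lit 6) L606480 (by decide +kernel)
theorem L606482 : W_3 (nat_lit 4) (nat_lit 0x100018001e000000000000000000000000000) (nat_lit 0x0) (nat_lit 0xe00060000180000000000000000000000) := T_3 (nat_lit 92) (nat_lit 91) (nat_lit 0) (nat_lit 10) (nat_lit 6) L606481 (by decide +kernel)
theorem L606483 : W_3 (nat_lit 2) (nat_lit 0x100058001e000d00000000400000000000000) (nat_lit 0x0) (nat_lit 0x2000000000000000040002000000000000000) := D_3 (nat_lit 78) (nat_lit 145) (nat_lit 61) (nat_lit 6) (nat_lit 9) (nat_lit 8) (nat_lit 5) (nat_lit 10) (nat_lit 3) (by decide +kernel)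
theorem L606484 : W_3 (nat_lit 3) (nat_lit 0x100058001e000500000000400000000000000) (nat_lit 0x0) (nat_lit 0x2000000000001800040002000000000000000) := T_3 (nat_lit 95) (nat_lit 96) (nat_lit 2) (nat_lit 7) (nat_lit 6) L606483 (by decide +kernel)
theorem L606485 : W_3 (nat_lit 4) (nat_lit 0x100058001e000100000000400000000000000) (nat_lit 0x0) (nat_lit 0x2000000000001c00060002000000000000000) := T_3 (nat_lit 94) (nat_lit 77) (nat_lit 5) (nat_lit 9) (nat_lit 4) L606484 (by decide +kernel)
theorem L606486 : W_3 (nat_lit 5) (nat_lit 0x100058001e000100000000000000000000000) (nat_lit 0x0) (nat_lit 0x2000000000001c00068002400000000000000) := T_3 (nat_lit 58) (nat_lit 75) (nat_lit 7) (nat_lit 7) (nat_lit 3) L606485 (by decide +kernel)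
theorem L606487 : W_3 (nat_lit 6) (nat_lit 0x100018001e000100000000000000000000000) (nat_lit 0x0) (nat_lit 0x2000600000001c00068002400000000000000) := T_3 (nat_lit 130) (nat_lit 129) (nat_lit 3) (nat_lit 7) (nat_lit 6) L606486 (by decide +kernel)
theorem L606488 : W_3 (nat_lit 7) (nat_lit 0x100018001e000000000000000000000000000) (nat_lit 0x0) (nat_lit 0x2000600000001d80068002400000000000000) := T_3 (nat_lit 92) (nat_lit 91) (nat_lit 0) (nat_lit 10) (nat_lit 6) L606487 (by decide +kernel)
theorem L606489 : W_3 (nat_lit 8) (nat_lit 0x100018000e000000000000000000000000000) (nat_lit 0x0) (nat_lit 0x2000e00070003d80068002400000000000000) := Q_3 (nat_lit 112) (C_3 L567195 (C_3 L606479 (C_3 L606482 (C_3 L606488 N_3)))) (by decide +kernel)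
theorem L606490 : W_3 (nat_lit 9) (nat_lit 0x100018000c000000000000000000000000000) (nat_lit 0x0) (nat_lit 0x2000e30073803dc0068002400000000000000) := Q_3 (nat_lit 109) (C_3 L602691 (C_3 L567203 (C_3 L606489 N_3))) (by decide +kernel)
theorem L606491 : W_3 (nat_lit 2) (nat_lit 0x100018000c000380020000000000000000000) (nat_lit 0x0) (nat_lit 0x32000000000000000000000000000) := D_3 (nat_lit 112) (nat_lit 113) (nat_lit 109) (nat_lit 0) (nat_lit 11) (nat_lit 6) (nat_lit 0) (nat_lit 10) (nat_lit 6) (by decide +kernel)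
theorem L606492 : W_3 (nat_lit 3) (nat_lit 0x100018000c000300020000000000000000000) (nat_lit 0x0) (nat_lit 0x320000c0000000000000000000000) := T_3 (nat_lit 91) (nat_lit 90) (nat_lit 3) (nat_lit 5) (nat_lit 5) L606491 (by decide +kernel)
theorem L606493 : W_3 (nat_lit 4) (nat_lit 0x100018000c000200020000000000000000000) (nat_lit 0x0) (nat_lit 0x320001c0008000000000000000000) := T_3 (nat_lit 92) (nat_lit 75) (nat_lit 4) (nat_lit 8) (nat_lit 8) L606492 (by decide +kernel)
theorem L606494 : W_3 (nat_lit 5) (nat_lit 0x100018000c000200000000000000000000000) (nat_lit 0x0) (nat_lit 0x320005c0028000000000000000000) := T_3 (nat_lit 77) (nat_lit 94) (nat_lit 6) (nat_lit 8) (nat_lit 8) L606493 (by decide +kernel)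
theorem L606495 : W_3 (nat_lit 6) (nat_lit 0x100018000c000000000000000000000000000) (nat_lit 0x0) (nat_lit 0x20000000320007c0038001800000000000000) := Q_3 (nat_lit 93) (C_3 L606470 (C_3 L567425 (C_3 L606494 N_3))) (by decide +kernel)
theorem L606496 : W_3 (nat_lit 2) (nat_lit 0xf00038000e000e00000000000000000000000) (nat_lit 0x0) (nat_lit 0x300000000000010000000000000000000000000000) := D_3 (nat_lit 164) (nat_lit 112) (nat_lit 165) (nat_lit 7) (nat_lit 10) (nat_lit 5) (nat_lit 3) (nat_lit 8) (nat_lit 8) (by decide +kernel)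
theorem L606497 : W_3 (nat_lit 3) (nat_lit 0x700038000e000e00000000000000000000000) (nat_lit 0x0) (nat_lit 0x300018000000010000000000000000000000000000) := T_3 (nat_lit 147) (nat_lit 148) (nat_lit 0) (nat_lit 12) (nat_lit 8) L606496 (by decide +kernel)
theorem L606498 : W_3 (nat_lit 4) (nat_lit 0x300038000e000e00000000000000000000000) (nat_lit 0x0) (nat_lit 0x38001c000000010000000000000000000000000000) := T_3 (nat_lit 146) (nat_lit 163) (nat_lit 7) (nat_lit 9) (nat_lit 5) L606497 (by decide +kernel)
theorem L606499 : W_3 (nat_lit 5) (nat_lit 0x100038000e000e00000000000000000000000) (nat_lit 0x0) (nat_lit 0x38001e000000010000000040000000000000000000) := T_3 (nat_lit 145) (nat_lit 78) (nat_lit 6) (nat_lit 9) (nat_lit 8) L606498 (by decide +kernel)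
theorem L606500 : W_3 (nat_lit 6) (nat_lit 0x100038000e000600000000000000000000000) (nat_lit 0x0) (nat_lit 0x38001e000000010001800040000000000000000000) := T_3 (nat_lit 95) (nat_lit 96) (nat_lit 1) (nat_lit 11) (nat_lit 5) L606499 (by decide +kernel)
theorem L606501 : W_3 (nat_lit 7) (nat_lit 0x100038000c000600000000000000000000000) (nat_lit 0x0) (nat_lit 0x38001e000000013001800040000000000000000000) := T_3 (nat_lit 109) (nat_lit 108) (nat_lit 3) (nat_lit 6) (nat_lit 6) L606500 (by decide +kernel)
theorem L606502 : W_3 (nat_lit 8) (nat_lit 0x100038000c000200000000000000000000000) (nat_lit 0x0) (nat_lit 0x38001e000000013001c00060000000000000000000) := T_3 (nat_lit 94) (nat_lit 77) (nat_lit 6) (nat_lit 8) (nat_lit 8) L606501 (by decide +kernel)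
theorem L606503 : W_3 (nat_lit 9) (nat_lit 0x100038000c000000000000000000000000000) (nat_lit 0x0) (nat_lit 0x38001e000000013001e00070001800000000000000) := Q_3 (nat_lit 93) (C_3 L567299 (C_3 L602492 (C_3 L606502 N_3))) (by decide +kernel)
theorem L606504 : W_3 (nat_lit 2) (nat_lit 0x1000b8003c0012000a0000000000000000000) (nat_lit 0x0) (nat_lit 0x80004000000000000800000000000000000000000) := D_3 (nat_lit 146) (nat_lit 163) (nat_lit 95) (nat_lit 6) (nat_lit 10) (nat_lit 9) (nat_lit 6) (nat_lit 10) (nat_lit 8) (by decide +kernel)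
theorem L606505 : W_3 (nat_lit 3) (nat_lit 0x1000b8003c001200020000000000000000000) (nat_lit 0x0) (nat_lit 0x80004000000000000800080004000000000000000) := T_3 (nat_lit 79) (nat_lit 62) (nat_lit 5) (nat_lit 11) (nat_lit 3) L606504 (by decide +kernel)
theorem L606506 : W_3 (nat_lit 4) (nat_lit 0x1000b8003c000200020000000000000000000) (nat_lit 0x0) (nat_lit 0x80004000000000003800080004000000000000000) := T_3 (nat_lit 96) (nat_lit 97) (nat_lit 2) (nat_lit 8) (nat_lit 6) L606505 (by decide +kernel)
theorem L606507 : W_3 (nat_lit 5) (nat_lit 0x1000b8003c000200000000000000000000000) (nat_lit 0x0) (nat_lit 0x80004000000000003c000a0004000000000000000) := T_3 (nat_lit 77) (nat_lit 94) (nat_lit 6) (nat_lit 8) (nat_lit 8) L606506 (by decide +kernel)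
theorem L606508 : W_3 (nat_lit 6) (nat_lit 0x1000b8001c000200000000000000000000000) (nat_lit 0x0) (nat_lit 0x80004000000060003c000a0004000000000000000) := T_3 (nat_lit 113) (nat_lit 114) (nat_lit 1) (nat_lit 12) (nat_lit 6) L606507 (by decide +kernel)
theorem L606509 : W_3 (nat_lit 7) (nat_lit 0x100038001c000200000000000000000000000) (nat_lit 0x0) (nat_lit 0x80004000c00060003c000a0004000000000000000) := T_3 (nat_lit 131) (nat_lit 130) (nat_lit 0) (nat_lit 12) (nat_lit 7) L606508 (by decide +kernel)
theorem L606510 : W_3 (nat_lit 2) (nat_lit 0x1000b8003c001e00080000000000000000000) (nat_lit 0x0) (nat_lit 0x2000000000000000040002000000000000000) := D_3 (nat_lit 78) (nat_lit 61) (nat_lit 145) (nat_lit 5) (nat_lit 10) (nat_lit 3) (nat_lit 6) (nat_lit 9) (nat_lit 8) (by decide +kernel)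
theorem L606511 : W_3 (nat_lit 3) (nat_lit 0x1000b8003c001600080000000000000000000) (nat_lit 0x0) (nat_lit 0x2000000000000800140002000000000000000) := T_3 (nat_lit 95) (nat_lit 80) (nat_lit 2) (nat_lit 8) (nat_lit 5) L606510 (by decide +kernel)
theorem L606512 : W_3 (nat_lit 4) (nat_lit 0x1000b8003c001600000000000000000000000) (nat_lit 0x0) (nat_lit 0x20000000000008001c0006000000000000000) := T_3 (nat_lit 79) (nat_lit 62) (nat_lit 5) (nat_lit 11) (nat_lit 3) L606511 (by decide +kernel)
theorem L606513 : W_3 (nat_lit 5) (nat_lit 0x1000b8003c001200000000000000000000000) (nat_lit 0x0) (nat_lit 0x2000000000000c001e0006000000000000000) := T_3 (nat_lit 94) (nat_lit 77) (nat_lit 6) (nat_lit 8) (nat_lit 8) L606512 (by decide +kernel)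
theorem L606514 : W_3 (nat_lit 6) (nat_lit 0x1000b8003c000200000000000000000000000) (nat_lit 0x0) (nat_lit 0x2000000000003c001e0006000000000000000) := T_3 (nat_lit 96) (nat_lit 97) (nat_lit 2) (nat_lit 8) (nat_lit 6) L606513 (by decide +kernel)
theorem L606515 : W_3 (nat_lit 7) (nat_lit 0x100038003c000200000000000000000000000) (nat_lit 0x0) (nat_lit 0x2000c00000003c001e0006000000000000000) := T_3 (nat_lit 131) (nat_lit 130) (nat_lit 3) (nat_lit 8) (nat_lit 6) L606514 (by decide +kernel)
theorem L606516 : W_3 (nat_lit 8) (nat_lit 0x100038001c000200000000000000000000000) (nat_lit 0x0) (nat_lit 0x2000c00060003c001e0006000000000000000) := T_3 (nat_lit 113) (nat_lit 114) (nat_lit 1) (nat_lit 12) (nat_lit 6) L606515 (by decide +kernel)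
theorem L606517 : W_3 (nat_lit 2) (nat_lit 0x100038003c0012000a0000000000000000000) (nat_lit 0x0) (nat_lit 0x80004000000000000800000000000000000000000) := D_3 (nat_lit 146) (nat_lit 163) (nat_lit 95) (nat_lit 6) (nat_lit 10) (nat_lit 9) (nat_lit 6) (nat_lit 10) (nat_lit 8) (by decide +kernel)
theorem L606518 : W_3 (nat_lit 3) (nat_lit 0x100038003c001200020000000000000000000) (nat_lit 0x0) (nat_lit 0x80004000000000000800080004000000000000000) := T_3 (nat_lit 79) (nat_lit 62) (nat_lit 5) (nat_lit 11) (nat_lit 3) L606517 (by decide +kernel)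
theorem L606519 : W_3 (nat_lit 4) (nat_lit 0x100038003c000200020000000000000000000) (nat_lit 0x0) (nat_lit 0x80004000000000003800080004000000000000000) := T_3 (nat_lit 96) (nat_lit 97) (nat_lit 2) (nat_lit 8) (nat_lit 6) L606518 (by decide +kernel)
theorem L606520 : W_3 (nat_lit 5) (nat_lit 0x100038003c000200000000000000000000000) (nat_lit 0x0) (nat_lit 0x80004000000000003c000a0004000000000000000) := T_3 (nat_lit 77) (nat_lit 94) (nat_lit 6) (nat_lit 8) (nat_lit 8) L606519 (by decide +kernel)
theorem L606521 : W_3 (nat_lit 6) (nat_lit 0x100038001c000200000000000000000000000) (nat_lit 0x0) (nat_lit 0x80004000000060003c000a0004000000000000000) := T_3 (nat_lit 113) (nat_lit 114) (nat_lit 1) (nat_lit 12) (nat_lit 6) L606520 (by decide +kernel)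
theorem L606522 : W_3 (nat_lit 2) (nat_lit 0x10000900078005c000200000000000000000000000) (nat_lit 0x0) (nat_lit 0x4000000000000800040000000000000000000) := D_3 (nat_lit 95) (nat_lit 78) (nat_lit 146) (nat_lit 7) (nat_lit 10) (nat_lit 4) (nat_lit 7) (nat_lit 10) (nat_lit 5) (by decide +kernel)
theorem L606523 : W_3 (nat_lit 3) (nat_lit 0x900078005c000200000000000000000000000) (nat_lit 0x0) (nat_lit 0x2000100004000000000000800040000000000000000000) := T_3 (nat_lit 164) (nat_lit 181) (nat_lit 4) (nat_lit 11) (nat_lit 10) L606522 (by decide +kernel)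
theorem L606524 : W_3 (nat_lit 4) (nat_lit 0x100078005c000200000000000000000000000) (nat_lit 0x0) (nat_lit 0x200010001c000000000000800040000000000000000000) := T_3 (nat_lit 147) (nat_lit 148) (nat_lit 3) (nat_lit 8) (nat_lit 7) L606523 (by decide +kernel)
theorem L606525 : W_3 (nat_lit 5) (nat_lit 0x100038005c000200000000000000000000000) (nat_lit 0x0) (nat_lit 0x200010001c000c00000000800040000000000000000000) := T_3 (nat_lit 130) (nat_lit 131) (nat_lit 0) (nat_lit 12) (nat_lit 7) L606524 (by decide +kernel)
theorem L606526 : W_3 (nat_lit 6) (nat_lit 0x100038001c000200000000000000000000000) (nat_lit 0x0) (nat_lit 0x200010001c000c00060000800040000000000000000000) := T_3 (nat_lit 114) (nat_lit 113) (nat_lit 1) (nat_lit 12) (nat_lit 6) L606525 (by decide +kernel)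
theorem L606527 : W_3 (nat_lit 2) (nat_lit 0x200000000900078003c001200020000000000000000000) (nat_lit 0x0) (nat_lit 0x4000000000000000080004000000000000000) := D_3 (nat_lit 79) (nat_lit 62) (nat_lit 146) (nat_lit 5) (nat_lit 11) (nat_lit 3) (nat_lit 5) (nat_lit 11) (nat_lit 4) (by decide +kernel)
theorem L606528 : W_3 (nat_lit 3) (nat_lit 0x200000000900078003c000200020000000000000000000) (nat_lit 0x0) (nat_lit 0x4000000000003000080004000000000000000) := T_3 (nat_lit 96) (nat_lit 97) (nat_lit 2) (nat_lit 8) (nat_lit 6) L606527 (by decide +kernel)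
theorem L606529 : W_3 (nat_lit 4) (nat_lit 0x900078003c000200020000000000000000000) (nat_lit 0x0) (nat_lit 0x2000100004000000000003000080004000000000000000) := T_3 (nat_lit 181) (nat_lit 164) (nat_lit 4) (nat_lit 11) (nat_lit 10) L606528 (by decide +kernel)
theorem L606530 : W_3 (nat_lit 5) (nat_lit 0x900078001c000200020000000000000000000) (nat_lit 0x0) (nat_lit 0x2000100004000000060003000080004000000000000000) := T_3 (nat_lit 113) (nat_lit 114) (nat_lit 2) (nat_lit 8) (nat_lit 7) L606529 (by decide +kernel)
theorem L606531 : W_3 (nat_lit 6) (nat_lit 0x100078001c000200020000000000000000000) (nat_lit 0x0) (nat_lit 0x200010001c000000060003000080004000000000000000) := T_3 (nat_lit 147) (nat_lit 148) (nat_lit 3) (nat_lit 8) (nat_lit 7) L606530 (by decide +kernel)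
theorem L606532 : W_3 (nat_lit 7) (nat_lit 0x100078001c000200000000000000000000000) (nat_lit 0x0) (nat_lit 0x200010001c0000000600034000a0004000000000000000) := T_3 (nat_lit 77) (nat_lit 94) (nat_lit 6) (nat_lit 8) (nat_lit 8) L606531 (by decide +kernel)
theorem L606533 : W_3 (nat_lit 8) (nat_lit 0x100038001c000200000000000000000000000) (nat_lit 0x0) (nat_lit 0x200010001c000c000600034000a0004000000000000000) := T_3 (nat_lit 130) (nat_lit 131) (nat_lit 0) (nat_lit 12) (nat_lit 7) L606532 (by decide +kernel)
theorem L606534 : W_3 (nat_lit 2) (nat_lit 0x10000900078001c000200020000000000000000000) (nat_lit 0x0) (nat_lit 0x4000000000000800040000000000000000000) := D_3 (nat_lit 95) (nat_lit 78) (nat_lit 146) (nat_lit 7) (nat_lit 10) (nat_lit 4) (nat_lit 7) (nat_lit 10) (nat_lit 5) (by decide +kernel)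
theorem L606535 : W_3 (nat_lit 3) (nat_lit 0x900078001c000200020000000000000000000) (nat_lit 0x0) (nat_lit 0x2000100004000000000000800040000000000000000000) := T_3 (nat_lit 164) (nat_lit 181) (nat_lit 4) (nat_lit 11) (nat_lit 10) L606534 (by decide +kernel)
theorem L606536 : W_3 (nat_lit 4) (nat_lit 0x100078001c000200020000000000000000000) (nat_lit 0x0) (nat_lit 0x200010001c000000000000800040000000000000000000) := T_3 (nat_lit 147) (nat_lit 148) (nat_lit 3) (nat_lit 8) (nat_lit 7) L606535 (by decide +kernel)
theorem L606537 : W_3 (nat_lit 5) (nat_lit 0x100038001c000200020000000000000000000) (nat_lit 0x0) (nat_lit 0x200010001c000c00000000800040000000000000000000) := T_3 (nat_lit 130) (nat_lit 131) (nat_lit 0) (nat_lit 12) (nat_lit 7) L606536 (by decide +kernel)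
theorem L606538 : W_3 (nat_lit 6) (nat_lit 0x100038001c000200000000000000000000000) (nat_lit 0x0) (nat_lit 0x200010001c000c00000000c00060000000000000000000) := T_3 (nat_lit 77) (nat_lit 94) (nat_lit 6) (nat_lit 8) (nat_lit 8) L606537 (by decide +kernel)
theorem L606539 : W_3 (nat_lit 9) (nat_lit 0x100038000c000200000000000000000000000) (nat_lit 0x0) (nat_lit 0x200018001e000c00070003c001e0006000000000000000) := Q_3 (nat_lit 112) (C_3 L606509 (C_3 L606516 (C_3 L606521 (C_3 L606526 (C_3 L606533 (C_3 L606538 N_3)))))) (by decide +kernel)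
theorem L606540 : W_3 (nat_lit 10) (nat_lit 0x100038000c000000000000000000000000000) (nat_lit 0x0) (nat_lit 0x200018001e000c00070003e001f0007800000000000000) := Q_3 (nat_lit 93) (C_3 L567299 (C_3 L602492 (C_3 L606539 N_3))) (by decide +kernel)
theorem L606541 : W_3 (nat_lit 11) (nat_lit 0x100018000c000000000000000000000000000) (nat_lit 0x0) (nat_lit 0x200038001e000e00073003e001f0007800000000000000) := Q_3 (nat_lit 129) (C_3 L606503 (C_3 L606540 (C_3 L567205 N_3))) (by decide +kernel)
theorem L606542 : W_3 (nat_lit 2) (nat_lit 0x100018000d000780000000000000000000000) (nat_lit 0x0) (nat_lit 0x200002000800000000000000000000000) := D_3 (nat_lit 109) (nat_lit 95) (nat_lit 129) (nat_lit 2) (nat_lit 6) (nat_lit 6) (nat_lit 3) (nat_lit 6) (nat_lit 6) (by decide +kernel)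
theorem L606543 : W_3 (nat_lit 3) (nat_lit 0x100018000c000780000000000000000000000) (nat_lit 0x0) (nat_lit 0x200003800800000000000000000000000) := T_3 (nat_lit 108) (nat_lit 107) (nat_lit 1) (nat_lit 9) (nat_lit 5) L606542 (by decide +kernel)
theorem L606544 : W_3 (nat_lit 4) (nat_lit 0x100018000c000700000000000000000000000) (nat_lit 0x0) (nat_lit 0x2000038008c0000000000000000000000) := T_3 (nat_lit 91) (nat_lit 90) (nat_lit 3) (nat_lit 5) (nat_lit 5) L606543 (by decide +kernel)
theorem L606545 : W_3 (nat_lit 5) (nat_lit 0x100018000c000600000000000000000000000) (nat_lit 0x0) (nat_lit 0x2000038009c0008000000000000000000) := T_3 (nat_lit 92) (nat_lit 75) (nat_lit 4) (nat_lit 8) (nat_lit 8) L606544 (by decide +kernel)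
theorem L606546 : W_3 (nat_lit 6) (nat_lit 0x100018000c000200000000000000000000000) (nat_lit 0x0) (nat_lit 0x200003800dc0028000000000000000000) := T_3 (nat_lit 94) (nat_lit 77) (nat_lit 6) (nat_lit 8) (nat_lit 8) L606545 (by decide +kernel)
theorem L606547 : W_3 (nat_lit 7) (nat_lit 0x100018000c000000000000000000000000000) (nat_lit 0x0) (nat_lit 0x2000200003800fc0038001800000000000000) := Q_3 (nat_lit 93) (C_3 L606470 (C_3 L567425 (C_3 L606546 N_3))) (by decide +kernel)
theorem L606548 : W_3 (nat_lit 3) (nat_lit 0x100018000c000600000000000000000000000) (nat_lit 0x0) (nat_lit 0x100001c0008000000000000000000) := T_3 (nat_lit 92) (nat_lit 75) (nat_lit 4) (nat_lit 8) (nat_lit 8) L567416 (by decide +kernel)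
theorem L606549 : W_3 (nat_lit 4) (nat_lit 0x100018000c000200000000000000000000000) (nat_lit 0x0) (nat_lit 0x100005c0028000000000000000000) := T_3 (nat_lit 94) (nat_lit 77) (nat_lit 6) (nat_lit 8) (nat_lit 8) L606548 (by decide +kernel)
theorem L606550 : W_3 (nat_lit 5) (nat_lit 0x100018000c000000000000000000000000000) (nat_lit 0x0) (nat_lit 0x20000000100007c0038001800000000000000) := Q_3 (nat_lit 93) (C_3 L606470 (C_3 L567425 (C_3 L606549 N_3))) (by decide +kernel)
theorem L606551 : W_3 (nat_lit 12) (nat_lit 0x1000180008000000000000000000000000000) (nat_lit 0x0) (nat_lit 0x200038001e000e30077803fc01f8007c00000000000000) := Q_3 (nat_lit 110) (C_3 L606476 (C_3 L567204 (C_3 L606490 (C_3 L606495 (C_3 L606541 (C_3 L606547 (C_3 L603044 (C_3 L606550 N_3)))))))) (by decide +kernel)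
theorem L606552 : W_3 (nat_lit 18) (nat_lit 0x1000180000000000000000000000000000000) (nat_lit 0x0) (nat_lit 0x1f800f801fe00fbc0fe007e303ff80ffc01f800fc00300000000000) := Q_3 (nat_lit 111) (C_3 L606469 (C_3 L527683 (C_3 L606551 (C_3 L568080 (C_3 L568090 N_3))))) (by decide +kernel)
theorem L609735 : W_3 (nat_lit 2) (nat_lit 0x200010003c000a000000000000000000000000000) (nat_lit 0x0) (nat_lit 0x4000100008000000000000000000) := D_3 (nat_lit 92) (nat_lit 75) (nat_lit 110) (nat_lit 7) (nat_lit 7) (nat_lit 4) (nat_lit 4) (nat_lit 8) (nat_lit 9) (by decide +kernel)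
theorem L609736 : W_3 (nat_lit 3) (nat_lit 0x200010003c0008000000000000000000000000000) (nat_lit 0x0) (nat_lit 0x7000100008000000000000000000) := T_3 (nat_lit 109) (nat_lit 108) (nat_lit 0) (nat_lit 10) (nat_lit 7) L609735 (by decide +kernel)
theorem L610829 : W_3 (nat_lit 2) (nat_lit 0x400000001000180038000000000000000000000000000) (nat_lit 0x0) (nat_lit 0x240004000000000000000000000000000) := D_3 (nat_lit 126) (nat_lit 110) (nat_lit 129) (nat_lit 1) (nat_lit 11) (nat_lit 6) (nat_lit 2) (nat_lit 7) (nat_lit 7) (by decide +kernel)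
theorem L610830 : W_3 (nat_lit 3) (nat_lit 0x400000001000180028000000000000000000000000000) (nat_lit 0x0) (nat_lit 0x240054000000000000000000000000000) := T_3 (nat_lit 112) (nat_lit 114) (nat_lit 1) (nat_lit 12) (nat_lit 6) L610829 (by decide +kernel)
theorem L610831 : W_3 (nat_lit 4) (nat_lit 0x1000180028000000000000000000000000000) (nat_lit 0x0) (nat_lit 0x400020000000240054000000000000000000000000000) := T_3 (nat_lit 178) (nat_lit 161) (nat_lit 6) (nat_lit 8) (nat_lit 10) L610830 (by decide +kernel)
theorem L610832 : W_3 (nat_lit 17) (nat_lit 0x1000180008000000000000000000000000000) (nat_lit 0x0) (nat_lit 0x1f800f801fe00fb00fe007e403f780fb801f800e800300000000000) := Q_3 (nat_lit 113) (C_3 L606241 (C_3 L606468 (C_3 L610831 (C_3 L606233 (C_3 L606211 (C_3 L591017 (C_3 L606252 N_3))))))) (by decide +kernel)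
theorem L610833 : W_3 (nat_lit 6) (nat_lit 0x1000380008000000000000000000000000000) (nat_lit 0x0) (nat_lit 0x7e001c401c7000000000000000000000000000) := Q_3 (nat_lit 130) (C_3 L605228 (C_3 L608227 (C_3 L605262 N_3))) (by decide +kernel)
theorem L610834 : W_3 (nat_lit 2) (nat_lit 0x10000000050003c001e000900020000000000000000000) (nat_lit 0x0) (nat_lit 0x40003000000000000000) := D_3 (nat_lit 78) (nat_lit 60) (nat_lit 61) (nat_lit 4) (nat_lit 10) (nat_lit 7) (nat_lit 5) (nat_lit 10) (nat_lit 3) (by decide +kernel)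
theorem L610835 : W_3 (nat_lit 3) (nat_lit 0x10000000050003c001e000100020000000000000000000) (nat_lit 0x0) (nat_lit 0x1800040003000000000000000) := T_3 (nat_lit 95) (nat_lit 96) (nat_lit 2) (nat_lit 7) (nat_lit 6) L610834 (by decide +kernel)
theorem L610836 : W_3 (nat_lit 4) (nat_lit 0x10000000050003c001a000100020000000000000000000) (nat_lit 0x0) (nat_lit 0x4001880040003000000000000000) := T_3 (nat_lit 110) (nat_lit 91) (nat_lit 0) (nat_lit 10) (nat_lit 6) L610835 (by decide +kernel)
theorem L610837 : W_3 (nat_lit 5) (nat_lit 0x10000000050003c001a000000020000000000000000000) (nat_lit 0x0) (nat_lit 0x4001980048003000000000000000) := T_3 (nat_lit 92) (nat_lit 75) (nat_lit 7) (nat_lit 7) (nat_lit 4) L610836 (by decide +kernel)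
theorem L610838 : W_3 (nat_lit 6) (nat_lit 0x10000000050003c0018000000020000000000000000000) (nat_lit 0x0) (nat_lit 0x7001980048003000000000000000) := T_3 (nat_lit 109) (nat_lit 108) (nat_lit 0) (nat_lit 10) (nat_lit 7) L610837 (by decide +kernel)
theorem L610839 : W_3 (nat_lit 7) (nat_lit 0x10000000050003c0008000000020000000000000000000) (nat_lit 0x0) (nat_lit 0x37001980048003000000000000000) := T_3 (nat_lit 112) (nat_lit 113) (nat_lit 2) (nat_lit 7) (nat_lit 7) L610838 (by decide +kernel)
theorem L610840 : W_3 (nat_lit 8) (nat_lit 0x1000000005000380008000000020000000000000000000) (nat_lit 0x0) (nat_lit 0x8000040037001980048003000000000000000) := T_3 (nat_lit 126) (nat_lit 147) (nat_lit 3) (nat_lit 7) (nat_lit 7) L610839 (by decide +kernel)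
theorem L610841 : W_3 (nat_lit 9) (nat_lit 0x5000380008000000020000000000000000000) (nat_lit 0x0) (nat_lit 0x1000080008000040037001980048003000000000000000) := T_3 (nat_lit 180) (nat_lit 163) (nat_lit 4) (nat_lit 10) (nat_lit 10) L610840 (by decide +kernel)
theorem L610842 : W_3 (nat_lit 10) (nat_lit 0x5000380008000000000000000000000000000) (nat_lit 0x0) (nat_lit 0x1000080008000040037001d80068003000000000000000) := T_3 (nat_lit 77) (nat_lit 94) (nat_lit 7) (nat_lit 9) (nat_lit 4) L610841 (by decide +kernel)
theorem L610846 : W_3 (nat_lit 5) (nat_lit 0x5000380008000000000000000000000000000) (nat_lit 0x0) (nat_lit 0x100008000a000040003000400020000000000000000000) := T_3 (nat_lit 126) (nat_lit 147) (nat_lit 3) (nat_lit 7) (nat_lit 7) L610845 (by decide +kernel)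
theorem L610849 : W_3 (nat_lit 2) (nat_lit 0x50003c001e000900020000000000000000000) (nat_lit 0x0) (nat_lit 0x40003000000000000000) := D_3 (nat_lit 78) (nat_lit 60) (nat_lit 61) (nat_lit 4) (nat_lit 10) (nat_lit 7) (nat_lit 5) (nat_lit 10) (nat_lit 3) (by decide +kernel)
theorem L610850 : W_3 (nat_lit 3) (nat_lit 0x50003c001e000100020000000000000000000) (nat_lit 0x0) (nat_lit 0x1800040003000000000000000) := T_3 (nat_lit 95) (nat_lit 96) (nat_lit 2) (nat_lit 7) (nat_lit 6) L610849 (by decide +kernel)
theorem L610851 : W_3 (nat_lit 4) (nat_lit 0x50003c001a000100020000000000000000000) (nat_lit 0x0) (nat_lit 0x4001880040003000000000000000) := T_3 (nat_lit 110) (nat_lit 91) (nat_lit 0) (nat_lit 10) (nat_lit 6) L610850 (by decide +kernel)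
theorem L610852 : W_3 (nat_lit 5) (nat_lit 0x50003c001a000000020000000000000000000) (nat_lit 0x0) (nat_lit 0x4001980048003000000000000000) := T_3 (nat_lit 92) (nat_lit 75) (nat_lit 7) (nat_lit 7) (nat_lit 4) L610851 (by decide +kernel)
theorem L610853 : W_3 (nat_lit 6) (nat_lit 0x50003c001a000000000000000000000000000) (nat_lit 0x0) (nat_lit 0x4001d80068003000000000000000) := T_3 (nat_lit 77) (nat_lit 94) (nat_lit 7) (nat_lit 9) (nat_lit 4) L610852 (by decide +kernel)
theorem L610854 : W_3 (nat_lit 7) (nat_lit 0x50003c0018000000000000000000000000000) (nat_lit 0x0) (nat_lit 0x7001d80068003000000000000000) := T_3 (nat_lit 109) (nat_lit 108) (nat_lit 0) (nat_lit 10) (nat_lit 7) L610853 (by decide +kernel)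
theorem L610855 : W_3 (nat_lit 8) (nat_lit 0x50003c0008000000000000000000000000000) (nat_lit 0x0) (nat_lit 0x37001d80068003000000000000000) := T_3 (nat_lit 112) (nat_lit 113) (nat_lit 2) (nat_lit 7) (nat_lit 7) L610854 (by decide +kernel)
theorem L610856 : W_3 (nat_lit 9) (nat_lit 0x5000380008000000000000000000000000000) (nat_lit 0x0) (nat_lit 0x8000040037001d80068003000000000000000) := T_3 (nat_lit 126) (nat_lit 147) (nat_lit 3) (nat_lit 7) (nat_lit 7) L610855 (by decide +kernel)
theorem L610857 : W_3 (nat_lit 11) (nat_lit 0x1000380008000000000000000000000000000) (nat_lit 0x0) (nat_lit 0x300018000e000040077001d80068003000000000000000) := Q_3 (nat_lit 146) (C_3 L608362 (C_3 L610842 (C_3 L610846 (C_3 L610848 (C_3 L610856 N_3))))) (by decide +kernel)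
theorem L610859 : W_3 (nat_lit 7) (nat_lit 0x1000380008000000000000000000000000000) (nat_lit 0x0) (nat_lit 0x200010007e001c001f6003b000d8004800000000000000) := Q_3 (nat_lit 130) (C_3 L605228 (C_3 L605380 (C_3 L605269 (C_3 L605262 N_3)))) (by decide +kernel)
theorem L610860 : W_3 (nat_lit 6) (nat_lit 0x1000380008000000000000000000000000000) (nat_lit 0x0) (nat_lit 0x72001c001f6000300018000800000000000000) := Q_3 (nat_lit 130) (C_3 L605228 (C_3 L605380 (C_3 L605262 N_3))) (by decide +kernel)
theorem L610861 : W_3 (nat_lit 2) (nat_lit 0xd00078000c000400000000000000000000000) (nat_lit 0x0) (nat_lit 0x80002000000010000000000000000000000000000) := D_3 (nat_lit 163) (nat_lit 145) (nat_lit 112) (nat_lit 7) (nat_lit 9) (nat_lit 5) (nat_lit 4) (nat_lit 10) (nat_lit 9) (by decide +kernel)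
theorem L610862 : W_3 (nat_lit 3) (nat_lit 0x900078000c000400000000000000000000000) (nat_lit 0x0) (nat_lit 0x80006000040010000000000000000000000000000) := T_3 (nat_lit 146) (nat_lit 126) (nat_lit 3) (nat_lit 7) (nat_lit 7) L610861 (by decide +kernel)
theorem L610863 : W_3 (nat_lit 4) (nat_lit 0x100078000c000400000000000000000000000) (nat_lit 0x0) (nat_lit 0x8001e000040010000000000000000000000000000) := T_3 (nat_lit 147) (nat_lit 148) (nat_lit 3) (nat_lit 8) (nat_lit 7) L610862 (by decide +kernel)
theorem L610864 : W_3 (nat_lit 5) (nat_lit 0x100038000c000400000000000000000000000) (nat_lit 0x0) (nat_lit 0x8001e000c40010000000000000000000000000000) := T_3 (nat_lit 130) (nat_lit 131) (nat_lit 0) (nat_lit 12) (nat_lit 7) L610863 (by decide +kernel)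
theorem L610865 : W_3 (nat_lit 6) (nat_lit 0x100038000c000000000000000000000000000) (nat_lit 0x0) (nat_lit 0x8001e000c40010000400020000000000000000000) := T_3 (nat_lit 94) (nat_lit 77) (nat_lit 5) (nat_lit 9) (nat_lit 4) L610864 (by decide +kernel)
theorem L610866 : W_3 (nat_lit 7) (nat_lit 0x1000380008000000000000000000000000000) (nat_lit 0x0) (nat_lit 0x8001e000c400178007c0038001c00000000000000) := Q_3 (nat_lit 110) (C_3 L610865 (C_3 L567304 (C_3 L603039 N_3))) (by decide +kernel)
theorem L610867 : W_3 (nat_lit 12) (nat_lit 0x1000180008000000000000000000000000000) (nat_lit 0x0) (nat_lit 0x300018007e001e401f7803fc00f8007c00000000000000) := Q_3 (nat_lit 129) (C_3 L610833 (C_3 L610857 (C_3 L610858 (C_3 L610859 (C_3 L610860 (C_3 L610866 N_3)))))) (by decide +kernel)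
theorem L610868 : W_3 (nat_lit 18) (nat_lit 0x1000180000000000000000000000000000000) (nat_lit 0x0) (nat_lit 0x1f800f801fe00fb00fe007e403ff80ffc01f800fc00300000000000) := Q_3 (nat_lit 111) (C_3 L610832 (C_3 L527683 (C_3 L610867 (C_3 L568080 (C_3 L568090 N_3))))) (by decide +kernel)
theorem L610991 : W_3 (nat_lit 5) (nat_lit 0x1000380018000000000000000000000000000) (nat_lit 0x0) (nat_lit 0x1e000c60004000000000000000000000000000) := T_3 (nat_lit 126) (nat_lit 125) (nat_lit 2) (nat_lit 6) (nat_lit 7) L568127 (by decide +kernel)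
theorem L611654 : W_3 (nat_lit 7) (nat_lit 0x10003a0018000800040000000000000000000) (nat_lit 0x0) (nat_lit 0xc001c000000030000b8005000000000000000) := T_3 (nat_lit 77) (nat_lit 60) (nat_lit 4) (nat_lit 10) (nat_lit 7) L552956 (by decide +kernel)
theorem L614155 : W_3 (nat_lit 5) (nat_lit 0x1000180038000000000000000000000000000) (nat_lit 0x0) (nat_lit 0x2000e00006003b00010000800000000000000) := Q_3 (nat_lit 110) (C_3 L604915 (C_3 L591010 N_3)) (by decide +kernel)
theorem L614156 : W_3 (nat_lit 6) (nat_lit 0x1000180028000000000000000000000000000) (nat_lit 0x0) (nat_lit 0x2000e60016003b00010000800000000000000) := Q_3 (nat_lit 112) (C_3 L586942 (C_3 L527712 (C_3 L614155 N_3))) (by decide +kernel)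
theorem L614157 : W_3 (nat_lit 17) (nat_lit 0x1000180008000000000000000000000000000) (nat_lit 0x0) (nat_lit 0x1f800f801fe00fb00fe007e603f600fb801f000e800300000000000) := Q_3 (nat_lit 113) (C_3 L610831 (C_3 L606233 (C_3 L606211 (C_3 L591018 (C_3 L606252 (C_3 L614156 N_3)))))) (by decide +kernel)
theorem L614158 : W_3 (nat_lit 6) (nat_lit 0x1000180018000000000000000000000000000) (nat_lit 0x0) (nat_lit 0x2000e00066003b00010000800000000000000) := T_3 (nat_lit 113) (nat_lit 114) (nat_lit 1) (nat_lit 12) (nat_lit 6) L614155 (by decide +kernel)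
theorem L614160 : W_3 (nat_lit 2) (nat_lit 0x10007a001c000200000000000000000000000) (nat_lit 0x0) (nat_lit 0x2000000000000000010000800000000000000) := D_3 (nat_lit 76) (nat_lit 59) (nat_lit 145) (nat_lit 7) (nat_lit 8) (nat_lit 3) (nat_lit 7) (nat_lit 8) (nat_lit 4) (by decide +kernel)
theorem L614161 : W_3 (nat_lit 3) (nat_lit 0x10007a0018000200000000000000000000000) (nat_lit 0x0) (nat_lit 0x2000000006000000010000800000000000000) := T_3 (nat_lit 110) (nat_lit 109) (nat_lit 3) (nat_lit 7) (nat_lit 6) L614160 (by decide +kernel)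
theorem L614162 : W_3 (nat_lit 4) (nat_lit 0x1000780018000200000000000000000000000) (nat_lit 0x0) (nat_lit 0x2000060006000000010000800000000000000) := T_3 (nat_lit 125) (nat_lit 126) (nat_lit 2) (nat_lit 6) (nat_lit 7) L614161 (by decide +kernel)
theorem L614163 : W_3 (nat_lit 2) (nat_lit 0x20000000090007a001c000200060000000000000000000) (nat_lit 0x0) (nat_lit 0x10001800000000000000) := D_3 (nat_lit 76) (nat_lit 59) (nat_lit 60) (nat_lit 7) (nat_lit 8) (nat_lit 3) (nat_lit 6) (nat_lit 8) (nat_lit 7) (by decide +kernel)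
theorem L614164 : W_3 (nat_lit 3) (nat_lit 0x20000000090007a001c000200040000000000000000000) (nat_lit 0x0) (nat_lit 0x400030001800000000000000) := T_3 (nat_lit 77) (nat_lit 94) (nat_lit 6) (nat_lit 8) (nat_lit 8) L614163 (by decide +kernel)
theorem L614165 : W_3 (nat_lit 4) (nat_lit 0x20000000090007a0018000200040000000000000000000) (nat_lit 0x0) (nat_lit 0x6000400030001800000000000000) := T_3 (nat_lit 110) (nat_lit 109) (nat_lit 3) (nat_lit 7) (nat_lit 6) L614164 (by decide +kernel)
theorem L614166 : W_3 (nat_lit 5) (nat_lit 0x90007a0018000200040000000000000000000) (nat_lit 0x0) (nat_lit 0x2000100000000000006000400030001800000000000000) := T_3 (nat_lit 181) (nat_lit 164) (nat_lit 4) (nat_lit 11) (nat_lit 10) L614165 (by decide +kernel)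
theorem L614167 : W_3 (nat_lit 6) (nat_lit 0x90007a0018000200000000000000000000000) (nat_lit 0x0) (nat_lit 0x2000100000000000006000c00070001800000000000000) := T_3 (nat_lit 78) (nat_lit 95) (nat_lit 7) (nat_lit 10) (nat_lit 4) L614166 (by decide +kernel)
theorem L614168 : W_3 (nat_lit 7) (nat_lit 0x9000780018000200000000000000000000000) (nat_lit 0x0) (nat_lit 0x2000100000000060006000c00070001800000000000000) := T_3 (nat_lit 125) (nat_lit 126) (nat_lit 2) (nat_lit 6) (nat_lit 7) L614167 (by decide +kernel)
theorem L614169 : W_3 (nat_lit 8) (nat_lit 0x1000780018000200000000000000000000000) (nat_lit 0x0) (nat_lit 0x2000100018000060006000c00070001800000000000000) := T_3 (nat_lit 147) (nat_lit 148) (nat_lit 3) (nat_lit 8) (nat_lit 7) L614168 (by decide +kernel)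
theorem L614170 : W_3 (nat_lit 2) (nat_lit 0x20000000090007a0018001e80110000000040000000000) (nat_lit 0x0) (nat_lit 0x6000200000000000000000000) := D_3 (nat_lit 97) (nat_lit 98) (nat_lit 81) (nat_lit 1) (nat_lit 13) (nat_lit 5) (nat_lit 2) (nat_lit 9) (nat_lit 5) (by decide +kernel)
theorem L614171 : W_3 (nat_lit 3) (nat_lit 0x20000000090007a0018001e80010000000040000000000) (nat_lit 0x0) (nat_lit 0x6000380000000000000000000) := T_3 (nat_lit 80) (nat_lit 79) (nat_lit 2) (nat_lit 8) (nat_lit 5) L614170 (by decide +kernel)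
theorem L614172 : W_3 (nat_lit 4) (nat_lit 0x20000000090007a0018001e80010000000000000000000) (nat_lit 0x0) (nat_lit 0x6000380000800040000000000) := T_3 (nat_lit 42) (nat_lit 59) (nat_lit 7) (nat_lit 8) (nat_lit 2) L614171 (by decide +kernel)
theorem L614173 : W_3 (nat_lit 5) (nat_lit 0x20000000090007a0018000e80010000000000000000000) (nat_lit 0x0) (nat_lit 0x7000388000800040000000000) := T_3 (nat_lit 96) (nat_lit 75) (nat_lit 0) (nat_lit 11) (nat_lit 5) L614172 (by decide +kernel)
theorem L614174 : W_3 (nat_lit 6) (nat_lit 0x20000000090007a0018000e80000000000000000000000) (nat_lit 0x0) (nat_lit 0x2000000000007000398000800040000000000) := T_3 (nat_lit 76) (nat_lit 145) (nat_lit 4) (nat_lit 9) (nat_lit 8) L614173 (by decide +kernel)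
theorem L614175 : W_3 (nat_lit 7) (nat_lit 0x90007a0018000e80000000000000000000000) (nat_lit 0x0) (nat_lit 0x2000100002000000000007000398000800040000000000) := T_3 (nat_lit 181) (nat_lit 164) (nat_lit 4) (nat_lit 11) (nat_lit 10) L614174 (by decide +kernel)
theorem L614176 : W_3 (nat_lit 8) (nat_lit 0x90007a0018000680000000000000000000000) (nat_lit 0x0) (nat_lit 0x20001000020000000000078003d8000800040000000000) := T_3 (nat_lit 95) (nat_lit 78) (nat_lit 7) (nat_lit 10) (nat_lit 4) L614175 (by decide +kernel)
theorem L614177 : W_3 (nat_lit 9) (nat_lit 0x90007a0018000600000000000000000000000) (nat_lit 0x0) (nat_lit 0x20001000020000000000079803d8000800040000000000) := T_3 (nat_lit 91) (nat_lit 92) (nat_lit 3) (nat_lit 6) (nat_lit 5) L614176 (by decide +kernel)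
theorem L614178 : W_3 (nat_lit 10) (nat_lit 0x10007a0018000600000000000000000000000) (nat_lit 0x0) (nat_lit 0x200010001a0000000000079803d8000800040000000000) := T_3 (nat_lit 147) (nat_lit 148) (nat_lit 3) (nat_lit 8) (nat_lit 7) L614177 (by decide +kernel)
theorem L614179 : W_3 (nat_lit 11) (nat_lit 0x10007a0018000200000000000000000000000) (nat_lit 0x0) (nat_lit 0x200010001a000000000007d803f8000800040000000000) := T_3 (nat_lit 94) (nat_lit 77) (nat_lit 5) (nat_lit 9) (nat_lit 4) L614178 (by decide +kernel)
theorem L614180 : W_3 (nat_lit 12) (nat_lit 0x1000780018000200000000000000000000000) (nat_lit 0x0) (nat_lit 0x200010001a000060000007d803f8000800040000000000) := T_3 (nat_lit 125) (nat_lit 126) (nat_lit 2) (nat_lit 6) (nat_lit 7) L614179 (by decide +kernel)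
theorem L614181 : W_3 (nat_lit 2) (nat_lit 0x100078001c000200020000000000000000000) (nat_lit 0x0) (nat_lit 0x10001800000000000000) := D_3 (nat_lit 76) (nat_lit 60) (nat_lit 59) (nat_lit 6) (nat_lit 8) (nat_lit 7) (nat_lit 7) (nat_lit 8) (nat_lit 3) (by decide +kernel)
theorem L614182 : W_3 (nat_lit 3) (nat_lit 0x1000780018000200020000000000000000000) (nat_lit 0x0) (nat_lit 0x6000000010001800000000000000) := T_3 (nat_lit 110) (nat_lit 109) (nat_lit 3) (nat_lit 7) (nat_lit 6) L614181 (by decide +kernel)
theorem L614183 : W_3 (nat_lit 4) (nat_lit 0x1000780018000200000000000000000000000) (nat_lit 0x0) (nat_lit 0x6000400030001800000000000000) := T_3 (nat_lit 77) (nat_lit 94) (nat_lit 5) (nat_lit 9) (nat_lit 4) L614182 (by decide +kernel)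
theorem L614184 : W_3 (nat_lit 2) (nat_lit 0x20000000090007a001c000600040000000000000000000) (nat_lit 0x0) (nat_lit 0x180008000000000000000000) := D_3 (nat_lit 92) (nat_lit 91) (nat_lit 75) (nat_lit 3) (nat_lit 6) (nat_lit 5) (nat_lit 4) (nat_lit 8) (nat_lit 8) (by decide +kernel)
theorem L614185 : W_3 (nat_lit 3) (nat_lit 0x20000000090007a0018000600040000000000000000000) (nat_lit 0x0) (nat_lit 0x6000180008000000000000000000) := T_3 (nat_lit 110) (nat_lit 109) (nat_lit 3) (nat_lit 7) (nat_lit 6) L614184 (by decide +kernel)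
theorem L614186 : W_3 (nat_lit 4) (nat_lit 0x20000000090007a0018000200040000000000000000000) (nat_lit 0x0) (nat_lit 0x6000580028000000000000000000) := T_3 (nat_lit 94) (nat_lit 77) (nat_lit 5) (nat_lit 9) (nat_lit 4) L614185 (by decide +kernel)
theorem L614187 : W_3 (nat_lit 5) (nat_lit 0x90007a0018000200040000000000000000000) (nat_lit 0x0) (nat_lit 0x2000100000000000006000580028000000000000000000) := T_3 (nat_lit 181) (nat_lit 164) (nat_lit 4) (nat_lit 11) (nat_lit 10) L614186 (by decide +kernel)
theorem L614188 : W_3 (nat_lit 6) (nat_lit 0x90007a0018000200000000000000000000000) (nat_lit 0x0) (nat_lit 0x2000100000000000006000d80068000000000000000000) := T_3 (nat_lit 78) (nat_lit 95) (nat_lit 7) (nat_lit 10) (nat_lit 4) L614187 (by decide +kernel)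
theorem L614189 : W_3 (nat_lit 7) (nat_lit 0x9000780018000200000000000000000000000) (nat_lit 0x0) (nat_lit 0x2000100000000060006000d80068000000000000000000) := T_3 (nat_lit 125) (nat_lit 126) (nat_lit 2) (nat_lit 6) (nat_lit 7) L614188 (by decide +kernel)
theorem L614190 : W_3 (nat_lit 8) (nat_lit 0x1000780018000200000000000000000000000) (nat_lit 0x0) (nat_lit 0x2000100018000060006000d80068000000000000000000) := T_3 (nat_lit 147) (nat_lit 148) (nat_lit 3) (nat_lit 8) (nat_lit 7) L614189 (by decide +kernel)
theorem L614191 : W_3 (nat_lit 13) (nat_lit 0x1000780018000000000000000000000000000) (nat_lit 0x0) (nat_lit 0x200010001a000060006007f803f8001800040000000000) := Q_3 (nat_lit 93) (C_3 L614162 (C_3 L614169 (C_3 L614180 (C_3 L614183 (C_3 L614190 N_3))))) (by decide +kernel)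
theorem L614192 : W_3 (nat_lit 14) (nat_lit 0x1000380018000000000000000000000000000) (nat_lit 0x0) (nat_lit 0x200010003a001c60006007f803f8001800040000000000) := Q_3 (nat_lit 130) (C_3 L604607 (C_3 L527758 (C_3 L614191 N_3))) (by decide +kernel)
theorem L614203 : W_3 (nat_lit 15) (nat_lit 0x1000180018000000000000000000000000000) (nat_lit 0x0) (nat_lit 0x200018003e001e60006007f803f8003800040000000000) := Q_3 (nat_lit 129) (C_3 L610991 (C_3 L529637 (C_3 L614159 (C_3 L614192 (C_3 L614202 N_3))))) (by decide +kernel)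
theorem L614204 : W_3 (nat_lit 16) (nat_lit 0x1000180008000000000000000000000000000) (nat_lit 0x0) (nat_lit 0x200018003e001e60076007f803f8003800040000000000) := Q_3 (nat_lit 112) (C_3 L586943 (C_3 L527713 (C_3 L614158 (C_3 L614203 N_3)))) (by decide +kernel)
theorem L614205 : W_3 (nat_lit 18) (nat_lit 0x1000180000000000000000000000000000000) (nat_lit 0x0) (nat_lit 0x1f800f801fe00fb00fe007e603fe00ff803f800f800340000000000) := Q_3 (nat_lit 111) (C_3 L614157 (C_3 L527683 (C_3 L614204 (C_3 L568080 (C_3 L568090 N_3))))) (by decide +kernel)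
theorem L614225 : W_3 (nat_lit 5) (nat_lit 0x20001000180004000000000000000000000000000) (nat_lit 0x0) (nat_lit 0x20001000000020000b800500000000000000000000000) := T_3 (nat_lit 111) (nat_lit 94) (nat_lit 6) (nat_lit 8) (nat_lit 9) L567319 (by decide +kernel)
theorem L614226 : W_3 (nat_lit 8) (nat_lit 0x20001000180000000000000000000000000000000) (nat_lit 0x0) (nat_lit 0x20001000200020000f800700038001c000a0000000000) := Q_3 (nat_lit 110) (C_3 L602411 (C_3 L602401 (C_3 L614225 (C_3 L19844 N_3)))) (by decide +kernel)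
theorem L614227 : W_3 (nat_lit 12) (nat_lit 0x1000180000000000000000000000000000000) (nat_lit 0x0) (nat_lit 0x2800ff803fc03bf00200024000f800700038001c000a0000000000) := Q_3 (nat_lit 161) (C_3 L586449 (C_3 L586445 (C_3 L614226 (C_3 L586447 (C_3 L586448 N_3))))) (by decide +kernel)
theorem L614228 : W_3 (nat_lit 9) (nat_lit 0x20001000180008000000000000000000000000000) (nat_lit 0x0) (nat_lit 0x70077803dc0000000000000000000000) := T_3 (nat_lit 110) (nat_lit 94) (nat_lit 6) (nat_lit 8) (nat_lit 9) L588273 (by decide +kernel)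
theorem L614229 : W_3 (nat_lit 2) (nat_lit 0x200050003c0018000000000000000000000000000) (nat_lit 0x0) (nat_lit 0x1000080000000000000000400000000000000000000000) := D_3 (nat_lit 163) (nat_lit 94) (nat_lit 180) (nat_lit 4) (nat_lit 10) (nat_lit 9) (nat_lit 4) (nat_lit 10) (nat_lit 10) (by decide +kernel)
theorem L614230 : W_3 (nat_lit 3) (nat_lit 0x200050003c0008000000000000000000000000000) (nat_lit 0x0) (nat_lit 0x1000080000000000030000400000000000000000000000) := T_3 (nat_lit 112) (nat_lit 113) (nat_lit 2) (nat_lit 7) (nat_lit 7) L614229 (by decide +kernel)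
theorem L614231 : W_3 (nat_lit 4) (nat_lit 0x200010003c0008000000000000000000000000000) (nat_lit 0x0) (nat_lit 0x100008000c000000030000400000000000000000000000) := T_3 (nat_lit 146) (nat_lit 147) (nat_lit 3) (nat_lit 7) (nat_lit 7) L614230 (by decide +kernel)
theorem L614232 : W_3 (nat_lit 2) (nat_lit 0x200090007c0008000000000000000000000000000) (nat_lit 0x0) (nat_lit 0x2000800000000400000000000000000000000) := D_3 (nat_lit 145) (nat_lit 94) (nat_lit 131) (nat_lit 5) (nat_lit 9) (nat_lit 5) (nat_lit 1) (nat_lit 12) (nat_lit 7) (by decide +kernel)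
theorem L614233 : W_3 (nat_lit 3) (nat_lit 0x200090003c0008000000000000000000000000000) (nat_lit 0x0) (nat_lit 0x12000c00000000400000000000000000000000) := T_3 (nat_lit 130) (nat_lit 148) (nat_lit 3) (nat_lit 8) (nat_lit 7) L614232 (by decide +kernel)
theorem L614234 : W_3 (nat_lit 4) (nat_lit 0x200010003c0008000000000000000000000000000) (nat_lit 0x0) (nat_lit 0x1e000c00000000400000000000000000000000) := T_3 (nat_lit 147) (nat_lit 146) (nat_lit 3) (nat_lit 7) (nat_lit 7) L614233 (by decide +kernel)
theorem L614235 : W_3 (nat_lit 7) (nat_lit 0x200010001c0008000000000000000000000000000) (nat_lit 0x0) (nat_lit 0x100008007e001e001f3000400000000000000000000000) := Q_3 (nat_lit 129) (C_3 L586440 (C_3 L614231 (C_3 L586366 (C_3 L614234 N_3)))) (by decide +kernel)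
theorem L614236 : W_3 (nat_lit 3) (nat_lit 0x200010001c0008000000000000000000000000000) (nat_lit 0x0) (nat_lit 0xe000020000000400000000000000000000000) := T_3 (nat_lit 145) (nat_lit 94) (nat_lit 5) (nat_lit 9) (nat_lit 5) L592926 (by decide +kernel)
theorem L614237 : W_3 (nat_lit 8) (nat_lit 0x20001000180008000000000000000000000000000) (nat_lit 0x0) (nat_lit 0x100008007e701e701f3c00400000000000000000000000) := Q_3 (nat_lit 126) (C_3 L602181 (C_3 L317826 (C_3 L614235 (C_3 L614236 N_3)))) (by decide +kernel)
theorem L614238 : W_3 (nat_lit 7) (nat_lit 0x200010001c0008000000000000000000000000000) (nat_lit 0x0) (nat_lit 0x1e001e001d7000100008000000000000000000) := Q_3 (nat_lit 129) (C_3 L609736 (C_3 L586440 N_3)) (by decide +kernel)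
theorem L614239 : W_3 (nat_lit 10) (nat_lit 0x20001000180008000000000000000000000000000) (nat_lit 0x0) (nat_lit 0x18001c01e701e701d7c00100008000000000000000000) := Q_3 (nat_lit 126) (C_3 L602181 (C_3 L317826 (C_3 L614238 (C_3 L602180 N_3)))) (by decide +kernel)
theorem L614240 : W_3 (nat_lit 11) (nat_lit 0x20001000180000000000000000000000000000000) (nat_lit 0x0) (nat_lit 0x118009c07e701e701ffc03dc0008000000000000000000) := Q_3 (nat_lit 111) (C_3 L568089 (C_3 L614228 (C_3 L614237 (C_3 L614239 N_3)))) (by decide +kernel)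
theorem L614241 : W_3 (nat_lit 12) (nat_lit 0x1000180000000000000000000000000000000) (nat_lit 0x0) (nat_lit 0x2800ff803fc03bf07e701e701ffc03dc0008000000000000000000) := Q_3 (nat_lit 161) (C_3 L586449 (C_3 L586445 (C_3 L614240 (C_3 L586448 (C_3 L586447 N_3))))) (by decide +kernel)
theorem L614340 : W_3 (nat_lit 8) (nat_lit 0x10001a0018000800040000000000000000000) (nat_lit 0x0) (nat_lit 0xe001e000000030000b8005000000000000000) := T_3 (nat_lit 129) (nat_lit 145) (nat_lit 5) (nat_lit 10) (nat_lit 4) L611654 (by decide +kernel)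
theorem L614341 : W_3 (nat_lit 9) (nat_lit 0x10001a0018000800000000000000000000000) (nat_lit 0x0) (nat_lit 0xe001e000000030000f8007000000000000000) := T_3 (nat_lit 78) (nat_lit 61) (nat_lit 5) (nat_lit 10) (nat_lit 3) L614340 (by decide +kernel)
theorem L614342 : W_3 (nat_lit 10) (nat_lit 0x1000180018000800000000000000000000000) (nat_lit 0x0) (nat_lit 0xe001e600000030000f8007000000000000000) := T_3 (nat_lit 125) (nat_lit 126) (nat_lit 2) (nat_lit 6) (nat_lit 7) L614341 (by decide +kernel)
theorem L614970 : W_3 (nat_lit 5) (nat_lit 0x1000780028000000000000000000000000000) (nat_lit 0x0) (nat_lit 0x14000a001c000040000001000000000000000000000000) := T_3 (nat_lit 178) (nat_lit 161) (nat_lit 6) (nat_lit 8) (nat_lit 10) L531342 (by decide +kernel)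
theorem L614971 : W_3 (nat_lit 6) (nat_lit 0x1000580028000000000000000000000000000) (nat_lit 0x0) (nat_lit 0x14000a003e000a40004001000000000000000000000000) := Q_3 (nat_lit 129) (C_3 L606248 (C_3 L614970 (C_3 L606226 N_3))) (by decide +kernel)
theorem L614972 : W_3 (nat_lit 14) (nat_lit 0x1000180028000000000000000000000000000) (nat_lit 0x0) (nat_lit 0x1f800f801fe00fb007e007e403c40078001c000e000200000000000) := Q_3 (nat_lit 130) (C_3 L606227 (C_3 L605304 (C_3 L532301 (C_3 L614971 N_3)))) (by decide +kernel)
theorem L614973 : W_3 (nat_lit 2) (nat_lit 0x40000000900078003c000000000000000000000000000) (nat_lit 0x0) (nat_lit 0x2000100000000000000000800000000000000000000000) := D_3 (nat_lit 164) (nat_lit 95) (nat_lit 181) (nat_lit 4) (nat_lit 11) (nat_lit 9) (nat_lit 4) (nat_lit 11) (nat_lit 10) (by decide +kernel)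
theorem L614974 : W_3 (nat_lit 3) (nat_lit 0x40000000100078003c000000000000000000000000000) (nat_lit 0x0) (nat_lit 0x2000100018000000000000800000000000000000000000) := T_3 (nat_lit 147) (nat_lit 148) (nat_lit 3) (nat_lit 8) (nat_lit 7) L614973 (by decide +kernel)
theorem L614975 : W_3 (nat_lit 4) (nat_lit 0x40000000100038003c000000000000000000000000000) (nat_lit 0x0) (nat_lit 0x2000100018000c00000000800000000000000000000000) := T_3 (nat_lit 130) (nat_lit 131) (nat_lit 3) (nat_lit 8) (nat_lit 6) L614974 (by decide +kernel)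
theorem L614976 : W_3 (nat_lit 5) (nat_lit 0x100038003c000000000000000000000000000) (nat_lit 0x0) (nat_lit 0x2400120018000c00000000800000000000000000000000) := T_3 (nat_lit 178) (nat_lit 161) (nat_lit 6) (nat_lit 8) (nat_lit 10) L614975 (by decide +kernel)
theorem L614977 : W_3 (nat_lit 6) (nat_lit 0x100018003c000000000000000000000000000) (nat_lit 0x0) (nat_lit 0x24001a001c000e00000003800080004000000000000000) := Q_3 (nat_lit 129) (C_3 L602480 (C_3 L604888 (C_3 L614976 N_3))) (by decide +kernel)
theorem L614978 : W_3 (nat_lit 7) (nat_lit 0x1000180038000000000000000000000000000) (nat_lit 0x0) (nat_lit 0x24001a001e000e00004003b00090004800000000000000) := Q_3 (nat_lit 110) (C_3 L614977 (C_3 L591010 N_3)) (by decide +kernel)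
theorem L614979 : W_3 (nat_lit 8) (nat_lit 0x1000180028000000000000000000000000000) (nat_lit 0x0) (nat_lit 0x24001a001e000e60014003b00090004800000000000000) := Q_3 (nat_lit 112) (C_3 L586942 (C_3 L527712 (C_3 L614978 N_3))) (by decide +kernel)
theorem L614980 : W_3 (nat_lit 17) (nat_lit 0x1000180008000000000000000000000000000) (nat_lit 0x0) (nat_lit 0x1f800f801fe00fb00fe007e603f400fb001f000e800300000000000) := Q_3 (nat_lit 113) (C_3 L606211 (C_3 L610831 (C_3 L591018 (C_3 L614972 (C_3 L614979 N_3))))) (by decide +kernel)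
theorem L614981 : W_3 (nat_lit 2) (nat_lit 0x500078003c001600000000000000000000000) (nat_lit 0x0) (nat_lit 0x2000000000000000010000800000000000000) := D_3 (nat_lit 76) (nat_lit 145) (nat_lit 59) (nat_lit 7) (nat_lit 8) (nat_lit 4) (nat_lit 7) (nat_lit 8) (nat_lit 3) (by decide +kernel)
theorem L614982 : W_3 (nat_lit 3) (nat_lit 0x500078003c001400000000000000000000000) (nat_lit 0x0) (nat_lit 0x2000000000000300010000800000000000000) := T_3 (nat_lit 93) (nat_lit 92) (nat_lit 0) (nat_lit 11) (nat_lit 6) L614981 (by decide +kernel)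
theorem L614983 : W_3 (nat_lit 4) (nat_lit 0x5000780038001400000000000000000000000) (nat_lit 0x0) (nat_lit 0x2000000004002300010000800000000000000) := T_3 (nat_lit 110) (nat_lit 97) (nat_lit 2) (nat_lit 8) (nat_lit 6) L614982 (by decide +kernel)
theorem L614984 : W_3 (nat_lit 5) (nat_lit 0x5000780038000400000000000000000000000) (nat_lit 0x0) (nat_lit 0x2000000004003300090000800000000000000) := T_3 (nat_lit 96) (nat_lit 79) (nat_lit 5) (nat_lit 11) (nat_lit 4) L614983 (by decide +kernel)
theorem L614985 : W_3 (nat_lit 6) (nat_lit 0x1000780038000400000000000000000000000) (nat_lit 0x0) (nat_lit 0x80006000000004003300090000800000000000000) := T_3 (nat_lit 146) (nat_lit 163) (nat_lit 4) (nat_lit 10) (nat_lit 9) L614984 (by decide +kernel)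
theorem L614986 : W_3 (nat_lit 7) (nat_lit 0x1000780018000400000000000000000000000) (nat_lit 0x0) (nat_lit 0x80006000000064003300090000800000000000000) := T_3 (nat_lit 113) (nat_lit 114) (nat_lit 2) (nat_lit 8) (nat_lit 7) L614985 (by decide +kernel)
theorem L614987 : W_3 (nat_lit 8) (nat_lit 0x1000780018000000000000000000000000000) (nat_lit 0x0) (nat_lit 0x800060000000640037000b0000800000000000000) := T_3 (nat_lit 94) (nat_lit 77) (nat_lit 5) (nat_lit 9) (nat_lit 4) L614986 (by decide +kernel)
theorem L614988 : W_3 (nat_lit 9) (nat_lit 0x1000380018000000000000000000000000000) (nat_lit 0x0) (nat_lit 0x80006001c000640037000b0000800000000000000) := Q_3 (nat_lit 130) (C_3 L614193 (C_3 L604607 (C_3 L614987 N_3))) (by decide +kernel)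
theorem L614989 : W_3 (nat_lit 2) (nat_lit 0x100009000780018000000020000000000000000000) (nat_lit 0x0) (nat_lit 0x4000000000000800040000000000000000000) := D_3 (nat_lit 95) (nat_lit 78) (nat_lit 146) (nat_lit 7) (nat_lit 10) (nat_lit 4) (nat_lit 7) (nat_lit 10) (nat_lit 5) (by decide +kernel)
theorem L614990 : W_3 (nat_lit 3) (nat_lit 0x9000780018000000020000000000000000000) (nat_lit 0x0) (nat_lit 0x2000100004000000000000800040000000000000000000) := T_3 (nat_lit 164) (nat_lit 181) (nat_lit 4) (nat_lit 11) (nat_lit 10) L614989 (by decide +kernel)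
theorem L614991 : W_3 (nat_lit 4) (nat_lit 0x1000780018000000020000000000000000000) (nat_lit 0x0) (nat_lit 0x200010001c000000000000800040000000000000000000) := T_3 (nat_lit 147) (nat_lit 148) (nat_lit 3) (nat_lit 8) (nat_lit 7) L614990 (by decide +kernel)
theorem L614992 : W_3 (nat_lit 5) (nat_lit 0x1000780018000000000000000000000000000) (nat_lit 0x0) (nat_lit 0x200010001c000000000000c00060000000000000000000) := T_3 (nat_lit 77) (nat_lit 94) (nat_lit 5) (nat_lit 9) (nat_lit 4) L614991 (by decide +kernel)
theorem L614993 : W_3 (nat_lit 6) (nat_lit 0x1000380018000000000000000000000000000) (nat_lit 0x0) (nat_lit 0x200010001e001c00004000c00060000000000000000000) := Q_3 (nat_lit 130) (C_3 L614193 (C_3 L604607 (C_3 L614992 N_3))) (by decide +kernel)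
theorem L614994 : W_3 (nat_lit 10) (nat_lit 0x1000180018000000000000000000000000000) (nat_lit 0x0) (nat_lit 0x300018003e001e000e4003f000f0006800000000000000) := Q_3 (nat_lit 129) (C_3 L614214 (C_3 L603090 (C_3 L614988 (C_3 L614993 N_3)))) (by decide +kernel)
theorem L615269 : W_3 (nat_lit 2) (nat_lit 0x1000180018000800060000000000000000000) (nat_lit 0x0) (nat_lit 0x2000200000000000000001000000000000000) := D_3 (nat_lit 129) (nat_lit 60) (nat_lit 145) (nat_lit 4) (nat_lit 10) (nat_lit 7) (nat_lit 5) (nat_lit 10) (nat_lit 4) (by decide +kernel)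
theorem L615270 : W_3 (nat_lit 3) (nat_lit 0x1000180018000800020000000000000000000) (nat_lit 0x0) (nat_lit 0x2000200000000000040003000000000000000) := T_3 (nat_lit 78) (nat_lit 61) (nat_lit 5) (nat_lit 10) (nat_lit 3) L615269 (by decide +kernel)
theorem L615271 : W_3 (nat_lit 4) (nat_lit 0x1000180018000800000000000000000000000) (nat_lit 0x0) (nat_lit 0x2000200000000400060003000000000000000) := T_3 (nat_lit 77) (nat_lit 94) (nat_lit 5) (nat_lit 9) (nat_lit 4) L615270 (by decide +kernel)
theorem L615272 : W_3 (nat_lit 7) (nat_lit 0x10001a0018000800060000000000000000000) (nat_lit 0x0) (nat_lit 0xc001e00000003000098005000000000000000) := T_3 (nat_lit 129) (nat_lit 60) (nat_lit 4) (nat_lit 10) (nat_lit 7) L552956 (by decide +kernel)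
theorem L615273 : W_3 (nat_lit 8) (nat_lit 0x10001a0018000800020000000000000000000) (nat_lit 0x0) (nat_lit 0xc001e000000030000d8007000000000000000) := T_3 (nat_lit 78) (nat_lit 61) (nat_lit 5) (nat_lit 10) (nat_lit 3) L615272 (by decide +kernel)
theorem L615274 : W_3 (nat_lit 9) (nat_lit 0x10001a0018000800000000000000000000000) (nat_lit 0x0) (nat_lit 0xc001e000000034000f8007000000000000000) := T_3 (nat_lit 77) (nat_lit 94) (nat_lit 5) (nat_lit 9) (nat_lit 4) L615273 (by decide +kernel)
theorem L615275 : W_3 (nat_lit 10) (nat_lit 0x1000180018000800000000000000000000000) (nat_lit 0x0) (nat_lit 0xc001e600000034000f8007000000000000000) := T_3 (nat_lit 125) (nat_lit 126) (nat_lit 2) (nat_lit 6) (nat_lit 7) L615274 (by decide +kernel)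
theorem L615276 : W_3 (nat_lit 2) (nat_lit 0x1000180018000800040000000000000000000) (nat_lit 0x0) (nat_lit 0x2000000000000400020000000000000000000) := D_3 (nat_lit 94) (nat_lit 77) (nat_lit 145) (nat_lit 5) (nat_lit 9) (nat_lit 4) (nat_lit 6) (nat_lit 9) (nat_lit 8) (by decide +kernel)
theorem L615277 : W_3 (nat_lit 3) (nat_lit 0x1000180018000800000000000000000000000) (nat_lit 0x0) (nat_lit 0x2000000000000400060002000000000000000) := T_3 (nat_lit 78) (nat_lit 61) (nat_lit 5) (nat_lit 10) (nat_lit 3) L615276 (by decide +kernel)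
theorem L615278 : W_3 (nat_lit 2) (nat_lit 0x10001a0018000800040000000000000000000) (nat_lit 0x0) (nat_lit 0x2000200000000400000000000000000000000) := D_3 (nat_lit 145) (nat_lit 129) (nat_lit 94) (nat_lit 5) (nat_lit 10) (nat_lit 4) (nat_lit 6) (nat_lit 9) (nat_lit 8) (by decide +kernel)
theorem L615279 : W_3 (nat_lit 3) (nat_lit 0x10001a0018000800000000000000000000000) (nat_lit 0x0) (nat_lit 0x2000200000000400040002000000000000000) := T_3 (nat_lit 78) (nat_lit 61) (nat_lit 5) (nat_lit 10) (nat_lit 3) L615278 (by decide +kernel)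
theorem L615280 : W_3 (nat_lit 4) (nat_lit 0x1000180018000800000000000000000000000) (nat_lit 0x0) (nat_lit 0x2000260000000400040002000000000000000) := T_3 (nat_lit 125) (nat_lit 126) (nat_lit 2) (nat_lit 6) (nat_lit 7) L615279 (by decide +kernel)
theorem L615299 : W_3 (nat_lit 2) (nat_lit 0x50001c0018000800000000000000000000000) (nat_lit 0x0) (nat_lit 0xa000200000000000000000000000000000000) := D_3 (nat_lit 147) (nat_lit 145) (nat_lit 129) (nat_lit 0) (nat_lit 11) (nat_lit 8) (nat_lit 3) (nat_lit 7) (nat_lit 7) (by decide +kernel)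
theorem L615300 : W_3 (nat_lit 3) (nat_lit 0x5000180018000800000000000000000000000) (nat_lit 0x0) (nat_lit 0xa000260000000000000000000000000000000) := T_3 (nat_lit 126) (nat_lit 125) (nat_lit 2) (nat_lit 6) (nat_lit 7) L615299 (by decide +kernel)
theorem L615301 : W_3 (nat_lit 2) (nat_lit 0xd0003a0018000c00000000000000000000000) (nat_lit 0x0) (nat_lit 0x30000400000000000000000000000000000000) := D_3 (nat_lit 148) (nat_lit 130) (nat_lit 149) (nat_lit 3) (nat_lit 8) (nat_lit 7) (nat_lit 0) (nat_lit 13) (nat_lit 8) (by decide +kernel)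
theorem L615302 : W_3 (nat_lit 3) (nat_lit 0x50003a0018000c00000000000000000000000) (nat_lit 0x0) (nat_lit 0x100038000400000000000000000000000000000000) := T_3 (nat_lit 147) (nat_lit 164) (nat_lit 7) (nat_lit 10) (nat_lit 5) L615301 (by decide +kernel)
theorem L615303 : W_3 (nat_lit 4) (nat_lit 0x50001a0018000c00000000000000000000000) (nat_lit 0x0) (nat_lit 0x180038000600000000000000000000000000000000) := T_3 (nat_lit 129) (nat_lit 163) (nat_lit 4) (nat_lit 10) (nat_lit 9) L615302 (by decide +kernel)
theorem L615304 : W_3 (nat_lit 5) (nat_lit 0x50001a0018000800000000000000000000000) (nat_lit 0x0) (nat_lit 0x180038000600000000400020000000000000000000) := T_3 (nat_lit 94) (nat_lit 77) (nat_lit 5) (nat_lit 9) (nat_lit 4) L615303 (by decide +kernel)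
theorem L615305 : W_3 (nat_lit 6) (nat_lit 0x5000180018000800000000000000000000000) (nat_lit 0x0) (nat_lit 0x180038000660000000400020000000000000000000) := T_3 (nat_lit 125) (nat_lit 126) (nat_lit 2) (nat_lit 6) (nat_lit 7) L615304 (by decide +kernel)
theorem L615306 : W_3 (nat_lit 2) (nat_lit 0x70001a0018000f00000000000000000000000) (nat_lit 0x0) (nat_lit 0x400000000c000000000000000000) := D_3 (nat_lit 75) (nat_lit 74) (nat_lit 110) (nat_lit 0) (nat_lit 10) (nat_lit 5) (nat_lit 4) (nat_lit 8) (nat_lit 8) (by decide +kernel)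
theorem L615307 : W_3 (nat_lit 3) (nat_lit 0x70001a0018000e00000000000000000000000) (nat_lit 0x0) (nat_lit 0x400018000c000000000000000000) := T_3 (nat_lit 92) (nat_lit 91) (nat_lit 3) (nat_lit 6) (nat_lit 5) L615306 (by decide +kernel)
theorem L615308 : W_3 (nat_lit 4) (nat_lit 0x70001a0018000c00000000000000000000000) (nat_lit 0x0) (nat_lit 0x400038001c000000000000000000) := T_3 (nat_lit 93) (nat_lit 76) (nat_lit 4) (nat_lit 9) (nat_lit 8) L615307 (by decide +kernel)
theorem L615309 : W_3 (nat_lit 5) (nat_lit 0x50001a0018000c00000000000000000000000) (nat_lit 0x0) (nat_lit 0x8000200000000400038001c000000000000000000) := T_3 (nat_lit 145) (nat_lit 163) (nat_lit 7) (nat_lit 9) (nat_lit 5) L615308 (by decide +kernel)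
theorem L615310 : W_3 (nat_lit 6) (nat_lit 0x5000180018000c00000000000000000000000) (nat_lit 0x0) (nat_lit 0x8000200006000400038001c000000000000000000) := T_3 (nat_lit 125) (nat_lit 126) (nat_lit 2) (nat_lit 6) (nat_lit 7) L615309 (by decide +kernel)
theorem L615311 : W_3 (nat_lit 7) (nat_lit 0x5000180018000800000000000000000000000) (nat_lit 0x0) (nat_lit 0x8000200006000400078003c000000000000000000) := T_3 (nat_lit 94) (nat_lit 77) (nat_lit 5) (nat_lit 9) (nat_lit 4) L615310 (by decide +kernel)
theorem L615312 : W_3 (nat_lit 2) (nat_lit 0x5000180018000c00000000000000000000000) (nat_lit 0x0) (nat_lit 0x80002000200000000000000000000000000000000) := D_3 (nat_lit 163) (nat_lit 129) (nat_lit 145) (nat_lit 4) (nat_lit 10) (nat_lit 9) (nat_lit 7) (nat_lit 9) (nat_lit 5) (by decide +kernel)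
theorem L615313 : W_3 (nat_lit 3) (nat_lit 0x5000180018000800000000000000000000000) (nat_lit 0x0) (nat_lit 0x80002000200000000400020000000000000000000) := T_3 (nat_lit 94) (nat_lit 77) (nat_lit 5) (nat_lit 9) (nat_lit 4) L615312 (by decide +kernel)
theorem L615314 : W_3 (nat_lit 8) (nat_lit 0x1000180018000800000000000000000000000) (nat_lit 0x0) (nat_lit 0x18003e00066000400078003c000000000000000000) := Q_3 (nat_lit 146) (C_3 L615300 (C_3 L615305 (C_3 L615311 (C_3 L615313 N_3)))) (by decide +kernel)
theorem L615315 : W_3 (nat_lit 11) (nat_lit 0x1000180018000000000000000000000000000) (nat_lit 0x0) (nat_lit 0x18003e001e60004003f800fc007000000000000000) := Q_3 (nat_lit 95) (C_3 L615271 (C_3 L615275 (C_3 L615277 (C_3 L615280 (C_3 L614342 (C_3 L615314 N_3)))))) (by decide +kernel)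
theorem L615316 : W_3 (nat_lit 12) (nat_lit 0x1000180008000000000000000000000000000) (nat_lit 0x0) (nat_lit 0x300018003e001e600f4003f800fc007800000000000000) := Q_3 (nat_lit 112) (C_3 L614994 (C_3 L586943 (C_3 L527713 (C_3 L615315 N_3)))) (by decide +kernel)
theorem L615317 : W_3 (nat_lit 18) (nat_lit 0x1000180000000000000000000000000000000) (nat_lit 0x0) (nat_lit 0x1f800f801fe00fb00fe007e603fc00ff801fc00f800300000000000) := Q_3 (nat_lit 111) (C_3 L614980 (C_3 L527683 (C_3 L615316 (C_3 L568080 (C_3 L568090 N_3))))) (by decide +kernel)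
theorem L615318 : W_3 (nat_lit 10) (nat_lit 0x1000180000000000000000000000000000000) (nat_lit 0x0) (nat_lit 0x78003c03e700e700ffc00100008000000000000000000) := Q_3 (nat_lit 126) (C_3 L568046 (C_3 L568077 (C_3 L568047 (C_3 L499594 (C_3 L499608 (C_3 L568076 N_3)))))) (by decide +kernel)
theorem L615319 : W_3 (nat_lit 19) (nat_lit 0x1000080000000000000000000000000000000) (nat_lit 0x0) (nat_lit 0x1f800ff81ffe0fbf0fe707f783ffe0ffe07fd00fc003e001d000000) := Q_3 (nat_lit 128) (C_3 L527681 (C_3 L568042 (C_3 L568078 (C_3 L568147 (C_3 L586450 (C_3 L586457 (C_3 L602413 (C_3 L606552 (C_3 L610868 (C_3 L614205 (C_3 L614224 (C_3 L614227 (C_3 L614241 (C_3 L615317 (C_3 L615318 N_3))))))))))))))) (by decide +kernel)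
theorem L615381 : W_3 (nat_lit 3) (nat_lit 0x58000e0002000380000000000000000000000) (nat_lit 0x0) (nat_lit 0x10000000000001c00400000000000000000000000) := T_3 (nat_lit 108) (nat_lit 160) (nat_lit 4) (nat_lit 7) (nat_lit 9) L615380 (by decide +kernel)
theorem L615382 : W_3 (nat_lit 4) (nat_lit 0x58000e0002000180000000000000000000000) (nat_lit 0x0) (nat_lit 0x10000000000001c00600010000000000000000000) := T_3 (nat_lit 93) (nat_lit 76) (nat_lit 6) (nat_lit 7) (nat_lit 8) L615381 (by decide +kernel)
theorem L615383 : W_3 (nat_lit 5) (nat_lit 0x58000e0002000100000000000000000000000) (nat_lit 0x0) (nat_lit 0x10000000000001c00680014000000000000000000) := T_3 (nat_lit 91) (nat_lit 74) (nat_lit 4) (nat_lit 7) (nat_lit 8) L615382 (by decide +kernel)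
theorem L615384 : W_3 (nat_lit 6) (nat_lit 0x18000e0002000100000000000000000000000) (nat_lit 0x0) (nat_lit 0x10006000000001c00680014000000000000000000) := T_3 (nat_lit 146) (nat_lit 145) (nat_lit 0) (nat_lit 10) (nat_lit 8) L615383 (by decide +kernel)
theorem L615385 : W_3 (nat_lit 7) (nat_lit 0x18000e0002000000000000000000000000000) (nat_lit 0x0) (nat_lit 0x10006000000001c0078001c000000000000000000) := T_3 (nat_lit 92) (nat_lit 75) (nat_lit 7) (nat_lit 7) (nat_lit 4) L615384 (by decide +kernel)
theorem L615386 : W_3 (nat_lit 2) (nat_lit 0x1d000e0003000380000000000000000000000) (nat_lit 0x0) (nat_lit 0xc00400000000000000000000000) := D_3 (nat_lit 107) (nat_lit 106) (nat_lit 94) (nat_lit 3) (nat_lit 4) (nat_lit 6) (nat_lit 1) (nat_lit 9) (nat_lit 5) (by decide +kernel)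
theorem L615387 : W_3 (nat_lit 3) (nat_lit 0x1d000e0002000380000000000000000000000) (nat_lit 0x0) (nat_lit 0x10000000000001c00400000000000000000000000) := T_3 (nat_lit 108) (nat_lit 160) (nat_lit 7) (nat_lit 6) (nat_lit 5) L615386 (by decide +kernel)
theorem L615388 : W_3 (nat_lit 4) (nat_lit 0x1d000e0002000300000000000000000000000) (nat_lit 0x0) (nat_lit 0x10000000000001c00480004000000000000000000) := T_3 (nat_lit 91) (nat_lit 74) (nat_lit 4) (nat_lit 7) (nat_lit 8) L615387 (by decide +kernel)
theorem L615389 : W_3 (nat_lit 5) (nat_lit 0x1c000e0002000300000000000000000000000) (nat_lit 0x0) (nat_lit 0x10000300000001c00480004000000000000000000) := T_3 (nat_lit 140) (nat_lit 141) (nat_lit 2) (nat_lit 4) (nat_lit 8) L615388 (by decide +kernel)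
theorem L615390 : W_3 (nat_lit 6) (nat_lit 0x18000e0002000300000000000000000000000) (nat_lit 0x0) (nat_lit 0x18000700000001c00480004000000000000000000) := T_3 (nat_lit 142) (nat_lit 159) (nat_lit 5) (nat_lit 7) (nat_lit 5) L615389 (by decide +kernel)
theorem L615391 : W_3 (nat_lit 7) (nat_lit 0x18000e0002000100000000000000000000000) (nat_lit 0x0) (nat_lit 0x18000700000001c00680014000000000000000000) := T_3 (nat_lit 93) (nat_lit 76) (nat_lit 6) (nat_lit 7) (nat_lit 8) L615390 (by decide +kernel)
theorem L615392 : W_3 (nat_lit 8) (nat_lit 0x18000e0002000000000000000000000000000) (nat_lit 0x0) (nat_lit 0x18000700000001c0078001c000000000000000000) := T_3 (nat_lit 92) (nat_lit 75) (nat_lit 7) (nat_lit 7) (nat_lit 4) L615391 (by decide +kernel)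
theorem L615402 : W_3 (nat_lit 2) (nat_lit 0x5e000e0002000380000000000000000000000) (nat_lit 0x0) (nat_lit 0x6000000000001000000000000000000000000000) := D_3 (nat_lit 158) (nat_lit 157) (nat_lit 108) (nat_lit 1) (nat_lit 8) (nat_lit 8) (nat_lit 5) (nat_lit 6) (nat_lit 5) (by decide +kernel)
theorem L615403 : W_3 (nat_lit 3) (nat_lit 0x5e000e0002000300000000000000000000000) (nat_lit 0x0) (nat_lit 0x6000000000001000080004000000000000000000) := T_3 (nat_lit 91) (nat_lit 74) (nat_lit 4) (nat_lit 7) (nat_lit 8) L615402 (by decide +kernel)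
theorem L615404 : W_3 (nat_lit 4) (nat_lit 0x5c000e0002000300000000000000000000000) (nat_lit 0x0) (nat_lit 0x6000300000001000080004000000000000000000) := T_3 (nat_lit 141) (nat_lit 140) (nat_lit 2) (nat_lit 4) (nat_lit 8) L615403 (by decide +kernel)
theorem L615405 : W_3 (nat_lit 5) (nat_lit 0x58000e0002000300000000000000000000000) (nat_lit 0x0) (nat_lit 0xe000700000001000080004000000000000000000) := T_3 (nat_lit 142) (nat_lit 159) (nat_lit 5) (nat_lit 7) (nat_lit 5) L615404 (by decide +kernel)
theorem L615406 : W_3 (nat_lit 6) (nat_lit 0x58000e0002000100000000000000000000000) (nat_lit 0x0) (nat_lit 0xe000700000001000280014000000000000000000) := T_3 (nat_lit 93) (nat_lit 76) (nat_lit 6) (nat_lit 7) (nat_lit 8) L615405 (by decide +kernel)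
theorem L615407 : W_3 (nat_lit 7) (nat_lit 0x58000e0002000000000000000000000000000) (nat_lit 0x0) (nat_lit 0xe00070000000100038001c000000000000000000) := T_3 (nat_lit 92) (nat_lit 75) (nat_lit 7) (nat_lit 7) (nat_lit 4) L615406 (by decide +kernel)
theorem L615408 : W_3 (nat_lit 8) (nat_lit 0x18000e0002000000000000000000000000000) (nat_lit 0x0) (nat_lit 0xe00670000000100038001c000000000000000000) := T_3 (nat_lit 146) (nat_lit 145) (nat_lit 0) (nat_lit 10) (nat_lit 8) L615407 (by decide +kernel)
theorem L615414 : W_3 (nat_lit 2) (nat_lit 0x2000100058000e0002000000000000000000000000000) (nat_lit 0x0) (nat_lit 0x2000100008000000000000000000000000000000000000000) := D_3 (nat_lit 176) (nat_lit 159) (nat_lit 193) (nat_lit 5) (nat_lit 7) (nat_lit 6) (nat_lit 5) (nat_lit 7) (nat_lit 7) (by decide +kernel)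
theorem L615415 : W_3 (nat_lit 3) (nat_lit 0x100058000e0002000000000000000000000000000) (nat_lit 0x0) (nat_lit 0x6000300008000000000000000000000000000000000000000) := T_3 (nat_lit 177) (nat_lit 194) (nat_lit 6) (nat_lit 7) (nat_lit 11) L615414 (by decide +kernel)
theorem L615416 : W_3 (nat_lit 4) (nat_lit 0x100018000e0002000000000000000000000000000) (nat_lit 0x0) (nat_lit 0x6000300008006000000000000000000000000000000000000) := T_3 (nat_lit 146) (nat_lit 145) (nat_lit 0) (nat_lit 10) (nat_lit 8) L615415 (by decide +kernel)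
theorem L615486 : W_3 (nat_lit 3) (nat_lit 0x58000e0003000180000000000000000000000) (nat_lit 0x0) (nat_lit 0xc00600010000000000000000000) := T_3 (nat_lit 93) (nat_lit 76) (nat_lit 6) (nat_lit 7) (nat_lit 8) L615380 (by decide +kernel)
theorem L615487 : W_3 (nat_lit 4) (nat_lit 0x18000e0003000180000000000000000000000) (nat_lit 0x0) (nat_lit 0x6000000000c00600010000000000000000000) := T_3 (nat_lit 146) (nat_lit 145) (nat_lit 0) (nat_lit 10) (nat_lit 8) L615486 (by decide +kernel)
theorem L615488 : W_3 (nat_lit 5) (nat_lit 0x18000e0003000080000000000000000000000) (nat_lit 0x0) (nat_lit 0x6000000000c00700018000000000000000000) := T_3 (nat_lit 92) (nat_lit 75) (nat_lit 7) (nat_lit 7) (nat_lit 4) L615487 (by decide +kernel)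
theorem L615489 : W_3 (nat_lit 6) (nat_lit 0x10000e0003000080000000000000000000000) (nat_lit 0x0) (nat_lit 0x10006800000000c00700018000000000000000000) := T_3 (nat_lit 143) (nat_lit 160) (nat_lit 4) (nat_lit 7) (nat_lit 9) L615488 (by decide +kernel)
theorem L615490 : W_3 (nat_lit 7) (nat_lit 0x10000e0003000000000000000000000000000) (nat_lit 0x0) (nat_lit 0x10006800000000c0078001c000600000000000000) := Q_3 (nat_lit 91) (C_3 L615485 (C_3 L346070 (C_3 L615489 N_3))) (by decide +kernel)
theorem L615539 : W_3 (nat_lit 2) (nat_lit 0x18005c000e0003800000000000000000000000000) (nat_lit 0x0) (nat_lit 0x80006000000000000000000000000000000000000000) := D_3 (nat_lit 158) (nat_lit 157) (nat_lit 175) (nat_lit 2) (nat_lit 4) (nat_lit 9) (nat_lit 5) (nat_lit 6) (nat_lit 6) (by decide +kernel)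
theorem L615540 : W_3 (nat_lit 3) (nat_lit 0x180058000e0003800000000000000000000000000) (nat_lit 0x0) (nat_lit 0x80006000400000000000040000000000000000000000) := T_3 (nat_lit 142) (nat_lit 90) (nat_lit 4) (nat_lit 6) (nat_lit 9) L615539 (by decide +kernel)
theorem L615541 : W_3 (nat_lit 4) (nat_lit 0x100058000e0003800000000000000000000000000) (nat_lit 0x0) (nat_lit 0x18000e000400000000000040000000000000000000000) := T_3 (nat_lit 159) (nat_lit 176) (nat_lit 5) (nat_lit 7) (nat_lit 6) L615540 (by decide +kernel)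
theorem L615542 : W_3 (nat_lit 5) (nat_lit 0x100058000e0003000000000000000000000000000) (nat_lit 0x0) (nat_lit 0x18000e000400000000c00040000000000000000000000) := T_3 (nat_lit 107) (nat_lit 106) (nat_lit 3) (nat_lit 4) (nat_lit 6) L615541 (by decide +kernel)
theorem L615543 : W_3 (nat_lit 6) (nat_lit 0x100058000e0002000000000000000000000000000) (nat_lit 0x0) (nat_lit 0x18000e000400000001c000c0000000000000000000000) := T_3 (nat_lit 108) (nat_lit 91) (nat_lit 4) (nat_lit 7) (nat_lit 9) L615542 (by decide +kernel)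
theorem L615544 : W_3 (nat_lit 2) (nat_lit 0x100058000e0002000000000000000000000000000) (nat_lit 0x0) (nat_lit 0x4000200000000000000001000000000000000000000000000) := D_3 (nat_lit 177) (nat_lit 194) (nat_lit 108) (nat_lit 6) (nat_lit 7) (nat_lit 11) (nat_lit 4) (nat_lit 7) (nat_lit 10) (by decide +kernel)
theorem L615545 : W_3 (nat_lit 7) (nat_lit 0x58000e0002000000000000000000000000000) (nat_lit 0x0) (nat_lit 0x600038001e000400000001c000c0000000000000000000000) := Q_3 (nat_lit 160) (C_3 L615415 (C_3 L615543 (C_3 L615544 N_3))) (by decide +kernel)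
theorem L616027 : W_3 (nat_lit 4) (nat_lit 0x18000c0002000380000000000000000000000) (nat_lit 0x0) (nat_lit 0x6000300018000000000001000000000000000000000000000) := T_3 (nat_lit 160) (nat_lit 108) (nat_lit 4) (nat_lit 7) (nat_lit 9) L616026 (by decide +kernel)
theorem L616028 : W_3 (nat_lit 5) (nat_lit 0x18000c0002000300000000000000000000000) (nat_lit 0x0) (nat_lit 0x6000300018000000000001000080004000000000000000000) := T_3 (nat_lit 91) (nat_lit 74) (nat_lit 4) (nat_lit 7) (nat_lit 8) L616027 (by decide +kernel)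
theorem L616029 : W_3 (nat_lit 6) (nat_lit 0x18000c0002000100000000000000000000000) (nat_lit 0x0) (nat_lit 0x6000300018000000000001000280014000000000000000000) := T_3 (nat_lit 93) (nat_lit 76) (nat_lit 6) (nat_lit 7) (nat_lit 8) L616028 (by decide +kernel)
theorem L616030 : W_3 (nat_lit 7) (nat_lit 0x18000c0002000000000000000000000000000) (nat_lit 0x0) (nat_lit 0x600030001800000000000100038001c000000000000000000) := T_3 (nat_lit 92) (nat_lit 75) (nat_lit 7) (nat_lit 7) (nat_lit 4) L616029 (by decide +kernel)
theorem L616063 : W_3 (nat_lit 8) (nat_lit 0x18000e0002000000000000000000000000000) (nat_lit 0x0) (nat_lit 0x600038001e006400000001c000c0000000000000000000000) := T_3 (nat_lit 146) (nat_lit 145) (nat_lit 0) (nat_lit 10) (nat_lit 8) L615545 (by decide +kernel)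
theorem L616064 : W_3 (nat_lit 2) (nat_lit 0x4001a000f0003800000004000000000000000000) (nat_lit 0x0) (nat_lit 0x40002000400000000000000000000000000000000000) := D_3 (nat_lit 157) (nat_lit 174) (nat_lit 142) (nat_lit 5) (nat_lit 5) (nat_lit 6) (nat_lit 1) (nat_lit 8) (nat_lit 8) (by decide +kernel)
theorem L616065 : W_3 (nat_lit 3) (nat_lit 0x1a000f0003800000004000000000000000000) (nat_lit 0x0) (nat_lit 0xc0006000400000000000000000000000000000000000) := T_3 (nat_lit 158) (nat_lit 175) (nat_lit 6) (nat_lit 5) (nat_lit 10) L616064 (by decide +kernel)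
theorem L616066 : W_3 (nat_lit 4) (nat_lit 0x18000f0003800000004000000000000000000) (nat_lit 0x0) (nat_lit 0xc0006000700000000000000000000000000000000000) := T_3 (nat_lit 141) (nat_lit 140) (nat_lit 1) (nat_lit 8) (nat_lit 7) L616065 (by decide +kernel)
theorem L616067 : W_3 (nat_lit 5) (nat_lit 0x18000f0003000000004000000000000000000) (nat_lit 0x0) (nat_lit 0xc0006000700000000c00000000000000000000000000) := T_3 (nat_lit 107) (nat_lit 106) (nat_lit 3) (nat_lit 4) (nat_lit 6) L616066 (by decide +kernel)
theorem L616068 : W_3 (nat_lit 6) (nat_lit 0x18000f0003000000000000000000000000000) (nat_lit 0x0) (nat_lit 0xc0006000700000000c00080004000000000000000000) := T_3 (nat_lit 74) (nat_lit 91) (nat_lit 7) (nat_lit 6) (nat_lit 4) L616067 (by decide +kernel)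
theorem L616069 : W_3 (nat_lit 7) (nat_lit 0x18000e0003000000000000000000000000000) (nat_lit 0x0) (nat_lit 0xc0006000700018000c00080004000000000000000000) := T_3 (nat_lit 124) (nat_lit 123) (nat_lit 3) (nat_lit 4) (nat_lit 7) L616068 (by decide +kernel)
theorem L616079 : W_3 (nat_lit 2) (nat_lit 0x4000100018000e0002000000000000000000000000000) (nat_lit 0x0) (nat_lit 0xc000200000000000000000000000000000000000000000000) := D_3 (nat_lit 177) (nat_lit 194) (nat_lit 195) (nat_lit 6) (nat_lit 7) (nat_lit 11) (nat_lit 7) (nat_lit 7) (nat_lit 7) (by decide +kernel)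
theorem L616080 : W_3 (nat_lit 3) (nat_lit 0x100018000e0002000000000000000000000000000) (nat_lit 0x0) (nat_lit 0xc000600020000000000000000000000000000000000000000) := T_3 (nat_lit 178) (nat_lit 161) (nat_lit 7) (nat_lit 7) (nat_lit 6) L616079 (by decide +kernel)
theorem L616081 : W_3 (nat_lit 2) (nat_lit 0x380018000e0002000000000000000000000000000) (nat_lit 0x0) (nat_lit 0x6002000000000000000000000000000000000000) := D_3 (nat_lit 158) (nat_lit 145) (nat_lit 157) (nat_lit 2) (nat_lit 5) (nat_lit 9) (nat_lit 2) (nat_lit 4) (nat_lit 9) (by decide +kernel)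
theorem L616082 : W_3 (nat_lit 3) (nat_lit 0x300018000e0002000000000000000000000000000) (nat_lit 0x0) (nat_lit 0x10000e002000000000000000000000000000000000000) := T_3 (nat_lit 159) (nat_lit 176) (nat_lit 5) (nat_lit 7) (nat_lit 6) L616081 (by decide +kernel)
theorem L616083 : W_3 (nat_lit 4) (nat_lit 0x100018000e0002000000000000000000000000000) (nat_lit 0x0) (nat_lit 0x50002e002000000000000000000000000000000000000) := T_3 (nat_lit 161) (nat_lit 178) (nat_lit 7) (nat_lit 7) (nat_lit 6) L616082 (by decide +kernel)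
theorem L616084 : W_3 (nat_lit 5) (nat_lit 0x18000e0002000000000000000000000000000) (nat_lit 0x0) (nat_lit 0xe00070003e006000000000000000000000000000000000000) := Q_3 (nat_lit 160) (C_3 L616080 (C_3 L615416 (C_3 L616083 N_3))) (by decide +kernel)
theorem L616535 : W_3 (nat_lit 2) (nat_lit 0x18000e0002000000000000000000000000000) (nat_lit 0x0) (nat_lit 0x400020000000000000000100000000000000000000000) := D_3 (nat_lit 161) (nat_lit 178) (nat_lit 92) (nat_lit 4) (nat_lit 8) (nat_lit 10) (nat_lit 7) (nat_lit 7) (nat_lit 5) (by decide +kernel)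
theorem L616537 : W_3 (nat_lit 8) (nat_lit 0x18000e0000000000000000000000000000000) (nat_lit 0x0) (nat_lit 0xe00070003e006000000003c0078001c000000000000000000) := Q_3 (nat_lit 109) (C_3 L616535 (C_3 L615385 (C_3 L616084 N_3))) (by decide +kernel)
theorem L616538 : W_3 (nat_lit 2) (nat_lit 0x18000e0002000000000000000000000000000) (nat_lit 0x0) (nat_lit 0x20000000000000000100008000000000000000000) := D_3 (nat_lit 92) (nat_lit 161) (nat_lit 75) (nat_lit 7) (nat_lit 7) (nat_lit 5) (nat_lit 7) (nat_lit 7) (nat_lit 4) (by decide +kernel)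
theorem L616539 : W_3 (nat_lit 9) (nat_lit 0x18000e0000000000000000000000000000000) (nat_lit 0x0) (nat_lit 0x600038003e006700000003c007c001c000000000000000000) := Q_3 (nat_lit 109) (C_3 L615385 (C_3 L615392 (C_3 L616063 (C_3 L615408 (C_3 L616538 N_3))))) (by decide +kernel)
theorem L616709 : W_3 (nat_lit 2) (nat_lit 0x1c000e0003000080000000000000000000000) (nat_lit 0x0) (nat_lit 0x4000300000000000000000000000000000000000) := D_3 (nat_lit 141) (nat_lit 140) (nat_lit 158) (nat_lit 2) (nat_lit 4) (nat_lit 8) (nat_lit 5) (nat_lit 6) (nat_lit 5) (by decide +kernel)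
theorem L616710 : W_3 (nat_lit 3) (nat_lit 0x1c000e0003000000000000000000000000000) (nat_lit 0x0) (nat_lit 0x4000300000000000080004000000000000000000) := T_3 (nat_lit 91) (nat_lit 74) (nat_lit 7) (nat_lit 6) (nat_lit 4) L616709 (by decide +kernel)
theorem L617146 : W_3 (nat_lit 2) (nat_lit 0x8003c000e0000000000000000000000000000000) (nat_lit 0x0) (nat_lit 0x2000100000000000000002000000000000000000000000000) := D_3 (nat_lit 176) (nat_lit 109) (nat_lit 193) (nat_lit 6) (nat_lit 6) (nat_lit 10) (nat_lit 6) (nat_lit 6) (nat_lit 11) (by decide +kernel)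
theorem L617759 : W_3 (nat_lit 2) (nat_lit 0x100058000e0001000000000000000000000000000) (nat_lit 0x0) (nat_lit 0x400000000000080004000000000000000000) := D_3 (nat_lit 91) (nat_lit 74) (nat_lit 142) (nat_lit 7) (nat_lit 6) (nat_lit 4) (nat_lit 7) (nat_lit 6) (nat_lit 5) (by decide +kernel)
theorem L619126 : W_3 (nat_lit 2) (nat_lit 0x18000c0002000000000000000000000000000) (nat_lit 0x0) (nat_lit 0x400020000000000000000100000000000000000000000) := D_3 (nat_lit 161) (nat_lit 178) (nat_lit 92) (nat_lit 4) (nat_lit 8) (nat_lit 10) (nat_lit 7) (nat_lit 7) (nat_lit 5) (by decide +kernel)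
theorem L619127 : W_3 (nat_lit 2) (nat_lit 0x18001c0002000000000000000000000000000) (nat_lit 0x0) (nat_lit 0x400200001000000000000000000000000000) := D_3 (nat_lit 129) (nat_lit 108) (nat_lit 142) (nat_lit 0) (nat_lit 10) (nat_lit 7) (nat_lit 1) (nat_lit 10) (nat_lit 7) (by decide +kernel)
theorem L619129 : W_3 (nat_lit 2) (nat_lit 0x400000001c001e800b000000000000000000000000000) (nat_lit 0x0) (nat_lit 0x10000000000000000080004000000000000000000) := D_3 (nat_lit 91) (nat_lit 160) (nat_lit 74) (nat_lit 7) (nat_lit 6) (nat_lit 5) (nat_lit 7) (nat_lit 6) (nat_lit 4) (by decide +kernel)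
theorem L619130 : W_3 (nat_lit 3) (nat_lit 0x400000001c001e800a000000000000000000000000000) (nat_lit 0x0) (nat_lit 0x10000000000001800080004000000000000000000) := T_3 (nat_lit 108) (nat_lit 107) (nat_lit 0) (nat_lit 9) (nat_lit 7) L619129 (by decide +kernel)
theorem L619131 : W_3 (nat_lit 4) (nat_lit 0x4000000018001e800a000000000000000000000000000) (nat_lit 0x0) (nat_lit 0x10000600000001800080004000000000000000000) := T_3 (nat_lit 142) (nat_lit 141) (nat_lit 2) (nat_lit 5) (nat_lit 8) L619130 (by decide +kernel)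
theorem L619132 : W_3 (nat_lit 5) (nat_lit 0x4000000018001e8002000000000000000000000000000) (nat_lit 0x0) (nat_lit 0x10000600000019800080004000000000000000000) := T_3 (nat_lit 111) (nat_lit 112) (nat_lit 2) (nat_lit 6) (nat_lit 7) L619131 (by decide +kernel)
theorem L619133 : W_3 (nat_lit 6) (nat_lit 0x4000000018001e0002000000000000000000000000000) (nat_lit 0x0) (nat_lit 0x10000600018019800080004000000000000000000) := T_3 (nat_lit 123) (nat_lit 124) (nat_lit 3) (nat_lit 4) (nat_lit 7) L619132 (by decide +kernel)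
theorem L619134 : W_3 (nat_lit 7) (nat_lit 0x18001e0002000000000000000000000000000) (nat_lit 0x0) (nat_lit 0x400030000600018019800080004000000000000000000) := T_3 (nat_lit 178) (nat_lit 161) (nat_lit 4) (nat_lit 8) (nat_lit 10) L619133 (by decide +kernel)
theorem L619137 : W_3 (nat_lit 2) (nat_lit 0x4000000018001e800b000000000000000000000000000) (nat_lit 0x0) (nat_lit 0x10000000000000000080004000000000000000000) := D_3 (nat_lit 91) (nat_lit 74) (nat_lit 160) (nat_lit 7) (nat_lit 6) (nat_lit 4) (nat_lit 4) (nat_lit 7) (nat_lit 9) (by decide +kernel)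
theorem L619138 : W_3 (nat_lit 3) (nat_lit 0x4000000018001e800a000000000000000000000000000) (nat_lit 0x0) (nat_lit 0x10000000000001800080004000000000000000000) := T_3 (nat_lit 108) (nat_lit 107) (nat_lit 0) (nat_lit 9) (nat_lit 7) L619137 (by decide +kernel)
theorem L619139 : W_3 (nat_lit 4) (nat_lit 0x18001e800a000000000000000000000000000) (nat_lit 0x0) (nat_lit 0x400030000000000001800080004000000000000000000) := T_3 (nat_lit 178) (nat_lit 161) (nat_lit 6) (nat_lit 8) (nat_lit 10) L619138 (by decide +kernel)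
theorem L619140 : W_3 (nat_lit 5) (nat_lit 0x18001e8002000000000000000000000000000) (nat_lit 0x0) (nat_lit 0x400030000000000019800080004000000000000000000) := T_3 (nat_lit 111) (nat_lit 112) (nat_lit 2) (nat_lit 6) (nat_lit 7) L619139 (by decide +kernel)
theorem L619141 : W_3 (nat_lit 6) (nat_lit 0x18001e0002000000000000000000000000000) (nat_lit 0x0) (nat_lit 0x400030000000018019800080004000000000000000000) := T_3 (nat_lit 123) (nat_lit 124) (nat_lit 3) (nat_lit 4) (nat_lit 7) L619140 (by decide +kernel)
theorem L619144 : W_3 (nat_lit 8) (nat_lit 0x18001c0002000000000000000000000000000) (nat_lit 0x0) (nat_lit 0x400030000700038019800080004000000000000000000) := Q_3 (nat_lit 125) (C_3 L619134 (C_3 L619136 (C_3 L619141 (C_3 L619143 N_3)))) (by decide +kernel)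
theorem L619146 : W_3 (nat_lit 9) (nat_lit 0x18000c0002000000000000000000000000000) (nat_lit 0x0) (nat_lit 0x400030000700738019800080004000000000000000000) := Q_3 (nat_lit 128) (C_3 L619127 (C_3 L619128 (C_3 L619144 (C_3 L619145 N_3)))) (by decide +kernel)
theorem L619391 : W_3 (nat_lit 2) (nat_lit 0x18003c0002000000000000000000000000000) (nat_lit 0x0) (nat_lit 0x400020000000000000000100000000000000000000000) := D_3 (nat_lit 161) (nat_lit 178) (nat_lit 92) (nat_lit 4) (nat_lit 8) (nat_lit 10) (nat_lit 7) (nat_lit 7) (nat_lit 5) (by decide +kernel)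
theorem L619392 : W_3 (nat_lit 3) (nat_lit 0x18003c0000000000000000000000000000000) (nat_lit 0x0) (nat_lit 0x400020000000000003000100000000000000000000000) := T_3 (nat_lit 109) (nat_lit 108) (nat_lit 0) (nat_lit 10) (nat_lit 7) L619391 (by decide +kernel)
theorem L619393 : W_3 (nat_lit 4) (nat_lit 0x18001c0000000000000000000000000000000) (nat_lit 0x0) (nat_lit 0x400020000000600003000100000000000000000000000) := T_3 (nat_lit 129) (nat_lit 130) (nat_lit 1) (nat_lit 11) (nat_lit 7) L619392 (by decide +kernel)
theorem L619433 : W_3 (nat_lit 11) (nat_lit 0x18000c0000000000000000000000000000000) (nat_lit 0x0) (nat_lit 0xc0007c003e000700030003c0078001c000000000000000000) := Q_3 (nat_lit 109) (C_3 L619126 (C_3 L616043 (C_3 L619432 N_3))) (by decide +kernel)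
theorem L619437 : W_3 (nat_lit 2) (nat_lit 0x50000d001c001e0009000180020000000000000000000) (nat_lit 0x0) (nat_lit 0x4000a00000000000000000000000000000000000000000000) := D_3 (nat_lit 177) (nat_lit 179) (nat_lit 194) (nat_lit 0) (nat_lit 9) (nat_lit 10) (nat_lit 7) (nat_lit 6) (nat_lit 7) (by decide +kernel)
theorem L619438 : W_3 (nat_lit 3) (nat_lit 0x40000d001c001e0009000180020000000000000000000) (nat_lit 0x0) (nat_lit 0x6000b00000000000000000000000000000000000000000000) := T_3 (nat_lit 176) (nat_lit 193) (nat_lit 6) (nat_lit 6) (nat_lit 11) L619437 (by decide +kernel)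
theorem L619439 : W_3 (nat_lit 4) (nat_lit 0x40000c001c001e0009000180020000000000000000000) (nat_lit 0x0) (nat_lit 0x6000b00003000000000000000000000000000000000000000) := T_3 (nat_lit 156) (nat_lit 157) (nat_lit 2) (nat_lit 3) (nat_lit 9) L619438 (by decide +kernel)
theorem L619440 : W_3 (nat_lit 5) (nat_lit 0x400008001c001e0009000180020000000000000000000) (nat_lit 0x0) (nat_lit 0x6000b80007000000000000000000000000000000000000000) := T_3 (nat_lit 158) (nat_lit 175) (nat_lit 5) (nat_lit 6) (nat_lit 6) L619439 (by decide +kernel)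
theorem L619441 : W_3 (nat_lit 6) (nat_lit 0x400000001c001e0009000180020000000000000000000) (nat_lit 0x0) (nat_lit 0x6000b8000f000000000002000000000000000000000000000) := T_3 (nat_lit 159) (nat_lit 109) (nat_lit 6) (nat_lit 6) (nat_lit 9) L619440 (by decide +kernel)
theorem L619442 : W_3 (nat_lit 7) (nat_lit 0x400000001c001e0009000080020000000000000000000) (nat_lit 0x0) (nat_lit 0x6000b8000f000000000002000100008000000000000000000) := T_3 (nat_lit 92) (nat_lit 75) (nat_lit 6) (nat_lit 6) (nat_lit 8) L619441 (by decide +kernel)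
theorem L619443 : W_3 (nat_lit 8) (nat_lit 0x400000001c001e0009000000020000000000000000000) (nat_lit 0x0) (nat_lit 0x6000b8000f00000000000200018000c000000000000000000) := T_3 (nat_lit 91) (nat_lit 74) (nat_lit 7) (nat_lit 6) (nat_lit 4) L619442 (by decide +kernel)
theorem L619444 : W_3 (nat_lit 9) (nat_lit 0x400000001c001e0009000000000000000000000000000) (nat_lit 0x0) (nat_lit 0x6000b8000f00000000000200058002c000000000000000000) := T_3 (nat_lit 77) (nat_lit 94) (nat_lit 5) (nat_lit 9) (nat_lit 4) L619443 (by decide +kernel)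
theorem L619445 : W_3 (nat_lit 10) (nat_lit 0x400000001c001e0008000000000000000000000000000) (nat_lit 0x0) (nat_lit 0x6000b8000f00000000000380058002c000000000000000000) := T_3 (nat_lit 108) (nat_lit 107) (nat_lit 0) (nat_lit 9) (nat_lit 7) L619444 (by decide +kernel)
theorem L619446 : W_3 (nat_lit 11) (nat_lit 0x1c001e0008000000000000000000000000000) (nat_lit 0x0) (nat_lit 0x6000f8002f00000000000380058002c000000000000000000) := T_3 (nat_lit 178) (nat_lit 161) (nat_lit 6) (nat_lit 8) (nat_lit 10) L619445 (by decide +kernel)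
theorem L619447 : W_3 (nat_lit 12) (nat_lit 0x18001e0008000000000000000000000000000) (nat_lit 0x0) (nat_lit 0x6000f8002f00060000000380058002c000000000000000000) := T_3 (nat_lit 142) (nat_lit 141) (nat_lit 2) (nat_lit 5) (nat_lit 8) L619446 (by decide +kernel)
theorem L619448 : W_3 (nat_lit 13) (nat_lit 0x18001e0000000000000000000000000000000) (nat_lit 0x0) (nat_lit 0x6000f8002f00060000001b80058002c000000000000000000) := T_3 (nat_lit 111) (nat_lit 112) (nat_lit 2) (nat_lit 6) (nat_lit 7) L619447 (by decide +kernel)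
theorem L619449 : W_3 (nat_lit 14) (nat_lit 0x18001c0000000000000000000000000000000) (nat_lit 0x0) (nat_lit 0x6000f8002f00070003801bc0058002c000000000000000000) := Q_3 (nat_lit 125) (C_3 L619395 (C_3 L619436 (C_3 L619448 N_3))) (by decide +kernel)
theorem L619450 : W_3 (nat_lit 15) (nat_lit 0x18000c0000000000000000000000000000000) (nat_lit 0x0) (nat_lit 0x6000f8002f00070073801bc0058002c000000000000000000) := Q_3 (nat_lit 128) (C_3 L619393 (C_3 L619390 (C_3 L619449 N_3))) (by decide +kernel)
theorem L619463 : W_3 (nat_lit 9) (nat_lit 0x18000c0002000000000000000000000000000) (nat_lit 0x0) (nat_lit 0xe00070003e000700300001c00080000000000000000000000) := Q_3 (nat_lit 160) (C_3 L619404 (C_3 L619455 (C_3 L619462 N_3))) (by decide +kernel)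
theorem L619465 : W_3 (nat_lit 10) (nat_lit 0x18000c0000000000000000000000000000000) (nat_lit 0x0) (nat_lit 0x40003000070073801bc0078001c000000000000000000) := Q_3 (nat_lit 109) (C_3 L619146 (C_3 L616043 (C_3 L619126 N_3))) (by decide +kernel)
theorem L619471 : W_3 (nat_lit 8) (nat_lit 0x18000c0000000000000000000000000000000) (nat_lit 0x0) (nat_lit 0xe000700038000000320003c0078001c000000000000000000) := Q_3 (nat_lit 109) (C_3 L619126 (C_3 L616043 (C_3 L619470 N_3))) (by decide +kernel)
theorem L619571 : W_3 (nat_lit 2) (nat_lit 0x20001c001c0038000500000000000000000000000) (nat_lit 0x0) (nat_lit 0xa80000000000000000000000) := D_3 (nat_lit 93) (nat_lit 91) (nat_lit 95) (nat_lit 3) (nat_lit 6) (nat_lit 5) (nat_lit 3) (nat_lit 7) (nat_lit 5) (by decide +kernel)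
theorem L619572 : W_3 (nat_lit 3) (nat_lit 0x20001c001c0018000500000000000000000000000) (nat_lit 0x0) (nat_lit 0x60000a80000000000000000000000) := T_3 (nat_lit 113) (nat_lit 114) (nat_lit 1) (nat_lit 12) (nat_lit 6) L619571 (by decide +kernel)
theorem L619573 : W_3 (nat_lit 4) (nat_lit 0x20001c001c0008000500000000000000000000000) (nat_lit 0x0) (nat_lit 0x20070000a80000000000000000000000) := T_3 (nat_lit 112) (nat_lit 125) (nat_lit 2) (nat_lit 6) (nat_lit 7) L619572 (by decide +kernel)
theorem L619574 : W_3 (nat_lit 5) (nat_lit 0x20001c001c0008000100000000000000000000000) (nat_lit 0x0) (nat_lit 0x20070000e80020000000000000000000) := T_3 (nat_lit 94) (nat_lit 77) (nat_lit 5) (nat_lit 9) (nat_lit 4) L619573 (by decide +kernel)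
theorem L619575 : W_3 (nat_lit 6) (nat_lit 0x20001c001c0008000000000000000000000000000) (nat_lit 0x0) (nat_lit 0x20072000f80020000000000000000000) := T_3 (nat_lit 92) (nat_lit 109) (nat_lit 7) (nat_lit 7) (nat_lit 5) L619574 (by decide +kernel)
theorem L619980 : W_3 (nat_lit 2) (nat_lit 0x18001c001c0000000000000000000000000000000) (nat_lit 0x0) (nat_lit 0x2000100000000000000002000000000000000000000000000) := D_3 (nat_lit 176) (nat_lit 193) (nat_lit 109) (nat_lit 6) (nat_lit 6) (nat_lit 11) (nat_lit 5) (nat_lit 7) (nat_lit 6) (by decide +kernel)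
theorem L620133 : W_3 (nat_lit 2) (nat_lit 0x8001c001e0000000000000000000000000000000) (nat_lit 0x0) (nat_lit 0x100000000000000002000100000000000000000000000) := D_3 (nat_lit 109) (nat_lit 92) (nat_lit 176) (nat_lit 5) (nat_lit 7) (nat_lit 5) (nat_lit 6) (nat_lit 6) (nat_lit 10) (by decide +kernel)
theorem L620134 : W_3 (nat_lit 2) (nat_lit 0x8001c001f0000000000000000000000000000000) (nat_lit 0x0) (nat_lit 0x2000100000000000000000800000000000000000000000000) := D_3 (nat_lit 176) (nat_lit 193) (nat_lit 107) (nat_lit 6) (nat_lit 6) (nat_lit 11) (nat_lit 4) (nat_lit 6) (nat_lit 10) (by decide +kernel)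
theorem L620135 : W_3 (nat_lit 3) (nat_lit 0x8001c001e0000000000000000000000000000000) (nat_lit 0x0) (nat_lit 0x2000100000000000018000800000000000000000000000000) := T_3 (nat_lit 124) (nat_lit 123) (nat_lit 3) (nat_lit 4) (nat_lit 7) L620134 (by decide +kernel)
theorem L620581 : W_3 (nat_lit 2) (nat_lit 0x1c001c0002000000000000000000000000000) (nat_lit 0x0) (nat_lit 0x400020000000000000000100000000000000000000000) := D_3 (nat_lit 161) (nat_lit 178) (nat_lit 92) (nat_lit 4) (nat_lit 8) (nat_lit 10) (nat_lit 7) (nat_lit 7) (nat_lit 5) (by decide +kernel)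
theorem L620689 : W_3 (nat_lit 2) (nat_lit 0x100008001c001c0000000000000000000000000000000) (nat_lit 0x0) (nat_lit 0x20002000100000000000000000000000) := D_3 (nat_lit 109) (nat_lit 125) (nat_lit 92) (nat_lit 6) (nat_lit 6) (nat_lit 10) (nat_lit 5) (nat_lit 7) (nat_lit 5) (by decide +kernel)
theorem L620710 : W_3 (nat_lit 2) (nat_lit 0x4000000018001c0000000000000000000000000000000) (nat_lit 0x0) (nat_lit 0x8000000020000000000002000000000000000000000000000) := D_3 (nat_lit 161) (nat_lit 109) (nat_lit 195) (nat_lit 4) (nat_lit 8) (nat_lit 10) (nat_lit 4) (nat_lit 8) (nat_lit 11) (by decide +kernel)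
theorem L620821 : W_3 (nat_lit 2) (nat_lit 0x18001c0002000000000000000000000000000) (nat_lit 0x0) (nat_lit 0x20000000000000000100008000000000000000000) := D_3 (nat_lit 92) (nat_lit 75) (nat_lit 161) (nat_lit 7) (nat_lit 7) (nat_lit 4) (nat_lit 7) (nat_lit 7) (nat_lit 5) (by decide +kernel)
theorem L620822 : W_3 (nat_lit 2) (nat_lit 0x1000300018001c0002000000000000000000000000000) (nat_lit 0x0) (nat_lit 0x6000200000000000000000000000000000000000000000000) := D_3 (nat_lit 177) (nat_lit 194) (nat_lit 193) (nat_lit 6) (nat_lit 7) (nat_lit 11) (nat_lit 5) (nat_lit 7) (nat_lit 7) (by decide +kernel)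
theorem L620823 : W_3 (nat_lit 3) (nat_lit 0x300018001c0002000000000000000000000000000) (nat_lit 0x0) (nat_lit 0x6000300008000000000000000000000000000000000000000) := T_3 (nat_lit 176) (nat_lit 159) (nat_lit 5) (nat_lit 7) (nat_lit 6) L620822 (by decide +kernel)
theorem L620824 : W_3 (nat_lit 4) (nat_lit 0x100018001c0002000000000000000000000000000) (nat_lit 0x0) (nat_lit 0x6000700028000000000000000000000000000000000000000) := T_3 (nat_lit 161) (nat_lit 178) (nat_lit 7) (nat_lit 7) (nat_lit 6) L620823 (by decide +kernel)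
theorem L620825 : W_3 (nat_lit 2) (nat_lit 0x2000100018001c0002000000000000000000000000000) (nat_lit 0x0) (nat_lit 0x2000100008000000000000000000000000000000000000000) := D_3 (nat_lit 176) (nat_lit 159) (nat_lit 193) (nat_lit 5) (nat_lit 7) (nat_lit 6) (nat_lit 5) (nat_lit 7) (nat_lit 7) (by decide +kernel)
theorem L620826 : W_3 (nat_lit 3) (nat_lit 0x100018001c0002000000000000000000000000000) (nat_lit 0x0) (nat_lit 0x6000300008000000000000000000000000000000000000000) := T_3 (nat_lit 177) (nat_lit 194) (nat_lit 6) (nat_lit 7) (nat_lit 11) L620825 (by decide +kernel)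
theorem L620827 : W_3 (nat_lit 2) (nat_lit 0x38001a001c0002000000000000000000000000000) (nat_lit 0x0) (nat_lit 0x6000100000000000000000000000000000000000) := D_3 (nat_lit 158) (nat_lit 157) (nat_lit 140) (nat_lit 2) (nat_lit 4) (nat_lit 9) (nat_lit 0) (nat_lit 8) (nat_lit 9) (by decide +kernel)
theorem L620828 : W_3 (nat_lit 3) (nat_lit 0x30001a001c0002000000000000000000000000000) (nat_lit 0x0) (nat_lit 0x10000e000100000000000000000000000000000000000) := T_3 (nat_lit 159) (nat_lit 176) (nat_lit 5) (nat_lit 7) (nat_lit 6) L620827 (by decide +kernel)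
theorem L620829 : W_3 (nat_lit 4) (nat_lit 0x10001a001c0002000000000000000000000000000) (nat_lit 0x0) (nat_lit 0x50002e000100000000000000000000000000000000000) := T_3 (nat_lit 161) (nat_lit 178) (nat_lit 7) (nat_lit 7) (nat_lit 6) L620828 (by decide +kernel)
theorem L620830 : W_3 (nat_lit 5) (nat_lit 0x100018001c0002000000000000000000000000000) (nat_lit 0x0) (nat_lit 0x50002e000700000000000000000000000000000000000) := T_3 (nat_lit 141) (nat_lit 142) (nat_lit 2) (nat_lit 5) (nat_lit 8) L620829 (by decide +kernel)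
theorem L620831 : W_3 (nat_lit 2) (nat_lit 0x2000100018001c0002000000000000000000000000000) (nat_lit 0x0) (nat_lit 0x8000400020000000000000000000000000000000000000000) := D_3 (nat_lit 178) (nat_lit 161) (nat_lit 195) (nat_lit 7) (nat_lit 7) (nat_lit 6) (nat_lit 7) (nat_lit 7) (nat_lit 7) (by decide +kernel)
theorem L620832 : W_3 (nat_lit 3) (nat_lit 0x100018001c0002000000000000000000000000000) (nat_lit 0x0) (nat_lit 0xc000600020000000000000000000000000000000000000000) := T_3 (nat_lit 177) (nat_lit 194) (nat_lit 6) (nat_lit 7) (nat_lit 11) L620831 (by decide +kernel)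
theorem L620833 : W_3 (nat_lit 6) (nat_lit 0x18001c0002000000000000000000000000000) (nat_lit 0x0) (nat_lit 0xe00070003e000700000000000000000000000000000000000) := Q_3 (nat_lit 160) (C_3 L620824 (C_3 L620826 (C_3 L620830 (C_3 L620832 N_3)))) (by decide +kernel)
theorem L620834 : W_3 (nat_lit 7) (nat_lit 0x18001c0000000000000000000000000000000) (nat_lit 0x0) (nat_lit 0xe00070003e000700000002000100008000000000000000000) := Q_3 (nat_lit 109) (C_3 L620820 (C_3 L620821 (C_3 L620833 N_3))) (by decide +kernel)
theorem L620835 : W_3 (nat_lit 8) (nat_lit 0x18000c0000000000000000000000000000000) (nat_lit 0x0) (nat_lit 0xe0007000be00c70072003a000500028000000000000000000) := Q_3 (nat_lit 128) (C_3 L619390 (C_3 L620709 (C_3 L620834 N_3))) (by decide +kernel)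
theorem L620859 : W_3 (nat_lit 6) (nat_lit 0x10000c0003400080000000000000000000000) (nat_lit 0x0) (nat_lit 0x20003c00020010000c000600000000000000) := T_3 (nat_lit 74) (nat_lit 57) (nat_lit 7) (nat_lit 6) (nat_lit 3) L298951 (by decide +kernel)
theorem L620860 : W_3 (nat_lit 7) (nat_lit 0x10000c0003000080000000000000000000000) (nat_lit 0x0) (nat_lit 0x20003c000e0010000c000600000000000000) := T_3 (nat_lit 106) (nat_lit 107) (nat_lit 3) (nat_lit 4) (nat_lit 6) L620859 (by decide +kernel)
theorem L620861 : W_3 (nat_lit 2) (nat_lit 0x18000c0003000080000000000000000000000) (nat_lit 0x0) (nat_lit 0x10000c000000000000000000) := D_3 (nat_lit 92) (nat_lit 75) (nat_lit 74) (nat_lit 7) (nat_lit 7) (nat_lit 4) (nat_lit 4) (nat_lit 7) (nat_lit 8) (by decide +kernel)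
theorem L620862 : W_3 (nat_lit 3) (nat_lit 0x10000c0003000080000000000000000000000) (nat_lit 0x0) (nat_lit 0x1000080000000000010000c000000000000000000) := T_3 (nat_lit 143) (nat_lit 160) (nat_lit 4) (nat_lit 7) (nat_lit 9) L620861 (by decide +kernel)
theorem L620863 : W_3 (nat_lit 2) (nat_lit 0x18000c0003000080000000000000000000000) (nat_lit 0x0) (nat_lit 0x20000000000004000200000000000000) := D_3 (nat_lit 74) (nat_lit 57) (nat_lit 125) (nat_lit 7) (nat_lit 6) (nat_lit 3) (nat_lit 7) (nat_lit 6) (nat_lit 4) (by decide +kernel)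
theorem L620864 : W_3 (nat_lit 3) (nat_lit 0x10000c0003000080000000000000000000000) (nat_lit 0x0) (nat_lit 0x10000800020000000000004000200000000000000) := T_3 (nat_lit 143) (nat_lit 160) (nat_lit 4) (nat_lit 7) (nat_lit 9) L620863 (by decide +kernel)
theorem L620865 : W_3 (nat_lit 2) (nat_lit 0x18000c0003800180000000000000000000000) (nat_lit 0x0) (nat_lit 0x600010000000000000000000) := D_3 (nat_lit 93) (nat_lit 76) (nat_lit 94) (nat_lit 6) (nat_lit 7) (nat_lit 8) (nat_lit 1) (nat_lit 9) (nat_lit 5) (by decide +kernel)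
theorem L620866 : W_3 (nat_lit 3) (nat_lit 0x18000c0003000180000000000000000000000) (nat_lit 0x0) (nat_lit 0xc00600010000000000000000000) := T_3 (nat_lit 107) (nat_lit 106) (nat_lit 3) (nat_lit 4) (nat_lit 6) L620865 (by decide +kernel)
theorem L620867 : W_3 (nat_lit 4) (nat_lit 0x10000c0003000180000000000000000000000) (nat_lit 0x0) (nat_lit 0x10000800000000c00600010000000000000000000) := T_3 (nat_lit 143) (nat_lit 160) (nat_lit 4) (nat_lit 7) (nat_lit 9) L620866 (by decide +kernel)
theorem L620868 : W_3 (nat_lit 5) (nat_lit 0x10000c0003000080000000000000000000000) (nat_lit 0x0) (nat_lit 0x10000800000000c00700018000000000000000000) := T_3 (nat_lit 92) (nat_lit 75) (nat_lit 7) (nat_lit 7) (nat_lit 4) L620867 (by decide +kernel)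
theorem L620869 : W_3 (nat_lit 8) (nat_lit 0x10000c0003000000000000000000000000000) (nat_lit 0x0) (nat_lit 0x10000a0003c000e0078001c000600000000000000) := Q_3 (nat_lit 91) (C_3 L620860 (C_3 L620862 (C_3 L620864 (C_3 L620868 N_3)))) (by decide +kernel)
theorem L622989 : W_3 (nat_lit 2) (nat_lit 0x10002f0003000000000000000000000000000) (nat_lit 0x0) (nat_lit 0x80000c000000000000000000000000000000) := D_3 (nat_lit 123) (nat_lit 143) (nat_lit 122) (nat_lit 3) (nat_lit 4) (nat_lit 7) (nat_lit 2) (nat_lit 3) (nat_lit 7) (by decide +kernel)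
theorem L622990 : W_3 (nat_lit 3) (nat_lit 0x10002e0003000000000000000000000000000) (nat_lit 0x0) (nat_lit 0x280001c000000000000000000000000000000) := T_3 (nat_lit 124) (nat_lit 145) (nat_lit 3) (nat_lit 5) (nat_lit 7) L622989 (by decide +kernel)
theorem L622991 : W_3 (nat_lit 4) (nat_lit 0x10000e0003000000000000000000000000000) (nat_lit 0x0) (nat_lit 0x280031c000000000000000000000000000000) := T_3 (nat_lit 129) (nat_lit 128) (nat_lit 0) (nat_lit 10) (nat_lit 7) L622990 (by decide +kernel)
theorem L622999 : W_3 (nat_lit 5) (nat_lit 0x10000e0003000000000000000000000000000) (nat_lit 0x0) (nat_lit 0x238001c000000100008000000000000000000) := T_3 (nat_lit 124) (nat_lit 145) (nat_lit 3) (nat_lit 5) (nat_lit 7) L286770 (by decide +kernel)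
theorem L625687 : W_3 (nat_lit 10) (nat_lit 0x18000c0000000000000000000000000000000) (nat_lit 0x0) (nat_lit 0xe00070003e000700300003c0038001c000000000000000000) := Q_3 (nat_lit 109) (C_3 L619126 (C_3 L619463 (C_3 L616030 N_3))) (by decide +kernel)
theorem L625705 : W_3 (nat_lit 7) (nat_lit 0x18000c0002000000000000000000000000000) (nat_lit 0x0) (nat_lit 0xe00070003e002000300001c00080000000000000000000000) := Q_3 (nat_lit 160) (C_3 L619404 (C_3 L619455 (C_3 L625704 N_3))) (by decide +kernel)
theorem L625706 : W_3 (nat_lit 8) (nat_lit 0x18000c0000000000000000000000000000000) (nat_lit 0x0) (nat_lit 0xe00070003e002000300003c0078001c000000000000000000) := Q_3 (nat_lit 109) (C_3 L619126 (C_3 L616043 (C_3 L625705 N_3))) (by decide +kernel)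
theorem L625711 : W_3 (nat_lit 6) (nat_lit 0x18000c0002000000000000000000000000000) (nat_lit 0x0) (nat_lit 0xc00070003e006400000000000000000000000000000000000) := Q_3 (nat_lit 160) (C_3 L625704 (C_3 L619404 (C_3 L625710 N_3))) (by decide +kernel)
theorem L625712 : W_3 (nat_lit 7) (nat_lit 0x18000c0000000000000000000000000000000) (nat_lit 0x0) (nat_lit 0xc00070003e006400000003c0078001c000000000000000000) := Q_3 (nat_lit 109) (C_3 L619126 (C_3 L616043 (C_3 L625711 N_3))) (by decide +kernel)
theorem L626390 : W_3 (nat_lit 2) (nat_lit 0x50000e001c001c0000000000000000000000000000000) (nat_lit 0x0) (nat_lit 0xa80000000000000000000000000000000000000000000) := D_3 (nat_lit 177) (nat_lit 179) (nat_lit 175) (nat_lit 0) (nat_lit 9) (nat_lit 10) (nat_lit 0) (nat_lit 8) (nat_lit 10) (by decide +kernel)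
theorem L626391 : W_3 (nat_lit 3) (nat_lit 0x50000c001c001c0000000000000000000000000000000) (nat_lit 0x0) (nat_lit 0xa80003000000000000000000000000000000000000000) := T_3 (nat_lit 157) (nat_lit 156) (nat_lit 2) (nat_lit 3) (nat_lit 9) L626390 (by decide +kernel)
theorem L626392 : W_3 (nat_lit 4) (nat_lit 0x40000c001c001c0000000000000000000000000000000) (nat_lit 0x0) (nat_lit 0x2000b80003000000000000000000000000000000000000000) := T_3 (nat_lit 176) (nat_lit 193) (nat_lit 6) (nat_lit 6) (nat_lit 11) L626391 (by decide +kernel)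
theorem L626393 : W_3 (nat_lit 5) (nat_lit 0x400008001c001c0000000000000000000000000000000) (nat_lit 0x0) (nat_lit 0x2000b80007002000000000000000000000000000000000000) := T_3 (nat_lit 158) (nat_lit 145) (nat_lit 1) (nat_lit 9) (nat_lit 8) L626392 (by decide +kernel)
theorem L628910 : W_3 (nat_lit 2) (nat_lit 0x18000c0000000f00088000000000000000000) (nat_lit 0x0) (nat_lit 0x1000110000000000000000000) := D_3 (nat_lit 96) (nat_lit 76) (nat_lit 80) (nat_lit 0) (nat_lit 11) (nat_lit 5) (nat_lit 2) (nat_lit 8) (nat_lit 5) (by decide +kernel)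
theorem L628911 : W_3 (nat_lit 3) (nat_lit 0x18000c0000000f00008000000000000000000) (nat_lit 0x0) (nat_lit 0x10001d0000000000000000000) := T_3 (nat_lit 79) (nat_lit 78) (nat_lit 2) (nat_lit 7) (nat_lit 5) L628910 (by decide +kernel)
theorem L628912 : W_3 (nat_lit 4) (nat_lit 0x18000c0000000f00000000000000000000000) (nat_lit 0x0) (nat_lit 0x10001dc000000000000000000) := T_3 (nat_lit 75) (nat_lit 74) (nat_lit 0) (nat_lit 10) (nat_lit 5) L628911 (by decide +kernel)
theorem L634448 : W_3 (nat_lit 2) (nat_lit 0x1b000d0000800040002000000000000000000) (nat_lit 0x0) (nat_lit 0x20001000080000000000000) := D_3 (nat_lit 72) (nat_lit 55) (nat_lit 89) (nat_lit 4) (nat_lit 5) (nat_lit 7) (nat_lit 4) (nat_lit 5) (nat_lit 8) (by decide +kernel)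
theorem L634449 : W_3 (nat_lit 3) (nat_lit 0x1b000d0000800040000000000000000000000) (nat_lit 0x0) (nat_lit 0x8000000020003000080000000000000) := T_3 (nat_lit 73) (nat_lit 123) (nat_lit 5) (nat_lit 5) (nat_lit 4) L634448 (by decide +kernel)
theorem L634674 : W_3 (nat_lit 4) (nat_lit 0x300018001c0000000000000000000000000000000) (nat_lit 0x0) (nat_lit 0x6000300008000000000002000100000000000000000000000) := T_3 (nat_lit 109) (nat_lit 92) (nat_lit 7) (nat_lit 7) (nat_lit 5) L620823 (by decide +kernel)
theorem L634699 : W_3 (nat_lit 2) (nat_lit 0x200018001c0000000500000000000000000000000) (nat_lit 0x0) (nat_lit 0x2000000008000000020000000000000000000) := D_3 (nat_lit 111) (nat_lit 77) (nat_lit 145) (nat_lit 5) (nat_lit 9) (nat_lit 4) (nat_lit 5) (nat_lit 9) (nat_lit 5) (by decide +kernel)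
theorem L634860 : W_3 (nat_lit 2) (nat_lit 0x200018003c0010000500020000000000000000000) (nat_lit 0x0) (nat_lit 0xc000000000000800000000000000000000000) := D_3 (nat_lit 146) (nat_lit 147) (nat_lit 95) (nat_lit 3) (nat_lit 7) (nat_lit 7) (nat_lit 4) (nat_lit 10) (nat_lit 8) (by decide +kernel)
theorem L634861 : W_3 (nat_lit 3) (nat_lit 0x200018003c0000000500020000000000000000000) (nat_lit 0x0) (nat_lit 0xc000000030000800000000000000000000000) := T_3 (nat_lit 112) (nat_lit 113) (nat_lit 2) (nat_lit 7) (nat_lit 7) L634860 (by decide +kernel)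
theorem L634862 : W_3 (nat_lit 4) (nat_lit 0x200018001c0000000500020000000000000000000) (nat_lit 0x0) (nat_lit 0xc000600030000800000000000000000000000) := T_3 (nat_lit 129) (nat_lit 130) (nat_lit 1) (nat_lit 11) (nat_lit 7) L634861 (by decide +kernel)
theorem L634863 : W_3 (nat_lit 5) (nat_lit 0x200018001c0000000500000000000000000000000) (nat_lit 0x0) (nat_lit 0xc000600038000800020000000000000000000) := T_3 (nat_lit 77) (nat_lit 111) (nat_lit 5) (nat_lit 9) (nat_lit 4) L634862 (by decide +kernel)
theorem L635011 : W_3 (nat_lit 2) (nat_lit 0x200058003c0010000d00040000000000000000000) (nat_lit 0x0) (nat_lit 0x1200080000000000000000000) := D_3 (nat_lit 79) (nat_lit 93) (nat_lit 96) (nat_lit 2) (nat_lit 7) (nat_lit 5) (nat_lit 6) (nat_lit 10) (nat_lit 8) (by decide +kernel)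
theorem L635012 : W_3 (nat_lit 3) (nat_lit 0x200058003c0010000d00000000000000000000000) (nat_lit 0x0) (nat_lit 0x20000000000012000c0000000000000000000) := T_3 (nat_lit 78) (nat_lit 145) (nat_lit 5) (nat_lit 10) (nat_lit 4) L635011 (by decide +kernel)
theorem L635013 : W_3 (nat_lit 4) (nat_lit 0x200058003c0010000500000000000000000000000) (nat_lit 0x0) (nat_lit 0x2000000000001a000e0000000000000000000) := T_3 (nat_lit 95) (nat_lit 77) (nat_lit 4) (nat_lit 10) (nat_lit 8) L635012 (by decide +kernel)
theorem L635014 : W_3 (nat_lit 5) (nat_lit 0x200018003c0010000500000000000000000000000) (nat_lit 0x0) (nat_lit 0xe000000000001a000e0000000000000000000) := T_3 (nat_lit 146) (nat_lit 147) (nat_lit 3) (nat_lit 7) (nat_lit 7) L635013 (by decide +kernel)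
theorem L635015 : W_3 (nat_lit 6) (nat_lit 0x200018003c0000000500000000000000000000000) (nat_lit 0x0) (nat_lit 0xe000000030001a000e0000000000000000000) := T_3 (nat_lit 112) (nat_lit 113) (nat_lit 2) (nat_lit 7) (nat_lit 7) L635014 (by decide +kernel)
theorem L635016 : W_3 (nat_lit 7) (nat_lit 0x200018001c0000000500000000000000000000000) (nat_lit 0x0) (nat_lit 0xe000600030001a000e0000000000000000000) := T_3 (nat_lit 129) (nat_lit 130) (nat_lit 1) (nat_lit 11) (nat_lit 7) L635015 (by decide +kernel)
theorem L635017 : W_3 (nat_lit 2) (nat_lit 0x200058003c0008000500000000000000000000000) (nat_lit 0x0) (nat_lit 0x80000000000030000000000000000000000000000) := D_3 (nat_lit 112) (nat_lit 113) (nat_lit 163) (nat_lit 2) (nat_lit 7) (nat_lit 7) (nat_lit 4) (nat_lit 10) (nat_lit 9) (by decide +kernel)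
theorem L635018 : W_3 (nat_lit 3) (nat_lit 0x200018003c0008000500000000000000000000000) (nat_lit 0x0) (nat_lit 0x8000c000000030000000000000000000000000000) := T_3 (nat_lit 146) (nat_lit 147) (nat_lit 3) (nat_lit 7) (nat_lit 7) L635017 (by decide +kernel)
theorem L635019 : W_3 (nat_lit 4) (nat_lit 0x200018003c0000000500000000000000000000000) (nat_lit 0x0) (nat_lit 0x8000e000000038000000000000000000000000000) := T_3 (nat_lit 111) (nat_lit 145) (nat_lit 5) (nat_lit 9) (nat_lit 5) L635018 (by decide +kernel)
theorem L635020 : W_3 (nat_lit 5) (nat_lit 0x200018001c0000000500000000000000000000000) (nat_lit 0x0) (nat_lit 0x8000e000600038000000000000000000000000000) := T_3 (nat_lit 129) (nat_lit 130) (nat_lit 1) (nat_lit 11) (nat_lit 7) L635019 (by decide +kernel)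
theorem L635021 : W_3 (nat_lit 8) (nat_lit 0x200018001c0000000100000000000000000000000) (nat_lit 0x0) (nat_lit 0x8000e000600038001e000e0000000000000000000) := Q_3 (nat_lit 94) (C_3 L634699 (C_3 L634863 (C_3 L635016 (C_3 L635020 N_3)))) (by decide +kernel)
theorem L635617 : W_3 (nat_lit 2) (nat_lit 0xa00058003c0018000000000000000000000000000) (nat_lit 0x0) (nat_lit 0x2000100002000000000000000000000000000000000000) := D_3 (nat_lit 164) (nat_lit 181) (nat_lit 145) (nat_lit 7) (nat_lit 10) (nat_lit 6) (nat_lit 3) (nat_lit 7) (nat_lit 8) (by decide +kernel)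
theorem L641235 : W_3 (nat_lit 2) (nat_lit 0x1000100018001c0002000380000000000000000000000) (nat_lit 0x0) (nat_lit 0x6000200000000000000000000000000000000000000000000) := D_3 (nat_lit 177) (nat_lit 194) (nat_lit 193) (nat_lit 6) (nat_lit 7) (nat_lit 11) (nat_lit 5) (nat_lit 7) (nat_lit 7) (by decide +kernel)
theorem L641236 : W_3 (nat_lit 3) (nat_lit 0x100018001c0002000380000000000000000000000) (nat_lit 0x0) (nat_lit 0x6000300008000000000000000000000000000000000000000) := T_3 (nat_lit 176) (nat_lit 159) (nat_lit 5) (nat_lit 7) (nat_lit 6) L641235 (by decide +kernel)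
theorem L641237 : W_3 (nat_lit 4) (nat_lit 0x18001c0002000380000000000000000000000) (nat_lit 0x0) (nat_lit 0x6000300018000000000001000000000000000000000000000) := T_3 (nat_lit 160) (nat_lit 108) (nat_lit 4) (nat_lit 7) (nat_lit 9) L641236 (by decide +kernel)
theorem L641238 : W_3 (nat_lit 5) (nat_lit 0x18001c0002000300000000000000000000000) (nat_lit 0x0) (nat_lit 0x6000300018000000000001000080004000000000000000000) := T_3 (nat_lit 91) (nat_lit 74) (nat_lit 4) (nat_lit 7) (nat_lit 8) L641237 (by decide +kernel)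
theorem L641239 : W_3 (nat_lit 6) (nat_lit 0x18001c0002000100000000000000000000000) (nat_lit 0x0) (nat_lit 0x6000300018000000000001000280014000000000000000000) := T_3 (nat_lit 93) (nat_lit 76) (nat_lit 6) (nat_lit 7) (nat_lit 8) L641238 (by decide +kernel)
theorem L641305 : W_3 (nat_lit 2) (nat_lit 0x400008003c001c0000000000000000000000000000000) (nat_lit 0x0) (nat_lit 0x1000c000000000000000000000000000000000000) := D_3 (nat_lit 146) (nat_lit 147) (nat_lit 160) (nat_lit 0) (nat_lit 11) (nat_lit 8) (nat_lit 1) (nat_lit 10) (nat_lit 8) (by decide +kernel)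
theorem L641306 : W_3 (nat_lit 3) (nat_lit 0x400008001c001c0000000000000000000000000000000) (nat_lit 0x0) (nat_lit 0x1400e000000000000000000000000000000000000) := T_3 (nat_lit 145) (nat_lit 158) (nat_lit 1) (nat_lit 9) (nat_lit 8) L641305 (by decide +kernel)
theorem L641307 : W_3 (nat_lit 2) (nat_lit 0x500018001c001c0000000000000000000000000000000) (nat_lit 0x0) (nat_lit 0xc000200000000000000000000000000000000000000000000) := D_3 (nat_lit 177) (nat_lit 194) (nat_lit 195) (nat_lit 6) (nat_lit 7) (nat_lit 11) (nat_lit 7) (nat_lit 7) (nat_lit 7) (by decide +kernel)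
theorem L641308 : W_3 (nat_lit 3) (nat_lit 0x500008001c001c0000000000000000000000000000000) (nat_lit 0x0) (nat_lit 0xc000200010000000000002000000000000000000000000000) := T_3 (nat_lit 160) (nat_lit 109) (nat_lit 5) (nat_lit 7) (nat_lit 6) L641307 (by decide +kernel)
theorem L641309 : W_3 (nat_lit 4) (nat_lit 0x400008001c001c0000000000000000000000000000000) (nat_lit 0x0) (nat_lit 0xe000300010000000000002000000000000000000000000000) := T_3 (nat_lit 176) (nat_lit 193) (nat_lit 6) (nat_lit 6) (nat_lit 11) L641308 (by decide +kernel)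
theorem L641310 : W_3 (nat_lit 6) (nat_lit 0x400000001c001c0000000000000000000000000000000) (nat_lit 0x0) (nat_lit 0xe000b8001f00e000000002000000000000000000000000000) := Q_3 (nat_lit 159) (C_3 L626393 (C_3 L641306 (C_3 L641309 N_3))) (by decide +kernel)
theorem L641311 : W_3 (nat_lit 7) (nat_lit 0x4000000018001c0000000000000000000000000000000) (nat_lit 0x0) (nat_lit 0xe000b8001f00e600000002000000000000000000000000000) := T_3 (nat_lit 142) (nat_lit 141) (nat_lit 2) (nat_lit 5) (nat_lit 8) L641310 (by decide +kernel)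
theorem L641312 : W_3 (nat_lit 2) (nat_lit 0x4000000018001c0000000000000000000000000000000) (nat_lit 0x0) (nat_lit 0x2000000000000a000000000000000000000000000) := D_3 (nat_lit 161) (nat_lit 109) (nat_lit 111) (nat_lit 4) (nat_lit 8) (nat_lit 10) (nat_lit 6) (nat_lit 8) (nat_lit 10) (by decide +kernel)
theorem L641313 : W_3 (nat_lit 2) (nat_lit 0x4000000018001c0000000000000000000000000000000) (nat_lit 0x0) (nat_lit 0x8000000020000000000008000000000000000000000000000) := D_3 (nat_lit 161) (nat_lit 195) (nat_lit 111) (nat_lit 4) (nat_lit 8) (nat_lit 11) (nat_lit 6) (nat_lit 8) (nat_lit 10) (by decide +kernel)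
theorem L641314 : W_3 (nat_lit 8) (nat_lit 0x18001c0000000000000000000000000000000) (nat_lit 0x0) (nat_lit 0xe000f8003f00e60000000a000000000000000000000000000) := Q_3 (nat_lit 178) (C_3 L641311 (C_3 L620710 (C_3 L641312 (C_3 L641313 N_3)))) (by decide +kernel)
theorem L641537 : W_3 (nat_lit 2) (nat_lit 0x1a001c0003000380000000000000000000000) (nat_lit 0x0) (nat_lit 0xc00400000000000000000000000) := D_3 (nat_lit 107) (nat_lit 106) (nat_lit 94) (nat_lit 3) (nat_lit 4) (nat_lit 6) (nat_lit 1) (nat_lit 9) (nat_lit 5) (by decide +kernel)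
theorem L641538 : W_3 (nat_lit 3) (nat_lit 0x1a001c0002000380000000000000000000000) (nat_lit 0x0) (nat_lit 0x10000000000001c00400000000000000000000000) := T_3 (nat_lit 108) (nat_lit 160) (nat_lit 4) (nat_lit 7) (nat_lit 9) L641537 (by decide +kernel)
theorem L641539 : W_3 (nat_lit 4) (nat_lit 0x1a001c0002000300000000000000000000000) (nat_lit 0x0) (nat_lit 0x10000000000001c00480004000000000000000000) := T_3 (nat_lit 91) (nat_lit 74) (nat_lit 4) (nat_lit 7) (nat_lit 8) L641538 (by decide +kernel)
theorem L641540 : W_3 (nat_lit 5) (nat_lit 0x1a001c0002000100000000000000000000000) (nat_lit 0x0) (nat_lit 0x10000000000001c00680014000000000000000000) := T_3 (nat_lit 93) (nat_lit 76) (nat_lit 6) (nat_lit 7) (nat_lit 8) L641539 (by decide +kernel)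
theorem L642260 : W_3 (nat_lit 2) (nat_lit 0x18001c00000007c0020000000000000000000) (nat_lit 0x0) (nat_lit 0x7000000000000000000) := D_3 (nat_lit 73) (nat_lit 74) (nat_lit 72) (nat_lit 0) (nat_lit 9) (nat_lit 5) (nat_lit 0) (nat_lit 8) (nat_lit 5) (by decide +kernel)
theorem L642261 : W_3 (nat_lit 3) (nat_lit 0x18001c0000000780020000000000000000000) (nat_lit 0x0) (nat_lit 0x40017000000000000000000) := T_3 (nat_lit 90) (nat_lit 76) (nat_lit 2) (nat_lit 5) (nat_lit 5) L642260 (by decide +kernel)
theorem L642813 : W_3 (nat_lit 6) (nat_lit 0x1a001c0002000000000000000000000000000) (nat_lit 0x0) (nat_lit 0x10000000000001c0078001c000000000000000000) := T_3 (nat_lit 92) (nat_lit 75) (nat_lit 7) (nat_lit 7) (nat_lit 4) L641540 (by decide +kernel)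
theorem L642818 : W_3 (nat_lit 2) (nat_lit 0x1c001c0003000380000000000000000000000) (nat_lit 0x0) (nat_lit 0xc00400000000000000000000000) := D_3 (nat_lit 107) (nat_lit 106) (nat_lit 94) (nat_lit 3) (nat_lit 4) (nat_lit 6) (nat_lit 1) (nat_lit 9) (nat_lit 5) (by decide +kernel)
theorem L642819 : W_3 (nat_lit 3) (nat_lit 0x1c001c0002000380000000000000000000000) (nat_lit 0x0) (nat_lit 0x10000000000001c00400000000000000000000000) := T_3 (nat_lit 108) (nat_lit 160) (nat_lit 4) (nat_lit 7) (nat_lit 9) L642818 (by decide +kernel)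
theorem L642820 : W_3 (nat_lit 4) (nat_lit 0x1c001c0002000300000000000000000000000) (nat_lit 0x0) (nat_lit 0x10000000000001c00480004000000000000000000) := T_3 (nat_lit 91) (nat_lit 74) (nat_lit 4) (nat_lit 7) (nat_lit 8) L642819 (by decide +kernel)
theorem L642821 : W_3 (nat_lit 5) (nat_lit 0x1c001c0002000100000000000000000000000) (nat_lit 0x0) (nat_lit 0x10000000000001c00680014000000000000000000) := T_3 (nat_lit 93) (nat_lit 76) (nat_lit 6) (nat_lit 7) (nat_lit 8) L642820 (by decide +kernel)
theorem L642822 : W_3 (nat_lit 6) (nat_lit 0x1c001c0002000000000000000000000000000) (nat_lit 0x0) (nat_lit 0x10000000000001c0078001c000000000000000000) := T_3 (nat_lit 92) (nat_lit 75) (nat_lit 7) (nat_lit 7) (nat_lit 4) L642821 (by decide +kernel)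
theorem L642826 : W_3 (nat_lit 2) (nat_lit 0x18001c001c0000000000000000000000000000000) (nat_lit 0x0) (nat_lit 0x6002000000000000000000000000000000000000) := D_3 (nat_lit 158) (nat_lit 145) (nat_lit 157) (nat_lit 1) (nat_lit 9) (nat_lit 8) (nat_lit 2) (nat_lit 4) (nat_lit 9) (by decide +kernel)
theorem L648543 : W_3 (nat_lit 2) (nat_lit 0x20001c001c0008000000000000000000000000000) (nat_lit 0x0) (nat_lit 0x2000000000000400020000000000000000000) := D_3 (nat_lit 94) (nat_lit 77) (nat_lit 145) (nat_lit 5) (nat_lit 9) (nat_lit 4) (nat_lit 5) (nat_lit 9) (nat_lit 5) (by decide +kernel)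
theorem L649283 : W_3 (nat_lit 2) (nat_lit 0x3000700000001c001c0000000000000000000000000000000) (nat_lit 0x0) (nat_lit 0xc00080000000000000000000000000000000000000000000) := D_3 (nat_lit 191) (nat_lit 175) (nat_lit 190) (nat_lit 1) (nat_lit 8) (nat_lit 10) (nat_lit 2) (nat_lit 3) (nat_lit 11) (by decide +kernel)
theorem L672956 : W_3 (nat_lit 2) (nat_lit 0x8003c002c0002000000000000000000000000000) (nat_lit 0x0) (nat_lit 0x2000100010000000000000000000000000000000000000000) := D_3 (nat_lit 176) (nat_lit 193) (nat_lit 160) (nat_lit 6) (nat_lit 6) (nat_lit 11) (nat_lit 5) (nat_lit 7) (nat_lit 6) (by decide +kernel)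
theorem L672957 : W_3 (nat_lit 3) (nat_lit 0x8003c002c0000000000000000000000000000000) (nat_lit 0x0) (nat_lit 0x2000100010000000000002000100000000000000000000000) := T_3 (nat_lit 109) (nat_lit 92) (nat_lit 5) (nat_lit 7) (nat_lit 5) L672956 (by decide +kernel)
theorem L672958 : W_3 (nat_lit 4) (nat_lit 0x3c002c0000000000000000000000000000000) (nat_lit 0x0) (nat_lit 0x200010001c000000000002000100000000000000000000000) := T_3 (nat_lit 159) (nat_lit 158) (nat_lit 1) (nat_lit 9) (nat_lit 8) L672957 (by decide +kernel)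
theorem L706816 : W_3 (nat_lit 2) (nat_lit 0x100038000c0002000000000000000000000000000) (nat_lit 0x0) (nat_lit 0x800c000000000000000000000000000000000000) := D_3 (nat_lit 146) (nat_lit 147) (nat_lit 159) (nat_lit 0) (nat_lit 11) (nat_lit 8) (nat_lit 1) (nat_lit 10) (nat_lit 8) (by decide +kernel)
theorem L707338 : W_3 (nat_lit 2) (nat_lit 0x10003c000d0000000000000000000000000000000) (nat_lit 0x0) (nat_lit 0x300008000000000000000000000000000000) := D_3 (nat_lit 141) (nat_lit 140) (nat_lit 123) (nat_lit 2) (nat_lit 4) (nat_lit 8) (nat_lit 0) (nat_lit 8) (nat_lit 8) (by decide +kernel)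
theorem L772462 : W_3 (nat_lit 2) (nat_lit 0x100018001c0002000080000000000000000000000) (nat_lit 0x0) (nat_lit 0x10000c000000000000000000) := D_3 (nat_lit 92) (nat_lit 75) (nat_lit 74) (nat_lit 7) (nat_lit 7) (nat_lit 4) (nat_lit 4) (nat_lit 7) (nat_lit 8) (by decide +kernel)
theorem L772719 : W_3 (nat_lit 2) (nat_lit 0x6000100018000c0002000100000000000000000000000) (nat_lit 0x0) (nat_lit 0x1000080004000000000000000000) := D_3 (nat_lit 91) (nat_lit 74) (nat_lit 108) (nat_lit 4) (nat_lit 7) (nat_lit 8) (nat_lit 4) (nat_lit 7) (nat_lit 9) (by decide +kernel)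
theorem L772756 : W_3 (nat_lit 2) (nat_lit 0x7000100018000c0002000100000000000000000000000) (nat_lit 0x0) (nat_lit 0x1000080004000000000000000000) := D_3 (nat_lit 91) (nat_lit 74) (nat_lit 108) (nat_lit 4) (nat_lit 7) (nat_lit 8) (nat_lit 4) (nat_lit 7) (nat_lit 9) (by decide +kernel)
theorem L772776 : W_3 (nat_lit 3) (nat_lit 0x7000100018000c0002000000000000000000000000000) (nat_lit 0x0) (nat_lit 0x100018000c000000000000000000) := T_3 (nat_lit 92) (nat_lit 75) (nat_lit 7) (nat_lit 7) (nat_lit 4) L772756 (by decide +kernel)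
theorem L775065 : W_3 (nat_lit 2) (nat_lit 0x100038000c0000000000000000000000000000000) (nat_lit 0x0) (nat_lit 0x800c000000000000000000000000000000000000) := D_3 (nat_lit 146) (nat_lit 147) (nat_lit 159) (nat_lit 0) (nat_lit 11) (nat_lit 8) (nat_lit 1) (nat_lit 10) (nat_lit 8) (by decide +kernel)
theorem L778040 : W_3 (nat_lit 2) (nat_lit 0x180018000c0002000000000000000000000000000) (nat_lit 0x0) (nat_lit 0x400000000000100008000000000000000000) := D_3 (nat_lit 92) (nat_lit 142) (nat_lit 75) (nat_lit 5) (nat_lit 7) (nat_lit 5) (nat_lit 7) (nat_lit 7) (nat_lit 4) (by decide +kernel)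
theorem L802028 : W_3 (nat_lit 2) (nat_lit 0x40038000900078003c0010000000040000000000000000000) (nat_lit 0x0) (nat_lit 0x8000400020000000000000000000000000000000000000000) := D_3 (nat_lit 178) (nat_lit 195) (nat_lit 161) (nat_lit 1) (nat_lit 11) (nat_lit 10) (nat_lit 0) (nat_lit 11) (nat_lit 10) (by decide +kernel)
theorem L802029 : W_3 (nat_lit 3) (nat_lit 0x40018000900078003c0010000000040000000000000000000) (nat_lit 0x0) (nat_lit 0x48002400020000000000000000000000000000000000000000) := T_3 (nat_lit 181) (nat_lit 198) (nat_lit 7) (nat_lit 10) (nat_lit 7) L802028 (by decide +kernel)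
theorem L802030 : W_3 (nat_lit 4) (nat_lit 0x40010000900078003c0010000000040000000000000000000) (nat_lit 0x0) (nat_lit 0x58002c00020000000000000000000000000000000000000000) := T_3 (nat_lit 179) (nat_lit 196) (nat_lit 5) (nat_lit 10) (nat_lit 7) L802029 (by decide +kernel)
theorem L802031 : W_3 (nat_lit 5) (nat_lit 0x40000000900078003c0010000000040000000000000000000) (nat_lit 0x0) (nat_lit 0x78003c00020000000000000000000000000000000000000000) := T_3 (nat_lit 180) (nat_lit 197) (nat_lit 4) (nat_lit 10) (nat_lit 11) L802030 (by decide +kernel)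
theorem L802032 : W_3 (nat_lit 6) (nat_lit 0x900078003c0010000000040000000000000000000) (nat_lit 0x0) (nat_lit 0x7c003e00020000000000000000000000000000000000000000) := T_3 (nat_lit 194) (nat_lit 177) (nat_lit 6) (nat_lit 7) (nat_lit 11) L802031 (by decide +kernel)
theorem L802033 : W_3 (nat_lit 7) (nat_lit 0x100078003c0010000000040000000000000000000) (nat_lit 0x0) (nat_lit 0x7c003e001a0000000000000000000000000000000000000000) := T_3 (nat_lit 163) (nat_lit 164) (nat_lit 3) (nat_lit 7) (nat_lit 8) L802032 (by decide +kernel)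
theorem L802034 : W_3 (nat_lit 8) (nat_lit 0x78003c0010000000040000000000000000000) (nat_lit 0x0) (nat_lit 0x7c003e001b8000000000000000000000000000000000000000) := T_3 (nat_lit 160) (nat_lit 159) (nat_lit 1) (nat_lit 10) (nat_lit 8) L802033 (by decide +kernel)
theorem L802143 : W_3 (nat_lit 2) (nat_lit 0x200018001c0000000000000000000000000000000) (nat_lit 0x0) (nat_lit 0x8000400000000000000002000000000000000000000000000) := D_3 (nat_lit 178) (nat_lit 109) (nat_lit 195) (nat_lit 4) (nat_lit 8) (nat_lit 10) (nat_lit 4) (nat_lit 8) (nat_lit 11) (by decide +kernel)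
theorem L802144 : W_3 (nat_lit 2) (nat_lit 0x200018001f0000000100000000000000000000000) (nat_lit 0x0) (nat_lit 0x1c00000000000000000000000000) := D_3 (nat_lit 107) (nat_lit 108) (nat_lit 106) (nat_lit 0) (nat_lit 9) (nat_lit 7) (nat_lit 0) (nat_lit 8) (nat_lit 7) (by decide +kernel)
theorem L802145 : W_3 (nat_lit 3) (nat_lit 0x200018001e0000000100000000000000000000000) (nat_lit 0x0) (nat_lit 0x18001c00000000000000000000000000) := T_3 (nat_lit 124) (nat_lit 123) (nat_lit 3) (nat_lit 4) (nat_lit 7) L802144 (by decide +kernel)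
theorem L802146 : W_3 (nat_lit 4) (nat_lit 0x200018001e0000000000000000000000000000000) (nat_lit 0x0) (nat_lit 0x18003c00100000000000000000000000) := T_3 (nat_lit 92) (nat_lit 109) (nat_lit 7) (nat_lit 7) (nat_lit 5) L802145 (by decide +kernel)
theorem L802156 : W_3 (nat_lit 2) (nat_lit 0x20001a001e0000000000000000000000000000000) (nat_lit 0x0) (nat_lit 0x100018000000000000000000000000000000) := D_3 (nat_lit 124) (nat_lit 123) (nat_lit 140) (nat_lit 3) (nat_lit 4) (nat_lit 7) (nat_lit 1) (nat_lit 8) (nat_lit 7) (by decide +kernel)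
theorem L802177 : W_3 (nat_lit 4) (nat_lit 0x380018001c0002000000000000000000000000000) (nat_lit 0x0) (nat_lit 0x6000000020001c00080000000000000000000000) := T_3 (nat_lit 157) (nat_lit 158) (nat_lit 2) (nat_lit 4) (nat_lit 9) L802176 (by decide +kernel)
theorem L802178 : W_3 (nat_lit 5) (nat_lit 0x300018001c0002000000000000000000000000000) (nat_lit 0x0) (nat_lit 0x10000e000000020001c00080000000000000000000000) := T_3 (nat_lit 159) (nat_lit 176) (nat_lit 5) (nat_lit 7) (nat_lit 6) L802177 (by decide +kernel)
theorem L802179 : W_3 (nat_lit 6) (nat_lit 0x300018001c0000000000000000000000000000000) (nat_lit 0x0) (nat_lit 0x10000e000000020003c00180000000000000000000000) := T_3 (nat_lit 109) (nat_lit 92) (nat_lit 7) (nat_lit 7) (nat_lit 5) L802178 (by decide +kernel)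
theorem L802180 : W_3 (nat_lit 2) (nat_lit 0x40000000300018001c0003000000000000000000000000000) (nat_lit 0x0) (nat_lit 0x20000c00000000000000000000000000) := D_3 (nat_lit 107) (nat_lit 106) (nat_lit 125) (nat_lit 3) (nat_lit 4) (nat_lit 6) (nat_lit 0) (nat_lit 9) (nat_lit 7) (by decide +kernel)
theorem L802181 : W_3 (nat_lit 3) (nat_lit 0x40000000300018001c0002000000000000000000000000000) (nat_lit 0x0) (nat_lit 0x20001c00080000000000000000000000) := T_3 (nat_lit 108) (nat_lit 91) (nat_lit 4) (nat_lit 7) (nat_lit 9) L802180 (by decide +kernel)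
theorem L802182 : W_3 (nat_lit 4) (nat_lit 0x300018001c0002000000000000000000000000000) (nat_lit 0x0) (nat_lit 0x4000200000000000020001c00080000000000000000000000) := T_3 (nat_lit 194) (nat_lit 177) (nat_lit 6) (nat_lit 7) (nat_lit 11) L802181 (by decide +kernel)
theorem L802183 : W_3 (nat_lit 5) (nat_lit 0x300018001c0000000000000000000000000000000) (nat_lit 0x0) (nat_lit 0x4000200000000000020003c00180000000000000000000000) := T_3 (nat_lit 109) (nat_lit 92) (nat_lit 7) (nat_lit 7) (nat_lit 5) L802182 (by decide +kernel)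
theorem L802184 : W_3 (nat_lit 2) (nat_lit 0x3000300018001c0002000000000000000000000000000) (nat_lit 0x0) (nat_lit 0x20001000080000000000000000000000) := D_3 (nat_lit 108) (nat_lit 91) (nat_lit 125) (nat_lit 4) (nat_lit 7) (nat_lit 9) (nat_lit 4) (nat_lit 7) (nat_lit 10) (by decide +kernel)
theorem L802185 : W_3 (nat_lit 3) (nat_lit 0x3000300018001c0000000000000000000000000000000) (nat_lit 0x0) (nat_lit 0x8000000020003000080000000000000000000000) := T_3 (nat_lit 109) (nat_lit 159) (nat_lit 5) (nat_lit 7) (nat_lit 6) L802184 (by decide +kernel)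
theorem L802186 : W_3 (nat_lit 4) (nat_lit 0x2000300018001c0000000000000000000000000000000) (nat_lit 0x0) (nat_lit 0x2000100008000000020003000080000000000000000000000) := T_3 (nat_lit 176) (nat_lit 193) (nat_lit 5) (nat_lit 7) (nat_lit 7) L802185 (by decide +kernel)
theorem L802187 : W_3 (nat_lit 5) (nat_lit 0x300018001c0000000000000000000000000000000) (nat_lit 0x0) (nat_lit 0x6000300008000000020003000080000000000000000000000) := T_3 (nat_lit 177) (nat_lit 194) (nat_lit 6) (nat_lit 7) (nat_lit 11) L802186 (by decide +kernel)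
theorem L802188 : W_3 (nat_lit 2) (nat_lit 0x340030001a001f0008800000020000000000000000000) (nat_lit 0x0) (nat_lit 0xe000000000000000000000000000000000000000) := D_3 (nat_lit 158) (nat_lit 157) (nat_lit 159) (nat_lit 5) (nat_lit 5) (nat_lit 6) (nat_lit 7) (nat_lit 5) (nat_lit 6) (by decide +kernel)
theorem L802189 : W_3 (nat_lit 3) (nat_lit 0x3400300018001f0008800000020000000000000000000) (nat_lit 0x0) (nat_lit 0xe000300000000000000000000000000000000000) := T_3 (nat_lit 141) (nat_lit 140) (nat_lit 1) (nat_lit 8) (nat_lit 7) L802188 (by decide +kernel)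
theorem L802190 : W_3 (nat_lit 4) (nat_lit 0x3400300018001f0008800000000000000000000000000) (nat_lit 0x0) (nat_lit 0xe000300000000000400020000000000000000000) := T_3 (nat_lit 77) (nat_lit 94) (nat_lit 5) (nat_lit 9) (nat_lit 4) L802189 (by decide +kernel)
theorem L802191 : W_3 (nat_lit 5) (nat_lit 0x3400300018001f0008000000000000000000000000000) (nat_lit 0x0) (nat_lit 0xe000300000000c00400020000000000000000000) := T_3 (nat_lit 107) (nat_lit 106) (nat_lit 0) (nat_lit 8) (nat_lit 7) L802190 (by decide +kernel)
theorem L802192 : W_3 (nat_lit 6) (nat_lit 0x3400300018001f0000000000000000000000000000000) (nat_lit 0x0) (nat_lit 0xe000300000018c00400020000000000000000000) := T_3 (nat_lit 111) (nat_lit 112) (nat_lit 2) (nat_lit 6) (nat_lit 7) L802191 (by decide +kernel)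
theorem L802193 : W_3 (nat_lit 7) (nat_lit 0x3400300018001e0000000000000000000000000000000) (nat_lit 0x0) (nat_lit 0xe000300018018c00400020000000000000000000) := T_3 (nat_lit 124) (nat_lit 123) (nat_lit 3) (nat_lit 4) (nat_lit 7) L802192 (by decide +kernel)
theorem L802194 : W_3 (nat_lit 8) (nat_lit 0x3400300018001c0000000000000000000000000000000) (nat_lit 0x0) (nat_lit 0xe000300038019c00400020000000000000000000) := T_3 (nat_lit 125) (nat_lit 108) (nat_lit 4) (nat_lit 7) (nat_lit 10) L802193 (by decide +kernel)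
theorem L802195 : W_3 (nat_lit 9) (nat_lit 0x3000300018001c0000000000000000000000000000000) (nat_lit 0x0) (nat_lit 0xc000e000300038019c00400020000000000000000000) := T_3 (nat_lit 174) (nat_lit 175) (nat_lit 2) (nat_lit 4) (nat_lit 10) L802194 (by decide +kernel)
theorem L802196 : W_3 (nat_lit 10) (nat_lit 0x2000300018001c0000000000000000000000000000000) (nat_lit 0x0) (nat_lit 0x20001c000e000300038019c00400020000000000000000000) := T_3 (nat_lit 176) (nat_lit 193) (nat_lit 5) (nat_lit 7) (nat_lit 7) L802195 (by decide +kernel)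
theorem L802197 : W_3 (nat_lit 11) (nat_lit 0x300018001c0000000000000000000000000000000) (nat_lit 0x0) (nat_lit 0x60003c000e000300038019c00400020000000000000000000) := T_3 (nat_lit 177) (nat_lit 194) (nat_lit 6) (nat_lit 7) (nat_lit 11) L802196 (by decide +kernel)
theorem L802198 : W_3 (nat_lit 12) (nat_lit 0x200018001c0000000000000000000000000000000) (nat_lit 0x0) (nat_lit 0x60003c001e00030003801bc00580020000000000000000000) := Q_3 (nat_lit 160) (C_3 L634674 (C_3 L802179 (C_3 L802183 (C_3 L802187 (C_3 L802197 N_3))))) (by decide +kernel)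
theorem L802199 : W_3 (nat_lit 2) (nat_lit 0x200018001c0000000000000000000000000000000) (nat_lit 0x0) (nat_lit 0x8000400000000000000008000000000000000000000000000) := D_3 (nat_lit 178) (nat_lit 195) (nat_lit 111) (nat_lit 4) (nat_lit 8) (nat_lit 11) (nat_lit 6) (nat_lit 8) (nat_lit 10) (by decide +kernel)
theorem L802200 : W_3 (nat_lit 13) (nat_lit 0x18001c0000000000000000000000000000000) (nat_lit 0x0) (nat_lit 0xe0007c003e00030003801bc00580020000000000000000000) := Q_3 (nat_lit 161) (C_3 L802143 (C_3 L802198 (C_3 L802199 N_3))) (by decide +kernel)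
theorem L802202 : W_3 (nat_lit 2) (nat_lit 0x400000001a001e000b000580000000000000000000000) (nat_lit 0x0) (nat_lit 0xa00010000000000000000000) := D_3 (nat_lit 93) (nat_lit 76) (nat_lit 95) (nat_lit 6) (nat_lit 7) (nat_lit 8) (nat_lit 1) (nat_lit 10) (nat_lit 5) (by decide +kernel)
theorem L802203 : W_3 (nat_lit 3) (nat_lit 0x400000001a001e000b000480000000000000000000000) (nat_lit 0x0) (nat_lit 0xb00018000000000000000000) := T_3 (nat_lit 92) (nat_lit 75) (nat_lit 7) (nat_lit 7) (nat_lit 4) L802202 (by decide +kernel)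
theorem L802204 : W_3 (nat_lit 4) (nat_lit 0x400000001a001e0009000480000000000000000000000) (nat_lit 0x0) (nat_lit 0x10000000000002000b00018000000000000000000) := T_3 (nat_lit 109) (nat_lit 160) (nat_lit 4) (nat_lit 7) (nat_lit 9) L802203 (by decide +kernel)
theorem L802205 : W_3 (nat_lit 5) (nat_lit 0x400000001a001e0009000080000000000000000000000) (nat_lit 0x0) (nat_lit 0x10000000000002000f00038000000000000000000) := T_3 (nat_lit 94) (nat_lit 77) (nat_lit 5) (nat_lit 9) (nat_lit 4) L802204 (by decide +kernel)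
theorem L802206 : W_3 (nat_lit 6) (nat_lit 0x400000001a001e0009000000000000000000000000000) (nat_lit 0x0) (nat_lit 0x10000000000002000f8003c000000000000000000) := T_3 (nat_lit 91) (nat_lit 74) (nat_lit 7) (nat_lit 6) (nat_lit 4) L802205 (by decide +kernel)
theorem L802207 : W_3 (nat_lit 7) (nat_lit 0x1a001e0009000000000000000000000000000) (nat_lit 0x0) (nat_lit 0x400030000000000002000f8003c000000000000000000) := T_3 (nat_lit 178) (nat_lit 161) (nat_lit 6) (nat_lit 8) (nat_lit 10) L802206 (by decide +kernel)
theorem L802208 : W_3 (nat_lit 8) (nat_lit 0x1a001e0008000000000000000000000000000) (nat_lit 0x0) (nat_lit 0x400030000000000003800f8003c000000000000000000) := T_3 (nat_lit 108) (nat_lit 107) (nat_lit 0) (nat_lit 9) (nat_lit 7) L802207 (by decide +kernel)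
theorem L802209 : W_3 (nat_lit 9) (nat_lit 0x1a001e0000000000000000000000000000000) (nat_lit 0x0) (nat_lit 0x40003000000000001b800f8003c000000000000000000) := T_3 (nat_lit 111) (nat_lit 112) (nat_lit 2) (nat_lit 6) (nat_lit 7) L802208 (by decide +kernel)
theorem L802210 : W_3 (nat_lit 10) (nat_lit 0x18001e0000000000000000000000000000000) (nat_lit 0x0) (nat_lit 0x40003000060000001b800f8003c000000000000000000) := T_3 (nat_lit 141) (nat_lit 142) (nat_lit 2) (nat_lit 5) (nat_lit 8) L802209 (by decide +kernel)
theorem L802211 : W_3 (nat_lit 11) (nat_lit 0x18001c0000000000000000000000000000000) (nat_lit 0x0) (nat_lit 0x40003000070003801bc00f8003c000000000000000000) := Q_3 (nat_lit 125) (C_3 L619436 (C_3 L619395 (C_3 L802210 N_3))) (by decide +kernel)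
theorem L802212 : W_3 (nat_lit 7) (nat_lit 0x18001c0002000000000000000000000000000) (nat_lit 0x0) (nat_lit 0x600030001800000000000100038001c000000000000000000) := T_3 (nat_lit 92) (nat_lit 75) (nat_lit 7) (nat_lit 7) (nat_lit 4) L641239 (by decide +kernel)
theorem L802215 : W_3 (nat_lit 4) (nat_lit 0x18001c0002000000000000000000000000000) (nat_lit 0x0) (nat_lit 0xe000700038000000020001c00080000000000000000000000) := Q_3 (nat_lit 160) (C_3 L620832 (C_3 L620826 (C_3 L802214 N_3))) (by decide +kernel)
theorem L802216 : W_3 (nat_lit 8) (nat_lit 0x18001c0000000000000000000000000000000) (nat_lit 0x0) (nat_lit 0xe000700038000000020003c0038001c000000000000000000) := Q_3 (nat_lit 109) (C_3 L620821 (C_3 L802212 (C_3 L802215 N_3))) (by decide +kernel)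
theorem L802217 : W_3 (nat_lit 15) (nat_lit 0x1800180000000000000000000000000000000) (nat_lit 0x0) (nat_lit 0xe000fc003f00070007801bc00f8003c000000000000000000) := Q_3 (nat_lit 126) (C_3 L802200 (C_3 L620841 (C_3 L619449 (C_3 L620834 (C_3 L802211 (C_3 L802216 N_3)))))) (by decide +kernel)
theorem L805232 : W_3 (nat_lit 2) (nat_lit 0x7c0002001800180000000000000000000000000000000) (nat_lit 0x0) (nat_lit 0x1c00000000000000000000000000000000000000000000000) := D_3 (nat_lit 191) (nat_lit 192) (nat_lit 190) (nat_lit 1) (nat_lit 8) (nat_lit 10) (nat_lit 1) (nat_lit 7) (nat_lit 10) (by decide +kernel)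
theorem L805233 : W_3 (nat_lit 3) (nat_lit 0x780002001800180000000000000000000000000000000) (nat_lit 0x0) (nat_lit 0x1c00040001000000000000000000000000000000000000000) := T_3 (nat_lit 174) (nat_lit 156) (nat_lit 0) (nat_lit 7) (nat_lit 10) L805232 (by decide +kernel)
theorem L805529 : W_3 (nat_lit 2) (nat_lit 0x10000f80000001800180000000000000000000000000000000) (nat_lit 0x0) (nat_lit 0xe000000000000000000000000000000000000000) := D_3 (nat_lit 158) (nat_lit 159) (nat_lit 157) (nat_lit 0) (nat_lit 9) (nat_lit 10) (nat_lit 0) (nat_lit 8) (nat_lit 10) (by decide +kernel)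
theorem L805530 : W_3 (nat_lit 3) (nat_lit 0x10000f00000001800180000000000000000000000000000000) (nat_lit 0x0) (nat_lit 0x800008000e000000000000000000000000000000000000000) := T_3 (nat_lit 175) (nat_lit 195) (nat_lit 3) (nat_lit 5) (nat_lit 10) L805529 (by decide +kernel)
theorem L805531 : W_3 (nat_lit 4) (nat_lit 0xf00000001800180000000000000000000000000000000) (nat_lit 0x0) (nat_lit 0x3800008000e000000000000000000000000000000000000000) := T_3 (nat_lit 196) (nat_lit 197) (nat_lit 3) (nat_lit 6) (nat_lit 10) L805530 (by decide +kernel)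
theorem L807304 : W_3 (nat_lit 2) (nat_lit 0xf80004001800180000000000000000000000000000000) (nat_lit 0x0) (nat_lit 0x38000000000000000000000000000000000000000000000000) := D_3 (nat_lit 196) (nat_lit 197) (nat_lit 195) (nat_lit 3) (nat_lit 6) (nat_lit 10) (nat_lit 3) (nat_lit 5) (nat_lit 10) (by decide +kernel)
theorem L807305 : W_3 (nat_lit 3) (nat_lit 0xf00004001800180000000000000000000000000000000) (nat_lit 0x0) (nat_lit 0x38000080002000000000000000000000000000000000000000) := T_3 (nat_lit 175) (nat_lit 157) (nat_lit 0) (nat_lit 8) (nat_lit 10) L807304 (by decide +kernel)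
theorem L807306 : W_3 (nat_lit 4) (nat_lit 0x700004001800180000000000000000000000000000000) (nat_lit 0x0) (nat_lit 0x3800088000a000000000000000000000000000000000000000) := T_3 (nat_lit 179) (nat_lit 159) (nat_lit 0) (nat_lit 9) (nat_lit 10) L807305 (by decide +kernel)
theorem L807363 : W_3 (nat_lit 2) (nat_lit 0x80007c0000001800180000000000000000000000000000000) (nat_lit 0x0) (nat_lit 0x1c00000000000000000000000000000000000000000000000) := D_3 (nat_lit 191) (nat_lit 190) (nat_lit 192) (nat_lit 1) (nat_lit 7) (nat_lit 10) (nat_lit 1) (nat_lit 8) (nat_lit 10) (by decide +kernel)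
theorem L807364 : W_3 (nat_lit 3) (nat_lit 0x8000780000001800180000000000000000000000000000000) (nat_lit 0x0) (nat_lit 0x5c00040000000000000000000000000000000000000000000) := T_3 (nat_lit 174) (nat_lit 194) (nat_lit 3) (nat_lit 4) (nat_lit 10) L807363 (by decide +kernel)
theorem L807365 : W_3 (nat_lit 4) (nat_lit 0x780000001800180000000000000000000000000000000) (nat_lit 0x0) (nat_lit 0x1dc00040000000000000000000000000000000000000000000) := T_3 (nat_lit 195) (nat_lit 196) (nat_lit 3) (nat_lit 5) (nat_lit 10) L807364 (by decide +kernel)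
theorem L807366 : W_3 (nat_lit 2) (nat_lit 0x80007c0000001800180000000000000000000000000000000) (nat_lit 0x0) (nat_lit 0x7000000000000000000000000000000000000000) := D_3 (nat_lit 157) (nat_lit 158) (nat_lit 156) (nat_lit 0) (nat_lit 8) (nat_lit 10) (nat_lit 0) (nat_lit 7) (nat_lit 10) (by decide +kernel)
theorem L807367 : W_3 (nat_lit 3) (nat_lit 0x8000780000001800180000000000000000000000000000000) (nat_lit 0x0) (nat_lit 0x4000040007000000000000000000000000000000000000000) := T_3 (nat_lit 174) (nat_lit 194) (nat_lit 3) (nat_lit 4) (nat_lit 10) L807366 (by decide +kernel)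
theorem L807368 : W_3 (nat_lit 4) (nat_lit 0x780000001800180000000000000000000000000000000) (nat_lit 0x0) (nat_lit 0x1c000040007000000000000000000000000000000000000000) := T_3 (nat_lit 195) (nat_lit 196) (nat_lit 3) (nat_lit 5) (nat_lit 10) L807367 (by decide +kernel)
theorem L807392 : W_3 (nat_lit 2) (nat_lit 0x11000780000001800180000000000000000000000000000000) (nat_lit 0x0) (nat_lit 0x22000800000000000000000000000000000000000000000000) := D_3 (nat_lit 179) (nat_lit 193) (nat_lit 197) (nat_lit 1) (nat_lit 9) (nat_lit 10) (nat_lit 3) (nat_lit 6) (nat_lit 10) (by decide +kernel)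
theorem L807393 : W_3 (nat_lit 3) (nat_lit 0x1000780000001800180000000000000000000000000000000) (nat_lit 0x0) (nat_lit 0x3a000800000000000000000000000000000000000000000000) := T_3 (nat_lit 196) (nat_lit 195) (nat_lit 3) (nat_lit 5) (nat_lit 10) L807392 (by decide +kernel)
theorem L807394 : W_3 (nat_lit 4) (nat_lit 0x780000001800180000000000000000000000000000000) (nat_lit 0x0) (nat_lit 0x3b800800000000000000000000000000000000000000000000) := T_3 (nat_lit 192) (nat_lit 191) (nat_lit 1) (nat_lit 8) (nat_lit 10) L807393 (by decide +kernel)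
theorem L807395 : W_3 (nat_lit 2) (nat_lit 0x10000780004001800180000000000000000000000000000000) (nat_lit 0x0) (nat_lit 0x20000800008000000000000000000000000000000000000000) := D_3 (nat_lit 179) (nat_lit 159) (nat_lit 197) (nat_lit 0) (nat_lit 9) (nat_lit 10) (nat_lit 3) (nat_lit 6) (nat_lit 10) (by decide +kernel)
theorem L807396 : W_3 (nat_lit 3) (nat_lit 0x780004001800180000000000000000000000000000000) (nat_lit 0x0) (nat_lit 0x38000800008000000000000000000000000000000000000000) := T_3 (nat_lit 196) (nat_lit 195) (nat_lit 3) (nat_lit 5) (nat_lit 10) L807395 (by decide +kernel)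
theorem L807397 : W_3 (nat_lit 4) (nat_lit 0x780000001800180000000000000000000000000000000) (nat_lit 0x0) (nat_lit 0x3800080000e000000000000000000000000000000000000000) := T_3 (nat_lit 158) (nat_lit 157) (nat_lit 0) (nat_lit 8) (nat_lit 10) L807396 (by decide +kernel)
theorem L807476 : W_3 (nat_lit 2) (nat_lit 0x12000f00008001800180000000000000000000000000000000) (nat_lit 0x0) (nat_lit 0x40000001000010000000000000000000000000000000000000000) := D_3 (nat_lit 160) (nat_lit 180) (nat_lit 210) (nat_lit 0) (nat_lit 10) (nat_lit 10) (nat_lit 6) (nat_lit 6) (nat_lit 12) (by decide +kernel)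
theorem L807477 : W_3 (nat_lit 3) (nat_lit 0x12000f00000001800180000000000000000000000000000000) (nat_lit 0x0) (nat_lit 0x4000000100001c000000000000000000000000000000000000000) := T_3 (nat_lit 159) (nat_lit 158) (nat_lit 0) (nat_lit 9) (nat_lit 10) L807476 (by decide +kernel)
theorem L807478 : W_3 (nat_lit 4) (nat_lit 0x2000f00000001800180000000000000000000000000000000) (nat_lit 0x0) (nat_lit 0x4003000100001c000000000000000000000000000000000000000) := T_3 (nat_lit 196) (nat_lit 197) (nat_lit 3) (nat_lit 6) (nat_lit 10) L807477 (by decide +kernel)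
theorem L807479 : W_3 (nat_lit 5) (nat_lit 0xf00000001800180000000000000000000000000000000) (nat_lit 0x0) (nat_lit 0x4003300100001c000000000000000000000000000000000000000) := T_3 (nat_lit 193) (nat_lit 192) (nat_lit 1) (nat_lit 9) (nat_lit 10) L807478 (by decide +kernel)
theorem L807487 : W_3 (nat_lit 2) (nat_lit 0x2000f00008001800180000000000000000000000000000000) (nat_lit 0x0) (nat_lit 0x40004000000010000000000000000000000000000000000000000) := D_3 (nat_lit 160) (nat_lit 194) (nat_lit 210) (nat_lit 6) (nat_lit 7) (nat_lit 11) (nat_lit 6) (nat_lit 6) (nat_lit 12) (by decide +kernel)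
theorem L807488 : W_3 (nat_lit 3) (nat_lit 0xf00008001800180000000000000000000000000000000) (nat_lit 0x0) (nat_lit 0x40007000000010000000000000000000000000000000000000000) := T_3 (nat_lit 193) (nat_lit 192) (nat_lit 1) (nat_lit 9) (nat_lit 10) L807487 (by decide +kernel)
theorem L807489 : W_3 (nat_lit 4) (nat_lit 0xf00000001800180000000000000000000000000000000) (nat_lit 0x0) (nat_lit 0x4000700000001c000000000000000000000000000000000000000) := T_3 (nat_lit 159) (nat_lit 158) (nat_lit 0) (nat_lit 9) (nat_lit 10) L807488 (by decide +kernel)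
theorem L807517 : W_3 (nat_lit 2) (nat_lit 0x2000700010001800180000000000000000000000000000000) (nat_lit 0x0) (nat_lit 0x800040000000000008000000000000000000000000000000000000000) := D_3 (nat_lit 210) (nat_lit 227) (nat_lit 159) (nat_lit 6) (nat_lit 6) (nat_lit 13) (nat_lit 6) (nat_lit 6) (nat_lit 12) (by decide +kernel)
theorem L807518 : W_3 (nat_lit 3) (nat_lit 0x2000700000001800180000000000000000000000000000000) (nat_lit 0x0) (nat_lit 0x800040004000000018000000000000000000000000000000000000000) := T_3 (nat_lit 160) (nat_lit 194) (nat_lit 6) (nat_lit 7) (nat_lit 11) L807517 (by decide +kernel)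
theorem L807799 : W_3 (nat_lit 2) (nat_lit 0x3000700000001800180000000000000000000000000000000) (nat_lit 0x0) (nat_lit 0xc00080000000000000000000000000000000000000000000) := D_3 (nat_lit 191) (nat_lit 175) (nat_lit 190) (nat_lit 1) (nat_lit 8) (nat_lit 10) (nat_lit 2) (nat_lit 3) (nat_lit 11) (by decide +kernel)
theorem L808097 : W_3 (nat_lit 5) (nat_lit 0x20001800180000000000000000000000000000000) (nat_lit 0x0) (nat_lit 0x28001c000e00000000000000008000000000000000000000000000) := T_3 (nat_lit 178) (nat_lit 111) (nat_lit 6) (nat_lit 8) (nat_lit 10) L808096 (by decide +kernel)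
theorem L808285 : W_3 (nat_lit 2) (nat_lit 0x20005800380008000400000000000000000000000) (nat_lit 0x0) (nat_lit 0x1000080000000000010000000000000000000000000000) := D_3 (nat_lit 163) (nat_lit 180) (nat_lit 112) (nat_lit 4) (nat_lit 10) (nat_lit 10) (nat_lit 4) (nat_lit 10) (nat_lit 9) (by decide +kernel)
theorem L810709 : W_3 (nat_lit 2) (nat_lit 0x18001800000007c0020000000000000000000) (nat_lit 0x0) (nat_lit 0x1c00000000000000000000000000) := D_3 (nat_lit 107) (nat_lit 106) (nat_lit 108) (nat_lit 1) (nat_lit 8) (nat_lit 5) (nat_lit 1) (nat_lit 9) (nat_lit 5) (by decide +kernel)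
theorem L810710 : W_3 (nat_lit 3) (nat_lit 0x1800180000000780020000000000000000000) (nat_lit 0x0) (nat_lit 0x1c00040010000000000000000000) := T_3 (nat_lit 90) (nat_lit 76) (nat_lit 2) (nat_lit 5) (nat_lit 5) L810709 (by decide +kernel)
theorem L810711 : W_3 (nat_lit 4) (nat_lit 0x1800180000000700020000000000000000000) (nat_lit 0x0) (nat_lit 0x1c000c0050000000000000000000) := T_3 (nat_lit 91) (nat_lit 78) (nat_lit 2) (nat_lit 6) (nat_lit 5) L810710 (by decide +kernel)
theorem L810712 : W_3 (nat_lit 2) (nat_lit 0x18001800000007c0020000000000000000000) (nat_lit 0x0) (nat_lit 0x7000000000000000000) := D_3 (nat_lit 73) (nat_lit 74) (nat_lit 72) (nat_lit 0) (nat_lit 9) (nat_lit 5) (nat_lit 0) (nat_lit 8) (nat_lit 5) (by decide +kernel)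
theorem L810713 : W_3 (nat_lit 3) (nat_lit 0x1800180000000780020000000000000000000) (nat_lit 0x0) (nat_lit 0x40017000000000000000000) := T_3 (nat_lit 90) (nat_lit 76) (nat_lit 2) (nat_lit 5) (nat_lit 5) L810712 (by decide +kernel)
theorem L810714 : W_3 (nat_lit 4) (nat_lit 0x1800180000000700020000000000000000000) (nat_lit 0x0) (nat_lit 0xc0057000000000000000000) := T_3 (nat_lit 91) (nat_lit 78) (nat_lit 2) (nat_lit 6) (nat_lit 5) L810713 (by decide +kernel)
theorem L811187 : W_3 (nat_lit 2) (nat_lit 0x1800180010000f80040000000000000000000) (nat_lit 0x0) (nat_lit 0x3800000000000000000000000000) := D_3 (nat_lit 108) (nat_lit 107) (nat_lit 109) (nat_lit 1) (nat_lit 9) (nat_lit 5) (nat_lit 1) (nat_lit 10) (nat_lit 5) (by decide +kernel)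
theorem L811188 : W_3 (nat_lit 3) (nat_lit 0x1800180010000f00040000000000000000000) (nat_lit 0x0) (nat_lit 0x3800080020000000000000000000) := T_3 (nat_lit 91) (nat_lit 77) (nat_lit 2) (nat_lit 6) (nat_lit 5) L811187 (by decide +kernel)
theorem L811189 : W_3 (nat_lit 4) (nat_lit 0x1800180010000f00000000000000000000000) (nat_lit 0x0) (nat_lit 0x38000800e0000000000000000000) := T_3 (nat_lit 78) (nat_lit 79) (nat_lit 2) (nat_lit 7) (nat_lit 5) L811188 (by decide +kernel)
theorem L811190 : W_3 (nat_lit 5) (nat_lit 0x1800180000000f00000000000000000000000) (nat_lit 0x0) (nat_lit 0x338000800e0000000000000000000) := T_3 (nat_lit 112) (nat_lit 113) (nat_lit 3) (nat_lit 7) (nat_lit 5) L811189 (by decide +kernel)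
theorem L811215 : W_3 (nat_lit 2) (nat_lit 0x1a00180011000f80000000000000000000000) (nat_lit 0x0) (nat_lit 0xe000000000000000000) := D_3 (nat_lit 74) (nat_lit 73) (nat_lit 75) (nat_lit 0) (nat_lit 9) (nat_lit 5) (nat_lit 0) (nat_lit 10) (nat_lit 5) (by decide +kernel)
theorem L811216 : W_3 (nat_lit 3) (nat_lit 0x1a00180011000f00000000000000000000000) (nat_lit 0x0) (nat_lit 0x80008000e000000000000000000) := T_3 (nat_lit 91) (nat_lit 107) (nat_lit 1) (nat_lit 9) (nat_lit 5) L811215 (by decide +kernel)
theorem L811217 : W_3 (nat_lit 4) (nat_lit 0x1800180011000f00000000000000000000000) (nat_lit 0x0) (nat_lit 0x60000000080008000e000000000000000000) := T_3 (nat_lit 141) (nat_lit 142) (nat_lit 2) (nat_lit 5) (nat_lit 8) L811216 (by decide +kernel)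
theorem L811218 : W_3 (nat_lit 5) (nat_lit 0x1800180010000f00000000000000000000000) (nat_lit 0x0) (nat_lit 0x60000000380008000e000000000000000000) := T_3 (nat_lit 108) (nat_lit 109) (nat_lit 1) (nat_lit 10) (nat_lit 5) L811217 (by decide +kernel)
theorem L811219 : W_3 (nat_lit 6) (nat_lit 0x1800180000000f00000000000000000000000) (nat_lit 0x0) (nat_lit 0x60000003380008000e000000000000000000) := T_3 (nat_lit 112) (nat_lit 113) (nat_lit 3) (nat_lit 7) (nat_lit 5) L811218 (by decide +kernel)
theorem L811298 : W_3 (nat_lit 2) (nat_lit 0x1a00180001000f80040000000000000000000) (nat_lit 0x0) (nat_lit 0xe000000000000000000) := D_3 (nat_lit 74) (nat_lit 73) (nat_lit 75) (nat_lit 0) (nat_lit 9) (nat_lit 5) (nat_lit 0) (nat_lit 10) (nat_lit 5) (by decide +kernel)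
theorem L811299 : W_3 (nat_lit 3) (nat_lit 0x1a00180001000f00040000000000000000000) (nat_lit 0x0) (nat_lit 0x80008000e000000000000000000) := T_3 (nat_lit 91) (nat_lit 107) (nat_lit 1) (nat_lit 9) (nat_lit 5) L811298 (by decide +kernel)
theorem L811300 : W_3 (nat_lit 4) (nat_lit 0x1800180001000f00040000000000000000000) (nat_lit 0x0) (nat_lit 0x60000000080008000e000000000000000000) := T_3 (nat_lit 141) (nat_lit 142) (nat_lit 2) (nat_lit 5) (nat_lit 8) L811299 (by decide +kernel)
theorem L811301 : W_3 (nat_lit 5) (nat_lit 0x1800180000000f00040000000000000000000) (nat_lit 0x0) (nat_lit 0x60000000380008000e000000000000000000) := T_3 (nat_lit 108) (nat_lit 109) (nat_lit 1) (nat_lit 10) (nat_lit 5) L811300 (by decide +kernel)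
theorem L811302 : W_3 (nat_lit 6) (nat_lit 0x1800180000000f00000000000000000000000) (nat_lit 0x0) (nat_lit 0x6000000038000800ce000000000000000000) := T_3 (nat_lit 78) (nat_lit 79) (nat_lit 2) (nat_lit 7) (nat_lit 5) L811301 (by decide +kernel)
theorem L811303 : W_3 (nat_lit 2) (nat_lit 0x1800180010000f80000000000000000000000) (nat_lit 0x0) (nat_lit 0x3800000000000000000000000000) := D_3 (nat_lit 108) (nat_lit 107) (nat_lit 109) (nat_lit 1) (nat_lit 9) (nat_lit 5) (nat_lit 1) (nat_lit 10) (nat_lit 5) (by decide +kernel)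
theorem L811304 : W_3 (nat_lit 3) (nat_lit 0x1800180010000f00000000000000000000000) (nat_lit 0x0) (nat_lit 0xb800080000000000000000000000) := T_3 (nat_lit 91) (nat_lit 111) (nat_lit 3) (nat_lit 6) (nat_lit 5) L811303 (by decide +kernel)
theorem L811305 : W_3 (nat_lit 4) (nat_lit 0x1800180000000f00000000000000000000000) (nat_lit 0x0) (nat_lit 0x3b800080000000000000000000000) := T_3 (nat_lit 112) (nat_lit 113) (nat_lit 3) (nat_lit 7) (nat_lit 5) L811304 (by decide +kernel)
theorem L811660 : W_3 (nat_lit 5) (nat_lit 0x1800180000000700000000000000000000000) (nat_lit 0x0) (nat_lit 0x80000c0077000000000000000000) := T_3 (nat_lit 77) (nat_lit 111) (nat_lit 5) (nat_lit 9) (nat_lit 4) L810714 (by decide +kernel)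
theorem L811681 : W_3 (nat_lit 2) (nat_lit 0x1800180008000f00040000000000000000000) (nat_lit 0x0) (nat_lit 0x30000000000002000000000000000) := D_3 (nat_lit 112) (nat_lit 113) (nat_lit 61) (nat_lit 3) (nat_lit 7) (nat_lit 5) (nat_lit 5) (nat_lit 10) (nat_lit 3) (by decide +kernel)
theorem L811682 : W_3 (nat_lit 3) (nat_lit 0x1800180000000f00040000000000000000000) (nat_lit 0x0) (nat_lit 0x38000000020002000000000000000) := T_3 (nat_lit 111) (nat_lit 77) (nat_lit 5) (nat_lit 9) (nat_lit 4) L811681 (by decide +kernel)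
theorem L811683 : W_3 (nat_lit 4) (nat_lit 0x1800180000000f00000000000000000000000) (nat_lit 0x0) (nat_lit 0x380000000e0002000000000000000) := T_3 (nat_lit 78) (nat_lit 79) (nat_lit 2) (nat_lit 7) (nat_lit 5) L811682 (by decide +kernel)
theorem L811692 : W_3 (nat_lit 2) (nat_lit 0x1800180020000f00008000000000000000000) (nat_lit 0x0) (nat_lit 0x40001000010000000000000000000) := D_3 (nat_lit 96) (nat_lit 76) (nat_lit 114) (nat_lit 0) (nat_lit 11) (nat_lit 5) (nat_lit 3) (nat_lit 8) (nat_lit 5) (by decide +kernel)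
theorem L811693 : W_3 (nat_lit 3) (nat_lit 0x1800180000000f00008000000000000000000) (nat_lit 0x0) (nat_lit 0x70001000010000000000000000000) := T_3 (nat_lit 113) (nat_lit 112) (nat_lit 3) (nat_lit 7) (nat_lit 5) L811692 (by decide +kernel)
theorem L811694 : W_3 (nat_lit 4) (nat_lit 0x1800180000000f00000000000000000000000) (nat_lit 0x0) (nat_lit 0x7000100001c000000000000000000) := T_3 (nat_lit 75) (nat_lit 74) (nat_lit 0) (nat_lit 10) (nat_lit 5) L811693 (by decide +kernel)
theorem L811696 : W_3 (nat_lit 5) (nat_lit 0x1800180000000700000000000000000000000) (nat_lit 0x0) (nat_lit 0x9c000c0070000000000000000000) := T_3 (nat_lit 77) (nat_lit 111) (nat_lit 5) (nat_lit 9) (nat_lit 4) L810711 (by decide +kernel)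
theorem L811712 : W_3 (nat_lit 2) (nat_lit 0x1800180009000780004000000000000000000) (nat_lit 0x0) (nat_lit 0x2000800008000000000000000000) := D_3 (nat_lit 95) (nat_lit 75) (nat_lit 109) (nat_lit 0) (nat_lit 10) (nat_lit 5) (nat_lit 1) (nat_lit 10) (nat_lit 5) (by decide +kernel)
theorem L811713 : W_3 (nat_lit 3) (nat_lit 0x1800180008000780004000000000000000000) (nat_lit 0x0) (nat_lit 0x3800800008000000000000000000) := T_3 (nat_lit 108) (nat_lit 107) (nat_lit 1) (nat_lit 9) (nat_lit 5) L811712 (by decide +kernel)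
theorem L811714 : W_3 (nat_lit 4) (nat_lit 0x1800180008000780000000000000000000000) (nat_lit 0x0) (nat_lit 0x380080000e000000000000000000) := T_3 (nat_lit 74) (nat_lit 73) (nat_lit 0) (nat_lit 9) (nat_lit 5) L811713 (by decide +kernel)
theorem L816947 : W_3 (nat_lit 2) (nat_lit 0x5000100008001c001b4000000000000000000000000000000) (nat_lit 0x0) (nat_lit 0xa0002000000000000000000000000000000000000000000000000) := D_3 (nat_lit 193) (nat_lit 211) (nat_lit 209) (nat_lit 7) (nat_lit 6) (nat_lit 8) (nat_lit 5) (nat_lit 6) (nat_lit 8) (by decide +kernel)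
theorem L816948 : W_3 (nat_lit 3) (nat_lit 0x4000100008001c001b4000000000000000000000000000000) (nat_lit 0x0) (nat_lit 0xa0003000080000000000000000000000000000000000000000000) := T_3 (nat_lit 192) (nat_lit 175) (nat_lit 5) (nat_lit 6) (nat_lit 7) L816947 (by decide +kernel)
theorem L816949 : W_3 (nat_lit 4) (nat_lit 0x100008001c001b4000000000000000000000000000000) (nat_lit 0x0) (nat_lit 0xa0007000280000000000000000000000000000000000000000000) := T_3 (nat_lit 194) (nat_lit 177) (nat_lit 7) (nat_lit 6) (nat_lit 7) L816948 (by decide +kernel)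
theorem L816950 : W_3 (nat_lit 5) (nat_lit 0x100008001c001b0000000000000000000000000000000) (nat_lit 0x0) (nat_lit 0xa000700028000000000000c000000000000000000000000000000) := T_3 (nat_lit 122) (nat_lit 123) (nat_lit 3) (nat_lit 3) (nat_lit 7) L816949 (by decide +kernel)
theorem L817049 : W_3 (nat_lit 2) (nat_lit 0xd001c001a0001000140000000000000000000000) (nat_lit 0x0) (nat_lit 0x8000a000000000000000000) := D_3 (nat_lit 91) (nat_lit 73) (nat_lit 75) (nat_lit 4) (nat_lit 6) (nat_lit 8) (nat_lit 6) (nat_lit 6) (nat_lit 8) (by decide +kernel)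
theorem L817050 : W_3 (nat_lit 3) (nat_lit 0xd001c001a0001000040000000000000000000000) (nat_lit 0x0) (nat_lit 0x200018000a000000000000000000) := T_3 (nat_lit 92) (nat_lit 109) (nat_lit 6) (nat_lit 6) (nat_lit 9) L817049 (by decide +kernel)
theorem L817051 : W_3 (nat_lit 4) (nat_lit 0xd001c001a0001000000000000000000000000000) (nat_lit 0x0) (nat_lit 0x28001c000a000000000000000000) := T_3 (nat_lit 90) (nat_lit 107) (nat_lit 4) (nat_lit 6) (nat_lit 9) L817050 (by decide +kernel)
theorem L817052 : W_3 (nat_lit 5) (nat_lit 0xd001c001a0000000000000000000000000000000) (nat_lit 0x0) (nat_lit 0x800000000000000038001c000a000000000000000000) := T_3 (nat_lit 108) (nat_lit 175) (nat_lit 5) (nat_lit 6) (nat_lit 6) L817051 (by decide +kernel)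
theorem L817053 : W_3 (nat_lit 6) (nat_lit 0xc001c001a0000000000000000000000000000000) (nat_lit 0x0) (nat_lit 0x800030000000000038001c000a000000000000000000) := T_3 (nat_lit 156) (nat_lit 157) (nat_lit 2) (nat_lit 3) (nat_lit 9) L817052 (by decide +kernel)
theorem L817071 : W_3 (nat_lit 2) (nat_lit 0x180008001c001a0001000000000000000000000000000) (nat_lit 0x0) (nat_lit 0x10000800040000000000000000000000) := D_3 (nat_lit 107) (nat_lit 90) (nat_lit 124) (nat_lit 4) (nat_lit 6) (nat_lit 9) (nat_lit 4) (nat_lit 6) (nat_lit 10) (by decide +kernel)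
theorem L817072 : W_3 (nat_lit 3) (nat_lit 0x180008001c001a0000000000000000000000000000000) (nat_lit 0x0) (nat_lit 0x4000000010001800040000000000000000000000) := T_3 (nat_lit 108) (nat_lit 158) (nat_lit 5) (nat_lit 6) (nat_lit 6) L817071 (by decide +kernel)
theorem L817073 : W_3 (nat_lit 4) (nat_lit 0x100008001c001a0000000000000000000000000000000) (nat_lit 0x0) (nat_lit 0x1000080004000000010001800040000000000000000000000) := T_3 (nat_lit 175) (nat_lit 192) (nat_lit 5) (nat_lit 6) (nat_lit 7) L817072 (by decide +kernel)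
theorem L817077 : W_3 (nat_lit 2) (nat_lit 0x100008001c001a0001800000000000000000000000000) (nat_lit 0x0) (nat_lit 0x1000080004000000000000000000000000000000000000000) := D_3 (nat_lit 175) (nat_lit 158) (nat_lit 192) (nat_lit 5) (nat_lit 6) (nat_lit 6) (nat_lit 5) (nat_lit 6) (nat_lit 7) (by decide +kernel)
theorem L817078 : W_3 (nat_lit 3) (nat_lit 0x8001c001a0001800000000000000000000000000) (nat_lit 0x0) (nat_lit 0x1000180004000000010000000000000000000000000000000) := T_3 (nat_lit 176) (nat_lit 124) (nat_lit 4) (nat_lit 6) (nat_lit 10) L817077 (by decide +kernel)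
theorem L817148 : W_3 (nat_lit 2) (nat_lit 0x60002000100008001c00180000000000000000000000000000000) (nat_lit 0x0) (nat_lit 0x1000080004000000000000000000000000000000000000000000000000) := D_3 (nat_lit 211) (nat_lit 194) (nat_lit 228) (nat_lit 7) (nat_lit 6) (nat_lit 8) (nat_lit 7) (nat_lit 6) (nat_lit 9) (by decide +kernel)
theorem L817149 : W_3 (nat_lit 3) (nat_lit 0x20002000100008001c00180000000000000000000000000000000) (nat_lit 0x0) (nat_lit 0x14000c0004000000000000000000000000000000000000000000000000) := T_3 (nat_lit 210) (nat_lit 226) (nat_lit 5) (nat_lit 6) (nat_lit 9) L817148 (by decide +kernel)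
theorem L817161 : W_3 (nat_lit 2) (nat_lit 0x8001c001a0001000000000000000000000000000) (nat_lit 0x0) (nat_lit 0x200010000000000000000080000000000000000000000) := D_3 (nat_lit 160) (nat_lit 91) (nat_lit 177) (nat_lit 7) (nat_lit 6) (nat_lit 5) (nat_lit 7) (nat_lit 6) (nat_lit 6) (by decide +kernel)
theorem L817162 : W_3 (nat_lit 4) (nat_lit 0x8001c001a0001000000000000000000000000000) (nat_lit 0x0) (nat_lit 0x1000180004000000010000800040000000000000000000000) := T_3 (nat_lit 107) (nat_lit 90) (nat_lit 4) (nat_lit 6) (nat_lit 9) L817078 (by decide +kernel)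
theorem L818857 : W_3 (nat_lit 2) (nat_lit 0x10001c001a0001000000000000000000000000000) (nat_lit 0x0) (nat_lit 0x4000200008000000000000000000000000000000000000000) := D_3 (nat_lit 177) (nat_lit 194) (nat_lit 159) (nat_lit 6) (nat_lit 7) (nat_lit 11) (nat_lit 7) (nat_lit 6) (nat_lit 6) (by decide +kernel)
theorem L818858 : W_3 (nat_lit 3) (nat_lit 0x10001c001a0000000000000000000000000000000) (nat_lit 0x0) (nat_lit 0x4000200008000000000001000080000000000000000000000) := T_3 (nat_lit 108) (nat_lit 91) (nat_lit 7) (nat_lit 6) (nat_lit 5) L818857 (by decide +kernel)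
theorem L818884 : W_3 (nat_lit 2) (nat_lit 0x1c001a00010001c0000000000000000000000) (nat_lit 0x0) (nat_lit 0x8000000000002800000000000000000000000000) := D_3 (nat_lit 159) (nat_lit 109) (nat_lit 107) (nat_lit 6) (nat_lit 6) (nat_lit 9) (nat_lit 4) (nat_lit 6) (nat_lit 9) (by decide +kernel)
theorem L818885 : W_3 (nat_lit 3) (nat_lit 0x1c001a0001000180000000000000000000000) (nat_lit 0x0) (nat_lit 0x8000000000002800040002000000000000000000) := T_3 (nat_lit 90) (nat_lit 73) (nat_lit 4) (nat_lit 6) (nat_lit 8) L818884 (by decide +kernel)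
theorem L818886 : W_3 (nat_lit 4) (nat_lit 0x1c001a0001000080000000000000000000000) (nat_lit 0x0) (nat_lit 0x800000000000280014000a000000000000000000) := T_3 (nat_lit 92) (nat_lit 75) (nat_lit 6) (nat_lit 6) (nat_lit 8) L818885 (by decide +kernel)
theorem L818887 : W_3 (nat_lit 5) (nat_lit 0x1c001a0001000000000000000000000000000) (nat_lit 0x0) (nat_lit 0x180000000000028001c000a000000000000000000) := T_3 (nat_lit 91) (nat_lit 160) (nat_lit 7) (nat_lit 6) (nat_lit 5) L818886 (by decide +kernel)
theorem L818955 : W_3 (nat_lit 6) (nat_lit 0x100008001c001a0000000000000000000000000000000) (nat_lit 0x0) (nat_lit 0xa000700028000000000001c000800000000000000000000000000) := T_3 (nat_lit 124) (nat_lit 107) (nat_lit 4) (nat_lit 6) (nat_lit 10) L816950 (by decide +kernel)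
theorem L822530 : W_3 (nat_lit 2) (nat_lit 0x7800180000000000000000000000000000000) (nat_lit 0x0) (nat_lit 0x8000060000000000000000000000000000000) := D_3 (nat_lit 126) (nat_lit 125) (nat_lit 147) (nat_lit 3) (nat_lit 6) (nat_lit 7) (nat_lit 0) (nat_lit 11) (nat_lit 8) (by decide +kernel)
theorem L822531 : W_3 (nat_lit 2) (nat_lit 0xf800180000000000000000000000000000000) (nat_lit 0x0) (nat_lit 0x380000000000000000000000000000000000000000) := D_3 (nat_lit 164) (nat_lit 163) (nat_lit 165) (nat_lit 3) (nat_lit 7) (nat_lit 8) (nat_lit 3) (nat_lit 8) (nat_lit 8) (by decide +kernel)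
theorem L822532 : W_3 (nat_lit 3) (nat_lit 0x7800180000000000000000000000000000000) (nat_lit 0x0) (nat_lit 0x380018000000000000000000000000000000000000) := T_3 (nat_lit 147) (nat_lit 148) (nat_lit 0) (nat_lit 12) (nat_lit 8) L822531 (by decide +kernel)
theorem L822547 : W_3 (nat_lit 4) (nat_lit 0x8003c001a0000000000000000000000000000000) (nat_lit 0x0) (nat_lit 0x38001c000040000000000000000000000000000000) := T_3 (nat_lit 146) (nat_lit 126) (nat_lit 3) (nat_lit 6) (nat_lit 7) L822546 (by decide +kernel)
theorem L822548 : W_3 (nat_lit 5) (nat_lit 0x8003c00180000000000000000000000000000000) (nat_lit 0x0) (nat_lit 0x38001c000070000000000000000000000000000000) := T_3 (nat_lit 125) (nat_lit 124) (nat_lit 0) (nat_lit 9) (nat_lit 8) L822547 (by decide +kernel)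
theorem L822552 : W_3 (nat_lit 5) (nat_lit 0x8003c00180000000000000000000000000000000) (nat_lit 0x0) (nat_lit 0x39001c000030000000000000000000000000000000) := T_3 (nat_lit 125) (nat_lit 124) (nat_lit 0) (nat_lit 9) (nat_lit 8) L822551 (by decide +kernel)
theorem L822553 : W_3 (nat_lit 6) (nat_lit 0x3c00180000000000000000000000000000000) (nat_lit 0x0) (nat_lit 0x39c01c000030000000000000000000000000000000) := T_3 (nat_lit 159) (nat_lit 158) (nat_lit 1) (nat_lit 9) (nat_lit 8) L822552 (by decide +kernel)
theorem L822554 : W_3 (nat_lit 7) (nat_lit 0x3800180000000000000000000000000000000) (nat_lit 0x0) (nat_lit 0x39c01c600030000000000000000000000000000000) := T_3 (nat_lit 142) (nat_lit 141) (nat_lit 2) (nat_lit 5) (nat_lit 8) L822553 (by decide +kernel)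
theorem L822562 : W_3 (nat_lit 2) (nat_lit 0xe00020003a001e0000000000000000000000000000000) (nat_lit 0x0) (nat_lit 0x10000000000001800000000000000000000000000) := D_3 (nat_lit 108) (nat_lit 160) (nat_lit 107) (nat_lit 4) (nat_lit 7) (nat_lit 10) (nat_lit 0) (nat_lit 9) (nat_lit 7) (by decide +kernel)
theorem L822563 : W_3 (nat_lit 3) (nat_lit 0xc00020003a001e0000000000000000000000000000000) (nat_lit 0x0) (nat_lit 0x4000200010000000000001800000000000000000000000000) := T_3 (nat_lit 177) (nat_lit 194) (nat_lit 5) (nat_lit 8) (nat_lit 7) L822562 (by decide +kernel)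
theorem L822564 : W_3 (nat_lit 4) (nat_lit 0xc00020003a001c0000000000000000000000000000000) (nat_lit 0x0) (nat_lit 0x4000200010000000030001800000000000000000000000000) := T_3 (nat_lit 125) (nat_lit 124) (nat_lit 3) (nat_lit 5) (nat_lit 7) L822563 (by decide +kernel)
theorem L822565 : W_3 (nat_lit 5) (nat_lit 0xc00020003a00180000000000000000000000000000000) (nat_lit 0x0) (nat_lit 0x4000200010000000070003800000000000000000000000000) := T_3 (nat_lit 126) (nat_lit 109) (nat_lit 4) (nat_lit 8) (nat_lit 10) L822564 (by decide +kernel)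
theorem L822566 : W_3 (nat_lit 6) (nat_lit 0x400020003a00180000000000000000000000000000000) (nat_lit 0x0) (nat_lit 0x14000a00010000000070003800000000000000000000000000) := T_3 (nat_lit 179) (nat_lit 196) (nat_lit 7) (nat_lit 8) (nat_lit 7) L822565 (by decide +kernel)
theorem L822567 : W_3 (nat_lit 7) (nat_lit 0x400020003800180000000000000000000000000000000) (nat_lit 0x0) (nat_lit 0x14000a00010000600070003800000000000000000000000000) := T_3 (nat_lit 141) (nat_lit 142) (nat_lit 2) (nat_lit 5) (nat_lit 8) L822566 (by decide +kernel)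
theorem L822568 : W_3 (nat_lit 8) (nat_lit 0x20003800180000000000000000000000000000000) (nat_lit 0x0) (nat_lit 0x1c000e00010000600070003800000000000000000000000000) := T_3 (nat_lit 178) (nat_lit 195) (nat_lit 6) (nat_lit 8) (nat_lit 11) L822567 (by decide +kernel)
theorem L822570 : W_3 (nat_lit 2) (nat_lit 0x8007c00180000000000000000000000000000000) (nat_lit 0x0) (nat_lit 0x18000040000000000000000000000000000000) := D_3 (nat_lit 147) (nat_lit 148) (nat_lit 126) (nat_lit 0) (nat_lit 12) (nat_lit 8) (nat_lit 0) (nat_lit 11) (nat_lit 8) (by decide +kernel)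
theorem L822571 : W_3 (nat_lit 3) (nat_lit 0x8003c00180000000000000000000000000000000) (nat_lit 0x0) (nat_lit 0x1001c000040000000000000000000000000000000) := T_3 (nat_lit 146) (nat_lit 160) (nat_lit 1) (nat_lit 10) (nat_lit 8) L822570 (by decide +kernel)
theorem L822572 : W_3 (nat_lit 4) (nat_lit 0x3c00180000000000000000000000000000000) (nat_lit 0x0) (nat_lit 0x1c01c000040000000000000000000000000000000) := T_3 (nat_lit 159) (nat_lit 158) (nat_lit 1) (nat_lit 9) (nat_lit 8) L822571 (by decide +kernel)
theorem L822573 : W_3 (nat_lit 5) (nat_lit 0x3800180000000000000000000000000000000) (nat_lit 0x0) (nat_lit 0x1c01c600040000000000000000000000000000000) := T_3 (nat_lit 142) (nat_lit 141) (nat_lit 2) (nat_lit 5) (nat_lit 8) L822572 (by decide +kernel)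
theorem L822577 : W_3 (nat_lit 5) (nat_lit 0x3c00180000000000000000000000000000000) (nat_lit 0x0) (nat_lit 0x38001c000070000000000000000000000000000000) := T_3 (nat_lit 125) (nat_lit 124) (nat_lit 0) (nat_lit 9) (nat_lit 8) L822576 (by decide +kernel)
theorem L822578 : W_3 (nat_lit 6) (nat_lit 0x3800180000000000000000000000000000000) (nat_lit 0x0) (nat_lit 0x38001c600070000000000000000000000000000000) := T_3 (nat_lit 142) (nat_lit 141) (nat_lit 2) (nat_lit 5) (nat_lit 8) L822577 (by decide +kernel)
theorem L837230 : W_3 (nat_lit 2) (nat_lit 0x28003c001e0000000000000000000000000000000) (nat_lit 0x0) (nat_lit 0x2000100000000000000002000000000000000000000000000) := D_3 (nat_lit 176) (nat_lit 193) (nat_lit 109) (nat_lit 6) (nat_lit 6) (nat_lit 11) (nat_lit 6) (nat_lit 6) (nat_lit 10) (by decide +kernel)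
theorem L837231 : W_3 (nat_lit 3) (nat_lit 0x20003c001e0000000000000000000000000000000) (nat_lit 0x0) (nat_lit 0x200010000c000000000002000000000000000000000000000) := T_3 (nat_lit 159) (nat_lit 158) (nat_lit 1) (nat_lit 9) (nat_lit 8) L837230 (by decide +kernel)
theorem L837232 : W_3 (nat_lit 4) (nat_lit 0x20001c001e0000000000000000000000000000000) (nat_lit 0x0) (nat_lit 0x200010000c006000000002000000000000000000000000000) := T_3 (nat_lit 145) (nat_lit 146) (nat_lit 3) (nat_lit 6) (nat_lit 7) L837231 (by decide +kernel)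
theorem L837233 : W_3 (nat_lit 5) (nat_lit 0x200018001e0000000000000000000000000000000) (nat_lit 0x0) (nat_lit 0x200010000c006600000002000000000000000000000000000) := T_3 (nat_lit 142) (nat_lit 141) (nat_lit 2) (nat_lit 5) (nat_lit 8) L837232 (by decide +kernel)
theorem L842856 : W_3 (nat_lit 2) (nat_lit 0x2800fc001a0000000400000000000000000000000) (nat_lit 0x0) (nat_lit 0x380000000000000000000000000000000000000000) := D_3 (nat_lit 164) (nat_lit 163) (nat_lit 165) (nat_lit 3) (nat_lit 7) (nat_lit 8) (nat_lit 3) (nat_lit 8) (nat_lit 8) (by decide +kernel)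
theorem L842857 : W_3 (nat_lit 3) (nat_lit 0x28007c001a0000000400000000000000000000000) (nat_lit 0x0) (nat_lit 0x380018000000000000000000000000000000000000) := T_3 (nat_lit 147) (nat_lit 148) (nat_lit 0) (nat_lit 12) (nat_lit 8) L842856 (by decide +kernel)
theorem L842858 : W_3 (nat_lit 4) (nat_lit 0x28003c001a0000000400000000000000000000000) (nat_lit 0x0) (nat_lit 0x39001c000000000000000000000000000000000000) := T_3 (nat_lit 146) (nat_lit 160) (nat_lit 1) (nat_lit 10) (nat_lit 8) L842857 (by decide +kernel)
theorem L842859 : W_3 (nat_lit 5) (nat_lit 0x28003c001a0000000000000000000000000000000) (nat_lit 0x0) (nat_lit 0x39001c000000008000400000000000000000000000) := T_3 (nat_lit 94) (nat_lit 111) (nat_lit 5) (nat_lit 9) (nat_lit 5) L842858 (by decide +kernel)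
theorem L843536 : W_3 (nat_lit 2) (nat_lit 0x700010001a001c0002000080000000000000000000000) (nat_lit 0x0) (nat_lit 0x10000c000000000000000000) := D_3 (nat_lit 92) (nat_lit 75) (nat_lit 74) (nat_lit 7) (nat_lit 7) (nat_lit 4) (nat_lit 4) (nat_lit 7) (nat_lit 8) (by decide +kernel)
theorem L843537 : W_3 (nat_lit 3) (nat_lit 0x700010001a001c0002000000000000000000000000000) (nat_lit 0x0) (nat_lit 0x100018000c000000000000000000) := T_3 (nat_lit 91) (nat_lit 108) (nat_lit 4) (nat_lit 7) (nat_lit 9) L843536 (by decide +kernel)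
theorem L843538 : W_3 (nat_lit 4) (nat_lit 0x700010001a001c0000000000000000000000000000000) (nat_lit 0x0) (nat_lit 0x800000000000300018000c000000000000000000) := T_3 (nat_lit 109) (nat_lit 159) (nat_lit 5) (nat_lit 7) (nat_lit 6) L843537 (by decide +kernel)
theorem L843543 : W_3 (nat_lit 2) (nat_lit 0x7000100018001c0002000080000000000000000000000) (nat_lit 0x0) (nat_lit 0x10000c000000000000000000) := D_3 (nat_lit 92) (nat_lit 75) (nat_lit 74) (nat_lit 7) (nat_lit 7) (nat_lit 4) (nat_lit 4) (nat_lit 7) (nat_lit 8) (by decide +kernel)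
theorem L843544 : W_3 (nat_lit 3) (nat_lit 0x7000100018001c0002000000000000000000000000000) (nat_lit 0x0) (nat_lit 0x100018000c000000000000000000) := T_3 (nat_lit 91) (nat_lit 108) (nat_lit 4) (nat_lit 7) (nat_lit 9) L843543 (by decide +kernel)
theorem L843545 : W_3 (nat_lit 4) (nat_lit 0x7000100018001c0000000000000000000000000000000) (nat_lit 0x0) (nat_lit 0x800000000000300018000c000000000000000000) := T_3 (nat_lit 109) (nat_lit 159) (nat_lit 5) (nat_lit 7) (nat_lit 6) L843544 (by decide +kernel)
theorem L843549 : W_3 (nat_lit 2) (nat_lit 0x1000780004001800180000000000000000000000000000000) (nat_lit 0x0) (nat_lit 0x2000800008000000000000000000000000000000000000000) := D_3 (nat_lit 179) (nat_lit 159) (nat_lit 193) (nat_lit 0) (nat_lit 9) (nat_lit 10) (nat_lit 1) (nat_lit 9) (nat_lit 10) (by decide +kernel)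
theorem L843550 : W_3 (nat_lit 3) (nat_lit 0x780004001800180000000000000000000000000000000) (nat_lit 0x0) (nat_lit 0x3800800008000000000000000000000000000000000000000) := T_3 (nat_lit 192) (nat_lit 191) (nat_lit 1) (nat_lit 8) (nat_lit 10) L843549 (by decide +kernel)
theorem L843551 : W_3 (nat_lit 4) (nat_lit 0x780000001800180000000000000000000000000000000) (nat_lit 0x0) (nat_lit 0x380080000e000000000000000000000000000000000000000) := T_3 (nat_lit 158) (nat_lit 157) (nat_lit 0) (nat_lit 8) (nat_lit 10) L843550 (by decide +kernel)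
theorem L843553 : W_3 (nat_lit 2) (nat_lit 0x1000780004001a00180000000000000000000000000000000) (nat_lit 0x0) (nat_lit 0x2000800000000000010000000000000000000000000000000) := D_3 (nat_lit 193) (nat_lit 179) (nat_lit 124) (nat_lit 1) (nat_lit 9) (nat_lit 10) (nat_lit 7) (nat_lit 5) (nat_lit 7) (by decide +kernel)
theorem L843554 : W_3 (nat_lit 3) (nat_lit 0x1000780000001a00180000000000000000000000000000000) (nat_lit 0x0) (nat_lit 0x2000800006000000010000000000000000000000000000000) := T_3 (nat_lit 158) (nat_lit 157) (nat_lit 0) (nat_lit 8) (nat_lit 10) L843553 (by decide +kernel)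
theorem L843555 : W_3 (nat_lit 4) (nat_lit 0x780000001a00180000000000000000000000000000000) (nat_lit 0x0) (nat_lit 0x3800800006000000010000000000000000000000000000000) := T_3 (nat_lit 192) (nat_lit 191) (nat_lit 1) (nat_lit 8) (nat_lit 10) L843554 (by decide +kernel)
theorem L843556 : W_3 (nat_lit 5) (nat_lit 0x780000001800180000000000000000000000000000000) (nat_lit 0x0) (nat_lit 0x3800800006000600010000000000000000000000000000000) := T_3 (nat_lit 141) (nat_lit 142) (nat_lit 2) (nat_lit 5) (nat_lit 8) L843555 (by decide +kernel)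
theorem L843563 : W_3 (nat_lit 2) (nat_lit 0x22000f00000001800180000000000000000000000000000000) (nat_lit 0x0) (nat_lit 0x44001000000000000000000000000000000000000000000000) := D_3 (nat_lit 180) (nat_lit 194) (nat_lit 198) (nat_lit 1) (nat_lit 10) (nat_lit 10) (nat_lit 3) (nat_lit 7) (nat_lit 10) (by decide +kernel)
theorem L843564 : W_3 (nat_lit 3) (nat_lit 0x2000f00000001800180000000000000000000000000000000) (nat_lit 0x0) (nat_lit 0x74001000000000000000000000000000000000000000000000) := T_3 (nat_lit 197) (nat_lit 196) (nat_lit 3) (nat_lit 6) (nat_lit 10) L843563 (by decide +kernel)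
theorem L843565 : W_3 (nat_lit 4) (nat_lit 0xf00000001800180000000000000000000000000000000) (nat_lit 0x0) (nat_lit 0x77001000000000000000000000000000000000000000000000) := T_3 (nat_lit 193) (nat_lit 192) (nat_lit 1) (nat_lit 9) (nat_lit 10) L843564 (by decide +kernel)
theorem L843566 : W_3 (nat_lit 2) (nat_lit 0x42001f00108001a00180000000000000000000000000000000) (nat_lit 0x0) (nat_lit 0x80002000200000000000000000000000000000000000000000) := D_3 (nat_lit 181) (nat_lit 199) (nat_lit 165) (nat_lit 3) (nat_lit 8) (nat_lit 10) (nat_lit 2) (nat_lit 8) (nat_lit 10) (by decide +kernel)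
theorem L843567 : W_3 (nat_lit 3) (nat_lit 0x42001f00008001a00180000000000000000000000000000000) (nat_lit 0x0) (nat_lit 0x80002000380000000000000000000000000000000000000000) := T_3 (nat_lit 164) (nat_lit 163) (nat_lit 2) (nat_lit 7) (nat_lit 10) L843566 (by decide +kernel)
theorem L843568 : W_3 (nat_lit 4) (nat_lit 0x2001f00008001a00180000000000000000000000000000000) (nat_lit 0x0) (nat_lit 0xe0002000380000000000000000000000000000000000000000) := T_3 (nat_lit 198) (nat_lit 197) (nat_lit 3) (nat_lit 7) (nat_lit 10) L843567 (by decide +kernel)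
theorem L843569 : W_3 (nat_lit 5) (nat_lit 0x2001f00000001a00180000000000000000000000000000000) (nat_lit 0x0) (nat_lit 0xe000200038c000000000000000000000000000000000000000) := T_3 (nat_lit 159) (nat_lit 158) (nat_lit 0) (nat_lit 9) (nat_lit 10) L843568 (by decide +kernel)
theorem L843570 : W_3 (nat_lit 6) (nat_lit 0x2000f00000001a00180000000000000000000000000000000) (nat_lit 0x0) (nat_lit 0xe400300038c000000000000000000000000000000000000000) := T_3 (nat_lit 180) (nat_lit 194) (nat_lit 1) (nat_lit 10) (nat_lit 10) L843569 (by decide +kernel)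
theorem L843571 : W_3 (nat_lit 7) (nat_lit 0x2000f00000001800180000000000000000000000000000000) (nat_lit 0x0) (nat_lit 0xe400300038c000600000000000000000000000000000000000) := T_3 (nat_lit 141) (nat_lit 142) (nat_lit 2) (nat_lit 5) (nat_lit 8) L843570 (by decide +kernel)
theorem L843572 : W_3 (nat_lit 8) (nat_lit 0xf00000001800180000000000000000000000000000000) (nat_lit 0x0) (nat_lit 0xe700300038c000600000000000000000000000000000000000) := T_3 (nat_lit 193) (nat_lit 192) (nat_lit 1) (nat_lit 9) (nat_lit 10) L843571 (by decide +kernel)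
theorem L843589 : W_3 (nat_lit 2) (nat_lit 0x3000780000001c00180000000000000000000000000000000) (nat_lit 0x0) (nat_lit 0x20000000000008000000040000000000000000000000000000000) := D_3 (nat_lit 159) (nat_lit 209) (nat_lit 126) (nat_lit 5) (nat_lit 6) (nat_lit 8) (nat_lit 6) (nat_lit 6) (nat_lit 11) (by decide +kernel)
theorem L843590 : W_3 (nat_lit 3) (nat_lit 0x1000780000001c00180000000000000000000000000000000) (nat_lit 0x0) (nat_lit 0x20002000800008000000040000000000000000000000000000000) := T_3 (nat_lit 193) (nat_lit 179) (nat_lit 1) (nat_lit 9) (nat_lit 10) L843589 (by decide +kernel)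
theorem L843591 : W_3 (nat_lit 4) (nat_lit 0x780000001c00180000000000000000000000000000000) (nat_lit 0x0) (nat_lit 0x20003800800008000000040000000000000000000000000000000) := T_3 (nat_lit 192) (nat_lit 191) (nat_lit 1) (nat_lit 8) (nat_lit 10) L843590 (by decide +kernel)
theorem L843592 : W_3 (nat_lit 5) (nat_lit 0x780000001800180000000000000000000000000000000) (nat_lit 0x0) (nat_lit 0x20003800800008000600040000000000000000000000000000000) := T_3 (nat_lit 142) (nat_lit 141) (nat_lit 2) (nat_lit 5) (nat_lit 8) L843591 (by decide +kernel)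
theorem L843593 : W_3 (nat_lit 2) (nat_lit 0x84007c0001001800180000000000000000000000000000000) (nat_lit 0x0) (nat_lit 0x200020000800000000000000000000000000000000000000) := D_3 (nat_lit 173) (nat_lit 189) (nat_lit 155) (nat_lit 1) (nat_lit 6) (nat_lit 10) (nat_lit 0) (nat_lit 6) (nat_lit 10) (by decide +kernel)
theorem L843594 : W_3 (nat_lit 3) (nat_lit 0x84007c0000001800180000000000000000000000000000000) (nat_lit 0x0) (nat_lit 0x200020003800000000000000000000000000000000000000) := T_3 (nat_lit 156) (nat_lit 157) (nat_lit 0) (nat_lit 7) (nat_lit 10) L843593 (by decide +kernel)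
theorem L843595 : W_3 (nat_lit 4) (nat_lit 0x80007c0000001800180000000000000000000000000000000) (nat_lit 0x0) (nat_lit 0xe00020003800000000000000000000000000000000000000) := T_3 (nat_lit 190) (nat_lit 191) (nat_lit 1) (nat_lit 7) (nat_lit 10) L843594 (by decide +kernel)
theorem L843596 : W_3 (nat_lit 5) (nat_lit 0x8000780000001800180000000000000000000000000000000) (nat_lit 0x0) (nat_lit 0x4e00060003800000000000000000000000000000000000000) := T_3 (nat_lit 174) (nat_lit 194) (nat_lit 3) (nat_lit 4) (nat_lit 10) L843595 (by decide +kernel)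
theorem L843597 : W_3 (nat_lit 6) (nat_lit 0x780000001800180000000000000000000000000000000) (nat_lit 0x0) (nat_lit 0x1ce00060003800000000000000000000000000000000000000) := T_3 (nat_lit 195) (nat_lit 196) (nat_lit 3) (nat_lit 5) (nat_lit 10) L843596 (by decide +kernel)
theorem L843598 : W_3 (nat_lit 2) (nat_lit 0x16000f80000001c00180000000000000000000000000000000) (nat_lit 0x0) (nat_lit 0x80000000000008000000040000000000000000000000000000000) := D_3 (nat_lit 159) (nat_lit 126) (nat_lit 211) (nat_lit 6) (nat_lit 6) (nat_lit 11) (nat_lit 7) (nat_lit 6) (nat_lit 8) (by decide +kernel)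
theorem L843599 : W_3 (nat_lit 3) (nat_lit 0x12000f80000001c00180000000000000000000000000000000) (nat_lit 0x0) (nat_lit 0x80004001000008000000040000000000000000000000000000000) := T_3 (nat_lit 194) (nat_lit 180) (nat_lit 1) (nat_lit 10) (nat_lit 10) L843598 (by decide +kernel)
theorem L843600 : W_3 (nat_lit 4) (nat_lit 0x10000f80000001c00180000000000000000000000000000000) (nat_lit 0x0) (nat_lit 0x80007001000008000000040000000000000000000000000000000) := T_3 (nat_lit 193) (nat_lit 192) (nat_lit 1) (nat_lit 9) (nat_lit 10) L843599 (by decide +kernel)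
theorem L843601 : W_3 (nat_lit 5) (nat_lit 0x10000780000001c00180000000000000000000000000000000) (nat_lit 0x0) (nat_lit 0x80027001800008000000040000000000000000000000000000000) := T_3 (nat_lit 179) (nat_lit 197) (nat_lit 3) (nat_lit 6) (nat_lit 10) L843600 (by decide +kernel)
theorem L843602 : W_3 (nat_lit 6) (nat_lit 0x780000001c00180000000000000000000000000000000) (nat_lit 0x0) (nat_lit 0x8003f001800008000000040000000000000000000000000000000) := T_3 (nat_lit 196) (nat_lit 195) (nat_lit 3) (nat_lit 5) (nat_lit 10) L843601 (by decide +kernel)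
theorem L843603 : W_3 (nat_lit 7) (nat_lit 0x780000001800180000000000000000000000000000000) (nat_lit 0x0) (nat_lit 0x8003f001800008000600040000000000000000000000000000000) := T_3 (nat_lit 142) (nat_lit 141) (nat_lit 2) (nat_lit 5) (nat_lit 8) L843602 (by decide +kernel)
theorem L843604 : W_3 (nat_lit 8) (nat_lit 0x700000001800180000000000000000000000000000000) (nat_lit 0x0) (nat_lit 0xa003fe018e000b800600040000000000000000000000000000000) := Q_3 (nat_lit 175) (C_3 L807394 (C_3 L843592 (C_3 L807365 (C_3 L843597 (C_3 L843603 N_3))))) (by decide +kernel)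
theorem L843611 : W_3 (nat_lit 2) (nat_lit 0x100078000c001a00188000000000000000000000000000000) (nat_lit 0x0) (nat_lit 0x10000c00000000000000000000000000) := D_3 (nat_lit 124) (nat_lit 107) (nat_lit 106) (nat_lit 7) (nat_lit 5) (nat_lit 6) (nat_lit 4) (nat_lit 5) (nat_lit 10) (by decide +kernel)
theorem L843612 : W_3 (nat_lit 3) (nat_lit 0x100078000c001a00180000000000000000000000000000000) (nat_lit 0x0) (nat_lit 0x100018000c00000000000000000000000000) := T_3 (nat_lit 123) (nat_lit 140) (nat_lit 4) (nat_lit 5) (nat_lit 11) L843611 (by decide +kernel)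
theorem L843613 : W_3 (nat_lit 4) (nat_lit 0x1000780004001a00180000000000000000000000000000000) (nat_lit 0x0) (nat_lit 0x800008000100018000c00000000000000000000000000) := T_3 (nat_lit 159) (nat_lit 179) (nat_lit 0) (nat_lit 9) (nat_lit 10) L843612 (by decide +kernel)
theorem L843614 : W_3 (nat_lit 5) (nat_lit 0x1000780000001a00180000000000000000000000000000000) (nat_lit 0x0) (nat_lit 0x80000e000100018000c00000000000000000000000000) := T_3 (nat_lit 158) (nat_lit 157) (nat_lit 0) (nat_lit 8) (nat_lit 10) L843613 (by decide +kernel)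
theorem L843615 : W_3 (nat_lit 6) (nat_lit 0x1000780000001800180000000000000000000000000000000) (nat_lit 0x0) (nat_lit 0x80000e000700018000c00000000000000000000000000) := T_3 (nat_lit 141) (nat_lit 142) (nat_lit 2) (nat_lit 5) (nat_lit 8) L843614 (by decide +kernel)
theorem L843616 : W_3 (nat_lit 7) (nat_lit 0x780000001800180000000000000000000000000000000) (nat_lit 0x0) (nat_lit 0x180080000e000700018000c00000000000000000000000000) := T_3 (nat_lit 192) (nat_lit 191) (nat_lit 1) (nat_lit 8) (nat_lit 10) L843615 (by decide +kernel)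
theorem L843617 : W_3 (nat_lit 2) (nat_lit 0x1000780004001a00180000000000000000000000000000000) (nat_lit 0x0) (nat_lit 0x40002000000000000000010000000000000000000000000000000) := D_3 (nat_lit 193) (nat_lit 124) (nat_lit 210) (nat_lit 7) (nat_lit 5) (nat_lit 7) (nat_lit 7) (nat_lit 5) (nat_lit 8) (by decide +kernel)
theorem L843618 : W_3 (nat_lit 3) (nat_lit 0x1000780004001800180000000000000000000000000000000) (nat_lit 0x0) (nat_lit 0x40002000000000000600010000000000000000000000000000000) := T_3 (nat_lit 141) (nat_lit 142) (nat_lit 2) (nat_lit 5) (nat_lit 8) L843617 (by decide +kernel)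
theorem L843619 : W_3 (nat_lit 4) (nat_lit 0x780004001800180000000000000000000000000000000) (nat_lit 0x0) (nat_lit 0x40003800000000000600010000000000000000000000000000000) := T_3 (nat_lit 192) (nat_lit 191) (nat_lit 1) (nat_lit 8) (nat_lit 10) L843618 (by decide +kernel)
theorem L843620 : W_3 (nat_lit 5) (nat_lit 0x780000001800180000000000000000000000000000000) (nat_lit 0x0) (nat_lit 0x40003800000006000600010000000000000000000000000000000) := T_3 (nat_lit 158) (nat_lit 157) (nat_lit 0) (nat_lit 8) (nat_lit 10) L843619 (by decide +kernel)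
theorem L843621 : W_3 (nat_lit 2) (nat_lit 0x800000042001f80104001a00180000000000000000000000000000000) (nat_lit 0x0) (nat_lit 0x80002000200000000000000000000000000000000000000000) := D_3 (nat_lit 181) (nat_lit 165) (nat_lit 199) (nat_lit 2) (nat_lit 8) (nat_lit 10) (nat_lit 3) (nat_lit 8) (nat_lit 10) (by decide +kernel)
theorem L843622 : W_3 (nat_lit 3) (nat_lit 0x800000002001f80104001a00180000000000000000000000000000000) (nat_lit 0x0) (nat_lit 0xe0002000200000000000000000000000000000000000000000) := T_3 (nat_lit 198) (nat_lit 197) (nat_lit 3) (nat_lit 7) (nat_lit 10) L843621 (by decide +kernel)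
theorem L843623 : W_3 (nat_lit 4) (nat_lit 0x800000002001f80004001a00180000000000000000000000000000000) (nat_lit 0x0) (nat_lit 0xe0002000380000000000000000000000000000000000000000) := T_3 (nat_lit 164) (nat_lit 163) (nat_lit 2) (nat_lit 7) (nat_lit 10) L843622 (by decide +kernel)
theorem L843624 : W_3 (nat_lit 5) (nat_lit 0x800000002000f80004001a00180000000000000000000000000000000) (nat_lit 0x0) (nat_lit 0xe4003000380000000000000000000000000000000000000000) := T_3 (nat_lit 180) (nat_lit 194) (nat_lit 1) (nat_lit 10) (nat_lit 10) L843623 (by decide +kernel)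
theorem L843625 : W_3 (nat_lit 6) (nat_lit 0x2000f80004001a00180000000000000000000000000000000) (nat_lit 0x0) (nat_lit 0x8000400e4003000380000000000000000000000000000000000000000) := T_3 (nat_lit 227) (nat_lit 210) (nat_lit 4) (nat_lit 6) (nat_lit 13) L843624 (by decide +kernel)
theorem L843626 : W_3 (nat_lit 7) (nat_lit 0xf80004001a00180000000000000000000000000000000) (nat_lit 0x0) (nat_lit 0x8000400e6003000380000000010000000000000000000000000000000) := T_3 (nat_lit 193) (nat_lit 124) (nat_lit 7) (nat_lit 5) (nat_lit 7) L843625 (by decide +kernel)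
theorem L843627 : W_3 (nat_lit 8) (nat_lit 0x780004001a00180000000000000000000000000000000) (nat_lit 0x0) (nat_lit 0x8000400e6003800388000000010000000000000000000000000000000) := T_3 (nat_lit 179) (nat_lit 159) (nat_lit 0) (nat_lit 9) (nat_lit 10) L843626 (by decide +kernel)
theorem L843628 : W_3 (nat_lit 9) (nat_lit 0x780000001a00180000000000000000000000000000000) (nat_lit 0x0) (nat_lit 0x8000400e600380038e000000010000000000000000000000000000000) := T_3 (nat_lit 158) (nat_lit 157) (nat_lit 0) (nat_lit 8) (nat_lit 10) L843627 (by decide +kernel)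
theorem L843629 : W_3 (nat_lit 10) (nat_lit 0x780000001800180000000000000000000000000000000) (nat_lit 0x0) (nat_lit 0x8000400e600380038e000600010000000000000000000000000000000) := T_3 (nat_lit 141) (nat_lit 142) (nat_lit 2) (nat_lit 5) (nat_lit 8) L843628 (by decide +kernel)
theorem L843630 : W_3 (nat_lit 11) (nat_lit 0x700000001800180000000000000000000000000000000) (nat_lit 0x0) (nat_lit 0x8000600e780388038e000700058000c00000000000000000000000000) := Q_3 (nat_lit 175) (C_3 L843592 (C_3 L843551 (C_3 L843556 (C_3 L843616 (C_3 L843620 (C_3 L843629 N_3)))))) (by decide +kernel)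
theorem L843631 : W_3 (nat_lit 8) (nat_lit 0x700000001800180000000000000000000000000000000) (nat_lit 0x0) (nat_lit 0x3de008e000f800700018000c00000000000000000000000000) := Q_3 (nat_lit 175) (C_3 L843616 (C_3 L843597 (C_3 L807365 (C_3 L807397 N_3)))) (by decide +kernel)
theorem L843637 : W_3 (nat_lit 2) (nat_lit 0xf00008001c00180000000000000000000000000000000) (nat_lit 0x0) (nat_lit 0x3000000000000000040000000000000000000000000000000) := D_3 (nat_lit 193) (nat_lit 192) (nat_lit 126) (nat_lit 1) (nat_lit 9) (nat_lit 10) (nat_lit 6) (nat_lit 6) (nat_lit 11) (by decide +kernel)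
theorem L843638 : W_3 (nat_lit 3) (nat_lit 0xf00008001800180000000000000000000000000000000) (nat_lit 0x0) (nat_lit 0x3000000000000600040000000000000000000000000000000) := T_3 (nat_lit 142) (nat_lit 141) (nat_lit 2) (nat_lit 5) (nat_lit 8) L843637 (by decide +kernel)
theorem L843639 : W_3 (nat_lit 4) (nat_lit 0xf00000001800180000000000000000000000000000000) (nat_lit 0x0) (nat_lit 0x300000000c000600040000000000000000000000000000000) := T_3 (nat_lit 159) (nat_lit 158) (nat_lit 0) (nat_lit 9) (nat_lit 10) L843638 (by decide +kernel)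
theorem L843641 : W_3 (nat_lit 7) (nat_lit 0x2000700000001a00180000000000000000000000000000000) (nat_lit 0x0) (nat_lit 0xe500380038c000000000000000000000000000000000000000) := T_3 (nat_lit 179) (nat_lit 192) (nat_lit 1) (nat_lit 9) (nat_lit 10) L843570 (by decide +kernel)
theorem L843642 : W_3 (nat_lit 8) (nat_lit 0x2000700000001800180000000000000000000000000000000) (nat_lit 0x0) (nat_lit 0xe500380038c000600000000000000000000000000000000000) := T_3 (nat_lit 141) (nat_lit 142) (nat_lit 2) (nat_lit 5) (nat_lit 8) L843641 (by decide +kernel)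
theorem L843643 : W_3 (nat_lit 4) (nat_lit 0x2000700000001800180000000000000000000000000000000) (nat_lit 0x0) (nat_lit 0x75001800000000000000000000000000000000000000000000) := T_3 (nat_lit 179) (nat_lit 192) (nat_lit 1) (nat_lit 9) (nat_lit 10) L843564 (by decide +kernel)
theorem L843644 : W_3 (nat_lit 2) (nat_lit 0x2000f00008001800180000000000000000000000000000000) (nat_lit 0x0) (nat_lit 0x600040000000000000000000000000000000) := D_3 (nat_lit 142) (nat_lit 141) (nat_lit 126) (nat_lit 2) (nat_lit 5) (nat_lit 8) (nat_lit 6) (nat_lit 6) (nat_lit 11) (by decide +kernel)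
theorem L843645 : W_3 (nat_lit 3) (nat_lit 0x2000f00000001800180000000000000000000000000000000) (nat_lit 0x0) (nat_lit 0xc000600040000000000000000000000000000000) := T_3 (nat_lit 159) (nat_lit 158) (nat_lit 0) (nat_lit 9) (nat_lit 10) L843644 (by decide +kernel)
theorem L843646 : W_3 (nat_lit 4) (nat_lit 0x2000700000001800180000000000000000000000000000000) (nat_lit 0x0) (nat_lit 0x100080000c000600040000000000000000000000000000000) := T_3 (nat_lit 179) (nat_lit 192) (nat_lit 1) (nat_lit 9) (nat_lit 10) L843645 (by decide +kernel)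
theorem L843647 : W_3 (nat_lit 2) (nat_lit 0x3000700008001c00180000000000000000000000000000000) (nat_lit 0x0) (nat_lit 0x4c00000000000000000000000000000000000000000000000) := D_3 (nat_lit 191) (nat_lit 194) (nat_lit 190) (nat_lit 2) (nat_lit 4) (nat_lit 11) (nat_lit 2) (nat_lit 3) (nat_lit 11) (by decide +kernel)
theorem L843648 : W_3 (nat_lit 3) (nat_lit 0x2000700008001c00180000000000000000000000000000000) (nat_lit 0x0) (nat_lit 0x20005c00000000000000000000000000000000000000000000000) := T_3 (nat_lit 192) (nat_lit 209) (nat_lit 5) (nat_lit 6) (nat_lit 8) L843647 (by decide +kernel)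
theorem L843649 : W_3 (nat_lit 4) (nat_lit 0x2000700000001c00180000000000000000000000000000000) (nat_lit 0x0) (nat_lit 0x20005c00000008000000040000000000000000000000000000000) := T_3 (nat_lit 159) (nat_lit 126) (nat_lit 6) (nat_lit 6) (nat_lit 11) L843648 (by decide +kernel)
theorem L843650 : W_3 (nat_lit 5) (nat_lit 0x2000700000001800180000000000000000000000000000000) (nat_lit 0x0) (nat_lit 0x20005c00000008000600040000000000000000000000000000000) := T_3 (nat_lit 142) (nat_lit 141) (nat_lit 2) (nat_lit 5) (nat_lit 8) L843649 (by decide +kernel)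
theorem L843651 : W_3 (nat_lit 2) (nat_lit 0x2000700008001c00180000000000000000000000000000000) (nat_lit 0x0) (nat_lit 0x800004002000000000000000000000000000000000000) := D_3 (nat_lit 158) (nat_lit 145) (nat_lit 179) (nat_lit 1) (nat_lit 9) (nat_lit 8) (nat_lit 0) (nat_lit 9) (nat_lit 10) (by decide +kernel)
theorem L843652 : W_3 (nat_lit 3) (nat_lit 0x2000700000001c00180000000000000000000000000000000) (nat_lit 0x0) (nat_lit 0x80000c002000040000000000000000000000000000000) := T_3 (nat_lit 159) (nat_lit 126) (nat_lit 6) (nat_lit 6) (nat_lit 11) L843651 (by decide +kernel)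
theorem L843653 : W_3 (nat_lit 4) (nat_lit 0x2000700000001800180000000000000000000000000000000) (nat_lit 0x0) (nat_lit 0x80000c002600040000000000000000000000000000000) := T_3 (nat_lit 142) (nat_lit 141) (nat_lit 2) (nat_lit 5) (nat_lit 8) L843652 (by decide +kernel)
theorem L843654 : W_3 (nat_lit 9) (nat_lit 0x700000001800180000000000000000000000000000000) (nat_lit 0x0) (nat_lit 0x200f7c0380038c002600040000000000000000000000000000000) := Q_3 (nat_lit 193) (C_3 L843642 (C_3 L843643 (C_3 L843646 (C_3 L843650 (C_3 L843653 N_3))))) (by decide +kernel)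
theorem L843655 : W_3 (nat_lit 7) (nat_lit 0x700000001800180000000000000000000000000000000) (nat_lit 0x0) (nat_lit 0x4001fe000e0007800600010000000000000000000000000000000) := Q_3 (nat_lit 175) (C_3 L843597 (C_3 L843620 (C_3 L807365 (C_3 L807368 N_3)))) (by decide +kernel)
theorem L843656 : W_3 (nat_lit 2) (nat_lit 0x80007c0004001a00180000000000000000000000000000000) (nat_lit 0x0) (nat_lit 0xc00000000000000010000000000000000000000000000000) := D_3 (nat_lit 191) (nat_lit 190) (nat_lit 124) (nat_lit 1) (nat_lit 7) (nat_lit 10) (nat_lit 5) (nat_lit 5) (nat_lit 7) (by decide +kernel)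
theorem L843657 : W_3 (nat_lit 3) (nat_lit 0x8000780004001a00180000000000000000000000000000000) (nat_lit 0x0) (nat_lit 0x4c00040000000000010000000000000000000000000000000) := T_3 (nat_lit 174) (nat_lit 194) (nat_lit 3) (nat_lit 4) (nat_lit 10) L843656 (by decide +kernel)
theorem L843658 : W_3 (nat_lit 4) (nat_lit 0x780004001a00180000000000000000000000000000000) (nat_lit 0x0) (nat_lit 0x1cc00040000000000010000000000000000000000000000000) := T_3 (nat_lit 195) (nat_lit 196) (nat_lit 3) (nat_lit 5) (nat_lit 10) L843657 (by decide +kernel)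
theorem L843659 : W_3 (nat_lit 5) (nat_lit 0x700004001a00180000000000000000000000000000000) (nat_lit 0x0) (nat_lit 0x1cc000c0002000000010000000000000000000000000000000) := T_3 (nat_lit 175) (nat_lit 157) (nat_lit 0) (nat_lit 8) (nat_lit 10) L843658 (by decide +kernel)
theorem L843660 : W_3 (nat_lit 6) (nat_lit 0x700004001800180000000000000000000000000000000) (nat_lit 0x0) (nat_lit 0x1cc000c0002000600010000000000000000000000000000000) := T_3 (nat_lit 141) (nat_lit 142) (nat_lit 2) (nat_lit 5) (nat_lit 8) L843659 (by decide +kernel)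
theorem L843661 : W_3 (nat_lit 8) (nat_lit 0xf80004001800180000000000000000000000000000000) (nat_lit 0x0) (nat_lit 0x8000400e6003000380000600010000000000000000000000000000000) := T_3 (nat_lit 141) (nat_lit 142) (nat_lit 2) (nat_lit 5) (nat_lit 8) L843626 (by decide +kernel)
theorem L843662 : W_3 (nat_lit 9) (nat_lit 0x780004001800180000000000000000000000000000000) (nat_lit 0x0) (nat_lit 0x8000400e6003800388000600010000000000000000000000000000000) := T_3 (nat_lit 179) (nat_lit 159) (nat_lit 0) (nat_lit 9) (nat_lit 10) L843661 (by decide +kernel)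
theorem L843663 : W_3 (nat_lit 10) (nat_lit 0x700004001800180000000000000000000000000000000) (nat_lit 0x0) (nat_lit 0x8000400e600388038a000600010000000000000000000000000000000) := T_3 (nat_lit 175) (nat_lit 157) (nat_lit 0) (nat_lit 8) (nat_lit 10) L843662 (by decide +kernel)
theorem L843664 : W_3 (nat_lit 2) (nat_lit 0x24001f00104001a00180000000000000000000000000000000) (nat_lit 0x0) (nat_lit 0x8002000200000000000000000000000000000000000000000) := D_3 (nat_lit 181) (nat_lit 165) (nat_lit 195) (nat_lit 2) (nat_lit 8) (nat_lit 10) (nat_lit 1) (nat_lit 11) (nat_lit 10) (by decide +kernel)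
theorem L843665 : W_3 (nat_lit 3) (nat_lit 0x20001f00104001a00180000000000000000000000000000000) (nat_lit 0x0) (nat_lit 0xe002000200000000000000000000000000000000000000000) := T_3 (nat_lit 194) (nat_lit 193) (nat_lit 1) (nat_lit 10) (nat_lit 10) L843664 (by decide +kernel)
theorem L843666 : W_3 (nat_lit 4) (nat_lit 0x20001f00004001a00180000000000000000000000000000000) (nat_lit 0x0) (nat_lit 0xe002000380000000000000000000000000000000000000000) := T_3 (nat_lit 164) (nat_lit 163) (nat_lit 2) (nat_lit 7) (nat_lit 10) L843665 (by decide +kernel)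
theorem L843667 : W_3 (nat_lit 5) (nat_lit 0x20000f00004001a00180000000000000000000000000000000) (nat_lit 0x0) (nat_lit 0x4e003000380000000000000000000000000000000000000000) := T_3 (nat_lit 180) (nat_lit 198) (nat_lit 3) (nat_lit 7) (nat_lit 10) L843666 (by decide +kernel)
theorem L843668 : W_3 (nat_lit 6) (nat_lit 0xf00004001a00180000000000000000000000000000000) (nat_lit 0x0) (nat_lit 0x7e003000380000000000000000000000000000000000000000) := T_3 (nat_lit 197) (nat_lit 196) (nat_lit 3) (nat_lit 6) (nat_lit 10) L843667 (by decide +kernel)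
theorem L843669 : W_3 (nat_lit 7) (nat_lit 0xf00004001800180000000000000000000000000000000) (nat_lit 0x0) (nat_lit 0x7e003000380000600000000000000000000000000000000000) := T_3 (nat_lit 141) (nat_lit 142) (nat_lit 2) (nat_lit 5) (nat_lit 8) L843668 (by decide +kernel)
theorem L843670 : W_3 (nat_lit 8) (nat_lit 0x700004001800180000000000000000000000000000000) (nat_lit 0x0) (nat_lit 0x7e003800388000600000000000000000000000000000000000) := T_3 (nat_lit 179) (nat_lit 159) (nat_lit 0) (nat_lit 9) (nat_lit 10) L843669 (by decide +kernel)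
theorem L843671 : W_3 (nat_lit 11) (nat_lit 0x700000001800180000000000000000000000000000000) (nat_lit 0x0) (nat_lit 0x8000400fec038c038e000600010000000000000000000000000000000) := Q_3 (nat_lit 158) (C_3 L807306 (C_3 L843660 (C_3 L843663 (C_3 L843670 N_3)))) (by decide +kernel)
theorem L843672 : W_3 (nat_lit 5) (nat_lit 0x700000001800180000000000000000000000000000000) (nat_lit 0x0) (nat_lit 0x7f00188000e000600040000000000000000000000000000000) := Q_3 (nat_lit 179) (C_3 L805531 (C_3 L843639 (C_3 L843565 N_3))) (by decide +kernel)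
theorem L843674 : W_3 (nat_lit 2) (nat_lit 0x4001f00000001800180000000000000000000000000000000) (nat_lit 0x0) (nat_lit 0x70000000000000000000000000000000000000000000000000) := D_3 (nat_lit 197) (nat_lit 196) (nat_lit 198) (nat_lit 3) (nat_lit 6) (nat_lit 10) (nat_lit 3) (nat_lit 7) (nat_lit 10) (by decide +kernel)
theorem L843675 : W_3 (nat_lit 3) (nat_lit 0x4000f00000001800180000000000000000000000000000000) (nat_lit 0x0) (nat_lit 0x72001000000000000000000000000000000000000000000000) := T_3 (nat_lit 180) (nat_lit 193) (nat_lit 1) (nat_lit 10) (nat_lit 10) L843674 (by decide +kernel)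
theorem L843676 : W_3 (nat_lit 4) (nat_lit 0xf00000001800180000000000000000000000000000000) (nat_lit 0x0) (nat_lit 0x76001000010000000000000000000000000000000000000000) := T_3 (nat_lit 194) (nat_lit 160) (nat_lit 6) (nat_lit 7) (nat_lit 11) L843675 (by decide +kernel)
theorem L843678 : W_3 (nat_lit 3) (nat_lit 0x2000700000001800180000000000000000000000000000000) (nat_lit 0x0) (nat_lit 0x1c00880000000000000000000000000000000000000000000) := T_3 (nat_lit 192) (nat_lit 179) (nat_lit 1) (nat_lit 9) (nat_lit 10) L807799 (by decide +kernel)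
theorem L843679 : W_3 (nat_lit 5) (nat_lit 0x700000001800180000000000000000000000000000000) (nat_lit 0x0) (nat_lit 0x800040077c01880018000000000000000000000000000000000000000) := Q_3 (nat_lit 193) (C_3 L843643 (C_3 L843678 (C_3 L807518 N_3))) (by decide +kernel)
theorem L843687 : W_3 (nat_lit 4) (nat_lit 0x700004001800180000000000000000000000000000000) (nat_lit 0x0) (nat_lit 0x380088000a000000000000000000000000000000000000000) := T_3 (nat_lit 175) (nat_lit 157) (nat_lit 0) (nat_lit 8) (nat_lit 10) L843550 (by decide +kernel)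
theorem L843698 : W_3 (nat_lit 2) (nat_lit 0x24001f00108001800180000000000000000000000000000000) (nat_lit 0x0) (nat_lit 0x8002000200000000000000000000000000000000000000000) := D_3 (nat_lit 181) (nat_lit 195) (nat_lit 165) (nat_lit 1) (nat_lit 11) (nat_lit 10) (nat_lit 2) (nat_lit 8) (nat_lit 10) (by decide +kernel)
theorem L843699 : W_3 (nat_lit 3) (nat_lit 0x24001f00008001800180000000000000000000000000000000) (nat_lit 0x0) (nat_lit 0x8002000380000000000000000000000000000000000000000) := T_3 (nat_lit 164) (nat_lit 163) (nat_lit 2) (nat_lit 7) (nat_lit 10) L843698 (by decide +kernel)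
theorem L843700 : W_3 (nat_lit 4) (nat_lit 0x24000f00008001800180000000000000000000000000000000) (nat_lit 0x0) (nat_lit 0x48003000380000000000000000000000000000000000000000) := T_3 (nat_lit 180) (nat_lit 198) (nat_lit 3) (nat_lit 7) (nat_lit 10) L843699 (by decide +kernel)
theorem L843701 : W_3 (nat_lit 5) (nat_lit 0x24000f00000001800180000000000000000000000000000000) (nat_lit 0x0) (nat_lit 0x4800300038c000000000000000000000000000000000000000) := T_3 (nat_lit 159) (nat_lit 158) (nat_lit 0) (nat_lit 9) (nat_lit 10) L843700 (by decide +kernel)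
theorem L843702 : W_3 (nat_lit 6) (nat_lit 0x4000f00000001800180000000000000000000000000000000) (nat_lit 0x0) (nat_lit 0x7800300038c000000000000000000000000000000000000000) := T_3 (nat_lit 197) (nat_lit 196) (nat_lit 3) (nat_lit 6) (nat_lit 10) L843701 (by decide +kernel)
theorem L843703 : W_3 (nat_lit 7) (nat_lit 0xf00000001800180000000000000000000000000000000) (nat_lit 0x0) (nat_lit 0x7c00300039c000000000000000000000000000000000000000) := T_3 (nat_lit 194) (nat_lit 160) (nat_lit 6) (nat_lit 7) (nat_lit 11) L843702 (by decide +kernel)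
theorem L843704 : W_3 (nat_lit 9) (nat_lit 0x700000001800180000000000000000000000000000000) (nat_lit 0x0) (nat_lit 0x400ff00380039c000600000000000000000000000000000000000) := Q_3 (nat_lit 179) (C_3 L843703 (C_3 L843572 (C_3 L843676 (C_3 L807479 (C_3 L807489 N_3))))) (by decide +kernel)
theorem L843706 : W_3 (nat_lit 2) (nat_lit 0x700010001800180000000000000000000000000000000) (nat_lit 0x0) (nat_lit 0xa000000000000000040000000000000000000000000000000) := D_3 (nat_lit 126) (nat_lit 193) (nat_lit 195) (nat_lit 5) (nat_lit 7) (nat_lit 7) (nat_lit 7) (nat_lit 7) (nat_lit 7) (by decide +kernel)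
theorem L843707 : W_3 (nat_lit 3) (nat_lit 0x700000001800180000000000000000000000000000000) (nat_lit 0x0) (nat_lit 0xe000000010000000040000000000000000000000000000000) := T_3 (nat_lit 160) (nat_lit 194) (nat_lit 6) (nat_lit 7) (nat_lit 11) L843706 (by decide +kernel)
theorem L843708 : W_3 (nat_lit 2) (nat_lit 0x3000700010001a00180000000000000000000000000000000) (nat_lit 0x0) (nat_lit 0xc00080000000000000000000000000000000000000000000) := D_3 (nat_lit 191) (nat_lit 175) (nat_lit 190) (nat_lit 1) (nat_lit 8) (nat_lit 10) (nat_lit 2) (nat_lit 3) (nat_lit 11) (by decide +kernel)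
theorem L843709 : W_3 (nat_lit 3) (nat_lit 0x2000700010001a00180000000000000000000000000000000) (nat_lit 0x0) (nat_lit 0x1c00880000000000000000000000000000000000000000000) := T_3 (nat_lit 192) (nat_lit 179) (nat_lit 1) (nat_lit 9) (nat_lit 10) L843708 (by decide +kernel)
theorem L843710 : W_3 (nat_lit 4) (nat_lit 0x700010001a00180000000000000000000000000000000) (nat_lit 0x0) (nat_lit 0x3c00880000000000040000000000000000000000000000000) := T_3 (nat_lit 193) (nat_lit 126) (nat_lit 5) (nat_lit 7) (nat_lit 7) L843709 (by decide +kernel)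
theorem L843711 : W_3 (nat_lit 5) (nat_lit 0x700010001800180000000000000000000000000000000) (nat_lit 0x0) (nat_lit 0x3c00880000000600040000000000000000000000000000000) := T_3 (nat_lit 141) (nat_lit 142) (nat_lit 2) (nat_lit 5) (nat_lit 8) L843710 (by decide +kernel)
theorem L843712 : W_3 (nat_lit 6) (nat_lit 0x700000001800180000000000000000000000000000000) (nat_lit 0x0) (nat_lit 0x7c00880010000600040000000000000000000000000000000) := T_3 (nat_lit 160) (nat_lit 194) (nat_lit 6) (nat_lit 7) (nat_lit 11) L843711 (by decide +kernel)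
theorem L843713 : W_3 (nat_lit 2) (nat_lit 0x88007c0000001a001c0000000000000000000000000000000) (nat_lit 0x0) (nat_lit 0x7000000000000000000000000000000000000000) := D_3 (nat_lit 157) (nat_lit 156) (nat_lit 158) (nat_lit 0) (nat_lit 7) (nat_lit 10) (nat_lit 0) (nat_lit 8) (nat_lit 10) (by decide +kernel)
theorem L843714 : W_3 (nat_lit 3) (nat_lit 0x8800780000001a001c0000000000000000000000000000000) (nat_lit 0x0) (nat_lit 0x400040007000000000000000000000000000000000000000) := T_3 (nat_lit 174) (nat_lit 190) (nat_lit 1) (nat_lit 7) (nat_lit 10) L843713 (by decide +kernel)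
theorem L843715 : W_3 (nat_lit 4) (nat_lit 0x8800780000001a00180000000000000000000000000000000) (nat_lit 0x0) (nat_lit 0x400040017000000040000000000000000000000000000000) := T_3 (nat_lit 126) (nat_lit 160) (nat_lit 7) (nat_lit 7) (nat_lit 7) L843714 (by decide +kernel)
theorem L843716 : W_3 (nat_lit 5) (nat_lit 0x8000780000001a00180000000000000000000000000000000) (nat_lit 0x0) (nat_lit 0x1c00040017000000040000000000000000000000000000000) := T_3 (nat_lit 191) (nat_lit 192) (nat_lit 1) (nat_lit 8) (nat_lit 10) L843715 (by decide +kernel)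
theorem L843717 : W_3 (nat_lit 6) (nat_lit 0x780000001a00180000000000000000000000000000000) (nat_lit 0x0) (nat_lit 0x19c00040017000000040000000000000000000000000000000) := T_3 (nat_lit 195) (nat_lit 196) (nat_lit 3) (nat_lit 5) (nat_lit 10) L843716 (by decide +kernel)
theorem L843718 : W_3 (nat_lit 7) (nat_lit 0x780000001800180000000000000000000000000000000) (nat_lit 0x0) (nat_lit 0x19c00040017000600040000000000000000000000000000000) := T_3 (nat_lit 141) (nat_lit 142) (nat_lit 2) (nat_lit 5) (nat_lit 8) L843717 (by decide +kernel)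
theorem L843719 : W_3 (nat_lit 2) (nat_lit 0x80007c0004001a001d0000c00000000000000000000000000) (nat_lit 0x0) (nat_lit 0x3000080000000000000000000000) := D_3 (nat_lit 108) (nat_lit 109) (nat_lit 91) (nat_lit 3) (nat_lit 4) (nat_lit 6) (nat_lit 6) (nat_lit 5) (nat_lit 9) (by decide +kernel)
theorem L843720 : W_3 (nat_lit 3) (nat_lit 0x80007c0004001a001d0000400000000000000000000000000) (nat_lit 0x0) (nat_lit 0x38000a0000000000000000000000) := T_3 (nat_lit 107) (nat_lit 89) (nat_lit 4) (nat_lit 5) (nat_lit 9) L843719 (by decide +kernel)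
theorem L843721 : W_3 (nat_lit 4) (nat_lit 0x80007c0004001a001d0000000000000000000000000000000) (nat_lit 0x0) (nat_lit 0x8003c000a0000000000000000000000) := T_3 (nat_lit 106) (nat_lit 123) (nat_lit 4) (nat_lit 5) (nat_lit 10) L843720 (by decide +kernel)
theorem L843722 : W_3 (nat_lit 5) (nat_lit 0x8000780004001a001d0000000000000000000000000000000) (nat_lit 0x0) (nat_lit 0x800040000000000008003c000a0000000000000000000000) := T_3 (nat_lit 174) (nat_lit 191) (nat_lit 5) (nat_lit 5) (nat_lit 7) L843721 (by decide +kernel)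
theorem L843723 : W_3 (nat_lit 6) (nat_lit 0x8000780004001a001c0000000000000000000000000000000) (nat_lit 0x0) (nat_lit 0x2800040000000000018003c000a0000000000000000000000) := T_3 (nat_lit 124) (nat_lit 193) (nat_lit 7) (nat_lit 5) (nat_lit 7) L843722 (by decide +kernel)
theorem L843724 : W_3 (nat_lit 7) (nat_lit 0x8000780004001a00180000000000000000000000000000000) (nat_lit 0x0) (nat_lit 0x2800040010000000058003c000a0000000000000000000000) := T_3 (nat_lit 126) (nat_lit 160) (nat_lit 7) (nat_lit 7) (nat_lit 7) L843723 (by decide +kernel)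
theorem L843725 : W_3 (nat_lit 8) (nat_lit 0x8000780000001a00180000000000000000000000000000000) (nat_lit 0x0) (nat_lit 0x2800040016000000058003c000a0000000000000000000000) := T_3 (nat_lit 158) (nat_lit 157) (nat_lit 0) (nat_lit 8) (nat_lit 10) L843724 (by decide +kernel)
theorem L843726 : W_3 (nat_lit 9) (nat_lit 0x780000001a00180000000000000000000000000000000) (nat_lit 0x0) (nat_lit 0x1a800040016000000058003c000a0000000000000000000000) := T_3 (nat_lit 195) (nat_lit 196) (nat_lit 3) (nat_lit 5) (nat_lit 10) L843725 (by decide +kernel)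
theorem L843727 : W_3 (nat_lit 10) (nat_lit 0x780000001800180000000000000000000000000000000) (nat_lit 0x0) (nat_lit 0x1a800040016000600058003c000a0000000000000000000000) := T_3 (nat_lit 141) (nat_lit 142) (nat_lit 2) (nat_lit 5) (nat_lit 8) L843726 (by decide +kernel)
theorem L843728 : W_3 (nat_lit 2) (nat_lit 0x8000780004001a001d0000c00000000000000000000000000) (nat_lit 0x0) (nat_lit 0x3000080000000000000000000000) := D_3 (nat_lit 108) (nat_lit 109) (nat_lit 91) (nat_lit 3) (nat_lit 4) (nat_lit 6) (nat_lit 6) (nat_lit 5) (nat_lit 9) (by decide +kernel)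
theorem L843729 : W_3 (nat_lit 3) (nat_lit 0x8000780004001a001d0000400000000000000000000000000) (nat_lit 0x0) (nat_lit 0x38000a0000000000000000000000) := T_3 (nat_lit 107) (nat_lit 89) (nat_lit 4) (nat_lit 5) (nat_lit 9) L843728 (by decide +kernel)
theorem L843730 : W_3 (nat_lit 4) (nat_lit 0x8000780004001a00190000400000000000000000000000000) (nat_lit 0x0) (nat_lit 0x100000000400038000a0000000000000000000000) := T_3 (nat_lit 126) (nat_lit 160) (nat_lit 7) (nat_lit 7) (nat_lit 7) L843729 (by decide +kernel)
theorem L843731 : W_3 (nat_lit 5) (nat_lit 0x8000780004001a00190000000000000000000000000000000) (nat_lit 0x0) (nat_lit 0x10000000048003c000a0000000000000000000000) := T_3 (nat_lit 106) (nat_lit 123) (nat_lit 4) (nat_lit 5) (nat_lit 10) L843730 (by decide +kernel)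
theorem L843732 : W_3 (nat_lit 6) (nat_lit 0x8000780004001a00180000000000000000000000000000000) (nat_lit 0x0) (nat_lit 0x2000000010000000058003c000a0000000000000000000000) := T_3 (nat_lit 124) (nat_lit 193) (nat_lit 7) (nat_lit 5) (nat_lit 7) L843731 (by decide +kernel)
theorem L843733 : W_3 (nat_lit 7) (nat_lit 0x780004001a00180000000000000000000000000000000) (nat_lit 0x0) (nat_lit 0x1a000000010000000058003c000a0000000000000000000000) := T_3 (nat_lit 195) (nat_lit 196) (nat_lit 3) (nat_lit 5) (nat_lit 10) L843732 (by decide +kernel)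
theorem L843734 : W_3 (nat_lit 8) (nat_lit 0x780004001800180000000000000000000000000000000) (nat_lit 0x0) (nat_lit 0x1a000000010000600058003c000a0000000000000000000000) := T_3 (nat_lit 141) (nat_lit 142) (nat_lit 2) (nat_lit 5) (nat_lit 8) L843733 (by decide +kernel)
theorem L843735 : W_3 (nat_lit 9) (nat_lit 0x780000001800180000000000000000000000000000000) (nat_lit 0x0) (nat_lit 0x1a000000016000600058003c000a0000000000000000000000) := T_3 (nat_lit 158) (nat_lit 157) (nat_lit 0) (nat_lit 8) (nat_lit 10) L843734 (by decide +kernel)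
theorem L843736 : W_3 (nat_lit 11) (nat_lit 0x700000001800180000000000000000000000000000000) (nat_lit 0x0) (nat_lit 0x4003bc008c0017000600058003c000a0000000000000000000000) := Q_3 (nat_lit 175) (C_3 L843718 (C_3 L807394 (C_3 L843620 (C_3 L843727 (C_3 L843735 N_3))))) (by decide +kernel)
theorem L843737 : W_3 (nat_lit 2) (nat_lit 0x2000000008800780014001a00180000000000000000000000000000000) (nat_lit 0x0) (nat_lit 0x400040000000000010000000000000000000000000000000) := D_3 (nat_lit 174) (nat_lit 190) (nat_lit 124) (nat_lit 1) (nat_lit 7) (nat_lit 10) (nat_lit 5) (nat_lit 5) (nat_lit 7) (by decide +kernel)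
theorem L843738 : W_3 (nat_lit 3) (nat_lit 0x2000000008800780010001a00180000000000000000000000000000000) (nat_lit 0x0) (nat_lit 0x400040006000000010000000000000000000000000000000) := T_3 (nat_lit 158) (nat_lit 157) (nat_lit 0) (nat_lit 8) (nat_lit 10) L843737 (by decide +kernel)
theorem L843739 : W_3 (nat_lit 4) (nat_lit 0x2000000008000780010001a00180000000000000000000000000000000) (nat_lit 0x0) (nat_lit 0x1c00040006000000010000000000000000000000000000000) := T_3 (nat_lit 191) (nat_lit 192) (nat_lit 1) (nat_lit 8) (nat_lit 10) L843738 (by decide +kernel)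
theorem L843740 : W_3 (nat_lit 5) (nat_lit 0x2000000008000700010001a00180000000000000000000000000000000) (nat_lit 0x0) (nat_lit 0x11c000c0006000000010000000000000000000000000000000) := T_3 (nat_lit 175) (nat_lit 196) (nat_lit 3) (nat_lit 5) (nat_lit 10) L843739 (by decide +kernel)
theorem L843741 : W_3 (nat_lit 6) (nat_lit 0x8000700010001a00180000000000000000000000000000000) (nat_lit 0x0) (nat_lit 0x2000100011c000c0006000000010000000000000000000000000000000) := T_3 (nat_lit 229) (nat_lit 212) (nat_lit 4) (nat_lit 8) (nat_lit 13) L843740 (by decide +kernel)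
theorem L843742 : W_3 (nat_lit 7) (nat_lit 0x700010001a00180000000000000000000000000000000) (nat_lit 0x0) (nat_lit 0x2000100019c000c0006000000050000000000000000000000000000000) := T_3 (nat_lit 195) (nat_lit 126) (nat_lit 7) (nat_lit 7) (nat_lit 7) L843741 (by decide +kernel)
theorem L843743 : W_3 (nat_lit 8) (nat_lit 0x700000001a00180000000000000000000000000000000) (nat_lit 0x0) (nat_lit 0x200010001dc000c0016000000050000000000000000000000000000000) := T_3 (nat_lit 160) (nat_lit 194) (nat_lit 6) (nat_lit 7) (nat_lit 11) L843742 (by decide +kernel)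
theorem L843744 : W_3 (nat_lit 9) (nat_lit 0x700000001800180000000000000000000000000000000) (nat_lit 0x0) (nat_lit 0x200010001dc000c0016000600050000000000000000000000000000000) := T_3 (nat_lit 141) (nat_lit 142) (nat_lit 2) (nat_lit 5) (nat_lit 8) L843743 (by decide +kernel)
theorem L843746 : W_3 (nat_lit 3) (nat_lit 0x780004001a00180000000000000000000000000000000) (nat_lit 0x0) (nat_lit 0x40003800000000000000010000000000000000000000000000000) := T_3 (nat_lit 192) (nat_lit 191) (nat_lit 1) (nat_lit 8) (nat_lit 10) L843617 (by decide +kernel)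
theorem L843747 : W_3 (nat_lit 4) (nat_lit 0x700004001a00180000000000000000000000000000000) (nat_lit 0x0) (nat_lit 0x40003800080002000000010000000000000000000000000000000) := T_3 (nat_lit 175) (nat_lit 157) (nat_lit 0) (nat_lit 8) (nat_lit 10) L843746 (by decide +kernel)
theorem L843748 : W_3 (nat_lit 5) (nat_lit 0x700004001800180000000000000000000000000000000) (nat_lit 0x0) (nat_lit 0x40003800080002000600010000000000000000000000000000000) := T_3 (nat_lit 141) (nat_lit 142) (nat_lit 2) (nat_lit 5) (nat_lit 8) L843747 (by decide +kernel)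
theorem L843749 : W_3 (nat_lit 2) (nat_lit 0x10800fc0004001800180000000000000000000000000000000) (nat_lit 0x0) (nat_lit 0x600010000000000000000000000000000000) := D_3 (nat_lit 141) (nat_lit 142) (nat_lit 124) (nat_lit 2) (nat_lit 5) (nat_lit 8) (nat_lit 5) (nat_lit 5) (nat_lit 7) (by decide +kernel)
theorem L843750 : W_3 (nat_lit 3) (nat_lit 0x10800f80004001800180000000000000000000000000000000) (nat_lit 0x0) (nat_lit 0x400040000000600010000000000000000000000000000000) := T_3 (nat_lit 174) (nat_lit 190) (nat_lit 1) (nat_lit 7) (nat_lit 10) L843749 (by decide +kernel)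
theorem L843751 : W_3 (nat_lit 4) (nat_lit 0x800f80004001800180000000000000000000000000000000) (nat_lit 0x0) (nat_lit 0x30400040000000600010000000000000000000000000000000) := T_3 (nat_lit 196) (nat_lit 197) (nat_lit 3) (nat_lit 6) (nat_lit 10) L843750 (by decide +kernel)
theorem L843752 : W_3 (nat_lit 5) (nat_lit 0xf80004001800180000000000000000000000000000000) (nat_lit 0x0) (nat_lit 0x31c00040000000600010000000000000000000000000000000) := T_3 (nat_lit 191) (nat_lit 192) (nat_lit 1) (nat_lit 8) (nat_lit 10) L843751 (by decide +kernel)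
theorem L843753 : W_3 (nat_lit 6) (nat_lit 0x780004001800180000000000000000000000000000000) (nat_lit 0x0) (nat_lit 0x31c00840008000600010000000000000000000000000000000) := T_3 (nat_lit 179) (nat_lit 159) (nat_lit 0) (nat_lit 9) (nat_lit 10) L843752 (by decide +kernel)
theorem L843754 : W_3 (nat_lit 7) (nat_lit 0x700004001800180000000000000000000000000000000) (nat_lit 0x0) (nat_lit 0x31c008c000a000600010000000000000000000000000000000) := T_3 (nat_lit 175) (nat_lit 157) (nat_lit 0) (nat_lit 8) (nat_lit 10) L843753 (by decide +kernel)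
theorem L843755 : W_3 (nat_lit 2) (nat_lit 0x200070000c001a00180000000000000000000000000000000) (nat_lit 0x0) (nat_lit 0x80000000000010000800000000000000000000000000) := D_3 (nat_lit 124) (nat_lit 107) (nat_lit 175) (nat_lit 7) (nat_lit 5) (nat_lit 6) (nat_lit 7) (nat_lit 5) (nat_lit 7) (by decide +kernel)
theorem L843756 : W_3 (nat_lit 3) (nat_lit 0x70000c001a00180000000000000000000000000000000) (nat_lit 0x0) (nat_lit 0x40002000080000000000010000800000000000000000000000000) := T_3 (nat_lit 193) (nat_lit 210) (nat_lit 4) (nat_lit 6) (nat_lit 12) L843755 (by decide +kernel)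
theorem L843757 : W_3 (nat_lit 4) (nat_lit 0x700004001a00180000000000000000000000000000000) (nat_lit 0x0) (nat_lit 0x40002000880008000000010000800000000000000000000000000) := T_3 (nat_lit 159) (nat_lit 179) (nat_lit 0) (nat_lit 9) (nat_lit 10) L843756 (by decide +kernel)
theorem L843758 : W_3 (nat_lit 5) (nat_lit 0x700004001800180000000000000000000000000000000) (nat_lit 0x0) (nat_lit 0x40002000880008000600010000800000000000000000000000000) := T_3 (nat_lit 141) (nat_lit 142) (nat_lit 2) (nat_lit 5) (nat_lit 8) L843757 (by decide +kernel)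
theorem L843759 : W_3 (nat_lit 2) (nat_lit 0x70000c001800180000000000000000000000000000000) (nat_lit 0x0) (nat_lit 0x2600000000000000000000000000000000000) := D_3 (nat_lit 142) (nat_lit 141) (nat_lit 145) (nat_lit 2) (nat_lit 5) (nat_lit 8) (nat_lit 1) (nat_lit 9) (nat_lit 8) (by decide +kernel)
theorem L843760 : W_3 (nat_lit 3) (nat_lit 0x700004001800180000000000000000000000000000000) (nat_lit 0x0) (nat_lit 0x800008002600000000000000000000000000000000000) := T_3 (nat_lit 159) (nat_lit 179) (nat_lit 0) (nat_lit 9) (nat_lit 10) L843759 (by decide +kernel)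
theorem L843761 : W_3 (nat_lit 8) (nat_lit 0x700000001800180000000000000000000000000000000) (nat_lit 0x0) (nat_lit 0x40033c008c000e002600010000800000000000000000000000000) := Q_3 (nat_lit 158) (C_3 L843748 (C_3 L843754 (C_3 L843687 (C_3 L843758 (C_3 L843760 N_3))))) (by decide +kernel)
theorem L843762 : W_3 (nat_lit 2) (nat_lit 0x4800780004001a00180000000000000000000000000000000) (nat_lit 0x0) (nat_lit 0x400040000000000010000000000000000000000000000000) := D_3 (nat_lit 174) (nat_lit 190) (nat_lit 124) (nat_lit 1) (nat_lit 7) (nat_lit 10) (nat_lit 5) (nat_lit 5) (nat_lit 7) (by decide +kernel)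
theorem L843763 : W_3 (nat_lit 3) (nat_lit 0x4000780004001a00180000000000000000000000000000000) (nat_lit 0x0) (nat_lit 0x1c00040000000000010000000000000000000000000000000) := T_3 (nat_lit 191) (nat_lit 192) (nat_lit 1) (nat_lit 8) (nat_lit 10) L843762 (by decide +kernel)
theorem L843764 : W_3 (nat_lit 4) (nat_lit 0x780004001a00180000000000000000000000000000000) (nat_lit 0x0) (nat_lit 0x5c00040010000000010000000000000000000000000000000) := T_3 (nat_lit 194) (nat_lit 160) (nat_lit 6) (nat_lit 7) (nat_lit 11) L843763 (by decide +kernel)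
theorem L843765 : W_3 (nat_lit 5) (nat_lit 0x700004001a00180000000000000000000000000000000) (nat_lit 0x0) (nat_lit 0x5c000c0012000000010000000000000000000000000000000) := T_3 (nat_lit 175) (nat_lit 157) (nat_lit 0) (nat_lit 8) (nat_lit 10) L843764 (by decide +kernel)
theorem L843766 : W_3 (nat_lit 6) (nat_lit 0x700004001800180000000000000000000000000000000) (nat_lit 0x0) (nat_lit 0x5c000c0012000600010000000000000000000000000000000) := T_3 (nat_lit 141) (nat_lit 142) (nat_lit 2) (nat_lit 5) (nat_lit 8) L843765 (by decide +kernel)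
theorem L843767 : W_3 (nat_lit 2) (nat_lit 0x80078001c001800180000000000000000000000000000000) (nat_lit 0x0) (nat_lit 0x400060000000000000000000000000000000000000000000) := D_3 (nat_lit 174) (nat_lit 190) (nat_lit 173) (nat_lit 1) (nat_lit 7) (nat_lit 10) (nat_lit 2) (nat_lit 3) (nat_lit 10) (by decide +kernel)
theorem L843768 : W_3 (nat_lit 3) (nat_lit 0x80078000c001800180000000000000000000000000000000) (nat_lit 0x0) (nat_lit 0x4400060010000000000000000000000000000000000000000) := T_3 (nat_lit 160) (nat_lit 194) (nat_lit 6) (nat_lit 7) (nat_lit 11) L843767 (by decide +kernel)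
theorem L843769 : W_3 (nat_lit 4) (nat_lit 0x78000c001800180000000000000000000000000000000) (nat_lit 0x0) (nat_lit 0x5c00060010000000000000000000000000000000000000000) := T_3 (nat_lit 191) (nat_lit 192) (nat_lit 1) (nat_lit 8) (nat_lit 10) L843768 (by decide +kernel)
theorem L843770 : W_3 (nat_lit 5) (nat_lit 0x780004001800180000000000000000000000000000000) (nat_lit 0x0) (nat_lit 0x5c00860018000000000000000000000000000000000000000) := T_3 (nat_lit 159) (nat_lit 179) (nat_lit 0) (nat_lit 9) (nat_lit 10) L843769 (by decide +kernel)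
theorem L843771 : W_3 (nat_lit 6) (nat_lit 0x700004001800180000000000000000000000000000000) (nat_lit 0x0) (nat_lit 0x5c008e001a000000000000000000000000000000000000000) := T_3 (nat_lit 175) (nat_lit 157) (nat_lit 0) (nat_lit 8) (nat_lit 10) L843770 (by decide +kernel)
theorem L843772 : W_3 (nat_lit 7) (nat_lit 0x700000001800180000000000000000000000000000000) (nat_lit 0x0) (nat_lit 0x5c008e001e002600010000000000000000000000000000000) := Q_3 (nat_lit 158) (C_3 L843766 (C_3 L843771 (C_3 L843760 N_3))) (by decide +kernel)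
theorem L843773 : W_3 (nat_lit 5) (nat_lit 0x700010001a00180000000000000000000000000000000) (nat_lit 0x0) (nat_lit 0x200000000800000004000300018000c000000000000000000) := T_3 (nat_lit 126) (nat_lit 193) (nat_lit 5) (nat_lit 7) (nat_lit 7) L843538 (by decide +kernel)
theorem L843774 : W_3 (nat_lit 6) (nat_lit 0x700000001a00180000000000000000000000000000000) (nat_lit 0x0) (nat_lit 0x600000001800000004000300018000c000000000000000000) := T_3 (nat_lit 160) (nat_lit 194) (nat_lit 6) (nat_lit 7) (nat_lit 11) L843773 (by decide +kernel)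
theorem L843775 : W_3 (nat_lit 7) (nat_lit 0x700000001800180000000000000000000000000000000) (nat_lit 0x0) (nat_lit 0x600000001800060004000300018000c000000000000000000) := T_3 (nat_lit 141) (nat_lit 142) (nat_lit 2) (nat_lit 5) (nat_lit 8) L843774 (by decide +kernel)
theorem L843776 : W_3 (nat_lit 10) (nat_lit 0x600000001800180000000000000000000000000000000) (nat_lit 0x0) (nat_lit 0x8000600f7c039e039e00260005000380018000c000000000000000000) := Q_3 (nat_lit 176) (C_3 L843654 (C_3 L843679 (C_3 L843712 (C_3 L843761 (C_3 L843772 (C_3 L843775 N_3)))))) (by decide +kernel)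
theorem L843777 : W_3 (nat_lit 4) (nat_lit 0x780000001800180000000000000000000000000000000) (nat_lit 0x0) (nat_lit 0x1c00040007000000000000000000000000000000000000000) := T_3 (nat_lit 157) (nat_lit 158) (nat_lit 0) (nat_lit 8) (nat_lit 10) L805233 (by decide +kernel)
theorem L843778 : W_3 (nat_lit 5) (nat_lit 0x700000001800180000000000000000000000000000000) (nat_lit 0x0) (nat_lit 0x3bc008c000f000000000000000000000000000000000000000) := Q_3 (nat_lit 175) (C_3 L807394 (C_3 L843551 (C_3 L807397 (C_3 L843777 N_3)))) (by decide +kernel)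
theorem L843779 : W_3 (nat_lit 2) (nat_lit 0x7000000018001c0000000000000000000000000000000) (nat_lit 0x0) (nat_lit 0xa000000010000000000000000000000000000000000000000) := D_3 (nat_lit 160) (nat_lit 193) (nat_lit 195) (nat_lit 5) (nat_lit 7) (nat_lit 7) (nat_lit 7) (nat_lit 7) (nat_lit 7) (by decide +kernel)
theorem L843780 : W_3 (nat_lit 3) (nat_lit 0x2000700000001c001c0000000000000000000000000000000) (nat_lit 0x0) (nat_lit 0x1c00880000000000000000000000000000000000000000000) := T_3 (nat_lit 192) (nat_lit 179) (nat_lit 1) (nat_lit 9) (nat_lit 10) L649283 (by decide +kernel)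
theorem L843781 : W_3 (nat_lit 4) (nat_lit 0x700000001c001c0000000000000000000000000000000) (nat_lit 0x0) (nat_lit 0x3c00880008000000000000000000000000000000000000000) := T_3 (nat_lit 193) (nat_lit 159) (nat_lit 6) (nat_lit 6) (nat_lit 11) L843780 (by decide +kernel)
theorem L843782 : W_3 (nat_lit 5) (nat_lit 0x7000000018001c0000000000000000000000000000000) (nat_lit 0x0) (nat_lit 0x3c00880008000600000000000000000000000000000000000) := T_3 (nat_lit 142) (nat_lit 141) (nat_lit 2) (nat_lit 5) (nat_lit 8) L843781 (by decide +kernel)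
theorem L843783 : W_3 (nat_lit 5) (nat_lit 0x700000001a001c0000000000000000000000000000000) (nat_lit 0x0) (nat_lit 0x800000001800000000000300018000c000000000000000000) := T_3 (nat_lit 160) (nat_lit 195) (nat_lit 7) (nat_lit 7) (nat_lit 7) L843538 (by decide +kernel)
theorem L843784 : W_3 (nat_lit 6) (nat_lit 0x7000000018001c0000000000000000000000000000000) (nat_lit 0x0) (nat_lit 0x800000001800060000000300018000c000000000000000000) := T_3 (nat_lit 141) (nat_lit 142) (nat_lit 2) (nat_lit 5) (nat_lit 8) L843783 (by decide +kernel)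
theorem L843785 : W_3 (nat_lit 7) (nat_lit 0x700000001800180000000000000000000000000000000) (nat_lit 0x0) (nat_lit 0xbc0088001800060004000300018000c000000000000000000) := Q_3 (nat_lit 126) (C_3 L843779 (C_3 L843782 (C_3 L843784 N_3))) (by decide +kernel)
theorem L843786 : W_3 (nat_lit 2) (nat_lit 0x88007c0011001a00180000000000000000000000000000000) (nat_lit 0x0) (nat_lit 0x20008800000000000000000000000000000000000000) := D_3 (nat_lit 173) (nat_lit 155) (nat_lit 159) (nat_lit 0) (nat_lit 6) (nat_lit 10) (nat_lit 2) (nat_lit 3) (nat_lit 10) (by decide +kernel)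
theorem L843787 : W_3 (nat_lit 3) (nat_lit 0x88007c0001001a00180000000000000000000000000000000) (nat_lit 0x0) (nat_lit 0x20018800000040000000000000000000000000000000) := T_3 (nat_lit 160) (nat_lit 126) (nat_lit 7) (nat_lit 7) (nat_lit 7) L843786 (by decide +kernel)
theorem L843788 : W_3 (nat_lit 4) (nat_lit 0x88007c0000001a00180000000000000000000000000000000) (nat_lit 0x0) (nat_lit 0x2001b800000040000000000000000000000000000000) := T_3 (nat_lit 156) (nat_lit 157) (nat_lit 0) (nat_lit 7) (nat_lit 10) L843787 (by decide +kernel)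
theorem L843789 : W_3 (nat_lit 5) (nat_lit 0x8800780000001a00180000000000000000000000000000000) (nat_lit 0x0) (nat_lit 0x40006001b800000040000000000000000000000000000000) := T_3 (nat_lit 174) (nat_lit 190) (nat_lit 1) (nat_lit 7) (nat_lit 10) L843788 (by decide +kernel)
theorem L843790 : W_3 (nat_lit 6) (nat_lit 0x800780000001a00180000000000000000000000000000000) (nat_lit 0x0) (nat_lit 0x1840006001b800000040000000000000000000000000000000) := T_3 (nat_lit 195) (nat_lit 196) (nat_lit 3) (nat_lit 5) (nat_lit 10) L843789 (by decide +kernel)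
theorem L843791 : W_3 (nat_lit 7) (nat_lit 0x780000001a00180000000000000000000000000000000) (nat_lit 0x0) (nat_lit 0x19c0006001b800000040000000000000000000000000000000) := T_3 (nat_lit 191) (nat_lit 192) (nat_lit 1) (nat_lit 8) (nat_lit 10) L843790 (by decide +kernel)
theorem L843792 : W_3 (nat_lit 8) (nat_lit 0x780000001800180000000000000000000000000000000) (nat_lit 0x0) (nat_lit 0x19c0006001b800600040000000000000000000000000000000) := T_3 (nat_lit 141) (nat_lit 142) (nat_lit 2) (nat_lit 5) (nat_lit 8) L843791 (by decide +kernel)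
theorem L843793 : W_3 (nat_lit 2) (nat_lit 0x20000000088007c0018001a00180000000000000000000000000000000) (nat_lit 0x0) (nat_lit 0x800004000000010000000000000000000000000000000) := D_3 (nat_lit 158) (nat_lit 124) (nat_lit 179) (nat_lit 5) (nat_lit 5) (nat_lit 7) (nat_lit 0) (nat_lit 9) (nat_lit 10) (by decide +kernel)
theorem L843794 : W_3 (nat_lit 3) (nat_lit 0x20000000088007c0010001a00180000000000000000000000000000000) (nat_lit 0x0) (nat_lit 0x82000c000000010000000000000000000000000000000) := T_3 (nat_lit 159) (nat_lit 173) (nat_lit 2) (nat_lit 3) (nat_lit 10) L843793 (by decide +kernel)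
theorem L843795 : W_3 (nat_lit 4) (nat_lit 0x2000000008800780010001a00180000000000000000000000000000000) (nat_lit 0x0) (nat_lit 0x40086000c000000010000000000000000000000000000000) := T_3 (nat_lit 174) (nat_lit 190) (nat_lit 1) (nat_lit 7) (nat_lit 10) L843794 (by decide +kernel)
theorem L843796 : W_3 (nat_lit 5) (nat_lit 0x8800780010001a00180000000000000000000000000000000) (nat_lit 0x0) (nat_lit 0x200010000040086000c000000010000000000000000000000000000000) := T_3 (nat_lit 229) (nat_lit 212) (nat_lit 4) (nat_lit 8) (nat_lit 13) L843795 (by decide +kernel)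
theorem L843797 : W_3 (nat_lit 6) (nat_lit 0x8000780010001a00180000000000000000000000000000000) (nat_lit 0x0) (nat_lit 0x2000100001c0086000c000000010000000000000000000000000000000) := T_3 (nat_lit 191) (nat_lit 192) (nat_lit 1) (nat_lit 8) (nat_lit 10) L843796 (by decide +kernel)
theorem L843798 : W_3 (nat_lit 7) (nat_lit 0x8000780000001a00180000000000000000000000000000000) (nat_lit 0x0) (nat_lit 0x2000100001c0086001c000000050000000000000000000000000000000) := T_3 (nat_lit 160) (nat_lit 126) (nat_lit 7) (nat_lit 7) (nat_lit 7) L843797 (by decide +kernel)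
theorem L843799 : W_3 (nat_lit 8) (nat_lit 0x8000780000001800180000000000000000000000000000000) (nat_lit 0x0) (nat_lit 0x2000100001c0086001c000600050000000000000000000000000000000) := T_3 (nat_lit 141) (nat_lit 142) (nat_lit 2) (nat_lit 5) (nat_lit 8) L843798 (by decide +kernel)
theorem L843800 : W_3 (nat_lit 9) (nat_lit 0x780000001800180000000000000000000000000000000) (nat_lit 0x0) (nat_lit 0x2000100019c0086001c000600050000000000000000000000000000000) := T_3 (nat_lit 195) (nat_lit 196) (nat_lit 3) (nat_lit 5) (nat_lit 10) L843799 (by decide +kernel)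
theorem L843801 : W_3 (nat_lit 10) (nat_lit 0x700000001800180000000000000000000000000000000) (nat_lit 0x0) (nat_lit 0x2000100039c008e001f800600050000000000000000000000000000000) := Q_3 (nat_lit 175) (C_3 L843777 (C_3 L843792 (C_3 L843800 (C_3 L807397 N_3)))) (by decide +kernel)
theorem L843802 : W_3 (nat_lit 2) (nat_lit 0x1f00008001a00180000000000000000000000000000000) (nat_lit 0x0) (nat_lit 0x70000000000000000000000000000000000000000000000000) := D_3 (nat_lit 197) (nat_lit 196) (nat_lit 198) (nat_lit 3) (nat_lit 6) (nat_lit 10) (nat_lit 3) (nat_lit 7) (nat_lit 10) (by decide +kernel)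
theorem L843803 : W_3 (nat_lit 3) (nat_lit 0xf00008001a00180000000000000000000000000000000) (nat_lit 0x0) (nat_lit 0x70001000010000000000000000000000000000000000000000) := T_3 (nat_lit 180) (nat_lit 160) (nat_lit 0) (nat_lit 10) (nat_lit 10) L843802 (by decide +kernel)
theorem L843804 : W_3 (nat_lit 4) (nat_lit 0x700008001a00180000000000000000000000000000000) (nat_lit 0x0) (nat_lit 0x70001800014000000000000000000000000000000000000000) := T_3 (nat_lit 179) (nat_lit 158) (nat_lit 0) (nat_lit 9) (nat_lit 10) L843803 (by decide +kernel)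
theorem L843805 : W_3 (nat_lit 5) (nat_lit 0x700008001800180000000000000000000000000000000) (nat_lit 0x0) (nat_lit 0x70001800014000600000000000000000000000000000000000) := T_3 (nat_lit 141) (nat_lit 142) (nat_lit 2) (nat_lit 5) (nat_lit 8) L843804 (by decide +kernel)
theorem L843806 : W_3 (nat_lit 2) (nat_lit 0x1f00008001800180000000000000000000000000000000) (nat_lit 0x0) (nat_lit 0x70000000000000000000000000000000000000000000000000) := D_3 (nat_lit 197) (nat_lit 196) (nat_lit 198) (nat_lit 3) (nat_lit 6) (nat_lit 10) (nat_lit 3) (nat_lit 7) (nat_lit 10) (by decide +kernel)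
theorem L843807 : W_3 (nat_lit 3) (nat_lit 0xf00008001800180000000000000000000000000000000) (nat_lit 0x0) (nat_lit 0x70001000010000000000000000000000000000000000000000) := T_3 (nat_lit 180) (nat_lit 160) (nat_lit 0) (nat_lit 10) (nat_lit 10) L843806 (by decide +kernel)
theorem L843808 : W_3 (nat_lit 4) (nat_lit 0x700008001800180000000000000000000000000000000) (nat_lit 0x0) (nat_lit 0x70001800014000000000000000000000000000000000000000) := T_3 (nat_lit 179) (nat_lit 158) (nat_lit 0) (nat_lit 9) (nat_lit 10) L843807 (by decide +kernel)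
theorem L843809 : W_3 (nat_lit 4) (nat_lit 0x700008001800180000000000000000000000000000000) (nat_lit 0x0) (nat_lit 0x3000800004000600040000000000000000000000000000000) := T_3 (nat_lit 179) (nat_lit 158) (nat_lit 0) (nat_lit 9) (nat_lit 10) L843638 (by decide +kernel)
theorem L843810 : W_3 (nat_lit 2) (nat_lit 0x2000700008001c00180000000000000000000000000000000) (nat_lit 0x0) (nat_lit 0x20001000800000000000000000000000000000000000000000000) := D_3 (nat_lit 192) (nat_lit 209) (nat_lit 179) (nat_lit 5) (nat_lit 6) (nat_lit 8) (nat_lit 1) (nat_lit 9) (nat_lit 10) (by decide +kernel)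
theorem L843811 : W_3 (nat_lit 3) (nat_lit 0x700008001c00180000000000000000000000000000000) (nat_lit 0x0) (nat_lit 0x20003000800000000000040000000000000000000000000000000) := T_3 (nat_lit 193) (nat_lit 126) (nat_lit 6) (nat_lit 6) (nat_lit 11) L843810 (by decide +kernel)
theorem L843812 : W_3 (nat_lit 4) (nat_lit 0x700008001800180000000000000000000000000000000) (nat_lit 0x0) (nat_lit 0x20003000800000000600040000000000000000000000000000000) := T_3 (nat_lit 142) (nat_lit 141) (nat_lit 2) (nat_lit 5) (nat_lit 8) L843811 (by decide +kernel)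
theorem L843813 : W_3 (nat_lit 2) (nat_lit 0x2000700008003c00180000000000000000000000000000000) (nat_lit 0x0) (nat_lit 0x40000000000010004000000000000000000000000000000000000) := D_3 (nat_lit 160) (nat_lit 146) (nat_lit 210) (nat_lit 1) (nat_lit 10) (nat_lit 8) (nat_lit 6) (nat_lit 6) (nat_lit 12) (by decide +kernel)
theorem L843814 : W_3 (nat_lit 3) (nat_lit 0x700008003c00180000000000000000000000000000000) (nat_lit 0x0) (nat_lit 0x40002000000010004000040000000000000000000000000000000) := T_3 (nat_lit 193) (nat_lit 126) (nat_lit 6) (nat_lit 6) (nat_lit 11) L843813 (by decide +kernel)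
theorem L843815 : W_3 (nat_lit 4) (nat_lit 0x700008001c00180000000000000000000000000000000) (nat_lit 0x0) (nat_lit 0x40002000000014006000040000000000000000000000000000000) := T_3 (nat_lit 145) (nat_lit 158) (nat_lit 1) (nat_lit 9) (nat_lit 8) L843814 (by decide +kernel)
theorem L843816 : W_3 (nat_lit 5) (nat_lit 0x700008001800180000000000000000000000000000000) (nat_lit 0x0) (nat_lit 0x40002000000014006600040000000000000000000000000000000) := T_3 (nat_lit 142) (nat_lit 141) (nat_lit 2) (nat_lit 5) (nat_lit 8) L843815 (by decide +kernel)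
theorem L843817 : W_3 (nat_lit 6) (nat_lit 0x700000001800180000000000000000000000000000000) (nat_lit 0x0) (nat_lit 0x6007300180001c006600040000000000000000000000000000000) := Q_3 (nat_lit 159) (C_3 L843805 (C_3 L843808 (C_3 L843809 (C_3 L843812 (C_3 L843816 N_3))))) (by decide +kernel)
theorem L843818 : W_3 (nat_lit 2) (nat_lit 0x9000780008001c001c0000000000000000000000000000000) (nat_lit 0x0) (nat_lit 0x400020000000000004000000000000000000000000000000000000000) := D_3 (nat_lit 209) (nat_lit 226) (nat_lit 158) (nat_lit 6) (nat_lit 5) (nat_lit 13) (nat_lit 6) (nat_lit 5) (nat_lit 12) (by decide +kernel)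
theorem L843819 : W_3 (nat_lit 3) (nat_lit 0x9000780000001c001c0000000000000000000000000000000) (nat_lit 0x0) (nat_lit 0x40002000200000000c000000000000000000000000000000000000000) := T_3 (nat_lit 159) (nat_lit 193) (nat_lit 6) (nat_lit 6) (nat_lit 11) L843818 (by decide +kernel)
theorem L843820 : W_3 (nat_lit 4) (nat_lit 0x9000780000001c00180000000000000000000000000000000) (nat_lit 0x0) (nat_lit 0x40002000200000001c000000040000000000000000000000000000000) := T_3 (nat_lit 126) (nat_lit 160) (nat_lit 7) (nat_lit 7) (nat_lit 7) L843819 (by decide +kernel)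
theorem L843821 : W_3 (nat_lit 5) (nat_lit 0x1000780000001c00180000000000000000000000000000000) (nat_lit 0x0) (nat_lit 0x40002001a00000001c000000040000000000000000000000000000000) := T_3 (nat_lit 195) (nat_lit 196) (nat_lit 3) (nat_lit 5) (nat_lit 10) L843820 (by decide +kernel)
theorem L843822 : W_3 (nat_lit 6) (nat_lit 0x780000001c00180000000000000000000000000000000) (nat_lit 0x0) (nat_lit 0x40002001b80000001c000000040000000000000000000000000000000) := T_3 (nat_lit 192) (nat_lit 191) (nat_lit 1) (nat_lit 8) (nat_lit 10) L843821 (by decide +kernel)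
theorem L843823 : W_3 (nat_lit 7) (nat_lit 0x780000001800180000000000000000000000000000000) (nat_lit 0x0) (nat_lit 0x40002001b80000001c000600040000000000000000000000000000000) := T_3 (nat_lit 142) (nat_lit 141) (nat_lit 2) (nat_lit 5) (nat_lit 8) L843822 (by decide +kernel)
theorem L843824 : W_3 (nat_lit 10) (nat_lit 0x700000001800180000000000000000000000000000000) (nat_lit 0x0) (nat_lit 0x40002001bc000e001f800600058003c000a0000000000000000000000) := Q_3 (nat_lit 175) (C_3 L843777 (C_3 L843792 (C_3 L843823 (C_3 L843735 N_3)))) (by decide +kernel)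
theorem L843825 : W_3 (nat_lit 8) (nat_lit 0x700004001a00180000000000000000000000000000000) (nat_lit 0x0) (nat_lit 0x1a000080012000000058003c000a0000000000000000000000) := T_3 (nat_lit 175) (nat_lit 157) (nat_lit 0) (nat_lit 8) (nat_lit 10) L843733 (by decide +kernel)
theorem L843826 : W_3 (nat_lit 9) (nat_lit 0x700004001800180000000000000000000000000000000) (nat_lit 0x0) (nat_lit 0x1a000080012000600058003c000a0000000000000000000000) := T_3 (nat_lit 141) (nat_lit 142) (nat_lit 2) (nat_lit 5) (nat_lit 8) L843825 (by decide +kernel)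
theorem L843827 : W_3 (nat_lit 10) (nat_lit 0x700000001800180000000000000000000000000000000) (nat_lit 0x0) (nat_lit 0x3a00088001e002600058003c000a0000000000000000000000) := Q_3 (nat_lit 158) (C_3 L843760 (C_3 L843826 (C_3 L807306 N_3))) (by decide +kernel)
theorem L843862 : W_3 (nat_lit 2) (nat_lit 0x40003e00000001a00180000000000000000000000000000000) (nat_lit 0x0) (nat_lit 0x380000000000000000000000000000000000000000) := D_3 (nat_lit 164) (nat_lit 165) (nat_lit 163) (nat_lit 2) (nat_lit 8) (nat_lit 10) (nat_lit 2) (nat_lit 7) (nat_lit 10) (by decide +kernel)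
theorem L843863 : W_3 (nat_lit 3) (nat_lit 0x40001e00000001a00180000000000000000000000000000000) (nat_lit 0x0) (nat_lit 0x80002000380000000000000000000000000000000000000000) := T_3 (nat_lit 181) (nat_lit 199) (nat_lit 3) (nat_lit 8) (nat_lit 10) L843862 (by decide +kernel)
theorem L843864 : W_3 (nat_lit 4) (nat_lit 0x40001e00000001800180000000000000000000000000000000) (nat_lit 0x0) (nat_lit 0x80002000380000600000000000000000000000000000000000) := T_3 (nat_lit 141) (nat_lit 142) (nat_lit 2) (nat_lit 5) (nat_lit 8) L843863 (by decide +kernel)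
theorem L843865 : W_3 (nat_lit 5) (nat_lit 0x1e00000001800180000000000000000000000000000000) (nat_lit 0x0) (nat_lit 0xe0002000380000600000000000000000000000000000000000) := T_3 (nat_lit 198) (nat_lit 197) (nat_lit 3) (nat_lit 7) (nat_lit 10) L843864 (by decide +kernel)
theorem L844209 : W_3 (nat_lit 2) (nat_lit 0x3000d00008001c00180000000000000000000000000000000) (nat_lit 0x0) (nat_lit 0x8000c000000000000000000000000000000000000000000000000) := D_3 (nat_lit 194) (nat_lit 195) (nat_lit 211) (nat_lit 2) (nat_lit 5) (nat_lit 11) (nat_lit 7) (nat_lit 6) (nat_lit 8) (by decide +kernel)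
theorem L844210 : W_3 (nat_lit 3) (nat_lit 0x3000500008001c00180000000000000000000000000000000) (nat_lit 0x0) (nat_lit 0x8000c000a00000000000000000000000000000000000000000000) := T_3 (nat_lit 179) (nat_lit 177) (nat_lit 1) (nat_lit 9) (nat_lit 10) L844209 (by decide +kernel)
theorem L844211 : W_3 (nat_lit 4) (nat_lit 0x2000500008001c00180000000000000000000000000000000) (nat_lit 0x0) (nat_lit 0xa000d000a00000000000000000000000000000000000000000000) := T_3 (nat_lit 192) (nat_lit 209) (nat_lit 5) (nat_lit 6) (nat_lit 8) L844210 (by decide +kernel)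
theorem L844212 : W_3 (nat_lit 5) (nat_lit 0x500008001c00180000000000000000000000000000000) (nat_lit 0x0) (nat_lit 0xa000f000a00000000000040000000000000000000000000000000) := T_3 (nat_lit 193) (nat_lit 126) (nat_lit 6) (nat_lit 6) (nat_lit 11) L844211 (by decide +kernel)
theorem L844213 : W_3 (nat_lit 2) (nat_lit 0x70000c001c00180000000000000000000000000000000) (nat_lit 0x0) (nat_lit 0x80003000000000000000000000000000000000000000) := D_3 (nat_lit 157) (nat_lit 156) (nat_lit 175) (nat_lit 3) (nat_lit 3) (nat_lit 9) (nat_lit 0) (nat_lit 8) (nat_lit 10) (by decide +kernel)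
theorem L844214 : W_3 (nat_lit 3) (nat_lit 0x50000c001c00180000000000000000000000000000000) (nat_lit 0x0) (nat_lit 0xa80003000000000000000000000000000000000000000) := T_3 (nat_lit 177) (nat_lit 179) (nat_lit 0) (nat_lit 9) (nat_lit 10) L844213 (by decide +kernel)
theorem L844215 : W_3 (nat_lit 4) (nat_lit 0x500008001c00180000000000000000000000000000000) (nat_lit 0x0) (nat_lit 0xa80007002000000000000000000000000000000000000) := T_3 (nat_lit 158) (nat_lit 145) (nat_lit 1) (nat_lit 9) (nat_lit 8) L844214 (by decide +kernel)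
theorem L844216 : W_3 (nat_lit 2) (nat_lit 0xf000500008003c00180000000000000000000000000000000) (nat_lit 0x0) (nat_lit 0x100000c0000000000000000000000000000000000000000000) := D_3 (nat_lit 175) (nat_lit 196) (nat_lit 174) (nat_lit 0) (nat_lit 9) (nat_lit 11) (nat_lit 0) (nat_lit 8) (nat_lit 11) (by decide +kernel)
theorem L844217 : W_3 (nat_lit 3) (nat_lit 0x7000500008003c00180000000000000000000000000000000) (nat_lit 0x0) (nat_lit 0x180008c0000000000000000000000000000000000000000000) := T_3 (nat_lit 195) (nat_lit 179) (nat_lit 2) (nat_lit 5) (nat_lit 11) L844216 (by decide +kernel)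
theorem L844218 : W_3 (nat_lit 4) (nat_lit 0x3000500008003c00180000000000000000000000000000000) (nat_lit 0x0) (nat_lit 0x8001c0008c0000000000000000000000000000000000000000000) := T_3 (nat_lit 194) (nat_lit 211) (nat_lit 7) (nat_lit 6) (nat_lit 8) L844217 (by decide +kernel)
theorem L844219 : W_3 (nat_lit 5) (nat_lit 0x2000500008003c00180000000000000000000000000000000) (nat_lit 0x0) (nat_lit 0xa001d0008c0000000000000000000000000000000000000000000) := T_3 (nat_lit 192) (nat_lit 209) (nat_lit 5) (nat_lit 6) (nat_lit 8) L844218 (by decide +kernel)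
theorem L844220 : W_3 (nat_lit 6) (nat_lit 0x500008003c00180000000000000000000000000000000) (nat_lit 0x0) (nat_lit 0xa001f0008c0000000000040000000000000000000000000000000) := T_3 (nat_lit 193) (nat_lit 126) (nat_lit 6) (nat_lit 6) (nat_lit 11) L844219 (by decide +kernel)
theorem L844221 : W_3 (nat_lit 7) (nat_lit 0x500008001c00180000000000000000000000000000000) (nat_lit 0x0) (nat_lit 0xa001f0008c0004002000040000000000000000000000000000000) := T_3 (nat_lit 145) (nat_lit 158) (nat_lit 1) (nat_lit 9) (nat_lit 8) L844220 (by decide +kernel)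
theorem L844222 : W_3 (nat_lit 2) (nat_lit 0x1000780054000c001c00180000000000000000000000000000000) (nat_lit 0x0) (nat_lit 0x200000008000080000000000000000000000000000000000000000000) := D_3 (nat_lit 175) (nat_lit 195) (nat_lit 225) (nat_lit 0) (nat_lit 8) (nat_lit 11) (nat_lit 6) (nat_lit 4) (nat_lit 13) (by decide +kernel)
theorem L844223 : W_3 (nat_lit 3) (nat_lit 0x10007800540008001c00180000000000000000000000000000000) (nat_lit 0x0) (nat_lit 0x200000008000080004002000000000000000000000000000000000000) := T_3 (nat_lit 158) (nat_lit 145) (nat_lit 1) (nat_lit 9) (nat_lit 8) L844222 (by decide +kernel)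
theorem L844224 : W_3 (nat_lit 4) (nat_lit 0x10007800500008001c00180000000000000000000000000000000) (nat_lit 0x0) (nat_lit 0x2000000080000e0004002000000000000000000000000000000000000) := T_3 (nat_lit 174) (nat_lit 173) (nat_lit 0) (nat_lit 7) (nat_lit 11) L844223 (by decide +kernel)
theorem L844225 : W_3 (nat_lit 5) (nat_lit 0x7800500008001c00180000000000000000000000000000000) (nat_lit 0x0) (nat_lit 0x2000180080000e0004002000000000000000000000000000000000000) := T_3 (nat_lit 208) (nat_lit 207) (nat_lit 1) (nat_lit 7) (nat_lit 11) L844224 (by decide +kernel)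
theorem L844226 : W_3 (nat_lit 6) (nat_lit 0x7000500008001c00180000000000000000000000000000000) (nat_lit 0x0) (nat_lit 0x2000180088002e0004002000000000000000000000000000000000000) := T_3 (nat_lit 191) (nat_lit 177) (nat_lit 2) (nat_lit 4) (nat_lit 11) L844225 (by decide +kernel)
theorem L844227 : W_3 (nat_lit 7) (nat_lit 0x3000500008001c00180000000000000000000000000000000) (nat_lit 0x0) (nat_lit 0x20009800c8002e0004002000000000000000000000000000000000000) := T_3 (nat_lit 194) (nat_lit 211) (nat_lit 7) (nat_lit 6) (nat_lit 8) L844226 (by decide +kernel)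
theorem L844228 : W_3 (nat_lit 8) (nat_lit 0x2000500008001c00180000000000000000000000000000000) (nat_lit 0x0) (nat_lit 0x2000b800d8002e0004002000000000000000000000000000000000000) := T_3 (nat_lit 192) (nat_lit 209) (nat_lit 5) (nat_lit 6) (nat_lit 8) L844227 (by decide +kernel)
theorem L844229 : W_3 (nat_lit 9) (nat_lit 0x500008001c00180000000000000000000000000000000) (nat_lit 0x0) (nat_lit 0x2000b800f8002e0004002000040000000000000000000000000000000) := T_3 (nat_lit 193) (nat_lit 126) (nat_lit 6) (nat_lit 6) (nat_lit 11) L844228 (by decide +kernel)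
theorem L844230 : W_3 (nat_lit 10) (nat_lit 0x400008001c00180000000000000000000000000000000) (nat_lit 0x0) (nat_lit 0x2000b801f800be0007002000040000000000000000000000000000000) := Q_3 (nat_lit 176) (C_3 L844212 (C_3 L844215 (C_3 L844221 (C_3 L844229 N_3)))) (by decide +kernel)
theorem L844505 : W_3 (nat_lit 2) (nat_lit 0xf000500008001c00180000000000000000000000000000000) (nat_lit 0x0) (nat_lit 0x100000c0000000000000000000000000000000000000000000) := D_3 (nat_lit 175) (nat_lit 196) (nat_lit 174) (nat_lit 0) (nat_lit 9) (nat_lit 11) (nat_lit 0) (nat_lit 8) (nat_lit 11) (by decide +kernel)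
theorem L844506 : W_3 (nat_lit 3) (nat_lit 0x7000500008001c00180000000000000000000000000000000) (nat_lit 0x0) (nat_lit 0x180008c0000000000000000000000000000000000000000000) := T_3 (nat_lit 195) (nat_lit 179) (nat_lit 2) (nat_lit 5) (nat_lit 11) L844505 (by decide +kernel)
theorem L844507 : W_3 (nat_lit 4) (nat_lit 0x3000500008001c00180000000000000000000000000000000) (nat_lit 0x0) (nat_lit 0x8001c0008c0000000000000000000000000000000000000000000) := T_3 (nat_lit 194) (nat_lit 211) (nat_lit 7) (nat_lit 6) (nat_lit 8) L844506 (by decide +kernel)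
theorem L844508 : W_3 (nat_lit 5) (nat_lit 0x2000500008001c00180000000000000000000000000000000) (nat_lit 0x0) (nat_lit 0xa001d0008c0000000000000000000000000000000000000000000) := T_3 (nat_lit 192) (nat_lit 209) (nat_lit 5) (nat_lit 6) (nat_lit 8) L844507 (by decide +kernel)
theorem L844555 : W_3 (nat_lit 12) (nat_lit 0x500000001800180000000000000000000000000000000) (nat_lit 0x0) (nat_lit 0x8000e00ffe03ae038f802700058000c00000000000000000000000000) := Q_3 (nat_lit 177) (C_3 L843778 (C_3 L843655 (C_3 L843761 (C_3 L843604 (C_3 L843630 (C_3 L843631 (C_3 L843654 (C_3 L843671 (C_3 L843672 N_3))))))))) (by decide +kernel)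
theorem L844556 : W_3 (nat_lit 5) (nat_lit 0x700010001800180000000000000000000000000000000) (nat_lit 0x0) (nat_lit 0x800000000800000004000300018000c000000000000000000) := T_3 (nat_lit 126) (nat_lit 195) (nat_lit 7) (nat_lit 7) (nat_lit 7) L843545 (by decide +kernel)
theorem L844557 : W_3 (nat_lit 6) (nat_lit 0x700000001800180000000000000000000000000000000) (nat_lit 0x0) (nat_lit 0xc00000001800000004000300018000c000000000000000000) := T_3 (nat_lit 160) (nat_lit 194) (nat_lit 6) (nat_lit 7) (nat_lit 11) L844556 (by decide +kernel)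
theorem L844558 : W_3 (nat_lit 7) (nat_lit 0x500000001800180000000000000000000000000000000) (nat_lit 0x0) (nat_lit 0x80004007fc01ac001f00000004000300018000c000000000000000000) := Q_3 (nat_lit 177) (C_3 L843778 (C_3 L843707 (C_3 L843679 (C_3 L844557 N_3)))) (by decide +kernel)
theorem L844559 : W_3 (nat_lit 12) (nat_lit 0x500000001800180000000000000000000000000000000) (nat_lit 0x0) (nat_lit 0x8000400ffe03ae039f802600010000000000000000000000000000000) := Q_3 (nat_lit 177) (C_3 L843778 (C_3 L843655 (C_3 L843772 (C_3 L843679 (C_3 L843704 (C_3 L843671 N_3)))))) (by decide +kernel)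
theorem L844601 : W_3 (nat_lit 6) (nat_lit 0x500008001c00180000000000000000000000000000000) (nat_lit 0x0) (nat_lit 0xa001f0008c0000000000040000000000000000000000000000000) := T_3 (nat_lit 193) (nat_lit 126) (nat_lit 6) (nat_lit 6) (nat_lit 11) L844508 (by decide +kernel)
theorem L844602 : W_3 (nat_lit 2) (nat_lit 0x50000800fc00180000000000000000000000000000000) (nat_lit 0x0) (nat_lit 0x380000000000000000000000000000000000000000) := D_3 (nat_lit 164) (nat_lit 163) (nat_lit 165) (nat_lit 3) (nat_lit 7) (nat_lit 8) (nat_lit 3) (nat_lit 8) (nat_lit 8) (by decide +kernel)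
theorem L844603 : W_3 (nat_lit 3) (nat_lit 0x500008007c00180000000000000000000000000000000) (nat_lit 0x0) (nat_lit 0x380018000000000000000000000000000000000000) := T_3 (nat_lit 147) (nat_lit 148) (nat_lit 0) (nat_lit 12) (nat_lit 8) L844602 (by decide +kernel)
theorem L844604 : W_3 (nat_lit 4) (nat_lit 0x500008003c00180000000000000000000000000000000) (nat_lit 0x0) (nat_lit 0x39001c000000000000000000000000000000000000) := T_3 (nat_lit 146) (nat_lit 160) (nat_lit 1) (nat_lit 10) (nat_lit 8) L844603 (by decide +kernel)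
theorem L844605 : W_3 (nat_lit 5) (nat_lit 0x500008001c00180000000000000000000000000000000) (nat_lit 0x0) (nat_lit 0x39401e000000000000000000000000000000000000) := T_3 (nat_lit 145) (nat_lit 158) (nat_lit 1) (nat_lit 9) (nat_lit 8) L844604 (by decide +kernel)
theorem L844606 : W_3 (nat_lit 7) (nat_lit 0x500000001c00180000000000000000000000000000000) (nat_lit 0x0) (nat_lit 0xa001f0008c039c01e000040000000000000000000000000000000) := Q_3 (nat_lit 159) (C_3 L844601 (C_3 L844605 N_3)) (by decide +kernel)
theorem L844607 : W_3 (nat_lit 8) (nat_lit 0x500000001800180000000000000000000000000000000) (nat_lit 0x0) (nat_lit 0xa001f0008c039c01e600040000000000000000000000000000000) := T_3 (nat_lit 142) (nat_lit 141) (nat_lit 2) (nat_lit 5) (nat_lit 8) L844606 (by decide +kernel)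
theorem L844608 : W_3 (nat_lit 12) (nat_lit 0x500000001800180000000000000000000000000000000) (nat_lit 0x0) (nat_lit 0x200014003fe00ae0017800600058003c000a0000000000000000000000) := Q_3 (nat_lit 177) (C_3 L843707 (C_3 L843744 (C_3 L843655 (C_3 L843712 (C_3 L843736 N_3))))) (by decide +kernel)
theorem L844609 : W_3 (nat_lit 9) (nat_lit 0x500000001800180000000000000000000000000000000) (nat_lit 0x0) (nat_lit 0x800060077c01ae001e00660005000380018000c000000000000000000) := Q_3 (nat_lit 177) (C_3 L843679 (C_3 L843817 (C_3 L843761 (C_3 L843712 (C_3 L843772 (C_3 L843775 N_3)))))) (by decide +kernel)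
theorem L844610 : W_3 (nat_lit 9) (nat_lit 0x500000001800180000000000000000000000000000000) (nat_lit 0x0) (nat_lit 0x8000e007fe01ae001b80060004000300018000c000000000000000000) := Q_3 (nat_lit 177) (C_3 L844557 (C_3 L843604 (C_3 L843679 (C_3 L843712 (C_3 L843785 N_3))))) (by decide +kernel)
theorem L844626 : W_3 (nat_lit 12) (nat_lit 0x500000001800180000000000000000000000000000000) (nat_lit 0x0) (nat_lit 0x240016007bc01ae001f806600058003c001a000c000000000000000000) := Q_3 (nat_lit 177) (C_3 L843778 (C_3 L843827 (C_3 L843736 (C_3 L843817 (C_3 L843785 (C_3 L843801 (C_3 L843824 N_3))))))) (by decide +kernel)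
theorem L844627 : W_3 (nat_lit 12) (nat_lit 0x500000001800180000000000000000000000000000000) (nat_lit 0x0) (nat_lit 0x8000600efc03ae039e002700058003c0018000c000000000000000000) := Q_3 (nat_lit 177) (C_3 L844557 (C_3 L843630 (C_3 L843772 (C_3 L843712 (C_3 L843785 N_3))))) (by decide +kernel)
theorem L844628 : W_3 (nat_lit 11) (nat_lit 0x500000001800180000000000000000000000000000000) (nat_lit 0x0) (nat_lit 0x200010003de00ae001f802700058003c0018000c000000000000000000) := Q_3 (nat_lit 177) (C_3 L844557 (C_3 L843631 (C_3 L843744 (C_3 L843772 (C_3 L843801 N_3))))) (by decide +kernel)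
theorem L844629 : W_3 (nat_lit 10) (nat_lit 0x500000001800180000000000000000000000000000000) (nat_lit 0x0) (nat_lit 0x600ffc03a0039c00660004000300018000c000000000000000000) := Q_3 (nat_lit 177) (C_3 L844557 (C_3 L843654 (C_3 L843704 (C_3 L843707 (C_3 L843817 N_3))))) (by decide +kernel)
theorem L844630 : W_3 (nat_lit 11) (nat_lit 0x500000001800180000000000000000000000000000000) (nat_lit 0x0) (nat_lit 0x40006001fe002e001f800600058003c001a000c000000000000000000) := Q_3 (nat_lit 177) (C_3 L844557 (C_3 L843655 (C_3 L843775 (C_3 L843824 N_3)))) (by decide +kernel)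
theorem L844631 : W_3 (nat_lit 12) (nat_lit 0x500000001800180000000000000000000000000000000) (nat_lit 0x0) (nat_lit 0x8000400fec03ac039e002600058003c001a000c000000000000000000) := Q_3 (nat_lit 177) (C_3 L844557 (C_3 L843671 (C_3 L843707 (C_3 L843775 (C_3 L843827 N_3))))) (by decide +kernel)
theorem L844632 : W_3 (nat_lit 13) (nat_lit 0x400000001800180000000000000000000000000000000) (nat_lit 0x0) (nat_lit 0x2c001e00ffe03be039f81e700058003c001a000c000000000000000000) := Q_3 (nat_lit 176) (C_3 L844555 (C_3 L844558 (C_3 L844559 (C_3 L844607 (C_3 L844608 (C_3 L844609 (C_3 L844610 (C_3 L844626 (C_3 L844627 (C_3 L844628 (C_3 L844629 (C_3 L844630 (C_3 L844631 N_3))))))))))))) (by decide +kernel)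
theorem L855765 : W_3 (nat_lit 2) (nat_lit 0x30001e00080001800180000000000000000000000000000000) (nat_lit 0x0) (nat_lit 0x4000200000000000000004000000000000000000000000000000000000) := D_3 (nat_lit 213) (nat_lit 146) (nat_lit 230) (nat_lit 5) (nat_lit 10) (nat_lit 8) (nat_lit 6) (nat_lit 9) (nat_lit 13) (by decide +kernel)
theorem L855766 : W_3 (nat_lit 3) (nat_lit 0x30001e00000001800180000000000000000000000000000000) (nat_lit 0x0) (nat_lit 0x4000200000000000180004000000000000000000000000000000000000) := T_3 (nat_lit 163) (nat_lit 164) (nat_lit 2) (nat_lit 7) (nat_lit 10) L855765 (by decide +kernel)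
theorem L855767 : W_3 (nat_lit 4) (nat_lit 0x20001e00000001800180000000000000000000000000000000) (nat_lit 0x0) (nat_lit 0x4000200010000100180004000000000000000000000000000000000000) := T_3 (nat_lit 196) (nat_lit 176) (nat_lit 3) (nat_lit 6) (nat_lit 10) L855766 (by decide +kernel)
theorem L855768 : W_3 (nat_lit 5) (nat_lit 0x1e00000001800180000000000000000000000000000000) (nat_lit 0x0) (nat_lit 0x4000200070000100180004000000000000000000000000000000000000) := T_3 (nat_lit 197) (nat_lit 198) (nat_lit 3) (nat_lit 7) (nat_lit 10) L855767 (by decide +kernel)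
theorem L861423 : W_3 (nat_lit 5) (nat_lit 0x400000001800180000000000000000000000000000000) (nat_lit 0x0) (nat_lit 0x28001c000a00020000000000008000000000000000000000000000) := T_3 (nat_lit 161) (nat_lit 111) (nat_lit 6) (nat_lit 8) (nat_lit 10) L808096 (by decide +kernel)
theorem L861543 : W_3 (nat_lit 2) (nat_lit 0x400000011000f800580028000e00000000000000000000000) (nat_lit 0x0) (nat_lit 0x40003000000000000000000000000) := D_3 (nat_lit 114) (nat_lit 96) (nat_lit 97) (nat_lit 3) (nat_lit 8) (nat_lit 5) (nat_lit 6) (nat_lit 11) (nat_lit 9) (by decide +kernel)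
theorem L861544 : W_3 (nat_lit 3) (nat_lit 0x400000011000f800580008000e00000000000000000000000) (nat_lit 0x0) (nat_lit 0x70003000000000000000000000000) := T_3 (nat_lit 113) (nat_lit 112) (nat_lit 4) (nat_lit 11) (nat_lit 9) L861543 (by decide +kernel)
theorem L861545 : W_3 (nat_lit 4) (nat_lit 0x400000011000f800580008000600000000000000000000000) (nat_lit 0x0) (nat_lit 0x70003800040000000000000000000) := T_3 (nat_lit 95) (nat_lit 78) (nat_lit 6) (nat_lit 9) (nat_lit 8) L861544 (by decide +kernel)
theorem L861546 : W_3 (nat_lit 5) (nat_lit 0x400000011000f800180008000600000000000000000000000) (nat_lit 0x0) (nat_lit 0xc00070003800040000000000000000000) := T_3 (nat_lit 130) (nat_lit 131) (nat_lit 2) (nat_lit 8) (nat_lit 8) L861545 (by decide +kernel)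
theorem L861547 : W_3 (nat_lit 6) (nat_lit 0x400000001000f800180008000600000000000000000000000) (nat_lit 0x0) (nat_lit 0x300000000c00070003800040000000000000000000) := T_3 (nat_lit 164) (nat_lit 165) (nat_lit 3) (nat_lit 8) (nat_lit 8) L861546 (by decide +kernel)
theorem L861548 : W_3 (nat_lit 7) (nat_lit 0x1000f800180008000600000000000000000000000) (nat_lit 0x0) (nat_lit 0x4000200300000000c00070003800040000000000000000000) := T_3 (nat_lit 194) (nat_lit 177) (nat_lit 6) (nat_lit 7) (nat_lit 11) L861547 (by decide +kernel)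
theorem L861549 : W_3 (nat_lit 8) (nat_lit 0x10007800180008000600000000000000000000000) (nat_lit 0x0) (nat_lit 0x4000200300018000c00070003800040000000000000000000) := T_3 (nat_lit 147) (nat_lit 148) (nat_lit 0) (nat_lit 12) (nat_lit 8) L861548 (by decide +kernel)
theorem L861550 : W_3 (nat_lit 9) (nat_lit 0x7800180008000600000000000000000000000) (nat_lit 0x0) (nat_lit 0x4000200318018000c00070003800040000000000000000000) := T_3 (nat_lit 160) (nat_lit 159) (nat_lit 1) (nat_lit 10) (nat_lit 8) L861549 (by decide +kernel)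
theorem L861551 : W_3 (nat_lit 10) (nat_lit 0x3800180008000600000000000000000000000) (nat_lit 0x0) (nat_lit 0x400020039801c000c00070003800040000000000000000000) := T_3 (nat_lit 146) (nat_lit 163) (nat_lit 7) (nat_lit 9) (nat_lit 5) L861550 (by decide +kernel)
theorem L863175 : W_3 (nat_lit 2) (nat_lit 0x1800180000000f80048000000000000000000) (nat_lit 0x0) (nat_lit 0x3800000000000000000000000000) := D_3 (nat_lit 108) (nat_lit 107) (nat_lit 109) (nat_lit 1) (nat_lit 9) (nat_lit 5) (nat_lit 1) (nat_lit 10) (nat_lit 5) (by decide +kernel)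
theorem L863176 : W_3 (nat_lit 3) (nat_lit 0x1800180000000f00048000000000000000000) (nat_lit 0x0) (nat_lit 0x3800080020000000000000000000) := T_3 (nat_lit 91) (nat_lit 77) (nat_lit 2) (nat_lit 6) (nat_lit 5) L863175 (by decide +kernel)
theorem L863177 : W_3 (nat_lit 4) (nat_lit 0x1800180000000f00008000000000000000000) (nat_lit 0x0) (nat_lit 0x38000800e0000000000000000000) := T_3 (nat_lit 78) (nat_lit 79) (nat_lit 2) (nat_lit 7) (nat_lit 5) L863176 (by decide +kernel)
theorem L863178 : W_3 (nat_lit 5) (nat_lit 0x1800180000000f00000000000000000000000) (nat_lit 0x0) (nat_lit 0x38000800ec000000000000000000) := T_3 (nat_lit 75) (nat_lit 74) (nat_lit 0) (nat_lit 10) (nat_lit 5) L863177 (by decide +kernel)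
theorem L863179 : W_3 (nat_lit 6) (nat_lit 0x1800180000000700000000000000000000000) (nat_lit 0x0) (nat_lit 0x738018800fc000000000000000000) := Q_3 (nat_lit 95) (C_3 L811694 (C_3 L863178 (C_3 L811190 N_3))) (by decide +kernel)
theorem L863180 : W_3 (nat_lit 2) (nat_lit 0x1800180000000f00088000000000000000000) (nat_lit 0x0) (nat_lit 0x1000110000000000000000000) := D_3 (nat_lit 96) (nat_lit 76) (nat_lit 80) (nat_lit 0) (nat_lit 11) (nat_lit 5) (nat_lit 2) (nat_lit 8) (nat_lit 5) (by decide +kernel)
theorem L863181 : W_3 (nat_lit 3) (nat_lit 0x1800180000000f00008000000000000000000) (nat_lit 0x0) (nat_lit 0x10001d0000000000000000000) := T_3 (nat_lit 79) (nat_lit 78) (nat_lit 2) (nat_lit 7) (nat_lit 5) L863180 (by decide +kernel)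
theorem L863182 : W_3 (nat_lit 4) (nat_lit 0x1800180000000f00000000000000000000000) (nat_lit 0x0) (nat_lit 0x10001dc000000000000000000) := T_3 (nat_lit 75) (nat_lit 74) (nat_lit 0) (nat_lit 10) (nat_lit 5) L863181 (by decide +kernel)
theorem L863183 : W_3 (nat_lit 5) (nat_lit 0x1800180000000700000000000000000000000) (nat_lit 0x0) (nat_lit 0x7b8018801dc000000000000000000) := Q_3 (nat_lit 95) (C_3 L811694 (C_3 L863182 (C_3 L811305 N_3))) (by decide +kernel)
theorem L863184 : W_3 (nat_lit 2) (nat_lit 0x1800180001000780024000000000000000000) (nat_lit 0x0) (nat_lit 0x2000800008000000000000000000) := D_3 (nat_lit 95) (nat_lit 109) (nat_lit 75) (nat_lit 1) (nat_lit 10) (nat_lit 5) (nat_lit 0) (nat_lit 10) (nat_lit 5) (by decide +kernel)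
theorem L863185 : W_3 (nat_lit 3) (nat_lit 0x1800180001000780020000000000000000000) (nat_lit 0x0) (nat_lit 0x200080000e000000000000000000) := T_3 (nat_lit 74) (nat_lit 73) (nat_lit 0) (nat_lit 9) (nat_lit 5) L863184 (by decide +kernel)
theorem L863186 : W_3 (nat_lit 4) (nat_lit 0x1800180000000780020000000000000000000) (nat_lit 0x0) (nat_lit 0x380080000e000000000000000000) := T_3 (nat_lit 108) (nat_lit 107) (nat_lit 1) (nat_lit 9) (nat_lit 5) L863185 (by decide +kernel)
theorem L863187 : W_3 (nat_lit 5) (nat_lit 0x1800180000000700020000000000000000000) (nat_lit 0x0) (nat_lit 0x380088004e000000000000000000) := T_3 (nat_lit 91) (nat_lit 78) (nat_lit 2) (nat_lit 6) (nat_lit 5) L863186 (by decide +kernel)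
theorem L863188 : W_3 (nat_lit 6) (nat_lit 0x1800180000000700000000000000000000000) (nat_lit 0x0) (nat_lit 0xb80088006e000000000000000000) := T_3 (nat_lit 77) (nat_lit 111) (nat_lit 5) (nat_lit 9) (nat_lit 4) L863187 (by decide +kernel)
theorem L863189 : W_3 (nat_lit 5) (nat_lit 0x1800180000000700000000000000000000000) (nat_lit 0x0) (nat_lit 0x780018001fc002000000000000000) := Q_3 (nat_lit 95) (C_3 L863182 (C_3 L811683 (C_3 L811694 N_3))) (by decide +kernel)
theorem L863190 : W_3 (nat_lit 5) (nat_lit 0x1800180008000700000000000000000000000) (nat_lit 0x0) (nat_lit 0x1380088000e000000000000000000) := T_3 (nat_lit 91) (nat_lit 112) (nat_lit 3) (nat_lit 6) (nat_lit 5) L811714 (by decide +kernel)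
theorem L863191 : W_3 (nat_lit 6) (nat_lit 0x1800180000000700000000000000000000000) (nat_lit 0x0) (nat_lit 0x1b80088002e000000000000000000) := T_3 (nat_lit 111) (nat_lit 77) (nat_lit 5) (nat_lit 9) (nat_lit 4) L863190 (by decide +kernel)
theorem L863192 : W_3 (nat_lit 7) (nat_lit 0x1800180000000600000000000000000000000) (nat_lit 0x0) (nat_lit 0x7bc019c01ff002000000000000000) := Q_3 (nat_lit 92) (C_3 L863179 (C_3 L811660 (C_3 L863183 (C_3 L863188 (C_3 L863189 (C_3 L811696 (C_3 L863191 N_3))))))) (by decide +kernel)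
theorem L863369 : W_3 (nat_lit 2) (nat_lit 0x600000001800180000000000000000000000000000000) (nat_lit 0x0) (nat_lit 0x4000000020000000000008000000000000000000000000000) := D_3 (nat_lit 161) (nat_lit 111) (nat_lit 194) (nat_lit 6) (nat_lit 8) (nat_lit 10) (nat_lit 5) (nat_lit 8) (nat_lit 7) (by decide +kernel)
theorem L863371 : W_3 (nat_lit 2) (nat_lit 0xe00000001800180000000000000000000000000000000) (nat_lit 0x0) (nat_lit 0x10000000020000000000008000000000000000000000000000) := D_3 (nat_lit 161) (nat_lit 196) (nat_lit 111) (nat_lit 7) (nat_lit 8) (nat_lit 7) (nat_lit 6) (nat_lit 8) (nat_lit 10) (by decide +kernel)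
theorem L863376 : W_3 (nat_lit 2) (nat_lit 0x1e00020001800180000000000000000000000000000000) (nat_lit 0x0) (nat_lit 0x2000018000000000000000000000000000000000000000) := D_3 (nat_lit 160) (nat_lit 181) (nat_lit 159) (nat_lit 0) (nat_lit 11) (nat_lit 10) (nat_lit 0) (nat_lit 10) (nat_lit 10) (by decide +kernel)
theorem L863377 : W_3 (nat_lit 3) (nat_lit 0x1e00000001800180000000000000000000000000000000) (nat_lit 0x0) (nat_lit 0x2000038000000000008000000000000000000000000000) := T_3 (nat_lit 161) (nat_lit 111) (nat_lit 6) (nat_lit 8) (nat_lit 10) L863376 (by decide +kernel)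
theorem L863389 : W_3 (nat_lit 2) (nat_lit 0x600000001800180000000000000000000000000000000) (nat_lit 0x0) (nat_lit 0x4000000030000000000000000000000000000000000000000) := D_3 (nat_lit 194) (nat_lit 160) (nat_lit 161) (nat_lit 6) (nat_lit 7) (nat_lit 11) (nat_lit 5) (nat_lit 8) (nat_lit 7) (by decide +kernel)
theorem L867658 : W_3 (nat_lit 2) (nat_lit 0x5000100008003c001a0000000000000000000000000000000) (nat_lit 0x0) (nat_lit 0xa0002000000000000000000000000000000000000000000000000) := D_3 (nat_lit 193) (nat_lit 211) (nat_lit 209) (nat_lit 7) (nat_lit 6) (nat_lit 8) (nat_lit 5) (nat_lit 6) (nat_lit 8) (by decide +kernel)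
theorem L867659 : W_3 (nat_lit 3) (nat_lit 0x4000100008003c001a0000000000000000000000000000000) (nat_lit 0x0) (nat_lit 0xa0003000080000000000000000000000000000000000000000000) := T_3 (nat_lit 192) (nat_lit 175) (nat_lit 5) (nat_lit 6) (nat_lit 7) L867658 (by decide +kernel)
theorem L867742 : W_3 (nat_lit 2) (nat_lit 0x8003c001a0001000140000000000000000000000) (nat_lit 0x0) (nat_lit 0x8000a000000000000000000) := D_3 (nat_lit 91) (nat_lit 73) (nat_lit 75) (nat_lit 4) (nat_lit 6) (nat_lit 8) (nat_lit 6) (nat_lit 6) (nat_lit 8) (by decide +kernel)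
theorem L867743 : W_3 (nat_lit 3) (nat_lit 0x8003c001a0001000040000000000000000000000) (nat_lit 0x0) (nat_lit 0x200018000a000000000000000000) := T_3 (nat_lit 92) (nat_lit 109) (nat_lit 6) (nat_lit 6) (nat_lit 9) L867742 (by decide +kernel)
theorem L867744 : W_3 (nat_lit 4) (nat_lit 0x8003c001a0001000000000000000000000000000) (nat_lit 0x0) (nat_lit 0x28001c000a000000000000000000) := T_3 (nat_lit 90) (nat_lit 107) (nat_lit 4) (nat_lit 6) (nat_lit 9) L867743 (by decide +kernel)
theorem L867745 : W_3 (nat_lit 5) (nat_lit 0x3c001a0001000000000000000000000000000) (nat_lit 0x0) (nat_lit 0xc0000000000028001c000a000000000000000000) := T_3 (nat_lit 159) (nat_lit 158) (nat_lit 1) (nat_lit 9) (nat_lit 8) L867744 (by decide +kernel)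
theorem L867780 : W_3 (nat_lit 4) (nat_lit 0x100008003c001a0000000000000000000000000000000) (nat_lit 0x0) (nat_lit 0xa0007000280000000000000000000000000000000000000000000) := T_3 (nat_lit 194) (nat_lit 177) (nat_lit 7) (nat_lit 6) (nat_lit 7) L867659 (by decide +kernel)
theorem L867781 : W_3 (nat_lit 5) (nat_lit 0x100008003c00180000000000000000000000000000000) (nat_lit 0x0) (nat_lit 0xa0007000280000000000030000000000000000000000000000000) := T_3 (nat_lit 125) (nat_lit 124) (nat_lit 0) (nat_lit 9) (nat_lit 8) L867780 (by decide +kernel)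
theorem L867910 : W_3 (nat_lit 2) (nat_lit 0x8001c001a0001000140000000000000000000000) (nat_lit 0x0) (nat_lit 0x8000a000000000000000000) := D_3 (nat_lit 91) (nat_lit 73) (nat_lit 75) (nat_lit 4) (nat_lit 6) (nat_lit 8) (nat_lit 6) (nat_lit 6) (nat_lit 8) (by decide +kernel)
theorem L867911 : W_3 (nat_lit 3) (nat_lit 0x8001c001a0001000040000000000000000000000) (nat_lit 0x0) (nat_lit 0x200018000a000000000000000000) := T_3 (nat_lit 92) (nat_lit 109) (nat_lit 6) (nat_lit 6) (nat_lit 9) L867910 (by decide +kernel)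
theorem L867912 : W_3 (nat_lit 4) (nat_lit 0x8001c001a0001000000000000000000000000000) (nat_lit 0x0) (nat_lit 0x28001c000a000000000000000000) := T_3 (nat_lit 90) (nat_lit 107) (nat_lit 4) (nat_lit 6) (nat_lit 9) L867911 (by decide +kernel)
theorem L867946 : W_3 (nat_lit 2) (nat_lit 0x80008001c001a0003800000000000000000000000000) (nat_lit 0x0) (nat_lit 0x1000100000000000010000000000000000000000000000000) := D_3 (nat_lit 176) (nat_lit 192) (nat_lit 124) (nat_lit 5) (nat_lit 6) (nat_lit 7) (nat_lit 4) (nat_lit 6) (nat_lit 10) (by decide +kernel)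
theorem L867947 : W_3 (nat_lit 3) (nat_lit 0x80008001c001a0003000000000000000000000000000) (nat_lit 0x0) (nat_lit 0x1000100000000000010000800040000000000000000000000) := T_3 (nat_lit 107) (nat_lit 90) (nat_lit 4) (nat_lit 6) (nat_lit 9) L867946 (by decide +kernel)
theorem L867948 : W_3 (nat_lit 4) (nat_lit 0x8001c001a0003000000000000000000000000000) (nat_lit 0x0) (nat_lit 0x1000180004000000010000800040000000000000000000000) := T_3 (nat_lit 175) (nat_lit 158) (nat_lit 5) (nat_lit 6) (nat_lit 6) L867947 (by decide +kernel)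
theorem L867951 : W_3 (nat_lit 2) (nat_lit 0x1000180008001c00180000000000000000000000000000000) (nat_lit 0x0) (nat_lit 0x400020002000000000000000000000000000000000000000000000000) := D_3 (nat_lit 209) (nat_lit 193) (nat_lit 226) (nat_lit 5) (nat_lit 6) (nat_lit 8) (nat_lit 6) (nat_lit 5) (nat_lit 13) (by decide +kernel)
theorem L868040 : W_3 (nat_lit 2) (nat_lit 0x1c001a0001000100008000000000000000000) (nat_lit 0x0) (nat_lit 0x8000000000002000000000000400000000000000) := D_3 (nat_lit 109) (nat_lit 159) (nat_lit 58) (nat_lit 6) (nat_lit 6) (nat_lit 9) (nat_lit 5) (nat_lit 7) (nat_lit 3) (by decide +kernel)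
theorem L868041 : W_3 (nat_lit 3) (nat_lit 0x1c001a0001000100000000000000000000000) (nat_lit 0x0) (nat_lit 0x8000000000002000080008000400000000000000) := T_3 (nat_lit 75) (nat_lit 91) (nat_lit 6) (nat_lit 6) (nat_lit 8) L868040 (by decide +kernel)
theorem L868042 : W_3 (nat_lit 5) (nat_lit 0x1c001a0003000000000000000000000000000) (nat_lit 0x0) (nat_lit 0x100018000c000000010000800140000000000000000000000) := T_3 (nat_lit 159) (nat_lit 92) (nat_lit 6) (nat_lit 6) (nat_lit 9) L867948 (by decide +kernel)
theorem L897126 : W_3 (nat_lit 2) (nat_lit 0x8001c001a0000000000000000000000000000000) (nat_lit 0x0) (nat_lit 0x4002000010000000000000000000000000000000) := D_3 (nat_lit 145) (nat_lit 158) (nat_lit 124) (nat_lit 1) (nat_lit 9) (nat_lit 8) (nat_lit 0) (nat_lit 9) (nat_lit 8) (by decide +kernel)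
theorem L897128 : W_3 (nat_lit 7) (nat_lit 0x8001c001a0000000000000000000000000000000) (nat_lit 0x0) (nat_lit 0x800070020000000038001c000a000000000000000000) := T_3 (nat_lit 158) (nat_lit 145) (nat_lit 1) (nat_lit 9) (nat_lit 8) L817053 (by decide +kernel)
theorem L897225 : W_3 (nat_lit 2) (nat_lit 0x100008001c001a0000000000000000000000000000000) (nat_lit 0x0) (nat_lit 0x2000010000800000000000000000000000000) := D_3 (nat_lit 124) (nat_lit 107) (nat_lit 145) (nat_lit 4) (nat_lit 6) (nat_lit 10) (nat_lit 0) (nat_lit 9) (nat_lit 8) (by decide +kernel)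
theorem L908361 : W_3 (nat_lit 2) (nat_lit 0x1800180022001f00008000000000000000000) (nat_lit 0x0) (nat_lit 0x1c0000000000000000000) := D_3 (nat_lit 79) (nat_lit 80) (nat_lit 78) (nat_lit 2) (nat_lit 8) (nat_lit 5) (nat_lit 2) (nat_lit 7) (nat_lit 5) (by decide +kernel)
theorem L908362 : W_3 (nat_lit 3) (nat_lit 0x1800180022000f00008000000000000000000) (nat_lit 0x0) (nat_lit 0x400010001c0000000000000000000) := T_3 (nat_lit 96) (nat_lit 114) (nat_lit 3) (nat_lit 8) (nat_lit 5) L908361 (by decide +kernel)
theorem L908363 : W_3 (nat_lit 4) (nat_lit 0x1800180020000f00008000000000000000000) (nat_lit 0x0) (nat_lit 0x400420010001c0000000000000000000) := T_3 (nat_lit 109) (nat_lit 126) (nat_lit 7) (nat_lit 7) (nat_lit 4) L908362 (by decide +kernel)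
theorem L908364 : W_3 (nat_lit 5) (nat_lit 0x1800180000000f00008000000000000000000) (nat_lit 0x0) (nat_lit 0x400720010001c0000000000000000000) := T_3 (nat_lit 113) (nat_lit 112) (nat_lit 3) (nat_lit 7) (nat_lit 5) L908363 (by decide +kernel)
theorem L908365 : W_3 (nat_lit 6) (nat_lit 0x1800180000000f00000000000000000000000) (nat_lit 0x0) (nat_lit 0x400720010001cc000000000000000000) := T_3 (nat_lit 75) (nat_lit 74) (nat_lit 0) (nat_lit 10) (nat_lit 5) L908364 (by decide +kernel)
theorem L908366 : W_3 (nat_lit 2) (nat_lit 0x1800180000000f80040000000000000000000) (nat_lit 0x0) (nat_lit 0xe000000000000000000) := D_3 (nat_lit 74) (nat_lit 73) (nat_lit 75) (nat_lit 0) (nat_lit 9) (nat_lit 5) (nat_lit 0) (nat_lit 10) (nat_lit 5) (by decide +kernel)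
theorem L908367 : W_3 (nat_lit 3) (nat_lit 0x1800180000000f00040000000000000000000) (nat_lit 0x0) (nat_lit 0x8002e000000000000000000) := T_3 (nat_lit 91) (nat_lit 77) (nat_lit 2) (nat_lit 6) (nat_lit 5) L908366 (by decide +kernel)
theorem L908368 : W_3 (nat_lit 4) (nat_lit 0x1800180000000f00000000000000000000000) (nat_lit 0x0) (nat_lit 0x800ee000000000000000000) := T_3 (nat_lit 78) (nat_lit 79) (nat_lit 2) (nat_lit 7) (nat_lit 5) L908367 (by decide +kernel)
theorem L908369 : W_3 (nat_lit 2) (nat_lit 0x1800180020001f00060000000000000000000) (nat_lit 0x0) (nat_lit 0x6000010000000000000000000) := D_3 (nat_lit 97) (nat_lit 98) (nat_lit 76) (nat_lit 0) (nat_lit 13) (nat_lit 5) (nat_lit 0) (nat_lit 12) (nat_lit 5) (by decide +kernel)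
theorem L908370 : W_3 (nat_lit 3) (nat_lit 0x1800180020000f00060000000000000000000) (nat_lit 0x0) (nat_lit 0x40007000010000000000000000000) := T_3 (nat_lit 96) (nat_lit 114) (nat_lit 3) (nat_lit 8) (nat_lit 5) L908369 (by decide +kernel)
theorem L908371 : W_3 (nat_lit 4) (nat_lit 0x1800180000000f00060000000000000000000) (nat_lit 0x0) (nat_lit 0x70007000010000000000000000000) := T_3 (nat_lit 113) (nat_lit 112) (nat_lit 3) (nat_lit 7) (nat_lit 5) L908370 (by decide +kernel)
theorem L908372 : W_3 (nat_lit 5) (nat_lit 0x1800180000000f00040000000000000000000) (nat_lit 0x0) (nat_lit 0x70007080030000000000000000000) := T_3 (nat_lit 77) (nat_lit 91) (nat_lit 2) (nat_lit 6) (nat_lit 5) L908371 (by decide +kernel)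
theorem L908373 : W_3 (nat_lit 6) (nat_lit 0x1800180000000f00000000000000000000000) (nat_lit 0x0) (nat_lit 0x700070800f0000000000000000000) := T_3 (nat_lit 78) (nat_lit 79) (nat_lit 2) (nat_lit 7) (nat_lit 5) L908372 (by decide +kernel)
theorem L908374 : W_3 (nat_lit 7) (nat_lit 0x1800180000000700000000000000000000000) (nat_lit 0x0) (nat_lit 0x400720078801fe000000000000000000) := Q_3 (nat_lit 95) (C_3 L863182 (C_3 L908365 (C_3 L908368 (C_3 L908373 (C_3 L811694 N_3))))) (by decide +kernel)
theorem L908375 : W_3 (nat_lit 2) (nat_lit 0x1800180002000700000000000000000000000) (nat_lit 0x0) (nat_lit 0x40000000000018000000000000000000) := D_3 (nat_lit 126) (nat_lit 76) (nat_lit 75) (nat_lit 6) (nat_lit 7) (nat_lit 8) (nat_lit 7) (nat_lit 7) (nat_lit 4) (by decide +kernel)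
theorem L908392 : W_3 (nat_lit 2) (nat_lit 0x1800180002000f00000000000000000000000) (nat_lit 0x0) (nat_lit 0x4000000000000c000000000000000000) := D_3 (nat_lit 75) (nat_lit 74) (nat_lit 126) (nat_lit 0) (nat_lit 10) (nat_lit 5) (nat_lit 7) (nat_lit 7) (nat_lit 4) (by decide +kernel)
theorem L908393 : W_3 (nat_lit 3) (nat_lit 0x1800180000000f00000000000000000000000) (nat_lit 0x0) (nat_lit 0x4000300000000c000000000000000000) := T_3 (nat_lit 109) (nat_lit 108) (nat_lit 1) (nat_lit 10) (nat_lit 5) L908392 (by decide +kernel)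
theorem L908414 : W_3 (nat_lit 2) (nat_lit 0x1800180000800780020000000000000000000) (nat_lit 0x0) (nat_lit 0x400040010000000000000000000) := D_3 (nat_lit 90) (nat_lit 76) (nat_lit 106) (nat_lit 2) (nat_lit 5) (nat_lit 5) (nat_lit 1) (nat_lit 8) (nat_lit 5) (by decide +kernel)
theorem L908415 : W_3 (nat_lit 3) (nat_lit 0x1800180000800780000000000000000000000) (nat_lit 0x0) (nat_lit 0x400040070000000000000000000) := T_3 (nat_lit 77) (nat_lit 78) (nat_lit 2) (nat_lit 6) (nat_lit 5) L908414 (by decide +kernel)
theorem L908416 : W_3 (nat_lit 4) (nat_lit 0x1800180000000780000000000000000000000) (nat_lit 0x0) (nat_lit 0x1c00040070000000000000000000) := T_3 (nat_lit 107) (nat_lit 108) (nat_lit 1) (nat_lit 9) (nat_lit 5) L908415 (by decide +kernel)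
theorem L908433 : W_3 (nat_lit 2) (nat_lit 0x1800180022000f00008000000000000000000) (nat_lit 0x0) (nat_lit 0x40001000010000000000000000000) := D_3 (nat_lit 96) (nat_lit 76) (nat_lit 114) (nat_lit 0) (nat_lit 11) (nat_lit 5) (nat_lit 3) (nat_lit 8) (nat_lit 5) (by decide +kernel)
theorem L908434 : W_3 (nat_lit 3) (nat_lit 0x1800180002000f00008000000000000000000) (nat_lit 0x0) (nat_lit 0x70001000010000000000000000000) := T_3 (nat_lit 113) (nat_lit 112) (nat_lit 3) (nat_lit 7) (nat_lit 5) L908433 (by decide +kernel)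
theorem L908435 : W_3 (nat_lit 4) (nat_lit 0x1800180002000f00000000000000000000000) (nat_lit 0x0) (nat_lit 0x7000100001c000000000000000000) := T_3 (nat_lit 75) (nat_lit 74) (nat_lit 0) (nat_lit 10) (nat_lit 5) L908434 (by decide +kernel)
theorem L908436 : W_3 (nat_lit 5) (nat_lit 0x1800180002000700000000000000000000000) (nat_lit 0x0) (nat_lit 0x7100180001c000000000000000000) := T_3 (nat_lit 95) (nat_lit 108) (nat_lit 1) (nat_lit 10) (nat_lit 5) L908435 (by decide +kernel)
theorem L908542 : W_3 (nat_lit 2) (nat_lit 0x1800180018000f00000000000000000000000) (nat_lit 0x0) (nat_lit 0xc0002000000000000000) := D_3 (nat_lit 78) (nat_lit 79) (nat_lit 61) (nat_lit 2) (nat_lit 7) (nat_lit 5) (nat_lit 5) (nat_lit 10) (nat_lit 3) (by decide +kernel)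
theorem L908543 : W_3 (nat_lit 3) (nat_lit 0x1800180010000f00000000000000000000000) (nat_lit 0x0) (nat_lit 0x80000800c0002000000000000000) := T_3 (nat_lit 111) (nat_lit 91) (nat_lit 3) (nat_lit 6) (nat_lit 5) L908542 (by decide +kernel)
theorem L908544 : W_3 (nat_lit 4) (nat_lit 0x1800180000000f00000000000000000000000) (nat_lit 0x0) (nat_lit 0x380000800c0002000000000000000) := T_3 (nat_lit 112) (nat_lit 113) (nat_lit 3) (nat_lit 7) (nat_lit 5) L908543 (by decide +kernel)
theorem L908547 : W_3 (nat_lit 5) (nat_lit 0x1800180000000700000000000000000000000) (nat_lit 0x0) (nat_lit 0x4003b0008800cc002000000000000000) := Q_3 (nat_lit 95) (C_3 L908544 (C_3 L908393 N_3)) (by decide +kernel)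
theorem L908548 : W_3 (nat_lit 5) (nat_lit 0x1800180000000700000000000000000000000) (nat_lit 0x0) (nat_lit 0x780018801dc002000000000000000) := Q_3 (nat_lit 95) (C_3 L908544 (C_3 L863182 (C_3 L811694 N_3))) (by decide +kernel)
theorem L908588 : W_3 (nat_lit 2) (nat_lit 0x1800180018000700000000000000000000000) (nat_lit 0x0) (nat_lit 0x60000800000000000000000000000) := D_3 (nat_lit 113) (nat_lit 114) (nat_lit 95) (nat_lit 1) (nat_lit 12) (nat_lit 6) (nat_lit 3) (nat_lit 7) (nat_lit 5) (by decide +kernel)
theorem L908589 : W_3 (nat_lit 3) (nat_lit 0x1800180008000700000000000000000000000) (nat_lit 0x0) (nat_lit 0x70000880000000000000000000000) := T_3 (nat_lit 112) (nat_lit 91) (nat_lit 3) (nat_lit 6) (nat_lit 5) L908588 (by decide +kernel)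
theorem L908607 : W_3 (nat_lit 2) (nat_lit 0x18001800008007c0000000000000000000000) (nat_lit 0x0) (nat_lit 0x7000000000000000000) := D_3 (nat_lit 73) (nat_lit 72) (nat_lit 74) (nat_lit 0) (nat_lit 8) (nat_lit 5) (nat_lit 0) (nat_lit 9) (nat_lit 5) (by decide +kernel)
theorem L908608 : W_3 (nat_lit 3) (nat_lit 0x1800180000800780000000000000000000000) (nat_lit 0x0) (nat_lit 0x400040007000000000000000000) := T_3 (nat_lit 90) (nat_lit 106) (nat_lit 1) (nat_lit 8) (nat_lit 5) L908607 (by decide +kernel)
theorem L909099 : W_3 (nat_lit 2) (nat_lit 0x1800180000000700060000000000000000000) (nat_lit 0x0) (nat_lit 0x800180000000000000000000) := D_3 (nat_lit 79) (nat_lit 80) (nat_lit 95) (nat_lit 1) (nat_lit 12) (nat_lit 4) (nat_lit 2) (nat_lit 7) (nat_lit 5) (by decide +kernel)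
theorem L909100 : W_3 (nat_lit 3) (nat_lit 0x1800180000000700020000000000000000000) (nat_lit 0x0) (nat_lit 0x8801c0000000000000000000) := T_3 (nat_lit 78) (nat_lit 91) (nat_lit 2) (nat_lit 6) (nat_lit 5) L909099 (by decide +kernel)
theorem L909101 : W_3 (nat_lit 4) (nat_lit 0x1800180000000700000000000000000000000) (nat_lit 0x0) (nat_lit 0x80008801e0000000000000000000) := T_3 (nat_lit 77) (nat_lit 111) (nat_lit 5) (nat_lit 9) (nat_lit 4) L909100 (by decide +kernel)
theorem L909102 : W_3 (nat_lit 4) (nat_lit 0x1800180000000700000000000000000000000) (nat_lit 0x0) (nat_lit 0x78000880020000000000000000000) := T_3 (nat_lit 111) (nat_lit 77) (nat_lit 5) (nat_lit 9) (nat_lit 4) L908589 (by decide +kernel)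
theorem L909103 : W_3 (nat_lit 8) (nat_lit 0x1800180000000600000000000000000000000) (nat_lit 0x0) (nat_lit 0x4007a0079c01ff002000000000000000) := Q_3 (nat_lit 92) (C_3 L908374 (C_3 L908548 (C_3 L811660 (C_3 L909101 (C_3 L863189 (C_3 L909102 N_3)))))) (by decide +kernel)
theorem L910929 : W_3 (nat_lit 4) (nat_lit 0x1800180000000780000000000000000000000) (nat_lit 0x0) (nat_lit 0x1c00040007000000000000000000) := T_3 (nat_lit 107) (nat_lit 108) (nat_lit 1) (nat_lit 9) (nat_lit 5) L908608 (by decide +kernel)
theorem L910931 : W_3 (nat_lit 7) (nat_lit 0x1800180000000700000000000000000000000) (nat_lit 0x0) (nat_lit 0x700078801fe000000000000000000) := Q_3 (nat_lit 95) (C_3 L908373 (C_3 L908368 (C_3 L863182 (C_3 L811694 N_3)))) (by decide +kernel)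
theorem L910933 : W_3 (nat_lit 2) (nat_lit 0x1800180020000f00088000000000000000000) (nat_lit 0x0) (nat_lit 0x40001000100000000000000000000) := D_3 (nat_lit 96) (nat_lit 114) (nat_lit 80) (nat_lit 3) (nat_lit 8) (nat_lit 5) (nat_lit 2) (nat_lit 8) (nat_lit 5) (by decide +kernel)
theorem L910934 : W_3 (nat_lit 3) (nat_lit 0x1800180020000f00008000000000000000000) (nat_lit 0x0) (nat_lit 0x400010001c0000000000000000000) := T_3 (nat_lit 79) (nat_lit 78) (nat_lit 2) (nat_lit 7) (nat_lit 5) L910933 (by decide +kernel)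
theorem L910935 : W_3 (nat_lit 4) (nat_lit 0x1800180000000f00008000000000000000000) (nat_lit 0x0) (nat_lit 0x700010001c0000000000000000000) := T_3 (nat_lit 113) (nat_lit 112) (nat_lit 3) (nat_lit 7) (nat_lit 5) L910934 (by decide +kernel)
theorem L910936 : W_3 (nat_lit 5) (nat_lit 0x1800180000000f00000000000000000000000) (nat_lit 0x0) (nat_lit 0x700010001cc000000000000000000) := T_3 (nat_lit 75) (nat_lit 74) (nat_lit 0) (nat_lit 10) (nat_lit 5) L910935 (by decide +kernel)
theorem L949780 : W_3 (nat_lit 2) (nat_lit 0x7000180018001c0000000000000000000000000000000) (nat_lit 0x0) (nat_lit 0x800006000000000000000000000000000000000000000) := D_3 (nat_lit 158) (nat_lit 157) (nat_lit 179) (nat_lit 3) (nat_lit 4) (nat_lit 9) (nat_lit 0) (nat_lit 9) (nat_lit 10) (by decide +kernel)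
theorem L949781 : W_3 (nat_lit 3) (nat_lit 0x3000180018001c0000000000000000000000000000000) (nat_lit 0x0) (nat_lit 0x8000c00006000000000000000000000000000000000000000) := T_3 (nat_lit 178) (nat_lit 195) (nat_lit 7) (nat_lit 7) (nat_lit 7) L949780 (by decide +kernel)
theorem L949782 : W_3 (nat_lit 4) (nat_lit 0x3000100018001c0000000000000000000000000000000) (nat_lit 0x0) (nat_lit 0x8000c0000e000000000002000000000000000000000000000) := T_3 (nat_lit 159) (nat_lit 109) (nat_lit 5) (nat_lit 7) (nat_lit 6) L949781 (by decide +kernel)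
theorem L949783 : W_3 (nat_lit 5) (nat_lit 0x2000100018001c0000000000000000000000000000000) (nat_lit 0x0) (nat_lit 0xa000d0000e000000000002000000000000000000000000000) := T_3 (nat_lit 176) (nat_lit 193) (nat_lit 5) (nat_lit 7) (nat_lit 7) L949782 (by decide +kernel)
theorem L951158 : W_3 (nat_lit 2) (nat_lit 0x200010001c001a0000000000000000000000000000000) (nat_lit 0x0) (nat_lit 0x40001000080000000000000000000000) := D_3 (nat_lit 108) (nat_lit 91) (nat_lit 126) (nat_lit 7) (nat_lit 6) (nat_lit 5) (nat_lit 4) (nat_lit 7) (nat_lit 10) (by decide +kernel)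
theorem L966682 : W_3 (nat_lit 2) (nat_lit 0x1c001b0000000000000000000000000000000) (nat_lit 0x0) (nat_lit 0x4c000000000000000000000000000000) := D_3 (nat_lit 123) (nat_lit 122) (nat_lit 126) (nat_lit 3) (nat_lit 3) (nat_lit 7) (nat_lit 3) (nat_lit 4) (nat_lit 7) (by decide +kernel)
theorem L979253 : W_3 (nat_lit 2) (nat_lit 0x1c001b4001000080006000200000000000000) (nat_lit 0x0) (nat_lit 0x8000400020000000000) := D_3 (nat_lit 58) (nat_lit 75) (nat_lit 41) (nat_lit 6) (nat_lit 6) (nat_lit 7) (nat_lit 6) (nat_lit 6) (nat_lit 6) (by decide +kernel)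
theorem L979254 : W_3 (nat_lit 3) (nat_lit 0x1c001b4001000080006000000000000000000) (nat_lit 0x0) (nat_lit 0x800000008000600020000000000) := T_3 (nat_lit 57) (nat_lit 107) (nat_lit 5) (nat_lit 6) (nat_lit 3) L979253 (by decide +kernel)
theorem L979255 : W_3 (nat_lit 4) (nat_lit 0x1c001b4001000080002000000000000000000) (nat_lit 0x0) (nat_lit 0x80000000c000700020000000000) := T_3 (nat_lit 74) (nat_lit 56) (nat_lit 4) (nat_lit 6) (nat_lit 7) L979254 (by decide +kernel)
theorem L979455 : W_3 (nat_lit 2) (nat_lit 0x1a000f0000800000000000000000000000000) (nat_lit 0x0) (nat_lit 0x400100001000000000000000000000000000) := D_3 (nat_lit 128) (nat_lit 142) (nat_lit 108) (nat_lit 2) (nat_lit 5) (nat_lit 8) (nat_lit 0) (nat_lit 9) (nat_lit 7) (by decide +kernel)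
theorem L979456 : W_3 (nat_lit 3) (nat_lit 0x1a000f0000000000000000000000000000000) (nat_lit 0x0) (nat_lit 0x400100001c00000000000000000000000000) := T_3 (nat_lit 107) (nat_lit 106) (nat_lit 0) (nat_lit 8) (nat_lit 7) L979455 (by decide +kernel)
theorem L979457 : W_3 (nat_lit 4) (nat_lit 0x18000f0000000000000000000000000000000) (nat_lit 0x0) (nat_lit 0x700100001c00000000000000000000000000) := T_3 (nat_lit 141) (nat_lit 140) (nat_lit 1) (nat_lit 8) (nat_lit 7) L979456 (by decide +kernel)
theorem L979458 : W_3 (nat_lit 5) (nat_lit 0x18000e0000000000000000000000000000000) (nat_lit 0x0) (nat_lit 0x700118001c00000000000000000000000000) := T_3 (nat_lit 124) (nat_lit 123) (nat_lit 3) (nat_lit 4) (nat_lit 7) L979457 (by decide +kernel)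
theorem L979460 : W_3 (nat_lit 9) (nat_lit 0x18000c0000000000000000000000000000000) (nat_lit 0x0) (nat_lit 0xe000f0001e006700138003c0018000c000000000000000000) := Q_3 (nat_lit 125) (C_3 L616534 (C_3 L979458 (C_3 L979459 N_3))) (by decide +kernel)
theorem L979466 : W_3 (nat_lit 9) (nat_lit 0x18000c0000000000000000000000000000000) (nat_lit 0x0) (nat_lit 0xe00070003e006300138003c0078001c000000000000000000) := Q_3 (nat_lit 125) (C_3 L979459 (C_3 L979465 (C_3 L616537 N_3))) (by decide +kernel)
theorem L979467 : W_3 (nat_lit 10) (nat_lit 0x18000c0000000000000000000000000000000) (nat_lit 0x0) (nat_lit 0x600038003e006700138003c007c001c000000000000000000) := Q_3 (nat_lit 125) (C_3 L979459 (C_3 L979465 (C_3 L616539 N_3))) (by decide +kernel)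
theorem L979468 : W_3 (nat_lit 2) (nat_lit 0x4000000038001e0009000e00004000000000000000000) (nat_lit 0x0) (nat_lit 0x2000100008000000000000000000) := D_3 (nat_lit 92) (nat_lit 109) (nat_lit 75) (nat_lit 1) (nat_lit 10) (nat_lit 5) (nat_lit 0) (nat_lit 10) (nat_lit 5) (by decide +kernel)
theorem L979469 : W_3 (nat_lit 3) (nat_lit 0x4000000038001e0009000c00004000000000000000000) (nat_lit 0x0) (nat_lit 0x2000300018000000000000000000) := T_3 (nat_lit 93) (nat_lit 76) (nat_lit 4) (nat_lit 9) (nat_lit 8) L979468 (by decide +kernel)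
theorem L979470 : W_3 (nat_lit 4) (nat_lit 0x4000000038001e0009000400004000000000000000000) (nat_lit 0x0) (nat_lit 0x2000b00058000000000000000000) := T_3 (nat_lit 95) (nat_lit 78) (nat_lit 6) (nat_lit 9) (nat_lit 8) L979469 (by decide +kernel)
theorem L979471 : W_3 (nat_lit 5) (nat_lit 0x4000000018001e0009000400004000000000000000000) (nat_lit 0x0) (nat_lit 0x6000000002000b00058000000000000000000) := T_3 (nat_lit 145) (nat_lit 146) (nat_lit 3) (nat_lit 6) (nat_lit 7) L979470 (by decide +kernel)
theorem L979472 : W_3 (nat_lit 6) (nat_lit 0x4000000018001e0009000000004000000000000000000) (nat_lit 0x0) (nat_lit 0x6000000002000f00078000000000000000000) := T_3 (nat_lit 94) (nat_lit 77) (nat_lit 5) (nat_lit 9) (nat_lit 4) L979471 (by decide +kernel)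
theorem L979473 : W_3 (nat_lit 7) (nat_lit 0x18001e0009000000004000000000000000000) (nat_lit 0x0) (nat_lit 0x400020006000000002000f00078000000000000000000) := T_3 (nat_lit 178) (nat_lit 161) (nat_lit 6) (nat_lit 8) (nat_lit 10) L979472 (by decide +kernel)
theorem L979474 : W_3 (nat_lit 8) (nat_lit 0x18001e0009000000000000000000000000000) (nat_lit 0x0) (nat_lit 0x400020006000000002000f8007c000000000000000000) := T_3 (nat_lit 74) (nat_lit 91) (nat_lit 7) (nat_lit 6) (nat_lit 4) L979473 (by decide +kernel)
theorem L979475 : W_3 (nat_lit 9) (nat_lit 0x18001e0001000000000000000000000000000) (nat_lit 0x0) (nat_lit 0x40002000600000001a000f8007c000000000000000000) := T_3 (nat_lit 111) (nat_lit 112) (nat_lit 2) (nat_lit 6) (nat_lit 7) L979474 (by decide +kernel)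
theorem L979476 : W_3 (nat_lit 10) (nat_lit 0x18001e0000000000000000000000000000000) (nat_lit 0x0) (nat_lit 0x40002000600000001b800f8007c000000000000000000) := T_3 (nat_lit 108) (nat_lit 107) (nat_lit 0) (nat_lit 9) (nat_lit 7) L979475 (by decide +kernel)
theorem L979477 : W_3 (nat_lit 2) (nat_lit 0x3c001e0009000000000000000000000000000) (nat_lit 0x0) (nat_lit 0x20000000000000000400020000000000000000000) := D_3 (nat_lit 94) (nat_lit 77) (nat_lit 161) (nat_lit 5) (nat_lit 9) (nat_lit 4) (nat_lit 5) (nat_lit 9) (nat_lit 5) (by decide +kernel)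
theorem L979478 : W_3 (nat_lit 3) (nat_lit 0x3c001e0001000000000000000000000000000) (nat_lit 0x0) (nat_lit 0x20000000000018000400020000000000000000000) := T_3 (nat_lit 111) (nat_lit 112) (nat_lit 2) (nat_lit 6) (nat_lit 7) L979477 (by decide +kernel)
theorem L979479 : W_3 (nat_lit 4) (nat_lit 0x3c001e0000000000000000000000000000000) (nat_lit 0x0) (nat_lit 0x20000000000019800400020000000000000000000) := T_3 (nat_lit 108) (nat_lit 107) (nat_lit 0) (nat_lit 9) (nat_lit 7) L979478 (by decide +kernel)
theorem L979480 : W_3 (nat_lit 5) (nat_lit 0x38001e0000000000000000000000000000000) (nat_lit 0x0) (nat_lit 0x20000600000019800400020000000000000000000) := T_3 (nat_lit 142) (nat_lit 141) (nat_lit 2) (nat_lit 5) (nat_lit 8) L979479 (by decide +kernel)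
theorem L979481 : W_3 (nat_lit 6) (nat_lit 0x18001e0000000000000000000000000000000) (nat_lit 0x0) (nat_lit 0x20006600000019800400020000000000000000000) := T_3 (nat_lit 145) (nat_lit 146) (nat_lit 3) (nat_lit 6) (nat_lit 7) L979480 (by decide +kernel)
theorem L979482 : W_3 (nat_lit 14) (nat_lit 0x18000e0000000000000000000000000000000) (nat_lit 0x0) (nat_lit 0x6000f8002f00660010001b800f8007c000000000000000000) := Q_3 (nat_lit 128) (C_3 L843531 (C_3 L619448 (C_3 L979476 (C_3 L979481 N_3)))) (by decide +kernel)
theorem L979483 : W_3 (nat_lit 15) (nat_lit 0x18000c0000000000000000000000000000000) (nat_lit 0x0) (nat_lit 0x6000f8002f00670013801bc00f8007c000000000000000000) := Q_3 (nat_lit 125) (C_3 L979459 (C_3 L979465 (C_3 L979482 N_3))) (by decide +kernel)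
theorem L979484 : W_3 (nat_lit 11) (nat_lit 0x18000e0000000000000000000000000000000) (nat_lit 0x0) (nat_lit 0x50003c00660010001b800f8007c000000000000000000) := Q_3 (nat_lit 128) (C_3 L843531 (C_3 L979481 (C_3 L802210 (C_3 L979476 N_3)))) (by decide +kernel)
theorem L979485 : W_3 (nat_lit 12) (nat_lit 0x18000c0000000000000000000000000000000) (nat_lit 0x0) (nat_lit 0x50003c00670013801bc00f8007c000000000000000000) := Q_3 (nat_lit 125) (C_3 L979459 (C_3 L979465 (C_3 L979484 N_3))) (by decide +kernel)
theorem L979486 : W_3 (nat_lit 2) (nat_lit 0x3c001e0008000000000000000000000000000) (nat_lit 0x0) (nat_lit 0x20000000000000000400020000000000000000000) := D_3 (nat_lit 94) (nat_lit 77) (nat_lit 161) (nat_lit 5) (nat_lit 9) (nat_lit 4) (nat_lit 5) (nat_lit 9) (nat_lit 5) (by decide +kernel)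
theorem L979487 : W_3 (nat_lit 3) (nat_lit 0x3c001e0000000000000000000000000000000) (nat_lit 0x0) (nat_lit 0x20000000000018000400020000000000000000000) := T_3 (nat_lit 111) (nat_lit 112) (nat_lit 2) (nat_lit 6) (nat_lit 7) L979486 (by decide +kernel)
theorem L979488 : W_3 (nat_lit 4) (nat_lit 0x38001e0000000000000000000000000000000) (nat_lit 0x0) (nat_lit 0x20000600000018000400020000000000000000000) := T_3 (nat_lit 142) (nat_lit 141) (nat_lit 2) (nat_lit 5) (nat_lit 8) L979487 (by decide +kernel)
theorem L979489 : W_3 (nat_lit 5) (nat_lit 0x18001e0000000000000000000000000000000) (nat_lit 0x0) (nat_lit 0x20006600000018000400020000000000000000000) := T_3 (nat_lit 145) (nat_lit 146) (nat_lit 3) (nat_lit 6) (nat_lit 7) L979488 (by decide +kernel)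
theorem L979490 : W_3 (nat_lit 11) (nat_lit 0x18000e0000000000000000000000000000000) (nat_lit 0x0) (nat_lit 0x60003000660010001b800f8007c000000000000000000) := Q_3 (nat_lit 128) (C_3 L979489 (C_3 L843517 (C_3 L979476 N_3))) (by decide +kernel)
theorem L979491 : W_3 (nat_lit 12) (nat_lit 0x18000c0000000000000000000000000000000) (nat_lit 0x0) (nat_lit 0x60003400670013801bc00f8007c000000000000000000) := Q_3 (nat_lit 125) (C_3 L979459 (C_3 L979465 (C_3 L979490 N_3))) (by decide +kernel)
theorem L979499 : W_3 (nat_lit 6) (nat_lit 0x18000e0000000000000000000000000000000) (nat_lit 0x0) (nat_lit 0x20003000660010001b800480024000000000000000000) := Q_3 (nat_lit 128) (C_3 L979489 (C_3 L843517 (C_3 L843521 N_3))) (by decide +kernel)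
theorem L979500 : W_3 (nat_lit 7) (nat_lit 0x18000c0000000000000000000000000000000) (nat_lit 0x0) (nat_lit 0x30003800670013801bc004c0024000000000000000000) := Q_3 (nat_lit 125) (C_3 L979459 (C_3 L979495 (C_3 L979499 N_3))) (by decide +kernel)
theorem L979501 : W_3 (nat_lit 2) (nat_lit 0x200018001e0009000000004000000000000000000) (nat_lit 0x0) (nat_lit 0x2000000000000400020000000000000000000) := D_3 (nat_lit 94) (nat_lit 77) (nat_lit 145) (nat_lit 5) (nat_lit 9) (nat_lit 4) (nat_lit 5) (nat_lit 9) (nat_lit 5) (by decide +kernel)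
theorem L979502 : W_3 (nat_lit 3) (nat_lit 0x18001e0009000000004000000000000000000) (nat_lit 0x0) (nat_lit 0x400020002000000000000400020000000000000000000) := T_3 (nat_lit 161) (nat_lit 178) (nat_lit 6) (nat_lit 8) (nat_lit 10) L979501 (by decide +kernel)
theorem L979503 : W_3 (nat_lit 4) (nat_lit 0x18001e0009000000000000000000000000000) (nat_lit 0x0) (nat_lit 0x400020002000000000000480024000000000000000000) := T_3 (nat_lit 74) (nat_lit 91) (nat_lit 7) (nat_lit 6) (nat_lit 4) L979502 (by decide +kernel)
theorem L979504 : W_3 (nat_lit 5) (nat_lit 0x18001e0001000000000000000000000000000) (nat_lit 0x0) (nat_lit 0x400020002000000018000480024000000000000000000) := T_3 (nat_lit 111) (nat_lit 112) (nat_lit 2) (nat_lit 6) (nat_lit 7) L979503 (by decide +kernel)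
theorem L979505 : W_3 (nat_lit 6) (nat_lit 0x18001e0000000000000000000000000000000) (nat_lit 0x0) (nat_lit 0x400020002000000019800480024000000000000000000) := T_3 (nat_lit 108) (nat_lit 107) (nat_lit 0) (nat_lit 9) (nat_lit 7) L979504 (by decide +kernel)
theorem L979506 : W_3 (nat_lit 7) (nat_lit 0x18000e0000000000000000000000000000000) (nat_lit 0x0) (nat_lit 0x600030006600100019800480024000000000000000000) := Q_3 (nat_lit 128) (C_3 L979489 (C_3 L843517 (C_3 L979505 N_3))) (by decide +kernel)
theorem L979507 : W_3 (nat_lit 8) (nat_lit 0x18000c0000000000000000000000000000000) (nat_lit 0x0) (nat_lit 0x700038006700138019c004c0024000000000000000000) := Q_3 (nat_lit 125) (C_3 L979459 (C_3 L979495 (C_3 L979506 N_3))) (by decide +kernel)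
theorem L979512 : W_3 (nat_lit 16) (nat_lit 0x1800080000000000000000000000000000000) (nat_lit 0x0) (nat_lit 0xe000fc003f00670017801bc00fc007c000000000000000000) := Q_3 (nat_lit 126) (C_3 L979460 (C_3 L619433 (C_3 L979466 (C_3 L979467 (C_3 L979483 (C_3 L979485 (C_3 L625712 (C_3 L979491 (C_3 L979498 (C_3 L979500 (C_3 L979507 (C_3 L979511 N_3)))))))))))) (by decide +kernel)
theorem L979539 : W_3 (nat_lit 2) (nat_lit 0x200018003c0008000000000000000000000000000) (nat_lit 0x0) (nat_lit 0x3000100000000000000000000000) := D_3 (nat_lit 109) (nat_lit 92) (nat_lit 108) (nat_lit 7) (nat_lit 7) (nat_lit 5) (nat_lit 0) (nat_lit 10) (nat_lit 7) (by decide +kernel)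
theorem L979570 : W_3 (nat_lit 2) (nat_lit 0x200058003c0008000400000000000000000000000) (nat_lit 0x0) (nat_lit 0x80000000000030000000000000000000000000000) := D_3 (nat_lit 112) (nat_lit 113) (nat_lit 163) (nat_lit 2) (nat_lit 7) (nat_lit 7) (nat_lit 4) (nat_lit 10) (nat_lit 9) (by decide +kernel)
theorem L979571 : W_3 (nat_lit 3) (nat_lit 0x200018003c0008000400000000000000000000000) (nat_lit 0x0) (nat_lit 0x8000c000000030000000000000000000000000000) := T_3 (nat_lit 146) (nat_lit 147) (nat_lit 3) (nat_lit 7) (nat_lit 7) L979570 (by decide +kernel)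
theorem L979572 : W_3 (nat_lit 4) (nat_lit 0x200018003c0008000000000000000000000000000) (nat_lit 0x0) (nat_lit 0x8000c000000030000400020000000000000000000) := T_3 (nat_lit 94) (nat_lit 77) (nat_lit 5) (nat_lit 9) (nat_lit 4) L979571 (by decide +kernel)
theorem L979573 : W_3 (nat_lit 5) (nat_lit 0x20001800380008000000000000000000000000000) (nat_lit 0x0) (nat_lit 0x8000c000040033000500020000000000000000000) := Q_3 (nat_lit 126) (C_3 L979572 (C_3 L979539 N_3)) (by decide +kernel)
theorem L979574 : W_3 (nat_lit 6) (nat_lit 0x20001800180008000000000000000000000000000) (nat_lit 0x0) (nat_lit 0x8000c000640033000500020000000000000000000) := T_3 (nat_lit 129) (nat_lit 130) (nat_lit 1) (nat_lit 11) (nat_lit 7) L979573 (by decide +kernel)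
theorem L979575 : W_3 (nat_lit 2) (nat_lit 0x20007800180008000000000000000000000000000) (nat_lit 0x0) (nat_lit 0x18000040000000000000000000000000000000) := D_3 (nat_lit 147) (nat_lit 126) (nat_lit 148) (nat_lit 0) (nat_lit 11) (nat_lit 8) (nat_lit 0) (nat_lit 12) (nat_lit 8) (by decide +kernel)
theorem L979576 : W_3 (nat_lit 3) (nat_lit 0x20005800180008000000000000000000000000000) (nat_lit 0x0) (nat_lit 0x1a000040000000400000000000000000000000) := T_3 (nat_lit 145) (nat_lit 94) (nat_lit 5) (nat_lit 9) (nat_lit 5) L979575 (by decide +kernel)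
theorem L979577 : W_3 (nat_lit 2) (nat_lit 0x200058003c0008000000000000000000000000000) (nat_lit 0x0) (nat_lit 0x3000100000000000000000000000) := D_3 (nat_lit 109) (nat_lit 108) (nat_lit 92) (nat_lit 0) (nat_lit 10) (nat_lit 7) (nat_lit 7) (nat_lit 7) (nat_lit 5) (by decide +kernel)
theorem L979578 : W_3 (nat_lit 3) (nat_lit 0x20005800380008000000000000000000000000000) (nat_lit 0x0) (nat_lit 0x8000040003000100000000000000000000000) := T_3 (nat_lit 126) (nat_lit 147) (nat_lit 3) (nat_lit 7) (nat_lit 7) L979577 (by decide +kernel)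
theorem L979579 : W_3 (nat_lit 4) (nat_lit 0x20005800180008000000000000000000000000000) (nat_lit 0x0) (nat_lit 0x8000640003000100000000000000000000000) := T_3 (nat_lit 129) (nat_lit 130) (nat_lit 1) (nat_lit 11) (nat_lit 7) L979578 (by decide +kernel)
theorem L979580 : W_3 (nat_lit 2) (nat_lit 0x20007800580008000000000000000000000000000) (nat_lit 0x0) (nat_lit 0x10018000000000000000000000000000000000000) := D_3 (nat_lit 147) (nat_lit 148) (nat_lit 160) (nat_lit 0) (nat_lit 12) (nat_lit 8) (nat_lit 1) (nat_lit 11) (nat_lit 8) (by decide +kernel)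
theorem L979581 : W_3 (nat_lit 3) (nat_lit 0x20005800580008000000000000000000000000000) (nat_lit 0x0) (nat_lit 0x1001a000000000000400000000000000000000000) := T_3 (nat_lit 145) (nat_lit 94) (nat_lit 5) (nat_lit 9) (nat_lit 5) L979580 (by decide +kernel)
theorem L979582 : W_3 (nat_lit 4) (nat_lit 0x20005800180008000000000000000000000000000) (nat_lit 0x0) (nat_lit 0x1001a000600000000400000000000000000000000) := T_3 (nat_lit 130) (nat_lit 129) (nat_lit 1) (nat_lit 11) (nat_lit 7) L979581 (by decide +kernel)
theorem L979583 : W_3 (nat_lit 3) (nat_lit 0x20005800180008000400000000000000000000000) (nat_lit 0x0) (nat_lit 0x1000080000000600010000000000000000000000000000) := T_3 (nat_lit 129) (nat_lit 130) (nat_lit 1) (nat_lit 11) (nat_lit 7) L808285 (by decide +kernel)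
theorem L979584 : W_3 (nat_lit 4) (nat_lit 0x20005800180008000000000000000000000000000) (nat_lit 0x0) (nat_lit 0x1000080002000600010000400000000000000000000000) := T_3 (nat_lit 94) (nat_lit 145) (nat_lit 5) (nat_lit 9) (nat_lit 5) L979583 (by decide +kernel)
theorem L979585 : W_3 (nat_lit 5) (nat_lit 0x20001800180008000000000000000000000000000) (nat_lit 0x0) (nat_lit 0x100009001e000640013000500000000000000000000000) := Q_3 (nat_lit 146) (C_3 L979576 (C_3 L979579 (C_3 L979582 (C_3 L979584 N_3)))) (by decide +kernel)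
theorem L979586 : W_3 (nat_lit 2) (nat_lit 0xa00058003c001a000000000000000000000000000) (nat_lit 0x0) (nat_lit 0x2000100002000000000000000000000000000000000000) := D_3 (nat_lit 164) (nat_lit 181) (nat_lit 145) (nat_lit 7) (nat_lit 10) (nat_lit 6) (nat_lit 3) (nat_lit 7) (nat_lit 8) (by decide +kernel)
theorem L979587 : W_3 (nat_lit 3) (nat_lit 0xa00058003c000a000000000000000000000000000) (nat_lit 0x0) (nat_lit 0x2000100002000000030000000000000000000000000000) := T_3 (nat_lit 112) (nat_lit 113) (nat_lit 2) (nat_lit 7) (nat_lit 7) L979586 (by decide +kernel)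
theorem L979588 : W_3 (nat_lit 4) (nat_lit 0x200058003c000a000000000000000000000000000) (nat_lit 0x0) (nat_lit 0x3000180002000000030000000000000000000000000000) := T_3 (nat_lit 163) (nat_lit 180) (nat_lit 4) (nat_lit 10) (nat_lit 10) L979587 (by decide +kernel)
theorem L979589 : W_3 (nat_lit 5) (nat_lit 0x200018003c000a000000000000000000000000000) (nat_lit 0x0) (nat_lit 0x300018000e000000030000000000000000000000000000) := T_3 (nat_lit 146) (nat_lit 147) (nat_lit 3) (nat_lit 7) (nat_lit 7) L979588 (by decide +kernel)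
theorem L979590 : W_3 (nat_lit 6) (nat_lit 0x200018003c0008000000000000000000000000000) (nat_lit 0x0) (nat_lit 0x300018000e000000033000000000000000000000000000) := T_3 (nat_lit 109) (nat_lit 108) (nat_lit 0) (nat_lit 10) (nat_lit 7) L979589 (by decide +kernel)
theorem L979591 : W_3 (nat_lit 2) (nat_lit 0xa00058003c0018000100000000000000000000000) (nat_lit 0x0) (nat_lit 0x2000100002000000000000000000000000000000000000) := D_3 (nat_lit 164) (nat_lit 145) (nat_lit 181) (nat_lit 3) (nat_lit 7) (nat_lit 8) (nat_lit 7) (nat_lit 10) (nat_lit 6) (by decide +kernel)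
theorem L979592 : W_3 (nat_lit 3) (nat_lit 0x200058003c0018000100000000000000000000000) (nat_lit 0x0) (nat_lit 0x3000180002000000000000000000000000000000000000) := T_3 (nat_lit 163) (nat_lit 180) (nat_lit 4) (nat_lit 10) (nat_lit 10) L979591 (by decide +kernel)
theorem L979593 : W_3 (nat_lit 4) (nat_lit 0x200018003c0018000100000000000000000000000) (nat_lit 0x0) (nat_lit 0x300018000e000000000000000000000000000000000000) := T_3 (nat_lit 146) (nat_lit 147) (nat_lit 3) (nat_lit 7) (nat_lit 7) L979592 (by decide +kernel)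
theorem L979594 : W_3 (nat_lit 5) (nat_lit 0x200018003c0018000000000000000000000000000) (nat_lit 0x0) (nat_lit 0x300018000e000000002000100000000000000000000000) := T_3 (nat_lit 92) (nat_lit 109) (nat_lit 7) (nat_lit 7) (nat_lit 5) L979593 (by decide +kernel)
theorem L979595 : W_3 (nat_lit 6) (nat_lit 0x200018003c0008000000000000000000000000000) (nat_lit 0x0) (nat_lit 0x300018000e000000032000100000000000000000000000) := T_3 (nat_lit 112) (nat_lit 113) (nat_lit 2) (nat_lit 7) (nat_lit 7) L979594 (by decide +kernel)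
theorem L979596 : W_3 (nat_lit 3) (nat_lit 0xa00058003c0008000000000000000000000000000) (nat_lit 0x0) (nat_lit 0x2000100002000000030000000000000000000000000000) := T_3 (nat_lit 112) (nat_lit 113) (nat_lit 2) (nat_lit 7) (nat_lit 7) L635617 (by decide +kernel)
theorem L979597 : W_3 (nat_lit 4) (nat_lit 0x200058003c0008000000000000000000000000000) (nat_lit 0x0) (nat_lit 0x3000180002000000030000000000000000000000000000) := T_3 (nat_lit 163) (nat_lit 180) (nat_lit 4) (nat_lit 10) (nat_lit 10) L979596 (by decide +kernel)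
theorem L979598 : W_3 (nat_lit 5) (nat_lit 0x200018003c0008000000000000000000000000000) (nat_lit 0x0) (nat_lit 0x300018000e000000030000000000000000000000000000) := T_3 (nat_lit 146) (nat_lit 147) (nat_lit 3) (nat_lit 7) (nat_lit 7) L979597 (by decide +kernel)
theorem L979599 : W_3 (nat_lit 7) (nat_lit 0x20001800380008000000000000000000000000000) (nat_lit 0x0) (nat_lit 0x300018000e000040033000100000000000000000000000) := Q_3 (nat_lit 126) (C_3 L979590 (C_3 L979539 (C_3 L979595 (C_3 L979598 N_3)))) (by decide +kernel)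
theorem L979600 : W_3 (nat_lit 8) (nat_lit 0x20001800180008000000000000000000000000000) (nat_lit 0x0) (nat_lit 0x300018000e000640033000100000000000000000000000) := T_3 (nat_lit 129) (nat_lit 130) (nat_lit 1) (nat_lit 11) (nat_lit 7) L979599 (by decide +kernel)
theorem L979601 : W_3 (nat_lit 9) (nat_lit 0x20001800180000000000000000000000000000000) (nat_lit 0x0) (nat_lit 0x300019001e00064003b000500020000000000000000000) := Q_3 (nat_lit 111) (C_3 L837424 (C_3 L979574 (C_3 L979585 (C_3 L979600 N_3)))) (by decide +kernel)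
theorem L979603 : W_3 (nat_lit 2) (nat_lit 0x20001e000b4001800580002000000000000000000000000000) (nat_lit 0x0) (nat_lit 0xe000000000000000000000000000000000000) := D_3 (nat_lit 146) (nat_lit 145) (nat_lit 147) (nat_lit 4) (nat_lit 10) (nat_lit 11) (nat_lit 6) (nat_lit 10) (nat_lit 11) (by decide +kernel)
theorem L979604 : W_3 (nat_lit 3) (nat_lit 0x1e000b4001800580002000000000000000000000000000) (nat_lit 0x0) (nat_lit 0x6000000000000e000000000000000000000000000000000000) := T_3 (nat_lit 197) (nat_lit 198) (nat_lit 3) (nat_lit 7) (nat_lit 10) L979603 (by decide +kernel)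
theorem L979605 : W_3 (nat_lit 4) (nat_lit 0x1e00034001800580002000000000000000000000000000) (nat_lit 0x0) (nat_lit 0x6000000018000e000000000000000000000000000000000000) := T_3 (nat_lit 163) (nat_lit 164) (nat_lit 2) (nat_lit 7) (nat_lit 10) L979604 (by decide +kernel)
theorem L979606 : W_3 (nat_lit 5) (nat_lit 0x1c00034001800580002000000000000000000000000000) (nat_lit 0x0) (nat_lit 0x6400020018000e000000000000000000000000000000000000) := T_3 (nat_lit 177) (nat_lit 194) (nat_lit 6) (nat_lit 7) (nat_lit 11) L979605 (by decide +kernel)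
theorem L979607 : W_3 (nat_lit 6) (nat_lit 0xc00034001800580002000000000000000000000000000) (nat_lit 0x0) (nat_lit 0x6400320018000e000000000000000000000000000000000000) := T_3 (nat_lit 180) (nat_lit 181) (nat_lit 0) (nat_lit 11) (nat_lit 10) L979606 (by decide +kernel)
theorem L979608 : W_3 (nat_lit 7) (nat_lit 0xc00030001800580002000000000000000000000000000) (nat_lit 0x0) (nat_lit 0x6400320018c00e000000000000000000000000000000000000) := T_3 (nat_lit 158) (nat_lit 159) (nat_lit 3) (nat_lit 5) (nat_lit 9) L979607 (by decide +kernel)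
theorem L979609 : W_3 (nat_lit 8) (nat_lit 0xc00030001800580000000000000000000000000000000) (nat_lit 0x0) (nat_lit 0x6400320018c00e000040002000000000000000000000000000) := T_3 (nat_lit 109) (nat_lit 126) (nat_lit 7) (nat_lit 7) (nat_lit 6) L979608 (by decide +kernel)
theorem L979610 : W_3 (nat_lit 9) (nat_lit 0xc00030001800180000000000000000000000000000000) (nat_lit 0x0) (nat_lit 0x6400320018c00e000640002000000000000000000000000000) := T_3 (nat_lit 130) (nat_lit 129) (nat_lit 1) (nat_lit 11) (nat_lit 7) L979609 (by decide +kernel)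
theorem L979611 : W_3 (nat_lit 2) (nat_lit 0xe00030001800180000000000000000000000000000000) (nat_lit 0x0) (nat_lit 0x3000008000000000000000000000000000000000000000) := D_3 (nat_lit 180) (nat_lit 181) (nat_lit 159) (nat_lit 0) (nat_lit 11) (nat_lit 10) (nat_lit 0) (nat_lit 10) (nat_lit 10) (by decide +kernel)
theorem L979612 : W_3 (nat_lit 3) (nat_lit 0xc00030001800180000000000000000000000000000000) (nat_lit 0x0) (nat_lit 0x4003200008000000000000000000000000000000000000000) := T_3 (nat_lit 177) (nat_lit 194) (nat_lit 6) (nat_lit 7) (nat_lit 11) L979611 (by decide +kernel)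
theorem L979613 : W_3 (nat_lit 2) (nat_lit 0x2c00038005800380000000000000000000000000000000) (nat_lit 0x0) (nat_lit 0x8000040002000000000000000000000000000) := D_3 (nat_lit 126) (nat_lit 109) (nat_lit 147) (nat_lit 7) (nat_lit 7) (nat_lit 6) (nat_lit 3) (nat_lit 7) (nat_lit 7) (by decide +kernel)
theorem L979614 : W_3 (nat_lit 3) (nat_lit 0x2c00038001800380000000000000000000000000000000) (nat_lit 0x0) (nat_lit 0xe000040002000000000000000000000000000) := T_3 (nat_lit 146) (nat_lit 145) (nat_lit 1) (nat_lit 10) (nat_lit 8) L979613 (by decide +kernel)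
theorem L979615 : W_3 (nat_lit 4) (nat_lit 0x2c00038001800180000000000000000000000000000000) (nat_lit 0x0) (nat_lit 0xe000640002000000000000000000000000000) := T_3 (nat_lit 129) (nat_lit 130) (nat_lit 1) (nat_lit 11) (nat_lit 7) L979614 (by decide +kernel)
theorem L979616 : W_3 (nat_lit 5) (nat_lit 0x2c00030001800180000000000000000000000000000000) (nat_lit 0x0) (nat_lit 0xc00e000640002000000000000000000000000000) := T_3 (nat_lit 159) (nat_lit 158) (nat_lit 3) (nat_lit 5) (nat_lit 9) L979615 (by decide +kernel)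
theorem L979617 : W_3 (nat_lit 6) (nat_lit 0xc00030001800180000000000000000000000000000000) (nat_lit 0x0) (nat_lit 0x300000c00e000640002000000000000000000000000000) := T_3 (nat_lit 181) (nat_lit 180) (nat_lit 0) (nat_lit 11) (nat_lit 10) L979616 (by decide +kernel)
theorem L979618 : W_3 (nat_lit 2) (nat_lit 0x20001e000b0001800580002000000000000000000000000000) (nat_lit 0x0) (nat_lit 0xe000000000000000000000000000000000000) := D_3 (nat_lit 146) (nat_lit 145) (nat_lit 147) (nat_lit 4) (nat_lit 10) (nat_lit 11) (nat_lit 6) (nat_lit 10) (nat_lit 11) (by decide +kernel)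
theorem L979619 : W_3 (nat_lit 3) (nat_lit 0x20001e00030001800580002000000000000000000000000000) (nat_lit 0x0) (nat_lit 0x18000e000000000000000000000000000000000000) := T_3 (nat_lit 163) (nat_lit 164) (nat_lit 2) (nat_lit 7) (nat_lit 10) L979618 (by decide +kernel)
theorem L979620 : W_3 (nat_lit 4) (nat_lit 0x20001e00030001800180002000000000000000000000000000) (nat_lit 0x0) (nat_lit 0x18000e000600000000000000000000000000000000) := T_3 (nat_lit 130) (nat_lit 129) (nat_lit 1) (nat_lit 11) (nat_lit 7) L979619 (by decide +kernel)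
theorem L979621 : W_3 (nat_lit 5) (nat_lit 0x1e00030001800180002000000000000000000000000000) (nat_lit 0x0) (nat_lit 0x6000000018000e000600000000000000000000000000000000) := T_3 (nat_lit 197) (nat_lit 198) (nat_lit 3) (nat_lit 7) (nat_lit 10) L979620 (by decide +kernel)
theorem L979622 : W_3 (nat_lit 6) (nat_lit 0x1c00030001800180002000000000000000000000000000) (nat_lit 0x0) (nat_lit 0x6400020018000e000600000000000000000000000000000000) := T_3 (nat_lit 177) (nat_lit 194) (nat_lit 6) (nat_lit 7) (nat_lit 11) L979621 (by decide +kernel)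
theorem L979623 : W_3 (nat_lit 7) (nat_lit 0xc00030001800180002000000000000000000000000000) (nat_lit 0x0) (nat_lit 0x6400320018000e000600000000000000000000000000000000) := T_3 (nat_lit 180) (nat_lit 181) (nat_lit 0) (nat_lit 11) (nat_lit 10) L979622 (by decide +kernel)
theorem L979624 : W_3 (nat_lit 8) (nat_lit 0xc00030001800180000000000000000000000000000000) (nat_lit 0x0) (nat_lit 0x6400320018000e000640002000000000000000000000000000) := T_3 (nat_lit 109) (nat_lit 126) (nat_lit 7) (nat_lit 7) (nat_lit 6) L979623 (by decide +kernel)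
theorem L979625 : W_3 (nat_lit 2) (nat_lit 0x4000c000380018003c0000000000000000000000000000000) (nat_lit 0x0) (nat_lit 0xe000000000000000000000000000000000000) := D_3 (nat_lit 146) (nat_lit 145) (nat_lit 147) (nat_lit 1) (nat_lit 10) (nat_lit 8) (nat_lit 3) (nat_lit 7) (nat_lit 7) (by decide +kernel)
theorem L979626 : W_3 (nat_lit 3) (nat_lit 0x4000c000380018001c0000000000000000000000000000000) (nat_lit 0x0) (nat_lit 0xe000600000000000000000000000000000000) := T_3 (nat_lit 129) (nat_lit 130) (nat_lit 1) (nat_lit 11) (nat_lit 7) L979625 (by decide +kernel)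
theorem L979627 : W_3 (nat_lit 4) (nat_lit 0x4000c000300018001c0000000000000000000000000000000) (nat_lit 0x0) (nat_lit 0xc00e000600000000000000000000000000000000) := T_3 (nat_lit 159) (nat_lit 158) (nat_lit 3) (nat_lit 5) (nat_lit 9) L979626 (by decide +kernel)
theorem L979628 : W_3 (nat_lit 5) (nat_lit 0x4000c00030001800180000000000000000000000000000000) (nat_lit 0x0) (nat_lit 0xc00e000640002000000000000000000000000000) := T_3 (nat_lit 126) (nat_lit 109) (nat_lit 7) (nat_lit 7) (nat_lit 6) L979627 (by decide +kernel)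
theorem L979629 : W_3 (nat_lit 6) (nat_lit 0xc00030001800180000000000000000000000000000000) (nat_lit 0x0) (nat_lit 0x400020000c00e000640002000000000000000000000000000) := T_3 (nat_lit 194) (nat_lit 177) (nat_lit 6) (nat_lit 7) (nat_lit 11) L979628 (by decide +kernel)
theorem L979630 : W_3 (nat_lit 10) (nat_lit 0xc00020001800180000000000000000000000000000000) (nat_lit 0x0) (nat_lit 0x6400320019c00e000640002000000000000000000000000000) := Q_3 (nat_lit 160) (C_3 L979610 (C_3 L979612 (C_3 L979617 (C_3 L979624 (C_3 L979629 N_3))))) (by decide +kernel)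
theorem L979631 : W_3 (nat_lit 11) (nat_lit 0x400020001800180000000000000000000000000000000) (nat_lit 0x0) (nat_lit 0x74003a0019c00e000640002000000000000000000000000000) := T_3 (nat_lit 179) (nat_lit 196) (nat_lit 7) (nat_lit 8) (nat_lit 7) L979630 (by decide +kernel)
theorem L979632 : W_3 (nat_lit 12) (nat_lit 0x20001800180000000000000000000000000000000) (nat_lit 0x0) (nat_lit 0x28007c003e0019c00e000640002000000000000000000000000000) := Q_3 (nat_lit 178) (C_3 L808096 (C_3 L979602 (C_3 L979631 N_3))) (by decide +kernel)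
theorem L979633 : W_3 (nat_lit 13) (nat_lit 0x1800180000000000000000000000000000000) (nat_lit 0x0) (nat_lit 0x28007c003e001bc01e00064003b000500020000000000000000000) := Q_3 (nat_lit 161) (C_3 L808097 (C_3 L979601 (C_3 L979632 N_3))) (by decide +kernel)
theorem L980772 : W_3 (nat_lit 2) (nat_lit 0x400020001a00180000000000000000000000000000000) (nat_lit 0x0) (nat_lit 0x8000000000002000040000000000000000000000000000000) := D_3 (nat_lit 195) (nat_lit 126) (nat_lit 145) (nat_lit 4) (nat_lit 8) (nat_lit 11) (nat_lit 6) (nat_lit 8) (nat_lit 11) (by decide +kernel)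
theorem L980773 : W_3 (nat_lit 3) (nat_lit 0x400000001a00180000000000000000000000000000000) (nat_lit 0x0) (nat_lit 0x8000000020002000040008000000000000000000000000000) := T_3 (nat_lit 161) (nat_lit 111) (nat_lit 6) (nat_lit 8) (nat_lit 10) L980772 (by decide +kernel)
theorem L980774 : W_3 (nat_lit 4) (nat_lit 0x400000001800180000000000000000000000000000000) (nat_lit 0x0) (nat_lit 0x8000000020002600040008000000000000000000000000000) := T_3 (nat_lit 141) (nat_lit 142) (nat_lit 2) (nat_lit 5) (nat_lit 8) L980773 (by decide +kernel)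
theorem L980775 : W_3 (nat_lit 2) (nat_lit 0x20001f00010001a00180000000000000000000000000000000) (nat_lit 0x0) (nat_lit 0x3000000000000000040000000000000000000000000000000) := D_3 (nat_lit 193) (nat_lit 192) (nat_lit 126) (nat_lit 1) (nat_lit 9) (nat_lit 10) (nat_lit 5) (nat_lit 7) (nat_lit 7) (by decide +kernel)
theorem L980776 : W_3 (nat_lit 3) (nat_lit 0x20001e00010001a00180000000000000000000000000000000) (nat_lit 0x0) (nat_lit 0x13000100000000000040000000000000000000000000000000) := T_3 (nat_lit 176) (nat_lit 196) (nat_lit 3) (nat_lit 6) (nat_lit 10) L980775 (by decide +kernel)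
theorem L980777 : W_3 (nat_lit 4) (nat_lit 0x1e00010001a00180000000000000000000000000000000) (nat_lit 0x0) (nat_lit 0x73000100000000000040000000000000000000000000000000) := T_3 (nat_lit 197) (nat_lit 198) (nat_lit 3) (nat_lit 7) (nat_lit 10) L980776 (by decide +kernel)
theorem L980778 : W_3 (nat_lit 5) (nat_lit 0x1e00000001a00180000000000000000000000000000000) (nat_lit 0x0) (nat_lit 0x73000100018000000040000000000000000000000000000000) := T_3 (nat_lit 160) (nat_lit 159) (nat_lit 0) (nat_lit 10) (nat_lit 10) L980777 (by decide +kernel)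
theorem L980779 : W_3 (nat_lit 6) (nat_lit 0x1e00000001800180000000000000000000000000000000) (nat_lit 0x0) (nat_lit 0x73000100018000600040000000000000000000000000000000) := T_3 (nat_lit 141) (nat_lit 142) (nat_lit 2) (nat_lit 5) (nat_lit 8) L980778 (by decide +kernel)
theorem L980780 : W_3 (nat_lit 2) (nat_lit 0x1e00088001c00180000000000000000000000000000000) (nat_lit 0x0) (nat_lit 0x100004002000000000000000000000000000000000000) := D_3 (nat_lit 158) (nat_lit 176) (nat_lit 145) (nat_lit 0) (nat_lit 9) (nat_lit 10) (nat_lit 1) (nat_lit 9) (nat_lit 8) (by decide +kernel)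
theorem L980781 : W_3 (nat_lit 3) (nat_lit 0x1e00080001c00180000000000000000000000000000000) (nat_lit 0x0) (nat_lit 0x10001c002000000000000000000000000000000000000) := T_3 (nat_lit 159) (nat_lit 160) (nat_lit 0) (nat_lit 10) (nat_lit 10) L980780 (by decide +kernel)
theorem L980782 : W_3 (nat_lit 4) (nat_lit 0x1e00080001800180000000000000000000000000000000) (nat_lit 0x0) (nat_lit 0x10001c002600000000000000000000000000000000000) := T_3 (nat_lit 142) (nat_lit 141) (nat_lit 2) (nat_lit 5) (nat_lit 8) L980781 (by decide +kernel)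
theorem L980783 : W_3 (nat_lit 5) (nat_lit 0x1e00000001800180000000000000000000000000000000) (nat_lit 0x0) (nat_lit 0x10019c002600000000000000000000000000000000000) := T_3 (nat_lit 163) (nat_lit 164) (nat_lit 2) (nat_lit 7) (nat_lit 10) L980782 (by decide +kernel)
theorem L980784 : W_3 (nat_lit 7) (nat_lit 0xe00000001800180000000000000000000000000000000) (nat_lit 0x0) (nat_lit 0x40002000f300310039c006600040000000000000000000000000000000) := Q_3 (nat_lit 180) (C_3 L855768 (C_3 L843865 (C_3 L980779 (C_3 L980783 N_3)))) (by decide +kernel)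
theorem L980785 : W_3 (nat_lit 6) (nat_lit 0xe00000001800180000000000000000000000000000000) (nat_lit 0x0) (nat_lit 0xe00031003bc002600000008000000000000000000000000000) := Q_3 (nat_lit 180) (C_3 L843865 (C_3 L980783 (C_3 L863377 N_3))) (by decide +kernel)
theorem L980786 : W_3 (nat_lit 8) (nat_lit 0x600000001800180000000000000000000000000000000) (nat_lit 0x0) (nat_lit 0x40002000f30039003bc006600040008000000000000000000000000000) := Q_3 (nat_lit 179) (C_3 L863371 (C_3 L980784 (C_3 L980785 N_3))) (by decide +kernel)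
theorem L980787 : W_3 (nat_lit 11) (nat_lit 0x400000001800180000000000000000000000000000000) (nat_lit 0x0) (nat_lit 0x48002600f7c03be03be00660005000b80018000c000000000000000000) := Q_3 (nat_lit 177) (C_3 L863389 (C_3 L843776 (C_3 L863369 (C_3 L980786 N_3)))) (by decide +kernel)
theorem L980788 : W_3 (nat_lit 14) (nat_lit 0x1800180000000000000000000000000000000) (nat_lit 0x0) (nat_lit 0x6c003e00ffe03fe03bf81e70005800bc001a000c000000000000000000) := Q_3 (nat_lit 178) (C_3 L861423 (C_3 L844632 (C_3 L980774 (C_3 L980787 N_3)))) (by decide +kernel)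
theorem L980789 : W_3 (nat_lit 15) (nat_lit 0x1800080000000000000000000000000000000) (nat_lit 0x0) (nat_lit 0x6c003e00ffe03fe03bf81e70075803bc005a002c000000000000000000) := Q_3 (nat_lit 128) (C_3 L822581 (C_3 L822525 (C_3 L802142 (C_3 L979633 (C_3 L980788 N_3))))) (by decide +kernel)
theorem L980790 : W_3 (nat_lit 16) (nat_lit 0x1800080000000000000000000000000000000) (nat_lit 0x0) (nat_lit 0xe000fc00bf00c70077803bc0078003c000000000000000000) := Q_3 (nat_lit 126) (C_3 L620842 (C_3 L625687 (C_3 L619471 (C_3 L619433 (C_3 L619450 (C_3 L619465 (C_3 L620835 N_3))))))) (by decide +kernel)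
theorem L980808 : W_3 (nat_lit 5) (nat_lit 0x18001c0000000000000000000000000000000) (nat_lit 0x0) (nat_lit 0x200010006600030001800080000000000000000000000) := Q_3 (nat_lit 125) (C_3 L980791 (C_3 L843517 N_3)) (by decide +kernel)
theorem L980816 : W_3 (nat_lit 2) (nat_lit 0x100018005e0009000000020000000000000000000) (nat_lit 0x0) (nat_lit 0x2000080004000000000000000000) := D_3 (nat_lit 91) (nat_lit 74) (nat_lit 109) (nat_lit 7) (nat_lit 6) (nat_lit 4) (nat_lit 4) (nat_lit 7) (nat_lit 9) (by decide +kernel)
theorem L980817 : W_3 (nat_lit 3) (nat_lit 0x18005e0009000000020000000000000000000) (nat_lit 0x0) (nat_lit 0x200010000000000002000080004000000000000000000) := T_3 (nat_lit 160) (nat_lit 177) (nat_lit 4) (nat_lit 7) (nat_lit 10) L980816 (by decide +kernel)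
theorem L980818 : W_3 (nat_lit 4) (nat_lit 0x18005e0008000000020000000000000000000) (nat_lit 0x0) (nat_lit 0x200010000000000003800080004000000000000000000) := T_3 (nat_lit 108) (nat_lit 107) (nat_lit 0) (nat_lit 9) (nat_lit 7) L980817 (by decide +kernel)
theorem L980819 : W_3 (nat_lit 5) (nat_lit 0x18005e0008000000000000000000000000000) (nat_lit 0x0) (nat_lit 0x200010000000000003800480024000000000000000000) := T_3 (nat_lit 77) (nat_lit 94) (nat_lit 5) (nat_lit 9) (nat_lit 4) L980818 (by decide +kernel)
theorem L980820 : W_3 (nat_lit 6) (nat_lit 0x18001e0008000000000000000000000000000) (nat_lit 0x0) (nat_lit 0x200010000000600003800480024000000000000000000) := T_3 (nat_lit 130) (nat_lit 129) (nat_lit 1) (nat_lit 11) (nat_lit 7) L980819 (by decide +kernel)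
theorem L980821 : W_3 (nat_lit 7) (nat_lit 0x18001e0000000000000000000000000000000) (nat_lit 0x0) (nat_lit 0x20001000000060001b800480024000000000000000000) := T_3 (nat_lit 111) (nat_lit 112) (nat_lit 2) (nat_lit 6) (nat_lit 7) L980820 (by decide +kernel)
theorem L980822 : W_3 (nat_lit 2) (nat_lit 0x18001e0001000000000000000000000000000) (nat_lit 0x0) (nat_lit 0x600002000000000000000000000000000) := D_3 (nat_lit 129) (nat_lit 130) (nat_lit 109) (nat_lit 1) (nat_lit 11) (nat_lit 7) (nat_lit 0) (nat_lit 10) (nat_lit 7) (by decide +kernel)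
theorem L980823 : W_3 (nat_lit 3) (nat_lit 0x18001e0000000000000000000000000000000) (nat_lit 0x0) (nat_lit 0x600003800000000000000000000000000) := T_3 (nat_lit 108) (nat_lit 107) (nat_lit 0) (nat_lit 9) (nat_lit 7) L980822 (by decide +kernel)
theorem L980824 : W_3 (nat_lit 2) (nat_lit 0x38003e0000000000000000000000000000000) (nat_lit 0x0) (nat_lit 0x38000000000000000000000000000) := D_3 (nat_lit 112) (nat_lit 111) (nat_lit 113) (nat_lit 2) (nat_lit 6) (nat_lit 7) (nat_lit 2) (nat_lit 7) (nat_lit 7) (by decide +kernel)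
theorem L980825 : W_3 (nat_lit 3) (nat_lit 0x38001e0000000000000000000000000000000) (nat_lit 0x0) (nat_lit 0x600038000000000000000000000000000) := T_3 (nat_lit 129) (nat_lit 130) (nat_lit 1) (nat_lit 11) (nat_lit 7) L980824 (by decide +kernel)
theorem L980826 : W_3 (nat_lit 4) (nat_lit 0x18001e0000000000000000000000000000000) (nat_lit 0x0) (nat_lit 0x6000600038000000000000000000000000000) := T_3 (nat_lit 145) (nat_lit 146) (nat_lit 3) (nat_lit 6) (nat_lit 7) L980825 (by decide +kernel)
theorem L980827 : W_3 (nat_lit 8) (nat_lit 0x18000e0000000000000000000000000000000) (nat_lit 0x0) (nat_lit 0x20001000600070003b800480024000000000000000000) := Q_3 (nat_lit 128) (C_3 L843521 (C_3 L980821 (C_3 L980823 (C_3 L980826 N_3)))) (by decide +kernel)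
theorem L980828 : W_3 (nat_lit 9) (nat_lit 0x18000c0000000000000000000000000000000) (nat_lit 0x0) (nat_lit 0x20001400630073803bc00480024000000000000000000) := Q_3 (nat_lit 125) (C_3 L979465 (C_3 L979459 (C_3 L980827 N_3))) (by decide +kernel)
theorem L980829 : W_3 (nat_lit 7) (nat_lit 0x18000e0000000000000000000000000000000) (nat_lit 0x0) (nat_lit 0x40002000600070003b800480024000000000000000000) := Q_3 (nat_lit 128) (C_3 L980826 (C_3 L980823 (C_3 L979505 N_3))) (by decide +kernel)
theorem L980830 : W_3 (nat_lit 8) (nat_lit 0x18000c0000000000000000000000000000000) (nat_lit 0x0) (nat_lit 0x40002400630073803bc00480024000000000000000000) := Q_3 (nat_lit 125) (C_3 L979465 (C_3 L979459 (C_3 L980829 N_3))) (by decide +kernel)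
theorem L980831 : W_3 (nat_lit 5) (nat_lit 0x18000c0002000000000000000000000000000) (nat_lit 0x0) (nat_lit 0x400070003e002000020001000080000000000000000000000) := Q_3 (nat_lit 160) (C_3 L625704 (C_3 L619423 N_3)) (by decide +kernel)
theorem L980832 : W_3 (nat_lit 7) (nat_lit 0x18000c0000000000000000000000000000000) (nat_lit 0x0) (nat_lit 0x400070003e002000020003c0078001c000000000000000000) := Q_3 (nat_lit 109) (C_3 L619126 (C_3 L616043 (C_3 L980831 N_3))) (by decide +kernel)
theorem L981970 : W_3 (nat_lit 2) (nat_lit 0x38001e0008000000000000000000000000000) (nat_lit 0x0) (nat_lit 0x20000000000000000400020000000000000000000) := D_3 (nat_lit 94) (nat_lit 77) (nat_lit 161) (nat_lit 5) (nat_lit 9) (nat_lit 4) (nat_lit 5) (nat_lit 9) (nat_lit 5) (by decide +kernel)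
theorem L982237 : W_3 (nat_lit 3) (nat_lit 0x38001e0000000000000000000000000000000) (nat_lit 0x0) (nat_lit 0x20000000000018000400020000000000000000000) := T_3 (nat_lit 111) (nat_lit 112) (nat_lit 2) (nat_lit 6) (nat_lit 7) L981970 (by decide +kernel)
theorem L982247 : W_3 (nat_lit 2) (nat_lit 0x3000100038000e0002000000000000000000000000000) (nat_lit 0x0) (nat_lit 0x20000000000000000100008000000000000000000) := D_3 (nat_lit 92) (nat_lit 75) (nat_lit 161) (nat_lit 7) (nat_lit 7) (nat_lit 4) (nat_lit 7) (nat_lit 7) (nat_lit 5) (by decide +kernel)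
theorem L982248 : W_3 (nat_lit 3) (nat_lit 0x3000100038000e0000000000000000000000000000000) (nat_lit 0x0) (nat_lit 0x28000000000002000100008000000000000000000) := T_3 (nat_lit 109) (nat_lit 159) (nat_lit 5) (nat_lit 7) (nat_lit 6) L982247 (by decide +kernel)
theorem L982249 : W_3 (nat_lit 4) (nat_lit 0x2000100038000e0000000000000000000000000000000) (nat_lit 0x0) (nat_lit 0x2000100028000000000002000100008000000000000000000) := T_3 (nat_lit 176) (nat_lit 193) (nat_lit 5) (nat_lit 7) (nat_lit 7) L982248 (by decide +kernel)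
theorem L982545 : W_3 (nat_lit 9) (nat_lit 0x200018001c0000000000000000000000000000000) (nat_lit 0x0) (nat_lit 0x8000e00060003a001f000e0000000000000000000) := T_3 (nat_lit 92) (nat_lit 109) (nat_lit 7) (nat_lit 7) (nat_lit 5) L635021 (by decide +kernel)
theorem L982558 : W_3 (nat_lit 2) (nat_lit 0x200018001e0000000000000000000000000000000) (nat_lit 0x0) (nat_lit 0x6000010000000000000000000000000000000) := D_3 (nat_lit 145) (nat_lit 146) (nat_lit 124) (nat_lit 3) (nat_lit 6) (nat_lit 7) (nat_lit 3) (nat_lit 5) (nat_lit 7) (by decide +kernel)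
theorem L985901 : W_3 (nat_lit 8) (nat_lit 0x100018000f0000000000000000000000000000000) (nat_lit 0x0) (nat_lit 0xe0007c000e000300000000c00000000000000000000000000) := T_3 (nat_lit 177) (nat_lit 194) (nat_lit 6) (nat_lit 7) (nat_lit 11) L985900 (by decide +kernel)
theorem L985902 : W_3 (nat_lit 9) (nat_lit 0x100018000e0000000000000000000000000000000) (nat_lit 0x0) (nat_lit 0xe0007c000e000300018000c00000000000000000000000000) := T_3 (nat_lit 124) (nat_lit 123) (nat_lit 3) (nat_lit 4) (nat_lit 7) L985901 (by decide +kernel)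
theorem L985903 : W_3 (nat_lit 2) (nat_lit 0x3000100018000e8002000000000000000000000000000) (nat_lit 0x0) (nat_lit 0x20000000000000000100008000000000000000000) := D_3 (nat_lit 92) (nat_lit 75) (nat_lit 161) (nat_lit 7) (nat_lit 7) (nat_lit 4) (nat_lit 7) (nat_lit 7) (nat_lit 5) (by decide +kernel)
theorem L985904 : W_3 (nat_lit 3) (nat_lit 0x3000100018000e8000000000000000000000000000000) (nat_lit 0x0) (nat_lit 0x28000000000002000100008000000000000000000) := T_3 (nat_lit 109) (nat_lit 159) (nat_lit 5) (nat_lit 7) (nat_lit 6) L985903 (by decide +kernel)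
theorem L985905 : W_3 (nat_lit 4) (nat_lit 0x2000100018000e8000000000000000000000000000000) (nat_lit 0x0) (nat_lit 0x2000100028000000000002000100008000000000000000000) := T_3 (nat_lit 176) (nat_lit 193) (nat_lit 5) (nat_lit 7) (nat_lit 7) L985904 (by decide +kernel)
theorem L985906 : W_3 (nat_lit 5) (nat_lit 0x2000100018000e0000000000000000000000000000000) (nat_lit 0x0) (nat_lit 0x2000100028000000018002000100008000000000000000000) := T_3 (nat_lit 123) (nat_lit 124) (nat_lit 3) (nat_lit 4) (nat_lit 7) L985905 (by decide +kernel)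
theorem L987855 : W_3 (nat_lit 2) (nat_lit 0x4000000058001c0000000000000000000000000000000) (nat_lit 0x0) (nat_lit 0x8000600000000000000000000000000000000) := D_3 (nat_lit 129) (nat_lit 130) (nat_lit 147) (nat_lit 1) (nat_lit 11) (nat_lit 7) (nat_lit 3) (nat_lit 7) (nat_lit 7) (by decide +kernel)
theorem L988678 : W_3 (nat_lit 2) (nat_lit 0x38001c0000000000000000000000000000000) (nat_lit 0x0) (nat_lit 0xc000020000000000000000000000000000000) := D_3 (nat_lit 146) (nat_lit 125) (nat_lit 147) (nat_lit 3) (nat_lit 6) (nat_lit 7) (nat_lit 0) (nat_lit 11) (nat_lit 8) (by decide +kernel)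
theorem L988679 : W_3 (nat_lit 4) (nat_lit 0x38001c0000000000000000000000000000000) (nat_lit 0x0) (nat_lit 0x20000000030018000400020000000000000000000) := T_3 (nat_lit 125) (nat_lit 124) (nat_lit 3) (nat_lit 5) (nat_lit 7) L982237 (by decide +kernel)
theorem L988680 : W_3 (nat_lit 2) (nat_lit 0x16000b00078001c0000000400000000000000000000000) (nat_lit 0x0) (nat_lit 0x10002800000000000000000000000000000000000000000000) := D_3 (nat_lit 179) (nat_lit 181) (nat_lit 196) (nat_lit 0) (nat_lit 11) (nat_lit 10) (nat_lit 7) (nat_lit 8) (nat_lit 7) (by decide +kernel)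
theorem L988681 : W_3 (nat_lit 3) (nat_lit 0x16000900078001c0000000400000000000000000000000) (nat_lit 0x0) (nat_lit 0x10002800020000000000002000000000000000000000000000) := T_3 (nat_lit 161) (nat_lit 109) (nat_lit 7) (nat_lit 7) (nat_lit 6) L988680 (by decide +kernel)
theorem L988682 : W_3 (nat_lit 4) (nat_lit 0x12000900078001c0000000400000000000000000000000) (nat_lit 0x0) (nat_lit 0x18002c00020000000000002000000000000000000000000000) := T_3 (nat_lit 178) (nat_lit 195) (nat_lit 7) (nat_lit 7) (nat_lit 7) L988681 (by decide +kernel)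
theorem L988683 : W_3 (nat_lit 5) (nat_lit 0x2000900078001c0000000400000000000000000000000) (nat_lit 0x0) (nat_lit 0x38003c00020000000000002000000000000000000000000000) := T_3 (nat_lit 180) (nat_lit 197) (nat_lit 4) (nat_lit 10) (nat_lit 11) L988682 (by decide +kernel)
theorem L988684 : W_3 (nat_lit 6) (nat_lit 0x900078001c0000000400000000000000000000000) (nat_lit 0x0) (nat_lit 0x3c003e00020000000000002000000000000000000000000000) := T_3 (nat_lit 177) (nat_lit 194) (nat_lit 6) (nat_lit 7) (nat_lit 11) L988683 (by decide +kernel)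
theorem L988685 : W_3 (nat_lit 7) (nat_lit 0x900078001c0000000000000000000000000000000) (nat_lit 0x0) (nat_lit 0x3c003e0002000000000000a000400000000000000000000000) := T_3 (nat_lit 94) (nat_lit 111) (nat_lit 7) (nat_lit 9) (nat_lit 5) L988684 (by decide +kernel)
theorem L988686 : W_3 (nat_lit 8) (nat_lit 0x800078001c0000000000000000000000000000000) (nat_lit 0x0) (nat_lit 0x3c003e0003800000000000a000400000000000000000000000) := T_3 (nat_lit 160) (nat_lit 159) (nat_lit 1) (nat_lit 10) (nat_lit 8) L988685 (by decide +kernel)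
theorem L988687 : W_3 (nat_lit 9) (nat_lit 0x78001c0000000000000000000000000000000) (nat_lit 0x0) (nat_lit 0x3c003e001b800000000000a000400000000000000000000000) := T_3 (nat_lit 163) (nat_lit 164) (nat_lit 3) (nat_lit 7) (nat_lit 8) L988686 (by decide +kernel)
theorem L988688 : W_3 (nat_lit 10) (nat_lit 0x38001c0000000000000000000000000000000) (nat_lit 0x0) (nat_lit 0x3c003e001b800c00000000a000400000000000000000000000) := T_3 (nat_lit 146) (nat_lit 147) (nat_lit 0) (nat_lit 11) (nat_lit 8) L988687 (by decide +kernel)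
theorem L988689 : W_3 (nat_lit 11) (nat_lit 0x18001c0000000000000000000000000000000) (nat_lit 0x0) (nat_lit 0x3c003e001b800e00003001a000400020000000000000000000) := Q_3 (nat_lit 145) (C_3 L988678 (C_3 L988679 (C_3 L988688 N_3))) (by decide +kernel)
theorem L988690 : W_3 (nat_lit 9) (nat_lit 0x78003c0010000000000000000000000000000) (nat_lit 0x0) (nat_lit 0x7c003e001b8000000000000000800040000000000000000000) := T_3 (nat_lit 78) (nat_lit 95) (nat_lit 5) (nat_lit 10) (nat_lit 4) L802034 (by decide +kernel)
theorem L988691 : W_3 (nat_lit 10) (nat_lit 0x58003c0010000000000000000000000000000) (nat_lit 0x0) (nat_lit 0x7c003e001b8002000020000000800040000000000000000000) := T_3 (nat_lit 145) (nat_lit 125) (nat_lit 3) (nat_lit 6) (nat_lit 7) L988690 (by decide +kernel)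
theorem L988692 : W_3 (nat_lit 11) (nat_lit 0x18003c0010000000000000000000000000000) (nat_lit 0x0) (nat_lit 0x7c003e001b800e000020000000800040000000000000000000) := T_3 (nat_lit 146) (nat_lit 147) (nat_lit 3) (nat_lit 7) (nat_lit 7) L988691 (by decide +kernel)
theorem L988693 : W_3 (nat_lit 12) (nat_lit 0x18003c0000000000000000000000000000000) (nat_lit 0x0) (nat_lit 0x7c003e001b800e000020030000800040000000000000000000) := T_3 (nat_lit 112) (nat_lit 113) (nat_lit 2) (nat_lit 7) (nat_lit 7) L988692 (by decide +kernel)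
theorem L988694 : W_3 (nat_lit 13) (nat_lit 0x18001c0000000000000000000000000000000) (nat_lit 0x0) (nat_lit 0x7c003e001b800e000620030000800040000000000000000000) := T_3 (nat_lit 129) (nat_lit 130) (nat_lit 1) (nat_lit 11) (nat_lit 7) L988693 (by decide +kernel)
theorem L988699 : W_3 (nat_lit 10) (nat_lit 0x18001c0000000000000000000000000000000) (nat_lit 0x0) (nat_lit 0x80004000a000e00060003a001f000e0000000000000000000) := Q_3 (nat_lit 161) (C_3 L982545 (C_3 L802199 (C_3 L802143 N_3))) (by decide +kernel)
theorem L988705 : W_3 (nat_lit 14) (nat_lit 0x18000c0000000000000000000000000000000) (nat_lit 0x0) (nat_lit 0x7c003e001b800e00073803a001f000e0000000000000000000) := Q_3 (nat_lit 128) (C_3 L620709 (C_3 L988689 (C_3 L988694 (C_3 L988698 (C_3 L988699 (C_3 L988704 N_3)))))) (by decide +kernel)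
theorem L988710 : W_3 (nat_lit 7) (nat_lit 0x18000e0000000000000000000000000000000) (nat_lit 0x0) (nat_lit 0x40002000e000700039800480024000000000000000000) := Q_3 (nat_lit 128) (C_3 L980826 (C_3 L988706 (C_3 L979505 (C_3 L988709 N_3)))) (by decide +kernel)
theorem L988711 : W_3 (nat_lit 8) (nat_lit 0x18000c0000000000000000000000000000000) (nat_lit 0x0) (nat_lit 0x40002400e300738039c00480024000000000000000000) := Q_3 (nat_lit 125) (C_3 L979465 (C_3 L979459 (C_3 L988710 N_3))) (by decide +kernel)
theorem L988713 : W_3 (nat_lit 7) (nat_lit 0x18000c0000000000000000000000000000000) (nat_lit 0x0) (nat_lit 0x20001400e30073803bc00080004000000000000000000) := Q_3 (nat_lit 125) (C_3 L979465 (C_3 L979459 (C_3 L988712 N_3))) (by decide +kernel)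
theorem L988714 : W_3 (nat_lit 15) (nat_lit 0x1800080000000000000000000000000000000) (nat_lit 0x0) (nat_lit 0x7e003f001be00e30077803bc01f800fc000000000000000000) := Q_3 (nat_lit 126) (C_3 L980828 (C_3 L619471 (C_3 L979466 (C_3 L980830 (C_3 L980832 (C_3 L625706 (C_3 L988705 (C_3 L988711 (C_3 L988713 N_3))))))))) (by decide +kernel)
theorem L988715 : W_3 (nat_lit 7) (nat_lit 0x18001c0000000000000000000000000000000) (nat_lit 0x0) (nat_lit 0x400020006000038019c00480024000000000000000000) := Q_3 (nat_lit 125) (C_3 L980791 (C_3 L619436 (C_3 L979505 N_3))) (by decide +kernel)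
theorem L988716 : W_3 (nat_lit 11) (nat_lit 0x1800180000000000000000000000000000000) (nat_lit 0x0) (nat_lit 0x200014001a000e00067803bc00f8007c000000000000000000) := Q_3 (nat_lit 126) (C_3 L988704 (C_3 L980805 (C_3 L988715 (C_3 L980796 (C_3 L988698 N_3))))) (by decide +kernel)
theorem L989249 : W_3 (nat_lit 3) (nat_lit 0x200018001e0000000000000000000000000000000) (nat_lit 0x0) (nat_lit 0x700018000000000000000000000000000000) := T_3 (nat_lit 141) (nat_lit 142) (nat_lit 2) (nat_lit 5) (nat_lit 8) L802156 (by decide +kernel)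
theorem L989250 : W_3 (nat_lit 2) (nat_lit 0x20001c001e0009000080000000000000000000000) (nat_lit 0x0) (nat_lit 0x2000100008000000000000000000) := D_3 (nat_lit 92) (nat_lit 109) (nat_lit 75) (nat_lit 7) (nat_lit 7) (nat_lit 5) (nat_lit 6) (nat_lit 6) (nat_lit 8) (by decide +kernel)
theorem L989251 : W_3 (nat_lit 3) (nat_lit 0x20001c001e0009000000000000000000000000000) (nat_lit 0x0) (nat_lit 0x200018000c000000000000000000) := T_3 (nat_lit 91) (nat_lit 74) (nat_lit 7) (nat_lit 6) (nat_lit 4) L989250 (by decide +kernel)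
theorem L989252 : W_3 (nat_lit 4) (nat_lit 0x20001c001e0001000000000000000000000000000) (nat_lit 0x0) (nat_lit 0x1a00018000c000000000000000000) := T_3 (nat_lit 111) (nat_lit 112) (nat_lit 2) (nat_lit 6) (nat_lit 7) L989251 (by decide +kernel)
theorem L989253 : W_3 (nat_lit 5) (nat_lit 0x200018001e0001000000000000000000000000000) (nat_lit 0x0) (nat_lit 0x60000001a00018000c000000000000000000) := T_3 (nat_lit 142) (nat_lit 141) (nat_lit 2) (nat_lit 5) (nat_lit 8) L989252 (by decide +kernel)
theorem L989254 : W_3 (nat_lit 6) (nat_lit 0x200018001e0000000000000000000000000000000) (nat_lit 0x0) (nat_lit 0x60000001b80018000c000000000000000000) := T_3 (nat_lit 108) (nat_lit 107) (nat_lit 0) (nat_lit 9) (nat_lit 7) L989253 (by decide +kernel)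
theorem L989255 : W_3 (nat_lit 7) (nat_lit 0x200018001a0000000000000000000000000000000) (nat_lit 0x0) (nat_lit 0x70005801bc0018000c000000000000000000) := Q_3 (nat_lit 126) (C_3 L802146 (C_3 L989249 (C_3 L989254 N_3))) (by decide +kernel)
theorem L989256 : W_3 (nat_lit 2) (nat_lit 0x200038001e0001000000000000000000000000000) (nat_lit 0x0) (nat_lit 0x18000400000000000000000000000) := D_3 (nat_lit 111) (nat_lit 112) (nat_lit 94) (nat_lit 2) (nat_lit 6) (nat_lit 7) (nat_lit 5) (nat_lit 9) (nat_lit 5) (by decide +kernel)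
theorem L989257 : W_3 (nat_lit 3) (nat_lit 0x200018001e0001000000000000000000000000000) (nat_lit 0x0) (nat_lit 0x6000000018000400000000000000000000000) := T_3 (nat_lit 145) (nat_lit 146) (nat_lit 3) (nat_lit 6) (nat_lit 7) L989256 (by decide +kernel)
theorem L989258 : W_3 (nat_lit 4) (nat_lit 0x200018001e0000000000000000000000000000000) (nat_lit 0x0) (nat_lit 0x6000000019800400000000000000000000000) := T_3 (nat_lit 108) (nat_lit 107) (nat_lit 0) (nat_lit 9) (nat_lit 7) L989257 (by decide +kernel)
theorem L989259 : W_3 (nat_lit 5) (nat_lit 0x200018001a0000000000000000000000000000000) (nat_lit 0x0) (nat_lit 0x600005801bc00500000000000000000000000) := Q_3 (nat_lit 126) (C_3 L982558 (C_3 L802146 (C_3 L989258 N_3))) (by decide +kernel)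
theorem L989465 : W_3 (nat_lit 2) (nat_lit 0x20003800180000000000000000000000000000000) (nat_lit 0x0) (nat_lit 0x8000400000000000000008000000000000000000000000000) := D_3 (nat_lit 178) (nat_lit 195) (nat_lit 111) (nat_lit 6) (nat_lit 8) (nat_lit 11) (nat_lit 6) (nat_lit 8) (nat_lit 10) (by decide +kernel)
theorem L989775 : W_3 (nat_lit 2) (nat_lit 0x3800180009000780000000000000000000000) (nat_lit 0x0) (nat_lit 0x2000800040000000000000000000) := D_3 (nat_lit 95) (nat_lit 78) (nat_lit 109) (nat_lit 6) (nat_lit 9) (nat_lit 8) (nat_lit 1) (nat_lit 10) (nat_lit 5) (by decide +kernel)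
theorem L989776 : W_3 (nat_lit 3) (nat_lit 0x3800180008000780000000000000000000000) (nat_lit 0x0) (nat_lit 0x3800800040000000000000000000) := T_3 (nat_lit 108) (nat_lit 107) (nat_lit 1) (nat_lit 9) (nat_lit 5) L989775 (by decide +kernel)
theorem L989777 : W_3 (nat_lit 4) (nat_lit 0x3800180008000700000000000000000000000) (nat_lit 0x0) (nat_lit 0x13800880040000000000000000000) := T_3 (nat_lit 91) (nat_lit 112) (nat_lit 3) (nat_lit 6) (nat_lit 5) L989776 (by decide +kernel)
theorem L989812 : W_3 (nat_lit 7) (nat_lit 0x18001a0000000000000000000000000000000) (nat_lit 0x0) (nat_lit 0x400020006000058019c00480024000000000000000000) := Q_3 (nat_lit 126) (C_3 L979505 (C_3 L980791 (C_3 L619436 N_3))) (by decide +kernel)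
theorem L990285 : W_3 (nat_lit 2) (nat_lit 0x1a00180002001f00080000000000000000000) (nat_lit 0x0) (nat_lit 0x70000000000000000000000000000) := D_3 (nat_lit 113) (nat_lit 112) (nat_lit 114) (nat_lit 3) (nat_lit 7) (nat_lit 5) (nat_lit 3) (nat_lit 8) (nat_lit 5) (by decide +kernel)
theorem L990286 : W_3 (nat_lit 3) (nat_lit 0x1a00180002000f00080000000000000000000) (nat_lit 0x0) (nat_lit 0x70001000100000000000000000000) := T_3 (nat_lit 96) (nat_lit 80) (nat_lit 2) (nat_lit 8) (nat_lit 5) L990285 (by decide +kernel)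
theorem L990287 : W_3 (nat_lit 4) (nat_lit 0x1a00180000000f00080000000000000000000) (nat_lit 0x0) (nat_lit 0x73001000100000000000000000000) := T_3 (nat_lit 109) (nat_lit 108) (nat_lit 1) (nat_lit 10) (nat_lit 5) L990286 (by decide +kernel)
theorem L990288 : W_3 (nat_lit 5) (nat_lit 0x1a00180000000f00000000000000000000000) (nat_lit 0x0) (nat_lit 0x730010001c0000000000000000000) := T_3 (nat_lit 79) (nat_lit 78) (nat_lit 2) (nat_lit 7) (nat_lit 5) L990287 (by decide +kernel)
theorem L990289 : W_3 (nat_lit 6) (nat_lit 0x1800180000000f00000000000000000000000) (nat_lit 0x0) (nat_lit 0x6000000730010001c0000000000000000000) := T_3 (nat_lit 141) (nat_lit 142) (nat_lit 2) (nat_lit 5) (nat_lit 8) L990288 (by decide +kernel)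
theorem L990290 : W_3 (nat_lit 7) (nat_lit 0x1800180000000700000000000000000000000) (nat_lit 0x0) (nat_lit 0x6000000738018801de000000000000000000) := Q_3 (nat_lit 95) (C_3 L910936 (C_3 L863182 (C_3 L811302 (C_3 L990289 (C_3 L811694 N_3))))) (by decide +kernel)
theorem L990291 : W_3 (nat_lit 7) (nat_lit 0x1800180000000700000000000000000000000) (nat_lit 0x0) (nat_lit 0x6000000738018801ee000000000000000000) := Q_3 (nat_lit 95) (C_3 L990289 (C_3 L910936 (C_3 L908368 (C_3 L811219 N_3)))) (by decide +kernel)
theorem L993688 : W_3 (nat_lit 2) (nat_lit 0x1c001b4001000180006800200010000000000) (nat_lit 0x0) (nat_lit 0x400020001000000) := D_3 (nat_lit 41) (nat_lit 24) (nat_lit 58) (nat_lit 6) (nat_lit 6) (nat_lit 5) (nat_lit 6) (nat_lit 6) (nat_lit 6) (by decide +kernel)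
theorem L993689 : W_3 (nat_lit 3) (nat_lit 0x1c001b4001000180006800200000000000000) (nat_lit 0x0) (nat_lit 0x2000000000000400030001000000) := T_3 (nat_lit 40) (nat_lit 109) (nat_lit 7) (nat_lit 6) (nat_lit 2) L993688 (by decide +kernel)
theorem L993690 : W_3 (nat_lit 4) (nat_lit 0x1c001b0001000180006800200000000000000) (nat_lit 0x0) (nat_lit 0xc002000000000000400030001000000) := T_3 (nat_lit 122) (nat_lit 123) (nat_lit 3) (nat_lit 3) (nat_lit 7) L993689 (by decide +kernel)
theorem L993691 : W_3 (nat_lit 5) (nat_lit 0x1c001b0001000180006800000000000000000) (nat_lit 0x0) (nat_lit 0xc002800000000000600030001000000) := T_3 (nat_lit 57) (nat_lit 107) (nat_lit 5) (nat_lit 6) (nat_lit 3) L993690 (by decide +kernel)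
theorem L993692 : W_3 (nat_lit 6) (nat_lit 0x1c001b0001000180006000000000000000000) (nat_lit 0x0) (nat_lit 0xc002800000001800600030001000000) := T_3 (nat_lit 71) (nat_lit 72) (nat_lit 3) (nat_lit 3) (nat_lit 4) L993691 (by decide +kernel)
theorem L993693 : W_3 (nat_lit 7) (nat_lit 0x1c001b0001000180002000000000000000000) (nat_lit 0x0) (nat_lit 0xc002800000005800700030001000000) := T_3 (nat_lit 74) (nat_lit 56) (nat_lit 4) (nat_lit 6) (nat_lit 7) L993692 (by decide +kernel)
theorem L994134 : W_3 (nat_lit 2) (nat_lit 0x1a801880004007e0021000000000000000000) (nat_lit 0x0) (nat_lit 0x5000100000000000000000000000000000000000) := D_3 (nat_lit 140) (nat_lit 158) (nat_lit 156) (nat_lit 7) (nat_lit 4) (nat_lit 5) (nat_lit 5) (nat_lit 4) (nat_lit 5) (by decide +kernel)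
theorem L994135 : W_3 (nat_lit 3) (nat_lit 0x1a001880004007e0021000000000000000000) (nat_lit 0x0) (nat_lit 0x5000180004000000000000000000000000000000) := T_3 (nat_lit 139) (nat_lit 122) (nat_lit 5) (nat_lit 4) (nat_lit 4) L994134 (by decide +kernel)
theorem L994136 : W_3 (nat_lit 4) (nat_lit 0x1a001800004007e0021000000000000000000) (nat_lit 0x0) (nat_lit 0x500018001c000000000000000000000000000000) := T_3 (nat_lit 123) (nat_lit 124) (nat_lit 7) (nat_lit 4) (nat_lit 4) L994135 (by decide +kernel)
theorem L994137 : W_3 (nat_lit 5) (nat_lit 0x1a001800000007e0021000000000000000000) (nat_lit 0x0) (nat_lit 0x500018001c000600000000000000000000000000) := T_3 (nat_lit 106) (nat_lit 105) (nat_lit 1) (nat_lit 7) (nat_lit 5) L994136 (by decide +kernel)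
theorem L994138 : W_3 (nat_lit 6) (nat_lit 0x1a001800000007c0021000000000000000000) (nat_lit 0x0) (nat_lit 0x500018001c000600020000800000000000000000) := T_3 (nat_lit 89) (nat_lit 71) (nat_lit 0) (nat_lit 7) (nat_lit 5) L994137 (by decide +kernel)
theorem L994139 : W_3 (nat_lit 7) (nat_lit 0x1a001800000007c0020000000000000000000) (nat_lit 0x0) (nat_lit 0x500018001c000600020003800000000000000000) := T_3 (nat_lit 72) (nat_lit 73) (nat_lit 0) (nat_lit 8) (nat_lit 5) L994138 (by decide +kernel)
theorem L994140 : W_3 (nat_lit 8) (nat_lit 0x1a00180000000780020000000000000000000) (nat_lit 0x0) (nat_lit 0x500018001c000600060013800000000000000000) := T_3 (nat_lit 90) (nat_lit 76) (nat_lit 2) (nat_lit 5) (nat_lit 5) L994139 (by decide +kernel)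
theorem L994141 : W_3 (nat_lit 9) (nat_lit 0x1a00180000000780000000000000000000000) (nat_lit 0x0) (nat_lit 0x500018001c000600060073800000000000000000) := T_3 (nat_lit 77) (nat_lit 78) (nat_lit 2) (nat_lit 6) (nat_lit 5) L994140 (by decide +kernel)
theorem L994142 : W_3 (nat_lit 10) (nat_lit 0x1800180000000780000000000000000000000) (nat_lit 0x0) (nat_lit 0x500078001c000600060073800000000000000000) := T_3 (nat_lit 141) (nat_lit 142) (nat_lit 2) (nat_lit 5) (nat_lit 8) L994141 (by decide +kernel)
theorem L994170 : W_3 (nat_lit 2) (nat_lit 0x1a00180001000f80000000000000000000000) (nat_lit 0x0) (nat_lit 0xe0000000000000000000) := D_3 (nat_lit 78) (nat_lit 77) (nat_lit 79) (nat_lit 2) (nat_lit 6) (nat_lit 5) (nat_lit 2) (nat_lit 7) (nat_lit 5) (by decide +kernel)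
theorem L994171 : W_3 (nat_lit 3) (nat_lit 0x1a00180001000780000000000000000000000) (nat_lit 0x0) (nat_lit 0x20008000e0000000000000000000) := T_3 (nat_lit 95) (nat_lit 109) (nat_lit 1) (nat_lit 10) (nat_lit 5) L994170 (by decide +kernel)
theorem L994172 : W_3 (nat_lit 4) (nat_lit 0x1800180001000780000000000000000000000) (nat_lit 0x0) (nat_lit 0x6000000020008000e0000000000000000000) := T_3 (nat_lit 141) (nat_lit 142) (nat_lit 2) (nat_lit 5) (nat_lit 8) L994171 (by decide +kernel)
theorem L994173 : W_3 (nat_lit 5) (nat_lit 0x1800180000000780000000000000000000000) (nat_lit 0x0) (nat_lit 0x6000000038008000e0000000000000000000) := T_3 (nat_lit 108) (nat_lit 107) (nat_lit 1) (nat_lit 9) (nat_lit 5) L994172 (by decide +kernel)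
theorem L994208 : W_3 (nat_lit 2) (nat_lit 0x1a00180042001f00108000000000000000000) (nat_lit 0x0) (nat_lit 0x80002000200000000000000000000) := D_3 (nat_lit 97) (nat_lit 81) (nat_lit 115) (nat_lit 2) (nat_lit 9) (nat_lit 5) (nat_lit 3) (nat_lit 9) (nat_lit 5) (by decide +kernel)
theorem L994209 : W_3 (nat_lit 3) (nat_lit 0x1a00180002001f00108000000000000000000) (nat_lit 0x0) (nat_lit 0xe0002000200000000000000000000) := T_3 (nat_lit 114) (nat_lit 113) (nat_lit 3) (nat_lit 8) (nat_lit 5) L994208 (by decide +kernel)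
theorem L994210 : W_3 (nat_lit 4) (nat_lit 0x1a00180002001f00008000000000000000000) (nat_lit 0x0) (nat_lit 0xe0002000380000000000000000000) := T_3 (nat_lit 80) (nat_lit 79) (nat_lit 2) (nat_lit 8) (nat_lit 5) L994209 (by decide +kernel)
theorem L994211 : W_3 (nat_lit 5) (nat_lit 0x1a00180002000f00008000000000000000000) (nat_lit 0x0) (nat_lit 0xe0003000390000000000000000000) := T_3 (nat_lit 96) (nat_lit 76) (nat_lit 0) (nat_lit 11) (nat_lit 5) L994210 (by decide +kernel)
theorem L994212 : W_3 (nat_lit 6) (nat_lit 0x1a00180002000f00000000000000000000000) (nat_lit 0x0) (nat_lit 0xe000300039c000000000000000000) := T_3 (nat_lit 75) (nat_lit 74) (nat_lit 0) (nat_lit 10) (nat_lit 5) L994211 (by decide +kernel)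
theorem L994213 : W_3 (nat_lit 7) (nat_lit 0x1800180002000f00000000000000000000000) (nat_lit 0x0) (nat_lit 0x6000000e000300039c000000000000000000) := T_3 (nat_lit 141) (nat_lit 142) (nat_lit 2) (nat_lit 5) (nat_lit 8) L994212 (by decide +kernel)
theorem L994214 : W_3 (nat_lit 8) (nat_lit 0x1800180000000f00000000000000000000000) (nat_lit 0x0) (nat_lit 0x6000000e300300039c000000000000000000) := T_3 (nat_lit 109) (nat_lit 108) (nat_lit 1) (nat_lit 10) (nat_lit 5) L994213 (by decide +kernel)
theorem L994235 : W_3 (nat_lit 2) (nat_lit 0x1a00180010000f00040000000000000000000) (nat_lit 0x0) (nat_lit 0x2000000008000000000002000000000000000) := D_3 (nat_lit 111) (nat_lit 61) (nat_lit 145) (nat_lit 5) (nat_lit 10) (nat_lit 3) (nat_lit 6) (nat_lit 9) (nat_lit 8) (by decide +kernel)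
theorem L994236 : W_3 (nat_lit 3) (nat_lit 0x1a00180010000f00000000000000000000000) (nat_lit 0x0) (nat_lit 0x20000000080000000c0002000000000000000) := T_3 (nat_lit 78) (nat_lit 79) (nat_lit 2) (nat_lit 7) (nat_lit 5) L994235 (by decide +kernel)
theorem L994237 : W_3 (nat_lit 4) (nat_lit 0x1a00180000000f00000000000000000000000) (nat_lit 0x0) (nat_lit 0x20000000380000000c0002000000000000000) := T_3 (nat_lit 112) (nat_lit 113) (nat_lit 3) (nat_lit 7) (nat_lit 5) L994236 (by decide +kernel)
theorem L994238 : W_3 (nat_lit 5) (nat_lit 0x1800180000000f00000000000000000000000) (nat_lit 0x0) (nat_lit 0x26000000380000000c0002000000000000000) := T_3 (nat_lit 141) (nat_lit 142) (nat_lit 2) (nat_lit 5) (nat_lit 8) L994237 (by decide +kernel)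
theorem L997451 : W_3 (nat_lit 2) (nat_lit 0x7000300008001c00180000000000000000000000000000000) (nat_lit 0x0) (nat_lit 0xc00020000000000000000000000000000000000000000) := D_3 (nat_lit 178) (nat_lit 161) (nat_lit 179) (nat_lit 5) (nat_lit 8) (nat_lit 7) (nat_lit 1) (nat_lit 9) (nat_lit 10) (by decide +kernel)
theorem L997452 : W_3 (nat_lit 3) (nat_lit 0x7000100008001c00180000000000000000000000000000000) (nat_lit 0x0) (nat_lit 0xe00020000000020000000000000000000000000000000) := T_3 (nat_lit 177) (nat_lit 125) (nat_lit 7) (nat_lit 6) (nat_lit 7) L997451 (by decide +kernel)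
theorem L997453 : W_3 (nat_lit 4) (nat_lit 0x3000100008001c00180000000000000000000000000000000) (nat_lit 0x0) (nat_lit 0x80004000e00020000000020000000000000000000000000000000) := T_3 (nat_lit 194) (nat_lit 211) (nat_lit 7) (nat_lit 6) (nat_lit 8) L997452 (by decide +kernel)
theorem L997456 : W_3 (nat_lit 4) (nat_lit 0x2000100008001c00180000000000000000000000000000000) (nat_lit 0x0) (nat_lit 0x14000e0005000000000000000000000000000000000000000000000000) := T_3 (nat_lit 209) (nat_lit 192) (nat_lit 5) (nat_lit 6) (nat_lit 8) L817149 (by decide +kernel)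
theorem L997457 : W_3 (nat_lit 3) (nat_lit 0x1000100008001c00180000000000000000000000000000000) (nat_lit 0x0) (nat_lit 0x400020002000080000000000020000000000000000000000000000000) := T_3 (nat_lit 175) (nat_lit 125) (nat_lit 5) (nat_lit 6) (nat_lit 7) L867951 (by decide +kernel)
theorem L997458 : W_3 (nat_lit 5) (nat_lit 0x1000100008001c00180000000000000000000000000000000) (nat_lit 0x0) (nat_lit 0xa0006000e00020000000020000000000000000000000000000000) := T_3 (nat_lit 193) (nat_lit 209) (nat_lit 5) (nat_lit 6) (nat_lit 8) L997453 (by decide +kernel)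
theorem L997459 : W_3 (nat_lit 2) (nat_lit 0x20001000100008001c00180000000000000000000000000000000) (nat_lit 0x0) (nat_lit 0x400000000000080004000000000000000000000000000000000000000) := D_3 (nat_lit 175) (nat_lit 158) (nat_lit 226) (nat_lit 6) (nat_lit 5) (nat_lit 12) (nat_lit 6) (nat_lit 5) (nat_lit 13) (by decide +kernel)
theorem L997460 : W_3 (nat_lit 3) (nat_lit 0x1000100008001c00180000000000000000000000000000000) (nat_lit 0x0) (nat_lit 0x400020002000080004000000000000000000000000000000000000000) := T_3 (nat_lit 209) (nat_lit 193) (nat_lit 5) (nat_lit 6) (nat_lit 8) L997459 (by decide +kernel)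
theorem L997461 : W_3 (nat_lit 2) (nat_lit 0x1000180008001c00180000000000000000000000000000000) (nat_lit 0x0) (nat_lit 0x400020000000000004000000000000000000000000000000000000000) := D_3 (nat_lit 209) (nat_lit 158) (nat_lit 226) (nat_lit 6) (nat_lit 5) (nat_lit 12) (nat_lit 6) (nat_lit 5) (nat_lit 13) (by decide +kernel)
theorem L997462 : W_3 (nat_lit 3) (nat_lit 0x1000100008001c00180000000000000000000000000000000) (nat_lit 0x0) (nat_lit 0x400020000000080004000000020000000000000000000000000000000) := T_3 (nat_lit 175) (nat_lit 125) (nat_lit 5) (nat_lit 6) (nat_lit 7) L997461 (by decide +kernel)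
theorem L997463 : W_3 (nat_lit 2) (nat_lit 0x1000700008001c001a0009a00580000000000000000000000) (nat_lit 0x0) (nat_lit 0x2000800004000000000000000000000000000000000000000) := D_3 (nat_lit 179) (nat_lit 193) (nat_lit 158) (nat_lit 1) (nat_lit 9) (nat_lit 10) (nat_lit 0) (nat_lit 9) (nat_lit 10) (by decide +kernel)
theorem L997464 : W_3 (nat_lit 3) (nat_lit 0x1000300008001c001a0009a00580000000000000000000000) (nat_lit 0x0) (nat_lit 0x2000c00024000000000000000000000000000000000000000) := T_3 (nat_lit 178) (nat_lit 161) (nat_lit 6) (nat_lit 8) (nat_lit 10) L997463 (by decide +kernel)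
theorem L997465 : W_3 (nat_lit 4) (nat_lit 0x1000300008001c001a0001a00580000000000000000000000) (nat_lit 0x0) (nat_lit 0x2000c00024000000000008000000020000000000000000000) := T_3 (nat_lit 111) (nat_lit 77) (nat_lit 5) (nat_lit 9) (nat_lit 4) L997464 (by decide +kernel)
theorem L997466 : W_3 (nat_lit 5) (nat_lit 0x1000300008001c001a0001a00180000000000000000000000) (nat_lit 0x0) (nat_lit 0x2000c00024000000000008000600020000000000000000000) := T_3 (nat_lit 94) (nat_lit 93) (nat_lit 1) (nat_lit 9) (nat_lit 5) L997465 (by decide +kernel)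
theorem L997467 : W_3 (nat_lit 6) (nat_lit 0x1000300008001c001a0001800180000000000000000000000) (nat_lit 0x0) (nat_lit 0x2000c00024000000000008600600020000000000000000000) := T_3 (nat_lit 105) (nat_lit 106) (nat_lit 2) (nat_lit 3) (nat_lit 6) L997466 (by decide +kernel)
theorem L997468 : W_3 (nat_lit 7) (nat_lit 0x1000300008001c001a0001800100000000000000000000000) (nat_lit 0x0) (nat_lit 0x2000c00024000000000008600680028000000000000000000) := T_3 (nat_lit 91) (nat_lit 75) (nat_lit 6) (nat_lit 6) (nat_lit 8) L997467 (by decide +kernel)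
theorem L997469 : W_3 (nat_lit 8) (nat_lit 0x1000300008001c001a0001800000000000000000000000000) (nat_lit 0x0) (nat_lit 0x2000c0002400000000000a600780028000000000000000000) := T_3 (nat_lit 92) (nat_lit 109) (nat_lit 6) (nat_lit 6) (nat_lit 9) L997468 (by decide +kernel)
theorem L997470 : W_3 (nat_lit 9) (nat_lit 0x1000300008001c001a0000800000000000000000000000000) (nat_lit 0x0) (nat_lit 0x2000c0002400000000000b6007c0028000000000000000000) := T_3 (nat_lit 108) (nat_lit 90) (nat_lit 4) (nat_lit 6) (nat_lit 9) L997469 (by decide +kernel)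
theorem L997471 : W_3 (nat_lit 10) (nat_lit 0x1000100008001c001a0000800000000000000000000000000) (nat_lit 0x0) (nat_lit 0x6000e0002400000000000b6007c0028000000000000000000) := T_3 (nat_lit 177) (nat_lit 194) (nat_lit 7) (nat_lit 6) (nat_lit 7) L997470 (by decide +kernel)
theorem L997472 : W_3 (nat_lit 11) (nat_lit 0x1000100008001c001a0000000000000000000000000000000) (nat_lit 0x0) (nat_lit 0x6000e0002400000001000be007c0028000000000000000000) := T_3 (nat_lit 107) (nat_lit 124) (nat_lit 4) (nat_lit 6) (nat_lit 10) L997471 (by decide +kernel)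
theorem L997473 : W_3 (nat_lit 12) (nat_lit 0x1000100008001c00180000000000000000000000000000000) (nat_lit 0x0) (nat_lit 0x6000e8002400000003000be007c0028000000000000000000) := T_3 (nat_lit 125) (nat_lit 175) (nat_lit 5) (nat_lit 6) (nat_lit 7) L997472 (by decide +kernel)
theorem L997474 : W_3 (nat_lit 13) (nat_lit 0x100008001c00180000000000000000000000000000000) (nat_lit 0x0) (nat_lit 0x4000a0007000e8002400000003000be007c0028000000000000000000) := Q_3 (nat_lit 192) (C_3 L997457 (C_3 L997458 (C_3 L997460 (C_3 L997462 (C_3 L997473 N_3))))) (by decide +kernel)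
theorem L997475 : W_3 (nat_lit 5) (nat_lit 0x100008001c00180000000000000000000000000000000) (nat_lit 0x0) (nat_lit 0x14000e0007000000000000000040000000000000000000000000000000) := T_3 (nat_lit 193) (nat_lit 126) (nat_lit 6) (nat_lit 6) (nat_lit 11) L997456 (by decide +kernel)
theorem L997476 : W_3 (nat_lit 3) (nat_lit 0x100008001c00180000000000000000000000000000000) (nat_lit 0x0) (nat_lit 0x2000000000000000060002000100000000000000000000000) := T_3 (nat_lit 126) (nat_lit 193) (nat_lit 6) (nat_lit 6) (nat_lit 11) L620689 (by decide +kernel)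
theorem L997477 : W_3 (nat_lit 2) (nat_lit 0x100008001c001b0000000000000000000000000000000) (nat_lit 0x0) (nat_lit 0x4c000000000000000000000000000000) := D_3 (nat_lit 123) (nat_lit 126) (nat_lit 122) (nat_lit 3) (nat_lit 4) (nat_lit 7) (nat_lit 3) (nat_lit 3) (nat_lit 7) (by decide +kernel)
theorem L997478 : W_3 (nat_lit 3) (nat_lit 0x100008001c001a0000000000000000000000000000000) (nat_lit 0x0) (nat_lit 0x5c000800000000000000000000000000) := T_3 (nat_lit 124) (nat_lit 107) (nat_lit 4) (nat_lit 6) (nat_lit 10) L997477 (by decide +kernel)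
theorem L997479 : W_3 (nat_lit 2) (nat_lit 0x100008001c001e0009000000000000000000000000000) (nat_lit 0x0) (nat_lit 0x1000080004000000000000000000000000000000000000000) := D_3 (nat_lit 175) (nat_lit 192) (nat_lit 158) (nat_lit 5) (nat_lit 6) (nat_lit 7) (nat_lit 5) (nat_lit 6) (nat_lit 6) (by decide +kernel)
theorem L997480 : W_3 (nat_lit 3) (nat_lit 0x100008001c001e0008000000000000000000000000000) (nat_lit 0x0) (nat_lit 0x1000080004000000000001800000000000000000000000000) := T_3 (nat_lit 108) (nat_lit 107) (nat_lit 0) (nat_lit 9) (nat_lit 7) L997479 (by decide +kernel)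
theorem L997481 : W_3 (nat_lit 4) (nat_lit 0x100008001c001e0000000000000000000000000000000) (nat_lit 0x0) (nat_lit 0x1000080004000000000019800000000000000000000000000) := T_3 (nat_lit 111) (nat_lit 112) (nat_lit 2) (nat_lit 6) (nat_lit 7) L997480 (by decide +kernel)
theorem L997482 : W_3 (nat_lit 5) (nat_lit 0x100008001c001a0000000000000000000000000000000) (nat_lit 0x0) (nat_lit 0x100008000400000004001b800000000000000000000000000) := T_3 (nat_lit 126) (nat_lit 109) (nat_lit 6) (nat_lit 6) (nat_lit 10) L997481 (by decide +kernel)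
theorem L997483 : W_3 (nat_lit 2) (nat_lit 0x180008001c001a0001000000000000000000000000000) (nat_lit 0x0) (nat_lit 0x40002000100000000000000000000000) := D_3 (nat_lit 109) (nat_lit 126) (nat_lit 92) (nat_lit 6) (nat_lit 6) (nat_lit 10) (nat_lit 6) (nat_lit 6) (nat_lit 9) (by decide +kernel)
theorem L997484 : W_3 (nat_lit 3) (nat_lit 0x180008001c001a0000000000000000000000000000000) (nat_lit 0x0) (nat_lit 0x4000000040003000100000000000000000000000) := T_3 (nat_lit 108) (nat_lit 158) (nat_lit 5) (nat_lit 6) (nat_lit 6) L997483 (by decide +kernel)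
theorem L997485 : W_3 (nat_lit 4) (nat_lit 0x100008001c001a0000000000000000000000000000000) (nat_lit 0x0) (nat_lit 0x1000080004000000040003000100000000000000000000000) := T_3 (nat_lit 175) (nat_lit 192) (nat_lit 5) (nat_lit 6) (nat_lit 7) L997484 (by decide +kernel)
theorem L997486 : W_3 (nat_lit 6) (nat_lit 0x100008001c00180000000000000000000000000000000) (nat_lit 0x0) (nat_lit 0x100008000400000007c01b800140000000000000000000000) := Q_3 (nat_lit 125) (C_3 L817073 (C_3 L997478 (C_3 L997482 (C_3 L997485 N_3)))) (by decide +kernel)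
theorem L997487 : W_3 (nat_lit 14) (nat_lit 0x8001c00180000000000000000000000000000000) (nat_lit 0x0) (nat_lit 0x14000e0007000f8002400000007c01be007c0028000000000000000000) := Q_3 (nat_lit 176) (C_3 L997474 (C_3 L997475 (C_3 L997476 (C_3 L997486 N_3)))) (by decide +kernel)
theorem L997488 : W_3 (nat_lit 6) (nat_lit 0x8001c00180000000000000000000000000000000) (nat_lit 0x0) (nat_lit 0x38401e000070000000000000000000000000000000) := T_3 (nat_lit 145) (nat_lit 158) (nat_lit 1) (nat_lit 9) (nat_lit 8) L822548 (by decide +kernel)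
theorem L997495 : W_3 (nat_lit 6) (nat_lit 0x100008001c00180000000000000000000000000000000) (nat_lit 0x0) (nat_lit 0xa0007000280004002000030000000000000000000000000000000) := T_3 (nat_lit 145) (nat_lit 158) (nat_lit 1) (nat_lit 9) (nat_lit 8) L867781 (by decide +kernel)
theorem L997496 : W_3 (nat_lit 2) (nat_lit 0x10000c001c001a0000000000000000000000000000000) (nat_lit 0x0) (nat_lit 0x1000080000000000000001000000000000000000000000000) := D_3 (nat_lit 175) (nat_lit 192) (nat_lit 108) (nat_lit 5) (nat_lit 6) (nat_lit 7) (nat_lit 5) (nat_lit 6) (nat_lit 6) (by decide +kernel)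
theorem L997497 : W_3 (nat_lit 3) (nat_lit 0x100008001c001a0000000000000000000000000000000) (nat_lit 0x0) (nat_lit 0x1000080004002000000001000000000000000000000000000) := T_3 (nat_lit 158) (nat_lit 145) (nat_lit 1) (nat_lit 9) (nat_lit 8) L997496 (by decide +kernel)
theorem L997498 : W_3 (nat_lit 5) (nat_lit 0x100008001c00180000000000000000000000000000000) (nat_lit 0x0) (nat_lit 0x1000080004002000030001800040000000000000000000000) := Q_3 (nat_lit 125) (C_3 L817073 (C_3 L897225 (C_3 L997497 N_3))) (by decide +kernel)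
theorem L997522 : W_3 (nat_lit 2) (nat_lit 0x700028001c00180000000000000000000000000000000) (nat_lit 0x0) (nat_lit 0x10000800004000000000000000000000000000000000000000) := D_3 (nat_lit 179) (nat_lit 158) (nat_lit 196) (nat_lit 0) (nat_lit 9) (nat_lit 10) (nat_lit 7) (nat_lit 8) (nat_lit 7) (by decide +kernel)
theorem L997523 : W_3 (nat_lit 3) (nat_lit 0x500028001c00180000000000000000000000000000000) (nat_lit 0x0) (nat_lit 0x14000a00004000000000000000000000000000000000000000) := T_3 (nat_lit 177) (nat_lit 194) (nat_lit 5) (nat_lit 8) (nat_lit 7) L997522 (by decide +kernel)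
theorem L997524 : W_3 (nat_lit 4) (nat_lit 0x500008001c00180000000000000000000000000000000) (nat_lit 0x0) (nat_lit 0x14000a00024000000000008000000000000000000000000000) := T_3 (nat_lit 161) (nat_lit 111) (nat_lit 6) (nat_lit 8) (nat_lit 10) L997523 (by decide +kernel)
theorem L997525 : W_3 (nat_lit 2) (nat_lit 0x500008003c00180000000000000000000000000000000) (nat_lit 0x0) (nat_lit 0x8000000020000000000008000000000000000000000000000) := D_3 (nat_lit 161) (nat_lit 111) (nat_lit 195) (nat_lit 6) (nat_lit 8) (nat_lit 10) (nat_lit 6) (nat_lit 8) (nat_lit 11) (by decide +kernel)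
theorem L997526 : W_3 (nat_lit 3) (nat_lit 0x500008001c00180000000000000000000000000000000) (nat_lit 0x0) (nat_lit 0x8000000024002000000008000000000000000000000000000) := T_3 (nat_lit 145) (nat_lit 158) (nat_lit 1) (nat_lit 9) (nat_lit 8) L997525 (by decide +kernel)
theorem L997527 : W_3 (nat_lit 2) (nat_lit 0x10000700028001c00180000000000000000000000000000000) (nat_lit 0x0) (nat_lit 0x200008000000000002000000000000000000000000000000000000) := D_3 (nat_lit 195) (nat_lit 145) (nat_lit 213) (nat_lit 6) (nat_lit 8) (nat_lit 11) (nat_lit 7) (nat_lit 8) (nat_lit 8) (by decide +kernel)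
theorem L997528 : W_3 (nat_lit 3) (nat_lit 0x700028001c00180000000000000000000000000000000) (nat_lit 0x0) (nat_lit 0x200018000800000002000000000000000000000000000000000000) := T_3 (nat_lit 196) (nat_lit 179) (nat_lit 7) (nat_lit 8) (nat_lit 7) L997527 (by decide +kernel)
theorem L997529 : W_3 (nat_lit 4) (nat_lit 0x500028001c00180000000000000000000000000000000) (nat_lit 0x0) (nat_lit 0x20001c000a00000002000000000000000000000000000000000000) := T_3 (nat_lit 177) (nat_lit 194) (nat_lit 5) (nat_lit 8) (nat_lit 7) L997528 (by decide +kernel)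
theorem L997530 : W_3 (nat_lit 5) (nat_lit 0x500008001c00180000000000000000000000000000000) (nat_lit 0x0) (nat_lit 0x20001c000a00020002000000008000000000000000000000000000) := T_3 (nat_lit 161) (nat_lit 111) (nat_lit 6) (nat_lit 8) (nat_lit 10) L997529 (by decide +kernel)
theorem L997531 : W_3 (nat_lit 6) (nat_lit 0x100008001c00180000000000000000000000000000000) (nat_lit 0x0) (nat_lit 0x20001c000e80027002000000008000000000000000000000000000) := Q_3 (nat_lit 178) (C_3 L997524 (C_3 L844215 (C_3 L997526 (C_3 L997530 N_3)))) (by decide +kernel)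
theorem L997532 : W_3 (nat_lit 2) (nat_lit 0x30000b400700028001c001a0000000000000000000000000000000) (nat_lit 0x0) (nat_lit 0x10000c0000000000000000000000000000000000000000000000000000) := D_3 (nat_lit 211) (nat_lit 228) (nat_lit 210) (nat_lit 5) (nat_lit 8) (nat_lit 9) (nat_lit 0) (nat_lit 9) (nat_lit 12) (by decide +kernel)
theorem L997533 : W_3 (nat_lit 3) (nat_lit 0x20000b400700028001c001a0000000000000000000000000000000) (nat_lit 0x0) (nat_lit 0x50001c0000000000000000000000000000000000000000000000000000) := T_3 (nat_lit 212) (nat_lit 230) (nat_lit 7) (nat_lit 8) (nat_lit 9) L997532 (by decide +kernel)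
theorem L997534 : W_3 (nat_lit 4) (nat_lit 0xb400700028001c001a0000000000000000000000000000000) (nat_lit 0x0) (nat_lit 0x50003c0010000000000000000000000000000000000000000000000000) := T_3 (nat_lit 213) (nat_lit 196) (nat_lit 7) (nat_lit 8) (nat_lit 8) L997533 (by decide +kernel)
theorem L997535 : W_3 (nat_lit 5) (nat_lit 0x3400700028001c001a0000000000000000000000000000000) (nat_lit 0x0) (nat_lit 0x50003c0018000000000002000000000000000000000000000000000000) := T_3 (nat_lit 195) (nat_lit 145) (nat_lit 6) (nat_lit 8) (nat_lit 11) L997534 (by decide +kernel)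
theorem L997536 : W_3 (nat_lit 6) (nat_lit 0x3400700008001c001a0000000000000000000000000000000) (nat_lit 0x0) (nat_lit 0x50003c0018000000020002000000008000000000000000000000000000) := T_3 (nat_lit 161) (nat_lit 111) (nat_lit 6) (nat_lit 8) (nat_lit 10) L997535 (by decide +kernel)
theorem L997537 : W_3 (nat_lit 7) (nat_lit 0x3400300008001c001a0000000000000000000000000000000) (nat_lit 0x0) (nat_lit 0x50003c0018000c00020002000000008000000000000000000000000000) := T_3 (nat_lit 178) (nat_lit 179) (nat_lit 1) (nat_lit 9) (nat_lit 10) L997536 (by decide +kernel)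
theorem L997538 : W_3 (nat_lit 8) (nat_lit 0x3000300008001c001a0000000000000000000000000000000) (nat_lit 0x0) (nat_lit 0x50003c0018c00c00020002000000008000000000000000000000000000) := T_3 (nat_lit 190) (nat_lit 191) (nat_lit 2) (nat_lit 3) (nat_lit 11) L997537 (by decide +kernel)
theorem L997539 : W_3 (nat_lit 9) (nat_lit 0x1000300008001c001a0000000000000000000000000000000) (nat_lit 0x0) (nat_lit 0x50003e001ac00c00020002000000008000000000000000000000000000) := T_3 (nat_lit 193) (nat_lit 209) (nat_lit 5) (nat_lit 6) (nat_lit 8) L997538 (by decide +kernel)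
theorem L997540 : W_3 (nat_lit 10) (nat_lit 0x300008001c001a0000000000000000000000000000000) (nat_lit 0x0) (nat_lit 0x50003e001bc00c80020002000000008000000000000000000000000000) := T_3 (nat_lit 192) (nat_lit 175) (nat_lit 5) (nat_lit 6) (nat_lit 7) L997539 (by decide +kernel)
theorem L997541 : W_3 (nat_lit 11) (nat_lit 0x100008001c001a0000000000000000000000000000000) (nat_lit 0x0) (nat_lit 0x50003e001fc00e80020002000000008000000000000000000000000000) := T_3 (nat_lit 177) (nat_lit 194) (nat_lit 7) (nat_lit 6) (nat_lit 7) L997540 (by decide +kernel)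
theorem L997542 : W_3 (nat_lit 12) (nat_lit 0x100008001c00180000000000000000000000000000000) (nat_lit 0x0) (nat_lit 0x50003e001fc00e8002000200003c008800000000000000000000000000) := Q_3 (nat_lit 125) (C_3 L818955 (C_3 L897225 (C_3 L997541 N_3))) (by decide +kernel)
theorem L997547 : W_3 (nat_lit 2) (nat_lit 0x400070000d001c00180000000000000000000000000000000) (nat_lit 0x0) (nat_lit 0x1000080002000000000000000000000000000000000000000000000000) := D_3 (nat_lit 211) (nat_lit 228) (nat_lit 193) (nat_lit 4) (nat_lit 7) (nat_lit 13) (nat_lit 7) (nat_lit 6) (nat_lit 8) (by decide +kernel)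
theorem L997548 : W_3 (nat_lit 3) (nat_lit 0x70000d001c00180000000000000000000000000000000) (nat_lit 0x0) (nat_lit 0x1000080006000000000000000020000000000000000000000000000000) := T_3 (nat_lit 194) (nat_lit 125) (nat_lit 7) (nat_lit 6) (nat_lit 7) L997547 (by decide +kernel)
theorem L997549 : W_3 (nat_lit 4) (nat_lit 0x70000c001c00180000000000000000000000000000000) (nat_lit 0x0) (nat_lit 0x1000080006000000003000000020000000000000000000000000000000) := T_3 (nat_lit 156) (nat_lit 157) (nat_lit 3) (nat_lit 3) (nat_lit 9) L997548 (by decide +kernel)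
theorem L997550 : W_3 (nat_lit 5) (nat_lit 0x50000c001c00180000000000000000000000000000000) (nat_lit 0x0) (nat_lit 0x1000080006000a00003000000020000000000000000000000000000000) := T_3 (nat_lit 177) (nat_lit 179) (nat_lit 0) (nat_lit 9) (nat_lit 10) L997549 (by decide +kernel)
theorem L997551 : W_3 (nat_lit 6) (nat_lit 0x500008001c00180000000000000000000000000000000) (nat_lit 0x0) (nat_lit 0x1000080006000a00007002000020000000000000000000000000000000) := T_3 (nat_lit 158) (nat_lit 145) (nat_lit 1) (nat_lit 9) (nat_lit 8) L997550 (by decide +kernel)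
theorem L997552 : W_3 (nat_lit 7) (nat_lit 0x100008001c00180000000000000000000000000000000) (nat_lit 0x0) (nat_lit 0x100028001e000e00027002000020008000000000000000000000000000) := Q_3 (nat_lit 178) (C_3 L997524 (C_3 L997526 (C_3 L997530 (C_3 L997551 N_3)))) (by decide +kernel)
theorem L997553 : W_3 (nat_lit 14) (nat_lit 0x8001c00180000000000000000000000000000000) (nat_lit 0x0) (nat_lit 0x54003e001fc00f8002700200003c00be007c0028000000000000000000) := Q_3 (nat_lit 176) (C_3 L997474 (C_3 L997495 (C_3 L997498 (C_3 L997531 (C_3 L997542 (C_3 L997552 N_3)))))) (by decide +kernel)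
theorem L997559 : W_3 (nat_lit 2) (nat_lit 0x400028001c00180000000000000000000000000000000) (nat_lit 0x0) (nat_lit 0x8000000000000000040002000000000000000000000000000) := D_3 (nat_lit 126) (nat_lit 109) (nat_lit 195) (nat_lit 4) (nat_lit 8) (nat_lit 10) (nat_lit 4) (nat_lit 8) (nat_lit 11) (by decide +kernel)
theorem L997563 : W_3 (nat_lit 3) (nat_lit 0x400008001c00180000000000000000000000000000000) (nat_lit 0x0) (nat_lit 0x800000002000000004000a000000000000000000000000000) := T_3 (nat_lit 161) (nat_lit 111) (nat_lit 6) (nat_lit 8) (nat_lit 10) L997559 (by decide +kernel)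
theorem L997564 : W_3 (nat_lit 2) (nat_lit 0x400008003c00180000000000000000000000000000000) (nat_lit 0x0) (nat_lit 0x8000000020000000000008000000000000000000000000000) := D_3 (nat_lit 161) (nat_lit 111) (nat_lit 195) (nat_lit 6) (nat_lit 8) (nat_lit 10) (nat_lit 6) (nat_lit 8) (nat_lit 11) (by decide +kernel)
theorem L997565 : W_3 (nat_lit 3) (nat_lit 0x400008001c00180000000000000000000000000000000) (nat_lit 0x0) (nat_lit 0x8000000024002000000008000000000000000000000000000) := T_3 (nat_lit 145) (nat_lit 158) (nat_lit 1) (nat_lit 9) (nat_lit 8) L997564 (by decide +kernel)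
theorem L997566 : W_3 (nat_lit 2) (nat_lit 0xe00028001c00180000000000000000000000000000000) (nat_lit 0x0) (nat_lit 0x100004002000000000000000000000000000000000000) := D_3 (nat_lit 158) (nat_lit 176) (nat_lit 145) (nat_lit 0) (nat_lit 9) (nat_lit 10) (nat_lit 1) (nat_lit 9) (nat_lit 8) (by decide +kernel)
theorem L997567 : W_3 (nat_lit 3) (nat_lit 0x600028001c00180000000000000000000000000000000) (nat_lit 0x0) (nat_lit 0x10000900004002000000000000000000000000000000000000) := T_3 (nat_lit 179) (nat_lit 196) (nat_lit 7) (nat_lit 8) (nat_lit 7) L997566 (by decide +kernel)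
theorem L997568 : W_3 (nat_lit 4) (nat_lit 0x400028001c00180000000000000000000000000000000) (nat_lit 0x0) (nat_lit 0x14000b00004002000000000000000000000000000000000000) := T_3 (nat_lit 177) (nat_lit 194) (nat_lit 5) (nat_lit 8) (nat_lit 7) L997567 (by decide +kernel)
theorem L997569 : W_3 (nat_lit 5) (nat_lit 0x400008001c00180000000000000000000000000000000) (nat_lit 0x0) (nat_lit 0x14000b00024002000000008000000000000000000000000000) := T_3 (nat_lit 161) (nat_lit 111) (nat_lit 6) (nat_lit 8) (nat_lit 10) L997568 (by decide +kernel)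
theorem L997570 : W_3 (nat_lit 11) (nat_lit 0x8001c00180000000000000000000000000000000) (nat_lit 0x0) (nat_lit 0x2000b801f800fe002700200004000a000000000000000000000000000) := Q_3 (nat_lit 178) (C_3 L997563 (C_3 L844230 (C_3 L997565 (C_3 L997569 N_3)))) (by decide +kernel)
theorem L997573 : W_3 (nat_lit 2) (nat_lit 0x8001c001e0001000100000000000000000000000) (nat_lit 0x0) (nat_lit 0x8000c000000000000000000) := D_3 (nat_lit 91) (nat_lit 75) (nat_lit 74) (nat_lit 6) (nat_lit 6) (nat_lit 8) (nat_lit 7) (nat_lit 6) (nat_lit 4) (by decide +kernel)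
theorem L997574 : W_3 (nat_lit 3) (nat_lit 0x8001c001e0001000000000000000000000000000) (nat_lit 0x0) (nat_lit 0x200018000c000000000000000000) := T_3 (nat_lit 92) (nat_lit 109) (nat_lit 6) (nat_lit 6) (nat_lit 9) L997573 (by decide +kernel)
theorem L997575 : W_3 (nat_lit 4) (nat_lit 0x8001c001e0000000000000000000000000000000) (nat_lit 0x0) (nat_lit 0x380018000c000000000000000000) := T_3 (nat_lit 108) (nat_lit 107) (nat_lit 0) (nat_lit 9) (nat_lit 7) L997574 (by decide +kernel)
theorem L997576 : W_3 (nat_lit 5) (nat_lit 0x8001c001a0000000000000000000000000000000) (nat_lit 0x0) (nat_lit 0x200010000000000005800380018000c000000000000000000) := Q_3 (nat_lit 126) (C_3 L620135 (C_3 L620133 (C_3 L997575 N_3))) (by decide +kernel)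
theorem L997577 : W_3 (nat_lit 5) (nat_lit 0x8001c001a0000000000000000000000000000000) (nat_lit 0x0) (nat_lit 0x38001e000050000000000000000000000000000000) := T_3 (nat_lit 145) (nat_lit 124) (nat_lit 0) (nat_lit 9) (nat_lit 8) L822547 (by decide +kernel)
theorem L997578 : W_3 (nat_lit 2) (nat_lit 0x8001c001e0000000000000000000000000000000) (nat_lit 0x0) (nat_lit 0x2000100000000000000002000000000000000000000000000) := D_3 (nat_lit 176) (nat_lit 193) (nat_lit 109) (nat_lit 6) (nat_lit 6) (nat_lit 11) (nat_lit 6) (nat_lit 6) (nat_lit 10) (by decide +kernel)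
theorem L997579 : W_3 (nat_lit 2) (nat_lit 0x2000000008003c001e0009000000000000000000000000000) (nat_lit 0x0) (nat_lit 0x20000000000000000400020000000000000000000) := D_3 (nat_lit 94) (nat_lit 77) (nat_lit 161) (nat_lit 5) (nat_lit 9) (nat_lit 4) (nat_lit 5) (nat_lit 9) (nat_lit 5) (by decide +kernel)
theorem L997580 : W_3 (nat_lit 3) (nat_lit 0x2000000008003c001e0001000000000000000000000000000) (nat_lit 0x0) (nat_lit 0x20000000000018000400020000000000000000000) := T_3 (nat_lit 111) (nat_lit 112) (nat_lit 2) (nat_lit 6) (nat_lit 7) L997579 (by decide +kernel)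
theorem L997581 : W_3 (nat_lit 4) (nat_lit 0x2000000008001c001e0001000000000000000000000000000) (nat_lit 0x0) (nat_lit 0x20006000000018000400020000000000000000000) := T_3 (nat_lit 145) (nat_lit 146) (nat_lit 3) (nat_lit 6) (nat_lit 7) L997580 (by decide +kernel)
theorem L997582 : W_3 (nat_lit 5) (nat_lit 0x2000000008001c001e0000000000000000000000000000000) (nat_lit 0x0) (nat_lit 0x20006000000019800400020000000000000000000) := T_3 (nat_lit 108) (nat_lit 107) (nat_lit 0) (nat_lit 9) (nat_lit 7) L997581 (by decide +kernel)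
theorem L997583 : W_3 (nat_lit 6) (nat_lit 0x8001c001e0000000000000000000000000000000) (nat_lit 0x0) (nat_lit 0x2000100020006000000019800400020000000000000000000) := T_3 (nat_lit 193) (nat_lit 176) (nat_lit 6) (nat_lit 6) (nat_lit 11) L997582 (by decide +kernel)
theorem L997584 : W_3 (nat_lit 7) (nat_lit 0x8001c001a0000000000000000000000000000000) (nat_lit 0x0) (nat_lit 0x200010002000600004001b80058002c000000000000000000) := Q_3 (nat_lit 126) (C_3 L997575 (C_3 L620133 (C_3 L997578 (C_3 L997583 N_3)))) (by decide +kernel)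
theorem L997585 : W_3 (nat_lit 8) (nat_lit 0x8001c00180000000000000000000000000000000) (nat_lit 0x0) (nat_lit 0x20001003a001e00007c01b8005c002e000000000000000000) := Q_3 (nat_lit 125) (C_3 L897130 (C_3 L997576 (C_3 L997577 (C_3 L997584 N_3)))) (by decide +kernel)
theorem L997586 : W_3 (nat_lit 15) (nat_lit 0x1c00180000000000000000000000000000000) (nat_lit 0x0) (nat_lit 0x56003f801fc00fe03af01e00007c01be007c002e000000000000000000) := Q_3 (nat_lit 159) (C_3 L997487 (C_3 L997488 (C_3 L997553 (C_3 L997570 (C_3 L997585 N_3))))) (by decide +kernel)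
theorem L997587 : W_3 (nat_lit 16) (nat_lit 0x1800180000000000000000000000000000000) (nat_lit 0x0) (nat_lit 0x56003f801fc00fe03af01e60007c01be007c002e000000000000000000) := T_3 (nat_lit 142) (nat_lit 141) (nat_lit 2) (nat_lit 5) (nat_lit 8) L997586 (by decide +kernel)
theorem L997588 : W_3 (nat_lit 17) (nat_lit 0x1800080000000000000000000000000000000) (nat_lit 0x0) (nat_lit 0x56003f803fc01fe03af01e60077c03be00fc007e000000000000000000) := Q_3 (nat_lit 128) (C_3 L822525 (C_3 L822581 (C_3 L802142 (C_3 L988716 (C_3 L997587 N_3))))) (by decide +kernel)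
theorem L997589 : W_3 (nat_lit 2) (nat_lit 0x12001fc0090000000000000000000000000000000) (nat_lit 0x0) (nat_lit 0x7000000000000000000000000000000) := D_3 (nat_lit 121) (nat_lit 122) (nat_lit 120) (nat_lit 0) (nat_lit 6) (nat_lit 8) (nat_lit 0) (nat_lit 5) (nat_lit 8) (by decide +kernel)
theorem L997590 : W_3 (nat_lit 3) (nat_lit 0x12001f80090000000000000000000000000000000) (nat_lit 0x0) (nat_lit 0x40027000000000000000000000000000000) := T_3 (nat_lit 138) (nat_lit 125) (nat_lit 2) (nat_lit 2) (nat_lit 8) L997589 (by decide +kernel)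
theorem L997591 : W_3 (nat_lit 4) (nat_lit 0x12001f00090000000000000000000000000000000) (nat_lit 0x0) (nat_lit 0x80000c0027000000000000000000000000000000) := T_3 (nat_lit 139) (nat_lit 159) (nat_lit 3) (nat_lit 3) (nat_lit 8) L997590 (by decide +kernel)
theorem L997592 : W_3 (nat_lit 5) (nat_lit 0x2001f00090000000000000000000000000000000) (nat_lit 0x0) (nat_lit 0x380000c0027000000000000000000000000000000) := T_3 (nat_lit 160) (nat_lit 161) (nat_lit 3) (nat_lit 4) (nat_lit 8) L997591 (by decide +kernel)
theorem L997593 : W_3 (nat_lit 6) (nat_lit 0x2001e00090000000000000000000000000000000) (nat_lit 0x0) (nat_lit 0x390001c0027000000000000000000000000000000) := T_3 (nat_lit 140) (nat_lit 156) (nat_lit 1) (nat_lit 7) (nat_lit 8) L997592 (by decide +kernel)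
theorem L997594 : W_3 (nat_lit 7) (nat_lit 0x2001e00080000000000000000000000000000000) (nat_lit 0x0) (nat_lit 0x390001c003f000000000000000000000000000000) := T_3 (nat_lit 124) (nat_lit 123) (nat_lit 0) (nat_lit 8) (nat_lit 8) L997593 (by decide +kernel)
theorem L997595 : W_3 (nat_lit 8) (nat_lit 0x1e00080000000000000000000000000000000) (nat_lit 0x0) (nat_lit 0x3f0001c003f000000000000000000000000000000) := T_3 (nat_lit 157) (nat_lit 158) (nat_lit 1) (nat_lit 8) (nat_lit 8) L997594 (by decide +kernel)
theorem L997596 : W_3 (nat_lit 9) (nat_lit 0x1c00080000000000000000000000000000000) (nat_lit 0x0) (nat_lit 0x3f0003c013f000000000000000000000000000000) := T_3 (nat_lit 141) (nat_lit 128) (nat_lit 2) (nat_lit 5) (nat_lit 8) L997595 (by decide +kernel)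
theorem L997597 : W_3 (nat_lit 2) (nat_lit 0x4001e00090000000000000000000000000000000) (nat_lit 0x0) (nat_lit 0x8002000020000000000000000000000000000000) := D_3 (nat_lit 145) (nat_lit 159) (nat_lit 125) (nat_lit 1) (nat_lit 9) (nat_lit 8) (nat_lit 0) (nat_lit 9) (nat_lit 8) (by decide +kernel)
theorem L997598 : W_3 (nat_lit 3) (nat_lit 0x4001e00080000000000000000000000000000000) (nat_lit 0x0) (nat_lit 0x8002000038000000000000000000000000000000) := T_3 (nat_lit 124) (nat_lit 123) (nat_lit 0) (nat_lit 8) (nat_lit 8) L997597 (by decide +kernel)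
theorem L997599 : W_3 (nat_lit 4) (nat_lit 0x1e00080000000000000000000000000000000) (nat_lit 0x0) (nat_lit 0xe002000038000000000000000000000000000000) := T_3 (nat_lit 158) (nat_lit 157) (nat_lit 1) (nat_lit 8) (nat_lit 8) L997598 (by decide +kernel)
theorem L997600 : W_3 (nat_lit 5) (nat_lit 0x1c00080000000000000000000000000000000) (nat_lit 0x0) (nat_lit 0xe002200138000000000000000000000000000000) := T_3 (nat_lit 141) (nat_lit 128) (nat_lit 2) (nat_lit 5) (nat_lit 8) L997599 (by decide +kernel)
theorem L997603 : W_3 (nat_lit 4) (nat_lit 0x1e00090000000000000000000000000000000) (nat_lit 0x0) (nat_lit 0x200010000e002000000000800000000000000000000000000) := T_3 (nat_lit 158) (nat_lit 157) (nat_lit 1) (nat_lit 8) (nat_lit 8) L997602 (by decide +kernel)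
theorem L997604 : W_3 (nat_lit 5) (nat_lit 0x1e00080000000000000000000000000000000) (nat_lit 0x0) (nat_lit 0x200010000e002000018000800000000000000000000000000) := T_3 (nat_lit 124) (nat_lit 123) (nat_lit 0) (nat_lit 8) (nat_lit 8) L997603 (by decide +kernel)
theorem L997608 : W_3 (nat_lit 5) (nat_lit 0x1e00080000000000000000000000000000000) (nat_lit 0x0) (nat_lit 0x80006002000038001000080000000000000000000000) := T_3 (nat_lit 158) (nat_lit 157) (nat_lit 1) (nat_lit 8) (nat_lit 8) L997607 (by decide +kernel)
theorem L997609 : W_3 (nat_lit 2) (nat_lit 0x12001f00084000000000000000000000000000000) (nat_lit 0x0) (nat_lit 0x8000080002000000000000000000000000000000) := D_3 (nat_lit 139) (nat_lit 159) (nat_lit 121) (nat_lit 3) (nat_lit 3) (nat_lit 8) (nat_lit 0) (nat_lit 6) (nat_lit 8) (by decide +kernel)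
theorem L997610 : W_3 (nat_lit 3) (nat_lit 0x2001f00084000000000000000000000000000000) (nat_lit 0x0) (nat_lit 0x38000080002000000000000000000000000000000) := T_3 (nat_lit 160) (nat_lit 161) (nat_lit 3) (nat_lit 4) (nat_lit 8) L997609 (by decide +kernel)
theorem L997611 : W_3 (nat_lit 4) (nat_lit 0x2001f00080000000000000000000000000000000) (nat_lit 0x0) (nat_lit 0x3800008000e000000000000000000000000000000) := T_3 (nat_lit 122) (nat_lit 123) (nat_lit 0) (nat_lit 7) (nat_lit 8) L997610 (by decide +kernel)
theorem L997612 : W_3 (nat_lit 5) (nat_lit 0x2001e00080000000000000000000000000000000) (nat_lit 0x0) (nat_lit 0x3900018000e000000000000000000000000000000) := T_3 (nat_lit 140) (nat_lit 156) (nat_lit 1) (nat_lit 7) (nat_lit 8) L997611 (by decide +kernel)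
theorem L997613 : W_3 (nat_lit 6) (nat_lit 0x1e00080000000000000000000000000000000) (nat_lit 0x0) (nat_lit 0x3f00018000e000000000000000000000000000000) := T_3 (nat_lit 157) (nat_lit 158) (nat_lit 1) (nat_lit 8) (nat_lit 8) L997612 (by decide +kernel)
theorem L997614 : W_3 (nat_lit 2) (nat_lit 0x11001f00088000000000000000000000000000000) (nat_lit 0x0) (nat_lit 0x8800080000000000000000000000000000000000) := D_3 (nat_lit 139) (nat_lit 159) (nat_lit 155) (nat_lit 3) (nat_lit 3) (nat_lit 8) (nat_lit 1) (nat_lit 6) (nat_lit 8) (by decide +kernel)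
theorem L997615 : W_3 (nat_lit 3) (nat_lit 0x1001f00088000000000000000000000000000000) (nat_lit 0x0) (nat_lit 0x38800080000000000000000000000000000000000) := T_3 (nat_lit 160) (nat_lit 161) (nat_lit 3) (nat_lit 4) (nat_lit 8) L997614 (by decide +kernel)
theorem L997616 : W_3 (nat_lit 4) (nat_lit 0x1f00088000000000000000000000000000000) (nat_lit 0x0) (nat_lit 0x3b800080000000000000000000000000000000000) := T_3 (nat_lit 156) (nat_lit 157) (nat_lit 1) (nat_lit 7) (nat_lit 8) L997615 (by decide +kernel)
theorem L997617 : W_3 (nat_lit 5) (nat_lit 0x1e00088000000000000000000000000000000) (nat_lit 0x0) (nat_lit 0x3b800180004000000000000000000000000000000) := T_3 (nat_lit 140) (nat_lit 122) (nat_lit 0) (nat_lit 7) (nat_lit 8) L997616 (by decide +kernel)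
theorem L997618 : W_3 (nat_lit 6) (nat_lit 0x1e00080000000000000000000000000000000) (nat_lit 0x0) (nat_lit 0x3b80018001c000000000000000000000000000000) := T_3 (nat_lit 123) (nat_lit 124) (nat_lit 0) (nat_lit 8) (nat_lit 8) L997617 (by decide +kernel)
theorem L997619 : W_3 (nat_lit 2) (nat_lit 0x20001a003f00080000000000000000000000000000000) (nat_lit 0x0) (nat_lit 0x30001000000000000000000000000000) := D_3 (nat_lit 125) (nat_lit 108) (nat_lit 124) (nat_lit 7) (nat_lit 6) (nat_lit 6) (nat_lit 0) (nat_lit 9) (nat_lit 8) (by decide +kernel)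
theorem L997620 : W_3 (nat_lit 3) (nat_lit 0x20001a001f00080000000000000000000000000000000) (nat_lit 0x0) (nat_lit 0x6000030001000000000000000000000000000) := T_3 (nat_lit 145) (nat_lit 146) (nat_lit 1) (nat_lit 10) (nat_lit 8) L997619 (by decide +kernel)
theorem L997621 : W_3 (nat_lit 4) (nat_lit 0x1a001f00080000000000000000000000000000000) (nat_lit 0x0) (nat_lit 0x4000200000006000030001000000000000000000000000000) := T_3 (nat_lit 177) (nat_lit 194) (nat_lit 6) (nat_lit 7) (nat_lit 11) L997620 (by decide +kernel)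
theorem L997622 : W_3 (nat_lit 5) (nat_lit 0x12001f00080000000000000000000000000000000) (nat_lit 0x0) (nat_lit 0x4000200008006080030001000000000000000000000000000) := T_3 (nat_lit 159) (nat_lit 139) (nat_lit 3) (nat_lit 3) (nat_lit 8) L997621 (by decide +kernel)
theorem L997623 : W_3 (nat_lit 6) (nat_lit 0x2001f00080000000000000000000000000000000) (nat_lit 0x0) (nat_lit 0x4000200038006080030001000000000000000000000000000) := T_3 (nat_lit 160) (nat_lit 161) (nat_lit 3) (nat_lit 4) (nat_lit 8) L997622 (by decide +kernel)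
theorem L997624 : W_3 (nat_lit 7) (nat_lit 0x2001e00080000000000000000000000000000000) (nat_lit 0x0) (nat_lit 0x4000200039006180030001000000000000000000000000000) := T_3 (nat_lit 140) (nat_lit 156) (nat_lit 1) (nat_lit 7) (nat_lit 8) L997623 (by decide +kernel)
theorem L997625 : W_3 (nat_lit 8) (nat_lit 0x1e00080000000000000000000000000000000) (nat_lit 0x0) (nat_lit 0x400020003f006180030001000000000000000000000000000) := T_3 (nat_lit 157) (nat_lit 158) (nat_lit 1) (nat_lit 8) (nat_lit 8) L997624 (by decide +kernel)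
theorem L997626 : W_3 (nat_lit 2) (nat_lit 0x108007e00490000000040000000000000000000000) (nat_lit 0x0) (nat_lit 0x200008000800000000000000000000000000000000) := D_3 (nat_lit 147) (nat_lit 165) (nat_lit 131) (nat_lit 3) (nat_lit 8) (nat_lit 8) (nat_lit 2) (nat_lit 8) (nat_lit 8) (by decide +kernel)
theorem L997627 : W_3 (nat_lit 3) (nat_lit 0x108007e00090000000040000000000000000000000) (nat_lit 0x0) (nat_lit 0x200008000e00000000000000000000000000000000) := T_3 (nat_lit 130) (nat_lit 129) (nat_lit 2) (nat_lit 7) (nat_lit 8) L997626 (by decide +kernel)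
theorem L997628 : W_3 (nat_lit 4) (nat_lit 0x8007e00090000000040000000000000000000000) (nat_lit 0x0) (nat_lit 0x380008000e00000000000000000000000000000000) := T_3 (nat_lit 164) (nat_lit 163) (nat_lit 3) (nat_lit 7) (nat_lit 8) L997627 (by decide +kernel)
theorem L997629 : W_3 (nat_lit 5) (nat_lit 0x8007e00090000000000000000000000000000000) (nat_lit 0x0) (nat_lit 0x380008000e00000800040000000000000000000000) := T_3 (nat_lit 90) (nat_lit 107) (nat_lit 7) (nat_lit 5) (nat_lit 5) L997628 (by decide +kernel)
theorem L997630 : W_3 (nat_lit 6) (nat_lit 0x8003e00090000000000000000000000000000000) (nat_lit 0x0) (nat_lit 0x39000c000e00000800040000000000000000000000) := T_3 (nat_lit 146) (nat_lit 160) (nat_lit 1) (nat_lit 10) (nat_lit 8) L997629 (by decide +kernel)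
theorem L997631 : W_3 (nat_lit 7) (nat_lit 0x3e00090000000000000000000000000000000) (nat_lit 0x0) (nat_lit 0x39c00c000e00000800040000000000000000000000) := T_3 (nat_lit 159) (nat_lit 158) (nat_lit 1) (nat_lit 9) (nat_lit 8) L997630 (by decide +kernel)
theorem L997632 : W_3 (nat_lit 8) (nat_lit 0x1e00090000000000000000000000000000000) (nat_lit 0x0) (nat_lit 0x39c00e000e20000800040000000000000000000000) := T_3 (nat_lit 145) (nat_lit 125) (nat_lit 0) (nat_lit 9) (nat_lit 8) L997631 (by decide +kernel)
theorem L997633 : W_3 (nat_lit 9) (nat_lit 0x1e00080000000000000000000000000000000) (nat_lit 0x0) (nat_lit 0x39c00e000e38000800040000000000000000000000) := T_3 (nat_lit 124) (nat_lit 123) (nat_lit 0) (nat_lit 8) (nat_lit 8) L997632 (by decide +kernel)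
theorem L997634 : W_3 (nat_lit 10) (nat_lit 0x1c00080000000000000000000000000000000) (nat_lit 0x0) (nat_lit 0x60003803bf80e3c0e3f0018000c0000000000000000000000) := Q_3 (nat_lit 141) (C_3 L997599 (C_3 L997595 (C_3 L997604 (C_3 L997608 (C_3 L997613 (C_3 L997618 (C_3 L997625 (C_3 L997633 N_3)))))))) (by decide +kernel)
theorem L997635 : W_3 (nat_lit 7) (nat_lit 0x1c00080000000000000000000000000000000) (nat_lit 0x0) (nat_lit 0x3b80038011c000000000000000000000000000000) := T_3 (nat_lit 141) (nat_lit 128) (nat_lit 2) (nat_lit 5) (nat_lit 8) L997618 (by decide +kernel)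
theorem L997636 : W_3 (nat_lit 6) (nat_lit 0x3c000a0000000000000000000000000000000) (nat_lit 0x0) (nat_lit 0x39c01c000300000000000000000000000000000000) := T_3 (nat_lit 128) (nat_lit 129) (nat_lit 2) (nat_lit 6) (nat_lit 8) L897113 (by decide +kernel)
theorem L997637 : W_3 (nat_lit 7) (nat_lit 0x3c00080000000000000000000000000000000) (nat_lit 0x0) (nat_lit 0x39c01c000330000000000000000000000000000000) := T_3 (nat_lit 125) (nat_lit 124) (nat_lit 0) (nat_lit 9) (nat_lit 8) L997636 (by decide +kernel)
theorem L997775 : W_3 (nat_lit 2) (nat_lit 0x600000003c00080000000000000000000000000000000) (nat_lit 0x0) (nat_lit 0x4000000030000000000000000000000000000000000000000) := D_3 (nat_lit 194) (nat_lit 161) (nat_lit 160) (nat_lit 5) (nat_lit 8) (nat_lit 7) (nat_lit 6) (nat_lit 7) (nat_lit 11) (by decide +kernel)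
theorem L998066 : W_3 (nat_lit 2) (nat_lit 0x400000003c00180000000000000000000000000000000) (nat_lit 0x0) (nat_lit 0x8000000020000000000008000000000000000000000000000) := D_3 (nat_lit 161) (nat_lit 195) (nat_lit 111) (nat_lit 6) (nat_lit 8) (nat_lit 11) (nat_lit 6) (nat_lit 8) (nat_lit 10) (by decide +kernel)
theorem L998067 : W_3 (nat_lit 3) (nat_lit 0x400000003c00080000000000000000000000000000000) (nat_lit 0x0) (nat_lit 0x8000000020000000300008000000000000000000000000000) := T_3 (nat_lit 128) (nat_lit 129) (nat_lit 2) (nat_lit 6) (nat_lit 8) L998066 (by decide +kernel)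
theorem L998087 : W_3 (nat_lit 2) (nat_lit 0x4000600000003c000a0000000000000000000000000000000) (nat_lit 0x0) (nat_lit 0x10000c000000000000000000000000000000000000000) := D_3 (nat_lit 159) (nat_lit 158) (nat_lit 176) (nat_lit 1) (nat_lit 9) (nat_lit 8) (nat_lit 7) (nat_lit 6) (nat_lit 7) (by decide +kernel)
theorem L998088 : W_3 (nat_lit 3) (nat_lit 0x4000600000003c00080000000000000000000000000000000) (nat_lit 0x0) (nat_lit 0x10000c000000030000000000000000000000000000000) := T_3 (nat_lit 125) (nat_lit 124) (nat_lit 0) (nat_lit 9) (nat_lit 8) L998087 (by decide +kernel)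
theorem L998157 : W_3 (nat_lit 2) (nat_lit 0x400000003c001a000100008000a000000000000000000) (nat_lit 0x0) (nat_lit 0x4000500000000000000) := D_3 (nat_lit 74) (nat_lit 58) (nat_lit 56) (nat_lit 6) (nat_lit 6) (nat_lit 7) (nat_lit 4) (nat_lit 6) (nat_lit 7) (by decide +kernel)
theorem L998158 : W_3 (nat_lit 3) (nat_lit 0x400000003c001a0001000080008000000000000000000) (nat_lit 0x0) (nat_lit 0x40006000500000000000000) := T_3 (nat_lit 73) (nat_lit 90) (nat_lit 4) (nat_lit 6) (nat_lit 8) L998157 (by decide +kernel)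
theorem L998159 : W_3 (nat_lit 4) (nat_lit 0x400000003c001a0001000080000000000000000000000) (nat_lit 0x0) (nat_lit 0x14000e000500000000000000) := T_3 (nat_lit 75) (nat_lit 92) (nat_lit 6) (nat_lit 6) (nat_lit 8) L998158 (by decide +kernel)
theorem L998160 : W_3 (nat_lit 5) (nat_lit 0x400000003c001a0001000000000000000000000000000) (nat_lit 0x0) (nat_lit 0x100000000000000001c000e000500000000000000) := T_3 (nat_lit 91) (nat_lit 160) (nat_lit 7) (nat_lit 6) (nat_lit 5) L998159 (by decide +kernel)
theorem L998162 : W_3 (nat_lit 2) (nat_lit 0x400008003c001a0001000140000000000000000000000) (nat_lit 0x0) (nat_lit 0x8000a000000000000000000) := D_3 (nat_lit 91) (nat_lit 73) (nat_lit 75) (nat_lit 4) (nat_lit 6) (nat_lit 8) (nat_lit 6) (nat_lit 6) (nat_lit 8) (by decide +kernel)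
theorem L998163 : W_3 (nat_lit 3) (nat_lit 0x400008003c001a0001000040000000000000000000000) (nat_lit 0x0) (nat_lit 0x200018000a000000000000000000) := T_3 (nat_lit 92) (nat_lit 109) (nat_lit 6) (nat_lit 6) (nat_lit 9) L998162 (by decide +kernel)
theorem L998164 : W_3 (nat_lit 4) (nat_lit 0x400008003c001a0001000000000000000000000000000) (nat_lit 0x0) (nat_lit 0x28001c000a000000000000000000) := T_3 (nat_lit 90) (nat_lit 107) (nat_lit 4) (nat_lit 6) (nat_lit 9) L998163 (by decide +kernel)
theorem L998167 : W_3 (nat_lit 6) (nat_lit 0x400000003c000a0001000000000000000000000000000) (nat_lit 0x0) (nat_lit 0x100000003000000001c000e000500000000000000) := T_3 (nat_lit 128) (nat_lit 129) (nat_lit 2) (nat_lit 6) (nat_lit 8) L998160 (by decide +kernel)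
theorem L998168 : W_3 (nat_lit 2) (nat_lit 0x400000003c000a0001000180000000000000000000000) (nat_lit 0x0) (nat_lit 0xc000000000002000000000000000000000000000) := D_3 (nat_lit 159) (nat_lit 158) (nat_lit 109) (nat_lit 1) (nat_lit 9) (nat_lit 8) (nat_lit 6) (nat_lit 6) (nat_lit 9) (by decide +kernel)
theorem L998169 : W_3 (nat_lit 3) (nat_lit 0x400000003c000a0001000080000000000000000000000) (nat_lit 0x0) (nat_lit 0xc000000000002000100008000000000000000000) := T_3 (nat_lit 92) (nat_lit 75) (nat_lit 6) (nat_lit 6) (nat_lit 8) L998168 (by decide +kernel)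
theorem L998170 : W_3 (nat_lit 4) (nat_lit 0x400000003c000a0001000000000000000000000000000) (nat_lit 0x0) (nat_lit 0x1c000000000002000180008000000000000000000) := T_3 (nat_lit 91) (nat_lit 160) (nat_lit 7) (nat_lit 6) (nat_lit 5) L998169 (by decide +kernel)
theorem L998171 : W_3 (nat_lit 5) (nat_lit 0x400008003c000a0001000000000000000000000000000) (nat_lit 0x0) (nat_lit 0x3000028001c000a000000000000000000) := T_3 (nat_lit 128) (nat_lit 129) (nat_lit 2) (nat_lit 6) (nat_lit 8) L998164 (by decide +kernel)
theorem L998172 : W_3 (nat_lit 6) (nat_lit 0x400000003c000a0001000000000000000000000000000) (nat_lit 0x0) (nat_lit 0xc0000003000028001c000a000000000000000000) := T_3 (nat_lit 159) (nat_lit 158) (nat_lit 1) (nat_lit 9) (nat_lit 8) L998171 (by decide +kernel)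
theorem L998173 : W_3 (nat_lit 2) (nat_lit 0x400000003c001a00010000c0000000000000000000000) (nat_lit 0x0) (nat_lit 0xc000000000000800000000000000000000000000) := D_3 (nat_lit 159) (nat_lit 158) (nat_lit 107) (nat_lit 1) (nat_lit 9) (nat_lit 8) (nat_lit 4) (nat_lit 6) (nat_lit 9) (by decide +kernel)
theorem L998174 : W_3 (nat_lit 3) (nat_lit 0x400000003c001a0001000080000000000000000000000) (nat_lit 0x0) (nat_lit 0xc000000000000800040002000000000000000000) := T_3 (nat_lit 90) (nat_lit 73) (nat_lit 4) (nat_lit 6) (nat_lit 8) L998173 (by decide +kernel)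
theorem L998175 : W_3 (nat_lit 4) (nat_lit 0x400000003c001a0001000000000000000000000000000) (nat_lit 0x0) (nat_lit 0x1c0000000000008000c0002000000000000000000) := T_3 (nat_lit 91) (nat_lit 160) (nat_lit 7) (nat_lit 6) (nat_lit 5) L998174 (by decide +kernel)
theorem L998176 : W_3 (nat_lit 5) (nat_lit 0x400000003c000a0001000000000000000000000000000) (nat_lit 0x0) (nat_lit 0x1c0000003000008000c0002000000000000000000) := T_3 (nat_lit 128) (nat_lit 129) (nat_lit 2) (nat_lit 6) (nat_lit 8) L998175 (by decide +kernel)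
theorem L998177 : W_3 (nat_lit 2) (nat_lit 0x1000700008003c001a0003800000000000000000000000000) (nat_lit 0x0) (nat_lit 0x20002000800000000000000000000000000000000000000000000) := D_3 (nat_lit 193) (nat_lit 179) (nat_lit 209) (nat_lit 1) (nat_lit 9) (nat_lit 10) (nat_lit 5) (nat_lit 6) (nat_lit 8) (by decide +kernel)
theorem L998178 : W_3 (nat_lit 3) (nat_lit 0x700008003c001a0003800000000000000000000000000) (nat_lit 0x0) (nat_lit 0x20003000880000000000000000000000000000000000000000000) := T_3 (nat_lit 192) (nat_lit 175) (nat_lit 5) (nat_lit 6) (nat_lit 7) L998177 (by decide +kernel)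
theorem L998179 : W_3 (nat_lit 4) (nat_lit 0x600008003c001a0003800000000000000000000000000) (nat_lit 0x0) (nat_lit 0x20007000980000000000000000000000000000000000000000000) := T_3 (nat_lit 176) (nat_lit 194) (nat_lit 7) (nat_lit 6) (nat_lit 7) L998178 (by decide +kernel)
theorem L998180 : W_3 (nat_lit 5) (nat_lit 0x600008003c001a0003000000000000000000000000000) (nat_lit 0x0) (nat_lit 0x20007000980000000000000000800040000000000000000000000) := T_3 (nat_lit 107) (nat_lit 90) (nat_lit 4) (nat_lit 6) (nat_lit 9) L998179 (by decide +kernel)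
theorem L998181 : W_3 (nat_lit 6) (nat_lit 0x400008003c001a0003000000000000000000000000000) (nat_lit 0x0) (nat_lit 0x20007000b80010000000000000800040000000000000000000000) := T_3 (nat_lit 177) (nat_lit 160) (nat_lit 7) (nat_lit 6) (nat_lit 6) L998180 (by decide +kernel)
theorem L998182 : W_3 (nat_lit 7) (nat_lit 0x400008003c001a0001000000000000000000000000000) (nat_lit 0x0) (nat_lit 0x20007000b80010000000000002800140000000000000000000000) := T_3 (nat_lit 109) (nat_lit 92) (nat_lit 6) (nat_lit 6) (nat_lit 9) L998181 (by decide +kernel)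
theorem L998183 : W_3 (nat_lit 8) (nat_lit 0x400008003c000a0001000000000000000000000000000) (nat_lit 0x0) (nat_lit 0x20007000b80010000000300002800140000000000000000000000) := T_3 (nat_lit 128) (nat_lit 129) (nat_lit 2) (nat_lit 6) (nat_lit 8) L998182 (by decide +kernel)
theorem L998184 : W_3 (nat_lit 9) (nat_lit 0x400000003c000a0001000000000000000000000000000) (nat_lit 0x0) (nat_lit 0x20007000b8001c000000300002800140000000000000000000000) := T_3 (nat_lit 159) (nat_lit 158) (nat_lit 1) (nat_lit 9) (nat_lit 8) L998183 (by decide +kernel)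
theorem L998185 : W_3 (nat_lit 10) (nat_lit 0x400000003c000a0000000000000000000000000000000) (nat_lit 0x0) (nat_lit 0x20007000b8001c0000003000038001c000e000500000000000000) := Q_3 (nat_lit 108) (C_3 L998167 (C_3 L998170 (C_3 L998172 (C_3 L998176 (C_3 L998184 N_3))))) (by decide +kernel)
theorem L998186 : W_3 (nat_lit 11) (nat_lit 0x400000003c00080000000000000000000000000000000) (nat_lit 0x0) (nat_lit 0x20007000b8001c0000003300038001c000e000500000000000000) := T_3 (nat_lit 125) (nat_lit 124) (nat_lit 0) (nat_lit 9) (nat_lit 8) L998185 (by decide +kernel)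
theorem L998187 : W_3 (nat_lit 2) (nat_lit 0x400020003c00080000000000000000000000000000000) (nat_lit 0x0) (nat_lit 0x8000000000000000100008000000000000000000000000000) := D_3 (nat_lit 128) (nat_lit 111) (nat_lit 195) (nat_lit 6) (nat_lit 8) (nat_lit 10) (nat_lit 6) (nat_lit 8) (nat_lit 11) (by decide +kernel)
theorem L998188 : W_3 (nat_lit 2) (nat_lit 0xe00028003c000a0000000000000000000000000000000) (nat_lit 0x0) (nat_lit 0x1000010000000000001000000000000000000000000000) := D_3 (nat_lit 160) (nat_lit 180) (nat_lit 108) (nat_lit 0) (nat_lit 10) (nat_lit 10) (nat_lit 7) (nat_lit 6) (nat_lit 6) (by decide +kernel)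
theorem L998189 : W_3 (nat_lit 3) (nat_lit 0xe00020003c000a0000000000000000000000000000000) (nat_lit 0x0) (nat_lit 0x100001c000000000001000000000000000000000000000) := T_3 (nat_lit 159) (nat_lit 158) (nat_lit 1) (nat_lit 9) (nat_lit 8) L998188 (by decide +kernel)
theorem L998190 : W_3 (nat_lit 4) (nat_lit 0xc00020003c000a0000000000000000000000000000000) (nat_lit 0x0) (nat_lit 0x400120001c000000000001000000000000000000000000000) := T_3 (nat_lit 177) (nat_lit 194) (nat_lit 5) (nat_lit 8) (nat_lit 7) L998189 (by decide +kernel)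
theorem L998191 : W_3 (nat_lit 5) (nat_lit 0xc00020003c00080000000000000000000000000000000) (nat_lit 0x0) (nat_lit 0x400120001c000000030001000000000000000000000000000) := T_3 (nat_lit 125) (nat_lit 124) (nat_lit 0) (nat_lit 9) (nat_lit 8) L998190 (by decide +kernel)
theorem L998192 : W_3 (nat_lit 6) (nat_lit 0x400020003c00080000000000000000000000000000000) (nat_lit 0x0) (nat_lit 0x14001a0001c000000030001000000000000000000000000000) := T_3 (nat_lit 179) (nat_lit 196) (nat_lit 7) (nat_lit 8) (nat_lit 7) L998191 (by decide +kernel)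
theorem L998193 : W_3 (nat_lit 7) (nat_lit 0x400000003c00080000000000000000000000000000000) (nat_lit 0x0) (nat_lit 0x1c001a0003c000000130009000000000000000000000000000) := Q_3 (nat_lit 161) (C_3 L998187 (C_3 L998192 N_3)) (by decide +kernel)
theorem L998194 : W_3 (nat_lit 2) (nat_lit 0x600008003c000a0000000000000000000000000000000) (nat_lit 0x0) (nat_lit 0x4000100010000000000000000000000000000000000000000) := D_3 (nat_lit 194) (nat_lit 160) (nat_lit 176) (nat_lit 6) (nat_lit 7) (nat_lit 11) (nat_lit 7) (nat_lit 6) (nat_lit 7) (by decide +kernel)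
theorem L998195 : W_3 (nat_lit 3) (nat_lit 0x600008003c00080000000000000000000000000000000) (nat_lit 0x0) (nat_lit 0x4000100010000000030000000000000000000000000000000) := T_3 (nat_lit 125) (nat_lit 124) (nat_lit 0) (nat_lit 9) (nat_lit 8) L998194 (by decide +kernel)
theorem L998196 : W_3 (nat_lit 4) (nat_lit 0x600000003c00080000000000000000000000000000000) (nat_lit 0x0) (nat_lit 0x400010001c000000030000000000000000000000000000000) := T_3 (nat_lit 159) (nat_lit 158) (nat_lit 1) (nat_lit 9) (nat_lit 8) L998195 (by decide +kernel)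
theorem L998197 : W_3 (nat_lit 4) (nat_lit 0x600000003c00080000000000000000000000000000000) (nat_lit 0x0) (nat_lit 0x400010002c000000030000000000000000000000000000000) := T_3 (nat_lit 194) (nat_lit 161) (nat_lit 5) (nat_lit 8) (nat_lit 7) L998088 (by decide +kernel)
theorem L998198 : W_3 (nat_lit 2) (nat_lit 0x600008003c000a0001000140000000000000000000000) (nat_lit 0x0) (nat_lit 0x8000a000000000000000000) := D_3 (nat_lit 91) (nat_lit 75) (nat_lit 73) (nat_lit 6) (nat_lit 6) (nat_lit 8) (nat_lit 4) (nat_lit 6) (nat_lit 8) (by decide +kernel)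
theorem L998199 : W_3 (nat_lit 3) (nat_lit 0x600008003c000a0001000100000000000000000000000) (nat_lit 0x0) (nat_lit 0x8000c000a000000000000000000) := T_3 (nat_lit 90) (nat_lit 107) (nat_lit 4) (nat_lit 6) (nat_lit 9) L998198 (by decide +kernel)
theorem L998200 : W_3 (nat_lit 4) (nat_lit 0x600008003c000a0001000000000000000000000000000) (nat_lit 0x0) (nat_lit 0x28001c000a000000000000000000) := T_3 (nat_lit 92) (nat_lit 109) (nat_lit 6) (nat_lit 6) (nat_lit 9) L998199 (by decide +kernel)
theorem L998201 : W_3 (nat_lit 5) (nat_lit 0x600008003c000a0000000000000000000000000000000) (nat_lit 0x0) (nat_lit 0x100000000000038001c000a000000000000000000) := T_3 (nat_lit 108) (nat_lit 160) (nat_lit 7) (nat_lit 6) (nat_lit 6) L998200 (by decide +kernel)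
theorem L998202 : W_3 (nat_lit 6) (nat_lit 0x600000003c000a0000000000000000000000000000000) (nat_lit 0x0) (nat_lit 0x1c0000000000038001c000a000000000000000000) := T_3 (nat_lit 159) (nat_lit 158) (nat_lit 1) (nat_lit 9) (nat_lit 8) L998201 (by decide +kernel)
theorem L998203 : W_3 (nat_lit 7) (nat_lit 0x600000003c00080000000000000000000000000000000) (nat_lit 0x0) (nat_lit 0x1c0000000300038001c000a000000000000000000) := T_3 (nat_lit 125) (nat_lit 124) (nat_lit 0) (nat_lit 9) (nat_lit 8) L998202 (by decide +kernel)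
theorem L998204 : W_3 (nat_lit 8) (nat_lit 0x400000003c00080000000000000000000000000000000) (nat_lit 0x0) (nat_lit 0x400030003c0000000300038001c000a000000000000000000) := Q_3 (nat_lit 177) (C_3 L997775 (C_3 L998196 (C_3 L998197 (C_3 L998203 N_3)))) (by decide +kernel)
theorem L998205 : W_3 (nat_lit 12) (nat_lit 0x3c00080000000000000000000000000000000) (nat_lit 0x0) (nat_lit 0x2001f001f8003c00000033000b8001c000e000500000000000000) := Q_3 (nat_lit 178) (C_3 L998067 (C_3 L998186 (C_3 L998193 (C_3 L998204 N_3)))) (by decide +kernel)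
theorem L998209 : W_3 (nat_lit 2) (nat_lit 0x12000fc005a0000000000000000000000000000000) (nat_lit 0x0) (nat_lit 0x400000000000000008000400000000000000000000000) := D_3 (nat_lit 111) (nat_lit 94) (nat_lit 178) (nat_lit 5) (nat_lit 9) (nat_lit 5) (nat_lit 6) (nat_lit 8) (nat_lit 10) (by decide +kernel)
theorem L998210 : W_3 (nat_lit 3) (nat_lit 0x12000fc004a0000000000000000000000000000000) (nat_lit 0x0) (nat_lit 0x400000010000100008000400000000000000000000000) := T_3 (nat_lit 128) (nat_lit 148) (nat_lit 0) (nat_lit 12) (nat_lit 8) L998209 (by decide +kernel)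
theorem L998211 : W_3 (nat_lit 4) (nat_lit 0x10000fc004a0000000000000000000000000000000) (nat_lit 0x0) (nat_lit 0x400030010000100008000400000000000000000000000) := T_3 (nat_lit 161) (nat_lit 160) (nat_lit 1) (nat_lit 11) (nat_lit 8) L998210 (by decide +kernel)
theorem L998212 : W_3 (nat_lit 5) (nat_lit 0x10000fc000a0000000000000000000000000000000) (nat_lit 0x0) (nat_lit 0x400030010000d00008000400000000000000000000000) := T_3 (nat_lit 130) (nat_lit 131) (nat_lit 2) (nat_lit 8) (nat_lit 8) L998211 (by decide +kernel)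
theorem L998213 : W_3 (nat_lit 6) (nat_lit 0x100007c000a0000000000000000000000000000000) (nat_lit 0x0) (nat_lit 0x400230018000d00008000400000000000000000000000) := T_3 (nat_lit 147) (nat_lit 165) (nat_lit 3) (nat_lit 8) (nat_lit 8) L998212 (by decide +kernel)
theorem L998214 : W_3 (nat_lit 7) (nat_lit 0x7c000a0000000000000000000000000000000) (nat_lit 0x0) (nat_lit 0x4003b0018000d00008000400000000000000000000000) := T_3 (nat_lit 164) (nat_lit 163) (nat_lit 3) (nat_lit 7) (nat_lit 8) L998213 (by decide +kernel)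
theorem L998215 : W_3 (nat_lit 8) (nat_lit 0x7c00080000000000000000000000000000000) (nat_lit 0x0) (nat_lit 0x4003b0018000d30008000400000000000000000000000) := T_3 (nat_lit 125) (nat_lit 124) (nat_lit 0) (nat_lit 9) (nat_lit 8) L998214 (by decide +kernel)
theorem L998216 : W_3 (nat_lit 9) (nat_lit 0x3c00080000000000000000000000000000000) (nat_lit 0x0) (nat_lit 0x4003b001c000f30008000400000000000000000000000) := Q_3 (nat_lit 146) (C_3 L997654 (C_3 L998215 (C_3 L997651 (C_3 L997645 N_3)))) (by decide +kernel)
theorem L998217 : W_3 (nat_lit 13) (nat_lit 0x1c00080000000000000000000000000000000) (nat_lit 0x0) (nat_lit 0x2001f001f803bc01e001f3000b8005c000e000500000000000000) := Q_3 (nat_lit 145) (C_3 L997637 (C_3 L997644 (C_3 L997655 (C_3 L997661 (C_3 L998205 (C_3 L998208 (C_3 L998216 N_3))))))) (by decide +kernel)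
theorem L998218 : W_3 (nat_lit 6) (nat_lit 0x1c00080000000000000000000000000000000) (nat_lit 0x0) (nat_lit 0x80006002200138001000080000000000000000000000) := T_3 (nat_lit 141) (nat_lit 128) (nat_lit 2) (nat_lit 5) (nat_lit 8) L997608 (by decide +kernel)
theorem L998219 : W_3 (nat_lit 7) (nat_lit 0x1c00080000000000000000000000000000000) (nat_lit 0x0) (nat_lit 0x3f00038010e000000000000000000000000000000) := T_3 (nat_lit 141) (nat_lit 128) (nat_lit 2) (nat_lit 5) (nat_lit 8) L997613 (by decide +kernel)
theorem L998220 : W_3 (nat_lit 14) (nat_lit 0x1800080000000000000000000000000000000) (nat_lit 0x0) (nat_lit 0x2001f001f803bf81e7c1f3f00b8005c000e000500000000000000) := Q_3 (nat_lit 142) (C_3 L997596 (C_3 L997600 (C_3 L997634 (C_3 L997635 (C_3 L998217 (C_3 L998218 (C_3 L998219 N_3))))))) (by decide +kernel)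
theorem L998660 : W_3 (nat_lit 2) (nat_lit 0x4000000018000e80034000e0002000000000000000000) (nat_lit 0x0) (nat_lit 0x1000100008000000000) := D_3 (nat_lit 56) (nat_lit 72) (nat_lit 39) (nat_lit 6) (nat_lit 4) (nat_lit 7) (nat_lit 7) (nat_lit 5) (nat_lit 2) (by decide +kernel)
theorem L998661 : W_3 (nat_lit 3) (nat_lit 0x4000000018000e80034000e0000000000000000000000) (nat_lit 0x0) (nat_lit 0x100000000000000003000100008000000000) := T_3 (nat_lit 73) (nat_lit 140) (nat_lit 6) (nat_lit 4) (nat_lit 8) L998660 (by decide +kernel)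
theorem L998662 : W_3 (nat_lit 4) (nat_lit 0x4000000018000e80034000c0000000000000000000000) (nat_lit 0x0) (nat_lit 0x100000000000030003000100008000000000) := T_3 (nat_lit 89) (nat_lit 88) (nat_lit 3) (nat_lit 3) (nat_lit 5) L998661 (by decide +kernel)
theorem L998663 : W_3 (nat_lit 5) (nat_lit 0x18000e80034000c0000000000000000000000) (nat_lit 0x0) (nat_lit 0x400020000100000000000030003000100008000000000) := T_3 (nat_lit 178) (nat_lit 161) (nat_lit 4) (nat_lit 8) (nat_lit 10) L998662 (by decide +kernel)
theorem L998664 : W_3 (nat_lit 6) (nat_lit 0x18000e8003400040000000000000000000000) (nat_lit 0x0) (nat_lit 0x4000200001000000000000b0007000100008000000000) := T_3 (nat_lit 91) (nat_lit 74) (nat_lit 7) (nat_lit 6) (nat_lit 4) L998663 (by decide +kernel)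
theorem L998665 : W_3 (nat_lit 7) (nat_lit 0x18000e0003400040000000000000000000000) (nat_lit 0x0) (nat_lit 0x4000200001000180000000b0007000100008000000000) := T_3 (nat_lit 123) (nat_lit 124) (nat_lit 3) (nat_lit 4) (nat_lit 7) L998664 (by decide +kernel)
theorem L998666 : W_3 (nat_lit 8) (nat_lit 0x18000e0003000040000000000000000000000) (nat_lit 0x0) (nat_lit 0x400020000100018000c000b0007000100008000000000) := T_3 (nat_lit 106) (nat_lit 107) (nat_lit 3) (nat_lit 4) (nat_lit 6) L998665 (by decide +kernel)
theorem L998667 : W_3 (nat_lit 3) (nat_lit 0x4000000018000e80034000c0002000000000000000000) (nat_lit 0x0) (nat_lit 0x30001000100008000000000) := T_3 (nat_lit 89) (nat_lit 88) (nat_lit 3) (nat_lit 3) (nat_lit 5) L998660 (by decide +kernel)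
theorem L998668 : W_3 (nat_lit 4) (nat_lit 0x4000000018000e80034000c0000000000000000000000) (nat_lit 0x0) (nat_lit 0x400000000000030003000100008000000000) := T_3 (nat_lit 73) (nat_lit 142) (nat_lit 4) (nat_lit 6) (nat_lit 8) L998667 (by decide +kernel)
theorem L998669 : W_3 (nat_lit 5) (nat_lit 0x4000000018000e8003400040000000000000000000000) (nat_lit 0x0) (nat_lit 0x4000000000000b0007000100008000000000) := T_3 (nat_lit 91) (nat_lit 74) (nat_lit 7) (nat_lit 6) (nat_lit 4) L998668 (by decide +kernel)
theorem L998670 : W_3 (nat_lit 6) (nat_lit 0x4000000018000e0003400040000000000000000000000) (nat_lit 0x0) (nat_lit 0x4000180000000b0007000100008000000000) := T_3 (nat_lit 123) (nat_lit 124) (nat_lit 3) (nat_lit 4) (nat_lit 7) L998669 (by decide +kernel)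
theorem L998671 : W_3 (nat_lit 7) (nat_lit 0x4000000018000e0003000040000000000000000000000) (nat_lit 0x0) (nat_lit 0x400018000c000b0007000100008000000000) := T_3 (nat_lit 106) (nat_lit 107) (nat_lit 3) (nat_lit 4) (nat_lit 6) L998670 (by decide +kernel)
theorem L998672 : W_3 (nat_lit 8) (nat_lit 0x18000e0003000040000000000000000000000) (nat_lit 0x0) (nat_lit 0x400020000400018000c000b0007000100008000000000) := T_3 (nat_lit 178) (nat_lit 161) (nat_lit 4) (nat_lit 8) (nat_lit 10) L998671 (by decide +kernel)
theorem L998673 : W_3 (nat_lit 2) (nat_lit 0x18000f0003800040004000000000000000000) (nat_lit 0x0) (nat_lit 0x400000000000000002000100000000000000) := D_3 (nat_lit 73) (nat_lit 56) (nat_lit 142) (nat_lit 7) (nat_lit 5) (nat_lit 3) (nat_lit 7) (nat_lit 5) (nat_lit 4) (by decide +kernel)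
theorem L998674 : W_3 (nat_lit 3) (nat_lit 0x18000e0003800040004000000000000000000) (nat_lit 0x0) (nat_lit 0x400018000000000002000100000000000000) := T_3 (nat_lit 124) (nat_lit 123) (nat_lit 3) (nat_lit 4) (nat_lit 7) L998673 (by decide +kernel)
theorem L998675 : W_3 (nat_lit 4) (nat_lit 0x18000e0003000040004000000000000000000) (nat_lit 0x0) (nat_lit 0x400018000c00000002000100000000000000) := T_3 (nat_lit 107) (nat_lit 106) (nat_lit 3) (nat_lit 4) (nat_lit 6) L998674 (by decide +kernel)
theorem L998676 : W_3 (nat_lit 5) (nat_lit 0x18000e0003000040000000000000000000000) (nat_lit 0x0) (nat_lit 0x400018000c00080006000100000000000000) := T_3 (nat_lit 74) (nat_lit 91) (nat_lit 7) (nat_lit 6) (nat_lit 4) L998675 (by decide +kernel)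
theorem L998677 : W_3 (nat_lit 2) (nat_lit 0x4000000018000e00034000e0002000100000000000000) (nat_lit 0x0) (nat_lit 0x100008000000000001000000000000000000) := D_3 (nat_lit 123) (nat_lit 140) (nat_lit 72) (nat_lit 6) (nat_lit 4) (nat_lit 8) (nat_lit 6) (nat_lit 4) (nat_lit 7) (by decide +kernel)
theorem L998678 : W_3 (nat_lit 3) (nat_lit 0x4000000018000e00034000e0002000000000000000000) (nat_lit 0x0) (nat_lit 0x100008000000000001000100008000000000) := T_3 (nat_lit 56) (nat_lit 39) (nat_lit 7) (nat_lit 5) (nat_lit 2) L998677 (by decide +kernel)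
theorem L998679 : W_3 (nat_lit 4) (nat_lit 0x4000000018000e00034000e0000000000000000000000) (nat_lit 0x0) (nat_lit 0x500008000000000003000100008000000000) := T_3 (nat_lit 73) (nat_lit 142) (nat_lit 4) (nat_lit 6) (nat_lit 8) L998678 (by decide +kernel)
theorem L998680 : W_3 (nat_lit 5) (nat_lit 0x4000000018000e00034000c0000000000000000000000) (nat_lit 0x0) (nat_lit 0x500008000000030003000100008000000000) := T_3 (nat_lit 89) (nat_lit 88) (nat_lit 3) (nat_lit 3) (nat_lit 5) L998679 (by decide +kernel)
theorem L998681 : W_3 (nat_lit 6) (nat_lit 0x4000000018000e00030000c0000000000000000000000) (nat_lit 0x0) (nat_lit 0x500008000c00030003000100008000000000) := T_3 (nat_lit 106) (nat_lit 107) (nat_lit 3) (nat_lit 4) (nat_lit 6) L998680 (by decide +kernel)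
theorem L998682 : W_3 (nat_lit 7) (nat_lit 0x4000000018000e0003000040000000000000000000000) (nat_lit 0x0) (nat_lit 0x500008000c000b0007000100008000000000) := T_3 (nat_lit 91) (nat_lit 74) (nat_lit 7) (nat_lit 6) (nat_lit 4) L998681 (by decide +kernel)
theorem L998683 : W_3 (nat_lit 8) (nat_lit 0x18000e0003000040000000000000000000000) (nat_lit 0x0) (nat_lit 0x400020000500008000c000b0007000100008000000000) := T_3 (nat_lit 178) (nat_lit 161) (nat_lit 4) (nat_lit 8) (nat_lit 10) L998682 (by decide +kernel)
theorem L998684 : W_3 (nat_lit 2) (nat_lit 0x4000000018000e80030000e0002000100000000000000) (nat_lit 0x0) (nat_lit 0x100000000400000001000000000000000000) := D_3 (nat_lit 106) (nat_lit 140) (nat_lit 72) (nat_lit 6) (nat_lit 4) (nat_lit 8) (nat_lit 6) (nat_lit 4) (nat_lit 7) (by decide +kernel)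
theorem L998685 : W_3 (nat_lit 3) (nat_lit 0x4000000018000e80030000e0002000000000000000000) (nat_lit 0x0) (nat_lit 0x100000000400000001000100008000000000) := T_3 (nat_lit 56) (nat_lit 39) (nat_lit 7) (nat_lit 5) (nat_lit 2) L998684 (by decide +kernel)
theorem L998686 : W_3 (nat_lit 4) (nat_lit 0x4000000018000e80030000c0002000000000000000000) (nat_lit 0x0) (nat_lit 0x100000000400030001000100008000000000) := T_3 (nat_lit 89) (nat_lit 88) (nat_lit 3) (nat_lit 3) (nat_lit 5) L998685 (by decide +kernel)
theorem L998687 : W_3 (nat_lit 5) (nat_lit 0x4000000018000e80030000c0000000000000000000000) (nat_lit 0x0) (nat_lit 0x500000000400030003000100008000000000) := T_3 (nat_lit 73) (nat_lit 142) (nat_lit 4) (nat_lit 6) (nat_lit 8) L998686 (by decide +kernel)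
theorem L998688 : W_3 (nat_lit 6) (nat_lit 0x4000000018000e8003000040000000000000000000000) (nat_lit 0x0) (nat_lit 0x5000000004000b0007000100008000000000) := T_3 (nat_lit 91) (nat_lit 74) (nat_lit 7) (nat_lit 6) (nat_lit 4) L998687 (by decide +kernel)
theorem L998689 : W_3 (nat_lit 7) (nat_lit 0x18000e8003000040000000000000000000000) (nat_lit 0x0) (nat_lit 0x4000200005000000004000b0007000100008000000000) := T_3 (nat_lit 178) (nat_lit 161) (nat_lit 4) (nat_lit 8) (nat_lit 10) L998688 (by decide +kernel)
theorem L998690 : W_3 (nat_lit 8) (nat_lit 0x18000e0003000040000000000000000000000) (nat_lit 0x0) (nat_lit 0x4000200005000180004000b0007000100008000000000) := T_3 (nat_lit 123) (nat_lit 124) (nat_lit 3) (nat_lit 4) (nat_lit 7) L998689 (by decide +kernel)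
theorem L998691 : W_3 (nat_lit 2) (nat_lit 0x18000f0003800040000000000000000000000) (nat_lit 0x0) (nat_lit 0x400000000000000002000100000000000000) := D_3 (nat_lit 73) (nat_lit 56) (nat_lit 142) (nat_lit 7) (nat_lit 5) (nat_lit 3) (nat_lit 7) (nat_lit 5) (nat_lit 4) (by decide +kernel)
theorem L998692 : W_3 (nat_lit 3) (nat_lit 0x18000e0003800040000000000000000000000) (nat_lit 0x0) (nat_lit 0x400018000000000002000100000000000000) := T_3 (nat_lit 124) (nat_lit 123) (nat_lit 3) (nat_lit 4) (nat_lit 7) L998691 (by decide +kernel)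
theorem L998693 : W_3 (nat_lit 4) (nat_lit 0x18000e0003000040000000000000000000000) (nat_lit 0x0) (nat_lit 0x400018000c00000002000100000000000000) := T_3 (nat_lit 107) (nat_lit 106) (nat_lit 3) (nat_lit 4) (nat_lit 6) L998692 (by decide +kernel)
theorem L998694 : W_3 (nat_lit 2) (nat_lit 0x4000000018000e0003800040006000000000000000000) (nat_lit 0x0) (nat_lit 0x8000400010000000000000000000000000000000) := D_3 (nat_lit 142) (nat_lit 159) (nat_lit 124) (nat_lit 4) (nat_lit 6) (nat_lit 9) (nat_lit 7) (nat_lit 5) (nat_lit 4) (by decide +kernel)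
theorem L998695 : W_3 (nat_lit 3) (nat_lit 0x4000000018000e0003800040004000000000000000000) (nat_lit 0x0) (nat_lit 0x8000400010000000000002000100000000000000) := T_3 (nat_lit 73) (nat_lit 56) (nat_lit 7) (nat_lit 5) (nat_lit 3) L998694 (by decide +kernel)
theorem L998696 : W_3 (nat_lit 4) (nat_lit 0x4000000018000e0003800040000000000000000000000) (nat_lit 0x0) (nat_lit 0x8000400010000000080006000100000000000000) := T_3 (nat_lit 74) (nat_lit 91) (nat_lit 7) (nat_lit 6) (nat_lit 4) L998695 (by decide +kernel)
theorem L998697 : W_3 (nat_lit 5) (nat_lit 0x4000000018000e0003000040000000000000000000000) (nat_lit 0x0) (nat_lit 0x8000400010000c00080006000100000000000000) := T_3 (nat_lit 107) (nat_lit 106) (nat_lit 3) (nat_lit 4) (nat_lit 6) L998696 (by decide +kernel)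
theorem L998698 : W_3 (nat_lit 6) (nat_lit 0x18000e0003000040000000000000000000000) (nat_lit 0x0) (nat_lit 0x400028000400010000c00080006000100000000000000) := T_3 (nat_lit 178) (nat_lit 161) (nat_lit 4) (nat_lit 8) (nat_lit 10) L998697 (by decide +kernel)
theorem L998699 : W_3 (nat_lit 2) (nat_lit 0x400008001a000f00038000c0000000000000000000000) (nat_lit 0x0) (nat_lit 0x30001000000000000000000) := D_3 (nat_lit 89) (nat_lit 88) (nat_lit 72) (nat_lit 3) (nat_lit 3) (nat_lit 5) (nat_lit 4) (nat_lit 5) (nat_lit 8) (by decide +kernel)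
theorem L998700 : W_3 (nat_lit 3) (nat_lit 0x400008001a000f0003800040000000000000000000000) (nat_lit 0x0) (nat_lit 0xb0005000000000000000000) := T_3 (nat_lit 91) (nat_lit 74) (nat_lit 7) (nat_lit 6) (nat_lit 4) L998699 (by decide +kernel)
theorem L998701 : W_3 (nat_lit 4) (nat_lit 0x8001a000f0003800040000000000000000000000) (nat_lit 0x0) (nat_lit 0x4000200000000000000000b0005000000000000000000) := T_3 (nat_lit 178) (nat_lit 161) (nat_lit 4) (nat_lit 8) (nat_lit 10) L998700 (by decide +kernel)
theorem L998702 : W_3 (nat_lit 5) (nat_lit 0x80018000f0003800040000000000000000000000) (nat_lit 0x0) (nat_lit 0x4000200003000000000000b0005000000000000000000) := T_3 (nat_lit 141) (nat_lit 140) (nat_lit 1) (nat_lit 8) (nat_lit 7) L998701 (by decide +kernel)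
theorem L998703 : W_3 (nat_lit 6) (nat_lit 0x18000f0003800040000000000000000000000) (nat_lit 0x0) (nat_lit 0x4000280007000000000000b0005000000000000000000) := T_3 (nat_lit 159) (nat_lit 142) (nat_lit 4) (nat_lit 6) (nat_lit 9) L998702 (by decide +kernel)
theorem L998704 : W_3 (nat_lit 7) (nat_lit 0x18000e0003800040000000000000000000000) (nat_lit 0x0) (nat_lit 0x4000280007000180000000b0005000000000000000000) := T_3 (nat_lit 124) (nat_lit 123) (nat_lit 3) (nat_lit 4) (nat_lit 7) L998703 (by decide +kernel)
theorem L998705 : W_3 (nat_lit 8) (nat_lit 0x18000e0003000040000000000000000000000) (nat_lit 0x0) (nat_lit 0x400028000700018000c000b0005000000000000000000) := T_3 (nat_lit 107) (nat_lit 106) (nat_lit 3) (nat_lit 4) (nat_lit 6) L998704 (by decide +kernel)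
theorem L998706 : W_3 (nat_lit 2) (nat_lit 0x400000001c000e00030000d0000000000000000000000) (nat_lit 0x0) (nat_lit 0x100008000000000000800000000000000000000000000) := D_3 (nat_lit 159) (nat_lit 107) (nat_lit 176) (nat_lit 4) (nat_lit 6) (nat_lit 9) (nat_lit 6) (nat_lit 6) (nat_lit 10) (by decide +kernel)
theorem L998707 : W_3 (nat_lit 3) (nat_lit 0x4000000018000e00030000d0000000000000000000000) (nat_lit 0x0) (nat_lit 0x100008000400000000800000002000000000000000000) := T_3 (nat_lit 142) (nat_lit 73) (nat_lit 4) (nat_lit 6) (nat_lit 8) L998706 (by decide +kernel)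
theorem L998708 : W_3 (nat_lit 4) (nat_lit 0x4000000018000e00030000c0000000000000000000000) (nat_lit 0x0) (nat_lit 0x100008000400000000800030002000000000000000000) := T_3 (nat_lit 88) (nat_lit 89) (nat_lit 3) (nat_lit 3) (nat_lit 5) L998707 (by decide +kernel)
theorem L998709 : W_3 (nat_lit 5) (nat_lit 0x18000e00030000c0000000000000000000000) (nat_lit 0x0) (nat_lit 0x500028000400000000800030002000000000000000000) := T_3 (nat_lit 178) (nat_lit 161) (nat_lit 4) (nat_lit 8) (nat_lit 10) L998708 (by decide +kernel)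
theorem L998710 : W_3 (nat_lit 6) (nat_lit 0x18000e0003000040000000000000000000000) (nat_lit 0x0) (nat_lit 0x5000280004000000008000b0006000000000000000000) := T_3 (nat_lit 91) (nat_lit 74) (nat_lit 7) (nat_lit 6) (nat_lit 4) L998709 (by decide +kernel)
theorem L998711 : W_3 (nat_lit 9) (nat_lit 0x18000e0003000000000000000000000000000) (nat_lit 0x0) (nat_lit 0x500028000700018000c000f0007000100008000000000) := Q_3 (nat_lit 90) (C_3 L998666 (C_3 L998672 (C_3 L998676 (C_3 L998683 (C_3 L998690 (C_3 L998693 (C_3 L998698 (C_3 L998705 (C_3 L998710 N_3))))))))) (by decide +kernel)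
theorem L1000348 : W_3 (nat_lit 2) (nat_lit 0x100038000e0000000000000000000000000000000) (nat_lit 0x0) (nat_lit 0x4000200000000000000001000000000000000000000000000) := D_3 (nat_lit 177) (nat_lit 108) (nat_lit 194) (nat_lit 4) (nat_lit 7) (nat_lit 10) (nat_lit 6) (nat_lit 7) (nat_lit 11) (by decide +kernel)
theorem L1000642 : W_3 (nat_lit 3) (nat_lit 0x100038000c0000000000000000000000000000000) (nat_lit 0x0) (nat_lit 0x4000200000000000030001000000000000000000000000000) := T_3 (nat_lit 125) (nat_lit 124) (nat_lit 3) (nat_lit 5) (nat_lit 7) L1000348 (by decide +kernel)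
theorem L1002094 : W_3 (nat_lit 2) (nat_lit 0x18000d0000000000000000000000000000000) (nat_lit 0x0) (nat_lit 0x2000028000000000000000000000000000000) := D_3 (nat_lit 125) (nat_lit 123) (nat_lit 145) (nat_lit 3) (nat_lit 4) (nat_lit 7) (nat_lit 3) (nat_lit 5) (nat_lit 7) (by decide +kernel)
theorem L1002095 : W_3 (nat_lit 2) (nat_lit 0x1a000d0000000000000000000000000000000) (nat_lit 0x0) (nat_lit 0x400028000000000000000000000000000000) := D_3 (nat_lit 123) (nat_lit 125) (nat_lit 142) (nat_lit 3) (nat_lit 4) (nat_lit 7) (nat_lit 0) (nat_lit 8) (nat_lit 8) (by decide +kernel)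
theorem L1002096 : W_3 (nat_lit 2) (nat_lit 0x1a000d0000000000000000000000000000000) (nat_lit 0x0) (nat_lit 0x100028000000000000000000000000000000) := D_3 (nat_lit 125) (nat_lit 123) (nat_lit 140) (nat_lit 3) (nat_lit 4) (nat_lit 7) (nat_lit 1) (nat_lit 8) (nat_lit 7) (by decide +kernel)
theorem L1002097 : W_3 (nat_lit 2) (nat_lit 0x1a000d0000000000000000000000000000000) (nat_lit 0x0) (nat_lit 0x500008000000000000000000000000000000) := D_3 (nat_lit 142) (nat_lit 123) (nat_lit 140) (nat_lit 0) (nat_lit 8) (nat_lit 8) (nat_lit 2) (nat_lit 4) (nat_lit 8) (by decide +kernel)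
theorem L1002098 : W_3 (nat_lit 2) (nat_lit 0x1a000d0000000000000000000000000000000) (nat_lit 0x0) (nat_lit 0x500020000000000000000000000000000000) := D_3 (nat_lit 140) (nat_lit 125) (nat_lit 142) (nat_lit 1) (nat_lit 8) (nat_lit 7) (nat_lit 2) (nat_lit 4) (nat_lit 8) (by decide +kernel)
theorem L1002099 : W_3 (nat_lit 3) (nat_lit 0x18000d0000000000000000000000000000000) (nat_lit 0x0) (nat_lit 0x700028000000000000000000000000000000) := Q_3 (nat_lit 141) (C_3 L1002095 (C_3 L1002096 (C_3 L1002097 (C_3 L1002098 N_3)))) (by decide +kernel)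
theorem L1011249 : W_3 (nat_lit 2) (nat_lit 0x10007800080000000000000000000000000000000) (nat_lit 0x0) (nat_lit 0x20008000040000000000000000000000000000000) := D_3 (nat_lit 147) (nat_lit 126) (nat_lit 161) (nat_lit 0) (nat_lit 11) (nat_lit 8) (nat_lit 1) (nat_lit 11) (nat_lit 8) (by decide +kernel)
theorem L1011250 : W_3 (nat_lit 3) (nat_lit 0x10003800080000000000000000000000000000000) (nat_lit 0x0) (nat_lit 0x2800c000040000000000000000000000000000000) := T_3 (nat_lit 146) (nat_lit 159) (nat_lit 1) (nat_lit 10) (nat_lit 8) L1011249 (by decide +kernel)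
theorem L1011251 : W_3 (nat_lit 2) (nat_lit 0x10007800080000000000000000000000000000000) (nat_lit 0x0) (nat_lit 0x8000060000000000000000000000000000000) := D_3 (nat_lit 126) (nat_lit 147) (nat_lit 125) (nat_lit 0) (nat_lit 11) (nat_lit 8) (nat_lit 0) (nat_lit 10) (nat_lit 8) (by decide +kernel)
theorem L1011252 : W_3 (nat_lit 3) (nat_lit 0x10003800080000000000000000000000000000000) (nat_lit 0x0) (nat_lit 0x800c000060000000000000000000000000000000) := T_3 (nat_lit 146) (nat_lit 159) (nat_lit 1) (nat_lit 10) (nat_lit 8) L1011251 (by decide +kernel)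
theorem L1011253 : W_3 (nat_lit 2) (nat_lit 0x4000000090007800480000000000000000000000000000000) (nat_lit 0x0) (nat_lit 0x20008000800000000000000000000000000000000) := D_3 (nat_lit 147) (nat_lit 161) (nat_lit 131) (nat_lit 1) (nat_lit 11) (nat_lit 8) (nat_lit 2) (nat_lit 8) (nat_lit 8) (by decide +kernel)
theorem L1011254 : W_3 (nat_lit 3) (nat_lit 0x4000000090007800080000000000000000000000000000000) (nat_lit 0x0) (nat_lit 0x20008000e00000000000000000000000000000000) := T_3 (nat_lit 130) (nat_lit 129) (nat_lit 2) (nat_lit 7) (nat_lit 8) L1011253 (by decide +kernel)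
theorem L1011255 : W_3 (nat_lit 4) (nat_lit 0x4000000010007800080000000000000000000000000000000) (nat_lit 0x0) (nat_lit 0x1a0008000e00000000000000000000000000000000) := T_3 (nat_lit 163) (nat_lit 164) (nat_lit 3) (nat_lit 7) (nat_lit 8) L1011254 (by decide +kernel)
theorem L1011256 : W_3 (nat_lit 5) (nat_lit 0x10007800080000000000000000000000000000000) (nat_lit 0x0) (nat_lit 0x40002001a0008000e00000000000000000000000000000000) := T_3 (nat_lit 194) (nat_lit 177) (nat_lit 6) (nat_lit 7) (nat_lit 11) L1011255 (by decide +kernel)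
theorem L1011257 : W_3 (nat_lit 6) (nat_lit 0x10003800080000000000000000000000000000000) (nat_lit 0x0) (nat_lit 0x40002001a800c000e00000000000000000000000000000000) := T_3 (nat_lit 146) (nat_lit 159) (nat_lit 1) (nat_lit 10) (nat_lit 8) L1011256 (by decide +kernel)
theorem L1011258 : W_3 (nat_lit 2) (nat_lit 0x100038000a0000000000000000000000000000000) (nat_lit 0x0) (nat_lit 0x400050000000000000000000000000000000) := D_3 (nat_lit 124) (nat_lit 126) (nat_lit 142) (nat_lit 3) (nat_lit 5) (nat_lit 7) (nat_lit 0) (nat_lit 9) (nat_lit 8) (by decide +kernel)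
theorem L1011259 : W_3 (nat_lit 3) (nat_lit 0x100038000a0000000000000000000000000000000) (nat_lit 0x0) (nat_lit 0x4000200000000000050001000000000000000000000000000) := T_3 (nat_lit 126) (nat_lit 124) (nat_lit 3) (nat_lit 5) (nat_lit 7) L1000348 (by decide +kernel)
theorem L1011260 : W_3 (nat_lit 2) (nat_lit 0x200010003c000a0000000000000000000000000000000) (nat_lit 0x0) (nat_lit 0x8000000000001000080000000000000000000000) := D_3 (nat_lit 108) (nat_lit 91) (nat_lit 159) (nat_lit 7) (nat_lit 6) (nat_lit 5) (nat_lit 7) (nat_lit 6) (nat_lit 6) (by decide +kernel)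
theorem L1011261 : W_3 (nat_lit 3) (nat_lit 0x2000100038000a0000000000000000000000000000000) (nat_lit 0x0) (nat_lit 0x8000400010001000080000000000000000000000) := T_3 (nat_lit 142) (nat_lit 124) (nat_lit 0) (nat_lit 9) (nat_lit 8) L1011260 (by decide +kernel)
theorem L1011262 : W_3 (nat_lit 4) (nat_lit 0x100038000a0000000000000000000000000000000) (nat_lit 0x0) (nat_lit 0x4000200008000400010001000080000000000000000000000) := T_3 (nat_lit 177) (nat_lit 194) (nat_lit 6) (nat_lit 7) (nat_lit 11) L1011261 (by decide +kernel)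
theorem L1011263 : W_3 (nat_lit 5) (nat_lit 0x2000100038000a0000000000000000000000000000000) (nat_lit 0x0) (nat_lit 0x2000100028000000040003000100008000000000000000000) := T_3 (nat_lit 126) (nat_lit 108) (nat_lit 4) (nat_lit 7) (nat_lit 10) L982249 (by decide +kernel)
theorem L1011264 : W_3 (nat_lit 6) (nat_lit 0x100038000a0000000000000000000000000000000) (nat_lit 0x0) (nat_lit 0x6000300028000000040003000100008000000000000000000) := T_3 (nat_lit 177) (nat_lit 194) (nat_lit 6) (nat_lit 7) (nat_lit 11) L1011263 (by decide +kernel)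
theorem L1011265 : W_3 (nat_lit 7) (nat_lit 0x10003800080000000000000000000000000000000) (nat_lit 0x0) (nat_lit 0x6000300028000400070003000180008000000000000000000) := Q_3 (nat_lit 125) (C_3 L1011258 (C_3 L1011259 (C_3 L1011262 (C_3 L1011264 N_3)))) (by decide +kernel)
theorem L1011267 : W_3 (nat_lit 2) (nat_lit 0x70001000b8000c0002000100000000000000000000000) (nat_lit 0x0) (nat_lit 0x1000080004000000000000000000) := D_3 (nat_lit 91) (nat_lit 108) (nat_lit 74) (nat_lit 4) (nat_lit 7) (nat_lit 9) (nat_lit 4) (nat_lit 7) (nat_lit 8) (by decide +kernel)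
theorem L1011268 : W_3 (nat_lit 3) (nat_lit 0x70001000b8000c0002000000000000000000000000000) (nat_lit 0x0) (nat_lit 0x100018000c000000000000000000) := T_3 (nat_lit 92) (nat_lit 75) (nat_lit 7) (nat_lit 7) (nat_lit 4) L1011267 (by decide +kernel)
theorem L1011269 : W_3 (nat_lit 4) (nat_lit 0x70001000b8000c0000000000000000000000000000000) (nat_lit 0x0) (nat_lit 0x2000000000000300018000c000000000000000000) := T_3 (nat_lit 109) (nat_lit 161) (nat_lit 7) (nat_lit 7) (nat_lit 6) L1011268 (by decide +kernel)
theorem L1011270 : W_3 (nat_lit 5) (nat_lit 0x30001000b8000c0000000000000000000000000000000) (nat_lit 0x0) (nat_lit 0x800040002000000000000300018000c000000000000000000) := T_3 (nat_lit 178) (nat_lit 195) (nat_lit 7) (nat_lit 7) (nat_lit 7) L1011269 (by decide +kernel)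
theorem L1011271 : W_3 (nat_lit 6) (nat_lit 0x20001000b8000c0000000000000000000000000000000) (nat_lit 0x0) (nat_lit 0xa00050002000000000000300018000c000000000000000000) := T_3 (nat_lit 176) (nat_lit 193) (nat_lit 5) (nat_lit 7) (nat_lit 7) L1011270 (by decide +kernel)
theorem L1011272 : W_3 (nat_lit 7) (nat_lit 0x1000b8000c0000000000000000000000000000000) (nat_lit 0x0) (nat_lit 0xe00070002000000000000300018000c000000000000000000) := T_3 (nat_lit 177) (nat_lit 194) (nat_lit 6) (nat_lit 7) (nat_lit 11) L1011271 (by decide +kernel)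
theorem L1011273 : W_3 (nat_lit 8) (nat_lit 0x100038000c0000000000000000000000000000000) (nat_lit 0x0) (nat_lit 0xe00070002000c00000000300018000c000000000000000000) := T_3 (nat_lit 147) (nat_lit 146) (nat_lit 0) (nat_lit 11) (nat_lit 8) L1011272 (by decide +kernel)
theorem L1011274 : W_3 (nat_lit 9) (nat_lit 0x10003800080000000000000000000000000000000) (nat_lit 0x0) (nat_lit 0xe00070002000c00007000300018000c000000000000000000) := Q_3 (nat_lit 126) (C_3 L1011266 (C_3 L1000642 (C_3 L1011273 N_3))) (by decide +kernel)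
theorem L1011275 : W_3 (nat_lit 10) (nat_lit 0x10001800080000000000000000000000000000000) (nat_lit 0x0) (nat_lit 0xe0007001a800e400e7000300018000c000000000000000000) := Q_3 (nat_lit 145) (C_3 L1011250 (C_3 L1011252 (C_3 L1011257 (C_3 L1011265 (C_3 L1011274 N_3))))) (by decide +kernel)
theorem L1011276 : W_3 (nat_lit 10) (nat_lit 0x100018000c0000000000000000000000000000000) (nat_lit 0x0) (nat_lit 0x5c002e000700030003c0018000c000000000000000000) := Q_3 (nat_lit 109) (C_3 L1004367 (C_3 L771750 (C_3 L619431 N_3))) (by decide +kernel)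
theorem L1011277 : W_3 (nat_lit 4) (nat_lit 0x7000100018000c0000000000000000000000000000000) (nat_lit 0x0) (nat_lit 0x2000000000000300018000c000000000000000000) := T_3 (nat_lit 109) (nat_lit 161) (nat_lit 7) (nat_lit 7) (nat_lit 6) L772776 (by decide +kernel)
theorem L1011278 : W_3 (nat_lit 5) (nat_lit 0x3000100018000c0000000000000000000000000000000) (nat_lit 0x0) (nat_lit 0x800040002000000000000300018000c000000000000000000) := T_3 (nat_lit 178) (nat_lit 195) (nat_lit 7) (nat_lit 7) (nat_lit 7) L1011277 (by decide +kernel)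
theorem L1011279 : W_3 (nat_lit 6) (nat_lit 0x2000100018000c0000000000000000000000000000000) (nat_lit 0x0) (nat_lit 0xa00050002000000000000300018000c000000000000000000) := T_3 (nat_lit 176) (nat_lit 193) (nat_lit 5) (nat_lit 7) (nat_lit 7) L1011278 (by decide +kernel)
theorem L1011280 : W_3 (nat_lit 7) (nat_lit 0x100018000c0000000000000000000000000000000) (nat_lit 0x0) (nat_lit 0xe00070002000000000000300018000c000000000000000000) := T_3 (nat_lit 177) (nat_lit 194) (nat_lit 6) (nat_lit 7) (nat_lit 11) L1011279 (by decide +kernel)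
theorem L1011281 : W_3 (nat_lit 2) (nat_lit 0x3000100018000c0002000000000000000000000000000) (nat_lit 0x0) (nat_lit 0x8000400020000000000000000000000000000000000000000) := D_3 (nat_lit 178) (nat_lit 161) (nat_lit 195) (nat_lit 7) (nat_lit 7) (nat_lit 6) (nat_lit 7) (nat_lit 7) (nat_lit 7) (by decide +kernel)
theorem L1011282 : W_3 (nat_lit 3) (nat_lit 0x3000100018000c0000000000000000000000000000000) (nat_lit 0x0) (nat_lit 0x8000400028000000000002000000000000000000000000000) := T_3 (nat_lit 109) (nat_lit 159) (nat_lit 5) (nat_lit 7) (nat_lit 6) L1011281 (by decide +kernel)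
theorem L1011283 : W_3 (nat_lit 4) (nat_lit 0x2000100018000c0000000000000000000000000000000) (nat_lit 0x0) (nat_lit 0xa000500028000000000002000000000000000000000000000) := T_3 (nat_lit 176) (nat_lit 193) (nat_lit 5) (nat_lit 7) (nat_lit 7) L1011282 (by decide +kernel)
theorem L1011284 : W_3 (nat_lit 5) (nat_lit 0x100018000c0000000000000000000000000000000) (nat_lit 0x0) (nat_lit 0xe000700028000000000002000000000000000000000000000) := T_3 (nat_lit 177) (nat_lit 194) (nat_lit 6) (nat_lit 7) (nat_lit 11) L1011283 (by decide +kernel)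
theorem L1011292 : W_3 (nat_lit 2) (nat_lit 0xe000300018000e8000000000000000000000000000000) (nat_lit 0x0) (nat_lit 0x100000c000000000000000000000000000000000000000) := D_3 (nat_lit 159) (nat_lit 158) (nat_lit 180) (nat_lit 3) (nat_lit 5) (nat_lit 9) (nat_lit 0) (nat_lit 10) (nat_lit 10) (by decide +kernel)
theorem L1011293 : W_3 (nat_lit 3) (nat_lit 0x6000300018000e8000000000000000000000000000000) (nat_lit 0x0) (nat_lit 0x1000180000c000000000000000000000000000000000000000) := T_3 (nat_lit 179) (nat_lit 196) (nat_lit 7) (nat_lit 8) (nat_lit 7) L1011292 (by decide +kernel)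
theorem L1011294 : W_3 (nat_lit 4) (nat_lit 0x6000100018000e8000000000000000000000000000000) (nat_lit 0x0) (nat_lit 0x1000180002c000000000002000000000000000000000000000) := T_3 (nat_lit 161) (nat_lit 109) (nat_lit 7) (nat_lit 7) (nat_lit 6) L1011293 (by decide +kernel)
theorem L1011295 : W_3 (nat_lit 5) (nat_lit 0x2000100018000e8000000000000000000000000000000) (nat_lit 0x0) (nat_lit 0x18001c0002c000000000002000000000000000000000000000) := T_3 (nat_lit 178) (nat_lit 195) (nat_lit 7) (nat_lit 7) (nat_lit 7) L1011294 (by decide +kernel)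
theorem L1011296 : W_3 (nat_lit 6) (nat_lit 0x2000100018000e0000000000000000000000000000000) (nat_lit 0x0) (nat_lit 0x18001c0002c000000018002000000000000000000000000000) := T_3 (nat_lit 123) (nat_lit 124) (nat_lit 3) (nat_lit 4) (nat_lit 7) L1011295 (by decide +kernel)
theorem L1011297 : W_3 (nat_lit 7) (nat_lit 0x2000100018000c0000000000000000000000000000000) (nat_lit 0x0) (nat_lit 0x18001c0002c000000038003000000000000000000000000000) := T_3 (nat_lit 125) (nat_lit 108) (nat_lit 4) (nat_lit 7) (nat_lit 10) L1011296 (by decide +kernel)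
theorem L1011298 : W_3 (nat_lit 8) (nat_lit 0x100018000c0000000000000000000000000000000) (nat_lit 0x0) (nat_lit 0x1c001e0002c000000038003000000000000000000000000000) := T_3 (nat_lit 177) (nat_lit 194) (nat_lit 6) (nat_lit 7) (nat_lit 11) L1011297 (by decide +kernel)
theorem L1011299 : W_3 (nat_lit 11) (nat_lit 0x10001800080000000000000000000000000000000) (nat_lit 0x0) (nat_lit 0x1e001fc002e000700078003c0018000c000000000000000000) := Q_3 (nat_lit 126) (C_3 L1011276 (C_3 L771726 (C_3 L1011280 (C_3 L1011284 (C_3 L1011291 (C_3 L1011298 N_3)))))) (by decide +kernel)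
theorem L1011337 : W_3 (nat_lit 5) (nat_lit 0x100018000c0000000000000000000000000000000) (nat_lit 0x0) (nat_lit 0x50002e00200000000300018000c000000000000000000) := Q_3 (nat_lit 109) (C_3 L1004367 (C_3 L771750 (C_3 L625704 N_3))) (by decide +kernel)
theorem L1011338 : W_3 (nat_lit 11) (nat_lit 0x10001800080000000000000000000000000000000) (nat_lit 0x0) (nat_lit 0x1e001fc002e002300078003c0018000c000000000000000000) := Q_3 (nat_lit 126) (C_3 L1011337 (C_3 L1011298 (C_3 L1011291 (C_3 L771726 (C_3 L1011280 (C_3 L1011284 N_3)))))) (by decide +kernel)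
theorem L1011339 : W_3 (nat_lit 2) (nat_lit 0x100018001c00080000000000000000000000000000000) (nat_lit 0x0) (nat_lit 0x2000000000000000040002000000000000000000000000000) := D_3 (nat_lit 126) (nat_lit 109) (nat_lit 193) (nat_lit 5) (nat_lit 7) (nat_lit 6) (nat_lit 6) (nat_lit 6) (nat_lit 11) (by decide +kernel)
theorem L1011340 : W_3 (nat_lit 2) (nat_lit 0x300010001a001c000a0000000000000000000000000000000) (nat_lit 0x0) (nat_lit 0x200010000800000000000000000000000000) := D_3 (nat_lit 124) (nat_lit 107) (nat_lit 141) (nat_lit 4) (nat_lit 6) (nat_lit 10) (nat_lit 4) (nat_lit 6) (nat_lit 11) (by decide +kernel)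
theorem L1011341 : W_3 (nat_lit 3) (nat_lit 0x300010001a001c00080000000000000000000000000000000) (nat_lit 0x0) (nat_lit 0x80000000200030000800000000000000000000000000) := T_3 (nat_lit 125) (nat_lit 175) (nat_lit 5) (nat_lit 6) (nat_lit 7) L1011340 (by decide +kernel)
theorem L1011342 : W_3 (nat_lit 4) (nat_lit 0x200010001a001c00080000000000000000000000000000000) (nat_lit 0x0) (nat_lit 0x20001000080000000200030000800000000000000000000000000) := T_3 (nat_lit 192) (nat_lit 209) (nat_lit 5) (nat_lit 6) (nat_lit 8) L1011341 (by decide +kernel)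
theorem L1011343 : W_3 (nat_lit 5) (nat_lit 0x10001a001c00080000000000000000000000000000000) (nat_lit 0x0) (nat_lit 0x60003000080000000200030000800000000000000000000000000) := T_3 (nat_lit 193) (nat_lit 210) (nat_lit 6) (nat_lit 6) (nat_lit 12) L1011342 (by decide +kernel)
theorem L1011344 : W_3 (nat_lit 6) (nat_lit 0x100018001c00080000000000000000000000000000000) (nat_lit 0x0) (nat_lit 0x60003000080006000200030000800000000000000000000000000) := T_3 (nat_lit 157) (nat_lit 158) (nat_lit 2) (nat_lit 4) (nat_lit 9) L1011343 (by decide +kernel)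
theorem L1011345 : W_3 (nat_lit 2) (nat_lit 0x10001a001e000d0000000000000000000000000000000) (nat_lit 0x0) (nat_lit 0x20000800040000000000000000000000) := D_3 (nat_lit 107) (nat_lit 90) (nat_lit 125) (nat_lit 7) (nat_lit 5) (nat_lit 5) (nat_lit 4) (nat_lit 6) (nat_lit 10) (by decide +kernel)
theorem L1011346 : W_3 (nat_lit 3) (nat_lit 0x10001a001e000c0000000000000000000000000000000) (nat_lit 0x0) (nat_lit 0x38000800040000000000000000000000) := T_3 (nat_lit 124) (nat_lit 123) (nat_lit 0) (nat_lit 8) (nat_lit 8) L1011345 (by decide +kernel)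
theorem L1011347 : W_3 (nat_lit 4) (nat_lit 0x10001a001c000c0000000000000000000000000000000) (nat_lit 0x0) (nat_lit 0x300038000800040000000000000000000000) := T_3 (nat_lit 141) (nat_lit 140) (nat_lit 2) (nat_lit 4) (nat_lit 8) L1011346 (by decide +kernel)
theorem L1011348 : W_3 (nat_lit 5) (nat_lit 0x100018001c000c0000000000000000000000000000000) (nat_lit 0x0) (nat_lit 0x6000300038000800040000000000000000000000) := T_3 (nat_lit 157) (nat_lit 158) (nat_lit 2) (nat_lit 4) (nat_lit 9) L1011347 (by decide +kernel)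
theorem L1011349 : W_3 (nat_lit 6) (nat_lit 0x100018001c00080000000000000000000000000000000) (nat_lit 0x0) (nat_lit 0x6000300078002800040000000000000000000000) := T_3 (nat_lit 126) (nat_lit 109) (nat_lit 5) (nat_lit 7) (nat_lit 6) L1011348 (by decide +kernel)
theorem L1011350 : W_3 (nat_lit 7) (nat_lit 0x18001c00080000000000000000000000000000000) (nat_lit 0x0) (nat_lit 0x60003000180006000300078002800040000000000000000000000) := Q_3 (nat_lit 176) (C_3 L1011339 (C_3 L1011344 (C_3 L1011349 N_3))) (by decide +kernel)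
theorem L1011351 : W_3 (nat_lit 2) (nat_lit 0x100018001c00080000000000000000000000000000000) (nat_lit 0x0) (nat_lit 0x40002000000000000000040000000000000000000000000000000) := D_3 (nat_lit 193) (nat_lit 126) (nat_lit 210) (nat_lit 6) (nat_lit 6) (nat_lit 11) (nat_lit 6) (nat_lit 6) (nat_lit 12) (by decide +kernel)
theorem L1011352 : W_3 (nat_lit 2) (nat_lit 0x38001a001c000a0000000000000000000000000000000) (nat_lit 0x0) (nat_lit 0x40021000000000000000000000000000000000000000) := D_3 (nat_lit 174) (nat_lit 161) (nat_lit 156) (nat_lit 2) (nat_lit 4) (nat_lit 10) (nat_lit 0) (nat_lit 7) (nat_lit 10) (by decide +kernel)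
theorem L1011353 : W_3 (nat_lit 3) (nat_lit 0x30001a001c000a0000000000000000000000000000000) (nat_lit 0x0) (nat_lit 0x10000c0021000000000000000000000000000000000000000) := T_3 (nat_lit 175) (nat_lit 192) (nat_lit 5) (nat_lit 6) (nat_lit 7) L1011352 (by decide +kernel)
theorem L1011354 : W_3 (nat_lit 4) (nat_lit 0x30001a001c00080000000000000000000000000000000) (nat_lit 0x0) (nat_lit 0x10000c0021000000020001000000000000000000000000000) := T_3 (nat_lit 125) (nat_lit 108) (nat_lit 7) (nat_lit 6) (nat_lit 6) L1011353 (by decide +kernel)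
theorem L1011355 : W_3 (nat_lit 5) (nat_lit 0x10001a001c00080000000000000000000000000000000) (nat_lit 0x0) (nat_lit 0x50002c0021000000020001000000000000000000000000000) := T_3 (nat_lit 177) (nat_lit 194) (nat_lit 6) (nat_lit 7) (nat_lit 11) L1011354 (by decide +kernel)
theorem L1011356 : W_3 (nat_lit 6) (nat_lit 0x100018001c00080000000000000000000000000000000) (nat_lit 0x0) (nat_lit 0x50002c0027000000020001000000000000000000000000000) := T_3 (nat_lit 157) (nat_lit 158) (nat_lit 2) (nat_lit 4) (nat_lit 9) L1011355 (by decide +kernel)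
theorem L1011357 : W_3 (nat_lit 7) (nat_lit 0x18001c00080000000000000000000000000000000) (nat_lit 0x0) (nat_lit 0x600070003c0027000200070001800000000000000000000000000) := Q_3 (nat_lit 176) (C_3 L1011344 (C_3 L1011351 (C_3 L1011356 N_3))) (by decide +kernel)
theorem L1011358 : W_3 (nat_lit 2) (nat_lit 0x18001e00080000000000000000000000000000000) (nat_lit 0x0) (nat_lit 0x20000180000000000000000000000000000000000) := D_3 (nat_lit 140) (nat_lit 139) (nat_lit 161) (nat_lit 3) (nat_lit 3) (nat_lit 8) (nat_lit 3) (nat_lit 4) (nat_lit 8) (by decide +kernel)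
theorem L1011359 : W_3 (nat_lit 2) (nat_lit 0x400000001c001e80090000000000000000000000000000000) (nat_lit 0x0) (nat_lit 0x2000100000000000000000800000000000000000000000000) := D_3 (nat_lit 176) (nat_lit 193) (nat_lit 107) (nat_lit 4) (nat_lit 6) (nat_lit 11) (nat_lit 7) (nat_lit 5) (nat_lit 6) (by decide +kernel)
theorem L1011360 : W_3 (nat_lit 3) (nat_lit 0x400000001c001e80080000000000000000000000000000000) (nat_lit 0x0) (nat_lit 0x2000100000000000018000800000000000000000000000000) := T_3 (nat_lit 124) (nat_lit 123) (nat_lit 0) (nat_lit 8) (nat_lit 8) L1011359 (by decide +kernel)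
theorem L1011361 : W_3 (nat_lit 4) (nat_lit 0x4000000018001e80080000000000000000000000000000000) (nat_lit 0x0) (nat_lit 0x2000100006000000018000800000000000000000000000000) := T_3 (nat_lit 158) (nat_lit 157) (nat_lit 2) (nat_lit 4) (nat_lit 9) L1011360 (by decide +kernel)
theorem L1011362 : W_3 (nat_lit 5) (nat_lit 0x4000000018001e00080000000000000000000000000000000) (nat_lit 0x0) (nat_lit 0x2000100006000180018000800000000000000000000000000) := T_3 (nat_lit 139) (nat_lit 140) (nat_lit 3) (nat_lit 3) (nat_lit 8) L1011361 (by decide +kernel)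
theorem L1011363 : W_3 (nat_lit 6) (nat_lit 0x18001e00080000000000000000000000000000000) (nat_lit 0x0) (nat_lit 0x6000300006000180018000800000000000000000000000000) := T_3 (nat_lit 194) (nat_lit 177) (nat_lit 6) (nat_lit 7) (nat_lit 11) L1011362 (by decide +kernel)
theorem L1011364 : W_3 (nat_lit 2) (nat_lit 0x4000000018001e00090000800000000000000000000000000) (nat_lit 0x0) (nat_lit 0x2000100000000000020000000000000000000000000000000) := D_3 (nat_lit 176) (nat_lit 193) (nat_lit 125) (nat_lit 4) (nat_lit 6) (nat_lit 11) (nat_lit 4) (nat_lit 6) (nat_lit 10) (by decide +kernel)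
theorem L1011365 : W_3 (nat_lit 3) (nat_lit 0x4000000018001e00090000000000000000000000000000000) (nat_lit 0x0) (nat_lit 0x2000100000000000020000800040000000000000000000000) := T_3 (nat_lit 107) (nat_lit 90) (nat_lit 7) (nat_lit 5) (nat_lit 5) L1011364 (by decide +kernel)
theorem L1011366 : W_3 (nat_lit 4) (nat_lit 0x18001e00090000000000000000000000000000000) (nat_lit 0x0) (nat_lit 0x6000300000000000020000800040000000000000000000000) := T_3 (nat_lit 194) (nat_lit 177) (nat_lit 6) (nat_lit 7) (nat_lit 11) L1011365 (by decide +kernel)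
theorem L1011367 : W_3 (nat_lit 5) (nat_lit 0x18001e00080000000000000000000000000000000) (nat_lit 0x0) (nat_lit 0x6000300000000000038000800040000000000000000000000) := T_3 (nat_lit 124) (nat_lit 123) (nat_lit 0) (nat_lit 8) (nat_lit 8) L1011366 (by decide +kernel)
theorem L1011368 : W_3 (nat_lit 7) (nat_lit 0x18001c00080000000000000000000000000000000) (nat_lit 0x0) (nat_lit 0x6000300026000380038000800040000000000000000000000) := Q_3 (nat_lit 141) (C_3 L1011358 (C_3 L1011363 (C_3 L1011367 N_3))) (by decide +kernel)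
theorem L1011370 : W_3 (nat_lit 3) (nat_lit 0x1c001e00080000000000000000000000000000000) (nat_lit 0x0) (nat_lit 0x2000100000000000018000800000000000000000000000000) := T_3 (nat_lit 124) (nat_lit 123) (nat_lit 0) (nat_lit 8) (nat_lit 8) L1011369 (by decide +kernel)
theorem L1011371 : W_3 (nat_lit 4) (nat_lit 0x18001e00080000000000000000000000000000000) (nat_lit 0x0) (nat_lit 0x2000100006000000018000800000000000000000000000000) := T_3 (nat_lit 158) (nat_lit 157) (nat_lit 2) (nat_lit 4) (nat_lit 9) L1011370 (by decide +kernel)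
theorem L1011372 : W_3 (nat_lit 7) (nat_lit 0x18001c00080000000000000000000000000000000) (nat_lit 0x0) (nat_lit 0x6000300026000380018000800000000000000000000000000) := Q_3 (nat_lit 141) (C_3 L1011363 (C_3 L1011358 (C_3 L1011371 N_3))) (by decide +kernel)
theorem L1011373 : W_3 (nat_lit 7) (nat_lit 0x18001c00080000000000000000000000000000000) (nat_lit 0x0) (nat_lit 0x400070003c0027000000060001000000000000000000000000000) := Q_3 (nat_lit 176) (C_3 L1011356 (C_3 L1011351 N_3)) (by decide +kernel)
theorem L1011374 : W_3 (nat_lit 2) (nat_lit 0x4000100018001e000d0000000000000000000000000000000) (nat_lit 0x0) (nat_lit 0x20000800040000000000000000000000) := D_3 (nat_lit 107) (nat_lit 90) (nat_lit 125) (nat_lit 7) (nat_lit 5) (nat_lit 5) (nat_lit 4) (nat_lit 6) (nat_lit 10) (by decide +kernel)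
theorem L1011375 : W_3 (nat_lit 3) (nat_lit 0x4000100018001e000c0000000000000000000000000000000) (nat_lit 0x0) (nat_lit 0x38000800040000000000000000000000) := T_3 (nat_lit 124) (nat_lit 123) (nat_lit 0) (nat_lit 8) (nat_lit 8) L1011374 (by decide +kernel)
theorem L1011376 : W_3 (nat_lit 4) (nat_lit 0x4000100018001c000c0000000000000000000000000000000) (nat_lit 0x0) (nat_lit 0x300038000800040000000000000000000000) := T_3 (nat_lit 141) (nat_lit 140) (nat_lit 2) (nat_lit 4) (nat_lit 8) L1011375 (by decide +kernel)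
theorem L1011377 : W_3 (nat_lit 5) (nat_lit 0x4000000018001c000c0000000000000000000000000000000) (nat_lit 0x0) (nat_lit 0x2000100000000300038000800040000000000000000000000) := T_3 (nat_lit 176) (nat_lit 193) (nat_lit 6) (nat_lit 6) (nat_lit 11) L1011376 (by decide +kernel)
theorem L1011378 : W_3 (nat_lit 6) (nat_lit 0x18001c000c0000000000000000000000000000000) (nat_lit 0x0) (nat_lit 0x6000300000000300038000800040000000000000000000000) := T_3 (nat_lit 194) (nat_lit 177) (nat_lit 6) (nat_lit 7) (nat_lit 11) L1011377 (by decide +kernel)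
theorem L1011379 : W_3 (nat_lit 2) (nat_lit 0x200018001d000c0002000000000000000000000000000) (nat_lit 0x0) (nat_lit 0x20001000080000000000000000000000) := D_3 (nat_lit 108) (nat_lit 125) (nat_lit 91) (nat_lit 7) (nat_lit 6) (nat_lit 6) (nat_lit 4) (nat_lit 7) (nat_lit 9) (by decide +kernel)
theorem L1011380 : W_3 (nat_lit 3) (nat_lit 0x200018001d000c0000000000000000000000000000000) (nat_lit 0x0) (nat_lit 0x20003000180000000000000000000000) := T_3 (nat_lit 109) (nat_lit 92) (nat_lit 5) (nat_lit 7) (nat_lit 5) L1011379 (by decide +kernel)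
theorem L1011381 : W_3 (nat_lit 4) (nat_lit 0x18001d000c0000000000000000000000000000000) (nat_lit 0x0) (nat_lit 0x4000200000000000020003000180000000000000000000000) := T_3 (nat_lit 177) (nat_lit 194) (nat_lit 6) (nat_lit 7) (nat_lit 11) L1011380 (by decide +kernel)
theorem L1011382 : W_3 (nat_lit 5) (nat_lit 0x18001c000c0000000000000000000000000000000) (nat_lit 0x0) (nat_lit 0x4000200000000300020003000180000000000000000000000) := T_3 (nat_lit 140) (nat_lit 141) (nat_lit 2) (nat_lit 4) (nat_lit 8) L1011381 (by decide +kernel)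
theorem L1011383 : W_3 (nat_lit 7) (nat_lit 0x18001c00080000000000000000000000000000000) (nat_lit 0x0) (nat_lit 0x60003000000003000780038001c0000000000000000000000) := Q_3 (nat_lit 126) (C_3 L619879 (C_3 L1011378 (C_3 L1011382 N_3))) (by decide +kernel)
theorem L1011384 : W_3 (nat_lit 2) (nat_lit 0x18001e00080000000000000000000000000000000) (nat_lit 0x0) (nat_lit 0x180040000000000000000000000000000000) := D_3 (nat_lit 140) (nat_lit 126) (nat_lit 139) (nat_lit 2) (nat_lit 4) (nat_lit 8) (nat_lit 3) (nat_lit 3) (nat_lit 8) (by decide +kernel)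
theorem L1011385 : W_3 (nat_lit 2) (nat_lit 0x400000001c001e000b0001800000000000000000000000000) (nat_lit 0x0) (nat_lit 0x40000400020000000000000000000000) := D_3 (nat_lit 106) (nat_lit 126) (nat_lit 89) (nat_lit 0) (nat_lit 8) (nat_lit 7) (nat_lit 4) (nat_lit 5) (nat_lit 9) (by decide +kernel)
theorem L1011386 : W_3 (nat_lit 3) (nat_lit 0x400000001c001e00090001800000000000000000000000000) (nat_lit 0x0) (nat_lit 0x80000000000060000400020000000000000000000000) := T_3 (nat_lit 125) (nat_lit 175) (nat_lit 6) (nat_lit 5) (nat_lit 10) L1011385 (by decide +kernel)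
theorem L1011387 : W_3 (nat_lit 4) (nat_lit 0x400000001c001e00090000800000000000000000000000000) (nat_lit 0x0) (nat_lit 0x800000000000600014000a0000000000000000000000) := T_3 (nat_lit 108) (nat_lit 91) (nat_lit 6) (nat_lit 5) (nat_lit 9) L1011386 (by decide +kernel)
theorem L1011388 : W_3 (nat_lit 5) (nat_lit 0x400000001c001e00090000000000000000000000000000000) (nat_lit 0x0) (nat_lit 0x80000000000060001c000e0000000000000000000000) := T_3 (nat_lit 107) (nat_lit 90) (nat_lit 7) (nat_lit 5) (nat_lit 5) L1011387 (by decide +kernel)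
theorem L1011389 : W_3 (nat_lit 6) (nat_lit 0x400000001c001e00080000000000000000000000000000000) (nat_lit 0x0) (nat_lit 0x80000000000078001c000e0000000000000000000000) := T_3 (nat_lit 124) (nat_lit 123) (nat_lit 0) (nat_lit 8) (nat_lit 8) L1011388 (by decide +kernel)
theorem L1011390 : W_3 (nat_lit 7) (nat_lit 0x4000000018001e00080000000000000000000000000000000) (nat_lit 0x0) (nat_lit 0x80006000000078001c000e0000000000000000000000) := T_3 (nat_lit 158) (nat_lit 157) (nat_lit 2) (nat_lit 4) (nat_lit 9) L1011389 (by decide +kernel)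
theorem L1011391 : W_3 (nat_lit 8) (nat_lit 0x18001e00080000000000000000000000000000000) (nat_lit 0x0) (nat_lit 0x4000280006000000078001c000e0000000000000000000000) := T_3 (nat_lit 194) (nat_lit 177) (nat_lit 6) (nat_lit 7) (nat_lit 11) L1011390 (by decide +kernel)
theorem L1011392 : W_3 (nat_lit 9) (nat_lit 0x18001c00080000000000000000000000000000000) (nat_lit 0x0) (nat_lit 0x4000280026000380078001c000e0000000000000000000000) := Q_3 (nat_lit 141) (C_3 L1011358 (C_3 L1011384 (C_3 L1011391 N_3))) (by decide +kernel)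
theorem L1011393 : W_3 (nat_lit 10) (nat_lit 0x18001800080000000000000000000000000000000) (nat_lit 0x0) (nat_lit 0x600070003c0027000780078003c001e0000000000000000000000) := Q_3 (nat_lit 142) (C_3 L1011350 (C_3 L1011357 (C_3 L1011368 (C_3 L1011372 (C_3 L1011373 (C_3 L1011383 (C_3 L1011392 N_3))))))) (by decide +kernel)
theorem L1011394 : W_3 (nat_lit 2) (nat_lit 0x1c001800080000000000000000000000000000000) (nat_lit 0x0) (nat_lit 0x20006000000000000000000000000000000000000) := D_3 (nat_lit 145) (nat_lit 146) (nat_lit 161) (nat_lit 1) (nat_lit 10) (nat_lit 8) (nat_lit 2) (nat_lit 5) (nat_lit 9) (by decide +kernel)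
theorem L1011395 : W_3 (nat_lit 3) (nat_lit 0x18001800080000000000000000000000000000000) (nat_lit 0x0) (nat_lit 0x26006000000000000000000000000000000000000) := T_3 (nat_lit 158) (nat_lit 157) (nat_lit 2) (nat_lit 4) (nat_lit 9) L1011394 (by decide +kernel)
theorem L1011396 : W_3 (nat_lit 11) (nat_lit 0x10001800080000000000000000000000000000000) (nat_lit 0x0) (nat_lit 0x600070003c002f006780078003c001e000c000000000000000000) := Q_3 (nat_lit 159) (C_3 L1011301 (C_3 L1011335 (C_3 L1011393 (C_3 L1011395 N_3)))) (by decide +kernel)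
theorem L1011401 : W_3 (nat_lit 2) (nat_lit 0x18001c000a0000000000000000000000000000000) (nat_lit 0x0) (nat_lit 0x4000200000000000000001000000000000000000000000000) := D_3 (nat_lit 177) (nat_lit 194) (nat_lit 108) (nat_lit 6) (nat_lit 7) (nat_lit 11) (nat_lit 7) (nat_lit 6) (nat_lit 6) (by decide +kernel)
theorem L1011402 : W_3 (nat_lit 2) (nat_lit 0x1000100018001c000a0003800000000000000000000000000) (nat_lit 0x0) (nat_lit 0x60002000000000000000000000000000000000000000000000000) := D_3 (nat_lit 193) (nat_lit 210) (nat_lit 209) (nat_lit 6) (nat_lit 6) (nat_lit 12) (nat_lit 5) (nat_lit 6) (nat_lit 8) (by decide +kernel)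
theorem L1011403 : W_3 (nat_lit 3) (nat_lit 0x100018001c000a0003800000000000000000000000000) (nat_lit 0x0) (nat_lit 0x60003000080000000000000000000000000000000000000000000) := T_3 (nat_lit 192) (nat_lit 175) (nat_lit 5) (nat_lit 6) (nat_lit 7) L1011402 (by decide +kernel)
theorem L1011404 : W_3 (nat_lit 4) (nat_lit 0x18001c000a0003800000000000000000000000000) (nat_lit 0x0) (nat_lit 0x60003000180000000000010000000000000000000000000000000) := T_3 (nat_lit 176) (nat_lit 124) (nat_lit 4) (nat_lit 6) (nat_lit 10) L1011403 (by decide +kernel)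
theorem L1011405 : W_3 (nat_lit 5) (nat_lit 0x18001c000a0003000000000000000000000000000) (nat_lit 0x0) (nat_lit 0x60003000180000000000010000800040000000000000000000000) := T_3 (nat_lit 107) (nat_lit 90) (nat_lit 4) (nat_lit 6) (nat_lit 9) L1011404 (by decide +kernel)
theorem L1011406 : W_3 (nat_lit 6) (nat_lit 0x18001c000a0001000000000000000000000000000) (nat_lit 0x0) (nat_lit 0x60003000180000000000010002800140000000000000000000000) := T_3 (nat_lit 109) (nat_lit 92) (nat_lit 6) (nat_lit 6) (nat_lit 9) L1011405 (by decide +kernel)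
theorem L1011407 : W_3 (nat_lit 7) (nat_lit 0x18001c000a0000000000000000000000000000000) (nat_lit 0x0) (nat_lit 0x600030001800000000000100038001c0000000000000000000000) := T_3 (nat_lit 108) (nat_lit 91) (nat_lit 7) (nat_lit 6) (nat_lit 5) L1011406 (by decide +kernel)
theorem L1011408 : W_3 (nat_lit 2) (nat_lit 0x4000100018001c000a0000000000000000000000000000000) (nat_lit 0x0) (nat_lit 0xc0002000000000000000000000000000000000000000000000000) := D_3 (nat_lit 193) (nat_lit 210) (nat_lit 211) (nat_lit 6) (nat_lit 6) (nat_lit 12) (nat_lit 7) (nat_lit 6) (nat_lit 8) (by decide +kernel)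
theorem L1011409 : W_3 (nat_lit 3) (nat_lit 0x100018001c000a0000000000000000000000000000000) (nat_lit 0x0) (nat_lit 0xc0006000200000000000000000000000000000000000000000000) := T_3 (nat_lit 194) (nat_lit 177) (nat_lit 7) (nat_lit 6) (nat_lit 7) L1011408 (by decide +kernel)
theorem L1011410 : W_3 (nat_lit 2) (nat_lit 0x40000000100018001c000b0000000000000000000000000000000) (nat_lit 0x0) (nat_lit 0x20000c000000000000000000000000000000) := D_3 (nat_lit 123) (nat_lit 122) (nat_lit 141) (nat_lit 3) (nat_lit 3) (nat_lit 7) (nat_lit 0) (nat_lit 8) (nat_lit 8) (by decide +kernel)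
theorem L1011411 : W_3 (nat_lit 3) (nat_lit 0x40000000100018001c000a0000000000000000000000000000000) (nat_lit 0x0) (nat_lit 0x20001c000800000000000000000000000000) := T_3 (nat_lit 124) (nat_lit 107) (nat_lit 4) (nat_lit 6) (nat_lit 10) L1011410 (by decide +kernel)
theorem L1011412 : W_3 (nat_lit 4) (nat_lit 0x100018001c000a0000000000000000000000000000000) (nat_lit 0x0) (nat_lit 0x4000200000000000020001c000800000000000000000000000000) := T_3 (nat_lit 210) (nat_lit 193) (nat_lit 6) (nat_lit 6) (nat_lit 12) L1011411 (by decide +kernel)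
theorem L1011413 : W_3 (nat_lit 2) (nat_lit 0x40001a0018001c000b0000000000000000000000000000000) (nat_lit 0x0) (nat_lit 0x20000c000000000000000000000000000000) := D_3 (nat_lit 123) (nat_lit 122) (nat_lit 141) (nat_lit 3) (nat_lit 3) (nat_lit 7) (nat_lit 0) (nat_lit 8) (nat_lit 8) (by decide +kernel)
theorem L1011414 : W_3 (nat_lit 3) (nat_lit 0x40001a0018001c000a0000000000000000000000000000000) (nat_lit 0x0) (nat_lit 0x20001c000800000000000000000000000000) := T_3 (nat_lit 124) (nat_lit 107) (nat_lit 4) (nat_lit 6) (nat_lit 10) L1011413 (by decide +kernel)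
theorem L1011415 : W_3 (nat_lit 4) (nat_lit 0x1a0018001c000a0000000000000000000000000000000) (nat_lit 0x0) (nat_lit 0x400020000000020001c000800000000000000000000000000) := T_3 (nat_lit 194) (nat_lit 177) (nat_lit 7) (nat_lit 6) (nat_lit 7) L1011414 (by decide +kernel)
theorem L1011416 : W_3 (nat_lit 5) (nat_lit 0x180018001c000a0000000000000000000000000000000) (nat_lit 0x0) (nat_lit 0x400026000000020001c000800000000000000000000000000) := T_3 (nat_lit 173) (nat_lit 174) (nat_lit 2) (nat_lit 3) (nat_lit 10) L1011415 (by decide +kernel)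
theorem L1011417 : W_3 (nat_lit 6) (nat_lit 0x100018001c000a0000000000000000000000000000000) (nat_lit 0x0) (nat_lit 0x50002e000000020001c000800000000000000000000000000) := T_3 (nat_lit 175) (nat_lit 192) (nat_lit 5) (nat_lit 6) (nat_lit 7) L1011416 (by decide +kernel)
theorem L1011418 : W_3 (nat_lit 7) (nat_lit 0x18001c000a0000000000000000000000000000000) (nat_lit 0x0) (nat_lit 0xc00070003e000000020001c000800000000000000000000000000) := Q_3 (nat_lit 176) (C_3 L1011409 (C_3 L1011412 (C_3 L1011417 N_3))) (by decide +kernel)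
theorem L1011419 : W_3 (nat_lit 8) (nat_lit 0x18001c00080000000000000000000000000000000) (nat_lit 0x0) (nat_lit 0xe00070003e000000020003c0038001c0000000000000000000000) := Q_3 (nat_lit 125) (C_3 L1011401 (C_3 L1011407 (C_3 L1011418 N_3))) (by decide +kernel)
theorem L1011420 : W_3 (nat_lit 2) (nat_lit 0x7000100018005e00080000000000000000000000000000000) (nat_lit 0x0) (nat_lit 0x20000180000000000000000000000000000000000) := D_3 (nat_lit 140) (nat_lit 161) (nat_lit 139) (nat_lit 3) (nat_lit 4) (nat_lit 8) (nat_lit 3) (nat_lit 3) (nat_lit 8) (by decide +kernel)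
theorem L1011421 : W_3 (nat_lit 3) (nat_lit 0x7000100018005c00080000000000000000000000000000000) (nat_lit 0x0) (nat_lit 0x20000380010000000000000000000000000000000) := T_3 (nat_lit 141) (nat_lit 124) (nat_lit 4) (nat_lit 6) (nat_lit 11) L1011420 (by decide +kernel)
theorem L1011422 : W_3 (nat_lit 4) (nat_lit 0x6000100018005c00080000000000000000000000000000000) (nat_lit 0x0) (nat_lit 0x20001000000020000380010000000000000000000000000000000) := T_3 (nat_lit 192) (nat_lit 209) (nat_lit 5) (nat_lit 6) (nat_lit 8) L1011421 (by decide +kernel)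
theorem L1011423 : W_3 (nat_lit 5) (nat_lit 0x6000100018005800080000000000000000000000000000000) (nat_lit 0x0) (nat_lit 0xa0001000000020000780010000000000000000000000000000000) := T_3 (nat_lit 142) (nat_lit 211) (nat_lit 7) (nat_lit 6) (nat_lit 8) L1011422 (by decide +kernel)
theorem L1011424 : W_3 (nat_lit 6) (nat_lit 0x6000100018001800080000000000000000000000000000000) (nat_lit 0x0) (nat_lit 0xa0001000000020006780010000000000000000000000000000000) := T_3 (nat_lit 146) (nat_lit 145) (nat_lit 1) (nat_lit 10) (nat_lit 8) L1011423 (by decide +kernel)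
theorem L1011425 : W_3 (nat_lit 7) (nat_lit 0x4000100018001800080000000000000000000000000000000) (nat_lit 0x0) (nat_lit 0xe0003000000020006780010000000000000000000000000000000) := T_3 (nat_lit 193) (nat_lit 210) (nat_lit 6) (nat_lit 6) (nat_lit 12) L1011424 (by decide +kernel)
theorem L1011426 : W_3 (nat_lit 8) (nat_lit 0x100018001800080000000000000000000000000000000) (nat_lit 0x0) (nat_lit 0xe0007000200020006780010000000000000000000000000000000) := T_3 (nat_lit 194) (nat_lit 177) (nat_lit 6) (nat_lit 7) (nat_lit 11) L1011425 (by decide +kernel)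
theorem L1011427 : W_3 (nat_lit 2) (nat_lit 0x3000100018001c000a0000000000000000000000000000000) (nat_lit 0x0) (nat_lit 0x200010000800000000000000000000000000) := D_3 (nat_lit 124) (nat_lit 107) (nat_lit 141) (nat_lit 4) (nat_lit 6) (nat_lit 10) (nat_lit 4) (nat_lit 6) (nat_lit 11) (by decide +kernel)
theorem L1011428 : W_3 (nat_lit 3) (nat_lit 0x3000100018001c00080000000000000000000000000000000) (nat_lit 0x0) (nat_lit 0x80000000200030000800000000000000000000000000) := T_3 (nat_lit 125) (nat_lit 175) (nat_lit 5) (nat_lit 6) (nat_lit 7) L1011427 (by decide +kernel)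
theorem L1011429 : W_3 (nat_lit 4) (nat_lit 0x2000100018001c00080000000000000000000000000000000) (nat_lit 0x0) (nat_lit 0x20001000080000000200030000800000000000000000000000000) := T_3 (nat_lit 192) (nat_lit 209) (nat_lit 5) (nat_lit 6) (nat_lit 8) L1011428 (by decide +kernel)
theorem L1011430 : W_3 (nat_lit 5) (nat_lit 0x100018001c00080000000000000000000000000000000) (nat_lit 0x0) (nat_lit 0x60003000080000000200030000800000000000000000000000000) := T_3 (nat_lit 193) (nat_lit 210) (nat_lit 6) (nat_lit 6) (nat_lit 12) L1011429 (by decide +kernel)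
theorem L1011431 : W_3 (nat_lit 5) (nat_lit 0x2000100018005c00080000000000000000000000000000000) (nat_lit 0x0) (nat_lit 0xa0005000000020000380010000000000000000000000000000000) := T_3 (nat_lit 194) (nat_lit 211) (nat_lit 7) (nat_lit 6) (nat_lit 8) L1011422 (by decide +kernel)
theorem L1011432 : W_3 (nat_lit 6) (nat_lit 0x2000100018001c00080000000000000000000000000000000) (nat_lit 0x0) (nat_lit 0xa0005000000020006380010000000000000000000000000000000) := T_3 (nat_lit 146) (nat_lit 145) (nat_lit 1) (nat_lit 10) (nat_lit 8) L1011431 (by decide +kernel)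
theorem L1011433 : W_3 (nat_lit 7) (nat_lit 0x100018001c00080000000000000000000000000000000) (nat_lit 0x0) (nat_lit 0xe0007000000020006380010000000000000000000000000000000) := T_3 (nat_lit 193) (nat_lit 210) (nat_lit 6) (nat_lit 6) (nat_lit 12) L1011432 (by decide +kernel)
theorem L1011439 : W_3 (nat_lit 7) (nat_lit 0x100018001c00080000000000000000000000000000000) (nat_lit 0x0) (nat_lit 0x600030000800000060000300018000c0000000000000000000000) := T_3 (nat_lit 146) (nat_lit 145) (nat_lit 1) (nat_lit 10) (nat_lit 8) L1011438 (by decide +kernel)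
theorem L1011440 : W_3 (nat_lit 2) (nat_lit 0x7000180018005c00080000000000000000000000000000000) (nat_lit 0x0) (nat_lit 0x8000060000000000000000000000000000000000000000000) := D_3 (nat_lit 174) (nat_lit 173) (nat_lit 195) (nat_lit 3) (nat_lit 3) (nat_lit 10) (nat_lit 0) (nat_lit 8) (nat_lit 11) (by decide +kernel)
theorem L1011441 : W_3 (nat_lit 3) (nat_lit 0x7000100018005c00080000000000000000000000000000000) (nat_lit 0x0) (nat_lit 0x80000e0000000000020000000000000000000000000000000) := T_3 (nat_lit 175) (nat_lit 125) (nat_lit 5) (nat_lit 6) (nat_lit 7) L1011440 (by decide +kernel)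
theorem L1011442 : W_3 (nat_lit 4) (nat_lit 0x6000100018005c00080000000000000000000000000000000) (nat_lit 0x0) (nat_lit 0x200090000e0000000000020000000000000000000000000000000) := T_3 (nat_lit 192) (nat_lit 209) (nat_lit 5) (nat_lit 6) (nat_lit 8) L1011441 (by decide +kernel)
theorem L1011443 : W_3 (nat_lit 5) (nat_lit 0x2000100018005c00080000000000000000000000000000000) (nat_lit 0x0) (nat_lit 0xa000d0000e0000000000020000000000000000000000000000000) := T_3 (nat_lit 194) (nat_lit 211) (nat_lit 7) (nat_lit 6) (nat_lit 8) L1011442 (by decide +kernel)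
theorem L1011444 : W_3 (nat_lit 6) (nat_lit 0x2000100018001c00080000000000000000000000000000000) (nat_lit 0x0) (nat_lit 0xa000d0000e0000006000020000000000000000000000000000000) := T_3 (nat_lit 146) (nat_lit 145) (nat_lit 1) (nat_lit 10) (nat_lit 8) L1011443 (by decide +kernel)
theorem L1011445 : W_3 (nat_lit 7) (nat_lit 0x100018001c00080000000000000000000000000000000) (nat_lit 0x0) (nat_lit 0xe000f0000e0000006000020000000000000000000000000000000) := T_3 (nat_lit 193) (nat_lit 210) (nat_lit 6) (nat_lit 6) (nat_lit 12) L1011444 (by decide +kernel)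
theorem L1011446 : W_3 (nat_lit 2) (nat_lit 0x100018003e00090000000000000000000000000000000) (nat_lit 0x0) (nat_lit 0x20000180000000000000000000000000000000000) := D_3 (nat_lit 140) (nat_lit 139) (nat_lit 161) (nat_lit 3) (nat_lit 3) (nat_lit 8) (nat_lit 3) (nat_lit 4) (nat_lit 8) (by decide +kernel)
theorem L1011447 : W_3 (nat_lit 3) (nat_lit 0x100018003c00090000000000000000000000000000000) (nat_lit 0x0) (nat_lit 0x20000380008000000000000000000000000000000) := T_3 (nat_lit 141) (nat_lit 123) (nat_lit 0) (nat_lit 8) (nat_lit 8) L1011446 (by decide +kernel)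
theorem L1011448 : W_3 (nat_lit 4) (nat_lit 0x100018003c00080000000000000000000000000000000) (nat_lit 0x0) (nat_lit 0x20000380038000000000000000000000000000000) := T_3 (nat_lit 124) (nat_lit 125) (nat_lit 0) (nat_lit 9) (nat_lit 8) L1011447 (by decide +kernel)
theorem L1011449 : W_3 (nat_lit 5) (nat_lit 0x100018001c00080000000000000000000000000000000) (nat_lit 0x0) (nat_lit 0x20006380038000000000000000000000000000000) := T_3 (nat_lit 145) (nat_lit 146) (nat_lit 1) (nat_lit 10) (nat_lit 8) L1011448 (by decide +kernel)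
theorem L1011450 : W_3 (nat_lit 8) (nat_lit 0x100018001800080000000000000000000000000000000) (nat_lit 0x0) (nat_lit 0xe000f0000e00200067800380018000c0000000000000000000000) := Q_3 (nat_lit 142) (C_3 L1011430 (C_3 L1011433 (C_3 L1011439 (C_3 L1011445 (C_3 L1011449 N_3))))) (by decide +kernel)
theorem L1011451 : W_3 (nat_lit 2) (nat_lit 0x7000100018001c000a0000000000000000000000000000000) (nat_lit 0x0) (nat_lit 0x200010000800000000000000000000000000) := D_3 (nat_lit 124) (nat_lit 107) (nat_lit 141) (nat_lit 4) (nat_lit 6) (nat_lit 10) (nat_lit 4) (nat_lit 6) (nat_lit 11) (by decide +kernel)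
theorem L1011452 : W_3 (nat_lit 3) (nat_lit 0x7000100018001c00080000000000000000000000000000000) (nat_lit 0x0) (nat_lit 0x80000000200030000800000000000000000000000000) := T_3 (nat_lit 125) (nat_lit 175) (nat_lit 5) (nat_lit 6) (nat_lit 7) L1011451 (by decide +kernel)
theorem L1011453 : W_3 (nat_lit 4) (nat_lit 0x6000100018001c00080000000000000000000000000000000) (nat_lit 0x0) (nat_lit 0x20001000080000000200030000800000000000000000000000000) := T_3 (nat_lit 192) (nat_lit 209) (nat_lit 5) (nat_lit 6) (nat_lit 8) L1011452 (by decide +kernel)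
theorem L1011454 : W_3 (nat_lit 5) (nat_lit 0x6000100018001800080000000000000000000000000000000) (nat_lit 0x0) (nat_lit 0xa0001000080000000600030000800000000000000000000000000) := T_3 (nat_lit 142) (nat_lit 211) (nat_lit 7) (nat_lit 6) (nat_lit 8) L1011453 (by decide +kernel)
theorem L1011455 : W_3 (nat_lit 6) (nat_lit 0x4000100018001800080000000000000000000000000000000) (nat_lit 0x0) (nat_lit 0xe0003000080000000600030000800000000000000000000000000) := T_3 (nat_lit 193) (nat_lit 210) (nat_lit 6) (nat_lit 6) (nat_lit 12) L1011454 (by decide +kernel)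
theorem L1011456 : W_3 (nat_lit 7) (nat_lit 0x100018001800080000000000000000000000000000000) (nat_lit 0x0) (nat_lit 0xe0007000280000000600030000800000000000000000000000000) := T_3 (nat_lit 194) (nat_lit 177) (nat_lit 6) (nat_lit 7) (nat_lit 11) L1011455 (by decide +kernel)
theorem L1012255 : W_3 (nat_lit 3) (nat_lit 0x14001800080000000000000000000000000000000) (nat_lit 0x0) (nat_lit 0x2a006000000000000000000000000000000000000) := T_3 (nat_lit 159) (nat_lit 157) (nat_lit 2) (nat_lit 4) (nat_lit 9) L1011394 (by decide +kernel)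
theorem L1012256 : W_3 (nat_lit 2) (nat_lit 0x400048003c001a00080000000000000000000000000000000) (nat_lit 0x0) (nat_lit 0x180008000000000000000000000000000000000000000000000000) := D_3 (nat_lit 195) (nat_lit 212) (nat_lit 211) (nat_lit 4) (nat_lit 8) (nat_lit 12) (nat_lit 5) (nat_lit 8) (nat_lit 8) (by decide +kernel)
theorem L1012257 : W_3 (nat_lit 3) (nat_lit 0x400008003c001a00080000000000000000000000000000000) (nat_lit 0x0) (nat_lit 0x180008000c00000000000000000000000000000000000000000000) := T_3 (nat_lit 178) (nat_lit 179) (nat_lit 3) (nat_lit 5) (nat_lit 9) L1012256 (by decide +kernel)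
theorem L1012258 : W_3 (nat_lit 4) (nat_lit 0x400000003c001a00080000000000000000000000000000000) (nat_lit 0x0) (nat_lit 0x180008000cc0000000000000000000000000000000000000000000) := T_3 (nat_lit 175) (nat_lit 174) (nat_lit 1) (nat_lit 8) (nat_lit 9) L1012257 (by decide +kernel)
theorem L1012259 : W_3 (nat_lit 5) (nat_lit 0x400000001c001a00080000000000000000000000000000000) (nat_lit 0x0) (nat_lit 0x180008000cc0020000100000000000000000000000000000000000) := T_3 (nat_lit 161) (nat_lit 140) (nat_lit 0) (nat_lit 8) (nat_lit 9) L1012258 (by decide +kernel)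
theorem L1012260 : W_3 (nat_lit 6) (nat_lit 0x1c001a00080000000000000000000000000000000) (nat_lit 0x0) (nat_lit 0x18000c000ec0020000100000000000000000000000000000000000) := T_3 (nat_lit 194) (nat_lit 177) (nat_lit 6) (nat_lit 7) (nat_lit 11) L1012259 (by decide +kernel)
theorem L1012261 : W_3 (nat_lit 7) (nat_lit 0x14001a00080000000000000000000000000000000) (nat_lit 0x0) (nat_lit 0x18000c000ec002a000100000000000000000000000000000000000) := T_3 (nat_lit 159) (nat_lit 157) (nat_lit 2) (nat_lit 4) (nat_lit 9) L1012260 (by decide +kernel)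
theorem L1012262 : W_3 (nat_lit 2) (nat_lit 0x14001a00080000000000000000000000000000000) (nat_lit 0x0) (nat_lit 0xa000400000000000000000000000000000000000) := D_3 (nat_lit 157) (nat_lit 159) (nat_lit 142) (nat_lit 2) (nat_lit 4) (nat_lit 9) (nat_lit 1) (nat_lit 8) (nat_lit 8) (by decide +kernel)
theorem L1012263 : W_3 (nat_lit 2) (nat_lit 0x4000000014001e00088000000000000000000000000000000) (nat_lit 0x0) (nat_lit 0x20000100004000000000000000000000000000000) := D_3 (nat_lit 140) (nat_lit 161) (nat_lit 122) (nat_lit 3) (nat_lit 4) (nat_lit 8) (nat_lit 0) (nat_lit 7) (nat_lit 8) (by decide +kernel)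
theorem L1012264 : W_3 (nat_lit 3) (nat_lit 0x4000000014001e00080000000000000000000000000000000) (nat_lit 0x0) (nat_lit 0x2000010001c000000000000000000000000000000) := T_3 (nat_lit 123) (nat_lit 124) (nat_lit 0) (nat_lit 8) (nat_lit 8) L1012263 (by decide +kernel)
theorem L1012265 : W_3 (nat_lit 4) (nat_lit 0x4000000014001a00080000000000000000000000000000000) (nat_lit 0x0) (nat_lit 0x2200050001c000000000000000000000000000000) := T_3 (nat_lit 142) (nat_lit 157) (nat_lit 1) (nat_lit 8) (nat_lit 8) L1012264 (by decide +kernel)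
theorem L1012266 : W_3 (nat_lit 5) (nat_lit 0x14001a00080000000000000000000000000000000) (nat_lit 0x0) (nat_lit 0x400020002200050001c000000000000000000000000000000) := T_3 (nat_lit 194) (nat_lit 177) (nat_lit 6) (nat_lit 7) (nat_lit 11) L1012265 (by decide +kernel)
theorem L1012267 : W_3 (nat_lit 2) (nat_lit 0x14001f00080000000000000000000000000000000) (nat_lit 0x0) (nat_lit 0x1c000000000000000000000000000000) := D_3 (nat_lit 123) (nat_lit 124) (nat_lit 122) (nat_lit 0) (nat_lit 8) (nat_lit 8) (nat_lit 0) (nat_lit 7) (nat_lit 8) (by decide +kernel)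
theorem L1012268 : W_3 (nat_lit 3) (nat_lit 0x14001e00080000000000000000000000000000000) (nat_lit 0x0) (nat_lit 0x2000010001c000000000000000000000000000000) := T_3 (nat_lit 140) (nat_lit 161) (nat_lit 3) (nat_lit 4) (nat_lit 8) L1012267 (by decide +kernel)
theorem L1012269 : W_3 (nat_lit 2) (nat_lit 0x14001e000b0000000000000000000000000000000) (nat_lit 0x0) (nat_lit 0x80000000000000001000080000000000000000000000) := D_3 (nat_lit 108) (nat_lit 91) (nat_lit 175) (nat_lit 7) (nat_lit 6) (nat_lit 5) (nat_lit 6) (nat_lit 5) (nat_lit 10) (by decide +kernel)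
theorem L1012270 : W_3 (nat_lit 3) (nat_lit 0x14001e000a0000000000000000000000000000000) (nat_lit 0x0) (nat_lit 0x80000000000018001000080000000000000000000000) := T_3 (nat_lit 124) (nat_lit 123) (nat_lit 0) (nat_lit 8) (nat_lit 8) L1012269 (by decide +kernel)
theorem L1012271 : W_3 (nat_lit 2) (nat_lit 0x40001c0014001e000b0000000000000000000000000000000) (nat_lit 0x0) (nat_lit 0x20008000000000000800000000000000000000000000) := D_3 (nat_lit 159) (nat_lit 107) (nat_lit 173) (nat_lit 7) (nat_lit 5) (nat_lit 6) (nat_lit 2) (nat_lit 3) (nat_lit 10) (by decide +kernel)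
theorem L1012272 : W_3 (nat_lit 3) (nat_lit 0x40000c0014001e000b0000000000000000000000000000000) (nat_lit 0x0) (nat_lit 0x2000120008000000000000800000000000000000000000000) := T_3 (nat_lit 176) (nat_lit 193) (nat_lit 7) (nat_lit 5) (nat_lit 7) L1012271 (by decide +kernel)
theorem L1012273 : W_3 (nat_lit 4) (nat_lit 0x4000080014001e000b0000000000000000000000000000000) (nat_lit 0x0) (nat_lit 0x2800160008000000000000800000000000000000000000000) := T_3 (nat_lit 174) (nat_lit 191) (nat_lit 5) (nat_lit 5) (nat_lit 7) L1012272 (by decide +kernel)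
theorem L1012274 : W_3 (nat_lit 5) (nat_lit 0x4000000014001e000b0000000000000000000000000000000) (nat_lit 0x0) (nat_lit 0x38001e0008000000000000800000000000000000000000000) := T_3 (nat_lit 175) (nat_lit 192) (nat_lit 6) (nat_lit 5) (nat_lit 11) L1012273 (by decide +kernel)
theorem L1012275 : W_3 (nat_lit 6) (nat_lit 0x4000000014001e000a0000000000000000000000000000000) (nat_lit 0x0) (nat_lit 0x38001e0008000000018000800000000000000000000000000) := T_3 (nat_lit 124) (nat_lit 123) (nat_lit 0) (nat_lit 8) (nat_lit 8) L1012274 (by decide +kernel)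
theorem L1012276 : W_3 (nat_lit 7) (nat_lit 0x14001e000a0000000000000000000000000000000) (nat_lit 0x0) (nat_lit 0x78003e0008000000018000800000000000000000000000000) := T_3 (nat_lit 194) (nat_lit 177) (nat_lit 6) (nat_lit 7) (nat_lit 11) L1012275 (by decide +kernel)
theorem L1012277 : W_3 (nat_lit 2) (nat_lit 0x1000000014001e000a0001000000000000000000000000000) (nat_lit 0x0) (nat_lit 0x4000200008000000000000000000000000000000000000000) := D_3 (nat_lit 177) (nat_lit 194) (nat_lit 159) (nat_lit 6) (nat_lit 7) (nat_lit 11) (nat_lit 7) (nat_lit 6) (nat_lit 6) (by decide +kernel)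
theorem L1012278 : W_3 (nat_lit 3) (nat_lit 0x1000000014001e000a0000000000000000000000000000000) (nat_lit 0x0) (nat_lit 0x4000200008000000000001000080000000000000000000000) := T_3 (nat_lit 108) (nat_lit 91) (nat_lit 7) (nat_lit 6) (nat_lit 5) L1012277 (by decide +kernel)
theorem L1012279 : W_3 (nat_lit 4) (nat_lit 0x14001e000a0000000000000000000000000000000) (nat_lit 0x0) (nat_lit 0x5000280008000000000001000080000000000000000000000) := T_3 (nat_lit 192) (nat_lit 175) (nat_lit 6) (nat_lit 5) (nat_lit 11) L1012278 (by decide +kernel)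
theorem L1012280 : W_3 (nat_lit 2) (nat_lit 0x200014001e000a0000000000000000000000000000000) (nat_lit 0x0) (nat_lit 0x8000000000001000080000000000000000000000) := D_3 (nat_lit 108) (nat_lit 91) (nat_lit 159) (nat_lit 7) (nat_lit 6) (nat_lit 5) (nat_lit 7) (nat_lit 6) (nat_lit 6) (by decide +kernel)
theorem L1012281 : W_3 (nat_lit 3) (nat_lit 0x14001e000a0000000000000000000000000000000) (nat_lit 0x0) (nat_lit 0x4000200008000000000001000080000000000000000000000) := T_3 (nat_lit 177) (nat_lit 194) (nat_lit 6) (nat_lit 7) (nat_lit 11) L1012280 (by decide +kernel)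
theorem L1012282 : W_3 (nat_lit 8) (nat_lit 0x14001e00080000000000000000000000000000000) (nat_lit 0x0) (nat_lit 0x78003e0008000000038001800080000000000000000000000) := Q_3 (nat_lit 125) (C_3 L1012270 (C_3 L1012276 (C_3 L1012279 (C_3 L1012281 N_3)))) (by decide +kernel)
theorem L1012283 : W_3 (nat_lit 2) (nat_lit 0x14001f80080000000000000000000000000000000) (nat_lit 0x0) (nat_lit 0xe000000000000000000000000000000) := D_3 (nat_lit 122) (nat_lit 123) (nat_lit 121) (nat_lit 0) (nat_lit 7) (nat_lit 8) (nat_lit 0) (nat_lit 6) (nat_lit 8) (by decide +kernel)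
theorem L1012284 : W_3 (nat_lit 3) (nat_lit 0x14001f00080000000000000000000000000000000) (nat_lit 0x0) (nat_lit 0x800008000e000000000000000000000000000000) := T_3 (nat_lit 139) (nat_lit 159) (nat_lit 3) (nat_lit 3) (nat_lit 8) L1012283 (by decide +kernel)
theorem L1012285 : W_3 (nat_lit 4) (nat_lit 0x14001e00080000000000000000000000000000000) (nat_lit 0x0) (nat_lit 0x2800018000e000000000000000000000000000000) := T_3 (nat_lit 140) (nat_lit 161) (nat_lit 3) (nat_lit 4) (nat_lit 8) L1012284 (by decide +kernel)
theorem L1012286 : W_3 (nat_lit 2) (nat_lit 0x4000000014801f80082000000000000000000000000000000) (nat_lit 0x0) (nat_lit 0x400040001000000000000000000000000000000) := D_3 (nat_lit 138) (nat_lit 154) (nat_lit 120) (nat_lit 1) (nat_lit 5) (nat_lit 8) (nat_lit 0) (nat_lit 5) (nat_lit 8) (by decide +kernel)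
theorem L1012287 : W_3 (nat_lit 3) (nat_lit 0x4000000014801f80080000000000000000000000000000000) (nat_lit 0x0) (nat_lit 0x400040007000000000000000000000000000000) := T_3 (nat_lit 121) (nat_lit 122) (nat_lit 0) (nat_lit 6) (nat_lit 8) L1012286 (by decide +kernel)
theorem L1012288 : W_3 (nat_lit 4) (nat_lit 0x4000000014001f80080000000000000000000000000000000) (nat_lit 0x0) (nat_lit 0x1c00040007000000000000000000000000000000) := T_3 (nat_lit 155) (nat_lit 156) (nat_lit 1) (nat_lit 6) (nat_lit 8) L1012287 (by decide +kernel)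
theorem L1012289 : W_3 (nat_lit 5) (nat_lit 0x4000000014001f00080000000000000000000000000000000) (nat_lit 0x0) (nat_lit 0x9c000c0007000000000000000000000000000000) := T_3 (nat_lit 139) (nat_lit 159) (nat_lit 3) (nat_lit 3) (nat_lit 8) L1012288 (by decide +kernel)
theorem L1012290 : W_3 (nat_lit 6) (nat_lit 0x4000000014001e00080000000000000000000000000000000) (nat_lit 0x0) (nat_lit 0x29c001c0007000000000000000000000000000000) := T_3 (nat_lit 140) (nat_lit 161) (nat_lit 3) (nat_lit 4) (nat_lit 8) L1012289 (by decide +kernel)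
theorem L1012291 : W_3 (nat_lit 7) (nat_lit 0x14001e00080000000000000000000000000000000) (nat_lit 0x0) (nat_lit 0x4000200029c001c0007000000000000000000000000000000) := T_3 (nat_lit 194) (nat_lit 177) (nat_lit 6) (nat_lit 7) (nat_lit 11) L1012290 (by decide +kernel)
theorem L1012292 : W_3 (nat_lit 9) (nat_lit 0x14001a00080000000000000000000000000000000) (nat_lit 0x0) (nat_lit 0x78003e0029c005c003f001800080000000000000000000000) := Q_3 (nat_lit 142) (C_3 L1012268 (C_3 L1012282 (C_3 L1012285 (C_3 L1012291 N_3)))) (by decide +kernel)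
theorem L1012293 : W_3 (nat_lit 10) (nat_lit 0x14001800080000000000000000000000000000000) (nat_lit 0x0) (nat_lit 0x18000f800fe002bc007c003f001800080000000000000000000000) := Q_3 (nat_lit 141) (C_3 L1012261 (C_3 L1012262 (C_3 L1012266 (C_3 L1012292 N_3)))) (by decide +kernel)
theorem L1012294 : W_3 (nat_lit 2) (nat_lit 0x400000001c001800080000000000000000000000000000000) (nat_lit 0x0) (nat_lit 0x6400000000000000000000000000000000000) := D_3 (nat_lit 145) (nat_lit 146) (nat_lit 142) (nat_lit 1) (nat_lit 10) (nat_lit 8) (nat_lit 1) (nat_lit 9) (nat_lit 8) (by decide +kernel)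
theorem L1012295 : W_3 (nat_lit 3) (nat_lit 0x4000000014001800080000000000000000000000000000000) (nat_lit 0x0) (nat_lit 0xa006400000000000000000000000000000000000) := T_3 (nat_lit 159) (nat_lit 157) (nat_lit 2) (nat_lit 4) (nat_lit 9) L1012294 (by decide +kernel)
theorem L1012296 : W_3 (nat_lit 4) (nat_lit 0x14001800080000000000000000000000000000000) (nat_lit 0x0) (nat_lit 0x400020000a006400000000000000000000000000000000000) := T_3 (nat_lit 194) (nat_lit 177) (nat_lit 6) (nat_lit 7) (nat_lit 11) L1012295 (by decide +kernel)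
theorem L1012297 : W_3 (nat_lit 2) (nat_lit 0x1000080014001a000b8000000000000000000000000000000) (nat_lit 0x0) (nat_lit 0x10000800040000000000000000000000000000000000000000000) := D_3 (nat_lit 191) (nat_lit 174) (nat_lit 208) (nat_lit 5) (nat_lit 5) (nat_lit 7) (nat_lit 5) (nat_lit 5) (nat_lit 8) (by decide +kernel)
theorem L1012298 : W_3 (nat_lit 3) (nat_lit 0x80014001a000b8000000000000000000000000000000) (nat_lit 0x0) (nat_lit 0x10001800040000000100000000000000000000000000000000000) := T_3 (nat_lit 192) (nat_lit 140) (nat_lit 4) (nat_lit 5) (nat_lit 11) L1012297 (by decide +kernel)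
theorem L1012299 : W_3 (nat_lit 4) (nat_lit 0x80014001a00098000000000000000000000000000000) (nat_lit 0x0) (nat_lit 0x10001800040000000100020001000000000000000000000000000) := T_3 (nat_lit 125) (nat_lit 108) (nat_lit 6) (nat_lit 5) (nat_lit 10) L1012298 (by decide +kernel)
theorem L1012300 : W_3 (nat_lit 5) (nat_lit 0x80014001a00090000000000000000000000000000000) (nat_lit 0x0) (nat_lit 0x10001800040000000100028001400000000000000000000000000) := T_3 (nat_lit 123) (nat_lit 106) (nat_lit 4) (nat_lit 5) (nat_lit 10) L1012299 (by decide +kernel)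
theorem L1012301 : W_3 (nat_lit 2) (nat_lit 0xc0014001a00090000800000000000000000000000000) (nat_lit 0x0) (nat_lit 0x8000400020000000000000000000000) := D_3 (nat_lit 106) (nat_lit 89) (nat_lit 123) (nat_lit 4) (nat_lit 5) (nat_lit 9) (nat_lit 4) (nat_lit 5) (nat_lit 10) (by decide +kernel)
theorem L1012302 : W_3 (nat_lit 3) (nat_lit 0xc0014001a00090000000000000000000000000000000) (nat_lit 0x0) (nat_lit 0x2000000008000c00020000000000000000000000) := T_3 (nat_lit 107) (nat_lit 157) (nat_lit 5) (nat_lit 5) (nat_lit 6) L1012301 (by decide +kernel)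
theorem L1012303 : W_3 (nat_lit 4) (nat_lit 0x80014001a00090000000000000000000000000000000) (nat_lit 0x0) (nat_lit 0x800040002000000008000c00020000000000000000000000) := T_3 (nat_lit 174) (nat_lit 191) (nat_lit 5) (nat_lit 5) (nat_lit 7) L1012302 (by decide +kernel)
theorem L1012304 : W_3 (nat_lit 2) (nat_lit 0x1c0014001a00090000800000000000000000000000000) (nat_lit 0x0) (nat_lit 0x20001000080000000000000000000000) := D_3 (nat_lit 108) (nat_lit 125) (nat_lit 91) (nat_lit 6) (nat_lit 5) (nat_lit 10) (nat_lit 6) (nat_lit 5) (nat_lit 9) (by decide +kernel)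
theorem L1012305 : W_3 (nat_lit 3) (nat_lit 0x1c0014001a00090000000000000000000000000000000) (nat_lit 0x0) (nat_lit 0x2000000020001800080000000000000000000000) := T_3 (nat_lit 107) (nat_lit 157) (nat_lit 5) (nat_lit 5) (nat_lit 6) L1012304 (by decide +kernel)
theorem L1012306 : W_3 (nat_lit 4) (nat_lit 0x180014001a00090000000000000000000000000000000) (nat_lit 0x0) (nat_lit 0x800040002000000020001800080000000000000000000000) := T_3 (nat_lit 174) (nat_lit 191) (nat_lit 5) (nat_lit 5) (nat_lit 7) L1012305 (by decide +kernel)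
theorem L1012307 : W_3 (nat_lit 5) (nat_lit 0x80014001a00090000000000000000000000000000000) (nat_lit 0x0) (nat_lit 0x2800140002000000020001800080000000000000000000000) := T_3 (nat_lit 176) (nat_lit 193) (nat_lit 7) (nat_lit 5) (nat_lit 7) L1012306 (by decide +kernel)
theorem L1012308 : W_3 (nat_lit 2) (nat_lit 0x2000080014001a000b8000000000000000000000000000000) (nat_lit 0x0) (nat_lit 0x40001000000000000100000000000000000000000000000000000) := D_3 (nat_lit 192) (nat_lit 210) (nat_lit 140) (nat_lit 7) (nat_lit 5) (nat_lit 8) (nat_lit 4) (nat_lit 5) (nat_lit 11) (by decide +kernel)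
theorem L1012309 : W_3 (nat_lit 3) (nat_lit 0x2000080014001a000b0000000000000000000000000000000) (nat_lit 0x0) (nat_lit 0x40001000000000000100008000400000000000000000000000000) := T_3 (nat_lit 123) (nat_lit 106) (nat_lit 4) (nat_lit 5) (nat_lit 10) L1012308 (by decide +kernel)
theorem L1012310 : W_3 (nat_lit 4) (nat_lit 0x80014001a000b0000000000000000000000000000000) (nat_lit 0x0) (nat_lit 0x40003000100000000100008000400000000000000000000000000) := T_3 (nat_lit 193) (nat_lit 176) (nat_lit 7) (nat_lit 5) (nat_lit 7) L1012309 (by decide +kernel)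
theorem L1012311 : W_3 (nat_lit 5) (nat_lit 0x80014001a00090000000000000000000000000000000) (nat_lit 0x0) (nat_lit 0x40003000100000000100028001400000000000000000000000000) := T_3 (nat_lit 125) (nat_lit 108) (nat_lit 6) (nat_lit 5) (nat_lit 10) L1012310 (by decide +kernel)
theorem L1012312 : W_3 (nat_lit 6) (nat_lit 0x80014001a00080000000000000000000000000000000) (nat_lit 0x0) (nat_lit 0x50003800140002000100038001c000a0000000000000000000000) := Q_3 (nat_lit 124) (C_3 L1012300 (C_3 L1012303 (C_3 L1012307 (C_3 L1012311 N_3)))) (by decide +kernel)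
theorem L1012313 : W_3 (nat_lit 2) (nat_lit 0x3000080014001a00090000000000000000000000000000000) (nat_lit 0x0) (nat_lit 0x10000800040000000000000000000000000000000000000000000) := D_3 (nat_lit 191) (nat_lit 174) (nat_lit 208) (nat_lit 5) (nat_lit 5) (nat_lit 7) (nat_lit 5) (nat_lit 5) (nat_lit 8) (by decide +kernel)
theorem L1012314 : W_3 (nat_lit 3) (nat_lit 0x3000080014001a00080000000000000000000000000000000) (nat_lit 0x0) (nat_lit 0x10000800140000000000010000000000000000000000000000000) := T_3 (nat_lit 124) (nat_lit 176) (nat_lit 7) (nat_lit 5) (nat_lit 7) L1012313 (by decide +kernel)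
theorem L1012315 : W_3 (nat_lit 4) (nat_lit 0x1000080014001a00080000000000000000000000000000000) (nat_lit 0x0) (nat_lit 0x50002800140000000000010000000000000000000000000000000) := T_3 (nat_lit 193) (nat_lit 210) (nat_lit 7) (nat_lit 5) (nat_lit 8) L1012314 (by decide +kernel)
theorem L1012316 : W_3 (nat_lit 2) (nat_lit 0x1800080014001a00090000000000000000000000000000000) (nat_lit 0x0) (nat_lit 0x100008000400000000000000000000000000) := D_3 (nat_lit 123) (nat_lit 106) (nat_lit 140) (nat_lit 4) (nat_lit 5) (nat_lit 10) (nat_lit 4) (nat_lit 5) (nat_lit 11) (by decide +kernel)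
theorem L1012317 : W_3 (nat_lit 3) (nat_lit 0x1800080014001a00080000000000000000000000000000000) (nat_lit 0x0) (nat_lit 0x40000000100018000400000000000000000000000000) := T_3 (nat_lit 124) (nat_lit 174) (nat_lit 5) (nat_lit 5) (nat_lit 7) L1012316 (by decide +kernel)
theorem L1012318 : W_3 (nat_lit 4) (nat_lit 0x1000080014001a00080000000000000000000000000000000) (nat_lit 0x0) (nat_lit 0x10000800040000000100018000400000000000000000000000000) := T_3 (nat_lit 191) (nat_lit 208) (nat_lit 5) (nat_lit 5) (nat_lit 8) L1012317 (by decide +kernel)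
theorem L1012319 : W_3 (nat_lit 2) (nat_lit 0x7800080014001a00080000000000000000000000000000000) (nat_lit 0x0) (nat_lit 0x8000060000000000000000000000000000000000000000000) := D_3 (nat_lit 174) (nat_lit 173) (nat_lit 195) (nat_lit 0) (nat_lit 7) (nat_lit 11) (nat_lit 0) (nat_lit 8) (nat_lit 11) (by decide +kernel)
theorem L1012320 : W_3 (nat_lit 3) (nat_lit 0x5800080014001a00080000000000000000000000000000000) (nat_lit 0x0) (nat_lit 0x4000a000060000000000000000000000000000000000000000000) := T_3 (nat_lit 193) (nat_lit 210) (nat_lit 7) (nat_lit 5) (nat_lit 8) L1012319 (by decide +kernel)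
theorem L1012321 : W_3 (nat_lit 4) (nat_lit 0x5000080014001a00080000000000000000000000000000000) (nat_lit 0x0) (nat_lit 0x5000a800060000000000000000000000000000000000000000000) := T_3 (nat_lit 191) (nat_lit 208) (nat_lit 5) (nat_lit 5) (nat_lit 8) L1012320 (by decide +kernel)
theorem L1012322 : W_3 (nat_lit 5) (nat_lit 0x1000080014001a00080000000000000000000000000000000) (nat_lit 0x0) (nat_lit 0x5000e800260000000000000000000000000000000000000000000) := T_3 (nat_lit 194) (nat_lit 177) (nat_lit 6) (nat_lit 7) (nat_lit 11) L1012321 (by decide +kernel)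
theorem L1012323 : W_3 (nat_lit 2) (nat_lit 0x20005000080014001b00080000000000000000000000000000000) (nat_lit 0x0) (nat_lit 0x800040002000000000000000000000000000000000000000000000000) := D_3 (nat_lit 210) (nat_lit 193) (nat_lit 227) (nat_lit 7) (nat_lit 5) (nat_lit 8) (nat_lit 7) (nat_lit 5) (nat_lit 9) (by decide +kernel)
theorem L1012324 : W_3 (nat_lit 3) (nat_lit 0x5000080014001b00080000000000000000000000000000000) (nat_lit 0x0) (nat_lit 0x800060002000000002000000000000000000000000000000000000000) := T_3 (nat_lit 209) (nat_lit 157) (nat_lit 4) (nat_lit 5) (nat_lit 12) L1012323 (by decide +kernel)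
theorem L1012325 : W_3 (nat_lit 4) (nat_lit 0x1000080014001b00080000000000000000000000000000000) (nat_lit 0x0) (nat_lit 0x800060006000200002000000000000000000000000000000000000000) := T_3 (nat_lit 194) (nat_lit 177) (nat_lit 6) (nat_lit 7) (nat_lit 11) L1012324 (by decide +kernel)
theorem L1012326 : W_3 (nat_lit 5) (nat_lit 0x1000080014001a00080000000000000000000000000000000) (nat_lit 0x0) (nat_lit 0x800060006000200002000100008000000000000000000000000000000) := T_3 (nat_lit 140) (nat_lit 123) (nat_lit 4) (nat_lit 5) (nat_lit 11) L1012325 (by decide +kernel)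
theorem L1012327 : W_3 (nat_lit 6) (nat_lit 0x80014001a00080000000000000000000000000000000) (nat_lit 0x0) (nat_lit 0x80007000f800360002000100018000400000000000000000000000000) := Q_3 (nat_lit 192) (C_3 L1012315 (C_3 L1012318 (C_3 L1012322 (C_3 L1012326 N_3)))) (by decide +kernel)
theorem L1012328 : W_3 (nat_lit 2) (nat_lit 0x10003000080014001b00080000000000000000000000000000000) (nat_lit 0x0) (nat_lit 0x200020000000000002000000000000000000000000000000000000000) := D_3 (nat_lit 209) (nat_lit 225) (nat_lit 157) (nat_lit 5) (nat_lit 5) (nat_lit 9) (nat_lit 4) (nat_lit 5) (nat_lit 12) (by decide +kernel)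
theorem L1012329 : W_3 (nat_lit 3) (nat_lit 0x10003000080014001a00080000000000000000000000000000000) (nat_lit 0x0) (nat_lit 0x200020000000000002000100008000000000000000000000000000000) := T_3 (nat_lit 140) (nat_lit 123) (nat_lit 4) (nat_lit 5) (nat_lit 11) L1012328 (by decide +kernel)
theorem L1012330 : W_3 (nat_lit 4) (nat_lit 0x3000080014001a00080000000000000000000000000000000) (nat_lit 0x0) (nat_lit 0x200030000800000002000100008000000000000000000000000000000) := T_3 (nat_lit 208) (nat_lit 191) (nat_lit 5) (nat_lit 5) (nat_lit 8) L1012329 (by decide +kernel)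
theorem L1012331 : W_3 (nat_lit 5) (nat_lit 0x1000080014001a00080000000000000000000000000000000) (nat_lit 0x0) (nat_lit 0x200070002800000002000100008000000000000000000000000000000) := T_3 (nat_lit 193) (nat_lit 210) (nat_lit 7) (nat_lit 5) (nat_lit 8) L1012330 (by decide +kernel)
theorem L1012332 : W_3 (nat_lit 2) (nat_lit 0x4000c00020005800080014001b00080000000000000000000000000000000) (nat_lit 0x0) (nat_lit 0x80008000000000000000040000000000000000000000000000000000000000000) := D_3 (nat_lit 243) (nat_lit 174) (nat_lit 259) (nat_lit 4) (nat_lit 5) (nat_lit 14) (nat_lit 5) (nat_lit 5) (nat_lit 11) (by decide +kernel)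
theorem L1012333 : W_3 (nat_lit 3) (nat_lit 0xc00020005800080014001b00080000000000000000000000000000000) (nat_lit 0x0) (nat_lit 0x8000c000200000000000040000000000000000000000000000000000000000000) := T_3 (nat_lit 242) (nat_lit 225) (nat_lit 5) (nat_lit 5) (nat_lit 10) L1012332 (by decide +kernel)
theorem L1012334 : W_3 (nat_lit 4) (nat_lit 0x800020005800080014001b00080000000000000000000000000000000) (nat_lit 0x0) (nat_lit 0x8001c000600000000000040000000000000000000000000000000000000000000) := T_3 (nat_lit 226) (nat_lit 244) (nat_lit 7) (nat_lit 5) (nat_lit 10) L1012333 (by decide +kernel)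
theorem L1012335 : W_3 (nat_lit 5) (nat_lit 0x20005800080014001b00080000000000000000000000000000000) (nat_lit 0x0) (nat_lit 0x8001c000e00040000000040000000000000000000000000000000000000000000) := T_3 (nat_lit 227) (nat_lit 210) (nat_lit 7) (nat_lit 5) (nat_lit 9) L1012334 (by decide +kernel)
theorem L1012336 : W_3 (nat_lit 6) (nat_lit 0x5800080014001b00080000000000000000000000000000000) (nat_lit 0x0) (nat_lit 0x8001c000e00060000000040002000000000000000000000000000000000000000) := T_3 (nat_lit 209) (nat_lit 157) (nat_lit 4) (nat_lit 5) (nat_lit 12) L1012335 (by decide +kernel)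
theorem L1012337 : W_3 (nat_lit 7) (nat_lit 0x5800080014001a00080000000000000000000000000000000) (nat_lit 0x0) (nat_lit 0x8001c000e00060000000040002000100008000000000000000000000000000000) := T_3 (nat_lit 140) (nat_lit 123) (nat_lit 4) (nat_lit 5) (nat_lit 11) L1012336 (by decide +kernel)
theorem L1012338 : W_3 (nat_lit 8) (nat_lit 0x1800080014001a00080000000000000000000000000000000) (nat_lit 0x0) (nat_lit 0x8001c000e00060004000240002000100008000000000000000000000000000000) := T_3 (nat_lit 194) (nat_lit 177) (nat_lit 6) (nat_lit 7) (nat_lit 11) L1012337 (by decide +kernel)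
theorem L1012339 : W_3 (nat_lit 9) (nat_lit 0x1000080014001a00080000000000000000000000000000000) (nat_lit 0x0) (nat_lit 0x8001c000e00070004800240002000100008000000000000000000000000000000) := T_3 (nat_lit 191) (nat_lit 208) (nat_lit 5) (nat_lit 5) (nat_lit 8) L1012338 (by decide +kernel)
theorem L1012340 : W_3 (nat_lit 2) (nat_lit 0x20001800380014001b00080000000000000000000000000000000) (nat_lit 0x0) (nat_lit 0x400040020000000000000000000000000000000000000000) := D_3 (nat_lit 174) (nat_lit 190) (nat_lit 161) (nat_lit 1) (nat_lit 7) (nat_lit 10) (nat_lit 2) (nat_lit 4) (nat_lit 10) (by decide +kernel)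
theorem L1012341 : W_3 (nat_lit 3) (nat_lit 0x20001800280014001b00080000000000000000000000000000000) (nat_lit 0x0) (nat_lit 0x400540020000000000000000000000000000000000000000) := T_3 (nat_lit 176) (nat_lit 178) (nat_lit 1) (nat_lit 8) (nat_lit 10) L1012340 (by decide +kernel)
theorem L1012342 : W_3 (nat_lit 4) (nat_lit 0x1800280014001b00080000000000000000000000000000000) (nat_lit 0x0) (nat_lit 0x20000400540022000000000000000000000000000000000000000) := T_3 (nat_lit 209) (nat_lit 157) (nat_lit 4) (nat_lit 5) (nat_lit 12) L1012341 (by decide +kernel)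
theorem L1012343 : W_3 (nat_lit 5) (nat_lit 0x1800080014001b00080000000000000000000000000000000) (nat_lit 0x0) (nat_lit 0x20004400740022000000000000000000000000000000000000000) := T_3 (nat_lit 177) (nat_lit 194) (nat_lit 6) (nat_lit 7) (nat_lit 11) L1012342 (by decide +kernel)
theorem L1012344 : W_3 (nat_lit 6) (nat_lit 0x1800080014001a00080000000000000000000000000000000) (nat_lit 0x0) (nat_lit 0x20004400740022000100008000000000000000000000000000000) := T_3 (nat_lit 140) (nat_lit 123) (nat_lit 4) (nat_lit 5) (nat_lit 11) L1012343 (by decide +kernel)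
theorem L1012345 : W_3 (nat_lit 7) (nat_lit 0x1000080014001a00080000000000000000000000000000000) (nat_lit 0x0) (nat_lit 0x30004c00740022000100008000000000000000000000000000000) := T_3 (nat_lit 191) (nat_lit 208) (nat_lit 5) (nat_lit 5) (nat_lit 8) L1012344 (by decide +kernel)
theorem L1012346 : W_3 (nat_lit 10) (nat_lit 0x80014001a00080000000000000000000000000000000) (nat_lit 0x0) (nat_lit 0x8001c000e0007000fc00760022000100008000000000000000000000000000000) := Q_3 (nat_lit 192) (C_3 L1012331 (C_3 L1012339 (C_3 L1012322 (C_3 L1012326 (C_3 L1012345 N_3))))) (by decide +kernel)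
theorem L1012347 : W_3 (nat_lit 10) (nat_lit 0x80014001a00080000000000000000000000000000000) (nat_lit 0x0) (nat_lit 0x8001c000e0007000f800260002000100018000400000000000000000000000000) := Q_3 (nat_lit 192) (C_3 L1012331 (C_3 L1012339 (C_3 L1012322 (C_3 L1012326 (C_3 L1012318 N_3))))) (by decide +kernel)
theorem L1012348 : W_3 (nat_lit 2) (nat_lit 0x2c0016001a000b0000000000000000000000000000000) (nat_lit 0x0) (nat_lit 0x100021000000000000000000000000000000000000000) := D_3 (nat_lit 176) (nat_lit 161) (nat_lit 156) (nat_lit 2) (nat_lit 4) (nat_lit 10) (nat_lit 0) (nat_lit 7) (nat_lit 10) (by decide +kernel)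
theorem L1012349 : W_3 (nat_lit 3) (nat_lit 0xc0016001a000b0000000000000000000000000000000) (nat_lit 0x0) (nat_lit 0x4000300021000000000000000000000000000000000000000) := T_3 (nat_lit 177) (nat_lit 194) (nat_lit 6) (nat_lit 7) (nat_lit 11) L1012348 (by decide +kernel)
theorem L1012350 : W_3 (nat_lit 4) (nat_lit 0xc0014001a000b0000000000000000000000000000000) (nat_lit 0x0) (nat_lit 0x4000300023000000000000800000000000000000000000000) := T_3 (nat_lit 157) (nat_lit 107) (nat_lit 5) (nat_lit 5) (nat_lit 6) L1012349 (by decide +kernel)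
theorem L1012351 : W_3 (nat_lit 5) (nat_lit 0x80014001a000b0000000000000000000000000000000) (nat_lit 0x0) (nat_lit 0x4800340023000000000000800000000000000000000000000) := T_3 (nat_lit 174) (nat_lit 191) (nat_lit 5) (nat_lit 5) (nat_lit 7) L1012350 (by decide +kernel)
theorem L1012352 : W_3 (nat_lit 6) (nat_lit 0x80014001a00090000000000000000000000000000000) (nat_lit 0x0) (nat_lit 0x4800340023000000020001800000000000000000000000000) := T_3 (nat_lit 125) (nat_lit 108) (nat_lit 6) (nat_lit 5) (nat_lit 10) L1012351 (by decide +kernel)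
theorem L1012353 : W_3 (nat_lit 2) (nat_lit 0x4000080016001a00098001800000000000000000000000000) (nat_lit 0x0) (nat_lit 0x1000000000000100000000000040000000000000000000000) := D_3 (nat_lit 140) (nat_lit 90) (nat_lit 192) (nat_lit 5) (nat_lit 5) (nat_lit 5) (nat_lit 4) (nat_lit 5) (nat_lit 11) (by decide +kernel)
theorem L1012354 : W_3 (nat_lit 3) (nat_lit 0x4000080014001a00098001800000000000000000000000000) (nat_lit 0x0) (nat_lit 0x1000040002000100000000000040000000000000000000000) := T_3 (nat_lit 157) (nat_lit 174) (nat_lit 5) (nat_lit 5) (nat_lit 6) L1012353 (by decide +kernel)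
theorem L1012355 : W_3 (nat_lit 4) (nat_lit 0x4000080014001a00098001000000000000000000000000000) (nat_lit 0x0) (nat_lit 0x10000400020001000000008000c0000000000000000000000) := T_3 (nat_lit 107) (nat_lit 91) (nat_lit 6) (nat_lit 5) (nat_lit 9) L1012354 (by decide +kernel)
theorem L1012356 : W_3 (nat_lit 5) (nat_lit 0x4000080014001a00090001000000000000000000000000000) (nat_lit 0x0) (nat_lit 0x1000040002000100008000c000c0000000000000000000000) := T_3 (nat_lit 123) (nat_lit 106) (nat_lit 4) (nat_lit 5) (nat_lit 10) L1012355 (by decide +kernel)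
theorem L1012357 : W_3 (nat_lit 6) (nat_lit 0x4000080014001a00090000000000000000000000000000000) (nat_lit 0x0) (nat_lit 0x1000040002000100028001c000c0000000000000000000000) := T_3 (nat_lit 108) (nat_lit 125) (nat_lit 6) (nat_lit 5) (nat_lit 10) L1012356 (by decide +kernel)
theorem L1012358 : W_3 (nat_lit 7) (nat_lit 0x80014001a00090000000000000000000000000000000) (nat_lit 0x0) (nat_lit 0x5000240002000100028001c000c0000000000000000000000) := T_3 (nat_lit 194) (nat_lit 177) (nat_lit 6) (nat_lit 7) (nat_lit 11) L1012357 (by decide +kernel)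
theorem L1012359 : W_3 (nat_lit 2) (nat_lit 0x4000080014001b00098001800000000000000000000000000) (nat_lit 0x0) (nat_lit 0x2000000000000000040002000000000000000000) := D_3 (nat_lit 90) (nat_lit 157) (nat_lit 73) (nat_lit 5) (nat_lit 5) (nat_lit 5) (nat_lit 5) (nat_lit 5) (nat_lit 4) (by decide +kernel)
theorem L1012360 : W_3 (nat_lit 3) (nat_lit 0x4000080014001b00098001000000000000000000000000000) (nat_lit 0x0) (nat_lit 0x20000000000008000c0002000000000000000000) := T_3 (nat_lit 107) (nat_lit 91) (nat_lit 6) (nat_lit 5) (nat_lit 9) L1012359 (by decide +kernel)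
theorem L1012361 : W_3 (nat_lit 4) (nat_lit 0x4000080014001b00098000000000000000000000000000000) (nat_lit 0x0) (nat_lit 0x20000000200018000c0002000000000000000000) := T_3 (nat_lit 108) (nat_lit 125) (nat_lit 6) (nat_lit 5) (nat_lit 10) L1012360 (by decide +kernel)
theorem L1012362 : W_3 (nat_lit 5) (nat_lit 0x4000080014001a00098000000000000000000000000000000) (nat_lit 0x0) (nat_lit 0x10000000020001000200018000c0002000000000000000000) := T_3 (nat_lit 140) (nat_lit 192) (nat_lit 4) (nat_lit 5) (nat_lit 11) L1012361 (by decide +kernel)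
theorem L1012363 : W_3 (nat_lit 6) (nat_lit 0x80014001a00098000000000000000000000000000000) (nat_lit 0x0) (nat_lit 0x50002000020001000200018000c0002000000000000000000) := T_3 (nat_lit 194) (nat_lit 177) (nat_lit 6) (nat_lit 7) (nat_lit 11) L1012362 (by decide +kernel)
theorem L1012364 : W_3 (nat_lit 7) (nat_lit 0x80014001a00090000000000000000000000000000000) (nat_lit 0x0) (nat_lit 0x5000200002000100028001c000c0002000000000000000000) := T_3 (nat_lit 123) (nat_lit 106) (nat_lit 4) (nat_lit 5) (nat_lit 10) L1012363 (by decide +kernel)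
theorem L1012365 : W_3 (nat_lit 8) (nat_lit 0x80014001a00080000000000000000000000000000000) (nat_lit 0x0) (nat_lit 0x10005800340023000100038001c000e0002000000000000000000) := Q_3 (nat_lit 124) (C_3 L1012303 (C_3 L1012300 (C_3 L1012352 (C_3 L1012358 (C_3 L1012364 N_3))))) (by decide +kernel)
theorem L1012366 : W_3 (nat_lit 2) (nat_lit 0x10000f800080014001a000b0000000000000000000000000000000) (nat_lit 0x0) (nat_lit 0xc00020000000000000000000000000000000000000000) := D_3 (nat_lit 178) (nat_lit 179) (nat_lit 161) (nat_lit 2) (nat_lit 5) (nat_lit 11) (nat_lit 4) (nat_lit 8) (nat_lit 12) (by decide +kernel)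
theorem L1012367 : W_3 (nat_lit 3) (nat_lit 0x100007800080014001a000b0000000000000000000000000000000) (nat_lit 0x0) (nat_lit 0x200008000c00020000000000000000000000000000000000000000) := T_3 (nat_lit 195) (nat_lit 213) (nat_lit 3) (nat_lit 5) (nat_lit 11) L1012366 (by decide +kernel)
theorem L1012368 : W_3 (nat_lit 4) (nat_lit 0x7800080014001a000b0000000000000000000000000000000) (nat_lit 0x0) (nat_lit 0x380008000c00020000000000000000000000000000000000000000) := T_3 (nat_lit 212) (nat_lit 211) (nat_lit 3) (nat_lit 4) (nat_lit 11) L1012367 (by decide +kernel)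
theorem L1012369 : W_3 (nat_lit 5) (nat_lit 0x5800080014001a000b0000000000000000000000000000000) (nat_lit 0x0) (nat_lit 0x3c000a000c00020000000000000000000000000000000000000000) := T_3 (nat_lit 193) (nat_lit 210) (nat_lit 7) (nat_lit 5) (nat_lit 8) L1012368 (by decide +kernel)
theorem L1012370 : W_3 (nat_lit 6) (nat_lit 0x4800080014001a000b0000000000000000000000000000000) (nat_lit 0x0) (nat_lit 0x3d000b000c00020000000000000000000000000000000000000000) := T_3 (nat_lit 192) (nat_lit 208) (nat_lit 5) (nat_lit 5) (nat_lit 8) L1012369 (by decide +kernel)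
theorem L1012371 : W_3 (nat_lit 7) (nat_lit 0x4000080014001a000b0000000000000000000000000000000) (nat_lit 0x0) (nat_lit 0x3d000b800c40020000000000000000000000000000000000000000) := T_3 (nat_lit 191) (nat_lit 174) (nat_lit 5) (nat_lit 5) (nat_lit 7) L1012370 (by decide +kernel)
theorem L1012372 : W_3 (nat_lit 8) (nat_lit 0x4000080014001a00090000000000000000000000000000000) (nat_lit 0x0) (nat_lit 0x3d000b800c40020000000020001000000000000000000000000000) := T_3 (nat_lit 125) (nat_lit 108) (nat_lit 6) (nat_lit 5) (nat_lit 10) L1012371 (by decide +kernel)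
theorem L1012373 : W_3 (nat_lit 9) (nat_lit 0x80014001a00090000000000000000000000000000000) (nat_lit 0x0) (nat_lit 0x3d000f800e40020000000020001000000000000000000000000000) := T_3 (nat_lit 194) (nat_lit 177) (nat_lit 6) (nat_lit 7) (nat_lit 11) L1012372 (by decide +kernel)
theorem L1012374 : W_3 (nat_lit 2) (nat_lit 0x60000c0014001a00090001c00000000000000000000000000) (nat_lit 0x0) (nat_lit 0x40009000000000000000000000000000000000000000000000000) := D_3 (nat_lit 192) (nat_lit 210) (nat_lit 195) (nat_lit 7) (nat_lit 5) (nat_lit 8) (nat_lit 0) (nat_lit 8) (nat_lit 11) (by decide +kernel)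
theorem L1012375 : W_3 (nat_lit 3) (nat_lit 0x40000c0014001a00090001c00000000000000000000000000) (nat_lit 0x0) (nat_lit 0x4000b000100000000000000000000000000000000000000000000) := T_3 (nat_lit 193) (nat_lit 176) (nat_lit 7) (nat_lit 5) (nat_lit 7) L1012374 (by decide +kernel)
theorem L1012376 : W_3 (nat_lit 4) (nat_lit 0xc0014001a00090001c00000000000000000000000000) (nat_lit 0x0) (nat_lit 0x4000f000300000000000000000000000000000000000000000000) := T_3 (nat_lit 194) (nat_lit 177) (nat_lit 6) (nat_lit 7) (nat_lit 11) L1012375 (by decide +kernel)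
theorem L1012377 : W_3 (nat_lit 5) (nat_lit 0xc0014001a00090000c00000000000000000000000000) (nat_lit 0x0) (nat_lit 0x4000f000300000000000000001000080000000000000000000000) := T_3 (nat_lit 108) (nat_lit 91) (nat_lit 6) (nat_lit 5) (nat_lit 9) L1012376 (by decide +kernel)
theorem L1012378 : W_3 (nat_lit 6) (nat_lit 0xc0014001a00090000800000000000000000000000000) (nat_lit 0x0) (nat_lit 0x4000f0003000000000000000014000a0000000000000000000000) := T_3 (nat_lit 106) (nat_lit 89) (nat_lit 4) (nat_lit 5) (nat_lit 9) L1012377 (by decide +kernel)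
theorem L1012379 : W_3 (nat_lit 7) (nat_lit 0xc0014001a00090000000000000000000000000000000) (nat_lit 0x0) (nat_lit 0x4000f000300002000000000001c000a0000000000000000000000) := T_3 (nat_lit 107) (nat_lit 157) (nat_lit 5) (nat_lit 5) (nat_lit 6) L1012378 (by decide +kernel)
theorem L1012380 : W_3 (nat_lit 8) (nat_lit 0x80014001a00090000000000000000000000000000000) (nat_lit 0x0) (nat_lit 0x4000f800340002000000000001c000a0000000000000000000000) := T_3 (nat_lit 174) (nat_lit 191) (nat_lit 5) (nat_lit 5) (nat_lit 7) L1012379 (by decide +kernel)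
theorem L1012381 : W_3 (nat_lit 2) (nat_lit 0x1c0014001a00090000000000000000000000000000000) (nat_lit 0x0) (nat_lit 0x4000200020000000000000000000000000000000000000000) := D_3 (nat_lit 177) (nat_lit 194) (nat_lit 161) (nat_lit 6) (nat_lit 7) (nat_lit 11) (nat_lit 2) (nat_lit 4) (nat_lit 10) (by decide +kernel)
theorem L1012382 : W_3 (nat_lit 3) (nat_lit 0x180014001a00090000000000000000000000000000000) (nat_lit 0x0) (nat_lit 0x4800240020000000000000000000000000000000000000000) := T_3 (nat_lit 174) (nat_lit 191) (nat_lit 5) (nat_lit 5) (nat_lit 7) L1012381 (by decide +kernel)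
theorem L1012383 : W_3 (nat_lit 4) (nat_lit 0x80014001a00090000000000000000000000000000000) (nat_lit 0x0) (nat_lit 0x6800340020000000000000000000000000000000000000000) := T_3 (nat_lit 176) (nat_lit 193) (nat_lit 7) (nat_lit 5) (nat_lit 7) L1012382 (by decide +kernel)
theorem L1012384 : W_3 (nat_lit 2) (nat_lit 0x12000f000080014001a000b0000000000000000000000000000000) (nat_lit 0x0) (nat_lit 0xc00020000000000000000000000000000000000000000) := D_3 (nat_lit 178) (nat_lit 179) (nat_lit 161) (nat_lit 2) (nat_lit 5) (nat_lit 11) (nat_lit 4) (nat_lit 8) (nat_lit 12) (by decide +kernel)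
theorem L1012385 : W_3 (nat_lit 3) (nat_lit 0x2000f000080014001a000b0000000000000000000000000000000) (nat_lit 0x0) (nat_lit 0x300000000c00020000000000000000000000000000000000000000) := T_3 (nat_lit 212) (nat_lit 213) (nat_lit 3) (nat_lit 5) (nat_lit 11) L1012384 (by decide +kernel)
theorem L1012386 : W_3 (nat_lit 4) (nat_lit 0xf000080014001a000b0000000000000000000000000000000) (nat_lit 0x0) (nat_lit 0x330000000c00020000000000000000000000000000000000000000) := T_3 (nat_lit 209) (nat_lit 208) (nat_lit 1) (nat_lit 8) (nat_lit 11) L1012385 (by decide +kernel)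
theorem L1012387 : W_3 (nat_lit 5) (nat_lit 0x7000080014001a000b0000000000000000000000000000000) (nat_lit 0x0) (nat_lit 0x330008000c40020000000000000000000000000000000000000000) := T_3 (nat_lit 195) (nat_lit 174) (nat_lit 0) (nat_lit 8) (nat_lit 11) L1012386 (by decide +kernel)
theorem L1012388 : W_3 (nat_lit 6) (nat_lit 0x6000080014001a000b0000000000000000000000000000000) (nat_lit 0x0) (nat_lit 0x370009000c40020000000000000000000000000000000000000000) := T_3 (nat_lit 192) (nat_lit 210) (nat_lit 7) (nat_lit 5) (nat_lit 8) L1012387 (by decide +kernel)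
theorem L1012389 : W_3 (nat_lit 7) (nat_lit 0x4000080014001a000b0000000000000000000000000000000) (nat_lit 0x0) (nat_lit 0x37000b000d40020000000000000000000000000000000000000000) := T_3 (nat_lit 193) (nat_lit 176) (nat_lit 7) (nat_lit 5) (nat_lit 7) L1012388 (by decide +kernel)
theorem L1012390 : W_3 (nat_lit 8) (nat_lit 0x4000080014001a00090000000000000000000000000000000) (nat_lit 0x0) (nat_lit 0x37000b000d40020000000020001000000000000000000000000000) := T_3 (nat_lit 125) (nat_lit 108) (nat_lit 6) (nat_lit 5) (nat_lit 10) L1012389 (by decide +kernel)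
theorem L1012391 : W_3 (nat_lit 9) (nat_lit 0x80014001a00090000000000000000000000000000000) (nat_lit 0x0) (nat_lit 0x37000f000f40020000000020001000000000000000000000000000) := T_3 (nat_lit 194) (nat_lit 177) (nat_lit 6) (nat_lit 7) (nat_lit 11) L1012390 (by decide +kernel)
theorem L1012392 : W_3 (nat_lit 2) (nat_lit 0x9000780014001a000b0000000000000000000000000000000) (nat_lit 0x0) (nat_lit 0x2000100000000000020000000000000000000000000000000000000000) := D_3 (nat_lit 212) (nat_lit 161) (nat_lit 229) (nat_lit 4) (nat_lit 8) (nat_lit 12) (nat_lit 4) (nat_lit 8) (nat_lit 13) (by decide +kernel)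
theorem L1012393 : W_3 (nat_lit 3) (nat_lit 0x1000780014001a000b0000000000000000000000000000000) (nat_lit 0x0) (nat_lit 0x2000100018000000020000000000000000000000000000000000000000) := T_3 (nat_lit 195) (nat_lit 196) (nat_lit 3) (nat_lit 5) (nat_lit 10) L1012392 (by decide +kernel)
theorem L1012394 : W_3 (nat_lit 4) (nat_lit 0x780014001a000b0000000000000000000000000000000) (nat_lit 0x0) (nat_lit 0x2000100019800000020000000000000000000000000000000000000000) := T_3 (nat_lit 192) (nat_lit 191) (nat_lit 1) (nat_lit 8) (nat_lit 10) L1012393 (by decide +kernel)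
theorem L1012395 : W_3 (nat_lit 5) (nat_lit 0x380014001a000b0000000000000000000000000000000) (nat_lit 0x0) (nat_lit 0x2000100019800400022000000000000000000000000000000000000000) := T_3 (nat_lit 178) (nat_lit 157) (nat_lit 0) (nat_lit 8) (nat_lit 10) L1012394 (by decide +kernel)
theorem L1012396 : W_3 (nat_lit 6) (nat_lit 0x380014001a00090000000000000000000000000000000) (nat_lit 0x0) (nat_lit 0x2000100019800400022000000020001000000000000000000000000000) := T_3 (nat_lit 125) (nat_lit 108) (nat_lit 6) (nat_lit 5) (nat_lit 10) L1012395 (by decide +kernel)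
theorem L1012397 : W_3 (nat_lit 7) (nat_lit 0x180014001a00090000000000000000000000000000000) (nat_lit 0x0) (nat_lit 0x200010001d800600022000000020001000000000000000000000000000) := T_3 (nat_lit 177) (nat_lit 194) (nat_lit 6) (nat_lit 7) (nat_lit 11) L1012396 (by decide +kernel)
theorem L1012398 : W_3 (nat_lit 8) (nat_lit 0x80014001a00090000000000000000000000000000000) (nat_lit 0x0) (nat_lit 0x200010001f800700022000000020001000000000000000000000000000) := T_3 (nat_lit 176) (nat_lit 193) (nat_lit 7) (nat_lit 5) (nat_lit 7) L1012397 (by decide +kernel)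
theorem L1012399 : W_3 (nat_lit 10) (nat_lit 0x80014001a00080000000000000000000000000000000) (nat_lit 0x0) (nat_lit 0x20003f001f800f40023000000030001c000a0000000000000000000000) := Q_3 (nat_lit 124) (C_3 L1012307 (C_3 L1012373 (C_3 L1012380 (C_3 L1012383 (C_3 L1012352 (C_3 L1012391 (C_3 L1012398 N_3))))))) (by decide +kernel)
theorem L1012400 : W_3 (nat_lit 10) (nat_lit 0x80014001a00080000000000000000000000000000000) (nat_lit 0x0) (nat_lit 0x3f000f800f40020000100038001400000000000000000000000000) := Q_3 (nat_lit 124) (C_3 L1012311 (C_3 L1012373 (C_3 L1012391 (C_3 L1012383 (C_3 L1012300 N_3))))) (by decide +kernel)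
theorem L1012401 : W_3 (nat_lit 2) (nat_lit 0x4000180014001a00090001800000000000000000000000000) (nat_lit 0x0) (nat_lit 0x8000400020000000000000000000000) := D_3 (nat_lit 106) (nat_lit 123) (nat_lit 89) (nat_lit 4) (nat_lit 5) (nat_lit 10) (nat_lit 4) (nat_lit 5) (nat_lit 9) (by decide +kernel)
theorem L1012402 : W_3 (nat_lit 3) (nat_lit 0x4000180014001a00090001000000000000000000000000000) (nat_lit 0x0) (nat_lit 0x8000c000a0000000000000000000000) := T_3 (nat_lit 107) (nat_lit 91) (nat_lit 6) (nat_lit 5) (nat_lit 9) L1012401 (by decide +kernel)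
theorem L1012403 : W_3 (nat_lit 4) (nat_lit 0x4000080014001a00090001000000000000000000000000000) (nat_lit 0x0) (nat_lit 0x2000100000000000008000c000a0000000000000000000000) := T_3 (nat_lit 176) (nat_lit 193) (nat_lit 7) (nat_lit 5) (nat_lit 7) L1012402 (by decide +kernel)
theorem L1012404 : W_3 (nat_lit 5) (nat_lit 0x4000080014001a00090000000000000000000000000000000) (nat_lit 0x0) (nat_lit 0x2000100000000000028001c000a0000000000000000000000) := T_3 (nat_lit 108) (nat_lit 125) (nat_lit 6) (nat_lit 5) (nat_lit 10) L1012403 (by decide +kernel)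
theorem L1012405 : W_3 (nat_lit 6) (nat_lit 0x80014001a00090000000000000000000000000000000) (nat_lit 0x0) (nat_lit 0x6000300000000000028001c000a0000000000000000000000) := T_3 (nat_lit 194) (nat_lit 177) (nat_lit 6) (nat_lit 7) (nat_lit 11) L1012404 (by decide +kernel)
theorem L1012406 : W_3 (nat_lit 7) (nat_lit 0x80014001a00080000000000000000000000000000000) (nat_lit 0x0) (nat_lit 0x6800340022000000038001c000a0000000000000000000000) := Q_3 (nat_lit 124) (C_3 L1012307 (C_3 L1012303 (C_3 L1012383 (C_3 L1012405 N_3)))) (by decide +kernel)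
theorem L1012407 : W_3 (nat_lit 2) (nat_lit 0x4000180016001a00090000c00040000000000000000000000) (nat_lit 0x0) (nat_lit 0x1000080004000000000000000000) := D_3 (nat_lit 91) (nat_lit 108) (nat_lit 74) (nat_lit 6) (nat_lit 5) (nat_lit 9) (nat_lit 6) (nat_lit 5) (nat_lit 8) (by decide +kernel)
theorem L1012408 : W_3 (nat_lit 3) (nat_lit 0x4000180016001a00090000c00000000000000000000000000) (nat_lit 0x0) (nat_lit 0x1000000010000c0004000000000000000000) := T_3 (nat_lit 90) (nat_lit 140) (nat_lit 5) (nat_lit 5) (nat_lit 5) L1012407 (by decide +kernel)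
theorem L1012409 : W_3 (nat_lit 4) (nat_lit 0x4000180014001a00090000c00000000000000000000000000) (nat_lit 0x0) (nat_lit 0x400020001000000010000c0004000000000000000000) := T_3 (nat_lit 157) (nat_lit 174) (nat_lit 5) (nat_lit 5) (nat_lit 6) L1012408 (by decide +kernel)
theorem L1012410 : W_3 (nat_lit 5) (nat_lit 0x4000180014001a00090000400000000000000000000000000) (nat_lit 0x0) (nat_lit 0x400020001000000018000e0004000000000000000000) := T_3 (nat_lit 107) (nat_lit 89) (nat_lit 4) (nat_lit 5) (nat_lit 9) L1012409 (by decide +kernel)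
theorem L1012411 : W_3 (nat_lit 6) (nat_lit 0x4000180014001a00090000000000000000000000000000000) (nat_lit 0x0) (nat_lit 0x40002000100008001c000e0004000000000000000000) := T_3 (nat_lit 106) (nat_lit 123) (nat_lit 4) (nat_lit 5) (nat_lit 10) L1012410 (by decide +kernel)
theorem L1012412 : W_3 (nat_lit 7) (nat_lit 0x4000080014001a00090000000000000000000000000000000) (nat_lit 0x0) (nat_lit 0x2000140002000100008001c000e0004000000000000000000) := T_3 (nat_lit 176) (nat_lit 193) (nat_lit 7) (nat_lit 5) (nat_lit 7) L1012411 (by decide +kernel)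
theorem L1012413 : W_3 (nat_lit 8) (nat_lit 0x80014001a00090000000000000000000000000000000) (nat_lit 0x0) (nat_lit 0x6000340002000100008001c000e0004000000000000000000) := T_3 (nat_lit 194) (nat_lit 177) (nat_lit 6) (nat_lit 7) (nat_lit 11) L1012412 (by decide +kernel)
theorem L1012414 : W_3 (nat_lit 2) (nat_lit 0x5000080014001a00098000000000000000000000000000000) (nat_lit 0x0) (nat_lit 0x40002000100000000000000000000000000000000000000000000) := D_3 (nat_lit 193) (nat_lit 176) (nat_lit 210) (nat_lit 7) (nat_lit 5) (nat_lit 7) (nat_lit 7) (nat_lit 5) (nat_lit 8) (by decide +kernel)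
theorem L1012415 : W_3 (nat_lit 3) (nat_lit 0x4000080014001a00098000000000000000000000000000000) (nat_lit 0x0) (nat_lit 0x40003000100000000100000000000000000000000000000000000) := T_3 (nat_lit 192) (nat_lit 140) (nat_lit 4) (nat_lit 5) (nat_lit 11) L1012414 (by decide +kernel)
theorem L1012416 : W_3 (nat_lit 4) (nat_lit 0x80014001a00098000000000000000000000000000000) (nat_lit 0x0) (nat_lit 0x40007000300000000100000000000000000000000000000000000) := T_3 (nat_lit 194) (nat_lit 177) (nat_lit 6) (nat_lit 7) (nat_lit 11) L1012415 (by decide +kernel)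
theorem L1012417 : W_3 (nat_lit 5) (nat_lit 0x80014001a00090000000000000000000000000000000) (nat_lit 0x0) (nat_lit 0x40007000300000000100008000400000000000000000000000000) := T_3 (nat_lit 123) (nat_lit 106) (nat_lit 4) (nat_lit 5) (nat_lit 10) L1012416 (by decide +kernel)
theorem L1012418 : W_3 (nat_lit 10) (nat_lit 0x80014001a00080000000000000000000000000000000) (nat_lit 0x0) (nat_lit 0x37000f000f40022000100038001c000e0006000000000000000000) := Q_3 (nat_lit 124) (C_3 L1012311 (C_3 L1012364 (C_3 L1012405 (C_3 L1012413 (C_3 L1012417 (C_3 L1012391 N_3)))))) (by decide +kernel)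
theorem L1012419 : W_3 (nat_lit 2) (nat_lit 0x10005000080014001b00080000000000000000000000000000000) (nat_lit 0x0) (nat_lit 0x200020000000000002000000000000000000000000000000000000000) := D_3 (nat_lit 209) (nat_lit 225) (nat_lit 157) (nat_lit 5) (nat_lit 5) (nat_lit 9) (nat_lit 4) (nat_lit 5) (nat_lit 12) (by decide +kernel)
theorem L1012420 : W_3 (nat_lit 3) (nat_lit 0x10005000080014001a00080000000000000000000000000000000) (nat_lit 0x0) (nat_lit 0x200020000000000002000100008000000000000000000000000000000) := T_3 (nat_lit 140) (nat_lit 123) (nat_lit 4) (nat_lit 5) (nat_lit 11) L1012419 (by decide +kernel)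
theorem L1012421 : W_3 (nat_lit 4) (nat_lit 0x5000080014001a00080000000000000000000000000000000) (nat_lit 0x0) (nat_lit 0x200030000800000002000100008000000000000000000000000000000) := T_3 (nat_lit 208) (nat_lit 191) (nat_lit 5) (nat_lit 5) (nat_lit 8) L1012420 (by decide +kernel)
theorem L1012422 : W_3 (nat_lit 5) (nat_lit 0x1000080014001a00080000000000000000000000000000000) (nat_lit 0x0) (nat_lit 0x200030004800200002000100008000000000000000000000000000000) := T_3 (nat_lit 194) (nat_lit 177) (nat_lit 6) (nat_lit 7) (nat_lit 11) L1012421 (by decide +kernel)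
theorem L1012423 : W_3 (nat_lit 5) (nat_lit 0x7800080014001a00090000000000000000000000000000000) (nat_lit 0x0) (nat_lit 0x380008000c00020000000020001000000000000000000000000000) := T_3 (nat_lit 125) (nat_lit 108) (nat_lit 6) (nat_lit 5) (nat_lit 10) L1012368 (by decide +kernel)
theorem L1012424 : W_3 (nat_lit 6) (nat_lit 0x7800080014001a00080000000000000000000000000000000) (nat_lit 0x0) (nat_lit 0x380008000d00020000000030001000000000000000000000000000) := T_3 (nat_lit 124) (nat_lit 176) (nat_lit 7) (nat_lit 5) (nat_lit 7) L1012423 (by decide +kernel)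
theorem L1012425 : W_3 (nat_lit 7) (nat_lit 0x5800080014001a00080000000000000000000000000000000) (nat_lit 0x0) (nat_lit 0x3c000a000d00020000000030001000000000000000000000000000) := T_3 (nat_lit 193) (nat_lit 210) (nat_lit 7) (nat_lit 5) (nat_lit 8) L1012424 (by decide +kernel)
theorem L1012426 : W_3 (nat_lit 8) (nat_lit 0x1800080014001a00080000000000000000000000000000000) (nat_lit 0x0) (nat_lit 0x3c000e000f00020000000030001000000000000000000000000000) := T_3 (nat_lit 194) (nat_lit 177) (nat_lit 6) (nat_lit 7) (nat_lit 11) L1012425 (by decide +kernel)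
theorem L1012427 : W_3 (nat_lit 9) (nat_lit 0x1000080014001a00080000000000000000000000000000000) (nat_lit 0x0) (nat_lit 0x3d000e800f00020000000030001000000000000000000000000000) := T_3 (nat_lit 191) (nat_lit 208) (nat_lit 5) (nat_lit 5) (nat_lit 8) L1012426 (by decide +kernel)
theorem L1012428 : W_3 (nat_lit 10) (nat_lit 0x80014001a00080000000000000000000000000000000) (nat_lit 0x0) (nat_lit 0xa003f000f800f00022000100038001000000000000000000000000000) := Q_3 (nat_lit 192) (C_3 L1012331 (C_3 L1012422 (C_3 L1012427 (C_3 L1012326 N_3)))) (by decide +kernel)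
theorem L1012429 : W_3 (nat_lit 11) (nat_lit 0x14001a00080000000000000000000000000000000) (nat_lit 0x0) (nat_lit 0x8001c002e003f001fc00fe0023000100038001c000e0006000000000000000000) := Q_3 (nat_lit 175) (C_3 L1012312 (C_3 L1012327 (C_3 L1012346 (C_3 L1012347 (C_3 L1012365 (C_3 L1012399 (C_3 L1012400 (C_3 L1012406 (C_3 L1012418 (C_3 L1012428 N_3)))))))))) (by decide +kernel)
theorem L1012431 : W_3 (nat_lit 3) (nat_lit 0x4000000014001e00090000000000000000000000000000000) (nat_lit 0x0) (nat_lit 0x80000002000020001000080000000000000000000000) := T_3 (nat_lit 125) (nat_lit 145) (nat_lit 0) (nat_lit 9) (nat_lit 8) L1012430 (by decide +kernel)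
theorem L1012432 : W_3 (nat_lit 4) (nat_lit 0x4000000014001e00080000000000000000000000000000000) (nat_lit 0x0) (nat_lit 0x80000002000038001000080000000000000000000000) := T_3 (nat_lit 124) (nat_lit 123) (nat_lit 0) (nat_lit 8) (nat_lit 8) L1012431 (by decide +kernel)
theorem L1012433 : W_3 (nat_lit 5) (nat_lit 0x4000000014001a00080000000000000000000000000000000) (nat_lit 0x0) (nat_lit 0x80002002400038001000080000000000000000000000) := T_3 (nat_lit 142) (nat_lit 157) (nat_lit 1) (nat_lit 8) (nat_lit 8) L1012432 (by decide +kernel)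
theorem L1012434 : W_3 (nat_lit 6) (nat_lit 0x14001a00080000000000000000000000000000000) (nat_lit 0x0) (nat_lit 0x4000280002002400038001000080000000000000000000000) := T_3 (nat_lit 194) (nat_lit 177) (nat_lit 6) (nat_lit 7) (nat_lit 11) L1012433 (by decide +kernel)
theorem L1012435 : W_3 (nat_lit 4) (nat_lit 0x14001a00080000000000000000000000000000000) (nat_lit 0x0) (nat_lit 0x2200050001c000000000000000000000000000000) := T_3 (nat_lit 142) (nat_lit 157) (nat_lit 1) (nat_lit 8) (nat_lit 8) L1012268 (by decide +kernel)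
theorem L1012444 : W_3 (nat_lit 2) (nat_lit 0x80014001f00080000000000000000000000000000000) (nat_lit 0x0) (nat_lit 0x100000000000000000c000000000000000000000000000000) := D_3 (nat_lit 123) (nat_lit 122) (nat_lit 192) (nat_lit 0) (nat_lit 7) (nat_lit 8) (nat_lit 4) (nat_lit 5) (nat_lit 11) (by decide +kernel)
theorem L1012445 : W_3 (nat_lit 3) (nat_lit 0x80014001e00080000000000000000000000000000000) (nat_lit 0x0) (nat_lit 0x100000002000010000c000000000000000000000000000000) := T_3 (nat_lit 140) (nat_lit 161) (nat_lit 3) (nat_lit 4) (nat_lit 8) L1012444 (by decide +kernel)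
theorem L1012446 : W_3 (nat_lit 4) (nat_lit 0x80014001a00080000000000000000000000000000000) (nat_lit 0x0) (nat_lit 0x100000002200050000c000000000000000000000000000000) := T_3 (nat_lit 142) (nat_lit 157) (nat_lit 1) (nat_lit 8) (nat_lit 8) L1012445 (by decide +kernel)
theorem L1012447 : W_3 (nat_lit 2) (nat_lit 0x7800080014001e00080000000000000000000000000000000) (nat_lit 0x0) (nat_lit 0x8000060000000000000000000000000000000000000000000) := D_3 (nat_lit 174) (nat_lit 173) (nat_lit 195) (nat_lit 0) (nat_lit 7) (nat_lit 11) (nat_lit 0) (nat_lit 8) (nat_lit 11) (by decide +kernel)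
theorem L1012448 : W_3 (nat_lit 3) (nat_lit 0x5800080014001e00080000000000000000000000000000000) (nat_lit 0x0) (nat_lit 0x4000a000060000000000000000000000000000000000000000000) := T_3 (nat_lit 193) (nat_lit 210) (nat_lit 7) (nat_lit 5) (nat_lit 8) L1012447 (by decide +kernel)
theorem L1012449 : W_3 (nat_lit 4) (nat_lit 0x5000080014001e00080000000000000000000000000000000) (nat_lit 0x0) (nat_lit 0x5000a800060000000000000000000000000000000000000000000) := T_3 (nat_lit 191) (nat_lit 208) (nat_lit 5) (nat_lit 5) (nat_lit 8) L1012448 (by decide +kernel)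
theorem L1012450 : W_3 (nat_lit 5) (nat_lit 0x4000080014001e00080000000000000000000000000000000) (nat_lit 0x0) (nat_lit 0x5000b800060000000000020000000000000000000000000000000) := T_3 (nat_lit 192) (nat_lit 125) (nat_lit 6) (nat_lit 5) (nat_lit 11) L1012449 (by decide +kernel)
theorem L1012451 : W_3 (nat_lit 6) (nat_lit 0x80014001e00080000000000000000000000000000000) (nat_lit 0x0) (nat_lit 0x5000f800260000000000020000000000000000000000000000000) := T_3 (nat_lit 194) (nat_lit 177) (nat_lit 6) (nat_lit 7) (nat_lit 11) L1012450 (by decide +kernel)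
theorem L1012452 : W_3 (nat_lit 7) (nat_lit 0x80014001a00080000000000000000000000000000000) (nat_lit 0x0) (nat_lit 0x5000f800260002000400020000000000000000000000000000000) := T_3 (nat_lit 142) (nat_lit 157) (nat_lit 1) (nat_lit 8) (nat_lit 8) L1012451 (by decide +kernel)
theorem L1012453 : W_3 (nat_lit 2) (nat_lit 0x1000080014001b00080000000000000000000000000000000) (nat_lit 0x0) (nat_lit 0x20000400020000000000000000000000000000000) := D_3 (nat_lit 142) (nat_lit 161) (nat_lit 125) (nat_lit 3) (nat_lit 4) (nat_lit 8) (nat_lit 6) (nat_lit 5) (nat_lit 11) (by decide +kernel)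
theorem L1012454 : W_3 (nat_lit 3) (nat_lit 0x1000080014001a00080000000000000000000000000000000) (nat_lit 0x0) (nat_lit 0x20000500028000000000000000000000000000000) := T_3 (nat_lit 140) (nat_lit 123) (nat_lit 4) (nat_lit 5) (nat_lit 11) L1012453 (by decide +kernel)
theorem L1012455 : W_3 (nat_lit 6) (nat_lit 0x80014001a00080000000000000000000000000000000) (nat_lit 0x0) (nat_lit 0x5000f800260020000500028000000000000000000000000000000) := Q_3 (nat_lit 192) (C_3 L1012322 (C_3 L1012454 N_3)) (by decide +kernel)
theorem L1012456 : W_3 (nat_lit 2) (nat_lit 0x380016001a00080000000000000000000000000000000) (nat_lit 0x0) (nat_lit 0x40021000000000000000000000000000000000000000) := D_3 (nat_lit 174) (nat_lit 156) (nat_lit 161) (nat_lit 0) (nat_lit 7) (nat_lit 10) (nat_lit 2) (nat_lit 4) (nat_lit 10) (by decide +kernel)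
theorem L1012457 : W_3 (nat_lit 3) (nat_lit 0x280016001a00080000000000000000000000000000000) (nat_lit 0x0) (nat_lit 0x540021000000000000000000000000000000000000000) := T_3 (nat_lit 176) (nat_lit 178) (nat_lit 0) (nat_lit 8) (nat_lit 10) L1012456 (by decide +kernel)
theorem L1012458 : W_3 (nat_lit 4) (nat_lit 0x280014001a00080000000000000000000000000000000) (nat_lit 0x0) (nat_lit 0x540023000400000000000000000000000000000000000) := T_3 (nat_lit 157) (nat_lit 142) (nat_lit 1) (nat_lit 8) (nat_lit 8) L1012457 (by decide +kernel)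
theorem L1012459 : W_3 (nat_lit 5) (nat_lit 0x80014001a00080000000000000000000000000000000) (nat_lit 0x0) (nat_lit 0x4000740023000400000000000000000000000000000000000) := T_3 (nat_lit 177) (nat_lit 194) (nat_lit 6) (nat_lit 7) (nat_lit 11) L1012458 (by decide +kernel)
theorem L1012460 : W_3 (nat_lit 11) (nat_lit 0x14001a00080000000000000000000000000000000) (nat_lit 0x0) (nat_lit 0x8001c000e0007000fc007e002300050002c000000000000000000000000000000) := Q_3 (nat_lit 175) (C_3 L1012346 (C_3 L1012446 (C_3 L1012452 (C_3 L1012455 (C_3 L1012459 N_3))))) (by decide +kernel)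
theorem L1012469 : W_3 (nat_lit 2) (nat_lit 0x1800080014001f00090000000000000000000000000000000) (nat_lit 0x0) (nat_lit 0x40002000100000000000000000000000000000000000000000000) := D_3 (nat_lit 193) (nat_lit 210) (nat_lit 176) (nat_lit 7) (nat_lit 5) (nat_lit 8) (nat_lit 7) (nat_lit 5) (nat_lit 7) (by decide +kernel)
theorem L1012470 : W_3 (nat_lit 3) (nat_lit 0x1800080014001f00080000000000000000000000000000000) (nat_lit 0x0) (nat_lit 0x40002000140000000000010000000000000000000000000000000) := T_3 (nat_lit 124) (nat_lit 174) (nat_lit 5) (nat_lit 5) (nat_lit 7) L1012469 (by decide +kernel)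
theorem L1012471 : W_3 (nat_lit 4) (nat_lit 0x1000080014001f00080000000000000000000000000000000) (nat_lit 0x0) (nat_lit 0x50002800140000000000010000000000000000000000000000000) := T_3 (nat_lit 191) (nat_lit 208) (nat_lit 5) (nat_lit 5) (nat_lit 8) L1012470 (by decide +kernel)
theorem L1012472 : W_3 (nat_lit 5) (nat_lit 0x80014001f00080000000000000000000000000000000) (nat_lit 0x0) (nat_lit 0x50003800140000000000030000000000000000000000000000000) := T_3 (nat_lit 192) (nat_lit 125) (nat_lit 6) (nat_lit 5) (nat_lit 11) L1012471 (by decide +kernel)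
theorem L1012473 : W_3 (nat_lit 6) (nat_lit 0x80014001e00080000000000000000000000000000000) (nat_lit 0x0) (nat_lit 0x50003800140020000100030000000000000000000000000000000) := T_3 (nat_lit 140) (nat_lit 161) (nat_lit 3) (nat_lit 4) (nat_lit 8) L1012472 (by decide +kernel)
theorem L1012474 : W_3 (nat_lit 7) (nat_lit 0x80014001a00080000000000000000000000000000000) (nat_lit 0x0) (nat_lit 0x50003800140022000500030000000000000000000000000000000) := T_3 (nat_lit 142) (nat_lit 157) (nat_lit 1) (nat_lit 8) (nat_lit 8) L1012473 (by decide +kernel)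
theorem L1012475 : W_3 (nat_lit 2) (nat_lit 0x7000d000480034001e00080000000000000000000000000000000) (nat_lit 0x0) (nat_lit 0x200010000800000000000000000000000000000000000000000000) := D_3 (nat_lit 196) (nat_lit 179) (nat_lit 213) (nat_lit 7) (nat_lit 8) (nat_lit 7) (nat_lit 7) (nat_lit 8) (nat_lit 8) (by decide +kernel)
theorem L1012476 : W_3 (nat_lit 3) (nat_lit 0x7000d000080034001e00080000000000000000000000000000000) (nat_lit 0x0) (nat_lit 0x300010000c00000000000000000000000000000000000000000000) := T_3 (nat_lit 178) (nat_lit 212) (nat_lit 4) (nat_lit 8) (nat_lit 12) L1012475 (by decide +kernel)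
theorem L1012477 : W_3 (nat_lit 4) (nat_lit 0x70005000080034001e00080000000000000000000000000000000) (nat_lit 0x0) (nat_lit 0x380018000c00000000000000000000000000000000000000000000) := T_3 (nat_lit 195) (nat_lit 211) (nat_lit 2) (nat_lit 4) (nat_lit 12) L1012476 (by decide +kernel)
theorem L1012478 : W_3 (nat_lit 5) (nat_lit 0x30005000080034001e00080000000000000000000000000000000) (nat_lit 0x0) (nat_lit 0x8003c0018000c00000000000000000000000000000000000000000000) := T_3 (nat_lit 210) (nat_lit 227) (nat_lit 7) (nat_lit 5) (nat_lit 9) L1012477 (by decide +kernel)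
theorem L1012479 : W_3 (nat_lit 6) (nat_lit 0x10005000080034001e00080000000000000000000000000000000) (nat_lit 0x0) (nat_lit 0xa003e0018000c00000000000000000000000000000000000000000000) := T_3 (nat_lit 209) (nat_lit 225) (nat_lit 5) (nat_lit 5) (nat_lit 9) L1012478 (by decide +kernel)
theorem L1012480 : W_3 (nat_lit 7) (nat_lit 0x5000080034001e00080000000000000000000000000000000) (nat_lit 0x0) (nat_lit 0xa003f0018800c00000000000000000000000000000000000000000000) := T_3 (nat_lit 208) (nat_lit 191) (nat_lit 5) (nat_lit 5) (nat_lit 8) L1012479 (by decide +kernel)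
theorem L1012481 : W_3 (nat_lit 8) (nat_lit 0x5000080014001e00080000000000000000000000000000000) (nat_lit 0x0) (nat_lit 0xa003f0018800c00020000100000000000000000000000000000000000) := T_3 (nat_lit 161) (nat_lit 140) (nat_lit 3) (nat_lit 4) (nat_lit 8) L1012480 (by decide +kernel)
theorem L1012482 : W_3 (nat_lit 9) (nat_lit 0x5000080014001a00080000000000000000000000000000000) (nat_lit 0x0) (nat_lit 0xa003f0018800c00020000500020000000000000000000000000000000) := T_3 (nat_lit 142) (nat_lit 125) (nat_lit 6) (nat_lit 5) (nat_lit 11) L1012481 (by decide +kernel)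
theorem L1012483 : W_3 (nat_lit 10) (nat_lit 0x1000080014001a00080000000000000000000000000000000) (nat_lit 0x0) (nat_lit 0xa003f001c800e00020000500020000000000000000000000000000000) := T_3 (nat_lit 194) (nat_lit 177) (nat_lit 6) (nat_lit 7) (nat_lit 11) L1012482 (by decide +kernel)
theorem L1012484 : W_3 (nat_lit 2) (nat_lit 0x3000080014001a00090000000000000000000000000000000) (nat_lit 0x0) (nat_lit 0x400020001000000000000000000000000000) := D_3 (nat_lit 125) (nat_lit 108) (nat_lit 142) (nat_lit 6) (nat_lit 5) (nat_lit 10) (nat_lit 6) (nat_lit 5) (nat_lit 11) (by decide +kernel)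
theorem L1012485 : W_3 (nat_lit 3) (nat_lit 0x3000080014001a00080000000000000000000000000000000) (nat_lit 0x0) (nat_lit 0x100000000400030001000000000000000000000000000) := T_3 (nat_lit 124) (nat_lit 176) (nat_lit 7) (nat_lit 5) (nat_lit 7) L1012484 (by decide +kernel)
theorem L1012486 : W_3 (nat_lit 4) (nat_lit 0x1000080014001a00080000000000000000000000000000000) (nat_lit 0x0) (nat_lit 0x40002000100000000400030001000000000000000000000000000) := T_3 (nat_lit 193) (nat_lit 210) (nat_lit 7) (nat_lit 5) (nat_lit 8) L1012485 (by decide +kernel)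
theorem L1012487 : W_3 (nat_lit 2) (nat_lit 0x5800080014001a00090000000000000000000000000000000) (nat_lit 0x0) (nat_lit 0x400020001000000000000000000000000000) := D_3 (nat_lit 125) (nat_lit 142) (nat_lit 108) (nat_lit 6) (nat_lit 5) (nat_lit 11) (nat_lit 6) (nat_lit 5) (nat_lit 10) (by decide +kernel)
theorem L1012488 : W_3 (nat_lit 3) (nat_lit 0x5800080014001a00080000000000000000000000000000000) (nat_lit 0x0) (nat_lit 0x40000000400030001000000000000000000000000000) := T_3 (nat_lit 124) (nat_lit 174) (nat_lit 5) (nat_lit 5) (nat_lit 7) L1012487 (by decide +kernel)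
theorem L1012489 : W_3 (nat_lit 4) (nat_lit 0x5000080014001a00080000000000000000000000000000000) (nat_lit 0x0) (nat_lit 0x10000800040000000400030001000000000000000000000000000) := T_3 (nat_lit 191) (nat_lit 208) (nat_lit 5) (nat_lit 5) (nat_lit 8) L1012488 (by decide +kernel)
theorem L1012490 : W_3 (nat_lit 5) (nat_lit 0x1000080014001a00080000000000000000000000000000000) (nat_lit 0x0) (nat_lit 0x10004800240000000400030001000000000000000000000000000) := T_3 (nat_lit 194) (nat_lit 177) (nat_lit 6) (nat_lit 7) (nat_lit 11) L1012489 (by decide +kernel)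
theorem L1012491 : W_3 (nat_lit 11) (nat_lit 0x80014001a00080000000000000000000000000000000) (nat_lit 0x0) (nat_lit 0xa003f001f800f60020000500030001000000000000000000000000000) := Q_3 (nat_lit 192) (C_3 L1012315 (C_3 L1012427 (C_3 L1012322 (C_3 L1012483 (C_3 L1012486 (C_3 L1012490 N_3)))))) (by decide +kernel)
theorem L1012492 : W_3 (nat_lit 2) (nat_lit 0x100007800180014001f00080000000000000000000000000000000) (nat_lit 0x0) (nat_lit 0x200018000000000000000000000000000000000000000000000000) := D_3 (nat_lit 195) (nat_lit 196) (nat_lit 213) (nat_lit 0) (nat_lit 9) (nat_lit 11) (nat_lit 3) (nat_lit 5) (nat_lit 11) (by decide +kernel)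
theorem L1012493 : W_3 (nat_lit 3) (nat_lit 0x7800180014001f00080000000000000000000000000000000) (nat_lit 0x0) (nat_lit 0x380018000000000000000000000000000000000000000000000000) := T_3 (nat_lit 212) (nat_lit 211) (nat_lit 3) (nat_lit 4) (nat_lit 11) L1012492 (by decide +kernel)
theorem L1012494 : W_3 (nat_lit 4) (nat_lit 0x7800080014001f00080000000000000000000000000000000) (nat_lit 0x0) (nat_lit 0x380018000100000000000010000000000000000000000000000000) := T_3 (nat_lit 176) (nat_lit 124) (nat_lit 7) (nat_lit 5) (nat_lit 7) L1012493 (by decide +kernel)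
theorem L1012495 : W_3 (nat_lit 5) (nat_lit 0x5800080014001f00080000000000000000000000000000000) (nat_lit 0x0) (nat_lit 0x3c001a000100000000000010000000000000000000000000000000) := T_3 (nat_lit 193) (nat_lit 210) (nat_lit 7) (nat_lit 5) (nat_lit 8) L1012494 (by decide +kernel)
theorem L1012496 : W_3 (nat_lit 6) (nat_lit 0x5000080014001f00080000000000000000000000000000000) (nat_lit 0x0) (nat_lit 0x3d001a800100000000000010000000000000000000000000000000) := T_3 (nat_lit 191) (nat_lit 208) (nat_lit 5) (nat_lit 5) (nat_lit 8) L1012495 (by decide +kernel)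
theorem L1012497 : W_3 (nat_lit 7) (nat_lit 0x4000080014001f00080000000000000000000000000000000) (nat_lit 0x0) (nat_lit 0x3d001b800100000000000030000000000000000000000000000000) := T_3 (nat_lit 192) (nat_lit 125) (nat_lit 6) (nat_lit 5) (nat_lit 11) L1012496 (by decide +kernel)
theorem L1012498 : W_3 (nat_lit 8) (nat_lit 0x4000080014001e00080000000000000000000000000000000) (nat_lit 0x0) (nat_lit 0x3d001b800100020000100030000000000000000000000000000000) := T_3 (nat_lit 140) (nat_lit 161) (nat_lit 3) (nat_lit 4) (nat_lit 8) L1012497 (by decide +kernel)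
theorem L1012499 : W_3 (nat_lit 9) (nat_lit 0x4000080014001a00080000000000000000000000000000000) (nat_lit 0x0) (nat_lit 0x3d001b800100022000500030000000000000000000000000000000) := T_3 (nat_lit 142) (nat_lit 157) (nat_lit 1) (nat_lit 8) (nat_lit 8) L1012498 (by decide +kernel)
theorem L1012500 : W_3 (nat_lit 10) (nat_lit 0x80014001a00080000000000000000000000000000000) (nat_lit 0x0) (nat_lit 0x3d001f800300022000500030000000000000000000000000000000) := T_3 (nat_lit 194) (nat_lit 177) (nat_lit 6) (nat_lit 7) (nat_lit 11) L1012499 (by decide +kernel)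
theorem L1012501 : W_3 (nat_lit 12) (nat_lit 0x14001a00080000000000000000000000000000000) (nat_lit 0x0) (nat_lit 0x2a003f001f800fe0023000500030001c000a0000000000000000000000) := Q_3 (nat_lit 175) (C_3 L1012399 (C_3 L1012474 (C_3 L1012452 (C_3 L1012459 (C_3 L1012491 (C_3 L1012500 N_3)))))) (by decide +kernel)
theorem L1012502 : W_3 (nat_lit 10) (nat_lit 0x14001a00090000000000000000000000000000000) (nat_lit 0x0) (nat_lit 0x3d000f800fc0020000100028001c000a0000000000000000000000) := Q_3 (nat_lit 175) (C_3 L1012311 (C_3 L1012417 (C_3 L1012373 (C_3 L1012300 (C_3 L1012405 N_3))))) (by decide +kernel)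
theorem L1012503 : W_3 (nat_lit 4) (nat_lit 0x4000000014001a00090000000000000000000000000000000) (nat_lit 0x0) (nat_lit 0x80000002400028001000080000000000000000000000) := T_3 (nat_lit 142) (nat_lit 123) (nat_lit 0) (nat_lit 8) (nat_lit 8) L1012431 (by decide +kernel)
theorem L1012504 : W_3 (nat_lit 5) (nat_lit 0x14001a00090000000000000000000000000000000) (nat_lit 0x0) (nat_lit 0x4000280000002400028001000080000000000000000000000) := T_3 (nat_lit 194) (nat_lit 177) (nat_lit 6) (nat_lit 7) (nat_lit 11) L1012503 (by decide +kernel)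
theorem L1012505 : W_3 (nat_lit 3) (nat_lit 0x14001e00090000000000000000000000000000000) (nat_lit 0x0) (nat_lit 0x80000002000020001000080000000000000000000000) := T_3 (nat_lit 125) (nat_lit 145) (nat_lit 0) (nat_lit 9) (nat_lit 8) L1012269 (by decide +kernel)
theorem L1012506 : W_3 (nat_lit 4) (nat_lit 0x14001a00090000000000000000000000000000000) (nat_lit 0x0) (nat_lit 0x80000002400028001000080000000000000000000000) := T_3 (nat_lit 142) (nat_lit 123) (nat_lit 0) (nat_lit 8) (nat_lit 8) L1012505 (by decide +kernel)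
theorem L1012507 : W_3 (nat_lit 4) (nat_lit 0x4000000014001a00098000000000000000000000000000000) (nat_lit 0x0) (nat_lit 0x40003000180000000100000000400000000000000000000000000) := T_3 (nat_lit 175) (nat_lit 106) (nat_lit 4) (nat_lit 5) (nat_lit 10) L1012415 (by decide +kernel)
theorem L1012508 : W_3 (nat_lit 5) (nat_lit 0x14001a00098000000000000000000000000000000) (nat_lit 0x0) (nat_lit 0x40007000380000000100000000400000000000000000000000000) := T_3 (nat_lit 194) (nat_lit 177) (nat_lit 6) (nat_lit 7) (nat_lit 11) L1012507 (by decide +kernel)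
theorem L1012509 : W_3 (nat_lit 6) (nat_lit 0x14001a00090000000000000000000000000000000) (nat_lit 0x0) (nat_lit 0x40007000380000000500008000400000000000000000000000000) := T_3 (nat_lit 123) (nat_lit 142) (nat_lit 0) (nat_lit 8) (nat_lit 8) L1012508 (by decide +kernel)
theorem L1012510 : W_3 (nat_lit 2) (nat_lit 0x180014001a000b0000000000000000000000000000000) (nat_lit 0x0) (nat_lit 0x1000000000002400000000000000000000000000000000000) := D_3 (nat_lit 142) (nat_lit 145) (nat_lit 192) (nat_lit 0) (nat_lit 9) (nat_lit 8) (nat_lit 6) (nat_lit 5) (nat_lit 11) (by decide +kernel)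
theorem L1012511 : W_3 (nat_lit 3) (nat_lit 0x180014001a00090000000000000000000000000000000) (nat_lit 0x0) (nat_lit 0x1000000000002400020001000000000000000000000000000) := T_3 (nat_lit 125) (nat_lit 108) (nat_lit 6) (nat_lit 5) (nat_lit 10) L1012510 (by decide +kernel)
theorem L1012512 : W_3 (nat_lit 4) (nat_lit 0x80014001a00090000000000000000000000000000000) (nat_lit 0x0) (nat_lit 0x3000100000002400020001000000000000000000000000000) := T_3 (nat_lit 176) (nat_lit 193) (nat_lit 7) (nat_lit 5) (nat_lit 7) L1012511 (by decide +kernel)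
theorem L1012513 : W_3 (nat_lit 2) (nat_lit 0x4000080014001a000b0000000000000000000000000000000) (nat_lit 0x0) (nat_lit 0x1000000000002400000000000000000000000000000000000) := D_3 (nat_lit 142) (nat_lit 145) (nat_lit 192) (nat_lit 0) (nat_lit 9) (nat_lit 8) (nat_lit 6) (nat_lit 5) (nat_lit 11) (by decide +kernel)
theorem L1012514 : W_3 (nat_lit 3) (nat_lit 0x4000080014001a00090000000000000000000000000000000) (nat_lit 0x0) (nat_lit 0x1000000000002400020001000000000000000000000000000) := T_3 (nat_lit 125) (nat_lit 108) (nat_lit 6) (nat_lit 5) (nat_lit 10) L1012513 (by decide +kernel)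
theorem L1012515 : W_3 (nat_lit 4) (nat_lit 0x80014001a00090000000000000000000000000000000) (nat_lit 0x0) (nat_lit 0x5000200000002400020001000000000000000000000000000) := T_3 (nat_lit 194) (nat_lit 177) (nat_lit 6) (nat_lit 7) (nat_lit 11) L1012514 (by decide +kernel)
theorem L1012516 : W_3 (nat_lit 10) (nat_lit 0x14001a00090000000000000000000000000000000) (nat_lit 0x0) (nat_lit 0x3f000f800fc0020002400020001000000000000000000000000000) := Q_3 (nat_lit 175) (C_3 L1012512 (C_3 L1012391 (C_3 L1012383 (C_3 L1012373 (C_3 L1012515 N_3))))) (by decide +kernel)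
theorem L1012517 : W_3 (nat_lit 2) (nat_lit 0x14001a00098001c00000000000000000000000000) (nat_lit 0x0) (nat_lit 0x6002000000000000000000000000000) := D_3 (nat_lit 122) (nat_lit 109) (nat_lit 121) (nat_lit 1) (nat_lit 7) (nat_lit 6) (nat_lit 2) (nat_lit 2) (nat_lit 7) (by decide +kernel)
theorem L1012518 : W_3 (nat_lit 3) (nat_lit 0x14001a00090001c00000000000000000000000000) (nat_lit 0x0) (nat_lit 0x40000e002000000000000000000000000000) := T_3 (nat_lit 123) (nat_lit 142) (nat_lit 0) (nat_lit 8) (nat_lit 8) L1012517 (by decide +kernel)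
theorem L1012519 : W_3 (nat_lit 4) (nat_lit 0x14001a00090001800000000000000000000000000) (nat_lit 0x0) (nat_lit 0x40000e002400020000000000000000000000) := T_3 (nat_lit 106) (nat_lit 89) (nat_lit 4) (nat_lit 5) (nat_lit 9) L1012518 (by decide +kernel)
theorem L1012520 : W_3 (nat_lit 5) (nat_lit 0x14001a00090000800000000000000000000000000) (nat_lit 0x0) (nat_lit 0x40000e0034000a0000000000000000000000) := T_3 (nat_lit 108) (nat_lit 91) (nat_lit 6) (nat_lit 5) (nat_lit 9) L1012519 (by decide +kernel)
theorem L1012521 : W_3 (nat_lit 2) (nat_lit 0x4000000014001a000900008000a0000000000000000000000) (nat_lit 0x0) (nat_lit 0x40005000000000000000000) := D_3 (nat_lit 90) (nat_lit 74) (nat_lit 72) (nat_lit 6) (nat_lit 5) (nat_lit 8) (nat_lit 4) (nat_lit 5) (nat_lit 8) (by decide +kernel)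
theorem L1012522 : W_3 (nat_lit 3) (nat_lit 0x4000000014001a00090000800080000000000000000000000) (nat_lit 0x0) (nat_lit 0x400060005000000000000000000) := T_3 (nat_lit 89) (nat_lit 106) (nat_lit 4) (nat_lit 5) (nat_lit 9) L1012521 (by decide +kernel)
theorem L1012523 : W_3 (nat_lit 4) (nat_lit 0x4000000014001a00090000800000000000000000000000000) (nat_lit 0x0) (nat_lit 0x14000e0005000000000000000000) := T_3 (nat_lit 91) (nat_lit 108) (nat_lit 6) (nat_lit 5) (nat_lit 9) L1012522 (by decide +kernel)
theorem L1012524 : W_3 (nat_lit 5) (nat_lit 0x14001a00090000800000000000000000000000000) (nat_lit 0x0) (nat_lit 0x40002000000000000000014000e0005000000000000000000) := T_3 (nat_lit 194) (nat_lit 177) (nat_lit 6) (nat_lit 7) (nat_lit 11) L1012523 (by decide +kernel)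
theorem L1012525 : W_3 (nat_lit 2) (nat_lit 0x4000000014001e00090000800060000000000000000000000) (nat_lit 0x0) (nat_lit 0x2000020000000000002000000000000000000) := D_3 (nat_lit 125) (nat_lit 145) (nat_lit 73) (nat_lit 0) (nat_lit 9) (nat_lit 8) (nat_lit 7) (nat_lit 5) (nat_lit 4) (by decide +kernel)
theorem L1012526 : W_3 (nat_lit 3) (nat_lit 0x4000000014001a00090000800060000000000000000000000) (nat_lit 0x0) (nat_lit 0x2400028000000000002000000000000000000) := T_3 (nat_lit 142) (nat_lit 123) (nat_lit 0) (nat_lit 8) (nat_lit 8) L1012525 (by decide +kernel)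
theorem L1012527 : W_3 (nat_lit 4) (nat_lit 0x4000000014001a00090000800020000000000000000000000) (nat_lit 0x0) (nat_lit 0x2400028000000040003000000000000000000) := T_3 (nat_lit 90) (nat_lit 72) (nat_lit 4) (nat_lit 5) (nat_lit 8) L1012526 (by decide +kernel)
theorem L1012528 : W_3 (nat_lit 5) (nat_lit 0x14001a00090000800020000000000000000000000) (nat_lit 0x0) (nat_lit 0x4000200000002400028000000040003000000000000000000) := T_3 (nat_lit 194) (nat_lit 177) (nat_lit 6) (nat_lit 7) (nat_lit 11) L1012527 (by decide +kernel)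
theorem L1012529 : W_3 (nat_lit 6) (nat_lit 0x14001a00090000800000000000000000000000000) (nat_lit 0x0) (nat_lit 0x4000200000002400028000400060003000000000000000000) := T_3 (nat_lit 89) (nat_lit 106) (nat_lit 4) (nat_lit 5) (nat_lit 9) L1012528 (by decide +kernel)
theorem L1012530 : W_3 (nat_lit 2) (nat_lit 0x4000000014001e000900008000c0000000000000000000000) (nat_lit 0x0) (nat_lit 0x2000020000000000002000000000000000000) := D_3 (nat_lit 125) (nat_lit 145) (nat_lit 73) (nat_lit 0) (nat_lit 9) (nat_lit 8) (nat_lit 7) (nat_lit 5) (nat_lit 4) (by decide +kernel)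
theorem L1012531 : W_3 (nat_lit 3) (nat_lit 0x4000000014001e00090000800080000000000000000000000) (nat_lit 0x0) (nat_lit 0x2000020000000040006000000000000000000) := T_3 (nat_lit 90) (nat_lit 74) (nat_lit 6) (nat_lit 5) (nat_lit 8) L1012530 (by decide +kernel)
theorem L1012532 : W_3 (nat_lit 4) (nat_lit 0x4000000014001a00090000800080000000000000000000000) (nat_lit 0x0) (nat_lit 0x2400028000000040006000000000000000000) := T_3 (nat_lit 142) (nat_lit 123) (nat_lit 0) (nat_lit 8) (nat_lit 8) L1012531 (by decide +kernel)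
theorem L1012533 : W_3 (nat_lit 5) (nat_lit 0x4000000014001a00090000800000000000000000000000000) (nat_lit 0x0) (nat_lit 0x24000280010000c0006000000000000000000) := T_3 (nat_lit 91) (nat_lit 108) (nat_lit 6) (nat_lit 5) (nat_lit 9) L1012532 (by decide +kernel)
theorem L1012534 : W_3 (nat_lit 6) (nat_lit 0x14001a00090000800000000000000000000000000) (nat_lit 0x0) (nat_lit 0x40002000000024000280010000c0006000000000000000000) := T_3 (nat_lit 194) (nat_lit 177) (nat_lit 6) (nat_lit 7) (nat_lit 11) L1012533 (by decide +kernel)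
theorem L1012535 : W_3 (nat_lit 7) (nat_lit 0x14001a00090000000000000000000000000000000) (nat_lit 0x0) (nat_lit 0x400020000000240002e003c000e0007000000000000000000) := Q_3 (nat_lit 107) (C_3 L1012520 (C_3 L1012524 (C_3 L1012529 (C_3 L1012534 N_3)))) (by decide +kernel)
theorem L1012536 : W_3 (nat_lit 11) (nat_lit 0x14001a00080000000000000000000000000000000) (nat_lit 0x0) (nat_lit 0x3f000f800fc002000250003e003c000e0007000000000000000000) := Q_3 (nat_lit 124) (C_3 L1012502 (C_3 L1012504 (C_3 L1012506 (C_3 L1012509 (C_3 L1012516 (C_3 L1012535 N_3)))))) (by decide +kernel)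
theorem L1012537 : W_3 (nat_lit 13) (nat_lit 0x14001800080000000000000000000000000000000) (nat_lit 0x0) (nat_lit 0x8001c002e003f001fc00fe002300270003e003c000e0007000000000000000000) := Q_3 (nat_lit 141) (C_3 L1012429 (C_3 L1012434 (C_3 L1012435 (C_3 L1012460 (C_3 L1012501 (C_3 L1012536 N_3)))))) (by decide +kernel)
theorem L1012538 : W_3 (nat_lit 2) (nat_lit 0x400040003c001800080000000000000000000000000000000) (nat_lit 0x0) (nat_lit 0x180008000000000000000000000000000000000000000000000000) := D_3 (nat_lit 195) (nat_lit 212) (nat_lit 211) (nat_lit 4) (nat_lit 8) (nat_lit 12) (nat_lit 5) (nat_lit 8) (nat_lit 8) (by decide +kernel)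
theorem L1012539 : W_3 (nat_lit 3) (nat_lit 0x400000003c001800080000000000000000000000000000000) (nat_lit 0x0) (nat_lit 0x180008000c00000000000000000000000000000000000000000000) := T_3 (nat_lit 178) (nat_lit 179) (nat_lit 3) (nat_lit 5) (nat_lit 9) L1012538 (by decide +kernel)
theorem L1012540 : W_3 (nat_lit 4) (nat_lit 0x3c001800080000000000000000000000000000000) (nat_lit 0x0) (nat_lit 0x18000c000e00000000000000000000000000000000000000000000) := T_3 (nat_lit 194) (nat_lit 177) (nat_lit 6) (nat_lit 7) (nat_lit 11) L1012539 (by decide +kernel)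
theorem L1012541 : W_3 (nat_lit 2) (nat_lit 0x3c001e00090000000000000000000000000000000) (nat_lit 0x0) (nat_lit 0x2000100000000000000000800000000000000000000000000) := D_3 (nat_lit 176) (nat_lit 193) (nat_lit 107) (nat_lit 4) (nat_lit 6) (nat_lit 11) (nat_lit 7) (nat_lit 5) (nat_lit 6) (by decide +kernel)
theorem L1012542 : W_3 (nat_lit 3) (nat_lit 0x3c001e00080000000000000000000000000000000) (nat_lit 0x0) (nat_lit 0x2000100000000000018000800000000000000000000000000) := T_3 (nat_lit 124) (nat_lit 123) (nat_lit 0) (nat_lit 8) (nat_lit 8) L1012541 (by decide +kernel)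
theorem L1012543 : W_3 (nat_lit 4) (nat_lit 0x3c001c00080000000000000000000000000000000) (nat_lit 0x0) (nat_lit 0x2000100000000300018000800000000000000000000000000) := T_3 (nat_lit 141) (nat_lit 140) (nat_lit 3) (nat_lit 4) (nat_lit 8) L1012542 (by decide +kernel)
theorem L1012544 : W_3 (nat_lit 2) (nat_lit 0x500008003c001c00080000000000000000000000000000000) (nat_lit 0x0) (nat_lit 0x100000000000020001000000000000000000000000000) := D_3 (nat_lit 125) (nat_lit 108) (nat_lit 176) (nat_lit 5) (nat_lit 6) (nat_lit 6) (nat_lit 5) (nat_lit 6) (nat_lit 7) (by decide +kernel)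
theorem L1012545 : W_3 (nat_lit 3) (nat_lit 0x400008003c001c00080000000000000000000000000000000) (nat_lit 0x0) (nat_lit 0x20001000100000000000020001000000000000000000000000000) := T_3 (nat_lit 192) (nat_lit 209) (nat_lit 6) (nat_lit 5) (nat_lit 12) L1012544 (by decide +kernel)
theorem L1012546 : W_3 (nat_lit 4) (nat_lit 0x8003c001c00080000000000000000000000000000000) (nat_lit 0x0) (nat_lit 0x20005000300000000000020001000000000000000000000000000) := T_3 (nat_lit 194) (nat_lit 177) (nat_lit 6) (nat_lit 7) (nat_lit 11) L1012545 (by decide +kernel)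
theorem L1012547 : W_3 (nat_lit 5) (nat_lit 0x3c001c00080000000000000000000000000000000) (nat_lit 0x0) (nat_lit 0x200050003c0000000000020001000000000000000000000000000) := T_3 (nat_lit 175) (nat_lit 174) (nat_lit 1) (nat_lit 8) (nat_lit 9) L1012546 (by decide +kernel)
theorem L1012548 : W_3 (nat_lit 2) (nat_lit 0x8003c001e00080000000000000000000000000000000) (nat_lit 0x0) (nat_lit 0x1000000000000000020001000000000000000000000000000) := D_3 (nat_lit 125) (nat_lit 108) (nat_lit 192) (nat_lit 5) (nat_lit 6) (nat_lit 6) (nat_lit 6) (nat_lit 5) (nat_lit 11) (by decide +kernel)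
theorem L1012549 : W_3 (nat_lit 3) (nat_lit 0x8003c001c00080000000000000000000000000000000) (nat_lit 0x0) (nat_lit 0x1000000000000300020001000000000000000000000000000) := T_3 (nat_lit 141) (nat_lit 140) (nat_lit 3) (nat_lit 4) (nat_lit 8) L1012548 (by decide +kernel)
theorem L1012550 : W_3 (nat_lit 4) (nat_lit 0x3c001c00080000000000000000000000000000000) (nat_lit 0x0) (nat_lit 0x10000c0000000300020001000000000000000000000000000) := T_3 (nat_lit 175) (nat_lit 174) (nat_lit 1) (nat_lit 8) (nat_lit 9) L1012549 (by decide +kernel)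
theorem L1012551 : W_3 (nat_lit 6) (nat_lit 0x3c001800080000000000000000000000000000000) (nat_lit 0x0) (nat_lit 0x200070003c0000000700038001800000000000000000000000000) := Q_3 (nat_lit 142) (C_3 L1012543 (C_3 L1012547 (C_3 L1012550 N_3))) (by decide +kernel)
theorem L1012552 : W_3 (nat_lit 2) (nat_lit 0x1e00048003c001a00080000000000000000000000000000000) (nat_lit 0x0) (nat_lit 0x60001000000000000000000000000000000000000000000000000) := D_3 (nat_lit 210) (nat_lit 209) (nat_lit 192) (nat_lit 1) (nat_lit 9) (nat_lit 11) (nat_lit 7) (nat_lit 5) (nat_lit 8) (by decide +kernel)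
theorem L1012553 : W_3 (nat_lit 3) (nat_lit 0x1c00048003c001a00080000000000000000000000000000000) (nat_lit 0x0) (nat_lit 0x60003000100000000000000000000000000000000000000000000) := T_3 (nat_lit 193) (nat_lit 176) (nat_lit 0) (nat_lit 9) (nat_lit 11) L1012552 (by decide +kernel)
theorem L1012554 : W_3 (nat_lit 4) (nat_lit 0xc00048003c001a00080000000000000000000000000000000) (nat_lit 0x0) (nat_lit 0x260013000100000000000000000000000000000000000000000000) := T_3 (nat_lit 196) (nat_lit 213) (nat_lit 7) (nat_lit 8) (nat_lit 8) L1012553 (by decide +kernel)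
theorem L1012555 : W_3 (nat_lit 5) (nat_lit 0x800048003c001a00080000000000000000000000000000000) (nat_lit 0x0) (nat_lit 0x2e0017000100000000000000000000000000000000000000000000) := T_3 (nat_lit 194) (nat_lit 211) (nat_lit 5) (nat_lit 8) (nat_lit 8) L1012554 (by decide +kernel)
theorem L1012556 : W_3 (nat_lit 6) (nat_lit 0x48003c001a00080000000000000000000000000000000) (nat_lit 0x0) (nat_lit 0x3e001f000100000000000000000000000000000000000000000000) := T_3 (nat_lit 195) (nat_lit 212) (nat_lit 4) (nat_lit 8) (nat_lit 12) L1012555 (by decide +kernel)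
theorem L1012557 : W_3 (nat_lit 7) (nat_lit 0x8003c001a00080000000000000000000000000000000) (nat_lit 0x0) (nat_lit 0x3e001f000d00000000000000000000000000000000000000000000) := T_3 (nat_lit 178) (nat_lit 179) (nat_lit 3) (nat_lit 5) (nat_lit 9) L1012556 (by decide +kernel)
theorem L1012558 : W_3 (nat_lit 8) (nat_lit 0x8003c001800080000000000000000000000000000000) (nat_lit 0x0) (nat_lit 0x3e001f000d00000000300000000000000000000000000000000000) := T_3 (nat_lit 141) (nat_lit 140) (nat_lit 0) (nat_lit 8) (nat_lit 9) L1012557 (by decide +kernel)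
theorem L1012559 : W_3 (nat_lit 9) (nat_lit 0x3c001800080000000000000000000000000000000) (nat_lit 0x0) (nat_lit 0x3e001f000dc0000000300000000000000000000000000000000000) := T_3 (nat_lit 175) (nat_lit 174) (nat_lit 1) (nat_lit 8) (nat_lit 9) L1012558 (by decide +kernel)
theorem L1012560 : W_3 (nat_lit 2) (nat_lit 0x1800058003c001a00080000000000000000000000000000000) (nat_lit 0x0) (nat_lit 0x40002000000000000000010000000000000000000000000000000) := D_3 (nat_lit 193) (nat_lit 210) (nat_lit 124) (nat_lit 6) (nat_lit 6) (nat_lit 12) (nat_lit 7) (nat_lit 5) (nat_lit 7) (by decide +kernel)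
theorem L1012561 : W_3 (nat_lit 3) (nat_lit 0x1800048003c001a00080000000000000000000000000000000) (nat_lit 0x0) (nat_lit 0x40002000300000000000010000000000000000000000000000000) := T_3 (nat_lit 176) (nat_lit 177) (nat_lit 3) (nat_lit 5) (nat_lit 10) L1012560 (by decide +kernel)
theorem L1012562 : W_3 (nat_lit 4) (nat_lit 0x800048003c001a00080000000000000000000000000000000) (nat_lit 0x0) (nat_lit 0x240012000300000000000010000000000000000000000000000000) := T_3 (nat_lit 196) (nat_lit 213) (nat_lit 7) (nat_lit 8) (nat_lit 8) L1012561 (by decide +kernel)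
theorem L1012563 : W_3 (nat_lit 5) (nat_lit 0x800048003c001800080000000000000000000000000000000) (nat_lit 0x0) (nat_lit 0x240012000300000000300010000000000000000000000000000000) := T_3 (nat_lit 141) (nat_lit 140) (nat_lit 0) (nat_lit 8) (nat_lit 9) L1012562 (by decide +kernel)
theorem L1012564 : W_3 (nat_lit 6) (nat_lit 0x48003c001800080000000000000000000000000000000) (nat_lit 0x0) (nat_lit 0x34001a000300000000300010000000000000000000000000000000) := T_3 (nat_lit 195) (nat_lit 212) (nat_lit 4) (nat_lit 8) (nat_lit 12) L1012563 (by decide +kernel)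
theorem L1012565 : W_3 (nat_lit 7) (nat_lit 0x40003c001800080000000000000000000000000000000) (nat_lit 0x0) (nat_lit 0x34001a0003c0000000300010000000000000000000000000000000) := T_3 (nat_lit 175) (nat_lit 174) (nat_lit 1) (nat_lit 8) (nat_lit 9) L1012564 (by decide +kernel)
theorem L1012566 : W_3 (nat_lit 8) (nat_lit 0x3c001800080000000000000000000000000000000) (nat_lit 0x0) (nat_lit 0x34001a000fc0000000300010000000000000000000000000000000) := T_3 (nat_lit 178) (nat_lit 179) (nat_lit 3) (nat_lit 5) (nat_lit 9) L1012565 (by decide +kernel)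
theorem L1012567 : W_3 (nat_lit 10) (nat_lit 0x1c001800080000000000000000000000000000000) (nat_lit 0x0) (nat_lit 0x3e001f000fc0020000700038001800000000000000000000000000) := Q_3 (nat_lit 161) (C_3 L1012540 (C_3 L1012551 (C_3 L1012559 (C_3 L1012566 N_3)))) (by decide +kernel)
theorem L1012568 : W_3 (nat_lit 11) (nat_lit 0x14001800080000000000000000000000000000000) (nat_lit 0x0) (nat_lit 0x3e001f000fc0028006700038001800000000000000000000000000) := Q_3 (nat_lit 159) (C_3 L1011394 (C_3 L1011300 (C_3 L1012567 N_3))) (by decide +kernel)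
theorem L1012569 : W_3 (nat_lit 14) (nat_lit 0x10001800080000000000000000000000000000000) (nat_lit 0x0) (nat_lit 0x8001c002e003f001fc00fe002fc067c003f003c000e0007000000000000000000) := Q_3 (nat_lit 158) (C_3 L1012255 (C_3 L1012293 (C_3 L1012296 (C_3 L1012537 (C_3 L1012568 N_3))))) (by decide +kernel)
theorem L1012658 : W_3 (nat_lit 2) (nat_lit 0x18003c000e0003000000000000000000000000000) (nat_lit 0x0) (nat_lit 0xc00040000000000000000000000) := D_3 (nat_lit 107) (nat_lit 106) (nat_lit 90) (nat_lit 3) (nat_lit 4) (nat_lit 6) (nat_lit 4) (nat_lit 6) (nat_lit 9) (by decide +kernel)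
theorem L1013501 : W_3 (nat_lit 2) (nat_lit 0x18003c000c0000000000000000000000000000000) (nat_lit 0x0) (nat_lit 0x2000100000000000000002000000000000000000000000000) := D_3 (nat_lit 176) (nat_lit 193) (nat_lit 109) (nat_lit 6) (nat_lit 6) (nat_lit 11) (nat_lit 5) (nat_lit 7) (nat_lit 6) (by decide +kernel)
theorem L1013692 : W_3 (nat_lit 3) (nat_lit 0x10003c000c0000000000000000000000000000000) (nat_lit 0x0) (nat_lit 0x300038000000000000000000000000000000) := T_3 (nat_lit 124) (nat_lit 125) (nat_lit 3) (nat_lit 5) (nat_lit 7) L707338 (by decide +kernel)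
theorem L1015338 : W_3 (nat_lit 4) (nat_lit 0x14001e00080000000000000000000000000000000) (nat_lit 0x0) (nat_lit 0x80000002000038001000080000000000000000000000) := T_3 (nat_lit 124) (nat_lit 123) (nat_lit 0) (nat_lit 8) (nat_lit 8) L1012505 (by decide +kernel)
theorem L1015339 : W_3 (nat_lit 5) (nat_lit 0x14001a00080000000000000000000000000000000) (nat_lit 0x0) (nat_lit 0x80002002400038001000080000000000000000000000) := T_3 (nat_lit 142) (nat_lit 157) (nat_lit 1) (nat_lit 8) (nat_lit 8) L1015338 (by decide +kernel)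
theorem L1015340 : W_3 (nat_lit 4) (nat_lit 0x80014001a00098000000000000000000000000000000) (nat_lit 0x0) (nat_lit 0x10001800040000000100060000000000000000000000000000000) := T_3 (nat_lit 125) (nat_lit 126) (nat_lit 3) (nat_lit 4) (nat_lit 7) L1012298 (by decide +kernel)
theorem L1015341 : W_3 (nat_lit 5) (nat_lit 0x80014001a00090000000000000000000000000000000) (nat_lit 0x0) (nat_lit 0x10001800040000000100068000400000000000000000000000000) := T_3 (nat_lit 123) (nat_lit 106) (nat_lit 4) (nat_lit 5) (nat_lit 10) L1015340 (by decide +kernel)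
theorem L1015342 : W_3 (nat_lit 2) (nat_lit 0x30000c0016001a00090000000000000000000000000000000) (nat_lit 0x0) (nat_lit 0x400020000000000000000100000000000000000000000000000000000) := D_3 (nat_lit 209) (nat_lit 226) (nat_lit 140) (nat_lit 4) (nat_lit 5) (nat_lit 13) (nat_lit 4) (nat_lit 5) (nat_lit 12) (by decide +kernel)
theorem L1015343 : W_3 (nat_lit 3) (nat_lit 0x20000c0016001a00090000000000000000000000000000000) (nat_lit 0x0) (nat_lit 0x400060001000000000000100000000000000000000000000000000000) := T_3 (nat_lit 192) (nat_lit 210) (nat_lit 7) (nat_lit 5) (nat_lit 8) L1015342 (by decide +kernel)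
theorem L1015344 : W_3 (nat_lit 4) (nat_lit 0x20000c0014001a00090000000000000000000000000000000) (nat_lit 0x0) (nat_lit 0x400060001000000002000100000000800000000000000000000000000) := T_3 (nat_lit 157) (nat_lit 107) (nat_lit 5) (nat_lit 5) (nat_lit 6) L1015343 (by decide +kernel)
theorem L1015345 : W_3 (nat_lit 5) (nat_lit 0x2000080014001a00090000000000000000000000000000000) (nat_lit 0x0) (nat_lit 0x400060001800040002000100000000800000000000000000000000000) := T_3 (nat_lit 174) (nat_lit 191) (nat_lit 5) (nat_lit 5) (nat_lit 7) L1015344 (by decide +kernel)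
theorem L1015346 : W_3 (nat_lit 6) (nat_lit 0x80014001a00090000000000000000000000000000000) (nat_lit 0x0) (nat_lit 0x400060003800140002000100000000800000000000000000000000000) := T_3 (nat_lit 193) (nat_lit 176) (nat_lit 7) (nat_lit 5) (nat_lit 7) L1015345 (by decide +kernel)
theorem L1015347 : W_3 (nat_lit 2) (nat_lit 0x180016801a000d0000d001c0000000000000000000000) (nat_lit 0x0) (nat_lit 0x20000000000002000000008000000000000000000) := D_3 (nat_lit 109) (nat_lit 75) (nat_lit 161) (nat_lit 7) (nat_lit 7) (nat_lit 4) (nat_lit 7) (nat_lit 7) (nat_lit 5) (by decide +kernel)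
theorem L1015348 : W_3 (nat_lit 3) (nat_lit 0x180016801a000d0000d000c0000000000000000000000) (nat_lit 0x0) (nat_lit 0x20000000000002000300008000000000000000000) := T_3 (nat_lit 92) (nat_lit 93) (nat_lit 1) (nat_lit 8) (nat_lit 5) L1015347 (by decide +kernel)
theorem L1015349 : W_3 (nat_lit 4) (nat_lit 0x180016801a000d0000c000c0000000000000000000000) (nat_lit 0x0) (nat_lit 0x20000000000002300300008000000000000000000) := T_3 (nat_lit 104) (nat_lit 105) (nat_lit 2) (nat_lit 2) (nat_lit 6) L1015348 (by decide +kernel)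
theorem L1015350 : W_3 (nat_lit 5) (nat_lit 0x180016801a000d0000c00040000000000000000000000) (nat_lit 0x0) (nat_lit 0x2000000000000230038000c000000000000000000) := T_3 (nat_lit 91) (nat_lit 74) (nat_lit 6) (nat_lit 5) (nat_lit 8) L1015349 (by decide +kernel)
theorem L1015351 : W_3 (nat_lit 6) (nat_lit 0x180016001a000d0000c00040000000000000000000000) (nat_lit 0x0) (nat_lit 0x2180000000000230038000c000000000000000000) := T_3 (nat_lit 155) (nat_lit 156) (nat_lit 3) (nat_lit 2) (nat_lit 9) L1015350 (by decide +kernel)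
theorem L1015352 : W_3 (nat_lit 7) (nat_lit 0x180016001a000d0000c00000000000000000000000000) (nat_lit 0x0) (nat_lit 0x218001000000023003c000c000000000000000000) := T_3 (nat_lit 90) (nat_lit 140) (nat_lit 5) (nat_lit 5) (nat_lit 5) L1015351 (by decide +kernel)
theorem L1015353 : W_3 (nat_lit 8) (nat_lit 0x180014001a000d0000c00000000000000000000000000) (nat_lit 0x0) (nat_lit 0x400238001000000023003c000c000000000000000000) := T_3 (nat_lit 157) (nat_lit 174) (nat_lit 5) (nat_lit 5) (nat_lit 6) L1015352 (by decide +kernel)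
theorem L1015354 : W_3 (nat_lit 9) (nat_lit 0x180014001a00090000c00000000000000000000000000) (nat_lit 0x0) (nat_lit 0x400238001000600023003c000c000000000000000000) := T_3 (nat_lit 126) (nat_lit 125) (nat_lit 0) (nat_lit 8) (nat_lit 7) L1015353 (by decide +kernel)
theorem L1015355 : W_3 (nat_lit 10) (nat_lit 0x180014001a00090000400000000000000000000000000) (nat_lit 0x0) (nat_lit 0x40023800100060002b003e000c000000000000000000) := T_3 (nat_lit 107) (nat_lit 89) (nat_lit 4) (nat_lit 5) (nat_lit 9) L1015354 (by decide +kernel)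
theorem L1015356 : W_3 (nat_lit 11) (nat_lit 0x180014001a00090000000000000000000000000000000) (nat_lit 0x0) (nat_lit 0x40023800100068002f003e000c000000000000000000) := T_3 (nat_lit 106) (nat_lit 123) (nat_lit 4) (nat_lit 5) (nat_lit 10) L1015355 (by decide +kernel)
theorem L1015357 : W_3 (nat_lit 12) (nat_lit 0x80014001a00090000000000000000000000000000000) (nat_lit 0x0) (nat_lit 0x2000140023800100068002f003e000c000000000000000000) := T_3 (nat_lit 176) (nat_lit 193) (nat_lit 7) (nat_lit 5) (nat_lit 7) L1015356 (by decide +kernel)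
theorem L1015358 : W_3 (nat_lit 2) (nat_lit 0x1000080014001a000b8000000000000000000000000000000) (nat_lit 0x0) (nat_lit 0x40002000100000000000000000000000000000000000000000000) := D_3 (nat_lit 193) (nat_lit 176) (nat_lit 210) (nat_lit 7) (nat_lit 5) (nat_lit 7) (nat_lit 7) (nat_lit 5) (nat_lit 8) (by decide +kernel)
theorem L1015359 : W_3 (nat_lit 3) (nat_lit 0x80014001a000b8000000000000000000000000000000) (nat_lit 0x0) (nat_lit 0x40003000100000000100000000000000000000000000000000000) := T_3 (nat_lit 192) (nat_lit 140) (nat_lit 4) (nat_lit 5) (nat_lit 11) L1015358 (by decide +kernel)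
theorem L1015360 : W_3 (nat_lit 4) (nat_lit 0x80014001a00098000000000000000000000000000000) (nat_lit 0x0) (nat_lit 0x40003000100000000100060000000000000000000000000000000) := T_3 (nat_lit 125) (nat_lit 126) (nat_lit 3) (nat_lit 4) (nat_lit 7) L1015359 (by decide +kernel)
theorem L1015361 : W_3 (nat_lit 5) (nat_lit 0x80014001a00090000000000000000000000000000000) (nat_lit 0x0) (nat_lit 0x40003000100000000100068000400000000000000000000000000) := T_3 (nat_lit 123) (nat_lit 106) (nat_lit 4) (nat_lit 5) (nat_lit 10) L1015360 (by decide +kernel)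
theorem L1015362 : W_3 (nat_lit 13) (nat_lit 0x14001a00090000000000000000000000000000000) (nat_lit 0x0) (nat_lit 0x4000700038001c0023800100068002f003e000c000000000000000000) := Q_3 (nat_lit 175) (C_3 L1012303 (C_3 L1015341 (C_3 L1015346 (C_3 L1015357 (C_3 L1015361 N_3))))) (by decide +kernel)
theorem L1015363 : W_3 (nat_lit 2) (nat_lit 0x14001a00090003c00000000000000000000000000) (nat_lit 0x0) (nat_lit 0x8000000000000c000000000000000000000000000000) := D_3 (nat_lit 123) (nat_lit 122) (nat_lit 175) (nat_lit 1) (nat_lit 7) (nat_lit 6) (nat_lit 4) (nat_lit 5) (nat_lit 10) (by decide +kernel)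
theorem L1015364 : W_3 (nat_lit 3) (nat_lit 0x14001a00090001c00000000000000000000000000) (nat_lit 0x0) (nat_lit 0x8000000000004c002000000000000000000000000000) := T_3 (nat_lit 109) (nat_lit 126) (nat_lit 3) (nat_lit 4) (nat_lit 6) L1015363 (by decide +kernel)
theorem L1015365 : W_3 (nat_lit 4) (nat_lit 0x14001a00090000c00000000000000000000000000) (nat_lit 0x0) (nat_lit 0x8000000000004c003000080000000000000000000000) := T_3 (nat_lit 108) (nat_lit 91) (nat_lit 6) (nat_lit 5) (nat_lit 9) L1015364 (by decide +kernel)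
theorem L1015366 : W_3 (nat_lit 5) (nat_lit 0x14001a00090000800000000000000000000000000) (nat_lit 0x0) (nat_lit 0x8000000000004c0034000a0000000000000000000000) := T_3 (nat_lit 106) (nat_lit 89) (nat_lit 4) (nat_lit 5) (nat_lit 9) L1015365 (by decide +kernel)
theorem L1015367 : W_3 (nat_lit 2) (nat_lit 0x80014001a00090001c00000000000000000000000000) (nat_lit 0x0) (nat_lit 0x800040002000000000000000000000000000000000000000) := D_3 (nat_lit 174) (nat_lit 157) (nat_lit 191) (nat_lit 5) (nat_lit 5) (nat_lit 6) (nat_lit 5) (nat_lit 5) (nat_lit 7) (by decide +kernel)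
theorem L1015368 : W_3 (nat_lit 3) (nat_lit 0x14001a00090001c00000000000000000000000000) (nat_lit 0x0) (nat_lit 0x8000c0002000000008000000000000000000000000000000) := T_3 (nat_lit 175) (nat_lit 123) (nat_lit 4) (nat_lit 5) (nat_lit 10) L1015367 (by decide +kernel)
theorem L1015369 : W_3 (nat_lit 4) (nat_lit 0x14001a00090000c00000000000000000000000000) (nat_lit 0x0) (nat_lit 0x8000c0002000000008001000080000000000000000000000) := T_3 (nat_lit 108) (nat_lit 91) (nat_lit 6) (nat_lit 5) (nat_lit 9) L1015368 (by decide +kernel)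
theorem L1015370 : W_3 (nat_lit 5) (nat_lit 0x14001a00090000800000000000000000000000000) (nat_lit 0x0) (nat_lit 0x8000c00020000000080014000a0000000000000000000000) := T_3 (nat_lit 106) (nat_lit 89) (nat_lit 4) (nat_lit 5) (nat_lit 9) L1015369 (by decide +kernel)
theorem L1015371 : W_3 (nat_lit 2) (nat_lit 0x16001a00090000800040000000000000000000000) (nat_lit 0x0) (nat_lit 0x400020001000000000000000000) := D_3 (nat_lit 89) (nat_lit 72) (nat_lit 106) (nat_lit 4) (nat_lit 5) (nat_lit 8) (nat_lit 4) (nat_lit 5) (nat_lit 9) (by decide +kernel)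
theorem L1015372 : W_3 (nat_lit 3) (nat_lit 0x16001a00090000800000000000000000000000000) (nat_lit 0x0) (nat_lit 0x100000000400060001000000000000000000) := T_3 (nat_lit 90) (nat_lit 140) (nat_lit 5) (nat_lit 5) (nat_lit 5) L1015371 (by decide +kernel)
theorem L1015373 : W_3 (nat_lit 4) (nat_lit 0x14001a00090000800000000000000000000000000) (nat_lit 0x0) (nat_lit 0x40002000100000000400060001000000000000000000) := T_3 (nat_lit 157) (nat_lit 174) (nat_lit 5) (nat_lit 5) (nat_lit 6) L1015372 (by decide +kernel)
theorem L1015374 : W_3 (nat_lit 2) (nat_lit 0x16001a00090000800080000000000000000000000) (nat_lit 0x0) (nat_lit 0x100000000000040004000000000000000000) := D_3 (nat_lit 90) (nat_lit 140) (nat_lit 74) (nat_lit 5) (nat_lit 5) (nat_lit 5) (nat_lit 6) (nat_lit 5) (nat_lit 8) (by decide +kernel)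
theorem L1015375 : W_3 (nat_lit 3) (nat_lit 0x14001a00090000800080000000000000000000000) (nat_lit 0x0) (nat_lit 0x40002000100000000000040004000000000000000000) := T_3 (nat_lit 157) (nat_lit 174) (nat_lit 5) (nat_lit 5) (nat_lit 6) L1015374 (by decide +kernel)
theorem L1015376 : W_3 (nat_lit 4) (nat_lit 0x14001a00090000800000000000000000000000000) (nat_lit 0x0) (nat_lit 0x400020001000000010000c0004000000000000000000) := T_3 (nat_lit 91) (nat_lit 108) (nat_lit 6) (nat_lit 5) (nat_lit 9) L1015375 (by decide +kernel)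
theorem L1015377 : W_3 (nat_lit 6) (nat_lit 0x14001a00090000000000000000000000000000000) (nat_lit 0x0) (nat_lit 0x8000c000200010004c003c000e0005000000000000000000) := Q_3 (nat_lit 107) (C_3 L1015366 (C_3 L1015370 (C_3 L1015373 (C_3 L1015376 N_3)))) (by decide +kernel)
theorem L1015378 : W_3 (nat_lit 7) (nat_lit 0x14001a00090000000000000000000000000000000) (nat_lit 0x0) (nat_lit 0x4000600038001c0002000100028001c00020000000000000000000000) := Q_3 (nat_lit 175) (C_3 L1015346 (C_3 L1012311 (C_3 L1012303 N_3))) (by decide +kernel)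
theorem L1015379 : W_3 (nat_lit 2) (nat_lit 0x14001a000b0000000000000000000000000000000) (nat_lit 0x0) (nat_lit 0x100048000000000000000000000000000000) := D_3 (nat_lit 126) (nat_lit 140) (nat_lit 123) (nat_lit 1) (nat_lit 8) (nat_lit 7) (nat_lit 3) (nat_lit 4) (nat_lit 7) (by decide +kernel)
theorem L1015380 : W_3 (nat_lit 5) (nat_lit 0x14001a000b0000000000000000000000000000000) (nat_lit 0x0) (nat_lit 0x40003000180000000100008001400000000000000000000000000) := T_3 (nat_lit 175) (nat_lit 108) (nat_lit 6) (nat_lit 5) (nat_lit 10) L1012310 (by decide +kernel)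
theorem L1015381 : W_3 (nat_lit 2) (nat_lit 0x14001a000b0000000000000000000000000000000) (nat_lit 0x0) (nat_lit 0x2100040000000000000000000000000000000) := D_3 (nat_lit 126) (nat_lit 140) (nat_lit 145) (nat_lit 1) (nat_lit 8) (nat_lit 7) (nat_lit 3) (nat_lit 5) (nat_lit 7) (by decide +kernel)
theorem L1015382 : W_3 (nat_lit 2) (nat_lit 0x14001a000b0000000000000000000000000000000) (nat_lit 0x0) (nat_lit 0x2000048000000000000000000000000000000) := D_3 (nat_lit 126) (nat_lit 123) (nat_lit 145) (nat_lit 3) (nat_lit 4) (nat_lit 7) (nat_lit 3) (nat_lit 5) (nat_lit 7) (by decide +kernel)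
theorem L1015383 : W_3 (nat_lit 6) (nat_lit 0x14001a00090000000000000000000000000000000) (nat_lit 0x0) (nat_lit 0x40003000180000002100068001400000000000000000000000000) := Q_3 (nat_lit 125) (C_3 L1015379 (C_3 L1015380 (C_3 L1015381 (C_3 L1015382 N_3)))) (by decide +kernel)
theorem L1015384 : W_3 (nat_lit 2) (nat_lit 0x14001a000d0000c00000000000000000000000000) (nat_lit 0x0) (nat_lit 0x3000080000000000000000000000) := D_3 (nat_lit 108) (nat_lit 91) (nat_lit 109) (nat_lit 6) (nat_lit 5) (nat_lit 9) (nat_lit 3) (nat_lit 4) (nat_lit 6) (by decide +kernel)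
theorem L1015385 : W_3 (nat_lit 3) (nat_lit 0x14001a00090000c00000000000000000000000000) (nat_lit 0x0) (nat_lit 0x60003000080000000000000000000000) := T_3 (nat_lit 126) (nat_lit 125) (nat_lit 0) (nat_lit 8) (nat_lit 7) L1015384 (by decide +kernel)
theorem L1015386 : W_3 (nat_lit 4) (nat_lit 0x14001a00090000800000000000000000000000000) (nat_lit 0x0) (nat_lit 0x600034000a0000000000000000000000) := T_3 (nat_lit 106) (nat_lit 89) (nat_lit 4) (nat_lit 5) (nat_lit 9) L1015385 (by decide +kernel)
theorem L1015387 : W_3 (nat_lit 5) (nat_lit 0x14001a00090000000000000000000000000000000) (nat_lit 0x0) (nat_lit 0x40002000100060003c000e0005000000000000000000) := Q_3 (nat_lit 107) (C_3 L1015376 (C_3 L1015373 (C_3 L1015386 N_3))) (by decide +kernel)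
theorem L1015388 : W_3 (nat_lit 2) (nat_lit 0x80014001a00098000000000000000000000000000000) (nat_lit 0x0) (nat_lit 0x60001000000000000000000000000000) := D_3 (nat_lit 125) (nat_lit 126) (nat_lit 108) (nat_lit 3) (nat_lit 4) (nat_lit 7) (nat_lit 6) (nat_lit 5) (nat_lit 10) (by decide +kernel)
theorem L1015389 : W_3 (nat_lit 3) (nat_lit 0x80014001a00090000000000000000000000000000000) (nat_lit 0x0) (nat_lit 0x68001400000000000000000000000000) := T_3 (nat_lit 123) (nat_lit 106) (nat_lit 4) (nat_lit 5) (nat_lit 10) L1015388 (by decide +kernel)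
theorem L1015390 : W_3 (nat_lit 6) (nat_lit 0x14001a00090000000000000000000000000000000) (nat_lit 0x0) (nat_lit 0x28001c0002000000068001c000a0000000000000000000000) := Q_3 (nat_lit 175) (C_3 L1012303 (C_3 L1012307 (C_3 L1015389 N_3))) (by decide +kernel)
theorem L1015391 : W_3 (nat_lit 2) (nat_lit 0x30000c0016001a000b0000000000000000000000000000000) (nat_lit 0x0) (nat_lit 0x20000000000000000100008000000000000000000000000000000) := D_3 (nat_lit 140) (nat_lit 123) (nat_lit 209) (nat_lit 7) (nat_lit 4) (nat_lit 7) (nat_lit 4) (nat_lit 5) (nat_lit 12) (by decide +kernel)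
theorem L1015392 : W_3 (nat_lit 3) (nat_lit 0x20000c0016001a000b0000000000000000000000000000000) (nat_lit 0x0) (nat_lit 0x60001000000000000100008000000000000000000000000000000) := T_3 (nat_lit 192) (nat_lit 210) (nat_lit 7) (nat_lit 5) (nat_lit 8) L1015391 (by decide +kernel)
theorem L1015393 : W_3 (nat_lit 4) (nat_lit 0xc0016001a000b0000000000000000000000000000000) (nat_lit 0x0) (nat_lit 0x60003000100000000100008000000000000000000000000000000) := T_3 (nat_lit 193) (nat_lit 176) (nat_lit 7) (nat_lit 5) (nat_lit 7) L1015392 (by decide +kernel)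
theorem L1015394 : W_3 (nat_lit 5) (nat_lit 0xc0014001a000b0000000000000000000000000000000) (nat_lit 0x0) (nat_lit 0x60003000100002000100008000800000000000000000000000000) := T_3 (nat_lit 157) (nat_lit 107) (nat_lit 5) (nat_lit 5) (nat_lit 6) L1015393 (by decide +kernel)
theorem L1015395 : W_3 (nat_lit 6) (nat_lit 0x80014001a000b0000000000000000000000000000000) (nat_lit 0x0) (nat_lit 0x60003800140002000100008000800000000000000000000000000) := T_3 (nat_lit 174) (nat_lit 191) (nat_lit 5) (nat_lit 5) (nat_lit 7) L1015394 (by decide +kernel)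
theorem L1015396 : W_3 (nat_lit 7) (nat_lit 0x14001a000b0000000000000000000000000000000) (nat_lit 0x0) (nat_lit 0x600038001c0002000100008001800000000000000000000000000) := T_3 (nat_lit 175) (nat_lit 108) (nat_lit 6) (nat_lit 5) (nat_lit 10) L1015395 (by decide +kernel)
theorem L1015397 : W_3 (nat_lit 8) (nat_lit 0x14001a00090000000000000000000000000000000) (nat_lit 0x0) (nat_lit 0x600038001c0002002100068001800000000000000000000000000) := Q_3 (nat_lit 125) (C_3 L1015382 (C_3 L1015379 (C_3 L1015396 (C_3 L1015381 N_3)))) (by decide +kernel)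
theorem L1015398 : W_3 (nat_lit 14) (nat_lit 0x14001a00080000000000000000000000000000000) (nat_lit 0x0) (nat_lit 0x4000700038001c002380210007c003f003e000d000000000000000000) := Q_3 (nat_lit 124) (C_3 L1015362 (C_3 L1015377 (C_3 L1015378 (C_3 L1015383 (C_3 L1015387 (C_3 L1015390 (C_3 L1015397 N_3))))))) (by decide +kernel)
theorem L1015399 : W_3 (nat_lit 2) (nat_lit 0x14001e00080000000000000000000000000000000) (nat_lit 0x0) (nat_lit 0x20000100040000000000000000000000000000000) := D_3 (nat_lit 140) (nat_lit 126) (nat_lit 161) (nat_lit 2) (nat_lit 4) (nat_lit 8) (nat_lit 3) (nat_lit 4) (nat_lit 8) (by decide +kernel)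
theorem L1015400 : W_3 (nat_lit 3) (nat_lit 0x14001a00080000000000000000000000000000000) (nat_lit 0x0) (nat_lit 0x22000500040000000000000000000000000000000) := T_3 (nat_lit 142) (nat_lit 157) (nat_lit 1) (nat_lit 8) (nat_lit 8) L1015399 (by decide +kernel)
theorem L1015401 : W_3 (nat_lit 5) (nat_lit 0x14001a00080000000000000000000000000000000) (nat_lit 0x0) (nat_lit 0x80020002500078001000080000000000000000000000) := Q_3 (nat_lit 142) (C_3 L1015399 (C_3 L1015338 N_3)) (by decide +kernel)
theorem L1015402 : W_3 (nat_lit 15) (nat_lit 0x14001800080000000000000000000000000000000) (nat_lit 0x0) (nat_lit 0x4000700038001c002380270007c003f003e000d000000000000000000) := Q_3 (nat_lit 141) (C_3 L1012435 (C_3 L1015339 (C_3 L1015398 (C_3 L1015400 (C_3 L1015401 N_3))))) (by decide +kernel)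
theorem L1015403 : W_3 (nat_lit 8) (nat_lit 0x3c001a00080000000000000000000000000000000) (nat_lit 0x0) (nat_lit 0x3e001f000dc0000000000000000000000000000000000000000000) := T_3 (nat_lit 175) (nat_lit 174) (nat_lit 1) (nat_lit 8) (nat_lit 9) L1012557 (by decide +kernel)
theorem L1015404 : W_3 (nat_lit 9) (nat_lit 0x1c001a00080000000000000000000000000000000) (nat_lit 0x0) (nat_lit 0x3e001f000dc0020000100000000000000000000000000000000000) := T_3 (nat_lit 161) (nat_lit 140) (nat_lit 0) (nat_lit 8) (nat_lit 9) L1015403 (by decide +kernel)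
theorem L1015405 : W_3 (nat_lit 10) (nat_lit 0x14001a00080000000000000000000000000000000) (nat_lit 0x0) (nat_lit 0x3e001f000dc002a000100000000000000000000000000000000000) := T_3 (nat_lit 159) (nat_lit 157) (nat_lit 2) (nat_lit 4) (nat_lit 9) L1015404 (by decide +kernel)
theorem L1015406 : W_3 (nat_lit 2) (nat_lit 0x14001b00080000000000000000000000000000000) (nat_lit 0x0) (nat_lit 0x28000400000000000000000000000000000000000) := D_3 (nat_lit 161) (nat_lit 159) (nat_lit 142) (nat_lit 0) (nat_lit 8) (nat_lit 9) (nat_lit 3) (nat_lit 4) (nat_lit 8) (by decide +kernel)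
theorem L1015407 : W_3 (nat_lit 4) (nat_lit 0x14001b00080000000000000000000000000000000) (nat_lit 0x0) (nat_lit 0x800048004e000000000000000000000000000000) := T_3 (nat_lit 142) (nat_lit 126) (nat_lit 2) (nat_lit 4) (nat_lit 8) L1012284 (by decide +kernel)
theorem L1015408 : W_3 (nat_lit 2) (nat_lit 0x1c001b40090003c00000000000000000000000000) (nat_lit 0x0) (nat_lit 0x8000000000000c000000000000000000000000000000) := D_3 (nat_lit 123) (nat_lit 175) (nat_lit 122) (nat_lit 4) (nat_lit 5) (nat_lit 10) (nat_lit 1) (nat_lit 7) (nat_lit 6) (by decide +kernel)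
theorem L1015409 : W_3 (nat_lit 3) (nat_lit 0x1c001b40090001c00000000000000000000000000) (nat_lit 0x0) (nat_lit 0x8000000000004c002000000000000000000000000000) := T_3 (nat_lit 109) (nat_lit 126) (nat_lit 3) (nat_lit 4) (nat_lit 6) L1015408 (by decide +kernel)
theorem L1015410 : W_3 (nat_lit 4) (nat_lit 0x1c001b40090001800000000000000000000000000) (nat_lit 0x0) (nat_lit 0x8000000000004c002400020000000000000000000000) := T_3 (nat_lit 106) (nat_lit 89) (nat_lit 4) (nat_lit 5) (nat_lit 9) L1015409 (by decide +kernel)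
theorem L1015411 : W_3 (nat_lit 5) (nat_lit 0x1c001b40090000800000000000000000000000000) (nat_lit 0x0) (nat_lit 0x8000000000004c0034000a0000000000000000000000) := T_3 (nat_lit 108) (nat_lit 91) (nat_lit 6) (nat_lit 5) (nat_lit 9) L1015410 (by decide +kernel)
theorem L1015412 : W_3 (nat_lit 6) (nat_lit 0x1c001b40090000000000000000000000000000000) (nat_lit 0x0) (nat_lit 0x18000000000004c003c000a0000000000000000000000) := T_3 (nat_lit 107) (nat_lit 176) (nat_lit 7) (nat_lit 5) (nat_lit 6) L1015411 (by decide +kernel)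
theorem L1015413 : W_3 (nat_lit 7) (nat_lit 0x1c001b00090000000000000000000000000000000) (nat_lit 0x0) (nat_lit 0x1800000000c004c003c000a0000000000000000000000) := T_3 (nat_lit 138) (nat_lit 139) (nat_lit 3) (nat_lit 2) (nat_lit 8) L1015412 (by decide +kernel)
theorem L1015414 : W_3 (nat_lit 8) (nat_lit 0x14001b00090000000000000000000000000000000) (nat_lit 0x0) (nat_lit 0x1800280000c004c003c000a0000000000000000000000) := T_3 (nat_lit 159) (nat_lit 161) (nat_lit 0) (nat_lit 8) (nat_lit 9) L1015413 (by decide +kernel)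
theorem L1015415 : W_3 (nat_lit 2) (nat_lit 0x80014001b400b0000000000000000000000000000000) (nat_lit 0x0) (nat_lit 0x1000000000000000008000400000000000000000000000000) := D_3 (nat_lit 123) (nat_lit 106) (nat_lit 192) (nat_lit 4) (nat_lit 5) (nat_lit 10) (nat_lit 4) (nat_lit 5) (nat_lit 11) (by decide +kernel)
theorem L1015416 : W_3 (nat_lit 3) (nat_lit 0x14001b400b0000000000000000000000000000000) (nat_lit 0x0) (nat_lit 0x1000080000000000008001400000000000000000000000000) := T_3 (nat_lit 175) (nat_lit 108) (nat_lit 6) (nat_lit 5) (nat_lit 10) L1015415 (by decide +kernel)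
theorem L1015417 : W_3 (nat_lit 4) (nat_lit 0x14001b000b0000000000000000000000000000000) (nat_lit 0x0) (nat_lit 0x10000800000000c0008001400000000000000000000000000) := T_3 (nat_lit 138) (nat_lit 139) (nat_lit 2) (nat_lit 2) (nat_lit 8) L1015416 (by decide +kernel)
theorem L1015418 : W_3 (nat_lit 5) (nat_lit 0x14001b00090000000000000000000000000000000) (nat_lit 0x0) (nat_lit 0x10000800000000c0068001400000000000000000000000000) := T_3 (nat_lit 125) (nat_lit 126) (nat_lit 1) (nat_lit 8) (nat_lit 7) L1015417 (by decide +kernel)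
theorem L1015419 : W_3 (nat_lit 2) (nat_lit 0x1c001b40090001c00000000000000000000000000) (nat_lit 0x0) (nat_lit 0x80000000000028000000000000000000000000000000) := D_3 (nat_lit 175) (nat_lit 125) (nat_lit 123) (nat_lit 6) (nat_lit 5) (nat_lit 10) (nat_lit 4) (nat_lit 5) (nat_lit 10) (by decide +kernel)
theorem L1015420 : W_3 (nat_lit 3) (nat_lit 0x1c001b40090001800000000000000000000000000) (nat_lit 0x0) (nat_lit 0x80000000000028000400020000000000000000000000) := T_3 (nat_lit 106) (nat_lit 89) (nat_lit 4) (nat_lit 5) (nat_lit 9) L1015419 (by decide +kernel)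
theorem L1015421 : W_3 (nat_lit 4) (nat_lit 0x1c001b40090000800000000000000000000000000) (nat_lit 0x0) (nat_lit 0x800000000000280014000a0000000000000000000000) := T_3 (nat_lit 108) (nat_lit 91) (nat_lit 6) (nat_lit 5) (nat_lit 9) L1015420 (by decide +kernel)
theorem L1015422 : W_3 (nat_lit 5) (nat_lit 0x1c001b40090000000000000000000000000000000) (nat_lit 0x0) (nat_lit 0x180000000000028001c000a0000000000000000000000) := T_3 (nat_lit 107) (nat_lit 176) (nat_lit 7) (nat_lit 5) (nat_lit 6) L1015421 (by decide +kernel)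
theorem L1015423 : W_3 (nat_lit 6) (nat_lit 0x1c001b00090000000000000000000000000000000) (nat_lit 0x0) (nat_lit 0x1800000000c0028001c000a0000000000000000000000) := T_3 (nat_lit 138) (nat_lit 139) (nat_lit 3) (nat_lit 2) (nat_lit 8) L1015422 (by decide +kernel)
theorem L1015424 : W_3 (nat_lit 7) (nat_lit 0x14001b00090000000000000000000000000000000) (nat_lit 0x0) (nat_lit 0x1800280000c0028001c000a0000000000000000000000) := T_3 (nat_lit 159) (nat_lit 161) (nat_lit 0) (nat_lit 8) (nat_lit 9) L1015423 (by decide +kernel)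
theorem L1015425 : W_3 (nat_lit 2) (nat_lit 0x34001b000d0000000000000000000000000000000) (nat_lit 0x0) (nat_lit 0x400000000000000002000100000000000000000000000) := D_3 (nat_lit 109) (nat_lit 178) (nat_lit 92) (nat_lit 7) (nat_lit 7) (nat_lit 6) (nat_lit 7) (nat_lit 7) (nat_lit 5) (by decide +kernel)
theorem L1015426 : W_3 (nat_lit 3) (nat_lit 0x34001b00090000000000000000000000000000000) (nat_lit 0x0) (nat_lit 0x400000000000060002000100000000000000000000000) := T_3 (nat_lit 126) (nat_lit 125) (nat_lit 1) (nat_lit 8) (nat_lit 7) L1015425 (by decide +kernel)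
theorem L1015427 : W_3 (nat_lit 4) (nat_lit 0x14001b00090000000000000000000000000000000) (nat_lit 0x0) (nat_lit 0x400028000000060002000100000000000000000000000) := T_3 (nat_lit 161) (nat_lit 159) (nat_lit 0) (nat_lit 8) (nat_lit 9) L1015426 (by decide +kernel)
theorem L1015428 : W_3 (nat_lit 9) (nat_lit 0x14001b00080000000000000000000000000000000) (nat_lit 0x0) (nat_lit 0x10005800280000c007c003c001a0000000000000000000000) := Q_3 (nat_lit 124) (C_3 L1015414 (C_3 L1015418 (C_3 L1015424 (C_3 L1015427 N_3)))) (by decide +kernel)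
theorem L1015429 : W_3 (nat_lit 2) (nat_lit 0x14001b00080000000000000000000000000000000) (nat_lit 0x0) (nat_lit 0x20000400040000000000000000000000000000000) := D_3 (nat_lit 142) (nat_lit 161) (nat_lit 126) (nat_lit 3) (nat_lit 4) (nat_lit 8) (nat_lit 2) (nat_lit 4) (nat_lit 8) (by decide +kernel)
theorem L1015430 : W_3 (nat_lit 10) (nat_lit 0x14001a00080000000000000000000000000000000) (nat_lit 0x0) (nat_lit 0x10005800280005c007e003c001a0000000000000000000000) := Q_3 (nat_lit 140) (C_3 L1015406 (C_3 L1015407 (C_3 L1015428 (C_3 L1015429 N_3)))) (by decide +kernel)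
theorem L1015431 : W_3 (nat_lit 11) (nat_lit 0x14001800080000000000000000000000000000000) (nat_lit 0x0) (nat_lit 0x3e001f000dc002a0007c007e003c001a0000000000000000000000) := Q_3 (nat_lit 141) (C_3 L1015400 (C_3 L1012435 (C_3 L1012262 (C_3 L1015405 (C_3 L1015430 N_3))))) (by decide +kernel)
theorem L1015432 : W_3 (nat_lit 3) (nat_lit 0x14001800080000000000000000000000000000000) (nat_lit 0x0) (nat_lit 0xa006400000000000000000000000000000000000) := T_3 (nat_lit 159) (nat_lit 157) (nat_lit 2) (nat_lit 4) (nat_lit 9) L1011300 (by decide +kernel)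
theorem L1015433 : W_3 (nat_lit 2) (nat_lit 0x8003c001c000a0000000000000000000000000000000) (nat_lit 0x0) (nat_lit 0x20001000100000000000000000000000000000000000000000000) := D_3 (nat_lit 192) (nat_lit 209) (nat_lit 176) (nat_lit 6) (nat_lit 5) (nat_lit 12) (nat_lit 5) (nat_lit 6) (nat_lit 7) (by decide +kernel)
theorem L1015434 : W_3 (nat_lit 3) (nat_lit 0x8003c001c00080000000000000000000000000000000) (nat_lit 0x0) (nat_lit 0x20001000100000000000020001000000000000000000000000000) := T_3 (nat_lit 125) (nat_lit 108) (nat_lit 5) (nat_lit 6) (nat_lit 6) L1015433 (by decide +kernel)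
theorem L1015435 : W_3 (nat_lit 4) (nat_lit 0x3c001c00080000000000000000000000000000000) (nat_lit 0x0) (nat_lit 0x200010001c0000000000020001000000000000000000000000000) := T_3 (nat_lit 175) (nat_lit 174) (nat_lit 1) (nat_lit 8) (nat_lit 9) L1015434 (by decide +kernel)
theorem L1015436 : W_3 (nat_lit 5) (nat_lit 0x3c001800080000000000000000000000000000000) (nat_lit 0x0) (nat_lit 0x200030001c0000000700038001800000000000000000000000000) := Q_3 (nat_lit 142) (C_3 L1012543 (C_3 L1012550 (C_3 L1015435 N_3))) (by decide +kernel)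
theorem L1015437 : W_3 (nat_lit 2) (nat_lit 0x48003c001800080000000000000000000000000000000) (nat_lit 0x0) (nat_lit 0x8000000000000000040002000000000000000000000000000) := D_3 (nat_lit 126) (nat_lit 109) (nat_lit 195) (nat_lit 7) (nat_lit 7) (nat_lit 6) (nat_lit 4) (nat_lit 8) (nat_lit 11) (by decide +kernel)
theorem L1015438 : W_3 (nat_lit 3) (nat_lit 0x8003c001800080000000000000000000000000000000) (nat_lit 0x0) (nat_lit 0x8000c00000000000040002000000000000000000000000000) := T_3 (nat_lit 178) (nat_lit 179) (nat_lit 3) (nat_lit 5) (nat_lit 9) L1015437 (by decide +kernel)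
theorem L1015439 : W_3 (nat_lit 4) (nat_lit 0x3c001800080000000000000000000000000000000) (nat_lit 0x0) (nat_lit 0x8000cc0000000000040002000000000000000000000000000) := T_3 (nat_lit 175) (nat_lit 174) (nat_lit 1) (nat_lit 8) (nat_lit 9) L1015438 (by decide +kernel)
theorem L1015440 : W_3 (nat_lit 2) (nat_lit 0x40003c001800080000000000000000000000000000000) (nat_lit 0x0) (nat_lit 0x8000000000000000040002000000000000000000000000000) := D_3 (nat_lit 126) (nat_lit 109) (nat_lit 195) (nat_lit 7) (nat_lit 7) (nat_lit 6) (nat_lit 4) (nat_lit 8) (nat_lit 11) (by decide +kernel)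
theorem L1015441 : W_3 (nat_lit 3) (nat_lit 0x3c001800080000000000000000000000000000000) (nat_lit 0x0) (nat_lit 0x8000c00000000000040002000000000000000000000000000) := T_3 (nat_lit 178) (nat_lit 179) (nat_lit 3) (nat_lit 5) (nat_lit 9) L1015440 (by decide +kernel)
theorem L1015442 : W_3 (nat_lit 10) (nat_lit 0x1c001800080000000000000000000000000000000) (nat_lit 0x0) (nat_lit 0x3e001f000dc0020000700078003800000000000000000000000000) := Q_3 (nat_lit 161) (C_3 L1012559 (C_3 L1015436 (C_3 L1015439 (C_3 L1015441 N_3)))) (by decide +kernel)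
theorem L1015443 : W_3 (nat_lit 11) (nat_lit 0x14001800080000000000000000000000000000000) (nat_lit 0x0) (nat_lit 0x3e001f000dc0028006700078003800000000000000000000000000) := Q_3 (nat_lit 159) (C_3 L1011394 (C_3 L1015442 (C_3 L1011300 N_3))) (by decide +kernel)
theorem L1015444 : W_3 (nat_lit 16) (nat_lit 0x10001800080000000000000000000000000000000) (nat_lit 0x0) (nat_lit 0x4003f001f800dc002f8067c007e003f003e000d000000000000000000) := Q_3 (nat_lit 158) (C_3 L1015402 (C_3 L1015431 (C_3 L1015432 (C_3 L1012255 (C_3 L1015443 N_3))))) (by decide +kernel)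
theorem L1015449 : W_3 (nat_lit 6) (nat_lit 0x2000180018000c0000000000000000000000000000000) (nat_lit 0x0) (nat_lit 0x3a001d00020006000000000000000000000000000000000000) := T_3 (nat_lit 146) (nat_lit 145) (nat_lit 1) (nat_lit 10) (nat_lit 8) L1015448 (by decide +kernel)
theorem L1015450 : W_3 (nat_lit 7) (nat_lit 0x180018000c0000000000000000000000000000000) (nat_lit 0x0) (nat_lit 0x3e001f00020006000000000000000000000000000000000000) := T_3 (nat_lit 177) (nat_lit 194) (nat_lit 6) (nat_lit 7) (nat_lit 11) L1015449 (by decide +kernel)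
theorem L1015451 : W_3 (nat_lit 2) (nat_lit 0x6000180058000c0002000000000000000000000000000) (nat_lit 0x0) (nat_lit 0x400000000000100008000000000000000000) := D_3 (nat_lit 92) (nat_lit 75) (nat_lit 142) (nat_lit 7) (nat_lit 7) (nat_lit 4) (nat_lit 5) (nat_lit 7) (nat_lit 5) (by decide +kernel)
theorem L1015452 : W_3 (nat_lit 3) (nat_lit 0x6000180058000c0000000000000000000000000000000) (nat_lit 0x0) (nat_lit 0x20000400000002000100008000000000000000000) := T_3 (nat_lit 109) (nat_lit 161) (nat_lit 7) (nat_lit 7) (nat_lit 6) L1015451 (by decide +kernel)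
theorem L1015453 : W_3 (nat_lit 4) (nat_lit 0x2000180058000c0000000000000000000000000000000) (nat_lit 0x0) (nat_lit 0x8000400020000400000002000100008000000000000000000) := T_3 (nat_lit 178) (nat_lit 195) (nat_lit 7) (nat_lit 7) (nat_lit 7) L1015452 (by decide +kernel)
theorem L1015454 : W_3 (nat_lit 5) (nat_lit 0x180058000c0000000000000000000000000000000) (nat_lit 0x0) (nat_lit 0xc000600020000400000002000100008000000000000000000) := T_3 (nat_lit 177) (nat_lit 194) (nat_lit 6) (nat_lit 7) (nat_lit 11) L1015453 (by decide +kernel)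
theorem L1015455 : W_3 (nat_lit 6) (nat_lit 0x180018000c0000000000000000000000000000000) (nat_lit 0x0) (nat_lit 0xc000600020006400000002000100008000000000000000000) := T_3 (nat_lit 146) (nat_lit 145) (nat_lit 1) (nat_lit 10) (nat_lit 8) L1015454 (by decide +kernel)
theorem L1015456 : W_3 (nat_lit 8) (nat_lit 0x18001800080000000000000000000000000000000) (nat_lit 0x0) (nat_lit 0x4003e001f0002000640004000300018000c000000000000000000) := Q_3 (nat_lit 126) (C_3 L1011334 (C_3 L1011328 (C_3 L1015450 (C_3 L1015455 N_3)))) (by decide +kernel)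
theorem L1015457 : W_3 (nat_lit 2) (nat_lit 0xf0001a0018000c0000000000000000000000000000000) (nat_lit 0x0) (nat_lit 0x30000000020000000000000000000000000000000000000000) := D_3 (nat_lit 196) (nat_lit 197) (nat_lit 161) (nat_lit 3) (nat_lit 6) (nat_lit 10) (nat_lit 7) (nat_lit 8) (nat_lit 7) (by decide +kernel)
theorem L1015458 : W_3 (nat_lit 3) (nat_lit 0xe0001a0018000c0000000000000000000000000000000) (nat_lit 0x0) (nat_lit 0x32000100020000000000000000000000000000000000000000) := T_3 (nat_lit 176) (nat_lit 193) (nat_lit 5) (nat_lit 7) (nat_lit 7) L1015457 (by decide +kernel)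
theorem L1015459 : W_3 (nat_lit 4) (nat_lit 0x60001a0018000c0000000000000000000000000000000) (nat_lit 0x0) (nat_lit 0x32001900020000000000000000000000000000000000000000) := T_3 (nat_lit 179) (nat_lit 180) (nat_lit 0) (nat_lit 10) (nat_lit 10) L1015458 (by decide +kernel)
theorem L1015460 : W_3 (nat_lit 5) (nat_lit 0x20001a0018000c0000000000000000000000000000000) (nat_lit 0x0) (nat_lit 0x3a001d00020000000000000000000000000000000000000000) := T_3 (nat_lit 178) (nat_lit 195) (nat_lit 7) (nat_lit 7) (nat_lit 7) L1015459 (by decide +kernel)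
theorem L1015461 : W_3 (nat_lit 6) (nat_lit 0x2000180018000c0000000000000000000000000000000) (nat_lit 0x0) (nat_lit 0x3a001d00026000000000000000000000000000000000000000) := T_3 (nat_lit 157) (nat_lit 158) (nat_lit 2) (nat_lit 4) (nat_lit 9) L1015460 (by decide +kernel)
theorem L1015462 : W_3 (nat_lit 7) (nat_lit 0x180018000c0000000000000000000000000000000) (nat_lit 0x0) (nat_lit 0x3e001f00026000000000000000000000000000000000000000) := T_3 (nat_lit 177) (nat_lit 194) (nat_lit 6) (nat_lit 7) (nat_lit 11) L1015461 (by decide +kernel)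
theorem L1015463 : W_3 (nat_lit 2) (nat_lit 0x60001a0018000c0002000000000000000000000000000) (nat_lit 0x0) (nat_lit 0x400000000000100008000000000000000000) := D_3 (nat_lit 92) (nat_lit 75) (nat_lit 142) (nat_lit 7) (nat_lit 7) (nat_lit 4) (nat_lit 5) (nat_lit 7) (nat_lit 5) (by decide +kernel)
theorem L1015464 : W_3 (nat_lit 3) (nat_lit 0x60001a0018000c0000000000000000000000000000000) (nat_lit 0x0) (nat_lit 0x20000400000002000100008000000000000000000) := T_3 (nat_lit 109) (nat_lit 161) (nat_lit 7) (nat_lit 7) (nat_lit 6) L1015463 (by decide +kernel)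
theorem L1015465 : W_3 (nat_lit 4) (nat_lit 0x20001a0018000c0000000000000000000000000000000) (nat_lit 0x0) (nat_lit 0x8000400020000400000002000100008000000000000000000) := T_3 (nat_lit 178) (nat_lit 195) (nat_lit 7) (nat_lit 7) (nat_lit 7) L1015464 (by decide +kernel)
theorem L1015466 : W_3 (nat_lit 5) (nat_lit 0x1a0018000c0000000000000000000000000000000) (nat_lit 0x0) (nat_lit 0xc000600020000400000002000100008000000000000000000) := T_3 (nat_lit 177) (nat_lit 194) (nat_lit 6) (nat_lit 7) (nat_lit 11) L1015465 (by decide +kernel)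
theorem L1015467 : W_3 (nat_lit 6) (nat_lit 0x180018000c0000000000000000000000000000000) (nat_lit 0x0) (nat_lit 0xc000600026000400000002000100008000000000000000000) := T_3 (nat_lit 157) (nat_lit 158) (nat_lit 2) (nat_lit 4) (nat_lit 9) L1015466 (by decide +kernel)
theorem L1015468 : W_3 (nat_lit 8) (nat_lit 0x18001800080000000000000000000000000000000) (nat_lit 0x0) (nat_lit 0x4003e001f0002600040004000300018000c000000000000000000) := Q_3 (nat_lit 126) (C_3 L1011334 (C_3 L1011328 (C_3 L1015462 (C_3 L1015467 N_3)))) (by decide +kernel)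
theorem L1015469 : W_3 (nat_lit 9) (nat_lit 0x10001800080000000000000000000000000000000) (nat_lit 0x0) (nat_lit 0x4003e001f0002e00640004000300018000c000000000000000000) := Q_3 (nat_lit 159) (C_3 L1015456 (C_3 L1015468 (C_3 L1011301 (C_3 L1011395 N_3)))) (by decide +kernel)
theorem L1015475 : W_3 (nat_lit 2) (nat_lit 0x3000100018000e0000000000000000000000000000000) (nat_lit 0x0) (nat_lit 0x2000018000000000000000000000000000000) := D_3 (nat_lit 124) (nat_lit 145) (nat_lit 123) (nat_lit 3) (nat_lit 5) (nat_lit 7) (nat_lit 3) (nat_lit 4) (nat_lit 7) (by decide +kernel)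
theorem L1015476 : W_3 (nat_lit 3) (nat_lit 0x3000100018000c0000000000000000000000000000000) (nat_lit 0x0) (nat_lit 0x2000038001000000000000000000000000000) := T_3 (nat_lit 125) (nat_lit 108) (nat_lit 4) (nat_lit 7) (nat_lit 10) L1015475 (by decide +kernel)
theorem L1015477 : W_3 (nat_lit 4) (nat_lit 0x2000100018000c0000000000000000000000000000000) (nat_lit 0x0) (nat_lit 0x2000100000002000038001000000000000000000000000000) := T_3 (nat_lit 176) (nat_lit 193) (nat_lit 5) (nat_lit 7) (nat_lit 7) L1015476 (by decide +kernel)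
theorem L1016628 : W_3 (nat_lit 3) (nat_lit 0x4000000010001e000b0000000000000000000000000000000) (nat_lit 0x0) (nat_lit 0x80006000000000001000080000000000000000000000) := T_3 (nat_lit 158) (nat_lit 157) (nat_lit 1) (nat_lit 8) (nat_lit 8) L1012430 (by decide +kernel)
theorem L1016629 : W_3 (nat_lit 4) (nat_lit 0x4000000010001e00090000000000000000000000000000000) (nat_lit 0x0) (nat_lit 0x80006002000020001000080000000000000000000000) := T_3 (nat_lit 125) (nat_lit 145) (nat_lit 0) (nat_lit 9) (nat_lit 8) L1016628 (by decide +kernel)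
theorem L1016635 : W_3 (nat_lit 2) (nat_lit 0x11001f80090000000000000000000000000000000) (nat_lit 0x0) (nat_lit 0x2040020000000000000000000000000000000) := D_3 (nat_lit 125) (nat_lit 145) (nat_lit 138) (nat_lit 0) (nat_lit 9) (nat_lit 8) (nat_lit 2) (nat_lit 2) (nat_lit 8) (by decide +kernel)
theorem L1016636 : W_3 (nat_lit 3) (nat_lit 0x11001f00090000000000000000000000000000000) (nat_lit 0x0) (nat_lit 0x8020c0020000000000000000000000000000000) := T_3 (nat_lit 139) (nat_lit 155) (nat_lit 1) (nat_lit 6) (nat_lit 8) L1016635 (by decide +kernel)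
theorem L1021234 : W_3 (nat_lit 2) (nat_lit 0x200010001a000d0000000000000000000000000000000) (nat_lit 0x0) (nat_lit 0x500008000000000000000000000000000000) := D_3 (nat_lit 142) (nat_lit 140) (nat_lit 123) (nat_lit 2) (nat_lit 4) (nat_lit 8) (nat_lit 0) (nat_lit 8) (nat_lit 8) (by decide +kernel)
theorem L1026887 : W_3 (nat_lit 5) (nat_lit 0x4000000010001e00080000000000000000000000000000000) (nat_lit 0x0) (nat_lit 0x80006002000038001000080000000000000000000000) := T_3 (nat_lit 124) (nat_lit 123) (nat_lit 0) (nat_lit 8) (nat_lit 8) L1016629 (by decide +kernel)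
theorem L1027121 : W_3 (nat_lit 2) (nat_lit 0x2000100018000d0000000000000000000000000000000) (nat_lit 0x0) (nat_lit 0x2000028000000000000000000000000000000) := D_3 (nat_lit 125) (nat_lit 145) (nat_lit 123) (nat_lit 3) (nat_lit 5) (nat_lit 7) (nat_lit 3) (nat_lit 4) (nat_lit 7) (by decide +kernel)
theorem L1027122 : W_3 (nat_lit 2) (nat_lit 0x2f80030001a000d8000000000000000000000000000000) (nat_lit 0x0) (nat_lit 0x6000000000000400000000000000000000000000) := D_3 (nat_lit 158) (nat_lit 157) (nat_lit 106) (nat_lit 0) (nat_lit 8) (nat_lit 10) (nat_lit 4) (nat_lit 5) (nat_lit 10) (by decide +kernel)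
theorem L1027123 : W_3 (nat_lit 3) (nat_lit 0x2f00030001a000d8000000000000000000000000000000) (nat_lit 0x0) (nat_lit 0xc0006000000000000400000000000000000000000000) := T_3 (nat_lit 175) (nat_lit 174) (nat_lit 2) (nat_lit 4) (nat_lit 10) L1027122 (by decide +kernel)
theorem L1027124 : W_3 (nat_lit 4) (nat_lit 0x2e00030001a000d8000000000000000000000000000000) (nat_lit 0x0) (nat_lit 0x20001c0006000000000000400000000000000000000000000) := T_3 (nat_lit 176) (nat_lit 193) (nat_lit 5) (nat_lit 7) (nat_lit 7) L1027123 (by decide +kernel)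
theorem L1027125 : W_3 (nat_lit 5) (nat_lit 0x2e000300018000d8000000000000000000000000000000) (nat_lit 0x0) (nat_lit 0x20001c0006000600000000400000000000000000000000000) := T_3 (nat_lit 141) (nat_lit 142) (nat_lit 0) (nat_lit 8) (nat_lit 8) L1027124 (by decide +kernel)
theorem L1027126 : W_3 (nat_lit 6) (nat_lit 0x2e000300018000d0000000000000000000000000000000) (nat_lit 0x0) (nat_lit 0x20001c0006000600028000400000000000000000000000000) := T_3 (nat_lit 123) (nat_lit 125) (nat_lit 3) (nat_lit 4) (nat_lit 7) L1027125 (by decide +kernel)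
theorem L1027127 : W_3 (nat_lit 7) (nat_lit 0xe000300018000d0000000000000000000000000000000) (nat_lit 0x0) (nat_lit 0x20031c0006000600028000400000000000000000000000000) := T_3 (nat_lit 181) (nat_lit 180) (nat_lit 0) (nat_lit 11) (nat_lit 10) L1027126 (by decide +kernel)
theorem L1027128 : W_3 (nat_lit 8) (nat_lit 0x6000300018000d0000000000000000000000000000000) (nat_lit 0x0) (nat_lit 0x120039c0006000600028000400000000000000000000000000) := T_3 (nat_lit 179) (nat_lit 196) (nat_lit 7) (nat_lit 8) (nat_lit 7) L1027127 (by decide +kernel)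
theorem L1027129 : W_3 (nat_lit 9) (nat_lit 0x6000100018000d0000000000000000000000000000000) (nat_lit 0x0) (nat_lit 0x120039c0026000600028002400000000000000000000000000) := T_3 (nat_lit 161) (nat_lit 109) (nat_lit 7) (nat_lit 7) (nat_lit 6) L1027128 (by decide +kernel)
theorem L1027130 : W_3 (nat_lit 10) (nat_lit 0x2000100018000d0000000000000000000000000000000) (nat_lit 0x0) (nat_lit 0x1a003dc0026000600028002400000000000000000000000000) := T_3 (nat_lit 178) (nat_lit 195) (nat_lit 7) (nat_lit 7) (nat_lit 7) L1027129 (by decide +kernel)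
theorem L1027131 : W_3 (nat_lit 2) (nat_lit 0x1002f80034001a000d0000000000000000000000000000000) (nat_lit 0x0) (nat_lit 0x100008000400000000000000000000000000) := D_3 (nat_lit 123) (nat_lit 106) (nat_lit 140) (nat_lit 4) (nat_lit 5) (nat_lit 10) (nat_lit 4) (nat_lit 5) (nat_lit 11) (by decide +kernel)
theorem L1027132 : W_3 (nat_lit 3) (nat_lit 0x2f80034001a000d0000000000000000000000000000000) (nat_lit 0x0) (nat_lit 0x1800000000000100008000400000000000000000000000000) := T_3 (nat_lit 192) (nat_lit 191) (nat_lit 1) (nat_lit 8) (nat_lit 10) L1027131 (by decide +kernel)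
theorem L1027133 : W_3 (nat_lit 4) (nat_lit 0x2f80030001a000d0000000000000000000000000000000) (nat_lit 0x0) (nat_lit 0x1800000006000100008000400000000000000000000000000) := T_3 (nat_lit 158) (nat_lit 157) (nat_lit 0) (nat_lit 8) (nat_lit 10) L1027132 (by decide +kernel)
theorem L1027134 : W_3 (nat_lit 5) (nat_lit 0xf80030001a000d0000000000000000000000000000000) (nat_lit 0x0) (nat_lit 0x1803000006000100008000400000000000000000000000000) := T_3 (nat_lit 181) (nat_lit 180) (nat_lit 0) (nat_lit 11) (nat_lit 10) L1027133 (by decide +kernel)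
theorem L1027135 : W_3 (nat_lit 6) (nat_lit 0x780030001a000d0000000000000000000000000000000) (nat_lit 0x0) (nat_lit 0x11803800006000100008000400000000000000000000000000) := T_3 (nat_lit 179) (nat_lit 196) (nat_lit 7) (nat_lit 8) (nat_lit 7) L1027134 (by decide +kernel)
theorem L1027136 : W_3 (nat_lit 7) (nat_lit 0x700030001a000d0000000000000000000000000000000) (nat_lit 0x0) (nat_lit 0x118038c0006000100008000400000000000000000000000000) := T_3 (nat_lit 175) (nat_lit 174) (nat_lit 2) (nat_lit 4) (nat_lit 10) L1027135 (by decide +kernel)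
theorem L1027137 : W_3 (nat_lit 8) (nat_lit 0x700010001a000d0000000000000000000000000000000) (nat_lit 0x0) (nat_lit 0x118038c0026000100008002400000000000000000000000000) := T_3 (nat_lit 161) (nat_lit 109) (nat_lit 7) (nat_lit 7) (nat_lit 6) L1027136 (by decide +kernel)
theorem L1027138 : W_3 (nat_lit 9) (nat_lit 0x300010001a000d0000000000000000000000000000000) (nat_lit 0x0) (nat_lit 0x19803cc0026000100008002400000000000000000000000000) := T_3 (nat_lit 178) (nat_lit 195) (nat_lit 7) (nat_lit 7) (nat_lit 7) L1027137 (by decide +kernel)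
theorem L1027139 : W_3 (nat_lit 10) (nat_lit 0x200010001a000d0000000000000000000000000000000) (nat_lit 0x0) (nat_lit 0x1b803dc0026000100008002400000000000000000000000000) := T_3 (nat_lit 176) (nat_lit 193) (nat_lit 5) (nat_lit 7) (nat_lit 7) L1027138 (by decide +kernel)
theorem L1027140 : W_3 (nat_lit 2) (nat_lit 0x2f40032001b000d0000000000000000000000000000000) (nat_lit 0x0) (nat_lit 0x4000000000000800040000000000000000000000) := D_3 (nat_lit 107) (nat_lit 158) (nat_lit 90) (nat_lit 5) (nat_lit 5) (nat_lit 6) (nat_lit 5) (nat_lit 5) (nat_lit 5) (by decide +kernel)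
theorem L1027141 : W_3 (nat_lit 3) (nat_lit 0x2f40030001b000d0000000000000000000000000000000) (nat_lit 0x0) (nat_lit 0x800000006000000000000800040000000000000000000000) := T_3 (nat_lit 157) (nat_lit 191) (nat_lit 6) (nat_lit 4) (nat_lit 11) L1027140 (by decide +kernel)
theorem L1027142 : W_3 (nat_lit 4) (nat_lit 0x2f40030001a000d0000000000000000000000000000000) (nat_lit 0x0) (nat_lit 0x800000006000500000000800040000000000000000000000) := T_3 (nat_lit 140) (nat_lit 142) (nat_lit 3) (nat_lit 4) (nat_lit 8) L1027141 (by decide +kernel)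
theorem L1027143 : W_3 (nat_lit 5) (nat_lit 0xf40030001a000d0000000000000000000000000000000) (nat_lit 0x0) (nat_lit 0x803000006000500000000800040000000000000000000000) := T_3 (nat_lit 181) (nat_lit 180) (nat_lit 0) (nat_lit 11) (nat_lit 10) L1027142 (by decide +kernel)
theorem L1027144 : W_3 (nat_lit 6) (nat_lit 0x740030001a000d0000000000000000000000000000000) (nat_lit 0x0) (nat_lit 0x10803800006000500000000800040000000000000000000000) := T_3 (nat_lit 179) (nat_lit 196) (nat_lit 7) (nat_lit 8) (nat_lit 7) L1027143 (by decide +kernel)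
theorem L1027145 : W_3 (nat_lit 7) (nat_lit 0x700030001a000d0000000000000000000000000000000) (nat_lit 0x0) (nat_lit 0x108038c0006000500000000800040000000000000000000000) := T_3 (nat_lit 174) (nat_lit 175) (nat_lit 2) (nat_lit 4) (nat_lit 10) L1027144 (by decide +kernel)
theorem L1027146 : W_3 (nat_lit 8) (nat_lit 0x600030001a000d0000000000000000000000000000000) (nat_lit 0x0) (nat_lit 0x128039c0006000500000000800040000000000000000000000) := T_3 (nat_lit 176) (nat_lit 193) (nat_lit 5) (nat_lit 7) (nat_lit 7) L1027145 (by decide +kernel)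
theorem L1027147 : W_3 (nat_lit 9) (nat_lit 0x600010001a000d0000000000000000000000000000000) (nat_lit 0x0) (nat_lit 0x128039c0026000500000002800040000000000000000000000) := T_3 (nat_lit 161) (nat_lit 109) (nat_lit 7) (nat_lit 7) (nat_lit 6) L1027146 (by decide +kernel)
theorem L1027148 : W_3 (nat_lit 10) (nat_lit 0x200010001a000d0000000000000000000000000000000) (nat_lit 0x0) (nat_lit 0x1a803dc0026000500000002800040000000000000000000000) := T_3 (nat_lit 178) (nat_lit 195) (nat_lit 7) (nat_lit 7) (nat_lit 7) L1027147 (by decide +kernel)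
theorem L1027149 : W_3 (nat_lit 2) (nat_lit 0x2f80034001a000d0000000000000000000000000000000) (nat_lit 0x0) (nat_lit 0x400008000400000000000000000000000000) := D_3 (nat_lit 123) (nat_lit 142) (nat_lit 106) (nat_lit 0) (nat_lit 8) (nat_lit 8) (nat_lit 4) (nat_lit 5) (nat_lit 10) (by decide +kernel)
theorem L1027150 : W_3 (nat_lit 3) (nat_lit 0x2f80030001a000d0000000000000000000000000000000) (nat_lit 0x0) (nat_lit 0x6000400008000400000000000000000000000000) := T_3 (nat_lit 158) (nat_lit 157) (nat_lit 0) (nat_lit 8) (nat_lit 10) L1027149 (by decide +kernel)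
theorem L1027151 : W_3 (nat_lit 4) (nat_lit 0xf80030001a000d0000000000000000000000000000000) (nat_lit 0x0) (nat_lit 0x3000006000400008000400000000000000000000000000) := T_3 (nat_lit 181) (nat_lit 180) (nat_lit 0) (nat_lit 11) (nat_lit 10) L1027150 (by decide +kernel)
theorem L1027152 : W_3 (nat_lit 5) (nat_lit 0x780030001a000d0000000000000000000000000000000) (nat_lit 0x0) (nat_lit 0x10003800006000400008000400000000000000000000000000) := T_3 (nat_lit 179) (nat_lit 196) (nat_lit 7) (nat_lit 8) (nat_lit 7) L1027151 (by decide +kernel)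
theorem L1027153 : W_3 (nat_lit 6) (nat_lit 0x700030001a000d0000000000000000000000000000000) (nat_lit 0x0) (nat_lit 0x100038c0006000400008000400000000000000000000000000) := T_3 (nat_lit 175) (nat_lit 174) (nat_lit 2) (nat_lit 4) (nat_lit 10) L1027152 (by decide +kernel)
theorem L1027154 : W_3 (nat_lit 7) (nat_lit 0x700010001a000d0000000000000000000000000000000) (nat_lit 0x0) (nat_lit 0x100038c0026000400008002400000000000000000000000000) := T_3 (nat_lit 161) (nat_lit 109) (nat_lit 7) (nat_lit 7) (nat_lit 6) L1027153 (by decide +kernel)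
theorem L1027155 : W_3 (nat_lit 8) (nat_lit 0x300010001a000d0000000000000000000000000000000) (nat_lit 0x0) (nat_lit 0x18003cc0026000400008002400000000000000000000000000) := T_3 (nat_lit 178) (nat_lit 195) (nat_lit 7) (nat_lit 7) (nat_lit 7) L1027154 (by decide +kernel)
theorem L1027156 : W_3 (nat_lit 9) (nat_lit 0x200010001a000d0000000000000000000000000000000) (nat_lit 0x0) (nat_lit 0x1a003dc0026000400008002400000000000000000000000000) := T_3 (nat_lit 176) (nat_lit 193) (nat_lit 5) (nat_lit 7) (nat_lit 7) L1027155 (by decide +kernel)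
theorem L1027157 : W_3 (nat_lit 11) (nat_lit 0x2000100018000d0000000000000000000000000000000) (nat_lit 0x0) (nat_lit 0x1b803dc0026000700008002c00040000000000000000000000) := Q_3 (nat_lit 141) (C_3 L1021234 (C_3 L1027139 (C_3 L1027148 (C_3 L1027156 N_3)))) (by decide +kernel)
theorem L1027158 : W_3 (nat_lit 2) (nat_lit 0x2f80034001a000f0000800000000000000000000000000) (nat_lit 0x0) (nat_lit 0x1800000000000400000000000000000000000000000000000) := D_3 (nat_lit 192) (nat_lit 191) (nat_lit 142) (nat_lit 1) (nat_lit 8) (nat_lit 10) (nat_lit 6) (nat_lit 5) (nat_lit 11) (by decide +kernel)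
theorem L1027159 : W_3 (nat_lit 3) (nat_lit 0x2f80030001a000f0000800000000000000000000000000) (nat_lit 0x0) (nat_lit 0x1800000006000400000000000000000000000000000000000) := T_3 (nat_lit 158) (nat_lit 157) (nat_lit 0) (nat_lit 8) (nat_lit 10) L1027158 (by decide +kernel)
theorem L1027160 : W_3 (nat_lit 4) (nat_lit 0xf80030001a000f0000800000000000000000000000000) (nat_lit 0x0) (nat_lit 0x1803000006000400000000000000000000000000000000000) := T_3 (nat_lit 181) (nat_lit 180) (nat_lit 0) (nat_lit 11) (nat_lit 10) L1027159 (by decide +kernel)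
theorem L1027161 : W_3 (nat_lit 5) (nat_lit 0x780030001a000f0000800000000000000000000000000) (nat_lit 0x0) (nat_lit 0x11803800006000400000000000000000000000000000000000) := T_3 (nat_lit 179) (nat_lit 196) (nat_lit 7) (nat_lit 8) (nat_lit 7) L1027160 (by decide +kernel)
theorem L1027162 : W_3 (nat_lit 6) (nat_lit 0x700030001a000f0000800000000000000000000000000) (nat_lit 0x0) (nat_lit 0x118038c0006000400000000000000000000000000000000000) := T_3 (nat_lit 175) (nat_lit 174) (nat_lit 2) (nat_lit 4) (nat_lit 10) L1027161 (by decide +kernel)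
theorem L1027163 : W_3 (nat_lit 7) (nat_lit 0x700010001a000f0000800000000000000000000000000) (nat_lit 0x0) (nat_lit 0x118038c0026000400000002000000000000000000000000000) := T_3 (nat_lit 161) (nat_lit 109) (nat_lit 7) (nat_lit 7) (nat_lit 6) L1027162 (by decide +kernel)
theorem L1027164 : W_3 (nat_lit 8) (nat_lit 0x300010001a000f0000800000000000000000000000000) (nat_lit 0x0) (nat_lit 0x19803cc0026000400000002000000000000000000000000000) := T_3 (nat_lit 178) (nat_lit 195) (nat_lit 7) (nat_lit 7) (nat_lit 7) L1027163 (by decide +kernel)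
theorem L1027165 : W_3 (nat_lit 9) (nat_lit 0x300010001a000f0000000000000000000000000000000) (nat_lit 0x0) (nat_lit 0x19803cc0026000400000002c00000000000000000000000000) := T_3 (nat_lit 107) (nat_lit 106) (nat_lit 0) (nat_lit 8) (nat_lit 7) L1027164 (by decide +kernel)
theorem L1027166 : W_3 (nat_lit 10) (nat_lit 0x3000100018000f0000000000000000000000000000000) (nat_lit 0x0) (nat_lit 0x19803cc0026000700000002c00000000000000000000000000) := T_3 (nat_lit 141) (nat_lit 140) (nat_lit 1) (nat_lit 8) (nat_lit 7) L1027165 (by decide +kernel)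
theorem L1027167 : W_3 (nat_lit 11) (nat_lit 0x3000100018000d0000000000000000000000000000000) (nat_lit 0x0) (nat_lit 0x19803cc0026002700020002c00000000000000000000000000) := T_3 (nat_lit 125) (nat_lit 145) (nat_lit 3) (nat_lit 5) (nat_lit 7) L1027166 (by decide +kernel)
theorem L1027168 : W_3 (nat_lit 12) (nat_lit 0x2000100018000d0000000000000000000000000000000) (nat_lit 0x0) (nat_lit 0x1b803dc0026002700020002c00000000000000000000000000) := T_3 (nat_lit 176) (nat_lit 193) (nat_lit 5) (nat_lit 7) (nat_lit 7) L1027167 (by decide +kernel)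
theorem L1027169 : W_3 (nat_lit 13) (nat_lit 0x2000100018000c0000000000000000000000000000000) (nat_lit 0x0) (nat_lit 0x1b803dc0026002700038002c00040000000000000000000000) := Q_3 (nat_lit 124) (C_3 L1027121 (C_3 L1027130 (C_3 L1027157 (C_3 L1027168 N_3)))) (by decide +kernel)
theorem L1027170 : W_3 (nat_lit 2) (nat_lit 0x6000100018000c0002000000000000000000000000000) (nat_lit 0x0) (nat_lit 0x20001000080000000000000000000000) := D_3 (nat_lit 108) (nat_lit 125) (nat_lit 91) (nat_lit 4) (nat_lit 7) (nat_lit 10) (nat_lit 4) (nat_lit 7) (nat_lit 9) (by decide +kernel)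
theorem L1027171 : W_3 (nat_lit 3) (nat_lit 0x6000100018000c0000000000000000000000000000000) (nat_lit 0x0) (nat_lit 0x20000000020003000080000000000000000000000) := T_3 (nat_lit 109) (nat_lit 161) (nat_lit 7) (nat_lit 7) (nat_lit 6) L1027170 (by decide +kernel)
theorem L1027172 : W_3 (nat_lit 4) (nat_lit 0x2000100018000c0000000000000000000000000000000) (nat_lit 0x0) (nat_lit 0x8000400020000000020003000080000000000000000000000) := T_3 (nat_lit 178) (nat_lit 195) (nat_lit 7) (nat_lit 7) (nat_lit 7) L1027171 (by decide +kernel)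
theorem L1027173 : W_3 (nat_lit 14) (nat_lit 0x200010001800080000000000000000000000000000000) (nat_lit 0x0) (nat_lit 0x1b803dc0026002700078003c001c000c000000000000000000) := Q_3 (nat_lit 126) (C_3 L1015477 (C_3 L1011279 (C_3 L1027169 (C_3 L1027172 N_3)))) (by decide +kernel)
theorem L1027174 : W_3 (nat_lit 15) (nat_lit 0x10001800080000000000000000000000000000000) (nat_lit 0x0) (nat_lit 0x1f803fc0026002700078003c001c000c000000000000000000) := T_3 (nat_lit 177) (nat_lit 194) (nat_lit 6) (nat_lit 7) (nat_lit 11) L1027173 (by decide +kernel)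
theorem L1027175 : W_3 (nat_lit 3) (nat_lit 0x180018000c0000000000000000000000000000000) (nat_lit 0x0) (nat_lit 0x100000000400000002000100008000000000000000000) := T_3 (nat_lit 109) (nat_lit 176) (nat_lit 5) (nat_lit 7) (nat_lit 6) L778040 (by decide +kernel)
theorem L1027176 : W_3 (nat_lit 8) (nat_lit 0x18001800080000000000000000000000000000000) (nat_lit 0x0) (nat_lit 0x4003e001f00026000400040002000100008000000000000000000) := Q_3 (nat_lit 126) (C_3 L1011334 (C_3 L1015467 (C_3 L1015462 (C_3 L1027175 N_3)))) (by decide +kernel)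
theorem L1027177 : W_3 (nat_lit 8) (nat_lit 0x18001800080000000000000000000000000000000) (nat_lit 0x0) (nat_lit 0x3e001f00020006400040002000100008000000000000000000) := Q_3 (nat_lit 126) (C_3 L1027175 (C_3 L1015450 (C_3 L1015455 N_3))) (by decide +kernel)
theorem L1027178 : W_3 (nat_lit 9) (nat_lit 0x10001800080000000000000000000000000000000) (nat_lit 0x0) (nat_lit 0x4003e001f0002e006400040002000100008000000000000000000) := Q_3 (nat_lit 159) (C_3 L1011395 (C_3 L1027176 (C_3 L1011301 (C_3 L1027177 N_3)))) (by decide +kernel)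
theorem L1027179 : W_3 (nat_lit 11) (nat_lit 0x18001800080000000000000000000000000000000) (nat_lit 0x0) (nat_lit 0x3e001f000fc0026000700038001800000000000000000000000000) := T_3 (nat_lit 158) (nat_lit 157) (nat_lit 2) (nat_lit 4) (nat_lit 9) L1012567 (by decide +kernel)
theorem L1027434 : W_3 (nat_lit 2) (nat_lit 0x300018001800080000000000000000000000000000000) (nat_lit 0x0) (nat_lit 0x40002000000000000000040000000000000000000000000000000) := D_3 (nat_lit 193) (nat_lit 210) (nat_lit 126) (nat_lit 6) (nat_lit 6) (nat_lit 12) (nat_lit 5) (nat_lit 7) (nat_lit 7) (by decide +kernel)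
theorem L1027435 : W_3 (nat_lit 3) (nat_lit 0x100018001800080000000000000000000000000000000) (nat_lit 0x0) (nat_lit 0x40006000200000000000040000000000000000000000000000000) := T_3 (nat_lit 177) (nat_lit 194) (nat_lit 6) (nat_lit 7) (nat_lit 11) L1027434 (by decide +kernel)
theorem L1027436 : W_3 (nat_lit 2) (nat_lit 0x2000100018001800080000000000000000000000000000000) (nat_lit 0x0) (nat_lit 0x200000000400040000000000000000000000000000000) := D_3 (nat_lit 126) (nat_lit 142) (nat_lit 177) (nat_lit 6) (nat_lit 6) (nat_lit 11) (nat_lit 5) (nat_lit 7) (nat_lit 7) (by decide +kernel)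
theorem L1027437 : W_3 (nat_lit 3) (nat_lit 0x100018001800080000000000000000000000000000000) (nat_lit 0x0) (nat_lit 0x40002000200000000400040000000000000000000000000000000) := T_3 (nat_lit 193) (nat_lit 210) (nat_lit 6) (nat_lit 6) (nat_lit 12) L1027436 (by decide +kernel)
theorem L1027438 : W_3 (nat_lit 2) (nat_lit 0x1000180038000a0000000000000000000000000000000) (nat_lit 0x0) (nat_lit 0x400050000000000000000000000000000000) := D_3 (nat_lit 124) (nat_lit 126) (nat_lit 142) (nat_lit 3) (nat_lit 5) (nat_lit 7) (nat_lit 0) (nat_lit 9) (nat_lit 8) (by decide +kernel)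
theorem L1027439 : W_3 (nat_lit 3) (nat_lit 0x1000180018000a0000000000000000000000000000000) (nat_lit 0x0) (nat_lit 0x6400050000000000000000000000000000000) := T_3 (nat_lit 145) (nat_lit 146) (nat_lit 1) (nat_lit 10) (nat_lit 8) L1027438 (by decide +kernel)
theorem L1027440 : W_3 (nat_lit 2) (nat_lit 0x3000180018000a0000000000000000000000000000000) (nat_lit 0x0) (nat_lit 0x400040001000000000000000000000000000) := D_3 (nat_lit 108) (nat_lit 142) (nat_lit 126) (nat_lit 7) (nat_lit 6) (nat_lit 6) (nat_lit 4) (nat_lit 7) (nat_lit 10) (by decide +kernel)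
theorem L1027441 : W_3 (nat_lit 3) (nat_lit 0x1000180018000a0000000000000000000000000000000) (nat_lit 0x0) (nat_lit 0x4000200000000400040001000000000000000000000000000) := T_3 (nat_lit 177) (nat_lit 194) (nat_lit 6) (nat_lit 7) (nat_lit 11) L1027440 (by decide +kernel)
theorem L1027442 : W_3 (nat_lit 2) (nat_lit 0xf000180058000e8000000000000000000000000000000) (nat_lit 0x0) (nat_lit 0x30000000020000000000000000000000000000000000000000) := D_3 (nat_lit 196) (nat_lit 197) (nat_lit 161) (nat_lit 3) (nat_lit 6) (nat_lit 10) (nat_lit 7) (nat_lit 8) (nat_lit 7) (by decide +kernel)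
theorem L1027443 : W_3 (nat_lit 3) (nat_lit 0x7000180058000e8000000000000000000000000000000) (nat_lit 0x0) (nat_lit 0x30001800020000000000000000000000000000000000000000) := T_3 (nat_lit 179) (nat_lit 180) (nat_lit 0) (nat_lit 10) (nat_lit 10) L1027442 (by decide +kernel)
theorem L1027444 : W_3 (nat_lit 4) (nat_lit 0x3000180058000e8000000000000000000000000000000) (nat_lit 0x0) (nat_lit 0x38001c00020000000000000000000000000000000000000000) := T_3 (nat_lit 178) (nat_lit 195) (nat_lit 7) (nat_lit 7) (nat_lit 7) L1027443 (by decide +kernel)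
theorem L1027445 : W_3 (nat_lit 5) (nat_lit 0x3000180058000e0000000000000000000000000000000) (nat_lit 0x0) (nat_lit 0x38001c00020000000018000000000000000000000000000000) := T_3 (nat_lit 123) (nat_lit 124) (nat_lit 3) (nat_lit 4) (nat_lit 7) L1027444 (by decide +kernel)
theorem L1027446 : W_3 (nat_lit 6) (nat_lit 0x3000180058000a0000000000000000000000000000000) (nat_lit 0x0) (nat_lit 0x38001c00020000000058001000000000000000000000000000) := T_3 (nat_lit 126) (nat_lit 108) (nat_lit 4) (nat_lit 7) (nat_lit 10) L1027445 (by decide +kernel)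
theorem L1027447 : W_3 (nat_lit 7) (nat_lit 0x3000180018000a0000000000000000000000000000000) (nat_lit 0x0) (nat_lit 0x38001c00020006000058001000000000000000000000000000) := T_3 (nat_lit 146) (nat_lit 145) (nat_lit 1) (nat_lit 10) (nat_lit 8) L1027446 (by decide +kernel)
theorem L1027448 : W_3 (nat_lit 8) (nat_lit 0x1000180018000a0000000000000000000000000000000) (nat_lit 0x0) (nat_lit 0x3c001e00020006000058001000000000000000000000000000) := T_3 (nat_lit 177) (nat_lit 194) (nat_lit 6) (nat_lit 7) (nat_lit 11) L1027447 (by decide +kernel)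
theorem L1027449 : W_3 (nat_lit 5) (nat_lit 0x3000180058000a0000000000000000000000000000000) (nat_lit 0x0) (nat_lit 0x100008000000060001c001800000000000000000000000000) := T_3 (nat_lit 142) (nat_lit 108) (nat_lit 7) (nat_lit 6) (nat_lit 6) L1012084 (by decide +kernel)
theorem L1027450 : W_3 (nat_lit 6) (nat_lit 0x1000180058000a0000000000000000000000000000000) (nat_lit 0x0) (nat_lit 0x500028000000060001c001800000000000000000000000000) := T_3 (nat_lit 177) (nat_lit 194) (nat_lit 6) (nat_lit 7) (nat_lit 11) L1027449 (by decide +kernel)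
theorem L1027451 : W_3 (nat_lit 7) (nat_lit 0x1000180018000a0000000000000000000000000000000) (nat_lit 0x0) (nat_lit 0x500028000000660001c001800000000000000000000000000) := T_3 (nat_lit 146) (nat_lit 145) (nat_lit 1) (nat_lit 10) (nat_lit 8) L1027450 (by decide +kernel)
theorem L1027452 : W_3 (nat_lit 9) (nat_lit 0x100018001800080000000000000000000000000000000) (nat_lit 0x0) (nat_lit 0x3d001e8002000660007c001800000000000000000000000000) := Q_3 (nat_lit 125) (C_3 L1027439 (C_3 L1027441 (C_3 L1027448 (C_3 L1027451 N_3)))) (by decide +kernel)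
theorem L1027453 : W_3 (nat_lit 10) (nat_lit 0x18001800080000000000000000000000000000000) (nat_lit 0x0) (nat_lit 0xe003f001fe002000678007c0018000c0000000000000000000000) := Q_3 (nat_lit 176) (C_3 L1011426 (C_3 L1011456 (C_3 L1027435 (C_3 L1011450 (C_3 L1027437 (C_3 L1027452 N_3)))))) (by decide +kernel)
theorem L1027454 : W_3 (nat_lit 12) (nat_lit 0x10001800080000000000000000000000000000000) (nat_lit 0x0) (nat_lit 0x3e003f001fe002e00678007c0018000c0000000000000000000000) := Q_3 (nat_lit 159) (C_3 L1011395 (C_3 L1027179 (C_3 L1011301 (C_3 L1027453 N_3)))) (by decide +kernel)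
theorem L1027455 : W_3 (nat_lit 2) (nat_lit 0x7000180018000e8000000000000000000000000000000) (nat_lit 0x0) (nat_lit 0x800006000000000000000000000000000000000000000) := D_3 (nat_lit 158) (nat_lit 157) (nat_lit 179) (nat_lit 3) (nat_lit 4) (nat_lit 9) (nat_lit 0) (nat_lit 9) (nat_lit 10) (by decide +kernel)
theorem L1027456 : W_3 (nat_lit 3) (nat_lit 0x7000100018000e8000000000000000000000000000000) (nat_lit 0x0) (nat_lit 0x80000e000000000002000000000000000000000000000) := T_3 (nat_lit 159) (nat_lit 109) (nat_lit 5) (nat_lit 7) (nat_lit 6) L1027455 (by decide +kernel)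
theorem L1027457 : W_3 (nat_lit 4) (nat_lit 0x6000100018000e8000000000000000000000000000000) (nat_lit 0x0) (nat_lit 0x200090000e000000000002000000000000000000000000000) := T_3 (nat_lit 176) (nat_lit 193) (nat_lit 5) (nat_lit 7) (nat_lit 7) L1027456 (by decide +kernel)
theorem L1027458 : W_3 (nat_lit 5) (nat_lit 0x2000100018000e8000000000000000000000000000000) (nat_lit 0x0) (nat_lit 0xa000d0000e000000000002000000000000000000000000000) := T_3 (nat_lit 178) (nat_lit 195) (nat_lit 7) (nat_lit 7) (nat_lit 7) L1027457 (by decide +kernel)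
theorem L1027459 : W_3 (nat_lit 6) (nat_lit 0x2000100018000e0000000000000000000000000000000) (nat_lit 0x0) (nat_lit 0xa000d0000e000000018002000000000000000000000000000) := T_3 (nat_lit 123) (nat_lit 124) (nat_lit 3) (nat_lit 4) (nat_lit 7) L1027458 (by decide +kernel)
theorem L1027460 : W_3 (nat_lit 7) (nat_lit 0x100018000e0000000000000000000000000000000) (nat_lit 0x0) (nat_lit 0xa000f0000e000000018003000000000000000000000000000) := T_3 (nat_lit 177) (nat_lit 108) (nat_lit 4) (nat_lit 7) (nat_lit 10) L1027459 (by decide +kernel)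
theorem L1027461 : W_3 (nat_lit 8) (nat_lit 0x100018000c0000000000000000000000000000000) (nat_lit 0x0) (nat_lit 0xa000f0000e006400038003c0018000c000000000000000000) := Q_3 (nat_lit 125) (C_3 L1004369 (C_3 L1027460 (C_3 L616527 N_3))) (by decide +kernel)
theorem L1027462 : W_3 (nat_lit 6) (nat_lit 0x100018000e0000000000000000000000000000000) (nat_lit 0x0) (nat_lit 0x2000300028000000018003000100008000000000000000000) := T_3 (nat_lit 177) (nat_lit 108) (nat_lit 4) (nat_lit 7) (nat_lit 10) L985906 (by decide +kernel)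
theorem L1027463 : W_3 (nat_lit 8) (nat_lit 0x100018000c0000000000000000000000000000000) (nat_lit 0x0) (nat_lit 0x200030002e006400038003c0018000c000000000000000000) := Q_3 (nat_lit 125) (C_3 L1004369 (C_3 L1027462 (C_3 L616527 N_3))) (by decide +kernel)
theorem L1027468 : W_3 (nat_lit 6) (nat_lit 0x100018000c0000000000000000000000000000000) (nat_lit 0x0) (nat_lit 0x8000600020000000020003c0018000c000000000000000000) := Q_3 (nat_lit 109) (C_3 L1004367 (C_3 L771750 (C_3 L1027467 N_3))) (by decide +kernel)
theorem L1027473 : W_3 (nat_lit 6) (nat_lit 0x100018000c0000000000000000000000000000000) (nat_lit 0x0) (nat_lit 0x50002e006400000002000100008000000000000000000) := Q_3 (nat_lit 109) (C_3 L1004367 (C_3 L1027472 (C_3 L625704 N_3))) (by decide +kernel)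
theorem L1027474 : W_3 (nat_lit 6) (nat_lit 0x100058000e0000000000000000000000000000000) (nat_lit 0x0) (nat_lit 0xa000f0000e000000000003000000000000000000000000000) := T_3 (nat_lit 177) (nat_lit 108) (nat_lit 4) (nat_lit 7) (nat_lit 10) L616531 (by decide +kernel)
theorem L1027475 : W_3 (nat_lit 7) (nat_lit 0x100018000e0000000000000000000000000000000) (nat_lit 0x0) (nat_lit 0xa000f0000e006000000003000000000000000000000000000) := T_3 (nat_lit 146) (nat_lit 145) (nat_lit 0) (nat_lit 10) (nat_lit 8) L1027474 (by decide +kernel)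
theorem L1027476 : W_3 (nat_lit 8) (nat_lit 0x100018000c0000000000000000000000000000000) (nat_lit 0x0) (nat_lit 0xa000f0000e006000038003000000000000000000000000000) := Q_3 (nat_lit 125) (C_3 L1027460 (C_3 L1004369 (C_3 L1027475 N_3))) (by decide +kernel)
theorem L1027479 : W_3 (nat_lit 3) (nat_lit 0x100058000e0000000000000000000000000000000) (nat_lit 0x0) (nat_lit 0x200000000400000001000080004000000000000000000) := T_3 (nat_lit 108) (nat_lit 177) (nat_lit 4) (nat_lit 7) (nat_lit 10) L617759 (by decide +kernel)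
theorem L1027480 : W_3 (nat_lit 4) (nat_lit 0x100018000e0000000000000000000000000000000) (nat_lit 0x0) (nat_lit 0x200000006400000001000080004000000000000000000) := T_3 (nat_lit 146) (nat_lit 145) (nat_lit 0) (nat_lit 10) (nat_lit 8) L1027479 (by decide +kernel)
theorem L1027481 : W_3 (nat_lit 10) (nat_lit 0x100018000c0000000000000000000000000000000) (nat_lit 0x0) (nat_lit 0xa0007c000e006700038001c00080004000000000000000000) := Q_3 (nat_lit 125) (C_3 L1004369 (C_3 L1027478 (C_3 L1027480 N_3))) (by decide +kernel)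
theorem L1027482 : W_3 (nat_lit 11) (nat_lit 0x10001800080000000000000000000000000000000) (nat_lit 0x0) (nat_lit 0xa000fc002e006700078003c0018000c000000000000000000) := Q_3 (nat_lit 126) (C_3 L1011337 (C_3 L1011276 (C_3 L1027461 (C_3 L1027463 (C_3 L1027468 (C_3 L1027473 (C_3 L1027476 (C_3 L1027481 N_3)))))))) (by decide +kernel)
theorem L1027485 : W_3 (nat_lit 3) (nat_lit 0x18003c000e0002000000000000000000000000000) (nat_lit 0x0) (nat_lit 0x1c000c0000000000000000000000) := T_3 (nat_lit 108) (nat_lit 91) (nat_lit 7) (nat_lit 6) (nat_lit 5) L1012658 (by decide +kernel)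
theorem L1027486 : W_3 (nat_lit 4) (nat_lit 0x18003c000c0002000000000000000000000000000) (nat_lit 0x0) (nat_lit 0x30001c000c0000000000000000000000) := T_3 (nat_lit 125) (nat_lit 124) (nat_lit 3) (nat_lit 5) (nat_lit 7) L1027485 (by decide +kernel)
theorem L1027487 : W_3 (nat_lit 5) (nat_lit 0x10003c000c0002000000000000000000000000000) (nat_lit 0x0) (nat_lit 0xc000000030001c000c0000000000000000000000) := T_3 (nat_lit 159) (nat_lit 158) (nat_lit 1) (nat_lit 9) (nat_lit 8) L1027486 (by decide +kernel)
theorem L1027488 : W_3 (nat_lit 2) (nat_lit 0x10003e000c0002000000000000000000000000000) (nat_lit 0x0) (nat_lit 0xe000000000000000000000000000000000000000) := D_3 (nat_lit 158) (nat_lit 159) (nat_lit 157) (nat_lit 1) (nat_lit 9) (nat_lit 8) (nat_lit 1) (nat_lit 8) (nat_lit 8) (by decide +kernel)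
theorem L1027489 : W_3 (nat_lit 3) (nat_lit 0x10003c000c0002000000000000000000000000000) (nat_lit 0x0) (nat_lit 0xe000300000000000000000000000000000000000) := T_3 (nat_lit 141) (nat_lit 140) (nat_lit 2) (nat_lit 4) (nat_lit 8) L1027488 (by decide +kernel)
theorem L1027490 : W_3 (nat_lit 2) (nat_lit 0x400010003c000d0002000000000000000000000000000) (nat_lit 0x0) (nat_lit 0x300008000000000000000000000000000000) := D_3 (nat_lit 141) (nat_lit 140) (nat_lit 123) (nat_lit 2) (nat_lit 4) (nat_lit 8) (nat_lit 0) (nat_lit 8) (nat_lit 8) (by decide +kernel)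
theorem L1027491 : W_3 (nat_lit 3) (nat_lit 0x400010003c000c0002000000000000000000000000000) (nat_lit 0x0) (nat_lit 0x300038000000000000000000000000000000) := T_3 (nat_lit 124) (nat_lit 125) (nat_lit 3) (nat_lit 5) (nat_lit 7) L1027490 (by decide +kernel)
theorem L1027492 : W_3 (nat_lit 4) (nat_lit 0x10003c000c0002000000000000000000000000000) (nat_lit 0x0) (nat_lit 0x400020000300038000000000000000000000000000000) := T_3 (nat_lit 178) (nat_lit 161) (nat_lit 7) (nat_lit 7) (nat_lit 6) L1027491 (by decide +kernel)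
theorem L1027493 : W_3 (nat_lit 6) (nat_lit 0x100038000c0002000000000000000000000000000) (nat_lit 0x0) (nat_lit 0x40002e000700038001c000c0000000000000000000000) := Q_3 (nat_lit 142) (C_3 L1027487 (C_3 L1027489 (C_3 L1027492 N_3))) (by decide +kernel)
theorem L1027494 : W_3 (nat_lit 2) (nat_lit 0x100038000c0002000000000000000000000000000) (nat_lit 0x0) (nat_lit 0x4000030000000000000000000000000000000) := D_3 (nat_lit 125) (nat_lit 124) (nat_lit 146) (nat_lit 3) (nat_lit 5) (nat_lit 7) (nat_lit 0) (nat_lit 10) (nat_lit 8) (by decide +kernel)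
theorem L1027495 : W_3 (nat_lit 7) (nat_lit 0x100018000c0002000000000000000000000000000) (nat_lit 0x0) (nat_lit 0x40002e00e700038001c000c0000000000000000000000) := Q_3 (nat_lit 145) (C_3 L706816 (C_3 L1027493 (C_3 L1027494 N_3))) (by decide +kernel)
theorem L1027496 : W_3 (nat_lit 8) (nat_lit 0x100018000c0000000000000000000000000000000) (nat_lit 0x0) (nat_lit 0x40002e00e700038003c001c000c000000000000000000) := Q_3 (nat_lit 109) (C_3 L1004367 (C_3 L771750 (C_3 L1027495 N_3))) (by decide +kernel)
theorem L1027497 : W_3 (nat_lit 3) (nat_lit 0x6000100018000c0002000000000000000000000000000) (nat_lit 0x0) (nat_lit 0x100018000c000000000000000000) := T_3 (nat_lit 92) (nat_lit 75) (nat_lit 7) (nat_lit 7) (nat_lit 4) L772719 (by decide +kernel)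
theorem L1027498 : W_3 (nat_lit 4) (nat_lit 0x6000100018000c0000000000000000000000000000000) (nat_lit 0x0) (nat_lit 0x2000000000000300018000c000000000000000000) := T_3 (nat_lit 109) (nat_lit 161) (nat_lit 7) (nat_lit 7) (nat_lit 6) L1027497 (by decide +kernel)
theorem L1027499 : W_3 (nat_lit 5) (nat_lit 0x2000100018000c0000000000000000000000000000000) (nat_lit 0x0) (nat_lit 0x800040002000000000000300018000c000000000000000000) := T_3 (nat_lit 178) (nat_lit 195) (nat_lit 7) (nat_lit 7) (nat_lit 7) L1027498 (by decide +kernel)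
theorem L1027500 : W_3 (nat_lit 6) (nat_lit 0x100018000c0000000000000000000000000000000) (nat_lit 0x0) (nat_lit 0xc00060002000000000000300018000c000000000000000000) := T_3 (nat_lit 177) (nat_lit 194) (nat_lit 6) (nat_lit 7) (nat_lit 11) L1027499 (by decide +kernel)
theorem L1027501 : W_3 (nat_lit 2) (nat_lit 0xe000300018000c0000000000000000000000000000000) (nat_lit 0x0) (nat_lit 0x100000c000000000000000000000000000000000000000) := D_3 (nat_lit 159) (nat_lit 158) (nat_lit 180) (nat_lit 3) (nat_lit 5) (nat_lit 9) (nat_lit 0) (nat_lit 10) (nat_lit 10) (by decide +kernel)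
theorem L1027502 : W_3 (nat_lit 3) (nat_lit 0x6000300018000c0000000000000000000000000000000) (nat_lit 0x0) (nat_lit 0x1000180000c000000000000000000000000000000000000000) := T_3 (nat_lit 179) (nat_lit 196) (nat_lit 7) (nat_lit 8) (nat_lit 7) L1027501 (by decide +kernel)
theorem L1027503 : W_3 (nat_lit 4) (nat_lit 0x6000100018000c0000000000000000000000000000000) (nat_lit 0x0) (nat_lit 0x1000180002c000000000002000000000000000000000000000) := T_3 (nat_lit 161) (nat_lit 109) (nat_lit 7) (nat_lit 7) (nat_lit 6) L1027502 (by decide +kernel)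
theorem L1027504 : W_3 (nat_lit 5) (nat_lit 0x2000100018000c0000000000000000000000000000000) (nat_lit 0x0) (nat_lit 0x18001c0002c000000000002000000000000000000000000000) := T_3 (nat_lit 178) (nat_lit 195) (nat_lit 7) (nat_lit 7) (nat_lit 7) L1027503 (by decide +kernel)
theorem L1027505 : W_3 (nat_lit 6) (nat_lit 0x100018000c0000000000000000000000000000000) (nat_lit 0x0) (nat_lit 0x1c001e0002c000000000002000000000000000000000000000) := T_3 (nat_lit 177) (nat_lit 194) (nat_lit 6) (nat_lit 7) (nat_lit 11) L1027504 (by decide +kernel)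
theorem L1027506 : W_3 (nat_lit 9) (nat_lit 0x10001800080000000000000000000000000000000) (nat_lit 0x0) (nat_lit 0x1c001e0002e00e700078003c001c000c000000000000000000) := Q_3 (nat_lit 126) (C_3 L1027468 (C_3 L1027484 (C_3 L1027496 (C_3 L1027500 (C_3 L1027505 N_3))))) (by decide +kernel)
theorem L1027507 : W_3 (nat_lit 17) (nat_lit 0x1800080000000000000000000000000000000) (nat_lit 0x0) (nat_lit 0x8001c002e003f003fc03fe01bfc0e7c0e7f003f003e000f000000000000000000) := Q_3 (nat_lit 160) (C_3 L1011275 (C_3 L1011299 (C_3 L1011336 (C_3 L1011338 (C_3 L1011396 (C_3 L1012569 (C_3 L1015444 (C_3 L1015469 (C_3 L1027174 (C_3 L1027178 (C_3 L1027454 (C_3 L1027482 (C_3 L1027506 N_3))))))))))))) (by decide +kernel)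
theorem L1027508 : W_3 (nat_lit 9) (nat_lit 0x1800180000000000000000000000000000000) (nat_lit 0x0) (nat_lit 0xe00070003800200067803bc0038001c000000000000000000) := Q_3 (nat_lit 126) (C_3 L802216 (C_3 L988698 (C_3 L619393 N_3))) (by decide +kernel)
theorem L1027509 : W_3 (nat_lit 16) (nat_lit 0x1800080000000000000000000000000000000) (nat_lit 0x0) (nat_lit 0xe000fc003f00270077803bc00f8003c000000000000000000) := Q_3 (nat_lit 128) (C_3 L822581 (C_3 L802217 (C_3 L1027508 (C_3 L822525 N_3)))) (by decide +kernel)
theorem L1027510 : W_3 (nat_lit 11) (nat_lit 0x18001c0000000000000000000000000000000) (nat_lit 0x0) (nat_lit 0x50003c00660002001b800f8003c000000000000000000) := Q_3 (nat_lit 125) (C_3 L843531 (C_3 L979505 (C_3 L802210 N_3))) (by decide +kernel)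
theorem L1028261 : W_3 (nat_lit 3) (nat_lit 0x100018001c0002000000000000000000000000000) (nat_lit 0x0) (nat_lit 0x100018000c000000000000000000) := T_3 (nat_lit 91) (nat_lit 108) (nat_lit 4) (nat_lit 7) (nat_lit 9) L772462 (by decide +kernel)
theorem L1029758 : W_3 (nat_lit 2) (nat_lit 0x400020001a00180000000000000000000000000000000) (nat_lit 0x0) (nat_lit 0x8000000000000000040002000000000000000000000000000) := D_3 (nat_lit 126) (nat_lit 195) (nat_lit 109) (nat_lit 4) (nat_lit 8) (nat_lit 11) (nat_lit 4) (nat_lit 8) (nat_lit 10) (by decide +kernel)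
theorem L1029759 : W_3 (nat_lit 3) (nat_lit 0x20001a00180000000000000000000000000000000) (nat_lit 0x0) (nat_lit 0x800040000000000004000a000000000000000000000000000) := T_3 (nat_lit 178) (nat_lit 111) (nat_lit 6) (nat_lit 8) (nat_lit 10) L1029758 (by decide +kernel)
theorem L1029760 : W_3 (nat_lit 4) (nat_lit 0x20001800180000000000000000000000000000000) (nat_lit 0x0) (nat_lit 0x800040000000060004000a000000000000000000000000000) := T_3 (nat_lit 141) (nat_lit 142) (nat_lit 2) (nat_lit 5) (nat_lit 8) L1029759 (by decide +kernel)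
theorem L1029761 : W_3 (nat_lit 3) (nat_lit 0x20001800180000000000000000000000000000000) (nat_lit 0x0) (nat_lit 0x800040000000000004000a000000000000000000000000000) := T_3 (nat_lit 178) (nat_lit 111) (nat_lit 6) (nat_lit 8) (nat_lit 10) L979602 (by decide +kernel)
theorem L1029768 : W_3 (nat_lit 6) (nat_lit 0x20003c001a0000000000000000000000000000000) (nat_lit 0x0) (nat_lit 0x39c01c000000008000400000000000000000000000) := T_3 (nat_lit 159) (nat_lit 158) (nat_lit 1) (nat_lit 9) (nat_lit 8) L842859 (by decide +kernel)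
theorem L1029769 : W_3 (nat_lit 7) (nat_lit 0x20001c001a0000000000000000000000000000000) (nat_lit 0x0) (nat_lit 0x39c01e000010008000400000000000000000000000) := T_3 (nat_lit 145) (nat_lit 124) (nat_lit 0) (nat_lit 9) (nat_lit 8) L1029768 (by decide +kernel)
theorem L1029770 : W_3 (nat_lit 8) (nat_lit 0x200018001a0000000000000000000000000000000) (nat_lit 0x0) (nat_lit 0x39c01e600010008000400000000000000000000000) := T_3 (nat_lit 142) (nat_lit 141) (nat_lit 2) (nat_lit 5) (nat_lit 8) L1029769 (by decide +kernel)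
theorem L1029771 : W_3 (nat_lit 2) (nat_lit 0x20007c001a0000000000000000000000000000000) (nat_lit 0x0) (nat_lit 0x10018000000000000000000000000000000000000) := D_3 (nat_lit 147) (nat_lit 160) (nat_lit 148) (nat_lit 1) (nat_lit 11) (nat_lit 8) (nat_lit 0) (nat_lit 12) (nat_lit 8) (by decide +kernel)
theorem L1029772 : W_3 (nat_lit 3) (nat_lit 0x20003c001a0000000000000000000000000000000) (nat_lit 0x0) (nat_lit 0x1001c000040000000000000000000000000000000) := T_3 (nat_lit 146) (nat_lit 126) (nat_lit 3) (nat_lit 6) (nat_lit 7) L1029771 (by decide +kernel)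
theorem L1029773 : W_3 (nat_lit 4) (nat_lit 0x20001c001a0000000000000000000000000000000) (nat_lit 0x0) (nat_lit 0x1001e000050000000000000000000000000000000) := T_3 (nat_lit 145) (nat_lit 124) (nat_lit 0) (nat_lit 9) (nat_lit 8) L1029772 (by decide +kernel)
theorem L1029774 : W_3 (nat_lit 5) (nat_lit 0x200018001a0000000000000000000000000000000) (nat_lit 0x0) (nat_lit 0x1001e600050000000000000000000000000000000) := T_3 (nat_lit 142) (nat_lit 141) (nat_lit 2) (nat_lit 5) (nat_lit 8) L1029773 (by decide +kernel)
theorem L1029775 : W_3 (nat_lit 7) (nat_lit 0x200018001a0000000000000000000000000000000) (nat_lit 0x0) (nat_lit 0x200010000c00660004001b80058000c000000000000000000) := Q_3 (nat_lit 126) (C_3 L989258 (C_3 L989254 (C_3 L837233 N_3))) (by decide +kernel)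
theorem L1029776 : W_3 (nat_lit 9) (nat_lit 0x20001800180000000000000000000000000000000) (nat_lit 0x0) (nat_lit 0x200010039c01e70007801bc0058000c000000000000000000) := Q_3 (nat_lit 125) (C_3 L989255 (C_3 L989259 (C_3 L1029770 (C_3 L1029774 (C_3 L1029775 N_3))))) (by decide +kernel)
theorem L1029777 : W_3 (nat_lit 2) (nat_lit 0x8000400020001a00180000000000000000000000000000000) (nat_lit 0x0) (nat_lit 0x200010000800000000000000000000000000000000000000000000) := D_3 (nat_lit 196) (nat_lit 179) (nat_lit 213) (nat_lit 7) (nat_lit 8) (nat_lit 7) (nat_lit 7) (nat_lit 8) (nat_lit 8) (by decide +kernel)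
theorem L1029778 : W_3 (nat_lit 3) (nat_lit 0x400020001a00180000000000000000000000000000000) (nat_lit 0x0) (nat_lit 0x200018000800000002000000000000000000000000000000000000) := T_3 (nat_lit 195) (nat_lit 145) (nat_lit 6) (nat_lit 8) (nat_lit 11) L1029777 (by decide +kernel)
theorem L1029779 : W_3 (nat_lit 4) (nat_lit 0x20001a00180000000000000000000000000000000) (nat_lit 0x0) (nat_lit 0x200018000c00000002000000008000000000000000000000000000) := T_3 (nat_lit 178) (nat_lit 111) (nat_lit 6) (nat_lit 8) (nat_lit 10) L1029778 (by decide +kernel)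
theorem L1029780 : W_3 (nat_lit 5) (nat_lit 0x20001800180000000000000000000000000000000) (nat_lit 0x0) (nat_lit 0x200018000c00000002600000008000000000000000000000000000) := T_3 (nat_lit 141) (nat_lit 142) (nat_lit 2) (nat_lit 5) (nat_lit 8) L1029779 (by decide +kernel)
theorem L1029781 : W_3 (nat_lit 2) (nat_lit 0x800000002800fc001a0000000000000000000000000000000) (nat_lit 0x0) (nat_lit 0x380000000000000000000000000000000000000000) := D_3 (nat_lit 164) (nat_lit 163) (nat_lit 165) (nat_lit 3) (nat_lit 7) (nat_lit 8) (nat_lit 3) (nat_lit 8) (nat_lit 8) (by decide +kernel)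
theorem L1029782 : W_3 (nat_lit 3) (nat_lit 0x8000000028007c001a0000000000000000000000000000000) (nat_lit 0x0) (nat_lit 0x380018000000000000000000000000000000000000) := T_3 (nat_lit 147) (nat_lit 148) (nat_lit 0) (nat_lit 12) (nat_lit 8) L1029781 (by decide +kernel)
theorem L1029783 : W_3 (nat_lit 4) (nat_lit 0x8000000028003c001a0000000000000000000000000000000) (nat_lit 0x0) (nat_lit 0x39001c000000000000000000000000000000000000) := T_3 (nat_lit 146) (nat_lit 160) (nat_lit 1) (nat_lit 10) (nat_lit 8) L1029782 (by decide +kernel)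
theorem L1029784 : W_3 (nat_lit 5) (nat_lit 0x28003c001a0000000000000000000000000000000) (nat_lit 0x0) (nat_lit 0x800040039001c000000000000000000000000000000000000) := T_3 (nat_lit 195) (nat_lit 178) (nat_lit 6) (nat_lit 8) (nat_lit 11) L1029783 (by decide +kernel)
theorem L1029785 : W_3 (nat_lit 6) (nat_lit 0x20003c001a0000000000000000000000000000000) (nat_lit 0x0) (nat_lit 0x800040039c01c000000000000000000000000000000000000) := T_3 (nat_lit 159) (nat_lit 158) (nat_lit 1) (nat_lit 9) (nat_lit 8) L1029784 (by decide +kernel)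
theorem L1029786 : W_3 (nat_lit 7) (nat_lit 0x20001c001a0000000000000000000000000000000) (nat_lit 0x0) (nat_lit 0x800040039c01e000010000000000000000000000000000000) := T_3 (nat_lit 145) (nat_lit 124) (nat_lit 0) (nat_lit 9) (nat_lit 8) L1029785 (by decide +kernel)
theorem L1029787 : W_3 (nat_lit 2) (nat_lit 0x20001c001e0001000000000000000000000000000) (nat_lit 0x0) (nat_lit 0x8000400000000000000002000000000000000000000000000) := D_3 (nat_lit 178) (nat_lit 109) (nat_lit 195) (nat_lit 4) (nat_lit 8) (nat_lit 10) (nat_lit 4) (nat_lit 8) (nat_lit 11) (by decide +kernel)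
theorem L1029788 : W_3 (nat_lit 3) (nat_lit 0x20001c001a0001000000000000000000000000000) (nat_lit 0x0) (nat_lit 0x8000400000000000040002800000000000000000000000000) := T_3 (nat_lit 126) (nat_lit 107) (nat_lit 0) (nat_lit 9) (nat_lit 7) L1029787 (by decide +kernel)
theorem L1029789 : W_3 (nat_lit 2) (nat_lit 0x20001c001e0001000000000000000000000000000) (nat_lit 0x0) (nat_lit 0x10000000000000000080004000000000000000000) := D_3 (nat_lit 91) (nat_lit 160) (nat_lit 74) (nat_lit 7) (nat_lit 6) (nat_lit 5) (nat_lit 7) (nat_lit 6) (nat_lit 4) (by decide +kernel)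
theorem L1029790 : W_3 (nat_lit 3) (nat_lit 0x20001c001a0001000000000000000000000000000) (nat_lit 0x0) (nat_lit 0x10000000040000800080004000000000000000000) := T_3 (nat_lit 126) (nat_lit 107) (nat_lit 0) (nat_lit 9) (nat_lit 7) L1029789 (by decide +kernel)
theorem L1029791 : W_3 (nat_lit 2) (nat_lit 0x20001c001a00010001c0000000000000000000000) (nat_lit 0x0) (nat_lit 0x8000000000002800000000000000000000000000) := D_3 (nat_lit 159) (nat_lit 109) (nat_lit 107) (nat_lit 6) (nat_lit 6) (nat_lit 9) (nat_lit 4) (nat_lit 6) (nat_lit 9) (by decide +kernel)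
theorem L1029792 : W_3 (nat_lit 3) (nat_lit 0x20001c001a0001000180000000000000000000000) (nat_lit 0x0) (nat_lit 0x8000000000002800040002000000000000000000) := T_3 (nat_lit 90) (nat_lit 73) (nat_lit 4) (nat_lit 6) (nat_lit 8) L1029791 (by decide +kernel)
theorem L1029793 : W_3 (nat_lit 4) (nat_lit 0x20001c001a0001000080000000000000000000000) (nat_lit 0x0) (nat_lit 0x800000000000280014000a000000000000000000) := T_3 (nat_lit 92) (nat_lit 75) (nat_lit 6) (nat_lit 6) (nat_lit 8) L1029792 (by decide +kernel)
theorem L1029794 : W_3 (nat_lit 5) (nat_lit 0x20001c001a0001000000000000000000000000000) (nat_lit 0x0) (nat_lit 0x180000000000028001c000a000000000000000000) := T_3 (nat_lit 91) (nat_lit 160) (nat_lit 7) (nat_lit 6) (nat_lit 5) L1029793 (by decide +kernel)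
theorem L1029795 : W_3 (nat_lit 2) (nat_lit 0x20001c001a0001000080004000000000000000000) (nat_lit 0x0) (nat_lit 0x100008000400000000000000) := D_3 (nat_lit 75) (nat_lit 58) (nat_lit 92) (nat_lit 6) (nat_lit 6) (nat_lit 7) (nat_lit 6) (nat_lit 6) (nat_lit 8) (by decide +kernel)
theorem L1029796 : W_3 (nat_lit 3) (nat_lit 0x20001c001a0001000080000000000000000000000) (nat_lit 0x0) (nat_lit 0x4000000010000c000400000000000000) := T_3 (nat_lit 74) (nat_lit 126) (nat_lit 7) (nat_lit 6) (nat_lit 4) L1029795 (by decide +kernel)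
theorem L1029797 : W_3 (nat_lit 4) (nat_lit 0x20001c001a0001000000000000000000000000000) (nat_lit 0x0) (nat_lit 0x1000000004000000018000c000400000000000000) := T_3 (nat_lit 91) (nat_lit 160) (nat_lit 7) (nat_lit 6) (nat_lit 5) L1029796 (by decide +kernel)
theorem L1029798 : W_3 (nat_lit 6) (nat_lit 0x20001c001a0000000000000000000000000000000) (nat_lit 0x0) (nat_lit 0x80004000180000000400038001c000e000400000000000000) := Q_3 (nat_lit 108) (C_3 L1029788 (C_3 L1029790 (C_3 L1029794 (C_3 L1029797 N_3)))) (by decide +kernel)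
theorem L1029799 : W_3 (nat_lit 2) (nat_lit 0x2000fc001a0000000000000000000000000000000) (nat_lit 0x0) (nat_lit 0x380000000000000000000000000000000000000000) := D_3 (nat_lit 164) (nat_lit 163) (nat_lit 165) (nat_lit 3) (nat_lit 7) (nat_lit 8) (nat_lit 3) (nat_lit 8) (nat_lit 8) (by decide +kernel)
theorem L1029800 : W_3 (nat_lit 3) (nat_lit 0x20007c001a0000000000000000000000000000000) (nat_lit 0x0) (nat_lit 0x380018000000000000000000000000000000000000) := T_3 (nat_lit 147) (nat_lit 148) (nat_lit 0) (nat_lit 12) (nat_lit 8) L1029799 (by decide +kernel)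
theorem L1029801 : W_3 (nat_lit 4) (nat_lit 0x20003c001a0000000000000000000000000000000) (nat_lit 0x0) (nat_lit 0x38001c000040000000000000000000000000000000) := T_3 (nat_lit 146) (nat_lit 126) (nat_lit 3) (nat_lit 6) (nat_lit 7) L1029800 (by decide +kernel)
theorem L1029802 : W_3 (nat_lit 5) (nat_lit 0x20001c001a0000000000000000000000000000000) (nat_lit 0x0) (nat_lit 0x38001e000050000000000000000000000000000000) := T_3 (nat_lit 145) (nat_lit 124) (nat_lit 0) (nat_lit 9) (nat_lit 8) L1029801 (by decide +kernel)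
theorem L1029803 : W_3 (nat_lit 8) (nat_lit 0x20001c00180000000000000000000000000000000) (nat_lit 0x0) (nat_lit 0x800040039c01e0000700038001c000e000400000000000000) := Q_3 (nat_lit 125) (C_3 L1029786 (C_3 L1029798 (C_3 L1029773 (C_3 L1029802 N_3)))) (by decide +kernel)
theorem L1029804 : W_3 (nat_lit 9) (nat_lit 0x20001800180000000000000000000000000000000) (nat_lit 0x0) (nat_lit 0x800040039c01e6000700038001c000e000400000000000000) := T_3 (nat_lit 142) (nat_lit 141) (nat_lit 2) (nat_lit 5) (nat_lit 8) L1029803 (by decide +kernel)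
theorem L1029805 : W_3 (nat_lit 10) (nat_lit 0x1800180000000000000000000000000000000) (nat_lit 0x0) (nat_lit 0x20001a000d003bc01e70007801bc005c000e000400000000000000) := Q_3 (nat_lit 161) (C_3 L1029760 (C_3 L1029761 (C_3 L1029776 (C_3 L1029780 (C_3 L1029804 N_3))))) (by decide +kernel)
theorem L1029806 : W_3 (nat_lit 12) (nat_lit 0x1800080000000000000000000000000000000) (nat_lit 0x0) (nat_lit 0x20003a001d003bc01e70077803bc00fc007e000400000000000000) := Q_3 (nat_lit 128) (C_3 L988716 (C_3 L802142 (C_3 L1029805 (C_3 L822525 N_3)))) (by decide +kernel)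
theorem L1029811 : W_3 (nat_lit 8) (nat_lit 0x18000c0000000000000000000000000000000) (nat_lit 0x0) (nat_lit 0x40002000e000738039c00480024000000000000000000) := Q_3 (nat_lit 125) (C_3 L1029809 (C_3 L979459 (C_3 L988710 N_3))) (by decide +kernel)
theorem L1029812 : W_3 (nat_lit 15) (nat_lit 0x1800080000000000000000000000000000000) (nat_lit 0x0) (nat_lit 0x7e003f001be00e40077803bc01f800fc000000000000000000) := Q_3 (nat_lit 126) (C_3 L988705 (C_3 L619471 (C_3 L1029810 (C_3 L980832 (C_3 L1029811 (C_3 L625712 N_3)))))) (by decide +kernel)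
theorem L1030235 : W_3 (nat_lit 5) (nat_lit 0x1c001b0001000080002000000000000000000) (nat_lit 0x0) (nat_lit 0xc00080000000c000700020000000000) := T_3 (nat_lit 122) (nat_lit 123) (nat_lit 3) (nat_lit 3) (nat_lit 7) L979255 (by decide +kernel)
theorem L1030236 : W_3 (nat_lit 6) (nat_lit 0x1c001b0001000080000000000000000000000) (nat_lit 0x0) (nat_lit 0xc00080004000e000700020000000000) := T_3 (nat_lit 73) (nat_lit 90) (nat_lit 4) (nat_lit 6) (nat_lit 8) L1030235 (by decide +kernel)
theorem L1030237 : W_3 (nat_lit 7) (nat_lit 0x1c001a0001000080000000000000000000000) (nat_lit 0x0) (nat_lit 0x200001c00080004000e000700020000000000) := T_3 (nat_lit 124) (nat_lit 145) (nat_lit 0) (nat_lit 9) (nat_lit 8) L1030236 (by decide +kernel)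
theorem L1030247 : W_3 (nat_lit 2) (nat_lit 0x3c001a000100008000c000000000000000000) (nat_lit 0x0) (nat_lit 0x40002000100000000000000) := D_3 (nat_lit 73) (nat_lit 56) (nat_lit 90) (nat_lit 4) (nat_lit 6) (nat_lit 7) (nat_lit 4) (nat_lit 6) (nat_lit 8) (by decide +kernel)
theorem L1030248 : W_3 (nat_lit 3) (nat_lit 0x3c001a0001000080008000000000000000000) (nat_lit 0x0) (nat_lit 0x40006000500000000000000) := T_3 (nat_lit 74) (nat_lit 58) (nat_lit 6) (nat_lit 6) (nat_lit 7) L1030247 (by decide +kernel)
theorem L1030276 : W_3 (nat_lit 2) (nat_lit 0x3c001a0001000580006800000000000000000) (nat_lit 0x0) (nat_lit 0x20000000000008000000020000000000000000000) := D_3 (nat_lit 111) (nat_lit 161) (nat_lit 77) (nat_lit 5) (nat_lit 9) (nat_lit 5) (nat_lit 5) (nat_lit 9) (nat_lit 4) (by decide +kernel)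
theorem L1030277 : W_3 (nat_lit 3) (nat_lit 0x3c001a0001000180006800000000000000000) (nat_lit 0x0) (nat_lit 0x20000000000008000600020000000000000000000) := T_3 (nat_lit 94) (nat_lit 93) (nat_lit 0) (nat_lit 9) (nat_lit 5) L1030276 (by decide +kernel)
theorem L1030278 : W_3 (nat_lit 4) (nat_lit 0x3c001a0001000180006000000000000000000) (nat_lit 0x0) (nat_lit 0x20000000000008000600021800000000000000000) := T_3 (nat_lit 71) (nat_lit 72) (nat_lit 3) (nat_lit 3) (nat_lit 4) L1030277 (by decide +kernel)
theorem L1030279 : W_3 (nat_lit 5) (nat_lit 0x3c001a0001000180002000000000000000000) (nat_lit 0x0) (nat_lit 0x20000000000008000600025800100000000000000) := T_3 (nat_lit 74) (nat_lit 56) (nat_lit 4) (nat_lit 6) (nat_lit 7) L1030278 (by decide +kernel)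
theorem L1030280 : W_3 (nat_lit 6) (nat_lit 0x3c001a0001000180000000000000000000000) (nat_lit 0x0) (nat_lit 0x20000000000008000640027800100000000000000) := T_3 (nat_lit 73) (nat_lit 90) (nat_lit 4) (nat_lit 6) (nat_lit 8) L1030279 (by decide +kernel)
theorem L1030283 : W_3 (nat_lit 4) (nat_lit 0x3c001a0001000080000000000000000000000) (nat_lit 0x0) (nat_lit 0x14000e000500000000000000) := T_3 (nat_lit 75) (nat_lit 92) (nat_lit 6) (nat_lit 6) (nat_lit 8) L1030248 (by decide +kernel)
theorem L1031315 : W_3 (nat_lit 2) (nat_lit 0x10001c001e0000000000000000000000000000000) (nat_lit 0x0) (nat_lit 0x1800080000000000000000000000) := D_3 (nat_lit 108) (nat_lit 107) (nat_lit 91) (nat_lit 0) (nat_lit 9) (nat_lit 7) (nat_lit 7) (nat_lit 6) (nat_lit 5) (by decide +kernel)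
theorem L1031316 : W_3 (nat_lit 3) (nat_lit 0x100018001e0000000000000000000000000000000) (nat_lit 0x0) (nat_lit 0x600000001800080000000000000000000000) := T_3 (nat_lit 142) (nat_lit 141) (nat_lit 2) (nat_lit 5) (nat_lit 8) L1031315 (by decide +kernel)
theorem L1033688 : W_3 (nat_lit 2) (nat_lit 0x400010001c001c0002000000000000000000000000000) (nat_lit 0x0) (nat_lit 0xc000200000000000000000000000000000000000000000000) := D_3 (nat_lit 177) (nat_lit 194) (nat_lit 195) (nat_lit 6) (nat_lit 7) (nat_lit 11) (nat_lit 7) (nat_lit 7) (nat_lit 7) (by decide +kernel)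
theorem L1033689 : W_3 (nat_lit 3) (nat_lit 0x10001c001c0002000000000000000000000000000) (nat_lit 0x0) (nat_lit 0xc000600020000000000000000000000000000000000000000) := T_3 (nat_lit 178) (nat_lit 161) (nat_lit 7) (nat_lit 7) (nat_lit 6) L1033688 (by decide +kernel)
theorem L1033690 : W_3 (nat_lit 2) (nat_lit 0x4000000010001c001c0003000000000000000000000000000) (nat_lit 0x0) (nat_lit 0x20000c00000000000000000000000000) := D_3 (nat_lit 107) (nat_lit 106) (nat_lit 125) (nat_lit 3) (nat_lit 4) (nat_lit 6) (nat_lit 0) (nat_lit 9) (nat_lit 7) (by decide +kernel)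
theorem L1033691 : W_3 (nat_lit 3) (nat_lit 0x4000000010001c001c0002000000000000000000000000000) (nat_lit 0x0) (nat_lit 0x20001c00080000000000000000000000) := T_3 (nat_lit 108) (nat_lit 91) (nat_lit 4) (nat_lit 7) (nat_lit 9) L1033690 (by decide +kernel)
theorem L1033692 : W_3 (nat_lit 4) (nat_lit 0x10001c001c0002000000000000000000000000000) (nat_lit 0x0) (nat_lit 0x4000200000000000020001c00080000000000000000000000) := T_3 (nat_lit 194) (nat_lit 177) (nat_lit 6) (nat_lit 7) (nat_lit 11) L1033691 (by decide +kernel)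
theorem L1033693 : W_3 (nat_lit 2) (nat_lit 0x10001c001c0003000000000000000000000000000) (nat_lit 0x0) (nat_lit 0x20000c00000000000000000000000000) := D_3 (nat_lit 107) (nat_lit 106) (nat_lit 125) (nat_lit 3) (nat_lit 4) (nat_lit 6) (nat_lit 0) (nat_lit 9) (nat_lit 7) (by decide +kernel)
theorem L1033694 : W_3 (nat_lit 3) (nat_lit 0x10001c001c0002000000000000000000000000000) (nat_lit 0x0) (nat_lit 0x20001c00080000000000000000000000) := T_3 (nat_lit 108) (nat_lit 91) (nat_lit 4) (nat_lit 7) (nat_lit 9) L1033693 (by decide +kernel)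
theorem L1033695 : W_3 (nat_lit 5) (nat_lit 0x1c001c0002000000000000000000000000000) (nat_lit 0x0) (nat_lit 0xc000600030000000020001c00080000000000000000000000) := Q_3 (nat_lit 160) (C_3 L1033689 (C_3 L1033692 (C_3 L1033694 N_3))) (by decide +kernel)
theorem L1033696 : W_3 (nat_lit 7) (nat_lit 0x1c001c0000000000000000000000000000000) (nat_lit 0x0) (nat_lit 0xc000600030000000020003c0078001c000000000000000000) := Q_3 (nat_lit 109) (C_3 L642822 (C_3 L620581 (C_3 L1033695 N_3))) (by decide +kernel)
theorem L1033697 : W_3 (nat_lit 5) (nat_lit 0x20001c001c0008000100000000000000000000000) (nat_lit 0x0) (nat_lit 0x2000020070000e80000000000000000000000) := T_3 (nat_lit 94) (nat_lit 145) (nat_lit 5) (nat_lit 9) (nat_lit 5) L619573 (by decide +kernel)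
theorem L1033698 : W_3 (nat_lit 6) (nat_lit 0x20001c001c0008000000000000000000000000000) (nat_lit 0x0) (nat_lit 0x2000020072000f80000000000000000000000) := T_3 (nat_lit 92) (nat_lit 109) (nat_lit 7) (nat_lit 7) (nat_lit 5) L1033697 (by decide +kernel)
theorem L1033699 : W_3 (nat_lit 2) (nat_lit 0x20001c001e0008000000000000000000000000000) (nat_lit 0x0) (nat_lit 0x6000010000000000000000000000000000000) := D_3 (nat_lit 145) (nat_lit 146) (nat_lit 124) (nat_lit 3) (nat_lit 6) (nat_lit 7) (nat_lit 3) (nat_lit 5) (nat_lit 7) (by decide +kernel)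
theorem L1033700 : W_3 (nat_lit 3) (nat_lit 0x20001c001c0008000000000000000000000000000) (nat_lit 0x0) (nat_lit 0x6000030010000000000000000000000000000) := T_3 (nat_lit 125) (nat_lit 112) (nat_lit 2) (nat_lit 6) (nat_lit 7) L1033699 (by decide +kernel)
theorem L1033701 : W_3 (nat_lit 7) (nat_lit 0x20001c001c0000000000000000000000000000000) (nat_lit 0x0) (nat_lit 0x600003007a000f80020000000000000000000) := Q_3 (nat_lit 111) (C_3 L648543 (C_3 L619575 (C_3 L1033698 (C_3 L1033700 N_3)))) (by decide +kernel)
theorem L1033702 : W_3 (nat_lit 2) (nat_lit 0x20001c001c0000000000000000000000000000000) (nat_lit 0x0) (nat_lit 0x400000000000000002000100000000000000000000000) := D_3 (nat_lit 109) (nat_lit 92) (nat_lit 178) (nat_lit 7) (nat_lit 7) (nat_lit 5) (nat_lit 4) (nat_lit 8) (nat_lit 10) (by decide +kernel)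
theorem L1033703 : W_3 (nat_lit 8) (nat_lit 0x1c001c0000000000000000000000000000000) (nat_lit 0x0) (nat_lit 0x800040002000600003007a000f80020000000000000000000) := Q_3 (nat_lit 161) (C_3 L1033701 (C_3 L625750 (C_3 L1033702 N_3))) (by decide +kernel)
theorem L1033757 : W_3 (nat_lit 3) (nat_lit 0x10001c001a0000000000000000000000000000000) (nat_lit 0x0) (nat_lit 0x4000200000000000040001000080000000000000000000000) := T_3 (nat_lit 177) (nat_lit 194) (nat_lit 6) (nat_lit 7) (nat_lit 11) L951158 (by decide +kernel)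
theorem L1034061 : W_3 (nat_lit 8) (nat_lit 0x1c001b0001000180000000000000000000000) (nat_lit 0x0) (nat_lit 0xc002800040007800700030001000000) := T_3 (nat_lit 73) (nat_lit 90) (nat_lit 4) (nat_lit 6) (nat_lit 8) L993693 (by decide +kernel)
theorem L1034062 : W_3 (nat_lit 9) (nat_lit 0x1c001b0001000100000000000000000000000) (nat_lit 0x0) (nat_lit 0xc0028000c000f800700030001000000) := T_3 (nat_lit 91) (nat_lit 75) (nat_lit 6) (nat_lit 6) (nat_lit 8) L1034061 (by decide +kernel)
theorem L1034063 : W_3 (nat_lit 10) (nat_lit 0x1c001a0001000100000000000000000000000) (nat_lit 0x0) (nat_lit 0x200001c0028000c000f800700030001000000) := T_3 (nat_lit 124) (nat_lit 145) (nat_lit 0) (nat_lit 9) (nat_lit 8) L1034062 (by decide +kernel)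
theorem L1034611 : W_3 (nat_lit 2) (nat_lit 0x4000100018000c0003000000000000000000000000000) (nat_lit 0x0) (nat_lit 0xc000200000000000000000000000000000000000000000000) := D_3 (nat_lit 177) (nat_lit 194) (nat_lit 195) (nat_lit 6) (nat_lit 7) (nat_lit 11) (nat_lit 7) (nat_lit 7) (nat_lit 7) (by decide +kernel)
theorem L1034612 : W_3 (nat_lit 3) (nat_lit 0x4000000018000c0003000000000000000000000000000) (nat_lit 0x0) (nat_lit 0xc000200010000000000000000080000000000000000000000) := T_3 (nat_lit 160) (nat_lit 91) (nat_lit 4) (nat_lit 7) (nat_lit 9) L1034611 (by decide +kernel)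
theorem L1034613 : W_3 (nat_lit 4) (nat_lit 0x18000c0003000000000000000000000000000) (nat_lit 0x0) (nat_lit 0xc000600030000000000000000080000000000000000000000) := T_3 (nat_lit 178) (nat_lit 161) (nat_lit 4) (nat_lit 8) (nat_lit 10) L1034612 (by decide +kernel)
theorem L1034614 : W_3 (nat_lit 2) (nat_lit 0x100018000c0003400000000000000000000000000) (nat_lit 0x0) (nat_lit 0x4000200000000000020000000000000000000000000000000) := D_3 (nat_lit 177) (nat_lit 125) (nat_lit 194) (nat_lit 4) (nat_lit 7) (nat_lit 10) (nat_lit 6) (nat_lit 7) (nat_lit 11) (by decide +kernel)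
theorem L1034615 : W_3 (nat_lit 3) (nat_lit 0x18000c0003400000000000000000000000000) (nat_lit 0x0) (nat_lit 0x4000200010000000020000000080000000000000000000000) := T_3 (nat_lit 160) (nat_lit 91) (nat_lit 4) (nat_lit 7) (nat_lit 9) L1034614 (by decide +kernel)
theorem L1034616 : W_3 (nat_lit 4) (nat_lit 0x18000c0003000000000000000000000000000) (nat_lit 0x0) (nat_lit 0x4000200010000000020000c00080000000000000000000000) := T_3 (nat_lit 106) (nat_lit 107) (nat_lit 3) (nat_lit 4) (nat_lit 6) L1034615 (by decide +kernel)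
theorem L1036432 : W_3 (nat_lit 2) (nat_lit 0x1a000d00008000e0000000000000000000000) (nat_lit 0x0) (nat_lit 0x4000000000001400000000000000000000000000) := D_3 (nat_lit 158) (nat_lit 106) (nat_lit 108) (nat_lit 4) (nat_lit 5) (nat_lit 9) (nat_lit 6) (nat_lit 5) (nat_lit 9) (by decide +kernel)
theorem L1036433 : W_3 (nat_lit 3) (nat_lit 0x1a000d0000800060000000000000000000000) (nat_lit 0x0) (nat_lit 0x4000000000001400080004000000000000000000) := T_3 (nat_lit 91) (nat_lit 74) (nat_lit 6) (nat_lit 5) (nat_lit 8) L1036432 (by decide +kernel)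
theorem L1036434 : W_3 (nat_lit 4) (nat_lit 0x1a000d0000800040000000000000000000000) (nat_lit 0x0) (nat_lit 0x40000000000014000a0005000000000000000000) := T_3 (nat_lit 89) (nat_lit 72) (nat_lit 4) (nat_lit 5) (nat_lit 8) L1036433 (by decide +kernel)
theorem L1036435 : W_3 (nat_lit 2) (nat_lit 0x4001a000d00008000e0000000000000000000000) (nat_lit 0x0) (nat_lit 0x40002000100000000000000000000000000000000000) := D_3 (nat_lit 157) (nat_lit 140) (nat_lit 174) (nat_lit 5) (nat_lit 5) (nat_lit 5) (nat_lit 5) (nat_lit 5) (nat_lit 6) (by decide +kernel)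
theorem L1036436 : W_3 (nat_lit 3) (nat_lit 0x1a000d00008000e0000000000000000000000) (nat_lit 0x0) (nat_lit 0x40006000100000000400000000000000000000000000) := T_3 (nat_lit 158) (nat_lit 106) (nat_lit 4) (nat_lit 5) (nat_lit 9) L1036435 (by decide +kernel)
theorem L1036437 : W_3 (nat_lit 4) (nat_lit 0x1a000d0000800060000000000000000000000) (nat_lit 0x0) (nat_lit 0x40006000100000000400080004000000000000000000) := T_3 (nat_lit 91) (nat_lit 74) (nat_lit 6) (nat_lit 5) (nat_lit 8) L1036436 (by decide +kernel)
theorem L1036438 : W_3 (nat_lit 5) (nat_lit 0x1a000d0000800040000000000000000000000) (nat_lit 0x0) (nat_lit 0x400060001000000004000a0005000000000000000000) := T_3 (nat_lit 89) (nat_lit 72) (nat_lit 4) (nat_lit 5) (nat_lit 8) L1036437 (by decide +kernel)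
theorem L1036439 : W_3 (nat_lit 4) (nat_lit 0x1a000d0000800040000000000000000000000) (nat_lit 0x0) (nat_lit 0x2000100008000000020003000080000000000000) := T_3 (nat_lit 140) (nat_lit 157) (nat_lit 5) (nat_lit 5) (nat_lit 5) L634449 (by decide +kernel)
theorem L1036440 : W_3 (nat_lit 2) (nat_lit 0x1b000d00018000c0002000080000000000000) (nat_lit 0x0) (nat_lit 0x10000c000000000) := D_3 (nat_lit 56) (nat_lit 38) (nat_lit 39) (nat_lit 4) (nat_lit 5) (nat_lit 6) (nat_lit 7) (nat_lit 5) (nat_lit 2) (by decide +kernel)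
theorem L1036441 : W_3 (nat_lit 3) (nat_lit 0x1b000d00008000c0002000080000000000000) (nat_lit 0x0) (nat_lit 0x400000000000100000000000010000c000000000) := T_3 (nat_lit 108) (nat_lit 158) (nat_lit 6) (nat_lit 5) (nat_lit 9) L1036440 (by decide +kernel)
theorem L1036442 : W_3 (nat_lit 4) (nat_lit 0x1b000d00008000c0002000000000000000000) (nat_lit 0x0) (nat_lit 0x400000000000100000000100018000c000000000) := T_3 (nat_lit 55) (nat_lit 72) (nat_lit 4) (nat_lit 5) (nat_lit 7) L1036441 (by decide +kernel)
theorem L1036443 : W_3 (nat_lit 5) (nat_lit 0x1b000d00008000c0000000000000000000000) (nat_lit 0x0) (nat_lit 0x400000000800100000000300018000c000000000) := T_3 (nat_lit 73) (nat_lit 123) (nat_lit 5) (nat_lit 5) (nat_lit 4) L1036442 (by decide +kernel)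
theorem L1036444 : W_3 (nat_lit 6) (nat_lit 0x1a000d00008000c0000000000000000000000) (nat_lit 0x0) (nat_lit 0x600010000800100000000300018000c000000000) := T_3 (nat_lit 140) (nat_lit 157) (nat_lit 5) (nat_lit 5) (nat_lit 5) L1036443 (by decide +kernel)
theorem L1036445 : W_3 (nat_lit 7) (nat_lit 0x1a000d0000800040000000000000000000000) (nat_lit 0x0) (nat_lit 0x600010000800100008000700018000c000000000) := T_3 (nat_lit 91) (nat_lit 74) (nat_lit 6) (nat_lit 5) (nat_lit 8) L1036444 (by decide +kernel)
theorem L1036446 : W_3 (nat_lit 2) (nat_lit 0x4001b000d80008000c0000000000000000000000) (nat_lit 0x0) (nat_lit 0x1000080000000000000000400000000000000000000000000) := D_3 (nat_lit 175) (nat_lit 192) (nat_lit 106) (nat_lit 4) (nat_lit 5) (nat_lit 11) (nat_lit 4) (nat_lit 5) (nat_lit 10) (by decide +kernel)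
theorem L1036447 : W_3 (nat_lit 3) (nat_lit 0x1b000d80008000c0000000000000000000000) (nat_lit 0x0) (nat_lit 0x1000080004000000000001400000000000000000000000000) := T_3 (nat_lit 158) (nat_lit 108) (nat_lit 6) (nat_lit 5) (nat_lit 9) L1036446 (by decide +kernel)
theorem L1036448 : W_3 (nat_lit 4) (nat_lit 0x1b000d00008000c0000000000000000000000) (nat_lit 0x0) (nat_lit 0x1000080004000000008001400000002000000000000000000) := T_3 (nat_lit 123) (nat_lit 73) (nat_lit 5) (nat_lit 5) (nat_lit 4) L1036447 (by decide +kernel)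
theorem L1036449 : W_3 (nat_lit 5) (nat_lit 0x1a000d00008000c0000000000000000000000) (nat_lit 0x0) (nat_lit 0x1000080006000100008001400000002000000000000000000) := T_3 (nat_lit 140) (nat_lit 157) (nat_lit 5) (nat_lit 5) (nat_lit 5) L1036448 (by decide +kernel)
theorem L1036450 : W_3 (nat_lit 6) (nat_lit 0x1a000d0000800040000000000000000000000) (nat_lit 0x0) (nat_lit 0x1000080006000100008001400080006000000000000000000) := T_3 (nat_lit 91) (nat_lit 74) (nat_lit 6) (nat_lit 5) (nat_lit 8) L1036449 (by decide +kernel)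
theorem L1036451 : W_3 (nat_lit 8) (nat_lit 0x1a000d0000800000000000000000000000000) (nat_lit 0x0) (nat_lit 0x10000c00060001000080014000e000700018000c000000000) := Q_3 (nat_lit 90) (C_3 L1036434 (C_3 L1036438 (C_3 L1036439 (C_3 L1036445 (C_3 L1036450 N_3))))) (by decide +kernel)
theorem L1036452 : W_3 (nat_lit 2) (nat_lit 0x1a000d0000c000e0000000000000000000000) (nat_lit 0x0) (nat_lit 0x300100000000000000000000000) := D_3 (nat_lit 105) (nat_lit 104) (nat_lit 92) (nat_lit 2) (nat_lit 2) (nat_lit 6) (nat_lit 1) (nat_lit 7) (nat_lit 5) (by decide +kernel)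
theorem L1036453 : W_3 (nat_lit 3) (nat_lit 0x1a000d00008000e0000000000000000000000) (nat_lit 0x0) (nat_lit 0x4000000000000700100000000000000000000000) := T_3 (nat_lit 106) (nat_lit 158) (nat_lit 4) (nat_lit 5) (nat_lit 9) L1036452 (by decide +kernel)
theorem L1036454 : W_3 (nat_lit 4) (nat_lit 0x1a000d0000800060000000000000000000000) (nat_lit 0x0) (nat_lit 0x4000000000000700180004000000000000000000) := T_3 (nat_lit 91) (nat_lit 74) (nat_lit 6) (nat_lit 5) (nat_lit 8) L1036453 (by decide +kernel)
theorem L1036455 : W_3 (nat_lit 5) (nat_lit 0x1a000d0000800040000000000000000000000) (nat_lit 0x0) (nat_lit 0x40000000000007001a0005000000000000000000) := T_3 (nat_lit 89) (nat_lit 72) (nat_lit 4) (nat_lit 5) (nat_lit 8) L1036454 (by decide +kernel)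
theorem L1036456 : W_3 (nat_lit 2) (nat_lit 0x1b000d0000800040002000000000000000000) (nat_lit 0x0) (nat_lit 0x80004000200000000000000) := D_3 (nat_lit 74) (nat_lit 91) (nat_lit 57) (nat_lit 6) (nat_lit 5) (nat_lit 8) (nat_lit 6) (nat_lit 5) (nat_lit 7) (by decide +kernel)
theorem L1036457 : W_3 (nat_lit 3) (nat_lit 0x1b000d0000800040000000000000000000000) (nat_lit 0x0) (nat_lit 0x8000000080006000200000000000000) := T_3 (nat_lit 73) (nat_lit 123) (nat_lit 5) (nat_lit 5) (nat_lit 4) L1036456 (by decide +kernel)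
theorem L1036458 : W_3 (nat_lit 4) (nat_lit 0x1a000d0000800040000000000000000000000) (nat_lit 0x0) (nat_lit 0x2000100008000000080006000200000000000000) := T_3 (nat_lit 140) (nat_lit 157) (nat_lit 5) (nat_lit 5) (nat_lit 5) L1036457 (by decide +kernel)
theorem L1036459 : W_3 (nat_lit 6) (nat_lit 0x1a000d0000800000000000000000000000000) (nat_lit 0x0) (nat_lit 0x400060001000080007001e0007000280000000000000) := Q_3 (nat_lit 90) (C_3 L1036439 (C_3 L1036438 (C_3 L1036455 (C_3 L1036458 N_3)))) (by decide +kernel)
theorem L1036461 : W_3 (nat_lit 2) (nat_lit 0x1a000d0002c00300000000000000000000000) (nat_lit 0x0) (nat_lit 0xc0004000000000000000000) := D_3 (nat_lit 91) (nat_lit 90) (nat_lit 74) (nat_lit 1) (nat_lit 8) (nat_lit 5) (nat_lit 4) (nat_lit 7) (nat_lit 8) (by decide +kernel)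
theorem L1036462 : W_3 (nat_lit 3) (nat_lit 0x1a000d0002c00100000000000000000000000) (nat_lit 0x0) (nat_lit 0x2c0014000000000000000000) := T_3 (nat_lit 93) (nat_lit 76) (nat_lit 6) (nat_lit 7) (nat_lit 8) L1036461 (by decide +kernel)
theorem L1036463 : W_3 (nat_lit 4) (nat_lit 0x1a000d0002c00000000000000000000000000) (nat_lit 0x0) (nat_lit 0x3c001c000000000000000000) := T_3 (nat_lit 92) (nat_lit 75) (nat_lit 7) (nat_lit 7) (nat_lit 4) L1036462 (by decide +kernel)
theorem L1036464 : W_3 (nat_lit 5) (nat_lit 0x1a000d0002800000000000000000000000000) (nat_lit 0x0) (nat_lit 0x14003c001c000000000000000000) := T_3 (nat_lit 106) (nat_lit 108) (nat_lit 3) (nat_lit 4) (nat_lit 6) L1036463 (by decide +kernel)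
theorem L1036540 : W_3 (nat_lit 2) (nat_lit 0x4001a000d0000c00000000000000000000000000) (nat_lit 0x0) (nat_lit 0x3000080000000000000000000000) := D_3 (nat_lit 108) (nat_lit 109) (nat_lit 91) (nat_lit 3) (nat_lit 4) (nat_lit 6) (nat_lit 6) (nat_lit 5) (nat_lit 9) (by decide +kernel)
theorem L1036541 : W_3 (nat_lit 3) (nat_lit 0x4001a000d0000800000000000000000000000000) (nat_lit 0x0) (nat_lit 0x34000a0000000000000000000000) := T_3 (nat_lit 106) (nat_lit 89) (nat_lit 4) (nat_lit 5) (nat_lit 9) L1036540 (by decide +kernel)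
theorem L1036549 : W_3 (nat_lit 2) (nat_lit 0x80004001a000d0001c00000000000000000000000000) (nat_lit 0x0) (nat_lit 0x800040002000000000000000000000000000000000000000) := D_3 (nat_lit 174) (nat_lit 157) (nat_lit 191) (nat_lit 5) (nat_lit 5) (nat_lit 6) (nat_lit 5) (nat_lit 5) (nat_lit 7) (by decide +kernel)
theorem L1036550 : W_3 (nat_lit 3) (nat_lit 0x4001a000d0001c00000000000000000000000000) (nat_lit 0x0) (nat_lit 0x8000c0002000000008000000000000000000000000000000) := T_3 (nat_lit 175) (nat_lit 123) (nat_lit 4) (nat_lit 5) (nat_lit 10) L1036549 (by decide +kernel)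
theorem L1036561 : W_3 (nat_lit 4) (nat_lit 0x4001a000d0001800000000000000000000000000) (nat_lit 0x0) (nat_lit 0x8000c0002000000008002400000000000000000000000000) := T_3 (nat_lit 106) (nat_lit 109) (nat_lit 3) (nat_lit 4) (nat_lit 6) L1036550 (by decide +kernel)
theorem L1036562 : W_3 (nat_lit 5) (nat_lit 0x4001a000d0000800000000000000000000000000) (nat_lit 0x0) (nat_lit 0x8000c0002000000008003400080000000000000000000000) := T_3 (nat_lit 108) (nat_lit 91) (nat_lit 6) (nat_lit 5) (nat_lit 9) L1036561 (by decide +kernel)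
theorem L1038515 : W_3 (nat_lit 2) (nat_lit 0x18001c0000000700000000000000000000000) (nat_lit 0x0) (nat_lit 0x400600000000000000000000000000000000) := D_3 (nat_lit 129) (nat_lit 142) (nat_lit 130) (nat_lit 1) (nat_lit 10) (nat_lit 7) (nat_lit 1) (nat_lit 11) (nat_lit 7) (by decide +kernel)
theorem L1038552 : W_3 (nat_lit 2) (nat_lit 0x18000c0020000f00008000000000000000000) (nat_lit 0x0) (nat_lit 0x40001000010000000000000000000) := D_3 (nat_lit 96) (nat_lit 76) (nat_lit 114) (nat_lit 0) (nat_lit 11) (nat_lit 5) (nat_lit 3) (nat_lit 8) (nat_lit 5) (by decide +kernel)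
theorem L1038553 : W_3 (nat_lit 3) (nat_lit 0x18000c0000000f00008000000000000000000) (nat_lit 0x0) (nat_lit 0x70001000010000000000000000000) := T_3 (nat_lit 113) (nat_lit 112) (nat_lit 3) (nat_lit 7) (nat_lit 5) L1038552 (by decide +kernel)
theorem L1038554 : W_3 (nat_lit 4) (nat_lit 0x18000c0000000f00000000000000000000000) (nat_lit 0x0) (nat_lit 0x7000100001c000000000000000000) := T_3 (nat_lit 75) (nat_lit 74) (nat_lit 0) (nat_lit 10) (nat_lit 5) L1038553 (by decide +kernel)
theorem L1038556 : W_3 (nat_lit 4) (nat_lit 0x18001c0000000700020000000000000000000) (nat_lit 0x0) (nat_lit 0xc0057000000000000000000) := T_3 (nat_lit 91) (nat_lit 78) (nat_lit 2) (nat_lit 6) (nat_lit 5) L642261 (by decide +kernel)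
theorem L1038557 : W_3 (nat_lit 5) (nat_lit 0x18001c0000000700000000000000000000000) (nat_lit 0x0) (nat_lit 0x80000c0077000000000000000000) := T_3 (nat_lit 77) (nat_lit 111) (nat_lit 5) (nat_lit 9) (nat_lit 4) L1038556 (by decide +kernel)
theorem L1038558 : W_3 (nat_lit 6) (nat_lit 0x18000c0000000700000000000000000000000) (nat_lit 0x0) (nat_lit 0x4007000080000c0077000000000000000000) := Q_3 (nat_lit 128) (C_3 L1038515 (C_3 L1038557 N_3)) (by decide +kernel)
theorem L1038595 : W_3 (nat_lit 2) (nat_lit 0x18000c0010000f00060000000000000000000) (nat_lit 0x0) (nat_lit 0x4000200000000000000001000000000000000) := D_3 (nat_lit 129) (nat_lit 60) (nat_lit 146) (nat_lit 4) (nat_lit 10) (nat_lit 7) (nat_lit 4) (nat_lit 10) (nat_lit 8) (by decide +kernel)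
theorem L1038596 : W_3 (nat_lit 3) (nat_lit 0x18000c0000000f00060000000000000000000) (nat_lit 0x0) (nat_lit 0x4000200030000000000001000000000000000) := T_3 (nat_lit 112) (nat_lit 113) (nat_lit 3) (nat_lit 7) (nat_lit 5) L1038595 (by decide +kernel)
theorem L1038597 : W_3 (nat_lit 4) (nat_lit 0x18000c0000000f00040000000000000000000) (nat_lit 0x0) (nat_lit 0x4000200030000080020001000000000000000) := T_3 (nat_lit 77) (nat_lit 91) (nat_lit 2) (nat_lit 6) (nat_lit 5) L1038596 (by decide +kernel)
theorem L1038598 : W_3 (nat_lit 5) (nat_lit 0x18000c0000000f00000000000000000000000) (nat_lit 0x0) (nat_lit 0x40002000300000800e0001000000000000000) := T_3 (nat_lit 78) (nat_lit 79) (nat_lit 2) (nat_lit 7) (nat_lit 5) L1038597 (by decide +kernel)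
theorem L1038600 : W_3 (nat_lit 6) (nat_lit 0x18000c0000000700000000000000000000000) (nat_lit 0x0) (nat_lit 0x40002000700018801fc001000000000000000) := Q_3 (nat_lit 95) (C_3 L1038554 (C_3 L1038598 (C_3 L628912 N_3))) (by decide +kernel)
theorem L1038613 : W_3 (nat_lit 2) (nat_lit 0x18000c0020000f00080000000000000000000) (nat_lit 0x0) (nat_lit 0x40001000100000000000000000000) := D_3 (nat_lit 96) (nat_lit 80) (nat_lit 114) (nat_lit 2) (nat_lit 8) (nat_lit 5) (nat_lit 3) (nat_lit 8) (nat_lit 5) (by decide +kernel)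
theorem L1038614 : W_3 (nat_lit 3) (nat_lit 0x18000c0000000f00080000000000000000000) (nat_lit 0x0) (nat_lit 0x70001000100000000000000000000) := T_3 (nat_lit 113) (nat_lit 112) (nat_lit 3) (nat_lit 7) (nat_lit 5) L1038613 (by decide +kernel)
theorem L1038615 : W_3 (nat_lit 4) (nat_lit 0x18000c0000000f00000000000000000000000) (nat_lit 0x0) (nat_lit 0x700010001c0000000000000000000) := T_3 (nat_lit 79) (nat_lit 78) (nat_lit 2) (nat_lit 7) (nat_lit 5) L1038614 (by decide +kernel)
theorem L1039864 : W_3 (nat_lit 2) (nat_lit 0x4000100058001c0000000000000000000000000000000) (nat_lit 0x0) (nat_lit 0xc000200000000000000000000000000000000000000000000) := D_3 (nat_lit 177) (nat_lit 194) (nat_lit 195) (nat_lit 6) (nat_lit 7) (nat_lit 11) (nat_lit 7) (nat_lit 7) (nat_lit 7) (by decide +kernel)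
theorem L1044371 : W_3 (nat_lit 2) (nat_lit 0x1f00080000000000000000000000000000000) (nat_lit 0x0) (nat_lit 0x7000000000000000000000000000000000000000) := D_3 (nat_lit 157) (nat_lit 156) (nat_lit 158) (nat_lit 1) (nat_lit 7) (nat_lit 8) (nat_lit 1) (nat_lit 8) (nat_lit 8) (by decide +kernel)
theorem L1044372 : W_3 (nat_lit 3) (nat_lit 0x1e00080000000000000000000000000000000) (nat_lit 0x0) (nat_lit 0x7000100040000000000000000000000000000000) := T_3 (nat_lit 140) (nat_lit 126) (nat_lit 2) (nat_lit 4) (nat_lit 8) L1044371 (by decide +kernel)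
theorem L1044373 : W_3 (nat_lit 4) (nat_lit 0x1c00080000000000000000000000000000000) (nat_lit 0x0) (nat_lit 0x7000300140000000000000000000000000000000) := T_3 (nat_lit 141) (nat_lit 128) (nat_lit 2) (nat_lit 5) (nat_lit 8) L1044372 (by decide +kernel)
theorem L1044374 : W_3 (nat_lit 4) (nat_lit 0x1001f00090000000000000000000000000000000) (nat_lit 0x0) (nat_lit 0x308020c0020000000000000000000000000000000) := T_3 (nat_lit 160) (nat_lit 161) (nat_lit 3) (nat_lit 4) (nat_lit 8) L1016636 (by decide +kernel)
theorem L1044375 : W_3 (nat_lit 5) (nat_lit 0x1f00090000000000000000000000000000000) (nat_lit 0x0) (nat_lit 0x338020c0020000000000000000000000000000000) := T_3 (nat_lit 156) (nat_lit 157) (nat_lit 1) (nat_lit 7) (nat_lit 8) L1044374 (by decide +kernel)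
theorem L1044376 : W_3 (nat_lit 6) (nat_lit 0x1e00090000000000000000000000000000000) (nat_lit 0x0) (nat_lit 0x338021c0060000000000000000000000000000000) := T_3 (nat_lit 140) (nat_lit 126) (nat_lit 2) (nat_lit 4) (nat_lit 8) L1044375 (by decide +kernel)
theorem L1044377 : W_3 (nat_lit 7) (nat_lit 0x1e00080000000000000000000000000000000) (nat_lit 0x0) (nat_lit 0x338021c0078000000000000000000000000000000) := T_3 (nat_lit 124) (nat_lit 123) (nat_lit 0) (nat_lit 8) (nat_lit 8) L1044376 (by decide +kernel)
theorem L1044378 : W_3 (nat_lit 2) (nat_lit 0x1f00080000000000000000000000000000000) (nat_lit 0x0) (nat_lit 0x1c000000000000000000000000000000) := D_3 (nat_lit 123) (nat_lit 122) (nat_lit 124) (nat_lit 0) (nat_lit 7) (nat_lit 8) (nat_lit 0) (nat_lit 8) (nat_lit 8) (by decide +kernel)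
theorem L1044379 : W_3 (nat_lit 3) (nat_lit 0x1e00080000000000000000000000000000000) (nat_lit 0x0) (nat_lit 0x10005c000000000000000000000000000000) := T_3 (nat_lit 140) (nat_lit 126) (nat_lit 2) (nat_lit 4) (nat_lit 8) L1044378 (by decide +kernel)
theorem L1044380 : W_3 (nat_lit 8) (nat_lit 0x1c00080000000000000000000000000000000) (nat_lit 0x0) (nat_lit 0x800378023c007c001000080000000000000000000000) := Q_3 (nat_lit 141) (C_3 L1044372 (C_3 L997608 (C_3 L1044377 (C_3 L1044379 N_3)))) (by decide +kernel)
theorem L1044381 : W_3 (nat_lit 2) (nat_lit 0x1c00180000000000000000000000000000000) (nat_lit 0x0) (nat_lit 0x640000000000000000000000000000000) := D_3 (nat_lit 129) (nat_lit 126) (nat_lit 130) (nat_lit 1) (nat_lit 10) (nat_lit 7) (nat_lit 1) (nat_lit 11) (nat_lit 7) (by decide +kernel)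
theorem L1045403 : W_3 (nat_lit 8) (nat_lit 0x3c000a0000000000000000000000000000000) (nat_lit 0x0) (nat_lit 0x4003b001c000d40008000400000000000000000000000) := T_3 (nat_lit 146) (nat_lit 126) (nat_lit 0) (nat_lit 10) (nat_lit 8) L998214 (by decide +kernel)
theorem L1045404 : W_3 (nat_lit 9) (nat_lit 0x3c00080000000000000000000000000000000) (nat_lit 0x0) (nat_lit 0x4003b001c000d70008000400000000000000000000000) := T_3 (nat_lit 125) (nat_lit 124) (nat_lit 0) (nat_lit 9) (nat_lit 8) L1045403 (by decide +kernel)
theorem L1045408 : W_3 (nat_lit 3) (nat_lit 0x3c001e0000000000000000000000000000000) (nat_lit 0x0) (nat_lit 0x200010000000000001800080000000000000000000000) := T_3 (nat_lit 108) (nat_lit 107) (nat_lit 0) (nat_lit 9) (nat_lit 7) L1045407 (by decide +kernel)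
theorem L1045409 : W_3 (nat_lit 4) (nat_lit 0x3c001c0000000000000000000000000000000) (nat_lit 0x0) (nat_lit 0x200010000000030001800080000000000000000000000) := T_3 (nat_lit 125) (nat_lit 124) (nat_lit 3) (nat_lit 5) (nat_lit 7) L1045408 (by decide +kernel)
theorem L1045410 : W_3 (nat_lit 5) (nat_lit 0x3c000c0000000000000000000000000000000) (nat_lit 0x0) (nat_lit 0x200010000000330001800080000000000000000000000) := T_3 (nat_lit 128) (nat_lit 129) (nat_lit 2) (nat_lit 6) (nat_lit 8) L1045409 (by decide +kernel)
theorem L1045823 : W_3 (nat_lit 7) (nat_lit 0x3c001a0001000100000000000000000000000) (nat_lit 0x0) (nat_lit 0x200000000000080006c002f800100000000000000) := T_3 (nat_lit 91) (nat_lit 75) (nat_lit 6) (nat_lit 6) (nat_lit 8) L1030280 (by decide +kernel)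
theorem L1045916 : W_3 (nat_lit 2) (nat_lit 0x3c000a0001000080004000000000000000000) (nat_lit 0x0) (nat_lit 0x100008000400000000000000) := D_3 (nat_lit 75) (nat_lit 58) (nat_lit 92) (nat_lit 6) (nat_lit 6) (nat_lit 7) (nat_lit 6) (nat_lit 6) (nat_lit 8) (by decide +kernel)
theorem L1045917 : W_3 (nat_lit 3) (nat_lit 0x3c000a0001000080000000000000000000000) (nat_lit 0x0) (nat_lit 0x4000000010000c000400000000000000) := T_3 (nat_lit 74) (nat_lit 126) (nat_lit 7) (nat_lit 6) (nat_lit 4) L1045916 (by decide +kernel)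
theorem L1045918 : W_3 (nat_lit 4) (nat_lit 0x3c000a0001000000000000000000000000000) (nat_lit 0x0) (nat_lit 0x1000000004000000018000c000400000000000000) := T_3 (nat_lit 91) (nat_lit 160) (nat_lit 7) (nat_lit 6) (nat_lit 5) L1045917 (by decide +kernel)
theorem L1045920 : W_3 (nat_lit 5) (nat_lit 0x3c001a0001000000000000000000000000000) (nat_lit 0x0) (nat_lit 0x100000000000000001c000e000500000000000000) := T_3 (nat_lit 91) (nat_lit 160) (nat_lit 7) (nat_lit 6) (nat_lit 5) L1030283 (by decide +kernel)
theorem L1045921 : W_3 (nat_lit 6) (nat_lit 0x3c000a0001000000000000000000000000000) (nat_lit 0x0) (nat_lit 0x100000003000000001c000e000500000000000000) := T_3 (nat_lit 128) (nat_lit 129) (nat_lit 2) (nat_lit 6) (nat_lit 8) L1045920 (by decide +kernel)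
theorem L1045923 : W_3 (nat_lit 4) (nat_lit 0x3c001a0001000000000000000000000000000) (nat_lit 0x0) (nat_lit 0x20000000040018800400020000000000000000000) := T_3 (nat_lit 126) (nat_lit 107) (nat_lit 0) (nat_lit 9) (nat_lit 7) L979478 (by decide +kernel)
theorem L1045924 : W_3 (nat_lit 5) (nat_lit 0x3c000a0001000000000000000000000000000) (nat_lit 0x0) (nat_lit 0x20000000340018800400020000000000000000000) := T_3 (nat_lit 128) (nat_lit 129) (nat_lit 2) (nat_lit 6) (nat_lit 8) L1045923 (by decide +kernel)
theorem L1045974 : W_3 (nat_lit 7) (nat_lit 0x3c000a0000000000000000000000000000000) (nat_lit 0x0) (nat_lit 0x300000003400198005c002e000500000000000000) := Q_3 (nat_lit 108) (C_3 L1045918 (C_3 L1045924 (C_3 L1045921 N_3))) (by decide +kernel)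
theorem L1045975 : W_3 (nat_lit 8) (nat_lit 0x3c00080000000000000000000000000000000) (nat_lit 0x0) (nat_lit 0x300000003700198005c002e000500000000000000) := T_3 (nat_lit 125) (nat_lit 124) (nat_lit 0) (nat_lit 9) (nat_lit 8) L1045974 (by decide +kernel)
theorem L1045980 : W_3 (nat_lit 10) (nat_lit 0x1c00080000000000000000000000000000000) (nat_lit 0x0) (nat_lit 0x4003b001e000f700198005c002e000500000000000000) := Q_3 (nat_lit 145) (C_3 L1045402 (C_3 L1045404 (C_3 L998216 (C_3 L1045975 (C_3 L1045979 N_3))))) (by decide +kernel)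
theorem L1045981 : W_3 (nat_lit 11) (nat_lit 0x1800080000000000000000000000000000000) (nat_lit 0x0) (nat_lit 0x4803b781e7c0f7c0198005c002e000500000000000000) := Q_3 (nat_lit 142) (C_3 L1044373 (C_3 L998218 (C_3 L1044380 (C_3 L1045980 N_3)))) (by decide +kernel)
theorem L1045982 : W_3 (nat_lit 9) (nat_lit 0x18001c0000000000000000000000000000000) (nat_lit 0x0) (nat_lit 0x800040002000660003007a000f80020000000000000000000) := T_3 (nat_lit 142) (nat_lit 141) (nat_lit 2) (nat_lit 5) (nat_lit 8) L1033703 (by decide +kernel)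
theorem L1045983 : W_3 (nat_lit 6) (nat_lit 0x18001c0000000000000000000000000000000) (nat_lit 0x0) (nat_lit 0x20006700038018000400020000000000000000000) := Q_3 (nat_lit 125) (C_3 L980791 (C_3 L619395 (C_3 L979489 N_3))) (by decide +kernel)
theorem L1045984 : W_3 (nat_lit 12) (nat_lit 0x1800180000000000000000000000000000000) (nat_lit 0x0) (nat_lit 0x3e003f001be00e70007807a000f80028000000000000000000) := Q_3 (nat_lit 126) (C_3 L988717 (C_3 L620834 (C_3 L988689 (C_3 L1045982 (C_3 L1045983 N_3))))) (by decide +kernel)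
theorem L1045985 : W_3 (nat_lit 14) (nat_lit 0x1800180000000000000000000000000000000) (nat_lit 0x0) (nat_lit 0x7c003e001b800e00067803a001f000e0000000000000000000) := Q_3 (nat_lit 126) (C_3 L988689 (C_3 L988704 (C_3 L620709 (C_3 L988694 (C_3 L988698 (C_3 L988699 N_3)))))) (by decide +kernel)
theorem L1045986 : W_3 (nat_lit 15) (nat_lit 0x1800080000000000000000000000000000000) (nat_lit 0x0) (nat_lit 0x7e003f001be00e70077807a001f800e8000000000000000000) := Q_3 (nat_lit 128) (C_3 L822581 (C_3 L1045984 (C_3 L802142 (C_3 L1045985 (C_3 L822525 N_3))))) (by decide +kernel)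
theorem L1045987 : W_3 (nat_lit 5) (nat_lit 0x1200090007800180000000400000000000000000000000) (nat_lit 0x0) (nat_lit 0x18002c00020000000060002000000000000000000000000000) := T_3 (nat_lit 126) (nat_lit 125) (nat_lit 3) (nat_lit 6) (nat_lit 7) L988682 (by decide +kernel)
theorem L1045988 : W_3 (nat_lit 6) (nat_lit 0x200090007800180000000400000000000000000000000) (nat_lit 0x0) (nat_lit 0x38003c00020000000060002000000000000000000000000000) := T_3 (nat_lit 180) (nat_lit 197) (nat_lit 4) (nat_lit 10) (nat_lit 11) L1045987 (by decide +kernel)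
theorem L1045989 : W_3 (nat_lit 7) (nat_lit 0x90007800180000000400000000000000000000000) (nat_lit 0x0) (nat_lit 0x3c003e00020000000060002000000000000000000000000000) := T_3 (nat_lit 177) (nat_lit 194) (nat_lit 6) (nat_lit 7) (nat_lit 11) L1045988 (by decide +kernel)
theorem L1045990 : W_3 (nat_lit 8) (nat_lit 0x90007800180000000000000000000000000000000) (nat_lit 0x0) (nat_lit 0x3c003e0002000000006000a000400000000000000000000000) := T_3 (nat_lit 94) (nat_lit 111) (nat_lit 7) (nat_lit 9) (nat_lit 5) L1045989 (by decide +kernel)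
theorem L1045991 : W_3 (nat_lit 9) (nat_lit 0x80007800180000000000000000000000000000000) (nat_lit 0x0) (nat_lit 0x3c003e0003800000006000a000400000000000000000000000) := T_3 (nat_lit 160) (nat_lit 159) (nat_lit 1) (nat_lit 10) (nat_lit 8) L1045990 (by decide +kernel)
theorem L1045992 : W_3 (nat_lit 10) (nat_lit 0x7800180000000000000000000000000000000) (nat_lit 0x0) (nat_lit 0x3c003e001b800000006000a000400000000000000000000000) := T_3 (nat_lit 163) (nat_lit 164) (nat_lit 3) (nat_lit 7) (nat_lit 8) L1045991 (by decide +kernel)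
theorem L1045993 : W_3 (nat_lit 11) (nat_lit 0x3800180000000000000000000000000000000) (nat_lit 0x0) (nat_lit 0x3c003e003b801c00006000a000400000000000000000000000) := Q_3 (nat_lit 146) (C_3 L822532 (C_3 L1045992 (C_3 L822530 N_3))) (by decide +kernel)
theorem L1045994 : W_3 (nat_lit 2) (nat_lit 0x28003c001e0008000000000000000000000000000) (nat_lit 0x0) (nat_lit 0x2000100000000000000002000000000000000000000000000) := D_3 (nat_lit 176) (nat_lit 109) (nat_lit 193) (nat_lit 6) (nat_lit 6) (nat_lit 10) (nat_lit 6) (nat_lit 6) (nat_lit 11) (by decide +kernel)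
theorem L1045995 : W_3 (nat_lit 3) (nat_lit 0x28003c001a0008000000000000000000000000000) (nat_lit 0x0) (nat_lit 0x2000100000000000040012000000000000000000000000000) := T_3 (nat_lit 126) (nat_lit 112) (nat_lit 2) (nat_lit 6) (nat_lit 7) L1045994 (by decide +kernel)
theorem L1045996 : W_3 (nat_lit 4) (nat_lit 0x20003c001a0008000000000000000000000000000) (nat_lit 0x0) (nat_lit 0x200010000c000000040012000000000000000000000000000) := T_3 (nat_lit 159) (nat_lit 158) (nat_lit 1) (nat_lit 9) (nat_lit 8) L1045995 (by decide +kernel)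
theorem L1045997 : W_3 (nat_lit 5) (nat_lit 0x20003c00180008000000000000000000000000000) (nat_lit 0x0) (nat_lit 0x200010000c000000070012000000000000000000000000000) := T_3 (nat_lit 125) (nat_lit 124) (nat_lit 0) (nat_lit 9) (nat_lit 8) L1045996 (by decide +kernel)
theorem L1045998 : W_3 (nat_lit 6) (nat_lit 0x20003c00180000000000000000000000000000000) (nat_lit 0x0) (nat_lit 0x200010000c00000007001a000400000000000000000000000) := T_3 (nat_lit 111) (nat_lit 94) (nat_lit 5) (nat_lit 9) (nat_lit 5) L1045997 (by decide +kernel)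
theorem L1045999 : W_3 (nat_lit 7) (nat_lit 0x20003800180000000000000000000000000000000) (nat_lit 0x0) (nat_lit 0x200010000c00060007001a000400000000000000000000000) := T_3 (nat_lit 142) (nat_lit 141) (nat_lit 2) (nat_lit 5) (nat_lit 8) L1045998 (by decide +kernel)
theorem L1046000 : W_3 (nat_lit 9) (nat_lit 0x3800180000000000000000000000000000000) (nat_lit 0x0) (nat_lit 0x1e000f0003c00060007001b800400000000000000000000000) := Q_3 (nat_lit 161) (C_3 L989465 (C_3 L1045999 (C_3 L822568 N_3))) (by decide +kernel)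
theorem L1046001 : W_3 (nat_lit 12) (nat_lit 0x1800180000000000000000000000000000000) (nat_lit 0x0) (nat_lit 0x3e003f003bc01e60007001b800400000000000000000000000) := Q_3 (nat_lit 145) (C_3 L822578 (C_3 L1045993 (C_3 L822554 (C_3 L1046000 (C_3 L822573 N_3))))) (by decide +kernel)
theorem L1046002 : W_3 (nat_lit 2) (nat_lit 0x4000900078001c0000000000000000000000000000000) (nat_lit 0x0) (nat_lit 0xc000200000000000000000000000000000000000000000000) := D_3 (nat_lit 177) (nat_lit 194) (nat_lit 195) (nat_lit 6) (nat_lit 7) (nat_lit 11) (nat_lit 7) (nat_lit 7) (nat_lit 7) (by decide +kernel)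
theorem L1046003 : W_3 (nat_lit 3) (nat_lit 0x4000800078001c0000000000000000000000000000000) (nat_lit 0x0) (nat_lit 0xc000200018000000000000000000000000000000000000000) := T_3 (nat_lit 160) (nat_lit 159) (nat_lit 1) (nat_lit 10) (nat_lit 8) L1046002 (by decide +kernel)
theorem L1046004 : W_3 (nat_lit 4) (nat_lit 0x4000000078001c0000000000000000000000000000000) (nat_lit 0x0) (nat_lit 0xc000200198000000000000000000000000000000000000000) := T_3 (nat_lit 163) (nat_lit 164) (nat_lit 3) (nat_lit 7) (nat_lit 8) L1046003 (by decide +kernel)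
theorem L1046005 : W_3 (nat_lit 5) (nat_lit 0x4000000058001c0000000000000000000000000000000) (nat_lit 0x0) (nat_lit 0xc00020019800a000000000000000000000000000000000000) := T_3 (nat_lit 145) (nat_lit 147) (nat_lit 0) (nat_lit 11) (nat_lit 8) L1046004 (by decide +kernel)
theorem L1046006 : W_3 (nat_lit 2) (nat_lit 0x4000900078003c0010000000000000000000000000000) (nat_lit 0x0) (nat_lit 0x1000000000000000008000400000000000000000000000) := D_3 (nat_lit 111) (nat_lit 94) (nat_lit 180) (nat_lit 7) (nat_lit 9) (nat_lit 5) (nat_lit 4) (nat_lit 10) (nat_lit 10) (by decide +kernel)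
theorem L1046007 : W_3 (nat_lit 3) (nat_lit 0x4000100078003c0010000000000000000000000000000) (nat_lit 0x0) (nat_lit 0x1000180000000000008000400000000000000000000000) := T_3 (nat_lit 163) (nat_lit 164) (nat_lit 3) (nat_lit 7) (nat_lit 8) L1046006 (by decide +kernel)
theorem L1046008 : W_3 (nat_lit 4) (nat_lit 0x4000100078003c0000000000000000000000000000000) (nat_lit 0x0) (nat_lit 0x1000180000000000038000400000000000000000000000) := T_3 (nat_lit 112) (nat_lit 113) (nat_lit 2) (nat_lit 7) (nat_lit 7) L1046007 (by decide +kernel)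
theorem L1046009 : W_3 (nat_lit 5) (nat_lit 0x4000100058003c0000000000000000000000000000000) (nat_lit 0x0) (nat_lit 0x1000188002000000038000400000000000000000000000) := T_3 (nat_lit 145) (nat_lit 159) (nat_lit 1) (nat_lit 10) (nat_lit 8) L1046008 (by decide +kernel)
theorem L1046010 : W_3 (nat_lit 6) (nat_lit 0x4000100058001c0000000000000000000000000000000) (nat_lit 0x0) (nat_lit 0x1000188002000600038000400000000000000000000000) := T_3 (nat_lit 129) (nat_lit 130) (nat_lit 1) (nat_lit 11) (nat_lit 7) L1046009 (by decide +kernel)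
theorem L1046011 : W_3 (nat_lit 7) (nat_lit 0x4000000058001c0000000000000000000000000000000) (nat_lit 0x0) (nat_lit 0xc001200198002000600038000400000000000000000000000) := Q_3 (nat_lit 160) (C_3 L1039864 (C_3 L1046010 N_3)) (by decide +kernel)
theorem L1046012 : W_3 (nat_lit 8) (nat_lit 0x4000000018001c0000000000000000000000000000000) (nat_lit 0x0) (nat_lit 0xc00120019800e000600038000400000000000000000000000) := Q_3 (nat_lit 146) (C_3 L1046005 (C_3 L987855 (C_3 L1046011 N_3))) (by decide +kernel)
theorem L1046013 : W_3 (nat_lit 9) (nat_lit 0x18001c0000000000000000000000000000000) (nat_lit 0x0) (nat_lit 0xc0016001b800e00060003a000400000000000000000000000) := Q_3 (nat_lit 178) (C_3 L641313 (C_3 L1046012 (C_3 L620710 (C_3 L641312 N_3)))) (by decide +kernel)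
theorem L1046014 : W_3 (nat_lit 14) (nat_lit 0x1800180000000000000000000000000000000) (nat_lit 0x0) (nat_lit 0x7c003e001b800e00067803bc00c80064000000000000000000) := Q_3 (nat_lit 126) (C_3 L988715 (C_3 L620709 (C_3 L988694 (C_3 L988698 (C_3 L1046013 (C_3 L988704 N_3)))))) (by decide +kernel)
theorem L1046015 : W_3 (nat_lit 15) (nat_lit 0x1800080000000000000000000000000000000) (nat_lit 0x0) (nat_lit 0x7e003f003bc01e60077803bc00c80064000000000000000000) := Q_3 (nat_lit 128) (C_3 L822581 (C_3 L1046001 (C_3 L802142 (C_3 L1046014 (C_3 L822525 N_3))))) (by decide +kernel)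
theorem L1046017 : W_3 (nat_lit 14) (nat_lit 0x18001c0000000000000000000000000000000) (nat_lit 0x0) (nat_lit 0x6000f8002f00660002001b80058002c000000000000000000) := Q_3 (nat_lit 125) (C_3 L979505 (C_3 L619448 (C_3 L843531 N_3))) (by decide +kernel)
theorem L1046018 : W_3 (nat_lit 8) (nat_lit 0x18001c0000000000000000000000000000000) (nat_lit 0x0) (nat_lit 0xc000600030000600020003c0078001c000000000000000000) := T_3 (nat_lit 142) (nat_lit 141) (nat_lit 2) (nat_lit 5) (nat_lit 8) L1033696 (by decide +kernel)
theorem L1046019 : W_3 (nat_lit 7) (nat_lit 0x18001c0000000000000000000000000000000) (nat_lit 0x0) (nat_lit 0x600030006600020019800480024000000000000000000) := Q_3 (nat_lit 125) (C_3 L979505 (C_3 L843517 (C_3 L979489 N_3))) (by decide +kernel)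
theorem L1046020 : W_3 (nat_lit 15) (nat_lit 0x1800180000000000000000000000000000000) (nat_lit 0x0) (nat_lit 0xe000f8003f00e60006001bc00f8003c000000000000000000) := Q_3 (nat_lit 126) (C_3 L1027510 (C_3 L802216 (C_3 L1046016 (C_3 L1046017 (C_3 L641314 (C_3 L1046018 (C_3 L1046019 N_3))))))) (by decide +kernel)
theorem L1046021 : W_3 (nat_lit 16) (nat_lit 0x1800080000000000000000000000000000000) (nat_lit 0x0) (nat_lit 0x28007e003f801bf01e60076003bc00f8003c000000000000000000) := Q_3 (nat_lit 128) (C_3 L979633 (C_3 L1046020 (C_3 L802142 (C_3 L822525 N_3)))) (by decide +kernel)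
theorem L1047926 : W_3 (nat_lit 2) (nat_lit 0x10003c001a0001000000000000000000000000000) (nat_lit 0x0) (nat_lit 0x4000200008000000000000000000000000000000000000000) := D_3 (nat_lit 177) (nat_lit 194) (nat_lit 159) (nat_lit 6) (nat_lit 7) (nat_lit 11) (nat_lit 7) (nat_lit 6) (nat_lit 6) (by decide +kernel)
theorem L1048542 : W_3 (nat_lit 8) (nat_lit 0x1c001a0001000000000000000000000000000) (nat_lit 0x0) (nat_lit 0x1000200001c0008000c000e000700020000000000) := T_3 (nat_lit 91) (nat_lit 160) (nat_lit 7) (nat_lit 6) (nat_lit 5) L1030237 (by decide +kernel)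
theorem L1048543 : W_3 (nat_lit 8) (nat_lit 0x1c001a0001000100000000000000000000000) (nat_lit 0x0) (nat_lit 0x200020000100080006c002f800100000000000000) := T_3 (nat_lit 145) (nat_lit 124) (nat_lit 0) (nat_lit 9) (nat_lit 8) L1045823 (by decide +kernel)
theorem L1048544 : W_3 (nat_lit 2) (nat_lit 0x8001c001a0001800100000000000000000000000) (nat_lit 0x0) (nat_lit 0x100000002000010000000000000000000000000000000) := D_3 (nat_lit 124) (nat_lit 145) (nat_lit 176) (nat_lit 0) (nat_lit 9) (nat_lit 8) (nat_lit 4) (nat_lit 6) (nat_lit 10) (by decide +kernel)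
theorem L1048545 : W_3 (nat_lit 3) (nat_lit 0x8001c001a0001000100000000000000000000000) (nat_lit 0x0) (nat_lit 0x100000002000010000800040000000000000000000000) := T_3 (nat_lit 107) (nat_lit 90) (nat_lit 4) (nat_lit 6) (nat_lit 9) L1048544 (by decide +kernel)
theorem L1048546 : W_3 (nat_lit 4) (nat_lit 0x1c001a0001000100000000000000000000000) (nat_lit 0x0) (nat_lit 0x100008002000010002800040000000000000000000000) := T_3 (nat_lit 159) (nat_lit 109) (nat_lit 6) (nat_lit 6) (nat_lit 9) L1048545 (by decide +kernel)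
theorem L1048547 : W_3 (nat_lit 11) (nat_lit 0x1c001a0001000000000000000000000000000) (nat_lit 0x0) (nat_lit 0x10002800200001c00a8007c002f800700030001000000) := Q_3 (nat_lit 92) (C_3 L868041 (C_3 L1034063 (C_3 L1048543 (C_3 L1048546 N_3)))) (by decide +kernel)
theorem L1048548 : W_3 (nat_lit 6) (nat_lit 0x1c001a0001000000000000000000000000000) (nat_lit 0x0) (nat_lit 0x100020000100000001c000e000500000000000000) := T_3 (nat_lit 145) (nat_lit 124) (nat_lit 0) (nat_lit 9) (nat_lit 8) L1045920 (by decide +kernel)
theorem L1048553 : W_3 (nat_lit 2) (nat_lit 0x30000b000700028001c001a0003800000000000000000000000000) (nat_lit 0x0) (nat_lit 0x10000c0000000000000000000000000000000000000000000000000000) := D_3 (nat_lit 211) (nat_lit 228) (nat_lit 210) (nat_lit 5) (nat_lit 8) (nat_lit 9) (nat_lit 0) (nat_lit 9) (nat_lit 12) (by decide +kernel)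
theorem L1048554 : W_3 (nat_lit 3) (nat_lit 0x20000b000700028001c001a0003800000000000000000000000000) (nat_lit 0x0) (nat_lit 0x50001c0000000000000000000000000000000000000000000000000000) := T_3 (nat_lit 212) (nat_lit 230) (nat_lit 7) (nat_lit 8) (nat_lit 9) L1048553 (by decide +kernel)
theorem L1048555 : W_3 (nat_lit 4) (nat_lit 0xb000700028001c001a0003800000000000000000000000000) (nat_lit 0x0) (nat_lit 0x50003c0010000000000000000000000000000000000000000000000000) := T_3 (nat_lit 213) (nat_lit 196) (nat_lit 7) (nat_lit 8) (nat_lit 8) L1048554 (by decide +kernel)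
theorem L1048556 : W_3 (nat_lit 5) (nat_lit 0x3000700028001c001a0003800000000000000000000000000) (nat_lit 0x0) (nat_lit 0x50003c0018000000000002000000000000000000000000000000000000) := T_3 (nat_lit 195) (nat_lit 145) (nat_lit 6) (nat_lit 8) (nat_lit 11) L1048555 (by decide +kernel)
theorem L1048557 : W_3 (nat_lit 6) (nat_lit 0x3000700008001c001a0003800000000000000000000000000) (nat_lit 0x0) (nat_lit 0x50003c0018000000020002000000008000000000000000000000000000) := T_3 (nat_lit 161) (nat_lit 111) (nat_lit 6) (nat_lit 8) (nat_lit 10) L1048556 (by decide +kernel)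
theorem L1048558 : W_3 (nat_lit 7) (nat_lit 0x3000300008001c001a0003800000000000000000000000000) (nat_lit 0x0) (nat_lit 0x50003c0018000c00020002000000008000000000000000000000000000) := T_3 (nat_lit 178) (nat_lit 179) (nat_lit 1) (nat_lit 9) (nat_lit 10) L1048557 (by decide +kernel)
theorem L1048559 : W_3 (nat_lit 8) (nat_lit 0x1000300008001c001a0003800000000000000000000000000) (nat_lit 0x0) (nat_lit 0x50003e001a000c00020002000000008000000000000000000000000000) := T_3 (nat_lit 193) (nat_lit 209) (nat_lit 5) (nat_lit 6) (nat_lit 8) L1048558 (by decide +kernel)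
theorem L1048560 : W_3 (nat_lit 9) (nat_lit 0x300008001c001a0003800000000000000000000000000) (nat_lit 0x0) (nat_lit 0x50003e001b000c80020002000000008000000000000000000000000000) := T_3 (nat_lit 192) (nat_lit 175) (nat_lit 5) (nat_lit 6) (nat_lit 7) L1048559 (by decide +kernel)
theorem L1048561 : W_3 (nat_lit 10) (nat_lit 0x200008001c001a0003800000000000000000000000000) (nat_lit 0x0) (nat_lit 0x50003e001f000d80020002000000008000000000000000000000000000) := T_3 (nat_lit 176) (nat_lit 194) (nat_lit 7) (nat_lit 6) (nat_lit 7) L1048560 (by decide +kernel)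
theorem L1048562 : W_3 (nat_lit 11) (nat_lit 0x8001c001a0003800000000000000000000000000) (nat_lit 0x0) (nat_lit 0x50003e001f000f80030002000000008000000000000000000000000000) := T_3 (nat_lit 177) (nat_lit 160) (nat_lit 7) (nat_lit 6) (nat_lit 6) L1048561 (by decide +kernel)
theorem L1048563 : W_3 (nat_lit 12) (nat_lit 0x8001c001a0001800000000000000000000000000) (nat_lit 0x0) (nat_lit 0x50003e001f000f8003000200000000a000100000000000000000000000) := T_3 (nat_lit 109) (nat_lit 92) (nat_lit 6) (nat_lit 6) (nat_lit 9) L1048562 (by decide +kernel)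
theorem L1048564 : W_3 (nat_lit 13) (nat_lit 0x8001c001a0001000000000000000000000000000) (nat_lit 0x0) (nat_lit 0x50003e001f000f8003000200000000a800140000000000000000000000) := T_3 (nat_lit 107) (nat_lit 90) (nat_lit 4) (nat_lit 6) (nat_lit 9) L1048563 (by decide +kernel)
theorem L1048565 : W_3 (nat_lit 2) (nat_lit 0x18001c001a0001000000000000000000000000000) (nat_lit 0x0) (nat_lit 0x6000010000000000000000000000000000000) := D_3 (nat_lit 145) (nat_lit 146) (nat_lit 124) (nat_lit 1) (nat_lit 10) (nat_lit 8) (nat_lit 0) (nat_lit 9) (nat_lit 8) (by decide +kernel)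
theorem L1048566 : W_3 (nat_lit 3) (nat_lit 0x8001c001a0001000000000000000000000000000) (nat_lit 0x0) (nat_lit 0x200010006000010000000000000000000000000000000) := T_3 (nat_lit 160) (nat_lit 177) (nat_lit 7) (nat_lit 6) (nat_lit 6) L1048565 (by decide +kernel)
theorem L1048567 : W_3 (nat_lit 14) (nat_lit 0x1c001a0001000000000000000000000000000) (nat_lit 0x0) (nat_lit 0x50003e001f000f8003800600001000a800140000000000000000000000) := Q_3 (nat_lit 159) (C_3 L1048550 (C_3 L1048552 (C_3 L1048564 (C_3 L1048566 N_3)))) (by decide +kernel)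
theorem L1048568 : W_3 (nat_lit 3) (nat_lit 0x3c001a0001000000000000000000000000000) (nat_lit 0x0) (nat_lit 0x4000200018000000000000000080000000000000000000000) := T_3 (nat_lit 160) (nat_lit 91) (nat_lit 7) (nat_lit 6) (nat_lit 5) L1047926 (by decide +kernel)
theorem L1048569 : W_3 (nat_lit 4) (nat_lit 0x1c001a0001000000000000000000000000000) (nat_lit 0x0) (nat_lit 0x4000200018002000010000000080000000000000000000000) := T_3 (nat_lit 145) (nat_lit 124) (nat_lit 0) (nat_lit 9) (nat_lit 8) L1048568 (by decide +kernel)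
theorem L1048570 : W_3 (nat_lit 15) (nat_lit 0x1c001a0000000000000000000000000000000) (nat_lit 0x0) (nat_lit 0x50003e001f000f8003800600001c00b8007c002f800700030001000000) := Q_3 (nat_lit 108) (C_3 L818887 (C_3 L1048542 (C_3 L1048547 (C_3 L1048548 (C_3 L1048567 (C_3 L1048569 N_3)))))) (by decide +kernel)
theorem L1048571 : W_3 (nat_lit 16) (nat_lit 0x18001a0000000000000000000000000000000) (nat_lit 0x0) (nat_lit 0x50003e001f000f8003800660001c00b8007c002f800700030001000000) := T_3 (nat_lit 142) (nat_lit 141) (nat_lit 2) (nat_lit 5) (nat_lit 8) L1048570 (by decide +kernel)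
theorem L1048572 : W_3 (nat_lit 7) (nat_lit 0x18001a0000000000000000000000000000000) (nat_lit 0x0) (nat_lit 0x600030006600040019800480024000000000000000000) := Q_3 (nat_lit 126) (C_3 L979505 (C_3 L843517 (C_3 L979489 N_3))) (by decide +kernel)
theorem L1048573 : W_3 (nat_lit 17) (nat_lit 0x1800180000000000000000000000000000000) (nat_lit 0x0) (nat_lit 0x50003e001f000f803b801e70007c01bc007c002f800700030001000000) := Q_3 (nat_lit 125) (C_3 L980812 (C_3 L1048571 (C_3 L980809 (C_3 L989812 (C_3 L1048572 N_3))))) (by decide +kernel)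
theorem L1048574 : W_3 (nat_lit 18) (nat_lit 0x1800080000000000000000000000000000000) (nat_lit 0x0) (nat_lit 0x50003e007f003f803b801e70077c03bc00fc006f800700030001000000) := Q_3 (nat_lit 128) (C_3 L822581 (C_3 L1048573 (C_3 L802142 (C_3 L1046014 (C_3 L822525 N_3))))) (by decide +kernel)
theorem L1048575 : W_3 (nat_lit 14) (nat_lit 0x1800080000000000000000000000000000000) (nat_lit 0x0) (nat_lit 0x28007e003f003bc01e60077003b800500020000000000000000000) := Q_3 (nat_lit 128) (C_3 L979633 (C_3 L1046001 (C_3 L802142 (C_3 L822525 N_3)))) (by decide +kernel)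
theorem L1048576 : W_3 (nat_lit 19) (nat_lit 0x1000080000000000000000000000000000000) (nat_lit 0x0) (nat_lit 0x8001c007e003f80ffe03fe03bfc1efc1f7f07bf01fe00ff800700030001000000) := Q_3 (nat_lit 143) (C_3 L979512 (C_3 L980789 (C_3 L980790 (C_3 L980815 (C_3 L988714 (C_3 L997588 (C_3 L998220 (C_3 L1027507 (C_3 L1027509 (C_3 L1029806 (C_3 L1029812 (C_3 L1045981 (C_3 L1045986 (C_3 L1046015 (C_3 L1046021 (C_3 L1048574 (C_3 L1048575 N_3))))))))))))))))) (by decide +kernel)
theorem L1048977 : W_3 (nat_lit 6) (nat_lit 0x10000c0006000000000000000000000000000) (nat_lit 0x0) (nat_lit 0x600030000800100001c00280000000000000000000000) := T_3 (nat_lit 161) (nat_lit 178) (nat_lit 4) (nat_lit 8) (nat_lit 10) L1048976 (by decide +kernel)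
theorem L1049109 : W_3 (nat_lit 2) (nat_lit 0x10001800080004000000000000000000000000000) (nat_lit 0x0) (nat_lit 0x4000200000000000040000000000000000000000000000000) := D_3 (nat_lit 177) (nat_lit 194) (nat_lit 126) (nat_lit 6) (nat_lit 7) (nat_lit 11) (nat_lit 6) (nat_lit 7) (nat_lit 10) (by decide +kernel)
theorem L1049110 : W_3 (nat_lit 3) (nat_lit 0x10001800080000000000000000000000000000000) (nat_lit 0x0) (nat_lit 0x4000200000000000040004000200000000000000000000000) := T_3 (nat_lit 110) (nat_lit 93) (nat_lit 5) (nat_lit 8) (nat_lit 5) L1049109 (by decide +kernel)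
theorem L1049115 : W_3 (nat_lit 2) (nat_lit 0x2000100018001c000a0000000000000000000000000000000) (nat_lit 0x0) (nat_lit 0x20001000080000000000000000000000000000000000000000000) := D_3 (nat_lit 192) (nat_lit 175) (nat_lit 209) (nat_lit 5) (nat_lit 6) (nat_lit 7) (nat_lit 5) (nat_lit 6) (nat_lit 8) (by decide +kernel)
theorem L1049116 : W_3 (nat_lit 3) (nat_lit 0x100018001c000a0000000000000000000000000000000) (nat_lit 0x0) (nat_lit 0x60003000080000000000000000000000000000000000000000000) := T_3 (nat_lit 193) (nat_lit 210) (nat_lit 6) (nat_lit 6) (nat_lit 12) L1049115 (by decide +kernel)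
theorem L1049117 : W_3 (nat_lit 2) (nat_lit 0x38001a001c000a0000000000000000000000000000000) (nat_lit 0x0) (nat_lit 0x60001000000000000000000000000000000000000000) := D_3 (nat_lit 174) (nat_lit 173) (nat_lit 156) (nat_lit 2) (nat_lit 3) (nat_lit 10) (nat_lit 0) (nat_lit 7) (nat_lit 10) (by decide +kernel)
theorem L1049118 : W_3 (nat_lit 3) (nat_lit 0x30001a001c000a0000000000000000000000000000000) (nat_lit 0x0) (nat_lit 0x10000e0001000000000000000000000000000000000000000) := T_3 (nat_lit 175) (nat_lit 192) (nat_lit 5) (nat_lit 6) (nat_lit 7) L1049117 (by decide +kernel)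
theorem L1049119 : W_3 (nat_lit 4) (nat_lit 0x10001a001c000a0000000000000000000000000000000) (nat_lit 0x0) (nat_lit 0x50002e0001000000000000000000000000000000000000000) := T_3 (nat_lit 177) (nat_lit 194) (nat_lit 7) (nat_lit 6) (nat_lit 7) L1049118 (by decide +kernel)
theorem L1049120 : W_3 (nat_lit 5) (nat_lit 0x100018001c000a0000000000000000000000000000000) (nat_lit 0x0) (nat_lit 0x50002e0007000000000000000000000000000000000000000) := T_3 (nat_lit 157) (nat_lit 158) (nat_lit 2) (nat_lit 4) (nat_lit 9) L1049119 (by decide +kernel)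
theorem L1049121 : W_3 (nat_lit 6) (nat_lit 0x18001c000a0000000000000000000000000000000) (nat_lit 0x0) (nat_lit 0xe00070003e0007000000000000000000000000000000000000000) := Q_3 (nat_lit 176) (C_3 L1011409 (C_3 L1049116 (C_3 L1049120 N_3))) (by decide +kernel)
theorem L1049122 : W_3 (nat_lit 8) (nat_lit 0x18001c00080000000000000000000000000000000) (nat_lit 0x0) (nat_lit 0xe00070003e00070000000300038001c0000000000000000000000) := Q_3 (nat_lit 125) (C_3 L1011407 (C_3 L1049121 (C_3 L1011401 N_3))) (by decide +kernel)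
theorem L1049124 : W_3 (nat_lit 6) (nat_lit 0x4000000010001c00080000000000000000000000000000000) (nat_lit 0x0) (nat_lit 0x80006002200138001000080000000000000000000000) := T_3 (nat_lit 141) (nat_lit 128) (nat_lit 2) (nat_lit 5) (nat_lit 8) L1026887 (by decide +kernel)
theorem L1049125 : W_3 (nat_lit 7) (nat_lit 0x10001c00080000000000000000000000000000000) (nat_lit 0x0) (nat_lit 0x4000280006002200138001000080000000000000000000000) := T_3 (nat_lit 194) (nat_lit 177) (nat_lit 6) (nat_lit 7) (nat_lit 11) L1049124 (by decide +kernel)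
theorem L1049126 : W_3 (nat_lit 2) (nat_lit 0x4000000012001fc0090000000200000000000000000000000) (nat_lit 0x0) (nat_lit 0x7000000000000000000000000000000) := D_3 (nat_lit 121) (nat_lit 122) (nat_lit 120) (nat_lit 0) (nat_lit 6) (nat_lit 8) (nat_lit 0) (nat_lit 5) (nat_lit 8) (by decide +kernel)
theorem L1049127 : W_3 (nat_lit 3) (nat_lit 0x4000000012001f80090000000200000000000000000000000) (nat_lit 0x0) (nat_lit 0x40027000000000000000000000000000000) := T_3 (nat_lit 138) (nat_lit 125) (nat_lit 2) (nat_lit 2) (nat_lit 8) L1049126 (by decide +kernel)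
theorem L1049128 : W_3 (nat_lit 4) (nat_lit 0x4000000012001f00090000000200000000000000000000000) (nat_lit 0x0) (nat_lit 0x80000c0027000000000000000000000000000000) := T_3 (nat_lit 139) (nat_lit 159) (nat_lit 3) (nat_lit 3) (nat_lit 8) L1049127 (by decide +kernel)
theorem L1049129 : W_3 (nat_lit 5) (nat_lit 0x4000000012001e00090000000200000000000000000000000) (nat_lit 0x0) (nat_lit 0x90001c0027000000000000000000000000000000) := T_3 (nat_lit 140) (nat_lit 156) (nat_lit 1) (nat_lit 7) (nat_lit 8) L1049128 (by decide +kernel)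
theorem L1049130 : W_3 (nat_lit 6) (nat_lit 0x4000000012001e00080000000200000000000000000000000) (nat_lit 0x0) (nat_lit 0x90001c003f000000000000000000000000000000) := T_3 (nat_lit 124) (nat_lit 123) (nat_lit 0) (nat_lit 8) (nat_lit 8) L1049129 (by decide +kernel)
theorem L1049131 : W_3 (nat_lit 7) (nat_lit 0x4000000010001e00080000000200000000000000000000000) (nat_lit 0x0) (nat_lit 0xf0001c003f000000000000000000000000000000) := T_3 (nat_lit 157) (nat_lit 158) (nat_lit 1) (nat_lit 8) (nat_lit 8) L1049130 (by decide +kernel)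
theorem L1049132 : W_3 (nat_lit 8) (nat_lit 0x4000000010001c00080000000200000000000000000000000) (nat_lit 0x0) (nat_lit 0xf0003c013f000000000000000000000000000000) := T_3 (nat_lit 141) (nat_lit 128) (nat_lit 2) (nat_lit 5) (nat_lit 8) L1049131 (by decide +kernel)
theorem L1049133 : W_3 (nat_lit 9) (nat_lit 0x10001c00080000000200000000000000000000000) (nat_lit 0x0) (nat_lit 0x400020000f0003c013f000000000000000000000000000000) := T_3 (nat_lit 194) (nat_lit 177) (nat_lit 6) (nat_lit 7) (nat_lit 11) L1049132 (by decide +kernel)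
theorem L1049134 : W_3 (nat_lit 10) (nat_lit 0x10001c00080000000000000000000000000000000) (nat_lit 0x0) (nat_lit 0x400020000f0003c013f004000200000000000000000000000) := T_3 (nat_lit 93) (nat_lit 110) (nat_lit 5) (nat_lit 8) (nat_lit 5) L1049133 (by decide +kernel)
theorem L1049135 : W_3 (nat_lit 2) (nat_lit 0x18001c00080000000000000000000000000000000) (nat_lit 0x0) (nat_lit 0x6002000000000000000000000000000000000000) := D_3 (nat_lit 158) (nat_lit 157) (nat_lit 145) (nat_lit 2) (nat_lit 4) (nat_lit 9) (nat_lit 1) (nat_lit 9) (nat_lit 8) (by decide +kernel)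
theorem L1049136 : W_3 (nat_lit 9) (nat_lit 0x10001c00080000000000000000000000000000000) (nat_lit 0x0) (nat_lit 0xe00070003e000f00220003c0038001c0000000000000000000000) := Q_3 (nat_lit 159) (C_3 L1049122 (C_3 L1049135 (C_3 L1011419 N_3))) (by decide +kernel)
theorem L1049137 : W_3 (nat_lit 2) (nat_lit 0x14001e00090000000200000000000000000000000) (nat_lit 0x0) (nat_lit 0x8002000020000000000000000000000000000000) := D_3 (nat_lit 145) (nat_lit 159) (nat_lit 125) (nat_lit 1) (nat_lit 9) (nat_lit 8) (nat_lit 0) (nat_lit 9) (nat_lit 8) (by decide +kernel)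
theorem L1049138 : W_3 (nat_lit 3) (nat_lit 0x14001e00080000000200000000000000000000000) (nat_lit 0x0) (nat_lit 0x8002000038000000000000000000000000000000) := T_3 (nat_lit 124) (nat_lit 123) (nat_lit 0) (nat_lit 8) (nat_lit 8) L1049137 (by decide +kernel)
theorem L1049139 : W_3 (nat_lit 4) (nat_lit 0x10001e00080000000200000000000000000000000) (nat_lit 0x0) (nat_lit 0xe002000038000000000000000000000000000000) := T_3 (nat_lit 158) (nat_lit 157) (nat_lit 1) (nat_lit 8) (nat_lit 8) L1049138 (by decide +kernel)
theorem L1049140 : W_3 (nat_lit 5) (nat_lit 0x10001c00080000000200000000000000000000000) (nat_lit 0x0) (nat_lit 0xe002200138000000000000000000000000000000) := T_3 (nat_lit 141) (nat_lit 128) (nat_lit 2) (nat_lit 5) (nat_lit 8) L1049139 (by decide +kernel)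
theorem L1049141 : W_3 (nat_lit 6) (nat_lit 0x10001c00080000000000000000000000000000000) (nat_lit 0x0) (nat_lit 0xe002200138004000200000000000000000000000) := T_3 (nat_lit 93) (nat_lit 110) (nat_lit 5) (nat_lit 8) (nat_lit 5) L1049140 (by decide +kernel)
theorem L1049142 : W_3 (nat_lit 3) (nat_lit 0x14001e00090000000000000000000000000000000) (nat_lit 0x0) (nat_lit 0x2000100008002000000000800000000000000000000000000) := T_3 (nat_lit 159) (nat_lit 145) (nat_lit 1) (nat_lit 9) (nat_lit 8) L1011369 (by decide +kernel)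
theorem L1049143 : W_3 (nat_lit 4) (nat_lit 0x14001e00080000000000000000000000000000000) (nat_lit 0x0) (nat_lit 0x2000100008002000018000800000000000000000000000000) := T_3 (nat_lit 124) (nat_lit 123) (nat_lit 0) (nat_lit 8) (nat_lit 8) L1049142 (by decide +kernel)
theorem L1049144 : W_3 (nat_lit 5) (nat_lit 0x10001e00080000000000000000000000000000000) (nat_lit 0x0) (nat_lit 0x200010000e002000018000800000000000000000000000000) := T_3 (nat_lit 158) (nat_lit 157) (nat_lit 1) (nat_lit 8) (nat_lit 8) L1049143 (by decide +kernel)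
theorem L1049145 : W_3 (nat_lit 6) (nat_lit 0x10001c00080000000000000000000000000000000) (nat_lit 0x0) (nat_lit 0x200010000e002200118000800000000000000000000000000) := T_3 (nat_lit 141) (nat_lit 128) (nat_lit 2) (nat_lit 5) (nat_lit 8) L1049144 (by decide +kernel)
theorem L1049146 : W_3 (nat_lit 2) (nat_lit 0x4000000018003c000a0007000000000000000000000000000) (nat_lit 0x0) (nat_lit 0x100000800040000000000000000000000) := D_3 (nat_lit 107) (nat_lit 128) (nat_lit 90) (nat_lit 3) (nat_lit 5) (nat_lit 6) (nat_lit 4) (nat_lit 6) (nat_lit 9) (by decide +kernel)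
theorem L1049147 : W_3 (nat_lit 3) (nat_lit 0x4000000018003c000a0005000000000000000000000000000) (nat_lit 0x0) (nat_lit 0x100002800140000000000000000000000) := T_3 (nat_lit 109) (nat_lit 92) (nat_lit 6) (nat_lit 6) (nat_lit 9) L1049146 (by decide +kernel)
theorem L1049148 : W_3 (nat_lit 4) (nat_lit 0x4000000018003c000a0004000000000000000000000000000) (nat_lit 0x0) (nat_lit 0x1000038001c0000000000000000000000) := T_3 (nat_lit 108) (nat_lit 91) (nat_lit 7) (nat_lit 6) (nat_lit 5) L1049147 (by decide +kernel)
theorem L1049149 : W_3 (nat_lit 5) (nat_lit 0x4000000018003c00080004000000000000000000000000000) (nat_lit 0x0) (nat_lit 0x1300038001c0000000000000000000000) := T_3 (nat_lit 125) (nat_lit 124) (nat_lit 0) (nat_lit 9) (nat_lit 8) L1049148 (by decide +kernel)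
theorem L1049150 : W_3 (nat_lit 6) (nat_lit 0x4000000018003c00080000000000000000000000000000000) (nat_lit 0x0) (nat_lit 0x1300078003c0000000000000000000000) := T_3 (nat_lit 110) (nat_lit 93) (nat_lit 5) (nat_lit 8) (nat_lit 5) L1049149 (by decide +kernel)
theorem L1049151 : W_3 (nat_lit 7) (nat_lit 0x4000000018001c00080000000000000000000000000000000) (nat_lit 0x0) (nat_lit 0x60001300078003c0000000000000000000000) := T_3 (nat_lit 145) (nat_lit 146) (nat_lit 1) (nat_lit 10) (nat_lit 8) L1049150 (by decide +kernel)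
theorem L1049152 : W_3 (nat_lit 8) (nat_lit 0x18001c00080000000000000000000000000000000) (nat_lit 0x0) (nat_lit 0x40002000000060001300078003c0000000000000000000000) := T_3 (nat_lit 194) (nat_lit 177) (nat_lit 6) (nat_lit 7) (nat_lit 11) L1049151 (by decide +kernel)
theorem L1049153 : W_3 (nat_lit 9) (nat_lit 0x10001c00080000000000000000000000000000000) (nat_lit 0x0) (nat_lit 0xe00070003e000f0060001300078003c0000000000000000000000) := Q_3 (nat_lit 159) (C_3 L1049135 (C_3 L1049122 (C_3 L1049152 N_3))) (by decide +kernel)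
theorem L1049154 : W_3 (nat_lit 2) (nat_lit 0x4000000012001f00084000000200000000000000000000000) (nat_lit 0x0) (nat_lit 0x8000080002000000000000000000000000000000) := D_3 (nat_lit 139) (nat_lit 159) (nat_lit 121) (nat_lit 3) (nat_lit 3) (nat_lit 8) (nat_lit 0) (nat_lit 6) (nat_lit 8) (by decide +kernel)
theorem L1049155 : W_3 (nat_lit 3) (nat_lit 0x4000000012001f00080000000200000000000000000000000) (nat_lit 0x0) (nat_lit 0x800008000e000000000000000000000000000000) := T_3 (nat_lit 122) (nat_lit 123) (nat_lit 0) (nat_lit 7) (nat_lit 8) L1049154 (by decide +kernel)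
theorem L1049156 : W_3 (nat_lit 4) (nat_lit 0x4000000012001e00080000000200000000000000000000000) (nat_lit 0x0) (nat_lit 0x900018000e000000000000000000000000000000) := T_3 (nat_lit 140) (nat_lit 156) (nat_lit 1) (nat_lit 7) (nat_lit 8) L1049155 (by decide +kernel)
theorem L1049157 : W_3 (nat_lit 5) (nat_lit 0x12001e00080000000200000000000000000000000) (nat_lit 0x0) (nat_lit 0x400020000900018000e000000000000000000000000000000) := T_3 (nat_lit 194) (nat_lit 177) (nat_lit 6) (nat_lit 7) (nat_lit 11) L1049156 (by decide +kernel)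
theorem L1049158 : W_3 (nat_lit 6) (nat_lit 0x10001e00080000000200000000000000000000000) (nat_lit 0x0) (nat_lit 0x400020000f00018000e000000000000000000000000000000) := T_3 (nat_lit 157) (nat_lit 158) (nat_lit 1) (nat_lit 8) (nat_lit 8) L1049157 (by decide +kernel)
theorem L1049159 : W_3 (nat_lit 7) (nat_lit 0x10001c00080000000200000000000000000000000) (nat_lit 0x0) (nat_lit 0x400020000f00038010e000000000000000000000000000000) := T_3 (nat_lit 141) (nat_lit 128) (nat_lit 2) (nat_lit 5) (nat_lit 8) L1049158 (by decide +kernel)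
theorem L1049160 : W_3 (nat_lit 8) (nat_lit 0x10001c00080000000000000000000000000000000) (nat_lit 0x0) (nat_lit 0x400020000f00038010e004000200000000000000000000000) := T_3 (nat_lit 93) (nat_lit 110) (nat_lit 5) (nat_lit 8) (nat_lit 5) L1049159 (by decide +kernel)
theorem L1049161 : W_3 (nat_lit 2) (nat_lit 0x4000000011001f00088000000200000000000000000000000) (nat_lit 0x0) (nat_lit 0x8800080000000000000000000000000000000000) := D_3 (nat_lit 139) (nat_lit 159) (nat_lit 155) (nat_lit 3) (nat_lit 3) (nat_lit 8) (nat_lit 1) (nat_lit 6) (nat_lit 8) (by decide +kernel)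
theorem L1049162 : W_3 (nat_lit 3) (nat_lit 0x4000000010001f00088000000200000000000000000000000) (nat_lit 0x0) (nat_lit 0xb800080000000000000000000000000000000000) := T_3 (nat_lit 156) (nat_lit 157) (nat_lit 1) (nat_lit 7) (nat_lit 8) L1049161 (by decide +kernel)
theorem L1049163 : W_3 (nat_lit 4) (nat_lit 0x4000000010001e00088000000200000000000000000000000) (nat_lit 0x0) (nat_lit 0xb800180004000000000000000000000000000000) := T_3 (nat_lit 140) (nat_lit 122) (nat_lit 0) (nat_lit 7) (nat_lit 8) L1049162 (by decide +kernel)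
theorem L1049164 : W_3 (nat_lit 5) (nat_lit 0x4000000010001e00080000000200000000000000000000000) (nat_lit 0x0) (nat_lit 0xb80018001c000000000000000000000000000000) := T_3 (nat_lit 123) (nat_lit 124) (nat_lit 0) (nat_lit 8) (nat_lit 8) L1049163 (by decide +kernel)
theorem L1049165 : W_3 (nat_lit 6) (nat_lit 0x4000000010001c00080000000200000000000000000000000) (nat_lit 0x0) (nat_lit 0xb80038011c000000000000000000000000000000) := T_3 (nat_lit 141) (nat_lit 128) (nat_lit 2) (nat_lit 5) (nat_lit 8) L1049164 (by decide +kernel)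
theorem L1049166 : W_3 (nat_lit 7) (nat_lit 0x4000000010001c00080000000000000000000000000000000) (nat_lit 0x0) (nat_lit 0xb80038011c004000200000000000000000000000) := T_3 (nat_lit 93) (nat_lit 110) (nat_lit 5) (nat_lit 8) (nat_lit 5) L1049165 (by decide +kernel)
theorem L1049167 : W_3 (nat_lit 8) (nat_lit 0x10001c00080000000000000000000000000000000) (nat_lit 0x0) (nat_lit 0x400020000b80038011c004000200000000000000000000000) := T_3 (nat_lit 194) (nat_lit 177) (nat_lit 6) (nat_lit 7) (nat_lit 11) L1049166 (by decide +kernel)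
theorem L1049168 : W_3 (nat_lit 2) (nat_lit 0x4000000010003e00090000000000000000000000000000000) (nat_lit 0x0) (nat_lit 0xc004000000000000000000000000000000000000) := D_3 (nat_lit 159) (nat_lit 158) (nat_lit 146) (nat_lit 1) (nat_lit 9) (nat_lit 8) (nat_lit 1) (nat_lit 10) (nat_lit 8) (by decide +kernel)
theorem L1049169 : W_3 (nat_lit 3) (nat_lit 0x4000000010001e00090000000000000000000000000000000) (nat_lit 0x0) (nat_lit 0xc006000020000000000000000000000000000000) := T_3 (nat_lit 145) (nat_lit 125) (nat_lit 0) (nat_lit 9) (nat_lit 8) L1049168 (by decide +kernel)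
theorem L1049170 : W_3 (nat_lit 4) (nat_lit 0x10001e00090000000000000000000000000000000) (nat_lit 0x0) (nat_lit 0x400020000c006000020000000000000000000000000000000) := T_3 (nat_lit 194) (nat_lit 177) (nat_lit 6) (nat_lit 7) (nat_lit 11) L1049169 (by decide +kernel)
theorem L1049171 : W_3 (nat_lit 5) (nat_lit 0x10001e00080000000000000000000000000000000) (nat_lit 0x0) (nat_lit 0x400020000c006000038000000000000000000000000000000) := T_3 (nat_lit 124) (nat_lit 123) (nat_lit 0) (nat_lit 8) (nat_lit 8) L1049170 (by decide +kernel)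
theorem L1049172 : W_3 (nat_lit 6) (nat_lit 0x10001c00080000000000000000000000000000000) (nat_lit 0x0) (nat_lit 0x400020000c006200138000000000000000000000000000000) := T_3 (nat_lit 141) (nat_lit 128) (nat_lit 2) (nat_lit 5) (nat_lit 8) L1049171 (by decide +kernel)
theorem L1049173 : W_3 (nat_lit 11) (nat_lit 0x10001800080000000000000000000000000000000) (nat_lit 0x0) (nat_lit 0xe00070003e000f8067c013f0078003c0000000000000000000000) := Q_3 (nat_lit 142) (C_3 L1049125 (C_3 L1049134 (C_3 L1049136 (C_3 L1049141 (C_3 L1049145 (C_3 L1049153 (C_3 L1049160 (C_3 L1049167 (C_3 L1049172 N_3))))))))) (by decide +kernel)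
theorem L1049176 : W_3 (nat_lit 2) (nat_lit 0x1a0038000c0003800200000000000000000000000) (nat_lit 0x0) (nat_lit 0x130000000000000000000000000000000) := D_3 (nat_lit 125) (nat_lit 124) (nat_lit 128) (nat_lit 3) (nat_lit 5) (nat_lit 7) (nat_lit 0) (nat_lit 9) (nat_lit 7) (by decide +kernel)
theorem L1049177 : W_3 (nat_lit 3) (nat_lit 0x1a0038000c0003000200000000000000000000000) (nat_lit 0x0) (nat_lit 0x130000c00000000000000000000000000) := T_3 (nat_lit 107) (nat_lit 106) (nat_lit 3) (nat_lit 4) (nat_lit 6) L1049176 (by decide +kernel)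
theorem L1049178 : W_3 (nat_lit 4) (nat_lit 0x1a0038000c0002000200000000000000000000000) (nat_lit 0x0) (nat_lit 0x130001c00080000000000000000000000) := T_3 (nat_lit 108) (nat_lit 91) (nat_lit 4) (nat_lit 7) (nat_lit 9) L1049177 (by decide +kernel)
theorem L1049179 : W_3 (nat_lit 5) (nat_lit 0x1a0018000c0002000200000000000000000000000) (nat_lit 0x0) (nat_lit 0x6000130001c00080000000000000000000000) := T_3 (nat_lit 145) (nat_lit 146) (nat_lit 1) (nat_lit 10) (nat_lit 8) L1049178 (by decide +kernel)
theorem L1049180 : W_3 (nat_lit 6) (nat_lit 0x180018000c0002000200000000000000000000000) (nat_lit 0x0) (nat_lit 0x6006000130001c00080000000000000000000000) := T_3 (nat_lit 157) (nat_lit 158) (nat_lit 2) (nat_lit 4) (nat_lit 9) L1049179 (by decide +kernel)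
theorem L1049181 : W_3 (nat_lit 7) (nat_lit 0x100018000c0002000200000000000000000000000) (nat_lit 0x0) (nat_lit 0x10000e006000130001c00080000000000000000000000) := T_3 (nat_lit 159) (nat_lit 176) (nat_lit 5) (nat_lit 7) (nat_lit 6) L1049180 (by decide +kernel)
theorem L1049182 : W_3 (nat_lit 8) (nat_lit 0x100018000c0002000000000000000000000000000) (nat_lit 0x0) (nat_lit 0x10000e006000130005c00280000000000000000000000) := T_3 (nat_lit 93) (nat_lit 110) (nat_lit 6) (nat_lit 7) (nat_lit 9) L1049181 (by decide +kernel)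
theorem L1049183 : W_3 (nat_lit 9) (nat_lit 0x100018000c0000000000000000000000000000000) (nat_lit 0x0) (nat_lit 0x10000e006000130007c0038001c000000000000000000) := Q_3 (nat_lit 109) (C_3 L771750 (C_3 L1049175 (C_3 L1049182 N_3))) (by decide +kernel)
theorem L1049186 : W_3 (nat_lit 2) (nat_lit 0x10001a000f0004800000000000000000000000000) (nat_lit 0x0) (nat_lit 0x400100001000000000000000000000000000) := D_3 (nat_lit 128) (nat_lit 142) (nat_lit 108) (nat_lit 2) (nat_lit 5) (nat_lit 8) (nat_lit 0) (nat_lit 9) (nat_lit 7) (by decide +kernel)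
theorem L1049187 : W_3 (nat_lit 3) (nat_lit 0x10001a000f0004000000000000000000000000000) (nat_lit 0x0) (nat_lit 0x400100001c00000000000000000000000000) := T_3 (nat_lit 107) (nat_lit 106) (nat_lit 0) (nat_lit 8) (nat_lit 7) L1049186 (by decide +kernel)
theorem L1049188 : W_3 (nat_lit 4) (nat_lit 0x100018000f0004000000000000000000000000000) (nat_lit 0x0) (nat_lit 0x700100001c00000000000000000000000000) := T_3 (nat_lit 141) (nat_lit 140) (nat_lit 1) (nat_lit 8) (nat_lit 7) L1049187 (by decide +kernel)
theorem L1049189 : W_3 (nat_lit 5) (nat_lit 0x100018000f0000000000000000000000000000000) (nat_lit 0x0) (nat_lit 0x70010000dc00000000000000000000000000) := T_3 (nat_lit 110) (nat_lit 111) (nat_lit 2) (nat_lit 5) (nat_lit 7) L1049188 (by decide +kernel)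
theorem L1049190 : W_3 (nat_lit 6) (nat_lit 0x100018000e0000000000000000000000000000000) (nat_lit 0x0) (nat_lit 0x70011800dc00000000000000000000000000) := T_3 (nat_lit 124) (nat_lit 123) (nat_lit 3) (nat_lit 4) (nat_lit 7) L1049189 (by decide +kernel)
theorem L1049191 : W_3 (nat_lit 8) (nat_lit 0x100018000c0000000000000000000000000000000) (nat_lit 0x0) (nat_lit 0x10000e00670013800fc0018000c000000000000000000) := Q_3 (nat_lit 125) (C_3 L1004369 (C_3 L1049190 (C_3 L616527 N_3))) (by decide +kernel)
theorem L1049192 : W_3 (nat_lit 2) (nat_lit 0x10001a000f0000800000000000000000000000000) (nat_lit 0x0) (nat_lit 0x400100001000000000000000000000000000) := D_3 (nat_lit 128) (nat_lit 142) (nat_lit 108) (nat_lit 2) (nat_lit 5) (nat_lit 8) (nat_lit 0) (nat_lit 9) (nat_lit 7) (by decide +kernel)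
theorem L1049193 : W_3 (nat_lit 3) (nat_lit 0x10001a000f0000000000000000000000000000000) (nat_lit 0x0) (nat_lit 0x400100001c00000000000000000000000000) := T_3 (nat_lit 107) (nat_lit 106) (nat_lit 0) (nat_lit 8) (nat_lit 7) L1049192 (by decide +kernel)
theorem L1049194 : W_3 (nat_lit 4) (nat_lit 0x100018000f0000000000000000000000000000000) (nat_lit 0x0) (nat_lit 0x700100001c00000000000000000000000000) := T_3 (nat_lit 141) (nat_lit 140) (nat_lit 1) (nat_lit 8) (nat_lit 7) L1049193 (by decide +kernel)
theorem L1049195 : W_3 (nat_lit 5) (nat_lit 0x100018000e0000000000000000000000000000000) (nat_lit 0x0) (nat_lit 0x700118001c00000000000000000000000000) := T_3 (nat_lit 124) (nat_lit 123) (nat_lit 3) (nat_lit 4) (nat_lit 7) L1049194 (by decide +kernel)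
theorem L1049196 : W_3 (nat_lit 8) (nat_lit 0x100018000c0000000000000000000000000000000) (nat_lit 0x0) (nat_lit 0x10000e006700138003c0018000c000000000000000000) := Q_3 (nat_lit 125) (C_3 L1004369 (C_3 L1049195 (C_3 L616527 N_3))) (by decide +kernel)
theorem L1049197 : W_3 (nat_lit 2) (nat_lit 0x18003d000c0000000200000000000000000000000) (nat_lit 0x0) (nat_lit 0x2000100000000000000002000000000000000000000000000) := D_3 (nat_lit 176) (nat_lit 193) (nat_lit 109) (nat_lit 6) (nat_lit 6) (nat_lit 11) (nat_lit 5) (nat_lit 7) (nat_lit 6) (by decide +kernel)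
theorem L1049198 : W_3 (nat_lit 3) (nat_lit 0x10003d000c0000000200000000000000000000000) (nat_lit 0x0) (nat_lit 0x200010000c000000000002000000000000000000000000000) := T_3 (nat_lit 159) (nat_lit 158) (nat_lit 1) (nat_lit 9) (nat_lit 8) L1049197 (by decide +kernel)
theorem L1049199 : W_3 (nat_lit 4) (nat_lit 0x10003c000c0000000200000000000000000000000) (nat_lit 0x0) (nat_lit 0x200010000c000300000002000000000000000000000000000) := T_3 (nat_lit 140) (nat_lit 141) (nat_lit 2) (nat_lit 4) (nat_lit 8) L1049198 (by decide +kernel)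
theorem L1049200 : W_3 (nat_lit 5) (nat_lit 0x10003c000c0000000000000000000000000000000) (nat_lit 0x0) (nat_lit 0x200010000c000300000006000200000000000000000000000) := T_3 (nat_lit 93) (nat_lit 110) (nat_lit 5) (nat_lit 8) (nat_lit 5) L1049199 (by decide +kernel)
theorem L1049201 : W_3 (nat_lit 3) (nat_lit 0x10003c000c0000000000000000000000000000000) (nat_lit 0x0) (nat_lit 0x200010000c000000000002000000000000000000000000000) := T_3 (nat_lit 159) (nat_lit 158) (nat_lit 1) (nat_lit 9) (nat_lit 8) L1013501 (by decide +kernel)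
theorem L1049202 : W_3 (nat_lit 6) (nat_lit 0x100038000c0000000000000000000000000000000) (nat_lit 0x0) (nat_lit 0x200010000c000700038006000200000000000000000000000) := Q_3 (nat_lit 142) (C_3 L1013692 (C_3 L1049200 (C_3 L1049201 N_3))) (by decide +kernel)
theorem L1049203 : W_3 (nat_lit 7) (nat_lit 0x100018000c0000000000000000000000000000000) (nat_lit 0x0) (nat_lit 0x200010000c00e700038006000200000000000000000000000) := Q_3 (nat_lit 145) (C_3 L1011266 (C_3 L1049202 (C_3 L775065 N_3))) (by decide +kernel)
theorem L1049204 : W_3 (nat_lit 2) (nat_lit 0x100038001e0001000200000000000000000000000) (nat_lit 0x0) (nat_lit 0x2000080004000000000000000000) := D_3 (nat_lit 91) (nat_lit 109) (nat_lit 74) (nat_lit 4) (nat_lit 7) (nat_lit 9) (nat_lit 7) (nat_lit 6) (nat_lit 4) (by decide +kernel)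
theorem L1049205 : W_3 (nat_lit 3) (nat_lit 0x100038001e0000000200000000000000000000000) (nat_lit 0x0) (nat_lit 0x3800080004000000000000000000) := T_3 (nat_lit 108) (nat_lit 107) (nat_lit 0) (nat_lit 9) (nat_lit 7) L1049204 (by decide +kernel)
theorem L1049206 : W_3 (nat_lit 4) (nat_lit 0x100018001e0000000200000000000000000000000) (nat_lit 0x0) (nat_lit 0x6000000003800080004000000000000000000) := T_3 (nat_lit 145) (nat_lit 146) (nat_lit 3) (nat_lit 6) (nat_lit 7) L1049205 (by decide +kernel)
theorem L1049207 : W_3 (nat_lit 5) (nat_lit 0x100018001e0000000000000000000000000000000) (nat_lit 0x0) (nat_lit 0x6000000007800280004000000000000000000) := T_3 (nat_lit 93) (nat_lit 110) (nat_lit 5) (nat_lit 8) (nat_lit 5) L1049206 (by decide +kernel)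
theorem L1049208 : W_3 (nat_lit 2) (nat_lit 0x10003c001e0008000400000000000000000000000) (nat_lit 0x0) (nat_lit 0x4000200010000000000000000000) := D_3 (nat_lit 93) (nat_lit 110) (nat_lit 76) (nat_lit 5) (nat_lit 8) (nat_lit 5) (nat_lit 4) (nat_lit 9) (nat_lit 8) (by decide +kernel)
theorem L1049209 : W_3 (nat_lit 3) (nat_lit 0x10001c001e0008000400000000000000000000000) (nat_lit 0x0) (nat_lit 0x6000000004000200010000000000000000000) := T_3 (nat_lit 145) (nat_lit 146) (nat_lit 3) (nat_lit 6) (nat_lit 7) L1049208 (by decide +kernel)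
theorem L1049210 : W_3 (nat_lit 4) (nat_lit 0x10001c001e0008000000000000000000000000000) (nat_lit 0x0) (nat_lit 0x6000000004000600030000000000000000000) := T_3 (nat_lit 94) (nat_lit 77) (nat_lit 5) (nat_lit 9) (nat_lit 4) L1049209 (by decide +kernel)
theorem L1049211 : W_3 (nat_lit 5) (nat_lit 0x100018001e0008000000000000000000000000000) (nat_lit 0x0) (nat_lit 0x6600000004000600030000000000000000000) := T_3 (nat_lit 142) (nat_lit 141) (nat_lit 2) (nat_lit 5) (nat_lit 8) L1049210 (by decide +kernel)
theorem L1049212 : W_3 (nat_lit 6) (nat_lit 0x100018001e0000000000000000000000000000000) (nat_lit 0x0) (nat_lit 0x660000001c000600030000000000000000000) := T_3 (nat_lit 111) (nat_lit 112) (nat_lit 2) (nat_lit 6) (nat_lit 7) L1049211 (by decide +kernel)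
theorem L1049213 : W_3 (nat_lit 7) (nat_lit 0x100018000e0000000000000000000000000000000) (nat_lit 0x0) (nat_lit 0x660010001f800680034000000000000000000) := Q_3 (nat_lit 128) (C_3 L1031316 (C_3 L1049207 (C_3 L1049212 N_3))) (by decide +kernel)
theorem L1049214 : W_3 (nat_lit 8) (nat_lit 0x100018000c0000000000000000000000000000000) (nat_lit 0x0) (nat_lit 0x670013801fc00680034000000000000000000) := Q_3 (nat_lit 125) (C_3 L1049195 (C_3 L1004369 (C_3 L1049213 N_3))) (by decide +kernel)
theorem L1049215 : W_3 (nat_lit 2) (nat_lit 0x14001e000e0000000280000000000000000000000) (nat_lit 0x0) (nat_lit 0x8006000000000000000000000000000000000000) := D_3 (nat_lit 145) (nat_lit 146) (nat_lit 159) (nat_lit 0) (nat_lit 10) (nat_lit 8) (nat_lit 1) (nat_lit 9) (nat_lit 8) (by decide +kernel)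
theorem L1049216 : W_3 (nat_lit 3) (nat_lit 0x10001e000e0000000280000000000000000000000) (nat_lit 0x0) (nat_lit 0xe006000000000000000000000000000000000000) := T_3 (nat_lit 158) (nat_lit 157) (nat_lit 1) (nat_lit 8) (nat_lit 8) L1049215 (by decide +kernel)
theorem L1049217 : W_3 (nat_lit 4) (nat_lit 0x10001e000e0000000200000000000000000000000) (nat_lit 0x0) (nat_lit 0xe006000000001000080000000000000000000000) := T_3 (nat_lit 91) (nat_lit 108) (nat_lit 7) (nat_lit 6) (nat_lit 5) L1049216 (by decide +kernel)
theorem L1049218 : W_3 (nat_lit 5) (nat_lit 0x10001c000e0000000200000000000000000000000) (nat_lit 0x0) (nat_lit 0xe006300000001000080000000000000000000000) := T_3 (nat_lit 141) (nat_lit 140) (nat_lit 2) (nat_lit 4) (nat_lit 8) L1049217 (by decide +kernel)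
theorem L1049219 : W_3 (nat_lit 6) (nat_lit 0x10001c000e0000000000000000000000000000000) (nat_lit 0x0) (nat_lit 0xe006300000005000280000000000000000000000) := T_3 (nat_lit 93) (nat_lit 110) (nat_lit 5) (nat_lit 8) (nat_lit 5) L1049218 (by decide +kernel)
theorem L1049220 : W_3 (nat_lit 2) (nat_lit 0x10001c000e0000000000000000000000000000000) (nat_lit 0x0) (nat_lit 0x300100000000000000000000000000000000) := D_3 (nat_lit 141) (nat_lit 128) (nat_lit 140) (nat_lit 2) (nat_lit 5) (nat_lit 8) (nat_lit 2) (nat_lit 4) (nat_lit 8) (by decide +kernel)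
theorem L1049221 : W_3 (nat_lit 2) (nat_lit 0x18005c000e0001a00200000000000000000000000) (nat_lit 0x0) (nat_lit 0x80006000000000000000000000000000000000000000) := D_3 (nat_lit 158) (nat_lit 157) (nat_lit 175) (nat_lit 2) (nat_lit 4) (nat_lit 9) (nat_lit 5) (nat_lit 6) (nat_lit 6) (by decide +kernel)
theorem L1049222 : W_3 (nat_lit 3) (nat_lit 0x10005c000e0001a00200000000000000000000000) (nat_lit 0x0) (nat_lit 0x8000e000000000000000040000000000000000000000) := T_3 (nat_lit 159) (nat_lit 90) (nat_lit 4) (nat_lit 6) (nat_lit 9) L1049221 (by decide +kernel)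
theorem L1049223 : W_3 (nat_lit 4) (nat_lit 0x10005c000e0001800200000000000000000000000) (nat_lit 0x0) (nat_lit 0x8000e000000000000600040000000000000000000000) := T_3 (nat_lit 105) (nat_lit 106) (nat_lit 3) (nat_lit 3) (nat_lit 6) L1049222 (by decide +kernel)
theorem L1049224 : W_3 (nat_lit 5) (nat_lit 0x10005c000e0001000200000000000000000000000) (nat_lit 0x0) (nat_lit 0x8000e000000100000e00040000000000000000000000) := T_3 (nat_lit 107) (nat_lit 128) (nat_lit 0) (nat_lit 9) (nat_lit 7) L1049223 (by decide +kernel)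
theorem L1049225 : W_3 (nat_lit 6) (nat_lit 0x10005c000e0000000200000000000000000000000) (nat_lit 0x0) (nat_lit 0x8000e000000100001e000c0000000000000000000000) := T_3 (nat_lit 108) (nat_lit 91) (nat_lit 7) (nat_lit 6) (nat_lit 5) L1049224 (by decide +kernel)
theorem L1049226 : W_3 (nat_lit 7) (nat_lit 0x10001c000e0000000200000000000000000000000) (nat_lit 0x0) (nat_lit 0x8000e006000100001e000c0000000000000000000000) := T_3 (nat_lit 146) (nat_lit 145) (nat_lit 0) (nat_lit 10) (nat_lit 8) L1049225 (by decide +kernel)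
theorem L1049227 : W_3 (nat_lit 8) (nat_lit 0x10001c000e0000000000000000000000000000000) (nat_lit 0x0) (nat_lit 0x8000e006000100005e002c0000000000000000000000) := T_3 (nat_lit 93) (nat_lit 110) (nat_lit 5) (nat_lit 8) (nat_lit 5) L1049226 (by decide +kernel)
theorem L1049228 : W_3 (nat_lit 9) (nat_lit 0x100018000e0000000000000000000000000000000) (nat_lit 0x0) (nat_lit 0x8000e006700100005e002c0000000000000000000000) := Q_3 (nat_lit 142) (C_3 L1049219 (C_3 L1049220 (C_3 L1049227 N_3))) (by decide +kernel)
theorem L1049229 : W_3 (nat_lit 10) (nat_lit 0x100018000c0000000000000000000000000000000) (nat_lit 0x0) (nat_lit 0x8000e006700138005e002c0000000000000000000000) := Q_3 (nat_lit 125) (C_3 L1049195 (C_3 L1004369 (C_3 L1049228 N_3))) (by decide +kernel)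
theorem L1049230 : W_3 (nat_lit 11) (nat_lit 0x10001800080000000000000000000000000000000) (nat_lit 0x0) (nat_lit 0x200018000e00e70017801fe007c003c000000000000000000) := Q_3 (nat_lit 126) (C_3 L1049183 (C_3 L1049185 (C_3 L1049191 (C_3 L1049196 (C_3 L1049203 (C_3 L1049214 (C_3 L1049229 N_3))))))) (by decide +kernel)
theorem L1049231 : W_3 (nat_lit 12) (nat_lit 0x1800080000000000000000000000000000000) (nat_lit 0x0) (nat_lit 0xe000f001fe001f80e7c017f01fe007c003c000000000000000000) := Q_3 (nat_lit 160) (C_3 L1049110 (C_3 L1011336 (C_3 L1049173 (C_3 L1049230 N_3)))) (by decide +kernel)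
theorem L1049837 : W_3 (nat_lit 2) (nat_lit 0x1800180004000200000000000000000000000) (nat_lit 0x0) (nat_lit 0x2000040000000000010000000000000000000) := D_3 (nat_lit 76) (nat_lit 126) (nat_lit 145) (nat_lit 5) (nat_lit 8) (nat_lit 4) (nat_lit 7) (nat_lit 8) (nat_lit 4) (by decide +kernel)
theorem L1049838 : W_3 (nat_lit 3) (nat_lit 0x1800180004000000000000000000000000000) (nat_lit 0x0) (nat_lit 0x10002000040000000200010000000000000000000) := T_3 (nat_lit 93) (nat_lit 160) (nat_lit 5) (nat_lit 8) (nat_lit 5) L1049837 (by decide +kernel)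
theorem L1049839 : W_3 (nat_lit 2) (nat_lit 0x1800180004000200010000000000000000000) (nat_lit 0x0) (nat_lit 0x100008000400000000000000) := D_3 (nat_lit 75) (nat_lit 58) (nat_lit 92) (nat_lit 4) (nat_lit 8) (nat_lit 7) (nat_lit 4) (nat_lit 8) (nat_lit 8) (by decide +kernel)
theorem L1049840 : W_3 (nat_lit 3) (nat_lit 0x1800180004000200000000000000000000000) (nat_lit 0x0) (nat_lit 0x40000000100018000400000000000000) := T_3 (nat_lit 76) (nat_lit 126) (nat_lit 5) (nat_lit 8) (nat_lit 4) L1049839 (by decide +kernel)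
theorem L1049841 : W_3 (nat_lit 4) (nat_lit 0x1800180004000000000000000000000000000) (nat_lit 0x0) (nat_lit 0x10000000040000000300018000400000000000000) := T_3 (nat_lit 93) (nat_lit 160) (nat_lit 5) (nat_lit 8) (nat_lit 5) L1049840 (by decide +kernel)
theorem L1049920 : W_3 (nat_lit 2) (nat_lit 0x4000000110007800180004000000000000000000000000000) (nat_lit 0x0) (nat_lit 0x200018000000000000000000000000000000000000) := D_3 (nat_lit 147) (nat_lit 148) (nat_lit 165) (nat_lit 0) (nat_lit 12) (nat_lit 8) (nat_lit 3) (nat_lit 8) (nat_lit 8) (by decide +kernel)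
theorem L1049921 : W_3 (nat_lit 3) (nat_lit 0x4000000010007800180004000000000000000000000000000) (nat_lit 0x0) (nat_lit 0x380018000000000000000000000000000000000000) := T_3 (nat_lit 164) (nat_lit 163) (nat_lit 3) (nat_lit 7) (nat_lit 8) L1049920 (by decide +kernel)
theorem L1049922 : W_3 (nat_lit 4) (nat_lit 0x10007800180004000000000000000000000000000) (nat_lit 0x0) (nat_lit 0x4000200380018000000000000000000000000000000000000) := T_3 (nat_lit 194) (nat_lit 177) (nat_lit 6) (nat_lit 7) (nat_lit 11) L1049921 (by decide +kernel)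
theorem L1050409 : W_3 (nat_lit 2) (nat_lit 0x180018001e000900020000000000000000000) (nat_lit 0x0) (nat_lit 0x40000000000008000400000000000000) := D_3 (nat_lit 75) (nat_lit 58) (nat_lit 126) (nat_lit 7) (nat_lit 7) (nat_lit 3) (nat_lit 7) (nat_lit 7) (nat_lit 4) (by decide +kernel)
theorem L1050410 : W_3 (nat_lit 3) (nat_lit 0x180018001e000800020000000000000000000) (nat_lit 0x0) (nat_lit 0x40000000180008000400000000000000) := T_3 (nat_lit 92) (nat_lit 91) (nat_lit 0) (nat_lit 10) (nat_lit 6) L1050409 (by decide +kernel)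
theorem L1050411 : W_3 (nat_lit 4) (nat_lit 0x180018001e000000020000000000000000000) (nat_lit 0x0) (nat_lit 0x40000001980008000400000000000000) := T_3 (nat_lit 95) (nat_lit 96) (nat_lit 2) (nat_lit 7) (nat_lit 6) L1050410 (by decide +kernel)
theorem L1050412 : W_3 (nat_lit 5) (nat_lit 0x180018001e000000000000000000000000000) (nat_lit 0x0) (nat_lit 0x40000001d80028000400000000000000) := T_3 (nat_lit 77) (nat_lit 94) (nat_lit 5) (nat_lit 9) (nat_lit 4) L1050411 (by decide +kernel)
theorem L1050469 : W_3 (nat_lit 2) (nat_lit 0x180018000f000000000000000000000000000) (nat_lit 0x0) (nat_lit 0xc00020000000000000000000) := D_3 (nat_lit 94) (nat_lit 77) (nat_lit 95) (nat_lit 5) (nat_lit 9) (nat_lit 4) (nat_lit 2) (nat_lit 6) (nat_lit 6) (by decide +kernel)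
theorem L1050470 : W_3 (nat_lit 3) (nat_lit 0x180018000e000000000000000000000000000) (nat_lit 0x0) (nat_lit 0x1800c00020000000000000000000) := T_3 (nat_lit 108) (nat_lit 107) (nat_lit 3) (nat_lit 5) (nat_lit 6) L1050469 (by decide +kernel)
theorem L1050880 : W_3 (nat_lit 2) (nat_lit 0x100007800180006000000000000000000000000000) (nat_lit 0x0) (nat_lit 0x200018000000000000000000000000000000000000) := D_3 (nat_lit 147) (nat_lit 148) (nat_lit 165) (nat_lit 0) (nat_lit 12) (nat_lit 8) (nat_lit 3) (nat_lit 8) (nat_lit 8) (by decide +kernel)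
theorem L1051340 : W_3 (nat_lit 2) (nat_lit 0x7800180004000000000000000000000000000) (nat_lit 0x0) (nat_lit 0x18000040000000000000000000000000000000) := D_3 (nat_lit 147) (nat_lit 126) (nat_lit 148) (nat_lit 0) (nat_lit 11) (nat_lit 8) (nat_lit 0) (nat_lit 12) (nat_lit 8) (by decide +kernel)
theorem L1051341 : W_3 (nat_lit 5) (nat_lit 0x7800180004000000000000000000000000000) (nat_lit 0x0) (nat_lit 0x4000200398018000000000000000000000000000000000000) := T_3 (nat_lit 160) (nat_lit 159) (nat_lit 1) (nat_lit 10) (nat_lit 8) L1049922 (by decide +kernel)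
theorem L1051342 : W_3 (nat_lit 2) (nat_lit 0x90007800180004000000000000000000000000000) (nat_lit 0x0) (nat_lit 0x4000200000000000040000000000000000000000000000000) := D_3 (nat_lit 177) (nat_lit 126) (nat_lit 194) (nat_lit 6) (nat_lit 7) (nat_lit 10) (nat_lit 6) (nat_lit 7) (nat_lit 11) (by decide +kernel)
theorem L1051343 : W_3 (nat_lit 3) (nat_lit 0x80007800180004000000000000000000000000000) (nat_lit 0x0) (nat_lit 0x4000200018000000040000000000000000000000000000000) := T_3 (nat_lit 160) (nat_lit 159) (nat_lit 1) (nat_lit 10) (nat_lit 8) L1051342 (by decide +kernel)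
theorem L1051344 : W_3 (nat_lit 4) (nat_lit 0x7800180004000000000000000000000000000) (nat_lit 0x0) (nat_lit 0x4000200198000000040000000000000000000000000000000) := T_3 (nat_lit 163) (nat_lit 164) (nat_lit 3) (nat_lit 7) (nat_lit 8) L1051343 (by decide +kernel)
theorem L1051345 : W_3 (nat_lit 6) (nat_lit 0x3800180004000000000000000000000000000) (nat_lit 0x0) (nat_lit 0x400020039801c000040000000000000000000000000000000) := Q_3 (nat_lit 146) (C_3 L1051340 (C_3 L1051341 (C_3 L1051344 N_3))) (by decide +kernel)
theorem L1051415 : W_3 (nat_lit 2) (nat_lit 0x7800180006000000000000000000000000000) (nat_lit 0x0) (nat_lit 0x18000040000000000000000000000000000000) := D_3 (nat_lit 147) (nat_lit 126) (nat_lit 148) (nat_lit 0) (nat_lit 11) (nat_lit 8) (nat_lit 0) (nat_lit 12) (nat_lit 8) (by decide +kernel)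
theorem L1051543 : W_3 (nat_lit 2) (nat_lit 0x800fc00180004000000000000000000000000000) (nat_lit 0x0) (nat_lit 0x380000000000000000000000000000000000000000) := D_3 (nat_lit 164) (nat_lit 163) (nat_lit 165) (nat_lit 3) (nat_lit 7) (nat_lit 8) (nat_lit 3) (nat_lit 8) (nat_lit 8) (by decide +kernel)
theorem L1051544 : W_3 (nat_lit 3) (nat_lit 0x8007c00180004000000000000000000000000000) (nat_lit 0x0) (nat_lit 0x380018000000000000000000000000000000000000) := T_3 (nat_lit 147) (nat_lit 148) (nat_lit 0) (nat_lit 12) (nat_lit 8) L1051543 (by decide +kernel)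
theorem L1051828 : W_3 (nat_lit 4) (nat_lit 0x8003c00180004000000000000000000000000000) (nat_lit 0x0) (nat_lit 0x39001c000000000000000000000000000000000000) := T_3 (nat_lit 146) (nat_lit 160) (nat_lit 1) (nat_lit 10) (nat_lit 8) L1051544 (by decide +kernel)
theorem L1051879 : W_3 (nat_lit 2) (nat_lit 0x7a00180008000e00000000000000000000000) (nat_lit 0x0) (nat_lit 0x18000040000000000000000000000000000000) := D_3 (nat_lit 147) (nat_lit 126) (nat_lit 148) (nat_lit 0) (nat_lit 11) (nat_lit 8) (nat_lit 0) (nat_lit 12) (nat_lit 8) (by decide +kernel)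
theorem L1051880 : W_3 (nat_lit 3) (nat_lit 0x3a00180008000e00000000000000000000000) (nat_lit 0x0) (nat_lit 0x8001c000040000000000000000000000000000000) := T_3 (nat_lit 146) (nat_lit 163) (nat_lit 7) (nat_lit 9) (nat_lit 5) L1051879 (by decide +kernel)
theorem L1051881 : W_3 (nat_lit 4) (nat_lit 0x3a00180008000600000000000000000000000) (nat_lit 0x0) (nat_lit 0x8001c000040000000800040000000000000000000) := T_3 (nat_lit 95) (nat_lit 78) (nat_lit 6) (nat_lit 9) (nat_lit 8) L1051880 (by decide +kernel)
theorem L1051882 : W_3 (nat_lit 5) (nat_lit 0x1a00180008000600000000000000000000000) (nat_lit 0x0) (nat_lit 0x8001e000040000000800050000000000000000000) := T_3 (nat_lit 145) (nat_lit 76) (nat_lit 4) (nat_lit 9) (nat_lit 8) L1051881 (by decide +kernel)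
theorem L1051883 : W_3 (nat_lit 6) (nat_lit 0x1a00180000000600000000000000000000000) (nat_lit 0x0) (nat_lit 0x8001e000040008000800070000000000000000000) := T_3 (nat_lit 111) (nat_lit 77) (nat_lit 5) (nat_lit 9) (nat_lit 4) L1051882 (by decide +kernel)
theorem L1051884 : W_3 (nat_lit 7) (nat_lit 0x1800180000000600000000000000000000000) (nat_lit 0x0) (nat_lit 0x8001e600040008000800070000000000000000000) := T_3 (nat_lit 141) (nat_lit 142) (nat_lit 2) (nat_lit 5) (nat_lit 8) L1051883 (by decide +kernel)
theorem L1051885 : W_3 (nat_lit 11) (nat_lit 0x1800180000000700000000000000000000000) (nat_lit 0x0) (nat_lit 0x500078001c003e008e00f7800000000000000000) := Q_3 (nat_lit 91) (C_3 L994173 (C_3 L910929 (C_3 L994142 N_3))) (by decide +kernel)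
theorem L1051886 : W_3 (nat_lit 2) (nat_lit 0x1a00180003000780024000700000000000000) (nat_lit 0x0) (nat_lit 0x18000800000000000000) := D_3 (nat_lit 76) (nat_lit 59) (nat_lit 75) (nat_lit 3) (nat_lit 5) (nat_lit 3) (nat_lit 0) (nat_lit 9) (nat_lit 4) (by decide +kernel)
theorem L1051887 : W_3 (nat_lit 3) (nat_lit 0x1a00180003000780024000600000000000000) (nat_lit 0x0) (nat_lit 0x18000900008000000000) := T_3 (nat_lit 56) (nat_lit 39) (nat_lit 4) (nat_lit 6) (nat_lit 6) L1051886 (by decide +kernel)
theorem L1051888 : W_3 (nat_lit 4) (nat_lit 0x1a00180003000780024000200000000000000) (nat_lit 0x0) (nat_lit 0x18000d00028000000000) := T_3 (nat_lit 58) (nat_lit 41) (nat_lit 6) (nat_lit 6) (nat_lit 6) L1051887 (by decide +kernel)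
theorem L1051889 : W_3 (nat_lit 5) (nat_lit 0x1a00180003000780024000000000000000000) (nat_lit 0x0) (nat_lit 0x18000f00038000000000) := T_3 (nat_lit 57) (nat_lit 40) (nat_lit 7) (nat_lit 6) (nat_lit 2) L1051888 (by decide +kernel)
theorem L1051890 : W_3 (nat_lit 6) (nat_lit 0x1a00180001000780024000000000000000000) (nat_lit 0x0) (nat_lit 0x40002000000018000f00038000000000) := T_3 (nat_lit 109) (nat_lit 126) (nat_lit 4) (nat_lit 7) (nat_lit 8) L1051889 (by decide +kernel)
theorem L1051891 : W_3 (nat_lit 7) (nat_lit 0x1a00180001000780020000000000000000000) (nat_lit 0x0) (nat_lit 0x4000200000001e000f00038000000000) := T_3 (nat_lit 74) (nat_lit 73) (nat_lit 0) (nat_lit 9) (nat_lit 5) L1051890 (by decide +kernel)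
theorem L1051892 : W_3 (nat_lit 8) (nat_lit 0x1a00180000000780020000000000000000000) (nat_lit 0x0) (nat_lit 0x4000380000001e000f00038000000000) := T_3 (nat_lit 108) (nat_lit 107) (nat_lit 1) (nat_lit 9) (nat_lit 5) L1051891 (by decide +kernel)
theorem L1051893 : W_3 (nat_lit 9) (nat_lit 0x1800180000000780020000000000000000000) (nat_lit 0x0) (nat_lit 0x60004000380000001e000f00038000000000) := T_3 (nat_lit 141) (nat_lit 142) (nat_lit 2) (nat_lit 5) (nat_lit 8) L1051892 (by decide +kernel)
theorem L1051894 : W_3 (nat_lit 10) (nat_lit 0x1800180000000780000000000000000000000) (nat_lit 0x0) (nat_lit 0x60004000380000007e000f00038000000000) := T_3 (nat_lit 77) (nat_lit 78) (nat_lit 2) (nat_lit 6) (nat_lit 5) L1051893 (by decide +kernel)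
theorem L1051895 : W_3 (nat_lit 11) (nat_lit 0x1800180000000700000000000000000000000) (nat_lit 0x0) (nat_lit 0x500078005c003e000e007f800f00038000000000) := Q_3 (nat_lit 91) (C_3 L994142 (C_3 L910929 (C_3 L1051894 (C_3 L908416 N_3)))) (by decide +kernel)
theorem L1051896 : W_3 (nat_lit 9) (nat_lit 0x1800180000000700000000000000000000000) (nat_lit 0x0) (nat_lit 0x6000400f30038003dc000000000000000000) := Q_3 (nat_lit 95) (C_3 L994214 (C_3 L910936 (C_3 L908393 (C_3 L990289 N_3)))) (by decide +kernel)
theorem L1051897 : W_3 (nat_lit 2) (nat_lit 0x1a00180000000f80040000000000000000000) (nat_lit 0x0) (nat_lit 0x3800000000000000000000000000) := D_3 (nat_lit 108) (nat_lit 107) (nat_lit 109) (nat_lit 1) (nat_lit 9) (nat_lit 5) (nat_lit 1) (nat_lit 10) (nat_lit 5) (by decide +kernel)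
theorem L1051898 : W_3 (nat_lit 3) (nat_lit 0x1a00180000000f00040000000000000000000) (nat_lit 0x0) (nat_lit 0x3800080020000000000000000000) := T_3 (nat_lit 91) (nat_lit 77) (nat_lit 2) (nat_lit 6) (nat_lit 5) L1051897 (by decide +kernel)
theorem L1051899 : W_3 (nat_lit 4) (nat_lit 0x1a00180000000f00000000000000000000000) (nat_lit 0x0) (nat_lit 0x38000800e0000000000000000000) := T_3 (nat_lit 78) (nat_lit 79) (nat_lit 2) (nat_lit 7) (nat_lit 5) L1051898 (by decide +kernel)
theorem L1051900 : W_3 (nat_lit 5) (nat_lit 0x1800180000000f00000000000000000000000) (nat_lit 0x0) (nat_lit 0x6000000038000800e0000000000000000000) := T_3 (nat_lit 141) (nat_lit 142) (nat_lit 2) (nat_lit 5) (nat_lit 8) L1051899 (by decide +kernel)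
theorem L1051901 : W_3 (nat_lit 2) (nat_lit 0x1800180002000f00000000000000000000000) (nat_lit 0x0) (nat_lit 0x40000000000018000000000000000000) := D_3 (nat_lit 126) (nat_lit 76) (nat_lit 75) (nat_lit 6) (nat_lit 7) (nat_lit 8) (nat_lit 7) (nat_lit 7) (nat_lit 4) (by decide +kernel)
theorem L1051902 : W_3 (nat_lit 3) (nat_lit 0x1800180000000f00000000000000000000000) (nat_lit 0x0) (nat_lit 0x40003000000018000000000000000000) := T_3 (nat_lit 109) (nat_lit 108) (nat_lit 1) (nat_lit 10) (nat_lit 5) L1051901 (by decide +kernel)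
theorem L1051903 : W_3 (nat_lit 7) (nat_lit 0x1800180000000700000000000000000000000) (nat_lit 0x0) (nat_lit 0x6000400738078801f8000000000000000000) := Q_3 (nat_lit 95) (C_3 L990289 (C_3 L908373 (C_3 L1051900 (C_3 L1051902 N_3)))) (by decide +kernel)
theorem L1051904 : W_3 (nat_lit 2) (nat_lit 0x1a00180002000f00000000000000000000000) (nat_lit 0x0) (nat_lit 0x4000000000000c000000000000000000) := D_3 (nat_lit 75) (nat_lit 74) (nat_lit 126) (nat_lit 0) (nat_lit 10) (nat_lit 5) (nat_lit 7) (nat_lit 7) (nat_lit 4) (by decide +kernel)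
theorem L1051905 : W_3 (nat_lit 3) (nat_lit 0x1a00180002000700000000000000000000000) (nat_lit 0x0) (nat_lit 0x4000100080000c000000000000000000) := T_3 (nat_lit 95) (nat_lit 108) (nat_lit 1) (nat_lit 10) (nat_lit 5) L1051904 (by decide +kernel)
theorem L1051906 : W_3 (nat_lit 4) (nat_lit 0x1800180002000700000000000000000000000) (nat_lit 0x0) (nat_lit 0x60004000100080000c000000000000000000) := T_3 (nat_lit 141) (nat_lit 142) (nat_lit 2) (nat_lit 5) (nat_lit 8) L1051905 (by decide +kernel)
theorem L1051907 : W_3 (nat_lit 2) (nat_lit 0x1a00180022001f00110000000000000000000) (nat_lit 0x0) (nat_lit 0x2000220000000000000000000) := D_3 (nat_lit 97) (nat_lit 77) (nat_lit 81) (nat_lit 0) (nat_lit 12) (nat_lit 5) (nat_lit 2) (nat_lit 9) (nat_lit 5) (by decide +kernel)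
theorem L1051908 : W_3 (nat_lit 3) (nat_lit 0x1a00180022001f00010000000000000000000) (nat_lit 0x0) (nat_lit 0x20003a0000000000000000000) := T_3 (nat_lit 80) (nat_lit 79) (nat_lit 2) (nat_lit 8) (nat_lit 5) L1051907 (by decide +kernel)
theorem L1051909 : W_3 (nat_lit 4) (nat_lit 0x1a00180022000f00010000000000000000000) (nat_lit 0x0) (nat_lit 0x400030003a0000000000000000000) := T_3 (nat_lit 96) (nat_lit 114) (nat_lit 3) (nat_lit 8) (nat_lit 5) L1051908 (by decide +kernel)
theorem L1051910 : W_3 (nat_lit 5) (nat_lit 0x1a00180022000f00000000000000000000000) (nat_lit 0x0) (nat_lit 0x400400030003b0000000000000000000) := T_3 (nat_lit 76) (nat_lit 126) (nat_lit 6) (nat_lit 7) (nat_lit 8) L1051909 (by decide +kernel)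
theorem L1051911 : W_3 (nat_lit 6) (nat_lit 0x1a00180002000f00000000000000000000000) (nat_lit 0x0) (nat_lit 0x400700030003b0000000000000000000) := T_3 (nat_lit 113) (nat_lit 112) (nat_lit 3) (nat_lit 7) (nat_lit 5) L1051910 (by decide +kernel)
theorem L1051912 : W_3 (nat_lit 7) (nat_lit 0x1800180002000f00000000000000000000000) (nat_lit 0x0) (nat_lit 0x6000400700030003b0000000000000000000) := T_3 (nat_lit 141) (nat_lit 142) (nat_lit 2) (nat_lit 5) (nat_lit 8) L1051911 (by decide +kernel)
theorem L1051913 : W_3 (nat_lit 8) (nat_lit 0x1800180002000700000000000000000000000) (nat_lit 0x0) (nat_lit 0x6000400710038003b0000000000000000000) := T_3 (nat_lit 95) (nat_lit 108) (nat_lit 1) (nat_lit 10) (nat_lit 5) L1051912 (by decide +kernel)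
theorem L1051914 : W_3 (nat_lit 9) (nat_lit 0x1800180000000700000000000000000000000) (nat_lit 0x0) (nat_lit 0x6000400730038003bc000000000000000000) := Q_3 (nat_lit 109) (C_3 L908436 (C_3 L908375 (C_3 L1051906 (C_3 L1051913 N_3)))) (by decide +kernel)
theorem L1051915 : W_3 (nat_lit 12) (nat_lit 0x1800180000000600000000000000000000000) (nat_lit 0x0) (nat_lit 0x500078005c0f3e079e03ff800f00038000000000) := Q_3 (nat_lit 92) (C_3 L990291 (C_3 L910931 (C_3 L1051885 (C_3 L990290 (C_3 L1051895 (C_3 L1051896 (C_3 L1051903 (C_3 L1051914 N_3)))))))) (by decide +kernel)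
theorem L1051916 : W_3 (nat_lit 5) (nat_lit 0x3a00180000000600000000000000000000000) (nat_lit 0x0) (nat_lit 0x8001c000040008000800050000000000000000000) := T_3 (nat_lit 111) (nat_lit 76) (nat_lit 4) (nat_lit 9) (nat_lit 8) L1051881 (by decide +kernel)
theorem L1051917 : W_3 (nat_lit 6) (nat_lit 0x3800180000000600000000000000000000000) (nat_lit 0x0) (nat_lit 0x8001c600040008000800050000000000000000000) := T_3 (nat_lit 141) (nat_lit 142) (nat_lit 2) (nat_lit 5) (nat_lit 8) L1051916 (by decide +kernel)
theorem L1051918 : W_3 (nat_lit 11) (nat_lit 0x3800180000000600000000000000000000000) (nat_lit 0x0) (nat_lit 0x400020039801c000c00078003800050000000000000000000) := T_3 (nat_lit 111) (nat_lit 76) (nat_lit 4) (nat_lit 9) (nat_lit 8) L861551 (by decide +kernel)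
theorem L1051919 : W_3 (nat_lit 2) (nat_lit 0x8007c00180000000600000000000000000000000) (nat_lit 0x0) (nat_lit 0x18000040000000000000000000000000000000) := D_3 (nat_lit 147) (nat_lit 148) (nat_lit 126) (nat_lit 0) (nat_lit 12) (nat_lit 8) (nat_lit 0) (nat_lit 11) (nat_lit 8) (by decide +kernel)
theorem L1051920 : W_3 (nat_lit 3) (nat_lit 0x8003c00180000000600000000000000000000000) (nat_lit 0x0) (nat_lit 0x1001c000040000000000000000000000000000000) := T_3 (nat_lit 146) (nat_lit 160) (nat_lit 1) (nat_lit 10) (nat_lit 8) L1051919 (by decide +kernel)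
theorem L1051921 : W_3 (nat_lit 4) (nat_lit 0x3c00180000000600000000000000000000000) (nat_lit 0x0) (nat_lit 0x1c01c000040000000000000000000000000000000) := T_3 (nat_lit 159) (nat_lit 158) (nat_lit 1) (nat_lit 9) (nat_lit 8) L1051920 (by decide +kernel)
theorem L1051922 : W_3 (nat_lit 5) (nat_lit 0x3800180000000600000000000000000000000) (nat_lit 0x0) (nat_lit 0x1c01c600040000000000000000000000000000000) := T_3 (nat_lit 142) (nat_lit 141) (nat_lit 2) (nat_lit 5) (nat_lit 8) L1051921 (by decide +kernel)
theorem L1051923 : W_3 (nat_lit 2) (nat_lit 0x8003c00180012001f00008000000000000000000) (nat_lit 0x0) (nat_lit 0x1c0000000000000000000) := D_3 (nat_lit 79) (nat_lit 78) (nat_lit 80) (nat_lit 2) (nat_lit 7) (nat_lit 5) (nat_lit 2) (nat_lit 8) (nat_lit 5) (by decide +kernel)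
theorem L1051924 : W_3 (nat_lit 3) (nat_lit 0x8003c00180012000f00008000000000000000000) (nat_lit 0x0) (nat_lit 0x10001d0000000000000000000) := T_3 (nat_lit 96) (nat_lit 76) (nat_lit 0) (nat_lit 11) (nat_lit 5) L1051923 (by decide +kernel)
theorem L1051925 : W_3 (nat_lit 4) (nat_lit 0x8003c00180002000f00008000000000000000000) (nat_lit 0x0) (nat_lit 0x300010001d0000000000000000000) := T_3 (nat_lit 112) (nat_lit 113) (nat_lit 3) (nat_lit 7) (nat_lit 5) L1051924 (by decide +kernel)
theorem L1051926 : W_3 (nat_lit 5) (nat_lit 0x8003c00180002000f00000000000000000000000) (nat_lit 0x0) (nat_lit 0x300010001dc000000000000000000) := T_3 (nat_lit 75) (nat_lit 74) (nat_lit 0) (nat_lit 10) (nat_lit 5) L1051925 (by decide +kernel)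
theorem L1051927 : W_3 (nat_lit 6) (nat_lit 0x8003c00180002000700000000000000000000000) (nat_lit 0x0) (nat_lit 0x310018001dc000000000000000000) := T_3 (nat_lit 95) (nat_lit 108) (nat_lit 1) (nat_lit 10) (nat_lit 5) L1051926 (by decide +kernel)
theorem L1051928 : W_3 (nat_lit 7) (nat_lit 0x8003c00180000000700000000000000000000000) (nat_lit 0x0) (nat_lit 0x400330018001dc000000000000000000) := T_3 (nat_lit 109) (nat_lit 126) (nat_lit 5) (nat_lit 7) (nat_lit 5) L1051927 (by decide +kernel)
theorem L1051929 : W_3 (nat_lit 8) (nat_lit 0x3c00180000000700000000000000000000000) (nat_lit 0x0) (nat_lit 0xc0000000400330018001dc000000000000000000) := T_3 (nat_lit 159) (nat_lit 158) (nat_lit 1) (nat_lit 9) (nat_lit 8) L1051928 (by decide +kernel)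
theorem L1051930 : W_3 (nat_lit 9) (nat_lit 0x3800180000000700000000000000000000000) (nat_lit 0x0) (nat_lit 0xc0006000400330018001dc000000000000000000) := T_3 (nat_lit 142) (nat_lit 141) (nat_lit 2) (nat_lit 5) (nat_lit 8) L1051929 (by decide +kernel)
theorem L1051931 : W_3 (nat_lit 5) (nat_lit 0x3800180000000700000000000000000000000) (nat_lit 0x0) (nat_lit 0x1b800880050000000000000000000) := T_3 (nat_lit 111) (nat_lit 76) (nat_lit 4) (nat_lit 9) (nat_lit 8) L989777 (by decide +kernel)
theorem L1051932 : W_3 (nat_lit 2) (nat_lit 0x3800180008000780004000000000000000000) (nat_lit 0x0) (nat_lit 0x800048000000000000000000) := D_3 (nat_lit 95) (nat_lit 78) (nat_lit 75) (nat_lit 6) (nat_lit 9) (nat_lit 8) (nat_lit 0) (nat_lit 10) (nat_lit 5) (by decide +kernel)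
theorem L1051933 : W_3 (nat_lit 3) (nat_lit 0x3800180008000780000000000000000000000) (nat_lit 0x0) (nat_lit 0x80004e000000000000000000) := T_3 (nat_lit 74) (nat_lit 73) (nat_lit 0) (nat_lit 9) (nat_lit 5) L1051932 (by decide +kernel)
theorem L1051934 : W_3 (nat_lit 4) (nat_lit 0x3800180008000700000000000000000000000) (nat_lit 0x0) (nat_lit 0x1000088004e000000000000000000) := T_3 (nat_lit 91) (nat_lit 112) (nat_lit 3) (nat_lit 6) (nat_lit 5) L1051933 (by decide +kernel)
theorem L1051935 : W_3 (nat_lit 5) (nat_lit 0x3800180000000700000000000000000000000) (nat_lit 0x0) (nat_lit 0x1800088005e000000000000000000) := T_3 (nat_lit 111) (nat_lit 76) (nat_lit 4) (nat_lit 9) (nat_lit 8) L1051934 (by decide +kernel)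
theorem L1051936 : W_3 (nat_lit 2) (nat_lit 0x3a0018000a000f00000000000000000000000) (nat_lit 0x0) (nat_lit 0x4000000000000c000000000000000000) := D_3 (nat_lit 75) (nat_lit 74) (nat_lit 126) (nat_lit 0) (nat_lit 10) (nat_lit 5) (nat_lit 7) (nat_lit 7) (nat_lit 4) (by decide +kernel)
theorem L1051937 : W_3 (nat_lit 3) (nat_lit 0x3a00180008000f00000000000000000000000) (nat_lit 0x0) (nat_lit 0x4000300000000c000000000000000000) := T_3 (nat_lit 109) (nat_lit 108) (nat_lit 1) (nat_lit 10) (nat_lit 5) L1051936 (by decide +kernel)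
theorem L1051938 : W_3 (nat_lit 4) (nat_lit 0x3a00180008000700000000000000000000000) (nat_lit 0x0) (nat_lit 0x4000300080004c000000000000000000) := T_3 (nat_lit 95) (nat_lit 78) (nat_lit 6) (nat_lit 9) (nat_lit 8) L1051937 (by decide +kernel)
theorem L1051939 : W_3 (nat_lit 5) (nat_lit 0x3800180008000700000000000000000000000) (nat_lit 0x0) (nat_lit 0x60004000300080004c000000000000000000) := T_3 (nat_lit 141) (nat_lit 142) (nat_lit 2) (nat_lit 5) (nat_lit 8) L1051938 (by decide +kernel)
theorem L1051940 : W_3 (nat_lit 6) (nat_lit 0x3800180000000700000000000000000000000) (nat_lit 0x0) (nat_lit 0x60004000b00080005c000000000000000000) := T_3 (nat_lit 111) (nat_lit 76) (nat_lit 4) (nat_lit 9) (nat_lit 8) L1051939 (by decide +kernel)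
theorem L1051941 : W_3 (nat_lit 2) (nat_lit 0x8003c00180002000f00000000000000000000000) (nat_lit 0x0) (nat_lit 0x80000000c0000000000000000000) := D_3 (nat_lit 78) (nat_lit 79) (nat_lit 111) (nat_lit 2) (nat_lit 7) (nat_lit 5) (nat_lit 6) (nat_lit 9) (nat_lit 8) (by decide +kernel)
theorem L1051942 : W_3 (nat_lit 3) (nat_lit 0x8003c00180002000700000000000000000000000) (nat_lit 0x0) (nat_lit 0x90008000c0000000000000000000) := T_3 (nat_lit 95) (nat_lit 108) (nat_lit 1) (nat_lit 10) (nat_lit 5) L1051941 (by decide +kernel)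
theorem L1051943 : W_3 (nat_lit 4) (nat_lit 0x8003c00180000000700000000000000000000000) (nat_lit 0x0) (nat_lit 0x4000b0008000c0000000000000000000) := T_3 (nat_lit 109) (nat_lit 126) (nat_lit 5) (nat_lit 7) (nat_lit 5) L1051942 (by decide +kernel)
theorem L1051944 : W_3 (nat_lit 5) (nat_lit 0x3c00180000000700000000000000000000000) (nat_lit 0x0) (nat_lit 0xc00000004000b0008000c0000000000000000000) := T_3 (nat_lit 159) (nat_lit 158) (nat_lit 1) (nat_lit 9) (nat_lit 8) L1051943 (by decide +kernel)
theorem L1051945 : W_3 (nat_lit 6) (nat_lit 0x3800180000000700000000000000000000000) (nat_lit 0x0) (nat_lit 0xc00060004000b0008000c0000000000000000000) := T_3 (nat_lit 142) (nat_lit 141) (nat_lit 2) (nat_lit 5) (nat_lit 8) L1051944 (by decide +kernel)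
theorem L1051946 : W_3 (nat_lit 2) (nat_lit 0x3a00180008800780004000000000000000000) (nat_lit 0x0) (nat_lit 0x10000400040000000000000000000000) := D_3 (nat_lit 90) (nat_lit 106) (nat_lit 124) (nat_lit 1) (nat_lit 8) (nat_lit 5) (nat_lit 6) (nat_lit 5) (nat_lit 8) (by decide +kernel)
theorem L1051947 : W_3 (nat_lit 3) (nat_lit 0x3a00180008800780000000000000000000000) (nat_lit 0x0) (nat_lit 0x10000400040006000000000000000000) := T_3 (nat_lit 74) (nat_lit 73) (nat_lit 0) (nat_lit 9) (nat_lit 5) L1051946 (by decide +kernel)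
theorem L1051948 : W_3 (nat_lit 4) (nat_lit 0x3a00180008000780000000000000000000000) (nat_lit 0x0) (nat_lit 0x10001c00040006000000000000000000) := T_3 (nat_lit 107) (nat_lit 108) (nat_lit 1) (nat_lit 9) (nat_lit 5) L1051947 (by decide +kernel)
theorem L1051949 : W_3 (nat_lit 5) (nat_lit 0x3a00180008000700000000000000000000000) (nat_lit 0x0) (nat_lit 0x10011c000c0006000000000000000000) := T_3 (nat_lit 91) (nat_lit 112) (nat_lit 3) (nat_lit 6) (nat_lit 5) L1051948 (by decide +kernel)
theorem L1051950 : W_3 (nat_lit 6) (nat_lit 0x3a00180000000700000000000000000000000) (nat_lit 0x0) (nat_lit 0x10019c000c0016000000000000000000) := T_3 (nat_lit 111) (nat_lit 76) (nat_lit 4) (nat_lit 9) (nat_lit 8) L1051949 (by decide +kernel)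
theorem L1051951 : W_3 (nat_lit 7) (nat_lit 0x3800180000000700000000000000000000000) (nat_lit 0x0) (nat_lit 0x600010019c000c0016000000000000000000) := T_3 (nat_lit 141) (nat_lit 142) (nat_lit 2) (nat_lit 5) (nat_lit 8) L1051950 (by decide +kernel)
theorem L1051952 : W_3 (nat_lit 10) (nat_lit 0x3800180000000600000000000000000000000) (nat_lit 0x0) (nat_lit 0xc00060005003bc019c01de000000000000000000) := Q_3 (nat_lit 92) (C_3 L1051930 (C_3 L1051931 (C_3 L1051935 (C_3 L1051940 (C_3 L1051945 (C_3 L1051951 N_3)))))) (by decide +kernel)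
theorem L1051953 : W_3 (nat_lit 12) (nat_lit 0x1800180000000600000000000000000000000) (nat_lit 0x0) (nat_lit 0x400020039c01e600c5007bc039c01de000000000000000000) := Q_3 (nat_lit 145) (C_3 L1051917 (C_3 L1051918 (C_3 L1051922 (C_3 L1051952 N_3)))) (by decide +kernel)
theorem L1051954 : W_3 (nat_lit 2) (nat_lit 0x1a00180000800780024000000000000000000) (nat_lit 0x0) (nat_lit 0x10000400040000000000000000000000) := D_3 (nat_lit 90) (nat_lit 106) (nat_lit 124) (nat_lit 1) (nat_lit 8) (nat_lit 5) (nat_lit 6) (nat_lit 5) (nat_lit 8) (by decide +kernel)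
theorem L1051955 : W_3 (nat_lit 3) (nat_lit 0x1a00180000800780020000000000000000000) (nat_lit 0x0) (nat_lit 0x10000400040006000000000000000000) := T_3 (nat_lit 74) (nat_lit 73) (nat_lit 0) (nat_lit 9) (nat_lit 5) L1051954 (by decide +kernel)
theorem L1051956 : W_3 (nat_lit 4) (nat_lit 0x1a00180000000780020000000000000000000) (nat_lit 0x0) (nat_lit 0x10001c00040006000000000000000000) := T_3 (nat_lit 107) (nat_lit 108) (nat_lit 1) (nat_lit 9) (nat_lit 5) L1051955 (by decide +kernel)
theorem L1051957 : W_3 (nat_lit 5) (nat_lit 0x1a00180000000700020000000000000000000) (nat_lit 0x0) (nat_lit 0x10001c000c0046000000000000000000) := T_3 (nat_lit 91) (nat_lit 78) (nat_lit 2) (nat_lit 6) (nat_lit 5) L1051956 (by decide +kernel)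
theorem L1051958 : W_3 (nat_lit 6) (nat_lit 0x1a00180000000700000000000000000000000) (nat_lit 0x0) (nat_lit 0x10009c000c0066000000000000000000) := T_3 (nat_lit 77) (nat_lit 111) (nat_lit 5) (nat_lit 9) (nat_lit 4) L1051957 (by decide +kernel)
theorem L1051959 : W_3 (nat_lit 7) (nat_lit 0x1800180000000700000000000000000000000) (nat_lit 0x0) (nat_lit 0x600010009c000c0066000000000000000000) := T_3 (nat_lit 141) (nat_lit 142) (nat_lit 2) (nat_lit 5) (nat_lit 8) L1051958 (by decide +kernel)
theorem L1051960 : W_3 (nat_lit 7) (nat_lit 0x1800180000000700000000000000000000000) (nat_lit 0x0) (nat_lit 0x260004007b0018001cc002000000000000000) := Q_3 (nat_lit 95) (C_3 L990289 (C_3 L994238 (C_3 L910936 (C_3 L908393 N_3)))) (by decide +kernel)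
theorem L1051961 : W_3 (nat_lit 8) (nat_lit 0x1800180000000600000000000000000000000) (nat_lit 0x0) (nat_lit 0x260005007bc019c01ee002000000000000000) := Q_3 (nat_lit 92) (C_3 L990291 (C_3 L909102 (C_3 L909101 (C_3 L908547 (C_3 L1051959 (C_3 L1051960 N_3)))))) (by decide +kernel)
theorem L1051962 : W_3 (nat_lit 2) (nat_lit 0x7a00180008000600000000000000000000000) (nat_lit 0x0) (nat_lit 0x18000040000000000000000000000000000000) := D_3 (nat_lit 147) (nat_lit 126) (nat_lit 148) (nat_lit 0) (nat_lit 11) (nat_lit 8) (nat_lit 0) (nat_lit 12) (nat_lit 8) (by decide +kernel)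
theorem L1051963 : W_3 (nat_lit 3) (nat_lit 0x3a00180008000600000000000000000000000) (nat_lit 0x0) (nat_lit 0x8001c000040000000000000000000000000000000) := T_3 (nat_lit 146) (nat_lit 163) (nat_lit 7) (nat_lit 9) (nat_lit 5) L1051962 (by decide +kernel)
theorem L1051964 : W_3 (nat_lit 4) (nat_lit 0x1a00180008000600000000000000000000000) (nat_lit 0x0) (nat_lit 0x8001e000040000000000010000000000000000000) := T_3 (nat_lit 145) (nat_lit 76) (nat_lit 4) (nat_lit 9) (nat_lit 8) L1051963 (by decide +kernel)
theorem L1051965 : W_3 (nat_lit 5) (nat_lit 0x1a00180000000600000000000000000000000) (nat_lit 0x0) (nat_lit 0x8001e000040008000000030000000000000000000) := T_3 (nat_lit 111) (nat_lit 77) (nat_lit 5) (nat_lit 9) (nat_lit 4) L1051964 (by decide +kernel)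
theorem L1051966 : W_3 (nat_lit 6) (nat_lit 0x1800180000000600000000000000000000000) (nat_lit 0x0) (nat_lit 0x8001e600040008000000030000000000000000000) := T_3 (nat_lit 141) (nat_lit 142) (nat_lit 2) (nat_lit 5) (nat_lit 8) L1051965 (by decide +kernel)
theorem L1051967 : W_3 (nat_lit 13) (nat_lit 0x1800180000000200000000000000000000000) (nat_lit 0x0) (nat_lit 0x400020039d01e780c5c0fbe07de03ff802f00038000000000) := Q_3 (nat_lit 94) (C_3 L909103 (C_3 L1051884 (C_3 L863192 (C_3 L1051915 (C_3 L1051953 (C_3 L1051961 (C_3 L1051966 N_3))))))) (by decide +kernel)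
theorem L1051968 : W_3 (nat_lit 2) (nat_lit 0x1a00180004000200010000000000000000000) (nat_lit 0x0) (nat_lit 0x100008000400000000000000) := D_3 (nat_lit 75) (nat_lit 58) (nat_lit 92) (nat_lit 4) (nat_lit 8) (nat_lit 7) (nat_lit 4) (nat_lit 8) (nat_lit 8) (by decide +kernel)
theorem L1051969 : W_3 (nat_lit 3) (nat_lit 0x1a00180004000200000000000000000000000) (nat_lit 0x0) (nat_lit 0x40000000100018000400000000000000) := T_3 (nat_lit 76) (nat_lit 126) (nat_lit 5) (nat_lit 8) (nat_lit 4) L1051968 (by decide +kernel)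
theorem L1051970 : W_3 (nat_lit 4) (nat_lit 0x1a00180000000200000000000000000000000) (nat_lit 0x0) (nat_lit 0x10000000040004000100018000400000000000000) := T_3 (nat_lit 110) (nat_lit 160) (nat_lit 5) (nat_lit 8) (nat_lit 5) L1051969 (by decide +kernel)
theorem L1051971 : W_3 (nat_lit 5) (nat_lit 0x1800180000000200000000000000000000000) (nat_lit 0x0) (nat_lit 0x10000600040004000100018000400000000000000) := T_3 (nat_lit 141) (nat_lit 142) (nat_lit 2) (nat_lit 5) (nat_lit 8) L1051970 (by decide +kernel)
theorem L1051972 : W_3 (nat_lit 4) (nat_lit 0x1800180000000200000000000000000000000) (nat_lit 0x0) (nat_lit 0x10000000040004000100018000400000000000000) := T_3 (nat_lit 110) (nat_lit 160) (nat_lit 5) (nat_lit 8) (nat_lit 5) L1049840 (by decide +kernel)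
theorem L1051973 : W_3 (nat_lit 2) (nat_lit 0x1a00180004000600010000000000000000000) (nat_lit 0x0) (nat_lit 0x100008000400000000000000) := D_3 (nat_lit 75) (nat_lit 92) (nat_lit 58) (nat_lit 4) (nat_lit 8) (nat_lit 8) (nat_lit 4) (nat_lit 8) (nat_lit 7) (by decide +kernel)
theorem L1051974 : W_3 (nat_lit 3) (nat_lit 0x1a00180004000600000000000000000000000) (nat_lit 0x0) (nat_lit 0x2000000000000100018000400000000000000) := T_3 (nat_lit 76) (nat_lit 145) (nat_lit 7) (nat_lit 8) (nat_lit 4) L1051973 (by decide +kernel)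
theorem L1051975 : W_3 (nat_lit 4) (nat_lit 0x1a00180004000200000000000000000000000) (nat_lit 0x0) (nat_lit 0x2000000000000500038000400000000000000) := T_3 (nat_lit 94) (nat_lit 77) (nat_lit 6) (nat_lit 8) (nat_lit 8) L1051974 (by decide +kernel)
theorem L1051976 : W_3 (nat_lit 5) (nat_lit 0x1800180004000200000000000000000000000) (nat_lit 0x0) (nat_lit 0x2600000000000500038000400000000000000) := T_3 (nat_lit 141) (nat_lit 142) (nat_lit 2) (nat_lit 5) (nat_lit 8) L1051975 (by decide +kernel)
theorem L1051982 : W_3 (nat_lit 2) (nat_lit 0x180018000c000380000000000000000000000) (nat_lit 0x0) (nat_lit 0x32000000000000000000000000000) := D_3 (nat_lit 112) (nat_lit 113) (nat_lit 109) (nat_lit 0) (nat_lit 11) (nat_lit 6) (nat_lit 0) (nat_lit 10) (nat_lit 6) (by decide +kernel)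
theorem L1051983 : W_3 (nat_lit 3) (nat_lit 0x180018000c000300000000000000000000000) (nat_lit 0x0) (nat_lit 0x320000c0000000000000000000000) := T_3 (nat_lit 91) (nat_lit 90) (nat_lit 3) (nat_lit 5) (nat_lit 5) L1051982 (by decide +kernel)
theorem L1051984 : W_3 (nat_lit 4) (nat_lit 0x180018000c000200000000000000000000000) (nat_lit 0x0) (nat_lit 0x320001c0008000000000000000000) := T_3 (nat_lit 92) (nat_lit 75) (nat_lit 4) (nat_lit 8) (nat_lit 8) L1051983 (by decide +kernel)
theorem L1051985 : W_3 (nat_lit 2) (nat_lit 0x180018001c000200000000000000000000000) (nat_lit 0x0) (nat_lit 0x40060000000000000000000000000000) := D_3 (nat_lit 113) (nat_lit 126) (nat_lit 114) (nat_lit 1) (nat_lit 11) (nat_lit 6) (nat_lit 1) (nat_lit 12) (nat_lit 6) (by decide +kernel)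
theorem L1051986 : W_3 (nat_lit 2) (nat_lit 0x1a0058003c001a00020000000000000000000) (nat_lit 0x0) (nat_lit 0x8000000000000000040002000000000000000) := D_3 (nat_lit 78) (nat_lit 61) (nat_lit 147) (nat_lit 7) (nat_lit 10) (nat_lit 3) (nat_lit 4) (nat_lit 11) (nat_lit 8) (by decide +kernel)
theorem L1051987 : W_3 (nat_lit 3) (nat_lit 0x1a0018003c001a00020000000000000000000) (nat_lit 0x0) (nat_lit 0x8000c00000000000040002000000000000000) := T_3 (nat_lit 130) (nat_lit 131) (nat_lit 3) (nat_lit 8) (nat_lit 6) L1051986 (by decide +kernel)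
theorem L1051988 : W_3 (nat_lit 4) (nat_lit 0x1a0018003c001200020000000000000000000) (nat_lit 0x0) (nat_lit 0x8000c00002000800040002000000000000000) := T_3 (nat_lit 95) (nat_lit 109) (nat_lit 2) (nat_lit 7) (nat_lit 6) L1051987 (by decide +kernel)
theorem L1051989 : W_3 (nat_lit 5) (nat_lit 0x1a0018003c000200020000000000000000000) (nat_lit 0x0) (nat_lit 0x8000c00002003800040002000000000000000) := T_3 (nat_lit 96) (nat_lit 97) (nat_lit 2) (nat_lit 8) (nat_lit 6) L1051988 (by decide +kernel)
theorem L1051990 : W_3 (nat_lit 6) (nat_lit 0x1a0018001c000200020000000000000000000) (nat_lit 0x0) (nat_lit 0x8000c00062003800040002000000000000000) := T_3 (nat_lit 113) (nat_lit 114) (nat_lit 1) (nat_lit 12) (nat_lit 6) L1051989 (by decide +kernel)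
theorem L1051991 : W_3 (nat_lit 7) (nat_lit 0x180018001c000200020000000000000000000) (nat_lit 0x0) (nat_lit 0x8600c00062003800040002000000000000000) := T_3 (nat_lit 141) (nat_lit 142) (nat_lit 2) (nat_lit 5) (nat_lit 8) L1051990 (by decide +kernel)
theorem L1051992 : W_3 (nat_lit 8) (nat_lit 0x180018001c000200000000000000000000000) (nat_lit 0x0) (nat_lit 0x8600c00062003c00060002000000000000000) := T_3 (nat_lit 77) (nat_lit 94) (nat_lit 6) (nat_lit 8) (nat_lit 8) L1051991 (by decide +kernel)
theorem L1052016 : W_3 (nat_lit 2) (nat_lit 0x1800180007000600000000000000000000000) (nat_lit 0x0) (nat_lit 0x8001800000000000000000000000) := D_3 (nat_lit 95) (nat_lit 96) (nat_lit 111) (nat_lit 1) (nat_lit 11) (nat_lit 5) (nat_lit 2) (nat_lit 6) (nat_lit 6) (by decide +kernel)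
theorem L1052017 : W_3 (nat_lit 3) (nat_lit 0x1800180006000600000000000000000000000) (nat_lit 0x0) (nat_lit 0x9801800000000000000000000000) := T_3 (nat_lit 108) (nat_lit 107) (nat_lit 3) (nat_lit 5) (nat_lit 6) L1052016 (by decide +kernel)
theorem L1052018 : W_3 (nat_lit 4) (nat_lit 0x1800180006000200000000000000000000000) (nat_lit 0x0) (nat_lit 0x9801c00020000000000000000000) := T_3 (nat_lit 94) (nat_lit 77) (nat_lit 6) (nat_lit 8) (nat_lit 8) L1052017 (by decide +kernel)
theorem L1052019 : W_3 (nat_lit 2) (nat_lit 0x1c001c0006801780000000000000000000000) (nat_lit 0x0) (nat_lit 0x400060000000000000000000000) := D_3 (nat_lit 90) (nat_lit 89) (nat_lit 106) (nat_lit 3) (nat_lit 4) (nat_lit 5) (nat_lit 1) (nat_lit 8) (nat_lit 5) (by decide +kernel)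
theorem L1052020 : W_3 (nat_lit 3) (nat_lit 0x1c001c0006801700000000000000000000000) (nat_lit 0x0) (nat_lit 0x4000e0004000000000000000000) := T_3 (nat_lit 91) (nat_lit 74) (nat_lit 4) (nat_lit 7) (nat_lit 8) L1052019 (by decide +kernel)
theorem L1052021 : W_3 (nat_lit 4) (nat_lit 0x1c00180006801700000000000000000000000) (nat_lit 0x0) (nat_lit 0x80000000400004000e0004000000000000000000) := T_3 (nat_lit 126) (nat_lit 159) (nat_lit 5) (nat_lit 7) (nat_lit 5) L1052020 (by decide +kernel)
theorem L1052022 : W_3 (nat_lit 5) (nat_lit 0x1800180006801700000000000000000000000) (nat_lit 0x0) (nat_lit 0x80006000400004000e0004000000000000000000) := T_3 (nat_lit 142) (nat_lit 141) (nat_lit 2) (nat_lit 5) (nat_lit 8) L1052021 (by decide +kernel)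
theorem L1052023 : W_3 (nat_lit 6) (nat_lit 0x1800180006800700000000000000000000000) (nat_lit 0x0) (nat_lit 0x80006000400004018e0004000000000000000000) := T_3 (nat_lit 96) (nat_lit 95) (nat_lit 1) (nat_lit 11) (nat_lit 5) L1052022 (by decide +kernel)
theorem L1052024 : W_3 (nat_lit 7) (nat_lit 0x1800180006800300000000000000000000000) (nat_lit 0x0) (nat_lit 0x8000600040000401ce0024000000000000000000) := T_3 (nat_lit 94) (nat_lit 77) (nat_lit 6) (nat_lit 8) (nat_lit 8) L1052023 (by decide +kernel)
theorem L1052025 : W_3 (nat_lit 8) (nat_lit 0x1800180006800200000000000000000000000) (nat_lit 0x0) (nat_lit 0x8000600040000401de002c000000000000000000) := T_3 (nat_lit 92) (nat_lit 75) (nat_lit 4) (nat_lit 8) (nat_lit 8) L1052024 (by decide +kernel)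
theorem L1052026 : W_3 (nat_lit 9) (nat_lit 0x1800180006000200000000000000000000000) (nat_lit 0x0) (nat_lit 0x8000600040001c01de002c000000000000000000) := T_3 (nat_lit 107) (nat_lit 108) (nat_lit 3) (nat_lit 5) (nat_lit 6) L1052025 (by decide +kernel)
theorem L1052027 : W_3 (nat_lit 2) (nat_lit 0x1a00180016000f00040000000000000000000) (nat_lit 0x0) (nat_lit 0x2000000008000080000000000000000000000) := D_3 (nat_lit 111) (nat_lit 91) (nat_lit 145) (nat_lit 3) (nat_lit 6) (nat_lit 5) (nat_lit 6) (nat_lit 9) (nat_lit 8) (by decide +kernel)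
theorem L1052028 : W_3 (nat_lit 3) (nat_lit 0x1a00180006000f00040000000000000000000) (nat_lit 0x0) (nat_lit 0x2000000038000080000000000000000000000) := T_3 (nat_lit 112) (nat_lit 113) (nat_lit 3) (nat_lit 7) (nat_lit 5) L1052027 (by decide +kernel)
theorem L1052029 : W_3 (nat_lit 4) (nat_lit 0x1a00180006000f00000000000000000000000) (nat_lit 0x0) (nat_lit 0x20000000380000800c0000000000000000000) := T_3 (nat_lit 78) (nat_lit 79) (nat_lit 2) (nat_lit 7) (nat_lit 5) L1052028 (by decide +kernel)
theorem L1052030 : W_3 (nat_lit 5) (nat_lit 0x1a00180006000700000000000000000000000) (nat_lit 0x0) (nat_lit 0x20000000380018800c0000000000000000000) := T_3 (nat_lit 95) (nat_lit 96) (nat_lit 1) (nat_lit 11) (nat_lit 5) L1052029 (by decide +kernel)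
theorem L1052031 : W_3 (nat_lit 6) (nat_lit 0x1a00180006000300000000000000000000000) (nat_lit 0x0) (nat_lit 0x2000000038001c800e0000000000000000000) := T_3 (nat_lit 94) (nat_lit 77) (nat_lit 6) (nat_lit 8) (nat_lit 8) L1052030 (by decide +kernel)
theorem L1052032 : W_3 (nat_lit 7) (nat_lit 0x1a00180006000200000000000000000000000) (nat_lit 0x0) (nat_lit 0x2000000038001d800e8000000000000000000) := T_3 (nat_lit 92) (nat_lit 75) (nat_lit 4) (nat_lit 8) (nat_lit 8) L1052031 (by decide +kernel)
theorem L1052033 : W_3 (nat_lit 8) (nat_lit 0x1800180006000200000000000000000000000) (nat_lit 0x0) (nat_lit 0x2600000038001d800e8000000000000000000) := T_3 (nat_lit 141) (nat_lit 142) (nat_lit 2) (nat_lit 5) (nat_lit 8) L1052032 (by decide +kernel)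
theorem L1052040 : W_3 (nat_lit 10) (nat_lit 0x1800180004000200000000000000000000000) (nat_lit 0x0) (nat_lit 0x800260004003bc01de00ec000000000000000000) := Q_3 (nat_lit 109) (C_3 L1052018 (C_3 L1052026 (C_3 L1052033 (C_3 L1052039 N_3)))) (by decide +kernel)
theorem L1052041 : W_3 (nat_lit 11) (nat_lit 0x1800180000000200000000000000000000000) (nat_lit 0x0) (nat_lit 0x800260004003fc01de00fc000400000000000000) := Q_3 (nat_lit 110) (C_3 L1049840 (C_3 L1051976 (C_3 L1049837 (C_3 L1052040 N_3)))) (by decide +kernel)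
theorem L1052042 : W_3 (nat_lit 5) (nat_lit 0x1a00180000000200000000000000000000000) (nat_lit 0x0) (nat_lit 0x10002000000004000500038000400000000000000) := T_3 (nat_lit 110) (nat_lit 160) (nat_lit 5) (nat_lit 8) (nat_lit 5) L1051975 (by decide +kernel)
theorem L1052043 : W_3 (nat_lit 6) (nat_lit 0x1800180000000200000000000000000000000) (nat_lit 0x0) (nat_lit 0x10002600000004000500038000400000000000000) := T_3 (nat_lit 141) (nat_lit 142) (nat_lit 2) (nat_lit 5) (nat_lit 8) L1052042 (by decide +kernel)
theorem L1052044 : W_3 (nat_lit 3) (nat_lit 0x1800180000000200000000000000000000000) (nat_lit 0x0) (nat_lit 0x10002000040004000000010000000000000000000) := T_3 (nat_lit 110) (nat_lit 160) (nat_lit 5) (nat_lit 8) (nat_lit 5) L1049837 (by decide +kernel)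
theorem L1052045 : W_3 (nat_lit 11) (nat_lit 0x1800180000000200000000000000000000000) (nat_lit 0x0) (nat_lit 0x1800260004003fc01de00ec000000000000000000) := T_3 (nat_lit 110) (nat_lit 160) (nat_lit 5) (nat_lit 8) (nat_lit 5) L1052040 (by decide +kernel)
theorem L1052046 : W_3 (nat_lit 14) (nat_lit 0x1800180000000000000000000000000000000) (nat_lit 0x0) (nat_lit 0x400020039d01e780c5c0ffe07fe03ff802f00038000000000) := Q_3 (nat_lit 93) (C_3 L1051967 (C_3 L1051971 (C_3 L1051972 (C_3 L1052041 (C_3 L1052043 (C_3 L1052044 (C_3 L1052045 N_3))))))) (by decide +kernel)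
theorem L1052047 : W_3 (nat_lit 2) (nat_lit 0x1800380006000000000000000000000000000) (nat_lit 0x0) (nat_lit 0x40001800000000000000000000000000) := D_3 (nat_lit 108) (nat_lit 107) (nat_lit 126) (nat_lit 3) (nat_lit 5) (nat_lit 6) (nat_lit 0) (nat_lit 10) (nat_lit 7) (by decide +kernel)
theorem L1052048 : W_3 (nat_lit 3) (nat_lit 0x1800180006000000000000000000000000000) (nat_lit 0x0) (nat_lit 0x640001800000000000000000000000000) := T_3 (nat_lit 129) (nat_lit 130) (nat_lit 1) (nat_lit 11) (nat_lit 7) L1052047 (by decide +kernel)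
theorem L1052049 : W_3 (nat_lit 2) (nat_lit 0x18001c0007000000000000000000000000000) (nat_lit 0x0) (nat_lit 0x200010000000000000000080000000000000000000000) := D_3 (nat_lit 160) (nat_lit 177) (nat_lit 91) (nat_lit 6) (nat_lit 7) (nat_lit 10) (nat_lit 4) (nat_lit 7) (nat_lit 9) (by decide +kernel)
theorem L1052050 : W_3 (nat_lit 3) (nat_lit 0x18001c0006000000000000000000000000000) (nat_lit 0x0) (nat_lit 0x200010000000000001800080000000000000000000000) := T_3 (nat_lit 108) (nat_lit 107) (nat_lit 3) (nat_lit 5) (nat_lit 6) L1052049 (by decide +kernel)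
theorem L1052051 : W_3 (nat_lit 2) (nat_lit 0x18001c0007000180000000000000000000000) (nat_lit 0x0) (nat_lit 0x8000060000000000000000000000) := D_3 (nat_lit 90) (nat_lit 89) (nat_lit 111) (nat_lit 3) (nat_lit 4) (nat_lit 5) (nat_lit 0) (nat_lit 9) (nat_lit 6) (by decide +kernel)
theorem L1052052 : W_3 (nat_lit 3) (nat_lit 0x18001c0007000100000000000000000000000) (nat_lit 0x0) (nat_lit 0x80000e0004000000000000000000) := T_3 (nat_lit 91) (nat_lit 74) (nat_lit 4) (nat_lit 7) (nat_lit 8) L1052051 (by decide +kernel)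
theorem L1052053 : W_3 (nat_lit 4) (nat_lit 0x18001c0006000100000000000000000000000) (nat_lit 0x0) (nat_lit 0x98000e0004000000000000000000) := T_3 (nat_lit 108) (nat_lit 107) (nat_lit 3) (nat_lit 5) (nat_lit 6) L1052052 (by decide +kernel)
theorem L1052054 : W_3 (nat_lit 5) (nat_lit 0x18001c0006000000000000000000000000000) (nat_lit 0x0) (nat_lit 0x98001e000c000000000000000000) := T_3 (nat_lit 92) (nat_lit 75) (nat_lit 7) (nat_lit 7) (nat_lit 4) L1052053 (by decide +kernel)
theorem L1052088 : W_3 (nat_lit 2) (nat_lit 0x180018003e000000020000000000000000000) (nat_lit 0x0) (nat_lit 0x3800000000000000000000000) := D_3 (nat_lit 96) (nat_lit 95) (nat_lit 97) (nat_lit 2) (nat_lit 7) (nat_lit 6) (nat_lit 2) (nat_lit 8) (nat_lit 6) (by decide +kernel)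
theorem L1052089 : W_3 (nat_lit 3) (nat_lit 0x180018001e000000020000000000000000000) (nat_lit 0x0) (nat_lit 0x60003800000000000000000000000) := T_3 (nat_lit 113) (nat_lit 114) (nat_lit 1) (nat_lit 12) (nat_lit 6) L1052088 (by decide +kernel)
theorem L1052090 : W_3 (nat_lit 4) (nat_lit 0x180018001e000000000000000000000000000) (nat_lit 0x0) (nat_lit 0x60003c00020000000000000000000) := T_3 (nat_lit 77) (nat_lit 94) (nat_lit 5) (nat_lit 9) (nat_lit 4) L1052089 (by decide +kernel)
theorem L1052091 : W_3 (nat_lit 2) (nat_lit 0x180018001e000000000000000000000000000) (nat_lit 0x0) (nat_lit 0x40060000000000000000000000000000) := D_3 (nat_lit 113) (nat_lit 114) (nat_lit 126) (nat_lit 1) (nat_lit 12) (nat_lit 6) (nat_lit 1) (nat_lit 11) (nat_lit 6) (by decide +kernel)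
theorem L1052092 : W_3 (nat_lit 6) (nat_lit 0x180018000e000000000000000000000000000) (nat_lit 0x0) (nat_lit 0x40070003d80028000400000000000000) := Q_3 (nat_lit 112) (C_3 L1050412 (C_3 L1052090 (C_3 L1052091 N_3))) (by decide +kernel)
theorem L1052093 : W_3 (nat_lit 2) (nat_lit 0x180018001f000480000000000000000000000) (nat_lit 0x0) (nat_lit 0x10000000040020000000000000000000000000000) := D_3 (nat_lit 126) (nat_lit 160) (nat_lit 113) (nat_lit 4) (nat_lit 7) (nat_lit 9) (nat_lit 1) (nat_lit 11) (nat_lit 6) (by decide +kernel)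
theorem L1052094 : W_3 (nat_lit 3) (nat_lit 0x180018000f000480000000000000000000000) (nat_lit 0x0) (nat_lit 0x10000000040030000100000000000000000000000) := T_3 (nat_lit 112) (nat_lit 92) (nat_lit 0) (nat_lit 10) (nat_lit 6) L1052093 (by decide +kernel)
theorem L1052095 : W_3 (nat_lit 4) (nat_lit 0x180018000f000400000000000000000000000) (nat_lit 0x0) (nat_lit 0x100000000400300001c0000000000000000000000) := T_3 (nat_lit 91) (nat_lit 90) (nat_lit 0) (nat_lit 9) (nat_lit 6) L1052094 (by decide +kernel)
theorem L1052096 : W_3 (nat_lit 5) (nat_lit 0x180018000f000000000000000000000000000) (nat_lit 0x0) (nat_lit 0x10000000040030000dc0000000000000000000000) := T_3 (nat_lit 94) (nat_lit 95) (nat_lit 2) (nat_lit 6) (nat_lit 6) L1052095 (by decide +kernel)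
theorem L1052097 : W_3 (nat_lit 6) (nat_lit 0x180018000e000000000000000000000000000) (nat_lit 0x0) (nat_lit 0x10000000040031800dc0000000000000000000000) := T_3 (nat_lit 108) (nat_lit 107) (nat_lit 3) (nat_lit 5) (nat_lit 6) L1052096 (by decide +kernel)
theorem L1052098 : W_3 (nat_lit 2) (nat_lit 0x180018001f000080020000000000000000000) (nat_lit 0x0) (nat_lit 0x10000000040020000000000000000000000000000) := D_3 (nat_lit 126) (nat_lit 160) (nat_lit 113) (nat_lit 4) (nat_lit 7) (nat_lit 9) (nat_lit 1) (nat_lit 11) (nat_lit 6) (by decide +kernel)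
theorem L1052099 : W_3 (nat_lit 3) (nat_lit 0x180018000f000080020000000000000000000) (nat_lit 0x0) (nat_lit 0x10000000040030000100000000000000000000000) := T_3 (nat_lit 112) (nat_lit 92) (nat_lit 0) (nat_lit 10) (nat_lit 6) L1052098 (by decide +kernel)
theorem L1052100 : W_3 (nat_lit 4) (nat_lit 0x180018000f000000020000000000000000000) (nat_lit 0x0) (nat_lit 0x100000000400300001c0000000000000000000000) := T_3 (nat_lit 91) (nat_lit 90) (nat_lit 0) (nat_lit 9) (nat_lit 6) L1052099 (by decide +kernel)
theorem L1052101 : W_3 (nat_lit 5) (nat_lit 0x180018000f000000000000000000000000000) (nat_lit 0x0) (nat_lit 0x100000000400300005c0020000000000000000000) := T_3 (nat_lit 77) (nat_lit 94) (nat_lit 5) (nat_lit 9) (nat_lit 4) L1052100 (by decide +kernel)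
theorem L1052102 : W_3 (nat_lit 6) (nat_lit 0x180018000e000000000000000000000000000) (nat_lit 0x0) (nat_lit 0x100000000400318005c0020000000000000000000) := T_3 (nat_lit 108) (nat_lit 107) (nat_lit 3) (nat_lit 5) (nat_lit 6) L1052101 (by decide +kernel)
theorem L1052103 : W_3 (nat_lit 2) (nat_lit 0x180018001f000080000000000000000000000) (nat_lit 0x0) (nat_lit 0x10000000040020000000000000000000000000000) := D_3 (nat_lit 126) (nat_lit 160) (nat_lit 113) (nat_lit 4) (nat_lit 7) (nat_lit 9) (nat_lit 1) (nat_lit 11) (nat_lit 6) (by decide +kernel)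
theorem L1052104 : W_3 (nat_lit 3) (nat_lit 0x180018000f000080000000000000000000000) (nat_lit 0x0) (nat_lit 0x10000000040030000100000000000000000000000) := T_3 (nat_lit 112) (nat_lit 92) (nat_lit 0) (nat_lit 10) (nat_lit 6) L1052103 (by decide +kernel)
theorem L1052105 : W_3 (nat_lit 4) (nat_lit 0x180018000f000000000000000000000000000) (nat_lit 0x0) (nat_lit 0x100000000400300001c0000000000000000000000) := T_3 (nat_lit 91) (nat_lit 90) (nat_lit 0) (nat_lit 9) (nat_lit 6) L1052104 (by decide +kernel)
theorem L1052106 : W_3 (nat_lit 5) (nat_lit 0x180018000e000000000000000000000000000) (nat_lit 0x0) (nat_lit 0x100000000400318001c0000000000000000000000) := T_3 (nat_lit 108) (nat_lit 107) (nat_lit 3) (nat_lit 5) (nat_lit 6) L1052105 (by decide +kernel)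
theorem L1052107 : W_3 (nat_lit 7) (nat_lit 0x1800180006000000000000000000000000000) (nat_lit 0x0) (nat_lit 0x10000000040079803dc0028000400000000000000) := Q_3 (nat_lit 111) (C_3 L1050470 (C_3 L1052092 (C_3 L1052097 (C_3 L1052102 (C_3 L1052106 N_3))))) (by decide +kernel)
theorem L1052108 : W_3 (nat_lit 2) (nat_lit 0x1800180007000000000000000000000000000) (nat_lit 0x0) (nat_lit 0x600008000000000000000000000000000) := D_3 (nat_lit 129) (nat_lit 130) (nat_lit 111) (nat_lit 1) (nat_lit 11) (nat_lit 7) (nat_lit 3) (nat_lit 6) (nat_lit 6) (by decide +kernel)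
theorem L1052109 : W_3 (nat_lit 3) (nat_lit 0x1800180006000000000000000000000000000) (nat_lit 0x0) (nat_lit 0x600009800000000000000000000000000) := T_3 (nat_lit 108) (nat_lit 107) (nat_lit 3) (nat_lit 5) (nat_lit 6) L1052108 (by decide +kernel)
theorem L1052110 : W_3 (nat_lit 2) (nat_lit 0x7800580006000000000000000000000000000) (nat_lit 0x0) (nat_lit 0x18000800000000000000000000000000000000) := D_3 (nat_lit 147) (nat_lit 131) (nat_lit 148) (nat_lit 2) (nat_lit 8) (nat_lit 8) (nat_lit 0) (nat_lit 12) (nat_lit 8) (by decide +kernel)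
theorem L1052111 : W_3 (nat_lit 3) (nat_lit 0x7800180006000000000000000000000000000) (nat_lit 0x0) (nat_lit 0x18000e00000000000000000000000000000000) := T_3 (nat_lit 130) (nat_lit 129) (nat_lit 2) (nat_lit 7) (nat_lit 8) L1052110 (by decide +kernel)
theorem L1052112 : W_3 (nat_lit 3) (nat_lit 0x7800180006000000000000000000000000000) (nat_lit 0x0) (nat_lit 0x380018000000000000000000000000000000000000) := T_3 (nat_lit 164) (nat_lit 163) (nat_lit 3) (nat_lit 7) (nat_lit 8) L1050880 (by decide +kernel)
theorem L1052113 : W_3 (nat_lit 2) (nat_lit 0x80007800380006000000000000000000000000000) (nat_lit 0x0) (nat_lit 0x20001000000000000000008000000000000000000000000000) := D_3 (nat_lit 180) (nat_lit 111) (nat_lit 197) (nat_lit 4) (nat_lit 10) (nat_lit 10) (nat_lit 4) (nat_lit 10) (nat_lit 11) (by decide +kernel)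
theorem L1052114 : W_3 (nat_lit 3) (nat_lit 0x7800380006000000000000000000000000000) (nat_lit 0x0) (nat_lit 0x20001000180000000000008000000000000000000000000000) := T_3 (nat_lit 163) (nat_lit 164) (nat_lit 3) (nat_lit 7) (nat_lit 8) L1052113 (by decide +kernel)
theorem L1052115 : W_3 (nat_lit 4) (nat_lit 0x7800180006000000000000000000000000000) (nat_lit 0x0) (nat_lit 0x20001000180000000600008000000000000000000000000000) := T_3 (nat_lit 129) (nat_lit 130) (nat_lit 2) (nat_lit 7) (nat_lit 8) L1052114 (by decide +kernel)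
theorem L1052116 : W_3 (nat_lit 5) (nat_lit 0x5800180006000000000000000000000000000) (nat_lit 0x0) (nat_lit 0x2000100038001a000e00008000000000000000000000000000) := Q_3 (nat_lit 145) (C_3 L1052111 (C_3 L1052112 (C_3 L1052115 N_3))) (by decide +kernel)
theorem L1052117 : W_3 (nat_lit 2) (nat_lit 0x58003c0016000100000000000000000000000) (nat_lit 0x0) (nat_lit 0x8000080004000000000000000000) := D_3 (nat_lit 91) (nat_lit 74) (nat_lit 111) (nat_lit 4) (nat_lit 7) (nat_lit 8) (nat_lit 0) (nat_lit 10) (nat_lit 6) (by decide +kernel)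
theorem L1052118 : W_3 (nat_lit 3) (nat_lit 0x58003c0016000000000000000000000000000) (nat_lit 0x0) (nat_lit 0x800018000c000000000000000000) := T_3 (nat_lit 92) (nat_lit 75) (nat_lit 7) (nat_lit 7) (nat_lit 4) L1052117 (by decide +kernel)
theorem L1052119 : W_3 (nat_lit 4) (nat_lit 0x58003c0006000000000000000000000000000) (nat_lit 0x0) (nat_lit 0x3800018000c000000000000000000) := T_3 (nat_lit 112) (nat_lit 113) (nat_lit 2) (nat_lit 7) (nat_lit 7) L1052118 (by decide +kernel)
theorem L1052120 : W_3 (nat_lit 5) (nat_lit 0x5800380006000000000000000000000000000) (nat_lit 0x0) (nat_lit 0x800004003800018000c000000000000000000) := T_3 (nat_lit 126) (nat_lit 147) (nat_lit 3) (nat_lit 7) (nat_lit 7) L1052119 (by decide +kernel)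
theorem L1052121 : W_3 (nat_lit 6) (nat_lit 0x5800180006000000000000000000000000000) (nat_lit 0x0) (nat_lit 0x800064003800018000c000000000000000000) := T_3 (nat_lit 129) (nat_lit 130) (nat_lit 1) (nat_lit 11) (nat_lit 7) L1052120 (by decide +kernel)
theorem L1052122 : W_3 (nat_lit 2) (nat_lit 0x90007800180006000000000000000000000000000) (nat_lit 0x0) (nat_lit 0x4000200000000000040000000000000000000000000000000) := D_3 (nat_lit 177) (nat_lit 126) (nat_lit 194) (nat_lit 6) (nat_lit 7) (nat_lit 10) (nat_lit 6) (nat_lit 7) (nat_lit 11) (by decide +kernel)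
theorem L1052123 : W_3 (nat_lit 3) (nat_lit 0x80007800180006000000000000000000000000000) (nat_lit 0x0) (nat_lit 0x4000200018000000040000000000000000000000000000000) := T_3 (nat_lit 160) (nat_lit 159) (nat_lit 1) (nat_lit 10) (nat_lit 8) L1052122 (by decide +kernel)
theorem L1052124 : W_3 (nat_lit 4) (nat_lit 0x7800180006000000000000000000000000000) (nat_lit 0x0) (nat_lit 0x4000200198000000040000000000000000000000000000000) := T_3 (nat_lit 163) (nat_lit 164) (nat_lit 3) (nat_lit 7) (nat_lit 8) L1052123 (by decide +kernel)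
theorem L1052125 : W_3 (nat_lit 5) (nat_lit 0x5800180006000000000000000000000000000) (nat_lit 0x0) (nat_lit 0x400020039801a000040000000000000000000000000000000) := Q_3 (nat_lit 145) (C_3 L1052112 (C_3 L1052124 (C_3 L1051415 N_3))) (by decide +kernel)
theorem L1052126 : W_3 (nat_lit 2) (nat_lit 0x10007800580006000000000000000000000000000) (nat_lit 0x0) (nat_lit 0x4000200000000000040000000000000000000000000000000) := D_3 (nat_lit 177) (nat_lit 126) (nat_lit 194) (nat_lit 6) (nat_lit 7) (nat_lit 10) (nat_lit 6) (nat_lit 7) (nat_lit 11) (by decide +kernel)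
theorem L1052127 : W_3 (nat_lit 3) (nat_lit 0x7800580006000000000000000000000000000) (nat_lit 0x0) (nat_lit 0x4000200018000000040000000000000000000000000000000) := T_3 (nat_lit 160) (nat_lit 159) (nat_lit 1) (nat_lit 10) (nat_lit 8) L1052126 (by decide +kernel)
theorem L1052128 : W_3 (nat_lit 4) (nat_lit 0x7800180006000000000000000000000000000) (nat_lit 0x0) (nat_lit 0x4000200018000000640000000000000000000000000000000) := T_3 (nat_lit 130) (nat_lit 129) (nat_lit 2) (nat_lit 7) (nat_lit 8) L1052127 (by decide +kernel)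
theorem L1052129 : W_3 (nat_lit 5) (nat_lit 0x5800180006000000000000000000000000000) (nat_lit 0x0) (nat_lit 0x24001200198002000640008000000000000000000000000000) := Q_3 (nat_lit 145) (C_3 L1052124 (C_3 L1052115 (C_3 L1052128 N_3))) (by decide +kernel)
theorem L1052130 : W_3 (nat_lit 7) (nat_lit 0x1800180006000000000000000000000000000) (nat_lit 0x0) (nat_lit 0x2400120039801e000e4003800018000c000000000000000000) := Q_3 (nat_lit 146) (C_3 L1052116 (C_3 L1052121 (C_3 L1052125 (C_3 L1052129 N_3)))) (by decide +kernel)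
theorem L1052131 : W_3 (nat_lit 8) (nat_lit 0x1800180004000000000000000000000000000) (nat_lit 0x0) (nat_lit 0x2400120039801e000e4007b803dc002c000400000000000000) := Q_3 (nat_lit 109) (C_3 L1052048 (C_3 L1052107 (C_3 L1052109 (C_3 L1052130 N_3)))) (by decide +kernel)
theorem L1052132 : W_3 (nat_lit 2) (nat_lit 0x1800580004000600010000000000000000000) (nat_lit 0x0) (nat_lit 0x100008000400000000000000) := D_3 (nat_lit 75) (nat_lit 92) (nat_lit 58) (nat_lit 4) (nat_lit 8) (nat_lit 8) (nat_lit 4) (nat_lit 8) (nat_lit 7) (by decide +kernel)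
theorem L1052133 : W_3 (nat_lit 3) (nat_lit 0x1800580004000600000000000000000000000) (nat_lit 0x0) (nat_lit 0x2000000000000100018000400000000000000) := T_3 (nat_lit 76) (nat_lit 145) (nat_lit 7) (nat_lit 8) (nat_lit 4) L1052132 (by decide +kernel)
theorem L1052134 : W_3 (nat_lit 4) (nat_lit 0x1800580004000200000000000000000000000) (nat_lit 0x0) (nat_lit 0x2000000000000500038000400000000000000) := T_3 (nat_lit 94) (nat_lit 77) (nat_lit 6) (nat_lit 8) (nat_lit 8) L1052133 (by decide +kernel)
theorem L1052135 : W_3 (nat_lit 5) (nat_lit 0x1800180004000200000000000000000000000) (nat_lit 0x0) (nat_lit 0x2000600000000500038000400000000000000) := T_3 (nat_lit 130) (nat_lit 129) (nat_lit 1) (nat_lit 11) (nat_lit 7) L1052134 (by decide +kernel)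
theorem L1052136 : W_3 (nat_lit 2) (nat_lit 0x1800580016000f80000000000000000000000) (nat_lit 0x0) (nat_lit 0x40000000000006000000000000000000) := D_3 (nat_lit 74) (nat_lit 126) (nat_lit 73) (nat_lit 4) (nat_lit 7) (nat_lit 8) (nat_lit 0) (nat_lit 9) (nat_lit 5) (by decide +kernel)
theorem L1052137 : W_3 (nat_lit 3) (nat_lit 0x1800580016000f00000000000000000000000) (nat_lit 0x0) (nat_lit 0x40008000080006000000000000000000) := T_3 (nat_lit 91) (nat_lit 111) (nat_lit 3) (nat_lit 6) (nat_lit 5) L1052136 (by decide +kernel)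
theorem L1052138 : W_3 (nat_lit 4) (nat_lit 0x1800580006000f00000000000000000000000) (nat_lit 0x0) (nat_lit 0x40038000080006000000000000000000) := T_3 (nat_lit 112) (nat_lit 113) (nat_lit 3) (nat_lit 7) (nat_lit 5) L1052137 (by decide +kernel)
theorem L1052139 : W_3 (nat_lit 5) (nat_lit 0x1800580006000e00000000000000000000000) (nat_lit 0x0) (nat_lit 0x4003800018000e000000000000000000) := T_3 (nat_lit 92) (nat_lit 75) (nat_lit 4) (nat_lit 8) (nat_lit 8) L1052138 (by decide +kernel)
theorem L1052140 : W_3 (nat_lit 6) (nat_lit 0x1800580006000600000000000000000000000) (nat_lit 0x0) (nat_lit 0x4003800198000e000000000000000000) := T_3 (nat_lit 95) (nat_lit 96) (nat_lit 1) (nat_lit 11) (nat_lit 5) L1052139 (by decide +kernel)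
theorem L1052141 : W_3 (nat_lit 7) (nat_lit 0x1800580006000200000000000000000000000) (nat_lit 0x0) (nat_lit 0x40038001d8002e000000000000000000) := T_3 (nat_lit 94) (nat_lit 77) (nat_lit 6) (nat_lit 8) (nat_lit 8) L1052140 (by decide +kernel)
theorem L1052142 : W_3 (nat_lit 8) (nat_lit 0x1800180006000200000000000000000000000) (nat_lit 0x0) (nat_lit 0x640038001d8002e000000000000000000) := T_3 (nat_lit 130) (nat_lit 129) (nat_lit 1) (nat_lit 11) (nat_lit 7) L1052141 (by decide +kernel)
theorem L1052143 : W_3 (nat_lit 2) (nat_lit 0x1800380006800f00040000000000000000000) (nat_lit 0x0) (nat_lit 0x2000000030000000000000000000000000000) := D_3 (nat_lit 112) (nat_lit 113) (nat_lit 145) (nat_lit 3) (nat_lit 7) (nat_lit 5) (nat_lit 5) (nat_lit 10) (nat_lit 4) (by decide +kernel)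
theorem L1052144 : W_3 (nat_lit 3) (nat_lit 0x1800380006800f00000000000000000000000) (nat_lit 0x0) (nat_lit 0x20000000300000000c0000000000000000000) := T_3 (nat_lit 78) (nat_lit 79) (nat_lit 2) (nat_lit 7) (nat_lit 5) L1052143 (by decide +kernel)
theorem L1052145 : W_3 (nat_lit 4) (nat_lit 0x1800380006800700000000000000000000000) (nat_lit 0x0) (nat_lit 0x20000000300018000c0000000000000000000) := T_3 (nat_lit 95) (nat_lit 96) (nat_lit 1) (nat_lit 11) (nat_lit 5) L1052144 (by decide +kernel)
theorem L1052146 : W_3 (nat_lit 5) (nat_lit 0x1800380006800300000000000000000000000) (nat_lit 0x0) (nat_lit 0x2000000030001c000e0000000000000000000) := T_3 (nat_lit 94) (nat_lit 77) (nat_lit 6) (nat_lit 8) (nat_lit 8) L1052145 (by decide +kernel)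
theorem L1052147 : W_3 (nat_lit 6) (nat_lit 0x1800180006800300000000000000000000000) (nat_lit 0x0) (nat_lit 0x2000600030001c000e0000000000000000000) := T_3 (nat_lit 129) (nat_lit 130) (nat_lit 1) (nat_lit 11) (nat_lit 7) L1052146 (by decide +kernel)
theorem L1052148 : W_3 (nat_lit 7) (nat_lit 0x1800180006000300000000000000000000000) (nat_lit 0x0) (nat_lit 0x2000600031801c000e0000000000000000000) := T_3 (nat_lit 107) (nat_lit 108) (nat_lit 3) (nat_lit 5) (nat_lit 6) L1052147 (by decide +kernel)
theorem L1052149 : W_3 (nat_lit 8) (nat_lit 0x1800180006000200000000000000000000000) (nat_lit 0x0) (nat_lit 0x2000600031801d000e8000000000000000000) := T_3 (nat_lit 92) (nat_lit 75) (nat_lit 4) (nat_lit 8) (nat_lit 8) L1052148 (by decide +kernel)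
theorem L1052150 : W_3 (nat_lit 2) (nat_lit 0x1800180007000300000000000000000000000) (nat_lit 0x0) (nat_lit 0x600008000000000000000000000000000) := D_3 (nat_lit 129) (nat_lit 130) (nat_lit 111) (nat_lit 1) (nat_lit 11) (nat_lit 7) (nat_lit 3) (nat_lit 6) (nat_lit 6) (by decide +kernel)
theorem L1052151 : W_3 (nat_lit 3) (nat_lit 0x1800180006000300000000000000000000000) (nat_lit 0x0) (nat_lit 0x600009800000000000000000000000000) := T_3 (nat_lit 108) (nat_lit 107) (nat_lit 3) (nat_lit 5) (nat_lit 6) L1052150 (by decide +kernel)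
theorem L1052152 : W_3 (nat_lit 4) (nat_lit 0x1800180006000200000000000000000000000) (nat_lit 0x0) (nat_lit 0x600009800100008000000000000000000) := T_3 (nat_lit 92) (nat_lit 75) (nat_lit 4) (nat_lit 8) (nat_lit 8) L1052151 (by decide +kernel)
theorem L1052153 : W_3 (nat_lit 9) (nat_lit 0x1800180004000200000000000000000000000) (nat_lit 0x0) (nat_lit 0x200064003b801d800ee000000000000000000) := Q_3 (nat_lit 109) (C_3 L1052018 (C_3 L1052142 (C_3 L1052149 (C_3 L1052152 N_3)))) (by decide +kernel)
theorem L1052154 : W_3 (nat_lit 10) (nat_lit 0x1800180004000000000000000000000000000) (nat_lit 0x0) (nat_lit 0x200064003b801f800fe000400000000000000) := Q_3 (nat_lit 93) (C_3 L1049840 (C_3 L1052135 (C_3 L1049837 (C_3 L1052153 N_3)))) (by decide +kernel)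
theorem L1052155 : W_3 (nat_lit 5) (nat_lit 0x1800580004000000000000000000000000000) (nat_lit 0x0) (nat_lit 0x10002000000000000700038000400000000000000) := T_3 (nat_lit 93) (nat_lit 160) (nat_lit 5) (nat_lit 8) (nat_lit 5) L1052134 (by decide +kernel)
theorem L1052156 : W_3 (nat_lit 6) (nat_lit 0x1800180004000000000000000000000000000) (nat_lit 0x0) (nat_lit 0x10002000600000000700038000400000000000000) := T_3 (nat_lit 130) (nat_lit 129) (nat_lit 1) (nat_lit 11) (nat_lit 7) L1052155 (by decide +kernel)
theorem L1052157 : W_3 (nat_lit 11) (nat_lit 0x1800180000000000000000000000000000000) (nat_lit 0x0) (nat_lit 0x2400120039801e000e4007f803fc00fe000400000000000000) := Q_3 (nat_lit 110) (C_3 L1052131 (C_3 L1049841 (C_3 L1052154 (C_3 L1052156 (C_3 L1049838 N_3))))) (by decide +kernel)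
theorem L1052160 : W_3 (nat_lit 15) (nat_lit 0x1800080000000000000000000000000000000) (nat_lit 0x0) (nat_lit 0x2400120039d01e780f5c0ffe07fe03ff802f00038000000000) := Q_3 (nat_lit 128) (C_3 L1052046 (C_3 L802142 (C_3 L1052157 (C_3 L822525 (C_3 L1052159 N_3))))) (by decide +kernel)
theorem L1052839 : W_3 (nat_lit 2) (nat_lit 0x18001c0004000000000000000000000000000) (nat_lit 0x0) (nat_lit 0x10000000000000000200010000000000000000000) := D_3 (nat_lit 93) (nat_lit 76) (nat_lit 160) (nat_lit 5) (nat_lit 8) (nat_lit 4) (nat_lit 5) (nat_lit 8) (nat_lit 5) (by decide +kernel)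
theorem L1052840 : W_3 (nat_lit 2) (nat_lit 0x18001e0004000000000000000000000000000) (nat_lit 0x0) (nat_lit 0x18008000000000000000000000000000) := D_3 (nat_lit 124) (nat_lit 111) (nat_lit 123) (nat_lit 2) (nat_lit 5) (nat_lit 7) (nat_lit 3) (nat_lit 4) (nat_lit 7) (by decide +kernel)
theorem L1052841 : W_3 (nat_lit 2) (nat_lit 0x2000000018001f0004000000000000000000000000000) (nat_lit 0x0) (nat_lit 0x1c00000000000000000000000000) := D_3 (nat_lit 107) (nat_lit 108) (nat_lit 106) (nat_lit 0) (nat_lit 9) (nat_lit 7) (nat_lit 0) (nat_lit 8) (nat_lit 7) (by decide +kernel)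
theorem L1052842 : W_3 (nat_lit 3) (nat_lit 0x2000000018001e0004000000000000000000000000000) (nat_lit 0x0) (nat_lit 0x18001c00000000000000000000000000) := T_3 (nat_lit 124) (nat_lit 123) (nat_lit 3) (nat_lit 4) (nat_lit 7) L1052841 (by decide +kernel)
theorem L1052843 : W_3 (nat_lit 4) (nat_lit 0x18001e0004000000000000000000000000000) (nat_lit 0x0) (nat_lit 0x200010000000018001c00000000000000000000000000) := T_3 (nat_lit 177) (nat_lit 160) (nat_lit 6) (nat_lit 7) (nat_lit 10) L1052842 (by decide +kernel)
theorem L1052844 : W_3 (nat_lit 2) (nat_lit 0x2000000018001e000d000480000000000000000000000) (nat_lit 0x0) (nat_lit 0x2000840000000000000000000000) := D_3 (nat_lit 109) (nat_lit 90) (nat_lit 95) (nat_lit 0) (nat_lit 9) (nat_lit 6) (nat_lit 2) (nat_lit 6) (nat_lit 6) (by decide +kernel)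
theorem L1052845 : W_3 (nat_lit 3) (nat_lit 0x2000000018001e000d000080000000000000000000000) (nat_lit 0x0) (nat_lit 0x2000c40020000000000000000000) := T_3 (nat_lit 94) (nat_lit 77) (nat_lit 5) (nat_lit 9) (nat_lit 4) L1052844 (by decide +kernel)
theorem L1052846 : W_3 (nat_lit 4) (nat_lit 0x2000000018001e0005000080000000000000000000000) (nat_lit 0x0) (nat_lit 0x1a000c40020000000000000000000) := T_3 (nat_lit 111) (nat_lit 112) (nat_lit 2) (nat_lit 6) (nat_lit 7) L1052845 (by decide +kernel)
theorem L1052847 : W_3 (nat_lit 5) (nat_lit 0x2000000018001e0005000000000000000000000000000) (nat_lit 0x0) (nat_lit 0x1a000cc0024000000000000000000) := T_3 (nat_lit 91) (nat_lit 74) (nat_lit 7) (nat_lit 6) (nat_lit 4) L1052846 (by decide +kernel)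
theorem L1052848 : W_3 (nat_lit 6) (nat_lit 0x18001e0005000000000000000000000000000) (nat_lit 0x0) (nat_lit 0x20001000000000001a000cc0024000000000000000000) := T_3 (nat_lit 177) (nat_lit 160) (nat_lit 6) (nat_lit 7) (nat_lit 10) L1052847 (by decide +kernel)
theorem L1052849 : W_3 (nat_lit 7) (nat_lit 0x18001e0004000000000000000000000000000) (nat_lit 0x0) (nat_lit 0x20001000000000001b800cc0024000000000000000000) := T_3 (nat_lit 108) (nat_lit 107) (nat_lit 0) (nat_lit 9) (nat_lit 7) L1052848 (by decide +kernel)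
theorem L1052850 : W_3 (nat_lit 8) (nat_lit 0x18001c0004000000000000000000000000000) (nat_lit 0x0) (nat_lit 0x20001000000003801bc00cc0024000000000000000000) := Q_3 (nat_lit 125) (C_3 L1052840 (C_3 L1052843 (C_3 L1052849 N_3))) (by decide +kernel)
theorem L1052851 : W_3 (nat_lit 2) (nat_lit 0x18001c000c000000000000000000000000000) (nat_lit 0x0) (nat_lit 0x20030000000000000000000000000000) := D_3 (nat_lit 112) (nat_lit 113) (nat_lit 125) (nat_lit 1) (nat_lit 11) (nat_lit 6) (nat_lit 2) (nat_lit 6) (nat_lit 7) (by decide +kernel)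
theorem L1052852 : W_3 (nat_lit 2) (nat_lit 0x18001c000c000380020000000000000000000) (nat_lit 0x0) (nat_lit 0x32000000000000000000000000000) := D_3 (nat_lit 112) (nat_lit 113) (nat_lit 109) (nat_lit 1) (nat_lit 11) (nat_lit 6) (nat_lit 0) (nat_lit 10) (nat_lit 6) (by decide +kernel)
theorem L1052853 : W_3 (nat_lit 3) (nat_lit 0x18001c000c000300020000000000000000000) (nat_lit 0x0) (nat_lit 0x320000c0000000000000000000000) := T_3 (nat_lit 91) (nat_lit 90) (nat_lit 3) (nat_lit 5) (nat_lit 5) L1052852 (by decide +kernel)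
theorem L1052854 : W_3 (nat_lit 4) (nat_lit 0x18001c000c000200020000000000000000000) (nat_lit 0x0) (nat_lit 0x320001c0008000000000000000000) := T_3 (nat_lit 92) (nat_lit 75) (nat_lit 4) (nat_lit 8) (nat_lit 8) L1052853 (by decide +kernel)
theorem L1052855 : W_3 (nat_lit 5) (nat_lit 0x18001c000c000200000000000000000000000) (nat_lit 0x0) (nat_lit 0x320005c0028000000000000000000) := T_3 (nat_lit 77) (nat_lit 94) (nat_lit 6) (nat_lit 8) (nat_lit 8) L1052854 (by decide +kernel)
theorem L1052856 : W_3 (nat_lit 6) (nat_lit 0x18001c000c000000000000000000000000000) (nat_lit 0x0) (nat_lit 0x320007c0038000000000000000000) := T_3 (nat_lit 93) (nat_lit 76) (nat_lit 5) (nat_lit 8) (nat_lit 4) L1052855 (by decide +kernel)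
theorem L1052857 : W_3 (nat_lit 2) (nat_lit 0x18001e000f000400010000000000000000000) (nat_lit 0x0) (nat_lit 0xc0004000000000000000000) := D_3 (nat_lit 91) (nat_lit 90) (nat_lit 74) (nat_lit 0) (nat_lit 9) (nat_lit 6) (nat_lit 7) (nat_lit 6) (nat_lit 4) (by decide +kernel)
theorem L1052858 : W_3 (nat_lit 3) (nat_lit 0x18001e000d000400010000000000000000000) (nat_lit 0x0) (nat_lit 0x20008c0004000000000000000000) := T_3 (nat_lit 109) (nat_lit 95) (nat_lit 2) (nat_lit 6) (nat_lit 6) L1052857 (by decide +kernel)
theorem L1052859 : W_3 (nat_lit 4) (nat_lit 0x18001e000c000400010000000000000000000) (nat_lit 0x0) (nat_lit 0x38008c0004000000000000000000) := T_3 (nat_lit 108) (nat_lit 107) (nat_lit 0) (nat_lit 9) (nat_lit 7) L1052858 (by decide +kernel)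
theorem L1052860 : W_3 (nat_lit 5) (nat_lit 0x18001c000c000400010000000000000000000) (nat_lit 0x0) (nat_lit 0x300038008c0004000000000000000000) := T_3 (nat_lit 125) (nat_lit 124) (nat_lit 2) (nat_lit 5) (nat_lit 7) L1052859 (by decide +kernel)
theorem L1052861 : W_3 (nat_lit 6) (nat_lit 0x18001c000c000000010000000000000000000) (nat_lit 0x0) (nat_lit 0x30003800cc0024000000000000000000) := T_3 (nat_lit 94) (nat_lit 77) (nat_lit 5) (nat_lit 9) (nat_lit 4) L1052860 (by decide +kernel)
theorem L1052862 : W_3 (nat_lit 7) (nat_lit 0x18001c000c000000000000000000000000000) (nat_lit 0x0) (nat_lit 0x30003800ec0034000000000000000000) := T_3 (nat_lit 76) (nat_lit 93) (nat_lit 5) (nat_lit 8) (nat_lit 4) L1052861 (by decide +kernel)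
theorem L1052863 : W_3 (nat_lit 8) (nat_lit 0x18001c0004000000000000000000000000000) (nat_lit 0x0) (nat_lit 0x3003b800fc003c000000000000000000) := Q_3 (nat_lit 111) (C_3 L1052851 (C_3 L1052856 (C_3 L1052862 N_3))) (by decide +kernel)
theorem L1052864 : W_3 (nat_lit 9) (nat_lit 0x18001c0000000000000000000000000000000) (nat_lit 0x0) (nat_lit 0x20001000000003803fc00fc003c000000000000000000) := Q_3 (nat_lit 110) (C_3 L1052839 (C_3 L1052850 (C_3 L1052863 N_3))) (by decide +kernel)
theorem L1052865 : W_3 (nat_lit 2) (nat_lit 0x1c001e000b000180020000000000000000000) (nat_lit 0x0) (nat_lit 0x4000040002000000000000000000) := D_3 (nat_lit 90) (nat_lit 110) (nat_lit 73) (nat_lit 0) (nat_lit 9) (nat_lit 6) (nat_lit 4) (nat_lit 6) (nat_lit 8) (by decide +kernel)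
theorem L1052866 : W_3 (nat_lit 3) (nat_lit 0x1c001e0009000180020000000000000000000) (nat_lit 0x0) (nat_lit 0x8000000000006000040002000000000000000000) := T_3 (nat_lit 109) (nat_lit 159) (nat_lit 6) (nat_lit 6) (nat_lit 9) L1052865 (by decide +kernel)
theorem L1052867 : W_3 (nat_lit 4) (nat_lit 0x1c001e0009000080020000000000000000000) (nat_lit 0x0) (nat_lit 0x800000000000600014000a000000000000000000) := T_3 (nat_lit 92) (nat_lit 75) (nat_lit 6) (nat_lit 6) (nat_lit 8) L1052866 (by decide +kernel)
theorem L1052868 : W_3 (nat_lit 5) (nat_lit 0x1c001e0009000000020000000000000000000) (nat_lit 0x0) (nat_lit 0x80000000000060001c000e000000000000000000) := T_3 (nat_lit 91) (nat_lit 74) (nat_lit 7) (nat_lit 6) (nat_lit 4) L1052867 (by decide +kernel)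
theorem L1052869 : W_3 (nat_lit 6) (nat_lit 0x1c001e0008000000020000000000000000000) (nat_lit 0x0) (nat_lit 0x80000000000078001c000e000000000000000000) := T_3 (nat_lit 108) (nat_lit 107) (nat_lit 0) (nat_lit 9) (nat_lit 7) L1052868 (by decide +kernel)
theorem L1052870 : W_3 (nat_lit 7) (nat_lit 0x1c001e0008000000000000000000000000000) (nat_lit 0x0) (nat_lit 0x80000000000078005c002e000000000000000000) := T_3 (nat_lit 77) (nat_lit 94) (nat_lit 5) (nat_lit 9) (nat_lit 4) L1052869 (by decide +kernel)
theorem L1052871 : W_3 (nat_lit 8) (nat_lit 0x18001e0008000000000000000000000000000) (nat_lit 0x0) (nat_lit 0x80006000000078005c002e000000000000000000) := T_3 (nat_lit 142) (nat_lit 141) (nat_lit 2) (nat_lit 5) (nat_lit 8) L1052870 (by decide +kernel)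
theorem L1052872 : W_3 (nat_lit 9) (nat_lit 0x18001e0000000000000000000000000000000) (nat_lit 0x0) (nat_lit 0x800060000001f8005c002e000000000000000000) := T_3 (nat_lit 111) (nat_lit 112) (nat_lit 2) (nat_lit 6) (nat_lit 7) L1052871 (by decide +kernel)
theorem L1052873 : W_3 (nat_lit 10) (nat_lit 0x18001c0000000000000000000000000000000) (nat_lit 0x0) (nat_lit 0x800070003801fc005c002e000000000000000000) := Q_3 (nat_lit 125) (C_3 L619436 (C_3 L619395 (C_3 L1052872 N_3))) (by decide +kernel)
theorem L1052892 : W_3 (nat_lit 2) (nat_lit 0x1a0018001c0002000200000000000000000000000) (nat_lit 0x0) (nat_lit 0x100018000000000000000000) := D_3 (nat_lit 92) (nat_lit 75) (nat_lit 76) (nat_lit 7) (nat_lit 7) (nat_lit 4) (nat_lit 6) (nat_lit 7) (nat_lit 8) (by decide +kernel)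
theorem L1052893 : W_3 (nat_lit 3) (nat_lit 0x1a0018001c0002000000000000000000000000000) (nat_lit 0x0) (nat_lit 0x4000300018000000000000000000) := T_3 (nat_lit 93) (nat_lit 110) (nat_lit 6) (nat_lit 7) (nat_lit 9) L1052892 (by decide +kernel)
theorem L1052894 : W_3 (nat_lit 4) (nat_lit 0x180018001c0002000000000000000000000000000) (nat_lit 0x0) (nat_lit 0x6000000000004000300018000000000000000000) := T_3 (nat_lit 157) (nat_lit 158) (nat_lit 2) (nat_lit 4) (nat_lit 9) L1052893 (by decide +kernel)
theorem L1052895 : W_3 (nat_lit 5) (nat_lit 0x100018001c0002000000000000000000000000000) (nat_lit 0x0) (nat_lit 0x10000e000000000004000300018000000000000000000) := T_3 (nat_lit 159) (nat_lit 176) (nat_lit 5) (nat_lit 7) (nat_lit 6) L1052894 (by decide +kernel)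
theorem L1053419 : W_3 (nat_lit 2) (nat_lit 0x700018001c001e0008000000020000000000000000000) (nat_lit 0x0) (nat_lit 0x800006000000000000000000000000000000000000000) := D_3 (nat_lit 158) (nat_lit 157) (nat_lit 179) (nat_lit 3) (nat_lit 4) (nat_lit 9) (nat_lit 0) (nat_lit 9) (nat_lit 10) (by decide +kernel)
theorem L1053420 : W_3 (nat_lit 3) (nat_lit 0x300018001c001e0008000000020000000000000000000) (nat_lit 0x0) (nat_lit 0x8000c00006000000000000000000000000000000000000000) := T_3 (nat_lit 178) (nat_lit 195) (nat_lit 7) (nat_lit 7) (nat_lit 7) L1053419 (by decide +kernel)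
theorem L1053421 : W_3 (nat_lit 4) (nat_lit 0x300008001c001e0008000000020000000000000000000) (nat_lit 0x0) (nat_lit 0x8000c00016000000000004000000000000000000000000000) := T_3 (nat_lit 160) (nat_lit 110) (nat_lit 6) (nat_lit 7) (nat_lit 10) L1053420 (by decide +kernel)
theorem L1053422 : W_3 (nat_lit 5) (nat_lit 0x100008001c001e0008000000020000000000000000000) (nat_lit 0x0) (nat_lit 0xc000e00016000000000004000000000000000000000000000) := T_3 (nat_lit 177) (nat_lit 194) (nat_lit 7) (nat_lit 6) (nat_lit 7) L1053421 (by decide +kernel)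
theorem L1054131 : W_3 (nat_lit 2) (nat_lit 0x1c001e0008000000000000000000000000000) (nat_lit 0x0) (nat_lit 0x18004000000000000000000000000000) := D_3 (nat_lit 124) (nat_lit 110) (nat_lit 123) (nat_lit 2) (nat_lit 5) (nat_lit 7) (nat_lit 3) (nat_lit 4) (nat_lit 7) (by decide +kernel)
theorem L1054335 : W_3 (nat_lit 2) (nat_lit 0x18001c0006001780000000000000000000000) (nat_lit 0x0) (nat_lit 0x18000040000000000000000000000) := D_3 (nat_lit 111) (nat_lit 112) (nat_lit 90) (nat_lit 3) (nat_lit 6) (nat_lit 5) (nat_lit 3) (nat_lit 5) (nat_lit 5) (by decide +kernel)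
theorem L1054336 : W_3 (nat_lit 3) (nat_lit 0x18001c0006001700000000000000000000000) (nat_lit 0x0) (nat_lit 0x180000c0004000000000000000000) := T_3 (nat_lit 91) (nat_lit 74) (nat_lit 4) (nat_lit 7) (nat_lit 8) L1054335 (by decide +kernel)
theorem L1054337 : W_3 (nat_lit 4) (nat_lit 0x18001c0006000700000000000000000000000) (nat_lit 0x0) (nat_lit 0x180018c0004000000000000000000) := T_3 (nat_lit 96) (nat_lit 95) (nat_lit 1) (nat_lit 11) (nat_lit 5) L1054336 (by decide +kernel)
theorem L1054338 : W_3 (nat_lit 5) (nat_lit 0x18001c0006000300000000000000000000000) (nat_lit 0x0) (nat_lit 0x18001cc0024000000000000000000) := T_3 (nat_lit 94) (nat_lit 77) (nat_lit 6) (nat_lit 8) (nat_lit 8) L1054337 (by decide +kernel)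
theorem L1054339 : W_3 (nat_lit 6) (nat_lit 0x18001c0002000300000000000000000000000) (nat_lit 0x0) (nat_lit 0x1000000000001c001cc0024000000000000000000) := T_3 (nat_lit 110) (nat_lit 160) (nat_lit 6) (nat_lit 7) (nat_lit 9) L1054338 (by decide +kernel)
theorem L1054340 : W_3 (nat_lit 7) (nat_lit 0x18001c0002000100000000000000000000000) (nat_lit 0x0) (nat_lit 0x1000000000001c001ec0034000000000000000000) := T_3 (nat_lit 93) (nat_lit 76) (nat_lit 6) (nat_lit 7) (nat_lit 8) L1054339 (by decide +kernel)
theorem L1054341 : W_3 (nat_lit 8) (nat_lit 0x18001c0002000000000000000000000000000) (nat_lit 0x0) (nat_lit 0x1000000000001c001fc003c000000000000000000) := T_3 (nat_lit 92) (nat_lit 75) (nat_lit 7) (nat_lit 7) (nat_lit 4) L1054340 (by decide +kernel)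
theorem L1055499 : W_3 (nat_lit 3) (nat_lit 0x1c001e0000000000000000000000000000000) (nat_lit 0x0) (nat_lit 0x1801c000000000000000000000000000) := T_3 (nat_lit 111) (nat_lit 112) (nat_lit 2) (nat_lit 6) (nat_lit 7) L1054131 (by decide +kernel)
theorem L1055568 : W_3 (nat_lit 2) (nat_lit 0x1a00180004000340030000800040000000000) (nat_lit 0x0) (nat_lit 0x400020001000000) := D_3 (nat_lit 41) (nat_lit 24) (nat_lit 58) (nat_lit 4) (nat_lit 8) (nat_lit 5) (nat_lit 4) (nat_lit 8) (nat_lit 6) (by decide +kernel)
theorem L1055569 : W_3 (nat_lit 3) (nat_lit 0x1a00180004000340030000800000000000000) (nat_lit 0x0) (nat_lit 0x2000000000000400060001000000) := T_3 (nat_lit 42) (nat_lit 109) (nat_lit 5) (nat_lit 8) (nat_lit 2) L1055568 (by decide +kernel)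
theorem L1055570 : W_3 (nat_lit 4) (nat_lit 0x1a00180004000340030000000000000000000) (nat_lit 0x0) (nat_lit 0xa000000000000c00060001000000) := T_3 (nat_lit 59) (nat_lit 111) (nat_lit 7) (nat_lit 8) (nat_lit 3) L1055569 (by decide +kernel)
theorem L1055571 : W_3 (nat_lit 5) (nat_lit 0x1a00180004000300030000000000000000000) (nat_lit 0x0) (nat_lit 0xa0000c0000000c00060001000000) := T_3 (nat_lit 90) (nat_lit 91) (nat_lit 2) (nat_lit 5) (nat_lit 5) L1055570 (by decide +kernel)
theorem L1055572 : W_3 (nat_lit 6) (nat_lit 0x1a00180004000300020000000000000000000) (nat_lit 0x0) (nat_lit 0xa0000c0010001c00060001000000) := T_3 (nat_lit 76) (nat_lit 60) (nat_lit 6) (nat_lit 8) (nat_lit 7) L1055571 (by decide +kernel)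
theorem L1055573 : W_3 (nat_lit 7) (nat_lit 0x1a00180004000300000000000000000000000) (nat_lit 0x0) (nat_lit 0xa0004c0030001c00060001000000) := T_3 (nat_lit 77) (nat_lit 94) (nat_lit 6) (nat_lit 8) (nat_lit 8) L1055572 (by decide +kernel)
theorem L1055574 : W_3 (nat_lit 8) (nat_lit 0x1a00180004000200000000000000000000000) (nat_lit 0x0) (nat_lit 0xa0005c0038001c00060001000000) := T_3 (nat_lit 92) (nat_lit 75) (nat_lit 4) (nat_lit 8) (nat_lit 8) L1055573 (by decide +kernel)
theorem L1055575 : W_3 (nat_lit 9) (nat_lit 0x1a00180004000000000000000000000000000) (nat_lit 0x0) (nat_lit 0x1000000000000a0007c0038001c00060001000000) := T_3 (nat_lit 93) (nat_lit 160) (nat_lit 5) (nat_lit 8) (nat_lit 5) L1055574 (by decide +kernel)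
theorem L1055576 : W_3 (nat_lit 10) (nat_lit 0x1800180004000000000000000000000000000) (nat_lit 0x0) (nat_lit 0x1000060000000a0007c0038001c00060001000000) := T_3 (nat_lit 141) (nat_lit 142) (nat_lit 2) (nat_lit 5) (nat_lit 8) L1055575 (by decide +kernel)
theorem L1055887 : W_3 (nat_lit 9) (nat_lit 0x1800180004000200000000000000000000000) (nat_lit 0x0) (nat_lit 0x60000000a0005c0038001c00060001000000) := T_3 (nat_lit 141) (nat_lit 142) (nat_lit 2) (nat_lit 5) (nat_lit 8) L1055574 (by decide +kernel)
theorem L1055893 : W_3 (nat_lit 2) (nat_lit 0x1a0018000c000700000000000000000000000) (nat_lit 0x0) (nat_lit 0x100000c0000000000000000000000) := D_3 (nat_lit 91) (nat_lit 112) (nat_lit 90) (nat_lit 3) (nat_lit 6) (nat_lit 5) (nat_lit 3) (nat_lit 5) (nat_lit 5) (by decide +kernel)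
theorem L1055894 : W_3 (nat_lit 3) (nat_lit 0x1a0018000c000600000000000000000000000) (nat_lit 0x0) (nat_lit 0x100001c0008000000000000000000) := T_3 (nat_lit 92) (nat_lit 75) (nat_lit 4) (nat_lit 8) (nat_lit 8) L1055893 (by decide +kernel)
theorem L1055895 : W_3 (nat_lit 4) (nat_lit 0x1a0018000c000200000000000000000000000) (nat_lit 0x0) (nat_lit 0x100005c0028000000000000000000) := T_3 (nat_lit 94) (nat_lit 77) (nat_lit 6) (nat_lit 8) (nat_lit 8) L1055894 (by decide +kernel)
theorem L1055896 : W_3 (nat_lit 5) (nat_lit 0x180018000c000200000000000000000000000) (nat_lit 0x0) (nat_lit 0x6000000100005c0028000000000000000000) := T_3 (nat_lit 141) (nat_lit 142) (nat_lit 2) (nat_lit 5) (nat_lit 8) L1055895 (by decide +kernel)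
theorem L1055905 : W_3 (nat_lit 2) (nat_lit 0x1800180004000200010000000000000000000) (nat_lit 0x0) (nat_lit 0x400020001000000000000000) := D_3 (nat_lit 77) (nat_lit 94) (nat_lit 60) (nat_lit 6) (nat_lit 8) (nat_lit 8) (nat_lit 6) (nat_lit 8) (nat_lit 7) (by decide +kernel)
theorem L1055906 : W_3 (nat_lit 3) (nat_lit 0x1800180004000200000000000000000000000) (nat_lit 0x0) (nat_lit 0x40000000400030001000000000000000) := T_3 (nat_lit 76) (nat_lit 126) (nat_lit 5) (nat_lit 8) (nat_lit 4) L1055905 (by decide +kernel)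
theorem L1055908 : W_3 (nat_lit 2) (nat_lit 0x1a00180004000200010000000000000000000) (nat_lit 0x0) (nat_lit 0x400020001000000000000000) := D_3 (nat_lit 77) (nat_lit 94) (nat_lit 60) (nat_lit 6) (nat_lit 8) (nat_lit 8) (nat_lit 6) (nat_lit 8) (nat_lit 7) (by decide +kernel)
theorem L1055909 : W_3 (nat_lit 3) (nat_lit 0x1a00180004000200000000000000000000000) (nat_lit 0x0) (nat_lit 0x40000000400030001000000000000000) := T_3 (nat_lit 76) (nat_lit 126) (nat_lit 5) (nat_lit 8) (nat_lit 4) L1055908 (by decide +kernel)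
theorem L1055910 : W_3 (nat_lit 4) (nat_lit 0x1a00180004000000000000000000000000000) (nat_lit 0x0) (nat_lit 0x10000000040000000600030001000000000000000) := T_3 (nat_lit 93) (nat_lit 160) (nat_lit 5) (nat_lit 8) (nat_lit 5) L1055909 (by decide +kernel)
theorem L1055911 : W_3 (nat_lit 5) (nat_lit 0x1800180004000000000000000000000000000) (nat_lit 0x0) (nat_lit 0x10000600040000000600030001000000000000000) := T_3 (nat_lit 141) (nat_lit 142) (nat_lit 2) (nat_lit 5) (nat_lit 8) L1055910 (by decide +kernel)
theorem L1071409 : W_3 (nat_lit 11) (nat_lit 0x18000c0000000000000000000000000000000) (nat_lit 0x0) (nat_lit 0x800c70073803fc00fc007e000000000000000000) := Q_3 (nat_lit 128) (C_3 L980805 (C_3 L1052873 (C_3 L619390 N_3))) (by decide +kernel)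
theorem L1071410 : W_3 (nat_lit 2) (nat_lit 0x1a0018000d0007800040000000000000000000000) (nat_lit 0x0) (nat_lit 0x400020008000000000000000000000000000) := D_3 (nat_lit 125) (nat_lit 111) (nat_lit 142) (nat_lit 2) (nat_lit 5) (nat_lit 7) (nat_lit 4) (nat_lit 6) (nat_lit 9) (by decide +kernel)
theorem L1071411 : W_3 (nat_lit 3) (nat_lit 0x1a0018000d0007800000000000000000000000000) (nat_lit 0x0) (nat_lit 0x400020008000060000000000000000000000) := T_3 (nat_lit 90) (nat_lit 89) (nat_lit 0) (nat_lit 8) (nat_lit 6) L1071410 (by decide +kernel)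
theorem L1071412 : W_3 (nat_lit 4) (nat_lit 0x1a0018000c0007800000000000000000000000000) (nat_lit 0x0) (nat_lit 0x400038008000060000000000000000000000) := T_3 (nat_lit 124) (nat_lit 123) (nat_lit 1) (nat_lit 8) (nat_lit 6) L1071411 (by decide +kernel)
theorem L1071413 : W_3 (nat_lit 5) (nat_lit 0x1a0018000c0007000000000000000000000000000) (nat_lit 0x0) (nat_lit 0x400038008c00060000000000000000000000) := T_3 (nat_lit 107) (nat_lit 106) (nat_lit 3) (nat_lit 4) (nat_lit 6) L1071412 (by decide +kernel)
theorem L1071414 : W_3 (nat_lit 6) (nat_lit 0x1a0018000c0006000000000000000000000000000) (nat_lit 0x0) (nat_lit 0x400038009c000e0000000000000000000000) := T_3 (nat_lit 108) (nat_lit 91) (nat_lit 4) (nat_lit 7) (nat_lit 9) L1071413 (by decide +kernel)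
theorem L1071415 : W_3 (nat_lit 7) (nat_lit 0x180018000c0006000000000000000000000000000) (nat_lit 0x0) (nat_lit 0x6000400038009c000e0000000000000000000000) := T_3 (nat_lit 157) (nat_lit 158) (nat_lit 2) (nat_lit 4) (nat_lit 9) L1071414 (by decide +kernel)
theorem L1071416 : W_3 (nat_lit 8) (nat_lit 0x100018000c0006000000000000000000000000000) (nat_lit 0x0) (nat_lit 0x10000e000400038009c000e0000000000000000000000) := T_3 (nat_lit 159) (nat_lit 176) (nat_lit 5) (nat_lit 7) (nat_lit 6) L1071415 (by decide +kernel)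
theorem L1071417 : W_3 (nat_lit 9) (nat_lit 0x100018000c0002000000000000000000000000000) (nat_lit 0x0) (nat_lit 0x10000e00040003800dc002e0000000000000000000000) := T_3 (nat_lit 110) (nat_lit 93) (nat_lit 6) (nat_lit 7) (nat_lit 9) L1071416 (by decide +kernel)
theorem L1071418 : W_3 (nat_lit 10) (nat_lit 0x100018000c0000000000000000000000000000000) (nat_lit 0x0) (nat_lit 0x10000e00040003800fc003e001c000000000000000000) := Q_3 (nat_lit 109) (C_3 L1049175 (C_3 L771750 (C_3 L1071417 N_3))) (by decide +kernel)
theorem L1071419 : W_3 (nat_lit 11) (nat_lit 0x18000c0000000000000000000000000000000) (nat_lit 0x0) (nat_lit 0xe0007c001e00070003800fc003e001c000000000000000000) := Q_3 (nat_lit 160) (C_3 L1071407 (C_3 L1011291 (C_3 L1071418 N_3))) (by decide +kernel)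
theorem L1072662 : W_3 (nat_lit 2) (nat_lit 0x100018000e0004000000000000000000000000000) (nat_lit 0x0) (nat_lit 0x18008000000000000000000000000000) := D_3 (nat_lit 124) (nat_lit 111) (nat_lit 123) (nat_lit 2) (nat_lit 5) (nat_lit 7) (nat_lit 3) (nat_lit 4) (nat_lit 7) (by decide +kernel)
theorem L1075489 : W_3 (nat_lit 3) (nat_lit 0x100018000e0000000000000000000000000000000) (nat_lit 0x0) (nat_lit 0x1800c000200000000000000000000000) := T_3 (nat_lit 110) (nat_lit 93) (nat_lit 5) (nat_lit 8) (nat_lit 5) L1072662 (by decide +kernel)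
theorem L1075492 : W_3 (nat_lit 2) (nat_lit 0x10001e000f0000800000000000000000000000000) (nat_lit 0x0) (nat_lit 0x8000000000000000040002000000000000000000) := D_3 (nat_lit 90) (nat_lit 159) (nat_lit 73) (nat_lit 7) (nat_lit 5) (nat_lit 5) (nat_lit 7) (nat_lit 5) (nat_lit 4) (by decide +kernel)
theorem L1075498 : W_3 (nat_lit 2) (nat_lit 0x100018003e0000000000000000000000000000000) (nat_lit 0x0) (nat_lit 0x38000000000000000000000000000) := D_3 (nat_lit 112) (nat_lit 111) (nat_lit 113) (nat_lit 2) (nat_lit 6) (nat_lit 7) (nat_lit 2) (nat_lit 7) (nat_lit 7) (by decide +kernel)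
theorem L1075499 : W_3 (nat_lit 3) (nat_lit 0x100018001e0000000000000000000000000000000) (nat_lit 0x0) (nat_lit 0x600038000000000000000000000000000) := T_3 (nat_lit 129) (nat_lit 130) (nat_lit 1) (nat_lit 11) (nat_lit 7) L1075498 (by decide +kernel)
theorem L1076697 : W_3 (nat_lit 2) (nat_lit 0x18000c0000000200000000000000000000000) (nat_lit 0x0) (nat_lit 0x10000000000004000000010000000000000000000) := D_3 (nat_lit 110) (nat_lit 76) (nat_lit 160) (nat_lit 5) (nat_lit 8) (nat_lit 4) (nat_lit 5) (nat_lit 8) (nat_lit 5) (by decide +kernel)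
theorem L1076698 : W_3 (nat_lit 2) (nat_lit 0x18000c0000000300000000000000000000000) (nat_lit 0x0) (nat_lit 0x2000000018000000000000000000) := D_3 (nat_lit 109) (nat_lit 76) (nat_lit 75) (nat_lit 6) (nat_lit 7) (nat_lit 8) (nat_lit 7) (nat_lit 7) (nat_lit 4) (by decide +kernel)
theorem L1076699 : W_3 (nat_lit 2) (nat_lit 0x18000c0010000f80008000000000000000000) (nat_lit 0x0) (nat_lit 0xe0000000000000000000) := D_3 (nat_lit 78) (nat_lit 77) (nat_lit 79) (nat_lit 2) (nat_lit 6) (nat_lit 5) (nat_lit 2) (nat_lit 7) (nat_lit 5) (by decide +kernel)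
theorem L1076700 : W_3 (nat_lit 3) (nat_lit 0x18000c0010000f00008000000000000000000) (nat_lit 0x0) (nat_lit 0x80000800e0000000000000000000) := T_3 (nat_lit 91) (nat_lit 111) (nat_lit 3) (nat_lit 6) (nat_lit 5) L1076699 (by decide +kernel)
theorem L1076701 : W_3 (nat_lit 4) (nat_lit 0x18000c0000000f00008000000000000000000) (nat_lit 0x0) (nat_lit 0x380000800e0000000000000000000) := T_3 (nat_lit 112) (nat_lit 113) (nat_lit 3) (nat_lit 7) (nat_lit 5) L1076700 (by decide +kernel)
theorem L1076702 : W_3 (nat_lit 5) (nat_lit 0x18000c0000000f00000000000000000000000) (nat_lit 0x0) (nat_lit 0x380000800ec000000000000000000) := T_3 (nat_lit 75) (nat_lit 74) (nat_lit 0) (nat_lit 10) (nat_lit 5) L1076701 (by decide +kernel)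
theorem L1076703 : W_3 (nat_lit 6) (nat_lit 0x18000c0000000700000000000000000000000) (nat_lit 0x0) (nat_lit 0x780018801fc000000000000000000) := Q_3 (nat_lit 95) (C_3 L1038615 (C_3 L628912 (C_3 L1076702 (C_3 L1038554 N_3)))) (by decide +kernel)
theorem L1076704 : W_3 (nat_lit 2) (nat_lit 0x18000c0018000f00048000000000000000000) (nat_lit 0x0) (nat_lit 0x120000000000000002000000000000000) := D_3 (nat_lit 128) (nat_lit 125) (nat_lit 61) (nat_lit 2) (nat_lit 6) (nat_lit 7) (nat_lit 5) (nat_lit 10) (nat_lit 3) (by decide +kernel)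
theorem L1076705 : W_3 (nat_lit 3) (nat_lit 0x18000c0018000f00008000000000000000000) (nat_lit 0x0) (nat_lit 0x1200000000000c0002000000000000000) := T_3 (nat_lit 78) (nat_lit 79) (nat_lit 2) (nat_lit 7) (nat_lit 5) L1076704 (by decide +kernel)
theorem L1076706 : W_3 (nat_lit 4) (nat_lit 0x18000c0010000f00008000000000000000000) (nat_lit 0x0) (nat_lit 0x1200080000800c0002000000000000000) := T_3 (nat_lit 111) (nat_lit 91) (nat_lit 3) (nat_lit 6) (nat_lit 5) L1076705 (by decide +kernel)
theorem L1076707 : W_3 (nat_lit 5) (nat_lit 0x18000c0000000f00008000000000000000000) (nat_lit 0x0) (nat_lit 0x1200380000800c0002000000000000000) := T_3 (nat_lit 112) (nat_lit 113) (nat_lit 3) (nat_lit 7) (nat_lit 5) L1076706 (by decide +kernel)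
theorem L1076708 : W_3 (nat_lit 6) (nat_lit 0x18000c0000000f00000000000000000000000) (nat_lit 0x0) (nat_lit 0x1200380000800cc002000000000000000) := T_3 (nat_lit 75) (nat_lit 74) (nat_lit 0) (nat_lit 10) (nat_lit 5) L1076707 (by decide +kernel)
theorem L1076709 : W_3 (nat_lit 7) (nat_lit 0x18000c0000000700000000000000000000000) (nat_lit 0x0) (nat_lit 0x1200780018801dc002000000000000000) := Q_3 (nat_lit 95) (C_3 L1038615 (C_3 L628912 (C_3 L1076708 (C_3 L1038554 N_3)))) (by decide +kernel)
theorem L1076710 : W_3 (nat_lit 2) (nat_lit 0x18005c0020001f80124000000000000000000) (nat_lit 0x0) (nat_lit 0x8000000000002000200000000000000000000) := D_3 (nat_lit 97) (nat_lit 81) (nat_lit 147) (nat_lit 2) (nat_lit 9) (nat_lit 5) (nat_lit 6) (nat_lit 11) (nat_lit 8) (by decide +kernel)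
theorem L1076711 : W_3 (nat_lit 3) (nat_lit 0x18005c0020001f80024000000000000000000) (nat_lit 0x0) (nat_lit 0x8000000000002000380000000000000000000) := T_3 (nat_lit 80) (nat_lit 79) (nat_lit 2) (nat_lit 8) (nat_lit 5) L1076710 (by decide +kernel)
theorem L1076712 : W_3 (nat_lit 4) (nat_lit 0x18005c0020000f80024000000000000000000) (nat_lit 0x0) (nat_lit 0x8000000040003000380000000000000000000) := T_3 (nat_lit 96) (nat_lit 114) (nat_lit 3) (nat_lit 8) (nat_lit 5) L1076711 (by decide +kernel)
theorem L1076713 : W_3 (nat_lit 5) (nat_lit 0x18005c0000000f80024000000000000000000) (nat_lit 0x0) (nat_lit 0x8000000070003000380000000000000000000) := T_3 (nat_lit 113) (nat_lit 112) (nat_lit 3) (nat_lit 7) (nat_lit 5) L1076712 (by decide +kernel)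
theorem L1076714 : W_3 (nat_lit 6) (nat_lit 0x18005c0000000780024000000000000000000) (nat_lit 0x0) (nat_lit 0x8000000070003800388000000000000000000) := T_3 (nat_lit 95) (nat_lit 75) (nat_lit 0) (nat_lit 10) (nat_lit 5) L1076713 (by decide +kernel)
theorem L1076715 : W_3 (nat_lit 7) (nat_lit 0x18001c0000000780024000000000000000000) (nat_lit 0x0) (nat_lit 0x8000600070003800388000000000000000000) := T_3 (nat_lit 130) (nat_lit 129) (nat_lit 1) (nat_lit 11) (nat_lit 7) L1076714 (by decide +kernel)
theorem L1076716 : W_3 (nat_lit 8) (nat_lit 0x18001c0000000780020000000000000000000) (nat_lit 0x0) (nat_lit 0x800060007000380038e000000000000000000) := T_3 (nat_lit 74) (nat_lit 73) (nat_lit 0) (nat_lit 9) (nat_lit 5) L1076715 (by decide +kernel)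
theorem L1076717 : W_3 (nat_lit 9) (nat_lit 0x18001c0000000700020000000000000000000) (nat_lit 0x0) (nat_lit 0x80006000700038803ce000000000000000000) := T_3 (nat_lit 91) (nat_lit 78) (nat_lit 2) (nat_lit 6) (nat_lit 5) L1076716 (by decide +kernel)
theorem L1076718 : W_3 (nat_lit 10) (nat_lit 0x18001c0000000700000000000000000000000) (nat_lit 0x0) (nat_lit 0x80006000780038803ee000000000000000000) := T_3 (nat_lit 77) (nat_lit 111) (nat_lit 5) (nat_lit 9) (nat_lit 4) L1076717 (by decide +kernel)
theorem L1076719 : W_3 (nat_lit 2) (nat_lit 0x1a001c0000000700060000000000000000000) (nat_lit 0x0) (nat_lit 0x800180000000000000000000) := D_3 (nat_lit 79) (nat_lit 80) (nat_lit 95) (nat_lit 1) (nat_lit 12) (nat_lit 4) (nat_lit 2) (nat_lit 7) (nat_lit 5) (by decide +kernel)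
theorem L1076720 : W_3 (nat_lit 3) (nat_lit 0x1a001c0000000700020000000000000000000) (nat_lit 0x0) (nat_lit 0x8801c0000000000000000000) := T_3 (nat_lit 78) (nat_lit 91) (nat_lit 2) (nat_lit 6) (nat_lit 5) L1076719 (by decide +kernel)
theorem L1076721 : W_3 (nat_lit 4) (nat_lit 0x1a001c0000000700000000000000000000000) (nat_lit 0x0) (nat_lit 0x80008801e0000000000000000000) := T_3 (nat_lit 77) (nat_lit 111) (nat_lit 5) (nat_lit 9) (nat_lit 4) L1076720 (by decide +kernel)
theorem L1076722 : W_3 (nat_lit 5) (nat_lit 0x18001c0000000700000000000000000000000) (nat_lit 0x0) (nat_lit 0x6000000080008801e0000000000000000000) := T_3 (nat_lit 141) (nat_lit 142) (nat_lit 2) (nat_lit 5) (nat_lit 8) L1076721 (by decide +kernel)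
theorem L1076723 : W_3 (nat_lit 11) (nat_lit 0x18000c0000000700000000000000000000000) (nat_lit 0x0) (nat_lit 0x86007000780038803ee000000000000000000) := Q_3 (nat_lit 128) (C_3 L1038515 (C_3 L1076718 (C_3 L1076722 N_3))) (by decide +kernel)
theorem L1076724 : W_3 (nat_lit 2) (nat_lit 0x18003c0010000700020000000000000000000) (nat_lit 0x0) (nat_lit 0xc000000000000800000000000000000000000) := D_3 (nat_lit 146) (nat_lit 147) (nat_lit 95) (nat_lit 3) (nat_lit 7) (nat_lit 7) (nat_lit 4) (nat_lit 10) (nat_lit 8) (by decide +kernel)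
theorem L1076725 : W_3 (nat_lit 3) (nat_lit 0x18003c0000000700020000000000000000000) (nat_lit 0x0) (nat_lit 0xc000000030000800000000000000000000000) := T_3 (nat_lit 112) (nat_lit 113) (nat_lit 2) (nat_lit 7) (nat_lit 7) L1076724 (by decide +kernel)
theorem L1076726 : W_3 (nat_lit 4) (nat_lit 0x18001c0000000700020000000000000000000) (nat_lit 0x0) (nat_lit 0xc000600030000800000000000000000000000) := T_3 (nat_lit 129) (nat_lit 130) (nat_lit 1) (nat_lit 11) (nat_lit 7) L1076725 (by decide +kernel)
theorem L1076727 : W_3 (nat_lit 5) (nat_lit 0x18001c0000000700000000000000000000000) (nat_lit 0x0) (nat_lit 0xc000600038000800020000000000000000000) := T_3 (nat_lit 77) (nat_lit 111) (nat_lit 5) (nat_lit 9) (nat_lit 4) L1076726 (by decide +kernel)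
theorem L1076728 : W_3 (nat_lit 2) (nat_lit 0x1a001e0008000700000000000000000000000) (nat_lit 0x0) (nat_lit 0x100018000000000000000000000000000000) := D_3 (nat_lit 124) (nat_lit 140) (nat_lit 123) (nat_lit 1) (nat_lit 8) (nat_lit 7) (nat_lit 3) (nat_lit 4) (nat_lit 7) (by decide +kernel)
theorem L1076729 : W_3 (nat_lit 3) (nat_lit 0x1a001c0008000700000000000000000000000) (nat_lit 0x0) (nat_lit 0x100038010000000000000000000000000000) := T_3 (nat_lit 125) (nat_lit 112) (nat_lit 2) (nat_lit 6) (nat_lit 7) L1076728 (by decide +kernel)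
theorem L1076730 : W_3 (nat_lit 4) (nat_lit 0x1a001c0000000700000000000000000000000) (nat_lit 0x0) (nat_lit 0x100038018000000020000000000000000000) := T_3 (nat_lit 111) (nat_lit 77) (nat_lit 5) (nat_lit 9) (nat_lit 4) L1076729 (by decide +kernel)
theorem L1076731 : W_3 (nat_lit 5) (nat_lit 0x18001c0000000700000000000000000000000) (nat_lit 0x0) (nat_lit 0x700038018000000020000000000000000000) := T_3 (nat_lit 141) (nat_lit 142) (nat_lit 2) (nat_lit 5) (nat_lit 8) L1076730 (by decide +kernel)
theorem L1076732 : W_3 (nat_lit 6) (nat_lit 0x18000c0000000700000000000000000000000) (nat_lit 0x0) (nat_lit 0xc700738038000800020000000000000000000) := Q_3 (nat_lit 128) (C_3 L1038515 (C_3 L1076727 (C_3 L1076731 N_3))) (by decide +kernel)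
theorem L1076733 : W_3 (nat_lit 12) (nat_lit 0x18000c0000000300000000000000000000000) (nat_lit 0x0) (nat_lit 0xc700738078003cc03ff003000000000000000) := Q_3 (nat_lit 94) (C_3 L1038600 (C_3 L1076703 (C_3 L1038558 (C_3 L1076709 (C_3 L1076723 (C_3 L1076732 N_3)))))) (by decide +kernel)
theorem L1076734 : W_3 (nat_lit 4) (nat_lit 0x18000c0000000300000000000000000000000) (nat_lit 0x0) (nat_lit 0x8000700100002000000008000000000000000000) := T_3 (nat_lit 109) (nat_lit 75) (nat_lit 7) (nat_lit 7) (nat_lit 4) L628428 (by decide +kernel)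
theorem L1076735 : W_3 (nat_lit 4) (nat_lit 0x18000c0000000300000000000000000000000) (nat_lit 0x0) (nat_lit 0x8000700100002000000010000000000000000000) := T_3 (nat_lit 109) (nat_lit 76) (nat_lit 6) (nat_lit 7) (nat_lit 8) L628428 (by decide +kernel)
theorem L1076736 : W_3 (nat_lit 13) (nat_lit 0x18000c0000000200000000000000000000000) (nat_lit 0x0) (nat_lit 0x800c70073807a003dc03ff003000000000000000) := Q_3 (nat_lit 92) (C_3 L1076698 (C_3 L1076733 (C_3 L1076734 (C_3 L1076735 N_3)))) (by decide +kernel)
theorem L1076737 : W_3 (nat_lit 2) (nat_lit 0x7000180018000c0000000200000000000000000000000) (nat_lit 0x0) (nat_lit 0x800006000000000000000000000000000000000000000) := D_3 (nat_lit 158) (nat_lit 157) (nat_lit 179) (nat_lit 3) (nat_lit 4) (nat_lit 9) (nat_lit 0) (nat_lit 9) (nat_lit 10) (by decide +kernel)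
theorem L1076738 : W_3 (nat_lit 3) (nat_lit 0x3000180018000c0000000200000000000000000000000) (nat_lit 0x0) (nat_lit 0x8000c00006000000000000000000000000000000000000000) := T_3 (nat_lit 178) (nat_lit 195) (nat_lit 7) (nat_lit 7) (nat_lit 7) L1076737 (by decide +kernel)
theorem L1076739 : W_3 (nat_lit 4) (nat_lit 0x3000100018000c0000000200000000000000000000000) (nat_lit 0x0) (nat_lit 0x8000c0000e000000000002000000000000000000000000000) := T_3 (nat_lit 159) (nat_lit 109) (nat_lit 5) (nat_lit 7) (nat_lit 6) L1076738 (by decide +kernel)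
theorem L1076740 : W_3 (nat_lit 5) (nat_lit 0x2000100018000c0000000200000000000000000000000) (nat_lit 0x0) (nat_lit 0xa000d0000e000000000002000000000000000000000000000) := T_3 (nat_lit 176) (nat_lit 193) (nat_lit 5) (nat_lit 7) (nat_lit 7) L1076739 (by decide +kernel)
theorem L1076741 : W_3 (nat_lit 6) (nat_lit 0x100018000c0000000200000000000000000000000) (nat_lit 0x0) (nat_lit 0xe000f0000e000000000002000000000000000000000000000) := T_3 (nat_lit 177) (nat_lit 194) (nat_lit 6) (nat_lit 7) (nat_lit 11) L1076740 (by decide +kernel)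
theorem L1076742 : W_3 (nat_lit 7) (nat_lit 0x18000c0000000200000000000000000000000) (nat_lit 0x0) (nat_lit 0xe000f0001e000000000006000000000000000000000000000) := T_3 (nat_lit 160) (nat_lit 110) (nat_lit 5) (nat_lit 8) (nat_lit 5) L1076741 (by decide +kernel)
theorem L1076743 : W_3 (nat_lit 14) (nat_lit 0x18000c0000000000000000000000000000000) (nat_lit 0x0) (nat_lit 0xe000f0001e00c70073807e003fc03ff003000000000000000) := Q_3 (nat_lit 93) (C_3 L1076697 (C_3 L1076736 (C_3 L1076742 N_3))) (by decide +kernel)
theorem L1076744 : W_3 (nat_lit 2) (nat_lit 0x10001c001e000f000400000000000000000000000) (nat_lit 0x0) (nat_lit 0x8000000000000000100008000000000000000000) := D_3 (nat_lit 92) (nat_lit 75) (nat_lit 159) (nat_lit 7) (nat_lit 7) (nat_lit 4) (nat_lit 6) (nat_lit 6) (nat_lit 9) (by decide +kernel)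
theorem L1076745 : W_3 (nat_lit 3) (nat_lit 0x10001c001e000d000400000000000000000000000) (nat_lit 0x0) (nat_lit 0x8000000000002000900008000000000000000000) := T_3 (nat_lit 109) (nat_lit 95) (nat_lit 2) (nat_lit 6) (nat_lit 6) L1076744 (by decide +kernel)
theorem L1076746 : W_3 (nat_lit 4) (nat_lit 0x10001c001e0009000400000000000000000000000) (nat_lit 0x0) (nat_lit 0x8000000000006000b00008000000000000000000) := T_3 (nat_lit 110) (nat_lit 93) (nat_lit 5) (nat_lit 8) (nat_lit 5) L1076745 (by decide +kernel)
theorem L1076747 : W_3 (nat_lit 5) (nat_lit 0x1c001e0009000400000000000000000000000) (nat_lit 0x0) (nat_lit 0x200018000000000006000b00008000000000000000000) := T_3 (nat_lit 160) (nat_lit 177) (nat_lit 4) (nat_lit 7) (nat_lit 10) L1076746 (by decide +kernel)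
theorem L1076748 : W_3 (nat_lit 6) (nat_lit 0x1c001e0009000000000000000000000000000) (nat_lit 0x0) (nat_lit 0x200018000000000006000f00028000000000000000000) := T_3 (nat_lit 94) (nat_lit 77) (nat_lit 5) (nat_lit 9) (nat_lit 4) L1076747 (by decide +kernel)
theorem L1076749 : W_3 (nat_lit 7) (nat_lit 0x1c001e0008000000000000000000000000000) (nat_lit 0x0) (nat_lit 0x200018000000000007800f00028000000000000000000) := T_3 (nat_lit 108) (nat_lit 107) (nat_lit 0) (nat_lit 9) (nat_lit 7) L1076748 (by decide +kernel)
theorem L1076750 : W_3 (nat_lit 8) (nat_lit 0x1c001e0000000000000000000000000000000) (nat_lit 0x0) (nat_lit 0x20001800000000001f800f00028000000000000000000) := T_3 (nat_lit 111) (nat_lit 112) (nat_lit 2) (nat_lit 6) (nat_lit 7) L1076749 (by decide +kernel)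
theorem L1076751 : W_3 (nat_lit 9) (nat_lit 0x18001e0000000000000000000000000000000) (nat_lit 0x0) (nat_lit 0x20001800060000001f800f00028000000000000000000) := T_3 (nat_lit 142) (nat_lit 141) (nat_lit 2) (nat_lit 5) (nat_lit 8) L1076750 (by decide +kernel)
theorem L1076752 : W_3 (nat_lit 10) (nat_lit 0x18001c0000000000000000000000000000000) (nat_lit 0x0) (nat_lit 0x20001800070003801fc00f00028000000000000000000) := Q_3 (nat_lit 125) (C_3 L1053309 (C_3 L619436 (C_3 L619395 (C_3 L1076751 N_3)))) (by decide +kernel)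
theorem L1076753 : W_3 (nat_lit 11) (nat_lit 0x18000c0000000000000000000000000000000) (nat_lit 0x0) (nat_lit 0x20009800c70073803fc00f00028000000000000000000) := Q_3 (nat_lit 128) (C_3 L620709 (C_3 L1076752 (C_3 L619390 N_3))) (by decide +kernel)
theorem L1076754 : W_3 (nat_lit 15) (nat_lit 0x1800080000000000000000000000000000000) (nat_lit 0x0) (nat_lit 0xe000fc009e00c70077807fc03fe03ff003000000000000000) := Q_3 (nat_lit 126) (C_3 L1071408 (C_3 L620842 (C_3 L1071409 (C_3 L1071419 (C_3 L1076743 (C_3 L1076753 N_3)))))) (by decide +kernel)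
theorem L1076758 : W_3 (nat_lit 5) (nat_lit 0x58003c0002000100000000000000000000000) (nat_lit 0x0) (nat_lit 0x100008000000000003c000480004000000000000000000) := T_3 (nat_lit 112) (nat_lit 113) (nat_lit 2) (nat_lit 7) (nat_lit 7) L1076757 (by decide +kernel)
theorem L1076759 : W_3 (nat_lit 6) (nat_lit 0x58003c0002000000000000000000000000000) (nat_lit 0x0) (nat_lit 0x100008000000000003c00058000c000000000000000000) := T_3 (nat_lit 92) (nat_lit 75) (nat_lit 7) (nat_lit 7) (nat_lit 4) L1076758 (by decide +kernel)
theorem L1076760 : W_3 (nat_lit 7) (nat_lit 0x18003c0002000000000000000000000000000) (nat_lit 0x0) (nat_lit 0x100008000c00000003c00058000c000000000000000000) := T_3 (nat_lit 146) (nat_lit 147) (nat_lit 3) (nat_lit 7) (nat_lit 7) L1076759 (by decide +kernel)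
theorem L1076761 : W_3 (nat_lit 8) (nat_lit 0x18003c0000000000000000000000000000000) (nat_lit 0x0) (nat_lit 0x100008000c00000003f00058000c000000000000000000) := T_3 (nat_lit 109) (nat_lit 108) (nat_lit 0) (nat_lit 10) (nat_lit 7) L1076760 (by decide +kernel)
theorem L1076762 : W_3 (nat_lit 9) (nat_lit 0x18001c0000000000000000000000000000000) (nat_lit 0x0) (nat_lit 0x100008000c00060003f00058000c000000000000000000) := T_3 (nat_lit 129) (nat_lit 130) (nat_lit 1) (nat_lit 11) (nat_lit 7) L1076761 (by decide +kernel)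
theorem L1076763 : W_3 (nat_lit 10) (nat_lit 0x1800180000000000000000000000000000000) (nat_lit 0x0) (nat_lit 0x2000120019000e00067803fc0058002c000000000000000000) := Q_3 (nat_lit 126) (C_3 L988704 (C_3 L980792 (C_3 L620709 (C_3 L980796 (C_3 L988698 (C_3 L1076762 N_3)))))) (by decide +kernel)
theorem L1076764 : W_3 (nat_lit 11) (nat_lit 0x1800080000000000000000000000000000000) (nat_lit 0x0) (nat_lit 0x2000130039c01e70077803fc0058002c000000000000000000) := Q_3 (nat_lit 128) (C_3 L822525 (C_3 L1052159 (C_3 L802142 (C_3 L1076763 (C_3 L980814 N_3))))) (by decide +kernel)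
theorem L1084762 : W_3 (nat_lit 2) (nat_lit 0x38001e000b000c00000000000000000000000) (nat_lit 0x0) (nat_lit 0x300010000000000000000000) := D_3 (nat_lit 93) (nat_lit 92) (nat_lit 76) (nat_lit 1) (nat_lit 10) (nat_lit 5) (nat_lit 4) (nat_lit 9) (nat_lit 8) (by decide +kernel)
theorem L1084763 : W_3 (nat_lit 3) (nat_lit 0x38001e0009000c00000000000000000000000) (nat_lit 0x0) (nat_lit 0x6000300010000000000000000000) := T_3 (nat_lit 109) (nat_lit 110) (nat_lit 2) (nat_lit 6) (nat_lit 6) L1084762 (by decide +kernel)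
theorem L1084764 : W_3 (nat_lit 4) (nat_lit 0x38001e0009000400000000000000000000000) (nat_lit 0x0) (nat_lit 0x6000b00050000000000000000000) := T_3 (nat_lit 95) (nat_lit 78) (nat_lit 6) (nat_lit 9) (nat_lit 8) L1084763 (by decide +kernel)
theorem L1084765 : W_3 (nat_lit 5) (nat_lit 0x38001e0008000400000000000000000000000) (nat_lit 0x0) (nat_lit 0x7800b00050000000000000000000) := T_3 (nat_lit 108) (nat_lit 107) (nat_lit 0) (nat_lit 9) (nat_lit 7) L1084764 (by decide +kernel)
theorem L1084766 : W_3 (nat_lit 6) (nat_lit 0x38001e0008000000000000000000000000000) (nat_lit 0x0) (nat_lit 0x7800f00070000000000000000000) := T_3 (nat_lit 94) (nat_lit 77) (nat_lit 5) (nat_lit 9) (nat_lit 4) L1084765 (by decide +kernel)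
theorem L1084767 : W_3 (nat_lit 7) (nat_lit 0x18001e0008000000000000000000000000000) (nat_lit 0x0) (nat_lit 0x6000000007800f00070000000000000000000) := T_3 (nat_lit 145) (nat_lit 146) (nat_lit 3) (nat_lit 6) (nat_lit 7) L1084766 (by decide +kernel)
theorem L1084768 : W_3 (nat_lit 8) (nat_lit 0x18001e0000000000000000000000000000000) (nat_lit 0x0) (nat_lit 0x600000001f800f00070000000000000000000) := T_3 (nat_lit 111) (nat_lit 112) (nat_lit 2) (nat_lit 6) (nat_lit 7) L1084767 (by decide +kernel)
theorem L1084769 : W_3 (nat_lit 9) (nat_lit 0x18000e0000000000000000000000000000000) (nat_lit 0x0) (nat_lit 0xe00070003f800f00070000000000000000000) := Q_3 (nat_lit 128) (C_3 L988706 (C_3 L988709 (C_3 L1084768 N_3))) (by decide +kernel)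
theorem L1084770 : W_3 (nat_lit 10) (nat_lit 0x18000c0000000000000000000000000000000) (nat_lit 0x0) (nat_lit 0x400e30073803fc00f80074000000000000000000) := Q_3 (nat_lit 125) (C_3 L1029809 (C_3 L979465 (C_3 L979459 (C_3 L1084769 N_3)))) (by decide +kernel)
theorem L1084771 : W_3 (nat_lit 2) (nat_lit 0x1a005a000d001f800040000000000000000000000) (nat_lit 0x0) (nat_lit 0x1c00000000000000000000000) := D_3 (nat_lit 95) (nat_lit 94) (nat_lit 96) (nat_lit 2) (nat_lit 6) (nat_lit 6) (nat_lit 2) (nat_lit 7) (nat_lit 6) (by decide +kernel)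
theorem L1084772 : W_3 (nat_lit 3) (nat_lit 0x1a005a000d000f800040000000000000000000000) (nat_lit 0x0) (nat_lit 0x30001c00000000000000000000000) := T_3 (nat_lit 112) (nat_lit 113) (nat_lit 1) (nat_lit 11) (nat_lit 6) L1084771 (by decide +kernel)
theorem L1084773 : W_3 (nat_lit 4) (nat_lit 0x1a0058000d000f800040000000000000000000000) (nat_lit 0x0) (nat_lit 0x300000030001c00000000000000000000000) := T_3 (nat_lit 141) (nat_lit 140) (nat_lit 5) (nat_lit 5) (nat_lit 5) L1084772 (by decide +kernel)
theorem L1084774 : W_3 (nat_lit 5) (nat_lit 0x1a0058000d0007800040000000000000000000000) (nat_lit 0x0) (nat_lit 0x300020038001c00000000000000000000000) := T_3 (nat_lit 111) (nat_lit 125) (nat_lit 2) (nat_lit 5) (nat_lit 7) L1084773 (by decide +kernel)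
theorem L1084775 : W_3 (nat_lit 6) (nat_lit 0x1a0058000d0007800000000000000000000000000) (nat_lit 0x0) (nat_lit 0x300020038001c60000000000000000000000) := T_3 (nat_lit 90) (nat_lit 89) (nat_lit 0) (nat_lit 8) (nat_lit 6) L1084774 (by decide +kernel)
theorem L1084776 : W_3 (nat_lit 7) (nat_lit 0x1a0058000c0007800000000000000000000000000) (nat_lit 0x0) (nat_lit 0x300038038001c60000000000000000000000) := T_3 (nat_lit 124) (nat_lit 123) (nat_lit 1) (nat_lit 8) (nat_lit 6) L1084775 (by decide +kernel)
theorem L1084777 : W_3 (nat_lit 8) (nat_lit 0x1a0058000c0007000000000000000000000000000) (nat_lit 0x0) (nat_lit 0x300038038c01c60000000000000000000000) := T_3 (nat_lit 107) (nat_lit 106) (nat_lit 3) (nat_lit 4) (nat_lit 6) L1084776 (by decide +kernel)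
theorem L1084778 : W_3 (nat_lit 9) (nat_lit 0x1a0058000c0006000000000000000000000000000) (nat_lit 0x0) (nat_lit 0x300038039c01ce0000000000000000000000) := T_3 (nat_lit 108) (nat_lit 91) (nat_lit 4) (nat_lit 7) (nat_lit 9) L1084777 (by decide +kernel)
theorem L1084779 : W_3 (nat_lit 10) (nat_lit 0x1a0018000c0006000000000000000000000000000) (nat_lit 0x0) (nat_lit 0x6300038039c01ce0000000000000000000000) := T_3 (nat_lit 146) (nat_lit 145) (nat_lit 1) (nat_lit 10) (nat_lit 8) L1084778 (by decide +kernel)
theorem L1084780 : W_3 (nat_lit 11) (nat_lit 0x180018000c0006000000000000000000000000000) (nat_lit 0x0) (nat_lit 0x6006300038039c01ce0000000000000000000000) := T_3 (nat_lit 157) (nat_lit 158) (nat_lit 2) (nat_lit 4) (nat_lit 9) L1084779 (by decide +kernel)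
theorem L1084781 : W_3 (nat_lit 12) (nat_lit 0x100018000c0006000000000000000000000000000) (nat_lit 0x0) (nat_lit 0x10000e006300038039c01ce0000000000000000000000) := T_3 (nat_lit 159) (nat_lit 176) (nat_lit 5) (nat_lit 7) (nat_lit 6) L1084780 (by decide +kernel)
theorem L1084782 : W_3 (nat_lit 13) (nat_lit 0x100018000c0002000000000000000000000000000) (nat_lit 0x0) (nat_lit 0x10000e00630003803dc01ee0000000000000000000000) := T_3 (nat_lit 110) (nat_lit 93) (nat_lit 6) (nat_lit 7) (nat_lit 9) L1084781 (by decide +kernel)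
theorem L1084783 : W_3 (nat_lit 14) (nat_lit 0x100018000c0000000000000000000000000000000) (nat_lit 0x0) (nat_lit 0x10000e00630003803fc01fe001c000000000000000000) := Q_3 (nat_lit 109) (C_3 L1049175 (C_3 L771750 (C_3 L1084782 N_3))) (by decide +kernel)
theorem L1084784 : W_3 (nat_lit 15) (nat_lit 0x18000c0000000000000000000000000000000) (nat_lit 0x0) (nat_lit 0x400030001e00630003803fc01fe001c000000000000000000) := Q_3 (nat_lit 160) (C_3 L1071407 (C_3 L1027484 (C_3 L1084783 N_3))) (by decide +kernel)
theorem L1085494 : W_3 (nat_lit 2) (nat_lit 0x900078003c0014000000040000000000000000000) (nat_lit 0x0) (nat_lit 0x1000000000000000008000400000000000000000000000) := D_3 (nat_lit 111) (nat_lit 94) (nat_lit 180) (nat_lit 7) (nat_lit 9) (nat_lit 5) (nat_lit 4) (nat_lit 10) (nat_lit 10) (by decide +kernel)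
theorem L1085495 : W_3 (nat_lit 3) (nat_lit 0x100078003c0014000000040000000000000000000) (nat_lit 0x0) (nat_lit 0x1000180000000000008000400000000000000000000000) := T_3 (nat_lit 163) (nat_lit 164) (nat_lit 3) (nat_lit 7) (nat_lit 8) L1085494 (by decide +kernel)
theorem L1085496 : W_3 (nat_lit 4) (nat_lit 0x100078003c0014000000000000000000000000000) (nat_lit 0x0) (nat_lit 0x1000180000000000008000c00040000000000000000000) := T_3 (nat_lit 78) (nat_lit 95) (nat_lit 5) (nat_lit 10) (nat_lit 4) L1085495 (by decide +kernel)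
theorem L1085497 : W_3 (nat_lit 5) (nat_lit 0x100078003c0004000000000000000000000000000) (nat_lit 0x0) (nat_lit 0x1000180000000000038000c00040000000000000000000) := T_3 (nat_lit 112) (nat_lit 113) (nat_lit 2) (nat_lit 7) (nat_lit 7) L1085496 (by decide +kernel)
theorem L1085498 : W_3 (nat_lit 6) (nat_lit 0x100058003c0004000000000000000000000000000) (nat_lit 0x0) (nat_lit 0x1000188002000000038000c00040000000000000000000) := T_3 (nat_lit 145) (nat_lit 159) (nat_lit 1) (nat_lit 10) (nat_lit 8) L1085497 (by decide +kernel)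
theorem L1085499 : W_3 (nat_lit 7) (nat_lit 0x100018003c0004000000000000000000000000000) (nat_lit 0x0) (nat_lit 0x100018800e000000038000c00040000000000000000000) := T_3 (nat_lit 146) (nat_lit 147) (nat_lit 3) (nat_lit 7) (nat_lit 7) L1085498 (by decide +kernel)
theorem L1085584 : W_3 (nat_lit 2) (nat_lit 0x100038001e0008000200000000000000000000000) (nat_lit 0x0) (nat_lit 0x400030000000000000000000) := D_3 (nat_lit 94) (nat_lit 76) (nat_lit 77) (nat_lit 4) (nat_lit 9) (nat_lit 8) (nat_lit 5) (nat_lit 9) (nat_lit 4) (by decide +kernel)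
theorem L1085674 : W_3 (nat_lit 3) (nat_lit 0x100038001e0000000200000000000000000000000) (nat_lit 0x0) (nat_lit 0x18000400030000000000000000000) := T_3 (nat_lit 111) (nat_lit 112) (nat_lit 2) (nat_lit 6) (nat_lit 7) L1085584 (by decide +kernel)
theorem L1085682 : W_3 (nat_lit 4) (nat_lit 0x100038001e0000000000000000000000000000000) (nat_lit 0x0) (nat_lit 0x1c000600030000000000000000000) := T_3 (nat_lit 93) (nat_lit 110) (nat_lit 5) (nat_lit 8) (nat_lit 5) L1085674 (by decide +kernel)
theorem L1085742 : W_3 (nat_lit 5) (nat_lit 0x100018001e0000000000000000000000000000000) (nat_lit 0x0) (nat_lit 0x600000001c000600030000000000000000000) := T_3 (nat_lit 145) (nat_lit 146) (nat_lit 3) (nat_lit 6) (nat_lit 7) L1085682 (by decide +kernel)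
theorem L1085743 : W_3 (nat_lit 2) (nat_lit 0x100018003e0000000000000000000000000000000) (nat_lit 0x0) (nat_lit 0xe000000000000000000000000000000000000) := D_3 (nat_lit 146) (nat_lit 145) (nat_lit 147) (nat_lit 3) (nat_lit 6) (nat_lit 7) (nat_lit 3) (nat_lit 7) (nat_lit 7) (by decide +kernel)
theorem L1085744 : W_3 (nat_lit 3) (nat_lit 0x100018001e0000000000000000000000000000000) (nat_lit 0x0) (nat_lit 0xe000600000000000000000000000000000000) := T_3 (nat_lit 129) (nat_lit 130) (nat_lit 1) (nat_lit 11) (nat_lit 7) L1085743 (by decide +kernel)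
theorem L1085745 : W_3 (nat_lit 6) (nat_lit 0x100018000e0000000000000000000000000000000) (nat_lit 0x0) (nat_lit 0xe00070003c000600030000000000000000000) := Q_3 (nat_lit 128) (C_3 L1075499 (C_3 L1085742 (C_3 L1085744 N_3))) (by decide +kernel)
theorem L1085746 : W_3 (nat_lit 7) (nat_lit 0x100018000c0000000000000000000000000000000) (nat_lit 0x0) (nat_lit 0xe00073803c000600030000000000000000000) := Q_3 (nat_lit 125) (C_3 L1075489 (C_3 L1004369 (C_3 L1085745 N_3))) (by decide +kernel)
theorem L1085747 : W_3 (nat_lit 8) (nat_lit 0x18000c0000000000000000000000000000000) (nat_lit 0x0) (nat_lit 0xe000f0001e00e00073803e000600030000000000000000000) := Q_3 (nat_lit 160) (C_3 L1071407 (C_3 L1085516 (C_3 L1085746 N_3))) (by decide +kernel)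
theorem L1085748 : W_3 (nat_lit 2) (nat_lit 0x100038001e0009000c00004000000000000000000) (nat_lit 0x0) (nat_lit 0x4000200010000000000000000000) := D_3 (nat_lit 93) (nat_lit 76) (nat_lit 110) (nat_lit 4) (nat_lit 9) (nat_lit 8) (nat_lit 5) (nat_lit 8) (nat_lit 5) (by decide +kernel)
theorem L1085749 : W_3 (nat_lit 3) (nat_lit 0x38001e0009000c00004000000000000000000) (nat_lit 0x0) (nat_lit 0x200010000000000004000200010000000000000000000) := T_3 (nat_lit 160) (nat_lit 177) (nat_lit 4) (nat_lit 7) (nat_lit 10) L1085748 (by decide +kernel)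
theorem L1085750 : W_3 (nat_lit 4) (nat_lit 0x38001e0009000c00000000000000000000000) (nat_lit 0x0) (nat_lit 0x200010000000000004000280014000000000000000000) := T_3 (nat_lit 74) (nat_lit 91) (nat_lit 7) (nat_lit 6) (nat_lit 4) L1085749 (by decide +kernel)
theorem L1085751 : W_3 (nat_lit 5) (nat_lit 0x38001e0009000400000000000000000000000) (nat_lit 0x0) (nat_lit 0x200010000000000004000a80054000000000000000000) := T_3 (nat_lit 95) (nat_lit 78) (nat_lit 6) (nat_lit 9) (nat_lit 8) L1085750 (by decide +kernel)
theorem L1085752 : W_3 (nat_lit 6) (nat_lit 0x38001e0008000400000000000000000000000) (nat_lit 0x0) (nat_lit 0x200010000000000005800a80054000000000000000000) := T_3 (nat_lit 108) (nat_lit 107) (nat_lit 0) (nat_lit 9) (nat_lit 7) L1085751 (by decide +kernel)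
theorem L1085753 : W_3 (nat_lit 7) (nat_lit 0x38001e0008000000000000000000000000000) (nat_lit 0x0) (nat_lit 0x200010000000000005800e80074000000000000000000) := T_3 (nat_lit 94) (nat_lit 77) (nat_lit 5) (nat_lit 9) (nat_lit 4) L1085752 (by decide +kernel)
theorem L1085754 : W_3 (nat_lit 8) (nat_lit 0x18001e0008000000000000000000000000000) (nat_lit 0x0) (nat_lit 0x200010006000000005800e80074000000000000000000) := T_3 (nat_lit 145) (nat_lit 146) (nat_lit 3) (nat_lit 6) (nat_lit 7) L1085753 (by decide +kernel)
theorem L1085755 : W_3 (nat_lit 9) (nat_lit 0x18001e0000000000000000000000000000000) (nat_lit 0x0) (nat_lit 0x20001000600000001d800e80074000000000000000000) := T_3 (nat_lit 111) (nat_lit 112) (nat_lit 2) (nat_lit 6) (nat_lit 7) L1085754 (by decide +kernel)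
theorem L1085756 : W_3 (nat_lit 10) (nat_lit 0x18000e0000000000000000000000000000000) (nat_lit 0x0) (nat_lit 0x20001000e00070003d800e80074000000000000000000) := Q_3 (nat_lit 128) (C_3 L988706 (C_3 L988709 (C_3 L1085755 N_3))) (by decide +kernel)
theorem L1085757 : W_3 (nat_lit 11) (nat_lit 0x18000c0000000000000000000000000000000) (nat_lit 0x0) (nat_lit 0x20001400e30073803dc00e80074000000000000000000) := Q_3 (nat_lit 125) (C_3 L1029809 (C_3 L979465 (C_3 L979459 (C_3 L1085756 N_3)))) (by decide +kernel)
theorem L1085758 : W_3 (nat_lit 16) (nat_lit 0x1800080000000000000000000000000000000) (nat_lit 0x0) (nat_lit 0xe000f0001e00e30077803fc01fe007c000000000000000000) := Q_3 (nat_lit 126) (C_3 L1071408 (C_3 L1029810 (C_3 L1084770 (C_3 L1084784 (C_3 L1085747 (C_3 L1085757 N_3)))))) (by decide +kernel)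
theorem L1085759 : W_3 (nat_lit 9) (nat_lit 0x18001c0000000000000000000000000000000) (nat_lit 0x0) (nat_lit 0x600003801f800f00070000000000000000000) := Q_3 (nat_lit 125) (C_3 L1053309 (C_3 L1084768 (C_3 L980791 N_3))) (by decide +kernel)
theorem L1085760 : W_3 (nat_lit 10) (nat_lit 0x1800180000000000000000000000000000000) (nat_lit 0x0) (nat_lit 0x100008000e00067803f800f8007c000000000000000000) := Q_3 (nat_lit 126) (C_3 L1076762 (C_3 L988698 (C_3 L1085759 (C_3 L980796 N_3)))) (by decide +kernel)
theorem L1086183 : W_3 (nat_lit 2) (nat_lit 0x1a001c0006000700000000000000000000000) (nat_lit 0x0) (nat_lit 0x1800800000000000000000000000) := D_3 (nat_lit 108) (nat_lit 107) (nat_lit 95) (nat_lit 3) (nat_lit 5) (nat_lit 6) (nat_lit 1) (nat_lit 10) (nat_lit 5) (by decide +kernel)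
theorem L1086184 : W_3 (nat_lit 3) (nat_lit 0x1a001c0006000300000000000000000000000) (nat_lit 0x0) (nat_lit 0x1800c00020000000000000000000) := T_3 (nat_lit 94) (nat_lit 77) (nat_lit 6) (nat_lit 8) (nat_lit 8) L1086183 (by decide +kernel)
theorem L1086187 : W_3 (nat_lit 2) (nat_lit 0x1a001c0006000380000000000000000000000) (nat_lit 0x0) (nat_lit 0x8000060000000000000000000000) := D_3 (nat_lit 90) (nat_lit 111) (nat_lit 89) (nat_lit 3) (nat_lit 5) (nat_lit 5) (nat_lit 3) (nat_lit 4) (nat_lit 5) (by decide +kernel)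
theorem L1086188 : W_3 (nat_lit 3) (nat_lit 0x1a001c0006000300000000000000000000000) (nat_lit 0x0) (nat_lit 0x80000e0004000000000000000000) := T_3 (nat_lit 91) (nat_lit 74) (nat_lit 4) (nat_lit 7) (nat_lit 8) L1086187 (by decide +kernel)
theorem L1086189 : W_3 (nat_lit 4) (nat_lit 0x1a001c0006000100000000000000000000000) (nat_lit 0x0) (nat_lit 0x80002e0014000000000000000000) := T_3 (nat_lit 93) (nat_lit 76) (nat_lit 6) (nat_lit 7) (nat_lit 8) L1086188 (by decide +kernel)
theorem L1086190 : W_3 (nat_lit 5) (nat_lit 0x1a001c0006000000000000000000000000000) (nat_lit 0x0) (nat_lit 0x80003e001c000000000000000000) := T_3 (nat_lit 92) (nat_lit 75) (nat_lit 7) (nat_lit 7) (nat_lit 4) L1086189 (by decide +kernel)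
theorem L1086199 : W_3 (nat_lit 10) (nat_lit 0x18001a0000000000000000000000000000000) (nat_lit 0x0) (nat_lit 0x800070005801fc005c002e000000000000000000) := Q_3 (nat_lit 126) (C_3 L1053309 (C_3 L619436 (C_3 L619395 (C_3 L1052872 N_3)))) (by decide +kernel)
theorem L1086200 : W_3 (nat_lit 9) (nat_lit 0x18001a0000000000000000000000000000000) (nat_lit 0x0) (nat_lit 0x600005801f800f00070000000000000000000) := Q_3 (nat_lit 126) (C_3 L1053309 (C_3 L1084768 (C_3 L980791 N_3))) (by decide +kernel)
theorem L1086651 : W_3 (nat_lit 2) (nat_lit 0x18001a000f000000000000000000000000000) (nat_lit 0x0) (nat_lit 0xc00020000000000000000000) := D_3 (nat_lit 94) (nat_lit 95) (nat_lit 77) (nat_lit 2) (nat_lit 6) (nat_lit 6) (nat_lit 5) (nat_lit 9) (nat_lit 4) (by decide +kernel)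
theorem L1086652 : W_3 (nat_lit 3) (nat_lit 0x18001a0007000000000000000000000000000) (nat_lit 0x0) (nat_lit 0x10008000c00020000000000000000000) := T_3 (nat_lit 111) (nat_lit 124) (nat_lit 1) (nat_lit 9) (nat_lit 6) L1086651 (by decide +kernel)
theorem L1086677 : W_3 (nat_lit 2) (nat_lit 0x3c001a0005800000000000000000000000000) (nat_lit 0x0) (nat_lit 0xc000000000000000040000000000000000000000) := D_3 (nat_lit 159) (nat_lit 158) (nat_lit 90) (nat_lit 1) (nat_lit 9) (nat_lit 8) (nat_lit 4) (nat_lit 6) (nat_lit 9) (by decide +kernel)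
theorem L1086678 : W_3 (nat_lit 3) (nat_lit 0x3c001a0005000000000000000000000000000) (nat_lit 0x0) (nat_lit 0xc000000000002800040000000000000000000000) := T_3 (nat_lit 107) (nat_lit 109) (nat_lit 3) (nat_lit 5) (nat_lit 6) L1086677 (by decide +kernel)
theorem L1086683 : W_3 (nat_lit 2) (nat_lit 0x8001c001a0005800000000000000000000000000) (nat_lit 0x0) (nat_lit 0x80004002000000000000000000000000000000000000) := D_3 (nat_lit 158) (nat_lit 145) (nat_lit 175) (nat_lit 1) (nat_lit 9) (nat_lit 8) (nat_lit 5) (nat_lit 6) (nat_lit 6) (by decide +kernel)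
theorem L1086684 : W_3 (nat_lit 3) (nat_lit 0x1c001a0005800000000000000000000000000) (nat_lit 0x0) (nat_lit 0x8000c002000000000000040000000000000000000000) := T_3 (nat_lit 159) (nat_lit 90) (nat_lit 4) (nat_lit 6) (nat_lit 9) L1086683 (by decide +kernel)
theorem L1086685 : W_3 (nat_lit 4) (nat_lit 0x1c001a0005000000000000000000000000000) (nat_lit 0x0) (nat_lit 0x8000c002000000002800040000000000000000000000) := T_3 (nat_lit 107) (nat_lit 109) (nat_lit 3) (nat_lit 5) (nat_lit 6) L1086684 (by decide +kernel)
theorem L1086743 : W_3 (nat_lit 6) (nat_lit 0x1c001a0001000000000000000000000000000) (nat_lit 0x0) (nat_lit 0xc0020000100028001c000a000000000000000000) := T_3 (nat_lit 145) (nat_lit 124) (nat_lit 0) (nat_lit 9) (nat_lit 8) L867745 (by decide +kernel)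
theorem L1086744 : W_3 (nat_lit 7) (nat_lit 0x18001a0001000000000000000000000000000) (nat_lit 0x0) (nat_lit 0xc0026000100028001c000a000000000000000000) := T_3 (nat_lit 142) (nat_lit 141) (nat_lit 2) (nat_lit 5) (nat_lit 8) L1086743 (by decide +kernel)
theorem L1086745 : W_3 (nat_lit 4) (nat_lit 0x18001a0003000000000000000000000000000) (nat_lit 0x0) (nat_lit 0x1000c800c00020000000000000000000) := T_3 (nat_lit 110) (nat_lit 107) (nat_lit 3) (nat_lit 5) (nat_lit 6) L1086652 (by decide +kernel)
theorem L1086746 : W_3 (nat_lit 6) (nat_lit 0x18001a0003000000000000000000000000000) (nat_lit 0x0) (nat_lit 0x100018000c000600010000800140000000000000000000000) := T_3 (nat_lit 142) (nat_lit 141) (nat_lit 2) (nat_lit 5) (nat_lit 8) L868042 (by decide +kernel)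
theorem L1086747 : W_3 (nat_lit 2) (nat_lit 0x1c001a0003800000000000000000000000000) (nat_lit 0x0) (nat_lit 0x8000000000000000140000000000000000000000) := D_3 (nat_lit 159) (nat_lit 92) (nat_lit 90) (nat_lit 6) (nat_lit 6) (nat_lit 9) (nat_lit 4) (nat_lit 6) (nat_lit 9) (by decide +kernel)
theorem L1086748 : W_3 (nat_lit 3) (nat_lit 0x1c001a0003000000000000000000000000000) (nat_lit 0x0) (nat_lit 0x8000000000004800140000000000000000000000) := T_3 (nat_lit 107) (nat_lit 110) (nat_lit 3) (nat_lit 5) (nat_lit 6) L1086747 (by decide +kernel)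
theorem L1086749 : W_3 (nat_lit 4) (nat_lit 0x18001a0003000000000000000000000000000) (nat_lit 0x0) (nat_lit 0x8000600000004800140000000000000000000000) := T_3 (nat_lit 142) (nat_lit 141) (nat_lit 2) (nat_lit 5) (nat_lit 8) L1086748 (by decide +kernel)
theorem L1086750 : W_3 (nat_lit 2) (nat_lit 0x1c001a0003000100000000000000000000000) (nat_lit 0x0) (nat_lit 0x80008000400000000000000) := D_3 (nat_lit 75) (nat_lit 91) (nat_lit 58) (nat_lit 6) (nat_lit 6) (nat_lit 8) (nat_lit 5) (nat_lit 7) (nat_lit 3) (by decide +kernel)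
theorem L1086751 : W_3 (nat_lit 3) (nat_lit 0x1c001a0003000000000000000000000000000) (nat_lit 0x0) (nat_lit 0x8000000000000000180008000400000000000000) := T_3 (nat_lit 92) (nat_lit 159) (nat_lit 6) (nat_lit 6) (nat_lit 9) L1086750 (by decide +kernel)
theorem L1086752 : W_3 (nat_lit 4) (nat_lit 0x18001a0003000000000000000000000000000) (nat_lit 0x0) (nat_lit 0x8000600000000000180008000400000000000000) := T_3 (nat_lit 142) (nat_lit 141) (nat_lit 2) (nat_lit 5) (nat_lit 8) L1086751 (by decide +kernel)
theorem L1086753 : W_3 (nat_lit 7) (nat_lit 0x18001a0001000000000000000000000000000) (nat_lit 0x0) (nat_lit 0x100018000c00060001000e800dc0028000400000000000000) := Q_3 (nat_lit 109) (C_3 L1086745 (C_3 L1086746 (C_3 L1086749 (C_3 L1086752 N_3)))) (by decide +kernel)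
theorem L1086754 : W_3 (nat_lit 4) (nat_lit 0x18001a0005000000000000000000000000000) (nat_lit 0x0) (nat_lit 0x1000a800c00020000000000000000000) := T_3 (nat_lit 109) (nat_lit 107) (nat_lit 3) (nat_lit 5) (nat_lit 6) L1086652 (by decide +kernel)
theorem L1086755 : W_3 (nat_lit 2) (nat_lit 0x18001a0005000200010000000000000000000) (nat_lit 0x0) (nat_lit 0x400020001000000000000000) := D_3 (nat_lit 77) (nat_lit 60) (nat_lit 94) (nat_lit 6) (nat_lit 8) (nat_lit 7) (nat_lit 6) (nat_lit 8) (nat_lit 8) (by decide +kernel)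
theorem L1086756 : W_3 (nat_lit 3) (nat_lit 0x18001a0005000200000000000000000000000) (nat_lit 0x0) (nat_lit 0x2000000000000400030001000000000000000) := T_3 (nat_lit 76) (nat_lit 145) (nat_lit 7) (nat_lit 8) (nat_lit 4) L1086755 (by decide +kernel)
theorem L1086757 : W_3 (nat_lit 2) (nat_lit 0x18001a0005800600000000000000000000000) (nat_lit 0x0) (nat_lit 0x180008000000000000000000) := D_3 (nat_lit 92) (nat_lit 91) (nat_lit 75) (nat_lit 1) (nat_lit 9) (nat_lit 5) (nat_lit 4) (nat_lit 8) (nat_lit 8) (by decide +kernel)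
theorem L1086758 : W_3 (nat_lit 3) (nat_lit 0x18001a0005000600000000000000000000000) (nat_lit 0x0) (nat_lit 0x2800180008000000000000000000) := T_3 (nat_lit 107) (nat_lit 109) (nat_lit 3) (nat_lit 5) (nat_lit 6) L1086757 (by decide +kernel)
theorem L1086759 : W_3 (nat_lit 4) (nat_lit 0x18001a0005000200000000000000000000000) (nat_lit 0x0) (nat_lit 0x2800580028000000000000000000) := T_3 (nat_lit 94) (nat_lit 77) (nat_lit 6) (nat_lit 8) (nat_lit 8) L1086758 (by decide +kernel)
theorem L1086760 : W_3 (nat_lit 2) (nat_lit 0x18001a0005800380010000000000000000000) (nat_lit 0x0) (nat_lit 0x600040000000000000000000000) := D_3 (nat_lit 106) (nat_lit 90) (nat_lit 105) (nat_lit 1) (nat_lit 8) (nat_lit 5) (nat_lit 2) (nat_lit 3) (nat_lit 6) (by decide +kernel)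
theorem L1086761 : W_3 (nat_lit 3) (nat_lit 0x18001a0005800300010000000000000000000) (nat_lit 0x0) (nat_lit 0x6004c0000000000000000000000) := T_3 (nat_lit 91) (nat_lit 94) (nat_lit 1) (nat_lit 9) (nat_lit 5) L1086760 (by decide +kernel)
theorem L1086762 : W_3 (nat_lit 4) (nat_lit 0x18001a0005000300010000000000000000000) (nat_lit 0x0) (nat_lit 0x2e004c0000000000000000000000) := T_3 (nat_lit 107) (nat_lit 109) (nat_lit 3) (nat_lit 5) (nat_lit 6) L1086761 (by decide +kernel)
theorem L1086763 : W_3 (nat_lit 5) (nat_lit 0x18001a0005000300000000000000000000000) (nat_lit 0x0) (nat_lit 0x2000000002e004c0010000000000000000000) := T_3 (nat_lit 76) (nat_lit 145) (nat_lit 7) (nat_lit 8) (nat_lit 4) L1086762 (by decide +kernel)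
theorem L1086764 : W_3 (nat_lit 6) (nat_lit 0x18001a0005000200000000000000000000000) (nat_lit 0x0) (nat_lit 0x2000000002e005c0018000000000000000000) := T_3 (nat_lit 92) (nat_lit 75) (nat_lit 4) (nat_lit 8) (nat_lit 8) L1086763 (by decide +kernel)
theorem L1086765 : W_3 (nat_lit 2) (nat_lit 0x18001a0005800200008000000000000000000) (nat_lit 0x0) (nat_lit 0x2000000000000000010000400000000000000) := D_3 (nat_lit 76) (nat_lit 145) (nat_lit 58) (nat_lit 7) (nat_lit 8) (nat_lit 4) (nat_lit 4) (nat_lit 8) (nat_lit 7) (by decide +kernel)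
theorem L1086766 : W_3 (nat_lit 3) (nat_lit 0x18001a0005800200000000000000000000000) (nat_lit 0x0) (nat_lit 0x2000000000000100018000400000000000000) := T_3 (nat_lit 75) (nat_lit 92) (nat_lit 4) (nat_lit 8) (nat_lit 8) L1086765 (by decide +kernel)
theorem L1086767 : W_3 (nat_lit 4) (nat_lit 0x18001a0005000200000000000000000000000) (nat_lit 0x0) (nat_lit 0x2000000002800100018000400000000000000) := T_3 (nat_lit 107) (nat_lit 109) (nat_lit 3) (nat_lit 5) (nat_lit 6) L1086766 (by decide +kernel)
theorem L1086768 : W_3 (nat_lit 7) (nat_lit 0x18001a0005000000000000000000000000000) (nat_lit 0x0) (nat_lit 0x2000000002e007c0038001400000000000000) := Q_3 (nat_lit 93) (C_3 L1086756 (C_3 L1086759 (C_3 L1086764 (C_3 L1086767 N_3)))) (by decide +kernel)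
theorem L1086769 : W_3 (nat_lit 2) (nat_lit 0x18001a000f000580000000000000000000000) (nat_lit 0x0) (nat_lit 0x200008000400000000000000) := D_3 (nat_lit 75) (nat_lit 58) (nat_lit 93) (nat_lit 7) (nat_lit 7) (nat_lit 3) (nat_lit 4) (nat_lit 8) (nat_lit 8) (by decide +kernel)
theorem L1086770 : W_3 (nat_lit 3) (nat_lit 0x18001a000f000480000000000000000000000) (nat_lit 0x0) (nat_lit 0x10000300008000400000000000000) := T_3 (nat_lit 92) (nat_lit 112) (nat_lit 0) (nat_lit 10) (nat_lit 6) L1086769 (by decide +kernel)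
theorem L1086771 : W_3 (nat_lit 4) (nat_lit 0x18001a000f000080000000000000000000000) (nat_lit 0x0) (nat_lit 0x10000f00008000400000000000000) := T_3 (nat_lit 94) (nat_lit 95) (nat_lit 2) (nat_lit 6) (nat_lit 6) L1086770 (by decide +kernel)
theorem L1086772 : W_3 (nat_lit 5) (nat_lit 0x18001a000f000000000000000000000000000) (nat_lit 0x0) (nat_lit 0x10000fc0008000400000000000000) := T_3 (nat_lit 91) (nat_lit 90) (nat_lit 0) (nat_lit 9) (nat_lit 6) L1086771 (by decide +kernel)
theorem L1086773 : W_3 (nat_lit 6) (nat_lit 0x18001a0007000000000000000000000000000) (nat_lit 0x0) (nat_lit 0x10018000fc0008000400000000000000) := T_3 (nat_lit 111) (nat_lit 124) (nat_lit 1) (nat_lit 9) (nat_lit 6) L1086772 (by decide +kernel)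
theorem L1086774 : W_3 (nat_lit 7) (nat_lit 0x18001a0005000000000000000000000000000) (nat_lit 0x0) (nat_lit 0x1001a800fc0008000400000000000000) := T_3 (nat_lit 109) (nat_lit 107) (nat_lit 3) (nat_lit 5) (nat_lit 6) L1086773 (by decide +kernel)
theorem L1086775 : W_3 (nat_lit 2) (nat_lit 0x18001a0005000780000000000000000000000) (nat_lit 0x0) (nat_lit 0x18000040000000000000000000000) := D_3 (nat_lit 111) (nat_lit 90) (nat_lit 112) (nat_lit 3) (nat_lit 5) (nat_lit 5) (nat_lit 3) (nat_lit 6) (nat_lit 5) (by decide +kernel)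
theorem L1086776 : W_3 (nat_lit 3) (nat_lit 0x18001a0005000700000000000000000000000) (nat_lit 0x0) (nat_lit 0x188000c0000000000000000000000) := T_3 (nat_lit 91) (nat_lit 107) (nat_lit 1) (nat_lit 9) (nat_lit 5) L1086775 (by decide +kernel)
theorem L1086777 : W_3 (nat_lit 4) (nat_lit 0x18001a0005000300000000000000000000000) (nat_lit 0x0) (nat_lit 0x188004c0020000000000000000000) := T_3 (nat_lit 94) (nat_lit 77) (nat_lit 6) (nat_lit 8) (nat_lit 8) L1086776 (by decide +kernel)
theorem L1086778 : W_3 (nat_lit 5) (nat_lit 0x18001a0005000200000000000000000000000) (nat_lit 0x0) (nat_lit 0x188005c0028000000000000000000) := T_3 (nat_lit 92) (nat_lit 75) (nat_lit 4) (nat_lit 8) (nat_lit 8) L1086777 (by decide +kernel)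
theorem L1086779 : W_3 (nat_lit 2) (nat_lit 0x18001a0005000200010000000000000000000) (nat_lit 0x0) (nat_lit 0x100008000400000000000000) := D_3 (nat_lit 75) (nat_lit 92) (nat_lit 58) (nat_lit 4) (nat_lit 8) (nat_lit 8) (nat_lit 4) (nat_lit 8) (nat_lit 7) (by decide +kernel)
theorem L1086780 : W_3 (nat_lit 3) (nat_lit 0x18001a0005000200000000000000000000000) (nat_lit 0x0) (nat_lit 0x2000000000000100018000400000000000000) := T_3 (nat_lit 76) (nat_lit 145) (nat_lit 7) (nat_lit 8) (nat_lit 4) L1086779 (by decide +kernel)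
theorem L1086781 : W_3 (nat_lit 6) (nat_lit 0x18001a0005000000000000000000000000000) (nat_lit 0x0) (nat_lit 0x20000000188007c0038001400000000000000) := Q_3 (nat_lit 93) (C_3 L1086756 (C_3 L1086778 (C_3 L1086780 N_3))) (by decide +kernel)
theorem L1086782 : W_3 (nat_lit 2) (nat_lit 0x18001a003f000080000000000000000000000) (nat_lit 0x0) (nat_lit 0x3800000000000000000000000) := D_3 (nat_lit 96) (nat_lit 95) (nat_lit 97) (nat_lit 2) (nat_lit 7) (nat_lit 6) (nat_lit 2) (nat_lit 8) (nat_lit 6) (by decide +kernel)
theorem L1086783 : W_3 (nat_lit 3) (nat_lit 0x18001a001f000080000000000000000000000) (nat_lit 0x0) (nat_lit 0x60003800000000000000000000000) := T_3 (nat_lit 113) (nat_lit 114) (nat_lit 1) (nat_lit 12) (nat_lit 6) L1086782 (by decide +kernel)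
theorem L1086784 : W_3 (nat_lit 4) (nat_lit 0x18001a000f000080000000000000000000000) (nat_lit 0x0) (nat_lit 0x70003900000000000000000000000) := T_3 (nat_lit 112) (nat_lit 92) (nat_lit 0) (nat_lit 10) (nat_lit 6) L1086783 (by decide +kernel)
theorem L1086785 : W_3 (nat_lit 5) (nat_lit 0x18001a000f000000000000000000000000000) (nat_lit 0x0) (nat_lit 0x700039c0000000000000000000000) := T_3 (nat_lit 91) (nat_lit 90) (nat_lit 0) (nat_lit 9) (nat_lit 6) L1086784 (by decide +kernel)
theorem L1086786 : W_3 (nat_lit 6) (nat_lit 0x18001a0007000000000000000000000000000) (nat_lit 0x0) (nat_lit 0x100780039c0000000000000000000000) := T_3 (nat_lit 111) (nat_lit 124) (nat_lit 1) (nat_lit 9) (nat_lit 6) L1086785 (by decide +kernel)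
theorem L1086787 : W_3 (nat_lit 7) (nat_lit 0x18001a0005000000000000000000000000000) (nat_lit 0x0) (nat_lit 0x1007a8039c0000000000000000000000) := T_3 (nat_lit 109) (nat_lit 107) (nat_lit 3) (nat_lit 5) (nat_lit 6) L1086786 (by decide +kernel)
theorem L1086788 : W_3 (nat_lit 2) (nat_lit 0x18001a001d000f00000000000000000000000) (nat_lit 0x0) (nat_lit 0xc0002000000000000000) := D_3 (nat_lit 78) (nat_lit 79) (nat_lit 61) (nat_lit 2) (nat_lit 7) (nat_lit 5) (nat_lit 5) (nat_lit 10) (nat_lit 3) (by decide +kernel)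
theorem L1086789 : W_3 (nat_lit 3) (nat_lit 0x18001a0015000f00000000000000000000000) (nat_lit 0x0) (nat_lit 0x80000800c0002000000000000000) := T_3 (nat_lit 111) (nat_lit 91) (nat_lit 3) (nat_lit 6) (nat_lit 5) L1086788 (by decide +kernel)
theorem L1086790 : W_3 (nat_lit 4) (nat_lit 0x18001a0005000f00000000000000000000000) (nat_lit 0x0) (nat_lit 0x380000800c0002000000000000000) := T_3 (nat_lit 112) (nat_lit 113) (nat_lit 3) (nat_lit 7) (nat_lit 5) L1086789 (by decide +kernel)
theorem L1086791 : W_3 (nat_lit 5) (nat_lit 0x18001a0005000700000000000000000000000) (nat_lit 0x0) (nat_lit 0x3a0008800c0002000000000000000) := T_3 (nat_lit 95) (nat_lit 109) (nat_lit 1) (nat_lit 10) (nat_lit 5) L1086790 (by decide +kernel)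
theorem L1086792 : W_3 (nat_lit 6) (nat_lit 0x18001a0005000300000000000000000000000) (nat_lit 0x0) (nat_lit 0x3a000c800e0002000000000000000) := T_3 (nat_lit 94) (nat_lit 77) (nat_lit 6) (nat_lit 8) (nat_lit 8) L1086791 (by decide +kernel)
theorem L1086793 : W_3 (nat_lit 7) (nat_lit 0x18001a0005000200000000000000000000000) (nat_lit 0x0) (nat_lit 0x3a000d800e8002000000000000000) := T_3 (nat_lit 92) (nat_lit 75) (nat_lit 4) (nat_lit 8) (nat_lit 8) L1086792 (by decide +kernel)
theorem L1086794 : W_3 (nat_lit 8) (nat_lit 0x18001a0005000000000000000000000000000) (nat_lit 0x0) (nat_lit 0x200000003a000f800f8003400000000000000) := Q_3 (nat_lit 93) (C_3 L1086780 (C_3 L1086793 (C_3 L1086756 N_3))) (by decide +kernel)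
theorem L1086795 : W_3 (nat_lit 9) (nat_lit 0x18001a0001000000000000000000000000000) (nat_lit 0x0) (nat_lit 0x200001007ee03fc00f8003400000000000000) := Q_3 (nat_lit 110) (C_3 L1086754 (C_3 L1086768 (C_3 L1086774 (C_3 L1086781 (C_3 L1086787 (C_3 L1086794 N_3)))))) (by decide +kernel)
theorem L1086796 : W_3 (nat_lit 2) (nat_lit 0x8001c001a0001000000000000000000000000000) (nat_lit 0x0) (nat_lit 0x80004002000000000000000000000000000000000000) := D_3 (nat_lit 158) (nat_lit 175) (nat_lit 145) (nat_lit 5) (nat_lit 6) (nat_lit 6) (nat_lit 1) (nat_lit 9) (nat_lit 8) (by decide +kernel)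
theorem L1086797 : W_3 (nat_lit 5) (nat_lit 0x1c001a0001000000000000000000000000000) (nat_lit 0x0) (nat_lit 0x100018000c002000010000800040000000000000000000000) := Q_3 (nat_lit 159) (C_3 L1048550 (C_3 L817162 (C_3 L1086796 N_3))) (by decide +kernel)
theorem L1086798 : W_3 (nat_lit 6) (nat_lit 0x18001a0001000000000000000000000000000) (nat_lit 0x0) (nat_lit 0x100018000c002600010000800040000000000000000000000) := T_3 (nat_lit 142) (nat_lit 141) (nat_lit 2) (nat_lit 5) (nat_lit 8) L1086797 (by decide +kernel)
theorem L1086799 : W_3 (nat_lit 2) (nat_lit 0x1c001a0005800040000000000000000000000) (nat_lit 0x0) (nat_lit 0x80002000100000000000000) := D_3 (nat_lit 73) (nat_lit 91) (nat_lit 56) (nat_lit 4) (nat_lit 6) (nat_lit 8) (nat_lit 7) (nat_lit 5) (nat_lit 3) (by decide +kernel)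
theorem L1086800 : W_3 (nat_lit 3) (nat_lit 0x1c001a0005800000000000000000000000000) (nat_lit 0x0) (nat_lit 0x80000000000000000c0002000100000000000000) := T_3 (nat_lit 90) (nat_lit 159) (nat_lit 4) (nat_lit 6) (nat_lit 9) L1086799 (by decide +kernel)
theorem L1086801 : W_3 (nat_lit 4) (nat_lit 0x18001a0005800000000000000000000000000) (nat_lit 0x0) (nat_lit 0x80006000000000000c0002000100000000000000) := T_3 (nat_lit 142) (nat_lit 141) (nat_lit 2) (nat_lit 5) (nat_lit 8) L1086800 (by decide +kernel)
theorem L1086802 : W_3 (nat_lit 5) (nat_lit 0x18001a0005000000000000000000000000000) (nat_lit 0x0) (nat_lit 0x80006000000028000c0002000100000000000000) := T_3 (nat_lit 107) (nat_lit 109) (nat_lit 3) (nat_lit 5) (nat_lit 6) L1086801 (by decide +kernel)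
theorem L1086803 : W_3 (nat_lit 5) (nat_lit 0x18001a0005000000000000000000000000000) (nat_lit 0x0) (nat_lit 0x8000c002600000002800040000000000000000000000) := T_3 (nat_lit 142) (nat_lit 141) (nat_lit 2) (nat_lit 5) (nat_lit 8) L1086685 (by decide +kernel)
theorem L1086804 : W_3 (nat_lit 9) (nat_lit 0x18001a0001000000000000000000000000000) (nat_lit 0x0) (nat_lit 0x8000c00260000003e800fc00fa003500000000000000) := Q_3 (nat_lit 110) (C_3 L1086794 (C_3 L1086802 (C_3 L1086781 (C_3 L1086803 N_3)))) (by decide +kernel)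
theorem L1086805 : W_3 (nat_lit 8) (nat_lit 0x18001a0001000200000000000000000000000) (nat_lit 0x0) (nat_lit 0x200000003e000d800f8003400000000000000) := Q_3 (nat_lit 110) (C_3 L1086780 (C_3 L1086793 (C_3 L1086756 N_3))) (by decide +kernel)
theorem L1086806 : W_3 (nat_lit 2) (nat_lit 0x1a001a0005000380030000d00000000000000) (nat_lit 0x0) (nat_lit 0x10000000000006000000000000000000) := D_3 (nat_lit 74) (nat_lit 124) (nat_lit 73) (nat_lit 5) (nat_lit 6) (nat_lit 4) (nat_lit 4) (nat_lit 6) (nat_lit 7) (by decide +kernel)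
theorem L1086807 : W_3 (nat_lit 3) (nat_lit 0x1a001a0005000380030000c00000000000000) (nat_lit 0x0) (nat_lit 0x10000000000006000300000000000000) := T_3 (nat_lit 56) (nat_lit 57) (nat_lit 3) (nat_lit 5) (nat_lit 3) L1086806 (by decide +kernel)
theorem L1086808 : W_3 (nat_lit 4) (nat_lit 0x1a001a0005000380030000800000000000000) (nat_lit 0x0) (nat_lit 0x10000000000006000700020000000000) := T_3 (nat_lit 58) (nat_lit 41) (nat_lit 4) (nat_lit 8) (nat_lit 6) L1086807 (by decide +kernel)
theorem L1086809 : W_3 (nat_lit 5) (nat_lit 0x1a001a0005000380030000000000000000000) (nat_lit 0x0) (nat_lit 0x10008000000006000f00020000000000) := T_3 (nat_lit 59) (nat_lit 111) (nat_lit 7) (nat_lit 8) (nat_lit 3) L1086808 (by decide +kernel)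
theorem L1086810 : W_3 (nat_lit 6) (nat_lit 0x1a001a0005000300030000000000000000000) (nat_lit 0x0) (nat_lit 0x100080000c0006000f00020000000000) := T_3 (nat_lit 91) (nat_lit 90) (nat_lit 2) (nat_lit 5) (nat_lit 5) L1086809 (by decide +kernel)
theorem L1086811 : W_3 (nat_lit 7) (nat_lit 0x1a001a0005000300020000000000000000000) (nat_lit 0x0) (nat_lit 0x100080000c0016001f00020000000000) := T_3 (nat_lit 76) (nat_lit 60) (nat_lit 6) (nat_lit 8) (nat_lit 7) L1086810 (by decide +kernel)
theorem L1086812 : W_3 (nat_lit 8) (nat_lit 0x1a001a0005000200020000000000000000000) (nat_lit 0x0) (nat_lit 0x100080001c001e001f00020000000000) := T_3 (nat_lit 92) (nat_lit 75) (nat_lit 4) (nat_lit 8) (nat_lit 8) L1086811 (by decide +kernel)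
theorem L1086813 : W_3 (nat_lit 9) (nat_lit 0x1a001a0005000200000000000000000000000) (nat_lit 0x0) (nat_lit 0x100080005c003e001f00020000000000) := T_3 (nat_lit 77) (nat_lit 94) (nat_lit 6) (nat_lit 8) (nat_lit 8) L1086812 (by decide +kernel)
theorem L1086814 : W_3 (nat_lit 10) (nat_lit 0x18001a0005000200000000000000000000000) (nat_lit 0x0) (nat_lit 0x6000100080005c003e001f00020000000000) := T_3 (nat_lit 141) (nat_lit 142) (nat_lit 2) (nat_lit 5) (nat_lit 8) L1086813 (by decide +kernel)
theorem L1086815 : W_3 (nat_lit 2) (nat_lit 0x1a001a0025000f00080000000000000000000) (nat_lit 0x0) (nat_lit 0x40001000100000000000000000000) := D_3 (nat_lit 96) (nat_lit 114) (nat_lit 80) (nat_lit 3) (nat_lit 8) (nat_lit 5) (nat_lit 2) (nat_lit 8) (nat_lit 5) (by decide +kernel)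
theorem L1086816 : W_3 (nat_lit 3) (nat_lit 0x1a001a0025000f00000000000000000000000) (nat_lit 0x0) (nat_lit 0x400010001c0000000000000000000) := T_3 (nat_lit 79) (nat_lit 78) (nat_lit 2) (nat_lit 7) (nat_lit 5) L1086815 (by decide +kernel)
theorem L1086817 : W_3 (nat_lit 4) (nat_lit 0x1a001a0005000f00000000000000000000000) (nat_lit 0x0) (nat_lit 0x700010001c0000000000000000000) := T_3 (nat_lit 113) (nat_lit 112) (nat_lit 3) (nat_lit 7) (nat_lit 5) L1086816 (by decide +kernel)
theorem L1086818 : W_3 (nat_lit 5) (nat_lit 0x1a001a0005000700000000000000000000000) (nat_lit 0x0) (nat_lit 0x720018001c0000000000000000000) := T_3 (nat_lit 95) (nat_lit 109) (nat_lit 1) (nat_lit 10) (nat_lit 5) L1086817 (by decide +kernel)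
theorem L1086819 : W_3 (nat_lit 6) (nat_lit 0x1a001a0005000300000000000000000000000) (nat_lit 0x0) (nat_lit 0x72001c001e0000000000000000000) := T_3 (nat_lit 94) (nat_lit 77) (nat_lit 6) (nat_lit 8) (nat_lit 8) L1086818 (by decide +kernel)
theorem L1086820 : W_3 (nat_lit 7) (nat_lit 0x18001a0005000300000000000000000000000) (nat_lit 0x0) (nat_lit 0x600000072001c001e0000000000000000000) := T_3 (nat_lit 141) (nat_lit 142) (nat_lit 2) (nat_lit 5) (nat_lit 8) L1086819 (by decide +kernel)
theorem L1086821 : W_3 (nat_lit 8) (nat_lit 0x18001a0005000200000000000000000000000) (nat_lit 0x0) (nat_lit 0x600000072001d001e8000000000000000000) := T_3 (nat_lit 92) (nat_lit 75) (nat_lit 4) (nat_lit 8) (nat_lit 8) L1086820 (by decide +kernel)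
theorem L1086822 : W_3 (nat_lit 2) (nat_lit 0x1a001a0005000200030000400000000000000) (nat_lit 0x0) (nat_lit 0x8000000000000800020000000000) := D_3 (nat_lit 59) (nat_lit 111) (nat_lit 41) (nat_lit 7) (nat_lit 8) (nat_lit 3) (nat_lit 4) (nat_lit 8) (nat_lit 6) (by decide +kernel)
theorem L1086823 : W_3 (nat_lit 3) (nat_lit 0x1a001a0005000200030000000000000000000) (nat_lit 0x0) (nat_lit 0x8000000008000c00020000000000) := T_3 (nat_lit 58) (nat_lit 75) (nat_lit 4) (nat_lit 8) (nat_lit 7) L1086822 (by decide +kernel)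
theorem L1086824 : W_3 (nat_lit 4) (nat_lit 0x1a001a0005000200020000000000000000000) (nat_lit 0x0) (nat_lit 0x8000000018001c00020000000000) := T_3 (nat_lit 76) (nat_lit 60) (nat_lit 6) (nat_lit 8) (nat_lit 7) L1086823 (by decide +kernel)
theorem L1086825 : W_3 (nat_lit 5) (nat_lit 0x18001a0005000200020000000000000000000) (nat_lit 0x0) (nat_lit 0x600000008000000018001c00020000000000) := T_3 (nat_lit 141) (nat_lit 142) (nat_lit 2) (nat_lit 5) (nat_lit 8) L1086824 (by decide +kernel)
theorem L1086826 : W_3 (nat_lit 6) (nat_lit 0x18001a0005000200000000000000000000000) (nat_lit 0x0) (nat_lit 0x600000008000400038001c00020000000000) := T_3 (nat_lit 77) (nat_lit 94) (nat_lit 6) (nat_lit 8) (nat_lit 8) L1086825 (by decide +kernel)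
theorem L1086827 : W_3 (nat_lit 2) (nat_lit 0x1a001b000d00022001e000080000000000000) (nat_lit 0x0) (nat_lit 0x10001000040000000000000) := D_3 (nat_lit 72) (nat_lit 88) (nat_lit 54) (nat_lit 1) (nat_lit 7) (nat_lit 4) (nat_lit 0) (nat_lit 7) (nat_lit 4) (by decide +kernel)
theorem L1086828 : W_3 (nat_lit 3) (nat_lit 0x1a001b000d00022001e000000000000000000) (nat_lit 0x0) (nat_lit 0x100010001c0000000000000) := T_3 (nat_lit 55) (nat_lit 56) (nat_lit 0) (nat_lit 8) (nat_lit 4) L1086827 (by decide +kernel)
theorem L1086829 : W_3 (nat_lit 4) (nat_lit 0x1a001b000d00020001e000000000000000000) (nat_lit 0x0) (nat_lit 0x700010001c0000000000000) := T_3 (nat_lit 89) (nat_lit 90) (nat_lit 1) (nat_lit 8) (nat_lit 4) L1086828 (by decide +kernel)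
theorem L1086830 : W_3 (nat_lit 5) (nat_lit 0x1a001b000d00020001c000000000000000000) (nat_lit 0x0) (nat_lit 0x4700030001c0000000000000) := T_3 (nat_lit 73) (nat_lit 94) (nat_lit 3) (nat_lit 5) (nat_lit 4) L1086829 (by decide +kernel)
theorem L1086831 : W_3 (nat_lit 6) (nat_lit 0x1a001b000d000200018000000000000000000) (nat_lit 0x0) (nat_lit 0x4f00070001c0000000000000) := T_3 (nat_lit 74) (nat_lit 91) (nat_lit 5) (nat_lit 6) (nat_lit 4) L1086830 (by decide +kernel)
theorem L1086832 : W_3 (nat_lit 7) (nat_lit 0x1a001a000d000200018000000000000000000) (nat_lit 0x0) (nat_lit 0x100020004f00070001c0000000000000) := T_3 (nat_lit 124) (nat_lit 109) (nat_lit 1) (nat_lit 9) (nat_lit 6) L1086831 (by decide +kernel)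
theorem L1086833 : W_3 (nat_lit 8) (nat_lit 0x1a001a0005000200018000000000000000000) (nat_lit 0x0) (nat_lit 0x1000a0004f00070009c0000000000000) := T_3 (nat_lit 111) (nat_lit 59) (nat_lit 7) (nat_lit 8) (nat_lit 3) L1086832 (by decide +kernel)
theorem L1086834 : W_3 (nat_lit 9) (nat_lit 0x1a001a0005000200008000000000000000000) (nat_lit 0x0) (nat_lit 0x1000a0004f0017000dc0000000000000) := T_3 (nat_lit 76) (nat_lit 58) (nat_lit 4) (nat_lit 8) (nat_lit 7) L1086833 (by decide +kernel)
theorem L1086835 : W_3 (nat_lit 10) (nat_lit 0x1a001a0005000200000000000000000000000) (nat_lit 0x0) (nat_lit 0x1000a0005f001f000dc0000000000000) := T_3 (nat_lit 75) (nat_lit 92) (nat_lit 4) (nat_lit 8) (nat_lit 8) L1086834 (by decide +kernel)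
theorem L1086836 : W_3 (nat_lit 11) (nat_lit 0x18001a0005000200000000000000000000000) (nat_lit 0x0) (nat_lit 0x60001000a0005f001f000dc0000000000000) := T_3 (nat_lit 141) (nat_lit 142) (nat_lit 2) (nat_lit 5) (nat_lit 8) L1086835 (by decide +kernel)
theorem L1086839 : W_3 (nat_lit 4) (nat_lit 0x1c001a0005000300000000000000000000000) (nat_lit 0x0) (nat_lit 0x800000001003a000080000000000000000000000) := T_3 (nat_lit 109) (nat_lit 159) (nat_lit 6) (nat_lit 6) (nat_lit 9) L1086838 (by decide +kernel)
theorem L1086840 : W_3 (nat_lit 5) (nat_lit 0x18001a0005000300000000000000000000000) (nat_lit 0x0) (nat_lit 0x800060001003a000080000000000000000000000) := T_3 (nat_lit 142) (nat_lit 141) (nat_lit 2) (nat_lit 5) (nat_lit 8) L1086839 (by decide +kernel)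
theorem L1086841 : W_3 (nat_lit 6) (nat_lit 0x18001a0005000200000000000000000000000) (nat_lit 0x0) (nat_lit 0x800060001003a000180008000000000000000000) := T_3 (nat_lit 92) (nat_lit 75) (nat_lit 4) (nat_lit 8) (nat_lit 8) L1086840 (by decide +kernel)
theorem L1086842 : W_3 (nat_lit 2) (nat_lit 0x1a001a00050003800340009000e0000000000) (nat_lit 0x0) (nat_lit 0x200018000000000) := D_3 (nat_lit 57) (nat_lit 39) (nat_lit 40) (nat_lit 4) (nat_lit 6) (nat_lit 6) (nat_lit 1) (nat_lit 9) (nat_lit 2) (by decide +kernel)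
theorem L1086843 : W_3 (nat_lit 3) (nat_lit 0x1a001a00050003800340008000e0000000000) (nat_lit 0x0) (nat_lit 0x2000300018000000000) := T_3 (nat_lit 56) (nat_lit 73) (nat_lit 4) (nat_lit 6) (nat_lit 7) L1086842 (by decide +kernel)
theorem L1086844 : W_3 (nat_lit 4) (nat_lit 0x1a001a00050003800300008000e0000000000) (nat_lit 0x0) (nat_lit 0x10000000000006000300018000000000) := T_3 (nat_lit 74) (nat_lit 124) (nat_lit 5) (nat_lit 6) (nat_lit 4) L1086843 (by decide +kernel)
theorem L1086845 : W_3 (nat_lit 5) (nat_lit 0x1a001a0005000380030000800060000000000) (nat_lit 0x0) (nat_lit 0x10000000000006000300098004000000) := T_3 (nat_lit 43) (nat_lit 26) (nat_lit 6) (nat_lit 8) (nat_lit 5) L1086844 (by decide +kernel)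
theorem L1086846 : W_3 (nat_lit 6) (nat_lit 0x1a001a0005000300030000800060000000000) (nat_lit 0x0) (nat_lit 0x100000000c0006000300098004000000) := T_3 (nat_lit 91) (nat_lit 90) (nat_lit 2) (nat_lit 5) (nat_lit 5) L1086845 (by decide +kernel)
theorem L1086847 : W_3 (nat_lit 7) (nat_lit 0x1a001a0005000200030000800060000000000) (nat_lit 0x0) (nat_lit 0x100020001c0006000300098004000000) := T_3 (nat_lit 92) (nat_lit 109) (nat_lit 5) (nat_lit 8) (nat_lit 2) L1086846 (by decide +kernel)
theorem L1086848 : W_3 (nat_lit 8) (nat_lit 0x1a001a0005000200030000800020000000000) (nat_lit 0x0) (nat_lit 0x100020001c00060003000d8005000000) := T_3 (nat_lit 42) (nat_lit 24) (nat_lit 4) (nat_lit 8) (nat_lit 5) L1086847 (by decide +kernel)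
theorem L1086849 : W_3 (nat_lit 9) (nat_lit 0x1a001a0005000200030000800000000000000) (nat_lit 0x0) (nat_lit 0x100020001c00060007000f8005000000) := T_3 (nat_lit 41) (nat_lit 58) (nat_lit 4) (nat_lit 8) (nat_lit 6) L1086848 (by decide +kernel)
theorem L1086850 : W_3 (nat_lit 10) (nat_lit 0x1a001a0005000200030000000000000000000) (nat_lit 0x0) (nat_lit 0x1000a0001c0006000f000f8005000000) := T_3 (nat_lit 59) (nat_lit 111) (nat_lit 7) (nat_lit 8) (nat_lit 3) L1086849 (by decide +kernel)
theorem L1086851 : W_3 (nat_lit 11) (nat_lit 0x1a001a0005000200020000000000000000000) (nat_lit 0x0) (nat_lit 0x1000a0001c0016001f000f8005000000) := T_3 (nat_lit 76) (nat_lit 60) (nat_lit 6) (nat_lit 8) (nat_lit 7) L1086850 (by decide +kernel)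
theorem L1086852 : W_3 (nat_lit 12) (nat_lit 0x1a001a0005000200000000000000000000000) (nat_lit 0x0) (nat_lit 0x1000a0005c0036001f000f8005000000) := T_3 (nat_lit 77) (nat_lit 94) (nat_lit 6) (nat_lit 8) (nat_lit 8) L1086851 (by decide +kernel)
theorem L1086853 : W_3 (nat_lit 13) (nat_lit 0x18001a0005000200000000000000000000000) (nat_lit 0x0) (nat_lit 0x60001000a0005c0036001f000f8005000000) := T_3 (nat_lit 141) (nat_lit 142) (nat_lit 2) (nat_lit 5) (nat_lit 8) L1086852 (by decide +kernel)
theorem L1086854 : W_3 (nat_lit 14) (nat_lit 0x18001a0001000200000000000000000000000) (nat_lit 0x0) (nat_lit 0x800060001007e001df01ff003fc00f8005000000) := Q_3 (nat_lit 110) (C_3 L1086814 (C_3 L1086793 (C_3 L1086821 (C_3 L1086826 (C_3 L1086836 (C_3 L1086841 (C_3 L1086853 N_3))))))) (by decide +kernel)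
theorem L1086855 : W_3 (nat_lit 2) (nat_lit 0x8003c001a00010003c0020000000000000000000) (nat_lit 0x0) (nat_lit 0x8000400040000000000000000000) := D_3 (nat_lit 94) (nat_lit 78) (nat_lit 111) (nat_lit 2) (nat_lit 6) (nat_lit 5) (nat_lit 5) (nat_lit 9) (nat_lit 4) (by decide +kernel)
theorem L1086856 : W_3 (nat_lit 3) (nat_lit 0x8003c001a00010003c0000000000000000000000) (nat_lit 0x0) (nat_lit 0x8000400070000000000000000000) := T_3 (nat_lit 77) (nat_lit 76) (nat_lit 2) (nat_lit 5) (nat_lit 5) L1086855 (by decide +kernel)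
theorem L1086857 : W_3 (nat_lit 4) (nat_lit 0x8003c001a0001000380000000000000000000000) (nat_lit 0x0) (nat_lit 0x8000440072000000000000000000) := T_3 (nat_lit 90) (nat_lit 73) (nat_lit 4) (nat_lit 6) (nat_lit 8) L1086856 (by decide +kernel)
theorem L1086858 : W_3 (nat_lit 5) (nat_lit 0x8003c001a0001000300000000000000000000000) (nat_lit 0x0) (nat_lit 0x80004c007a000000000000000000) := T_3 (nat_lit 91) (nat_lit 75) (nat_lit 6) (nat_lit 6) (nat_lit 8) L1086857 (by decide +kernel)
theorem L1086859 : W_3 (nat_lit 6) (nat_lit 0x8003c001a0001000200000000000000000000000) (nat_lit 0x0) (nat_lit 0xa0005c007a000000000000000000) := T_3 (nat_lit 92) (nat_lit 109) (nat_lit 6) (nat_lit 6) (nat_lit 9) L1086858 (by decide +kernel)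
theorem L1086860 : W_3 (nat_lit 7) (nat_lit 0x3c001a0001000200000000000000000000000) (nat_lit 0x0) (nat_lit 0xc00000000000a0005c007a000000000000000000) := T_3 (nat_lit 159) (nat_lit 158) (nat_lit 1) (nat_lit 9) (nat_lit 8) L1086859 (by decide +kernel)
theorem L1086861 : W_3 (nat_lit 8) (nat_lit 0x1c001a0001000200000000000000000000000) (nat_lit 0x0) (nat_lit 0xc00200001000a0005c007a000000000000000000) := T_3 (nat_lit 145) (nat_lit 124) (nat_lit 0) (nat_lit 9) (nat_lit 8) L1086860 (by decide +kernel)
theorem L1086862 : W_3 (nat_lit 9) (nat_lit 0x18001a0001000200000000000000000000000) (nat_lit 0x0) (nat_lit 0xc00260001000a0005c007a000000000000000000) := T_3 (nat_lit 142) (nat_lit 141) (nat_lit 2) (nat_lit 5) (nat_lit 8) L1086861 (by decide +kernel)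
theorem L1086863 : W_3 (nat_lit 2) (nat_lit 0x8003c001a0001000380010000000000000000000) (nat_lit 0x0) (nat_lit 0x40022000000000000000000) := D_3 (nat_lit 90) (nat_lit 73) (nat_lit 77) (nat_lit 4) (nat_lit 6) (nat_lit 8) (nat_lit 2) (nat_lit 5) (nat_lit 5) (by decide +kernel)
theorem L1086864 : W_3 (nat_lit 3) (nat_lit 0x8003c001a0001000300010000000000000000000) (nat_lit 0x0) (nat_lit 0xc002a000000000000000000) := T_3 (nat_lit 91) (nat_lit 75) (nat_lit 6) (nat_lit 6) (nat_lit 8) L1086863 (by decide +kernel)
theorem L1086865 : W_3 (nat_lit 4) (nat_lit 0x8003c001a0001000200010000000000000000000) (nat_lit 0x0) (nat_lit 0x20001c002a000000000000000000) := T_3 (nat_lit 92) (nat_lit 109) (nat_lit 6) (nat_lit 6) (nat_lit 9) L1086864 (by decide +kernel)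
theorem L1086866 : W_3 (nat_lit 5) (nat_lit 0x8003c001a0001000200000000000000000000000) (nat_lit 0x0) (nat_lit 0x60001c003a000000000000000000) := T_3 (nat_lit 76) (nat_lit 110) (nat_lit 7) (nat_lit 8) (nat_lit 4) L1086865 (by decide +kernel)
theorem L1086867 : W_3 (nat_lit 6) (nat_lit 0x3c001a0001000200000000000000000000000) (nat_lit 0x0) (nat_lit 0xc0000000000060001c003a000000000000000000) := T_3 (nat_lit 159) (nat_lit 158) (nat_lit 1) (nat_lit 9) (nat_lit 8) L1086866 (by decide +kernel)
theorem L1086868 : W_3 (nat_lit 7) (nat_lit 0x1c001a0001000200000000000000000000000) (nat_lit 0x0) (nat_lit 0xc0020000100060001c003a000000000000000000) := T_3 (nat_lit 145) (nat_lit 124) (nat_lit 0) (nat_lit 9) (nat_lit 8) L1086867 (by decide +kernel)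
theorem L1086869 : W_3 (nat_lit 8) (nat_lit 0x18001a0001000200000000000000000000000) (nat_lit 0x0) (nat_lit 0xc0026000100060001c003a000000000000000000) := T_3 (nat_lit 142) (nat_lit 141) (nat_lit 2) (nat_lit 5) (nat_lit 8) L1086868 (by decide +kernel)
theorem L1086873 : W_3 (nat_lit 2) (nat_lit 0x18001a0001000600000000000000000000000) (nat_lit 0x0) (nat_lit 0xc000000020000000000000000000) := D_3 (nat_lit 77) (nat_lit 111) (nat_lit 110) (nat_lit 5) (nat_lit 9) (nat_lit 4) (nat_lit 6) (nat_lit 8) (nat_lit 8) (by decide +kernel)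
theorem L1086874 : W_3 (nat_lit 2) (nat_lit 0x10000fa005a0029000e00000000000000000000000) (nat_lit 0x0) (nat_lit 0x40003000000000000000000000000) := D_3 (nat_lit 114) (nat_lit 96) (nat_lit 97) (nat_lit 3) (nat_lit 8) (nat_lit 5) (nat_lit 6) (nat_lit 11) (nat_lit 9) (by decide +kernel)
theorem L1086875 : W_3 (nat_lit 3) (nat_lit 0x10000fa005a0009000e00000000000000000000000) (nat_lit 0x0) (nat_lit 0x70003000000000000000000000000) := T_3 (nat_lit 113) (nat_lit 112) (nat_lit 4) (nat_lit 11) (nat_lit 9) L1086874 (by decide +kernel)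
theorem L1086876 : W_3 (nat_lit 4) (nat_lit 0xfa005a0009000e00000000000000000000000) (nat_lit 0x0) (nat_lit 0x300000000000070003000000000000000000000000) := T_3 (nat_lit 164) (nat_lit 165) (nat_lit 3) (nat_lit 8) (nat_lit 8) L1086875 (by decide +kernel)
theorem L1086877 : W_3 (nat_lit 5) (nat_lit 0xfa001a0009000e00000000000000000000000) (nat_lit 0x0) (nat_lit 0x300000000c00070003000000000000000000000000) := T_3 (nat_lit 130) (nat_lit 131) (nat_lit 2) (nat_lit 8) (nat_lit 8) L1086876 (by decide +kernel)
theorem L1086878 : W_3 (nat_lit 6) (nat_lit 0x7a001a0009000e00000000000000000000000) (nat_lit 0x0) (nat_lit 0x300018000c00070003000000000000000000000000) := T_3 (nat_lit 147) (nat_lit 148) (nat_lit 0) (nat_lit 12) (nat_lit 8) L1086877 (by decide +kernel)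
theorem L1086879 : W_3 (nat_lit 7) (nat_lit 0x3a001a0009000e00000000000000000000000) (nat_lit 0x0) (nat_lit 0x38001c000c00070003000000000000000000000000) := T_3 (nat_lit 146) (nat_lit 163) (nat_lit 7) (nat_lit 9) (nat_lit 5) L1086878 (by decide +kernel)
theorem L1086880 : W_3 (nat_lit 8) (nat_lit 0x3a001a0009000600000000000000000000000) (nat_lit 0x0) (nat_lit 0x38001c000c00070003800040000000000000000000) := T_3 (nat_lit 95) (nat_lit 78) (nat_lit 6) (nat_lit 9) (nat_lit 8) L1086879 (by decide +kernel)
theorem L1086881 : W_3 (nat_lit 9) (nat_lit 0x1a001a0009000600000000000000000000000) (nat_lit 0x0) (nat_lit 0x38001e000c00070003800050000000000000000000) := T_3 (nat_lit 145) (nat_lit 76) (nat_lit 4) (nat_lit 9) (nat_lit 8) L1086880 (by decide +kernel)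
theorem L1086882 : W_3 (nat_lit 10) (nat_lit 0x1a001a0001000600000000000000000000000) (nat_lit 0x0) (nat_lit 0x38001e000c00078003800070000000000000000000) := T_3 (nat_lit 111) (nat_lit 77) (nat_lit 5) (nat_lit 9) (nat_lit 4) L1086881 (by decide +kernel)
theorem L1086883 : W_3 (nat_lit 11) (nat_lit 0x18001a0001000600000000000000000000000) (nat_lit 0x0) (nat_lit 0x38001e600c00078003800070000000000000000000) := T_3 (nat_lit 141) (nat_lit 142) (nat_lit 2) (nat_lit 5) (nat_lit 8) L1086882 (by decide +kernel)
theorem L1086884 : W_3 (nat_lit 2) (nat_lit 0x1c001a0005000600000000000000000000000) (nat_lit 0x0) (nat_lit 0x2000010000000000010000000000000000000) := D_3 (nat_lit 145) (nat_lit 76) (nat_lit 124) (nat_lit 7) (nat_lit 8) (nat_lit 4) (nat_lit 0) (nat_lit 9) (nat_lit 8) (by decide +kernel)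
theorem L1086885 : W_3 (nat_lit 3) (nat_lit 0x18001a0005000600000000000000000000000) (nat_lit 0x0) (nat_lit 0x2600010000000000010000000000000000000) := T_3 (nat_lit 142) (nat_lit 141) (nat_lit 2) (nat_lit 5) (nat_lit 8) L1086884 (by decide +kernel)
theorem L1086886 : W_3 (nat_lit 4) (nat_lit 0x18001a0001000600000000000000000000000) (nat_lit 0x0) (nat_lit 0x2600010004000000030000000000000000000) := T_3 (nat_lit 110) (nat_lit 77) (nat_lit 6) (nat_lit 8) (nat_lit 8) L1086885 (by decide +kernel)
theorem L1086887 : W_3 (nat_lit 2) (nat_lit 0x3c001a0001000600000000000000000000000) (nat_lit 0x0) (nat_lit 0xc000000010000000000000000000) := D_3 (nat_lit 76) (nat_lit 111) (nat_lit 110) (nat_lit 4) (nat_lit 9) (nat_lit 8) (nat_lit 7) (nat_lit 8) (nat_lit 4) (by decide +kernel)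
theorem L1086888 : W_3 (nat_lit 3) (nat_lit 0x1c001a0001000600000000000000000000000) (nat_lit 0x0) (nat_lit 0x200001000c000000010000000000000000000) := T_3 (nat_lit 145) (nat_lit 124) (nat_lit 0) (nat_lit 9) (nat_lit 8) L1086887 (by decide +kernel)
theorem L1086889 : W_3 (nat_lit 4) (nat_lit 0x18001a0001000600000000000000000000000) (nat_lit 0x0) (nat_lit 0x260001000c000000010000000000000000000) := T_3 (nat_lit 142) (nat_lit 141) (nat_lit 2) (nat_lit 5) (nat_lit 8) L1086888 (by decide +kernel)
theorem L1086890 : W_3 (nat_lit 12) (nat_lit 0x18001a0001000200000000000000000000000) (nat_lit 0x0) (nat_lit 0x38001e600c1007c003c00070000000000000000000) := Q_3 (nat_lit 94) (C_3 L1086873 (C_3 L1086883 (C_3 L1086886 (C_3 L1086889 N_3)))) (by decide +kernel)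
theorem L1086891 : W_3 (nat_lit 2) (nat_lit 0x8003c001a0001000780010000000000000000000) (nat_lit 0x0) (nat_lit 0x40006000000000000000000) := D_3 (nat_lit 73) (nat_lit 90) (nat_lit 74) (nat_lit 4) (nat_lit 6) (nat_lit 8) (nat_lit 0) (nat_lit 9) (nat_lit 5) (by decide +kernel)
theorem L1086892 : W_3 (nat_lit 3) (nat_lit 0x8003c001a0001000700010000000000000000000) (nat_lit 0x0) (nat_lit 0xc000e000000000000000000) := T_3 (nat_lit 91) (nat_lit 75) (nat_lit 6) (nat_lit 6) (nat_lit 8) L1086891 (by decide +kernel)
theorem L1086893 : W_3 (nat_lit 4) (nat_lit 0x8003c001a0001000600010000000000000000000) (nat_lit 0x0) (nat_lit 0x20001c000e000000000000000000) := T_3 (nat_lit 92) (nat_lit 109) (nat_lit 6) (nat_lit 6) (nat_lit 9) L1086892 (by decide +kernel)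
theorem L1086894 : W_3 (nat_lit 5) (nat_lit 0x8003c001a0001000200010000000000000000000) (nat_lit 0x0) (nat_lit 0xa0005c000e000000000000000000) := T_3 (nat_lit 94) (nat_lit 111) (nat_lit 4) (nat_lit 9) (nat_lit 8) L1086893 (by decide +kernel)
theorem L1086895 : W_3 (nat_lit 6) (nat_lit 0x8003c001a0001000200000000000000000000000) (nat_lit 0x0) (nat_lit 0xe0005c001e000000000000000000) := T_3 (nat_lit 76) (nat_lit 110) (nat_lit 7) (nat_lit 8) (nat_lit 4) L1086894 (by decide +kernel)
theorem L1086896 : W_3 (nat_lit 7) (nat_lit 0x3c001a0001000200000000000000000000000) (nat_lit 0x0) (nat_lit 0xc00000000000e0005c001e000000000000000000) := T_3 (nat_lit 159) (nat_lit 158) (nat_lit 1) (nat_lit 9) (nat_lit 8) L1086895 (by decide +kernel)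
theorem L1086897 : W_3 (nat_lit 8) (nat_lit 0x1c001a0001000200000000000000000000000) (nat_lit 0x0) (nat_lit 0xc00200001000e0005c001e000000000000000000) := T_3 (nat_lit 145) (nat_lit 124) (nat_lit 0) (nat_lit 9) (nat_lit 8) L1086896 (by decide +kernel)
theorem L1086898 : W_3 (nat_lit 9) (nat_lit 0x18001a0001000200000000000000000000000) (nat_lit 0x0) (nat_lit 0xc00260001000e0005c001e000000000000000000) := T_3 (nat_lit 142) (nat_lit 141) (nat_lit 2) (nat_lit 5) (nat_lit 8) L1086897 (by decide +kernel)
theorem L1086899 : W_3 (nat_lit 2) (nat_lit 0x8003c001a0001000300000000000000000000000) (nat_lit 0x0) (nat_lit 0x4000080008000000000000000000) := D_3 (nat_lit 75) (nat_lit 91) (nat_lit 110) (nat_lit 6) (nat_lit 6) (nat_lit 8) (nat_lit 4) (nat_lit 8) (nat_lit 8) (by decide +kernel)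
theorem L1086900 : W_3 (nat_lit 3) (nat_lit 0x8003c001a0001000200000000000000000000000) (nat_lit 0x0) (nat_lit 0x6000180008000000000000000000) := T_3 (nat_lit 92) (nat_lit 109) (nat_lit 6) (nat_lit 6) (nat_lit 9) L1086899 (by decide +kernel)
theorem L1086901 : W_3 (nat_lit 4) (nat_lit 0x3c001a0001000200000000000000000000000) (nat_lit 0x0) (nat_lit 0xc000000000006000180008000000000000000000) := T_3 (nat_lit 159) (nat_lit 158) (nat_lit 1) (nat_lit 9) (nat_lit 8) L1086900 (by decide +kernel)
theorem L1086902 : W_3 (nat_lit 5) (nat_lit 0x1c001a0001000200000000000000000000000) (nat_lit 0x0) (nat_lit 0xc002000010006000180008000000000000000000) := T_3 (nat_lit 145) (nat_lit 124) (nat_lit 0) (nat_lit 9) (nat_lit 8) L1086901 (by decide +kernel)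
theorem L1086903 : W_3 (nat_lit 6) (nat_lit 0x18001a0001000200000000000000000000000) (nat_lit 0x0) (nat_lit 0xc002600010006000180008000000000000000000) := T_3 (nat_lit 142) (nat_lit 141) (nat_lit 2) (nat_lit 5) (nat_lit 8) L1086902 (by decide +kernel)
theorem L1086904 : W_3 (nat_lit 15) (nat_lit 0x18001a0001000000000000000000000000000) (nat_lit 0x0) (nat_lit 0x38c01e600c1007e003ff01ff003fc00f8005000000) := Q_3 (nat_lit 93) (C_3 L1086805 (C_3 L1086854 (C_3 L1086862 (C_3 L1086869 (C_3 L1086890 (C_3 L1086898 (C_3 L1086903 N_3))))))) (by decide +kernel)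
theorem L1086905 : W_3 (nat_lit 2) (nat_lit 0x8003c001a0007000600000000000000000000000) (nat_lit 0x0) (nat_lit 0x8001800000000000000000000000) := D_3 (nat_lit 95) (nat_lit 111) (nat_lit 96) (nat_lit 2) (nat_lit 6) (nat_lit 6) (nat_lit 1) (nat_lit 11) (nat_lit 5) (by decide +kernel)
theorem L1086906 : W_3 (nat_lit 3) (nat_lit 0x8003c001a0007000200000000000000000000000) (nat_lit 0x0) (nat_lit 0x8001c00020000000000000000000) := T_3 (nat_lit 94) (nat_lit 77) (nat_lit 6) (nat_lit 8) (nat_lit 8) L1086905 (by decide +kernel)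
theorem L1086907 : W_3 (nat_lit 4) (nat_lit 0x8003c001a0007000000000000000000000000000) (nat_lit 0x0) (nat_lit 0x8001e00030000000000000000000) := T_3 (nat_lit 93) (nat_lit 76) (nat_lit 7) (nat_lit 8) (nat_lit 4) L1086906 (by decide +kernel)
theorem L1086908 : W_3 (nat_lit 5) (nat_lit 0x8003c001a0003000000000000000000000000000) (nat_lit 0x0) (nat_lit 0xc801e00030000000000000000000) := T_3 (nat_lit 110) (nat_lit 107) (nat_lit 3) (nat_lit 5) (nat_lit 6) L1086907 (by decide +kernel)
theorem L1086909 : W_3 (nat_lit 6) (nat_lit 0x8003c001a0001000000000000000000000000000) (nat_lit 0x0) (nat_lit 0xe801f00030000000000000000000) := T_3 (nat_lit 109) (nat_lit 92) (nat_lit 6) (nat_lit 6) (nat_lit 9) L1086908 (by decide +kernel)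
theorem L1086910 : W_3 (nat_lit 7) (nat_lit 0x3c001a0001000000000000000000000000000) (nat_lit 0x0) (nat_lit 0xc00000000000e801f00030000000000000000000) := T_3 (nat_lit 159) (nat_lit 158) (nat_lit 1) (nat_lit 9) (nat_lit 8) L1086909 (by decide +kernel)
theorem L1086911 : W_3 (nat_lit 8) (nat_lit 0x1c001a0001000000000000000000000000000) (nat_lit 0x0) (nat_lit 0xc00200001000e801f00030000000000000000000) := T_3 (nat_lit 145) (nat_lit 124) (nat_lit 0) (nat_lit 9) (nat_lit 8) L1086910 (by decide +kernel)
theorem L1086912 : W_3 (nat_lit 9) (nat_lit 0x18001a0001000000000000000000000000000) (nat_lit 0x0) (nat_lit 0xc00260001000e801f00030000000000000000000) := T_3 (nat_lit 142) (nat_lit 141) (nat_lit 2) (nat_lit 5) (nat_lit 8) L1086911 (by decide +kernel)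
theorem L1086913 : W_3 (nat_lit 16) (nat_lit 0x18001a0000000000000000000000000000000) (nat_lit 0x0) (nat_lit 0x100018038c01e600c1007fe03ff01ff003fc00f8005000000) := Q_3 (nat_lit 108) (C_3 L1086744 (C_3 L1086753 (C_3 L1086795 (C_3 L1086798 (C_3 L1086804 (C_3 L1086904 (C_3 L1086912 N_3))))))) (by decide +kernel)
theorem L1086918 : W_3 (nat_lit 2) (nat_lit 0x2000000008003c001e00090003c0000000000000000000000) (nat_lit 0x0) (nat_lit 0x400030000000000000000000) := D_3 (nat_lit 76) (nat_lit 77) (nat_lit 94) (nat_lit 2) (nat_lit 5) (nat_lit 5) (nat_lit 4) (nat_lit 9) (nat_lit 8) (by decide +kernel)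
theorem L1086919 : W_3 (nat_lit 3) (nat_lit 0x2000000008003c001e00090001c0000000000000000000000) (nat_lit 0x0) (nat_lit 0x4000600030000000000000000000) := T_3 (nat_lit 93) (nat_lit 110) (nat_lit 3) (nat_lit 5) (nat_lit 5) L1086918 (by decide +kernel)
theorem L1086920 : W_3 (nat_lit 4) (nat_lit 0x2000000008003c001e00010001c0000000000000000000000) (nat_lit 0x0) (nat_lit 0x1c000600030000000000000000000) := T_3 (nat_lit 111) (nat_lit 112) (nat_lit 2) (nat_lit 6) (nat_lit 7) L1086919 (by decide +kernel)
theorem L1086921 : W_3 (nat_lit 5) (nat_lit 0x2000000008003c001e0001000180000000000000000000000) (nat_lit 0x0) (nat_lit 0x1c000640032000000000000000000) := T_3 (nat_lit 90) (nat_lit 73) (nat_lit 4) (nat_lit 6) (nat_lit 8) L1086920 (by decide +kernel)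
theorem L1086922 : W_3 (nat_lit 6) (nat_lit 0x8003c001e0001000180000000000000000000000) (nat_lit 0x0) (nat_lit 0x200010000000000000001c000640032000000000000000000) := T_3 (nat_lit 193) (nat_lit 176) (nat_lit 6) (nat_lit 6) (nat_lit 11) L1086921 (by decide +kernel)
theorem L1086923 : W_3 (nat_lit 7) (nat_lit 0x8003c001e0001000080000000000000000000000) (nat_lit 0x0) (nat_lit 0x200010000000000000001c00074003a000000000000000000) := T_3 (nat_lit 92) (nat_lit 75) (nat_lit 6) (nat_lit 6) (nat_lit 8) L1086922 (by decide +kernel)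
theorem L1086924 : W_3 (nat_lit 8) (nat_lit 0x3c001e0001000080000000000000000000000) (nat_lit 0x0) (nat_lit 0x200010000c00000000001c00074003a000000000000000000) := T_3 (nat_lit 159) (nat_lit 158) (nat_lit 1) (nat_lit 9) (nat_lit 8) L1086923 (by decide +kernel)
theorem L1086925 : W_3 (nat_lit 9) (nat_lit 0x1c001e0001000080000000000000000000000) (nat_lit 0x0) (nat_lit 0x200010000c00600000001c00074003a000000000000000000) := T_3 (nat_lit 145) (nat_lit 146) (nat_lit 3) (nat_lit 6) (nat_lit 7) L1086924 (by decide +kernel)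
theorem L1086926 : W_3 (nat_lit 10) (nat_lit 0x1c001e0001000000000000000000000000000) (nat_lit 0x0) (nat_lit 0x200010000c00600000001c0007c003e000000000000000000) := T_3 (nat_lit 91) (nat_lit 74) (nat_lit 7) (nat_lit 6) (nat_lit 4) L1086925 (by decide +kernel)
theorem L1086927 : W_3 (nat_lit 11) (nat_lit 0x18001e0001000000000000000000000000000) (nat_lit 0x0) (nat_lit 0x200010000c00660000001c0007c003e000000000000000000) := T_3 (nat_lit 142) (nat_lit 141) (nat_lit 2) (nat_lit 5) (nat_lit 8) L1086926 (by decide +kernel)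
theorem L1086928 : W_3 (nat_lit 12) (nat_lit 0x18001e0000000000000000000000000000000) (nat_lit 0x0) (nat_lit 0x200010000c00660000001d8007c003e000000000000000000) := T_3 (nat_lit 108) (nat_lit 107) (nat_lit 0) (nat_lit 9) (nat_lit 7) L1086927 (by decide +kernel)
theorem L1086929 : W_3 (nat_lit 13) (nat_lit 0x18001a0000000000000000000000000000000) (nat_lit 0x0) (nat_lit 0x200010000c00660004001f800fc007e000000000000000000) := Q_3 (nat_lit 126) (C_3 L843531 (C_3 L1084768 (C_3 L1052872 (C_3 L1086917 (C_3 L1086928 N_3))))) (by decide +kernel)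
theorem L1086930 : W_3 (nat_lit 17) (nat_lit 0x1800180000000000000000000000000000000) (nat_lit 0x0) (nat_lit 0x300018038c01e700c7807fe03ff01ff003fc00f8005000000) := Q_3 (nat_lit 125) (C_3 L980812 (C_3 L1086199 (C_3 L1086200 (C_3 L1086913 (C_3 L1086929 N_3))))) (by decide +kernel)
theorem L1086931 : W_3 (nat_lit 18) (nat_lit 0x1800080000000000000000000000000000000) (nat_lit 0x0) (nat_lit 0x300118038c01e700f7807fe03ff01ff003fc00f8005000000) := Q_3 (nat_lit 128) (C_3 L822525 (C_3 L1052159 (C_3 L802142 (C_3 L1085760 (C_3 L1086930 N_3))))) (by decide +kernel)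
theorem L1086932 : W_3 (nat_lit 2) (nat_lit 0x2001e00088000000000000000000000000000000) (nat_lit 0x0) (nat_lit 0x1000100004000000000000000000000000000000) := D_3 (nat_lit 140) (nat_lit 156) (nat_lit 122) (nat_lit 1) (nat_lit 7) (nat_lit 8) (nat_lit 0) (nat_lit 7) (nat_lit 8) (by decide +kernel)
theorem L1086933 : W_3 (nat_lit 3) (nat_lit 0x2001e00080000000000000000000000000000000) (nat_lit 0x0) (nat_lit 0x100010001c000000000000000000000000000000) := T_3 (nat_lit 123) (nat_lit 124) (nat_lit 0) (nat_lit 8) (nat_lit 8) L1086932 (by decide +kernel)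
theorem L1086934 : W_3 (nat_lit 4) (nat_lit 0x1e00080000000000000000000000000000000) (nat_lit 0x0) (nat_lit 0x700010001c000000000000000000000000000000) := T_3 (nat_lit 157) (nat_lit 158) (nat_lit 1) (nat_lit 8) (nat_lit 8) L1086933 (by decide +kernel)
theorem L1086935 : W_3 (nat_lit 5) (nat_lit 0x1c00080000000000000000000000000000000) (nat_lit 0x0) (nat_lit 0x700030011c000000000000000000000000000000) := T_3 (nat_lit 141) (nat_lit 128) (nat_lit 2) (nat_lit 5) (nat_lit 8) L1086934 (by decide +kernel)
theorem L1086936 : W_3 (nat_lit 4) (nat_lit 0x4001e00080000000000000000000000000000000) (nat_lit 0x0) (nat_lit 0x2000100008002000018000800000000000000000000000000) := T_3 (nat_lit 124) (nat_lit 123) (nat_lit 0) (nat_lit 8) (nat_lit 8) L997602 (by decide +kernel)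
theorem L1086937 : W_3 (nat_lit 5) (nat_lit 0x4001c00080000000000000000000000000000000) (nat_lit 0x0) (nat_lit 0x200010000a002200018000800000000000000000000000000) := T_3 (nat_lit 141) (nat_lit 157) (nat_lit 1) (nat_lit 8) (nat_lit 8) L1086936 (by decide +kernel)
theorem L1086938 : W_3 (nat_lit 2) (nat_lit 0x6001c00080000000000000000000000000000000) (nat_lit 0x0) (nat_lit 0x19000000000000000000000000000000000000000) := D_3 (nat_lit 159) (nat_lit 156) (nat_lit 160) (nat_lit 2) (nat_lit 3) (nat_lit 9) (nat_lit 2) (nat_lit 4) (nat_lit 9) (by decide +kernel)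
theorem L1086939 : W_3 (nat_lit 3) (nat_lit 0x4001c00080000000000000000000000000000000) (nat_lit 0x0) (nat_lit 0x1b000200000000000000000000000000000000000) := T_3 (nat_lit 157) (nat_lit 141) (nat_lit 1) (nat_lit 8) (nat_lit 8) L1086938 (by decide +kernel)
theorem L1086940 : W_3 (nat_lit 2) (nat_lit 0xc001c00080000000000000000000000000000000) (nat_lit 0x0) (nat_lit 0x13000000000000000000000000000000000000000) := D_3 (nat_lit 157) (nat_lit 156) (nat_lit 160) (nat_lit 2) (nat_lit 3) (nat_lit 9) (nat_lit 2) (nat_lit 4) (nat_lit 9) (by decide +kernel)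
theorem L1086941 : W_3 (nat_lit 3) (nat_lit 0x4001c00080000000000000000000000000000000) (nat_lit 0x0) (nat_lit 0x1b002000000000000000000000000000000000000) := T_3 (nat_lit 159) (nat_lit 145) (nat_lit 1) (nat_lit 9) (nat_lit 8) L1086940 (by decide +kernel)
theorem L1086942 : W_3 (nat_lit 5) (nat_lit 0x4001c00080000000000000000000000000000000) (nat_lit 0x0) (nat_lit 0x80002002200038001000080000000000000000000000) := T_3 (nat_lit 141) (nat_lit 157) (nat_lit 1) (nat_lit 8) (nat_lit 8) L997607 (by decide +kernel)
theorem L1086943 : W_3 (nat_lit 2) (nat_lit 0x4001c000a0000000000000000000000000000000) (nat_lit 0x0) (nat_lit 0x8002000010000000000000000000000000000000) := D_3 (nat_lit 145) (nat_lit 159) (nat_lit 124) (nat_lit 1) (nat_lit 9) (nat_lit 8) (nat_lit 0) (nat_lit 9) (nat_lit 8) (by decide +kernel)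
theorem L1086944 : W_3 (nat_lit 2) (nat_lit 0x4001c000a0001000000000000000000000000000) (nat_lit 0x0) (nat_lit 0x10000200000000000080000000000000000000000) := D_3 (nat_lit 91) (nat_lit 141) (nat_lit 160) (nat_lit 5) (nat_lit 6) (nat_lit 5) (nat_lit 7) (nat_lit 6) (nat_lit 5) (by decide +kernel)
theorem L1086945 : W_3 (nat_lit 2) (nat_lit 0x4001c000a00010000c0000000000000000000000) (nat_lit 0x0) (nat_lit 0x80008000000000000800000000000000000000000000) := D_3 (nat_lit 159) (nat_lit 175) (nat_lit 107) (nat_lit 5) (nat_lit 6) (nat_lit 6) (nat_lit 4) (nat_lit 6) (nat_lit 9) (by decide +kernel)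
theorem L1086946 : W_3 (nat_lit 3) (nat_lit 0x4001c000a0001000080000000000000000000000) (nat_lit 0x0) (nat_lit 0x80008000000000000800040002000000000000000000) := T_3 (nat_lit 90) (nat_lit 73) (nat_lit 4) (nat_lit 6) (nat_lit 8) L1086945 (by decide +kernel)
theorem L1086947 : W_3 (nat_lit 4) (nat_lit 0x4001c000a0001000000000000000000000000000) (nat_lit 0x0) (nat_lit 0x800080002000000008000c0002000000000000000000) := T_3 (nat_lit 91) (nat_lit 141) (nat_lit 5) (nat_lit 6) (nat_lit 5) L1086946 (by decide +kernel)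
theorem L1086948 : W_3 (nat_lit 4) (nat_lit 0x4001c000a0001000000000000000000000000000) (nat_lit 0x0) (nat_lit 0x800180000000000008000c0002000000000000000000) := T_3 (nat_lit 91) (nat_lit 160) (nat_lit 7) (nat_lit 6) (nat_lit 5) L1086946 (by decide +kernel)
theorem L1086949 : W_3 (nat_lit 2) (nat_lit 0x1c001c000b0001800200000000000000000000000) (nat_lit 0x0) (nat_lit 0x20000c000000000000000000000000000000) := D_3 (nat_lit 123) (nat_lit 122) (nat_lit 141) (nat_lit 3) (nat_lit 3) (nat_lit 7) (nat_lit 0) (nat_lit 8) (nat_lit 8) (by decide +kernel)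
theorem L1086950 : W_3 (nat_lit 3) (nat_lit 0x1c001c000a0001800200000000000000000000000) (nat_lit 0x0) (nat_lit 0x10000000020001c000000000000000000000000000000) := T_3 (nat_lit 124) (nat_lit 176) (nat_lit 4) (nat_lit 6) (nat_lit 10) L1086949 (by decide +kernel)
theorem L1086951 : W_3 (nat_lit 4) (nat_lit 0x1c001c000a0001800000000000000000000000000) (nat_lit 0x0) (nat_lit 0x10000000020001c004000200000000000000000000000) := T_3 (nat_lit 93) (nat_lit 110) (nat_lit 5) (nat_lit 8) (nat_lit 5) L1086950 (by decide +kernel)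
theorem L1086952 : W_3 (nat_lit 5) (nat_lit 0xc001c000a0001800000000000000000000000000) (nat_lit 0x0) (nat_lit 0x30001000020001c004000200000000000000000000000) := T_3 (nat_lit 160) (nat_lit 177) (nat_lit 7) (nat_lit 6) (nat_lit 6) L1086951 (by decide +kernel)
theorem L1086953 : W_3 (nat_lit 6) (nat_lit 0xc001c000a0001000000000000000000000000000) (nat_lit 0x0) (nat_lit 0x30001000020001c004800240000000000000000000000) := T_3 (nat_lit 107) (nat_lit 90) (nat_lit 4) (nat_lit 6) (nat_lit 9) L1086952 (by decide +kernel)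
theorem L1086954 : W_3 (nat_lit 7) (nat_lit 0x4001c000a0001000000000000000000000000000) (nat_lit 0x0) (nat_lit 0x38001800020001c004800240000000000000000000000) := T_3 (nat_lit 159) (nat_lit 175) (nat_lit 5) (nat_lit 6) (nat_lit 6) L1086953 (by decide +kernel)
theorem L1086955 : W_3 (nat_lit 8) (nat_lit 0x4001c000a0000000000000000000000000000000) (nat_lit 0x0) (nat_lit 0x38001800020001c0058002c0002000000000000000000) := Q_3 (nat_lit 108) (C_3 L1086944 (C_3 L1086947 (C_3 L1086948 (C_3 L1086954 N_3)))) (by decide +kernel)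
theorem L1086956 : W_3 (nat_lit 2) (nat_lit 0x4001c000b0000000000000000000000000000000) (nat_lit 0x0) (nat_lit 0x20000c000000000000000000000000000000) := D_3 (nat_lit 123) (nat_lit 141) (nat_lit 122) (nat_lit 0) (nat_lit 8) (nat_lit 8) (nat_lit 3) (nat_lit 3) (nat_lit 7) (by decide +kernel)
theorem L1086957 : W_3 (nat_lit 3) (nat_lit 0x4001c000a0000000000000000000000000000000) (nat_lit 0x0) (nat_lit 0x220001c000000000000000000000000000000) := T_3 (nat_lit 124) (nat_lit 145) (nat_lit 0) (nat_lit 9) (nat_lit 8) L1086956 (by decide +kernel)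
theorem L1086958 : W_3 (nat_lit 2) (nat_lit 0xc001c000a0001000000000000000000000000000) (nat_lit 0x0) (nat_lit 0x10000200000000000080000000000000000000000) := D_3 (nat_lit 91) (nat_lit 141) (nat_lit 160) (nat_lit 5) (nat_lit 6) (nat_lit 5) (nat_lit 7) (nat_lit 6) (nat_lit 5) (by decide +kernel)
theorem L1086959 : W_3 (nat_lit 3) (nat_lit 0xc001c000a0000000000000000000000000000000) (nat_lit 0x0) (nat_lit 0x80010000200000001000080000000000000000000000) := T_3 (nat_lit 108) (nat_lit 175) (nat_lit 5) (nat_lit 6) (nat_lit 6) L1086958 (by decide +kernel)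
theorem L1086960 : W_3 (nat_lit 4) (nat_lit 0x4001c000a0000000000000000000000000000000) (nat_lit 0x0) (nat_lit 0x80018002200000001000080000000000000000000000) := T_3 (nat_lit 159) (nat_lit 145) (nat_lit 1) (nat_lit 9) (nat_lit 8) L1086959 (by decide +kernel)
theorem L1086961 : W_3 (nat_lit 9) (nat_lit 0x4001c00080000000000000000000000000000000) (nat_lit 0x0) (nat_lit 0x38001800220003c0058002c0002000000000000000000) := Q_3 (nat_lit 125) (C_3 L1086943 (C_3 L1086955 (C_3 L1086957 (C_3 L1086960 N_3)))) (by decide +kernel)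
theorem L1086962 : W_3 (nat_lit 10) (nat_lit 0x1c00080000000000000000000000000000000) (nat_lit 0x0) (nat_lit 0x200038001f00220003c0058002c0002000000000000000000) := Q_3 (nat_lit 158) (C_3 L1086937 (C_3 L1086939 (C_3 L1086941 (C_3 L1086942 (C_3 L1086961 N_3))))) (by decide +kernel)
theorem L1086963 : W_3 (nat_lit 4) (nat_lit 0x3c000a0005000000000000000000000000000) (nat_lit 0x0) (nat_lit 0xc000000300002800040000000000000000000000) := T_3 (nat_lit 128) (nat_lit 129) (nat_lit 2) (nat_lit 6) (nat_lit 8) L1086678 (by decide +kernel)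
theorem L1086964 : W_3 (nat_lit 2) (nat_lit 0x3c001a00050001c0000000000000000000000) (nat_lit 0x0) (nat_lit 0xc000000000000800000000000000000000000000) := D_3 (nat_lit 159) (nat_lit 158) (nat_lit 107) (nat_lit 1) (nat_lit 9) (nat_lit 8) (nat_lit 4) (nat_lit 6) (nat_lit 9) (by decide +kernel)
theorem L1086965 : W_3 (nat_lit 3) (nat_lit 0x3c001a0005000180000000000000000000000) (nat_lit 0x0) (nat_lit 0xc000000000000800040002000000000000000000) := T_3 (nat_lit 90) (nat_lit 73) (nat_lit 4) (nat_lit 6) (nat_lit 8) L1086964 (by decide +kernel)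
theorem L1086966 : W_3 (nat_lit 4) (nat_lit 0x3c001a0005000080000000000000000000000) (nat_lit 0x0) (nat_lit 0xc00000000000080014000a000000000000000000) := T_3 (nat_lit 92) (nat_lit 75) (nat_lit 6) (nat_lit 6) (nat_lit 8) L1086965 (by decide +kernel)
theorem L1086967 : W_3 (nat_lit 5) (nat_lit 0x3c001a0005000000000000000000000000000) (nat_lit 0x0) (nat_lit 0x1c0000000000008001c000a000000000000000000) := T_3 (nat_lit 91) (nat_lit 160) (nat_lit 7) (nat_lit 6) (nat_lit 5) L1086966 (by decide +kernel)
theorem L1086968 : W_3 (nat_lit 6) (nat_lit 0x3c000a0005000000000000000000000000000) (nat_lit 0x0) (nat_lit 0x1c0000003000008001c000a000000000000000000) := T_3 (nat_lit 128) (nat_lit 129) (nat_lit 2) (nat_lit 6) (nat_lit 8) L1086967 (by decide +kernel)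
theorem L1086969 : W_3 (nat_lit 2) (nat_lit 0x8003c000a0005000000000000000000000000000) (nat_lit 0x0) (nat_lit 0x200010000000000000000080000000000000000000000) := D_3 (nat_lit 160) (nat_lit 91) (nat_lit 177) (nat_lit 7) (nat_lit 6) (nat_lit 5) (nat_lit 7) (nat_lit 6) (nat_lit 6) (by decide +kernel)
theorem L1086970 : W_3 (nat_lit 3) (nat_lit 0x3c000a0005000000000000000000000000000) (nat_lit 0x0) (nat_lit 0x20001c000000000000000080000000000000000000000) := T_3 (nat_lit 159) (nat_lit 158) (nat_lit 1) (nat_lit 9) (nat_lit 8) L1086969 (by decide +kernel)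
theorem L1086971 : W_3 (nat_lit 2) (nat_lit 0x3c000a00050001c0000000000000000000000) (nat_lit 0x0) (nat_lit 0xa000020000000000000000000000) := D_3 (nat_lit 109) (nat_lit 89) (nat_lit 111) (nat_lit 3) (nat_lit 4) (nat_lit 5) (nat_lit 0) (nat_lit 9) (nat_lit 6) (by decide +kernel)
theorem L1086972 : W_3 (nat_lit 3) (nat_lit 0x3c000a0005000180000000000000000000000) (nat_lit 0x0) (nat_lit 0xa000060002000000000000000000) := T_3 (nat_lit 90) (nat_lit 73) (nat_lit 4) (nat_lit 6) (nat_lit 8) L1086971 (by decide +kernel)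
theorem L1086973 : W_3 (nat_lit 4) (nat_lit 0x3c000a0005000080000000000000000000000) (nat_lit 0x0) (nat_lit 0xa00016000a000000000000000000) := T_3 (nat_lit 92) (nat_lit 75) (nat_lit 6) (nat_lit 6) (nat_lit 8) L1086972 (by decide +kernel)
theorem L1086974 : W_3 (nat_lit 5) (nat_lit 0x3c000a0005000000000000000000000000000) (nat_lit 0x0) (nat_lit 0x1000000000000a0001e000a000000000000000000) := T_3 (nat_lit 91) (nat_lit 160) (nat_lit 7) (nat_lit 6) (nat_lit 5) L1086973 (by decide +kernel)
theorem L1086975 : W_3 (nat_lit 7) (nat_lit 0x3c000a0004000000000000000000000000000) (nat_lit 0x0) (nat_lit 0x20001c00000030000b8001e000a000000000000000000) := Q_3 (nat_lit 108) (C_3 L1086963 (C_3 L1086968 (C_3 L1086970 (C_3 L1086974 N_3)))) (by decide +kernel)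
theorem L1086976 : W_3 (nat_lit 8) (nat_lit 0x3c00080004000000000000000000000000000) (nat_lit 0x0) (nat_lit 0x20001c00000033000b8001e000a000000000000000000) := T_3 (nat_lit 125) (nat_lit 124) (nat_lit 0) (nat_lit 9) (nat_lit 8) L1086975 (by decide +kernel)
theorem L1086977 : W_3 (nat_lit 2) (nat_lit 0x3c00080004000300010000000000000000000) (nat_lit 0x0) (nat_lit 0x400020001000000000000000) := D_3 (nat_lit 77) (nat_lit 60) (nat_lit 94) (nat_lit 6) (nat_lit 8) (nat_lit 7) (nat_lit 6) (nat_lit 8) (nat_lit 8) (by decide +kernel)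
theorem L1086978 : W_3 (nat_lit 3) (nat_lit 0x3c00080004000300000000000000000000000) (nat_lit 0x0) (nat_lit 0x100000000400030001000000000000000) := T_3 (nat_lit 76) (nat_lit 128) (nat_lit 7) (nat_lit 8) (nat_lit 4) L1086977 (by decide +kernel)
theorem L1086979 : W_3 (nat_lit 4) (nat_lit 0x3c00080004000200000000000000000000000) (nat_lit 0x0) (nat_lit 0x100000000500038001000000000000000) := T_3 (nat_lit 92) (nat_lit 75) (nat_lit 4) (nat_lit 8) (nat_lit 8) L1086978 (by decide +kernel)
theorem L1086980 : W_3 (nat_lit 5) (nat_lit 0x3c00080004000000000000000000000000000) (nat_lit 0x0) (nat_lit 0x10000000100000000700038001000000000000000) := T_3 (nat_lit 93) (nat_lit 160) (nat_lit 5) (nat_lit 8) (nat_lit 5) L1086979 (by decide +kernel)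
theorem L1086981 : W_3 (nat_lit 2) (nat_lit 0x8003c001a0005000700000000000000000000000) (nat_lit 0x0) (nat_lit 0x8000c0000000000000000000000) := D_3 (nat_lit 107) (nat_lit 90) (nat_lit 91) (nat_lit 4) (nat_lit 6) (nat_lit 9) (nat_lit 1) (nat_lit 9) (nat_lit 5) (by decide +kernel)
theorem L1086982 : W_3 (nat_lit 3) (nat_lit 0x8003c001a0004000700000000000000000000000) (nat_lit 0x0) (nat_lit 0x38000c0000000000000000000000) := T_3 (nat_lit 108) (nat_lit 109) (nat_lit 6) (nat_lit 6) (nat_lit 9) L1086981 (by decide +kernel)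
theorem L1086983 : W_3 (nat_lit 4) (nat_lit 0x3c001a0004000700000000000000000000000) (nat_lit 0x0) (nat_lit 0xc0000000000038000c0000000000000000000000) := T_3 (nat_lit 159) (nat_lit 158) (nat_lit 1) (nat_lit 9) (nat_lit 8) L1086982 (by decide +kernel)
theorem L1086984 : W_3 (nat_lit 5) (nat_lit 0x3c001a0004000300000000000000000000000) (nat_lit 0x0) (nat_lit 0xc0000000000038004c0020000000000000000000) := T_3 (nat_lit 94) (nat_lit 77) (nat_lit 6) (nat_lit 8) (nat_lit 8) L1086983 (by decide +kernel)
theorem L1086985 : W_3 (nat_lit 6) (nat_lit 0x3c001a0004000200000000000000000000000) (nat_lit 0x0) (nat_lit 0xc0000000000038005c0028000000000000000000) := T_3 (nat_lit 92) (nat_lit 75) (nat_lit 4) (nat_lit 8) (nat_lit 8) L1086984 (by decide +kernel)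
theorem L1086986 : W_3 (nat_lit 7) (nat_lit 0x3c00180004000200000000000000000000000) (nat_lit 0x0) (nat_lit 0xc0000000300038005c0028000000000000000000) := T_3 (nat_lit 125) (nat_lit 124) (nat_lit 0) (nat_lit 9) (nat_lit 8) L1086985 (by decide +kernel)
theorem L1086987 : W_3 (nat_lit 8) (nat_lit 0x3c00180004000000000000000000000000000) (nat_lit 0x0) (nat_lit 0xc0000000300038007c0038000000000000000000) := T_3 (nat_lit 93) (nat_lit 76) (nat_lit 7) (nat_lit 8) (nat_lit 4) L1086986 (by decide +kernel)
theorem L1086988 : W_3 (nat_lit 9) (nat_lit 0x3c00080004000000000000000000000000000) (nat_lit 0x0) (nat_lit 0xc0000003300038007c0038000000000000000000) := T_3 (nat_lit 128) (nat_lit 129) (nat_lit 2) (nat_lit 6) (nat_lit 8) L1086987 (by decide +kernel)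
theorem L1086989 : W_3 (nat_lit 2) (nat_lit 0x8003c000a0005000700000000000000000000000) (nat_lit 0x0) (nat_lit 0x8000c0000000000000000000000) := D_3 (nat_lit 107) (nat_lit 90) (nat_lit 91) (nat_lit 4) (nat_lit 6) (nat_lit 9) (nat_lit 1) (nat_lit 9) (nat_lit 5) (by decide +kernel)
theorem L1086990 : W_3 (nat_lit 3) (nat_lit 0x8003c000a0004000700000000000000000000000) (nat_lit 0x0) (nat_lit 0x38000c0000000000000000000000) := T_3 (nat_lit 108) (nat_lit 109) (nat_lit 6) (nat_lit 6) (nat_lit 9) L1086989 (by decide +kernel)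
theorem L1086991 : W_3 (nat_lit 4) (nat_lit 0x8003c00080004000700000000000000000000000) (nat_lit 0x0) (nat_lit 0x300038000c0000000000000000000000) := T_3 (nat_lit 125) (nat_lit 124) (nat_lit 0) (nat_lit 9) (nat_lit 8) L1086990 (by decide +kernel)
theorem L1086992 : W_3 (nat_lit 5) (nat_lit 0x8003c00080004000300000000000000000000000) (nat_lit 0x0) (nat_lit 0x300038004c0020000000000000000000) := T_3 (nat_lit 94) (nat_lit 77) (nat_lit 6) (nat_lit 8) (nat_lit 8) L1086991 (by decide +kernel)
theorem L1086993 : W_3 (nat_lit 6) (nat_lit 0x8003c00080004000200000000000000000000000) (nat_lit 0x0) (nat_lit 0x300038005c0028000000000000000000) := T_3 (nat_lit 92) (nat_lit 75) (nat_lit 4) (nat_lit 8) (nat_lit 8) L1086992 (by decide +kernel)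
theorem L1086994 : W_3 (nat_lit 7) (nat_lit 0x8003c00080004000000000000000000000000000) (nat_lit 0x0) (nat_lit 0x100000000300038007c0028000000000000000000) := T_3 (nat_lit 93) (nat_lit 160) (nat_lit 5) (nat_lit 8) (nat_lit 5) L1086993 (by decide +kernel)
theorem L1086995 : W_3 (nat_lit 8) (nat_lit 0x3c00080004000000000000000000000000000) (nat_lit 0x0) (nat_lit 0x1c0000000300038007c0028000000000000000000) := T_3 (nat_lit 159) (nat_lit 158) (nat_lit 1) (nat_lit 9) (nat_lit 8) L1086994 (by decide +kernel)
theorem L1086996 : W_3 (nat_lit 2) (nat_lit 0x3c001a0004000000000000000000000000000) (nat_lit 0x0) (nat_lit 0x10000000000000000200010000000000000000000) := D_3 (nat_lit 93) (nat_lit 76) (nat_lit 160) (nat_lit 7) (nat_lit 8) (nat_lit 4) (nat_lit 5) (nat_lit 8) (nat_lit 5) (by decide +kernel)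
theorem L1086997 : W_3 (nat_lit 3) (nat_lit 0x3c000a0004000000000000000000000000000) (nat_lit 0x0) (nat_lit 0x10000000300000000200010000000000000000000) := T_3 (nat_lit 128) (nat_lit 129) (nat_lit 2) (nat_lit 6) (nat_lit 8) L1086996 (by decide +kernel)
theorem L1086998 : W_3 (nat_lit 4) (nat_lit 0x3c00080004000000000000000000000000000) (nat_lit 0x0) (nat_lit 0x10000000330000000200010000000000000000000) := T_3 (nat_lit 125) (nat_lit 124) (nat_lit 0) (nat_lit 9) (nat_lit 8) L1086997 (by decide +kernel)
theorem L1086999 : W_3 (nat_lit 10) (nat_lit 0x3c00080000000000000000000000000000000) (nat_lit 0x0) (nat_lit 0x20001c00000033000f8007e003a001000000000000000) := Q_3 (nat_lit 110) (C_3 L1086976 (C_3 L1086980 (C_3 L1086988 (C_3 L1086995 (C_3 L1086998 N_3))))) (by decide +kernel)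
theorem L1087000 : W_3 (nat_lit 2) (nat_lit 0x10000fc008a0000000000000000000000000000000) (nat_lit 0x0) (nat_lit 0x10001100000000000000000000000000000000) := D_3 (nat_lit 148) (nat_lit 128) (nat_lit 132) (nat_lit 0) (nat_lit 12) (nat_lit 8) (nat_lit 2) (nat_lit 9) (nat_lit 8) (by decide +kernel)
theorem L1087001 : W_3 (nat_lit 3) (nat_lit 0x10000fc000a0000000000000000000000000000000) (nat_lit 0x0) (nat_lit 0x10001d00000000000000000000000000000000) := T_3 (nat_lit 131) (nat_lit 130) (nat_lit 2) (nat_lit 8) (nat_lit 8) L1087000 (by decide +kernel)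
theorem L1087002 : W_3 (nat_lit 4) (nat_lit 0x100007c000a0000000000000000000000000000000) (nat_lit 0x0) (nat_lit 0x200018001d00000000000000000000000000000000) := T_3 (nat_lit 147) (nat_lit 165) (nat_lit 3) (nat_lit 8) (nat_lit 8) L1087001 (by decide +kernel)
theorem L1087003 : W_3 (nat_lit 5) (nat_lit 0x100007c00080000000000000000000000000000000) (nat_lit 0x0) (nat_lit 0x200018001d30000000000000000000000000000000) := T_3 (nat_lit 125) (nat_lit 124) (nat_lit 0) (nat_lit 9) (nat_lit 8) L1087002 (by decide +kernel)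
theorem L1087004 : W_3 (nat_lit 6) (nat_lit 0x7c00080000000000000000000000000000000) (nat_lit 0x0) (nat_lit 0x380018001d30000000000000000000000000000000) := T_3 (nat_lit 164) (nat_lit 163) (nat_lit 3) (nat_lit 7) (nat_lit 8) L1087003 (by decide +kernel)
theorem L1087005 : W_3 (nat_lit 7) (nat_lit 0x3c00080000000000000000000000000000000) (nat_lit 0x0) (nat_lit 0x38001c001f30000000000000000000000000000000) := Q_3 (nat_lit 146) (C_3 L997654 (C_3 L1087004 (C_3 L997651 (C_3 L997645 N_3)))) (by decide +kernel)
theorem L1087006 : W_3 (nat_lit 11) (nat_lit 0x1c00080000000000000000000000000000000) (nat_lit 0x0) (nat_lit 0x20039c01e001f3000f8007e003a001000000000000000) := Q_3 (nat_lit 145) (C_3 L998208 (C_3 L997644 (C_3 L997655 (C_3 L997661 (C_3 L1086999 (C_3 L1087005 N_3)))))) (by decide +kernel)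
theorem L1087007 : W_3 (nat_lit 2) (nat_lit 0x1c00180000000000000000000000000000000) (nat_lit 0x0) (nat_lit 0x2000600000000000000000000000000000000) := D_3 (nat_lit 129) (nat_lit 130) (nat_lit 145) (nat_lit 1) (nat_lit 11) (nat_lit 7) (nat_lit 2) (nat_lit 6) (nat_lit 8) (by decide +kernel)
theorem L1087008 : W_3 (nat_lit 3) (nat_lit 0x1c00080000000000000000000000000000000) (nat_lit 0x0) (nat_lit 0x2200700000000000000000000000000000000) := T_3 (nat_lit 128) (nat_lit 141) (nat_lit 2) (nat_lit 5) (nat_lit 8) L1087007 (by decide +kernel)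
theorem L1087009 : W_3 (nat_lit 12) (nat_lit 0x1800080000000000000000000000000000000) (nat_lit 0x0) (nat_lit 0x200038039f01e701f3c00f8007e003a001000000000000000) := Q_3 (nat_lit 142) (C_3 L1086935 (C_3 L1086962 (C_3 L1087006 (C_3 L1087008 N_3)))) (by decide +kernel)
theorem L1101207 : W_3 (nat_lit 2) (nat_lit 0x10001c000f0001800000000000000000000000000) (nat_lit 0x0) (nat_lit 0x8000000000000000040002000000000000000000) := D_3 (nat_lit 90) (nat_lit 73) (nat_lit 159) (nat_lit 7) (nat_lit 5) (nat_lit 4) (nat_lit 4) (nat_lit 6) (nat_lit 9) (by decide +kernel)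
theorem L1101208 : W_3 (nat_lit 3) (nat_lit 0x10001c000f0001000000000000000000000000000) (nat_lit 0x0) (nat_lit 0x8000000000000c00040002000000000000000000) := T_3 (nat_lit 107) (nat_lit 106) (nat_lit 0) (nat_lit 8) (nat_lit 7) L1101207 (by decide +kernel)
theorem L1101209 : W_3 (nat_lit 4) (nat_lit 0x10001c000f0000000000000000000000000000000) (nat_lit 0x0) (nat_lit 0x8000000000001c000c0002000000000000000000) := T_3 (nat_lit 108) (nat_lit 91) (nat_lit 7) (nat_lit 6) (nat_lit 5) L1101208 (by decide +kernel)
theorem L1101210 : W_3 (nat_lit 5) (nat_lit 0x10001c000e0000000000000000000000000000000) (nat_lit 0x0) (nat_lit 0x8000000018001c000c0002000000000000000000) := T_3 (nat_lit 124) (nat_lit 123) (nat_lit 3) (nat_lit 4) (nat_lit 7) L1101209 (by decide +kernel)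
theorem L1101211 : W_3 (nat_lit 2) (nat_lit 0x1000000014001e000f0004800080000000000000000000000) (nat_lit 0x0) (nat_lit 0x40006000000000000000000) := D_3 (nat_lit 90) (nat_lit 73) (nat_lit 74) (nat_lit 7) (nat_lit 5) (nat_lit 4) (nat_lit 6) (nat_lit 5) (nat_lit 8) (by decide +kernel)
theorem L1101212 : W_3 (nat_lit 3) (nat_lit 0x1000000014001e000f0004000080000000000000000000000) (nat_lit 0x0) (nat_lit 0xc00040006000000000000000000) := T_3 (nat_lit 107) (nat_lit 106) (nat_lit 0) (nat_lit 8) (nat_lit 7) L1101211 (by decide +kernel)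
theorem L1101213 : W_3 (nat_lit 4) (nat_lit 0x14001e000f0004000080000000000000000000000) (nat_lit 0x0) (nat_lit 0x1000080000000000000000c00040006000000000000000000) := T_3 (nat_lit 192) (nat_lit 175) (nat_lit 6) (nat_lit 5) (nat_lit 11) L1101212 (by decide +kernel)
theorem L1101214 : W_3 (nat_lit 5) (nat_lit 0x14001e000f0000000080000000000000000000000) (nat_lit 0x0) (nat_lit 0x100008000000000000000cc00040006000000000000000000) := T_3 (nat_lit 110) (nat_lit 111) (nat_lit 2) (nat_lit 5) (nat_lit 7) L1101213 (by decide +kernel)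
theorem L1101215 : W_3 (nat_lit 6) (nat_lit 0x10001e000f0000000080000000000000000000000) (nat_lit 0x0) (nat_lit 0x100008000600000000000cc00040006000000000000000000) := T_3 (nat_lit 158) (nat_lit 157) (nat_lit 1) (nat_lit 8) (nat_lit 8) L1101214 (by decide +kernel)
theorem L1101216 : W_3 (nat_lit 7) (nat_lit 0x10001e000e0000000080000000000000000000000) (nat_lit 0x0) (nat_lit 0x100008000600000001800cc00040006000000000000000000) := T_3 (nat_lit 124) (nat_lit 123) (nat_lit 3) (nat_lit 4) (nat_lit 7) L1101215 (by decide +kernel)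
theorem L1101217 : W_3 (nat_lit 8) (nat_lit 0x10001c000e0000000080000000000000000000000) (nat_lit 0x0) (nat_lit 0x100008000600030001800cc00040006000000000000000000) := T_3 (nat_lit 141) (nat_lit 140) (nat_lit 2) (nat_lit 4) (nat_lit 8) L1101216 (by decide +kernel)
theorem L1101218 : W_3 (nat_lit 9) (nat_lit 0x10001c000e0000000000000000000000000000000) (nat_lit 0x0) (nat_lit 0x100008000600030001800dc000c0006000000000000000000) := T_3 (nat_lit 91) (nat_lit 108) (nat_lit 7) (nat_lit 6) (nat_lit 5) L1101217 (by decide +kernel)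
theorem L1101219 : W_3 (nat_lit 3) (nat_lit 0x10001e000f0000000000000000000000000000000) (nat_lit 0x0) (nat_lit 0x8000000000000c00040002000000000000000000) := T_3 (nat_lit 107) (nat_lit 106) (nat_lit 0) (nat_lit 8) (nat_lit 7) L1075492 (by decide +kernel)
theorem L1101220 : W_3 (nat_lit 4) (nat_lit 0x10001c000f0000000000000000000000000000000) (nat_lit 0x0) (nat_lit 0x8000300000000c00040002000000000000000000) := T_3 (nat_lit 141) (nat_lit 140) (nat_lit 2) (nat_lit 4) (nat_lit 8) L1101219 (by decide +kernel)
theorem L1101221 : W_3 (nat_lit 5) (nat_lit 0x10001c000e0000000000000000000000000000000) (nat_lit 0x0) (nat_lit 0x8000300018000c00040002000000000000000000) := T_3 (nat_lit 124) (nat_lit 123) (nat_lit 3) (nat_lit 4) (nat_lit 7) L1101220 (by decide +kernel)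
theorem L1101222 : W_3 (nat_lit 2) (nat_lit 0x14001e000e0001000000000000000000000000000) (nat_lit 0x0) (nat_lit 0x1000080008000000000000000000000000000000000000000) := D_3 (nat_lit 175) (nat_lit 192) (nat_lit 159) (nat_lit 6) (nat_lit 5) (nat_lit 11) (nat_lit 5) (nat_lit 6) (nat_lit 6) (by decide +kernel)
theorem L1101223 : W_3 (nat_lit 3) (nat_lit 0x10001e000e0001000000000000000000000000000) (nat_lit 0x0) (nat_lit 0x100008000e000000000000000000000000000000000000000) := T_3 (nat_lit 158) (nat_lit 157) (nat_lit 1) (nat_lit 8) (nat_lit 8) L1101222 (by decide +kernel)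
theorem L1101224 : W_3 (nat_lit 4) (nat_lit 0x10001e000e0000000000000000000000000000000) (nat_lit 0x0) (nat_lit 0x100008000e000000000001000080000000000000000000000) := T_3 (nat_lit 108) (nat_lit 91) (nat_lit 7) (nat_lit 6) (nat_lit 5) L1101223 (by decide +kernel)
theorem L1101225 : W_3 (nat_lit 5) (nat_lit 0x10001c000e0000000000000000000000000000000) (nat_lit 0x0) (nat_lit 0x100008000e000300000001000080000000000000000000000) := T_3 (nat_lit 141) (nat_lit 140) (nat_lit 2) (nat_lit 4) (nat_lit 8) L1101224 (by decide +kernel)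
theorem L1101226 : W_3 (nat_lit 10) (nat_lit 0x100018000e0000000000000000000000000000000) (nat_lit 0x0) (nat_lit 0x100008000e00070001800dc000c0006000000000000000000) := Q_3 (nat_lit 142) (C_3 L1101210 (C_3 L1101218 (C_3 L1101221 (C_3 L1101225 N_3)))) (by decide +kernel)
theorem L1101227 : W_3 (nat_lit 11) (nat_lit 0x18000e0000000000000000000000000000000) (nat_lit 0x0) (nat_lit 0xf0007c001e00070001800dc000c0006000000000000000000) := Q_3 (nat_lit 160) (C_3 L616513 (C_3 L1027478 (C_3 L1101226 (C_3 L985902 N_3)))) (by decide +kernel)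
theorem L1101228 : W_3 (nat_lit 12) (nat_lit 0x18000c0000000000000000000000000000000) (nat_lit 0x0) (nat_lit 0xf000fc001e00670003800fc001c000e000000000000000000) := Q_3 (nat_lit 125) (C_3 L979459 (C_3 L1101227 (C_3 L616534 N_3))) (by decide +kernel)
theorem L1101230 : W_3 (nat_lit 9) (nat_lit 0x18000c0000000000000000000000000000000) (nat_lit 0x0) (nat_lit 0xf000f8001e006700038003c001c000e000000000000000000) := Q_3 (nat_lit 125) (C_3 L979459 (C_3 L1101229 (C_3 L616534 N_3))) (by decide +kernel)
theorem L1101233 : W_3 (nat_lit 3) (nat_lit 0x8003c000c0000000000000000000000000000000) (nat_lit 0x0) (nat_lit 0x2000100000000000030002000000000000000000000000000) := T_3 (nat_lit 125) (nat_lit 124) (nat_lit 3) (nat_lit 5) (nat_lit 7) L617146 (by decide +kernel)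
theorem L1101234 : W_3 (nat_lit 4) (nat_lit 0x3c000c0000000000000000000000000000000) (nat_lit 0x0) (nat_lit 0x200010000c000000030002000000000000000000000000000) := T_3 (nat_lit 159) (nat_lit 158) (nat_lit 1) (nat_lit 9) (nat_lit 8) L1101233 (by decide +kernel)
theorem L1102655 : W_3 (nat_lit 2) (nat_lit 0x1a000d0007800040008000000000000000000) (nat_lit 0x0) (nat_lit 0x8000080004000000000000000000) := D_3 (nat_lit 91) (nat_lit 111) (nat_lit 74) (nat_lit 0) (nat_lit 9) (nat_lit 6) (nat_lit 6) (nat_lit 5) (nat_lit 8) (by decide +kernel)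
theorem L1102656 : W_3 (nat_lit 3) (nat_lit 0x1a000d0007800000008000000000000000000) (nat_lit 0x0) (nat_lit 0x80000e0004000000000000000000) := T_3 (nat_lit 90) (nat_lit 89) (nat_lit 0) (nat_lit 8) (nat_lit 6) L1102655 (by decide +kernel)
theorem L1102657 : W_3 (nat_lit 4) (nat_lit 0x1a000d0003800000008000000000000000000) (nat_lit 0x0) (nat_lit 0x800c0000e0004000000000000000000) := T_3 (nat_lit 110) (nat_lit 123) (nat_lit 1) (nat_lit 8) (nat_lit 6) L1102656 (by decide +kernel)
theorem L1102658 : W_3 (nat_lit 5) (nat_lit 0x1a000d0003800000000000000000000000000) (nat_lit 0x0) (nat_lit 0x800c0001e000c000000000000000000) := T_3 (nat_lit 75) (nat_lit 92) (nat_lit 7) (nat_lit 7) (nat_lit 4) L1102657 (by decide +kernel)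
theorem L1102659 : W_3 (nat_lit 6) (nat_lit 0x1a000d0002800000000000000000000000000) (nat_lit 0x0) (nat_lit 0x800d4001e000c000000000000000000) := T_3 (nat_lit 108) (nat_lit 106) (nat_lit 3) (nat_lit 4) (nat_lit 6) L1102658 (by decide +kernel)
theorem L1102660 : W_3 (nat_lit 2) (nat_lit 0x1a000d00028003c0000000000000000000000) (nat_lit 0x0) (nat_lit 0x20003000000000000000000) := D_3 (nat_lit 72) (nat_lit 73) (nat_lit 89) (nat_lit 0) (nat_lit 8) (nat_lit 5) (nat_lit 4) (nat_lit 5) (nat_lit 8) (by decide +kernel)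
theorem L1102661 : W_3 (nat_lit 3) (nat_lit 0x1a000d0002800380000000000000000000000) (nat_lit 0x0) (nat_lit 0x400060003000000000000000000) := T_3 (nat_lit 90) (nat_lit 106) (nat_lit 1) (nat_lit 8) (nat_lit 5) L1102660 (by decide +kernel)
theorem L1102662 : W_3 (nat_lit 4) (nat_lit 0x1a000d0002800300000000000000000000000) (nat_lit 0x0) (nat_lit 0x4000e0007000000000000000000) := T_3 (nat_lit 91) (nat_lit 74) (nat_lit 4) (nat_lit 7) (nat_lit 8) L1102661 (by decide +kernel)
theorem L1102663 : W_3 (nat_lit 5) (nat_lit 0x1a000d0002800100000000000000000000000) (nat_lit 0x0) (nat_lit 0x4002e0017000000000000000000) := T_3 (nat_lit 93) (nat_lit 76) (nat_lit 6) (nat_lit 7) (nat_lit 8) L1102662 (by decide +kernel)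
theorem L1102664 : W_3 (nat_lit 6) (nat_lit 0x1a000d0002800000000000000000000000000) (nat_lit 0x0) (nat_lit 0x4003e001f000000000000000000) := T_3 (nat_lit 92) (nat_lit 75) (nat_lit 7) (nat_lit 7) (nat_lit 4) L1102663 (by decide +kernel)
theorem L1102665 : W_3 (nat_lit 2) (nat_lit 0x1a000d0007800000000000000000000000000) (nat_lit 0x0) (nat_lit 0x600010000000000000000000) := D_3 (nat_lit 93) (nat_lit 94) (nat_lit 76) (nat_lit 2) (nat_lit 5) (nat_lit 6) (nat_lit 5) (nat_lit 8) (nat_lit 4) (by decide +kernel)
theorem L1102666 : W_3 (nat_lit 3) (nat_lit 0x1a000d0003800000000000000000000000000) (nat_lit 0x0) (nat_lit 0x8004000600010000000000000000000) := T_3 (nat_lit 110) (nat_lit 123) (nat_lit 1) (nat_lit 8) (nat_lit 6) L1102665 (by decide +kernel)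
theorem L1102667 : W_3 (nat_lit 4) (nat_lit 0x1a000d0002800000000000000000000000000) (nat_lit 0x0) (nat_lit 0x8005400600010000000000000000000) := T_3 (nat_lit 108) (nat_lit 106) (nat_lit 3) (nat_lit 4) (nat_lit 6) L1102666 (by decide +kernel)
theorem L1102668 : W_3 (nat_lit 2) (nat_lit 0x1a000d0002800780000000000000000000000) (nat_lit 0x0) (nat_lit 0x4000000060000000000000000000) := D_3 (nat_lit 77) (nat_lit 110) (nat_lit 78) (nat_lit 6) (nat_lit 8) (nat_lit 8) (nat_lit 2) (nat_lit 6) (nat_lit 5) (by decide +kernel)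
theorem L1102669 : W_3 (nat_lit 3) (nat_lit 0x1a000d0002800380000000000000000000000) (nat_lit 0x0) (nat_lit 0x5000400060000000000000000000) := T_3 (nat_lit 94) (nat_lit 108) (nat_lit 1) (nat_lit 9) (nat_lit 5) L1102668 (by decide +kernel)
theorem L1102670 : W_3 (nat_lit 4) (nat_lit 0x1a000d0002800300000000000000000000000) (nat_lit 0x0) (nat_lit 0x5000480064000000000000000000) := T_3 (nat_lit 91) (nat_lit 74) (nat_lit 4) (nat_lit 7) (nat_lit 8) L1102669 (by decide +kernel)
theorem L1102671 : W_3 (nat_lit 5) (nat_lit 0x1a000d0002800100000000000000000000000) (nat_lit 0x0) (nat_lit 0x5000680074000000000000000000) := T_3 (nat_lit 93) (nat_lit 76) (nat_lit 6) (nat_lit 7) (nat_lit 8) L1102670 (by decide +kernel)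
theorem L1102672 : W_3 (nat_lit 6) (nat_lit 0x1a000d0002800000000000000000000000000) (nat_lit 0x0) (nat_lit 0x500078007c000000000000000000) := T_3 (nat_lit 92) (nat_lit 75) (nat_lit 7) (nat_lit 7) (nat_lit 4) L1102671 (by decide +kernel)
theorem L1102673 : W_3 (nat_lit 7) (nat_lit 0x1a000d0000800000000000000000000000000) (nat_lit 0x0) (nat_lit 0x800f4007e007f000000000000000000) := Q_3 (nat_lit 109) (C_3 L1036464 (C_3 L1102659 (C_3 L1102664 (C_3 L1102667 (C_3 L1102672 N_3))))) (by decide +kernel)
theorem L1102674 : W_3 (nat_lit 4) (nat_lit 0x4001a000d0000c00000000000000000000000000) (nat_lit 0x0) (nat_lit 0x8000c0002000000008003000000000000000000000000000) := T_3 (nat_lit 108) (nat_lit 109) (nat_lit 3) (nat_lit 4) (nat_lit 6) L1036550 (by decide +kernel)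
theorem L1102675 : W_3 (nat_lit 5) (nat_lit 0x4001a000d0000800000000000000000000000000) (nat_lit 0x0) (nat_lit 0x8000c0002000000008003400020000000000000000000000) := T_3 (nat_lit 106) (nat_lit 89) (nat_lit 4) (nat_lit 5) (nat_lit 9) L1102674 (by decide +kernel)
theorem L1102676 : W_3 (nat_lit 2) (nat_lit 0x8000c001a000d0000c00000000000000000000000000) (nat_lit 0x0) (nat_lit 0x800040002000000000000000000000000000000000000000) := D_3 (nat_lit 174) (nat_lit 157) (nat_lit 191) (nat_lit 5) (nat_lit 5) (nat_lit 6) (nat_lit 5) (nat_lit 5) (nat_lit 7) (by decide +kernel)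
theorem L1102677 : W_3 (nat_lit 3) (nat_lit 0xc001a000d0000c00000000000000000000000000) (nat_lit 0x0) (nat_lit 0x8000c0002000000008000000000000000000000000000000) := T_3 (nat_lit 175) (nat_lit 123) (nat_lit 4) (nat_lit 5) (nat_lit 10) L1102676 (by decide +kernel)
theorem L1102678 : W_3 (nat_lit 4) (nat_lit 0x4001a000d0000c00000000000000000000000000) (nat_lit 0x0) (nat_lit 0x8001c000a000000008000000000000000000000000000000) := T_3 (nat_lit 159) (nat_lit 176) (nat_lit 7) (nat_lit 5) (nat_lit 6) L1102677 (by decide +kernel)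
theorem L1102679 : W_3 (nat_lit 5) (nat_lit 0x4001a000d0000800000000000000000000000000) (nat_lit 0x0) (nat_lit 0x8001c000a000000008000400020000000000000000000000) := T_3 (nat_lit 106) (nat_lit 89) (nat_lit 4) (nat_lit 5) (nat_lit 9) L1102678 (by decide +kernel)
theorem L1102680 : W_3 (nat_lit 2) (nat_lit 0x6001a000d0000800040000000000000000000000) (nat_lit 0x0) (nat_lit 0x400020001000000000000000000) := D_3 (nat_lit 89) (nat_lit 72) (nat_lit 106) (nat_lit 4) (nat_lit 5) (nat_lit 8) (nat_lit 4) (nat_lit 5) (nat_lit 9) (by decide +kernel)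
theorem L1102681 : W_3 (nat_lit 3) (nat_lit 0x6001a000d0000800000000000000000000000000) (nat_lit 0x0) (nat_lit 0x100000000400060001000000000000000000) := T_3 (nat_lit 90) (nat_lit 140) (nat_lit 5) (nat_lit 5) (nat_lit 5) L1102680 (by decide +kernel)
theorem L1102682 : W_3 (nat_lit 4) (nat_lit 0x4001a000d0000800000000000000000000000000) (nat_lit 0x0) (nat_lit 0x40002000100000000400060001000000000000000000) := T_3 (nat_lit 157) (nat_lit 174) (nat_lit 5) (nat_lit 5) (nat_lit 6) L1102681 (by decide +kernel)
theorem L1102683 : W_3 (nat_lit 2) (nat_lit 0x100004001a000d0000c00000000000000000000000000) (nat_lit 0x0) (nat_lit 0x2000080000000000008000000000000000000000000000000) := D_3 (nat_lit 175) (nat_lit 193) (nat_lit 123) (nat_lit 7) (nat_lit 5) (nat_lit 7) (nat_lit 4) (nat_lit 5) (nat_lit 10) (by decide +kernel)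
theorem L1102684 : W_3 (nat_lit 3) (nat_lit 0x100004001a000d0000800000000000000000000000000) (nat_lit 0x0) (nat_lit 0x2000080000000000008000400020000000000000000000000) := T_3 (nat_lit 106) (nat_lit 89) (nat_lit 4) (nat_lit 5) (nat_lit 9) L1102683 (by decide +kernel)
theorem L1102685 : W_3 (nat_lit 4) (nat_lit 0x4001a000d0000800000000000000000000000000) (nat_lit 0x0) (nat_lit 0x2000180008000000008000400020000000000000000000000) := T_3 (nat_lit 176) (nat_lit 159) (nat_lit 7) (nat_lit 5) (nat_lit 6) L1102684 (by decide +kernel)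
theorem L1102686 : W_3 (nat_lit 2) (nat_lit 0x180006001b000d0000800000000000000000000000000) (nat_lit 0x0) (nat_lit 0x20001000000000000000008000000000000000000000000000000) := D_3 (nat_lit 192) (nat_lit 209) (nat_lit 123) (nat_lit 4) (nat_lit 5) (nat_lit 12) (nat_lit 4) (nat_lit 5) (nat_lit 11) (by decide +kernel)
theorem L1102687 : W_3 (nat_lit 3) (nat_lit 0x100006001b000d0000800000000000000000000000000) (nat_lit 0x0) (nat_lit 0x20003000080000000000008000000000000000000000000000000) := T_3 (nat_lit 175) (nat_lit 193) (nat_lit 7) (nat_lit 5) (nat_lit 7) L1102686 (by decide +kernel)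
theorem L1102688 : W_3 (nat_lit 4) (nat_lit 0x6001b000d0000800000000000000000000000000) (nat_lit 0x0) (nat_lit 0x20003000180008000000008000000000000000000000000000000) := T_3 (nat_lit 176) (nat_lit 159) (nat_lit 7) (nat_lit 5) (nat_lit 6) L1102687 (by decide +kernel)
theorem L1102689 : W_3 (nat_lit 5) (nat_lit 0x6001a000d0000800000000000000000000000000) (nat_lit 0x0) (nat_lit 0x20003000180008000100008000000040000000000000000000000) := T_3 (nat_lit 140) (nat_lit 90) (nat_lit 5) (nat_lit 5) (nat_lit 5) L1102688 (by decide +kernel)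
theorem L1102690 : W_3 (nat_lit 6) (nat_lit 0x4001a000d0000800000000000000000000000000) (nat_lit 0x0) (nat_lit 0x200030001c000a000100008000000040000000000000000000000) := T_3 (nat_lit 157) (nat_lit 174) (nat_lit 5) (nat_lit 5) (nat_lit 6) L1102689 (by decide +kernel)
theorem L1102691 : W_3 (nat_lit 7) (nat_lit 0x1a000d0000800000000000000000000000000) (nat_lit 0x0) (nat_lit 0x200038001c000e000100008003400060001000000000000000000) := Q_3 (nat_lit 158) (C_3 L1102675 (C_3 L1102679 (C_3 L1102682 (C_3 L1102685 (C_3 L1102690 N_3))))) (by decide +kernel)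
theorem L1102692 : W_3 (nat_lit 2) (nat_lit 0xe001a000d0000800080000000000000000000000) (nat_lit 0x0) (nat_lit 0x100000000000040004000000000000000000) := D_3 (nat_lit 90) (nat_lit 140) (nat_lit 74) (nat_lit 5) (nat_lit 5) (nat_lit 5) (nat_lit 6) (nat_lit 5) (nat_lit 8) (by decide +kernel)
theorem L1102693 : W_3 (nat_lit 3) (nat_lit 0xc001a000d0000800080000000000000000000000) (nat_lit 0x0) (nat_lit 0x40002000100000000000040004000000000000000000) := T_3 (nat_lit 157) (nat_lit 174) (nat_lit 5) (nat_lit 5) (nat_lit 6) L1102692 (by decide +kernel)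
theorem L1102694 : W_3 (nat_lit 4) (nat_lit 0xc001a000d0000800000000000000000000000000) (nat_lit 0x0) (nat_lit 0x400020001000000010000c0004000000000000000000) := T_3 (nat_lit 91) (nat_lit 108) (nat_lit 6) (nat_lit 5) (nat_lit 9) L1102693 (by decide +kernel)
theorem L1102695 : W_3 (nat_lit 5) (nat_lit 0x4001a000d0000800000000000000000000000000) (nat_lit 0x0) (nat_lit 0x14000a0001000000010000c0004000000000000000000) := T_3 (nat_lit 159) (nat_lit 176) (nat_lit 7) (nat_lit 5) (nat_lit 6) L1102694 (by decide +kernel)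
theorem L1102696 : W_3 (nat_lit 6) (nat_lit 0x1a000d0000800000000000000000000000000) (nat_lit 0x0) (nat_lit 0x14000e0001000000034000e0005000000000000000000) := Q_3 (nat_lit 158) (C_3 L1102682 (C_3 L1036541 (C_3 L1102695 N_3))) (by decide +kernel)
theorem L1102697 : W_3 (nat_lit 2) (nat_lit 0x180004001a000d0001800000000000000000000000000) (nat_lit 0x0) (nat_lit 0x800040002000000000000000000000000000000000000000) := D_3 (nat_lit 174) (nat_lit 191) (nat_lit 157) (nat_lit 5) (nat_lit 5) (nat_lit 7) (nat_lit 5) (nat_lit 5) (nat_lit 6) (by decide +kernel)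
theorem L1102698 : W_3 (nat_lit 3) (nat_lit 0x100004001a000d0001800000000000000000000000000) (nat_lit 0x0) (nat_lit 0x28000c0002000000000000000000000000000000000000000) := T_3 (nat_lit 175) (nat_lit 193) (nat_lit 7) (nat_lit 5) (nat_lit 7) L1102697 (by decide +kernel)
theorem L1102699 : W_3 (nat_lit 4) (nat_lit 0x100004001a000d0000800000000000000000000000000) (nat_lit 0x0) (nat_lit 0x28000c0002000000000001000080000000000000000000000) := T_3 (nat_lit 108) (nat_lit 91) (nat_lit 6) (nat_lit 5) (nat_lit 9) L1102698 (by decide +kernel)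
theorem L1102700 : W_3 (nat_lit 5) (nat_lit 0x4001a000d0000800000000000000000000000000) (nat_lit 0x0) (nat_lit 0x28001c000a000000000001000080000000000000000000000) := T_3 (nat_lit 176) (nat_lit 159) (nat_lit 7) (nat_lit 5) (nat_lit 6) L1102699 (by decide +kernel)
theorem L1102701 : W_3 (nat_lit 6) (nat_lit 0x1a000d0000800000000000000000000000000) (nat_lit 0x0) (nat_lit 0x28001c000e0000000080034000a0000000000000000000000) := Q_3 (nat_lit 158) (C_3 L1102685 (C_3 L1102675 (C_3 L1036541 (C_3 L1102700 N_3)))) (by decide +kernel)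
theorem L1102702 : W_3 (nat_lit 2) (nat_lit 0x800180004001b000d00008000e0000000000000000000000) (nat_lit 0x0) (nat_lit 0x10001000000000000000008000000000000000000000000000000) := D_3 (nat_lit 192) (nat_lit 123) (nat_lit 208) (nat_lit 4) (nat_lit 5) (nat_lit 11) (nat_lit 5) (nat_lit 5) (nat_lit 8) (by decide +kernel)
theorem L1102703 : W_3 (nat_lit 3) (nat_lit 0x180004001b000d00008000e0000000000000000000000) (nat_lit 0x0) (nat_lit 0x10001800040000000000008000000000000000000000000000000) := T_3 (nat_lit 191) (nat_lit 174) (nat_lit 5) (nat_lit 5) (nat_lit 7) L1102702 (by decide +kernel)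
theorem L1102704 : W_3 (nat_lit 4) (nat_lit 0x100004001b000d00008000e0000000000000000000000) (nat_lit 0x0) (nat_lit 0x100038000c0000000000008000000000000000000000000000000) := T_3 (nat_lit 175) (nat_lit 193) (nat_lit 7) (nat_lit 5) (nat_lit 7) L1102703 (by decide +kernel)
theorem L1102705 : W_3 (nat_lit 5) (nat_lit 0x4001b000d00008000e0000000000000000000000) (nat_lit 0x0) (nat_lit 0x100038001c0008000000008000000000000000000000000000000) := T_3 (nat_lit 176) (nat_lit 159) (nat_lit 7) (nat_lit 5) (nat_lit 6) L1102704 (by decide +kernel)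
theorem L1102706 : W_3 (nat_lit 6) (nat_lit 0x1b000d00008000e0000000000000000000000) (nat_lit 0x0) (nat_lit 0x100038001c000c000000008001000000000000000000000000000) := T_3 (nat_lit 158) (nat_lit 108) (nat_lit 6) (nat_lit 5) (nat_lit 9) L1102705 (by decide +kernel)
theorem L1102707 : W_3 (nat_lit 7) (nat_lit 0x1a000d00008000e0000000000000000000000) (nat_lit 0x0) (nat_lit 0x100038001c000e000100008001000000000000000000000000000) := T_3 (nat_lit 140) (nat_lit 157) (nat_lit 5) (nat_lit 5) (nat_lit 5) L1102706 (by decide +kernel)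
theorem L1102708 : W_3 (nat_lit 8) (nat_lit 0x1a000d0000800060000000000000000000000) (nat_lit 0x0) (nat_lit 0x100038001c000e000100008001000080004000000000000000000) := T_3 (nat_lit 91) (nat_lit 74) (nat_lit 6) (nat_lit 5) (nat_lit 8) L1102707 (by decide +kernel)
theorem L1102709 : W_3 (nat_lit 9) (nat_lit 0x1a000d0000800040000000000000000000000) (nat_lit 0x0) (nat_lit 0x100038001c000e0001000080010000a0005000000000000000000) := T_3 (nat_lit 89) (nat_lit 72) (nat_lit 4) (nat_lit 5) (nat_lit 8) L1102708 (by decide +kernel)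
theorem L1102710 : W_3 (nat_lit 2) (nat_lit 0x1b000d00018000e0000000000000000000000) (nat_lit 0x0) (nat_lit 0x2000018000000000000000000000) := D_3 (nat_lit 88) (nat_lit 109) (nat_lit 87) (nat_lit 3) (nat_lit 3) (nat_lit 5) (nat_lit 3) (nat_lit 2) (nat_lit 5) (by decide +kernel)
theorem L1102711 : W_3 (nat_lit 3) (nat_lit 0x1b000d00008000e0000000000000000000000) (nat_lit 0x0) (nat_lit 0x4000000000003000018000000000000000000000) := T_3 (nat_lit 108) (nat_lit 158) (nat_lit 6) (nat_lit 5) (nat_lit 9) L1102710 (by decide +kernel)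
theorem L1102712 : W_3 (nat_lit 4) (nat_lit 0x1a000d00008000e0000000000000000000000) (nat_lit 0x0) (nat_lit 0x6000100000003000018000000000000000000000) := T_3 (nat_lit 140) (nat_lit 157) (nat_lit 5) (nat_lit 5) (nat_lit 5) L1102711 (by decide +kernel)
theorem L1102713 : W_3 (nat_lit 5) (nat_lit 0x1a000d0000800060000000000000000000000) (nat_lit 0x0) (nat_lit 0x6000100000003000098004000000000000000000) := T_3 (nat_lit 91) (nat_lit 74) (nat_lit 6) (nat_lit 5) (nat_lit 8) L1102712 (by decide +kernel)
theorem L1102714 : W_3 (nat_lit 6) (nat_lit 0x1a000d0000800040000000000000000000000) (nat_lit 0x0) (nat_lit 0x60001000000030000b8005000000000000000000) := T_3 (nat_lit 89) (nat_lit 72) (nat_lit 4) (nat_lit 5) (nat_lit 8) L1102713 (by decide +kernel)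
theorem L1102715 : W_3 (nat_lit 2) (nat_lit 0x1a000d00018000e0000000000000000000000) (nat_lit 0x0) (nat_lit 0x2000018000000000000000000000) := D_3 (nat_lit 88) (nat_lit 109) (nat_lit 87) (nat_lit 3) (nat_lit 3) (nat_lit 5) (nat_lit 3) (nat_lit 2) (nat_lit 5) (by decide +kernel)
theorem L1102716 : W_3 (nat_lit 3) (nat_lit 0x1a000d00008000e0000000000000000000000) (nat_lit 0x0) (nat_lit 0x4000000000003000018000000000000000000000) := T_3 (nat_lit 108) (nat_lit 158) (nat_lit 6) (nat_lit 5) (nat_lit 9) L1102715 (by decide +kernel)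
theorem L1102717 : W_3 (nat_lit 4) (nat_lit 0x1a000d00008000c0000000000000000000000) (nat_lit 0x0) (nat_lit 0x4000000000003000038001000000000000000000) := T_3 (nat_lit 89) (nat_lit 72) (nat_lit 4) (nat_lit 5) (nat_lit 8) L1102716 (by decide +kernel)
theorem L1102718 : W_3 (nat_lit 5) (nat_lit 0x1a000d0000800040000000000000000000000) (nat_lit 0x0) (nat_lit 0x40000000000030000b8005000000000000000000) := T_3 (nat_lit 91) (nat_lit 74) (nat_lit 6) (nat_lit 5) (nat_lit 8) L1102717 (by decide +kernel)
theorem L1102719 : W_3 (nat_lit 10) (nat_lit 0x1a000d0000800000000000000000000000000) (nat_lit 0x0) (nat_lit 0x100038001c000e0001000080030000f8007000280000000000000) := Q_3 (nat_lit 90) (C_3 L1102709 (C_3 L1036458 (C_3 L1036439 (C_3 L1102714 (C_3 L1102718 N_3))))) (by decide +kernel)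
theorem L1102720 : W_3 (nat_lit 2) (nat_lit 0x100004001a000d0001c00000000000000000000000000) (nat_lit 0x0) (nat_lit 0x2000080000000000008000000000000000000000000000000) := D_3 (nat_lit 175) (nat_lit 123) (nat_lit 193) (nat_lit 4) (nat_lit 5) (nat_lit 10) (nat_lit 7) (nat_lit 5) (nat_lit 7) (by decide +kernel)
theorem L1102721 : W_3 (nat_lit 3) (nat_lit 0x4001a000d0001c00000000000000000000000000) (nat_lit 0x0) (nat_lit 0x2000180008000000008000000000000000000000000000000) := T_3 (nat_lit 176) (nat_lit 159) (nat_lit 7) (nat_lit 5) (nat_lit 6) L1102720 (by decide +kernel)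
theorem L1102722 : W_3 (nat_lit 4) (nat_lit 0x4001a000d0001800000000000000000000000000) (nat_lit 0x0) (nat_lit 0x2000180008000000008002400000000000000000000000000) := T_3 (nat_lit 106) (nat_lit 109) (nat_lit 3) (nat_lit 4) (nat_lit 6) L1102721 (by decide +kernel)
theorem L1102723 : W_3 (nat_lit 5) (nat_lit 0x4001a000d0000800000000000000000000000000) (nat_lit 0x0) (nat_lit 0x2000180008000000008003400080000000000000000000000) := T_3 (nat_lit 108) (nat_lit 91) (nat_lit 6) (nat_lit 5) (nat_lit 9) L1102722 (by decide +kernel)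
theorem L1102724 : W_3 (nat_lit 7) (nat_lit 0x1a000d0000800000000000000000000000000) (nat_lit 0x0) (nat_lit 0x200038001c000e0001000080034000c0004000000000000000000) := Q_3 (nat_lit 158) (C_3 L1102700 (C_3 L1036562 (C_3 L1102690 (C_3 L1102723 (C_3 L1102695 N_3))))) (by decide +kernel)
theorem L1102725 : W_3 (nat_lit 11) (nat_lit 0x1a000d0000000000000000000000000000000) (nat_lit 0x0) (nat_lit 0x300038001c000e00010000800ff007f807f00038000c000000000) := Q_3 (nat_lit 107) (C_3 L1036459 (C_3 L1036451 (C_3 L1102673 (C_3 L1102691 (C_3 L1102696 (C_3 L1102701 (C_3 L1102719 (C_3 L1102724 N_3)))))))) (by decide +kernel)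
theorem L1102726 : W_3 (nat_lit 4) (nat_lit 0x1e000d0000000000000000000000000000000) (nat_lit 0x0) (nat_lit 0x200010000e002000000000800000000000000000000000000) := T_3 (nat_lit 158) (nat_lit 157) (nat_lit 1) (nat_lit 8) (nat_lit 8) L625689 (by decide +kernel)
theorem L1102727 : W_3 (nat_lit 5) (nat_lit 0x1a000d0000000000000000000000000000000) (nat_lit 0x0) (nat_lit 0x200010000e002500000000800000000000000000000000000) := T_3 (nat_lit 142) (nat_lit 140) (nat_lit 2) (nat_lit 4) (nat_lit 8) L1102726 (by decide +kernel)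
theorem L1102728 : W_3 (nat_lit 5) (nat_lit 0x1a000d0000000000000000000000000000000) (nat_lit 0x0) (nat_lit 0x200010000e002400008000800000000000000000000000000) := T_3 (nat_lit 142) (nat_lit 123) (nat_lit 0) (nat_lit 8) (nat_lit 8) L1102726 (by decide +kernel)
theorem L1102729 : W_3 (nat_lit 12) (nat_lit 0x18000d0000000000000000000000000000000) (nat_lit 0x0) (nat_lit 0x300038001c000e00270000800ff007f807f00038000c000000000) := Q_3 (nat_lit 141) (C_3 L1002097 (C_3 L1102725 (C_3 L1102727 (C_3 L1102728 N_3)))) (by decide +kernel)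
theorem L1102730 : W_3 (nat_lit 2) (nat_lit 0x1a000f0005800600000000000000000000000) (nat_lit 0x0) (nat_lit 0x180008000000000000000000) := D_3 (nat_lit 92) (nat_lit 91) (nat_lit 75) (nat_lit 1) (nat_lit 9) (nat_lit 5) (nat_lit 4) (nat_lit 8) (nat_lit 8) (by decide +kernel)
theorem L1102731 : W_3 (nat_lit 3) (nat_lit 0x1a000f0004800600000000000000000000000) (nat_lit 0x0) (nat_lit 0x3000180008000000000000000000) := T_3 (nat_lit 108) (nat_lit 109) (nat_lit 2) (nat_lit 5) (nat_lit 6) L1102730 (by decide +kernel)
theorem L1102732 : W_3 (nat_lit 4) (nat_lit 0x1a000f0004800200000000000000000000000) (nat_lit 0x0) (nat_lit 0x3000580028000000000000000000) := T_3 (nat_lit 94) (nat_lit 77) (nat_lit 6) (nat_lit 8) (nat_lit 8) L1102731 (by decide +kernel)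
theorem L1102733 : W_3 (nat_lit 5) (nat_lit 0x1a000f0004000200000000000000000000000) (nat_lit 0x0) (nat_lit 0x3c00580028000000000000000000) := T_3 (nat_lit 107) (nat_lit 106) (nat_lit 0) (nat_lit 8) (nat_lit 7) L1102732 (by decide +kernel)
theorem L1102734 : W_3 (nat_lit 6) (nat_lit 0x1a000f0004000000000000000000000000000) (nat_lit 0x0) (nat_lit 0x3c00780038000000000000000000) := T_3 (nat_lit 93) (nat_lit 76) (nat_lit 5) (nat_lit 8) (nat_lit 4) L1102733 (by decide +kernel)
theorem L1102735 : W_3 (nat_lit 7) (nat_lit 0x18000f0004000000000000000000000000000) (nat_lit 0x0) (nat_lit 0x300000003c00780038000000000000000000) := T_3 (nat_lit 141) (nat_lit 140) (nat_lit 1) (nat_lit 8) (nat_lit 7) L1102734 (by decide +kernel)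
theorem L1102736 : W_3 (nat_lit 8) (nat_lit 0x18000f0000000000000000000000000000000) (nat_lit 0x0) (nat_lit 0x30000000fc00780038000000000000000000) := T_3 (nat_lit 110) (nat_lit 111) (nat_lit 2) (nat_lit 5) (nat_lit 7) L1102735 (by decide +kernel)
theorem L1102737 : W_3 (nat_lit 9) (nat_lit 0x18000d0000000000000000000000000000000) (nat_lit 0x0) (nat_lit 0x230002000fc00780038000000000000000000) := T_3 (nat_lit 125) (nat_lit 145) (nat_lit 3) (nat_lit 5) (nat_lit 7) L1102736 (by decide +kernel)
theorem L1102738 : W_3 (nat_lit 13) (nat_lit 0x18000c0000000000000000000000000000000) (nat_lit 0x0) (nat_lit 0x300038001c000e00270003800ff007f807f00038000c000000000) := Q_3 (nat_lit 124) (C_3 L1102729 (C_3 L1002099 (C_3 L1002094 (C_3 L1102737 N_3)))) (by decide +kernel)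
theorem L1102739 : W_3 (nat_lit 2) (nat_lit 0x1a0058000d0007800040000000000000000000000) (nat_lit 0x0) (nat_lit 0x700000000000000000000000000000000000) := D_3 (nat_lit 141) (nat_lit 140) (nat_lit 142) (nat_lit 5) (nat_lit 5) (nat_lit 5) (nat_lit 7) (nat_lit 5) (nat_lit 5) (by decide +kernel)
theorem L1102740 : W_3 (nat_lit 3) (nat_lit 0x1a0058000d0007800000000000000000000000000) (nat_lit 0x0) (nat_lit 0x700000000000060000000000000000000000) := T_3 (nat_lit 90) (nat_lit 89) (nat_lit 0) (nat_lit 8) (nat_lit 6) L1102739 (by decide +kernel)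
theorem L1102741 : W_3 (nat_lit 4) (nat_lit 0x1a0058000c0007800000000000000000000000000) (nat_lit 0x0) (nat_lit 0x700018000000060000000000000000000000) := T_3 (nat_lit 124) (nat_lit 123) (nat_lit 1) (nat_lit 8) (nat_lit 6) L1102740 (by decide +kernel)
theorem L1102742 : W_3 (nat_lit 5) (nat_lit 0x1a0058000c0007000000000000000000000000000) (nat_lit 0x0) (nat_lit 0x700018000c00060000000000000000000000) := T_3 (nat_lit 107) (nat_lit 106) (nat_lit 3) (nat_lit 4) (nat_lit 6) L1102741 (by decide +kernel)
theorem L1102743 : W_3 (nat_lit 6) (nat_lit 0x1a0058000c0006000000000000000000000000000) (nat_lit 0x0) (nat_lit 0x700018001c000e0000000000000000000000) := T_3 (nat_lit 108) (nat_lit 91) (nat_lit 4) (nat_lit 7) (nat_lit 9) L1102742 (by decide +kernel)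
theorem L1102744 : W_3 (nat_lit 7) (nat_lit 0x1a0018000c0006000000000000000000000000000) (nat_lit 0x0) (nat_lit 0x6700018001c000e0000000000000000000000) := T_3 (nat_lit 146) (nat_lit 145) (nat_lit 1) (nat_lit 10) (nat_lit 8) L1102743 (by decide +kernel)
theorem L1102745 : W_3 (nat_lit 8) (nat_lit 0x180018000c0006000000000000000000000000000) (nat_lit 0x0) (nat_lit 0x6006700018001c000e0000000000000000000000) := T_3 (nat_lit 157) (nat_lit 158) (nat_lit 2) (nat_lit 4) (nat_lit 9) L1102744 (by decide +kernel)
theorem L1102746 : W_3 (nat_lit 9) (nat_lit 0x100018000c0006000000000000000000000000000) (nat_lit 0x0) (nat_lit 0x10000e006700018001c000e0000000000000000000000) := T_3 (nat_lit 159) (nat_lit 176) (nat_lit 5) (nat_lit 7) (nat_lit 6) L1102745 (by decide +kernel)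
theorem L1102747 : W_3 (nat_lit 10) (nat_lit 0x100018000c0002000000000000000000000000000) (nat_lit 0x0) (nat_lit 0x10000e006700018005c002e0000000000000000000000) := T_3 (nat_lit 110) (nat_lit 93) (nat_lit 6) (nat_lit 7) (nat_lit 9) L1102746 (by decide +kernel)
theorem L1102748 : W_3 (nat_lit 11) (nat_lit 0x100018000c0000000000000000000000000000000) (nat_lit 0x0) (nat_lit 0x10000e006700018007c003e0018000000000000000000) := Q_3 (nat_lit 109) (C_3 L1049175 (C_3 L1027472 (C_3 L1102747 N_3))) (by decide +kernel)
theorem L1102749 : W_3 (nat_lit 12) (nat_lit 0x18000c0000000000000000000000000000000) (nat_lit 0x0) (nat_lit 0xe000f0001e006700018007c003e0018000000000000000000) := Q_3 (nat_lit 160) (C_3 L1085516 (C_3 L1071407 (C_3 L1102748 N_3))) (by decide +kernel)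
theorem L1102750 : W_3 (nat_lit 11) (nat_lit 0x18000c0000000000000000000000000000000) (nat_lit 0x0) (nat_lit 0xe000f0001e00040003800fc003e001c000000000000000000) := Q_3 (nat_lit 160) (C_3 L1085516 (C_3 L1071418 (C_3 L1071407 N_3))) (by decide +kernel)
theorem L1103309 : W_3 (nat_lit 2) (nat_lit 0x100018000d0007800000000000000000000000000) (nat_lit 0x0) (nat_lit 0x2000020008000000000000000000000000000) := D_3 (nat_lit 125) (nat_lit 111) (nat_lit 145) (nat_lit 2) (nat_lit 5) (nat_lit 7) (nat_lit 3) (nat_lit 5) (nat_lit 7) (by decide +kernel)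
theorem L1103310 : W_3 (nat_lit 3) (nat_lit 0x100018000c0007800000000000000000000000000) (nat_lit 0x0) (nat_lit 0x2000038008000000000000000000000000000) := T_3 (nat_lit 124) (nat_lit 123) (nat_lit 1) (nat_lit 8) (nat_lit 6) L1103309 (by decide +kernel)
theorem L1103311 : W_3 (nat_lit 4) (nat_lit 0x100018000c0007000000000000000000000000000) (nat_lit 0x0) (nat_lit 0x2000038008c00000000000000000000000000) := T_3 (nat_lit 107) (nat_lit 106) (nat_lit 3) (nat_lit 4) (nat_lit 6) L1103310 (by decide +kernel)
theorem L1103312 : W_3 (nat_lit 5) (nat_lit 0x100018000c0006000000000000000000000000000) (nat_lit 0x0) (nat_lit 0x2000038009c00080000000000000000000000) := T_3 (nat_lit 108) (nat_lit 91) (nat_lit 4) (nat_lit 7) (nat_lit 9) L1103311 (by decide +kernel)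
theorem L1103313 : W_3 (nat_lit 6) (nat_lit 0x100018000c0002000000000000000000000000000) (nat_lit 0x0) (nat_lit 0x200003800dc00280000000000000000000000) := T_3 (nat_lit 110) (nat_lit 93) (nat_lit 6) (nat_lit 7) (nat_lit 9) L1103312 (by decide +kernel)
theorem L1103314 : W_3 (nat_lit 7) (nat_lit 0x100018000c0000000000000000000000000000000) (nat_lit 0x0) (nat_lit 0x200003800fc0038001c000000000000000000) := Q_3 (nat_lit 109) (C_3 L1049175 (C_3 L771750 (C_3 L1103313 N_3))) (by decide +kernel)
theorem L1103315 : W_3 (nat_lit 8) (nat_lit 0x18000c0000000000000000000000000000000) (nat_lit 0x0) (nat_lit 0x400020001000200003800fc0038001c000000000000000000) := Q_3 (nat_lit 160) (C_3 L1071407 (C_3 L1027484 (C_3 L1103314 N_3))) (by decide +kernel)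
theorem L1103316 : W_3 (nat_lit 8) (nat_lit 0x18000c0000000000000000000000000000000) (nat_lit 0x0) (nat_lit 0xe000f0001e00e700038006000200000000000000000000000) := Q_3 (nat_lit 160) (C_3 L1085516 (C_3 L1071407 (C_3 L1049203 N_3))) (by decide +kernel)
theorem L1103317 : W_3 (nat_lit 2) (nat_lit 0x1c0018000c0003400200000000000000000000000) (nat_lit 0x0) (nat_lit 0x6400000000000000000000000000000000000) := D_3 (nat_lit 145) (nat_lit 146) (nat_lit 142) (nat_lit 1) (nat_lit 10) (nat_lit 8) (nat_lit 1) (nat_lit 9) (nat_lit 8) (by decide +kernel)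
theorem L1103318 : W_3 (nat_lit 3) (nat_lit 0x180018000c0003400200000000000000000000000) (nat_lit 0x0) (nat_lit 0x6006400000000000000000000000000000000000) := T_3 (nat_lit 158) (nat_lit 157) (nat_lit 2) (nat_lit 4) (nat_lit 9) L1103317 (by decide +kernel)
theorem L1103319 : W_3 (nat_lit 4) (nat_lit 0x100018000c0003400200000000000000000000000) (nat_lit 0x0) (nat_lit 0x10000e006400000000000000000000000000000000000) := T_3 (nat_lit 159) (nat_lit 176) (nat_lit 5) (nat_lit 7) (nat_lit 6) L1103318 (by decide +kernel)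
theorem L1103320 : W_3 (nat_lit 5) (nat_lit 0x100018000c0003400000000000000000000000000) (nat_lit 0x0) (nat_lit 0x10000e006400000004000200000000000000000000000) := T_3 (nat_lit 93) (nat_lit 110) (nat_lit 6) (nat_lit 7) (nat_lit 9) L1103319 (by decide +kernel)
theorem L1103321 : W_3 (nat_lit 6) (nat_lit 0x100018000c0003000000000000000000000000000) (nat_lit 0x0) (nat_lit 0x10000e006400000004c00200000000000000000000000) := T_3 (nat_lit 106) (nat_lit 107) (nat_lit 3) (nat_lit 4) (nat_lit 6) L1103320 (by decide +kernel)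
theorem L1103322 : W_3 (nat_lit 7) (nat_lit 0x100018000c0002000000000000000000000000000) (nat_lit 0x0) (nat_lit 0x10000e006400000005c00280000000000000000000000) := T_3 (nat_lit 108) (nat_lit 91) (nat_lit 4) (nat_lit 7) (nat_lit 9) L1103321 (by decide +kernel)
theorem L1103323 : W_3 (nat_lit 8) (nat_lit 0x100018000c0000000000000000000000000000000) (nat_lit 0x0) (nat_lit 0x10000e006400000007c00380018000000000000000000) := Q_3 (nat_lit 109) (C_3 L1049175 (C_3 L1027472 (C_3 L1103322 N_3))) (by decide +kernel)
theorem L1103324 : W_3 (nat_lit 9) (nat_lit 0x18000c0000000000000000000000000000000) (nat_lit 0x0) (nat_lit 0xe000f0001e006400000007c00380018000000000000000000) := Q_3 (nat_lit 160) (C_3 L1085516 (C_3 L1071407 (C_3 L1103323 N_3))) (by decide +kernel)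
theorem L1103750 : W_3 (nat_lit 16) (nat_lit 0x1800080000000000000000000000000000000) (nat_lit 0x0) (nat_lit 0x3000f800fc001e00e70007803ff01ff807f00038000c000000000) := Q_3 (nat_lit 126) (C_3 L1071419 (C_3 L1084784 (C_3 L1101228 (C_3 L1101230 (C_3 L1102738 (C_3 L1102749 (C_3 L1102750 (C_3 L1103315 (C_3 L1103316 (C_3 L1103324 (C_3 L1103749 N_3))))))))))) (by decide +kernel)
theorem L1103751 : W_3 (nat_lit 5) (nat_lit 0x3c000c0000000000000000000000000000000) (nat_lit 0x0) (nat_lit 0x200010001c000000300002000100000000000000000000000) := T_3 (nat_lit 129) (nat_lit 128) (nat_lit 2) (nat_lit 6) (nat_lit 8) L672958 (by decide +kernel)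
theorem L1103752 : W_3 (nat_lit 8) (nat_lit 0x3c00080000000000000000000000000000000) (nat_lit 0x0) (nat_lit 0x700038001c000000370007800180000000000000000000000) := Q_3 (nat_lit 126) (C_3 L1101234 (C_3 L1103744 (C_3 L1103751 (C_3 L1045410 N_3)))) (by decide +kernel)
theorem L1103753 : W_3 (nat_lit 9) (nat_lit 0x1c00080000000000000000000000000000000) (nat_lit 0x0) (nat_lit 0x700038039c01e001f70007800180000000000000000000000) := Q_3 (nat_lit 145) (C_3 L1087005 (C_3 L1045979 (C_3 L997644 (C_3 L1045402 (C_3 L1103752 N_3))))) (by decide +kernel)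
theorem L1103754 : W_3 (nat_lit 11) (nat_lit 0x1800080000000000000000000000000000000) (nat_lit 0x0) (nat_lit 0x700038039f01e701f7c0078003c0002000000000000000000) := Q_3 (nat_lit 142) (C_3 L1087008 (C_3 L1086935 (C_3 L1086962 (C_3 L1103753 N_3)))) (by decide +kernel)
theorem L1103755 : W_3 (nat_lit 3) (nat_lit 0x1c001a0000000000000000000000000000000) (nat_lit 0x0) (nat_lit 0x200005c000000000000000000000000000000) := T_3 (nat_lit 124) (nat_lit 145) (nat_lit 0) (nat_lit 9) (nat_lit 8) L966682 (by decide +kernel)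
theorem L1103756 : W_3 (nat_lit 9) (nat_lit 0x1c001a0000000000000000000000000000000) (nat_lit 0x0) (nat_lit 0x20001800000005801f800f80028000000000000000000) := Q_3 (nat_lit 126) (C_3 L1055499 (C_3 L1076750 (C_3 L843516 N_3))) (by decide +kernel)
theorem L1103757 : W_3 (nat_lit 8) (nat_lit 0x8001c001a0000000000000000000000000000000) (nat_lit 0x0) (nat_lit 0x600030003800140000000100038001c000a000000000000000000) := Q_3 (nat_lit 108) (C_3 L867912 (C_3 L1048552 (C_3 L817162 (C_3 L817161 N_3)))) (by decide +kernel)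
theorem L1103758 : W_3 (nat_lit 9) (nat_lit 0x1c001a0000000000000000000000000000000) (nat_lit 0x0) (nat_lit 0x6000300038001f00200001c0038001c000a000000000000000000) := Q_3 (nat_lit 159) (C_3 L897130 (C_3 L1103757 (C_3 L897126 (C_3 L897128 N_3)))) (by decide +kernel)
theorem L1103759 : W_3 (nat_lit 2) (nat_lit 0x18003c001e0009000600000000000000000000000) (nat_lit 0x0) (nat_lit 0x2000100000000000000002000000000000000000000000000) := D_3 (nat_lit 176) (nat_lit 193) (nat_lit 109) (nat_lit 6) (nat_lit 6) (nat_lit 11) (nat_lit 6) (nat_lit 6) (nat_lit 10) (by decide +kernel)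
theorem L1103760 : W_3 (nat_lit 3) (nat_lit 0x10003c001e0009000600000000000000000000000) (nat_lit 0x0) (nat_lit 0x200010000c000000000002000000000000000000000000000) := T_3 (nat_lit 159) (nat_lit 158) (nat_lit 1) (nat_lit 9) (nat_lit 8) L1103759 (by decide +kernel)
theorem L1103761 : W_3 (nat_lit 4) (nat_lit 0x10001c001e0009000600000000000000000000000) (nat_lit 0x0) (nat_lit 0x200010000c002000000002000000010000000000000000000) := T_3 (nat_lit 145) (nat_lit 76) (nat_lit 4) (nat_lit 9) (nat_lit 8) L1103760 (by decide +kernel)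
theorem L1103762 : W_3 (nat_lit 5) (nat_lit 0x10001c001e0009000200000000000000000000000) (nat_lit 0x0) (nat_lit 0x200010000c002000000002000400030000000000000000000) := T_3 (nat_lit 94) (nat_lit 77) (nat_lit 5) (nat_lit 9) (nat_lit 4) L1103761 (by decide +kernel)
theorem L1103763 : W_3 (nat_lit 6) (nat_lit 0x10001c001e0001000200000000000000000000000) (nat_lit 0x0) (nat_lit 0x200010000c00200000001a000400030000000000000000000) := T_3 (nat_lit 111) (nat_lit 112) (nat_lit 2) (nat_lit 6) (nat_lit 7) L1103762 (by decide +kernel)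
theorem L1103764 : W_3 (nat_lit 7) (nat_lit 0x10001c001a0001000200000000000000000000000) (nat_lit 0x0) (nat_lit 0x200010000c00200004001a800400030000000000000000000) := T_3 (nat_lit 126) (nat_lit 107) (nat_lit 0) (nat_lit 9) (nat_lit 7) L1103763 (by decide +kernel)
theorem L1103765 : W_3 (nat_lit 8) (nat_lit 0x10001c001a0001000000000000000000000000000) (nat_lit 0x0) (nat_lit 0x200010000c00200004001e800600030000000000000000000) := T_3 (nat_lit 93) (nat_lit 110) (nat_lit 5) (nat_lit 8) (nat_lit 5) L1103764 (by decide +kernel)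
theorem L1103766 : W_3 (nat_lit 9) (nat_lit 0x10001c001a0000000000000000000000000000000) (nat_lit 0x0) (nat_lit 0x200010000c00200004001f800680030000000000000000000) := T_3 (nat_lit 108) (nat_lit 91) (nat_lit 7) (nat_lit 6) (nat_lit 5) L1103765 (by decide +kernel)
theorem L1103767 : W_3 (nat_lit 2) (nat_lit 0x10001c001a0004000000000000000000000000000) (nat_lit 0x0) (nat_lit 0x4000200000000000040000000000000000000000000000000) := D_3 (nat_lit 177) (nat_lit 194) (nat_lit 126) (nat_lit 6) (nat_lit 7) (nat_lit 11) (nat_lit 6) (nat_lit 7) (nat_lit 10) (by decide +kernel)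
theorem L1103768 : W_3 (nat_lit 3) (nat_lit 0x10001c001a0000000000000000000000000000000) (nat_lit 0x0) (nat_lit 0x4000200000000000040004000200000000000000000000000) := T_3 (nat_lit 110) (nat_lit 93) (nat_lit 5) (nat_lit 8) (nat_lit 5) L1103767 (by decide +kernel)
theorem L1103769 : W_3 (nat_lit 10) (nat_lit 0x1c001a0000000000000000000000000000000) (nat_lit 0x0) (nat_lit 0x600030001c00200004001f800680030000000000000000000) := Q_3 (nat_lit 160) (C_3 L1033757 (C_3 L818858 (C_3 L1103766 (C_3 L1103768 N_3)))) (by decide +kernel)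
theorem L1103770 : W_3 (nat_lit 11) (nat_lit 0x1c00180000000000000000000000000000000) (nat_lit 0x0) (nat_lit 0x6000700038001f00200007c01f800fc003a000000000000000000) := Q_3 (nat_lit 125) (C_3 L1103755 (C_3 L1103756 (C_3 L1103758 (C_3 L1103769 N_3)))) (by decide +kernel)
theorem L1103771 : W_3 (nat_lit 12) (nat_lit 0x1c00080000000000000000000000000000000) (nat_lit 0x0) (nat_lit 0x6000700038001f00200077c01f800fc003a000000000000000000) := Q_3 (nat_lit 128) (C_3 L1087007 (C_3 L1044381 (C_3 L1103770 N_3))) (by decide +kernel)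
theorem L1103772 : W_3 (nat_lit 13) (nat_lit 0x1800080000000000000000000000000000000) (nat_lit 0x0) (nat_lit 0x6000700038001f00270077c01f800fc003a000000000000000000) := Q_3 (nat_lit 142) (C_3 L1087008 (C_3 L1086935 (C_3 L1086962 (C_3 L1103771 N_3)))) (by decide +kernel)
theorem L1112706 : W_3 (nat_lit 10) (nat_lit 0x18000c0000000000000000000000000000000) (nat_lit 0x0) (nat_lit 0xe00073803fc00f00070000000000000000000) := Q_3 (nat_lit 125) (C_3 L1084769 (C_3 L1029809 (C_3 L979459 N_3))) (by decide +kernel)
theorem L1112707 : W_3 (nat_lit 11) (nat_lit 0x18000c0000000000000000000000000000000) (nat_lit 0x0) (nat_lit 0x20001000e00073803dc00e80074000000000000000000) := Q_3 (nat_lit 125) (C_3 L1085756 (C_3 L1029809 (C_3 L979459 N_3))) (by decide +kernel)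
theorem L1112708 : W_3 (nat_lit 12) (nat_lit 0x1800080000000000000000000000000000000) (nat_lit 0x0) (nat_lit 0xe000f0001e00e40077803fc00fe007c000000000000000000) := Q_3 (nat_lit 126) (C_3 L1102750 (C_3 L1103324 (C_3 L1029810 (C_3 L1112706 (C_3 L1085747 (C_3 L1112707 N_3)))))) (by decide +kernel)
theorem L1112811 : W_3 (nat_lit 2) (nat_lit 0x100018001c0000000000000000000000000000000) (nat_lit 0x0) (nat_lit 0x4000200000000000000004000000000000000000000000000) := D_3 (nat_lit 177) (nat_lit 194) (nat_lit 110) (nat_lit 6) (nat_lit 7) (nat_lit 11) (nat_lit 6) (nat_lit 7) (nat_lit 10) (by decide +kernel)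
theorem L1112906 : W_3 (nat_lit 7) (nat_lit 0x18001c0002000000000000000000000000000) (nat_lit 0x0) (nat_lit 0x10000600000001c0078001c000000000000000000) := T_3 (nat_lit 141) (nat_lit 142) (nat_lit 2) (nat_lit 5) (nat_lit 8) L642813 (by decide +kernel)
theorem L1112912 : W_3 (nat_lit 2) (nat_lit 0x1a001c00070003a0000000000000000000000) (nat_lit 0x0) (nat_lit 0xc00020000000000000000000) := D_3 (nat_lit 94) (nat_lit 77) (nat_lit 95) (nat_lit 6) (nat_lit 8) (nat_lit 8) (nat_lit 1) (nat_lit 10) (nat_lit 5) (by decide +kernel)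
theorem L1112913 : W_3 (nat_lit 3) (nat_lit 0x1a001c00060003a0000000000000000000000) (nat_lit 0x0) (nat_lit 0x1800c00020000000000000000000) := T_3 (nat_lit 108) (nat_lit 107) (nat_lit 3) (nat_lit 5) (nat_lit 6) L1112912 (by decide +kernel)
theorem L1112914 : W_3 (nat_lit 4) (nat_lit 0x1a001c00060001a0000000000000000000000) (nat_lit 0x0) (nat_lit 0x1800e00030000000000000000000) := T_3 (nat_lit 93) (nat_lit 76) (nat_lit 6) (nat_lit 7) (nat_lit 8) L1112913 (by decide +kernel)
theorem L1112915 : W_3 (nat_lit 5) (nat_lit 0x1a001c0006000180000000000000000000000) (nat_lit 0x0) (nat_lit 0x1800e60030000000000000000000) := T_3 (nat_lit 89) (nat_lit 90) (nat_lit 3) (nat_lit 4) (nat_lit 5) L1112914 (by decide +kernel)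
theorem L1112916 : W_3 (nat_lit 6) (nat_lit 0x1a001c0006000100000000000000000000000) (nat_lit 0x0) (nat_lit 0x1800ee0034000000000000000000) := T_3 (nat_lit 91) (nat_lit 74) (nat_lit 4) (nat_lit 7) (nat_lit 8) L1112915 (by decide +kernel)
theorem L1112917 : W_3 (nat_lit 7) (nat_lit 0x18001c0006000100000000000000000000000) (nat_lit 0x0) (nat_lit 0x600000001800ee0034000000000000000000) := T_3 (nat_lit 141) (nat_lit 142) (nat_lit 2) (nat_lit 5) (nat_lit 8) L1112916 (by decide +kernel)
theorem L1112918 : W_3 (nat_lit 8) (nat_lit 0x18001c0006000000000000000000000000000) (nat_lit 0x0) (nat_lit 0x600000001800fe003c000000000000000000) := T_3 (nat_lit 92) (nat_lit 75) (nat_lit 7) (nat_lit 7) (nat_lit 4) L1112917 (by decide +kernel)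
theorem L1112919 : W_3 (nat_lit 6) (nat_lit 0x18001c0006000000000000000000000000000) (nat_lit 0x0) (nat_lit 0x6000000080003e001c000000000000000000) := T_3 (nat_lit 141) (nat_lit 142) (nat_lit 2) (nat_lit 5) (nat_lit 8) L1086190 (by decide +kernel)
theorem L1112922 : W_3 (nat_lit 9) (nat_lit 0x18001c0002000000000000000000000000000) (nat_lit 0x0) (nat_lit 0x60000000d801fe003c000000000000000000) := Q_3 (nat_lit 110) (C_3 L1052054 (C_3 L1112918 (C_3 L1112919 (C_3 L1112921 N_3)))) (by decide +kernel)
theorem L1112923 : W_3 (nat_lit 7) (nat_lit 0x18001c0002000000000000000000000000000) (nat_lit 0x0) (nat_lit 0x20001000060000000d801e80030000000000000000000) := Q_3 (nat_lit 110) (C_3 L1054342 (C_3 L1052050 (C_3 L1112921 N_3))) (by decide +kernel)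
theorem L1112924 : W_3 (nat_lit 4) (nat_lit 0x1a001c0002000300000000000000000000000) (nat_lit 0x0) (nat_lit 0x10000000000005800c00020000000000000000000) := T_3 (nat_lit 110) (nat_lit 160) (nat_lit 6) (nat_lit 7) (nat_lit 9) L1086184 (by decide +kernel)
theorem L1112925 : W_3 (nat_lit 5) (nat_lit 0x1a001c0002000100000000000000000000000) (nat_lit 0x0) (nat_lit 0x10000000000005800e00030000000000000000000) := T_3 (nat_lit 93) (nat_lit 76) (nat_lit 6) (nat_lit 7) (nat_lit 8) L1112924 (by decide +kernel)
theorem L1112926 : W_3 (nat_lit 6) (nat_lit 0x1a001c0002000000000000000000000000000) (nat_lit 0x0) (nat_lit 0x10000000000005800f00038000000000000000000) := T_3 (nat_lit 92) (nat_lit 75) (nat_lit 7) (nat_lit 7) (nat_lit 4) L1112925 (by decide +kernel)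
theorem L1112927 : W_3 (nat_lit 7) (nat_lit 0x18001c0002000000000000000000000000000) (nat_lit 0x0) (nat_lit 0x10000600000005800f00038000000000000000000) := T_3 (nat_lit 141) (nat_lit 142) (nat_lit 2) (nat_lit 5) (nat_lit 8) L1112926 (by decide +kernel)
theorem L1112928 : W_3 (nat_lit 10) (nat_lit 0x18001c0000000000000000000000000000000) (nat_lit 0x0) (nat_lit 0x400020001000060000001fc01fe003c000000000000000000) := Q_3 (nat_lit 109) (C_3 L1112906 (C_3 L1112911 (C_3 L1054341 (C_3 L1112922 (C_3 L1112923 (C_3 L1112927 N_3)))))) (by decide +kernel)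
theorem L1112929 : W_3 (nat_lit 2) (nat_lit 0x3a001e000c000e00000000000000000000000) (nat_lit 0x0) (nat_lit 0x2003000000000000000000000000) := D_3 (nat_lit 96) (nat_lit 109) (nat_lit 97) (nat_lit 1) (nat_lit 11) (nat_lit 5) (nat_lit 1) (nat_lit 12) (nat_lit 5) (by decide +kernel)
theorem L1112930 : W_3 (nat_lit 3) (nat_lit 0x3a001e0008000e00000000000000000000000) (nat_lit 0x0) (nat_lit 0x10000000000006003000000000000000000000000) := T_3 (nat_lit 110) (nat_lit 160) (nat_lit 5) (nat_lit 8) (nat_lit 5) L1112929 (by decide +kernel)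
theorem L1112931 : W_3 (nat_lit 4) (nat_lit 0x3a001e0008000600000000000000000000000) (nat_lit 0x0) (nat_lit 0x10000000000006003800040000000000000000000) := T_3 (nat_lit 95) (nat_lit 78) (nat_lit 6) (nat_lit 9) (nat_lit 8) L1112930 (by decide +kernel)
theorem L1112932 : W_3 (nat_lit 5) (nat_lit 0x3a001e0008000400000000000000000000000) (nat_lit 0x0) (nat_lit 0x10000000000006003a00050000000000000000000) := T_3 (nat_lit 93) (nat_lit 76) (nat_lit 4) (nat_lit 9) (nat_lit 8) L1112931 (by decide +kernel)
theorem L1112933 : W_3 (nat_lit 6) (nat_lit 0x3a001e0008000000000000000000000000000) (nat_lit 0x0) (nat_lit 0x10000000000006003e00070000000000000000000) := T_3 (nat_lit 94) (nat_lit 77) (nat_lit 5) (nat_lit 9) (nat_lit 4) L1112932 (by decide +kernel)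
theorem L1112934 : W_3 (nat_lit 7) (nat_lit 0x1a001e0008000000000000000000000000000) (nat_lit 0x0) (nat_lit 0x10006000000006003e00070000000000000000000) := T_3 (nat_lit 145) (nat_lit 146) (nat_lit 3) (nat_lit 6) (nat_lit 7) L1112933 (by decide +kernel)
theorem L1112935 : W_3 (nat_lit 8) (nat_lit 0x1a001e0000000000000000000000000000000) (nat_lit 0x0) (nat_lit 0x1000600000001e003e00070000000000000000000) := T_3 (nat_lit 111) (nat_lit 112) (nat_lit 2) (nat_lit 6) (nat_lit 7) L1112934 (by decide +kernel)
theorem L1112936 : W_3 (nat_lit 9) (nat_lit 0x18001e0000000000000000000000000000000) (nat_lit 0x0) (nat_lit 0x1000660000001e003e00070000000000000000000) := T_3 (nat_lit 141) (nat_lit 142) (nat_lit 2) (nat_lit 5) (nat_lit 8) L1112935 (by decide +kernel)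
theorem L1112937 : W_3 (nat_lit 10) (nat_lit 0x18001c0000000000000000000000000000000) (nat_lit 0x0) (nat_lit 0x1000660003801e003e00070000000000000000000) := Q_3 (nat_lit 125) (C_3 L980791 (C_3 L1053309 (C_3 L1112936 N_3))) (by decide +kernel)
theorem L1112938 : W_3 (nat_lit 11) (nat_lit 0x1800180000000000000000000000000000000) (nat_lit 0x0) (nat_lit 0x400020001000660007803fc03fe007c000000000000000000) := Q_3 (nat_lit 126) (C_3 L1085759 (C_3 L1052864 (C_3 L980808 (C_3 L1112928 (C_3 L1112937 N_3))))) (by decide +kernel)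
theorem L1112939 : W_3 (nat_lit 12) (nat_lit 0x1800080000000000000000000000000000000) (nat_lit 0x0) (nat_lit 0x400120009000e60077803fc03fe007c000000000000000000) := Q_3 (nat_lit 128) (C_3 L822525 (C_3 L802142 (C_3 L1085760 (C_3 L1112938 N_3)))) (by decide +kernel)
theorem L1112940 : W_3 (nat_lit 2) (nat_lit 0x38001e000c000e00000000000000000000000) (nat_lit 0x0) (nat_lit 0x2003000000000000000000000000) := D_3 (nat_lit 96) (nat_lit 109) (nat_lit 97) (nat_lit 1) (nat_lit 11) (nat_lit 5) (nat_lit 1) (nat_lit 12) (nat_lit 5) (by decide +kernel)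
theorem L1112941 : W_3 (nat_lit 3) (nat_lit 0x38001e0008000e00000000000000000000000) (nat_lit 0x0) (nat_lit 0x10000000000006003000000000000000000000000) := T_3 (nat_lit 110) (nat_lit 160) (nat_lit 5) (nat_lit 8) (nat_lit 5) L1112940 (by decide +kernel)
theorem L1112942 : W_3 (nat_lit 4) (nat_lit 0x38001e0008000600000000000000000000000) (nat_lit 0x0) (nat_lit 0x10000000000006003800040000000000000000000) := T_3 (nat_lit 95) (nat_lit 78) (nat_lit 6) (nat_lit 9) (nat_lit 8) L1112941 (by decide +kernel)
theorem L1112943 : W_3 (nat_lit 5) (nat_lit 0x38001e0008000400000000000000000000000) (nat_lit 0x0) (nat_lit 0x10000000000006003a00050000000000000000000) := T_3 (nat_lit 93) (nat_lit 76) (nat_lit 4) (nat_lit 9) (nat_lit 8) L1112942 (by decide +kernel)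
theorem L1112944 : W_3 (nat_lit 6) (nat_lit 0x38001e0008000000000000000000000000000) (nat_lit 0x0) (nat_lit 0x10000000000006003e00070000000000000000000) := T_3 (nat_lit 94) (nat_lit 77) (nat_lit 5) (nat_lit 9) (nat_lit 4) L1112943 (by decide +kernel)
theorem L1112945 : W_3 (nat_lit 7) (nat_lit 0x38001e0000000000000000000000000000000) (nat_lit 0x0) (nat_lit 0x1000000000001e003e00070000000000000000000) := T_3 (nat_lit 111) (nat_lit 112) (nat_lit 2) (nat_lit 6) (nat_lit 7) L1112944 (by decide +kernel)
theorem L1112946 : W_3 (nat_lit 8) (nat_lit 0x18001e0000000000000000000000000000000) (nat_lit 0x0) (nat_lit 0x1000600000001e003e00070000000000000000000) := T_3 (nat_lit 145) (nat_lit 146) (nat_lit 3) (nat_lit 6) (nat_lit 7) L1112945 (by decide +kernel)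
theorem L1112947 : W_3 (nat_lit 9) (nat_lit 0x18001c0000000000000000000000000000000) (nat_lit 0x0) (nat_lit 0x1000600003801e003e00070000000000000000000) := Q_3 (nat_lit 125) (C_3 L980791 (C_3 L1053309 (C_3 L1112946 N_3))) (by decide +kernel)
theorem L1112948 : W_3 (nat_lit 2) (nat_lit 0x900078003c0010000000040000000000000000000) (nat_lit 0x0) (nat_lit 0x200000000000000004000200000000000000000000000) := D_3 (nat_lit 110) (nat_lit 93) (nat_lit 177) (nat_lit 5) (nat_lit 8) (nat_lit 5) (nat_lit 6) (nat_lit 7) (nat_lit 10) (by decide +kernel)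
theorem L1112949 : W_3 (nat_lit 3) (nat_lit 0x800078003c0010000000040000000000000000000) (nat_lit 0x0) (nat_lit 0x200018000000000004000200000000000000000000000) := T_3 (nat_lit 160) (nat_lit 159) (nat_lit 1) (nat_lit 10) (nat_lit 8) L1112948 (by decide +kernel)
theorem L1112950 : W_3 (nat_lit 4) (nat_lit 0x78003c0010000000040000000000000000000) (nat_lit 0x0) (nat_lit 0x200198000000000004000200000000000000000000000) := T_3 (nat_lit 163) (nat_lit 164) (nat_lit 3) (nat_lit 7) (nat_lit 8) L1112949 (by decide +kernel)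
theorem L1112951 : W_3 (nat_lit 5) (nat_lit 0x78003c0010000000000000000000000000000) (nat_lit 0x0) (nat_lit 0x200198000000000004000a00040000000000000000000) := T_3 (nat_lit 78) (nat_lit 95) (nat_lit 5) (nat_lit 10) (nat_lit 4) L1112950 (by decide +kernel)
theorem L1112952 : W_3 (nat_lit 6) (nat_lit 0x58003c0010000000000000000000000000000) (nat_lit 0x0) (nat_lit 0x200198002000020004000a00040000000000000000000) := T_3 (nat_lit 145) (nat_lit 125) (nat_lit 3) (nat_lit 6) (nat_lit 7) L1112951 (by decide +kernel)
theorem L1112953 : W_3 (nat_lit 7) (nat_lit 0x18003c0010000000000000000000000000000) (nat_lit 0x0) (nat_lit 0x20019800e000020004000a00040000000000000000000) := T_3 (nat_lit 146) (nat_lit 147) (nat_lit 3) (nat_lit 7) (nat_lit 7) L1112952 (by decide +kernel)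
theorem L1112954 : W_3 (nat_lit 8) (nat_lit 0x18003c0000000000000000000000000000000) (nat_lit 0x0) (nat_lit 0x20019800e000020034000a00040000000000000000000) := T_3 (nat_lit 112) (nat_lit 113) (nat_lit 2) (nat_lit 7) (nat_lit 7) L1112953 (by decide +kernel)
theorem L1112955 : W_3 (nat_lit 9) (nat_lit 0x18001c0000000000000000000000000000000) (nat_lit 0x0) (nat_lit 0x20019800e000620034000a00040000000000000000000) := T_3 (nat_lit 129) (nat_lit 130) (nat_lit 1) (nat_lit 11) (nat_lit 7) L1112954 (by decide +kernel)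
theorem L1112956 : W_3 (nat_lit 8) (nat_lit 0x18003c0004000000000000000000000000000) (nat_lit 0x0) (nat_lit 0x120019800e000000038000c00040000000000000000000) := T_3 (nat_lit 160) (nat_lit 177) (nat_lit 6) (nat_lit 7) (nat_lit 10) L1085499 (by decide +kernel)
theorem L1112957 : W_3 (nat_lit 9) (nat_lit 0x18001c0004000000000000000000000000000) (nat_lit 0x0) (nat_lit 0x120019800e000600038000c00040000000000000000000) := T_3 (nat_lit 129) (nat_lit 130) (nat_lit 1) (nat_lit 11) (nat_lit 7) L1112956 (by decide +kernel)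
theorem L1112958 : W_3 (nat_lit 2) (nat_lit 0x18003c0014000780000000000000000000000) (nat_lit 0x0) (nat_lit 0x2000000006000000000000000000) := D_3 (nat_lit 74) (nat_lit 109) (nat_lit 73) (nat_lit 4) (nat_lit 7) (nat_lit 8) (nat_lit 0) (nat_lit 9) (nat_lit 5) (by decide +kernel)
theorem L1112959 : W_3 (nat_lit 3) (nat_lit 0x18003c0014000700000000000000000000000) (nat_lit 0x0) (nat_lit 0xa000080006000000000000000000) := T_3 (nat_lit 91) (nat_lit 111) (nat_lit 3) (nat_lit 6) (nat_lit 5) L1112958 (by decide +kernel)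
theorem L1112960 : W_3 (nat_lit 4) (nat_lit 0x18003c0014000600000000000000000000000) (nat_lit 0x0) (nat_lit 0xa00018000e000000000000000000) := T_3 (nat_lit 92) (nat_lit 75) (nat_lit 4) (nat_lit 8) (nat_lit 8) L1112959 (by decide +kernel)
theorem L1112961 : W_3 (nat_lit 5) (nat_lit 0x18003c0014000200000000000000000000000) (nat_lit 0x0) (nat_lit 0xa00058002e000000000000000000) := T_3 (nat_lit 94) (nat_lit 77) (nat_lit 6) (nat_lit 8) (nat_lit 8) L1112960 (by decide +kernel)
theorem L1112962 : W_3 (nat_lit 6) (nat_lit 0x18003c0004000200000000000000000000000) (nat_lit 0x0) (nat_lit 0x3a00058002e000000000000000000) := T_3 (nat_lit 112) (nat_lit 113) (nat_lit 2) (nat_lit 7) (nat_lit 7) L1112961 (by decide +kernel)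
theorem L1112963 : W_3 (nat_lit 7) (nat_lit 0x18003c0004000000000000000000000000000) (nat_lit 0x0) (nat_lit 0x3a00078003e000000000000000000) := T_3 (nat_lit 93) (nat_lit 76) (nat_lit 5) (nat_lit 8) (nat_lit 4) L1112962 (by decide +kernel)
theorem L1112964 : W_3 (nat_lit 8) (nat_lit 0x18001c0004000000000000000000000000000) (nat_lit 0x0) (nat_lit 0x60003a00078003e000000000000000000) := T_3 (nat_lit 129) (nat_lit 130) (nat_lit 1) (nat_lit 11) (nat_lit 7) L1112963 (by decide +kernel)
theorem L1112965 : W_3 (nat_lit 10) (nat_lit 0x18001c0000000000000000000000000000000) (nat_lit 0x0) (nat_lit 0x120019800e00060003e000f8007e000000000000000000) := Q_3 (nat_lit 110) (C_3 L1112957 (C_3 L1052839 (C_3 L1112964 N_3))) (by decide +kernel)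
theorem L1112966 : W_3 (nat_lit 11) (nat_lit 0x1800180000000000000000000000000000000) (nat_lit 0x0) (nat_lit 0x2000120019800e00067803e003f8007e000000000000000000) := Q_3 (nat_lit 126) (C_3 L620709 (C_3 L988704 (C_3 L1112947 (C_3 L1112955 (C_3 L988698 (C_3 L1112965 N_3)))))) (by decide +kernel)
theorem L1112987 : W_3 (nat_lit 6) (nat_lit 0x100018001c0000000000000000000000000000000) (nat_lit 0x0) (nat_lit 0xe000f0000e000000000002000000000000000000000000000) := T_3 (nat_lit 177) (nat_lit 194) (nat_lit 6) (nat_lit 7) (nat_lit 11) L949783 (by decide +kernel)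
theorem L1114008 : W_3 (nat_lit 5) (nat_lit 0x3c00180004000000000000000000000000000) (nat_lit 0x0) (nat_lit 0x39c01c000000000000000000000000000000000000) := T_3 (nat_lit 159) (nat_lit 158) (nat_lit 1) (nat_lit 9) (nat_lit 8) L1051828 (by decide +kernel)
theorem L1114009 : W_3 (nat_lit 6) (nat_lit 0x3800180004000000000000000000000000000) (nat_lit 0x0) (nat_lit 0x39c01c600000000000000000000000000000000000) := T_3 (nat_lit 142) (nat_lit 141) (nat_lit 2) (nat_lit 5) (nat_lit 8) L1114008 (by decide +kernel)
theorem L1114010 : W_3 (nat_lit 2) (nat_lit 0x800fc001a0004000000000000000000000000000) (nat_lit 0x0) (nat_lit 0x380000000000000000000000000000000000000000) := D_3 (nat_lit 164) (nat_lit 163) (nat_lit 165) (nat_lit 3) (nat_lit 7) (nat_lit 8) (nat_lit 3) (nat_lit 8) (nat_lit 8) (by decide +kernel)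
theorem L1114011 : W_3 (nat_lit 3) (nat_lit 0x8007c001a0004000000000000000000000000000) (nat_lit 0x0) (nat_lit 0x380018000000000000000000000000000000000000) := T_3 (nat_lit 147) (nat_lit 148) (nat_lit 0) (nat_lit 12) (nat_lit 8) L1114010 (by decide +kernel)
theorem L1114012 : W_3 (nat_lit 4) (nat_lit 0x8003c001a0004000000000000000000000000000) (nat_lit 0x0) (nat_lit 0x38001c000040000000000000000000000000000000) := T_3 (nat_lit 146) (nat_lit 126) (nat_lit 3) (nat_lit 6) (nat_lit 7) L1114011 (by decide +kernel)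
theorem L1114013 : W_3 (nat_lit 5) (nat_lit 0x8003c00180004000000000000000000000000000) (nat_lit 0x0) (nat_lit 0x38001c000070000000000000000000000000000000) := T_3 (nat_lit 125) (nat_lit 124) (nat_lit 0) (nat_lit 9) (nat_lit 8) L1114012 (by decide +kernel)
theorem L1114014 : W_3 (nat_lit 6) (nat_lit 0x3c00180004000000000000000000000000000) (nat_lit 0x0) (nat_lit 0x38c01c000070000000000000000000000000000000) := T_3 (nat_lit 159) (nat_lit 158) (nat_lit 1) (nat_lit 9) (nat_lit 8) L1114013 (by decide +kernel)
theorem L1114015 : W_3 (nat_lit 7) (nat_lit 0x3800180004000000000000000000000000000) (nat_lit 0x0) (nat_lit 0x38c01c600070000000000000000000000000000000) := T_3 (nat_lit 142) (nat_lit 141) (nat_lit 2) (nat_lit 5) (nat_lit 8) L1114014 (by decide +kernel)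
theorem L1114016 : W_3 (nat_lit 2) (nat_lit 0x300008003c001a0004000000000000000000000000000) (nat_lit 0x0) (nat_lit 0x2000000000000000040002000000000000000000000000000) := D_3 (nat_lit 126) (nat_lit 193) (nat_lit 109) (nat_lit 6) (nat_lit 6) (nat_lit 11) (nat_lit 6) (nat_lit 6) (nat_lit 10) (by decide +kernel)
theorem L1114017 : W_3 (nat_lit 3) (nat_lit 0x200008003c001a0004000000000000000000000000000) (nat_lit 0x0) (nat_lit 0x6000100000000000040002000000000000000000000000000) := T_3 (nat_lit 176) (nat_lit 194) (nat_lit 7) (nat_lit 6) (nat_lit 7) L1114016 (by decide +kernel)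
theorem L1114018 : W_3 (nat_lit 4) (nat_lit 0x200008003c00180004000000000000000000000000000) (nat_lit 0x0) (nat_lit 0x6000100000000000070002000000000000000000000000000) := T_3 (nat_lit 125) (nat_lit 124) (nat_lit 0) (nat_lit 9) (nat_lit 8) L1114017 (by decide +kernel)
theorem L1114019 : W_3 (nat_lit 5) (nat_lit 0x200000003c00180004000000000000000000000000000) (nat_lit 0x0) (nat_lit 0x600010000c000000070002000000000000000000000000000) := T_3 (nat_lit 159) (nat_lit 158) (nat_lit 1) (nat_lit 9) (nat_lit 8) L1114018 (by decide +kernel)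
theorem L1114020 : W_3 (nat_lit 6) (nat_lit 0x200000003800180004000000000000000000000000000) (nat_lit 0x0) (nat_lit 0x600010000c000600070002000000000000000000000000000) := T_3 (nat_lit 142) (nat_lit 141) (nat_lit 2) (nat_lit 5) (nat_lit 8) L1114019 (by decide +kernel)
theorem L1114021 : W_3 (nat_lit 2) (nat_lit 0x200000003800180004000000000000000000000000000) (nat_lit 0x0) (nat_lit 0x4000000010000000040000000000000000000000000000000) := D_3 (nat_lit 160) (nat_lit 194) (nat_lit 126) (nat_lit 6) (nat_lit 7) (nat_lit 11) (nat_lit 6) (nat_lit 7) (nat_lit 10) (by decide +kernel)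
theorem L1114022 : W_3 (nat_lit 2) (nat_lit 0x4000200008003c00180004000000000000000000000000000) (nat_lit 0x0) (nat_lit 0x100000000000030000000000000000000000000000000) := D_3 (nat_lit 125) (nat_lit 124) (nat_lit 176) (nat_lit 0) (nat_lit 9) (nat_lit 8) (nat_lit 7) (nat_lit 6) (nat_lit 7) (by decide +kernel)
theorem L1114023 : W_3 (nat_lit 3) (nat_lit 0x4000200000003c00180004000000000000000000000000000) (nat_lit 0x0) (nat_lit 0x10000c000000030000000000000000000000000000000) := T_3 (nat_lit 159) (nat_lit 158) (nat_lit 1) (nat_lit 9) (nat_lit 8) L1114022 (by decide +kernel)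
theorem L1114024 : W_3 (nat_lit 4) (nat_lit 0x4000200000003800180004000000000000000000000000000) (nat_lit 0x0) (nat_lit 0x10000c000600030000000000000000000000000000000) := T_3 (nat_lit 142) (nat_lit 141) (nat_lit 2) (nat_lit 5) (nat_lit 8) L1114023 (by decide +kernel)
theorem L1114025 : W_3 (nat_lit 5) (nat_lit 0x200000003800180004000000000000000000000000000) (nat_lit 0x0) (nat_lit 0x400010001c000600030000000000000000000000000000000) := T_3 (nat_lit 194) (nat_lit 160) (nat_lit 6) (nat_lit 7) (nat_lit 11) L1114024 (by decide +kernel)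
theorem L1114026 : W_3 (nat_lit 2) (nat_lit 0x200008003c001e000c000000020000000000000000000) (nat_lit 0x0) (nat_lit 0x100000000000000002000100000000000000000000000) := D_3 (nat_lit 109) (nat_lit 92) (nat_lit 176) (nat_lit 5) (nat_lit 7) (nat_lit 5) (nat_lit 6) (nat_lit 6) (nat_lit 10) (by decide +kernel)
theorem L1114027 : W_3 (nat_lit 3) (nat_lit 0x200000003c001e000c000000020000000000000000000) (nat_lit 0x0) (nat_lit 0x10000c000000000002000100000000000000000000000) := T_3 (nat_lit 159) (nat_lit 158) (nat_lit 1) (nat_lit 9) (nat_lit 8) L1114026 (by decide +kernel)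
theorem L1114028 : W_3 (nat_lit 4) (nat_lit 0x200000003c001e000c000000000000000000000000000) (nat_lit 0x0) (nat_lit 0x10000c000000000002000500020000000000000000000) := T_3 (nat_lit 77) (nat_lit 94) (nat_lit 5) (nat_lit 9) (nat_lit 4) L1114027 (by decide +kernel)
theorem L1114029 : W_3 (nat_lit 5) (nat_lit 0x200000003c001e0004000000000000000000000000000) (nat_lit 0x0) (nat_lit 0x10000c00000000001a000500020000000000000000000) := T_3 (nat_lit 111) (nat_lit 112) (nat_lit 2) (nat_lit 6) (nat_lit 7) L1114028 (by decide +kernel)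
theorem L1114030 : W_3 (nat_lit 6) (nat_lit 0x200000003c001c0004000000000000000000000000000) (nat_lit 0x0) (nat_lit 0x10000c00000003001a000500020000000000000000000) := T_3 (nat_lit 125) (nat_lit 124) (nat_lit 3) (nat_lit 5) (nat_lit 7) L1114029 (by decide +kernel)
theorem L1114031 : W_3 (nat_lit 7) (nat_lit 0x200000003c00180004000000000000000000000000000) (nat_lit 0x0) (nat_lit 0x10001c00000007001a000500020000000000000000000) := T_3 (nat_lit 126) (nat_lit 160) (nat_lit 6) (nat_lit 7) (nat_lit 10) L1114030 (by decide +kernel)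
theorem L1114032 : W_3 (nat_lit 8) (nat_lit 0x200000003800180004000000000000000000000000000) (nat_lit 0x0) (nat_lit 0x10001c00060007001a000500020000000000000000000) := T_3 (nat_lit 142) (nat_lit 141) (nat_lit 2) (nat_lit 5) (nat_lit 8) L1114031 (by decide +kernel)
theorem L1114033 : W_3 (nat_lit 9) (nat_lit 0x3800180004000000000000000000000000000) (nat_lit 0x0) (nat_lit 0x600030001c00060007001a000500020000000000000000000) := Q_3 (nat_lit 177) (C_3 L1114020 (C_3 L1114021 (C_3 L1114025 (C_3 L1114032 N_3)))) (by decide +kernel)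
theorem L1114034 : W_3 (nat_lit 2) (nat_lit 0xfc001a0004000000000000000000000000000) (nat_lit 0x0) (nat_lit 0x380000000000000000000000000000000000000000) := D_3 (nat_lit 164) (nat_lit 163) (nat_lit 165) (nat_lit 3) (nat_lit 7) (nat_lit 8) (nat_lit 3) (nat_lit 8) (nat_lit 8) (by decide +kernel)
theorem L1114035 : W_3 (nat_lit 3) (nat_lit 0x7c001a0004000000000000000000000000000) (nat_lit 0x0) (nat_lit 0x380018000000000000000000000000000000000000) := T_3 (nat_lit 147) (nat_lit 148) (nat_lit 0) (nat_lit 12) (nat_lit 8) L1114034 (by decide +kernel)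
theorem L1114036 : W_3 (nat_lit 4) (nat_lit 0x3c001a0004000000000000000000000000000) (nat_lit 0x0) (nat_lit 0x38001c000040000000000000000000000000000000) := T_3 (nat_lit 146) (nat_lit 126) (nat_lit 3) (nat_lit 6) (nat_lit 7) L1114035 (by decide +kernel)
theorem L1114037 : W_3 (nat_lit 5) (nat_lit 0x3c00180004000000000000000000000000000) (nat_lit 0x0) (nat_lit 0x38001c000070000000000000000000000000000000) := T_3 (nat_lit 125) (nat_lit 124) (nat_lit 0) (nat_lit 9) (nat_lit 8) L1114036 (by decide +kernel)
theorem L1114038 : W_3 (nat_lit 6) (nat_lit 0x3800180004000000000000000000000000000) (nat_lit 0x0) (nat_lit 0x38001c600070000000000000000000000000000000) := T_3 (nat_lit 142) (nat_lit 141) (nat_lit 2) (nat_lit 5) (nat_lit 8) L1114037 (by decide +kernel)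
theorem L1114039 : W_3 (nat_lit 10) (nat_lit 0x1800180004000000000000000000000000000) (nat_lit 0x0) (nat_lit 0x600030039c01e60007001a000500020000000000000000000) := Q_3 (nat_lit 145) (C_3 L1114009 (C_3 L1051345 (C_3 L1114015 (C_3 L1114033 (C_3 L1114038 N_3))))) (by decide +kernel)
theorem L1114040 : W_3 (nat_lit 2) (nat_lit 0x8017c001a001c000e00000000000000000000000) (nat_lit 0x0) (nat_lit 0x2003000000000000000000000000) := D_3 (nat_lit 96) (nat_lit 109) (nat_lit 97) (nat_lit 2) (nat_lit 7) (nat_lit 6) (nat_lit 1) (nat_lit 12) (nat_lit 5) (by decide +kernel)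
theorem L1114041 : W_3 (nat_lit 3) (nat_lit 0x8017c001a001c000600000000000000000000000) (nat_lit 0x0) (nat_lit 0x2003800040000000000000000000) := T_3 (nat_lit 95) (nat_lit 78) (nat_lit 6) (nat_lit 9) (nat_lit 8) L1114040 (by decide +kernel)
theorem L1114042 : W_3 (nat_lit 4) (nat_lit 0x8007c001a001c000600000000000000000000000) (nat_lit 0x0) (nat_lit 0x18000000002003800040000000000000000000) := T_3 (nat_lit 148) (nat_lit 147) (nat_lit 0) (nat_lit 12) (nat_lit 8) L1114041 (by decide +kernel)
theorem L1114043 : W_3 (nat_lit 5) (nat_lit 0x8003c001a001c000600000000000000000000000) (nat_lit 0x0) (nat_lit 0x8001c000000002003800040000000000000000000) := T_3 (nat_lit 146) (nat_lit 163) (nat_lit 7) (nat_lit 9) (nat_lit 5) L1114042 (by decide +kernel)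
theorem L1114044 : W_3 (nat_lit 6) (nat_lit 0x3c001a001c000600000000000000000000000) (nat_lit 0x0) (nat_lit 0x8c01c000000002003800040000000000000000000) := T_3 (nat_lit 159) (nat_lit 158) (nat_lit 1) (nat_lit 9) (nat_lit 8) L1114043 (by decide +kernel)
theorem L1114045 : W_3 (nat_lit 7) (nat_lit 0x1c001a001c000600000000000000000000000) (nat_lit 0x0) (nat_lit 0x8c01e000010002003800040000000000000000000) := T_3 (nat_lit 145) (nat_lit 124) (nat_lit 0) (nat_lit 9) (nat_lit 8) L1114044 (by decide +kernel)
theorem L1114046 : W_3 (nat_lit 8) (nat_lit 0x1c001a001c000200000000000000000000000) (nat_lit 0x0) (nat_lit 0x8c01e000010002003c00060000000000000000000) := T_3 (nat_lit 94) (nat_lit 77) (nat_lit 6) (nat_lit 8) (nat_lit 8) L1114045 (by decide +kernel)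
theorem L1114047 : W_3 (nat_lit 9) (nat_lit 0x18001a001c000200000000000000000000000) (nat_lit 0x0) (nat_lit 0x8c01e600010002003c00060000000000000000000) := T_3 (nat_lit 142) (nat_lit 141) (nat_lit 2) (nat_lit 5) (nat_lit 8) L1114046 (by decide +kernel)
theorem L1114048 : W_3 (nat_lit 10) (nat_lit 0x180018001c000200000000000000000000000) (nat_lit 0x0) (nat_lit 0x8c01e600070002003c00060000000000000000000) := T_3 (nat_lit 125) (nat_lit 126) (nat_lit 2) (nat_lit 6) (nat_lit 7) L1114047 (by decide +kernel)
theorem L1114049 : W_3 (nat_lit 11) (nat_lit 0x180018000c000200000000000000000000000) (nat_lit 0x0) (nat_lit 0x8c01e600c70072003c00060002000000000000000) := Q_3 (nat_lit 112) (C_3 L1051985 (C_3 L1051992 (C_3 L1114048 N_3))) (by decide +kernel)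
theorem L1114050 : W_3 (nat_lit 2) (nat_lit 0x1a0018000e000f80004000000000000000000) (nat_lit 0x0) (nat_lit 0x20000000000000000c0000000000000000000) := D_3 (nat_lit 78) (nat_lit 145) (nat_lit 79) (nat_lit 6) (nat_lit 9) (nat_lit 8) (nat_lit 2) (nat_lit 7) (nat_lit 5) (by decide +kernel)
theorem L1114051 : W_3 (nat_lit 3) (nat_lit 0x1a0018000e000780004000000000000000000) (nat_lit 0x0) (nat_lit 0x20000000000018000c0000000000000000000) := T_3 (nat_lit 95) (nat_lit 96) (nat_lit 1) (nat_lit 11) (nat_lit 5) L1114050 (by decide +kernel)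
theorem L1114052 : W_3 (nat_lit 4) (nat_lit 0x1a0018000c000780004000000000000000000) (nat_lit 0x0) (nat_lit 0x20000400020018000c0000000000000000000) := T_3 (nat_lit 109) (nat_lit 126) (nat_lit 4) (nat_lit 7) (nat_lit 8) L1114051 (by decide +kernel)
theorem L1114053 : W_3 (nat_lit 5) (nat_lit 0x1a0018000c000780000000000000000000000) (nat_lit 0x0) (nat_lit 0x20000400020018000c6000000000000000000) := T_3 (nat_lit 74) (nat_lit 73) (nat_lit 0) (nat_lit 9) (nat_lit 5) L1114052 (by decide +kernel)
theorem L1114054 : W_3 (nat_lit 6) (nat_lit 0x180018000c000780000000000000000000000) (nat_lit 0x0) (nat_lit 0x26000400020018000c6000000000000000000) := T_3 (nat_lit 141) (nat_lit 142) (nat_lit 2) (nat_lit 5) (nat_lit 8) L1114053 (by decide +kernel)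
theorem L1114055 : W_3 (nat_lit 7) (nat_lit 0x180018000c000700000000000000000000000) (nat_lit 0x0) (nat_lit 0x26000400020018c00c6000000000000000000) := T_3 (nat_lit 91) (nat_lit 90) (nat_lit 3) (nat_lit 5) (nat_lit 5) L1114054 (by decide +kernel)
theorem L1114056 : W_3 (nat_lit 8) (nat_lit 0x180018000c000600000000000000000000000) (nat_lit 0x0) (nat_lit 0x26000400020019c00ce000000000000000000) := T_3 (nat_lit 92) (nat_lit 75) (nat_lit 4) (nat_lit 8) (nat_lit 8) L1114055 (by decide +kernel)
theorem L1114057 : W_3 (nat_lit 9) (nat_lit 0x180018000c000200000000000000000000000) (nat_lit 0x0) (nat_lit 0x2600040002001dc00ee000000000000000000) := T_3 (nat_lit 94) (nat_lit 77) (nat_lit 6) (nat_lit 8) (nat_lit 8) L1114056 (by decide +kernel)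
theorem L1114058 : W_3 (nat_lit 12) (nat_lit 0x1800180004000200000000000000000000000) (nat_lit 0x0) (nat_lit 0x8c01e600c7007a003dc00ee002000000000000000) := Q_3 (nat_lit 111) (C_3 L1051984 (C_3 L1055896 (C_3 L1114049 (C_3 L1114057 N_3)))) (by decide +kernel)
theorem L1114059 : W_3 (nat_lit 13) (nat_lit 0x1800180004000000000000000000000000000) (nat_lit 0x0) (nat_lit 0x8c01e600c7007a003fc00fe003c00060001000000) := Q_3 (nat_lit 93) (C_3 L1055887 (C_3 L1055906 (C_3 L1049840 (C_3 L1114058 N_3)))) (by decide +kernel)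
theorem L1114060 : W_3 (nat_lit 14) (nat_lit 0x1800180000000000000000000000000000000) (nat_lit 0x0) (nat_lit 0x600030039c01e600c7007e003fc00fe003c00060001000000) := Q_3 (nat_lit 110) (C_3 L1055911 (C_3 L1114039 (C_3 L1049841 (C_3 L1114059 (C_3 L1055576 N_3))))) (by decide +kernel)
theorem L1114061 : W_3 (nat_lit 15) (nat_lit 0x1800080000000000000000000000000000000) (nat_lit 0x0) (nat_lit 0x2600130039c01e600f7807e003fc00fe003c00060001000000) := Q_3 (nat_lit 128) (C_3 L822525 (C_3 L802142 (C_3 L1052159 (C_3 L1112966 (C_3 L1114060 N_3))))) (by decide +kernel)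
theorem L1114062 : W_3 (nat_lit 2) (nat_lit 0x800058003c0016000600000000000000000000000) (nat_lit 0x0) (nat_lit 0x2000100002000000000000000000000000000000000000) := D_3 (nat_lit 164) (nat_lit 145) (nat_lit 181) (nat_lit 3) (nat_lit 7) (nat_lit 8) (nat_lit 7) (nat_lit 10) (nat_lit 6) (by decide +kernel)
theorem L1114063 : W_3 (nat_lit 3) (nat_lit 0x58003c0016000600000000000000000000000) (nat_lit 0x0) (nat_lit 0x2000180002000000008000000000000000000000000000) := T_3 (nat_lit 163) (nat_lit 111) (nat_lit 4) (nat_lit 10) (nat_lit 9) L1114062 (by decide +kernel)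
theorem L1114064 : W_3 (nat_lit 4) (nat_lit 0x58003c0006000600000000000000000000000) (nat_lit 0x0) (nat_lit 0x2000180002000000038000000000000000000000000000) := T_3 (nat_lit 112) (nat_lit 113) (nat_lit 2) (nat_lit 7) (nat_lit 7) L1114063 (by decide +kernel)
theorem L1114065 : W_3 (nat_lit 5) (nat_lit 0x58003c0004000600000000000000000000000) (nat_lit 0x0) (nat_lit 0x200018000200000003b000000000000000000000000000) := T_3 (nat_lit 109) (nat_lit 108) (nat_lit 0) (nat_lit 10) (nat_lit 7) L1114064 (by decide +kernel)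
theorem L1114066 : W_3 (nat_lit 6) (nat_lit 0x58003c0004000200000000000000000000000) (nat_lit 0x0) (nat_lit 0x200018000200000003b000400020000000000000000000) := T_3 (nat_lit 94) (nat_lit 77) (nat_lit 6) (nat_lit 8) (nat_lit 8) L1114065 (by decide +kernel)
theorem L1114067 : W_3 (nat_lit 7) (nat_lit 0x18003c0004000200000000000000000000000) (nat_lit 0x0) (nat_lit 0x200018000e00000003b000400020000000000000000000) := T_3 (nat_lit 146) (nat_lit 147) (nat_lit 3) (nat_lit 7) (nat_lit 7) L1114066 (by decide +kernel)
theorem L1114068 : W_3 (nat_lit 8) (nat_lit 0x18003c0004000000000000000000000000000) (nat_lit 0x0) (nat_lit 0x200018000e00000003b000600030000000000000000000) := T_3 (nat_lit 93) (nat_lit 76) (nat_lit 5) (nat_lit 8) (nat_lit 4) L1114067 (by decide +kernel)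
theorem L1114069 : W_3 (nat_lit 9) (nat_lit 0x18001c0004000000000000000000000000000) (nat_lit 0x0) (nat_lit 0x200018000e00060003b000600030000000000000000000) := T_3 (nat_lit 129) (nat_lit 130) (nat_lit 1) (nat_lit 11) (nat_lit 7) L1114068 (by decide +kernel)
theorem L1114070 : W_3 (nat_lit 10) (nat_lit 0x18001c0000000000000000000000000000000) (nat_lit 0x0) (nat_lit 0x320019800e00060003f000e00070000000000000000000) := Q_3 (nat_lit 110) (C_3 L1052839 (C_3 L1112957 (C_3 L1114069 N_3))) (by decide +kernel)
theorem L1114071 : W_3 (nat_lit 11) (nat_lit 0x1800180000000000000000000000000000000) (nat_lit 0x0) (nat_lit 0x2000320019800e00067803f003e00070000000000000000000) := Q_3 (nat_lit 126) (C_3 L988704 (C_3 L620709 (C_3 L1112955 (C_3 L1112947 (C_3 L988698 (C_3 L1114070 N_3)))))) (by decide +kernel)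
theorem L1114093 : W_3 (nat_lit 13) (nat_lit 0x1800080000000000000000000000000000000) (nat_lit 0x0) (nat_lit 0xe00270033e039f01e60077c03f803ec0070000000000000000000) := Q_3 (nat_lit 128) (C_3 L822525 (C_3 L802142 (C_3 L1052159 (C_3 L1114071 (C_3 L1114092 N_3))))) (by decide +kernel)
theorem L1115271 : W_3 (nat_lit 3) (nat_lit 0x10001c001c0000000000000000000000000000000) (nat_lit 0x0) (nat_lit 0x200010000e002000000002000000000000000000000000000) := Q_3 (nat_lit 159) (C_3 L642826 (C_3 L619980 N_3)) (by decide +kernel)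
theorem L1115353 : W_3 (nat_lit 6) (nat_lit 0x100018001c0000000000000000000000000000000) (nat_lit 0x0) (nat_lit 0x10000e000000020007c0038001c000000000000000000) := Q_3 (nat_lit 109) (C_3 L1028261 (C_3 L1052895 (C_3 L802214 N_3))) (by decide +kernel)
theorem L1115354 : W_3 (nat_lit 7) (nat_lit 0x18001c0000000000000000000000000000000) (nat_lit 0x0) (nat_lit 0xe000f0001e000000020007c0038001c000000000000000000) := Q_3 (nat_lit 160) (C_3 L1112811 (C_3 L1112987 (C_3 L1115353 N_3))) (by decide +kernel)
theorem L1115355 : W_3 (nat_lit 13) (nat_lit 0x18001c0000000000000000000000000000000) (nat_lit 0x0) (nat_lit 0x200010000c00660002001f800fc007e000000000000000000) := Q_3 (nat_lit 125) (C_3 L1084768 (C_3 L1086928 (C_3 L1052872 (C_3 L1086917 N_3)))) (by decide +kernel)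
theorem L1115356 : W_3 (nat_lit 4) (nat_lit 0x100018001c0000000000000000000000000000000) (nat_lit 0x0) (nat_lit 0x200010000e002600000002000000000000000000000000000) := T_3 (nat_lit 142) (nat_lit 141) (nat_lit 2) (nat_lit 5) (nat_lit 8) L1115271 (by decide +kernel)
theorem L1115357 : W_3 (nat_lit 7) (nat_lit 0x18001c0000000000000000000000000000000) (nat_lit 0x0) (nat_lit 0xe000f0001e002600000006000000000000000000000000000) := Q_3 (nat_lit 160) (C_3 L1112811 (C_3 L1112987 (C_3 L1115356 N_3))) (by decide +kernel)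
theorem L1115358 : W_3 (nat_lit 2) (nat_lit 0x100010003a001e0008000e00000000000000000000000) (nat_lit 0x0) (nat_lit 0x6000200000000000000000000000000000000000000000000) := D_3 (nat_lit 177) (nat_lit 193) (nat_lit 194) (nat_lit 5) (nat_lit 7) (nat_lit 7) (nat_lit 6) (nat_lit 7) (nat_lit 11) (by decide +kernel)
theorem L1115359 : W_3 (nat_lit 3) (nat_lit 0x100000003a001e0008000e00000000000000000000000) (nat_lit 0x0) (nat_lit 0x6000200010000000000004000000000000000000000000000) := T_3 (nat_lit 160) (nat_lit 110) (nat_lit 5) (nat_lit 8) (nat_lit 5) L1115358 (by decide +kernel)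
theorem L1115360 : W_3 (nat_lit 4) (nat_lit 0x100000003a001e0008000600000000000000000000000) (nat_lit 0x0) (nat_lit 0x6000200010000000000004000800040000000000000000000) := T_3 (nat_lit 95) (nat_lit 78) (nat_lit 6) (nat_lit 9) (nat_lit 8) L1115359 (by decide +kernel)
theorem L1115361 : W_3 (nat_lit 5) (nat_lit 0x100000003a001e0008000400000000000000000000000) (nat_lit 0x0) (nat_lit 0x6000200010000000000004000a00050000000000000000000) := T_3 (nat_lit 93) (nat_lit 76) (nat_lit 4) (nat_lit 9) (nat_lit 8) L1115360 (by decide +kernel)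
theorem L1115362 : W_3 (nat_lit 6) (nat_lit 0x100000003a001e0008000000000000000000000000000) (nat_lit 0x0) (nat_lit 0x6000200010000000000004000e00070000000000000000000) := T_3 (nat_lit 94) (nat_lit 77) (nat_lit 5) (nat_lit 9) (nat_lit 4) L1115361 (by decide +kernel)
theorem L1115363 : W_3 (nat_lit 7) (nat_lit 0x100000003a001e0000000000000000000000000000000) (nat_lit 0x0) (nat_lit 0x600020001000000000001c000e00070000000000000000000) := T_3 (nat_lit 111) (nat_lit 112) (nat_lit 2) (nat_lit 6) (nat_lit 7) L1115362 (by decide +kernel)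
theorem L1115364 : W_3 (nat_lit 8) (nat_lit 0x1000000038001e0000000000000000000000000000000) (nat_lit 0x0) (nat_lit 0x600020001000060000001c000e00070000000000000000000) := T_3 (nat_lit 141) (nat_lit 142) (nat_lit 2) (nat_lit 5) (nat_lit 8) L1115363 (by decide +kernel)
theorem L1115365 : W_3 (nat_lit 9) (nat_lit 0x1000000018001e0000000000000000000000000000000) (nat_lit 0x0) (nat_lit 0x600020001000660000001c000e00070000000000000000000) := T_3 (nat_lit 145) (nat_lit 146) (nat_lit 3) (nat_lit 6) (nat_lit 7) L1115364 (by decide +kernel)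
theorem L1115366 : W_3 (nat_lit 2) (nat_lit 0x1000100038001e0008000e00000000000000000000000) (nat_lit 0x0) (nat_lit 0x6000200000000000000000000000000000000000000000000) := D_3 (nat_lit 177) (nat_lit 193) (nat_lit 194) (nat_lit 5) (nat_lit 7) (nat_lit 7) (nat_lit 6) (nat_lit 7) (nat_lit 11) (by decide +kernel)
theorem L1115367 : W_3 (nat_lit 3) (nat_lit 0x1000000038001e0008000e00000000000000000000000) (nat_lit 0x0) (nat_lit 0x6000200010000000000004000000000000000000000000000) := T_3 (nat_lit 160) (nat_lit 110) (nat_lit 5) (nat_lit 8) (nat_lit 5) L1115366 (by decide +kernel)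
theorem L1115368 : W_3 (nat_lit 4) (nat_lit 0x1000000038001e0008000600000000000000000000000) (nat_lit 0x0) (nat_lit 0x6000200010000000000004000800040000000000000000000) := T_3 (nat_lit 95) (nat_lit 78) (nat_lit 6) (nat_lit 9) (nat_lit 8) L1115367 (by decide +kernel)
theorem L1115369 : W_3 (nat_lit 5) (nat_lit 0x1000000038001e0008000400000000000000000000000) (nat_lit 0x0) (nat_lit 0x6000200010000000000004000a00050000000000000000000) := T_3 (nat_lit 93) (nat_lit 76) (nat_lit 4) (nat_lit 9) (nat_lit 8) L1115368 (by decide +kernel)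
theorem L1115370 : W_3 (nat_lit 6) (nat_lit 0x1000000038001e0008000000000000000000000000000) (nat_lit 0x0) (nat_lit 0x6000200010000000000004000e00070000000000000000000) := T_3 (nat_lit 94) (nat_lit 77) (nat_lit 5) (nat_lit 9) (nat_lit 4) L1115369 (by decide +kernel)
theorem L1115371 : W_3 (nat_lit 7) (nat_lit 0x1000000018001e0008000000000000000000000000000) (nat_lit 0x0) (nat_lit 0x6000200010006000000004000e00070000000000000000000) := T_3 (nat_lit 145) (nat_lit 146) (nat_lit 3) (nat_lit 6) (nat_lit 7) L1115370 (by decide +kernel)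
theorem L1115372 : W_3 (nat_lit 8) (nat_lit 0x1000000018001e0000000000000000000000000000000) (nat_lit 0x0) (nat_lit 0x600020001000600000001c000e00070000000000000000000) := T_3 (nat_lit 111) (nat_lit 112) (nat_lit 2) (nat_lit 6) (nat_lit 7) L1115371 (by decide +kernel)
theorem L1115373 : W_3 (nat_lit 6) (nat_lit 0x100000001c001e0008000000020000000000000000000) (nat_lit 0x0) (nat_lit 0xe000e0001e000000000004000000000000000000000000000) := T_3 (nat_lit 159) (nat_lit 193) (nat_lit 6) (nat_lit 6) (nat_lit 11) L1053422 (by decide +kernel)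
theorem L1115374 : W_3 (nat_lit 7) (nat_lit 0x100000001c001e0008000000000000000000000000000) (nat_lit 0x0) (nat_lit 0xe000e0001e000000000004000400020000000000000000000) := T_3 (nat_lit 77) (nat_lit 94) (nat_lit 5) (nat_lit 9) (nat_lit 4) L1115373 (by decide +kernel)
theorem L1115375 : W_3 (nat_lit 8) (nat_lit 0x1000000018001e0008000000000000000000000000000) (nat_lit 0x0) (nat_lit 0xe000e0001e000600000004000400020000000000000000000) := T_3 (nat_lit 142) (nat_lit 141) (nat_lit 2) (nat_lit 5) (nat_lit 8) L1115374 (by decide +kernel)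
theorem L1115376 : W_3 (nat_lit 9) (nat_lit 0x1000000018001e0000000000000000000000000000000) (nat_lit 0x0) (nat_lit 0xe000e0001e00060000001c000400020000000000000000000) := T_3 (nat_lit 111) (nat_lit 112) (nat_lit 2) (nat_lit 6) (nat_lit 7) L1115375 (by decide +kernel)
theorem L1115377 : W_3 (nat_lit 2) (nat_lit 0x100000003c001e0000000000000000000000000000000) (nat_lit 0x0) (nat_lit 0x200000000c000000000000000000000000000000000000000) := D_3 (nat_lit 159) (nat_lit 193) (nat_lit 158) (nat_lit 6) (nat_lit 6) (nat_lit 11) (nat_lit 1) (nat_lit 9) (nat_lit 8) (by decide +kernel)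
theorem L1115378 : W_3 (nat_lit 3) (nat_lit 0x100000001c001e0000000000000000000000000000000) (nat_lit 0x0) (nat_lit 0x200000000c006000000000000000000000000000000000000) := T_3 (nat_lit 145) (nat_lit 146) (nat_lit 3) (nat_lit 6) (nat_lit 7) L1115377 (by decide +kernel)
theorem L1115379 : W_3 (nat_lit 4) (nat_lit 0x1000000018001e0000000000000000000000000000000) (nat_lit 0x0) (nat_lit 0x200000000c006600000000000000000000000000000000000) := T_3 (nat_lit 142) (nat_lit 141) (nat_lit 2) (nat_lit 5) (nat_lit 8) L1115378 (by decide +kernel)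
theorem L1115380 : W_3 (nat_lit 2) (nat_lit 0x180000003c001e0008000000020000000000000000000) (nat_lit 0x0) (nat_lit 0x100000000c000000000000000000000000000000000000000) := D_3 (nat_lit 159) (nat_lit 192) (nat_lit 158) (nat_lit 5) (nat_lit 6) (nat_lit 7) (nat_lit 1) (nat_lit 9) (nat_lit 8) (by decide +kernel)
theorem L1115381 : W_3 (nat_lit 3) (nat_lit 0x1800000038001e0008000000020000000000000000000) (nat_lit 0x0) (nat_lit 0x100000000c000600000000000000000000000000000000000) := T_3 (nat_lit 142) (nat_lit 141) (nat_lit 2) (nat_lit 5) (nat_lit 8) L1115380 (by decide +kernel)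
theorem L1115382 : W_3 (nat_lit 4) (nat_lit 0x1800000038001e0008000000000000000000000000000) (nat_lit 0x0) (nat_lit 0x100000000c000600000000000400020000000000000000000) := T_3 (nat_lit 77) (nat_lit 94) (nat_lit 5) (nat_lit 9) (nat_lit 4) L1115381 (by decide +kernel)
theorem L1115383 : W_3 (nat_lit 5) (nat_lit 0x1800000018001e0008000000000000000000000000000) (nat_lit 0x0) (nat_lit 0x100000000c006600000000000400020000000000000000000) := T_3 (nat_lit 145) (nat_lit 146) (nat_lit 3) (nat_lit 6) (nat_lit 7) L1115382 (by decide +kernel)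
theorem L1115384 : W_3 (nat_lit 6) (nat_lit 0x1800000018001e0000000000000000000000000000000) (nat_lit 0x0) (nat_lit 0x100000000c006600000018000400020000000000000000000) := T_3 (nat_lit 111) (nat_lit 112) (nat_lit 2) (nat_lit 6) (nat_lit 7) L1115383 (by decide +kernel)
theorem L1115385 : W_3 (nat_lit 2) (nat_lit 0x780018001c001e0008000000020000000000000000000) (nat_lit 0x0) (nat_lit 0x800006000000000000000000000000000000000000000) := D_3 (nat_lit 158) (nat_lit 157) (nat_lit 179) (nat_lit 3) (nat_lit 4) (nat_lit 9) (nat_lit 0) (nat_lit 9) (nat_lit 10) (by decide +kernel)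
theorem L1115386 : W_3 (nat_lit 3) (nat_lit 0x380018001c001e0008000000020000000000000000000) (nat_lit 0x0) (nat_lit 0x8000c00006000000000000000000000000000000000000000) := T_3 (nat_lit 178) (nat_lit 195) (nat_lit 7) (nat_lit 7) (nat_lit 7) L1115385 (by decide +kernel)
theorem L1115387 : W_3 (nat_lit 4) (nat_lit 0x380008001c001e0008000000020000000000000000000) (nat_lit 0x0) (nat_lit 0x8000c00016000000000004000000000000000000000000000) := T_3 (nat_lit 160) (nat_lit 110) (nat_lit 6) (nat_lit 7) (nat_lit 10) L1115386 (by decide +kernel)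
theorem L1115388 : W_3 (nat_lit 5) (nat_lit 0x180008001c001e0008000000020000000000000000000) (nat_lit 0x0) (nat_lit 0xc000e00016000000000004000000000000000000000000000) := T_3 (nat_lit 177) (nat_lit 194) (nat_lit 7) (nat_lit 6) (nat_lit 7) L1115387 (by decide +kernel)
theorem L1115389 : W_3 (nat_lit 6) (nat_lit 0x180008001c001e0008000000000000000000000000000) (nat_lit 0x0) (nat_lit 0xc000e00016000000000004000400020000000000000000000) := T_3 (nat_lit 77) (nat_lit 94) (nat_lit 5) (nat_lit 9) (nat_lit 4) L1115388 (by decide +kernel)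
theorem L1115390 : W_3 (nat_lit 7) (nat_lit 0x180000001c001e0008000000000000000000000000000) (nat_lit 0x0) (nat_lit 0xd000e0001e000000000004000400020000000000000000000) := T_3 (nat_lit 159) (nat_lit 192) (nat_lit 5) (nat_lit 6) (nat_lit 7) L1115389 (by decide +kernel)
theorem L1115391 : W_3 (nat_lit 8) (nat_lit 0x180000001c001e0000000000000000000000000000000) (nat_lit 0x0) (nat_lit 0xd000e0001e00000000001c000400020000000000000000000) := T_3 (nat_lit 111) (nat_lit 112) (nat_lit 2) (nat_lit 6) (nat_lit 7) L1115390 (by decide +kernel)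
theorem L1115392 : W_3 (nat_lit 9) (nat_lit 0x1800000018001e0000000000000000000000000000000) (nat_lit 0x0) (nat_lit 0xd000e0001e00060000001c000400020000000000000000000) := T_3 (nat_lit 142) (nat_lit 141) (nat_lit 2) (nat_lit 5) (nat_lit 8) L1115391 (by decide +kernel)
theorem L1115393 : W_3 (nat_lit 2) (nat_lit 0x8007c00140038001e0008000e00000000000000000000000) (nat_lit 0x0) (nat_lit 0x820008000000000000000000000000000000000000000) := D_3 (nat_lit 159) (nat_lit 179) (nat_lit 173) (nat_lit 0) (nat_lit 9) (nat_lit 10) (nat_lit 2) (nat_lit 3) (nat_lit 10) (by decide +kernel)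
theorem L1115394 : W_3 (nat_lit 3) (nat_lit 0x8007800140038001e0008000e00000000000000000000000) (nat_lit 0x0) (nat_lit 0x400860008000000000000000000000000000000000000000) := T_3 (nat_lit 174) (nat_lit 190) (nat_lit 1) (nat_lit 7) (nat_lit 10) L1115393 (by decide +kernel)
theorem L1115395 : W_3 (nat_lit 4) (nat_lit 0x8007800100038001e0008000e00000000000000000000000) (nat_lit 0x0) (nat_lit 0x40086000e000000000000000000000000000000000000000) := T_3 (nat_lit 158) (nat_lit 157) (nat_lit 0) (nat_lit 8) (nat_lit 10) L1115394 (by decide +kernel)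
theorem L1115396 : W_3 (nat_lit 5) (nat_lit 0x7800100038001e0008000e00000000000000000000000) (nat_lit 0x0) (nat_lit 0x1c0086000e000000000000000000000000000000000000000) := T_3 (nat_lit 191) (nat_lit 192) (nat_lit 1) (nat_lit 8) (nat_lit 10) L1115395 (by decide +kernel)
theorem L1115397 : W_3 (nat_lit 6) (nat_lit 0x3800100038001e0008000e00000000000000000000000) (nat_lit 0x0) (nat_lit 0x9c00c6000e000000000000000000000000000000000000000) := T_3 (nat_lit 178) (nat_lit 195) (nat_lit 7) (nat_lit 7) (nat_lit 7) L1115396 (by decide +kernel)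
theorem L1115398 : W_3 (nat_lit 7) (nat_lit 0x1800100038001e0008000e00000000000000000000000) (nat_lit 0x0) (nat_lit 0xdc00e6000e000000000000000000000000000000000000000) := T_3 (nat_lit 177) (nat_lit 194) (nat_lit 6) (nat_lit 7) (nat_lit 11) L1115397 (by decide +kernel)
theorem L1115399 : W_3 (nat_lit 8) (nat_lit 0x1800000038001e0008000e00000000000000000000000) (nat_lit 0x0) (nat_lit 0xdc00e6001e000000000004000000000000000000000000000) := T_3 (nat_lit 160) (nat_lit 110) (nat_lit 5) (nat_lit 8) (nat_lit 5) L1115398 (by decide +kernel)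
theorem L1115400 : W_3 (nat_lit 9) (nat_lit 0x1800000038001e0008000600000000000000000000000) (nat_lit 0x0) (nat_lit 0xdc00e6001e000000000004000800040000000000000000000) := T_3 (nat_lit 95) (nat_lit 78) (nat_lit 6) (nat_lit 9) (nat_lit 8) L1115399 (by decide +kernel)
theorem L1115401 : W_3 (nat_lit 10) (nat_lit 0x1800000038001e0008000400000000000000000000000) (nat_lit 0x0) (nat_lit 0xdc00e6001e000000000004000a00050000000000000000000) := T_3 (nat_lit 93) (nat_lit 76) (nat_lit 4) (nat_lit 9) (nat_lit 8) L1115400 (by decide +kernel)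
theorem L1115402 : W_3 (nat_lit 11) (nat_lit 0x1800000038001e0008000000000000000000000000000) (nat_lit 0x0) (nat_lit 0xdc00e6001e000000000004000e00070000000000000000000) := T_3 (nat_lit 94) (nat_lit 77) (nat_lit 5) (nat_lit 9) (nat_lit 4) L1115401 (by decide +kernel)
theorem L1115403 : W_3 (nat_lit 12) (nat_lit 0x1800000038001e0000000000000000000000000000000) (nat_lit 0x0) (nat_lit 0xdc00e6001e00000000001c000e00070000000000000000000) := T_3 (nat_lit 111) (nat_lit 112) (nat_lit 2) (nat_lit 6) (nat_lit 7) L1115402 (by decide +kernel)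
theorem L1115404 : W_3 (nat_lit 13) (nat_lit 0x1800000018001e0000000000000000000000000000000) (nat_lit 0x0) (nat_lit 0xdc00e6001e00600000001c000e00070000000000000000000) := T_3 (nat_lit 145) (nat_lit 146) (nat_lit 3) (nat_lit 6) (nat_lit 7) L1115403 (by decide +kernel)
theorem L1115405 : W_3 (nat_lit 2) (nat_lit 0x780018005c001e0000000000000000000000000000000) (nat_lit 0x0) (nat_lit 0x800006000000000000000000000000000000000000000) := D_3 (nat_lit 158) (nat_lit 157) (nat_lit 179) (nat_lit 3) (nat_lit 4) (nat_lit 9) (nat_lit 0) (nat_lit 9) (nat_lit 10) (by decide +kernel)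
theorem L1115406 : W_3 (nat_lit 3) (nat_lit 0x380018005c001e0000000000000000000000000000000) (nat_lit 0x0) (nat_lit 0x8000c00006000000000000000000000000000000000000000) := T_3 (nat_lit 178) (nat_lit 195) (nat_lit 7) (nat_lit 7) (nat_lit 7) L1115405 (by decide +kernel)
theorem L1115407 : W_3 (nat_lit 4) (nat_lit 0x380008005c001e0000000000000000000000000000000) (nat_lit 0x0) (nat_lit 0x8000c00016000000000004000000000000000000000000000) := T_3 (nat_lit 160) (nat_lit 110) (nat_lit 6) (nat_lit 7) (nat_lit 10) L1115406 (by decide +kernel)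
theorem L1115408 : W_3 (nat_lit 5) (nat_lit 0x180008005c001e0000000000000000000000000000000) (nat_lit 0x0) (nat_lit 0xc000e00016000000000004000000000000000000000000000) := T_3 (nat_lit 177) (nat_lit 194) (nat_lit 7) (nat_lit 6) (nat_lit 7) L1115407 (by decide +kernel)
theorem L1115409 : W_3 (nat_lit 6) (nat_lit 0x180000005c001e0000000000000000000000000000000) (nat_lit 0x0) (nat_lit 0xd000e0001e000000000004000000000000000000000000000) := T_3 (nat_lit 159) (nat_lit 192) (nat_lit 5) (nat_lit 6) (nat_lit 7) L1115408 (by decide +kernel)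
theorem L1115410 : W_3 (nat_lit 7) (nat_lit 0x180000001c001e0000000000000000000000000000000) (nat_lit 0x0) (nat_lit 0xd000e0001e006000000004000000000000000000000000000) := T_3 (nat_lit 146) (nat_lit 145) (nat_lit 3) (nat_lit 6) (nat_lit 7) L1115409 (by decide +kernel)
theorem L1115411 : W_3 (nat_lit 8) (nat_lit 0x1800000018001e0000000000000000000000000000000) (nat_lit 0x0) (nat_lit 0xd000e0001e006600000004000000000000000000000000000) := T_3 (nat_lit 142) (nat_lit 141) (nat_lit 2) (nat_lit 5) (nat_lit 8) L1115410 (by decide +kernel)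
theorem L1115412 : W_3 (nat_lit 2) (nat_lit 0x800780012003a001e0008000e00000000000000000000000) (nat_lit 0x0) (nat_lit 0x400040001000000000000000000000000000000000000000) := D_3 (nat_lit 174) (nat_lit 190) (nat_lit 156) (nat_lit 1) (nat_lit 7) (nat_lit 10) (nat_lit 0) (nat_lit 7) (nat_lit 10) (by decide +kernel)
theorem L1115413 : W_3 (nat_lit 3) (nat_lit 0x800780010003a001e0008000e00000000000000000000000) (nat_lit 0x0) (nat_lit 0x400040007000000000000000000000000000000000000000) := T_3 (nat_lit 157) (nat_lit 158) (nat_lit 0) (nat_lit 8) (nat_lit 10) L1115412 (by decide +kernel)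
theorem L1115414 : W_3 (nat_lit 4) (nat_lit 0x780010003a001e0008000e00000000000000000000000) (nat_lit 0x0) (nat_lit 0x1c00040007000000000000000000000000000000000000000) := T_3 (nat_lit 191) (nat_lit 192) (nat_lit 1) (nat_lit 8) (nat_lit 10) L1115413 (by decide +kernel)
theorem L1115415 : W_3 (nat_lit 5) (nat_lit 0x380010003a001e0008000e00000000000000000000000) (nat_lit 0x0) (nat_lit 0x9c00440007000000000000000000000000000000000000000) := T_3 (nat_lit 178) (nat_lit 195) (nat_lit 7) (nat_lit 7) (nat_lit 7) L1115414 (by decide +kernel)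
theorem L1115416 : W_3 (nat_lit 6) (nat_lit 0x180010003a001e0008000e00000000000000000000000) (nat_lit 0x0) (nat_lit 0xdc00640007000000000000000000000000000000000000000) := T_3 (nat_lit 177) (nat_lit 194) (nat_lit 6) (nat_lit 7) (nat_lit 11) L1115415 (by decide +kernel)
theorem L1115417 : W_3 (nat_lit 7) (nat_lit 0x180000003a001e0008000e00000000000000000000000) (nat_lit 0x0) (nat_lit 0xdc00640017000000000004000000000000000000000000000) := T_3 (nat_lit 160) (nat_lit 110) (nat_lit 5) (nat_lit 8) (nat_lit 5) L1115416 (by decide +kernel)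
theorem L1115418 : W_3 (nat_lit 8) (nat_lit 0x180000003a001e0008000600000000000000000000000) (nat_lit 0x0) (nat_lit 0xdc00640017000000000004000800040000000000000000000) := T_3 (nat_lit 95) (nat_lit 78) (nat_lit 6) (nat_lit 9) (nat_lit 8) L1115417 (by decide +kernel)
theorem L1115419 : W_3 (nat_lit 9) (nat_lit 0x180000003a001e0008000400000000000000000000000) (nat_lit 0x0) (nat_lit 0xdc00640017000000000004000a00050000000000000000000) := T_3 (nat_lit 93) (nat_lit 76) (nat_lit 4) (nat_lit 9) (nat_lit 8) L1115418 (by decide +kernel)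
theorem L1115420 : W_3 (nat_lit 10) (nat_lit 0x180000003a001e0008000000000000000000000000000) (nat_lit 0x0) (nat_lit 0xdc00640017000000000004000e00070000000000000000000) := T_3 (nat_lit 94) (nat_lit 77) (nat_lit 5) (nat_lit 9) (nat_lit 4) L1115419 (by decide +kernel)
theorem L1115421 : W_3 (nat_lit 11) (nat_lit 0x180000001a001e0008000000000000000000000000000) (nat_lit 0x0) (nat_lit 0xdc00640017006000000004000e00070000000000000000000) := T_3 (nat_lit 145) (nat_lit 146) (nat_lit 3) (nat_lit 6) (nat_lit 7) L1115420 (by decide +kernel)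
theorem L1115422 : W_3 (nat_lit 12) (nat_lit 0x180000001a001e0000000000000000000000000000000) (nat_lit 0x0) (nat_lit 0xdc0064001700600000001c000e00070000000000000000000) := T_3 (nat_lit 111) (nat_lit 112) (nat_lit 2) (nat_lit 6) (nat_lit 7) L1115421 (by decide +kernel)
theorem L1115423 : W_3 (nat_lit 13) (nat_lit 0x1800000018001e0000000000000000000000000000000) (nat_lit 0x0) (nat_lit 0xdc0064001700660000001c000e00070000000000000000000) := T_3 (nat_lit 141) (nat_lit 142) (nat_lit 2) (nat_lit 5) (nat_lit 8) L1115422 (by decide +kernel)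
theorem L1115424 : W_3 (nat_lit 2) (nat_lit 0x8007c0011003a001e0008000600000000000000000000000) (nat_lit 0x0) (nat_lit 0x20008800000000000000000000000000000000000000) := D_3 (nat_lit 173) (nat_lit 159) (nat_lit 155) (nat_lit 2) (nat_lit 3) (nat_lit 10) (nat_lit 0) (nat_lit 6) (nat_lit 10) (by decide +kernel)
theorem L1115425 : W_3 (nat_lit 3) (nat_lit 0x8007c0010003a001e0008000600000000000000000000000) (nat_lit 0x0) (nat_lit 0x2000b800000000000000000000000000000000000000) := T_3 (nat_lit 156) (nat_lit 157) (nat_lit 0) (nat_lit 7) (nat_lit 10) L1115424 (by decide +kernel)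
theorem L1115426 : W_3 (nat_lit 4) (nat_lit 0x800780010003a001e0008000600000000000000000000000) (nat_lit 0x0) (nat_lit 0x40006000b800000000000000000000000000000000000000) := T_3 (nat_lit 174) (nat_lit 190) (nat_lit 1) (nat_lit 7) (nat_lit 10) L1115425 (by decide +kernel)
theorem L1115427 : W_3 (nat_lit 5) (nat_lit 0x780010003a001e0008000600000000000000000000000) (nat_lit 0x0) (nat_lit 0x1c0006000b800000000000000000000000000000000000000) := T_3 (nat_lit 191) (nat_lit 192) (nat_lit 1) (nat_lit 8) (nat_lit 10) L1115426 (by decide +kernel)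
theorem L1115428 : W_3 (nat_lit 6) (nat_lit 0x380010003a001e0008000600000000000000000000000) (nat_lit 0x0) (nat_lit 0x9c0046000b800000000000000000000000000000000000000) := T_3 (nat_lit 178) (nat_lit 195) (nat_lit 7) (nat_lit 7) (nat_lit 7) L1115427 (by decide +kernel)
theorem L1115429 : W_3 (nat_lit 7) (nat_lit 0x180010003a001e0008000600000000000000000000000) (nat_lit 0x0) (nat_lit 0xdc0066000b800000000000000000000000000000000000000) := T_3 (nat_lit 177) (nat_lit 194) (nat_lit 6) (nat_lit 7) (nat_lit 11) L1115428 (by decide +kernel)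
theorem L1115430 : W_3 (nat_lit 8) (nat_lit 0x180000003a001e0008000600000000000000000000000) (nat_lit 0x0) (nat_lit 0xdc0066001b800000000004000000000000000000000000000) := T_3 (nat_lit 160) (nat_lit 110) (nat_lit 5) (nat_lit 8) (nat_lit 5) L1115429 (by decide +kernel)
theorem L1115431 : W_3 (nat_lit 9) (nat_lit 0x180000003a001e0008000400000000000000000000000) (nat_lit 0x0) (nat_lit 0xdc0066001b800000000004000200010000000000000000000) := T_3 (nat_lit 93) (nat_lit 76) (nat_lit 4) (nat_lit 9) (nat_lit 8) L1115430 (by decide +kernel)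
theorem L1115432 : W_3 (nat_lit 10) (nat_lit 0x180000001a001e0008000400000000000000000000000) (nat_lit 0x0) (nat_lit 0xdc0066001b806000000004000200010000000000000000000) := T_3 (nat_lit 145) (nat_lit 146) (nat_lit 3) (nat_lit 6) (nat_lit 7) L1115431 (by decide +kernel)
theorem L1115433 : W_3 (nat_lit 11) (nat_lit 0x180000001a001e0008000000000000000000000000000) (nat_lit 0x0) (nat_lit 0xdc0066001b806000000004000600030000000000000000000) := T_3 (nat_lit 94) (nat_lit 77) (nat_lit 5) (nat_lit 9) (nat_lit 4) L1115432 (by decide +kernel)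
theorem L1115434 : W_3 (nat_lit 12) (nat_lit 0x1800000018001e0008000000000000000000000000000) (nat_lit 0x0) (nat_lit 0xdc0066001b806600000004000600030000000000000000000) := T_3 (nat_lit 141) (nat_lit 142) (nat_lit 2) (nat_lit 5) (nat_lit 8) L1115433 (by decide +kernel)
theorem L1115435 : W_3 (nat_lit 13) (nat_lit 0x1800000018001e0000000000000000000000000000000) (nat_lit 0x0) (nat_lit 0xdc0066001b80660000001c000600030000000000000000000) := T_3 (nat_lit 111) (nat_lit 112) (nat_lit 2) (nat_lit 6) (nat_lit 7) L1115434 (by decide +kernel)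
theorem L1115436 : W_3 (nat_lit 2) (nat_lit 0x380014003c001e0008000e00000000000000000000000) (nat_lit 0x0) (nat_lit 0x8000400002000000000000000000000000000000000000000) := D_3 (nat_lit 178) (nat_lit 157) (nat_lit 195) (nat_lit 0) (nat_lit 8) (nat_lit 10) (nat_lit 7) (nat_lit 7) (nat_lit 7) (by decide +kernel)
theorem L1115437 : W_3 (nat_lit 3) (nat_lit 0x180014003c001e0008000e00000000000000000000000) (nat_lit 0x0) (nat_lit 0xc000600002000000000000000000000000000000000000000) := T_3 (nat_lit 177) (nat_lit 194) (nat_lit 6) (nat_lit 7) (nat_lit 11) L1115436 (by decide +kernel)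
theorem L1115438 : W_3 (nat_lit 4) (nat_lit 0x180004003c001e0008000e00000000000000000000000) (nat_lit 0x0) (nat_lit 0xc000600012000000000004000000000000000000000000000) := T_3 (nat_lit 160) (nat_lit 110) (nat_lit 5) (nat_lit 8) (nat_lit 5) L1115437 (by decide +kernel)
theorem L1115439 : W_3 (nat_lit 5) (nat_lit 0x180004003c001e0008000600000000000000000000000) (nat_lit 0x0) (nat_lit 0xc000600012000000000004000800040000000000000000000) := T_3 (nat_lit 95) (nat_lit 78) (nat_lit 6) (nat_lit 9) (nat_lit 8) L1115438 (by decide +kernel)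
theorem L1115440 : W_3 (nat_lit 6) (nat_lit 0x180004003c001e0008000400000000000000000000000) (nat_lit 0x0) (nat_lit 0xc000600012000000000004000a00050000000000000000000) := T_3 (nat_lit 93) (nat_lit 76) (nat_lit 4) (nat_lit 9) (nat_lit 8) L1115439 (by decide +kernel)
theorem L1115441 : W_3 (nat_lit 7) (nat_lit 0x180004003c001e0008000000000000000000000000000) (nat_lit 0x0) (nat_lit 0xc000600012000000000004000e00070000000000000000000) := T_3 (nat_lit 94) (nat_lit 77) (nat_lit 5) (nat_lit 9) (nat_lit 4) L1115440 (by decide +kernel)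
theorem L1115442 : W_3 (nat_lit 8) (nat_lit 0x180000003c001e0008000000000000000000000000000) (nat_lit 0x0) (nat_lit 0xc00060001e000000000004000e00070000000000000000000) := T_3 (nat_lit 158) (nat_lit 159) (nat_lit 1) (nat_lit 9) (nat_lit 8) L1115441 (by decide +kernel)
theorem L1115443 : W_3 (nat_lit 9) (nat_lit 0x180000003c001e0000000000000000000000000000000) (nat_lit 0x0) (nat_lit 0xc00060001e00000000001c000e00070000000000000000000) := T_3 (nat_lit 111) (nat_lit 112) (nat_lit 2) (nat_lit 6) (nat_lit 7) L1115442 (by decide +kernel)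
theorem L1115444 : W_3 (nat_lit 10) (nat_lit 0x1800000038001e0000000000000000000000000000000) (nat_lit 0x0) (nat_lit 0xc00060001e00060000001c000e00070000000000000000000) := T_3 (nat_lit 142) (nat_lit 141) (nat_lit 2) (nat_lit 5) (nat_lit 8) L1115443 (by decide +kernel)
theorem L1115445 : W_3 (nat_lit 11) (nat_lit 0x1800000018001e0000000000000000000000000000000) (nat_lit 0x0) (nat_lit 0xc00060001e00660000001c000e00070000000000000000000) := T_3 (nat_lit 145) (nat_lit 146) (nat_lit 3) (nat_lit 6) (nat_lit 7) L1115444 (by decide +kernel)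
theorem L1115446 : W_3 (nat_lit 14) (nat_lit 0x1000000018001e0000000000000000000000000000000) (nat_lit 0x0) (nat_lit 0xdc00ee001f80660000001c000e00070000000000000000000) := Q_3 (nat_lit 175) (C_3 L1115384 (C_3 L1115392 (C_3 L1115404 (C_3 L1115411 (C_3 L1115423 (C_3 L1115435 (C_3 L1115445 N_3))))))) (by decide +kernel)
theorem L1115447 : W_3 (nat_lit 15) (nat_lit 0x18001e0000000000000000000000000000000) (nat_lit 0x0) (nat_lit 0xfc00fe001f80660000001c000e00070000000000000000000) := Q_3 (nat_lit 176) (C_3 L1115365 (C_3 L1115372 (C_3 L1115376 (C_3 L1115379 (C_3 L1115446 N_3))))) (by decide +kernel)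
theorem L1115448 : W_3 (nat_lit 16) (nat_lit 0x18001c0000000000000000000000000000000) (nat_lit 0x0) (nat_lit 0xfc00fe001f80660002001d800fc007e000000000000000000) := Q_3 (nat_lit 125) (C_3 L1085755 (C_3 L1086928 (C_3 L843517 (C_3 L1115447 N_3)))) (by decide +kernel)
theorem L1115449 : W_3 (nat_lit 17) (nat_lit 0x1800180000000000000000000000000000000) (nat_lit 0x0) (nat_lit 0xfc00fe001f80660006001fc01fe007e000000000000000000) := Q_3 (nat_lit 126) (C_3 L1046016 (C_3 L1112928 (C_3 L1115354 (C_3 L1115355 (C_3 L1115357 (C_3 L1115448 N_3)))))) (by decide +kernel)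
theorem L1115450 : W_3 (nat_lit 18) (nat_lit 0x1800080000000000000000000000000000000) (nat_lit 0x0) (nat_lit 0x2fc01fe039f81e600f6007fc03fe00fe000400000000000000) := Q_3 (nat_lit 128) (C_3 L822525 (C_3 L802142 (C_3 L1052159 (C_3 L1052157 (C_3 L1115449 N_3))))) (by decide +kernel)
theorem L1115451 : W_3 (nat_lit 10) (nat_lit 0x18001c0000000000000000000000000000000) (nat_lit 0x0) (nat_lit 0x20001000600003801d800e80074000000000000000000) := Q_3 (nat_lit 125) (C_3 L1085755 (C_3 L1053309 (C_3 L980791 N_3))) (by decide +kernel)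
theorem L1115456 : W_3 (nat_lit 6) (nat_lit 0x18003c0004000200000000000000000000000) (nat_lit 0x0) (nat_lit 0x8000c000000038000580028000000000000000000) := T_3 (nat_lit 146) (nat_lit 147) (nat_lit 3) (nat_lit 7) (nat_lit 7) L1115455 (by decide +kernel)
theorem L1115457 : W_3 (nat_lit 7) (nat_lit 0x18003c0004000000000000000000000000000) (nat_lit 0x0) (nat_lit 0x8000c000000038000780038000000000000000000) := T_3 (nat_lit 93) (nat_lit 76) (nat_lit 5) (nat_lit 8) (nat_lit 4) L1115456 (by decide +kernel)
theorem L1115458 : W_3 (nat_lit 8) (nat_lit 0x18001c0004000000000000000000000000000) (nat_lit 0x0) (nat_lit 0x8000c000600038000780038000000000000000000) := T_3 (nat_lit 129) (nat_lit 130) (nat_lit 1) (nat_lit 11) (nat_lit 7) L1115457 (by decide +kernel)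
theorem L1115459 : W_3 (nat_lit 10) (nat_lit 0x18001c0000000000000000000000000000000) (nat_lit 0x0) (nat_lit 0x120019800e00060003c000f80078000000000000000000) := Q_3 (nat_lit 110) (C_3 L1052839 (C_3 L1112957 (C_3 L1115458 N_3))) (by decide +kernel)
theorem L1115460 : W_3 (nat_lit 11) (nat_lit 0x1800180000000000000000000000000000000) (nat_lit 0x0) (nat_lit 0x2000120019800e00067803d800f8007c000000000000000000) := Q_3 (nat_lit 126) (C_3 L988704 (C_3 L620709 (C_3 L1112955 (C_3 L1115451 (C_3 L988698 (C_3 L1115459 N_3)))))) (by decide +kernel)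
theorem L1115461 : W_3 (nat_lit 13) (nat_lit 0x1800080000000000000000000000000000000) (nat_lit 0x0) (nat_lit 0xe00270013e039f01e60077c03d800fc007c000000000000000000) := Q_3 (nat_lit 128) (C_3 L822525 (C_3 L802142 (C_3 L1114092 (C_3 L1115460 N_3)))) (by decide +kernel)
theorem L1115462 : W_3 (nat_lit 16) (nat_lit 0x18001c0000000000000000000000000000000) (nat_lit 0x0) (nat_lit 0xfc00fe001f80660003801c000e00070000000000000000000) := Q_3 (nat_lit 125) (C_3 L1053309 (C_3 L1115447 (C_3 L980791 N_3))) (by decide +kernel)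
theorem L1115463 : W_3 (nat_lit 17) (nat_lit 0x1800180000000000000000000000000000000) (nat_lit 0x0) (nat_lit 0xfc00fe001f80670007801fc03f00078000000000000000000) := Q_3 (nat_lit 126) (C_3 L988717 (C_3 L1076752 (C_3 L1115357 (C_3 L1112947 (C_3 L1115462 N_3))))) (by decide +kernel)
theorem L1115464 : W_3 (nat_lit 18) (nat_lit 0x1800080000000000000000000000000000000) (nat_lit 0x0) (nat_lit 0x2fc03fe019f80e70077803fc03f00078000000000000000000) := Q_3 (nat_lit 128) (C_3 L822525 (C_3 L802142 (C_3 L1114071 (C_3 L1115463 N_3)))) (by decide +kernel)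
theorem L1115465 : W_3 (nat_lit 19) (nat_lit 0x1000080000000000000000000000000000000) (nat_lit 0x0) (nat_lit 0xf002fc03fe039f81efc1f7f0fff07ff83ff803fc00fc005000000) := Q_3 (nat_lit 143) (C_3 L1049231 (C_3 L1052160 (C_3 L1076754 (C_3 L1076764 (C_3 L1085758 (C_3 L980815 (C_3 L1086931 (C_3 L1087009 (C_3 L1103750 (C_3 L1103754 (C_3 L1103772 (C_3 L1112708 (C_3 L1112939 (C_3 L1114061 (C_3 L1114093 (C_3 L1115450 (C_3 L1115461 (C_3 L1115464 N_3)))))))))))))))))) (by decide +kernel)
theorem L1129740 : W_3 (nat_lit 2) (nat_lit 0x380030000c0004000000000000000000000000000) (nat_lit 0x0) (nat_lit 0xc800000000000000000000000000000000000) := D_3 (nat_lit 146) (nat_lit 147) (nat_lit 143) (nat_lit 1) (nat_lit 11) (nat_lit 8) (nat_lit 1) (nat_lit 10) (nat_lit 8) (by decide +kernel)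
theorem L1129741 : W_3 (nat_lit 3) (nat_lit 0x300030000c0004000000000000000000000000000) (nat_lit 0x0) (nat_lit 0xc00c800000000000000000000000000000000000) := T_3 (nat_lit 159) (nat_lit 158) (nat_lit 2) (nat_lit 5) (nat_lit 9) L1129740 (by decide +kernel)
theorem L1129742 : W_3 (nat_lit 4) (nat_lit 0x200030000c0004000000000000000000000000000) (nat_lit 0x0) (nat_lit 0x20001c00c800000000000000000000000000000000000) := T_3 (nat_lit 160) (nat_lit 177) (nat_lit 5) (nat_lit 8) (nat_lit 6) L1129741 (by decide +kernel)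
theorem L1130560 : W_3 (nat_lit 2) (nat_lit 0x380030000e0006000000000000000000000000000) (nat_lit 0x0) (nat_lit 0x100000000c00000000000000000000000000000000000) := D_3 (nat_lit 176) (nat_lit 143) (nat_lit 142) (nat_lit 5) (nat_lit 7) (nat_lit 6) (nat_lit 6) (nat_lit 6) (nat_lit 10) (by decide +kernel)
theorem L1130561 : W_3 (nat_lit 3) (nat_lit 0x300030000e0006000000000000000000000000000) (nat_lit 0x0) (nat_lit 0x10000c000c00000000000000000000000000000000000) := T_3 (nat_lit 159) (nat_lit 158) (nat_lit 2) (nat_lit 5) (nat_lit 9) L1130560 (by decide +kernel)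
theorem L1130562 : W_3 (nat_lit 4) (nat_lit 0x200030000e0006000000000000000000000000000) (nat_lit 0x0) (nat_lit 0x30001c000c00000000000000000000000000000000000) := T_3 (nat_lit 160) (nat_lit 177) (nat_lit 5) (nat_lit 8) (nat_lit 6) L1130561 (by decide +kernel)
theorem L1130563 : W_3 (nat_lit 5) (nat_lit 0x200030000c0006000000000000000000000000000) (nat_lit 0x0) (nat_lit 0x30001c000c00030000000000000000000000000000000) := T_3 (nat_lit 125) (nat_lit 124) (nat_lit 3) (nat_lit 5) (nat_lit 7) L1130562 (by decide +kernel)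
theorem L1130564 : W_3 (nat_lit 6) (nat_lit 0x200030000c0004000000000000000000000000000) (nat_lit 0x0) (nat_lit 0x30001c000c00030002000100000000000000000000000) := T_3 (nat_lit 109) (nat_lit 92) (nat_lit 4) (nat_lit 8) (nat_lit 9) L1130563 (by decide +kernel)
theorem L1130565 : W_3 (nat_lit 7) (nat_lit 0x200010000c0004000000000000000000000000000) (nat_lit 0x0) (nat_lit 0x30001c00ec00130002000100000000000000000000000) := Q_3 (nat_lit 145) (C_3 L101942 (C_3 L1130564 (C_3 L1129742 N_3))) (by decide +kernel)
theorem L1135490 : W_3 (nat_lit 2) (nat_lit 0x2000b0002c001e000800040005000000000000000) (nat_lit 0x0) (nat_lit 0x2000280000000000) := D_3 (nat_lit 61) (nat_lit 45) (nat_lit 43) (nat_lit 6) (nat_lit 10) (nat_lit 6) (nat_lit 4) (nat_lit 10) (nat_lit 6) (by decide +kernel)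
theorem L1135491 : W_3 (nat_lit 3) (nat_lit 0x2000b0002c001e000800040004000000000000000) (nat_lit 0x0) (nat_lit 0x20003000280000000000) := T_3 (nat_lit 60) (nat_lit 77) (nat_lit 4) (nat_lit 10) (nat_lit 7) L1135490 (by decide +kernel)
theorem L1135492 : W_3 (nat_lit 4) (nat_lit 0x2000b0002c001e000800040000000000000000000) (nat_lit 0x0) (nat_lit 0xa0007000280000000000) := T_3 (nat_lit 62) (nat_lit 79) (nat_lit 6) (nat_lit 10) (nat_lit 7) L1135491 (by decide +kernel)
theorem L1135493 : W_3 (nat_lit 5) (nat_lit 0x2000b0002c001e000800000000000000000000000) (nat_lit 0x0) (nat_lit 0x1000000000000e0007000280000000000) := T_3 (nat_lit 78) (nat_lit 128) (nat_lit 5) (nat_lit 10) (nat_lit 4) L1135492 (by decide +kernel)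
theorem L1135494 : W_3 (nat_lit 6) (nat_lit 0x2000b0000c001e000800000000000000000000000) (nat_lit 0x0) (nat_lit 0x7000000000000e0007000280000000000) := T_3 (nat_lit 129) (nat_lit 130) (nat_lit 3) (nat_lit 7) (nat_lit 6) L1135493 (by decide +kernel)
theorem L1135495 : W_3 (nat_lit 7) (nat_lit 0x2000b0000c001e000000000000000000000000000) (nat_lit 0x0) (nat_lit 0x7000000018000e0007000280000000000) := T_3 (nat_lit 95) (nat_lit 96) (nat_lit 2) (nat_lit 7) (nat_lit 6) L1135494 (by decide +kernel)
theorem L1135496 : W_3 (nat_lit 8) (nat_lit 0x2000b0000c000e000000000000000000000000000) (nat_lit 0x0) (nat_lit 0x7000300018000e0007000280000000000) := T_3 (nat_lit 112) (nat_lit 113) (nat_lit 1) (nat_lit 11) (nat_lit 6) L1135495 (by decide +kernel)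
theorem L1135497 : W_3 (nat_lit 9) (nat_lit 0x2000b0000c0006000000000000000000000000000) (nat_lit 0x0) (nat_lit 0x700038001c000e0007000280000000000) := T_3 (nat_lit 111) (nat_lit 94) (nat_lit 6) (nat_lit 8) (nat_lit 9) L1135496 (by decide +kernel)
theorem L1135498 : W_3 (nat_lit 10) (nat_lit 0x2000b0000c0004000000000000000000000000000) (nat_lit 0x0) (nat_lit 0x70003a001d000e0007000280000000000) := T_3 (nat_lit 109) (nat_lit 92) (nat_lit 4) (nat_lit 8) (nat_lit 9) L1135497 (by decide +kernel)
theorem L1135499 : W_3 (nat_lit 11) (nat_lit 0x200030000c0004000000000000000000000000000) (nat_lit 0x0) (nat_lit 0xc00070003a001d000e0007000280000000000) := T_3 (nat_lit 147) (nat_lit 146) (nat_lit 0) (nat_lit 11) (nat_lit 8) L1135498 (by decide +kernel)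
theorem L1135500 : W_3 (nat_lit 2) (nat_lit 0x340030002c001e000800040005000000000000000) (nat_lit 0x0) (nat_lit 0x2000280000000000) := D_3 (nat_lit 61) (nat_lit 45) (nat_lit 43) (nat_lit 6) (nat_lit 10) (nat_lit 6) (nat_lit 4) (nat_lit 10) (nat_lit 6) (by decide +kernel)
theorem L1135501 : W_3 (nat_lit 3) (nat_lit 0x340030002c001e000800040004000000000000000) (nat_lit 0x0) (nat_lit 0x20003000280000000000) := T_3 (nat_lit 60) (nat_lit 77) (nat_lit 4) (nat_lit 10) (nat_lit 7) L1135500 (by decide +kernel)
theorem L1135502 : W_3 (nat_lit 4) (nat_lit 0x340030002c001e000800040000000000000000000) (nat_lit 0x0) (nat_lit 0xa0007000280000000000) := T_3 (nat_lit 62) (nat_lit 79) (nat_lit 6) (nat_lit 10) (nat_lit 7) L1135501 (by decide +kernel)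
theorem L1135503 : W_3 (nat_lit 5) (nat_lit 0x340030002c001e000800000000000000000000000) (nat_lit 0x0) (nat_lit 0x1000000000000e0007000280000000000) := T_3 (nat_lit 78) (nat_lit 128) (nat_lit 5) (nat_lit 10) (nat_lit 4) L1135502 (by decide +kernel)
theorem L1135504 : W_3 (nat_lit 6) (nat_lit 0x340030002c001e000000000000000000000000000) (nat_lit 0x0) (nat_lit 0x1000000018000e0007000280000000000) := T_3 (nat_lit 95) (nat_lit 96) (nat_lit 2) (nat_lit 7) (nat_lit 6) L1135503 (by decide +kernel)
theorem L1135505 : W_3 (nat_lit 7) (nat_lit 0x340030000c001e000000000000000000000000000) (nat_lit 0x0) (nat_lit 0x7000000018000e0007000280000000000) := T_3 (nat_lit 129) (nat_lit 130) (nat_lit 3) (nat_lit 7) (nat_lit 6) L1135504 (by decide +kernel)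
theorem L1135506 : W_3 (nat_lit 8) (nat_lit 0x340030000c001c000000000000000000000000000) (nat_lit 0x0) (nat_lit 0x7000020019000e0007000280000000000) := T_3 (nat_lit 109) (nat_lit 92) (nat_lit 4) (nat_lit 8) (nat_lit 9) L1135505 (by decide +kernel)
theorem L1135507 : W_3 (nat_lit 9) (nat_lit 0x300030000c001c000000000000000000000000000) (nat_lit 0x0) (nat_lit 0xc0000007000020019000e0007000280000000000) := T_3 (nat_lit 158) (nat_lit 159) (nat_lit 2) (nat_lit 5) (nat_lit 9) L1135506 (by decide +kernel)
theorem L1135508 : W_3 (nat_lit 10) (nat_lit 0x200030000c001c000000000000000000000000000) (nat_lit 0x0) (nat_lit 0x20001c0000007000020019000e0007000280000000000) := T_3 (nat_lit 160) (nat_lit 177) (nat_lit 5) (nat_lit 8) (nat_lit 6) L1135507 (by decide +kernel)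
theorem L1135509 : W_3 (nat_lit 11) (nat_lit 0x200030000c000c000000000000000000000000000) (nat_lit 0x0) (nat_lit 0x20001c0000007000320019000e0007000280000000000) := T_3 (nat_lit 112) (nat_lit 113) (nat_lit 1) (nat_lit 11) (nat_lit 6) L1135508 (by decide +kernel)
theorem L1135510 : W_3 (nat_lit 12) (nat_lit 0x200030000c0004000000000000000000000000000) (nat_lit 0x0) (nat_lit 0x20001c00000070003a001d000e0007000280000000000) := T_3 (nat_lit 111) (nat_lit 94) (nat_lit 6) (nat_lit 8) (nat_lit 9) L1135509 (by decide +kernel)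
theorem L1135511 : W_3 (nat_lit 13) (nat_lit 0x200010000c0004000000000000000000000000000) (nat_lit 0x0) (nat_lit 0x20001c00e80070003a001d000e0007000280000000000) := Q_3 (nat_lit 145) (C_3 L1129742 (C_3 L1135499 (C_3 L1135510 N_3))) (by decide +kernel)
theorem L1135512 : W_3 (nat_lit 14) (nat_lit 0x20001000080004000000000000000000000000000) (nat_lit 0x0) (nat_lit 0x30001c00ec0077003a001d000e0007000280000000000) := Q_3 (nat_lit 126) (C_3 L318 (C_3 L1130565 (C_3 L1129480 (C_3 L1135511 N_3)))) (by decide +kernel)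
theorem L1160090 : W_3 (nat_lit 9) (nat_lit 0x10000c0006000000000000000000000000000) (nat_lit 0x0) (nat_lit 0x400020000000700039c01ce0000000000000000000000) := T_3 (nat_lit 161) (nat_lit 178) (nat_lit 4) (nat_lit 8) (nat_lit 10) L1129478 (by decide +kernel)
theorem L1176946 : W_3 (nat_lit 2) (nat_lit 0x10000e000e000000000000000000000000000) (nat_lit 0x0) (nat_lit 0x400020000000000000000400000000000000000000000) := D_3 (nat_lit 161) (nat_lit 178) (nat_lit 94) (nat_lit 4) (nat_lit 8) (nat_lit 10) (nat_lit 6) (nat_lit 8) (nat_lit 9) (by decide +kernel)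
theorem L1176947 : W_3 (nat_lit 3) (nat_lit 0x10000e0006000000000000000000000000000) (nat_lit 0x0) (nat_lit 0x400020000000000018000400000000000000000000000) := T_3 (nat_lit 111) (nat_lit 112) (nat_lit 1) (nat_lit 10) (nat_lit 6) L1176946 (by decide +kernel)
theorem L1178061 : W_3 (nat_lit 2) (nat_lit 0x400000001c000e00038000c0000000000000000000000) (nat_lit 0x0) (nat_lit 0x4000030000000000000000000000) := D_3 (nat_lit 89) (nat_lit 88) (nat_lit 110) (nat_lit 3) (nat_lit 3) (nat_lit 5) (nat_lit 0) (nat_lit 8) (nat_lit 6) (by decide +kernel)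
theorem L1178062 : W_3 (nat_lit 3) (nat_lit 0x400000001c000e0003800080000000000000000000000) (nat_lit 0x0) (nat_lit 0x4000070002000000000000000000) := T_3 (nat_lit 90) (nat_lit 73) (nat_lit 4) (nat_lit 6) (nat_lit 8) L1178061 (by decide +kernel)
theorem L1178063 : W_3 (nat_lit 4) (nat_lit 0x400000001c000e0003800000000000000000000000000) (nat_lit 0x0) (nat_lit 0x40000f0006000000000000000000) := T_3 (nat_lit 91) (nat_lit 74) (nat_lit 7) (nat_lit 6) (nat_lit 4) L1178062 (by decide +kernel)
theorem L1178064 : W_3 (nat_lit 5) (nat_lit 0x400000001c000e0003000000000000000000000000000) (nat_lit 0x0) (nat_lit 0x4c000f0006000000000000000000) := T_3 (nat_lit 107) (nat_lit 106) (nat_lit 3) (nat_lit 4) (nat_lit 6) L1178063 (by decide +kernel)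
theorem L1178065 : W_3 (nat_lit 6) (nat_lit 0x1c000e0003000000000000000000000000000) (nat_lit 0x0) (nat_lit 0x400020000000000004c000f0006000000000000000000) := T_3 (nat_lit 178) (nat_lit 161) (nat_lit 4) (nat_lit 8) (nat_lit 10) L1178064 (by decide +kernel)
theorem L1212919 : W_3 (nat_lit 2) (nat_lit 0x18000f0003800080000000000000000000000) (nat_lit 0x0) (nat_lit 0x4000300000000000000000000000000000000000) := D_3 (nat_lit 141) (nat_lit 140) (nat_lit 158) (nat_lit 1) (nat_lit 8) (nat_lit 7) (nat_lit 6) (nat_lit 5) (nat_lit 9) (by decide +kernel)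
theorem L1212920 : W_3 (nat_lit 3) (nat_lit 0x18000e0003800080000000000000000000000) (nat_lit 0x0) (nat_lit 0x4000300018000000000000000000000000000000) := T_3 (nat_lit 124) (nat_lit 123) (nat_lit 3) (nat_lit 4) (nat_lit 7) L1212919 (by decide +kernel)
theorem L1212921 : W_3 (nat_lit 4) (nat_lit 0x18000e0003000080000000000000000000000) (nat_lit 0x0) (nat_lit 0x4000300018000c00000000000000000000000000) := T_3 (nat_lit 107) (nat_lit 106) (nat_lit 3) (nat_lit 4) (nat_lit 6) L1212920 (by decide +kernel)
theorem L1212922 : W_3 (nat_lit 5) (nat_lit 0x18000e0003000000000000000000000000000) (nat_lit 0x0) (nat_lit 0x4000300018000c00080004000000000000000000) := T_3 (nat_lit 91) (nat_lit 74) (nat_lit 7) (nat_lit 6) (nat_lit 4) L1212921 (by decide +kernel)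
theorem L1212929 : W_3 (nat_lit 2) (nat_lit 0x4000080018000e8007800040004000000000000000000) (nat_lit 0x0) (nat_lit 0x600010000000000000000000) := D_3 (nat_lit 93) (nat_lit 94) (nat_lit 76) (nat_lit 2) (nat_lit 5) (nat_lit 6) (nat_lit 5) (nat_lit 8) (nat_lit 4) (by decide +kernel)
theorem L1212930 : W_3 (nat_lit 3) (nat_lit 0x4000080018000e8003800040004000000000000000000) (nat_lit 0x0) (nat_lit 0x4000620010000000000000000000) := T_3 (nat_lit 110) (nat_lit 89) (nat_lit 0) (nat_lit 8) (nat_lit 6) L1212929 (by decide +kernel)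
theorem L1212931 : W_3 (nat_lit 4) (nat_lit 0x4000000018000e8003800040004000000000000000000) (nat_lit 0x0) (nat_lit 0x8000400000004000620010000000000000000000) := T_3 (nat_lit 159) (nat_lit 142) (nat_lit 4) (nat_lit 6) (nat_lit 9) L1212930 (by decide +kernel)
theorem L1212932 : W_3 (nat_lit 5) (nat_lit 0x4000000018000e8003000040004000000000000000000) (nat_lit 0x0) (nat_lit 0x8000400000004c00620010000000000000000000) := T_3 (nat_lit 107) (nat_lit 106) (nat_lit 3) (nat_lit 4) (nat_lit 6) L1212931 (by decide +kernel)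
theorem L1212933 : W_3 (nat_lit 6) (nat_lit 0x4000000018000e0003000040004000000000000000000) (nat_lit 0x0) (nat_lit 0x8000400018004c00620010000000000000000000) := T_3 (nat_lit 123) (nat_lit 124) (nat_lit 3) (nat_lit 4) (nat_lit 7) L1212932 (by decide +kernel)
theorem L1212934 : W_3 (nat_lit 7) (nat_lit 0x18000e0003000040004000000000000000000) (nat_lit 0x0) (nat_lit 0x400028000400018004c00620010000000000000000000) := T_3 (nat_lit 178) (nat_lit 161) (nat_lit 4) (nat_lit 8) (nat_lit 10) L1212933 (by decide +kernel)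
theorem L1212935 : W_3 (nat_lit 8) (nat_lit 0x18000e0003000040000000000000000000000) (nat_lit 0x0) (nat_lit 0x400028000400018004c006a0014000000000000000000) := T_3 (nat_lit 74) (nat_lit 91) (nat_lit 7) (nat_lit 6) (nat_lit 4) L1212934 (by decide +kernel)
theorem L1212936 : W_3 (nat_lit 9) (nat_lit 0x18000e0003000000000000000000000000000) (nat_lit 0x0) (nat_lit 0x500028000500018004c006f0017000100008000000000) := Q_3 (nat_lit 90) (C_3 L998690 (C_3 L998710 (C_3 L998693 (C_3 L998666 (C_3 L1212935 N_3))))) (by decide +kernel)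
theorem L1212937 : W_3 (nat_lit 2) (nat_lit 0x1d000e0003800000000000000000000000000) (nat_lit 0x0) (nat_lit 0x100008000000000000000040000000000000000000000) := D_3 (nat_lit 159) (nat_lit 176) (nat_lit 90) (nat_lit 6) (nat_lit 6) (nat_lit 10) (nat_lit 4) (nat_lit 6) (nat_lit 9) (by decide +kernel)
theorem L1212938 : W_3 (nat_lit 3) (nat_lit 0x1d000e0003000000000000000000000000000) (nat_lit 0x0) (nat_lit 0x100008000000000000c00040000000000000000000000) := T_3 (nat_lit 107) (nat_lit 106) (nat_lit 3) (nat_lit 4) (nat_lit 6) L1212937 (by decide +kernel)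
theorem L1212939 : W_3 (nat_lit 4) (nat_lit 0x1c000e0003000000000000000000000000000) (nat_lit 0x0) (nat_lit 0x100008000300000000c00040000000000000000000000) := T_3 (nat_lit 140) (nat_lit 141) (nat_lit 2) (nat_lit 4) (nat_lit 8) L1212938 (by decide +kernel)
theorem L1212940 : W_3 (nat_lit 7) (nat_lit 0x18000e0003000000000000000000000000000) (nat_lit 0x0) (nat_lit 0x50002c000700000004c000f0006000000000000000000) := Q_3 (nat_lit 142) (C_3 L616710 (C_3 L1178065 (C_3 L1212939 N_3))) (by decide +kernel)
theorem L1212941 : W_3 (nat_lit 2) (nat_lit 0x400000001a000f0003000080000000000000000000000) (nat_lit 0x0) (nat_lit 0x80004000400000000000000000000000000000000000) := D_3 (nat_lit 158) (nat_lit 175) (nat_lit 142) (nat_lit 6) (nat_lit 5) (nat_lit 10) (nat_lit 5) (nat_lit 6) (nat_lit 5) (by decide +kernel)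
theorem L1212942 : W_3 (nat_lit 3) (nat_lit 0x4000000018000f0003000080000000000000000000000) (nat_lit 0x0) (nat_lit 0x80004000700000000000000000000000000000000000) := T_3 (nat_lit 141) (nat_lit 140) (nat_lit 1) (nat_lit 8) (nat_lit 7) L1212941 (by decide +kernel)
theorem L1212943 : W_3 (nat_lit 4) (nat_lit 0x4000000018000f0003000000000000000000000000000) (nat_lit 0x0) (nat_lit 0x80004000700000000000080004000000000000000000) := T_3 (nat_lit 91) (nat_lit 74) (nat_lit 7) (nat_lit 6) (nat_lit 4) L1212942 (by decide +kernel)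
theorem L1212944 : W_3 (nat_lit 5) (nat_lit 0x4000000018000e0003000000000000000000000000000) (nat_lit 0x0) (nat_lit 0x80004000700018000000080004000000000000000000) := T_3 (nat_lit 124) (nat_lit 123) (nat_lit 3) (nat_lit 4) (nat_lit 7) L1212943 (by decide +kernel)
theorem L1212945 : W_3 (nat_lit 6) (nat_lit 0x18000e0003000000000000000000000000000) (nat_lit 0x0) (nat_lit 0x480024000700018000000080004000000000000000000) := T_3 (nat_lit 178) (nat_lit 161) (nat_lit 4) (nat_lit 8) (nat_lit 10) L1212944 (by decide +kernel)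
theorem L1212946 : W_3 (nat_lit 2) (nat_lit 0x400004001a000f0003800000000000000000000000000) (nat_lit 0x0) (nat_lit 0x40002000400000000000000000000000000000000000) := D_3 (nat_lit 157) (nat_lit 174) (nat_lit 142) (nat_lit 5) (nat_lit 5) (nat_lit 6) (nat_lit 1) (nat_lit 8) (nat_lit 8) (by decide +kernel)
theorem L1212947 : W_3 (nat_lit 3) (nat_lit 0x400000001a000f0003800000000000000000000000000) (nat_lit 0x0) (nat_lit 0xc0006000400000000000000000000000000000000000) := T_3 (nat_lit 158) (nat_lit 175) (nat_lit 6) (nat_lit 5) (nat_lit 10) L1212946 (by decide +kernel)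
theorem L1212948 : W_3 (nat_lit 4) (nat_lit 0x4000000018000f0003800000000000000000000000000) (nat_lit 0x0) (nat_lit 0xc0006000700000000000000000000000000000000000) := T_3 (nat_lit 141) (nat_lit 140) (nat_lit 1) (nat_lit 8) (nat_lit 7) L1212947 (by decide +kernel)
theorem L1212949 : W_3 (nat_lit 5) (nat_lit 0x4000000018000e0003800000000000000000000000000) (nat_lit 0x0) (nat_lit 0xc0006000700018000000000000000000000000000000) := T_3 (nat_lit 124) (nat_lit 123) (nat_lit 3) (nat_lit 4) (nat_lit 7) L1212948 (by decide +kernel)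
theorem L1212950 : W_3 (nat_lit 6) (nat_lit 0x18000e0003800000000000000000000000000) (nat_lit 0x0) (nat_lit 0x4c0026000700018000000000000000000000000000000) := T_3 (nat_lit 178) (nat_lit 161) (nat_lit 4) (nat_lit 8) (nat_lit 10) L1212949 (by decide +kernel)
theorem L1212951 : W_3 (nat_lit 7) (nat_lit 0x18000e0003000000000000000000000000000) (nat_lit 0x0) (nat_lit 0x4c0026000700018000c00000000000000000000000000) := T_3 (nat_lit 107) (nat_lit 106) (nat_lit 3) (nat_lit 4) (nat_lit 6) L1212950 (by decide +kernel)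
theorem L1212952 : W_3 (nat_lit 2) (nat_lit 0xc001c000e8003000000000000000000000000000) (nat_lit 0x0) (nat_lit 0x200000000000080004000000000000000000) := D_3 (nat_lit 91) (nat_lit 141) (nat_lit 74) (nat_lit 5) (nat_lit 6) (nat_lit 5) (nat_lit 7) (nat_lit 6) (nat_lit 4) (by decide +kernel)
theorem L1212953 : W_3 (nat_lit 3) (nat_lit 0x8001c000e8003000000000000000000000000000) (nat_lit 0x0) (nat_lit 0x80004000200000000000080004000000000000000000) := T_3 (nat_lit 158) (nat_lit 175) (nat_lit 5) (nat_lit 6) (nat_lit 6) L1212952 (by decide +kernel)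
theorem L1212954 : W_3 (nat_lit 4) (nat_lit 0x8001c000e0003000000000000000000000000000) (nat_lit 0x0) (nat_lit 0x80004000200018000000080004000000000000000000) := T_3 (nat_lit 123) (nat_lit 124) (nat_lit 3) (nat_lit 4) (nat_lit 7) L1212953 (by decide +kernel)
theorem L1212955 : W_3 (nat_lit 5) (nat_lit 0x1c000e0003000000000000000000000000000) (nat_lit 0x0) (nat_lit 0x18000c000200018000000080004000000000000000000) := T_3 (nat_lit 159) (nat_lit 176) (nat_lit 6) (nat_lit 6) (nat_lit 10) L1212954 (by decide +kernel)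
theorem L1212956 : W_3 (nat_lit 2) (nat_lit 0x400008001c000e8003000000000000000000000000000) (nat_lit 0x0) (nat_lit 0xc00040000000000000000000000) := D_3 (nat_lit 107) (nat_lit 106) (nat_lit 90) (nat_lit 3) (nat_lit 4) (nat_lit 6) (nat_lit 4) (nat_lit 6) (nat_lit 9) (by decide +kernel)
theorem L1212957 : W_3 (nat_lit 3) (nat_lit 0x400000001c000e8003000000000000000000000000000) (nat_lit 0x0) (nat_lit 0x100008000000000000c00040000000000000000000000) := T_3 (nat_lit 159) (nat_lit 176) (nat_lit 6) (nat_lit 6) (nat_lit 10) L1212956 (by decide +kernel)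
theorem L1212958 : W_3 (nat_lit 4) (nat_lit 0x400000001c000e0003000000000000000000000000000) (nat_lit 0x0) (nat_lit 0x100008000000018000c00040000000000000000000000) := T_3 (nat_lit 123) (nat_lit 124) (nat_lit 3) (nat_lit 4) (nat_lit 7) L1212957 (by decide +kernel)
theorem L1212959 : W_3 (nat_lit 5) (nat_lit 0x1c000e0003000000000000000000000000000) (nat_lit 0x0) (nat_lit 0x500028000000018000c00040000000000000000000000) := T_3 (nat_lit 178) (nat_lit 161) (nat_lit 4) (nat_lit 8) (nat_lit 10) L1212958 (by decide +kernel)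
theorem L1212960 : W_3 (nat_lit 7) (nat_lit 0x18000e0003000000000000000000000000000) (nat_lit 0x0) (nat_lit 0x58002c000600018004c000f0006000000000000000000) := Q_3 (nat_lit 142) (C_3 L1212955 (C_3 L1178065 (C_3 L1212959 N_3))) (by decide +kernel)
theorem L1212961 : W_3 (nat_lit 10) (nat_lit 0x18000c0003000000000000000000000000000) (nat_lit 0x0) (nat_lit 0x5c002e000700038004c006f0017000100008000000000) := Q_3 (nat_lit 125) (C_3 L998711 (C_3 L616069 (C_3 L1212922 (C_3 L1212936 (C_3 L1212940 (C_3 L1212945 (C_3 L1212951 (C_3 L1212960 N_3)))))))) (by decide +kernel)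
theorem L1214840 : W_3 (nat_lit 2) (nat_lit 0x8003c001a002c0003000200000000000000000000000) (nat_lit 0x0) (nat_lit 0x400030000000000000000000000000000000) := D_3 (nat_lit 125) (nat_lit 142) (nat_lit 124) (nat_lit 5) (nat_lit 6) (nat_lit 6) (nat_lit 6) (nat_lit 5) (nat_lit 10) (by decide +kernel)
theorem L1214841 : W_3 (nat_lit 3) (nat_lit 0x8003c0018002c0003000200000000000000000000000) (nat_lit 0x0) (nat_lit 0x700030000000000000000000000000000000) := T_3 (nat_lit 141) (nat_lit 140) (nat_lit 0) (nat_lit 8) (nat_lit 9) L1214840 (by decide +kernel)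
theorem L1214842 : W_3 (nat_lit 4) (nat_lit 0x3c0018002c0003000200000000000000000000000) (nat_lit 0x0) (nat_lit 0xc0000000700030000000000000000000000000000000) := T_3 (nat_lit 175) (nat_lit 174) (nat_lit 1) (nat_lit 8) (nat_lit 9) L1214841 (by decide +kernel)
theorem L1214843 : W_3 (nat_lit 5) (nat_lit 0x380018002c0003000200000000000000000000000) (nat_lit 0x0) (nat_lit 0xc0006000700030000000000000000000000000000000) := T_3 (nat_lit 158) (nat_lit 157) (nat_lit 2) (nat_lit 4) (nat_lit 9) L1214842 (by decide +kernel)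
theorem L1214844 : W_3 (nat_lit 6) (nat_lit 0x300018002c0003000200000000000000000000000) (nat_lit 0x0) (nat_lit 0x1c000e000700030000000000000000000000000000000) := T_3 (nat_lit 159) (nat_lit 176) (nat_lit 5) (nat_lit 7) (nat_lit 6) L1214843 (by decide +kernel)
theorem L1214845 : W_3 (nat_lit 7) (nat_lit 0x300018002c0003000000000000000000000000000) (nat_lit 0x0) (nat_lit 0x1c000e000700030004000200000000000000000000000) := T_3 (nat_lit 93) (nat_lit 110) (nat_lit 6) (nat_lit 7) (nat_lit 9) L1214844 (by decide +kernel)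
theorem L1214958 : W_3 (nat_lit 2) (nat_lit 0x100018002c0003000000000000000000000000000) (nat_lit 0x0) (nat_lit 0x200000000000020004000000000000000000000000000) := D_3 (nat_lit 177) (nat_lit 125) (nat_lit 110) (nat_lit 4) (nat_lit 7) (nat_lit 10) (nat_lit 6) (nat_lit 7) (nat_lit 10) (by decide +kernel)
theorem L1214959 : W_3 (nat_lit 3) (nat_lit 0x18002c0003000000000000000000000000000) (nat_lit 0x0) (nat_lit 0x200010000000020004000080000000000000000000000) := T_3 (nat_lit 160) (nat_lit 91) (nat_lit 4) (nat_lit 7) (nat_lit 9) L1214958 (by decide +kernel)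
theorem L1214962 : W_3 (nat_lit 8) (nat_lit 0x100018002c0003000000000000000000000000000) (nat_lit 0x0) (nat_lit 0x5c002e000700030004000200000000000000000000000) := T_3 (nat_lit 161) (nat_lit 178) (nat_lit 7) (nat_lit 7) (nat_lit 6) L1214845 (by decide +kernel)
theorem L1238671 : W_3 (nat_lit 4) (nat_lit 0x18000c0003000000000000000000000000000) (nat_lit 0x0) (nat_lit 0x200010000000320004000080000000000000000000000) := T_3 (nat_lit 129) (nat_lit 128) (nat_lit 0) (nat_lit 10) (nat_lit 7) L1214959 (by decide +kernel)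
theorem L1239722 : W_3 (nat_lit 2) (nat_lit 0x100018000c0003000000000000000000000000000) (nat_lit 0x0) (nat_lit 0x200000000000000004000200000000000000000000000) := D_3 (nat_lit 110) (nat_lit 93) (nat_lit 177) (nat_lit 6) (nat_lit 7) (nat_lit 9) (nat_lit 6) (nat_lit 7) (nat_lit 10) (by decide +kernel)
theorem L1255571 : W_3 (nat_lit 11) (nat_lit 0x18000c0000000000000000000000000000000) (nat_lit 0x0) (nat_lit 0x2000d0007c003e000700120006000300008000000000000000000) := Q_3 (nat_lit 109) (C_3 L1219776 (C_3 L983447 (C_3 L1255570 N_3))) (by decide +kernel)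
theorem L1255572 : W_3 (nat_lit 5) (nat_lit 0x100018000c0000000000000000000000000000000) (nat_lit 0x0) (nat_lit 0x50002e002000000006000300018000000000000000000) := Q_3 (nat_lit 109) (C_3 L1004367 (C_3 L1049175 (C_3 L625704 N_3))) (by decide +kernel)
theorem L1255573 : W_3 (nat_lit 7) (nat_lit 0x18000c0000000000000000000000000000000) (nat_lit 0x0) (nat_lit 0xe000f0003e002000000006000300018000000000000000000) := Q_3 (nat_lit 160) (C_3 L1085516 (C_3 L1071407 (C_3 L1255572 N_3))) (by decide +kernel)
theorem L1281508 : W_3 (nat_lit 2) (nat_lit 0x18000e0003000000000000000000000000000) (nat_lit 0x0) (nat_lit 0x10000000000000000080004000000000000000000) := D_3 (nat_lit 91) (nat_lit 160) (nat_lit 74) (nat_lit 4) (nat_lit 7) (nat_lit 9) (nat_lit 7) (nat_lit 6) (nat_lit 4) (by decide +kernel)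
theorem L1283673 : W_3 (nat_lit 15) (nat_lit 0x20001000080000000000000000000000000000000) (nat_lit 0x0) (nat_lit 0x30001c00ec0077003e001f000e8007000280000000000) := Q_3 (nat_lit 110) (C_3 L1048897 (C_3 L1204732 (C_3 L1135512 (C_3 L144 N_3)))) (by decide +kernel)
theorem L1283674 : W_3 (nat_lit 6) (nat_lit 0x20001000080000000000000000000000000000000) (nat_lit 0x0) (nat_lit 0x28001c000e0000000200014000e000500000000000000000000000) := Q_3 (nat_lit 178) (C_3 L47 (C_3 L43 (C_3 L38 N_3))) (by decide +kernel)
theorem L1283675 : W_3 (nat_lit 2) (nat_lit 0xe00020001000080004000500000000000000000000000) (nat_lit 0x0) (nat_lit 0x200028000000000000000000) := D_3 (nat_lit 93) (nat_lit 75) (nat_lit 77) (nat_lit 4) (nat_lit 8) (nat_lit 8) (nat_lit 6) (nat_lit 8) (nat_lit 8) (by decide +kernel)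
theorem L1283676 : W_3 (nat_lit 3) (nat_lit 0xe00020001000080004000100000000000000000000000) (nat_lit 0x0) (nat_lit 0x8000600028000000000000000000) := T_3 (nat_lit 94) (nat_lit 111) (nat_lit 6) (nat_lit 8) (nat_lit 9) L1283675 (by decide +kernel)
theorem L1283677 : W_3 (nat_lit 4) (nat_lit 0xe00020001000080004000000000000000000000000000) (nat_lit 0x0) (nat_lit 0xa000700028000000000000000000) := T_3 (nat_lit 92) (nat_lit 109) (nat_lit 4) (nat_lit 8) (nat_lit 9) L1283676 (by decide +kernel)
theorem L1283678 : W_3 (nat_lit 5) (nat_lit 0xe00020001000080000000000000000000000000000000) (nat_lit 0x0) (nat_lit 0x1000000000000e000700028000000000000000000) := T_3 (nat_lit 110) (nat_lit 160) (nat_lit 5) (nat_lit 8) (nat_lit 6) L1283677 (by decide +kernel)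
theorem L1283679 : W_3 (nat_lit 6) (nat_lit 0xc00020001000080000000000000000000000000000000) (nat_lit 0x0) (nat_lit 0x400020001000000000000e000700028000000000000000000) := T_3 (nat_lit 177) (nat_lit 194) (nat_lit 5) (nat_lit 8) (nat_lit 7) L1283678 (by decide +kernel)
theorem L1283680 : W_3 (nat_lit 7) (nat_lit 0x400020001000080000000000000000000000000000000) (nat_lit 0x0) (nat_lit 0x14000a0001000000000000e000700028000000000000000000) := T_3 (nat_lit 179) (nat_lit 196) (nat_lit 7) (nat_lit 8) (nat_lit 7) L1283679 (by decide +kernel)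
theorem L1283689 : W_3 (nat_lit 8) (nat_lit 0x20001000080000000000000000000000000000000) (nat_lit 0x0) (nat_lit 0x28001c001e0001c00080004000e000700028000000000000000000) := Q_3 (nat_lit 178) (C_3 L47 (C_3 L1283680 (C_3 L1283681 (C_3 L1283685 (C_3 L1283688 N_3))))) (by decide +kernel)
theorem L1283693 : W_3 (nat_lit 8) (nat_lit 0x20001000080000000000000000000000000000000) (nat_lit 0x0) (nat_lit 0x28001c001e0001c00200010000e000700028000000000000000000) := Q_3 (nat_lit 178) (C_3 L1283685 (C_3 L1283680 (C_3 L43 (C_3 L1283692 (C_3 L19 N_3))))) (by decide +kernel)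
theorem L1283697 : W_3 (nat_lit 16) (nat_lit 0x1000080000000000000000000000000000000) (nat_lit 0x0) (nat_lit 0x200012801fc007f003bc00ec0077003e001f000e8007000280000000000) := Q_3 (nat_lit 161) (C_3 L39 (C_3 L77 (C_3 L1283673 (C_3 L1283674 (C_3 L1283689 (C_3 L1283693 (C_3 L1283694 (C_3 L1283695 (C_3 L1283696 N_3))))))))) (by decide +kernel)
theorem L1315761 : W_3 (nat_lit 9) (nat_lit 0x18000c0003000000000000000000000000000) (nat_lit 0x0) (nat_lit 0x80007c003e000700030004c00200000000000000000000000) := Q_3 (nat_lit 160) (C_3 L1239722 (C_3 L1027466 (C_3 L619430 N_3))) (by decide +kernel)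
theorem L1315762 : W_3 (nat_lit 11) (nat_lit 0x10000c0003000000000000000000000000000) (nat_lit 0x0) (nat_lit 0xc0007c003e000f00038004c006f0017000100008000000000) := Q_3 (nat_lit 143) (C_3 L1212961 (C_3 L1034616 (C_3 L1034613 (C_3 L1315761 N_3)))) (by decide +kernel)
theorem L1315763 : W_3 (nat_lit 2) (nat_lit 0x40001c001c001e0007000000000000000000000000000) (nat_lit 0x0) (nat_lit 0x18008000000000000000000000000000) := D_3 (nat_lit 124) (nat_lit 123) (nat_lit 111) (nat_lit 3) (nat_lit 4) (nat_lit 7) (nat_lit 2) (nat_lit 5) (nat_lit 7) (by decide +kernel)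
theorem L1315764 : W_3 (nat_lit 3) (nat_lit 0x40001c001c001c0007000000000000000000000000000) (nat_lit 0x0) (nat_lit 0x80000000000038008000000000000000000000000000) := T_3 (nat_lit 125) (nat_lit 175) (nat_lit 5) (nat_lit 6) (nat_lit 6) L1315763 (by decide +kernel)
theorem L1315765 : W_3 (nat_lit 4) (nat_lit 0x40001c0018001c0007000000000000000000000000000) (nat_lit 0x0) (nat_lit 0x80000000600038008000000000000000000000000000) := T_3 (nat_lit 142) (nat_lit 141) (nat_lit 2) (nat_lit 5) (nat_lit 8) L1315764 (by decide +kernel)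
theorem L1315766 : W_3 (nat_lit 5) (nat_lit 0x4000180018001c0007000000000000000000000000000) (nat_lit 0x0) (nat_lit 0x80006000600038008000000000000000000000000000) := T_3 (nat_lit 158) (nat_lit 157) (nat_lit 2) (nat_lit 4) (nat_lit 9) L1315765 (by decide +kernel)
theorem L1315767 : W_3 (nat_lit 6) (nat_lit 0x4000100018001c0007000000000000000000000000000) (nat_lit 0x0) (nat_lit 0x18000e000600038008000000000000000000000000000) := T_3 (nat_lit 159) (nat_lit 176) (nat_lit 5) (nat_lit 7) (nat_lit 6) L1315766 (by decide +kernel)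
theorem L1315768 : W_3 (nat_lit 7) (nat_lit 0x4000100018001c0003000000000000000000000000000) (nat_lit 0x0) (nat_lit 0x18000e00060003800c000200000000000000000000000) := T_3 (nat_lit 110) (nat_lit 93) (nat_lit 6) (nat_lit 7) (nat_lit 9) L1315767 (by decide +kernel)
theorem L1315769 : W_3 (nat_lit 8) (nat_lit 0x4000100018000c0003000000000000000000000000000) (nat_lit 0x0) (nat_lit 0x18000e00060033800c000200000000000000000000000) := T_3 (nat_lit 128) (nat_lit 129) (nat_lit 0) (nat_lit 10) (nat_lit 7) L1315768 (by decide +kernel)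
theorem L1315770 : W_3 (nat_lit 9) (nat_lit 0x4000000018000c0003000000000000000000000000000) (nat_lit 0x0) (nat_lit 0x18001e00060033800c000280000000000000000000000) := T_3 (nat_lit 160) (nat_lit 91) (nat_lit 4) (nat_lit 7) (nat_lit 9) L1315769 (by decide +kernel)
theorem L1315771 : W_3 (nat_lit 10) (nat_lit 0x18000c0003000000000000000000000000000) (nat_lit 0x0) (nat_lit 0x58003e00060033800c000280000000000000000000000) := T_3 (nat_lit 178) (nat_lit 161) (nat_lit 4) (nat_lit 8) (nat_lit 10) L1315770 (by decide +kernel)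
theorem L1315772 : W_3 (nat_lit 2) (nat_lit 0x1a002f0003000080000000000000000000000) (nat_lit 0x0) (nat_lit 0x80004000400000000000000000000000000000000000) := D_3 (nat_lit 158) (nat_lit 175) (nat_lit 142) (nat_lit 6) (nat_lit 5) (nat_lit 10) (nat_lit 5) (nat_lit 6) (nat_lit 5) (by decide +kernel)
theorem L1315773 : W_3 (nat_lit 3) (nat_lit 0x18002f0003000080000000000000000000000) (nat_lit 0x0) (nat_lit 0x80004000700000000000000000000000000000000000) := T_3 (nat_lit 141) (nat_lit 140) (nat_lit 1) (nat_lit 8) (nat_lit 7) L1315772 (by decide +kernel)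
theorem L1315774 : W_3 (nat_lit 4) (nat_lit 0x18002f0003000000000000000000000000000) (nat_lit 0x0) (nat_lit 0x80004000700000000000080004000000000000000000) := T_3 (nat_lit 91) (nat_lit 74) (nat_lit 7) (nat_lit 6) (nat_lit 4) L1315773 (by decide +kernel)
theorem L1315775 : W_3 (nat_lit 5) (nat_lit 0x18002e0003000000000000000000000000000) (nat_lit 0x0) (nat_lit 0x80004000700018000000080004000000000000000000) := T_3 (nat_lit 124) (nat_lit 123) (nat_lit 3) (nat_lit 4) (nat_lit 7) L1315774 (by decide +kernel)
theorem L1315776 : W_3 (nat_lit 6) (nat_lit 0x18000e0003000000000000000000000000000) (nat_lit 0x0) (nat_lit 0x80004000700318000000080004000000000000000000) := T_3 (nat_lit 129) (nat_lit 128) (nat_lit 0) (nat_lit 10) (nat_lit 7) L1315775 (by decide +kernel)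
theorem L1315777 : W_3 (nat_lit 2) (nat_lit 0x4000000018001f0003000000004000000000000000000) (nat_lit 0x0) (nat_lit 0x1c000000000000000000000000000) := D_3 (nat_lit 111) (nat_lit 112) (nat_lit 110) (nat_lit 2) (nat_lit 6) (nat_lit 7) (nat_lit 2) (nat_lit 5) (nat_lit 7) (by decide +kernel)
theorem L1315778 : W_3 (nat_lit 3) (nat_lit 0x4000000018001e0003000000004000000000000000000) (nat_lit 0x0) (nat_lit 0x1801c000000000000000000000000000) := T_3 (nat_lit 124) (nat_lit 123) (nat_lit 3) (nat_lit 4) (nat_lit 7) L1315777 (by decide +kernel)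
theorem L1315779 : W_3 (nat_lit 4) (nat_lit 0x4000000018000e0003000000004000000000000000000) (nat_lit 0x0) (nat_lit 0x31801c000000000000000000000000000) := T_3 (nat_lit 128) (nat_lit 129) (nat_lit 0) (nat_lit 10) (nat_lit 7) L1315778 (by decide +kernel)
theorem L1315780 : W_3 (nat_lit 5) (nat_lit 0x18000e0003000000004000000000000000000) (nat_lit 0x0) (nat_lit 0x40002000000031801c000000000000000000000000000) := T_3 (nat_lit 178) (nat_lit 161) (nat_lit 4) (nat_lit 8) (nat_lit 10) L1315779 (by decide +kernel)
theorem L1315781 : W_3 (nat_lit 6) (nat_lit 0x18000e0003000000000000000000000000000) (nat_lit 0x0) (nat_lit 0x40002000000031801c000080004000000000000000000) := T_3 (nat_lit 74) (nat_lit 91) (nat_lit 7) (nat_lit 6) (nat_lit 4) L1315780 (by decide +kernel)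
theorem L1315782 : W_3 (nat_lit 2) (nat_lit 0x4000000018001e000b0000c0000000000000000000000) (nat_lit 0x0) (nat_lit 0x600000000000000002000000000000000000) := D_3 (nat_lit 142) (nat_lit 141) (nat_lit 73) (nat_lit 2) (nat_lit 5) (nat_lit 8) (nat_lit 4) (nat_lit 6) (nat_lit 8) (by decide +kernel)
theorem L1315783 : W_3 (nat_lit 3) (nat_lit 0x4000000018001e000b000080000000000000000000000) (nat_lit 0x0) (nat_lit 0x600000004000040002000000000000000000) := T_3 (nat_lit 90) (nat_lit 110) (nat_lit 0) (nat_lit 9) (nat_lit 6) L1315782 (by decide +kernel)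
theorem L1315784 : W_3 (nat_lit 4) (nat_lit 0x4000000018001e0003000080000000000000000000000) (nat_lit 0x0) (nat_lit 0x60000001c000040002000000000000000000) := T_3 (nat_lit 111) (nat_lit 112) (nat_lit 2) (nat_lit 6) (nat_lit 7) L1315783 (by decide +kernel)
theorem L1315785 : W_3 (nat_lit 5) (nat_lit 0x18001e0003000080000000000000000000000) (nat_lit 0x0) (nat_lit 0x40002000060000001c000040002000000000000000000) := T_3 (nat_lit 178) (nat_lit 161) (nat_lit 4) (nat_lit 8) (nat_lit 10) L1315784 (by decide +kernel)
theorem L1315786 : W_3 (nat_lit 6) (nat_lit 0x18000e0003000080000000000000000000000) (nat_lit 0x0) (nat_lit 0x40002000060030001c000040002000000000000000000) := T_3 (nat_lit 128) (nat_lit 129) (nat_lit 0) (nat_lit 10) (nat_lit 7) L1315785 (by decide +kernel)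
theorem L1315787 : W_3 (nat_lit 7) (nat_lit 0x18000e0003000000000000000000000000000) (nat_lit 0x0) (nat_lit 0x40002000060030001c0000c0006000000000000000000) := T_3 (nat_lit 91) (nat_lit 74) (nat_lit 7) (nat_lit 6) (nat_lit 4) L1315786 (by decide +kernel)
theorem L1315788 : W_3 (nat_lit 2) (nat_lit 0x4000000018001f0003000000000000000000000000000) (nat_lit 0x0) (nat_lit 0x700000000000000000000000000000000000) := D_3 (nat_lit 141) (nat_lit 140) (nat_lit 142) (nat_lit 1) (nat_lit 8) (nat_lit 7) (nat_lit 2) (nat_lit 5) (nat_lit 8) (by decide +kernel)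
theorem L1315789 : W_3 (nat_lit 3) (nat_lit 0x4000000018000f0003000000000000000000000000000) (nat_lit 0x0) (nat_lit 0x700300000000000000000000000000000000) := T_3 (nat_lit 128) (nat_lit 129) (nat_lit 0) (nat_lit 10) (nat_lit 7) L1315788 (by decide +kernel)
theorem L1315790 : W_3 (nat_lit 4) (nat_lit 0x4000000018000e0003000000000000000000000000000) (nat_lit 0x0) (nat_lit 0x700318000000000000000000000000000000) := T_3 (nat_lit 124) (nat_lit 123) (nat_lit 3) (nat_lit 4) (nat_lit 7) L1315789 (by decide +kernel)
theorem L1315791 : W_3 (nat_lit 5) (nat_lit 0x18000e0003000000000000000000000000000) (nat_lit 0x0) (nat_lit 0x400020000700318000000000000000000000000000000) := T_3 (nat_lit 178) (nat_lit 161) (nat_lit 4) (nat_lit 8) (nat_lit 10) L1315790 (by decide +kernel)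
theorem L1315792 : W_3 (nat_lit 8) (nat_lit 0x18000c0003000000000000000000000000000) (nat_lit 0x0) (nat_lit 0x48002400070033801c0000c0006000000000000000000) := Q_3 (nat_lit 125) (C_3 L1315776 (C_3 L1315781 (C_3 L1212945 (C_3 L1315787 (C_3 L1315791 N_3))))) (by decide +kernel)
theorem L1315793 : W_3 (nat_lit 9) (nat_lit 0x100018000c0003000000000000000000000000000) (nat_lit 0x0) (nat_lit 0x5c002e000700330004000200000000000000000000000) := T_3 (nat_lit 129) (nat_lit 128) (nat_lit 0) (nat_lit 10) (nat_lit 7) L1214962 (by decide +kernel)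
theorem L1315794 : W_3 (nat_lit 10) (nat_lit 0x18000c0003000000000000000000000000000) (nat_lit 0x0) (nat_lit 0x40007c003e000700330004000200000000000000000000000) := Q_3 (nat_lit 160) (C_3 L1239722 (C_3 L619422 (C_3 L1315793 N_3))) (by decide +kernel)
theorem L1315795 : W_3 (nat_lit 11) (nat_lit 0x10000c0003000000000000000000000000000) (nat_lit 0x0) (nat_lit 0xc0007c003e000f0033801c0002c0006000000000000000000) := Q_3 (nat_lit 143) (C_3 L1315771 (C_3 L1238671 (C_3 L1034613 (C_3 L1315792 (C_3 L1315794 N_3))))) (by decide +kernel)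
theorem L1315796 : W_3 (nat_lit 12) (nat_lit 0x10000c0002000000000000000000000000000) (nat_lit 0x0) (nat_lit 0xc0007c003e000f0033801dc006f0017000100008000000000) := Q_3 (nat_lit 108) (C_3 L622988 (C_3 L284368 (C_3 L1315762 (C_3 L284265 (C_3 L1315795 N_3))))) (by decide +kernel)
theorem L1315797 : W_3 (nat_lit 13) (nat_lit 0x10000c0000000000000000000000000000000) (nat_lit 0x0) (nat_lit 0xe0007c003e000f0033801fc007f001f000100008000000000) := Q_3 (nat_lit 109) (C_3 L1219779 (C_3 L1315796 (C_3 L1219777 (C_3 L615321 (C_3 L284220 N_3))))) (by decide +kernel)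
theorem L1315798 : W_3 (nat_lit 2) (nat_lit 0x30001e000f000480010000000000000000000) (nat_lit 0x0) (nat_lit 0x10000800000000000000004000000000000000000) := D_3 (nat_lit 143) (nat_lit 160) (nat_lit 74) (nat_lit 4) (nat_lit 7) (nat_lit 9) (nat_lit 7) (nat_lit 6) (nat_lit 4) (by decide +kernel)
theorem L1315799 : W_3 (nat_lit 3) (nat_lit 0x30001e000f000400010000000000000000000) (nat_lit 0x0) (nat_lit 0x100008000000000000c0004000000000000000000) := T_3 (nat_lit 91) (nat_lit 90) (nat_lit 0) (nat_lit 9) (nat_lit 6) L1315798 (by decide +kernel)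
theorem L1315800 : W_3 (nat_lit 4) (nat_lit 0x30001e000f000000010000000000000000000) (nat_lit 0x0) (nat_lit 0x10000800000000000cc0004000000000000000000) := T_3 (nat_lit 94) (nat_lit 95) (nat_lit 2) (nat_lit 6) (nat_lit 6) L1315799 (by decide +kernel)
theorem L1315801 : W_3 (nat_lit 5) (nat_lit 0x30001e000f000000000000000000000000000) (nat_lit 0x0) (nat_lit 0x10000800000000000ec0014000000000000000000) := T_3 (nat_lit 76) (nat_lit 93) (nat_lit 7) (nat_lit 8) (nat_lit 4) L1315800 (by decide +kernel)
theorem L1315802 : W_3 (nat_lit 6) (nat_lit 0x10001e000f000000000000000000000000000) (nat_lit 0x0) (nat_lit 0x10006800000000000ec0014000000000000000000) := T_3 (nat_lit 145) (nat_lit 146) (nat_lit 3) (nat_lit 6) (nat_lit 7) L1315801 (by decide +kernel)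
theorem L1315803 : W_3 (nat_lit 7) (nat_lit 0x10001e000e000000000000000000000000000) (nat_lit 0x0) (nat_lit 0x10006800000001800ec0014000000000000000000) := T_3 (nat_lit 108) (nat_lit 107) (nat_lit 3) (nat_lit 5) (nat_lit 6) L1315802 (by decide +kernel)
theorem L1315804 : W_3 (nat_lit 8) (nat_lit 0x10001e0006000000000000000000000000000) (nat_lit 0x0) (nat_lit 0x10006800000019800ec0014000000000000000000) := T_3 (nat_lit 111) (nat_lit 112) (nat_lit 2) (nat_lit 6) (nat_lit 7) L1315803 (by decide +kernel)
theorem L1315805 : W_3 (nat_lit 2) (nat_lit 0x30001e0016000000010000000000000000000) (nat_lit 0x0) (nat_lit 0x600020000000000000000000000000000) := D_3 (nat_lit 129) (nat_lit 113) (nat_lit 130) (nat_lit 2) (nat_lit 7) (nat_lit 7) (nat_lit 0) (nat_lit 11) (nat_lit 7) (by decide +kernel)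
theorem L1315806 : W_3 (nat_lit 3) (nat_lit 0x30001e0006000000010000000000000000000) (nat_lit 0x0) (nat_lit 0x600038000000000000000000000000000) := T_3 (nat_lit 112) (nat_lit 111) (nat_lit 2) (nat_lit 6) (nat_lit 7) L1315805 (by decide +kernel)
theorem L1315807 : W_3 (nat_lit 4) (nat_lit 0x30001e0006000000000000000000000000000) (nat_lit 0x0) (nat_lit 0x600038000200010000000000000000000) := T_3 (nat_lit 76) (nat_lit 93) (nat_lit 7) (nat_lit 8) (nat_lit 4) L1315806 (by decide +kernel)
theorem L1315808 : W_3 (nat_lit 5) (nat_lit 0x10001e0006000000000000000000000000000) (nat_lit 0x0) (nat_lit 0x6000600038000200010000000000000000000) := T_3 (nat_lit 145) (nat_lit 146) (nat_lit 3) (nat_lit 6) (nat_lit 7) L1315807 (by decide +kernel)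
theorem L1315809 : W_3 (nat_lit 9) (nat_lit 0x10000e0006000000000000000000000000000) (nat_lit 0x0) (nat_lit 0x10006800700039800ec0014000000000000000000) := Q_3 (nat_lit 128) (C_3 L170903 (C_3 L1315804 (C_3 L1315808 N_3))) (by decide +kernel)
theorem L1315810 : W_3 (nat_lit 10) (nat_lit 0x10000c0006000000000000000000000000000) (nat_lit 0x0) (nat_lit 0x10006800738039800ec0014000000000000000000) := Q_3 (nat_lit 125) (C_3 L337445 (C_3 L132061 (C_3 L1315809 N_3))) (by decide +kernel)
theorem L1315811 : W_3 (nat_lit 11) (nat_lit 0x10000c0002000000000000000000000000000) (nat_lit 0x0) (nat_lit 0x60003000680073803dc01ee0014000000000000000000) := Q_3 (nat_lit 110) (C_3 L1160090 (C_3 L1315810 (C_3 L1048977 (C_3 L337582 N_3)))) (by decide +kernel)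
theorem L1315812 : W_3 (nat_lit 2) (nat_lit 0x58002e000b0007e0000000000000000000000) (nat_lit 0x0) (nat_lit 0x3800000000000000000) := D_3 (nat_lit 72) (nat_lit 73) (nat_lit 71) (nat_lit 0) (nat_lit 8) (nat_lit 5) (nat_lit 0) (nat_lit 7) (nat_lit 5) (by decide +kernel)
theorem L1315813 : W_3 (nat_lit 3) (nat_lit 0x58002e000b0007c0000000000000000000000) (nat_lit 0x0) (nat_lit 0x30003800000000000000000) := T_3 (nat_lit 89) (nat_lit 88) (nat_lit 3) (nat_lit 3) (nat_lit 5) L1315812 (by decide +kernel)
theorem L1315814 : W_3 (nat_lit 4) (nat_lit 0x58002e000b000780000000000000000000000) (nat_lit 0x0) (nat_lit 0x4000070003800000000000000000) := T_3 (nat_lit 90) (nat_lit 110) (nat_lit 3) (nat_lit 5) (nat_lit 5) L1315813 (by decide +kernel)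
theorem L1315815 : W_3 (nat_lit 5) (nat_lit 0x58002e0003000780000000000000000000000) (nat_lit 0x0) (nat_lit 0x1c000070003800000000000000000) := T_3 (nat_lit 111) (nat_lit 112) (nat_lit 3) (nat_lit 6) (nat_lit 5) L1315814 (by decide +kernel)
theorem L1315816 : W_3 (nat_lit 6) (nat_lit 0x18002e0003000780000000000000000000000) (nat_lit 0x0) (nat_lit 0x600000001c000070003800000000000000000) := T_3 (nat_lit 146) (nat_lit 145) (nat_lit 0) (nat_lit 10) (nat_lit 8) L1315815 (by decide +kernel)
theorem L1315817 : W_3 (nat_lit 7) (nat_lit 0x18002e0003000380000000000000000000000) (nat_lit 0x0) (nat_lit 0x600000001c000c70003800000000000000000) := T_3 (nat_lit 94) (nat_lit 95) (nat_lit 1) (nat_lit 10) (nat_lit 5) L1315816 (by decide +kernel)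
theorem L1315818 : W_3 (nat_lit 8) (nat_lit 0x18002e0003000180000000000000000000000) (nat_lit 0x0) (nat_lit 0x600000001c000e70013800000000000000000) := T_3 (nat_lit 93) (nat_lit 76) (nat_lit 6) (nat_lit 7) (nat_lit 8) L1315817 (by decide +kernel)
theorem L1315819 : W_3 (nat_lit 9) (nat_lit 0x18002e0003000100000000000000000000000) (nat_lit 0x0) (nat_lit 0x600000001c000ef0017800000000000000000) := T_3 (nat_lit 91) (nat_lit 74) (nat_lit 7) (nat_lit 6) (nat_lit 4) L1315818 (by decide +kernel)
theorem L1315820 : W_3 (nat_lit 10) (nat_lit 0x18000e0003000100000000000000000000000) (nat_lit 0x0) (nat_lit 0x600030001c000ef0017800000000000000000) := T_3 (nat_lit 129) (nat_lit 128) (nat_lit 0) (nat_lit 10) (nat_lit 7) L1315819 (by decide +kernel)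
theorem L1315821 : W_3 (nat_lit 11) (nat_lit 0x18000e0003000000000000000000000000000) (nat_lit 0x0) (nat_lit 0x600030001c000ff001f800000000000000000) := T_3 (nat_lit 92) (nat_lit 75) (nat_lit 7) (nat_lit 7) (nat_lit 4) L1315820 (by decide +kernel)
theorem L1315822 : W_3 (nat_lit 2) (nat_lit 0x58002e0003000300000000000000000000000) (nat_lit 0x0) (nat_lit 0x200010000000000004000000000000000000000000000) := D_3 (nat_lit 160) (nat_lit 110) (nat_lit 177) (nat_lit 6) (nat_lit 7) (nat_lit 9) (nat_lit 4) (nat_lit 7) (nat_lit 10) (by decide +kernel)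
theorem L1315823 : W_3 (nat_lit 3) (nat_lit 0x58002e0003000100000000000000000000000) (nat_lit 0x0) (nat_lit 0x200010000000000004000200010000000000000000000) := T_3 (nat_lit 93) (nat_lit 76) (nat_lit 6) (nat_lit 7) (nat_lit 8) L1315822 (by decide +kernel)
theorem L1315824 : W_3 (nat_lit 4) (nat_lit 0x58000e0003000100000000000000000000000) (nat_lit 0x0) (nat_lit 0x200010000000300004000200010000000000000000000) := T_3 (nat_lit 129) (nat_lit 128) (nat_lit 0) (nat_lit 10) (nat_lit 7) L1315823 (by decide +kernel)
theorem L1315825 : W_3 (nat_lit 5) (nat_lit 0x58000e0003000000000000000000000000000) (nat_lit 0x0) (nat_lit 0x200010000000300004000300018000000000000000000) := T_3 (nat_lit 92) (nat_lit 75) (nat_lit 7) (nat_lit 7) (nat_lit 4) L1315824 (by decide +kernel)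
theorem L1315826 : W_3 (nat_lit 6) (nat_lit 0x18000e0003000000000000000000000000000) (nat_lit 0x0) (nat_lit 0x200010006000300004000300018000000000000000000) := T_3 (nat_lit 146) (nat_lit 145) (nat_lit 0) (nat_lit 10) (nat_lit 8) L1315825 (by decide +kernel)
theorem L1315827 : W_3 (nat_lit 12) (nat_lit 0x10000e0003000000000000000000000000000) (nat_lit 0x0) (nat_lit 0x20001000680030001c000ff001f800000000000000000) := Q_3 (nat_lit 143) (C_3 L1281508 (C_3 L1315821 (C_3 L1315826 N_3))) (by decide +kernel)
theorem L1315828 : W_3 (nat_lit 13) (nat_lit 0x10000c0003000000000000000000000000000) (nat_lit 0x0) (nat_lit 0x200010006b8033c01c000ff001f800000000000000000) := Q_3 (nat_lit 125) (C_3 L1117896 (C_3 L622999 (C_3 L622991 (C_3 L1315827 N_3)))) (by decide +kernel)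
theorem L1315829 : W_3 (nat_lit 14) (nat_lit 0x10000c0002000000000000000000000000000) (nat_lit 0x0) (nat_lit 0x200010006b8033c01de00ff001f800600000000000000) := Q_3 (nat_lit 108) (C_3 L622988 (C_3 L620869 (C_3 L284265 (C_3 L1315828 N_3)))) (by decide +kernel)
theorem L1315830 : W_3 (nat_lit 15) (nat_lit 0x10000c0000000000000000000000000000000) (nat_lit 0x0) (nat_lit 0x600030006b8073c03fe01ff001f800600000000000000) := Q_3 (nat_lit 109) (C_3 L1219779 (C_3 L1315811 (C_3 L1315829 (C_3 L615321 (C_3 L284220 N_3))))) (by decide +kernel)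
theorem L1315831 : W_3 (nat_lit 13) (nat_lit 0x10000e0002000000000000000000000000000) (nat_lit 0x0) (nat_lit 0x20001000680030001dc00ff001f800600000000000000) := Q_3 (nat_lit 108) (C_3 L615490 (C_3 L284291 (C_3 L1315827 N_3))) (by decide +kernel)
theorem L1315832 : W_3 (nat_lit 14) (nat_lit 0x10000c0002000000000000000000000000000) (nat_lit 0x0) (nat_lit 0x200018006c0033c01df00ff001f800600000000000000) := Q_3 (nat_lit 125) (C_3 L1117965 (C_3 L1117960 (C_3 L616486 (C_3 L1315831 N_3)))) (by decide +kernel)
theorem L1315833 : W_3 (nat_lit 15) (nat_lit 0x10000c0000000000000000000000000000000) (nat_lit 0x0) (nat_lit 0x600038006c0073c03ff01ff001f800600000000000000) := Q_3 (nat_lit 109) (C_3 L1219779 (C_3 L1315811 (C_3 L1315832 (C_3 L615321 (C_3 L284220 N_3))))) (by decide +kernel)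
theorem L1315834 : W_3 (nat_lit 2) (nat_lit 0x3a001e0008000000000000000000000000000) (nat_lit 0x0) (nat_lit 0x400020000000000000000400000000000000000000000) := D_3 (nat_lit 161) (nat_lit 94) (nat_lit 178) (nat_lit 5) (nat_lit 9) (nat_lit 5) (nat_lit 6) (nat_lit 8) (nat_lit 10) (by decide +kernel)
theorem L1315835 : W_3 (nat_lit 3) (nat_lit 0x1a001e0008000000000000000000000000000) (nat_lit 0x0) (nat_lit 0x400020006000000000000400000000000000000000000) := T_3 (nat_lit 145) (nat_lit 146) (nat_lit 3) (nat_lit 6) (nat_lit 7) L1315834 (by decide +kernel)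
theorem L1315836 : W_3 (nat_lit 4) (nat_lit 0x1a001e0000000000000000000000000000000) (nat_lit 0x0) (nat_lit 0x400020006000000018000400000000000000000000000) := T_3 (nat_lit 111) (nat_lit 112) (nat_lit 2) (nat_lit 6) (nat_lit 7) L1315835 (by decide +kernel)
theorem L1315837 : W_3 (nat_lit 5) (nat_lit 0x18001e0000000000000000000000000000000) (nat_lit 0x0) (nat_lit 0x400020006600000018000400000000000000000000000) := T_3 (nat_lit 141) (nat_lit 142) (nat_lit 2) (nat_lit 5) (nat_lit 8) L1315836 (by decide +kernel)
theorem L1315838 : W_3 (nat_lit 6) (nat_lit 0x18001c0000000000000000000000000000000) (nat_lit 0x0) (nat_lit 0x40002000660003801c000400000000000000000000000) := Q_3 (nat_lit 125) (C_3 L1053309 (C_3 L980791 (C_3 L1315837 N_3))) (by decide +kernel)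
theorem L1315839 : W_3 (nat_lit 7) (nat_lit 0x18000c0000000000000000000000000000000) (nat_lit 0x0) (nat_lit 0x200014001a000e60073801c000400000000000000000000000) := Q_3 (nat_lit 128) (C_3 L988704 (C_3 L619390 (C_3 L1315838 N_3))) (by decide +kernel)
theorem L1315840 : W_3 (nat_lit 12) (nat_lit 0x10000c0000000000000000000000000000000) (nat_lit 0x0) (nat_lit 0x2002f001fc01be00ef0073801ec00740018000000000000000000) := Q_3 (nat_lit 143) (C_3 L1255573 (C_3 L1204857 (C_3 L1255571 (C_3 L979498 (C_3 L1315839 N_3))))) (by decide +kernel)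
theorem L1315849 : W_3 (nat_lit 9) (nat_lit 0x10000e0002000000000000000000000000000) (nat_lit 0x0) (nat_lit 0x500028006600f0003d800400000000000000000000000) := Q_3 (nat_lit 128) (C_3 L1117931 (C_3 L623016 (C_3 L1315848 N_3))) (by decide +kernel)
theorem L1315850 : W_3 (nat_lit 10) (nat_lit 0x10000c0002000000000000000000000000000) (nat_lit 0x0) (nat_lit 0x58002c006780f3c03df00480000000000000000000000) := Q_3 (nat_lit 125) (C_3 L1117965 (C_3 L1315841 (C_3 L346066 (C_3 L1315849 N_3)))) (by decide +kernel)
theorem L1315851 : W_3 (nat_lit 13) (nat_lit 0x10000c0000000000000000000000000000000) (nat_lit 0x0) (nat_lit 0x10007c003c01e7e0f3e07ff005f000e000700000000000000) := Q_3 (nat_lit 109) (C_3 L284528 (C_3 L1315850 (C_3 L284220 (C_3 L284285 (C_3 L284362 N_3))))) (by decide +kernel)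
theorem L1315861 : W_3 (nat_lit 11) (nat_lit 0x10000e0002000000000000000000000000000) (nat_lit 0x0) (nat_lit 0x7c003e000c0031801d000680000000000000000000000) := Q_3 (nat_lit 110) (C_3 L1176947 (C_3 L337445 (C_3 L1315860 N_3))) (by decide +kernel)
theorem L1315862 : W_3 (nat_lit 2) (nat_lit 0x30001e000a000000000000000000000000000) (nat_lit 0x0) (nat_lit 0x400020000000000000000400000000000000000000000) := D_3 (nat_lit 161) (nat_lit 178) (nat_lit 94) (nat_lit 6) (nat_lit 8) (nat_lit 10) (nat_lit 5) (nat_lit 9) (nat_lit 5) (by decide +kernel)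
theorem L1315863 : W_3 (nat_lit 3) (nat_lit 0x30001e0002000000000000000000000000000) (nat_lit 0x0) (nat_lit 0x400020000000000018000400000000000000000000000) := T_3 (nat_lit 111) (nat_lit 112) (nat_lit 2) (nat_lit 6) (nat_lit 7) L1315862 (by decide +kernel)
theorem L1315864 : W_3 (nat_lit 4) (nat_lit 0x10001e0002000000000000000000000000000) (nat_lit 0x0) (nat_lit 0x400020006000000018000400000000000000000000000) := T_3 (nat_lit 145) (nat_lit 146) (nat_lit 3) (nat_lit 6) (nat_lit 7) L1315863 (by decide +kernel)
theorem L1315865 : W_3 (nat_lit 9) (nat_lit 0x10000e0002000000000000000000000000000) (nat_lit 0x0) (nat_lit 0x50002801ee00f0003d000400000000000000000000000) := Q_3 (nat_lit 128) (C_3 L1315848 (C_3 L1221645 (C_3 L1178904 (C_3 L1315864 N_3)))) (by decide +kernel)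
theorem L1315866 : W_3 (nat_lit 12) (nat_lit 0x10000c0002000000000000000000000000000) (nat_lit 0x0) (nat_lit 0x7c003e01eee0f3e03d380680000000000000000000000) := Q_3 (nat_lit 125) (C_3 L1117965 (C_3 L1315861 (C_3 L616492 (C_3 L1315865 N_3)))) (by decide +kernel)
theorem L1315867 : W_3 (nat_lit 13) (nat_lit 0x10000c0000000000000000000000000000000) (nat_lit 0x0) (nat_lit 0x60007c003e01efe0f3e03f38078001c000000000000000000) := Q_3 (nat_lit 109) (C_3 L1278406 (C_3 L1315866 (C_3 L1219779 (C_3 L615321 (C_3 L284220 N_3))))) (by decide +kernel)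
theorem L1315868 : W_3 (nat_lit 16) (nat_lit 0x1000080000000000000000000000000000000) (nat_lit 0x0) (nat_lit 0x8002f01ffe07ff07bf83efe0f7e0fff81ff001f800700008000000000) := Q_3 (nat_lit 126) (C_3 L619125 (C_3 L1117879 (C_3 L1283590 (C_3 L1315797 (C_3 L1238669 (C_3 L1315830 (C_3 L1178865 (C_3 L1315833 (C_3 L1315840 (C_3 L1256358 (C_3 L1315851 (C_3 L1265205 (C_3 L1315867 N_3))))))))))))) (by decide +kernel)
end Crest.Agent.Helper32.Snaky.R1_1
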