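import Crest.Agent.Helper32.Snaky.Gen.R1_1_p1
set_option autoImplicit false
set_option maxRecDepth 100000
set_option linter.all false
set_option Elab.async false
namespace Crest.Agent.Helper32.Snaky.R1_1
@[reducible] def W_4 (d M Bz Z : Nat) : Prop := Crest.Agent.Helper32.Snaky.Wins (nat_lit 17) d M Bz Z
theorem D_4 {d M Bz Z : Nat} (m t1 t2 o1 x1 y1 o2 x2 y2 : Nat) (h : Crest.Agent.Helper32.Snaky.chkDoubleC (nat_lit 17) d M Bz Z m t1 t2 o1 x1 y1 o2 x2 y2 = true) : W_4 d M Bz Z := Crest.Agent.Helper32.Snaky.doubleC m t1 t2 o1 x1 y1 o2 x2 y2 h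
theorem T_4 {d M Bz Z cd cM cBz cZ : Nat} (m t o x y : Nat) (child : W_4 cd cM cBz cZ) (h : Crest.Agent.Helper32.Snaky.chkThreatC (nat_lit 17) d M Bz Z cd cM cBz cZ m t o x y = true) : W_4 d M Bz Z := Crest.Agent.Helper32.Snaky.threatC m t o x y child h
theorem Q_4 {d M Bz Z : Nat} (m : Nat) {l : List Crest.Agent.Helper32.Snaky.Spec} (kids : Crest.Agent.Helper32.Snaky.AllWins (nat_lit 17) l) (h : Crest.Agent.Helper32.Snaky.chkQuiet d M Bz Z m l = true) : W_4 d M Bz Z := Crest.Agent.Helper32.Snaky.quiet m kids h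
theorem C_4 {cd cM cBz cZ : Nat} {l : List Crest.Agent.Helper32.Snaky.Spec} (h : W_4 cd cM cBz cZ) (hl : Crest.Agent.Helper32.Snaky.AllWins (nat_lit 17) l) : Crest.Agent.Helper32.Snaky.AllWins (nat_lit 17) ((cd, cM, cBz, cZ) :: l) := Crest.Agent.Helper32.Snaky.AllWins.cons h hl
theorem N_4 : Crest.Agent.Helper32.Snaky.AllWins (nat_lit 17) [] := Crest.Agent.Helper32.Snaky.AllWins.nil
theorem L97 : W_4 (nat_lit 2) (nat_lit 0x1000080006000200000000000000000000000) (nat_lit 0x0) (nat_lit 0x20000000000000000100008000000000000000000) := D_4 (nat_lit 92) (nat_lit 75) (nat_lit 161) (nat_lit 4) (nat_lit 8) (nat_lit 8) (nat_lit 4) (nat_lit 8) (nat_lit 9) (by decide +kernel)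
theorem L256 : W_4 (nat_lit 2) (nat_lit 0x200010000f0004000000000000000000000000000) (nat_lit 0x0) (nat_lit 0x8002000100000000000000000000000) := D_4 (nat_lit 109) (nat_lit 123) (nat_lit 92) (nat_lit 2) (nat_lit 4) (nat_lit 7) (nat_lit 4) (nat_lit 8) (nat_lit 9) (by decide +kernel)
theorem L257 : W_4 (nat_lit 3) (nat_lit 0x200010000e0004000000000000000000000000000) (nat_lit 0x0) (nat_lit 0x2000018002000100000000000000000000000) := T_4 (nat_lit 124) (nat_lit 145) (nat_lit 3) (nat_lit 5) (nat_lit 7) L256 (by decide +kernel)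
theorem L262 : W_4 (nat_lit 2) (nat_lit 0x200010001e0006000000000000000000000000000) (nat_lit 0x0) (nat_lit 0x200001800000000000000000000000000) := D_4 (nat_lit 108) (nat_lit 107) (nat_lit 129) (nat_lit 3) (nat_lit 5) (nat_lit 6) (nat_lit 0) (nat_lit 10) (nat_lit 7) (by decide +kernel)
theorem L263 : W_4 (nat_lit 3) (nat_lit 0x200010001e0004000000000000000000000000000) (nat_lit 0x0) (nat_lit 0x200003800100000000000000000000000) := T_4 (nat_lit 109) (nat_lit 92) (nat_lit 4) (nat_lit 8) (nat_lit 9) L262 (by decide +kernel)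
theorem L3801 : W_4 (nat_lit 2) (nat_lit 0x400020001000080004000000000000000000000000000) (nat_lit 0x0) (nat_lit 0x4000200010000000000000000000000000000000000000000) := D_4 (nat_lit 177) (nat_lit 160) (nat_lit 194) (nat_lit 5) (nat_lit 8) (nat_lit 6) (nat_lit 5) (nat_lit 8) (nat_lit 7) (by decide +kernel)
theorem L3802 : W_4 (nat_lit 2) (nat_lit 0x14000400020001000080004000000000000000000000000000) (nat_lit 0x0) (nat_lit 0x280008000000000000000000000000000000000000000000000000) := D_4 (nat_lit 195) (nat_lit 213) (nat_lit 211) (nat_lit 7) (nat_lit 8) (nat_lit 8) (nat_lit 5) (nat_lit 8) (nat_lit 8) (by decide +kernel)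
theorem L3803 : W_4 (nat_lit 3) (nat_lit 0x10000400020001000080004000000000000000000000000000) (nat_lit 0x0) (nat_lit 0x28000c000200000000000000000000000000000000000000000000) := T_4 (nat_lit 194) (nat_lit 177) (nat_lit 5) (nat_lit 8) (nat_lit 7) L3802 (by decide +kernel)
theorem L3804 : W_4 (nat_lit 4) (nat_lit 0x400020001000080004000000000000000000000000000) (nat_lit 0x0) (nat_lit 0x28001c000a00000000000000000000000000000000000000000000) := T_4 (nat_lit 196) (nat_lit 179) (nat_lit 7) (nat_lit 8) (nat_lit 7) L3803 (by decide +kernel)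
theorem L5172 : W_4 (nat_lit 2) (nat_lit 0xc000400020001000080006000000000000000000000000000) (nat_lit 0x0) (nat_lit 0x200010000800000000000000000000000000000000000000000000) := D_4 (nat_lit 196) (nat_lit 179) (nat_lit 213) (nat_lit 7) (nat_lit 8) (nat_lit 7) (nat_lit 7) (nat_lit 8) (nat_lit 8) (by decide +kernel)
theorem L5173 : W_4 (nat_lit 3) (nat_lit 0x4000400020001000080006000000000000000000000000000) (nat_lit 0x0) (nat_lit 0x280018000800000000000000000000000000000000000000000000) := T_4 (nat_lit 195) (nat_lit 211) (nat_lit 5) (nat_lit 8) (nat_lit 8) L5172 (by decide +kernel)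
theorem L19991 : W_4 (nat_lit 2) (nat_lit 0x30011000780044000000000000000000000000000) (nat_lit 0x0) (nat_lit 0x20000800080000000000000000000000000000) := D_4 (nat_lit 131) (nat_lit 115) (nat_lit 149) (nat_lit 2) (nat_lit 9) (nat_lit 7) (nat_lit 3) (nat_lit 9) (nat_lit 7) (by decide +kernel)
theorem L19992 : W_4 (nat_lit 3) (nat_lit 0x30001000780044000000000000000000000000000) (nat_lit 0x0) (nat_lit 0x38000800080000000000000000000000000000) := T_4 (nat_lit 148) (nat_lit 147) (nat_lit 3) (nat_lit 8) (nat_lit 7) L19991 (by decide +kernel)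
theorem L19993 : W_4 (nat_lit 4) (nat_lit 0x30001000780004000000000000000000000000000) (nat_lit 0x0) (nat_lit 0x380008000e0000000000000000000000000000) := T_4 (nat_lit 114) (nat_lit 113) (nat_lit 2) (nat_lit 8) (nat_lit 7) L19992 (by decide +kernel)
theorem L20071 : W_4 (nat_lit 5) (nat_lit 0x30001000380004000000000000000000000000000) (nat_lit 0x0) (nat_lit 0x38000c000e2000000000000000000000000000) := T_4 (nat_lit 130) (nat_lit 109) (nat_lit 0) (nat_lit 11) (nat_lit 7) L19993 (by decide +kernel)
theorem L20072 : W_4 (nat_lit 6) (nat_lit 0x20001000380004000000000000000000000000000) (nat_lit 0x0) (nat_lit 0x200010038000c000e2000000000000000000000000000) := T_4 (nat_lit 160) (nat_lit 177) (nat_lit 5) (nat_lit 8) (nat_lit 6) L20071 (by decide +kernel)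
theorem L39782 : W_4 (nat_lit 2) (nat_lit 0x8000600020001000180006800000000000000000000000000) (nat_lit 0x0) (nat_lit 0x200010000800000000000000000000000000000000000000000000) := D_4 (nat_lit 196) (nat_lit 179) (nat_lit 213) (nat_lit 7) (nat_lit 8) (nat_lit 7) (nat_lit 7) (nat_lit 8) (nat_lit 8) (by decide +kernel)
theorem L39783 : W_4 (nat_lit 3) (nat_lit 0x600020001000180006800000000000000000000000000) (nat_lit 0x0) (nat_lit 0x200018000800000002000000000000000000000000000000000000) := T_4 (nat_lit 195) (nat_lit 145) (nat_lit 6) (nat_lit 8) (nat_lit 11) L39782 (by decide +kernel)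
theorem L39784 : W_4 (nat_lit 4) (nat_lit 0x600020001000180006000000000000000000000000000) (nat_lit 0x0) (nat_lit 0x200018000800000002000000001800000000000000000000000000) := T_4 (nat_lit 107) (nat_lit 108) (nat_lit 3) (nat_lit 5) (nat_lit 6) L39783 (by decide +kernel)
theorem L39785 : W_4 (nat_lit 5) (nat_lit 0x600020001000080006000000000000000000000000000) (nat_lit 0x0) (nat_lit 0x200018000800000002000100009800000000000000000000000000) := T_4 (nat_lit 128) (nat_lit 111) (nat_lit 6) (nat_lit 8) (nat_lit 10) L39784 (by decide +kernel)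
theorem L39786 : W_4 (nat_lit 6) (nat_lit 0x200020001000080006000000000000000000000000000) (nat_lit 0x0) (nat_lit 0x20001c000c00000002000100009800000000000000000000000000) := T_4 (nat_lit 178) (nat_lit 194) (nat_lit 5) (nat_lit 8) (nat_lit 7) L39785 (by decide +kernel)
theorem L39787 : W_4 (nat_lit 7) (nat_lit 0x200020001000080004000000000000000000000000000) (nat_lit 0x0) (nat_lit 0x20001c000c0000000200010000b800100000000000000000000000) := T_4 (nat_lit 109) (nat_lit 92) (nat_lit 4) (nat_lit 8) (nat_lit 9) L39786 (by decide +kernel)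
theorem L39788 : W_4 (nat_lit 8) (nat_lit 0x20001000080004000000000000000000000000000) (nat_lit 0x0) (nat_lit 0x20001c000e0001000200010000b800100000000000000000000000) := T_4 (nat_lit 177) (nat_lit 160) (nat_lit 5) (nat_lit 8) (nat_lit 6) L39787 (by decide +kernel)
theorem L43322 : W_4 (nat_lit 2) (nat_lit 0x200010000e0004000000000000000000000000000) (nat_lit 0x0) (nat_lit 0x10008000400000000000000000000000) := D_4 (nat_lit 111) (nat_lit 94) (nat_lit 124) (nat_lit 6) (nat_lit 8) (nat_lit 9) (nat_lit 2) (nat_lit 5) (nat_lit 7) (by decide +kernel)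
theorem L49312 : W_4 (nat_lit 2) (nat_lit 0x200010000c0006000200020000000000000000000) (nat_lit 0x0) (nat_lit 0x10001800000000000000) := D_4 (nat_lit 76) (nat_lit 59) (nat_lit 60) (nat_lit 5) (nat_lit 8) (nat_lit 3) (nat_lit 6) (nat_lit 8) (nat_lit 7) (by decide +kernel)
theorem L49313 : W_4 (nat_lit 3) (nat_lit 0x200010000c0006000200000000000000000000000) (nat_lit 0x0) (nat_lit 0x400030001800000000000000) := T_4 (nat_lit 77) (nat_lit 94) (nat_lit 6) (nat_lit 8) (nat_lit 8) L49312 (by decide +kernel)
theorem L50644 : W_4 (nat_lit 2) (nat_lit 0x200020001000080006000600000000000000000000000) (nat_lit 0x0) (nat_lit 0x4000400000000000040000000000000000000000000000000) := D_4 (nat_lit 178) (nat_lit 194) (nat_lit 126) (nat_lit 5) (nat_lit 8) (nat_lit 7) (nat_lit 4) (nat_lit 8) (nat_lit 10) (by decide +kernel)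
theorem L52161 : W_4 (nat_lit 2) (nat_lit 0x2000100009000f000040000000000000000000000) (nat_lit 0x0) (nat_lit 0x8000800020000000000000000000000) := D_4 (nat_lit 107) (nat_lit 123) (nat_lit 89) (nat_lit 1) (nat_lit 8) (nat_lit 6) (nat_lit 0) (nat_lit 8) (nat_lit 6) (by decide +kernel)
theorem L52162 : W_4 (nat_lit 3) (nat_lit 0x2000100009000f000000000000000000000000000) (nat_lit 0x0) (nat_lit 0x80008000e0000000000000000000000) := T_4 (nat_lit 90) (nat_lit 91) (nat_lit 0) (nat_lit 9) (nat_lit 6) L52161 (by decide +kernel)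
theorem L52163 : W_4 (nat_lit 4) (nat_lit 0x2000100008000f000000000000000000000000000) (nat_lit 0x0) (nat_lit 0x380008000e0000000000000000000000) := T_4 (nat_lit 124) (nat_lit 125) (nat_lit 1) (nat_lit 9) (nat_lit 6) L52162 (by decide +kernel)
theorem L58685 : W_4 (nat_lit 2) (nat_lit 0x2000300008003c001200098007000000000000000000000000000) (nat_lit 0x0) (nat_lit 0x200010000800000000000000000000000000000000000000000000000) := D_4 (nat_lit 208) (nat_lit 225) (nat_lit 191) (nat_lit 5) (nat_lit 5) (nat_lit 9) (nat_lit 5) (nat_lit 5) (nat_lit 8) (by decide +kernel)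
theorem L58686 : W_4 (nat_lit 3) (nat_lit 0x300008003c001200098007000000000000000000000000000) (nat_lit 0x0) (nat_lit 0x200030000800000000000400000000000000000000000000000000000) := T_4 (nat_lit 209) (nat_lit 142) (nat_lit 6) (nat_lit 5) (nat_lit 12) L58685 (by decide +kernel)
theorem L58687 : W_4 (nat_lit 4) (nat_lit 0x200008003c001200098007000000000000000000000000000) (nat_lit 0x0) (nat_lit 0x200070001800000000000400000000000000000000000000000000000) := T_4 (nat_lit 192) (nat_lit 210) (nat_lit 7) (nat_lit 5) (nat_lit 8) L58686 (by decide +kernel)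
theorem L58688 : W_4 (nat_lit 5) (nat_lit 0x8003c001200098007000000000000000000000000000) (nat_lit 0x0) (nat_lit 0x200070003800100000000400000000000000000000000000000000000) := T_4 (nat_lit 193) (nat_lit 176) (nat_lit 7) (nat_lit 5) (nat_lit 7) L58687 (by decide +kernel)
theorem L58689 : W_4 (nat_lit 6) (nat_lit 0x8003c001200090007000000000000000000000000000) (nat_lit 0x0) (nat_lit 0x200070003800100000000400008000400000000000000000000000000) := T_4 (nat_lit 123) (nat_lit 106) (nat_lit 4) (nat_lit 5) (nat_lit 10) L58688 (by decide +kernel)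
theorem L58690 : W_4 (nat_lit 7) (nat_lit 0x8003c001000090007000000000000000000000000000) (nat_lit 0x0) (nat_lit 0x200070003800100000000700008000400000000000000000000000000) := T_4 (nat_lit 141) (nat_lit 140) (nat_lit 0) (nat_lit 8) (nat_lit 9) L58689 (by decide +kernel)
theorem L58691 : W_4 (nat_lit 8) (nat_lit 0x3c001000090007000000000000000000000000000) (nat_lit 0x0) (nat_lit 0x2000700038001c0000000700008000400000000000000000000000000) := T_4 (nat_lit 175) (nat_lit 174) (nat_lit 1) (nat_lit 8) (nat_lit 9) L58690 (by decide +kernel)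
theorem L58692 : W_4 (nat_lit 9) (nat_lit 0x34001000090007000000000000000000000000000) (nat_lit 0x0) (nat_lit 0x2000700038001c0008002700008000400000000000000000000000000) := T_4 (nat_lit 159) (nat_lit 145) (nat_lit 2) (nat_lit 5) (nat_lit 9) L58691 (by decide +kernel)
theorem L58693 : W_4 (nat_lit 10) (nat_lit 0x24001000090007000000000000000000000000000) (nat_lit 0x0) (nat_lit 0x2000700038003c0018002700008000400000000000000000000000000) := T_4 (nat_lit 160) (nat_lit 177) (nat_lit 5) (nat_lit 8) (nat_lit 6) L58692 (by decide +kernel)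
theorem L61745 : W_4 (nat_lit 2) (nat_lit 0x100048001e001200000000000000000000000) (nat_lit 0x0) (nat_lit 0x800020002000000000000000000000000) := D_4 (nat_lit 113) (nat_lit 97) (nat_lit 131) (nat_lit 2) (nat_lit 8) (nat_lit 6) (nat_lit 3) (nat_lit 8) (nat_lit 6) (by decide +kernel)
theorem L61746 : W_4 (nat_lit 3) (nat_lit 0x100008001e001200000000000000000000000) (nat_lit 0x0) (nat_lit 0xe00020002000000000000000000000000) := T_4 (nat_lit 130) (nat_lit 129) (nat_lit 3) (nat_lit 7) (nat_lit 6) L61745 (by decide +kernel)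
theorem L61747 : W_4 (nat_lit 4) (nat_lit 0x100008001e000200000000000000000000000) (nat_lit 0x0) (nat_lit 0xe00020003800000000000000000000000) := T_4 (nat_lit 96) (nat_lit 95) (nat_lit 2) (nat_lit 7) (nat_lit 6) L61746 (by decide +kernel)
theorem L62225 : W_4 (nat_lit 2) (nat_lit 0x100009000f000240000000000000000000000) (nat_lit 0x0) (nat_lit 0x8000800020000000000000000000000) := D_4 (nat_lit 107) (nat_lit 89) (nat_lit 123) (nat_lit 0) (nat_lit 8) (nat_lit 6) (nat_lit 1) (nat_lit 8) (nat_lit 6) (by decide +kernel)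
theorem L62226 : W_4 (nat_lit 3) (nat_lit 0x100008000f000240000000000000000000000) (nat_lit 0x0) (nat_lit 0x38000800020000000000000000000000) := T_4 (nat_lit 124) (nat_lit 125) (nat_lit 1) (nat_lit 9) (nat_lit 6) L62225 (by decide +kernel)
theorem L62227 : W_4 (nat_lit 4) (nat_lit 0x100008000f000200000000000000000000000) (nat_lit 0x0) (nat_lit 0x380008000e0000000000000000000000) := T_4 (nat_lit 90) (nat_lit 91) (nat_lit 0) (nat_lit 9) (nat_lit 6) L62226 (by decide +kernel)
theorem L66105 : W_4 (nat_lit 2) (nat_lit 0x100008000f000200000000000000000000000) (nat_lit 0x0) (nat_lit 0x800c00000000000000000000000) := D_4 (nat_lit 94) (nat_lit 95) (nat_lit 107) (nat_lit 2) (nat_lit 6) (nat_lit 6) (nat_lit 2) (nat_lit 5) (nat_lit 6) (by decide +kernel)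
theorem L66112 : W_4 (nat_lit 8) (nat_lit 0x100008000e000200000000000000000000000) (nat_lit 0x0) (nat_lit 0xe78071800ce0000000000000000000000) := Q_4 (nat_lit 108) (C_4 L62227 (C_4 L66105 (C_4 L66111 N_4))) (by decide +kernel)
theorem L66113 : W_4 (nat_lit 2) (nat_lit 0x300010000c000e000200000000000000000000000) (nat_lit 0x0) (nat_lit 0x30010000000000000000000000000000) := D_4 (nat_lit 125) (nat_lit 124) (nat_lit 112) (nat_lit 2) (nat_lit 5) (nat_lit 7) (nat_lit 1) (nat_lit 10) (nat_lit 6) (by decide +kernel)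
theorem L66114 : W_4 (nat_lit 3) (nat_lit 0x3000100008000e000200000000000000000000000) (nat_lit 0x0) (nat_lit 0x400000000000070010000000000000000000000000000) := T_4 (nat_lit 126) (nat_lit 178) (nat_lit 4) (nat_lit 8) (nat_lit 10) L66113 (by decide +kernel)
theorem L66115 : W_4 (nat_lit 4) (nat_lit 0x2000100008000e000200000000000000000000000) (nat_lit 0x0) (nat_lit 0x600010000000070010000000000000000000000000000) := T_4 (nat_lit 160) (nat_lit 177) (nat_lit 5) (nat_lit 8) (nat_lit 6) L66114 (by decide +kernel)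
theorem L66116 : W_4 (nat_lit 5) (nat_lit 0x100008000e000200000000000000000000000) (nat_lit 0x0) (nat_lit 0x600030000000070010000400000000000000000000000) := T_4 (nat_lit 161) (nat_lit 94) (nat_lit 6) (nat_lit 8) (nat_lit 9) L66115 (by decide +kernel)
theorem L66117 : W_4 (nat_lit 2) (nat_lit 0x100008000e000600000000000000000000000) (nat_lit 0x0) (nat_lit 0x1800800000000000000000000000) := D_4 (nat_lit 108) (nat_lit 95) (nat_lit 107) (nat_lit 2) (nat_lit 6) (nat_lit 6) (nat_lit 2) (nat_lit 5) (nat_lit 6) (by decide +kernel)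
theorem L66118 : W_4 (nat_lit 3) (nat_lit 0x100008000e000200000000000000000000000) (nat_lit 0x0) (nat_lit 0x20000000000001800c00000000000000000000000) := T_4 (nat_lit 94) (nat_lit 161) (nat_lit 6) (nat_lit 8) (nat_lit 9) L66117 (by decide +kernel)
theorem L66119 : W_4 (nat_lit 2) (nat_lit 0x100008001e000200000000000000000000000) (nat_lit 0x0) (nat_lit 0x60020000000000000000000000000000) := D_4 (nat_lit 126) (nat_lit 125) (nat_lit 113) (nat_lit 1) (nat_lit 10) (nat_lit 6) (nat_lit 1) (nat_lit 11) (nat_lit 6) (by decide +kernel)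
theorem L66120 : W_4 (nat_lit 9) (nat_lit 0x100008000e000200000000000000000000000) (nat_lit 0x0) (nat_lit 0xe7c031c038e0000000000000000000000) := Q_4 (nat_lit 112) (C_4 L61747 (C_4 L66119 (C_4 L61428 N_4))) (by decide +kernel)
theorem L66121 : W_4 (nat_lit 10) (nat_lit 0x1000080006000200000000000000000000000) (nat_lit 0x0) (nat_lit 0x600030000000e7c079c03ce0000000000000000000000) := Q_4 (nat_lit 111) (C_4 L66112 (C_4 L66116 (C_4 L66118 (C_4 L66120 N_4)))) (by decide +kernel)
theorem L66515 : W_4 (nat_lit 2) (nat_lit 0x4000000010000f0007800240000000000000000000000) (nat_lit 0x0) (nat_lit 0x8000400000000000000002000000000000000000) := D_4 (nat_lit 142) (nat_lit 159) (nat_lit 73) (nat_lit 4) (nat_lit 6) (nat_lit 9) (nat_lit 7) (nat_lit 5) (nat_lit 4) (by decide +kernel)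
theorem L69835 : W_4 (nat_lit 2) (nat_lit 0x300010000c000780024003c000200000000000000) (nat_lit 0x0) (nat_lit 0x18000000000002000000000000000000) := D_4 (nat_lit 124) (nat_lit 123) (nat_lit 73) (nat_lit 1) (nat_lit 8) (nat_lit 6) (nat_lit 6) (nat_lit 5) (nat_lit 7) (by decide +kernel)
theorem L69836 : W_4 (nat_lit 3) (nat_lit 0x300010000c000780024003c000000000000000000) (nat_lit 0x0) (nat_lit 0x18000000000002000300000000000000) := T_4 (nat_lit 57) (nat_lit 56) (nat_lit 0) (nat_lit 9) (nat_lit 4) L69835 (by decide +kernel)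
theorem L69837 : W_4 (nat_lit 4) (nat_lit 0x300010000c0007800240038000000000000000000) (nat_lit 0x0) (nat_lit 0x18000000080006000300000000000000) := T_4 (nat_lit 74) (nat_lit 91) (nat_lit 1) (nat_lit 9) (nat_lit 4) L69836 (by decide +kernel)
theorem L69838 : W_4 (nat_lit 5) (nat_lit 0x300010000c0007800240030000000000000000000) (nat_lit 0x0) (nat_lit 0x1800000008000e000700000000000000) := T_4 (nat_lit 75) (nat_lit 58) (nat_lit 4) (nat_lit 8) (nat_lit 7) L69837 (by decide +kernel)
theorem L69839 : W_4 (nat_lit 6) (nat_lit 0x300010000c0007800240010000000000000000000) (nat_lit 0x0) (nat_lit 0x1800000008002e001700000000000000) := T_4 (nat_lit 77) (nat_lit 60) (nat_lit 6) (nat_lit 8) (nat_lit 7) L69838 (by decide +kernel)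
theorem L69840 : W_4 (nat_lit 7) (nat_lit 0x300010000c0007800200010000000000000000000) (nat_lit 0x0) (nat_lit 0x180000000e002e001700000000000000) := T_4 (nat_lit 90) (nat_lit 89) (nat_lit 0) (nat_lit 8) (nat_lit 6) L69839 (by decide +kernel)
theorem L69841 : W_4 (nat_lit 8) (nat_lit 0x300010000c0007800200000000000000000000000) (nat_lit 0x0) (nat_lit 0x180000000e003e001f00000000000000) := T_4 (nat_lit 76) (nat_lit 59) (nat_lit 5) (nat_lit 8) (nat_lit 3) L69840 (by decide +kernel)
theorem L76300 : W_4 (nat_lit 3) (nat_lit 0x1000080006000600000000000000000000000) (nat_lit 0x0) (nat_lit 0x1800900008000000000000000000) := T_4 (nat_lit 92) (nat_lit 75) (nat_lit 4) (nat_lit 8) (nat_lit 8) L88 (by decide +kernel)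
theorem L76301 : W_4 (nat_lit 2) (nat_lit 0x1000080016000fc0040000000000000000000) (nat_lit 0x0) (nat_lit 0x7000000000000000000) := D_4 (nat_lit 73) (nat_lit 74) (nat_lit 72) (nat_lit 0) (nat_lit 9) (nat_lit 5) (nat_lit 0) (nat_lit 8) (nat_lit 5) (by decide +kernel)
theorem L76302 : W_4 (nat_lit 3) (nat_lit 0x1000080016000f80040000000000000000000) (nat_lit 0x0) (nat_lit 0x60007000000000000000000) := T_4 (nat_lit 90) (nat_lit 89) (nat_lit 3) (nat_lit 4) (nat_lit 5) L76301 (by decide +kernel)
theorem L76303 : W_4 (nat_lit 4) (nat_lit 0x1000080016000f00040000000000000000000) (nat_lit 0x0) (nat_lit 0x80000e0007000000000000000000) := T_4 (nat_lit 91) (nat_lit 111) (nat_lit 3) (nat_lit 6) (nat_lit 5) L76302 (by decide +kernel)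
theorem L76304 : W_4 (nat_lit 5) (nat_lit 0x1000080006000f00040000000000000000000) (nat_lit 0x0) (nat_lit 0x380000e0007000000000000000000) := T_4 (nat_lit 112) (nat_lit 113) (nat_lit 3) (nat_lit 7) (nat_lit 5) L76303 (by decide +kernel)
theorem L76305 : W_4 (nat_lit 6) (nat_lit 0x1000080006000f00000000000000000000000) (nat_lit 0x0) (nat_lit 0x380000e00c7000000000000000000) := T_4 (nat_lit 78) (nat_lit 79) (nat_lit 2) (nat_lit 7) (nat_lit 5) L76304 (by decide +kernel)
theorem L76306 : W_4 (nat_lit 7) (nat_lit 0x1000080006000700000000000000000000000) (nat_lit 0x0) (nat_lit 0x380018e00c7000000000000000000) := T_4 (nat_lit 95) (nat_lit 96) (nat_lit 1) (nat_lit 11) (nat_lit 5) L76305 (by decide +kernel)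
theorem L76307 : W_4 (nat_lit 8) (nat_lit 0x1000080006000600000000000000000000000) (nat_lit 0x0) (nat_lit 0x380019e00cf000000000000000000) := T_4 (nat_lit 92) (nat_lit 75) (nat_lit 4) (nat_lit 8) (nat_lit 8) L76306 (by decide +kernel)
theorem L76308 : W_4 (nat_lit 2) (nat_lit 0x100008000680060001a000800080000000000) (nat_lit 0x0) (nat_lit 0x8000000000000000040004000000) := D_4 (nat_lit 42) (nat_lit 111) (nat_lit 26) (nat_lit 7) (nat_lit 8) (nat_lit 2) (nat_lit 6) (nat_lit 8) (nat_lit 5) (by decide +kernel)
theorem L76309 : W_4 (nat_lit 3) (nat_lit 0x100008000680060001a000800000000000000) (nat_lit 0x0) (nat_lit 0x80000000000010000c0004000000) := T_4 (nat_lit 43) (nat_lit 60) (nat_lit 6) (nat_lit 8) (nat_lit 6) L76308 (by decide +kernel)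
theorem L76310 : W_4 (nat_lit 4) (nat_lit 0x100008000680060001a000000000000000000) (nat_lit 0x0) (nat_lit 0x400080000000000018000c0004000000) := T_4 (nat_lit 59) (nat_lit 126) (nat_lit 5) (nat_lit 8) (nat_lit 3) L76309 (by decide +kernel)
theorem L76311 : W_4 (nat_lit 5) (nat_lit 0x1000080006800600018000000000000000000) (nat_lit 0x0) (nat_lit 0x400080000000060018000c0004000000) := T_4 (nat_lit 73) (nat_lit 74) (nat_lit 3) (nat_lit 5) (nat_lit 4) L76310 (by decide +kernel)
theorem L76312 : W_4 (nat_lit 6) (nat_lit 0x1000080006800600008000000000000000000) (nat_lit 0x0) (nat_lit 0x40008000000016001c000c0004000000) := T_4 (nat_lit 76) (nat_lit 58) (nat_lit 4) (nat_lit 8) (nat_lit 7) L76311 (by decide +kernel)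
theorem L76313 : W_4 (nat_lit 7) (nat_lit 0x1000080006800600000000000000000000000) (nat_lit 0x0) (nat_lit 0x4000800010001e001c000c0004000000) := T_4 (nat_lit 75) (nat_lit 92) (nat_lit 4) (nat_lit 8) (nat_lit 8) L76312 (by decide +kernel)
theorem L76314 : W_4 (nat_lit 8) (nat_lit 0x1000080006000600000000000000000000000) (nat_lit 0x0) (nat_lit 0x4000980010001e001c000c0004000000) := T_4 (nat_lit 107) (nat_lit 108) (nat_lit 2) (nat_lit 5) (nat_lit 6) L76313 (by decide +kernel)
theorem L76315 : W_4 (nat_lit 9) (nat_lit 0x1000080006000200000000000000000000000) (nat_lit 0x0) (nat_lit 0x40039801de00df001c000c0004000000) := Q_4 (nat_lit 94) (C_4 L66123 (C_4 L76300 (C_4 L76307 (C_4 L76314 N_4)))) (by decide +kernel)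
theorem L76316 : W_4 (nat_lit 11) (nat_lit 0x1000080004000200000000000000000000000) (nat_lit 0x0) (nat_lit 0x600030000000e7c07bc03de00df001c000c0004000000) := Q_4 (nat_lit 109) (C_4 L66121 (C_4 L97 (C_4 L76315 N_4))) (by decide +kernel)
theorem L76323 : W_4 (nat_lit 3) (nat_lit 0x200020001000080004000600000000000000000000000) (nat_lit 0x0) (nat_lit 0x4000400000000000040002000100000000000000000000000) := T_4 (nat_lit 109) (nat_lit 92) (nat_lit 4) (nat_lit 8) (nat_lit 9) L50644 (by decide +kernel)
theorem L76324 : W_4 (nat_lit 4) (nat_lit 0x20001000080004000600000000000000000000000) (nat_lit 0x0) (nat_lit 0x4000600010000000040002000100000000000000000000000) := T_4 (nat_lit 177) (nat_lit 160) (nat_lit 5) (nat_lit 8) (nat_lit 6) L76323 (by decide +kernel)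
theorem L76325 : W_4 (nat_lit 5) (nat_lit 0x1000080004000600000000000000000000000) (nat_lit 0x0) (nat_lit 0x400060003000000004000a000100000000000000000000000) := T_4 (nat_lit 161) (nat_lit 111) (nat_lit 6) (nat_lit 8) (nat_lit 9) L76324 (by decide +kernel)
theorem L76326 : W_4 (nat_lit 6) (nat_lit 0x1000080004000200000000000000000000000) (nat_lit 0x0) (nat_lit 0x400060003000000004000a000500020000000000000000000) := T_4 (nat_lit 94) (nat_lit 77) (nat_lit 6) (nat_lit 8) (nat_lit 8) L76325 (by decide +kernel)
theorem L76327 : W_4 (nat_lit 12) (nat_lit 0x1000080004000000000000000000000000000) (nat_lit 0x0) (nat_lit 0x40006001b000e000e7c0fbc03fe03ff007c002e0004000000) := Q_4 (nat_lit 93) (C_4 L154 (C_4 L75066 (C_4 L76316 (C_4 L91 (C_4 L76322 (C_4 L76326 N_4)))))) (by decide +kernel)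
theorem L76924 : W_4 (nat_lit 2) (nat_lit 0x1000180007000200000000000000000000000) (nat_lit 0x0) (nat_lit 0x640000000000000000000000000000000) := D_4 (nat_lit 129) (nat_lit 130) (nat_lit 126) (nat_lit 0) (nat_lit 11) (nat_lit 7) (nat_lit 0) (nat_lit 10) (nat_lit 7) (by decide +kernel)
theorem L103388 : W_4 (nat_lit 2) (nat_lit 0x300010000c0004000200030000800000000000000) (nat_lit 0x0) (nat_lit 0x8000400020000000000) := D_4 (nat_lit 58) (nat_lit 75) (nat_lit 41) (nat_lit 4) (nat_lit 8) (nat_lit 7) (nat_lit 4) (nat_lit 8) (nat_lit 6) (by decide +kernel)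
theorem L105035 : W_4 (nat_lit 2) (nat_lit 0x30001000380006000000000000000000000000000) (nat_lit 0x0) (nat_lit 0x40001800000000000000000000000000) := D_4 (nat_lit 108) (nat_lit 126) (nat_lit 107) (nat_lit 0) (nat_lit 10) (nat_lit 7) (nat_lit 3) (nat_lit 5) (nat_lit 6) (by decide +kernel)
theorem L105036 : W_4 (nat_lit 3) (nat_lit 0x30001000280006000000000000000000000000000) (nat_lit 0x0) (nat_lit 0x540001800000000000000000000000000) := T_4 (nat_lit 128) (nat_lit 130) (nat_lit 0) (nat_lit 11) (nat_lit 7) L105035 (by decide +kernel)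
theorem L105902 : W_4 (nat_lit 2) (nat_lit 0x300012001f0006000000000000000000000000000) (nat_lit 0x0) (nat_lit 0x600001000000000000000000000000000) := D_4 (nat_lit 129) (nat_lit 130) (nat_lit 108) (nat_lit 0) (nat_lit 11) (nat_lit 7) (nat_lit 0) (nat_lit 10) (nat_lit 7) (by decide +kernel)
theorem L105903 : W_4 (nat_lit 3) (nat_lit 0x300012000f0006000000000000000000000000000) (nat_lit 0x0) (nat_lit 0x400700001000000000000000000000000000) := T_4 (nat_lit 128) (nat_lit 142) (nat_lit 1) (nat_lit 9) (nat_lit 7) L105902 (by decide +kernel)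
theorem L105904 : W_4 (nat_lit 4) (nat_lit 0x300010000f0006000000000000000000000000000) (nat_lit 0x0) (nat_lit 0x700700001000000000000000000000000000) := T_4 (nat_lit 141) (nat_lit 140) (nat_lit 1) (nat_lit 8) (nat_lit 7) L105903 (by decide +kernel)
theorem L105905 : W_4 (nat_lit 5) (nat_lit 0x300010000e0006000000000000000000000000000) (nat_lit 0x0) (nat_lit 0x700718001000000000000000000000000000) := T_4 (nat_lit 124) (nat_lit 123) (nat_lit 2) (nat_lit 4) (nat_lit 7) L105904 (by decide +kernel)
theorem L105907 : W_4 (nat_lit 2) (nat_lit 0x300012000f0007800000000000000000000000000) (nat_lit 0x0) (nat_lit 0x80004000000000000000080000000000000000000000) := D_4 (nat_lit 158) (nat_lit 175) (nat_lit 91) (nat_lit 6) (nat_lit 5) (nat_lit 10) (nat_lit 6) (nat_lit 5) (nat_lit 9) (by decide +kernel)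
theorem L105908 : W_4 (nat_lit 3) (nat_lit 0x300012000f0006800000000000000000000000000) (nat_lit 0x0) (nat_lit 0x80004000000100001000080000000000000000000000) := T_4 (nat_lit 108) (nat_lit 128) (nat_lit 3) (nat_lit 5) (nat_lit 6) L105907 (by decide +kernel)
theorem L105909 : W_4 (nat_lit 4) (nat_lit 0x300010000f0006800000000000000000000000000) (nat_lit 0x0) (nat_lit 0x80004000300100001000080000000000000000000000) := T_4 (nat_lit 141) (nat_lit 140) (nat_lit 1) (nat_lit 8) (nat_lit 7) L105908 (by decide +kernel)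
theorem L105910 : W_4 (nat_lit 5) (nat_lit 0x300010000f0006000000000000000000000000000) (nat_lit 0x0) (nat_lit 0x80004000300100001c00080000000000000000000000) := T_4 (nat_lit 107) (nat_lit 106) (nat_lit 0) (nat_lit 8) (nat_lit 7) L105909 (by decide +kernel)
theorem L105913 : W_4 (nat_lit 2) (nat_lit 0x380010000e0007800240038000100000000000000) (nat_lit 0x0) (nat_lit 0x80004000200000000000000) := D_4 (nat_lit 74) (nat_lit 91) (nat_lit 57) (nat_lit 1) (nat_lit 9) (nat_lit 4) (nat_lit 0) (nat_lit 9) (nat_lit 4) (by decide +kernel)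
theorem L105914 : W_4 (nat_lit 3) (nat_lit 0x380010000e0007800240030000100000000000000) (nat_lit 0x0) (nat_lit 0x8000c000600000000000000) := T_4 (nat_lit 75) (nat_lit 58) (nat_lit 4) (nat_lit 8) (nat_lit 7) L105913 (by decide +kernel)
theorem L105915 : W_4 (nat_lit 4) (nat_lit 0x380010000e0007800240010000100000000000000) (nat_lit 0x0) (nat_lit 0x8002c001600000000000000) := T_4 (nat_lit 77) (nat_lit 60) (nat_lit 6) (nat_lit 8) (nat_lit 7) L105914 (by decide +kernel)
theorem L105916 : W_4 (nat_lit 5) (nat_lit 0x300010000e0007800240010000100000000000000) (nat_lit 0x0) (nat_lit 0x800040000000000008002c001600000000000000) := T_4 (nat_lit 159) (nat_lit 142) (nat_lit 4) (nat_lit 6) (nat_lit 9) L105915 (by decide +kernel)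
theorem L105917 : W_4 (nat_lit 6) (nat_lit 0x300010000e0007800240000000100000000000000) (nat_lit 0x0) (nat_lit 0x800040000000000008003c001e00000000000000) := T_4 (nat_lit 76) (nat_lit 59) (nat_lit 5) (nat_lit 8) (nat_lit 3) L105916 (by decide +kernel)
theorem L105918 : W_4 (nat_lit 7) (nat_lit 0x300010000e0007800240000000000000000000000) (nat_lit 0x0) (nat_lit 0x800040000000000008003e001f00000000000000) := T_4 (nat_lit 56) (nat_lit 73) (nat_lit 7) (nat_lit 5) (nat_lit 3) L105917 (by decide +kernel)
theorem L105919 : W_4 (nat_lit 8) (nat_lit 0x300010000e0007800040000000000000000000000) (nat_lit 0x0) (nat_lit 0x800040000000000068003e001f00000000000000) := T_4 (nat_lit 93) (nat_lit 94) (nat_lit 2) (nat_lit 5) (nat_lit 6) L105918 (by decide +kernel)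
theorem L105920 : W_4 (nat_lit 9) (nat_lit 0x300010000e0007800000000000000000000000000) (nat_lit 0x0) (nat_lit 0x80004000000000006e003e001f00000000000000) := T_4 (nat_lit 90) (nat_lit 89) (nat_lit 0) (nat_lit 8) (nat_lit 6) L105919 (by decide +kernel)
theorem L105951 : W_4 (nat_lit 2) (nat_lit 0x300010000f0007800040000000000000000000000) (nat_lit 0x0) (nat_lit 0x8000400000000000000002000000000000000000) := D_4 (nat_lit 142) (nat_lit 159) (nat_lit 73) (nat_lit 4) (nat_lit 6) (nat_lit 9) (nat_lit 7) (nat_lit 5) (nat_lit 4) (by decide +kernel)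
theorem L105952 : W_4 (nat_lit 3) (nat_lit 0x300010000f0007800000000000000000000000000) (nat_lit 0x0) (nat_lit 0x8000400000000000060002000000000000000000) := T_4 (nat_lit 90) (nat_lit 89) (nat_lit 0) (nat_lit 8) (nat_lit 6) L105951 (by decide +kernel)
theorem L105953 : W_4 (nat_lit 4) (nat_lit 0x300010000f0006800000000000000000000000000) (nat_lit 0x0) (nat_lit 0x8000400100001000060002000000000000000000) := T_4 (nat_lit 108) (nat_lit 128) (nat_lit 3) (nat_lit 5) (nat_lit 6) L105952 (by decide +kernel)
theorem L105954 : W_4 (nat_lit 5) (nat_lit 0x300010000f0006000000000000000000000000000) (nat_lit 0x0) (nat_lit 0x8000400100001c00060002000000000000000000) := T_4 (nat_lit 107) (nat_lit 106) (nat_lit 0) (nat_lit 8) (nat_lit 7) L105953 (by decide +kernel)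
theorem L105955 : W_4 (nat_lit 6) (nat_lit 0x300010000e0006000000000000000000000000000) (nat_lit 0x0) (nat_lit 0x8000400118001c00060002000000000000000000) := T_4 (nat_lit 124) (nat_lit 123) (nat_lit 2) (nat_lit 4) (nat_lit 7) L105954 (by decide +kernel)
theorem L106659 : W_4 (nat_lit 9) (nat_lit 0x300010000c0007800000000000000000000000000) (nat_lit 0x0) (nat_lit 0x180000006e003e001f00000000000000) := T_4 (nat_lit 93) (nat_lit 94) (nat_lit 2) (nat_lit 5) (nat_lit 6) L69841 (by decide +kernel)
theorem L107997 : W_4 (nat_lit 2) (nat_lit 0x3400b2000d0007800040000000000000000000000) (nat_lit 0x0) (nat_lit 0x40002000100000000000000000000000000000000000) := D_4 (nat_lit 157) (nat_lit 174) (nat_lit 140) (nat_lit 5) (nat_lit 5) (nat_lit 6) (nat_lit 5) (nat_lit 5) (nat_lit 5) (by decide +kernel)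
theorem L107998 : W_4 (nat_lit 3) (nat_lit 0x3400b0000d0007800040000000000000000000000) (nat_lit 0x0) (nat_lit 0x40002000300000000000080000000000000000000000) := T_4 (nat_lit 141) (nat_lit 91) (nat_lit 6) (nat_lit 5) (nat_lit 9) L107997 (by decide +kernel)
theorem L107999 : W_4 (nat_lit 4) (nat_lit 0x3400b0000c0007800040000000000000000000000) (nat_lit 0x0) (nat_lit 0x40002000300018000000080000000000000000000000) := T_4 (nat_lit 124) (nat_lit 123) (nat_lit 1) (nat_lit 8) (nat_lit 6) L107998 (by decide +kernel)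
theorem L108000 : W_4 (nat_lit 5) (nat_lit 0x3400b0000c0007800000000000000000000000000) (nat_lit 0x0) (nat_lit 0x400020003000180000000e0000000000000000000000) := T_4 (nat_lit 90) (nat_lit 89) (nat_lit 0) (nat_lit 8) (nat_lit 6) L107999 (by decide +kernel)
theorem L108001 : W_4 (nat_lit 6) (nat_lit 0x3000b0000c0007800000000000000000000000000) (nat_lit 0x0) (nat_lit 0x4000e0003000180000000e0000000000000000000000) := T_4 (nat_lit 158) (nat_lit 159) (nat_lit 2) (nat_lit 5) (nat_lit 9) L108000 (by decide +kernel)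
theorem L109807 : W_4 (nat_lit 2) (nat_lit 0x300010001c0006000200030000000000000000000) (nat_lit 0x0) (nat_lit 0x200001800000000000000000000000000) := D_4 (nat_lit 108) (nat_lit 107) (nat_lit 129) (nat_lit 3) (nat_lit 5) (nat_lit 6) (nat_lit 0) (nat_lit 10) (nat_lit 7) (by decide +kernel)
theorem L109808 : W_4 (nat_lit 3) (nat_lit 0x300010000c0006000200030000000000000000000) (nat_lit 0x0) (nat_lit 0x2000300001800000000000000000000000000) := T_4 (nat_lit 128) (nat_lit 145) (nat_lit 7) (nat_lit 8) (nat_lit 4) L109807 (by decide +kernel)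
theorem L109809 : W_4 (nat_lit 4) (nat_lit 0x30001000080006000200030000000000000000000) (nat_lit 0x0) (nat_lit 0x2000340001800000000000800000000000000) := T_4 (nat_lit 126) (nat_lit 59) (nat_lit 5) (nat_lit 8) (nat_lit 3) L109808 (by decide +kernel)
theorem L117054 : W_4 (nat_lit 3) (nat_lit 0x300010000c0004000200030000000000000000000) (nat_lit 0x0) (nat_lit 0x2000000008000c00020000000000) := T_4 (nat_lit 59) (nat_lit 109) (nat_lit 5) (nat_lit 8) (nat_lit 3) L103388 (by decide +kernel)
theorem L117055 : W_4 (nat_lit 4) (nat_lit 0x300010000c0004000200020000000000000000000) (nat_lit 0x0) (nat_lit 0x2000000018001c00020000000000) := T_4 (nat_lit 76) (nat_lit 60) (nat_lit 6) (nat_lit 8) (nat_lit 7) L117054 (by decide +kernel)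
theorem L117056 : W_4 (nat_lit 5) (nat_lit 0x300010000c0004000200000000000000000000000) (nat_lit 0x0) (nat_lit 0x2000400038001c00020000000000) := T_4 (nat_lit 77) (nat_lit 94) (nat_lit 6) (nat_lit 8) (nat_lit 8) L117055 (by decide +kernel)
theorem L130752 : W_4 (nat_lit 2) (nat_lit 0x10001c0006000200010000000000000000000) (nat_lit 0x0) (nat_lit 0x400020001000000000000000) := D_4 (nat_lit 77) (nat_lit 94) (nat_lit 60) (nat_lit 6) (nat_lit 8) (nat_lit 8) (nat_lit 6) (nat_lit 8) (nat_lit 7) (by decide +kernel)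
theorem L130753 : W_4 (nat_lit 3) (nat_lit 0x10001c0006000200000000000000000000000) (nat_lit 0x0) (nat_lit 0x400030001800000000000000) := T_4 (nat_lit 76) (nat_lit 59) (nat_lit 5) (nat_lit 8) (nat_lit 3) L130752 (by decide +kernel)
theorem L132121 : W_4 (nat_lit 2) (nat_lit 0x4003c0011000e0007000000000000000000000000000) (nat_lit 0x0) (nat_lit 0x20002000080000000000000000000000000000000000) := D_4 (nat_lit 157) (nat_lit 173) (nat_lit 139) (nat_lit 1) (nat_lit 7) (nat_lit 9) (nat_lit 0) (nat_lit 7) (nat_lit 9) (by decide +kernel)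
theorem L132122 : W_4 (nat_lit 3) (nat_lit 0x4003c0010000e0007000000000000000000000000000) (nat_lit 0x0) (nat_lit 0x20002000380000000000000000000000000000000000) := T_4 (nat_lit 140) (nat_lit 141) (nat_lit 0) (nat_lit 8) (nat_lit 9) L132121 (by decide +kernel)
theorem L132123 : W_4 (nat_lit 4) (nat_lit 0x3c0010000e0007000000000000000000000000000) (nat_lit 0x0) (nat_lit 0xe0002000380000000000000000000000000000000000) := T_4 (nat_lit 174) (nat_lit 175) (nat_lit 1) (nat_lit 8) (nat_lit 9) L132122 (by decide +kernel)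
theorem L132124 : W_4 (nat_lit 5) (nat_lit 0x380010000e0007000000000000000000000000000) (nat_lit 0x0) (nat_lit 0xe0006002380000000000000000000000000000000000) := T_4 (nat_lit 158) (nat_lit 145) (nat_lit 2) (nat_lit 5) (nat_lit 9) L132123 (by decide +kernel)
theorem L132125 : W_4 (nat_lit 6) (nat_lit 0x280010000e0007000000000000000000000000000) (nat_lit 0x0) (nat_lit 0x2e0016002380000000000000000000000000000000000) := T_4 (nat_lit 160) (nat_lit 177) (nat_lit 5) (nat_lit 8) (nat_lit 6) L132124 (by decide +kernel)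
theorem L132126 : W_4 (nat_lit 7) (nat_lit 0x80010000e0007000000000000000000000000000) (nat_lit 0x0) (nat_lit 0x6e0036002380000000000000000000000000000000000) := T_4 (nat_lit 161) (nat_lit 178) (nat_lit 4) (nat_lit 8) (nat_lit 10) L132125 (by decide +kernel)
theorem L132194 : W_4 (nat_lit 2) (nat_lit 0x1000000016000e0007001680002000000000000000000) (nat_lit 0x0) (nat_lit 0x4000300000000000000) := D_4 (nat_lit 74) (nat_lit 57) (nat_lit 56) (nat_lit 7) (nat_lit 6) (nat_lit 3) (nat_lit 4) (nat_lit 6) (nat_lit 7) (by decide +kernel)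
theorem L132195 : W_4 (nat_lit 3) (nat_lit 0x1000000016000e0007001680000000000000000000000) (nat_lit 0x0) (nat_lit 0x40006000300000000000000) := T_4 (nat_lit 73) (nat_lit 90) (nat_lit 4) (nat_lit 6) (nat_lit 8) L132194 (by decide +kernel)
theorem L132196 : W_4 (nat_lit 4) (nat_lit 0x1000000016000e0007001600000000000000000000000) (nat_lit 0x0) (nat_lit 0x40000000000000000c0006000300000000000000) := T_4 (nat_lit 91) (nat_lit 158) (nat_lit 5) (nat_lit 6) (nat_lit 5) L132195 (by decide +kernel)
theorem L132197 : W_4 (nat_lit 5) (nat_lit 0x1000000016000e0007000600000000000000000000000) (nat_lit 0x0) (nat_lit 0x40000000000000018c0006000300000000000000) := T_4 (nat_lit 96) (nat_lit 95) (nat_lit 1) (nat_lit 11) (nat_lit 5) L132196 (by decide +kernel)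
theorem L132198 : W_4 (nat_lit 6) (nat_lit 0x1000000016000e0006000600000000000000000000000) (nat_lit 0x0) (nat_lit 0x40000000000018018c0006000300000000000000) := T_4 (nat_lit 108) (nat_lit 107) (nat_lit 2) (nat_lit 5) (nat_lit 6) L132197 (by decide +kernel)
theorem L132199 : W_4 (nat_lit 7) (nat_lit 0x1000000016000e0006000200000000000000000000000) (nat_lit 0x0) (nat_lit 0x4000000000001801cc0026000300000000000000) := T_4 (nat_lit 94) (nat_lit 77) (nat_lit 6) (nat_lit 8) (nat_lit 8) L132198 (by decide +kernel)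
theorem L132200 : W_4 (nat_lit 8) (nat_lit 0x1000000014000e0006000200000000000000000000000) (nat_lit 0x0) (nat_lit 0x4000200100001801cc0026000300000000000000) := T_4 (nat_lit 141) (nat_lit 128) (nat_lit 1) (nat_lit 9) (nat_lit 7) L132199 (by decide +kernel)
theorem L132201 : W_4 (nat_lit 9) (nat_lit 0x14000e0006000200000000000000000000000) (nat_lit 0x0) (nat_lit 0x10000c000200100001801cc0026000300000000000000) := T_4 (nat_lit 176) (nat_lit 159) (nat_lit 6) (nat_lit 6) (nat_lit 10) L132200 (by decide +kernel)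
theorem L132859 : W_4 (nat_lit 2) (nat_lit 0x10000e0007000000000000000000000000000) (nat_lit 0x0) (nat_lit 0x2000018000000000000000000000000000000) := D_4 (nat_lit 124) (nat_lit 145) (nat_lit 123) (nat_lit 3) (nat_lit 5) (nat_lit 7) (nat_lit 2) (nat_lit 4) (nat_lit 7) (by decide +kernel)
theorem L133171 : W_4 (nat_lit 2) (nat_lit 0x10000c0006000200010000000000000000000) (nat_lit 0x0) (nat_lit 0x400020001000000000000000) := D_4 (nat_lit 77) (nat_lit 94) (nat_lit 60) (nat_lit 6) (nat_lit 8) (nat_lit 8) (nat_lit 6) (nat_lit 8) (nat_lit 7) (by decide +kernel)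
theorem L133172 : W_4 (nat_lit 3) (nat_lit 0x10000c0006000200000000000000000000000) (nat_lit 0x0) (nat_lit 0x400030001800000000000000) := T_4 (nat_lit 76) (nat_lit 59) (nat_lit 5) (nat_lit 8) (nat_lit 3) L133171 (by decide +kernel)
theorem L133415 : W_4 (nat_lit 2) (nat_lit 0x40000000b0000d000780024003c000000000000000000) (nat_lit 0x0) (nat_lit 0x2000300000000000000) := D_4 (nat_lit 57) (nat_lit 56) (nat_lit 73) (nat_lit 0) (nat_lit 9) (nat_lit 4) (nat_lit 6) (nat_lit 5) (nat_lit 7) (by decide +kernel)
theorem L133416 : W_4 (nat_lit 3) (nat_lit 0x40000000b0000d0007800240038000000000000000000) (nat_lit 0x0) (nat_lit 0x80006000300000000000000) := T_4 (nat_lit 74) (nat_lit 91) (nat_lit 1) (nat_lit 9) (nat_lit 4) L133415 (by decide +kernel)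
theorem L133417 : W_4 (nat_lit 4) (nat_lit 0x40000000b0000d0007800240018000000000000000000) (nat_lit 0x0) (nat_lit 0x80026001300000000000000) := T_4 (nat_lit 77) (nat_lit 60) (nat_lit 6) (nat_lit 8) (nat_lit 7) L133416 (by decide +kernel)
theorem L133418 : W_4 (nat_lit 5) (nat_lit 0x40000000b0000d0007800240010000000000000000000) (nat_lit 0x0) (nat_lit 0x8002e001700000000000000) := T_4 (nat_lit 75) (nat_lit 58) (nat_lit 4) (nat_lit 8) (nat_lit 7) L133417 (by decide +kernel)
theorem L133419 : W_4 (nat_lit 6) (nat_lit 0x40000000b0000d0007800240000000000000000000000) (nat_lit 0x0) (nat_lit 0x8003e001f00000000000000) := T_4 (nat_lit 76) (nat_lit 59) (nat_lit 5) (nat_lit 8) (nat_lit 3) L133418 (by decide +kernel)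
theorem L133420 : W_4 (nat_lit 7) (nat_lit 0x40000000b0000d0007800040000000000000000000000) (nat_lit 0x0) (nat_lit 0x68003e001f00000000000000) := T_4 (nat_lit 93) (nat_lit 94) (nat_lit 2) (nat_lit 5) (nat_lit 6) L133419 (by decide +kernel)
theorem L133421 : W_4 (nat_lit 8) (nat_lit 0x40000000b0000d0007800000000000000000000000000) (nat_lit 0x0) (nat_lit 0x6e003e001f00000000000000) := T_4 (nat_lit 90) (nat_lit 89) (nat_lit 0) (nat_lit 8) (nat_lit 6) L133420 (by decide +kernel)
theorem L133422 : W_4 (nat_lit 9) (nat_lit 0x40000000b0000c0007800000000000000000000000000) (nat_lit 0x0) (nat_lit 0x180000006e003e001f00000000000000) := T_4 (nat_lit 124) (nat_lit 123) (nat_lit 1) (nat_lit 8) (nat_lit 6) L133421 (by decide +kernel)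
theorem L151540 : W_4 (nat_lit 2) (nat_lit 0x50003c0014000800060000000000000000000) (nat_lit 0x0) (nat_lit 0x1000080004000000000000000) := D_4 (nat_lit 79) (nat_lit 96) (nat_lit 62) (nat_lit 6) (nat_lit 10) (nat_lit 8) (nat_lit 6) (nat_lit 10) (nat_lit 7) (by decide +kernel)
theorem L151541 : W_4 (nat_lit 3) (nat_lit 0x50003c0014000800020000000000000000000) (nat_lit 0x0) (nat_lit 0x10000c0005000000000000000) := T_4 (nat_lit 78) (nat_lit 60) (nat_lit 4) (nat_lit 10) (nat_lit 7) L151540 (by decide +kernel)
theorem L170788 : W_4 (nat_lit 3) (nat_lit 0x4000000010000f0007800200000000000000000000000) (nat_lit 0x0) (nat_lit 0x8000400000000000060002000000000000000000) := T_4 (nat_lit 90) (nat_lit 89) (nat_lit 0) (nat_lit 8) (nat_lit 6) L66515 (by decide +kernel)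
theorem L170789 : W_4 (nat_lit 4) (nat_lit 0x4000000010000f0007800000000000000000000000000) (nat_lit 0x0) (nat_lit 0x8000400000000000660002000000000000000000) := T_4 (nat_lit 93) (nat_lit 94) (nat_lit 2) (nat_lit 5) (nat_lit 6) L170788 (by decide +kernel)
theorem L170849 : W_4 (nat_lit 2) (nat_lit 0x4000000010000d000780024003c000000000000000000) (nat_lit 0x0) (nat_lit 0x2000300000000000000) := D_4 (nat_lit 57) (nat_lit 56) (nat_lit 73) (nat_lit 0) (nat_lit 9) (nat_lit 4) (nat_lit 6) (nat_lit 5) (nat_lit 7) (by decide +kernel)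
theorem L170850 : W_4 (nat_lit 3) (nat_lit 0x4000000010000d0007800240038000000000000000000) (nat_lit 0x0) (nat_lit 0x80006000300000000000000) := T_4 (nat_lit 74) (nat_lit 91) (nat_lit 1) (nat_lit 9) (nat_lit 4) L170849 (by decide +kernel)
theorem L170851 : W_4 (nat_lit 4) (nat_lit 0x4000000010000d0007800240018000000000000000000) (nat_lit 0x0) (nat_lit 0x80026001300000000000000) := T_4 (nat_lit 77) (nat_lit 60) (nat_lit 6) (nat_lit 8) (nat_lit 7) L170850 (by decide +kernel)
theorem L170852 : W_4 (nat_lit 5) (nat_lit 0x4000000010000d0007800240010000000000000000000) (nat_lit 0x0) (nat_lit 0x8002e001700000000000000) := T_4 (nat_lit 75) (nat_lit 58) (nat_lit 4) (nat_lit 8) (nat_lit 7) L170851 (by decide +kernel)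
theorem L170853 : W_4 (nat_lit 6) (nat_lit 0x4000000010000d0007800240000000000000000000000) (nat_lit 0x0) (nat_lit 0x8003e001f00000000000000) := T_4 (nat_lit 76) (nat_lit 59) (nat_lit 5) (nat_lit 8) (nat_lit 3) L170852 (by decide +kernel)
theorem L170854 : W_4 (nat_lit 7) (nat_lit 0x4000000010000d0007800040000000000000000000000) (nat_lit 0x0) (nat_lit 0x68003e001f00000000000000) := T_4 (nat_lit 93) (nat_lit 94) (nat_lit 2) (nat_lit 5) (nat_lit 6) L170853 (by decide +kernel)
theorem L170855 : W_4 (nat_lit 8) (nat_lit 0x4000000010000d0007800000000000000000000000000) (nat_lit 0x0) (nat_lit 0x6e003e001f00000000000000) := T_4 (nat_lit 90) (nat_lit 89) (nat_lit 0) (nat_lit 8) (nat_lit 6) L170854 (by decide +kernel)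
theorem L170856 : W_4 (nat_lit 9) (nat_lit 0x4000000010000c0007800000000000000000000000000) (nat_lit 0x0) (nat_lit 0x180000006e003e001f00000000000000) := T_4 (nat_lit 124) (nat_lit 123) (nat_lit 1) (nat_lit 8) (nat_lit 6) L170855 (by decide +kernel)
theorem L170884 : W_4 (nat_lit 2) (nat_lit 0x12000f0006800000000000000000000000000) (nat_lit 0x0) (nat_lit 0x400100001000000000000000000000000000) := D_4 (nat_lit 128) (nat_lit 142) (nat_lit 108) (nat_lit 1) (nat_lit 9) (nat_lit 7) (nat_lit 3) (nat_lit 5) (nat_lit 6) (by decide +kernel)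
theorem L170885 : W_4 (nat_lit 3) (nat_lit 0x12000f0006000000000000000000000000000) (nat_lit 0x0) (nat_lit 0x400100001c00000000000000000000000000) := T_4 (nat_lit 107) (nat_lit 106) (nat_lit 0) (nat_lit 8) (nat_lit 7) L170884 (by decide +kernel)
theorem L170886 : W_4 (nat_lit 4) (nat_lit 0x10000f0006000000000000000000000000000) (nat_lit 0x0) (nat_lit 0x700100001c00000000000000000000000000) := T_4 (nat_lit 141) (nat_lit 140) (nat_lit 1) (nat_lit 8) (nat_lit 7) L170885 (by decide +kernel)
theorem L170969 : W_4 (nat_lit 2) (nat_lit 0x4000080010000e0007800240038000100000000000000) (nat_lit 0x0) (nat_lit 0x80004000200000000000000) := D_4 (nat_lit 74) (nat_lit 91) (nat_lit 57) (nat_lit 1) (nat_lit 9) (nat_lit 4) (nat_lit 0) (nat_lit 9) (nat_lit 4) (by decide +kernel)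
theorem L170970 : W_4 (nat_lit 3) (nat_lit 0x4000080010000e0007800240030000100000000000000) (nat_lit 0x0) (nat_lit 0x8000c000600000000000000) := T_4 (nat_lit 75) (nat_lit 58) (nat_lit 4) (nat_lit 8) (nat_lit 7) L170969 (by decide +kernel)
theorem L170971 : W_4 (nat_lit 4) (nat_lit 0x4000080010000e0007800240010000100000000000000) (nat_lit 0x0) (nat_lit 0x8002c001600000000000000) := T_4 (nat_lit 77) (nat_lit 60) (nat_lit 6) (nat_lit 8) (nat_lit 7) L170970 (by decide +kernel)
theorem L170972 : W_4 (nat_lit 5) (nat_lit 0x4000080010000e0007800240010000000000000000000) (nat_lit 0x0) (nat_lit 0x8002e001700000000000000) := T_4 (nat_lit 56) (nat_lit 73) (nat_lit 7) (nat_lit 5) (nat_lit 3) L170971 (by decide +kernel)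
theorem L170973 : W_4 (nat_lit 6) (nat_lit 0x4000080010000e0007800240000000000000000000000) (nat_lit 0x0) (nat_lit 0x8003e001f00000000000000) := T_4 (nat_lit 76) (nat_lit 59) (nat_lit 5) (nat_lit 8) (nat_lit 3) L170972 (by decide +kernel)
theorem L170974 : W_4 (nat_lit 7) (nat_lit 0x4000080010000e0007800200000000000000000000000) (nat_lit 0x0) (nat_lit 0xe003e001f00000000000000) := T_4 (nat_lit 90) (nat_lit 89) (nat_lit 0) (nat_lit 8) (nat_lit 6) L170973 (by decide +kernel)
theorem L170975 : W_4 (nat_lit 8) (nat_lit 0x4000080010000e0007800000000000000000000000000) (nat_lit 0x0) (nat_lit 0x6e003e001f00000000000000) := T_4 (nat_lit 93) (nat_lit 94) (nat_lit 2) (nat_lit 5) (nat_lit 6) L170974 (by decide +kernel)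
theorem L170976 : W_4 (nat_lit 9) (nat_lit 0x4000080010000e0007000000000000000000000000000) (nat_lit 0x0) (nat_lit 0xc006e003e001f00000000000000) := T_4 (nat_lit 107) (nat_lit 106) (nat_lit 3) (nat_lit 4) (nat_lit 6) L170975 (by decide +kernel)
theorem L170977 : W_4 (nat_lit 10) (nat_lit 0x80010000e0007000000000000000000000000000) (nat_lit 0x0) (nat_lit 0x400020000000000000c006e003e001f00000000000000) := T_4 (nat_lit 178) (nat_lit 161) (nat_lit 4) (nat_lit 8) (nat_lit 10) L170976 (by decide +kernel)
theorem L172260 : W_4 (nat_lit 2) (nat_lit 0x200010000c0004000200028000000000000000000) (nat_lit 0x0) (nat_lit 0x10001400000000000000) := D_4 (nat_lit 76) (nat_lit 60) (nat_lit 58) (nat_lit 6) (nat_lit 8) (nat_lit 7) (nat_lit 4) (nat_lit 8) (nat_lit 7) (by decide +kernel)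
theorem L172261 : W_4 (nat_lit 3) (nat_lit 0x200010000c0004000200020000000000000000000) (nat_lit 0x0) (nat_lit 0x100018001400000000000000) := T_4 (nat_lit 75) (nat_lit 92) (nat_lit 4) (nat_lit 8) (nat_lit 8) L172260 (by decide +kernel)
theorem L172262 : W_4 (nat_lit 4) (nat_lit 0x200010000c0004000200000000000000000000000) (nat_lit 0x0) (nat_lit 0x500038001400000000000000) := T_4 (nat_lit 77) (nat_lit 94) (nat_lit 6) (nat_lit 8) (nat_lit 8) L172261 (by decide +kernel)
theorem L172779 : W_4 (nat_lit 2) (nat_lit 0x300010000c0004000200028000000000000000000) (nat_lit 0x0) (nat_lit 0x10001400000000000000) := D_4 (nat_lit 76) (nat_lit 58) (nat_lit 60) (nat_lit 4) (nat_lit 8) (nat_lit 7) (nat_lit 6) (nat_lit 8) (nat_lit 7) (by decide +kernel)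
theorem L172780 : W_4 (nat_lit 3) (nat_lit 0x300010000c0004000200008000000000000000000) (nat_lit 0x0) (nat_lit 0x400030001400000000000000) := T_4 (nat_lit 77) (nat_lit 94) (nat_lit 6) (nat_lit 8) (nat_lit 8) L172779 (by decide +kernel)
theorem L172781 : W_4 (nat_lit 4) (nat_lit 0x300010000c0004000200000000000000000000000) (nat_lit 0x0) (nat_lit 0x500038001400000000000000) := T_4 (nat_lit 75) (nat_lit 92) (nat_lit 4) (nat_lit 8) (nat_lit 8) L172780 (by decide +kernel)
theorem L173252 : W_4 (nat_lit 2) (nat_lit 0x200016000f0004800000000000000000000000000) (nat_lit 0x0) (nat_lit 0x100008000000000000000040000000000000000000000) := D_4 (nat_lit 159) (nat_lit 176) (nat_lit 90) (nat_lit 4) (nat_lit 6) (nat_lit 10) (nat_lit 7) (nat_lit 5) (nat_lit 5) (by decide +kernel)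
theorem L173253 : W_4 (nat_lit 3) (nat_lit 0x200012000f0004800000000000000000000000000) (nat_lit 0x0) (nat_lit 0x100008000400100000000040000000000000000000000) := T_4 (nat_lit 142) (nat_lit 128) (nat_lit 1) (nat_lit 9) (nat_lit 7) L173252 (by decide +kernel)
theorem L173254 : W_4 (nat_lit 4) (nat_lit 0x200012000f0004000000000000000000000000000) (nat_lit 0x0) (nat_lit 0x100008000400100000c00040000000000000000000000) := T_4 (nat_lit 107) (nat_lit 106) (nat_lit 0) (nat_lit 8) (nat_lit 7) L173253 (by decide +kernel)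
theorem L173255 : W_4 (nat_lit 5) (nat_lit 0x200010000f0004000000000000000000000000000) (nat_lit 0x0) (nat_lit 0x100008000700100000c00040000000000000000000000) := T_4 (nat_lit 141) (nat_lit 140) (nat_lit 1) (nat_lit 8) (nat_lit 7) L173254 (by decide +kernel)
theorem L173256 : W_4 (nat_lit 6) (nat_lit 0x200010000e0004000000000000000000000000000) (nat_lit 0x0) (nat_lit 0x100008002700110000c00040000000000000000000000) := T_4 (nat_lit 124) (nat_lit 145) (nat_lit 3) (nat_lit 5) (nat_lit 7) L173255 (by decide +kernel)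
theorem L175037 : W_4 (nat_lit 2) (nat_lit 0x14000e0006000200000000000000000000000) (nat_lit 0x0) (nat_lit 0x2000018000000000000000000000000000000) := D_4 (nat_lit 124) (nat_lit 123) (nat_lit 145) (nat_lit 2) (nat_lit 4) (nat_lit 7) (nat_lit 3) (nat_lit 5) (nat_lit 7) (by decide +kernel)
theorem L175556 : W_4 (nat_lit 2) (nat_lit 0x16000f0004800300000000000000000000000) (nat_lit 0x0) (nat_lit 0x100008000000000000000040000000000000000000000) := D_4 (nat_lit 159) (nat_lit 176) (nat_lit 90) (nat_lit 4) (nat_lit 6) (nat_lit 10) (nat_lit 7) (nat_lit 5) (nat_lit 5) (by decide +kernel)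
theorem L175557 : W_4 (nat_lit 3) (nat_lit 0x12000f0004800300000000000000000000000) (nat_lit 0x0) (nat_lit 0x100008000400100000000040000000000000000000000) := T_4 (nat_lit 142) (nat_lit 128) (nat_lit 1) (nat_lit 9) (nat_lit 7) L175556 (by decide +kernel)
theorem L175558 : W_4 (nat_lit 4) (nat_lit 0x12000f0004000300000000000000000000000) (nat_lit 0x0) (nat_lit 0x100008000400100000c00040000000000000000000000) := T_4 (nat_lit 107) (nat_lit 106) (nat_lit 0) (nat_lit 8) (nat_lit 7) L175557 (by decide +kernel)
theorem L175559 : W_4 (nat_lit 5) (nat_lit 0x10000f0004000300000000000000000000000) (nat_lit 0x0) (nat_lit 0x100008000700100000c00040000000000000000000000) := T_4 (nat_lit 141) (nat_lit 140) (nat_lit 1) (nat_lit 8) (nat_lit 7) L175558 (by decide +kernel)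
theorem L175560 : W_4 (nat_lit 6) (nat_lit 0x10000e0004000300000000000000000000000) (nat_lit 0x0) (nat_lit 0x100008002700110000c00040000000000000000000000) := T_4 (nat_lit 124) (nat_lit 145) (nat_lit 3) (nat_lit 5) (nat_lit 7) L175559 (by decide +kernel)
theorem L175561 : W_4 (nat_lit 7) (nat_lit 0x10000e0004000200000000000000000000000) (nat_lit 0x0) (nat_lit 0x100008002700110000c00140008000000000000000000) := T_4 (nat_lit 92) (nat_lit 75) (nat_lit 4) (nat_lit 8) (nat_lit 8) L175560 (by decide +kernel)
theorem L178073 : W_4 (nat_lit 2) (nat_lit 0x10001c00044007c0002000000000000000000) (nat_lit 0x0) (nat_lit 0x2200020000000000000000000000) := D_4 (nat_lit 89) (nat_lit 109) (nat_lit 105) (nat_lit 3) (nat_lit 4) (nat_lit 5) (nat_lit 1) (nat_lit 7) (nat_lit 5) (by decide +kernel)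
theorem L178074 : W_4 (nat_lit 3) (nat_lit 0x10001c00040007c0002000000000000000000) (nat_lit 0x0) (nat_lit 0x2e00020000000000000000000000) := T_4 (nat_lit 106) (nat_lit 107) (nat_lit 1) (nat_lit 8) (nat_lit 5) L178073 (by decide +kernel)
theorem L178075 : W_4 (nat_lit 4) (nat_lit 0x10001c0004000780002000000000000000000) (nat_lit 0x0) (nat_lit 0x2e00060001000000000000000000) := T_4 (nat_lit 90) (nat_lit 72) (nat_lit 0) (nat_lit 8) (nat_lit 5) L178074 (by decide +kernel)
theorem L178076 : W_4 (nat_lit 5) (nat_lit 0x10001c0004000780000000000000000000000) (nat_lit 0x0) (nat_lit 0x2e00060007000000000000000000) := T_4 (nat_lit 73) (nat_lit 74) (nat_lit 0) (nat_lit 9) (nat_lit 5) L178075 (by decide +kernel)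
theorem L178077 : W_4 (nat_lit 6) (nat_lit 0x10001c0004000380000000000000000000000) (nat_lit 0x0) (nat_lit 0x2e00460027000000000000000000) := T_4 (nat_lit 94) (nat_lit 77) (nat_lit 6) (nat_lit 8) (nat_lit 8) L178076 (by decide +kernel)
theorem L179587 : W_4 (nat_lit 2) (nat_lit 0x10000c0006000200008000000000000000000) (nat_lit 0x0) (nat_lit 0x10000c00000000000000) := D_4 (nat_lit 76) (nat_lit 58) (nat_lit 59) (nat_lit 4) (nat_lit 8) (nat_lit 7) (nat_lit 5) (nat_lit 8) (nat_lit 3) (by decide +kernel)
theorem L187714 : W_4 (nat_lit 2) (nat_lit 0x10001c0006000200000000000000000000000) (nat_lit 0x0) (nat_lit 0x2000000000000000010000800000000000000) := D_4 (nat_lit 76) (nat_lit 59) (nat_lit 145) (nat_lit 5) (nat_lit 8) (nat_lit 3) (nat_lit 7) (nat_lit 8) (nat_lit 4) (by decide +kernel)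
theorem L188265 : W_4 (nat_lit 4) (nat_lit 0x50003c0014000800000000000000000000000) (nat_lit 0x0) (nat_lit 0x14000e0005000000000000000) := T_4 (nat_lit 77) (nat_lit 94) (nat_lit 4) (nat_lit 10) (nat_lit 8) L151541 (by decide +kernel)
theorem L188266 : W_4 (nat_lit 5) (nat_lit 0x10003c0014000800000000000000000000000) (nat_lit 0x0) (nat_lit 0xc0000000000014000e0005000000000000000) := T_4 (nat_lit 146) (nat_lit 147) (nat_lit 3) (nat_lit 7) (nat_lit 7) L188265 (by decide +kernel)
theorem L188457 : W_4 (nat_lit 2) (nat_lit 0x10001c0004000300010000000000000000000) (nat_lit 0x0) (nat_lit 0x400020001000000000000000) := D_4 (nat_lit 77) (nat_lit 94) (nat_lit 60) (nat_lit 6) (nat_lit 8) (nat_lit 8) (nat_lit 6) (nat_lit 8) (nat_lit 7) (by decide +kernel)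
theorem L209041 : W_4 (nat_lit 2) (nat_lit 0x10001c00048007c0000000000000000000000) (nat_lit 0x0) (nat_lit 0x7000000000000000000) := D_4 (nat_lit 73) (nat_lit 74) (nat_lit 72) (nat_lit 0) (nat_lit 9) (nat_lit 5) (nat_lit 0) (nat_lit 8) (nat_lit 5) (by decide +kernel)
theorem L209176 : W_4 (nat_lit 3) (nat_lit 0x10001c0004800780000000000000000000000) (nat_lit 0x0) (nat_lit 0x400040007000000000000000000) := T_4 (nat_lit 90) (nat_lit 106) (nat_lit 1) (nat_lit 8) (nat_lit 5) L209041 (by decide +kernel)
theorem L209179 : W_4 (nat_lit 4) (nat_lit 0x10001c0004000780000000000000000000000) (nat_lit 0x0) (nat_lit 0x1c00040007000000000000000000) := T_4 (nat_lit 107) (nat_lit 108) (nat_lit 1) (nat_lit 9) (nat_lit 5) L209176 (by decide +kernel)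
theorem L209180 : W_4 (nat_lit 5) (nat_lit 0x10001c0004000380000000000000000000000) (nat_lit 0x0) (nat_lit 0x1c00440027000000000000000000) := T_4 (nat_lit 94) (nat_lit 77) (nat_lit 6) (nat_lit 8) (nat_lit 8) L209179 (by decide +kernel)
theorem L236321 : W_4 (nat_lit 2) (nat_lit 0x200030000d0004000300020000000000000000000) (nat_lit 0x0) (nat_lit 0x100000000000010001000000000000000) := D_4 (nat_lit 76) (nat_lit 128) (nat_lit 60) (nat_lit 7) (nat_lit 8) (nat_lit 4) (nat_lit 6) (nat_lit 8) (nat_lit 7) (by decide +kernel)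
theorem L236322 : W_4 (nat_lit 3) (nat_lit 0x200030000d0004000300000000000000000000000) (nat_lit 0x0) (nat_lit 0x100000000400030001000000000000000) := T_4 (nat_lit 77) (nat_lit 94) (nat_lit 6) (nat_lit 8) (nat_lit 8) L236321 (by decide +kernel)
theorem L236323 : W_4 (nat_lit 4) (nat_lit 0x200030000d0004000100000000000000000000000) (nat_lit 0x0) (nat_lit 0x100000000600038001000000000000000) := T_4 (nat_lit 93) (nat_lit 75) (nat_lit 4) (nat_lit 8) (nat_lit 8) L236322 (by decide +kernel)
theorem L236349 : W_4 (nat_lit 2) (nat_lit 0x300030000c0004000200020000000000000000000) (nat_lit 0x0) (nat_lit 0x100000000000010001000000000000000) := D_4 (nat_lit 76) (nat_lit 128) (nat_lit 60) (nat_lit 7) (nat_lit 8) (nat_lit 4) (nat_lit 6) (nat_lit 8) (nat_lit 7) (by decide +kernel)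
theorem L236350 : W_4 (nat_lit 3) (nat_lit 0x300030000c0004000200000000000000000000000) (nat_lit 0x0) (nat_lit 0x100000000400030001000000000000000) := T_4 (nat_lit 77) (nat_lit 94) (nat_lit 6) (nat_lit 8) (nat_lit 8) L236349 (by decide +kernel)
theorem L236873 : W_4 (nat_lit 2) (nat_lit 0x340030000d0004000200028000000000000000000) (nat_lit 0x0) (nat_lit 0x10001400000000000000) := D_4 (nat_lit 76) (nat_lit 60) (nat_lit 58) (nat_lit 6) (nat_lit 8) (nat_lit 7) (nat_lit 4) (nat_lit 8) (nat_lit 7) (by decide +kernel)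
theorem L236874 : W_4 (nat_lit 3) (nat_lit 0x340030000d0004000200020000000000000000000) (nat_lit 0x0) (nat_lit 0x100018001400000000000000) := T_4 (nat_lit 75) (nat_lit 92) (nat_lit 4) (nat_lit 8) (nat_lit 8) L236873 (by decide +kernel)
theorem L236875 : W_4 (nat_lit 4) (nat_lit 0x340030000d0004000200000000000000000000000) (nat_lit 0x0) (nat_lit 0x500038001400000000000000) := T_4 (nat_lit 77) (nat_lit 94) (nat_lit 6) (nat_lit 8) (nat_lit 8) L236874 (by decide +kernel)
theorem L236876 : W_4 (nat_lit 5) (nat_lit 0x300030000d0004000200000000000000000000000) (nat_lit 0x0) (nat_lit 0xc000000000000000500038001400000000000000) := T_4 (nat_lit 158) (nat_lit 159) (nat_lit 2) (nat_lit 5) (nat_lit 9) L236875 (by decide +kernel)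
theorem L284363 : W_4 (nat_lit 2) (nat_lit 0x4000000010000c0003800000000000000000000000000) (nat_lit 0x0) (nat_lit 0x320000000000000000000000000000000) := D_4 (nat_lit 128) (nat_lit 129) (nat_lit 125) (nat_lit 0) (nat_lit 10) (nat_lit 7) (nat_lit 0) (nat_lit 9) (nat_lit 7) (by decide +kernel)
theorem L284364 : W_4 (nat_lit 3) (nat_lit 0x4000000010000c0003000000000000000000000000000) (nat_lit 0x0) (nat_lit 0x320000c00000000000000000000000000) := T_4 (nat_lit 107) (nat_lit 106) (nat_lit 3) (nat_lit 4) (nat_lit 6) L284363 (by decide +kernel)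
theorem L284365 : W_4 (nat_lit 4) (nat_lit 0x10000c0003000000000000000000000000000) (nat_lit 0x0) (nat_lit 0x400020000000320000c00000000000000000000000000) := T_4 (nat_lit 178) (nat_lit 161) (nat_lit 4) (nat_lit 8) (nat_lit 10) L284364 (by decide +kernel)
theorem L284375 : W_4 (nat_lit 7) (nat_lit 0x10000e0003000000000000000000000000000) (nat_lit 0x0) (nat_lit 0x48002400070001c004e00080004000000000000000000) := Q_4 (nat_lit 124) (C_4 L284230 (C_4 L284369 (C_4 L284374 N_4))) (by decide +kernel)
theorem L284376 : W_4 (nat_lit 2) (nat_lit 0x380014000e0003400000000000000000000000000) (nat_lit 0x0) (nat_lit 0x80004002000000000000000000000000000000000000) := D_4 (nat_lit 158) (nat_lit 145) (nat_lit 175) (nat_lit 2) (nat_lit 5) (nat_lit 9) (nat_lit 5) (nat_lit 6) (nat_lit 6) (by decide +kernel)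
theorem L284377 : W_4 (nat_lit 3) (nat_lit 0x280014000e0003400000000000000000000000000) (nat_lit 0x0) (nat_lit 0x280014002000000000000000000000000000000000000) := T_4 (nat_lit 160) (nat_lit 177) (nat_lit 7) (nat_lit 6) (nat_lit 6) L284376 (by decide +kernel)
theorem L284410 : W_4 (nat_lit 2) (nat_lit 0x4000000010000e00030000d001e000800000000000000) (nat_lit 0x0) (nat_lit 0x4000600000000000000000000000) := D_4 (nat_lit 93) (nat_lit 94) (nat_lit 110) (nat_lit 3) (nat_lit 5) (nat_lit 4) (nat_lit 5) (nat_lit 8) (nat_lit 3) (by decide +kernel)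
theorem L284411 : W_4 (nat_lit 3) (nat_lit 0x4000000010000e00030000d001e000000000000000000) (nat_lit 0x0) (nat_lit 0x4000600000001800000000000000) := T_4 (nat_lit 59) (nat_lit 60) (nat_lit 2) (nat_lit 5) (nat_lit 4) L284410 (by decide +kernel)
theorem L284412 : W_4 (nat_lit 4) (nat_lit 0x4000000010000e00030000d000e000000000000000000) (nat_lit 0x0) (nat_lit 0x4000600030001800000000000000) := T_4 (nat_lit 76) (nat_lit 77) (nat_lit 1) (nat_lit 9) (nat_lit 4) L284411 (by decide +kernel)
theorem L284413 : W_4 (nat_lit 5) (nat_lit 0x4000000010000e00030000d0006000000000000000000) (nat_lit 0x0) (nat_lit 0x4000600038001c00000000000000) := T_4 (nat_lit 75) (nat_lit 58) (nat_lit 6) (nat_lit 6) (nat_lit 7) L284412 (by decide +kernel)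
theorem L284414 : W_4 (nat_lit 6) (nat_lit 0x4000000010000e00030000d0004000000000000000000) (nat_lit 0x0) (nat_lit 0x400060003a001d00000000000000) := T_4 (nat_lit 73) (nat_lit 56) (nat_lit 4) (nat_lit 6) (nat_lit 7) L284413 (by decide +kernel)
theorem L284415 : W_4 (nat_lit 7) (nat_lit 0x10000e00030000d0004000000000000000000) (nat_lit 0x0) (nat_lit 0x40002000000000000400060003a001d00000000000000) := T_4 (nat_lit 178) (nat_lit 161) (nat_lit 4) (nat_lit 8) (nat_lit 10) L284414 (by decide +kernel)
theorem L284416 : W_4 (nat_lit 8) (nat_lit 0x10000e00030000d0000000000000000000000) (nat_lit 0x0) (nat_lit 0x40002000000000000400060003e001f00000000000000) := T_4 (nat_lit 74) (nat_lit 57) (nat_lit 7) (nat_lit 6) (nat_lit 3) L284415 (by decide +kernel)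
theorem L284417 : W_4 (nat_lit 9) (nat_lit 0x10000e00030000c0000000000000000000000) (nat_lit 0x0) (nat_lit 0x40002000000000000400063003e001f00000000000000) := T_4 (nat_lit 88) (nat_lit 89) (nat_lit 3) (nat_lit 3) (nat_lit 5) L284416 (by decide +kernel)
theorem L284418 : W_4 (nat_lit 2) (nat_lit 0x10000e00034002d001e000000000000000000) (nat_lit 0x0) (nat_lit 0x4000000000001800000000000000) := D_4 (nat_lit 59) (nat_lit 60) (nat_lit 110) (nat_lit 2) (nat_lit 5) (nat_lit 4) (nat_lit 5) (nat_lit 8) (nat_lit 3) (by decide +kernel)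
theorem L284419 : W_4 (nat_lit 3) (nat_lit 0x10000e00034000d001e000000000000000000) (nat_lit 0x0) (nat_lit 0x4000600000001800000000000000) := T_4 (nat_lit 93) (nat_lit 94) (nat_lit 3) (nat_lit 5) (nat_lit 4) L284418 (by decide +kernel)
theorem L284420 : W_4 (nat_lit 4) (nat_lit 0x10000e00034000d001c000000000000000000) (nat_lit 0x0) (nat_lit 0x4000600002001900000000000000) := T_4 (nat_lit 73) (nat_lit 56) (nat_lit 4) (nat_lit 6) (nat_lit 7) L284419 (by decide +kernel)
theorem L284421 : W_4 (nat_lit 5) (nat_lit 0x10000e00034000d000c000000000000000000) (nat_lit 0x0) (nat_lit 0x4000600032001900000000000000) := T_4 (nat_lit 76) (nat_lit 77) (nat_lit 1) (nat_lit 9) (nat_lit 4) L284420 (by decide +kernel)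
theorem L284422 : W_4 (nat_lit 6) (nat_lit 0x10000e00034000d0004000000000000000000) (nat_lit 0x0) (nat_lit 0x400060003a001d00000000000000) := T_4 (nat_lit 75) (nat_lit 58) (nat_lit 6) (nat_lit 6) (nat_lit 7) L284421 (by decide +kernel)
theorem L284423 : W_4 (nat_lit 7) (nat_lit 0x10000e00034000d0000000000000000000000) (nat_lit 0x0) (nat_lit 0x400060003e001f00000000000000) := T_4 (nat_lit 74) (nat_lit 57) (nat_lit 7) (nat_lit 6) (nat_lit 3) L284422 (by decide +kernel)
theorem L284424 : W_4 (nat_lit 8) (nat_lit 0x10000e00034000c0000000000000000000000) (nat_lit 0x0) (nat_lit 0x400063003e001f00000000000000) := T_4 (nat_lit 88) (nat_lit 89) (nat_lit 3) (nat_lit 3) (nat_lit 5) L284423 (by decide +kernel)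
theorem L284425 : W_4 (nat_lit 9) (nat_lit 0x10000e00030000c0000000000000000000000) (nat_lit 0x0) (nat_lit 0x4c0063003e001f00000000000000) := T_4 (nat_lit 106) (nat_lit 107) (nat_lit 3) (nat_lit 4) (nat_lit 6) L284424 (by decide +kernel)
theorem L284426 : W_4 (nat_lit 2) (nat_lit 0x4000000010000e00038000c0000000200000000000000) (nat_lit 0x0) (nat_lit 0x4000030000000000000000000000) := D_4 (nat_lit 89) (nat_lit 88) (nat_lit 110) (nat_lit 3) (nat_lit 3) (nat_lit 5) (nat_lit 0) (nat_lit 8) (nat_lit 6) (by decide +kernel)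
theorem L284427 : W_4 (nat_lit 3) (nat_lit 0x4000000010000e00030000c0000000200000000000000) (nat_lit 0x0) (nat_lit 0x4c00030000000000000000000000) := T_4 (nat_lit 107) (nat_lit 106) (nat_lit 3) (nat_lit 4) (nat_lit 6) L284426 (by decide +kernel)
theorem L284428 : W_4 (nat_lit 4) (nat_lit 0x10000e00030000c0000000200000000000000) (nat_lit 0x0) (nat_lit 0x400020000000000004c00030000000000000000000000) := T_4 (nat_lit 178) (nat_lit 161) (nat_lit 4) (nat_lit 8) (nat_lit 10) L284427 (by decide +kernel)
theorem L284429 : W_4 (nat_lit 5) (nat_lit 0x10000e00030000c0000000000000000000000) (nat_lit 0x0) (nat_lit 0x400020000000000004c00030004000200000000000000) := T_4 (nat_lit 57) (nat_lit 74) (nat_lit 7) (nat_lit 6) (nat_lit 3) L284428 (by decide +kernel)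
theorem L284430 : W_4 (nat_lit 2) (nat_lit 0x4000000010000e00030000e0006000000000000000000) (nat_lit 0x0) (nat_lit 0x18000400000000000000) := D_4 (nat_lit 75) (nat_lit 76) (nat_lit 58) (nat_lit 1) (nat_lit 8) (nat_lit 4) (nat_lit 6) (nat_lit 6) (nat_lit 7) (by decide +kernel)
theorem L284431 : W_4 (nat_lit 3) (nat_lit 0x4000000010000e00030000e0004000000000000000000) (nat_lit 0x0) (nat_lit 0x1a000500000000000000) := T_4 (nat_lit 73) (nat_lit 56) (nat_lit 4) (nat_lit 6) (nat_lit 7) L284430 (by decide +kernel)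
theorem L284432 : W_4 (nat_lit 4) (nat_lit 0x10000e00030000e0004000000000000000000) (nat_lit 0x0) (nat_lit 0x40002000000000000000000001a000500000000000000) := T_4 (nat_lit 178) (nat_lit 161) (nat_lit 4) (nat_lit 8) (nat_lit 10) L284431 (by decide +kernel)
theorem L284433 : W_4 (nat_lit 5) (nat_lit 0x10000e00030000e0000000000000000000000) (nat_lit 0x0) (nat_lit 0x40002000000000000000000001e000700000000000000) := T_4 (nat_lit 74) (nat_lit 57) (nat_lit 7) (nat_lit 6) (nat_lit 3) L284432 (by decide +kernel)
theorem L284434 : W_4 (nat_lit 6) (nat_lit 0x10000e00030000c0000000000000000000000) (nat_lit 0x0) (nat_lit 0x40002000000000000000003001e000700000000000000) := T_4 (nat_lit 89) (nat_lit 88) (nat_lit 3) (nat_lit 3) (nat_lit 5) L284433 (by decide +kernel)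
theorem L284435 : W_4 (nat_lit 2) (nat_lit 0x4000000010000e00030000e0000000000000000000000) (nat_lit 0x0) (nat_lit 0x4c00000000000000000000000000) := D_4 (nat_lit 107) (nat_lit 106) (nat_lit 110) (nat_lit 3) (nat_lit 4) (nat_lit 6) (nat_lit 0) (nat_lit 8) (nat_lit 6) (by decide +kernel)
theorem L284436 : W_4 (nat_lit 3) (nat_lit 0x4000000010000e00030000c0000000000000000000000) (nat_lit 0x0) (nat_lit 0x4c00030000000000000000000000) := T_4 (nat_lit 89) (nat_lit 88) (nat_lit 3) (nat_lit 3) (nat_lit 5) L284435 (by decide +kernel)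
theorem L284437 : W_4 (nat_lit 4) (nat_lit 0x10000e00030000c0000000000000000000000) (nat_lit 0x0) (nat_lit 0x400020000000000004c00030000000000000000000000) := T_4 (nat_lit 178) (nat_lit 161) (nat_lit 4) (nat_lit 8) (nat_lit 10) L284436 (by decide +kernel)
theorem L284438 : W_4 (nat_lit 2) (nat_lit 0x4000000010000e00034002c001e000000000000000000) (nat_lit 0x0) (nat_lit 0x4000000000001800000000000000) := D_4 (nat_lit 59) (nat_lit 60) (nat_lit 110) (nat_lit 2) (nat_lit 5) (nat_lit 4) (nat_lit 5) (nat_lit 8) (nat_lit 3) (by decide +kernel)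
theorem L284439 : W_4 (nat_lit 3) (nat_lit 0x4000000010000e00034000c001e000000000000000000) (nat_lit 0x0) (nat_lit 0x4000600000001800000000000000) := T_4 (nat_lit 93) (nat_lit 94) (nat_lit 3) (nat_lit 5) (nat_lit 4) L284438 (by decide +kernel)
theorem L284440 : W_4 (nat_lit 4) (nat_lit 0x4000000010000e00034000c001c000000000000000000) (nat_lit 0x0) (nat_lit 0x4000600002001900000000000000) := T_4 (nat_lit 73) (nat_lit 56) (nat_lit 4) (nat_lit 6) (nat_lit 7) L284439 (by decide +kernel)
theorem L284441 : W_4 (nat_lit 5) (nat_lit 0x4000000010000e00034000c000c000000000000000000) (nat_lit 0x0) (nat_lit 0x4000600032001900000000000000) := T_4 (nat_lit 76) (nat_lit 77) (nat_lit 1) (nat_lit 9) (nat_lit 4) L284440 (by decide +kernel)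
theorem L284442 : W_4 (nat_lit 6) (nat_lit 0x4000000010000e00034000c0004000000000000000000) (nat_lit 0x0) (nat_lit 0x400060003a001d00000000000000) := T_4 (nat_lit 75) (nat_lit 58) (nat_lit 6) (nat_lit 6) (nat_lit 7) L284441 (by decide +kernel)
theorem L284443 : W_4 (nat_lit 7) (nat_lit 0x4000000010000e00034000c0000000000000000000000) (nat_lit 0x0) (nat_lit 0x400060003e001f00000000000000) := T_4 (nat_lit 74) (nat_lit 57) (nat_lit 7) (nat_lit 6) (nat_lit 3) L284442 (by decide +kernel)
theorem L284444 : W_4 (nat_lit 8) (nat_lit 0x10000e00034000c0000000000000000000000) (nat_lit 0x0) (nat_lit 0x40002000000000000400060003e001f00000000000000) := T_4 (nat_lit 178) (nat_lit 161) (nat_lit 4) (nat_lit 8) (nat_lit 10) L284443 (by decide +kernel)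
theorem L284445 : W_4 (nat_lit 9) (nat_lit 0x10000e00030000c0000000000000000000000) (nat_lit 0x0) (nat_lit 0x400020000000000004c0060003e001f00000000000000) := T_4 (nat_lit 106) (nat_lit 107) (nat_lit 3) (nat_lit 4) (nat_lit 6) L284444 (by decide +kernel)
theorem L284446 : W_4 (nat_lit 10) (nat_lit 0x10000e0003000080000000000000000000000) (nat_lit 0x0) (nat_lit 0x400020000000000004c0067003e001f00000000000000) := Q_4 (nat_lit 90) (C_4 L284417 (C_4 L284425 (C_4 L284429 (C_4 L284434 (C_4 L284437 (C_4 L284445 N_4)))))) (by decide +kernel)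
theorem L284481 : W_4 (nat_lit 4) (nat_lit 0x280014000e0003000000000000000000000000000) (nat_lit 0x0) (nat_lit 0x280014002000000000c00000000000000000000000000) := T_4 (nat_lit 106) (nat_lit 107) (nat_lit 3) (nat_lit 4) (nat_lit 6) L284377 (by decide +kernel)
theorem L284482 : W_4 (nat_lit 5) (nat_lit 0x280010000e0003000000000000000000000000000) (nat_lit 0x0) (nat_lit 0x380014002400000000c00000000000000000000000000) := T_4 (nat_lit 142) (nat_lit 176) (nat_lit 6) (nat_lit 6) (nat_lit 10) L284481 (by decide +kernel)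
theorem L284483 : W_4 (nat_lit 6) (nat_lit 0x80010000e0003000000000000000000000000000) (nat_lit 0x0) (nat_lit 0x780034002400000000c00000000000000000000000000) := T_4 (nat_lit 161) (nat_lit 178) (nat_lit 4) (nat_lit 8) (nat_lit 10) L284482 (by decide +kernel)
theorem L284484 : W_4 (nat_lit 2) (nat_lit 0x80014000e0003000000000000000000000000000) (nat_lit 0x0) (nat_lit 0xc00040000000000000000000000) := D_4 (nat_lit 107) (nat_lit 106) (nat_lit 90) (nat_lit 3) (nat_lit 4) (nat_lit 6) (nat_lit 4) (nat_lit 6) (nat_lit 9) (by decide +kernel)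
theorem L284485 : W_4 (nat_lit 3) (nat_lit 0x80010000e0003000000000000000000000000000) (nat_lit 0x0) (nat_lit 0x100000000400000000c00040000000000000000000000) := T_4 (nat_lit 142) (nat_lit 176) (nat_lit 6) (nat_lit 6) (nat_lit 10) L284484 (by decide +kernel)
theorem L284486 : W_4 (nat_lit 2) (nat_lit 0x80010000e0007800240038000100000000000000) (nat_lit 0x0) (nat_lit 0x80004000200000000000000) := D_4 (nat_lit 74) (nat_lit 91) (nat_lit 57) (nat_lit 1) (nat_lit 9) (nat_lit 4) (nat_lit 0) (nat_lit 9) (nat_lit 4) (by decide +kernel)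
theorem L284487 : W_4 (nat_lit 3) (nat_lit 0x80010000e0007800240030000100000000000000) (nat_lit 0x0) (nat_lit 0x8000c000600000000000000) := T_4 (nat_lit 75) (nat_lit 58) (nat_lit 4) (nat_lit 8) (nat_lit 7) L284486 (by decide +kernel)
theorem L284488 : W_4 (nat_lit 4) (nat_lit 0x80010000e0007800240010000100000000000000) (nat_lit 0x0) (nat_lit 0x8002c001600000000000000) := T_4 (nat_lit 77) (nat_lit 60) (nat_lit 6) (nat_lit 8) (nat_lit 7) L284487 (by decide +kernel)
theorem L284489 : W_4 (nat_lit 5) (nat_lit 0x80010000e0007800240010000000000000000000) (nat_lit 0x0) (nat_lit 0x8002e001700000000000000) := T_4 (nat_lit 56) (nat_lit 73) (nat_lit 7) (nat_lit 5) (nat_lit 3) L284488 (by decide +kernel)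
theorem L284490 : W_4 (nat_lit 6) (nat_lit 0x80010000e0007800240000000000000000000000) (nat_lit 0x0) (nat_lit 0x8003e001f00000000000000) := T_4 (nat_lit 76) (nat_lit 59) (nat_lit 5) (nat_lit 8) (nat_lit 3) L284489 (by decide +kernel)
theorem L284491 : W_4 (nat_lit 7) (nat_lit 0x80010000e0007800200000000000000000000000) (nat_lit 0x0) (nat_lit 0xe003e001f00000000000000) := T_4 (nat_lit 90) (nat_lit 89) (nat_lit 0) (nat_lit 8) (nat_lit 6) L284490 (by decide +kernel)
theorem L284492 : W_4 (nat_lit 8) (nat_lit 0x80010000e0007800000000000000000000000000) (nat_lit 0x0) (nat_lit 0x6e003e001f00000000000000) := T_4 (nat_lit 93) (nat_lit 94) (nat_lit 2) (nat_lit 5) (nat_lit 6) L284491 (by decide +kernel)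
theorem L284493 : W_4 (nat_lit 9) (nat_lit 0x80010000e0007000000000000000000000000000) (nat_lit 0x0) (nat_lit 0xc006e003e001f00000000000000) := T_4 (nat_lit 107) (nat_lit 106) (nat_lit 3) (nat_lit 4) (nat_lit 6) L284492 (by decide +kernel)
theorem L284494 : W_4 (nat_lit 11) (nat_lit 0x80010000e0003000000000000000000000000000) (nat_lit 0x0) (nat_lit 0x6e0036002380000004c006e003e001f00000000000000) := Q_4 (nat_lit 110) (C_4 L132126 (C_4 L170977 (C_4 L284493 N_4))) (by decide +kernel)
theorem L284495 : W_4 (nat_lit 2) (nat_lit 0x40001c0014000e0003000080002000000000000000000) (nat_lit 0x0) (nat_lit 0x4000300000000000000) := D_4 (nat_lit 74) (nat_lit 57) (nat_lit 56) (nat_lit 7) (nat_lit 6) (nat_lit 3) (nat_lit 4) (nat_lit 6) (nat_lit 7) (by decide +kernel)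
theorem L284496 : W_4 (nat_lit 3) (nat_lit 0x40001c0014000e0003000080000000000000000000000) (nat_lit 0x0) (nat_lit 0x40006000300000000000000) := T_4 (nat_lit 73) (nat_lit 90) (nat_lit 4) (nat_lit 6) (nat_lit 8) L284495 (by decide +kernel)
theorem L284497 : W_4 (nat_lit 4) (nat_lit 0x40001c0014000e0003000000000000000000000000000) (nat_lit 0x0) (nat_lit 0x2000000000000c0006000300000000000000) := T_4 (nat_lit 91) (nat_lit 141) (nat_lit 5) (nat_lit 6) (nat_lit 5) L284496 (by decide +kernel)
theorem L284498 : W_4 (nat_lit 5) (nat_lit 0x4000180014000e0003000000000000000000000000000) (nat_lit 0x0) (nat_lit 0x800040002000000000000c0006000300000000000000) := T_4 (nat_lit 158) (nat_lit 175) (nat_lit 5) (nat_lit 6) (nat_lit 6) L284497 (by decide +kernel)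
theorem L284499 : W_4 (nat_lit 6) (nat_lit 0x4000080014000e0003000000000000000000000000000) (nat_lit 0x0) (nat_lit 0x2800140002000000000000c0006000300000000000000) := T_4 (nat_lit 160) (nat_lit 177) (nat_lit 7) (nat_lit 6) (nat_lit 6) L284498 (by decide +kernel)
theorem L284500 : W_4 (nat_lit 7) (nat_lit 0x80014000e0003000000000000000000000000000) (nat_lit 0x0) (nat_lit 0x6800340002000000000000c0006000300000000000000) := T_4 (nat_lit 178) (nat_lit 161) (nat_lit 4) (nat_lit 8) (nat_lit 10) L284499 (by decide +kernel)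
theorem L284501 : W_4 (nat_lit 8) (nat_lit 0x80010000e0003000000000000000000000000000) (nat_lit 0x0) (nat_lit 0x7800340006000000000000c0006000300000000000000) := T_4 (nat_lit 142) (nat_lit 176) (nat_lit 6) (nat_lit 6) (nat_lit 10) L284500 (by decide +kernel)
theorem L284502 : W_4 (nat_lit 12) (nat_lit 0x10000e0003000000000000000000000000000) (nat_lit 0x0) (nat_lit 0x7e003e002780000004c006e003e001f00000000000000) := Q_4 (nat_lit 159) (C_4 L284483 (C_4 L284485 (C_4 L284494 (C_4 L284501 N_4)))) (by decide +kernel)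
theorem L284503 : W_4 (nat_lit 2) (nat_lit 0x4000000010000f0003000000000000000000000000000) (nat_lit 0x0) (nat_lit 0xc004000000000000000000000000000) := D_4 (nat_lit 123) (nat_lit 110) (nat_lit 122) (nat_lit 2) (nat_lit 4) (nat_lit 7) (nat_lit 2) (nat_lit 3) (nat_lit 7) (by decide +kernel)
theorem L284504 : W_4 (nat_lit 3) (nat_lit 0x4000000010000e0003000000000000000000000000000) (nat_lit 0x0) (nat_lit 0x200001c004000000000000000000000000000) := T_4 (nat_lit 124) (nat_lit 145) (nat_lit 3) (nat_lit 5) (nat_lit 7) L284503 (by decide +kernel)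
theorem L284505 : W_4 (nat_lit 4) (nat_lit 0x10000e0003000000000000000000000000000) (nat_lit 0x0) (nat_lit 0x40002000200001c004000000000000000000000000000) := T_4 (nat_lit 178) (nat_lit 161) (nat_lit 4) (nat_lit 8) (nat_lit 10) L284504 (by decide +kernel)
theorem L284506 : W_4 (nat_lit 13) (nat_lit 0x10000c0003000000000000000000000000000) (nat_lit 0x0) (nat_lit 0x7e003e00278003c004e006e003e001f00000000000000) := Q_4 (nat_lit 125) (C_4 L284243 (C_4 L284375 (C_4 L284502 (C_4 L284505 N_4)))) (by decide +kernel)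
theorem L284507 : W_4 (nat_lit 2) (nat_lit 0x4000000012001f0003000000000000000000000000000) (nat_lit 0x0) (nat_lit 0xc004000000000000000000000000000) := D_4 (nat_lit 123) (nat_lit 122) (nat_lit 110) (nat_lit 2) (nat_lit 3) (nat_lit 7) (nat_lit 2) (nat_lit 4) (nat_lit 7) (by decide +kernel)
theorem L284508 : W_4 (nat_lit 3) (nat_lit 0x4000000012001e0003000000000000000000000000000) (nat_lit 0x0) (nat_lit 0x10001c004000000000000000000000000000) := T_4 (nat_lit 124) (nat_lit 140) (nat_lit 1) (nat_lit 8) (nat_lit 7) L284507 (by decide +kernel)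
theorem L284509 : W_4 (nat_lit 4) (nat_lit 0x4000000010001e0003000000000000000000000000000) (nat_lit 0x0) (nat_lit 0x70001c004000000000000000000000000000) := T_4 (nat_lit 141) (nat_lit 142) (nat_lit 1) (nat_lit 9) (nat_lit 7) L284508 (by decide +kernel)
theorem L284510 : W_4 (nat_lit 5) (nat_lit 0x10001e0003000000000000000000000000000) (nat_lit 0x0) (nat_lit 0x40002000070001c004000000000000000000000000000) := T_4 (nat_lit 178) (nat_lit 161) (nat_lit 4) (nat_lit 8) (nat_lit 10) L284509 (by decide +kernel)
theorem L284511 : W_4 (nat_lit 6) (nat_lit 0x10000e0003000000000000000000000000000) (nat_lit 0x0) (nat_lit 0x40002000070031c004000000000000000000000000000) := T_4 (nat_lit 128) (nat_lit 129) (nat_lit 0) (nat_lit 10) (nat_lit 7) L284510 (by decide +kernel)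
theorem L284512 : W_4 (nat_lit 2) (nat_lit 0x4000040012002f4003000000000000000000000000000) (nat_lit 0x0) (nat_lit 0x400000000000080004000000000000000000) := D_4 (nat_lit 91) (nat_lit 74) (nat_lit 142) (nat_lit 5) (nat_lit 6) (nat_lit 4) (nat_lit 5) (nat_lit 6) (nat_lit 5) (by decide +kernel)
theorem L284513 : W_4 (nat_lit 3) (nat_lit 0x4000000012002f4003000000000000000000000000000) (nat_lit 0x0) (nat_lit 0x80004000400000000000080004000000000000000000) := T_4 (nat_lit 158) (nat_lit 175) (nat_lit 6) (nat_lit 5) (nat_lit 10) L284512 (by decide +kernel)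
theorem L284514 : W_4 (nat_lit 4) (nat_lit 0x12002f4003000000000000000000000000000) (nat_lit 0x0) (nat_lit 0x480024000400000000000080004000000000000000000) := T_4 (nat_lit 178) (nat_lit 161) (nat_lit 4) (nat_lit 8) (nat_lit 10) L284513 (by decide +kernel)
theorem L284515 : W_4 (nat_lit 5) (nat_lit 0x10002f4003000000000000000000000000000) (nat_lit 0x0) (nat_lit 0x480024000700000000000080004000000000000000000) := T_4 (nat_lit 141) (nat_lit 140) (nat_lit 1) (nat_lit 8) (nat_lit 7) L284514 (by decide +kernel)
theorem L284516 : W_4 (nat_lit 6) (nat_lit 0x10002f0003000000000000000000000000000) (nat_lit 0x0) (nat_lit 0x48002400070000c000000080004000000000000000000) := T_4 (nat_lit 122) (nat_lit 123) (nat_lit 2) (nat_lit 3) (nat_lit 7) L284515 (by decide +kernel)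
theorem L284517 : W_4 (nat_lit 7) (nat_lit 0x10002e0003000000000000000000000000000) (nat_lit 0x0) (nat_lit 0x48002400270001c000000080004000000000000000000) := T_4 (nat_lit 124) (nat_lit 145) (nat_lit 3) (nat_lit 5) (nat_lit 7) L284516 (by decide +kernel)
theorem L284518 : W_4 (nat_lit 8) (nat_lit 0x10000e0003000000000000000000000000000) (nat_lit 0x0) (nat_lit 0x48002400270031c000000080004000000000000000000) := T_4 (nat_lit 129) (nat_lit 128) (nat_lit 0) (nat_lit 10) (nat_lit 7) L284517 (by decide +kernel)
theorem L284519 : W_4 (nat_lit 2) (nat_lit 0x280034001e0003000000000000000000000000000) (nat_lit 0x0) (nat_lit 0x80014000000000000000000000000000000000000000) := D_4 (nat_lit 158) (nat_lit 175) (nat_lit 160) (nat_lit 5) (nat_lit 6) (nat_lit 6) (nat_lit 2) (nat_lit 5) (nat_lit 9) (by decide +kernel)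
theorem L284520 : W_4 (nat_lit 3) (nat_lit 0x200034001e0003000000000000000000000000000) (nat_lit 0x0) (nat_lit 0x18001c000000000000000000000000000000000000000) := T_4 (nat_lit 159) (nat_lit 176) (nat_lit 6) (nat_lit 6) (nat_lit 10) L284519 (by decide +kernel)
theorem L284521 : W_4 (nat_lit 4) (nat_lit 0x200014001e0003000000000000000000000000000) (nat_lit 0x0) (nat_lit 0x18001c006000000000000000000000000000000000000) := T_4 (nat_lit 145) (nat_lit 146) (nat_lit 3) (nat_lit 6) (nat_lit 7) L284520 (by decide +kernel)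
theorem L284522 : W_4 (nat_lit 5) (nat_lit 0x200010001e0003000000000000000000000000000) (nat_lit 0x0) (nat_lit 0x18001c006600000000000000000000000000000000000) := T_4 (nat_lit 142) (nat_lit 141) (nat_lit 1) (nat_lit 9) (nat_lit 7) L284521 (by decide +kernel)
theorem L284523 : W_4 (nat_lit 6) (nat_lit 0x200010000e0003000000000000000000000000000) (nat_lit 0x0) (nat_lit 0x18001c006600300000000000000000000000000000000) := T_4 (nat_lit 128) (nat_lit 129) (nat_lit 0) (nat_lit 10) (nat_lit 7) L284522 (by decide +kernel)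
theorem L284524 : W_4 (nat_lit 7) (nat_lit 0x10000e0003000000000000000000000000000) (nat_lit 0x0) (nat_lit 0x58003c006600300000000000000000000000000000000) := T_4 (nat_lit 161) (nat_lit 178) (nat_lit 4) (nat_lit 8) (nat_lit 10) L284523 (by decide +kernel)
theorem L284525 : W_4 (nat_lit 9) (nat_lit 0x10000c0003000000000000000000000000000) (nat_lit 0x0) (nat_lit 0x58003c00670033c004000080004000000000000000000) := Q_4 (nat_lit 125) (C_4 L284280 (C_4 L284505 (C_4 L284511 (C_4 L284518 (C_4 L284524 N_4))))) (by decide +kernel)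
theorem L284526 : W_4 (nat_lit 14) (nat_lit 0x10000c0002000000000000000000000000000) (nat_lit 0x0) (nat_lit 0x7e003e00678033c005e006e003e001f00000000000000) := Q_4 (nat_lit 108) (C_4 L284265 (C_4 L284365 (C_4 L284368 (C_4 L284506 (C_4 L284525 N_4))))) (by decide +kernel)
theorem L284529 : W_4 (nat_lit 15) (nat_lit 0x10000c0000000000000000000000000000000) (nat_lit 0x0) (nat_lit 0x10007e003e01e7e073e077e007f003e001f00000000000000) := Q_4 (nat_lit 109) (C_4 L284220 (C_4 L284285 (C_4 L284362 (C_4 L284526 (C_4 L284528 N_4))))) (by decide +kernel)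
theorem L284532 : W_4 (nat_lit 2) (nat_lit 0x12000f0000800000000000000000000000000) (nat_lit 0x0) (nat_lit 0x400100001000000000000000000000000000) := D_4 (nat_lit 128) (nat_lit 108) (nat_lit 142) (nat_lit 0) (nat_lit 9) (nat_lit 7) (nat_lit 1) (nat_lit 9) (nat_lit 7) (by decide +kernel)
theorem L284533 : W_4 (nat_lit 3) (nat_lit 0x10000f0000800000000000000000000000000) (nat_lit 0x0) (nat_lit 0x700100001000000000000000000000000000) := T_4 (nat_lit 141) (nat_lit 140) (nat_lit 1) (nat_lit 8) (nat_lit 7) L284532 (by decide +kernel)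
theorem L284534 : W_4 (nat_lit 4) (nat_lit 0x10000f0000000000000000000000000000000) (nat_lit 0x0) (nat_lit 0x700100001c00000000000000000000000000) := T_4 (nat_lit 107) (nat_lit 106) (nat_lit 0) (nat_lit 8) (nat_lit 7) L284533 (by decide +kernel)
theorem L284550 : W_4 (nat_lit 5) (nat_lit 0x10000e0000000000000000000000000000000) (nat_lit 0x0) (nat_lit 0x2700110001c00000000000000000000000000) := T_4 (nat_lit 124) (nat_lit 145) (nat_lit 3) (nat_lit 5) (nat_lit 7) L284534 (by decide +kernel)
theorem L284579 : W_4 (nat_lit 2) (nat_lit 0x14001e0008000400000000000000000000000) (nat_lit 0x0) (nat_lit 0x20006000000000000000000000000000000000000) := D_4 (nat_lit 145) (nat_lit 146) (nat_lit 161) (nat_lit 3) (nat_lit 6) (nat_lit 7) (nat_lit 5) (nat_lit 9) (nat_lit 5) (by decide +kernel)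
theorem L284580 : W_4 (nat_lit 3) (nat_lit 0x14001e0008000000000000000000000000000) (nat_lit 0x0) (nat_lit 0x20006000000000000400020000000000000000000) := T_4 (nat_lit 94) (nat_lit 77) (nat_lit 5) (nat_lit 9) (nat_lit 4) L284579 (by decide +kernel)
theorem L284581 : W_4 (nat_lit 4) (nat_lit 0x10001e0008000000000000000000000000000) (nat_lit 0x0) (nat_lit 0x20006600000000000400020000000000000000000) := T_4 (nat_lit 142) (nat_lit 141) (nat_lit 1) (nat_lit 9) (nat_lit 7) L284580 (by decide +kernel)
theorem L284582 : W_4 (nat_lit 5) (nat_lit 0x10001e0000000000000000000000000000000) (nat_lit 0x0) (nat_lit 0x20006600000018000400020000000000000000000) := T_4 (nat_lit 111) (nat_lit 112) (nat_lit 2) (nat_lit 6) (nat_lit 7) L284581 (by decide +kernel)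
theorem L284798 : W_4 (nat_lit 2) (nat_lit 0x12000d0003800080000000000000000000000) (nat_lit 0x0) (nat_lit 0x40004000200000000000000) := D_4 (nat_lit 74) (nat_lit 57) (nat_lit 90) (nat_lit 7) (nat_lit 6) (nat_lit 3) (nat_lit 6) (nat_lit 5) (nat_lit 8) (by decide +kernel)
theorem L288026 : W_4 (nat_lit 2) (nat_lit 0x4000000012400fc002400000000000000000000000000) (nat_lit 0x0) (nat_lit 0x420002000000000000000000000000000000) := D_4 (nat_lit 121) (nat_lit 142) (nat_lit 137) (nat_lit 3) (nat_lit 2) (nat_lit 7) (nat_lit 1) (nat_lit 5) (nat_lit 7) (by decide +kernel)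
theorem L288027 : W_4 (nat_lit 3) (nat_lit 0x4000000012000fc002400000000000000000000000000) (nat_lit 0x0) (nat_lit 0x4e0002000000000000000000000000000000) := T_4 (nat_lit 138) (nat_lit 139) (nat_lit 1) (nat_lit 6) (nat_lit 7) L288026 (by decide +kernel)
theorem L288028 : W_4 (nat_lit 4) (nat_lit 0x4000000012000f8002400000000000000000000000000) (nat_lit 0x0) (nat_lit 0x4e0006001000000000000000000000000000) := T_4 (nat_lit 122) (nat_lit 108) (nat_lit 2) (nat_lit 3) (nat_lit 7) L288027 (by decide +kernel)
theorem L288029 : W_4 (nat_lit 5) (nat_lit 0x4000000012000f0002400000000000000000000000000) (nat_lit 0x0) (nat_lit 0x4e000e001200000000000000000000000000) := T_4 (nat_lit 123) (nat_lit 105) (nat_lit 0) (nat_lit 7) (nat_lit 7) L288028 (by decide +kernel)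
theorem L289539 : W_4 (nat_lit 2) (nat_lit 0x40016000d0002800060000000000000000000000) (nat_lit 0x0) (nat_lit 0x40002000100000000000000000000000000000000000) := D_4 (nat_lit 157) (nat_lit 140) (nat_lit 174) (nat_lit 5) (nat_lit 5) (nat_lit 5) (nat_lit 5) (nat_lit 5) (nat_lit 6) (by decide +kernel)
theorem L289540 : W_4 (nat_lit 3) (nat_lit 0x16000d0002800060000000000000000000000) (nat_lit 0x0) (nat_lit 0x40006000100000000400000000000000000000000000) := T_4 (nat_lit 158) (nat_lit 106) (nat_lit 4) (nat_lit 5) (nat_lit 9) L289539 (by decide +kernel)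
theorem L289541 : W_4 (nat_lit 4) (nat_lit 0x12000d0002800060000000000000000000000) (nat_lit 0x0) (nat_lit 0x4000e000500000000400000000000000000000000000) := T_4 (nat_lit 142) (nat_lit 159) (nat_lit 7) (nat_lit 5) (nat_lit 5) L289540 (by decide +kernel)
theorem L289542 : W_4 (nat_lit 5) (nat_lit 0x12000d0002800040000000000000000000000) (nat_lit 0x0) (nat_lit 0x4000e000500000000400020001000000000000000000) := T_4 (nat_lit 89) (nat_lit 72) (nat_lit 4) (nat_lit 5) (nat_lit 8) L289541 (by decide +kernel)
theorem L290890 : W_4 (nat_lit 2) (nat_lit 0x4000000017000d0002800040004000000000000000000) (nat_lit 0x0) (nat_lit 0x8000000000002000200000000000000) := D_4 (nat_lit 73) (nat_lit 123) (nat_lit 57) (nat_lit 5) (nat_lit 5) (nat_lit 4) (nat_lit 6) (nat_lit 5) (nat_lit 7) (by decide +kernel)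
theorem L290891 : W_4 (nat_lit 3) (nat_lit 0x4000000016000d0002800040004000000000000000000) (nat_lit 0x0) (nat_lit 0x2000100008000000000002000200000000000000) := T_4 (nat_lit 140) (nat_lit 157) (nat_lit 5) (nat_lit 5) (nat_lit 5) L290890 (by decide +kernel)
theorem L290892 : W_4 (nat_lit 4) (nat_lit 0x4000000016000d0002800040000000000000000000000) (nat_lit 0x0) (nat_lit 0x2000100008000000080006000200000000000000) := T_4 (nat_lit 74) (nat_lit 91) (nat_lit 6) (nat_lit 5) (nat_lit 8) L290891 (by decide +kernel)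
theorem L290896 : W_4 (nat_lit 2) (nat_lit 0x800040012000d0002c00000000000000000000000000) (nat_lit 0x0) (nat_lit 0x2000100008000000000000000000000000000000000000000) := D_4 (nat_lit 176) (nat_lit 159) (nat_lit 193) (nat_lit 7) (nat_lit 5) (nat_lit 6) (nat_lit 7) (nat_lit 5) (nat_lit 7) (by decide +kernel)
theorem L290897 : W_4 (nat_lit 3) (nat_lit 0x40012000d0002c00000000000000000000000000) (nat_lit 0x0) (nat_lit 0x2000180008000000008000000000000000000000000000000) := T_4 (nat_lit 175) (nat_lit 123) (nat_lit 4) (nat_lit 5) (nat_lit 10) L290896 (by decide +kernel)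
theorem L290898 : W_4 (nat_lit 4) (nat_lit 0x12000d0002c00000000000000000000000000) (nat_lit 0x0) (nat_lit 0x200018000c000000008000000020000000000000000000000) := T_4 (nat_lit 158) (nat_lit 89) (nat_lit 4) (nat_lit 5) (nat_lit 9) L290897 (by decide +kernel)
theorem L290899 : W_4 (nat_lit 5) (nat_lit 0x12000d0002800000000000000000000000000) (nat_lit 0x0) (nat_lit 0x200018000c000000008001400020000000000000000000000) := T_4 (nat_lit 106) (nat_lit 108) (nat_lit 3) (nat_lit 4) (nat_lit 6) L290898 (by decide +kernel)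
theorem L290900 : W_4 (nat_lit 2) (nat_lit 0x4800040012000d0002c00000000000000000000000000) (nat_lit 0x0) (nat_lit 0x800040002000000000000000000000000000000000000000) := D_4 (nat_lit 174) (nat_lit 157) (nat_lit 191) (nat_lit 5) (nat_lit 5) (nat_lit 6) (nat_lit 5) (nat_lit 5) (nat_lit 7) (by decide +kernel)
theorem L290901 : W_4 (nat_lit 3) (nat_lit 0x4000040012000d0002c00000000000000000000000000) (nat_lit 0x0) (nat_lit 0x8000c0002000000008000000000000000000000000000000) := T_4 (nat_lit 175) (nat_lit 123) (nat_lit 4) (nat_lit 5) (nat_lit 10) L290900 (by decide +kernel)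
theorem L290902 : W_4 (nat_lit 4) (nat_lit 0x4000000012000d0002c00000000000000000000000000) (nat_lit 0x0) (nat_lit 0x8000c0006000000008000000020000000000000000000000) := T_4 (nat_lit 158) (nat_lit 89) (nat_lit 4) (nat_lit 5) (nat_lit 9) L290901 (by decide +kernel)
theorem L290903 : W_4 (nat_lit 5) (nat_lit 0x12000d0002c00000000000000000000000000) (nat_lit 0x0) (nat_lit 0x8004c0026000000008000000020000000000000000000000) := T_4 (nat_lit 178) (nat_lit 161) (nat_lit 4) (nat_lit 8) (nat_lit 10) L290902 (by decide +kernel)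
theorem L290904 : W_4 (nat_lit 6) (nat_lit 0x12000d0002800000000000000000000000000) (nat_lit 0x0) (nat_lit 0x8004c0026000000008001400020000000000000000000000) := T_4 (nat_lit 106) (nat_lit 108) (nat_lit 3) (nat_lit 4) (nat_lit 6) L290903 (by decide +kernel)
theorem L290936 : W_4 (nat_lit 2) (nat_lit 0x4000000017000d00038000c0000000000000000000000) (nat_lit 0x0) (nat_lit 0x30001000000000000000000) := D_4 (nat_lit 89) (nat_lit 72) (nat_lit 88) (nat_lit 4) (nat_lit 5) (nat_lit 8) (nat_lit 3) (nat_lit 3) (nat_lit 5) (by decide +kernel)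
theorem L290937 : W_4 (nat_lit 3) (nat_lit 0x4000000017000d00028000c0000000000000000000000) (nat_lit 0x0) (nat_lit 0x4000000000001000030001000000000000000000) := T_4 (nat_lit 108) (nat_lit 158) (nat_lit 6) (nat_lit 5) (nat_lit 9) L290936 (by decide +kernel)
theorem L290967 : W_4 (nat_lit 2) (nat_lit 0x4000040012000d0002800060000000000000000000000) (nat_lit 0x0) (nat_lit 0x40002000100000000000000000000000000000000000) := D_4 (nat_lit 157) (nat_lit 140) (nat_lit 174) (nat_lit 5) (nat_lit 5) (nat_lit 5) (nat_lit 5) (nat_lit 5) (nat_lit 6) (by decide +kernel)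
theorem L290968 : W_4 (nat_lit 3) (nat_lit 0x4000000012000d0002800060000000000000000000000) (nat_lit 0x0) (nat_lit 0x40006000100000000400000000000000000000000000) := T_4 (nat_lit 158) (nat_lit 106) (nat_lit 4) (nat_lit 5) (nat_lit 9) L290967 (by decide +kernel)
theorem L290969 : W_4 (nat_lit 4) (nat_lit 0x12000d0002800060000000000000000000000) (nat_lit 0x0) (nat_lit 0x440026000100000000400000000000000000000000000) := T_4 (nat_lit 178) (nat_lit 161) (nat_lit 4) (nat_lit 8) (nat_lit 10) L290968 (by decide +kernel)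
theorem L290970 : W_4 (nat_lit 5) (nat_lit 0x12000d0002800040000000000000000000000) (nat_lit 0x0) (nat_lit 0x440026000100000000400020001000000000000000000) := T_4 (nat_lit 89) (nat_lit 72) (nat_lit 4) (nat_lit 5) (nat_lit 8) L290969 (by decide +kernel)
theorem L301775 : W_4 (nat_lit 2) (nat_lit 0x4000060012000d0003800040000000000000000000000) (nat_lit 0x0) (nat_lit 0x100008000400000000000000000000000000000000000) := D_4 (nat_lit 159) (nat_lit 176) (nat_lit 142) (nat_lit 7) (nat_lit 5) (nat_lit 6) (nat_lit 7) (nat_lit 5) (nat_lit 5) (by decide +kernel)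
theorem L301776 : W_4 (nat_lit 3) (nat_lit 0x4000060012000d0003800000000000000000000000000) (nat_lit 0x0) (nat_lit 0x100008000500000000000040000000000000000000000) := T_4 (nat_lit 90) (nat_lit 140) (nat_lit 5) (nat_lit 5) (nat_lit 5) L301775 (by decide +kernel)
theorem L301777 : W_4 (nat_lit 4) (nat_lit 0x4000040012000d0003800000000000000000000000000) (nat_lit 0x0) (nat_lit 0x14000a000500000000000040000000000000000000000) := T_4 (nat_lit 157) (nat_lit 174) (nat_lit 5) (nat_lit 5) (nat_lit 6) L301776 (by decide +kernel)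
theorem L301778 : W_4 (nat_lit 5) (nat_lit 0x4000000012000d0003800000000000000000000000000) (nat_lit 0x0) (nat_lit 0x14000e0005000000000000c0000000000000000000000) := T_4 (nat_lit 158) (nat_lit 91) (nat_lit 6) (nat_lit 5) (nat_lit 9) L301777 (by decide +kernel)
theorem L301779 : W_4 (nat_lit 6) (nat_lit 0x12000d0003800000000000000000000000000) (nat_lit 0x0) (nat_lit 0x54002e0005000000000000c0000000000000000000000) := T_4 (nat_lit 178) (nat_lit 161) (nat_lit 4) (nat_lit 8) (nat_lit 10) L301778 (by decide +kernel)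
theorem L302103 : W_4 (nat_lit 7) (nat_lit 0x12000d0002800000000000000000000000000) (nat_lit 0x0) (nat_lit 0x54002e0005000000014000c0000000000000000000000) := T_4 (nat_lit 108) (nat_lit 106) (nat_lit 3) (nat_lit 4) (nat_lit 6) L301779 (by decide +kernel)
theorem L302221 : W_4 (nat_lit 2) (nat_lit 0x4400040012000d0002c00000000000000000000000000) (nat_lit 0x0) (nat_lit 0x800080000000000008000000000000000000000000000000) := D_4 (nat_lit 175) (nat_lit 191) (nat_lit 123) (nat_lit 5) (nat_lit 5) (nat_lit 7) (nat_lit 4) (nat_lit 5) (nat_lit 10) (by decide +kernel)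
theorem L302222 : W_4 (nat_lit 3) (nat_lit 0x4400040012000d0002800000000000000000000000000) (nat_lit 0x0) (nat_lit 0x800080000000000008000400020000000000000000000000) := T_4 (nat_lit 106) (nat_lit 89) (nat_lit 4) (nat_lit 5) (nat_lit 9) L302221 (by decide +kernel)
theorem L302223 : W_4 (nat_lit 4) (nat_lit 0x4000040012000d0002800000000000000000000000000) (nat_lit 0x0) (nat_lit 0x8000c0002000000008000400020000000000000000000000) := T_4 (nat_lit 174) (nat_lit 157) (nat_lit 5) (nat_lit 5) (nat_lit 6) L302222 (by decide +kernel)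
theorem L302224 : W_4 (nat_lit 5) (nat_lit 0x40012000d0002800000000000000000000000000) (nat_lit 0x0) (nat_lit 0x8004c0022000000008000400020000000000000000000000) := T_4 (nat_lit 178) (nat_lit 161) (nat_lit 4) (nat_lit 8) (nat_lit 10) L302223 (by decide +kernel)
theorem L302265 : W_4 (nat_lit 2) (nat_lit 0xc0012000d0002800040000000000000000000000) (nat_lit 0x0) (nat_lit 0x400020001000000000000000000) := D_4 (nat_lit 89) (nat_lit 106) (nat_lit 72) (nat_lit 4) (nat_lit 5) (nat_lit 9) (nat_lit 4) (nat_lit 5) (nat_lit 8) (by decide +kernel)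
theorem L302266 : W_4 (nat_lit 3) (nat_lit 0xc0012000d0002800000000000000000000000000) (nat_lit 0x0) (nat_lit 0x400000000400060001000000000000000000) := T_4 (nat_lit 90) (nat_lit 142) (nat_lit 7) (nat_lit 5) (nat_lit 5) L302265 (by decide +kernel)
theorem L302267 : W_4 (nat_lit 4) (nat_lit 0x40012000d0002800000000000000000000000000) (nat_lit 0x0) (nat_lit 0x100008000400000000400060001000000000000000000) := T_4 (nat_lit 159) (nat_lit 176) (nat_lit 7) (nat_lit 5) (nat_lit 6) L302266 (by decide +kernel)
theorem L302317 : W_4 (nat_lit 2) (nat_lit 0x5000040012000d0002c00000000000000000000000000) (nat_lit 0x0) (nat_lit 0x2000080000000000008000000000000000000000000000000) := D_4 (nat_lit 175) (nat_lit 193) (nat_lit 123) (nat_lit 7) (nat_lit 5) (nat_lit 7) (nat_lit 4) (nat_lit 5) (nat_lit 10) (by decide +kernel)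
theorem L302318 : W_4 (nat_lit 3) (nat_lit 0x5000040012000d0002800000000000000000000000000) (nat_lit 0x0) (nat_lit 0x2000080000000000008000400020000000000000000000000) := T_4 (nat_lit 106) (nat_lit 89) (nat_lit 4) (nat_lit 5) (nat_lit 9) L302317 (by decide +kernel)
theorem L302319 : W_4 (nat_lit 4) (nat_lit 0x4000040012000d0002800000000000000000000000000) (nat_lit 0x0) (nat_lit 0x2000180008000000008000400020000000000000000000000) := T_4 (nat_lit 176) (nat_lit 159) (nat_lit 7) (nat_lit 5) (nat_lit 6) L302318 (by decide +kernel)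
theorem L302320 : W_4 (nat_lit 5) (nat_lit 0x40012000d0002800000000000000000000000000) (nat_lit 0x0) (nat_lit 0x2000580028000000008000400020000000000000000000000) := T_4 (nat_lit 178) (nat_lit 161) (nat_lit 4) (nat_lit 8) (nat_lit 10) L302319 (by decide +kernel)
theorem L303806 : W_4 (nat_lit 6) (nat_lit 0x4000000012000f0002000000000000000000000000000) (nat_lit 0x0) (nat_lit 0x4e000e001e00000000000000000000000000) := T_4 (nat_lit 106) (nat_lit 107) (nat_lit 0) (nat_lit 8) (nat_lit 7) L288029 (by decide +kernel)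
theorem L303807 : W_4 (nat_lit 7) (nat_lit 0x4000000012000e0002000000000000000000000000000) (nat_lit 0x0) (nat_lit 0x5e001e001e00000000000000000000000000) := T_4 (nat_lit 124) (nat_lit 140) (nat_lit 1) (nat_lit 8) (nat_lit 7) L303806 (by decide +kernel)
theorem L303808 : W_4 (nat_lit 8) (nat_lit 0x12000e0002000000000000000000000000000) (nat_lit 0x0) (nat_lit 0x4000200005e001e001e00000000000000000000000000) := T_4 (nat_lit 178) (nat_lit 161) (nat_lit 4) (nat_lit 8) (nat_lit 10) L303807 (by decide +kernel)
theorem L304939 : W_4 (nat_lit 3) (nat_lit 0x12000d0003800000000000000000000000000) (nat_lit 0x0) (nat_lit 0x40000000000000000c0004000200000000000000) := T_4 (nat_lit 91) (nat_lit 158) (nat_lit 6) (nat_lit 5) (nat_lit 9) L284798 (by decide +kernel)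
theorem L317312 : W_4 (nat_lit 2) (nat_lit 0x200010000c0024000000000000000000000000000) (nat_lit 0x0) (nat_lit 0x18000400000000000000000000000) := D_4 (nat_lit 111) (nat_lit 94) (nat_lit 112) (nat_lit 6) (nat_lit 8) (nat_lit 9) (nat_lit 1) (nat_lit 11) (nat_lit 6) (by decide +kernel)
theorem L317463 : W_4 (nat_lit 2) (nat_lit 0x200010000c0004000300010000000000000000000) (nat_lit 0x0) (nat_lit 0x400020001000000000000000) := D_4 (nat_lit 77) (nat_lit 94) (nat_lit 60) (nat_lit 6) (nat_lit 8) (nat_lit 8) (nat_lit 6) (nat_lit 8) (nat_lit 7) (by decide +kernel)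
theorem L317904 : W_4 (nat_lit 2) (nat_lit 0xe000300010001e0000000000000000000000000000000) (nat_lit 0x0) (nat_lit 0x100000c000000000000000000000000000000000000000) := D_4 (nat_lit 159) (nat_lit 158) (nat_lit 180) (nat_lit 3) (nat_lit 5) (nat_lit 9) (nat_lit 0) (nat_lit 10) (nat_lit 10) (by decide +kernel)
theorem L317905 : W_4 (nat_lit 3) (nat_lit 0xe000200010001e0000000000000000000000000000000) (nat_lit 0x0) (nat_lit 0x100001c000000000004000000000000000000000000000) := T_4 (nat_lit 160) (nat_lit 110) (nat_lit 5) (nat_lit 8) (nat_lit 6) L317904 (by decide +kernel)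
theorem L317906 : W_4 (nat_lit 4) (nat_lit 0xc000200010001e0000000000000000000000000000000) (nat_lit 0x0) (nat_lit 0x400120001c000000000004000000000000000000000000000) := T_4 (nat_lit 177) (nat_lit 194) (nat_lit 5) (nat_lit 8) (nat_lit 7) L317905 (by decide +kernel)
theorem L317907 : W_4 (nat_lit 5) (nat_lit 0x4000200010001e0000000000000000000000000000000) (nat_lit 0x0) (nat_lit 0x14001a0001c000000000004000000000000000000000000000) := T_4 (nat_lit 179) (nat_lit 196) (nat_lit 7) (nat_lit 8) (nat_lit 7) L317906 (by decide +kernel)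
theorem L318627 : W_4 (nat_lit 2) (nat_lit 0x200050003c00100008000a0000000000000000000) (nat_lit 0x0) (nat_lit 0x40005000000000000000) := D_4 (nat_lit 78) (nat_lit 60) (nat_lit 62) (nat_lit 4) (nat_lit 10) (nat_lit 7) (nat_lit 6) (nat_lit 10) (nat_lit 7) (by decide +kernel)
theorem L318628 : W_4 (nat_lit 3) (nat_lit 0x200050003c0010000800020000000000000000000) (nat_lit 0x0) (nat_lit 0x10000c0005000000000000000) := T_4 (nat_lit 79) (nat_lit 96) (nat_lit 6) (nat_lit 10) (nat_lit 8) L318627 (by decide +kernel)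
theorem L318629 : W_4 (nat_lit 4) (nat_lit 0x200050003c0010000800000000000000000000000) (nat_lit 0x0) (nat_lit 0x14000e0005000000000000000) := T_4 (nat_lit 77) (nat_lit 94) (nat_lit 4) (nat_lit 10) (nat_lit 8) L318628 (by decide +kernel)
theorem L318630 : W_4 (nat_lit 5) (nat_lit 0x200010003c0010000800000000000000000000000) (nat_lit 0x0) (nat_lit 0xc0000000000014000e0005000000000000000) := T_4 (nat_lit 146) (nat_lit 147) (nat_lit 3) (nat_lit 7) (nat_lit 7) L318629 (by decide +kernel)
theorem L319722 : W_4 (nat_lit 2) (nat_lit 0x200010007c0020000000000000000000000000000) (nat_lit 0x0) (nat_lit 0x1c000000000000000000000000000000000000) := D_4 (nat_lit 147) (nat_lit 146) (nat_lit 148) (nat_lit 3) (nat_lit 7) (nat_lit 7) (nat_lit 3) (nat_lit 8) (nat_lit 7) (by decide +kernel)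
theorem L319723 : W_4 (nat_lit 3) (nat_lit 0x200010003c0020000000000000000000000000000) (nat_lit 0x0) (nat_lit 0x1c000400040000000000000000000000000000) := T_4 (nat_lit 130) (nat_lit 114) (nat_lit 2) (nat_lit 8) (nat_lit 7) L319722 (by decide +kernel)
theorem L331986 : W_4 (nat_lit 2) (nat_lit 0x140004000200010003c0010000000000000000000000000000) (nat_lit 0x0) (nat_lit 0x280008000000000000000000000000000000000000000000000000) := D_4 (nat_lit 195) (nat_lit 211) (nat_lit 213) (nat_lit 5) (nat_lit 8) (nat_lit 8) (nat_lit 7) (nat_lit 8) (nat_lit 8) (by decide +kernel)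
theorem L331987 : W_4 (nat_lit 3) (nat_lit 0x40004000200010003c0010000000000000000000000000000) (nat_lit 0x0) (nat_lit 0x280018000800000000000000000000000000000000000000000000) := T_4 (nat_lit 196) (nat_lit 179) (nat_lit 7) (nat_lit 8) (nat_lit 7) L331986 (by decide +kernel)
theorem L331988 : W_4 (nat_lit 4) (nat_lit 0x4000200010003c0010000000000000000000000000000) (nat_lit 0x0) (nat_lit 0x28001c000a00000000000000000000000000000000000000000000) := T_4 (nat_lit 194) (nat_lit 177) (nat_lit 5) (nat_lit 8) (nat_lit 7) L331987 (by decide +kernel)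
theorem L337432 : W_4 (nat_lit 2) (nat_lit 0x10000c001e000000000000000000000000000) (nat_lit 0x0) (nat_lit 0x180008000000000000000000) := D_4 (nat_lit 92) (nat_lit 75) (nat_lit 91) (nat_lit 7) (nat_lit 7) (nat_lit 4) (nat_lit 0) (nat_lit 10) (nat_lit 6) (by decide +kernel)
theorem L337433 : W_4 (nat_lit 3) (nat_lit 0x10000c000e000000000000000000000000000) (nat_lit 0x0) (nat_lit 0x30000180008000000000000000000) := T_4 (nat_lit 112) (nat_lit 113) (nat_lit 1) (nat_lit 11) (nat_lit 6) L337432 (by decide +kernel)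
theorem L337460 : W_4 (nat_lit 2) (nat_lit 0x10000d000f000000000000000000000000000) (nat_lit 0x0) (nat_lit 0x8000c00000000000000000000000000) := D_4 (nat_lit 107) (nat_lit 123) (nat_lit 106) (nat_lit 1) (nat_lit 8) (nat_lit 6) (nat_lit 3) (nat_lit 4) (nat_lit 6) (by decide +kernel)
theorem L337461 : W_4 (nat_lit 3) (nat_lit 0x10000c000f000000000000000000000000000) (nat_lit 0x0) (nat_lit 0x38000c00000000000000000000000000) := T_4 (nat_lit 124) (nat_lit 125) (nat_lit 2) (nat_lit 5) (nat_lit 7) L337460 (by decide +kernel)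
theorem L337615 : W_4 (nat_lit 2) (nat_lit 0x10000e0007000000000000000000000000000) (nat_lit 0x0) (nat_lit 0x10018000000000000000000000000000) := D_4 (nat_lit 111) (nat_lit 112) (nat_lit 124) (nat_lit 1) (nat_lit 10) (nat_lit 6) (nat_lit 2) (nat_lit 5) (nat_lit 7) (by decide +kernel)
theorem L338123 : W_4 (nat_lit 2) (nat_lit 0x10000c000e000000000000000000000000000) (nat_lit 0x0) (nat_lit 0x20030000000000000000000000000000) := D_4 (nat_lit 112) (nat_lit 125) (nat_lit 113) (nat_lit 1) (nat_lit 10) (nat_lit 6) (nat_lit 1) (nat_lit 11) (nat_lit 6) (by decide +kernel)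
theorem L339454 : W_4 (nat_lit 2) (nat_lit 0x14003e0010000000000000000000000000000) (nat_lit 0x0) (nat_lit 0xe000000000000000000000000000000000000) := D_4 (nat_lit 146) (nat_lit 145) (nat_lit 147) (nat_lit 3) (nat_lit 6) (nat_lit 7) (nat_lit 3) (nat_lit 7) (nat_lit 7) (by decide +kernel)
theorem L339455 : W_4 (nat_lit 3) (nat_lit 0x14001e0010000000000000000000000000000) (nat_lit 0x0) (nat_lit 0xe000200020000000000000000000000000000) := T_4 (nat_lit 129) (nat_lit 113) (nat_lit 2) (nat_lit 7) (nat_lit 7) L339454 (by decide +kernel)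
theorem L339456 : W_4 (nat_lit 4) (nat_lit 0x10001e0010000000000000000000000000000) (nat_lit 0x0) (nat_lit 0xe600200020000000000000000000000000000) := T_4 (nat_lit 142) (nat_lit 141) (nat_lit 1) (nat_lit 9) (nat_lit 7) L339455 (by decide +kernel)
theorem L339457 : W_4 (nat_lit 5) (nat_lit 0x10001e0000000000000000000000000000000) (nat_lit 0x0) (nat_lit 0xe600200038000000000000000000000000000) := T_4 (nat_lit 112) (nat_lit 111) (nat_lit 2) (nat_lit 6) (nat_lit 7) L339456 (by decide +kernel)
theorem L341989 : W_4 (nat_lit 2) (nat_lit 0x10001f0008000000000000000000000000000) (nat_lit 0x0) (nat_lit 0x700000000000000000000000000000000000) := D_4 (nat_lit 141) (nat_lit 142) (nat_lit 140) (nat_lit 1) (nat_lit 9) (nat_lit 7) (nat_lit 1) (nat_lit 8) (nat_lit 7) (by decide +kernel)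
theorem L342357 : W_4 (nat_lit 2) (nat_lit 0x11001f8009200000000000000000000000000) (nat_lit 0x0) (nat_lit 0x4002100000000000000000000000000) := D_4 (nat_lit 122) (nat_lit 109) (nat_lit 104) (nat_lit 2) (nat_lit 3) (nat_lit 7) (nat_lit 0) (nat_lit 6) (nat_lit 7) (by decide +kernel)
theorem L342358 : W_4 (nat_lit 3) (nat_lit 0x11001f8009000000000000000000000000000) (nat_lit 0x0) (nat_lit 0x4002700000000000000000000000000) := T_4 (nat_lit 105) (nat_lit 106) (nat_lit 0) (nat_lit 7) (nat_lit 7) L342357 (by decide +kernel)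
theorem L342359 : W_4 (nat_lit 4) (nat_lit 0x11001f0009000000000000000000000000000) (nat_lit 0x0) (nat_lit 0x8000c002700000000000000000000000000) := T_4 (nat_lit 123) (nat_lit 139) (nat_lit 1) (nat_lit 7) (nat_lit 7) L342358 (by decide +kernel)
theorem L345888 : W_4 (nat_lit 2) (nat_lit 0x10000e0000c00000000000000000000000000) (nat_lit 0x0) (nat_lit 0x100001200000000000000000000000000) := D_4 (nat_lit 108) (nat_lit 128) (nat_lit 105) (nat_lit 0) (nat_lit 9) (nat_lit 7) (nat_lit 3) (nat_lit 3) (nat_lit 6) (by decide +kernel)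
theorem L345889 : W_4 (nat_lit 3) (nat_lit 0x10000e0000800000000000000000000000000) (nat_lit 0x0) (nat_lit 0x110001600000000000000000000000000) := T_4 (nat_lit 106) (nat_lit 124) (nat_lit 0) (nat_lit 8) (nat_lit 7) L345888 (by decide +kernel)
theorem L345890 : W_4 (nat_lit 2) (nat_lit 0x10000e0000c00000000000000000000000000) (nat_lit 0x0) (nat_lit 0x3200000000000000000000000000) := D_4 (nat_lit 108) (nat_lit 105) (nat_lit 109) (nat_lit 3) (nat_lit 3) (nat_lit 6) (nat_lit 3) (nat_lit 4) (nat_lit 6) (by decide +kernel)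
theorem L345891 : W_4 (nat_lit 3) (nat_lit 0x10000e0000800000000000000000000000000) (nat_lit 0x0) (nat_lit 0x10003600000000000000000000000000) := T_4 (nat_lit 106) (nat_lit 124) (nat_lit 0) (nat_lit 8) (nat_lit 7) L345890 (by decide +kernel)
theorem L345892 : W_4 (nat_lit 5) (nat_lit 0x10000e0000800000000000000000000000000) (nat_lit 0x0) (nat_lit 0x100008000700110000400040000000000000000000000) := T_4 (nat_lit 124) (nat_lit 106) (nat_lit 0) (nat_lit 8) (nat_lit 7) L342139 (by decide +kernel)
theorem L345893 : W_4 (nat_lit 2) (nat_lit 0x10000e0001800000000000000000000000000) (nat_lit 0x0) (nat_lit 0x2600000000000000000000000000) := D_4 (nat_lit 106) (nat_lit 105) (nat_lit 109) (nat_lit 3) (nat_lit 3) (nat_lit 6) (nat_lit 3) (nat_lit 4) (nat_lit 6) (by decide +kernel)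
theorem L345894 : W_4 (nat_lit 3) (nat_lit 0x10000e0000800000000000000000000000000) (nat_lit 0x0) (nat_lit 0x100003600000000000000000000000000) := T_4 (nat_lit 108) (nat_lit 128) (nat_lit 0) (nat_lit 9) (nat_lit 7) L345893 (by decide +kernel)
theorem L345895 : W_4 (nat_lit 2) (nat_lit 0x14000e0000800000000000000000000000000) (nat_lit 0x0) (nat_lit 0x200100001000000000000000000000000000) := D_4 (nat_lit 128) (nat_lit 108) (nat_lit 141) (nat_lit 0) (nat_lit 9) (nat_lit 7) (nat_lit 1) (nat_lit 9) (nat_lit 7) (by decide +kernel)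
theorem L345896 : W_4 (nat_lit 2) (nat_lit 0x80014000e0001800000000000000000000000000) (nat_lit 0x0) (nat_lit 0x100000000000010002000000000000000000000000000) := D_4 (nat_lit 176) (nat_lit 124) (nat_lit 109) (nat_lit 4) (nat_lit 6) (nat_lit 10) (nat_lit 6) (nat_lit 6) (nat_lit 10) (by decide +kernel)
theorem L345897 : W_4 (nat_lit 3) (nat_lit 0x14000e0001800000000000000000000000000) (nat_lit 0x0) (nat_lit 0x100008000000010002000040000000000000000000000) := T_4 (nat_lit 159) (nat_lit 90) (nat_lit 4) (nat_lit 6) (nat_lit 9) L345896 (by decide +kernel)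
theorem L345898 : W_4 (nat_lit 4) (nat_lit 0x14000e0000800000000000000000000000000) (nat_lit 0x0) (nat_lit 0x100008000000110003000040000000000000000000000) := T_4 (nat_lit 108) (nat_lit 128) (nat_lit 0) (nat_lit 9) (nat_lit 7) L345897 (by decide +kernel)
theorem L345899 : W_4 (nat_lit 2) (nat_lit 0x80014000e0000800000000000000000000000000) (nat_lit 0x0) (nat_lit 0x100000000000010002000000000000000000000000000) := D_4 (nat_lit 176) (nat_lit 124) (nat_lit 109) (nat_lit 4) (nat_lit 6) (nat_lit 10) (nat_lit 6) (nat_lit 6) (nat_lit 10) (by decide +kernel)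
theorem L345900 : W_4 (nat_lit 2) (nat_lit 0x80014000e0001800000000000000000000000000) (nat_lit 0x0) (nat_lit 0x100000000000000002000100000000000000000000000) := D_4 (nat_lit 109) (nat_lit 176) (nat_lit 92) (nat_lit 6) (nat_lit 6) (nat_lit 10) (nat_lit 6) (nat_lit 6) (nat_lit 9) (by decide +kernel)
theorem L345901 : W_4 (nat_lit 3) (nat_lit 0x80014000e0000800000000000000000000000000) (nat_lit 0x0) (nat_lit 0x100000000000000003000140000000000000000000000) := T_4 (nat_lit 108) (nat_lit 90) (nat_lit 4) (nat_lit 6) (nat_lit 9) L345900 (by decide +kernel)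
theorem L345902 : W_4 (nat_lit 2) (nat_lit 0x1000080014000e0001800000000000000000000000000) (nat_lit 0x0) (nat_lit 0x4000200010000000000000000000000000000000000000000) := D_4 (nat_lit 177) (nat_lit 194) (nat_lit 160) (nat_lit 7) (nat_lit 6) (nat_lit 7) (nat_lit 7) (nat_lit 6) (nat_lit 6) (by decide +kernel)
theorem L345903 : W_4 (nat_lit 3) (nat_lit 0x1000080014000e0000800000000000000000000000000) (nat_lit 0x0) (nat_lit 0x4000200010000000000001000040000000000000000000000) := T_4 (nat_lit 108) (nat_lit 90) (nat_lit 4) (nat_lit 6) (nat_lit 9) L345902 (by decide +kernel)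
theorem L345904 : W_4 (nat_lit 4) (nat_lit 0x80014000e0000800000000000000000000000000) (nat_lit 0x0) (nat_lit 0x4000300010000000010001000040000000000000000000000) := T_4 (nat_lit 176) (nat_lit 124) (nat_lit 4) (nat_lit 6) (nat_lit 10) L345903 (by decide +kernel)
theorem L345905 : W_4 (nat_lit 2) (nat_lit 0xc0014000e0001800080000000000000000000000) (nat_lit 0x0) (nat_lit 0x2000100008000000000000000000) := D_4 (nat_lit 92) (nat_lit 109) (nat_lit 75) (nat_lit 6) (nat_lit 6) (nat_lit 9) (nat_lit 6) (nat_lit 6) (nat_lit 8) (by decide +kernel)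
theorem L345906 : W_4 (nat_lit 3) (nat_lit 0xc0014000e0001800000000000000000000000000) (nat_lit 0x0) (nat_lit 0x200000002000180008000000000000000000) := T_4 (nat_lit 91) (nat_lit 141) (nat_lit 5) (nat_lit 6) (nat_lit 5) L345905 (by decide +kernel)
theorem L345907 : W_4 (nat_lit 4) (nat_lit 0x80014000e0001800000000000000000000000000) (nat_lit 0x0) (nat_lit 0x80004000200000002000180008000000000000000000) := T_4 (nat_lit 158) (nat_lit 175) (nat_lit 5) (nat_lit 6) (nat_lit 6) L345906 (by decide +kernel)
theorem L345908 : W_4 (nat_lit 5) (nat_lit 0x80014000e0000800000000000000000000000000) (nat_lit 0x0) (nat_lit 0x800040002000000030001c0008000000000000000000) := T_4 (nat_lit 108) (nat_lit 90) (nat_lit 4) (nat_lit 6) (nat_lit 9) L345907 (by decide +kernel)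
theorem L345909 : W_4 (nat_lit 6) (nat_lit 0x14000e0000800000000000000000000000000) (nat_lit 0x0) (nat_lit 0x400038001c0002000100030001c0008000000000000000000) := Q_4 (nat_lit 159) (C_4 L345899 (C_4 L345901 (C_4 L345904 (C_4 L345908 N_4)))) (by decide +kernel)
theorem L345910 : W_4 (nat_lit 2) (nat_lit 0x16000e0000800000000000000000000000000) (nat_lit 0x0) (nat_lit 0x180010000000000000000000000000000000) := D_4 (nat_lit 140) (nat_lit 124) (nat_lit 139) (nat_lit 1) (nat_lit 8) (nat_lit 7) (nat_lit 2) (nat_lit 3) (nat_lit 8) (by decide +kernel)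
theorem L345911 : W_4 (nat_lit 3) (nat_lit 0x14000e0000800000000000000000000000000) (nat_lit 0x0) (nat_lit 0x380110000000000000000000000000000000) := T_4 (nat_lit 141) (nat_lit 128) (nat_lit 1) (nat_lit 9) (nat_lit 7) L345910 (by decide +kernel)
theorem L345912 : W_4 (nat_lit 7) (nat_lit 0x10000e0000800000000000000000000000000) (nat_lit 0x0) (nat_lit 0x400038001c0007801100030001c0008000000000000000000) := Q_4 (nat_lit 142) (C_4 L345895 (C_4 L345898 (C_4 L345909 (C_4 L345911 N_4)))) (by decide +kernel)
theorem L345913 : W_4 (nat_lit 8) (nat_lit 0x10000e0000000000000000000000000000000) (nat_lit 0x0) (nat_lit 0x400038001c000780110003e001c0008000000000000000000) := Q_4 (nat_lit 107) (C_4 L345889 (C_4 L345891 (C_4 L345892 (C_4 L345894 (C_4 L345912 N_4))))) (by decide +kernel)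
theorem L345916 : W_4 (nat_lit 7) (nat_lit 0x10000e0000000000000000000000000000000) (nat_lit 0x0) (nat_lit 0x2800e60030003b800500028000000000000000000) := Q_4 (nat_lit 128) (C_4 L339457 (C_4 L339462 (C_4 L284582 (C_4 L284587 N_4)))) (by decide +kernel)
theorem L345919 : W_4 (nat_lit 9) (nat_lit 0x10000c0000000000000000000000000000000) (nat_lit 0x0) (nat_lit 0x400038003c00e7c033e03bf005c0028000000000000000000) := Q_4 (nat_lit 125) (C_4 L284550 (C_4 L345913 (C_4 L345914 (C_4 L345915 (C_4 L345916 (C_4 L345918 N_4)))))) (by decide +kernel)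
theorem L346725 : W_4 (nat_lit 6) (nat_lit 0x4000000010000d0002000000000000000000000000000) (nat_lit 0x0) (nat_lit 0x238002c001700000000000000000000000000) := T_4 (nat_lit 125) (nat_lit 145) (nat_lit 3) (nat_lit 5) (nat_lit 7) L346064 (by decide +kernel)
theorem L346726 : W_4 (nat_lit 7) (nat_lit 0x10000d0002000000000000000000000000000) (nat_lit 0x0) (nat_lit 0x40002000238002c001700000000000000000000000000) := T_4 (nat_lit 178) (nat_lit 161) (nat_lit 4) (nat_lit 8) (nat_lit 10) L346725 (by decide +kernel)
theorem L356231 : W_4 (nat_lit 2) (nat_lit 0x80004000200030000c0000000000000000000000000000000) (nat_lit 0x0) (nat_lit 0x200010000800000000000000000000000000000000000000000000) := D_4 (nat_lit 196) (nat_lit 179) (nat_lit 213) (nat_lit 7) (nat_lit 8) (nat_lit 7) (nat_lit 7) (nat_lit 8) (nat_lit 8) (by decide +kernel)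
theorem L356498 : W_4 (nat_lit 2) (nat_lit 0x80004000200030000d0000000000000000000000000000000) (nat_lit 0x0) (nat_lit 0x80004000200000000000000000000000000000000000000000000) := D_4 (nat_lit 194) (nat_lit 177) (nat_lit 211) (nat_lit 5) (nat_lit 8) (nat_lit 7) (nat_lit 5) (nat_lit 8) (nat_lit 8) (by decide +kernel)
theorem L382719 : W_4 (nat_lit 2) (nat_lit 0x10000c000f800000008000000000000000000) (nat_lit 0x0) (nat_lit 0xe0000000000000000000000) := D_4 (nat_lit 90) (nat_lit 91) (nat_lit 89) (nat_lit 0) (nat_lit 9) (nat_lit 6) (nat_lit 0) (nat_lit 8) (nat_lit 6) (by decide +kernel)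
theorem L382720 : W_4 (nat_lit 3) (nat_lit 0x10000c000f000000008000000000000000000) (nat_lit 0x0) (nat_lit 0xc000e0000000000000000000000) := T_4 (nat_lit 107) (nat_lit 106) (nat_lit 3) (nat_lit 4) (nat_lit 6) L382719 (by decide +kernel)
theorem L382721 : W_4 (nat_lit 4) (nat_lit 0x10000c000f000000000000000000000000000) (nat_lit 0x0) (nat_lit 0xc001e0008000000000000000000) := T_4 (nat_lit 75) (nat_lit 92) (nat_lit 7) (nat_lit 7) (nat_lit 4) L382720 (by decide +kernel)
theorem L382722 : W_4 (nat_lit 2) (nat_lit 0x10000e000f000080004000000000000000000) (nat_lit 0x0) (nat_lit 0x100008000400000000000000) := D_4 (nat_lit 75) (nat_lit 92) (nat_lit 58) (nat_lit 7) (nat_lit 7) (nat_lit 4) (nat_lit 6) (nat_lit 6) (nat_lit 7) (by decide +kernel)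
theorem L382723 : W_4 (nat_lit 3) (nat_lit 0x10000e000f000080000000000000000000000) (nat_lit 0x0) (nat_lit 0x10000c000600000000000000) := T_4 (nat_lit 74) (nat_lit 57) (nat_lit 7) (nat_lit 6) (nat_lit 3) L382722 (by decide +kernel)
theorem L382724 : W_4 (nat_lit 4) (nat_lit 0x10000c000f000080000000000000000000000) (nat_lit 0x0) (nat_lit 0x3000000010000c000600000000000000) := T_4 (nat_lit 125) (nat_lit 124) (nat_lit 2) (nat_lit 5) (nat_lit 7) L382723 (by decide +kernel)
theorem L382725 : W_4 (nat_lit 5) (nat_lit 0x10000c000f000000000000000000000000000) (nat_lit 0x0) (nat_lit 0x300000001c000c000600000000000000) := T_4 (nat_lit 91) (nat_lit 90) (nat_lit 0) (nat_lit 9) (nat_lit 6) L382724 (by decide +kernel)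
theorem L382726 : W_4 (nat_lit 6) (nat_lit 0x10000c000e000000000000000000000000000) (nat_lit 0x0) (nat_lit 0x38001c001e000c000600000000000000) := Q_4 (nat_lit 108) (C_4 L337461 (C_4 L382721 (C_4 L382725 N_4))) (by decide +kernel)
theorem L382727 : W_4 (nat_lit 7) (nat_lit 0x10000c0006000000000000000000000000000) (nat_lit 0x0) (nat_lit 0x38039c001e000c000600000000000000) := Q_4 (nat_lit 111) (C_4 L338123 (C_4 L337433 (C_4 L382726 N_4))) (by decide +kernel)
theorem L501802 : W_4 (nat_lit 6) (nat_lit 0x200010001e0000000000000000000000000000000) (nat_lit 0x0) (nat_lit 0x14001e0001c000000000006000000000000000000000000000) := T_4 (nat_lit 178) (nat_lit 109) (nat_lit 4) (nat_lit 8) (nat_lit 10) L317907 (by decide +kernel)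
theorem L501836 : W_4 (nat_lit 2) (nat_lit 0x200010001e0002000000000000000000000000000) (nat_lit 0x0) (nat_lit 0x4000100008000000000000000000) := D_4 (nat_lit 92) (nat_lit 75) (nat_lit 110) (nat_lit 7) (nat_lit 7) (nat_lit 4) (nat_lit 4) (nat_lit 8) (nat_lit 9) (by decide +kernel)
theorem L504561 : W_4 (nat_lit 5) (nat_lit 0x200010003c0010000000000000000000000000000) (nat_lit 0x0) (nat_lit 0x28001c000e00000000000000002000000000000000000000000000) := T_4 (nat_lit 178) (nat_lit 109) (nat_lit 4) (nat_lit 8) (nat_lit 10) L331988 (by decide +kernel)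
theorem L504562 : W_4 (nat_lit 6) (nat_lit 0x200010003c0000000000000000000000000000000) (nat_lit 0x0) (nat_lit 0x28001c000e00000000000000032000000000000000000000000000) := T_4 (nat_lit 112) (nat_lit 113) (nat_lit 2) (nat_lit 7) (nat_lit 7) L504561 (by decide +kernel)
theorem L504592 : W_4 (nat_lit 2) (nat_lit 0x300052003f0004400000000000000000000000000) (nat_lit 0x0) (nat_lit 0x8002200000000000000000000000000) := D_4 (nat_lit 123) (nat_lit 109) (nat_lit 105) (nat_lit 2) (nat_lit 4) (nat_lit 7) (nat_lit 0) (nat_lit 7) (nat_lit 7) (by decide +kernel)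
theorem L504593 : W_4 (nat_lit 3) (nat_lit 0x300052003f0004000000000000000000000000000) (nat_lit 0x0) (nat_lit 0x8002e00000000000000000000000000) := T_4 (nat_lit 106) (nat_lit 107) (nat_lit 0) (nat_lit 8) (nat_lit 7) L504592 (by decide +kernel)
theorem L504594 : W_4 (nat_lit 4) (nat_lit 0x300052003e0004000000000000000000000000000) (nat_lit 0x0) (nat_lit 0x100018002e00000000000000000000000000) := T_4 (nat_lit 124) (nat_lit 140) (nat_lit 1) (nat_lit 8) (nat_lit 7) L504593 (by decide +kernel)
theorem L504595 : W_4 (nat_lit 5) (nat_lit 0x200052003e0004000000000000000000000000000) (nat_lit 0x0) (nat_lit 0x200010000100018002e00000000000000000000000000) := T_4 (nat_lit 160) (nat_lit 177) (nat_lit 5) (nat_lit 8) (nat_lit 6) L504594 (by decide +kernel)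
theorem L504596 : W_4 (nat_lit 6) (nat_lit 0x200050003e0004000000000000000000000000000) (nat_lit 0x0) (nat_lit 0x200010000700018002e00000000000000000000000000) := T_4 (nat_lit 141) (nat_lit 142) (nat_lit 1) (nat_lit 9) (nat_lit 7) L504595 (by decide +kernel)
theorem L504597 : W_4 (nat_lit 7) (nat_lit 0x200050003c0004000000000000000000000000000) (nat_lit 0x0) (nat_lit 0x200010002700038002e00000000000000000000000000) := T_4 (nat_lit 125) (nat_lit 145) (nat_lit 3) (nat_lit 6) (nat_lit 7) L504596 (by decide +kernel)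
theorem L504598 : W_4 (nat_lit 8) (nat_lit 0x200010003c0004000000000000000000000000000) (nat_lit 0x0) (nat_lit 0x20001000e700038002e00000000000000000000000000) := T_4 (nat_lit 146) (nat_lit 147) (nat_lit 3) (nat_lit 7) (nat_lit 7) L504597 (by decide +kernel)
theorem L504799 : W_4 (nat_lit 2) (nat_lit 0x200050003c0010000800040000000000000000000) (nat_lit 0x0) (nat_lit 0x1000080004000000000000000) := D_4 (nat_lit 79) (nat_lit 62) (nat_lit 96) (nat_lit 6) (nat_lit 10) (nat_lit 7) (nat_lit 6) (nat_lit 10) (nat_lit 8) (by decide +kernel)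
theorem L504800 : W_4 (nat_lit 3) (nat_lit 0x200010003c0010000800040000000000000000000) (nat_lit 0x0) (nat_lit 0xc000000000001000080004000000000000000) := T_4 (nat_lit 146) (nat_lit 147) (nat_lit 3) (nat_lit 7) (nat_lit 7) L504799 (by decide +kernel)
theorem L504801 : W_4 (nat_lit 4) (nat_lit 0x200010003c0010000800000000000000000000000) (nat_lit 0x0) (nat_lit 0xe0000000000010000c0004000000000000000) := T_4 (nat_lit 78) (nat_lit 145) (nat_lit 5) (nat_lit 10) (nat_lit 4) L504800 (by decide +kernel)
theorem L510972 : W_4 (nat_lit 4) (nat_lit 0x200010003c0000000000000000000000000000000) (nat_lit 0x0) (nat_lit 0x1c000400070000000000000000000000000000) := T_4 (nat_lit 113) (nat_lit 112) (nat_lit 2) (nat_lit 7) (nat_lit 7) L319723 (by decide +kernel)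
theorem L510973 : W_4 (nat_lit 2) (nat_lit 0x20001000fc0020000000000000000000000000000) (nat_lit 0x0) (nat_lit 0x38000000000000000000000000000000000000) := D_4 (nat_lit 148) (nat_lit 147) (nat_lit 149) (nat_lit 3) (nat_lit 8) (nat_lit 7) (nat_lit 3) (nat_lit 9) (nat_lit 7) (by decide +kernel)
theorem L510974 : W_4 (nat_lit 3) (nat_lit 0x200010007c0020000000000000000000000000000) (nat_lit 0x0) (nat_lit 0x3a000800000000000000000000000000000000) := T_4 (nat_lit 131) (nat_lit 145) (nat_lit 1) (nat_lit 12) (nat_lit 7) L510973 (by decide +kernel)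
theorem L510975 : W_4 (nat_lit 4) (nat_lit 0x200010003c0020000000000000000000000000000) (nat_lit 0x0) (nat_lit 0x3a000c00040000000000000000000000000000) := T_4 (nat_lit 130) (nat_lit 114) (nat_lit 2) (nat_lit 8) (nat_lit 7) L510974 (by decide +kernel)
theorem L510976 : W_4 (nat_lit 5) (nat_lit 0x200010003c0000000000000000000000000000000) (nat_lit 0x0) (nat_lit 0x3a000c00070000000000000000000000000000) := T_4 (nat_lit 113) (nat_lit 112) (nat_lit 2) (nat_lit 7) (nat_lit 7) L510975 (by decide +kernel)
theorem L511689 : W_4 (nat_lit 2) (nat_lit 0x200010007c0000000000000000000000000000000) (nat_lit 0x0) (nat_lit 0x1c000000000000000000000000000000000000) := D_4 (nat_lit 147) (nat_lit 148) (nat_lit 146) (nat_lit 3) (nat_lit 8) (nat_lit 7) (nat_lit 3) (nat_lit 7) (nat_lit 7) (by decide +kernel)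
theorem L511903 : W_4 (nat_lit 2) (nat_lit 0x20021000fc0090000000000000000000000000000) (nat_lit 0x0) (nat_lit 0x40001000100000000000000000000000000000) := D_4 (nat_lit 132) (nat_lit 116) (nat_lit 150) (nat_lit 2) (nat_lit 10) (nat_lit 7) (nat_lit 3) (nat_lit 10) (nat_lit 7) (by decide +kernel)
theorem L511904 : W_4 (nat_lit 3) (nat_lit 0x20001000fc0090000000000000000000000000000) (nat_lit 0x0) (nat_lit 0x70001000100000000000000000000000000000) := T_4 (nat_lit 149) (nat_lit 148) (nat_lit 3) (nat_lit 9) (nat_lit 7) L511903 (by decide +kernel)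
theorem L511905 : W_4 (nat_lit 4) (nat_lit 0x20001000fc0010000000000000000000000000000) (nat_lit 0x0) (nat_lit 0x700010001c0000000000000000000000000000) := T_4 (nat_lit 115) (nat_lit 114) (nat_lit 2) (nat_lit 9) (nat_lit 7) L511904 (by decide +kernel)
theorem L511906 : W_4 (nat_lit 5) (nat_lit 0x200010007c0010000000000000000000000000000) (nat_lit 0x0) (nat_lit 0x720018001c0000000000000000000000000000) := T_4 (nat_lit 131) (nat_lit 145) (nat_lit 1) (nat_lit 12) (nat_lit 7) L511905 (by decide +kernel)
theorem L516218 : W_4 (nat_lit 2) (nat_lit 0x10001c00040003000100008000a0000000000) (nat_lit 0x0) (nat_lit 0x40005000000) := D_4 (nat_lit 42) (nat_lit 26) (nat_lit 24) (nat_lit 6) (nat_lit 8) (nat_lit 5) (nat_lit 4) (nat_lit 8) (nat_lit 5) (by decide +kernel)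
theorem L516219 : W_4 (nat_lit 3) (nat_lit 0x10001c0004000300010000800080000000000) (nat_lit 0x0) (nat_lit 0x400060005000000) := T_4 (nat_lit 41) (nat_lit 58) (nat_lit 4) (nat_lit 8) (nat_lit 6) L516218 (by decide +kernel)
theorem L516220 : W_4 (nat_lit 4) (nat_lit 0x10001c0004000300010000800000000000000) (nat_lit 0x0) (nat_lit 0x14000e0005000000) := T_4 (nat_lit 43) (nat_lit 60) (nat_lit 6) (nat_lit 8) (nat_lit 6) L516219 (by decide +kernel)
theorem L516221 : W_4 (nat_lit 5) (nat_lit 0x10001c0004000300010000000000000000000) (nat_lit 0x0) (nat_lit 0x2000000000001c000e0005000000) := T_4 (nat_lit 59) (nat_lit 109) (nat_lit 5) (nat_lit 8) (nat_lit 3) L516220 (by decide +kernel)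
theorem L517228 : W_4 (nat_lit 2) (nat_lit 0x10001c0020000f00080000000000000000000) (nat_lit 0x0) (nat_lit 0x40001000100000000000000000000) := D_4 (nat_lit 96) (nat_lit 114) (nat_lit 80) (nat_lit 3) (nat_lit 8) (nat_lit 5) (nat_lit 2) (nat_lit 8) (nat_lit 5) (by decide +kernel)
theorem L517229 : W_4 (nat_lit 3) (nat_lit 0x10001c0020000f00000000000000000000000) (nat_lit 0x0) (nat_lit 0x400010001c0000000000000000000) := T_4 (nat_lit 79) (nat_lit 78) (nat_lit 2) (nat_lit 7) (nat_lit 5) L517228 (by decide +kernel)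
theorem L519256 : W_4 (nat_lit 2) (nat_lit 0x10001c0020000f00008000000000000000000) (nat_lit 0x0) (nat_lit 0x40001000010000000000000000000) := D_4 (nat_lit 96) (nat_lit 76) (nat_lit 114) (nat_lit 0) (nat_lit 11) (nat_lit 5) (nat_lit 3) (nat_lit 8) (nat_lit 5) (by decide +kernel)
theorem L525267 : W_4 (nat_lit 2) (nat_lit 0x50001000080005000380020000000000000000000000000000) (nat_lit 0x0) (nat_lit 0xa00020000000000000000000000000000000000000000000000000) := D_4 (nat_lit 197) (nat_lit 215) (nat_lit 213) (nat_lit 7) (nat_lit 10) (nat_lit 8) (nat_lit 5) (nat_lit 10) (nat_lit 8) (by decide +kernel)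
theorem L525268 : W_4 (nat_lit 3) (nat_lit 0x40001000080005000380020000000000000000000000000000) (nat_lit 0x0) (nat_lit 0xa00030000800000000000000000000000000000000000000000000) := T_4 (nat_lit 196) (nat_lit 179) (nat_lit 5) (nat_lit 10) (nat_lit 7) L525267 (by decide +kernel)
theorem L525269 : W_4 (nat_lit 4) (nat_lit 0x1000080005000380020000000000000000000000000000) (nat_lit 0x0) (nat_lit 0xa00070002800000000000000000000000000000000000000000000) := T_4 (nat_lit 198) (nat_lit 181) (nat_lit 7) (nat_lit 10) (nat_lit 7) L525268 (by decide +kernel)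
theorem L527811 : W_4 (nat_lit 8) (nat_lit 0x1000380018000000000000000000000000000) (nat_lit 0x0) (nat_lit 0x14000a00040000000e0007c000e0007000000000000000) := Q_4 (nat_lit 146) (C_4 L527761 (C_4 L527809 (C_4 L527810 N_4))) (by decide +kernel)
theorem L529542 : W_4 (nat_lit 2) (nat_lit 0x4000000010001c0018000700000000000000000000000) (nat_lit 0x0) (nat_lit 0x60000800000000000000000000000) := D_4 (nat_lit 113) (nat_lit 114) (nat_lit 95) (nat_lit 1) (nat_lit 12) (nat_lit 6) (nat_lit 3) (nat_lit 7) (nat_lit 5) (by decide +kernel)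
theorem L529585 : W_4 (nat_lit 2) (nat_lit 0x3000090005a0038001000000000000000000000000) (nat_lit 0x0) (nat_lit 0x1000080004000000000000000000000000000000000000) := D_4 (nat_lit 163) (nat_lit 180) (nat_lit 146) (nat_lit 5) (nat_lit 11) (nat_lit 6) (nat_lit 5) (nat_lit 11) (nat_lit 5) (by decide +kernel)
theorem L529586 : W_4 (nat_lit 3) (nat_lit 0x3000090005a0038000000000000000000000000000) (nat_lit 0x0) (nat_lit 0x1000080014000000000001000000000000000000000000) := T_4 (nat_lit 96) (nat_lit 148) (nat_lit 7) (nat_lit 11) (nat_lit 5) L529585 (by decide +kernel)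
theorem L529587 : W_4 (nat_lit 4) (nat_lit 0x1000090005a0038000000000000000000000000000) (nat_lit 0x0) (nat_lit 0x5000280014000000000001000000000000000000000000) := T_4 (nat_lit 165) (nat_lit 182) (nat_lit 7) (nat_lit 11) (nat_lit 6) L529586 (by decide +kernel)
theorem L529588 : W_4 (nat_lit 5) (nat_lit 0x100009000580038000000000000000000000000000) (nat_lit 0x0) (nat_lit 0x5000280014000060000001000000000000000000000000) := T_4 (nat_lit 125) (nat_lit 126) (nat_lit 2) (nat_lit 6) (nat_lit 7) L529587 (by decide +kernel)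
theorem L529589 : W_4 (nat_lit 6) (nat_lit 0x9000580038000000000000000000000000000) (nat_lit 0x0) (nat_lit 0x5000380014000060000001800000000000000000000000) := T_4 (nat_lit 164) (nat_lit 95) (nat_lit 4) (nat_lit 11) (nat_lit 9) L529588 (by decide +kernel)
theorem L529634 : W_4 (nat_lit 2) (nat_lit 0x1000380018000000000000000000000000000) (nat_lit 0x0) (nat_lit 0x60020000000000000000000000000000) := D_4 (nat_lit 126) (nat_lit 113) (nat_lit 125) (nat_lit 2) (nat_lit 7) (nat_lit 7) (nat_lit 2) (nat_lit 6) (nat_lit 7) (by decide +kernel)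
theorem L529929 : W_4 (nat_lit 2) (nat_lit 0x110007c001a000000000000000000000000000) (nat_lit 0x0) (nat_lit 0x20001800000000000000000000000000000000) := D_4 (nat_lit 131) (nat_lit 132) (nat_lit 149) (nat_lit 0) (nat_lit 13) (nat_lit 7) (nat_lit 3) (nat_lit 9) (nat_lit 7) (by decide +kernel)
theorem L529930 : W_4 (nat_lit 3) (nat_lit 0x10007c001a000000000000000000000000000) (nat_lit 0x0) (nat_lit 0x38001800000000000000000000000000000000) := T_4 (nat_lit 148) (nat_lit 147) (nat_lit 3) (nat_lit 8) (nat_lit 7) L529929 (by decide +kernel)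
theorem L530448 : W_4 (nat_lit 4) (nat_lit 0x10007c000a000000000000000000000000000) (nat_lit 0x0) (nat_lit 0x38001800030000000000000000000000000000) := T_4 (nat_lit 112) (nat_lit 113) (nat_lit 2) (nat_lit 7) (nat_lit 7) L529930 (by decide +kernel)
theorem L530449 : W_4 (nat_lit 5) (nat_lit 0x10007c0008000000000000000000000000000) (nat_lit 0x0) (nat_lit 0x38001800033000000000000000000000000000) := T_4 (nat_lit 109) (nat_lit 108) (nat_lit 0) (nat_lit 10) (nat_lit 7) L530448 (by decide +kernel)
theorem L530451 : W_4 (nat_lit 2) (nat_lit 0x10003c0008000000000000000000000000000) (nat_lit 0x0) (nat_lit 0x20030000000000000000000000000000) := D_4 (nat_lit 112) (nat_lit 113) (nat_lit 125) (nat_lit 2) (nat_lit 7) (nat_lit 7) (nat_lit 2) (nat_lit 6) (nat_lit 7) (by decide +kernel)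
theorem L530837 : W_4 (nat_lit 2) (nat_lit 0x11000780048000000020000000000000000000) (nat_lit 0x0) (nat_lit 0x20000800080000000000000000000000000000) := D_4 (nat_lit 131) (nat_lit 149) (nat_lit 115) (nat_lit 3) (nat_lit 9) (nat_lit 7) (nat_lit 2) (nat_lit 9) (nat_lit 7) (by decide +kernel)
theorem L530838 : W_4 (nat_lit 3) (nat_lit 0x11000780008000000020000000000000000000) (nat_lit 0x0) (nat_lit 0x200008000e0000000000000000000000000000) := T_4 (nat_lit 114) (nat_lit 113) (nat_lit 2) (nat_lit 8) (nat_lit 7) L530837 (by decide +kernel)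
theorem L530839 : W_4 (nat_lit 4) (nat_lit 0x1000780008000000020000000000000000000) (nat_lit 0x0) (nat_lit 0x380008000e0000000000000000000000000000) := T_4 (nat_lit 148) (nat_lit 147) (nat_lit 3) (nat_lit 8) (nat_lit 7) L530838 (by decide +kernel)
theorem L530863 : W_4 (nat_lit 2) (nat_lit 0x1000f80008000000000000000000000000000) (nat_lit 0x0) (nat_lit 0xe0000000000000000000000000000) := D_4 (nat_lit 114) (nat_lit 113) (nat_lit 115) (nat_lit 2) (nat_lit 8) (nat_lit 7) (nat_lit 2) (nat_lit 9) (nat_lit 7) (by decide +kernel)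
theorem L530864 : W_4 (nat_lit 2) (nat_lit 0x400000001000f80088000000000000000000000000000) (nat_lit 0x0) (nat_lit 0x1000110000000000000000000000000000) := D_4 (nat_lit 132) (nat_lit 112) (nat_lit 116) (nat_lit 0) (nat_lit 13) (nat_lit 7) (nat_lit 2) (nat_lit 10) (nat_lit 7) (by decide +kernel)
theorem L530865 : W_4 (nat_lit 3) (nat_lit 0x400000001000f80008000000000000000000000000000) (nat_lit 0x0) (nat_lit 0x10001d0000000000000000000000000000) := T_4 (nat_lit 115) (nat_lit 114) (nat_lit 2) (nat_lit 9) (nat_lit 7) L530864 (by decide +kernel)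
theorem L530866 : W_4 (nat_lit 4) (nat_lit 0x1000f80008000000000000000000000000000) (nat_lit 0x0) (nat_lit 0x4000200000010001d0000000000000000000000000000) := T_4 (nat_lit 178) (nat_lit 161) (nat_lit 6) (nat_lit 8) (nat_lit 10) L530865 (by decide +kernel)
theorem L530867 : W_4 (nat_lit 2) (nat_lit 0x400000041001f80108000000000000000000000000000) (nat_lit 0x0) (nat_lit 0x80002000200000000000000000000000000000) := D_4 (nat_lit 133) (nat_lit 151) (nat_lit 117) (nat_lit 3) (nat_lit 11) (nat_lit 7) (nat_lit 2) (nat_lit 11) (nat_lit 7) (by decide +kernel)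
theorem L530868 : W_4 (nat_lit 3) (nat_lit 0x400000041001f80008000000000000000000000000000) (nat_lit 0x0) (nat_lit 0x80002000380000000000000000000000000000) := T_4 (nat_lit 116) (nat_lit 115) (nat_lit 2) (nat_lit 10) (nat_lit 7) L530867 (by decide +kernel)
theorem L530869 : W_4 (nat_lit 4) (nat_lit 0x400000001001f80008000000000000000000000000000) (nat_lit 0x0) (nat_lit 0xe0002000380000000000000000000000000000) := T_4 (nat_lit 150) (nat_lit 149) (nat_lit 3) (nat_lit 10) (nat_lit 7) L530868 (by decide +kernel)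
theorem L530870 : W_4 (nat_lit 5) (nat_lit 0x1001f80008000000000000000000000000000) (nat_lit 0x0) (nat_lit 0x4000200e0002000380000000000000000000000000000) := T_4 (nat_lit 178) (nat_lit 161) (nat_lit 6) (nat_lit 8) (nat_lit 10) L530869 (by decide +kernel)
theorem L530871 : W_4 (nat_lit 6) (nat_lit 0x1000f80008000000000000000000000000000) (nat_lit 0x0) (nat_lit 0x4000200e0003000390000000000000000000000000000) := T_4 (nat_lit 132) (nat_lit 112) (nat_lit 0) (nat_lit 13) (nat_lit 7) L530870 (by decide +kernel)
theorem L530872 : W_4 (nat_lit 2) (nat_lit 0x400000001000f80028000000000000000000000000000) (nat_lit 0x0) (nat_lit 0x1040010000000000000000000000000000) := D_4 (nat_lit 112) (nat_lit 126) (nat_lit 132) (nat_lit 2) (nat_lit 7) (nat_lit 7) (nat_lit 0) (nat_lit 13) (nat_lit 7) (by decide +kernel)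
theorem L530873 : W_4 (nat_lit 3) (nat_lit 0x400000001000f80008000000000000000000000000000) (nat_lit 0x0) (nat_lit 0x1040070000000000000000000000000000) := T_4 (nat_lit 113) (nat_lit 114) (nat_lit 2) (nat_lit 8) (nat_lit 7) L530872 (by decide +kernel)
theorem L530874 : W_4 (nat_lit 4) (nat_lit 0x1000f80008000000000000000000000000000) (nat_lit 0x0) (nat_lit 0x400020000001040070000000000000000000000000000) := T_4 (nat_lit 178) (nat_lit 161) (nat_lit 6) (nat_lit 8) (nat_lit 10) L530873 (by decide +kernel)
theorem L530875 : W_4 (nat_lit 7) (nat_lit 0x1000780008000000000000000000000000000) (nat_lit 0x0) (nat_lit 0x4000200e00038403f0000000000000000000000000000) := Q_4 (nat_lit 131) (C_4 L530863 (C_4 L530866 (C_4 L530871 (C_4 L530874 N_4)))) (by decide +kernel)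
theorem L530976 : W_4 (nat_lit 9) (nat_lit 0x1000380008000000000000000000000000000) (nat_lit 0x0) (nat_lit 0x14000a000c0000600f0007c000e0007000000000000000) := Q_4 (nat_lit 112) (C_4 L529637 (C_4 L527811 (C_4 L529634 N_4))) (by decide +kernel)
theorem L531343 : W_4 (nat_lit 5) (nat_lit 0x400000001000780008000000000000000000000000000) (nat_lit 0x0) (nat_lit 0x100008001c000040060001000000000000000000000000) := T_4 (nat_lit 113) (nat_lit 114) (nat_lit 2) (nat_lit 8) (nat_lit 7) L531342 (by decide +kernel)
theorem L532131 : W_4 (nat_lit 2) (nat_lit 0x40000001d000580028001000080000000000000000000) (nat_lit 0x0) (nat_lit 0x2000100008000000000000000) := D_4 (nat_lit 80) (nat_lit 63) (nat_lit 97) (nat_lit 6) (nat_lit 11) (nat_lit 7) (nat_lit 6) (nat_lit 11) (nat_lit 8) (by decide +kernel)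
theorem L532132 : W_4 (nat_lit 3) (nat_lit 0x40000001d000580028001000000000000000000000000) (nat_lit 0x0) (nat_lit 0x800000002000180008000000000000000) := T_4 (nat_lit 79) (nat_lit 131) (nat_lit 7) (nat_lit 11) (nat_lit 4) L532131 (by decide +kernel)
theorem L532133 : W_4 (nat_lit 4) (nat_lit 0x40000000d000580028001000000000000000000000000) (nat_lit 0x0) (nat_lit 0x200010000800000002000180008000000000000000) := T_4 (nat_lit 148) (nat_lit 165) (nat_lit 7) (nat_lit 11) (nat_lit 5) L532132 (by decide +kernel)
theorem L532134 : W_4 (nat_lit 5) (nat_lit 0xd000580028001000000000000000000000000) (nat_lit 0x0) (nat_lit 0x400220010000800000002000180008000000000000000) := T_4 (nat_lit 178) (nat_lit 161) (nat_lit 6) (nat_lit 8) (nat_lit 10) L532133 (by decide +kernel)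
theorem L533106 : W_4 (nat_lit 6) (nat_lit 0xd000580028000000000000000000000000000) (nat_lit 0x0) (nat_lit 0x4002a0010000800000003000180008000000000000000) := T_4 (nat_lit 96) (nat_lit 163) (nat_lit 5) (nat_lit 11) (nat_lit 5) L532134 (by decide +kernel)
theorem L533618 : W_4 (nat_lit 2) (nat_lit 0x40000000d000780028000000020000000000000000000) (nat_lit 0x0) (nat_lit 0x1000080000000000000001000000000000000000000000) := D_4 (nat_lit 163) (nat_lit 180) (nat_lit 96) (nat_lit 6) (nat_lit 10) (nat_lit 10) (nat_lit 5) (nat_lit 11) (nat_lit 5) (by decide +kernel)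
theorem L533619 : W_4 (nat_lit 3) (nat_lit 0x400000009000780028000000020000000000000000000) (nat_lit 0x0) (nat_lit 0x1000080004000040000001000000000000000000000000) := T_4 (nat_lit 146) (nat_lit 126) (nat_lit 3) (nat_lit 7) (nat_lit 7) L533618 (by decide +kernel)
theorem L533620 : W_4 (nat_lit 4) (nat_lit 0x400000001000780028000000020000000000000000000) (nat_lit 0x0) (nat_lit 0x100008001c000040000001000000000000000000000000) := T_4 (nat_lit 147) (nat_lit 148) (nat_lit 3) (nat_lit 8) (nat_lit 7) L533619 (by decide +kernel)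
theorem L536136 : W_4 (nat_lit 2) (nat_lit 0x7800080014001a0008000000000000000000000000000) (nat_lit 0x0) (nat_lit 0x800006000000000000000000000000000000000000000) := D_4 (nat_lit 158) (nat_lit 157) (nat_lit 179) (nat_lit 0) (nat_lit 8) (nat_lit 10) (nat_lit 0) (nat_lit 9) (nat_lit 10) (by decide +kernel)
theorem L536137 : W_4 (nat_lit 3) (nat_lit 0x5800080014001a0008000000000000000000000000000) (nat_lit 0x0) (nat_lit 0x4000a00006000000000000000000000000000000000000000) := T_4 (nat_lit 177) (nat_lit 194) (nat_lit 7) (nat_lit 6) (nat_lit 7) L536136 (by decide +kernel)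
theorem L536138 : W_4 (nat_lit 4) (nat_lit 0x5000080014001a0008000000000000000000000000000) (nat_lit 0x0) (nat_lit 0x5000a80006000000000000000000000000000000000000000) := T_4 (nat_lit 175) (nat_lit 192) (nat_lit 5) (nat_lit 6) (nat_lit 7) L536137 (by decide +kernel)
theorem L536139 : W_4 (nat_lit 5) (nat_lit 0x1000080014001a0008000000000000000000000000000) (nat_lit 0x0) (nat_lit 0x5000e80026000000000000000000000000000000000000000) := T_4 (nat_lit 178) (nat_lit 161) (nat_lit 6) (nat_lit 8) (nat_lit 10) L536138 (by decide +kernel)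
theorem L536154 : W_4 (nat_lit 2) (nat_lit 0x20005000080014001b0008000000000000000000000000000) (nat_lit 0x0) (nat_lit 0x20001000080000000000000000000000000000000000000000000) := D_4 (nat_lit 192) (nat_lit 175) (nat_lit 209) (nat_lit 5) (nat_lit 6) (nat_lit 7) (nat_lit 5) (nat_lit 6) (nat_lit 8) (by decide +kernel)
theorem L536155 : W_4 (nat_lit 3) (nat_lit 0x5000080014001b0008000000000000000000000000000) (nat_lit 0x0) (nat_lit 0x20003000080000000200000000000000000000000000000000000) := T_4 (nat_lit 193) (nat_lit 141) (nat_lit 4) (nat_lit 6) (nat_lit 11) L536154 (by decide +kernel)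
theorem L536156 : W_4 (nat_lit 4) (nat_lit 0x1000080014001b0008000000000000000000000000000) (nat_lit 0x0) (nat_lit 0x20003000480020000200000000000000000000000000000000000) := T_4 (nat_lit 178) (nat_lit 161) (nat_lit 6) (nat_lit 8) (nat_lit 10) L536155 (by decide +kernel)
theorem L536157 : W_4 (nat_lit 5) (nat_lit 0x1000080014001a0008000000000000000000000000000) (nat_lit 0x0) (nat_lit 0x20003000480020000200010000800000000000000000000000000) := T_4 (nat_lit 124) (nat_lit 107) (nat_lit 4) (nat_lit 6) (nat_lit 10) L536156 (by decide +kernel)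
theorem L536211 : W_4 (nat_lit 2) (nat_lit 0xc0014001a0009000080000000000000000000000) (nat_lit 0x0) (nat_lit 0x800040002000000000000000000) := D_4 (nat_lit 90) (nat_lit 73) (nat_lit 107) (nat_lit 4) (nat_lit 6) (nat_lit 8) (nat_lit 4) (nat_lit 6) (nat_lit 9) (by decide +kernel)
theorem L536212 : W_4 (nat_lit 3) (nat_lit 0xc0014001a0009000000000000000000000000000) (nat_lit 0x0) (nat_lit 0x2000000008000c0002000000000000000000) := T_4 (nat_lit 91) (nat_lit 141) (nat_lit 5) (nat_lit 6) (nat_lit 5) L536211 (by decide +kernel)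
theorem L536213 : W_4 (nat_lit 4) (nat_lit 0x80014001a0009000000000000000000000000000) (nat_lit 0x0) (nat_lit 0x800040002000000008000c0002000000000000000000) := T_4 (nat_lit 158) (nat_lit 175) (nat_lit 5) (nat_lit 6) (nat_lit 6) L536212 (by decide +kernel)
theorem L536262 : W_4 (nat_lit 2) (nat_lit 0x5000080014001a0009800000000000000000000000000) (nat_lit 0x0) (nat_lit 0x4000200010000000000000000000000000000000000000000) := D_4 (nat_lit 177) (nat_lit 160) (nat_lit 194) (nat_lit 7) (nat_lit 6) (nat_lit 6) (nat_lit 7) (nat_lit 6) (nat_lit 7) (by decide +kernel)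
theorem L536263 : W_4 (nat_lit 3) (nat_lit 0x4000080014001a0009800000000000000000000000000) (nat_lit 0x0) (nat_lit 0x4000300010000000010000000000000000000000000000000) := T_4 (nat_lit 176) (nat_lit 124) (nat_lit 4) (nat_lit 6) (nat_lit 10) L536262 (by decide +kernel)
theorem L536264 : W_4 (nat_lit 4) (nat_lit 0x80014001a0009800000000000000000000000000) (nat_lit 0x0) (nat_lit 0x4000700030000000010000000000000000000000000000000) := T_4 (nat_lit 178) (nat_lit 161) (nat_lit 6) (nat_lit 8) (nat_lit 10) L536263 (by decide +kernel)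
theorem L536265 : W_4 (nat_lit 5) (nat_lit 0x80014001a0009000000000000000000000000000) (nat_lit 0x0) (nat_lit 0x4000700030000000010000800040000000000000000000000) := T_4 (nat_lit 107) (nat_lit 90) (nat_lit 4) (nat_lit 6) (nat_lit 9) L536264 (by decide +kernel)
theorem L536381 : W_4 (nat_lit 3) (nat_lit 0x3800080014001a0008000000000000000000000000000) (nat_lit 0x0) (nat_lit 0xc00026000000000000000000000000000000000000000) := T_4 (nat_lit 178) (nat_lit 161) (nat_lit 6) (nat_lit 8) (nat_lit 10) L536136 (by decide +kernel)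
theorem L536382 : W_4 (nat_lit 4) (nat_lit 0x3000080014001a0008000000000000000000000000000) (nat_lit 0x0) (nat_lit 0x1000c80026000000000000000000000000000000000000000) := T_4 (nat_lit 175) (nat_lit 192) (nat_lit 5) (nat_lit 6) (nat_lit 7) L536381 (by decide +kernel)
theorem L536392 : W_4 (nat_lit 5) (nat_lit 0x2000080014001a0008000000000000000000000000000) (nat_lit 0x0) (nat_lit 0x5000d80026000000000000000000000000000000000000000) := T_4 (nat_lit 176) (nat_lit 194) (nat_lit 7) (nat_lit 6) (nat_lit 7) L536382 (by decide +kernel)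
theorem L547341 : W_4 (nat_lit 5) (nat_lit 0x10001f0009000000000000000000000000000) (nat_lit 0x0) (nat_lit 0x38000c002700000000000000000000000000) := T_4 (nat_lit 140) (nat_lit 141) (nat_lit 1) (nat_lit 8) (nat_lit 7) L342359 (by decide +kernel)
theorem L548334 : W_4 (nat_lit 2) (nat_lit 0x10001c00088007c0000000000000000000000) (nat_lit 0x0) (nat_lit 0x7000000000000000000) := D_4 (nat_lit 73) (nat_lit 72) (nat_lit 74) (nat_lit 0) (nat_lit 8) (nat_lit 5) (nat_lit 0) (nat_lit 9) (nat_lit 5) (by decide +kernel)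
theorem L548335 : W_4 (nat_lit 3) (nat_lit 0x10001c0008800780000000000000000000000) (nat_lit 0x0) (nat_lit 0x400040007000000000000000000) := T_4 (nat_lit 90) (nat_lit 106) (nat_lit 1) (nat_lit 8) (nat_lit 5) L548334 (by decide +kernel)
theorem L552976 : W_4 (nat_lit 2) (nat_lit 0x400000011000f80088000000020000000000000000000) (nat_lit 0x0) (nat_lit 0x1000110000000000000000000000000000) := D_4 (nat_lit 132) (nat_lit 112) (nat_lit 116) (nat_lit 0) (nat_lit 13) (nat_lit 7) (nat_lit 2) (nat_lit 10) (nat_lit 7) (by decide +kernel)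
theorem L552977 : W_4 (nat_lit 3) (nat_lit 0x400000011000f80008000000020000000000000000000) (nat_lit 0x0) (nat_lit 0x10001d0000000000000000000000000000) := T_4 (nat_lit 115) (nat_lit 114) (nat_lit 2) (nat_lit 9) (nat_lit 7) L552976 (by decide +kernel)
theorem L552978 : W_4 (nat_lit 4) (nat_lit 0x400000011000780008000000020000000000000000000) (nat_lit 0x0) (nat_lit 0x200018001d0000000000000000000000000000) := T_4 (nat_lit 131) (nat_lit 149) (nat_lit 3) (nat_lit 9) (nat_lit 7) L552977 (by decide +kernel)
theorem L552979 : W_4 (nat_lit 5) (nat_lit 0x400000001000780008000000020000000000000000000) (nat_lit 0x0) (nat_lit 0x380018001d0000000000000000000000000000) := T_4 (nat_lit 148) (nat_lit 147) (nat_lit 3) (nat_lit 8) (nat_lit 7) L552978 (by decide +kernel)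
theorem L552980 : W_4 (nat_lit 6) (nat_lit 0x1000780008000000020000000000000000000) (nat_lit 0x0) (nat_lit 0x4000200380018001d0000000000000000000000000000) := T_4 (nat_lit 178) (nat_lit 161) (nat_lit 6) (nat_lit 8) (nat_lit 10) L552979 (by decide +kernel)
theorem L553718 : W_4 (nat_lit 5) (nat_lit 0x400000001000780008000000020000000000000000000) (nat_lit 0x0) (nat_lit 0x100008001c000040060001000000000000000000000000) := T_4 (nat_lit 113) (nat_lit 114) (nat_lit 2) (nat_lit 8) (nat_lit 7) L533620 (by decide +kernel)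
theorem L556560 : W_4 (nat_lit 2) (nat_lit 0x200010003c0002000000000000000000000000000) (nat_lit 0x0) (nat_lit 0x400004000100000000000000000000000) := D_4 (nat_lit 110) (nat_lit 130) (nat_lit 92) (nat_lit 0) (nat_lit 11) (nat_lit 7) (nat_lit 4) (nat_lit 8) (nat_lit 9) (by decide +kernel)
theorem L556561 : W_4 (nat_lit 3) (nat_lit 0x200010003c0000000000000000000000000000000) (nat_lit 0x0) (nat_lit 0x400007000100000000000000000000000) := T_4 (nat_lit 109) (nat_lit 108) (nat_lit 0) (nat_lit 10) (nat_lit 7) L556560 (by decide +kernel)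
theorem L556562 : W_4 (nat_lit 2) (nat_lit 0x200050003c0012000000000000000000000000000) (nat_lit 0x0) (nat_lit 0x4000100008000000000000000000) := D_4 (nat_lit 92) (nat_lit 110) (nat_lit 75) (nat_lit 4) (nat_lit 8) (nat_lit 9) (nat_lit 7) (nat_lit 7) (nat_lit 4) (by decide +kernel)
theorem L556563 : W_4 (nat_lit 3) (nat_lit 0x200050003c0010000000000000000000000000000) (nat_lit 0x0) (nat_lit 0x7000100008000000000000000000) := T_4 (nat_lit 109) (nat_lit 108) (nat_lit 0) (nat_lit 10) (nat_lit 7) L556562 (by decide +kernel)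
theorem L556564 : W_4 (nat_lit 4) (nat_lit 0x200010003c0010000000000000000000000000000) (nat_lit 0x0) (nat_lit 0xc000000007000100008000000000000000000) := T_4 (nat_lit 146) (nat_lit 147) (nat_lit 3) (nat_lit 7) (nat_lit 7) L556563 (by decide +kernel)
theorem L556565 : W_4 (nat_lit 5) (nat_lit 0x200010003c0000000000000000000000000000000) (nat_lit 0x0) (nat_lit 0xc000000037000100008000000000000000000) := T_4 (nat_lit 112) (nat_lit 113) (nat_lit 2) (nat_lit 7) (nat_lit 7) L556564 (by decide +kernel)
theorem L556566 : W_4 (nat_lit 6) (nat_lit 0x200010001c0000000000000000000000000000000) (nat_lit 0x0) (nat_lit 0x1c000600077000100008000000000000000000) := Q_4 (nat_lit 129) (C_4 L510972 (C_4 L556561 (C_4 L556565 N_4))) (by decide +kernel)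
theorem L568148 : W_4 (nat_lit 2) (nat_lit 0x10003e0001000000000000000000000000000) (nat_lit 0x0) (nat_lit 0x38000000000000000000000000000) := D_4 (nat_lit 112) (nat_lit 113) (nat_lit 111) (nat_lit 2) (nat_lit 7) (nat_lit 7) (nat_lit 2) (nat_lit 6) (nat_lit 7) (by decide +kernel)
theorem L568149 : W_4 (nat_lit 3) (nat_lit 0x10003c0001000000000000000000000000000) (nat_lit 0x0) (nat_lit 0x20038800000000000000000000000000) := T_4 (nat_lit 125) (nat_lit 107) (nat_lit 0) (nat_lit 9) (nat_lit 7) L568148 (by decide +kernel)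
theorem L568150 : W_4 (nat_lit 4) (nat_lit 0x10003c0000000000000000000000000000000) (nat_lit 0x0) (nat_lit 0x2003b800000000000000000000000000) := T_4 (nat_lit 108) (nat_lit 109) (nat_lit 0) (nat_lit 10) (nat_lit 7) L568149 (by decide +kernel)
theorem L569359 : W_4 (nat_lit 2) (nat_lit 0x14003c0001000000000000000000000000000) (nat_lit 0x0) (nat_lit 0x200020000800000000000000000000000000) := D_4 (nat_lit 125) (nat_lit 107) (nat_lit 141) (nat_lit 0) (nat_lit 9) (nat_lit 7) (nat_lit 1) (nat_lit 9) (nat_lit 7) (by decide +kernel)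
theorem L571130 : W_4 (nat_lit 2) (nat_lit 0x10001c0000800780020000000000000000000) (nat_lit 0x0) (nat_lit 0x400040010000000000000000000) := D_4 (nat_lit 90) (nat_lit 76) (nat_lit 106) (nat_lit 2) (nat_lit 5) (nat_lit 5) (nat_lit 1) (nat_lit 8) (nat_lit 5) (by decide +kernel)
theorem L572044 : W_4 (nat_lit 2) (nat_lit 0x10001c0022001f00060000000000000000000) (nat_lit 0x0) (nat_lit 0x6000010000000000000000000) := D_4 (nat_lit 97) (nat_lit 98) (nat_lit 76) (nat_lit 0) (nat_lit 13) (nat_lit 5) (nat_lit 0) (nat_lit 12) (nat_lit 5) (by decide +kernel)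
theorem L572045 : W_4 (nat_lit 3) (nat_lit 0x10001c0022000f00060000000000000000000) (nat_lit 0x0) (nat_lit 0x40007000010000000000000000000) := T_4 (nat_lit 96) (nat_lit 114) (nat_lit 3) (nat_lit 8) (nat_lit 5) L572044 (by decide +kernel)
theorem L578269 : W_4 (nat_lit 2) (nat_lit 0x10001c0000000780022000000000000000000) (nat_lit 0x0) (nat_lit 0x40011000000000000000000) := D_4 (nat_lit 90) (nat_lit 76) (nat_lit 72) (nat_lit 2) (nat_lit 5) (nat_lit 5) (nat_lit 0) (nat_lit 8) (nat_lit 5) (by decide +kernel)
theorem L578270 : W_4 (nat_lit 3) (nat_lit 0x10001c0000000780020000000000000000000) (nat_lit 0x0) (nat_lit 0x40017000000000000000000) := T_4 (nat_lit 73) (nat_lit 74) (nat_lit 0) (nat_lit 9) (nat_lit 5) L578269 (by decide +kernel)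
theorem L581095 : W_4 (nat_lit 2) (nat_lit 0x140004000200010001c0000000100000000000000000000000) (nat_lit 0x0) (nat_lit 0x280008000000000000000000000000000000000000000000000000) := D_4 (nat_lit 195) (nat_lit 211) (nat_lit 213) (nat_lit 5) (nat_lit 8) (nat_lit 8) (nat_lit 7) (nat_lit 8) (nat_lit 8) (by decide +kernel)
theorem L581096 : W_4 (nat_lit 3) (nat_lit 0x40004000200010001c0000000100000000000000000000000) (nat_lit 0x0) (nat_lit 0x280018000800000000000000000000000000000000000000000000) := T_4 (nat_lit 196) (nat_lit 179) (nat_lit 7) (nat_lit 8) (nat_lit 7) L581095 (by decide +kernel)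
theorem L581097 : W_4 (nat_lit 4) (nat_lit 0x4000200010001c0000000100000000000000000000000) (nat_lit 0x0) (nat_lit 0x28001c000a00000000000000000000000000000000000000000000) := T_4 (nat_lit 194) (nat_lit 177) (nat_lit 5) (nat_lit 8) (nat_lit 7) L581096 (by decide +kernel)
theorem L581746 : W_4 (nat_lit 2) (nat_lit 0x10001c0020000f00088000000000000000000) (nat_lit 0x0) (nat_lit 0x40001000100000000000000000000) := D_4 (nat_lit 96) (nat_lit 80) (nat_lit 114) (nat_lit 2) (nat_lit 8) (nat_lit 5) (nat_lit 3) (nat_lit 8) (nat_lit 5) (by decide +kernel)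
theorem L581747 : W_4 (nat_lit 3) (nat_lit 0x10001c0000000f00088000000000000000000) (nat_lit 0x0) (nat_lit 0x70001000100000000000000000000) := T_4 (nat_lit 113) (nat_lit 112) (nat_lit 3) (nat_lit 7) (nat_lit 5) L581746 (by decide +kernel)
theorem L581748 : W_4 (nat_lit 4) (nat_lit 0x10001c0000000f00008000000000000000000) (nat_lit 0x0) (nat_lit 0x700010001c0000000000000000000) := T_4 (nat_lit 79) (nat_lit 78) (nat_lit 2) (nat_lit 7) (nat_lit 5) L581747 (by decide +kernel)
theorem L581749 : W_4 (nat_lit 5) (nat_lit 0x10001c0000000700008000000000000000000) (nat_lit 0x0) (nat_lit 0x700018001c4000000000000000000) := T_4 (nat_lit 95) (nat_lit 74) (nat_lit 0) (nat_lit 10) (nat_lit 5) L581748 (by decide +kernel)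
theorem L581750 : W_4 (nat_lit 2) (nat_lit 0x10001c000000070000c000000000000000000) (nat_lit 0x0) (nat_lit 0x80003000000000000000000) := D_4 (nat_lit 73) (nat_lit 91) (nat_lit 72) (nat_lit 0) (nat_lit 9) (nat_lit 5) (nat_lit 3) (nat_lit 4) (nat_lit 4) (by decide +kernel)
theorem L581751 : W_4 (nat_lit 3) (nat_lit 0x10001c0000000700008000000000000000000) (nat_lit 0x0) (nat_lit 0x880007000000000000000000) := T_4 (nat_lit 74) (nat_lit 95) (nat_lit 0) (nat_lit 10) (nat_lit 5) L581750 (by decide +kernel)
theorem L582046 : W_4 (nat_lit 5) (nat_lit 0x200010001c0000000100000000000000000000000) (nat_lit 0x0) (nat_lit 0x28001c000e00000000000000008000000000000000000000000000) := T_4 (nat_lit 178) (nat_lit 111) (nat_lit 6) (nat_lit 8) (nat_lit 10) L581097 (by decide +kernel)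
theorem L586321 : W_4 (nat_lit 2) (nat_lit 0x200010003c0008000000000000000000000000000) (nat_lit 0x0) (nat_lit 0x2000000000000400020000000000000000000) := D_4 (nat_lit 94) (nat_lit 145) (nat_lit 77) (nat_lit 5) (nat_lit 9) (nat_lit 5) (nat_lit 5) (nat_lit 9) (nat_lit 4) (by decide +kernel)
theorem L586460 : W_4 (nat_lit 2) (nat_lit 0x10001c000c000700000000000000000000000) (nat_lit 0x0) (nat_lit 0x100000c0000000000000000000000) := D_4 (nat_lit 91) (nat_lit 112) (nat_lit 90) (nat_lit 3) (nat_lit 6) (nat_lit 5) (nat_lit 3) (nat_lit 5) (nat_lit 5) (by decide +kernel)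
theorem L586464 : W_4 (nat_lit 2) (nat_lit 0x10001c000d000780004000000000000000000) (nat_lit 0x0) (nat_lit 0x2000800000000200000000000000) := D_4 (nat_lit 109) (nat_lit 95) (nat_lit 57) (nat_lit 2) (nat_lit 6) (nat_lit 6) (nat_lit 7) (nat_lit 6) (nat_lit 3) (by decide +kernel)
theorem L586465 : W_4 (nat_lit 3) (nat_lit 0x10001c000d000780000000000000000000000) (nat_lit 0x0) (nat_lit 0x2000800006000200000000000000) := T_4 (nat_lit 74) (nat_lit 73) (nat_lit 0) (nat_lit 9) (nat_lit 5) L586464 (by decide +kernel)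
theorem L586466 : W_4 (nat_lit 4) (nat_lit 0x10001c000c000780000000000000000000000) (nat_lit 0x0) (nat_lit 0x3800800006000200000000000000) := T_4 (nat_lit 108) (nat_lit 107) (nat_lit 1) (nat_lit 9) (nat_lit 5) L586465 (by decide +kernel)
theorem L586478 : W_4 (nat_lit 2) (nat_lit 0x30001c000e000c00000000000000000000000) (nat_lit 0x0) (nat_lit 0x30001000000000000000000000000) := D_4 (nat_lit 112) (nat_lit 113) (nat_lit 96) (nat_lit 1) (nat_lit 11) (nat_lit 6) (nat_lit 2) (nat_lit 7) (nat_lit 6) (by decide +kernel)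
theorem L586504 : W_4 (nat_lit 2) (nat_lit 0x10001c000e000100000000000000000000000) (nat_lit 0x0) (nat_lit 0x30000080000000000000000000000) := D_4 (nat_lit 112) (nat_lit 113) (nat_lit 91) (nat_lit 1) (nat_lit 11) (nat_lit 6) (nat_lit 0) (nat_lit 10) (nat_lit 6) (by decide +kernel)
theorem L586505 : W_4 (nat_lit 3) (nat_lit 0x10001c000e000000000000000000000000000) (nat_lit 0x0) (nat_lit 0x30000180008000000000000000000) := T_4 (nat_lit 92) (nat_lit 75) (nat_lit 7) (nat_lit 7) (nat_lit 4) L586504 (by decide +kernel)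
theorem L586929 : W_4 (nat_lit 2) (nat_lit 0x4000000010001c0018000000000000000000000000000) (nat_lit 0x0) (nat_lit 0x64000000000000000000000000000) := D_4 (nat_lit 113) (nat_lit 110) (nat_lit 114) (nat_lit 1) (nat_lit 11) (nat_lit 6) (nat_lit 1) (nat_lit 12) (nat_lit 6) (by decide +kernel)
theorem L587452 : W_4 (nat_lit 2) (nat_lit 0x4000000010001e0008000000000000000000000000000) (nat_lit 0x0) (nat_lit 0x6000010000000000000000000000000000000) := D_4 (nat_lit 145) (nat_lit 124) (nat_lit 146) (nat_lit 3) (nat_lit 5) (nat_lit 7) (nat_lit 3) (nat_lit 6) (nat_lit 7) (by decide +kernel)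
theorem L587453 : W_4 (nat_lit 3) (nat_lit 0x4000000010001a0008000000000000000000000000000) (nat_lit 0x0) (nat_lit 0x6000050010000000000000000000000000000) := T_4 (nat_lit 126) (nat_lit 112) (nat_lit 2) (nat_lit 6) (nat_lit 7) L587452 (by decide +kernel)
theorem L587454 : W_4 (nat_lit 4) (nat_lit 0x10001a0008000000000000000000000000000) (nat_lit 0x0) (nat_lit 0x400020006000050010000000000000000000000000000) := T_4 (nat_lit 178) (nat_lit 161) (nat_lit 6) (nat_lit 8) (nat_lit 10) L587453 (by decide +kernel)
theorem L587455 : W_4 (nat_lit 4) (nat_lit 0x10001a0008000000000000000000000000000) (nat_lit 0x0) (nat_lit 0x50015c00000000000000000000000000) := T_4 (nat_lit 126) (nat_lit 112) (nat_lit 2) (nat_lit 6) (nat_lit 7) L568091 (by decide +kernel)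
theorem L587542 : W_4 (nat_lit 2) (nat_lit 0x1c0014001a0009000000000000000000000000000) (nat_lit 0x0) (nat_lit 0x400020002000000000000000000000000000000000000) := D_4 (nat_lit 161) (nat_lit 178) (nat_lit 145) (nat_lit 6) (nat_lit 8) (nat_lit 10) (nat_lit 2) (nat_lit 5) (nat_lit 9) (by decide +kernel)
theorem L587543 : W_4 (nat_lit 3) (nat_lit 0x180014001a0009000000000000000000000000000) (nat_lit 0x0) (nat_lit 0x480024002000000000000000000000000000000000000) := T_4 (nat_lit 158) (nat_lit 175) (nat_lit 5) (nat_lit 6) (nat_lit 6) L587542 (by decide +kernel)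
theorem L587544 : W_4 (nat_lit 4) (nat_lit 0x80014001a0009000000000000000000000000000) (nat_lit 0x0) (nat_lit 0x680034002000000000000000000000000000000000000) := T_4 (nat_lit 160) (nat_lit 177) (nat_lit 7) (nat_lit 6) (nat_lit 6) L587543 (by decide +kernel)
theorem L587568 : W_4 (nat_lit 2) (nat_lit 0x800080014001a0009800000000000000000000000000) (nat_lit 0x0) (nat_lit 0x1000100000000000010000000000000000000000000000000) := D_4 (nat_lit 176) (nat_lit 124) (nat_lit 192) (nat_lit 4) (nat_lit 6) (nat_lit 10) (nat_lit 5) (nat_lit 6) (nat_lit 7) (by decide +kernel)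
theorem L587569 : W_4 (nat_lit 3) (nat_lit 0x80014001a0009800000000000000000000000000) (nat_lit 0x0) (nat_lit 0x1000180004000000010000000000000000000000000000000) := T_4 (nat_lit 175) (nat_lit 158) (nat_lit 5) (nat_lit 6) (nat_lit 6) L587568 (by decide +kernel)
theorem L587570 : W_4 (nat_lit 4) (nat_lit 0x80014001a0009000000000000000000000000000) (nat_lit 0x0) (nat_lit 0x1000180004000000010000800040000000000000000000000) := T_4 (nat_lit 107) (nat_lit 90) (nat_lit 4) (nat_lit 6) (nat_lit 9) L587569 (by decide +kernel)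
theorem L587833 : W_4 (nat_lit 2) (nat_lit 0x20001000080014001b0008000000000000000000000000000) (nat_lit 0x0) (nat_lit 0x80004000200000000000000000000000000000000000000000000) := D_4 (nat_lit 194) (nat_lit 177) (nat_lit 211) (nat_lit 7) (nat_lit 6) (nat_lit 7) (nat_lit 7) (nat_lit 6) (nat_lit 8) (by decide +kernel)
theorem L587834 : W_4 (nat_lit 3) (nat_lit 0x1000080014001b0008000000000000000000000000000) (nat_lit 0x0) (nat_lit 0x80006000200000000200000000000000000000000000000000000) := T_4 (nat_lit 193) (nat_lit 141) (nat_lit 4) (nat_lit 6) (nat_lit 11) L587833 (by decide +kernel)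
theorem L587888 : W_4 (nat_lit 2) (nat_lit 0x3000080014001a0009000000000000000000000000000) (nat_lit 0x0) (nat_lit 0x10000800040000000000000000000000) := D_4 (nat_lit 107) (nat_lit 124) (nat_lit 90) (nat_lit 4) (nat_lit 6) (nat_lit 10) (nat_lit 4) (nat_lit 6) (nat_lit 9) (by decide +kernel)
theorem L587889 : W_4 (nat_lit 3) (nat_lit 0x3000080014001a0008000000000000000000000000000) (nat_lit 0x0) (nat_lit 0x10000000010001800040000000000000000000000) := T_4 (nat_lit 108) (nat_lit 160) (nat_lit 7) (nat_lit 6) (nat_lit 6) L587888 (by decide +kernel)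
theorem L587901 : W_4 (nat_lit 2) (nat_lit 0x3800080014001a0009000000000000000000000000000) (nat_lit 0x0) (nat_lit 0x10000800040000000000000000000000) := D_4 (nat_lit 107) (nat_lit 90) (nat_lit 124) (nat_lit 4) (nat_lit 6) (nat_lit 9) (nat_lit 4) (nat_lit 6) (nat_lit 10) (by decide +kernel)
theorem L587902 : W_4 (nat_lit 3) (nat_lit 0x3800080014001a0008000000000000000000000000000) (nat_lit 0x0) (nat_lit 0x4000000010001800040000000000000000000000) := T_4 (nat_lit 108) (nat_lit 158) (nat_lit 5) (nat_lit 6) (nat_lit 6) L587901 (by decide +kernel)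
theorem L587903 : W_4 (nat_lit 4) (nat_lit 0x3000080014001a0008000000000000000000000000000) (nat_lit 0x0) (nat_lit 0x1000080004000000010001800040000000000000000000000) := T_4 (nat_lit 175) (nat_lit 192) (nat_lit 5) (nat_lit 6) (nat_lit 7) L587902 (by decide +kernel)
theorem L587921 : W_4 (nat_lit 2) (nat_lit 0x3800080014001a0008000000000000000000000000000) (nat_lit 0x0) (nat_lit 0x14000000000001000000000000000000000000000) := D_4 (nat_lit 108) (nat_lit 158) (nat_lit 160) (nat_lit 5) (nat_lit 6) (nat_lit 6) (nat_lit 7) (nat_lit 6) (nat_lit 6) (by decide +kernel)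
theorem L587922 : W_4 (nat_lit 3) (nat_lit 0x3000080014001a0008000000000000000000000000000) (nat_lit 0x0) (nat_lit 0x1000080014000000000001000000000000000000000000000) := T_4 (nat_lit 175) (nat_lit 192) (nat_lit 5) (nat_lit 6) (nat_lit 7) L587921 (by decide +kernel)
theorem L587977 : W_4 (nat_lit 4) (nat_lit 0x80014001a0008800000000000000000000000000) (nat_lit 0x0) (nat_lit 0x1000180004000000010001000040000000000000000000000) := T_4 (nat_lit 108) (nat_lit 90) (nat_lit 4) (nat_lit 6) (nat_lit 9) L587569 (by decide +kernel)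
theorem L588008 : W_4 (nat_lit 2) (nat_lit 0x60000c0014001a0009800000000000000000000000000) (nat_lit 0x0) (nat_lit 0x4000900000000000000000000000000000000000000000000) := D_4 (nat_lit 176) (nat_lit 194) (nat_lit 179) (nat_lit 7) (nat_lit 6) (nat_lit 7) (nat_lit 0) (nat_lit 9) (nat_lit 10) (by decide +kernel)
theorem L588009 : W_4 (nat_lit 3) (nat_lit 0x40000c0014001a0009800000000000000000000000000) (nat_lit 0x0) (nat_lit 0x4000b00010000000000000000000000000000000000000000) := T_4 (nat_lit 177) (nat_lit 160) (nat_lit 7) (nat_lit 6) (nat_lit 6) L588008 (by decide +kernel)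
theorem L588220 : W_4 (nat_lit 2) (nat_lit 0x8003c0012001b000c000000000000000000000000000) (nat_lit 0x0) (nat_lit 0x2000100000000000000000800000000000000000000000000) := D_4 (nat_lit 176) (nat_lit 193) (nat_lit 107) (nat_lit 7) (nat_lit 5) (nat_lit 7) (nat_lit 7) (nat_lit 5) (nat_lit 6) (by decide +kernel)
theorem L588221 : W_4 (nat_lit 3) (nat_lit 0x8003c0012001a000c000000000000000000000000000) (nat_lit 0x0) (nat_lit 0x2000100000000000010001800000000000000000000000000) := T_4 (nat_lit 124) (nat_lit 108) (nat_lit 6) (nat_lit 5) (nat_lit 10) L588220 (by decide +kernel)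
theorem L588222 : W_4 (nat_lit 4) (nat_lit 0x8003c0010001a000c000000000000000000000000000) (nat_lit 0x0) (nat_lit 0x2000100000000300010001800000000000000000000000000) := T_4 (nat_lit 141) (nat_lit 140) (nat_lit 0) (nat_lit 8) (nat_lit 9) L588221 (by decide +kernel)
theorem L588223 : W_4 (nat_lit 5) (nat_lit 0x3c0010001a000c000000000000000000000000000) (nat_lit 0x0) (nat_lit 0x20001c0000000300010001800000000000000000000000000) := T_4 (nat_lit 175) (nat_lit 174) (nat_lit 1) (nat_lit 8) (nat_lit 9) L588222 (by decide +kernel)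
theorem L588224 : W_4 (nat_lit 6) (nat_lit 0x380010001a000c000000000000000000000000000) (nat_lit 0x0) (nat_lit 0x20001c0004002300010001800000000000000000000000000) := T_4 (nat_lit 158) (nat_lit 145) (nat_lit 2) (nat_lit 5) (nat_lit 9) L588223 (by decide +kernel)
theorem L588225 : W_4 (nat_lit 7) (nat_lit 0x380010001a0008000000000000000000000000000) (nat_lit 0x0) (nat_lit 0x20003c0004002300010005800000000000000000000000000) := T_4 (nat_lit 110) (nat_lit 177) (nat_lit 5) (nat_lit 8) (nat_lit 6) L588224 (by decide +kernel)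
theorem L591154 : W_4 (nat_lit 2) (nat_lit 0x1d000580028001800080000000000000000000) (nat_lit 0x0) (nat_lit 0x2000100008000000000000000) := D_4 (nat_lit 80) (nat_lit 63) (nat_lit 97) (nat_lit 6) (nat_lit 11) (nat_lit 7) (nat_lit 6) (nat_lit 11) (nat_lit 8) (by decide +kernel)
theorem L591155 : W_4 (nat_lit 3) (nat_lit 0x1d000580028001800000000000000000000000) (nat_lit 0x0) (nat_lit 0x800000002000180008000000000000000) := T_4 (nat_lit 79) (nat_lit 131) (nat_lit 7) (nat_lit 11) (nat_lit 4) L591154 (by decide +kernel)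
theorem L591156 : W_4 (nat_lit 4) (nat_lit 0xd000580028001800000000000000000000000) (nat_lit 0x0) (nat_lit 0x200010000800000002000180008000000000000000) := T_4 (nat_lit 148) (nat_lit 165) (nat_lit 7) (nat_lit 11) (nat_lit 5) L591155 (by decide +kernel)
theorem L591157 : W_4 (nat_lit 5) (nat_lit 0xd000580028001000000000000000000000000) (nat_lit 0x0) (nat_lit 0x2000100008000000028001c0008000000000000000) := T_4 (nat_lit 95) (nat_lit 78) (nat_lit 4) (nat_lit 11) (nat_lit 8) L591156 (by decide +kernel)
theorem L591158 : W_4 (nat_lit 6) (nat_lit 0xd000580028000000000000000000000000000) (nat_lit 0x0) (nat_lit 0x2800100008000000038001c0008000000000000000) := T_4 (nat_lit 96) (nat_lit 163) (nat_lit 5) (nat_lit 11) (nat_lit 5) L591157 (by decide +kernel)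
theorem L591229 : W_4 (nat_lit 2) (nat_lit 0x14003000090005a0038001000000000000000000000000) (nat_lit 0x0) (nat_lit 0x20002800000000000000000000000000000000000000000000) := D_4 (nat_lit 181) (nat_lit 179) (nat_lit 197) (nat_lit 2) (nat_lit 8) (nat_lit 10) (nat_lit 5) (nat_lit 11) (nat_lit 7) (by decide +kernel)
theorem L591230 : W_4 (nat_lit 3) (nat_lit 0x4003000090005a0038001000000000000000000000000) (nat_lit 0x0) (nat_lit 0x20003800080000000000000000000000000000000000000000) := T_4 (nat_lit 180) (nat_lit 163) (nat_lit 5) (nat_lit 11) (nat_lit 6) L591229 (by decide +kernel)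
theorem L591231 : W_4 (nat_lit 4) (nat_lit 0x4003000090005a0038000000000000000000000000000) (nat_lit 0x0) (nat_lit 0x20003800080010000000000001000000000000000000000000) := T_4 (nat_lit 96) (nat_lit 148) (nat_lit 7) (nat_lit 11) (nat_lit 5) L591230 (by decide +kernel)
theorem L591232 : W_4 (nat_lit 5) (nat_lit 0x4001000090005a0038000000000000000000000000000) (nat_lit 0x0) (nat_lit 0x20007800280010000000000001000000000000000000000000) := T_4 (nat_lit 165) (nat_lit 182) (nat_lit 7) (nat_lit 11) (nat_lit 6) L591231 (by decide +kernel)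
theorem L591233 : W_4 (nat_lit 6) (nat_lit 0x400100009000580038000000000000000000000000000) (nat_lit 0x0) (nat_lit 0x20007800280010000060000001000000000000000000000000) := T_4 (nat_lit 125) (nat_lit 126) (nat_lit 2) (nat_lit 6) (nat_lit 7) L591232 (by decide +kernel)
theorem L591234 : W_4 (nat_lit 7) (nat_lit 0x400000009000580038000000000000000000000000000) (nat_lit 0x0) (nat_lit 0x20007800380010000060000001800000000000000000000000) := T_4 (nat_lit 164) (nat_lit 95) (nat_lit 4) (nat_lit 11) (nat_lit 9) L591233 (by decide +kernel)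
theorem L591235 : W_4 (nat_lit 8) (nat_lit 0x9000580038000000000000000000000000000) (nat_lit 0x0) (nat_lit 0x20007c003a0010000060000001800000000000000000000000) := T_4 (nat_lit 178) (nat_lit 161) (nat_lit 6) (nat_lit 8) (nat_lit 10) L591234 (by decide +kernel)
theorem L591236 : W_4 (nat_lit 9) (nat_lit 0x9000580028000000000000000000000000000) (nat_lit 0x0) (nat_lit 0x20007c003a0010000060050001800000000000000000000000) := T_4 (nat_lit 112) (nat_lit 114) (nat_lit 1) (nat_lit 12) (nat_lit 6) L591235 (by decide +kernel)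
theorem L591704 : W_4 (nat_lit 2) (nat_lit 0xd000580028000000000000000000000000000) (nat_lit 0x0) (nat_lit 0x12000040000000000000000000000000000000) := D_4 (nat_lit 145) (nat_lit 126) (nat_lit 148) (nat_lit 0) (nat_lit 11) (nat_lit 8) (nat_lit 0) (nat_lit 12) (nat_lit 8) (by decide +kernel)
theorem L591705 : W_4 (nat_lit 2) (nat_lit 0xd000580028000000000000000000000000000) (nat_lit 0x0) (nat_lit 0x2000840000000000000000000000000000000) := D_4 (nat_lit 145) (nat_lit 126) (nat_lit 131) (nat_lit 0) (nat_lit 11) (nat_lit 8) (nat_lit 2) (nat_lit 8) (nat_lit 8) (by decide +kernel)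
theorem L591706 : W_4 (nat_lit 7) (nat_lit 0x9000580028000000000000000000000000000) (nat_lit 0x0) (nat_lit 0x2800160008400000038001c0008000000000000000) := Q_4 (nat_lit 146) (C_4 L591158 (C_4 L591704 (C_4 L591705 N_4))) (by decide +kernel)
theorem L591709 : W_4 (nat_lit 4) (nat_lit 0x9000580068000000000000000000000000000) (nat_lit 0x0) (nat_lit 0x80006000300000000800000002000000000000000000000000) := T_4 (nat_lit 164) (nat_lit 97) (nat_lit 6) (nat_lit 11) (nat_lit 9) L591708 (by decide +kernel)
theorem L591710 : W_4 (nat_lit 5) (nat_lit 0x9000580028000000000000000000000000000) (nat_lit 0x0) (nat_lit 0x80006000300000000800050002000000000000000000000000) := T_4 (nat_lit 114) (nat_lit 112) (nat_lit 1) (nat_lit 12) (nat_lit 6) L591709 (by decide +kernel)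
theorem L591711 : W_4 (nat_lit 7) (nat_lit 0x9000580028000000000000000000000000000) (nat_lit 0x0) (nat_lit 0x5000380014000060050001800000000000000000000000) := T_4 (nat_lit 112) (nat_lit 114) (nat_lit 1) (nat_lit 12) (nat_lit 6) L529589 (by decide +kernel)
theorem L591712 : W_4 (nat_lit 2) (nat_lit 0x180009000d80168001800000000000000000000000) (nat_lit 0x0) (nat_lit 0x10000000000000000080004000000000000000) := D_4 (nat_lit 79) (nat_lit 62) (nat_lit 148) (nat_lit 7) (nat_lit 11) (nat_lit 3) (nat_lit 7) (nat_lit 11) (nat_lit 4) (by decide +kernel)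
theorem L591713 : W_4 (nat_lit 3) (nat_lit 0x180009000580168001800000000000000000000000) (nat_lit 0x0) (nat_lit 0x2000000010000800000000000080004000000000000000) := T_4 (nat_lit 131) (nat_lit 181) (nat_lit 6) (nat_lit 11) (nat_lit 10) L591712 (by decide +kernel)
theorem L591714 : W_4 (nat_lit 4) (nat_lit 0x180009000580068001800000000000000000000000) (nat_lit 0x0) (nat_lit 0x2000000010000800180000000080004000000000000000) := T_4 (nat_lit 116) (nat_lit 115) (nat_lit 0) (nat_lit 14) (nat_lit 6) L591713 (by decide +kernel)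
theorem L591715 : W_4 (nat_lit 5) (nat_lit 0x180009000580068001000000000000000000000000) (nat_lit 0x0) (nat_lit 0x20000000100008001800008000c0004000000000000000) := T_4 (nat_lit 95) (nat_lit 78) (nat_lit 4) (nat_lit 11) (nat_lit 8) L591714 (by decide +kernel)
theorem L591716 : W_4 (nat_lit 6) (nat_lit 0x180009000580068000000000000000000000000000) (nat_lit 0x0) (nat_lit 0x20000000140008001800018000c0004000000000000000) := T_4 (nat_lit 96) (nat_lit 146) (nat_lit 5) (nat_lit 11) (nat_lit 5) L591715 (by decide +kernel)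
theorem L591717 : W_4 (nat_lit 7) (nat_lit 0x100009000580068000000000000000000000000000) (nat_lit 0x0) (nat_lit 0x30000800140008001800018000c0004000000000000000) := T_4 (nat_lit 163) (nat_lit 180) (nat_lit 5) (nat_lit 11) (nat_lit 6) L591716 (by decide +kernel)
theorem L591718 : W_4 (nat_lit 8) (nat_lit 0x9000580068000000000000000000000000000) (nat_lit 0x0) (nat_lit 0x30001800140008001800038000c0004000000000000000) := T_4 (nat_lit 164) (nat_lit 97) (nat_lit 6) (nat_lit 11) (nat_lit 9) L591717 (by decide +kernel)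
theorem L591719 : W_4 (nat_lit 9) (nat_lit 0x9000580028000000000000000000000000000) (nat_lit 0x0) (nat_lit 0x30001800140008001d00038000c0004000000000000000) := T_4 (nat_lit 114) (nat_lit 112) (nat_lit 1) (nat_lit 12) (nat_lit 6) L591718 (by decide +kernel)
theorem L591720 : W_4 (nat_lit 10) (nat_lit 0x1000580028000000000000000000000000000) (nat_lit 0x0) (nat_lit 0xa000700038001e0008601d00038001c000c000000000000000) := Q_4 (nat_lit 147) (C_4 L591706 (C_4 L591211 (C_4 L591710 (C_4 L591071 (C_4 L591711 (C_4 L591719 N_4)))))) (by decide +kernel)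
theorem L591766 : W_4 (nat_lit 15) (nat_lit 0x1000580028000000000000000000000000000) (nat_lit 0x0) (nat_lit 0x17800f8007e003a001800086005000f8001f000e000300000000000) := Q_4 (nat_lit 147) (C_4 L591710 (C_4 L591209 (C_4 L591222 (C_4 L591236 (C_4 L591237 (C_4 L591248 N_4)))))) (by decide +kernel)
theorem L591767 : W_4 (nat_lit 7) (nat_lit 0x9000580028000000000000000000000000000) (nat_lit 0x0) (nat_lit 0x4002a0016000840000003000180008000000000000000) := Q_4 (nat_lit 146) (C_4 L591705 (C_4 L533106 (C_4 L591704 N_4))) (by decide +kernel)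
theorem L601517 : W_4 (nat_lit 2) (nat_lit 0x1400300009000580038000000000000000000000000000) (nat_lit 0x0) (nat_lit 0x20002800000000000000000000000000000000000000000000) := D_4 (nat_lit 181) (nat_lit 197) (nat_lit 179) (nat_lit 5) (nat_lit 11) (nat_lit 7) (nat_lit 2) (nat_lit 8) (nat_lit 10) (by decide +kernel)
theorem L601518 : W_4 (nat_lit 3) (nat_lit 0x1400100009000580038000000000000000000000000000) (nat_lit 0x0) (nat_lit 0x20006800200000000000000000000000000000000000000000) := T_4 (nat_lit 165) (nat_lit 182) (nat_lit 7) (nat_lit 11) (nat_lit 6) L601517 (by decide +kernel)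
theorem L601519 : W_4 (nat_lit 4) (nat_lit 0x400100009000580038000000000000000000000000000) (nat_lit 0x0) (nat_lit 0x20007800280000000000000000000000000000000000000000) := T_4 (nat_lit 180) (nat_lit 163) (nat_lit 5) (nat_lit 11) (nat_lit 6) L601518 (by decide +kernel)
theorem L601522 : W_4 (nat_lit 5) (nat_lit 0x400000009000580038000000000000000000000000000) (nat_lit 0x0) (nat_lit 0x20007800380000000000000000800000000000000000000000) := T_4 (nat_lit 164) (nat_lit 95) (nat_lit 4) (nat_lit 11) (nat_lit 9) L601519 (by decide +kernel)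
theorem L604959 : W_4 (nat_lit 6) (nat_lit 0x9000580038000000000000000000000000000) (nat_lit 0x0) (nat_lit 0x20007c003a0000000000000000800000000000000000000000) := T_4 (nat_lit 178) (nat_lit 161) (nat_lit 6) (nat_lit 8) (nat_lit 10) L601522 (by decide +kernel)
theorem L605212 : W_4 (nat_lit 2) (nat_lit 0x2400000049001f80048000000000000000000000000000) (nat_lit 0x0) (nat_lit 0x84002000000000000000000000000000000000) := D_4 (nat_lit 133) (nat_lit 146) (nat_lit 151) (nat_lit 1) (nat_lit 14) (nat_lit 7) (nat_lit 3) (nat_lit 11) (nat_lit 7) (by decide +kernel)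
theorem L605213 : W_4 (nat_lit 3) (nat_lit 0x2400000009001f80048000000000000000000000000000) (nat_lit 0x0) (nat_lit 0xe4002000000000000000000000000000000000) := T_4 (nat_lit 150) (nat_lit 149) (nat_lit 3) (nat_lit 10) (nat_lit 7) L605212 (by decide +kernel)
theorem L605214 : W_4 (nat_lit 4) (nat_lit 0x400000009001f80048000000000000000000000000000) (nat_lit 0x0) (nat_lit 0x20001000e4002000000000000000000000000000000000) := T_4 (nat_lit 181) (nat_lit 164) (nat_lit 6) (nat_lit 11) (nat_lit 10) L605213 (by decide +kernel)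
theorem L605215 : W_4 (nat_lit 5) (nat_lit 0x400000009000f80048000000000000000000000000000) (nat_lit 0x0) (nat_lit 0x20001000e4003000010000000000000000000000000000) := T_4 (nat_lit 132) (nat_lit 112) (nat_lit 0) (nat_lit 13) (nat_lit 7) L605214 (by decide +kernel)
theorem L605216 : W_4 (nat_lit 6) (nat_lit 0x400000009000780048000000000000000000000000000) (nat_lit 0x0) (nat_lit 0x20001000e4003800090000000000000000000000000000) := T_4 (nat_lit 131) (nat_lit 115) (nat_lit 2) (nat_lit 9) (nat_lit 7) L605215 (by decide +kernel)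
theorem L605217 : W_4 (nat_lit 7) (nat_lit 0x400000009000780008000000000000000000000000000) (nat_lit 0x0) (nat_lit 0x20001000e40038000f0000000000000000000000000000) := T_4 (nat_lit 114) (nat_lit 113) (nat_lit 2) (nat_lit 8) (nat_lit 7) L605216 (by decide +kernel)
theorem L605218 : W_4 (nat_lit 8) (nat_lit 0x9000780008000000000000000000000000000) (nat_lit 0x0) (nat_lit 0x24001200e40038000f0000000000000000000000000000) := T_4 (nat_lit 178) (nat_lit 161) (nat_lit 6) (nat_lit 8) (nat_lit 10) L605217 (by decide +kernel)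
theorem L605219 : W_4 (nat_lit 9) (nat_lit 0x1000780008000000000000000000000000000) (nat_lit 0x0) (nat_lit 0x24001200fc0038000f0000000000000000000000000000) := T_4 (nat_lit 147) (nat_lit 148) (nat_lit 3) (nat_lit 8) (nat_lit 7) L605218 (by decide +kernel)
theorem L605270 : W_4 (nat_lit 7) (nat_lit 0x1000580008000000000000000000000000000) (nat_lit 0x0) (nat_lit 0x200010007e001a001f60038000c0004000000000000000) := Q_4 (nat_lit 129) (C_4 L605262 (C_4 L605228 (C_4 L605269 N_4))) (by decide +kernel)
theorem L605374 : W_4 (nat_lit 6) (nat_lit 0x20009000780008000000000000000000000000000) (nat_lit 0x0) (nat_lit 0x1200090006000000066001000000000000000000000000) := T_4 (nat_lit 113) (nat_lit 114) (nat_lit 2) (nat_lit 8) (nat_lit 7) L605373 (by decide +kernel)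
theorem L605375 : W_4 (nat_lit 7) (nat_lit 0x20001000780008000000000000000000000000000) (nat_lit 0x0) (nat_lit 0x120009001e000000066001000000000000000000000000) := T_4 (nat_lit 147) (nat_lit 148) (nat_lit 3) (nat_lit 8) (nat_lit 7) L605374 (by decide +kernel)
theorem L605376 : W_4 (nat_lit 8) (nat_lit 0x1000780008000000000000000000000000000) (nat_lit 0x0) (nat_lit 0x16000b001e000000066001000000000000000000000000) := T_4 (nat_lit 161) (nat_lit 178) (nat_lit 6) (nat_lit 8) (nat_lit 10) L605375 (by decide +kernel)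
theorem L605377 : W_4 (nat_lit 9) (nat_lit 0x1000580008000000000000000000000000000) (nat_lit 0x0) (nat_lit 0x16000b007e001a001e6001000000000000000000000000) := Q_4 (nat_lit 129) (C_4 L605262 (C_4 L605228 (C_4 L605376 N_4))) (by decide +kernel)
theorem L611131 : W_4 (nat_lit 2) (nat_lit 0x10007c0018000000000000000000000000000) (nat_lit 0x0) (nat_lit 0x2001800000000000000000000000000000000) := D_4 (nat_lit 131) (nat_lit 145) (nat_lit 132) (nat_lit 1) (nat_lit 12) (nat_lit 7) (nat_lit 0) (nat_lit 13) (nat_lit 7) (by decide +kernel)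
theorem L611137 : W_4 (nat_lit 2) (nat_lit 0x300010003c001e000800000000000000000000000) (nat_lit 0x0) (nat_lit 0x2000000000000000040002000000000000000) := D_4 (nat_lit 78) (nat_lit 61) (nat_lit 145) (nat_lit 5) (nat_lit 10) (nat_lit 3) (nat_lit 5) (nat_lit 10) (nat_lit 4) (by decide +kernel)
theorem L611138 : W_4 (nat_lit 3) (nat_lit 0x300010003c001e000000000000000000000000000) (nat_lit 0x0) (nat_lit 0x2000000000001800040002000000000000000) := T_4 (nat_lit 95) (nat_lit 96) (nat_lit 2) (nat_lit 7) (nat_lit 6) L611137 (by decide +kernel)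
theorem L611893 : W_4 (nat_lit 2) (nat_lit 0x10001c0028000000000000000000000000000) (nat_lit 0x0) (nat_lit 0x54000000000000000000000000000) := D_4 (nat_lit 112) (nat_lit 110) (nat_lit 114) (nat_lit 1) (nat_lit 11) (nat_lit 6) (nat_lit 1) (nat_lit 12) (nat_lit 6) (by decide +kernel)
theorem L614319 : W_4 (nat_lit 2) (nat_lit 0x4000000090007c0018000000000000000000000000000) (nat_lit 0x0) (nat_lit 0x1800004000000000000000000000000000) := D_4 (nat_lit 131) (nat_lit 132) (nat_lit 110) (nat_lit 0) (nat_lit 13) (nat_lit 7) (nat_lit 0) (nat_lit 12) (nat_lit 7) (by decide +kernel)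
theorem L614320 : W_4 (nat_lit 3) (nat_lit 0x4000000090003c0018000000000000000000000000000) (nat_lit 0x0) (nat_lit 0x10001c00004000000000000000000000000000) := T_4 (nat_lit 130) (nat_lit 148) (nat_lit 3) (nat_lit 8) (nat_lit 7) L614319 (by decide +kernel)
theorem L614561 : W_4 (nat_lit 4) (nat_lit 0x4000000010003c0018000000000000000000000000000) (nat_lit 0x0) (nat_lit 0x1c001c00004000000000000000000000000000) := T_4 (nat_lit 147) (nat_lit 146) (nat_lit 3) (nat_lit 7) (nat_lit 7) L614320 (by decide +kernel)
theorem L614618 : W_4 (nat_lit 5) (nat_lit 0x4000000010003c0008000000000000000000000000000) (nat_lit 0x0) (nat_lit 0x1c001c00034000000000000000000000000000) := T_4 (nat_lit 112) (nat_lit 113) (nat_lit 2) (nat_lit 7) (nat_lit 7) L614561 (by decide +kernel)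
theorem L614619 : W_4 (nat_lit 6) (nat_lit 0x10003c0008000000000000000000000000000) (nat_lit 0x0) (nat_lit 0x40002001c001c00034000000000000000000000000000) := T_4 (nat_lit 178) (nat_lit 161) (nat_lit 6) (nat_lit 8) (nat_lit 10) L614618 (by decide +kernel)
theorem L616044 : W_4 (nat_lit 2) (nat_lit 0x18000e0002000000000000000000000000000) (nat_lit 0x0) (nat_lit 0x6000010000000000000000000000000000000) := D_4 (nat_lit 145) (nat_lit 146) (nat_lit 124) (nat_lit 0) (nat_lit 10) (nat_lit 8) (nat_lit 3) (nat_lit 5) (nat_lit 7) (by decide +kernel)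
theorem L616451 : W_4 (nat_lit 5) (nat_lit 0x10000f0002000000000000000000000000000) (nat_lit 0x0) (nat_lit 0x400020000b00008000e00000000000000000000000000) := T_4 (nat_lit 178) (nat_lit 161) (nat_lit 4) (nat_lit 8) (nat_lit 10) L616450 (by decide +kernel)
theorem L616485 : W_4 (nat_lit 12) (nat_lit 0x10000e0002000000000000000000000000000) (nat_lit 0x0) (nat_lit 0x7f003f800fe001e001f800f0007000000000000000000) := Q_4 (nat_lit 124) (C_4 L615329 (C_4 L616446 (C_4 L616447 (C_4 L616451 (C_4 L616478 (C_4 L616484 N_4)))))) (by decide +kernel)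
theorem L619149 : W_4 (nat_lit 2) (nat_lit 0x1c000c0000000000000000000000000000000) (nat_lit 0x0) (nat_lit 0x300100000000000000000000000000000000) := D_4 (nat_lit 141) (nat_lit 128) (nat_lit 140) (nat_lit 2) (nat_lit 5) (nat_lit 8) (nat_lit 2) (nat_lit 4) (nat_lit 8) (by decide +kernel)
theorem L619498 : W_4 (nat_lit 2) (nat_lit 0x20001c000c0000000000000000000000000000000) (nat_lit 0x0) (nat_lit 0x8000400000000000000002000000000000000000000000000) := D_4 (nat_lit 178) (nat_lit 109) (nat_lit 195) (nat_lit 4) (nat_lit 8) (nat_lit 10) (nat_lit 4) (nat_lit 8) (nat_lit 11) (by decide +kernel)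
theorem L619745 : W_4 (nat_lit 2) (nat_lit 0x8001c000c0002000000000000000000000000000) (nat_lit 0x0) (nat_lit 0x2000100010000000000000000000000000000000000000000) := D_4 (nat_lit 176) (nat_lit 193) (nat_lit 160) (nat_lit 6) (nat_lit 6) (nat_lit 11) (nat_lit 5) (nat_lit 7) (nat_lit 6) (by decide +kernel)
theorem L619746 : W_4 (nat_lit 3) (nat_lit 0x8001c000c0000000000000000000000000000000) (nat_lit 0x0) (nat_lit 0x2000100010000000000002000100000000000000000000000) := T_4 (nat_lit 109) (nat_lit 92) (nat_lit 5) (nat_lit 7) (nat_lit 5) L619745 (by decide +kernel)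
theorem L621031 : W_4 (nat_lit 2) (nat_lit 0x100038000c0003000000000000000000000000000) (nat_lit 0x0) (nat_lit 0x800c000000000000000000000000000000000000) := D_4 (nat_lit 146) (nat_lit 159) (nat_lit 147) (nat_lit 1) (nat_lit 10) (nat_lit 8) (nat_lit 0) (nat_lit 11) (nat_lit 8) (by decide +kernel)
theorem L621519 : W_4 (nat_lit 2) (nat_lit 0x78002c0003400000000000000000000000000) (nat_lit 0x0) (nat_lit 0x18000000000000000080000000000000000000000) := D_4 (nat_lit 160) (nat_lit 159) (nat_lit 91) (nat_lit 1) (nat_lit 10) (nat_lit 8) (nat_lit 4) (nat_lit 7) (nat_lit 9) (by decide +kernel)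
theorem L621520 : W_4 (nat_lit 3) (nat_lit 0x70002c0003400000000000000000000000000) (nat_lit 0x0) (nat_lit 0x18000800400000000080000000000000000000000) := T_4 (nat_lit 143) (nat_lit 130) (nat_lit 2) (nat_lit 7) (nat_lit 8) L621519 (by decide +kernel)
theorem L623039 : W_4 (nat_lit 2) (nat_lit 0x30001c000a000400000000000000000000000) (nat_lit 0x0) (nat_lit 0x8000c000000000000000000000000000000000000) := D_4 (nat_lit 146) (nat_lit 147) (nat_lit 163) (nat_lit 0) (nat_lit 11) (nat_lit 8) (nat_lit 7) (nat_lit 9) (nat_lit 5) (by decide +kernel)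
theorem L623054 : W_4 (nat_lit 4) (nat_lit 0x10001c0002000f00060000000000000000000) (nat_lit 0x0) (nat_lit 0x70007000010000000000000000000) := T_4 (nat_lit 113) (nat_lit 112) (nat_lit 3) (nat_lit 7) (nat_lit 5) L572045 (by decide +kernel)
theorem L623055 : W_4 (nat_lit 5) (nat_lit 0x10001c0002000f00040000000000000000000) (nat_lit 0x0) (nat_lit 0x70007080030000000000000000000) := T_4 (nat_lit 77) (nat_lit 91) (nat_lit 2) (nat_lit 6) (nat_lit 5) L623054 (by decide +kernel)
theorem L623056 : W_4 (nat_lit 6) (nat_lit 0x10001c0002000f00000000000000000000000) (nat_lit 0x0) (nat_lit 0x700070800f0000000000000000000) := T_4 (nat_lit 78) (nat_lit 79) (nat_lit 2) (nat_lit 7) (nat_lit 5) L623055 (by decide +kernel)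
theorem L623066 : W_4 (nat_lit 2) (nat_lit 0x10001c0012000f00040000000000000000000) (nat_lit 0x0) (nat_lit 0x2000000008000080000000000000000000000) := D_4 (nat_lit 111) (nat_lit 91) (nat_lit 145) (nat_lit 3) (nat_lit 6) (nat_lit 5) (nat_lit 6) (nat_lit 9) (nat_lit 8) (by decide +kernel)
theorem L623067 : W_4 (nat_lit 3) (nat_lit 0x10001c0002000f00040000000000000000000) (nat_lit 0x0) (nat_lit 0x2000000038000080000000000000000000000) := T_4 (nat_lit 112) (nat_lit 113) (nat_lit 3) (nat_lit 7) (nat_lit 5) L623066 (by decide +kernel)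
theorem L623068 : W_4 (nat_lit 4) (nat_lit 0x10001c0002000f00000000000000000000000) (nat_lit 0x0) (nat_lit 0x20000000380000800c0000000000000000000) := T_4 (nat_lit 78) (nat_lit 79) (nat_lit 2) (nat_lit 7) (nat_lit 5) L623067 (by decide +kernel)
theorem L623091 : W_4 (nat_lit 7) (nat_lit 0x10001c0002000700000000000000000000000) (nat_lit 0x0) (nat_lit 0x710078800f0000000000000000000) := T_4 (nat_lit 95) (nat_lit 108) (nat_lit 1) (nat_lit 10) (nat_lit 5) L623056 (by decide +kernel)
theorem L623093 : W_4 (nat_lit 2) (nat_lit 0x4000000010001c0022000f00080000000000000000000) (nat_lit 0x0) (nat_lit 0x40001000100000000000000000000) := D_4 (nat_lit 96) (nat_lit 80) (nat_lit 114) (nat_lit 2) (nat_lit 8) (nat_lit 5) (nat_lit 3) (nat_lit 8) (nat_lit 5) (by decide +kernel)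
theorem L623094 : W_4 (nat_lit 3) (nat_lit 0x4000000010001c0002000f00080000000000000000000) (nat_lit 0x0) (nat_lit 0x70001000100000000000000000000) := T_4 (nat_lit 113) (nat_lit 112) (nat_lit 3) (nat_lit 7) (nat_lit 5) L623093 (by decide +kernel)
theorem L623095 : W_4 (nat_lit 4) (nat_lit 0x4000000010001c0002000f00000000000000000000000) (nat_lit 0x0) (nat_lit 0x700010001c0000000000000000000) := T_4 (nat_lit 79) (nat_lit 78) (nat_lit 2) (nat_lit 7) (nat_lit 5) L623094 (by decide +kernel)
theorem L623098 : W_4 (nat_lit 5) (nat_lit 0x4000000010001c0002000700000000000000000000000) (nat_lit 0x0) (nat_lit 0x710018001c0000000000000000000) := T_4 (nat_lit 95) (nat_lit 108) (nat_lit 1) (nat_lit 10) (nat_lit 5) L623095 (by decide +kernel)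
theorem L623099 : W_4 (nat_lit 6) (nat_lit 0x10001c0002000700000000000000000000000) (nat_lit 0x0) (nat_lit 0x4000200000000000710018001c0000000000000000000) := T_4 (nat_lit 178) (nat_lit 161) (nat_lit 4) (nat_lit 8) (nat_lit 10) L623098 (by decide +kernel)
theorem L623226 : W_4 (nat_lit 2) (nat_lit 0x10001c00020007c0020000000000000000000) (nat_lit 0x0) (nat_lit 0x7000000000000000000) := D_4 (nat_lit 73) (nat_lit 74) (nat_lit 72) (nat_lit 0) (nat_lit 9) (nat_lit 5) (nat_lit 0) (nat_lit 8) (nat_lit 5) (by decide +kernel)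
theorem L623227 : W_4 (nat_lit 3) (nat_lit 0x10001c0002000780020000000000000000000) (nat_lit 0x0) (nat_lit 0x40017000000000000000000) := T_4 (nat_lit 90) (nat_lit 76) (nat_lit 2) (nat_lit 5) (nat_lit 5) L623226 (by decide +kernel)
theorem L623228 : W_4 (nat_lit 4) (nat_lit 0x10001c0002000700020000000000000000000) (nat_lit 0x0) (nat_lit 0xc0057000000000000000000) := T_4 (nat_lit 91) (nat_lit 78) (nat_lit 2) (nat_lit 6) (nat_lit 5) L623227 (by decide +kernel)
theorem L623229 : W_4 (nat_lit 5) (nat_lit 0x10001c0002000700000000000000000000000) (nat_lit 0x0) (nat_lit 0x80000c0077000000000000000000) := T_4 (nat_lit 77) (nat_lit 111) (nat_lit 5) (nat_lit 9) (nat_lit 4) L623228 (by decide +kernel)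
theorem L623230 : W_4 (nat_lit 5) (nat_lit 0x10001c0002000700000000000000000000000) (nat_lit 0x0) (nat_lit 0x20000000390008800c0000000000000000000) := T_4 (nat_lit 95) (nat_lit 108) (nat_lit 1) (nat_lit 10) (nat_lit 5) L623068 (by decide +kernel)
theorem L623231 : W_4 (nat_lit 4) (nat_lit 0x10001c0022000f00020000000000000000000) (nat_lit 0x0) (nat_lit 0x400070000d0000000000000000000) := T_4 (nat_lit 78) (nat_lit 79) (nat_lit 2) (nat_lit 7) (nat_lit 5) L572045 (by decide +kernel)
theorem L623232 : W_4 (nat_lit 5) (nat_lit 0x10001c0002000f00020000000000000000000) (nat_lit 0x0) (nat_lit 0x700070000d0000000000000000000) := T_4 (nat_lit 113) (nat_lit 112) (nat_lit 3) (nat_lit 7) (nat_lit 5) L623231 (by decide +kernel)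
theorem L623233 : W_4 (nat_lit 6) (nat_lit 0x10001c0002000f00000000000000000000000) (nat_lit 0x0) (nat_lit 0x780070000f0000000000000000000) := T_4 (nat_lit 77) (nat_lit 111) (nat_lit 5) (nat_lit 9) (nat_lit 4) L623232 (by decide +kernel)
theorem L623234 : W_4 (nat_lit 7) (nat_lit 0x10001c0002000700000000000000000000000) (nat_lit 0x0) (nat_lit 0x790078000f0000000000000000000) := T_4 (nat_lit 95) (nat_lit 108) (nat_lit 1) (nat_lit 10) (nat_lit 5) L623233 (by decide +kernel)
theorem L623235 : W_4 (nat_lit 2) (nat_lit 0x10001c0022001f00120000000000000000000) (nat_lit 0x0) (nat_lit 0x2000210000000000000000000) := D_4 (nat_lit 97) (nat_lit 76) (nat_lit 81) (nat_lit 0) (nat_lit 12) (nat_lit 5) (nat_lit 2) (nat_lit 9) (nat_lit 5) (by decide +kernel)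
theorem L623236 : W_4 (nat_lit 3) (nat_lit 0x10001c0022001f00020000000000000000000) (nat_lit 0x0) (nat_lit 0x2000390000000000000000000) := T_4 (nat_lit 80) (nat_lit 79) (nat_lit 2) (nat_lit 8) (nat_lit 5) L623235 (by decide +kernel)
theorem L623237 : W_4 (nat_lit 4) (nat_lit 0x10001c0022000f00020000000000000000000) (nat_lit 0x0) (nat_lit 0x40003000390000000000000000000) := T_4 (nat_lit 96) (nat_lit 114) (nat_lit 3) (nat_lit 8) (nat_lit 5) L623236 (by decide +kernel)
theorem L623238 : W_4 (nat_lit 5) (nat_lit 0x10001c0002000f00020000000000000000000) (nat_lit 0x0) (nat_lit 0x70003000390000000000000000000) := T_4 (nat_lit 113) (nat_lit 112) (nat_lit 3) (nat_lit 7) (nat_lit 5) L623237 (by decide +kernel)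
theorem L623239 : W_4 (nat_lit 6) (nat_lit 0x10001c0002000700020000000000000000000) (nat_lit 0x0) (nat_lit 0x71003800390000000000000000000) := T_4 (nat_lit 95) (nat_lit 108) (nat_lit 1) (nat_lit 10) (nat_lit 5) L623238 (by decide +kernel)
theorem L623240 : W_4 (nat_lit 7) (nat_lit 0x10001c0002000700000000000000000000000) (nat_lit 0x0) (nat_lit 0x790038003b0000000000000000000) := T_4 (nat_lit 77) (nat_lit 111) (nat_lit 5) (nat_lit 9) (nat_lit 4) L623239 (by decide +kernel)
theorem L623241 : W_4 (nat_lit 8) (nat_lit 0x10001c0002000500000000000000000000000) (nat_lit 0x0) (nat_lit 0x2000000079007ac03f7000000000000000000) := Q_4 (nat_lit 93) (C_4 L623091 (C_4 L623229 (C_4 L623230 (C_4 L623234 (C_4 L623240 N_4))))) (by decide +kernel)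
theorem L623246 : W_4 (nat_lit 8) (nat_lit 0x10001c0002000300000000000000000000000) (nat_lit 0x0) (nat_lit 0x2000000079007cc03f7000000000000000000) := Q_4 (nat_lit 94) (C_4 L623091 (C_4 L623240 (C_4 L623229 (C_4 L623230 N_4)))) (by decide +kernel)
theorem L625690 : W_4 (nat_lit 4) (nat_lit 0x4001e000c0000000000000000000000000000000) (nat_lit 0x0) (nat_lit 0x2000100008002000018000800000000000000000000000000) := T_4 (nat_lit 124) (nat_lit 123) (nat_lit 0) (nat_lit 8) (nat_lit 8) L625689 (by decide +kernel)
theorem L625691 : W_4 (nat_lit 5) (nat_lit 0x1e000c0000000000000000000000000000000) (nat_lit 0x0) (nat_lit 0x200010000e002000018000800000000000000000000000000) := T_4 (nat_lit 158) (nat_lit 157) (nat_lit 1) (nat_lit 8) (nat_lit 8) L625690 (by decide +kernel)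
theorem L625692 : W_4 (nat_lit 6) (nat_lit 0x1c000c0000000000000000000000000000000) (nat_lit 0x0) (nat_lit 0x200010000e002300018000800000000000000000000000000) := T_4 (nat_lit 141) (nat_lit 140) (nat_lit 2) (nat_lit 4) (nat_lit 8) L625691 (by decide +kernel)
theorem L625693 : W_4 (nat_lit 2) (nat_lit 0x2000000008003c002c0000000100000000000000000000000) (nat_lit 0x0) (nat_lit 0xc000400000000000000000000000000000000) := D_4 (nat_lit 146) (nat_lit 147) (nat_lit 130) (nat_lit 0) (nat_lit 11) (nat_lit 8) (nat_lit 2) (nat_lit 7) (nat_lit 8) (by decide +kernel)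
theorem L625694 : W_4 (nat_lit 3) (nat_lit 0x2000000008001c002c0000000100000000000000000000000) (nat_lit 0x0) (nat_lit 0x400e000400000000000000000000000000000000) := T_4 (nat_lit 145) (nat_lit 158) (nat_lit 1) (nat_lit 9) (nat_lit 8) L625693 (by decide +kernel)
theorem L625695 : W_4 (nat_lit 4) (nat_lit 0x2000000008001c002c0000000000000000000000000000000) (nat_lit 0x0) (nat_lit 0x400e000400002000100000000000000000000000) := T_4 (nat_lit 92) (nat_lit 109) (nat_lit 5) (nat_lit 7) (nat_lit 5) L625694 (by decide +kernel)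
theorem L625696 : W_4 (nat_lit 5) (nat_lit 0x2000000008001c000c0000000000000000000000000000000) (nat_lit 0x0) (nat_lit 0x400e000700002000100000000000000000000000) := T_4 (nat_lit 129) (nat_lit 128) (nat_lit 1) (nat_lit 10) (nat_lit 7) L625695 (by decide +kernel)
theorem L625697 : W_4 (nat_lit 6) (nat_lit 0x8001c000c0000000000000000000000000000000) (nat_lit 0x0) (nat_lit 0x200010000400e000700002000100000000000000000000000) := T_4 (nat_lit 193) (nat_lit 176) (nat_lit 6) (nat_lit 6) (nat_lit 11) L625696 (by decide +kernel)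
theorem L625698 : W_4 (nat_lit 2) (nat_lit 0x8003c000c0000000000000000000000000000000) (nat_lit 0x0) (nat_lit 0x1000c000000000000000000000000000000000000) := D_4 (nat_lit 146) (nat_lit 147) (nat_lit 160) (nat_lit 0) (nat_lit 11) (nat_lit 8) (nat_lit 1) (nat_lit 10) (nat_lit 8) (by decide +kernel)
theorem L625699 : W_4 (nat_lit 3) (nat_lit 0x8001c000c0000000000000000000000000000000) (nat_lit 0x0) (nat_lit 0x1400e000000000000000000000000000000000000) := T_4 (nat_lit 145) (nat_lit 158) (nat_lit 1) (nat_lit 9) (nat_lit 8) L625698 (by decide +kernel)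
theorem L625700 : W_4 (nat_lit 7) (nat_lit 0x1c000c0000000000000000000000000000000) (nat_lit 0x0) (nat_lit 0x200010001c00e000700002000100000000000000000000000) := Q_4 (nat_lit 159) (C_4 L619746 (C_4 L625697 (C_4 L625699 N_4))) (by decide +kernel)
theorem L625701 : W_4 (nat_lit 8) (nat_lit 0x18000c0000000000000000000000000000000) (nat_lit 0x0) (nat_lit 0x200010001e00e700718002800100000000000000000000000) := Q_4 (nat_lit 142) (C_4 L625692 (C_4 L619149 (C_4 L625700 N_4))) (by decide +kernel)
theorem L625751 : W_4 (nat_lit 3) (nat_lit 0x20001c000c0000000000000000000000000000000) (nat_lit 0x0) (nat_lit 0x8000400000000000300008000000000000000000000000000) := T_4 (nat_lit 128) (nat_lit 129) (nat_lit 1) (nat_lit 10) (nat_lit 7) L625750 (by decide +kernel)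
theorem L625755 : W_4 (nat_lit 2) (nat_lit 0x3c002c0000000000000000000000000000000) (nat_lit 0x0) (nat_lit 0xc000400000000000000000000000000000000) := D_4 (nat_lit 146) (nat_lit 130) (nat_lit 147) (nat_lit 2) (nat_lit 7) (nat_lit 8) (nat_lit 0) (nat_lit 11) (nat_lit 8) (by decide +kernel)
theorem L625756 : W_4 (nat_lit 3) (nat_lit 0x3c000c0000000000000000000000000000000) (nat_lit 0x0) (nat_lit 0xc000700000000000000000000000000000000) := T_4 (nat_lit 129) (nat_lit 128) (nat_lit 2) (nat_lit 6) (nat_lit 8) L625755 (by decide +kernel)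
theorem L625760 : W_4 (nat_lit 2) (nat_lit 0x20003c000c0000000000000000000000000000000) (nat_lit 0x0) (nat_lit 0x8000400000000000000002000000000000000000000000000) := D_4 (nat_lit 178) (nat_lit 109) (nat_lit 195) (nat_lit 4) (nat_lit 8) (nat_lit 10) (nat_lit 4) (nat_lit 8) (nat_lit 11) (by decide +kernel)
theorem L626854 : W_4 (nat_lit 2) (nat_lit 0x400000001a001c0002000000000000000000000000000) (nat_lit 0x0) (nat_lit 0x600001000000000000000000000000000) := D_4 (nat_lit 129) (nat_lit 108) (nat_lit 130) (nat_lit 0) (nat_lit 10) (nat_lit 7) (nat_lit 1) (nat_lit 11) (nat_lit 7) (by decide +kernel)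
theorem L627403 : W_4 (nat_lit 2) (nat_lit 0x18002c0000000000000000000000000000000) (nat_lit 0x0) (nat_lit 0x400500000000000000000000000000000000) := D_4 (nat_lit 128) (nat_lit 142) (nat_lit 130) (nat_lit 1) (nat_lit 10) (nat_lit 7) (nat_lit 1) (nat_lit 11) (nat_lit 7) (by decide +kernel)
theorem L627449 : W_4 (nat_lit 2) (nat_lit 0x58002c0000000000000000000000000000000) (nat_lit 0x0) (nat_lit 0xa000400000000000000000000000000000000) := D_4 (nat_lit 145) (nat_lit 147) (nat_lit 130) (nat_lit 0) (nat_lit 11) (nat_lit 8) (nat_lit 2) (nat_lit 7) (nat_lit 8) (by decide +kernel)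
theorem L627499 : W_4 (nat_lit 2) (nat_lit 0xc001e002d0000000000000000000000000000000) (nat_lit 0x0) (nat_lit 0x2000100000000000000000800000000000000000000000000) := D_4 (nat_lit 176) (nat_lit 193) (nat_lit 107) (nat_lit 6) (nat_lit 6) (nat_lit 11) (nat_lit 7) (nat_lit 5) (nat_lit 6) (by decide +kernel)
theorem L627500 : W_4 (nat_lit 3) (nat_lit 0x4001e002d0000000000000000000000000000000) (nat_lit 0x0) (nat_lit 0x2000100008002000000000800000000000000000000000000) := T_4 (nat_lit 159) (nat_lit 145) (nat_lit 1) (nat_lit 9) (nat_lit 8) L627499 (by decide +kernel)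
theorem L627501 : W_4 (nat_lit 4) (nat_lit 0x4001e002c0000000000000000000000000000000) (nat_lit 0x0) (nat_lit 0x2000100008002000018000800000000000000000000000000) := T_4 (nat_lit 124) (nat_lit 123) (nat_lit 0) (nat_lit 8) (nat_lit 8) L627500 (by decide +kernel)
theorem L627502 : W_4 (nat_lit 5) (nat_lit 0x1e002c0000000000000000000000000000000) (nat_lit 0x0) (nat_lit 0x200010000e002000018000800000000000000000000000000) := T_4 (nat_lit 158) (nat_lit 157) (nat_lit 1) (nat_lit 8) (nat_lit 8) L627501 (by decide +kernel)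
theorem L627503 : W_4 (nat_lit 6) (nat_lit 0x1c002c0000000000000000000000000000000) (nat_lit 0x0) (nat_lit 0x200010000e002300018000800000000000000000000000000) := T_4 (nat_lit 141) (nat_lit 140) (nat_lit 2) (nat_lit 4) (nat_lit 8) L627502 (by decide +kernel)
theorem L627976 : W_4 (nat_lit 2) (nat_lit 0x1000058002c0010001800000000000000000000000) (nat_lit 0x0) (nat_lit 0x2000080000000000020000000000000000000000000000) := D_4 (nat_lit 163) (nat_lit 181) (nat_lit 113) (nat_lit 7) (nat_lit 10) (nat_lit 6) (nat_lit 6) (nat_lit 10) (nat_lit 9) (by decide +kernel)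
theorem L627977 : W_4 (nat_lit 3) (nat_lit 0x1000058002c0010000800000000000000000000000) (nat_lit 0x0) (nat_lit 0x2000080000000000020001000080000000000000000000) := T_4 (nat_lit 96) (nat_lit 79) (nat_lit 6) (nat_lit 10) (nat_lit 8) L627976 (by decide +kernel)
theorem L628147 : W_4 (nat_lit 2) (nat_lit 0x58002c0010001c00000000000000000000000) (nat_lit 0x0) (nat_lit 0x80000000000028000000000000000000000000000) := D_4 (nat_lit 163) (nat_lit 113) (nat_lit 111) (nat_lit 6) (nat_lit 10) (nat_lit 9) (nat_lit 4) (nat_lit 10) (nat_lit 9) (by decide +kernel)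
theorem L628148 : W_4 (nat_lit 3) (nat_lit 0x58002c0010001800000000000000000000000) (nat_lit 0x0) (nat_lit 0x80000000000028000400020000000000000000000) := T_4 (nat_lit 94) (nat_lit 77) (nat_lit 4) (nat_lit 10) (nat_lit 8) L628147 (by decide +kernel)
theorem L628149 : W_4 (nat_lit 4) (nat_lit 0x58002c0010000800000000000000000000000) (nat_lit 0x0) (nat_lit 0x800000000000280014000a0000000000000000000) := T_4 (nat_lit 96) (nat_lit 79) (nat_lit 6) (nat_lit 10) (nat_lit 8) L628148 (by decide +kernel)
theorem L628152 : W_4 (nat_lit 2) (nat_lit 0xd8006c0030003800000000000000000000000) (nat_lit 0x0) (nat_lit 0x800c000000000000000000000000) := D_4 (nat_lit 98) (nat_lit 99) (nat_lit 111) (nat_lit 1) (nat_lit 14) (nat_lit 5) (nat_lit 1) (nat_lit 13) (nat_lit 5) (by decide +kernel)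
theorem L628153 : W_4 (nat_lit 3) (nat_lit 0xd8006c0030001800000000000000000000000) (nat_lit 0x0) (nat_lit 0x800e000100000000000000000000) := T_4 (nat_lit 97) (nat_lit 80) (nat_lit 6) (nat_lit 11) (nat_lit 8) L628152 (by decide +kernel)
theorem L628154 : W_4 (nat_lit 4) (nat_lit 0xd8006c0010001800000000000000000000000) (nat_lit 0x0) (nat_lit 0x8000000000002800e000100000000000000000000) := T_4 (nat_lit 113) (nat_lit 163) (nat_lit 6) (nat_lit 10) (nat_lit 9) L628153 (by decide +kernel)
theorem L628155 : W_4 (nat_lit 5) (nat_lit 0xd8002c0010001800000000000000000000000) (nat_lit 0x0) (nat_lit 0x8000000040002800e000140000000000000000000) := T_4 (nat_lit 130) (nat_lit 78) (nat_lit 7) (nat_lit 10) (nat_lit 4) L628154 (by decide +kernel)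
theorem L628156 : W_4 (nat_lit 6) (nat_lit 0x58002c0010001800000000000000000000000) (nat_lit 0x0) (nat_lit 0x18000800040002800e000140000000000000000000) := T_4 (nat_lit 147) (nat_lit 164) (nat_lit 7) (nat_lit 10) (nat_lit 5) L628155 (by decide +kernel)
theorem L628157 : W_4 (nat_lit 7) (nat_lit 0x58002c0010000800000000000000000000000) (nat_lit 0x0) (nat_lit 0x18000800040002800f0001c0000000000000000000) := T_4 (nat_lit 96) (nat_lit 79) (nat_lit 6) (nat_lit 10) (nat_lit 8) L628156 (by decide +kernel)
theorem L628180 : W_4 (nat_lit 2) (nat_lit 0xd8002c0010000800040000000000000000000) (nat_lit 0x0) (nat_lit 0x400020001000000000000000) := D_4 (nat_lit 77) (nat_lit 94) (nat_lit 60) (nat_lit 4) (nat_lit 10) (nat_lit 8) (nat_lit 4) (nat_lit 10) (nat_lit 7) (by decide +kernel)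
theorem L628181 : W_4 (nat_lit 3) (nat_lit 0xd8002c0010000800000000000000000000000) (nat_lit 0x0) (nat_lit 0x400000000400060001000000000000000) := T_4 (nat_lit 78) (nat_lit 130) (nat_lit 7) (nat_lit 10) (nat_lit 4) L628180 (by decide +kernel)
theorem L628182 : W_4 (nat_lit 4) (nat_lit 0x58002c0010000800000000000000000000000) (nat_lit 0x0) (nat_lit 0x100008000400000000400060001000000000000000) := T_4 (nat_lit 147) (nat_lit 164) (nat_lit 7) (nat_lit 10) (nat_lit 5) L628181 (by decide +kernel)
theorem L628184 : W_4 (nat_lit 8) (nat_lit 0x58002c0010000000000000000000000000000) (nat_lit 0x0) (nat_lit 0x18000800040002800fc001e0001000000000000000) := Q_4 (nat_lit 95) (C_4 L628149 (C_4 L628182 (C_4 L628157 N_4))) (by decide +kernel)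
theorem L628201 : W_4 (nat_lit 4) (nat_lit 0x58002c0010000800000000000000000000000) (nat_lit 0x0) (nat_lit 0x2000180008000000020001000080000000000000000000) := T_4 (nat_lit 164) (nat_lit 147) (nat_lit 7) (nat_lit 10) (nat_lit 5) L627977 (by decide +kernel)
theorem L628206 : W_4 (nat_lit 2) (nat_lit 0x1000058002c0010000c00000000000000000000000) (nat_lit 0x0) (nat_lit 0x2000080000000000008000000000000000000000000000) := D_4 (nat_lit 163) (nat_lit 111) (nat_lit 181) (nat_lit 4) (nat_lit 10) (nat_lit 9) (nat_lit 7) (nat_lit 10) (nat_lit 6) (by decide +kernel)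
theorem L628207 : W_4 (nat_lit 3) (nat_lit 0x58002c0010000c00000000000000000000000) (nat_lit 0x0) (nat_lit 0x2000180008000000008000000000000000000000000000) := T_4 (nat_lit 164) (nat_lit 147) (nat_lit 7) (nat_lit 10) (nat_lit 5) L628206 (by decide +kernel)
theorem L628208 : W_4 (nat_lit 4) (nat_lit 0x58002c0010000800000000000000000000000) (nat_lit 0x0) (nat_lit 0x2000180008000000008000400020000000000000000000) := T_4 (nat_lit 94) (nat_lit 77) (nat_lit 4) (nat_lit 10) (nat_lit 8) L628207 (by decide +kernel)
theorem L628252 : W_4 (nat_lit 2) (nat_lit 0x200030000800058016c0018000000000000000000000000000) (nat_lit 0x0) (nat_lit 0x200010000800000000000000000000000000000000000000000000) := D_4 (nat_lit 196) (nat_lit 213) (nat_lit 179) (nat_lit 5) (nat_lit 10) (nat_lit 8) (nat_lit 5) (nat_lit 10) (nat_lit 7) (by decide +kernel)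
theorem L628253 : W_4 (nat_lit 3) (nat_lit 0x30000800058016c0018000000000000000000000000000) (nat_lit 0x0) (nat_lit 0x200030000800000008000000000000000000000000000000000000) := T_4 (nat_lit 197) (nat_lit 147) (nat_lit 6) (nat_lit 10) (nat_lit 11) L628252 (by decide +kernel)
theorem L628254 : W_4 (nat_lit 4) (nat_lit 0x30000800058006c0018000000000000000000000000000) (nat_lit 0x0) (nat_lit 0x200030000800000008001800000000000000000000000000000000) := T_4 (nat_lit 132) (nat_lit 131) (nat_lit 0) (nat_lit 13) (nat_lit 7) L628253 (by decide +kernel)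
theorem L628255 : W_4 (nat_lit 5) (nat_lit 0x30000800058002c0018000000000000000000000000000) (nat_lit 0x0) (nat_lit 0x200030000800000008001c00020000000000000000000000000000) := T_4 (nat_lit 130) (nat_lit 113) (nat_lit 6) (nat_lit 10) (nat_lit 10) L628254 (by decide +kernel)
theorem L628256 : W_4 (nat_lit 6) (nat_lit 0x20000800058002c0018000000000000000000000000000) (nat_lit 0x0) (nat_lit 0x200070001800000008001c00020000000000000000000000000000) := T_4 (nat_lit 180) (nat_lit 198) (nat_lit 7) (nat_lit 10) (nat_lit 7) L628255 (by decide +kernel)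
theorem L628257 : W_4 (nat_lit 7) (nat_lit 0x20000800058002c0010000000000000000000000000000) (nat_lit 0x0) (nat_lit 0x200070001800000008001c00028000400000000000000000000000) := T_4 (nat_lit 111) (nat_lit 94) (nat_lit 4) (nat_lit 10) (nat_lit 9) L628256 (by decide +kernel)
theorem L628258 : W_4 (nat_lit 8) (nat_lit 0x800058002c0010000000000000000000000000000) (nat_lit 0x0) (nat_lit 0x200070003800100008001c00028000400000000000000000000000) := T_4 (nat_lit 181) (nat_lit 164) (nat_lit 7) (nat_lit 10) (nat_lit 6) L628257 (by decide +kernel)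
theorem L634596 : W_4 (nat_lit 2) (nat_lit 0x300038000c0002000000000000000000000000000) (nat_lit 0x0) (nat_lit 0x10000c000000000000000000000000000000000000000) := D_4 (nat_lit 159) (nat_lit 158) (nat_lit 176) (nat_lit 2) (nat_lit 5) (nat_lit 9) (nat_lit 5) (nat_lit 7) (nat_lit 6) (by decide +kernel)
theorem L635062 : W_4 (nat_lit 2) (nat_lit 0x380018000c0003400000000000000000000000000) (nat_lit 0x0) (nat_lit 0x6002000000000000000000000000000000000000) := D_4 (nat_lit 158) (nat_lit 145) (nat_lit 157) (nat_lit 2) (nat_lit 5) (nat_lit 9) (nat_lit 2) (nat_lit 4) (nat_lit 9) (by decide +kernel)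
theorem L635063 : W_4 (nat_lit 3) (nat_lit 0x300018000c0003400000000000000000000000000) (nat_lit 0x0) (nat_lit 0x10000e002000000000000000000000000000000000000) := T_4 (nat_lit 159) (nat_lit 176) (nat_lit 5) (nat_lit 7) (nat_lit 6) L635062 (by decide +kernel)
theorem L635064 : W_4 (nat_lit 4) (nat_lit 0x300018000c0003000000000000000000000000000) (nat_lit 0x0) (nat_lit 0x10000e002000000000c00000000000000000000000000) := T_4 (nat_lit 106) (nat_lit 107) (nat_lit 3) (nat_lit 4) (nat_lit 6) L635063 (by decide +kernel)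
theorem L635065 : W_4 (nat_lit 5) (nat_lit 0x300010000c0003000000000000000000000000000) (nat_lit 0x0) (nat_lit 0x10000e002800000000c00080000000000000000000000) := T_4 (nat_lit 143) (nat_lit 91) (nat_lit 4) (nat_lit 7) (nat_lit 9) L635064 (by decide +kernel)
theorem L635623 : W_4 (nat_lit 2) (nat_lit 0x200010003c0000000000000000000000000000000) (nat_lit 0x0) (nat_lit 0xc00400000000000000000000000000000000) := D_4 (nat_lit 143) (nat_lit 142) (nat_lit 130) (nat_lit 1) (nat_lit 10) (nat_lit 7) (nat_lit 1) (nat_lit 11) (nat_lit 7) (by decide +kernel)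
theorem L635625 : W_4 (nat_lit 2) (nat_lit 0x200010003c0002000000000000000000000000000) (nat_lit 0x0) (nat_lit 0xc00000000000100000000000000000000000) := D_4 (nat_lit 143) (nat_lit 142) (nat_lit 92) (nat_lit 1) (nat_lit 10) (nat_lit 7) (nat_lit 7) (nat_lit 7) (nat_lit 5) (by decide +kernel)
theorem L635626 : W_4 (nat_lit 3) (nat_lit 0x200010003c0000000000000000000000000000000) (nat_lit 0x0) (nat_lit 0xc00000003000100000000000000000000000) := T_4 (nat_lit 109) (nat_lit 108) (nat_lit 0) (nat_lit 10) (nat_lit 7) L635625 (by decide +kernel)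
theorem L635627 : W_4 (nat_lit 5) (nat_lit 0x200010001c0000000000000000000000000000000) (nat_lit 0x0) (nat_lit 0x1cc00600073000100000000000000000000000) := Q_4 (nat_lit 129) (C_4 L635623 (C_4 L510972 (C_4 L635626 N_4))) (by decide +kernel)
theorem L635733 : W_4 (nat_lit 2) (nat_lit 0x200010001c0000001f00008000000000000000000) (nat_lit 0x0) (nat_lit 0x1c0000000000000000000) := D_4 (nat_lit 79) (nat_lit 78) (nat_lit 80) (nat_lit 2) (nat_lit 7) (nat_lit 5) (nat_lit 2) (nat_lit 8) (nat_lit 5) (by decide +kernel)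
theorem L635734 : W_4 (nat_lit 3) (nat_lit 0x200010001c0000000f00008000000000000000000) (nat_lit 0x0) (nat_lit 0x10001d0000000000000000000) := T_4 (nat_lit 96) (nat_lit 76) (nat_lit 0) (nat_lit 11) (nat_lit 5) L635733 (by decide +kernel)
theorem L635735 : W_4 (nat_lit 4) (nat_lit 0x200010001c0000000700008000000000000000000) (nat_lit 0x0) (nat_lit 0x18001d4000000000000000000) := T_4 (nat_lit 95) (nat_lit 74) (nat_lit 0) (nat_lit 10) (nat_lit 5) L635734 (by decide +kernel)
theorem L635736 : W_4 (nat_lit 5) (nat_lit 0x200010001c0000000700000000000000000000000) (nat_lit 0x0) (nat_lit 0x20018001dc000000000000000000) := T_4 (nat_lit 75) (nat_lit 109) (nat_lit 7) (nat_lit 7) (nat_lit 4) L635735 (by decide +kernel)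
theorem L635737 : W_4 (nat_lit 2) (nat_lit 0x200010001c0020000f00088000000000000000000) (nat_lit 0x0) (nat_lit 0x40001000100000000000000000000) := D_4 (nat_lit 96) (nat_lit 80) (nat_lit 114) (nat_lit 2) (nat_lit 8) (nat_lit 5) (nat_lit 3) (nat_lit 8) (nat_lit 5) (by decide +kernel)
theorem L635738 : W_4 (nat_lit 3) (nat_lit 0x200010001c0000000f00088000000000000000000) (nat_lit 0x0) (nat_lit 0x70001000100000000000000000000) := T_4 (nat_lit 113) (nat_lit 112) (nat_lit 3) (nat_lit 7) (nat_lit 5) L635737 (by decide +kernel)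
theorem L635739 : W_4 (nat_lit 4) (nat_lit 0x200010001c0000000f00008000000000000000000) (nat_lit 0x0) (nat_lit 0x700010001c0000000000000000000) := T_4 (nat_lit 79) (nat_lit 78) (nat_lit 2) (nat_lit 7) (nat_lit 5) L635738 (by decide +kernel)
theorem L635740 : W_4 (nat_lit 5) (nat_lit 0x200010001c0000000700008000000000000000000) (nat_lit 0x0) (nat_lit 0x700018001c4000000000000000000) := T_4 (nat_lit 95) (nat_lit 74) (nat_lit 0) (nat_lit 10) (nat_lit 5) L635739 (by decide +kernel)
theorem L635741 : W_4 (nat_lit 6) (nat_lit 0x200010001c0000000700000000000000000000000) (nat_lit 0x0) (nat_lit 0x720018001cc000000000000000000) := T_4 (nat_lit 75) (nat_lit 109) (nat_lit 7) (nat_lit 7) (nat_lit 4) L635740 (by decide +kernel)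
theorem L635913 : W_4 (nat_lit 2) (nat_lit 0x200030000c0002000000000000000000000000000) (nat_lit 0x0) (nat_lit 0x800000000000100008000000000000000000) := D_4 (nat_lit 92) (nat_lit 75) (nat_lit 143) (nat_lit 7) (nat_lit 7) (nat_lit 4) (nat_lit 7) (nat_lit 7) (nat_lit 5) (by decide +kernel)
theorem L640796 : W_4 (nat_lit 4) (nat_lit 0x58003c0012000300000000000000000000000) (nat_lit 0x0) (nat_lit 0x8000c80064000000000000000000) := T_4 (nat_lit 91) (nat_lit 74) (nat_lit 4) (nat_lit 7) (nat_lit 8) L640795 (by decide +kernel)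
theorem L640797 : W_4 (nat_lit 5) (nat_lit 0x58003c0012000100000000000000000000000) (nat_lit 0x0) (nat_lit 0x8000e80074000000000000000000) := T_4 (nat_lit 93) (nat_lit 76) (nat_lit 6) (nat_lit 7) (nat_lit 8) L640796 (by decide +kernel)
theorem L640798 : W_4 (nat_lit 6) (nat_lit 0x50003c0012000100000000000000000000000) (nat_lit 0x0) (nat_lit 0xc00000008000e80074000000000000000000) := T_4 (nat_lit 143) (nat_lit 142) (nat_lit 1) (nat_lit 10) (nat_lit 7) L640797 (by decide +kernel)
theorem L640799 : W_4 (nat_lit 7) (nat_lit 0x10003c0012000100000000000000000000000) (nat_lit 0x0) (nat_lit 0xcc00000008000e80074000000000000000000) := T_4 (nat_lit 146) (nat_lit 147) (nat_lit 3) (nat_lit 7) (nat_lit 7) L640798 (by decide +kernel)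
theorem L640800 : W_4 (nat_lit 8) (nat_lit 0x10003c0012000000000000000000000000000) (nat_lit 0x0) (nat_lit 0xcc00000008000f8007c000000000000000000) := T_4 (nat_lit 92) (nat_lit 75) (nat_lit 7) (nat_lit 7) (nat_lit 4) L640799 (by decide +kernel)
theorem L640801 : W_4 (nat_lit 9) (nat_lit 0x10003c0002000000000000000000000000000) (nat_lit 0x0) (nat_lit 0xcc00000038000f8007c000000000000000000) := T_4 (nat_lit 112) (nat_lit 113) (nat_lit 2) (nat_lit 7) (nat_lit 7) L640800 (by decide +kernel)
theorem L640802 : W_4 (nat_lit 10) (nat_lit 0x10003c0000000000000000000000000000000) (nat_lit 0x0) (nat_lit 0xcc0000003b000f8007c000000000000000000) := T_4 (nat_lit 109) (nat_lit 108) (nat_lit 0) (nat_lit 10) (nat_lit 7) L640801 (by decide +kernel)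
theorem L640803 : W_4 (nat_lit 2) (nat_lit 0x10003c0000000000000000000000000000000) (nat_lit 0x0) (nat_lit 0xc00400000000000000000000000000000000) := D_4 (nat_lit 143) (nat_lit 142) (nat_lit 130) (nat_lit 1) (nat_lit 10) (nat_lit 7) (nat_lit 1) (nat_lit 11) (nat_lit 7) (by decide +kernel)
theorem L640805 : W_4 (nat_lit 11) (nat_lit 0x10001c0000000000000000000000000000000) (nat_lit 0x0) (nat_lit 0x1cc0060007b000f8007c000000000000000000) := Q_4 (nat_lit 129) (C_4 L640803 (C_4 L499575 (C_4 L640802 N_4))) (by decide +kernel)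
theorem L640806 : W_4 (nat_lit 2) (nat_lit 0x10003c0012000100000000000000000000000) (nat_lit 0x0) (nat_lit 0x400020000800000000000000000000000000000000000) := D_4 (nat_lit 161) (nat_lit 178) (nat_lit 143) (nat_lit 4) (nat_lit 8) (nat_lit 10) (nat_lit 7) (nat_lit 7) (nat_lit 5) (by decide +kernel)
theorem L640807 : W_4 (nat_lit 3) (nat_lit 0x10003c0012000000000000000000000000000) (nat_lit 0x0) (nat_lit 0x400020000800000000000100008000000000000000000) := T_4 (nat_lit 92) (nat_lit 75) (nat_lit 7) (nat_lit 7) (nat_lit 4) L640806 (by decide +kernel)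
theorem L640808 : W_4 (nat_lit 4) (nat_lit 0x10003c0002000000000000000000000000000) (nat_lit 0x0) (nat_lit 0x400020000800000030000100008000000000000000000) := T_4 (nat_lit 112) (nat_lit 113) (nat_lit 2) (nat_lit 7) (nat_lit 7) L640807 (by decide +kernel)
theorem L640809 : W_4 (nat_lit 5) (nat_lit 0x10003c0000000000000000000000000000000) (nat_lit 0x0) (nat_lit 0x400020000800000033000100008000000000000000000) := T_4 (nat_lit 109) (nat_lit 108) (nat_lit 0) (nat_lit 10) (nat_lit 7) L640808 (by decide +kernel)
theorem L640810 : W_4 (nat_lit 6) (nat_lit 0x10001c0000000000000000000000000000000) (nat_lit 0x0) (nat_lit 0x40002003ac00e00073000100008000000000000000000) := Q_4 (nat_lit 129) (C_4 L640803 (C_4 L504429 (C_4 L640809 N_4))) (by decide +kernel)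
theorem L640811 : W_4 (nat_lit 8) (nat_lit 0x10003c0000000000000000000000000000000) (nat_lit 0x0) (nat_lit 0x40002001e000c000e3000100008000000000000000000) := T_4 (nat_lit 109) (nat_lit 108) (nat_lit 0) (nat_lit 10) (nat_lit 7) L346005 (by decide +kernel)
theorem L640812 : W_4 (nat_lit 2) (nat_lit 0x400000025000fc0082000000008000000000000000000) (nat_lit 0x0) (nat_lit 0x40001000100000000000000000000000000000) := D_4 (nat_lit 132) (nat_lit 116) (nat_lit 150) (nat_lit 2) (nat_lit 10) (nat_lit 7) (nat_lit 3) (nat_lit 10) (nat_lit 7) (by decide +kernel)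
theorem L640813 : W_4 (nat_lit 3) (nat_lit 0x400000005000fc0082000000008000000000000000000) (nat_lit 0x0) (nat_lit 0x70001000100000000000000000000000000000) := T_4 (nat_lit 149) (nat_lit 148) (nat_lit 3) (nat_lit 9) (nat_lit 7) L640812 (by decide +kernel)
theorem L640814 : W_4 (nat_lit 4) (nat_lit 0x400000005000fc0002000000008000000000000000000) (nat_lit 0x0) (nat_lit 0x700010001c0000000000000000000000000000) := T_4 (nat_lit 115) (nat_lit 114) (nat_lit 2) (nat_lit 9) (nat_lit 7) L640813 (by decide +kernel)
theorem L640815 : W_4 (nat_lit 5) (nat_lit 0x5000fc0002000000008000000000000000000) (nat_lit 0x0) (nat_lit 0x4000200700010001c0000000000000000000000000000) := T_4 (nat_lit 178) (nat_lit 161) (nat_lit 4) (nat_lit 8) (nat_lit 10) L640814 (by decide +kernel)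
theorem L640816 : W_4 (nat_lit 6) (nat_lit 0x50007c0002000000008000000000000000000) (nat_lit 0x0) (nat_lit 0x4000200720018001c0000000000000000000000000000) := T_4 (nat_lit 131) (nat_lit 145) (nat_lit 1) (nat_lit 12) (nat_lit 7) L640815 (by decide +kernel)
theorem L640817 : W_4 (nat_lit 7) (nat_lit 0x50007c0002000000000000000000000000000) (nat_lit 0x0) (nat_lit 0x4000200720018001c0000100008000000000000000000) := T_4 (nat_lit 75) (nat_lit 92) (nat_lit 7) (nat_lit 7) (nat_lit 4) L640816 (by decide +kernel)
theorem L640818 : W_4 (nat_lit 8) (nat_lit 0x50003c0002000000000000000000000000000) (nat_lit 0x0) (nat_lit 0x400020072801c001c0000100008000000000000000000) := T_4 (nat_lit 130) (nat_lit 143) (nat_lit 1) (nat_lit 11) (nat_lit 7) L640817 (by decide +kernel)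
theorem L640819 : W_4 (nat_lit 9) (nat_lit 0x50003c0000000000000000000000000000000) (nat_lit 0x0) (nat_lit 0x400020072801c001c3000100008000000000000000000) := T_4 (nat_lit 109) (nat_lit 108) (nat_lit 0) (nat_lit 10) (nat_lit 7) L640818 (by decide +kernel)
theorem L640820 : W_4 (nat_lit 10) (nat_lit 0x10003c0000000000000000000000000000000) (nat_lit 0x0) (nat_lit 0x40002007e801c001c3000100008000000000000000000) := T_4 (nat_lit 146) (nat_lit 147) (nat_lit 3) (nat_lit 7) (nat_lit 7) L640819 (by decide +kernel)
theorem L640821 : W_4 (nat_lit 11) (nat_lit 0x10001c0000000000000000000000000000000) (nat_lit 0x0) (nat_lit 0x40002007e801e001f3000100008000000000000000000) := Q_4 (nat_lit 129) (C_4 L640809 (C_4 L504429 (C_4 L640811 (C_4 L640820 N_4)))) (by decide +kernel)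
theorem L641249 : W_4 (nat_lit 2) (nat_lit 0x10001c0002000100000000000000000000000) (nat_lit 0x0) (nat_lit 0x400020000800000000000000000000000000000000000) := D_4 (nat_lit 161) (nat_lit 178) (nat_lit 143) (nat_lit 4) (nat_lit 8) (nat_lit 10) (nat_lit 7) (nat_lit 7) (nat_lit 5) (by decide +kernel)
theorem L642984 : W_4 (nat_lit 2) (nat_lit 0x30001c0068000c00000000000000000000000) (nat_lit 0x0) (nat_lit 0x1200010000000000000000000) := D_4 (nat_lit 93) (nat_lit 96) (nat_lit 76) (nat_lit 3) (nat_lit 8) (nat_lit 5) (nat_lit 4) (nat_lit 9) (nat_lit 8) (by decide +kernel)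
theorem L642985 : W_4 (nat_lit 3) (nat_lit 0x30001c0068000400000000000000000000000) (nat_lit 0x0) (nat_lit 0x1a00050000000000000000000) := T_4 (nat_lit 95) (nat_lit 78) (nat_lit 6) (nat_lit 9) (nat_lit 8) L642984 (by decide +kernel)
theorem L643006 : W_4 (nat_lit 4) (nat_lit 0x30001c0028000400000000000000000000000) (nat_lit 0x0) (nat_lit 0x50001a00050000000000000000000) := T_4 (nat_lit 114) (nat_lit 112) (nat_lit 1) (nat_lit 12) (nat_lit 6) L642985 (by decide +kernel)
theorem L643117 : W_4 (nat_lit 4) (nat_lit 0x10001c0008000780000000000000000000000) (nat_lit 0x0) (nat_lit 0x1c00040007000000000000000000) := T_4 (nat_lit 107) (nat_lit 108) (nat_lit 1) (nat_lit 9) (nat_lit 5) L548335 (by decide +kernel)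
theorem L643842 : W_4 (nat_lit 2) (nat_lit 0x30001c0028000400000000000000000000000) (nat_lit 0x0) (nat_lit 0x8000c000000000000000000000000000000000000) := D_4 (nat_lit 146) (nat_lit 147) (nat_lit 163) (nat_lit 0) (nat_lit 11) (nat_lit 8) (nat_lit 7) (nat_lit 9) (nat_lit 5) (by decide +kernel)
theorem L643843 : W_4 (nat_lit 5) (nat_lit 0x10001c0028000400000000000000000000000) (nat_lit 0x0) (nat_lit 0x8000e000000050001a00050000000000000000000) := Q_4 (nat_lit 145) (C_4 L643006 (C_4 L643842 N_4)) (by decide +kernel)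
theorem L643844 : W_4 (nat_lit 6) (nat_lit 0x10001c0028000000000000000000000000000) (nat_lit 0x0) (nat_lit 0x8000e000000050001e00070000000000000000000) := T_4 (nat_lit 94) (nat_lit 77) (nat_lit 5) (nat_lit 9) (nat_lit 4) L643843 (by decide +kernel)
theorem L644030 : W_4 (nat_lit 5) (nat_lit 0x10001c0008000700000000000000000000000) (nat_lit 0x0) (nat_lit 0x11c000c0007000000000000000000) := T_4 (nat_lit 91) (nat_lit 112) (nat_lit 3) (nat_lit 6) (nat_lit 5) L643117 (by decide +kernel)
theorem L644034 : W_4 (nat_lit 2) (nat_lit 0x10001c0008001f00008000000000000000000) (nat_lit 0x0) (nat_lit 0x1c0000000000000000000) := D_4 (nat_lit 79) (nat_lit 78) (nat_lit 80) (nat_lit 2) (nat_lit 7) (nat_lit 5) (nat_lit 2) (nat_lit 8) (nat_lit 5) (by decide +kernel)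
theorem L644035 : W_4 (nat_lit 3) (nat_lit 0x10001c0008000f00008000000000000000000) (nat_lit 0x0) (nat_lit 0x10001d0000000000000000000) := T_4 (nat_lit 96) (nat_lit 76) (nat_lit 0) (nat_lit 11) (nat_lit 5) L644034 (by decide +kernel)
theorem L644036 : W_4 (nat_lit 4) (nat_lit 0x10001c0008000700008000000000000000000) (nat_lit 0x0) (nat_lit 0x18001d4000000000000000000) := T_4 (nat_lit 95) (nat_lit 74) (nat_lit 0) (nat_lit 10) (nat_lit 5) L644035 (by decide +kernel)
theorem L644037 : W_4 (nat_lit 5) (nat_lit 0x10001c0008000700000000000000000000000) (nat_lit 0x0) (nat_lit 0x20018001dc000000000000000000) := T_4 (nat_lit 75) (nat_lit 109) (nat_lit 7) (nat_lit 7) (nat_lit 4) L644036 (by decide +kernel)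
theorem L644048 : W_4 (nat_lit 2) (nat_lit 0x10001c0009000780000000000000000000000) (nat_lit 0x0) (nat_lit 0x2000800008000000000000000000) := D_4 (nat_lit 109) (nat_lit 75) (nat_lit 95) (nat_lit 7) (nat_lit 7) (nat_lit 4) (nat_lit 1) (nat_lit 10) (nat_lit 5) (by decide +kernel)
theorem L644049 : W_4 (nat_lit 3) (nat_lit 0x10001c0008000780000000000000000000000) (nat_lit 0x0) (nat_lit 0x3800800008000000000000000000) := T_4 (nat_lit 108) (nat_lit 107) (nat_lit 1) (nat_lit 9) (nat_lit 5) L644048 (by decide +kernel)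
theorem L644050 : W_4 (nat_lit 4) (nat_lit 0x10001c0008000700000000000000000000000) (nat_lit 0x0) (nat_lit 0x13800880008000000000000000000) := T_4 (nat_lit 91) (nat_lit 112) (nat_lit 3) (nat_lit 6) (nat_lit 5) L644049 (by decide +kernel)
theorem L644062 : W_4 (nat_lit 2) (nat_lit 0x700018001a001c0008000000000000000000000000000) (nat_lit 0x0) (nat_lit 0x800006000000000000000000000000000000000000000) := D_4 (nat_lit 158) (nat_lit 157) (nat_lit 179) (nat_lit 3) (nat_lit 4) (nat_lit 9) (nat_lit 0) (nat_lit 9) (nat_lit 10) (by decide +kernel)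
theorem L644063 : W_4 (nat_lit 3) (nat_lit 0x700010001a001c0008000000000000000000000000000) (nat_lit 0x0) (nat_lit 0x80000e000000000002000000000000000000000000000) := T_4 (nat_lit 159) (nat_lit 109) (nat_lit 5) (nat_lit 7) (nat_lit 6) L644062 (by decide +kernel)
theorem L644064 : W_4 (nat_lit 4) (nat_lit 0x600010001a001c0008000000000000000000000000000) (nat_lit 0x0) (nat_lit 0x200090000e000000000002000000000000000000000000000) := T_4 (nat_lit 176) (nat_lit 193) (nat_lit 5) (nat_lit 7) (nat_lit 7) L644063 (by decide +kernel)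
theorem L644065 : W_4 (nat_lit 5) (nat_lit 0x200010001a001c0008000000000000000000000000000) (nat_lit 0x0) (nat_lit 0xa000d0000e000000000002000000000000000000000000000) := T_4 (nat_lit 178) (nat_lit 195) (nat_lit 7) (nat_lit 7) (nat_lit 7) L644064 (by decide +kernel)
theorem L644066 : W_4 (nat_lit 6) (nat_lit 0x2000100018001c0008000000000000000000000000000) (nat_lit 0x0) (nat_lit 0xa000d0000e000600000002000000000000000000000000000) := T_4 (nat_lit 141) (nat_lit 142) (nat_lit 2) (nat_lit 5) (nat_lit 8) L644065 (by decide +kernel)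
theorem L644067 : W_4 (nat_lit 7) (nat_lit 0x100018001c0008000000000000000000000000000) (nat_lit 0x0) (nat_lit 0xe000f0000e000600000002000000000000000000000000000) := T_4 (nat_lit 177) (nat_lit 194) (nat_lit 6) (nat_lit 7) (nat_lit 11) L644066 (by decide +kernel)
theorem L645654 : W_4 (nat_lit 3) (nat_lit 0x10001c0000000100000000000000000000000) (nat_lit 0x0) (nat_lit 0x400020000800000002000000008000000000000000000) := T_4 (nat_lit 109) (nat_lit 75) (nat_lit 7) (nat_lit 7) (nat_lit 4) L641249 (by decide +kernel)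
theorem L645693 : W_4 (nat_lit 6) (nat_lit 0x10001c0008000500000000000000000000000) (nat_lit 0x0) (nat_lit 0x13c01ac01df000000000000000000) := Q_4 (nat_lit 93) (C_4 L644050 (C_4 L644030 (C_4 L644037 N_4))) (by decide +kernel)
theorem L645696 : W_4 (nat_lit 2) (nat_lit 0x10001c0008000500000000000000000000000) (nat_lit 0x0) (nat_lit 0x400020002000000000000000000000000000000000000) := D_4 (nat_lit 161) (nat_lit 178) (nat_lit 145) (nat_lit 6) (nat_lit 8) (nat_lit 10) (nat_lit 5) (nat_lit 9) (nat_lit 5) (by decide +kernel)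
theorem L645698 : W_4 (nat_lit 9) (nat_lit 0x10001c0000000500000000000000000000000) (nat_lit 0x0) (nat_lit 0x200000007b007ac03ff000000000000000000) := T_4 (nat_lit 109) (nat_lit 75) (nat_lit 7) (nat_lit 7) (nat_lit 4) L623241 (by decide +kernel)
theorem L645699 : W_4 (nat_lit 7) (nat_lit 0x10001c0000000500000000000000000000000) (nat_lit 0x0) (nat_lit 0x1bc01ac01ff000000000000000000) := T_4 (nat_lit 111) (nat_lit 77) (nat_lit 5) (nat_lit 9) (nat_lit 4) L645693 (by decide +kernel)
theorem L645700 : W_4 (nat_lit 2) (nat_lit 0x10001c0008000500008000000000000000000) (nat_lit 0x0) (nat_lit 0x400020002000000000000000000000000000000000000) := D_4 (nat_lit 161) (nat_lit 145) (nat_lit 178) (nat_lit 5) (nat_lit 9) (nat_lit 5) (nat_lit 6) (nat_lit 8) (nat_lit 10) (by decide +kernel)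
theorem L645701 : W_4 (nat_lit 3) (nat_lit 0x10001c0000000500008000000000000000000) (nat_lit 0x0) (nat_lit 0x400020002000000008000000020000000000000000000) := T_4 (nat_lit 111) (nat_lit 77) (nat_lit 5) (nat_lit 9) (nat_lit 4) L645700 (by decide +kernel)
theorem L645702 : W_4 (nat_lit 4) (nat_lit 0x10001c0000000500000000000000000000000) (nat_lit 0x0) (nat_lit 0x40002000200000000a000000028000000000000000000) := T_4 (nat_lit 75) (nat_lit 109) (nat_lit 7) (nat_lit 7) (nat_lit 4) L645701 (by decide +kernel)
theorem L645703 : W_4 (nat_lit 4) (nat_lit 0x10001c0000000700000000000000000000000) (nat_lit 0x0) (nat_lit 0x200088000f000000000000000000) := T_4 (nat_lit 75) (nat_lit 109) (nat_lit 7) (nat_lit 7) (nat_lit 4) L581751 (by decide +kernel)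
theorem L645704 : W_4 (nat_lit 2) (nat_lit 0x10001c0000000780044000000000000000000) (nat_lit 0x0) (nat_lit 0x800088000000000000000000) := D_4 (nat_lit 95) (nat_lit 75) (nat_lit 79) (nat_lit 0) (nat_lit 10) (nat_lit 5) (nat_lit 2) (nat_lit 7) (nat_lit 5) (by decide +kernel)
theorem L645705 : W_4 (nat_lit 3) (nat_lit 0x10001c0000000780004000000000000000000) (nat_lit 0x0) (nat_lit 0x8000e8000000000000000000) := T_4 (nat_lit 78) (nat_lit 77) (nat_lit 2) (nat_lit 6) (nat_lit 5) L645704 (by decide +kernel)
theorem L645706 : W_4 (nat_lit 4) (nat_lit 0x10001c0000000780000000000000000000000) (nat_lit 0x0) (nat_lit 0x8000ee000000000000000000) := T_4 (nat_lit 74) (nat_lit 73) (nat_lit 0) (nat_lit 9) (nat_lit 5) L645705 (by decide +kernel)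
theorem L645707 : W_4 (nat_lit 2) (nat_lit 0x10001c0021000f80084000000000000000000) (nat_lit 0x0) (nat_lit 0x40001000100000000000000000000) := D_4 (nat_lit 96) (nat_lit 80) (nat_lit 114) (nat_lit 2) (nat_lit 8) (nat_lit 5) (nat_lit 3) (nat_lit 8) (nat_lit 5) (by decide +kernel)
theorem L645708 : W_4 (nat_lit 3) (nat_lit 0x10001c0001000f80084000000000000000000) (nat_lit 0x0) (nat_lit 0x70001000100000000000000000000) := T_4 (nat_lit 113) (nat_lit 112) (nat_lit 3) (nat_lit 7) (nat_lit 5) L645707 (by decide +kernel)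
theorem L645709 : W_4 (nat_lit 4) (nat_lit 0x10001c0001000f80004000000000000000000) (nat_lit 0x0) (nat_lit 0x700010001c0000000000000000000) := T_4 (nat_lit 79) (nat_lit 78) (nat_lit 2) (nat_lit 7) (nat_lit 5) L645708 (by decide +kernel)
theorem L645710 : W_4 (nat_lit 5) (nat_lit 0x10001c0001000780004000000000000000000) (nat_lit 0x0) (nat_lit 0x700018001c8000000000000000000) := T_4 (nat_lit 95) (nat_lit 75) (nat_lit 0) (nat_lit 10) (nat_lit 5) L645709 (by decide +kernel)
theorem L645711 : W_4 (nat_lit 6) (nat_lit 0x10001c0000000780004000000000000000000) (nat_lit 0x0) (nat_lit 0x718018001c8000000000000000000) := T_4 (nat_lit 108) (nat_lit 107) (nat_lit 1) (nat_lit 9) (nat_lit 5) L645710 (by decide +kernel)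
theorem L645712 : W_4 (nat_lit 7) (nat_lit 0x10001c0000000780000000000000000000000) (nat_lit 0x0) (nat_lit 0x718018001ce000000000000000000) := T_4 (nat_lit 74) (nat_lit 73) (nat_lit 0) (nat_lit 9) (nat_lit 5) L645711 (by decide +kernel)
theorem L645713 : W_4 (nat_lit 2) (nat_lit 0x10001c00000007c0024000000000000000000) (nat_lit 0x0) (nat_lit 0x1c00000000000000000000000000) := D_4 (nat_lit 107) (nat_lit 106) (nat_lit 108) (nat_lit 1) (nat_lit 8) (nat_lit 5) (nat_lit 1) (nat_lit 9) (nat_lit 5) (by decide +kernel)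
theorem L645714 : W_4 (nat_lit 3) (nat_lit 0x10001c0000000780024000000000000000000) (nat_lit 0x0) (nat_lit 0x1c00040010000000000000000000) := T_4 (nat_lit 90) (nat_lit 76) (nat_lit 2) (nat_lit 5) (nat_lit 5) L645713 (by decide +kernel)
theorem L645715 : W_4 (nat_lit 4) (nat_lit 0x10001c0000000780004000000000000000000) (nat_lit 0x0) (nat_lit 0x1c00040070000000000000000000) := T_4 (nat_lit 77) (nat_lit 78) (nat_lit 2) (nat_lit 6) (nat_lit 5) L645714 (by decide +kernel)
theorem L645716 : W_4 (nat_lit 5) (nat_lit 0x10001c0000000780000000000000000000000) (nat_lit 0x0) (nat_lit 0x1c00040076000000000000000000) := T_4 (nat_lit 74) (nat_lit 73) (nat_lit 0) (nat_lit 9) (nat_lit 5) L645715 (by decide +kernel)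
theorem L645717 : W_4 (nat_lit 3) (nat_lit 0x10001c0000800780000000000000000000000) (nat_lit 0x0) (nat_lit 0x400040070000000000000000000) := T_4 (nat_lit 77) (nat_lit 78) (nat_lit 2) (nat_lit 6) (nat_lit 5) L571130 (by decide +kernel)
theorem L645718 : W_4 (nat_lit 4) (nat_lit 0x10001c0000000780000000000000000000000) (nat_lit 0x0) (nat_lit 0x1c00040070000000000000000000) := T_4 (nat_lit 107) (nat_lit 108) (nat_lit 1) (nat_lit 9) (nat_lit 5) L645717 (by decide +kernel)
theorem L645719 : W_4 (nat_lit 2) (nat_lit 0x10001c00008007c000c000000000000000000) (nat_lit 0x0) (nat_lit 0x20030000000000000000000) := D_4 (nat_lit 76) (nat_lit 77) (nat_lit 89) (nat_lit 2) (nat_lit 5) (nat_lit 5) (nat_lit 2) (nat_lit 4) (nat_lit 5) (by decide +kernel)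
theorem L645720 : W_4 (nat_lit 3) (nat_lit 0x10001c000080078000c000000000000000000) (nat_lit 0x0) (nat_lit 0x400060030000000000000000000) := T_4 (nat_lit 90) (nat_lit 106) (nat_lit 1) (nat_lit 8) (nat_lit 5) L645719 (by decide +kernel)
theorem L645721 : W_4 (nat_lit 4) (nat_lit 0x10001c0000800780004000000000000000000) (nat_lit 0x0) (nat_lit 0x400860038000000000000000000) := T_4 (nat_lit 75) (nat_lit 95) (nat_lit 0) (nat_lit 10) (nat_lit 5) L645720 (by decide +kernel)
theorem L645722 : W_4 (nat_lit 5) (nat_lit 0x10001c0000000780004000000000000000000) (nat_lit 0x0) (nat_lit 0x1c00860038000000000000000000) := T_4 (nat_lit 107) (nat_lit 108) (nat_lit 1) (nat_lit 9) (nat_lit 5) L645721 (by decide +kernel)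
theorem L645723 : W_4 (nat_lit 6) (nat_lit 0x10001c0000000780000000000000000000000) (nat_lit 0x0) (nat_lit 0x1c0086003e000000000000000000) := T_4 (nat_lit 74) (nat_lit 73) (nat_lit 0) (nat_lit 9) (nat_lit 5) L645722 (by decide +kernel)
theorem L645724 : W_4 (nat_lit 8) (nat_lit 0x10001c0000000700000000000000000000000) (nat_lit 0x0) (nat_lit 0x71c018e01fe000000000000000000) := Q_4 (nat_lit 91) (C_4 L645706 (C_4 L645712 (C_4 L645716 (C_4 L645718 (C_4 L645723 N_4))))) (by decide +kernel)
theorem L645725 : W_4 (nat_lit 2) (nat_lit 0x10001c000080078002a000000000000000000) (nat_lit 0x0) (nat_lit 0x400040001000000000000000000) := D_4 (nat_lit 90) (nat_lit 106) (nat_lit 72) (nat_lit 1) (nat_lit 8) (nat_lit 5) (nat_lit 0) (nat_lit 8) (nat_lit 5) (by decide +kernel)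
theorem L645726 : W_4 (nat_lit 3) (nat_lit 0x10001c0000800780028000000000000000000) (nat_lit 0x0) (nat_lit 0x400040007000000000000000000) := T_4 (nat_lit 73) (nat_lit 74) (nat_lit 0) (nat_lit 9) (nat_lit 5) L645725 (by decide +kernel)
theorem L645727 : W_4 (nat_lit 4) (nat_lit 0x10001c0000000780028000000000000000000) (nat_lit 0x0) (nat_lit 0x1c00040007000000000000000000) := T_4 (nat_lit 107) (nat_lit 108) (nat_lit 1) (nat_lit 9) (nat_lit 5) L645726 (by decide +kernel)
theorem L645728 : W_4 (nat_lit 5) (nat_lit 0x10001c0000000780008000000000000000000) (nat_lit 0x0) (nat_lit 0x1c00040067000000000000000000) := T_4 (nat_lit 77) (nat_lit 78) (nat_lit 2) (nat_lit 6) (nat_lit 5) L645727 (by decide +kernel)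
theorem L645729 : W_4 (nat_lit 6) (nat_lit 0x10001c0000000780000000000000000000000) (nat_lit 0x0) (nat_lit 0x3c0004006f000000000000000000) := T_4 (nat_lit 75) (nat_lit 109) (nat_lit 7) (nat_lit 7) (nat_lit 4) L645728 (by decide +kernel)
theorem L645730 : W_4 (nat_lit 2) (nat_lit 0x10001c00004007c002c000000000000000000) (nat_lit 0x0) (nat_lit 0x200030000000000000000000000) := D_4 (nat_lit 89) (nat_lit 88) (nat_lit 105) (nat_lit 2) (nat_lit 3) (nat_lit 5) (nat_lit 1) (nat_lit 7) (nat_lit 5) (by decide +kernel)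
theorem L645731 : W_4 (nat_lit 3) (nat_lit 0x10001c00004007c0024000000000000000000) (nat_lit 0x0) (nat_lit 0x2200030008000000000000000000) := T_4 (nat_lit 75) (nat_lit 109) (nat_lit 7) (nat_lit 7) (nat_lit 4) L645730 (by decide +kernel)
theorem L645732 : W_4 (nat_lit 4) (nat_lit 0x10001c00000007c0024000000000000000000) (nat_lit 0x0) (nat_lit 0x2e00030008000000000000000000) := T_4 (nat_lit 106) (nat_lit 107) (nat_lit 1) (nat_lit 8) (nat_lit 5) L645731 (by decide +kernel)
theorem L645733 : W_4 (nat_lit 5) (nat_lit 0x10001c0000000780024000000000000000000) (nat_lit 0x0) (nat_lit 0x2e00070018000000000000000000) := T_4 (nat_lit 90) (nat_lit 76) (nat_lit 2) (nat_lit 5) (nat_lit 5) L645732 (by decide +kernel)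
theorem L645734 : W_4 (nat_lit 6) (nat_lit 0x10001c0000000780004000000000000000000) (nat_lit 0x0) (nat_lit 0x2e00070078000000000000000000) := T_4 (nat_lit 77) (nat_lit 78) (nat_lit 2) (nat_lit 6) (nat_lit 5) L645733 (by decide +kernel)
theorem L645735 : W_4 (nat_lit 7) (nat_lit 0x10001c0000000780000000000000000000000) (nat_lit 0x0) (nat_lit 0x2e0007007e000000000000000000) := T_4 (nat_lit 74) (nat_lit 73) (nat_lit 0) (nat_lit 9) (nat_lit 5) L645734 (by decide +kernel)
theorem L645736 : W_4 (nat_lit 2) (nat_lit 0x10001c00008007c000c000000000000000000) (nat_lit 0x0) (nat_lit 0x30010000000000000000000) := D_4 (nat_lit 89) (nat_lit 88) (nat_lit 76) (nat_lit 2) (nat_lit 3) (nat_lit 5) (nat_lit 2) (nat_lit 4) (nat_lit 5) (by decide +kernel)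
theorem L645737 : W_4 (nat_lit 3) (nat_lit 0x10001c000080078000c000000000000000000) (nat_lit 0x0) (nat_lit 0x400070010000000000000000000) := T_4 (nat_lit 90) (nat_lit 106) (nat_lit 1) (nat_lit 8) (nat_lit 5) L645736 (by decide +kernel)
theorem L645738 : W_4 (nat_lit 4) (nat_lit 0x10001c000000078000c000000000000000000) (nat_lit 0x0) (nat_lit 0x1c00070010000000000000000000) := T_4 (nat_lit 107) (nat_lit 108) (nat_lit 1) (nat_lit 9) (nat_lit 5) L645737 (by decide +kernel)
theorem L645739 : W_4 (nat_lit 5) (nat_lit 0x10001c0000000780008000000000000000000) (nat_lit 0x0) (nat_lit 0x1c00070016000000000000000000) := T_4 (nat_lit 74) (nat_lit 73) (nat_lit 0) (nat_lit 9) (nat_lit 5) L645738 (by decide +kernel)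
theorem L645740 : W_4 (nat_lit 6) (nat_lit 0x10001c0000000780000000000000000000000) (nat_lit 0x0) (nat_lit 0x3c0007001e000000000000000000) := T_4 (nat_lit 75) (nat_lit 109) (nat_lit 7) (nat_lit 7) (nat_lit 4) L645739 (by decide +kernel)
theorem L645741 : W_4 (nat_lit 4) (nat_lit 0x10001c0000000780000000000000000000000) (nat_lit 0x0) (nat_lit 0x40077000000000000000000) := T_4 (nat_lit 77) (nat_lit 78) (nat_lit 2) (nat_lit 6) (nat_lit 5) L578270 (by decide +kernel)
theorem L645742 : W_4 (nat_lit 2) (nat_lit 0x10001c0003000780000000000000000000000) (nat_lit 0x0) (nat_lit 0x6000200000000000000) := D_4 (nat_lit 74) (nat_lit 73) (nat_lit 57) (nat_lit 0) (nat_lit 9) (nat_lit 5) (nat_lit 7) (nat_lit 6) (nat_lit 3) (by decide +kernel)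
theorem L645743 : W_4 (nat_lit 3) (nat_lit 0x10001c0002000780000000000000000000000) (nat_lit 0x0) (nat_lit 0x1800000006000200000000000000) := T_4 (nat_lit 108) (nat_lit 107) (nat_lit 1) (nat_lit 9) (nat_lit 5) L645742 (by decide +kernel)
theorem L645744 : W_4 (nat_lit 4) (nat_lit 0x10001c0000000780000000000000000000000) (nat_lit 0x0) (nat_lit 0x380000000e000200000000000000) := T_4 (nat_lit 109) (nat_lit 75) (nat_lit 7) (nat_lit 7) (nat_lit 4) L645743 (by decide +kernel)
theorem L645745 : W_4 (nat_lit 8) (nat_lit 0x10001c0000000700000000000000000000000) (nat_lit 0x0) (nat_lit 0x3e000f007f000200000000000000) := Q_4 (nat_lit 91) (C_4 L645729 (C_4 L645718 (C_4 L645735 (C_4 L645740 (C_4 L645741 (C_4 L645744 N_4)))))) (by decide +kernel)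
theorem L645746 : W_4 (nat_lit 6) (nat_lit 0x10001c0000000700000000000000000000000) (nat_lit 0x0) (nat_lit 0x720018001cc000000000000000000) := T_4 (nat_lit 75) (nat_lit 109) (nat_lit 7) (nat_lit 7) (nat_lit 4) L581749 (by decide +kernel)
theorem L645747 : W_4 (nat_lit 2) (nat_lit 0x10001c0001000780024000000000000000000) (nat_lit 0x0) (nat_lit 0x2000800000000200000000000000) := D_4 (nat_lit 109) (nat_lit 95) (nat_lit 57) (nat_lit 1) (nat_lit 10) (nat_lit 5) (nat_lit 7) (nat_lit 6) (nat_lit 3) (by decide +kernel)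
theorem L645748 : W_4 (nat_lit 3) (nat_lit 0x10001c0000000780024000000000000000000) (nat_lit 0x0) (nat_lit 0x3800800000000200000000000000) := T_4 (nat_lit 108) (nat_lit 107) (nat_lit 1) (nat_lit 9) (nat_lit 5) L645747 (by decide +kernel)
theorem L645749 : W_4 (nat_lit 4) (nat_lit 0x10001c0000000780004000000000000000000) (nat_lit 0x0) (nat_lit 0x3800800060000200000000000000) := T_4 (nat_lit 77) (nat_lit 78) (nat_lit 2) (nat_lit 6) (nat_lit 5) L645748 (by decide +kernel)
theorem L645750 : W_4 (nat_lit 5) (nat_lit 0x10001c0000000780000000000000000000000) (nat_lit 0x0) (nat_lit 0x3800800066000200000000000000) := T_4 (nat_lit 74) (nat_lit 73) (nat_lit 0) (nat_lit 9) (nat_lit 5) L645749 (by decide +kernel)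
theorem L645751 : W_4 (nat_lit 2) (nat_lit 0x10001c0001000780004000000000000000000) (nat_lit 0x0) (nat_lit 0x2000800000000200000000000000) := D_4 (nat_lit 109) (nat_lit 95) (nat_lit 57) (nat_lit 1) (nat_lit 10) (nat_lit 5) (nat_lit 7) (nat_lit 6) (nat_lit 3) (by decide +kernel)
theorem L645752 : W_4 (nat_lit 3) (nat_lit 0x10001c0001000780000000000000000000000) (nat_lit 0x0) (nat_lit 0x2000800006000200000000000000) := T_4 (nat_lit 74) (nat_lit 73) (nat_lit 0) (nat_lit 9) (nat_lit 5) L645751 (by decide +kernel)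
theorem L645753 : W_4 (nat_lit 4) (nat_lit 0x10001c0000000780000000000000000000000) (nat_lit 0x0) (nat_lit 0x3800800006000200000000000000) := T_4 (nat_lit 108) (nat_lit 107) (nat_lit 1) (nat_lit 9) (nat_lit 5) L645752 (by decide +kernel)
theorem L645754 : W_4 (nat_lit 6) (nat_lit 0x10001c0000000700000000000000000000000) (nat_lit 0x0) (nat_lit 0x3c008c0077000200000000000000) := Q_4 (nat_lit 91) (C_4 L645750 (C_4 L645741 (C_4 L645753 (C_4 L645718 N_4)))) (by decide +kernel)
theorem L645755 : W_4 (nat_lit 7) (nat_lit 0x10001c0000000700000000000000000000000) (nat_lit 0x0) (nat_lit 0x4000200000000000730018001c8000000000000000000) := T_4 (nat_lit 109) (nat_lit 75) (nat_lit 7) (nat_lit 7) (nat_lit 4) L623099 (by decide +kernel)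
theorem L645756 : W_4 (nat_lit 9) (nat_lit 0x10001c0000000500000000000000000000000) (nat_lit 0x0) (nat_lit 0x400020000000000073e01af01ff000200000000000000) := Q_4 (nat_lit 93) (C_4 L645703 (C_4 L645724 (C_4 L645745 (C_4 L645746 (C_4 L645754 (C_4 L645755 N_4)))))) (by decide +kernel)
theorem L645757 : W_4 (nat_lit 2) (nat_lit 0x200010001c0000000500000000000000000000000) (nat_lit 0x0) (nat_lit 0x400000000000000002000000008000000000000000000) := D_4 (nat_lit 109) (nat_lit 75) (nat_lit 178) (nat_lit 7) (nat_lit 7) (nat_lit 4) (nat_lit 4) (nat_lit 8) (nat_lit 10) (by decide +kernel)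
theorem L645758 : W_4 (nat_lit 2) (nat_lit 0x200010001c00088007c000c000000000000000000) (nat_lit 0x0) (nat_lit 0x30010000000000000000000) := D_4 (nat_lit 89) (nat_lit 88) (nat_lit 76) (nat_lit 2) (nat_lit 3) (nat_lit 5) (nat_lit 2) (nat_lit 4) (nat_lit 5) (by decide +kernel)
theorem L645759 : W_4 (nat_lit 3) (nat_lit 0x200010001c00088007c0004000000000000000000) (nat_lit 0x0) (nat_lit 0x830018000000000000000000) := T_4 (nat_lit 75) (nat_lit 95) (nat_lit 0) (nat_lit 10) (nat_lit 5) L645758 (by decide +kernel)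
theorem L645760 : W_4 (nat_lit 4) (nat_lit 0x200010001c0008800780004000000000000000000) (nat_lit 0x0) (nat_lit 0x400870018000000000000000000) := T_4 (nat_lit 90) (nat_lit 106) (nat_lit 1) (nat_lit 8) (nat_lit 5) L645759 (by decide +kernel)
theorem L645761 : W_4 (nat_lit 5) (nat_lit 0x200010001c0008800780000000000000000000000) (nat_lit 0x0) (nat_lit 0x40087001e000000000000000000) := T_4 (nat_lit 74) (nat_lit 73) (nat_lit 0) (nat_lit 9) (nat_lit 5) L645760 (by decide +kernel)
theorem L645762 : W_4 (nat_lit 6) (nat_lit 0x200010001c0008000780000000000000000000000) (nat_lit 0x0) (nat_lit 0x1c0087001e000000000000000000) := T_4 (nat_lit 107) (nat_lit 108) (nat_lit 1) (nat_lit 9) (nat_lit 5) L645761 (by decide +kernel)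
theorem L645763 : W_4 (nat_lit 7) (nat_lit 0x200010001c0008000700000000000000000000000) (nat_lit 0x0) (nat_lit 0x11c008f001e000000000000000000) := T_4 (nat_lit 91) (nat_lit 112) (nat_lit 3) (nat_lit 6) (nat_lit 5) L645762 (by decide +kernel)
theorem L645764 : W_4 (nat_lit 8) (nat_lit 0x200010001c0000000700000000000000000000000) (nat_lit 0x0) (nat_lit 0x2000000019c008f001e000000000000000000) := T_4 (nat_lit 111) (nat_lit 145) (nat_lit 5) (nat_lit 9) (nat_lit 5) L645763 (by decide +kernel)
theorem L645765 : W_4 (nat_lit 2) (nat_lit 0x200010001c0009000780004000000000000000000) (nat_lit 0x0) (nat_lit 0x2000000008000200000000000000) := D_4 (nat_lit 109) (nat_lit 75) (nat_lit 57) (nat_lit 7) (nat_lit 7) (nat_lit 4) (nat_lit 7) (nat_lit 6) (nat_lit 3) (by decide +kernel)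
theorem L645766 : W_4 (nat_lit 3) (nat_lit 0x200010001c0009000780000000000000000000000) (nat_lit 0x0) (nat_lit 0x200000000e000200000000000000) := T_4 (nat_lit 74) (nat_lit 73) (nat_lit 0) (nat_lit 9) (nat_lit 5) L645765 (by decide +kernel)
theorem L645767 : W_4 (nat_lit 4) (nat_lit 0x200010001c0008000780000000000000000000000) (nat_lit 0x0) (nat_lit 0x380000000e000200000000000000) := T_4 (nat_lit 108) (nat_lit 107) (nat_lit 1) (nat_lit 9) (nat_lit 5) L645766 (by decide +kernel)
theorem L645768 : W_4 (nat_lit 5) (nat_lit 0x200010001c0008000700000000000000000000000) (nat_lit 0x0) (nat_lit 0x1380008000e000200000000000000) := T_4 (nat_lit 91) (nat_lit 112) (nat_lit 3) (nat_lit 6) (nat_lit 5) L645767 (by decide +kernel)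
theorem L645769 : W_4 (nat_lit 6) (nat_lit 0x200010001c0000000700000000000000000000000) (nat_lit 0x0) (nat_lit 0x200000001b80008000e000200000000000000) := T_4 (nat_lit 111) (nat_lit 145) (nat_lit 5) (nat_lit 9) (nat_lit 5) L645768 (by decide +kernel)
theorem L645770 : W_4 (nat_lit 2) (nat_lit 0x200010001c0009000780004000000000000000000) (nat_lit 0x0) (nat_lit 0x2000800000000200000000000000) := D_4 (nat_lit 109) (nat_lit 95) (nat_lit 57) (nat_lit 1) (nat_lit 10) (nat_lit 5) (nat_lit 7) (nat_lit 6) (nat_lit 3) (by decide +kernel)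
theorem L645771 : W_4 (nat_lit 3) (nat_lit 0x200010001c0009000780000000000000000000000) (nat_lit 0x0) (nat_lit 0x2000800006000200000000000000) := T_4 (nat_lit 74) (nat_lit 73) (nat_lit 0) (nat_lit 9) (nat_lit 5) L645770 (by decide +kernel)
theorem L645772 : W_4 (nat_lit 4) (nat_lit 0x200010001c0008000780000000000000000000000) (nat_lit 0x0) (nat_lit 0x3800800006000200000000000000) := T_4 (nat_lit 108) (nat_lit 107) (nat_lit 1) (nat_lit 9) (nat_lit 5) L645771 (by decide +kernel)
theorem L645773 : W_4 (nat_lit 5) (nat_lit 0x200010001c0008000700000000000000000000000) (nat_lit 0x0) (nat_lit 0x13800880006000200000000000000) := T_4 (nat_lit 91) (nat_lit 112) (nat_lit 3) (nat_lit 6) (nat_lit 5) L645772 (by decide +kernel)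
theorem L645774 : W_4 (nat_lit 6) (nat_lit 0x200010001c0000000700000000000000000000000) (nat_lit 0x0) (nat_lit 0x200000001b800880006000200000000000000) := T_4 (nat_lit 111) (nat_lit 145) (nat_lit 5) (nat_lit 9) (nat_lit 5) L645773 (by decide +kernel)
theorem L645775 : W_4 (nat_lit 2) (nat_lit 0x200010001c0009000780000000000000000000000) (nat_lit 0x0) (nat_lit 0x2000800008000000000000000000) := D_4 (nat_lit 109) (nat_lit 75) (nat_lit 95) (nat_lit 7) (nat_lit 7) (nat_lit 4) (nat_lit 1) (nat_lit 10) (nat_lit 5) (by decide +kernel)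
theorem L645776 : W_4 (nat_lit 3) (nat_lit 0x200010001c0008000780000000000000000000000) (nat_lit 0x0) (nat_lit 0x3800800008000000000000000000) := T_4 (nat_lit 108) (nat_lit 107) (nat_lit 1) (nat_lit 9) (nat_lit 5) L645775 (by decide +kernel)
theorem L645777 : W_4 (nat_lit 4) (nat_lit 0x200010001c0008000700000000000000000000000) (nat_lit 0x0) (nat_lit 0x13800880008000000000000000000) := T_4 (nat_lit 91) (nat_lit 112) (nat_lit 3) (nat_lit 6) (nat_lit 5) L645776 (by decide +kernel)
theorem L645778 : W_4 (nat_lit 5) (nat_lit 0x200010001c0000000700000000000000000000000) (nat_lit 0x0) (nat_lit 0x200000001b800880008000000000000000000) := T_4 (nat_lit 111) (nat_lit 145) (nat_lit 5) (nat_lit 9) (nat_lit 5) L645777 (by decide +kernel)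
theorem L645779 : W_4 (nat_lit 9) (nat_lit 0x200010001c0000000500000000000000000000000) (nat_lit 0x0) (nat_lit 0x200000007bc01af01de000200000000000000) := Q_4 (nat_lit 93) (C_4 L635741 (C_4 L645764 (C_4 L635736 (C_4 L645769 (C_4 L645774 (C_4 L645778 N_4)))))) (by decide +kernel)
theorem L645780 : W_4 (nat_lit 2) (nat_lit 0x200010001c0000000500000000000000000000000) (nat_lit 0x0) (nat_lit 0x400000002000000008000000000000000000000000000) := D_4 (nat_lit 111) (nat_lit 178) (nat_lit 145) (nat_lit 6) (nat_lit 8) (nat_lit 10) (nat_lit 5) (nat_lit 9) (nat_lit 5) (by decide +kernel)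
theorem L645781 : W_4 (nat_lit 10) (nat_lit 0x10001c0000000500000000000000000000000) (nat_lit 0x0) (nat_lit 0x40002000200000007bc01af01de000200000000000000) := Q_4 (nat_lit 161) (C_4 L645757 (C_4 L645779 (C_4 L645780 N_4))) (by decide +kernel)
theorem L645782 : W_4 (nat_lit 3) (nat_lit 0x10001c0000000500000000000000000000000) (nat_lit 0x0) (nat_lit 0x400020002000000008000000020000000000000000000) := T_4 (nat_lit 111) (nat_lit 77) (nat_lit 5) (nat_lit 9) (nat_lit 4) L645696 (by decide +kernel)
theorem L645783 : W_4 (nat_lit 11) (nat_lit 0x10001c0000000100000000000000000000000) (nat_lit 0x0) (nat_lit 0x40002000200000007be07ef03ff000200000000000000) := Q_4 (nat_lit 94) (C_4 L645698 (C_4 L645699 (C_4 L645702 (C_4 L645756 (C_4 L645781 (C_4 L645782 N_4)))))) (by decide +kernel)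
theorem L645929 : W_4 (nat_lit 5) (nat_lit 0x10001c0000000f00000000000000000000000) (nat_lit 0x0) (nat_lit 0x700010001cc000000000000000000) := T_4 (nat_lit 75) (nat_lit 74) (nat_lit 0) (nat_lit 10) (nat_lit 5) L581748 (by decide +kernel)
theorem L645944 : W_4 (nat_lit 2) (nat_lit 0x10001c0010000f80000000000000000000000) (nat_lit 0x0) (nat_lit 0xe000000000000000000) := D_4 (nat_lit 74) (nat_lit 75) (nat_lit 73) (nat_lit 0) (nat_lit 10) (nat_lit 5) (nat_lit 0) (nat_lit 9) (nat_lit 5) (by decide +kernel)
theorem L645945 : W_4 (nat_lit 3) (nat_lit 0x10001c0010000f00000000000000000000000) (nat_lit 0x0) (nat_lit 0x800008000e000000000000000000) := T_4 (nat_lit 91) (nat_lit 111) (nat_lit 3) (nat_lit 6) (nat_lit 5) L645944 (by decide +kernel)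
theorem L645946 : W_4 (nat_lit 4) (nat_lit 0x10001c0000000f00000000000000000000000) (nat_lit 0x0) (nat_lit 0x3800008000e000000000000000000) := T_4 (nat_lit 112) (nat_lit 113) (nat_lit 3) (nat_lit 7) (nat_lit 5) L645945 (by decide +kernel)
theorem L645949 : W_4 (nat_lit 2) (nat_lit 0x30001c0008000700000000000000000000000) (nat_lit 0x0) (nat_lit 0x8000c000000000000000000000000000000000000) := D_4 (nat_lit 146) (nat_lit 147) (nat_lit 163) (nat_lit 0) (nat_lit 11) (nat_lit 8) (nat_lit 7) (nat_lit 9) (nat_lit 5) (by decide +kernel)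
theorem L645950 : W_4 (nat_lit 3) (nat_lit 0x10001c0008000700000000000000000000000) (nat_lit 0x0) (nat_lit 0x8000e000000000000000010000000000000000000) := T_4 (nat_lit 145) (nat_lit 76) (nat_lit 4) (nat_lit 9) (nat_lit 8) L645949 (by decide +kernel)
theorem L645951 : W_4 (nat_lit 4) (nat_lit 0x10001c0000000700000000000000000000000) (nat_lit 0x0) (nat_lit 0x8000e000000008000000030000000000000000000) := T_4 (nat_lit 111) (nat_lit 77) (nat_lit 5) (nat_lit 9) (nat_lit 4) L645950 (by decide +kernel)
theorem L645953 : W_4 (nat_lit 2) (nat_lit 0x10001c0000000f00088000000000000000000) (nat_lit 0x0) (nat_lit 0x1000110000000000000000000) := D_4 (nat_lit 96) (nat_lit 76) (nat_lit 80) (nat_lit 0) (nat_lit 11) (nat_lit 5) (nat_lit 2) (nat_lit 8) (nat_lit 5) (by decide +kernel)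
theorem L645954 : W_4 (nat_lit 3) (nat_lit 0x10001c0000000f00008000000000000000000) (nat_lit 0x0) (nat_lit 0x10001d0000000000000000000) := T_4 (nat_lit 79) (nat_lit 78) (nat_lit 2) (nat_lit 7) (nat_lit 5) L645953 (by decide +kernel)
theorem L645955 : W_4 (nat_lit 4) (nat_lit 0x10001c0000000f00000000000000000000000) (nat_lit 0x0) (nat_lit 0x10001dc000000000000000000) := T_4 (nat_lit 75) (nat_lit 74) (nat_lit 0) (nat_lit 10) (nat_lit 5) L645954 (by decide +kernel)
theorem L645956 : W_4 (nat_lit 2) (nat_lit 0x10001c0010800f80002000000000000000000) (nat_lit 0x0) (nat_lit 0x400040001000000000000000000) := D_4 (nat_lit 90) (nat_lit 106) (nat_lit 72) (nat_lit 1) (nat_lit 8) (nat_lit 5) (nat_lit 0) (nat_lit 8) (nat_lit 5) (by decide +kernel)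
theorem L645957 : W_4 (nat_lit 3) (nat_lit 0x10001c0010800f80000000000000000000000) (nat_lit 0x0) (nat_lit 0x400040007000000000000000000) := T_4 (nat_lit 73) (nat_lit 74) (nat_lit 0) (nat_lit 9) (nat_lit 5) L645956 (by decide +kernel)
theorem L645958 : W_4 (nat_lit 4) (nat_lit 0x10001c0010000f80000000000000000000000) (nat_lit 0x0) (nat_lit 0x1c00040007000000000000000000) := T_4 (nat_lit 107) (nat_lit 108) (nat_lit 1) (nat_lit 9) (nat_lit 5) L645957 (by decide +kernel)
theorem L645959 : W_4 (nat_lit 5) (nat_lit 0x10001c0010000f00000000000000000000000) (nat_lit 0x0) (nat_lit 0x9c000c0007000000000000000000) := T_4 (nat_lit 91) (nat_lit 111) (nat_lit 3) (nat_lit 6) (nat_lit 5) L645958 (by decide +kernel)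
theorem L645960 : W_4 (nat_lit 6) (nat_lit 0x10001c0000000f00000000000000000000000) (nat_lit 0x0) (nat_lit 0x39c000c0007000000000000000000) := T_4 (nat_lit 112) (nat_lit 113) (nat_lit 3) (nat_lit 7) (nat_lit 5) L645959 (by decide +kernel)
theorem L645961 : W_4 (nat_lit 2) (nat_lit 0x10001c0010000f00040000000000000000000) (nat_lit 0x0) (nat_lit 0x8000080000002000000000000000) := D_4 (nat_lit 111) (nat_lit 91) (nat_lit 61) (nat_lit 3) (nat_lit 6) (nat_lit 5) (nat_lit 5) (nat_lit 10) (nat_lit 3) (by decide +kernel)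
theorem L645962 : W_4 (nat_lit 3) (nat_lit 0x10001c0000000f00040000000000000000000) (nat_lit 0x0) (nat_lit 0x38000080000002000000000000000) := T_4 (nat_lit 112) (nat_lit 113) (nat_lit 3) (nat_lit 7) (nat_lit 5) L645961 (by decide +kernel)
theorem L645963 : W_4 (nat_lit 4) (nat_lit 0x10001c0000000f00000000000000000000000) (nat_lit 0x0) (nat_lit 0x380000800c0002000000000000000) := T_4 (nat_lit 78) (nat_lit 79) (nat_lit 2) (nat_lit 7) (nat_lit 5) L645962 (by decide +kernel)
theorem L645964 : W_4 (nat_lit 7) (nat_lit 0x10001c0000000700000000000000000000000) (nat_lit 0x0) (nat_lit 0x79c018c01df002000000000000000) := Q_4 (nat_lit 95) (C_4 L645946 (C_4 L645929 (C_4 L645955 (C_4 L645960 (C_4 L645963 N_4))))) (by decide +kernel)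
theorem L645965 : W_4 (nat_lit 2) (nat_lit 0x10001c0018000f00000000000000000000000) (nat_lit 0x0) (nat_lit 0xc0002000000000000000) := D_4 (nat_lit 78) (nat_lit 61) (nat_lit 79) (nat_lit 5) (nat_lit 10) (nat_lit 3) (nat_lit 2) (nat_lit 7) (nat_lit 5) (by decide +kernel)
theorem L645966 : W_4 (nat_lit 3) (nat_lit 0x10001c0008000f00000000000000000000000) (nat_lit 0x0) (nat_lit 0x300000000c0002000000000000000) := T_4 (nat_lit 112) (nat_lit 113) (nat_lit 3) (nat_lit 7) (nat_lit 5) L645965 (by decide +kernel)
theorem L645967 : W_4 (nat_lit 4) (nat_lit 0x10001c0000000f00000000000000000000000) (nat_lit 0x0) (nat_lit 0x380000000e0002000000000000000) := T_4 (nat_lit 111) (nat_lit 77) (nat_lit 5) (nat_lit 9) (nat_lit 4) L645966 (by decide +kernel)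
theorem L645968 : W_4 (nat_lit 2) (nat_lit 0x4000000010001c0018003f00008000000000000000000) (nat_lit 0x0) (nat_lit 0x380000000000000000000) := D_4 (nat_lit 80) (nat_lit 79) (nat_lit 81) (nat_lit 2) (nat_lit 8) (nat_lit 5) (nat_lit 2) (nat_lit 9) (nat_lit 5) (by decide +kernel)
theorem L645969 : W_4 (nat_lit 3) (nat_lit 0x4000000010001c0018001f00008000000000000000000) (nat_lit 0x0) (nat_lit 0x6000380000000000000000000) := T_4 (nat_lit 97) (nat_lit 98) (nat_lit 1) (nat_lit 13) (nat_lit 5) L645968 (by decide +kernel)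
theorem L645970 : W_4 (nat_lit 4) (nat_lit 0x4000000010001c0018000f00008000000000000000000) (nat_lit 0x0) (nat_lit 0x7000390000000000000000000) := T_4 (nat_lit 96) (nat_lit 76) (nat_lit 0) (nat_lit 11) (nat_lit 5) L645969 (by decide +kernel)
theorem L645971 : W_4 (nat_lit 5) (nat_lit 0x10001c0018000f00008000000000000000000) (nat_lit 0x0) (nat_lit 0x400020000000000000007000390000000000000000000) := T_4 (nat_lit 178) (nat_lit 161) (nat_lit 6) (nat_lit 8) (nat_lit 10) L645970 (by decide +kernel)
theorem L645972 : W_4 (nat_lit 6) (nat_lit 0x10001c0018000f00000000000000000000000) (nat_lit 0x0) (nat_lit 0x40002000000000000000700039c000000000000000000) := T_4 (nat_lit 75) (nat_lit 74) (nat_lit 0) (nat_lit 10) (nat_lit 5) L645971 (by decide +kernel)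
theorem L645973 : W_4 (nat_lit 7) (nat_lit 0x10001c0010000f00000000000000000000000) (nat_lit 0x0) (nat_lit 0x4000200000000000080070003bc000000000000000000) := T_4 (nat_lit 111) (nat_lit 77) (nat_lit 5) (nat_lit 9) (nat_lit 4) L645972 (by decide +kernel)
theorem L645974 : W_4 (nat_lit 8) (nat_lit 0x10001c0000000f00000000000000000000000) (nat_lit 0x0) (nat_lit 0x4000200000000000380070003bc000000000000000000) := T_4 (nat_lit 112) (nat_lit 113) (nat_lit 3) (nat_lit 7) (nat_lit 5) L645973 (by decide +kernel)
theorem L645975 : W_4 (nat_lit 3) (nat_lit 0x10001c0000000f00008000000000000000000) (nat_lit 0x0) (nat_lit 0x70001000010000000000000000000) := T_4 (nat_lit 113) (nat_lit 112) (nat_lit 3) (nat_lit 7) (nat_lit 5) L519256 (by decide +kernel)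
theorem L645976 : W_4 (nat_lit 4) (nat_lit 0x10001c0000000f00000000000000000000000) (nat_lit 0x0) (nat_lit 0x7000100001c000000000000000000) := T_4 (nat_lit 75) (nat_lit 74) (nat_lit 0) (nat_lit 10) (nat_lit 5) L645975 (by decide +kernel)
theorem L645977 : W_4 (nat_lit 9) (nat_lit 0x10001c0000000700000000000000000000000) (nat_lit 0x0) (nat_lit 0x4000200000000000780078003fc002000000000000000) := Q_4 (nat_lit 95) (C_4 L645955 (C_4 L645929 (C_4 L645967 (C_4 L645974 (C_4 L645976 N_4))))) (by decide +kernel)
theorem L645978 : W_4 (nat_lit 6) (nat_lit 0x10001c0000000700000000000000000000000) (nat_lit 0x0) (nat_lit 0x19c000c0027000000000000000000) := T_4 (nat_lit 111) (nat_lit 77) (nat_lit 5) (nat_lit 9) (nat_lit 4) L644030 (by decide +kernel)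
theorem L645980 : W_4 (nat_lit 2) (nat_lit 0x10001c0000800780002000000000000000000) (nat_lit 0x0) (nat_lit 0x400040001000000000000000000) := D_4 (nat_lit 90) (nat_lit 72) (nat_lit 106) (nat_lit 0) (nat_lit 8) (nat_lit 5) (nat_lit 1) (nat_lit 8) (nat_lit 5) (by decide +kernel)
theorem L645981 : W_4 (nat_lit 3) (nat_lit 0x10001c0000000780002000000000000000000) (nat_lit 0x0) (nat_lit 0x1c00040001000000000000000000) := T_4 (nat_lit 107) (nat_lit 108) (nat_lit 1) (nat_lit 9) (nat_lit 5) L645980 (by decide +kernel)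
theorem L645982 : W_4 (nat_lit 4) (nat_lit 0x10001c0000000780000000000000000000000) (nat_lit 0x0) (nat_lit 0x1c00040007000000000000000000) := T_4 (nat_lit 73) (nat_lit 74) (nat_lit 0) (nat_lit 9) (nat_lit 5) L645981 (by decide +kernel)
theorem L645983 : W_4 (nat_lit 4) (nat_lit 0x10001c0000000f00000000000000000000000) (nat_lit 0x0) (nat_lit 0x700010001c0000000000000000000) := T_4 (nat_lit 113) (nat_lit 112) (nat_lit 3) (nat_lit 7) (nat_lit 5) L517229 (by decide +kernel)
theorem L645984 : W_4 (nat_lit 2) (nat_lit 0x10001c0000000f80040000000000000000000) (nat_lit 0x0) (nat_lit 0xe000000000000000000) := D_4 (nat_lit 74) (nat_lit 75) (nat_lit 73) (nat_lit 0) (nat_lit 10) (nat_lit 5) (nat_lit 0) (nat_lit 9) (nat_lit 5) (by decide +kernel)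
theorem L645985 : W_4 (nat_lit 3) (nat_lit 0x10001c0000000f00040000000000000000000) (nat_lit 0x0) (nat_lit 0x8002e000000000000000000) := T_4 (nat_lit 91) (nat_lit 77) (nat_lit 2) (nat_lit 6) (nat_lit 5) L645984 (by decide +kernel)
theorem L645986 : W_4 (nat_lit 4) (nat_lit 0x10001c0000000f00000000000000000000000) (nat_lit 0x0) (nat_lit 0x800ee000000000000000000) := T_4 (nat_lit 78) (nat_lit 79) (nat_lit 2) (nat_lit 7) (nat_lit 5) L645985 (by decide +kernel)
theorem L692288 : W_4 (nat_lit 3) (nat_lit 0x4000000010001c0008000700000000000000000000000) (nat_lit 0x0) (nat_lit 0x70000880000000000000000000000) := T_4 (nat_lit 112) (nat_lit 91) (nat_lit 3) (nat_lit 6) (nat_lit 5) L529542 (by decide +kernel)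
theorem L692289 : W_4 (nat_lit 4) (nat_lit 0x10001c0008000700000000000000000000000) (nat_lit 0x0) (nat_lit 0x400020000000000070000880000000000000000000000) := T_4 (nat_lit 178) (nat_lit 161) (nat_lit 6) (nat_lit 8) (nat_lit 10) L692288 (by decide +kernel)
theorem L706255 : W_4 (nat_lit 2) (nat_lit 0x4000200030000c0000000000000000000000000000000) (nat_lit 0x0) (nat_lit 0x8000000000000800100000000000000000000000000000000) := D_4 (nat_lit 195) (nat_lit 143) (nat_lit 128) (nat_lit 4) (nat_lit 8) (nat_lit 11) (nat_lit 6) (nat_lit 8) (nat_lit 11) (by decide +kernel)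
theorem L706323 : W_4 (nat_lit 3) (nat_lit 0x4000200030000c0000000000000000000000000000000) (nat_lit 0x0) (nat_lit 0x200018000800000000800000000000000000000000000000000000) := T_4 (nat_lit 195) (nat_lit 143) (nat_lit 4) (nat_lit 8) (nat_lit 11) L356231 (by decide +kernel)
theorem L707257 : W_4 (nat_lit 2) (nat_lit 0x2000b0000c0002000000000000000000000000000) (nat_lit 0x0) (nat_lit 0x800000000000100008000000000000000000) := D_4 (nat_lit 92) (nat_lit 75) (nat_lit 143) (nat_lit 7) (nat_lit 7) (nat_lit 4) (nat_lit 7) (nat_lit 7) (nat_lit 5) (by decide +kernel)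
theorem L709530 : W_4 (nat_lit 2) (nat_lit 0xb8000c0003000380000000000000000000000) (nat_lit 0x0) (nat_lit 0xc00400000000000000000000000) := D_4 (nat_lit 107) (nat_lit 106) (nat_lit 94) (nat_lit 3) (nat_lit 4) (nat_lit 6) (nat_lit 1) (nat_lit 9) (nat_lit 5) (by decide +kernel)
theorem L709531 : W_4 (nat_lit 3) (nat_lit 0xb8000c0002000380000000000000000000000) (nat_lit 0x0) (nat_lit 0x10000000000001c00400000000000000000000000) := T_4 (nat_lit 108) (nat_lit 160) (nat_lit 4) (nat_lit 7) (nat_lit 9) L709530 (by decide +kernel)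
theorem L709532 : W_4 (nat_lit 4) (nat_lit 0xb8000c0002000300000000000000000000000) (nat_lit 0x0) (nat_lit 0x10000000000001c00480004000000000000000000) := T_4 (nat_lit 91) (nat_lit 74) (nat_lit 4) (nat_lit 7) (nat_lit 8) L709531 (by decide +kernel)
theorem L709533 : W_4 (nat_lit 5) (nat_lit 0xb8000c0002000100000000000000000000000) (nat_lit 0x0) (nat_lit 0x10000000000001c00680014000000000000000000) := T_4 (nat_lit 93) (nat_lit 76) (nat_lit 6) (nat_lit 7) (nat_lit 8) L709532 (by decide +kernel)
theorem L717324 : W_4 (nat_lit 3) (nat_lit 0xb0000c0002000000000000000000000000000) (nat_lit 0x0) (nat_lit 0x400020000800000000000100008000000000000000000) := T_4 (nat_lit 161) (nat_lit 178) (nat_lit 4) (nat_lit 8) (nat_lit 10) L707257 (by decide +kernel)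
theorem L717326 : W_4 (nat_lit 6) (nat_lit 0xb8000c0002000000000000000000000000000) (nat_lit 0x0) (nat_lit 0x10000000000001c0078001c000000000000000000) := T_4 (nat_lit 92) (nat_lit 75) (nat_lit 7) (nat_lit 7) (nat_lit 4) L709533 (by decide +kernel)
theorem L802002 : W_4 (nat_lit 2) (nat_lit 0x58003c0002000000000000000000000000000) (nat_lit 0x0) (nat_lit 0x20000000000000000100008000000000000000000) := D_4 (nat_lit 92) (nat_lit 75) (nat_lit 161) (nat_lit 7) (nat_lit 7) (nat_lit 4) (nat_lit 7) (nat_lit 7) (nat_lit 5) (by decide +kernel)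
theorem L802003 : W_4 (nat_lit 3) (nat_lit 0x50003c0002000000000000000000000000000) (nat_lit 0x0) (nat_lit 0x20000c00000000000100008000000000000000000) := T_4 (nat_lit 143) (nat_lit 142) (nat_lit 1) (nat_lit 10) (nat_lit 7) L802002 (by decide +kernel)
theorem L802004 : W_4 (nat_lit 4) (nat_lit 0x50003c0000000000000000000000000000000) (nat_lit 0x0) (nat_lit 0x20000c00000003000100008000000000000000000) := T_4 (nat_lit 109) (nat_lit 108) (nat_lit 0) (nat_lit 10) (nat_lit 7) L802003 (by decide +kernel)
theorem L802005 : W_4 (nat_lit 5) (nat_lit 0x10003c0000000000000000000000000000000) (nat_lit 0x0) (nat_lit 0x2000cc00000003000100008000000000000000000) := T_4 (nat_lit 146) (nat_lit 147) (nat_lit 3) (nat_lit 7) (nat_lit 7) L802004 (by decide +kernel)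
theorem L802016 : W_4 (nat_lit 10) (nat_lit 0x10003c0000000000000000000000000000000) (nat_lit 0x0) (nat_lit 0x28001c001e000a000e00000003b003d000fc004000000000000000) := Q_4 (nat_lit 161) (C_4 L802000 (C_4 L586349 (C_4 L557559 (C_4 L802015 N_4)))) (by decide +kernel)
theorem L820127 : W_4 (nat_lit 2) (nat_lit 0x11000780040000000000000000000000000000) (nat_lit 0x0) (nat_lit 0x20000800080000000000000000000000000000) := D_4 (nat_lit 131) (nat_lit 115) (nat_lit 149) (nat_lit 2) (nat_lit 9) (nat_lit 7) (nat_lit 3) (nat_lit 9) (nat_lit 7) (by decide +kernel)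
theorem L820128 : W_4 (nat_lit 3) (nat_lit 0x1000780040000000000000000000000000000) (nat_lit 0x0) (nat_lit 0x38000800080000000000000000000000000000) := T_4 (nat_lit 148) (nat_lit 147) (nat_lit 3) (nat_lit 8) (nat_lit 7) L820127 (by decide +kernel)
theorem L820129 : W_4 (nat_lit 4) (nat_lit 0x1000780000000000000000000000000000000) (nat_lit 0x0) (nat_lit 0x380008000e0000000000000000000000000000) := T_4 (nat_lit 114) (nat_lit 113) (nat_lit 2) (nat_lit 8) (nat_lit 7) L820128 (by decide +kernel)
theorem L820130 : W_4 (nat_lit 5) (nat_lit 0x1000380000000000000000000000000000000) (nat_lit 0x0) (nat_lit 0x38800c000e0000000000000000000000000000) := T_4 (nat_lit 130) (nat_lit 143) (nat_lit 1) (nat_lit 11) (nat_lit 7) L820129 (by decide +kernel)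
theorem L820131 : W_4 (nat_lit 6) (nat_lit 0x10003c0000000000000000000000000000000) (nat_lit 0x0) (nat_lit 0x8000cc00020038000400020000000000000000000) := T_4 (nat_lit 143) (nat_lit 142) (nat_lit 1) (nat_lit 10) (nat_lit 7) L620708 (by decide +kernel)
theorem L820133 : W_4 (nat_lit 2) (nat_lit 0x21000f80080000000000000000000000000000) (nat_lit 0x0) (nat_lit 0x40001000100000000000000000000000000000) := D_4 (nat_lit 132) (nat_lit 150) (nat_lit 116) (nat_lit 3) (nat_lit 10) (nat_lit 7) (nat_lit 2) (nat_lit 10) (nat_lit 7) (by decide +kernel)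
theorem L820134 : W_4 (nat_lit 3) (nat_lit 0x21000f80000000000000000000000000000000) (nat_lit 0x0) (nat_lit 0x400010001c0000000000000000000000000000) := T_4 (nat_lit 115) (nat_lit 114) (nat_lit 2) (nat_lit 9) (nat_lit 7) L820133 (by decide +kernel)
theorem L820135 : W_4 (nat_lit 4) (nat_lit 0x1000f80000000000000000000000000000000) (nat_lit 0x0) (nat_lit 0x700010001c0000000000000000000000000000) := T_4 (nat_lit 149) (nat_lit 148) (nat_lit 3) (nat_lit 9) (nat_lit 7) L820134 (by decide +kernel)
theorem L820136 : W_4 (nat_lit 2) (nat_lit 0x21001f80090000000000000000000000000000) (nat_lit 0x0) (nat_lit 0x2040020000000000000000000000000000) := D_4 (nat_lit 113) (nat_lit 133) (nat_lit 126) (nat_lit 0) (nat_lit 14) (nat_lit 7) (nat_lit 2) (nat_lit 7) (nat_lit 7) (by decide +kernel)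
theorem L820137 : W_4 (nat_lit 3) (nat_lit 0x21001f80080000000000000000000000000000) (nat_lit 0x0) (nat_lit 0x2040038000000000000000000000000000) := T_4 (nat_lit 112) (nat_lit 111) (nat_lit 0) (nat_lit 13) (nat_lit 7) L820136 (by decide +kernel)
theorem L820138 : W_4 (nat_lit 4) (nat_lit 0x21001f80000000000000000000000000000000) (nat_lit 0x0) (nat_lit 0x20401b8000000000000000000000000000) := T_4 (nat_lit 115) (nat_lit 116) (nat_lit 2) (nat_lit 10) (nat_lit 7) L820137 (by decide +kernel)
theorem L820139 : W_4 (nat_lit 5) (nat_lit 0x21000f80000000000000000000000000000000) (nat_lit 0x0) (nat_lit 0x400030401b8000000000000000000000000000) := T_4 (nat_lit 132) (nat_lit 150) (nat_lit 3) (nat_lit 10) (nat_lit 7) L820138 (by decide +kernel)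
theorem L820140 : W_4 (nat_lit 6) (nat_lit 0x1000f80000000000000000000000000000000) (nat_lit 0x0) (nat_lit 0x700030401b8000000000000000000000000000) := T_4 (nat_lit 149) (nat_lit 148) (nat_lit 3) (nat_lit 9) (nat_lit 7) L820139 (by decide +kernel)
theorem L820141 : W_4 (nat_lit 2) (nat_lit 0x11000f80030000000000000000000000000000) (nat_lit 0x0) (nat_lit 0x3000008000000000000000000000000000) := D_4 (nat_lit 132) (nat_lit 133) (nat_lit 111) (nat_lit 0) (nat_lit 14) (nat_lit 7) (nat_lit 0) (nat_lit 13) (nat_lit 7) (by decide +kernel)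
theorem L820142 : W_4 (nat_lit 3) (nat_lit 0x11000f80020000000000000000000000000000) (nat_lit 0x0) (nat_lit 0x3040018000000000000000000000000000) := T_4 (nat_lit 112) (nat_lit 126) (nat_lit 2) (nat_lit 7) (nat_lit 7) L820141 (by decide +kernel)
theorem L820143 : W_4 (nat_lit 4) (nat_lit 0x11000f80000000000000000000000000000000) (nat_lit 0x0) (nat_lit 0x3040078000000000000000000000000000) := T_4 (nat_lit 113) (nat_lit 114) (nat_lit 2) (nat_lit 8) (nat_lit 7) L820142 (by decide +kernel)
theorem L820144 : W_4 (nat_lit 5) (nat_lit 0x1000f80000000000000000000000000000000) (nat_lit 0x0) (nat_lit 0x30003040078000000000000000000000000000) := T_4 (nat_lit 148) (nat_lit 149) (nat_lit 3) (nat_lit 9) (nat_lit 7) L820143 (by decide +kernel)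
theorem L820145 : W_4 (nat_lit 7) (nat_lit 0x1000780000000000000000000000000000000) (nat_lit 0x0) (nat_lit 0x700038401f8000000000000000000000000000) := Q_4 (nat_lit 131) (C_4 L523576 (C_4 L820135 (C_4 L820140 (C_4 L820144 N_4)))) (by decide +kernel)
theorem L822495 : W_4 (nat_lit 3) (nat_lit 0x9000780020000000000000000000000000000) (nat_lit 0x0) (nat_lit 0x80004000040000001000080000000000000000000) := T_4 (nat_lit 146) (nat_lit 126) (nat_lit 3) (nat_lit 7) (nat_lit 7) L523601 (by decide +kernel)
theorem L822496 : W_4 (nat_lit 4) (nat_lit 0x1000780020000000000000000000000000000) (nat_lit 0x0) (nat_lit 0x8001c000040000001000080000000000000000000) := T_4 (nat_lit 147) (nat_lit 148) (nat_lit 3) (nat_lit 8) (nat_lit 7) L822495 (by decide +kernel)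
theorem L822497 : W_4 (nat_lit 5) (nat_lit 0x1000380020000000000000000000000000000) (nat_lit 0x0) (nat_lit 0x8001c000440040001000080000000000000000000) := T_4 (nat_lit 130) (nat_lit 114) (nat_lit 2) (nat_lit 8) (nat_lit 7) L822496 (by decide +kernel)
theorem L822498 : W_4 (nat_lit 2) (nat_lit 0x1000380060000000000000000000000000000) (nat_lit 0x0) (nat_lit 0x98000000000000000000000000000) := D_4 (nat_lit 112) (nat_lit 115) (nat_lit 111) (nat_lit 1) (nat_lit 13) (nat_lit 6) (nat_lit 1) (nat_lit 12) (nat_lit 6) (by decide +kernel)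
theorem L822499 : W_4 (nat_lit 3) (nat_lit 0x1000380020000000000000000000000000000) (nat_lit 0x0) (nat_lit 0x4000d8000000000000000000000000000) := T_4 (nat_lit 114) (nat_lit 130) (nat_lit 2) (nat_lit 8) (nat_lit 7) L822498 (by decide +kernel)
theorem L822500 : W_4 (nat_lit 2) (nat_lit 0x1000380030000000000000000000000000000) (nat_lit 0x0) (nat_lit 0xc8000000000000000000000000000) := D_4 (nat_lit 114) (nat_lit 115) (nat_lit 111) (nat_lit 1) (nat_lit 13) (nat_lit 6) (nat_lit 1) (nat_lit 12) (nat_lit 6) (by decide +kernel)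
theorem L822501 : W_4 (nat_lit 3) (nat_lit 0x1000380020000000000000000000000000000) (nat_lit 0x0) (nat_lit 0x400d8000000000000000000000000000) := T_4 (nat_lit 112) (nat_lit 126) (nat_lit 2) (nat_lit 7) (nat_lit 7) L822500 (by decide +kernel)
theorem L822502 : W_4 (nat_lit 2) (nat_lit 0x5000380020000000000000000000000000000) (nat_lit 0x0) (nat_lit 0x8000040010000000000000000000000000000) := D_4 (nat_lit 126) (nat_lit 112) (nat_lit 147) (nat_lit 2) (nat_lit 7) (nat_lit 7) (nat_lit 3) (nat_lit 7) (nat_lit 7) (by decide +kernel)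
theorem L822503 : W_4 (nat_lit 2) (nat_lit 0x80005000380020000000000000000000000000000) (nat_lit 0x0) (nat_lit 0x1000000000000400008000000000000000000000000000) := D_4 (nat_lit 180) (nat_lit 111) (nat_lit 130) (nat_lit 4) (nat_lit 10) (nat_lit 10) (nat_lit 6) (nat_lit 10) (nat_lit 10) (by decide +kernel)
theorem L822504 : W_4 (nat_lit 5) (nat_lit 0x80005000380020000000000000000000000000000) (nat_lit 0x0) (nat_lit 0xa00070003800000000000400000000000000000000000000000000) := T_4 (nat_lit 180) (nat_lit 130) (nat_lit 6) (nat_lit 10) (nat_lit 10) L525269 (by decide +kernel)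
theorem L822505 : W_4 (nat_lit 5) (nat_lit 0x80005000380020000000000000000000000000000) (nat_lit 0x0) (nat_lit 0xa00070003800000000000000008000000000000000000000000000) := T_4 (nat_lit 180) (nat_lit 111) (nat_lit 4) (nat_lit 10) (nat_lit 10) L525269 (by decide +kernel)
theorem L822506 : W_4 (nat_lit 2) (nat_lit 0x18000d000380038000000000000000000000000000) (nat_lit 0x0) (nat_lit 0x30000400000000000000000000000000000000) := D_4 (nat_lit 148) (nat_lit 130) (nat_lit 149) (nat_lit 3) (nat_lit 8) (nat_lit 7) (nat_lit 0) (nat_lit 13) (nat_lit 8) (by decide +kernel)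
theorem L822507 : W_4 (nat_lit 3) (nat_lit 0x180005000380038000000000000000000000000000) (nat_lit 0x0) (nat_lit 0x38000400000000800000000000000000000000) := T_4 (nat_lit 147) (nat_lit 95) (nat_lit 7) (nat_lit 10) (nat_lit 5) L822506 (by decide +kernel)
theorem L822508 : W_4 (nat_lit 4) (nat_lit 0x80005000380038000000000000000000000000000) (nat_lit 0x0) (nat_lit 0x2000100038000400000000800000000000000000000000) := T_4 (nat_lit 164) (nat_lit 181) (nat_lit 7) (nat_lit 10) (nat_lit 6) L822507 (by decide +kernel)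
theorem L822509 : W_4 (nat_lit 5) (nat_lit 0x80005000380030000000000000000000000000000) (nat_lit 0x0) (nat_lit 0x2000100038000400008000c00000000000000000000000) := T_4 (nat_lit 111) (nat_lit 94) (nat_lit 4) (nat_lit 10) (nat_lit 9) L822508 (by decide +kernel)
theorem L822510 : W_4 (nat_lit 6) (nat_lit 0x80005000380020000000000000000000000000000) (nat_lit 0x0) (nat_lit 0x2000100038000400018001c00000000000000000000000) := T_4 (nat_lit 112) (nat_lit 96) (nat_lit 6) (nat_lit 10) (nat_lit 9) L822509 (by decide +kernel)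
theorem L822511 : W_4 (nat_lit 7) (nat_lit 0x5000380020000000000000000000000000000) (nat_lit 0x0) (nat_lit 0xa00070003800180038000400018001c00000000000000000000000) := Q_4 (nat_lit 163) (C_4 L822503 (C_4 L822504 (C_4 L822505 (C_4 L822510 N_4)))) (by decide +kernel)
theorem L822512 : W_4 (nat_lit 2) (nat_lit 0xd000380020000000000000000000000000000) (nat_lit 0x0) (nat_lit 0x30000400000000000000000000000000000000) := D_4 (nat_lit 148) (nat_lit 149) (nat_lit 130) (nat_lit 0) (nat_lit 13) (nat_lit 8) (nat_lit 3) (nat_lit 8) (nat_lit 7) (by decide +kernel)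
theorem L822513 : W_4 (nat_lit 3) (nat_lit 0x5000380020000000000000000000000000000) (nat_lit 0x0) (nat_lit 0x38000440000000000000000000000000000000) := T_4 (nat_lit 147) (nat_lit 126) (nat_lit 3) (nat_lit 7) (nat_lit 7) L822512 (by decide +kernel)
theorem L822514 : W_4 (nat_lit 2) (nat_lit 0x80005000380030000000000000000000000000000) (nat_lit 0x0) (nat_lit 0x1000000000000400008000000000000000000000000000) := D_4 (nat_lit 180) (nat_lit 111) (nat_lit 130) (nat_lit 4) (nat_lit 10) (nat_lit 10) (nat_lit 6) (nat_lit 10) (nat_lit 10) (by decide +kernel)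
theorem L822515 : W_4 (nat_lit 3) (nat_lit 0x5000380030000000000000000000000000000) (nat_lit 0x0) (nat_lit 0x1000080000000400008001000000000000000000000000) := T_4 (nat_lit 163) (nat_lit 96) (nat_lit 6) (nat_lit 10) (nat_lit 9) L822514 (by decide +kernel)
theorem L822516 : W_4 (nat_lit 4) (nat_lit 0x5000380020000000000000000000000000000) (nat_lit 0x0) (nat_lit 0x1000080000000440018001000000000000000000000000) := T_4 (nat_lit 112) (nat_lit 126) (nat_lit 2) (nat_lit 7) (nat_lit 7) L822515 (by decide +kernel)
theorem L822517 : W_4 (nat_lit 8) (nat_lit 0x1000380020000000000000000000000000000) (nat_lit 0x0) (nat_lit 0xa0007000380018003c000440018001c00000000000000000000000) := Q_4 (nat_lit 146) (C_4 L822502 (C_4 L822511 (C_4 L822513 (C_4 L822516 N_4)))) (by decide +kernel)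
theorem L822518 : W_4 (nat_lit 9) (nat_lit 0x1000380000000000000000000000000000000) (nat_lit 0x0) (nat_lit 0xa0007000380018003c0004400f8001c00080000000000000000000) := Q_4 (nat_lit 113) (C_4 L822497 (C_4 L822499 (C_4 L822501 (C_4 L822517 N_4)))) (by decide +kernel)
theorem L822519 : W_4 (nat_lit 8) (nat_lit 0x1000380000000000000000000000000000000) (nat_lit 0x0) (nat_lit 0x70803c401f8000000000000000000000000000) := T_4 (nat_lit 130) (nat_lit 143) (nat_lit 1) (nat_lit 11) (nat_lit 7) L820145 (by decide +kernel)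
theorem L822520 : W_4 (nat_lit 3) (nat_lit 0x1000380000000000000000000000000000000) (nat_lit 0x0) (nat_lit 0xe00440000000000000000000000000000000) := T_4 (nat_lit 143) (nat_lit 130) (nat_lit 1) (nat_lit 11) (nat_lit 7) L802141 (by decide +kernel)
theorem L822588 : W_4 (nat_lit 6) (nat_lit 0x1000380008000000000000000000000000000) (nat_lit 0x0) (nat_lit 0x72801c001c0000000000000000000000000000) := T_4 (nat_lit 130) (nat_lit 143) (nat_lit 1) (nat_lit 11) (nat_lit 7) L605228 (by decide +kernel)
theorem L822590 : W_4 (nat_lit 7) (nat_lit 0x1000380008000000020000000000000000000) (nat_lit 0x0) (nat_lit 0x400020038801c001d0000000000000000000000000000) := T_4 (nat_lit 130) (nat_lit 143) (nat_lit 1) (nat_lit 11) (nat_lit 7) L552980 (by decide +kernel)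
theorem L822591 : W_4 (nat_lit 8) (nat_lit 0x1000380008000000000000000000000000000) (nat_lit 0x0) (nat_lit 0x400020038801c001d0000400020000000000000000000) := T_4 (nat_lit 77) (nat_lit 94) (nat_lit 5) (nat_lit 9) (nat_lit 4) L822590 (by decide +kernel)
theorem L822592 : W_4 (nat_lit 6) (nat_lit 0x400000001000380008000000020000000000000000000) (nat_lit 0x0) (nat_lit 0x100008001c800440060001000000000000000000000000) := T_4 (nat_lit 130) (nat_lit 143) (nat_lit 1) (nat_lit 11) (nat_lit 7) L553718 (by decide +kernel)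
theorem L822593 : W_4 (nat_lit 7) (nat_lit 0x400000001000380008000000000000000000000000000) (nat_lit 0x0) (nat_lit 0x100008001c800440060001400020000000000000000000) := T_4 (nat_lit 77) (nat_lit 94) (nat_lit 5) (nat_lit 9) (nat_lit 4) L822592 (by decide +kernel)
theorem L822594 : W_4 (nat_lit 8) (nat_lit 0x1000380008000000000000000000000000000) (nat_lit 0x0) (nat_lit 0x14000a001c800440060001400020000000000000000000) := T_4 (nat_lit 178) (nat_lit 161) (nat_lit 6) (nat_lit 8) (nat_lit 10) L822593 (by decide +kernel)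
theorem L822595 : W_4 (nat_lit 6) (nat_lit 0x400000001000380008000000000000000000000000000) (nat_lit 0x0) (nat_lit 0x100008001c800440060001000000000000000000000000) := T_4 (nat_lit 130) (nat_lit 143) (nat_lit 1) (nat_lit 11) (nat_lit 7) L531343 (by decide +kernel)
theorem L822596 : W_4 (nat_lit 7) (nat_lit 0x1000380008000000000000000000000000000) (nat_lit 0x0) (nat_lit 0x14000a001c800440060001000000000000000000000000) := T_4 (nat_lit 178) (nat_lit 161) (nat_lit 6) (nat_lit 8) (nat_lit 10) L822595 (by decide +kernel)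
theorem L822597 : W_4 (nat_lit 8) (nat_lit 0x1000380008000000000000000000000000000) (nat_lit 0x0) (nat_lit 0x4000200e0803c403f0000000000000000000000000000) := T_4 (nat_lit 130) (nat_lit 143) (nat_lit 1) (nat_lit 11) (nat_lit 7) L530875 (by decide +kernel)
theorem L822598 : W_4 (nat_lit 2) (nat_lit 0x4000000090007c0008000000020000000000000000000) (nat_lit 0x0) (nat_lit 0x20030000000000000000000000000000) := D_4 (nat_lit 112) (nat_lit 113) (nat_lit 125) (nat_lit 2) (nat_lit 7) (nat_lit 7) (nat_lit 2) (nat_lit 6) (nat_lit 7) (by decide +kernel)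
theorem L822599 : W_4 (nat_lit 3) (nat_lit 0x400000009000780008000000020000000000000000000) (nat_lit 0x0) (nat_lit 0x4000060030000000000000000000000000000) := T_4 (nat_lit 126) (nat_lit 146) (nat_lit 3) (nat_lit 7) (nat_lit 7) L822598 (by decide +kernel)
theorem L822600 : W_4 (nat_lit 4) (nat_lit 0x400000001000780008000000020000000000000000000) (nat_lit 0x0) (nat_lit 0x1c000060030000000000000000000000000000) := T_4 (nat_lit 147) (nat_lit 148) (nat_lit 3) (nat_lit 8) (nat_lit 7) L822599 (by decide +kernel)
theorem L822601 : W_4 (nat_lit 5) (nat_lit 0x1000780008000000020000000000000000000) (nat_lit 0x0) (nat_lit 0x40002001c000060030000000000000000000000000000) := T_4 (nat_lit 178) (nat_lit 161) (nat_lit 6) (nat_lit 8) (nat_lit 10) L822600 (by decide +kernel)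
theorem L822602 : W_4 (nat_lit 6) (nat_lit 0x1000380008000000020000000000000000000) (nat_lit 0x0) (nat_lit 0x40002001c800460030000000000000000000000000000) := T_4 (nat_lit 130) (nat_lit 143) (nat_lit 1) (nat_lit 11) (nat_lit 7) L822601 (by decide +kernel)
theorem L822603 : W_4 (nat_lit 7) (nat_lit 0x1000380008000000000000000000000000000) (nat_lit 0x0) (nat_lit 0x40002001c800460030000400020000000000000000000) := T_4 (nat_lit 77) (nat_lit 94) (nat_lit 5) (nat_lit 9) (nat_lit 4) L822602 (by decide +kernel)
theorem L822604 : W_4 (nat_lit 10) (nat_lit 0x1000180008000000000000000000000000000) (nat_lit 0x0) (nat_lit 0x34001a00fc803e603f0007c000e0007000000000000000) := Q_4 (nat_lit 129) (C_4 L822591 (C_4 L822594 (C_4 L610858 (C_4 L530976 (C_4 L822596 (C_4 L822597 (C_4 L822603 N_4))))))) (by decide +kernel)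
theorem L822653 : W_4 (nat_lit 6) (nat_lit 0x10001e0009000000000000000000000000000) (nat_lit 0x0) (nat_lit 0x238001c002700000000000000000000000000) := T_4 (nat_lit 124) (nat_lit 145) (nat_lit 3) (nat_lit 5) (nat_lit 7) L547341 (by decide +kernel)
theorem L822654 : W_4 (nat_lit 7) (nat_lit 0x10001e0008000000000000000000000000000) (nat_lit 0x0) (nat_lit 0x238001c003f00000000000000000000000000) := T_4 (nat_lit 108) (nat_lit 107) (nat_lit 0) (nat_lit 9) (nat_lit 7) L822653 (by decide +kernel)
theorem L822655 : W_4 (nat_lit 8) (nat_lit 0x10001c0008000000000000000000000000000) (nat_lit 0x0) (nat_lit 0x238003c013f00000000000000000000000000) := T_4 (nat_lit 125) (nat_lit 112) (nat_lit 2) (nat_lit 6) (nat_lit 7) L822654 (by decide +kernel)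
theorem L822662 : W_4 (nat_lit 6) (nat_lit 0x10003c0008000000000000000000000000000) (nat_lit 0x0) (nat_lit 0x38801c00033000000000000000000000000000) := T_4 (nat_lit 130) (nat_lit 143) (nat_lit 1) (nat_lit 11) (nat_lit 7) L530449 (by decide +kernel)
theorem L822675 : W_4 (nat_lit 3) (nat_lit 0x10003c0018000000000000000000000000000) (nat_lit 0x0) (nat_lit 0x2801c00000000000000000000000000000000) := T_4 (nat_lit 130) (nat_lit 143) (nat_lit 1) (nat_lit 11) (nat_lit 7) L611131 (by decide +kernel)
theorem L822676 : W_4 (nat_lit 4) (nat_lit 0x10003c0008000000000000000000000000000) (nat_lit 0x0) (nat_lit 0x2801c00030000000000000000000000000000) := T_4 (nat_lit 112) (nat_lit 113) (nat_lit 2) (nat_lit 7) (nat_lit 7) L822675 (by decide +kernel)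
theorem L822677 : W_4 (nat_lit 2) (nat_lit 0x10007c0008000000000000000000000000000) (nat_lit 0x0) (nat_lit 0x1c000000000000000000000000000000000000) := D_4 (nat_lit 147) (nat_lit 146) (nat_lit 148) (nat_lit 3) (nat_lit 7) (nat_lit 7) (nat_lit 3) (nat_lit 8) (nat_lit 7) (by decide +kernel)
theorem L822678 : W_4 (nat_lit 3) (nat_lit 0x10003c0008000000000000000000000000000) (nat_lit 0x0) (nat_lit 0x1c800400000000000000000000000000000000) := T_4 (nat_lit 130) (nat_lit 143) (nat_lit 1) (nat_lit 11) (nat_lit 7) L822677 (by decide +kernel)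
theorem L822698 : W_4 (nat_lit 2) (nat_lit 0x4000000010001f0008400000000000000000000000000) (nat_lit 0x0) (nat_lit 0x800008000200000000000000000000000000) := D_4 (nat_lit 123) (nat_lit 143) (nat_lit 105) (nat_lit 3) (nat_lit 4) (nat_lit 7) (nat_lit 0) (nat_lit 7) (nat_lit 7) (by decide +kernel)
theorem L822699 : W_4 (nat_lit 3) (nat_lit 0x4000000010001f0008000000000000000000000000000) (nat_lit 0x0) (nat_lit 0x800008000e00000000000000000000000000) := T_4 (nat_lit 106) (nat_lit 107) (nat_lit 0) (nat_lit 8) (nat_lit 7) L822698 (by decide +kernel)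
theorem L822700 : W_4 (nat_lit 4) (nat_lit 0x10001f0008000000000000000000000000000) (nat_lit 0x0) (nat_lit 0x400020000800008000e00000000000000000000000000) := T_4 (nat_lit 178) (nat_lit 161) (nat_lit 6) (nat_lit 8) (nat_lit 10) L822699 (by decide +kernel)
theorem L822719 : W_4 (nat_lit 2) (nat_lit 0x4000180014001e000b000080024000000000000000000) (nat_lit 0x0) (nat_lit 0x40002000100000000000000) := D_4 (nat_lit 73) (nat_lit 90) (nat_lit 56) (nat_lit 4) (nat_lit 6) (nat_lit 8) (nat_lit 4) (nat_lit 6) (nat_lit 7) (by decide +kernel)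
theorem L822720 : W_4 (nat_lit 3) (nat_lit 0x4000180014001e000b000080020000000000000000000) (nat_lit 0x0) (nat_lit 0x40006000300000000000000) := T_4 (nat_lit 74) (nat_lit 57) (nat_lit 7) (nat_lit 6) (nat_lit 3) L822719 (by decide +kernel)
theorem L822721 : W_4 (nat_lit 4) (nat_lit 0x4000180014001e000b000000020000000000000000000) (nat_lit 0x0) (nat_lit 0x8000000000000c0006000300000000000000) := T_4 (nat_lit 91) (nat_lit 143) (nat_lit 7) (nat_lit 6) (nat_lit 5) L822720 (by decide +kernel)
theorem L822722 : W_4 (nat_lit 5) (nat_lit 0x4000080014001e000b000000020000000000000000000) (nat_lit 0x0) (nat_lit 0x2000100008000000000000c0006000300000000000000) := T_4 (nat_lit 160) (nat_lit 177) (nat_lit 7) (nat_lit 6) (nat_lit 6) L822721 (by decide +kernel)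
theorem L822723 : W_4 (nat_lit 6) (nat_lit 0x80014001e000b000000020000000000000000000) (nat_lit 0x0) (nat_lit 0x6000300008000000000000c0006000300000000000000) := T_4 (nat_lit 178) (nat_lit 161) (nat_lit 6) (nat_lit 8) (nat_lit 10) L822722 (by decide +kernel)
theorem L822724 : W_4 (nat_lit 7) (nat_lit 0x14001e000b000000020000000000000000000) (nat_lit 0x0) (nat_lit 0x7000380008000000000000c0006000300000000000000) := T_4 (nat_lit 159) (nat_lit 176) (nat_lit 6) (nat_lit 6) (nat_lit 10) L822723 (by decide +kernel)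
theorem L822725 : W_4 (nat_lit 8) (nat_lit 0x14001e000a000000020000000000000000000) (nat_lit 0x0) (nat_lit 0x7000380008000000018000c0006000300000000000000) := T_4 (nat_lit 108) (nat_lit 107) (nat_lit 0) (nat_lit 9) (nat_lit 7) L822724 (by decide +kernel)
theorem L822726 : W_4 (nat_lit 9) (nat_lit 0x10001e000a000000020000000000000000000) (nat_lit 0x0) (nat_lit 0x700038000e000000018000c0006000300000000000000) := T_4 (nat_lit 142) (nat_lit 141) (nat_lit 1) (nat_lit 9) (nat_lit 7) L822725 (by decide +kernel)
theorem L822727 : W_4 (nat_lit 10) (nat_lit 0x10001e000a000000000000000000000000000) (nat_lit 0x0) (nat_lit 0x700038000e000000018004c0026000300000000000000) := T_4 (nat_lit 77) (nat_lit 94) (nat_lit 5) (nat_lit 9) (nat_lit 4) L822726 (by decide +kernel)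
theorem L823543 : W_4 (nat_lit 2) (nat_lit 0x8003c0012001b0008000000000000000000000000000) (nat_lit 0x0) (nat_lit 0x2000100000000000000000800000000000000000000000000) := D_4 (nat_lit 176) (nat_lit 107) (nat_lit 193) (nat_lit 7) (nat_lit 5) (nat_lit 6) (nat_lit 7) (nat_lit 5) (nat_lit 7) (by decide +kernel)
theorem L823544 : W_4 (nat_lit 3) (nat_lit 0x8003c0012001a0008000000000000000000000000000) (nat_lit 0x0) (nat_lit 0x2000100000000000010001800000000000000000000000000) := T_4 (nat_lit 124) (nat_lit 108) (nat_lit 6) (nat_lit 5) (nat_lit 10) L823543 (by decide +kernel)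
theorem L823545 : W_4 (nat_lit 4) (nat_lit 0x8003c0010001a0008000000000000000000000000000) (nat_lit 0x0) (nat_lit 0x2000100000000300010001800000000000000000000000000) := T_4 (nat_lit 141) (nat_lit 140) (nat_lit 0) (nat_lit 8) (nat_lit 9) L823544 (by decide +kernel)
theorem L823546 : W_4 (nat_lit 5) (nat_lit 0x3c0010001a0008000000000000000000000000000) (nat_lit 0x0) (nat_lit 0x20001c0000000300010001800000000000000000000000000) := T_4 (nat_lit 175) (nat_lit 174) (nat_lit 1) (nat_lit 8) (nat_lit 9) L823545 (by decide +kernel)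
theorem L826637 : W_4 (nat_lit 4) (nat_lit 0x1000080014001a0008000000000000000000000000000) (nat_lit 0x0) (nat_lit 0x4000200010000000010001800040000000000000000000000) := T_4 (nat_lit 177) (nat_lit 194) (nat_lit 7) (nat_lit 6) (nat_lit 7) L587889 (by decide +kernel)
theorem L826671 : W_4 (nat_lit 2) (nat_lit 0x10000fc00180017001b0008000000000000000000000000000) (nat_lit 0x0) (nat_lit 0xc00000002000000000000000000000000000000000000000) := D_4 (nat_lit 191) (nat_lit 190) (nat_lit 157) (nat_lit 1) (nat_lit 7) (nat_lit 10) (nat_lit 6) (nat_lit 4) (nat_lit 11) (by decide +kernel)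
theorem L826672 : W_4 (nat_lit 3) (nat_lit 0x10000f800180017001b0008000000000000000000000000000) (nat_lit 0x0) (nat_lit 0xc00060002000000000000000000000000000000000000000) := T_4 (nat_lit 174) (nat_lit 173) (nat_lit 2) (nat_lit 3) (nat_lit 10) L826671 (by decide +kernel)
theorem L826673 : W_4 (nat_lit 4) (nat_lit 0x10000f800180016001b0008000000000000000000000000000) (nat_lit 0x0) (nat_lit 0xc00060002000180000000000000000000000000000000000) := T_4 (nat_lit 140) (nat_lit 139) (nat_lit 3) (nat_lit 3) (nat_lit 8) L826672 (by decide +kernel)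
theorem L826674 : W_4 (nat_lit 5) (nat_lit 0x10000f800180016001a0008000000000000000000000000000) (nat_lit 0x0) (nat_lit 0xc00060002000180010000800000000000000000000000000) := T_4 (nat_lit 124) (nat_lit 107) (nat_lit 4) (nat_lit 6) (nat_lit 10) L826673 (by decide +kernel)
theorem L826675 : W_4 (nat_lit 6) (nat_lit 0x10000f800080016001a0008000000000000000000000000000) (nat_lit 0x0) (nat_lit 0xc01060012000180010000800000000000000000000000000) := T_4 (nat_lit 160) (nat_lit 180) (nat_lit 0) (nat_lit 10) (nat_lit 10) L826674 (by decide +kernel)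
theorem L826676 : W_4 (nat_lit 7) (nat_lit 0x100007800080016001a0008000000000000000000000000000) (nat_lit 0x0) (nat_lit 0x20c01860012000180010000800000000000000000000000000) := T_4 (nat_lit 179) (nat_lit 197) (nat_lit 3) (nat_lit 6) (nat_lit 10) L826675 (by decide +kernel)
theorem L826677 : W_4 (nat_lit 8) (nat_lit 0x100007800080014001a0008000000000000000000000000000) (nat_lit 0x0) (nat_lit 0x20c01860012000b80010000800000000000000000000000000) := T_4 (nat_lit 141) (nat_lit 143) (nat_lit 2) (nat_lit 5) (nat_lit 8) L826676 (by decide +kernel)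
theorem L826678 : W_4 (nat_lit 9) (nat_lit 0x7800080014001a0008000000000000000000000000000) (nat_lit 0x0) (nat_lit 0x38c01860012000b80010000800000000000000000000000000) := T_4 (nat_lit 196) (nat_lit 195) (nat_lit 3) (nat_lit 5) (nat_lit 10) L826677 (by decide +kernel)
theorem L826679 : W_4 (nat_lit 10) (nat_lit 0x7000080014001a0008000000000000000000000000000) (nat_lit 0x0) (nat_lit 0x39c018e0012000b80010000800000000000000000000000000) := T_4 (nat_lit 175) (nat_lit 192) (nat_lit 5) (nat_lit 6) (nat_lit 7) L826678 (by decide +kernel)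
theorem L826680 : W_4 (nat_lit 11) (nat_lit 0x5000080014001a0008000000000000000000000000000) (nat_lit 0x0) (nat_lit 0x3dc01ae0012000b80010000800000000000000000000000000) := T_4 (nat_lit 177) (nat_lit 194) (nat_lit 7) (nat_lit 6) (nat_lit 7) L826679 (by decide +kernel)
theorem L826681 : W_4 (nat_lit 12) (nat_lit 0x1000080014001a0008000000000000000000000000000) (nat_lit 0x0) (nat_lit 0x3dc01ee0032000b80010000800000000000000000000000000) := T_4 (nat_lit 178) (nat_lit 161) (nat_lit 6) (nat_lit 8) (nat_lit 10) L826680 (by decide +kernel)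
theorem L829280 : W_4 (nat_lit 2) (nat_lit 0x9000580028003800000000000000000000000) (nat_lit 0x0) (nat_lit 0x100000000000010004000000000000000000000000) := D_4 (nat_lit 112) (nat_lit 98) (nat_lit 164) (nat_lit 1) (nat_lit 13) (nat_lit 5) (nat_lit 4) (nat_lit 11) (nat_lit 9) (by decide +kernel)
theorem L829433 : W_4 (nat_lit 10) (nat_lit 0x1000580028000000000000000000000000000) (nat_lit 0x0) (nat_lit 0x800074003a001c0008001d00078001c000e000300000000000) := Q_4 (nat_lit 147) (C_4 L591237 (C_4 L591719 (C_4 L605319 (C_4 L591820 (C_4 L591222 (C_4 L591710 (C_4 L591096 N_4))))))) (by decide +kernel)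
theorem L829485 : W_4 (nat_lit 2) (nat_lit 0x1900058002800100008000a000000000000000) (nat_lit 0x0) (nat_lit 0x4000500000000000) := D_4 (nat_lit 62) (nat_lit 46) (nat_lit 44) (nat_lit 6) (nat_lit 11) (nat_lit 6) (nat_lit 4) (nat_lit 11) (nat_lit 6) (by decide +kernel)
theorem L829486 : W_4 (nat_lit 3) (nat_lit 0x19000580028001000080008000000000000000) (nat_lit 0x0) (nat_lit 0x40006000500000000000) := T_4 (nat_lit 61) (nat_lit 78) (nat_lit 4) (nat_lit 11) (nat_lit 7) L829485 (by decide +kernel)
theorem L829487 : W_4 (nat_lit 4) (nat_lit 0x19000580028001000080000000000000000000) (nat_lit 0x0) (nat_lit 0x14000e000500000000000) := T_4 (nat_lit 63) (nat_lit 80) (nat_lit 6) (nat_lit 11) (nat_lit 7) L829486 (by decide +kernel)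
theorem L829488 : W_4 (nat_lit 5) (nat_lit 0x19000580028001000000000000000000000000) (nat_lit 0x0) (nat_lit 0x8000000000001c000e000500000000000) := T_4 (nat_lit 79) (nat_lit 131) (nat_lit 7) (nat_lit 11) (nat_lit 4) L829487 (by decide +kernel)
theorem L829489 : W_4 (nat_lit 6) (nat_lit 0x9000580028001000000000000000000000000) (nat_lit 0x0) (nat_lit 0x2000100008000000000001c000e000500000000000) := T_4 (nat_lit 148) (nat_lit 165) (nat_lit 7) (nat_lit 11) (nat_lit 5) L829488 (by decide +kernel)
theorem L837514 : W_4 (nat_lit 2) (nat_lit 0x200010003c001a00180002000000000000000000000000000) (nat_lit 0x0) (nat_lit 0xc0000000000010000000000000000000000000000000) := D_4 (nat_lit 175) (nat_lit 174) (nat_lit 124) (nat_lit 1) (nat_lit 8) (nat_lit 9) (nat_lit 7) (nat_lit 5) (nat_lit 7) (by decide +kernel)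
theorem L837515 : W_4 (nat_lit 3) (nat_lit 0x200010003c001800180002000000000000000000000000000) (nat_lit 0x0) (nat_lit 0xc0000000300010000000000000000000000000000000) := T_4 (nat_lit 141) (nat_lit 140) (nat_lit 0) (nat_lit 8) (nat_lit 9) L837514 (by decide +kernel)
theorem L837516 : W_4 (nat_lit 4) (nat_lit 0x10003c001800180002000000000000000000000000000) (nat_lit 0x0) (nat_lit 0x400020000c0000000300010000000000000000000000000000000) := T_4 (nat_lit 193) (nat_lit 210) (nat_lit 6) (nat_lit 6) (nat_lit 12) L837515 (by decide +kernel)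
theorem L837517 : W_4 (nat_lit 5) (nat_lit 0x100038001800180002000000000000000000000000000) (nat_lit 0x0) (nat_lit 0x400020000c0006000300010000000000000000000000000000000) := T_4 (nat_lit 158) (nat_lit 157) (nat_lit 2) (nat_lit 4) (nat_lit 9) L837516 (by decide +kernel)
theorem L837518 : W_4 (nat_lit 6) (nat_lit 0x38001800180002000000000000000000000000000) (nat_lit 0x0) (nat_lit 0x400020001c0006000300050000000000000000000000000000000) := T_4 (nat_lit 176) (nat_lit 126) (nat_lit 5) (nat_lit 7) (nat_lit 6) L837517 (by decide +kernel)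
theorem L860993 : W_4 (nat_lit 2) (nat_lit 0x30003800180000000000000000000000000000000) (nat_lit 0x0) (nat_lit 0xc004000000000000000000000000000000000000) := D_4 (nat_lit 159) (nat_lit 146) (nat_lit 158) (nat_lit 1) (nat_lit 10) (nat_lit 8) (nat_lit 2) (nat_lit 5) (nat_lit 9) (by decide +kernel)
theorem L860999 : W_4 (nat_lit 2) (nat_lit 0x38001800180000000000000000000000000000000) (nat_lit 0x0) (nat_lit 0x6002000000000000000000000000000000000000) := D_4 (nat_lit 158) (nat_lit 145) (nat_lit 157) (nat_lit 2) (nat_lit 5) (nat_lit 9) (nat_lit 2) (nat_lit 4) (nat_lit 9) (by decide +kernel)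
theorem L861119 : W_4 (nat_lit 2) (nat_lit 0x4000400030001800180000000000000000000000000000000) (nat_lit 0x0) (nat_lit 0x180008000000000000000000000000000000000000000000000000) := D_4 (nat_lit 195) (nat_lit 211) (nat_lit 212) (nat_lit 5) (nat_lit 8) (nat_lit 8) (nat_lit 4) (nat_lit 8) (nat_lit 12) (by decide +kernel)
theorem L861120 : W_4 (nat_lit 3) (nat_lit 0x4000000030001800180000000000000000000000000000000) (nat_lit 0x0) (nat_lit 0x180008000400000000000000008000000000000000000000000000) := T_4 (nat_lit 178) (nat_lit 111) (nat_lit 6) (nat_lit 8) (nat_lit 10) L861119 (by decide +kernel)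
theorem L861121 : W_4 (nat_lit 4) (nat_lit 0x30001800180000000000000000000000000000000) (nat_lit 0x0) (nat_lit 0x18000c000600000000000000008000000000000000000000000000) := T_4 (nat_lit 194) (nat_lit 177) (nat_lit 6) (nat_lit 7) (nat_lit 11) L861120 (by decide +kernel)
theorem L861144 : W_4 (nat_lit 2) (nat_lit 0x10003800180008000000000000000000000000000) (nat_lit 0x0) (nat_lit 0x20000000000000000400020000000000000000000) := D_4 (nat_lit 94) (nat_lit 77) (nat_lit 161) (nat_lit 5) (nat_lit 9) (nat_lit 4) (nat_lit 5) (nat_lit 9) (nat_lit 5) (by decide +kernel)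
theorem L867839 : W_4 (nat_lit 2) (nat_lit 0x800fc001a0008000000000000000000000000000) (nat_lit 0x0) (nat_lit 0x380000000000000000000000000000000000000000) := D_4 (nat_lit 164) (nat_lit 163) (nat_lit 165) (nat_lit 3) (nat_lit 7) (nat_lit 8) (nat_lit 3) (nat_lit 8) (nat_lit 8) (by decide +kernel)
theorem L867840 : W_4 (nat_lit 3) (nat_lit 0x8007c001a0008000000000000000000000000000) (nat_lit 0x0) (nat_lit 0x380018000000000000000000000000000000000000) := T_4 (nat_lit 147) (nat_lit 148) (nat_lit 0) (nat_lit 12) (nat_lit 8) L867839 (by decide +kernel)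
theorem L867841 : W_4 (nat_lit 4) (nat_lit 0x8003c001a0008000000000000000000000000000) (nat_lit 0x0) (nat_lit 0x39001c000000000000000000000000000000000000) := T_4 (nat_lit 146) (nat_lit 160) (nat_lit 1) (nat_lit 10) (nat_lit 8) L867840 (by decide +kernel)
theorem L896900 : W_4 (nat_lit 2) (nat_lit 0x10007000080014001a000b800000000000000000000000000) (nat_lit 0x0) (nat_lit 0x20002000800000000000000000000000000000000000000000000) := D_4 (nat_lit 193) (nat_lit 179) (nat_lit 209) (nat_lit 1) (nat_lit 9) (nat_lit 10) (nat_lit 5) (nat_lit 6) (nat_lit 8) (by decide +kernel)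
theorem L896901 : W_4 (nat_lit 3) (nat_lit 0x7000080014001a000b800000000000000000000000000) (nat_lit 0x0) (nat_lit 0x20003000880000000000000000000000000000000000000000000) := T_4 (nat_lit 192) (nat_lit 175) (nat_lit 5) (nat_lit 6) (nat_lit 7) L896900 (by decide +kernel)
theorem L896902 : W_4 (nat_lit 4) (nat_lit 0x6000080014001a000b800000000000000000000000000) (nat_lit 0x0) (nat_lit 0x20007000980000000000000000000000000000000000000000000) := T_4 (nat_lit 176) (nat_lit 194) (nat_lit 7) (nat_lit 6) (nat_lit 7) L896901 (by decide +kernel)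
theorem L896960 : W_4 (nat_lit 2) (nat_lit 0x400030005000080016001a0008000000000000000000000000000) (nat_lit 0x0) (nat_lit 0x1000080004000000000000000000000000000000000000000000000000) := D_4 (nat_lit 211) (nat_lit 194) (nat_lit 228) (nat_lit 7) (nat_lit 6) (nat_lit 8) (nat_lit 7) (nat_lit 6) (nat_lit 9) (by decide +kernel)
theorem L896961 : W_4 (nat_lit 3) (nat_lit 0x30005000080016001a0008000000000000000000000000000) (nat_lit 0x0) (nat_lit 0x10000c0004000000004000000000000000000000000000000000000000) := T_4 (nat_lit 210) (nat_lit 158) (nat_lit 4) (nat_lit 6) (nat_lit 12) L896960 (by decide +kernel)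
theorem L896962 : W_4 (nat_lit 4) (nat_lit 0x10005000080016001a0008000000000000000000000000000) (nat_lit 0x0) (nat_lit 0x10000e0006000000004000000000000000000000000000000000000000) := T_4 (nat_lit 193) (nat_lit 209) (nat_lit 5) (nat_lit 6) (nat_lit 8) L896961 (by decide +kernel)
theorem L896963 : W_4 (nat_lit 5) (nat_lit 0x10005000080014001a0008000000000000000000000000000) (nat_lit 0x0) (nat_lit 0x10000e0006000000004000a00000000000000000000000000000000000) := T_4 (nat_lit 141) (nat_lit 143) (nat_lit 2) (nat_lit 5) (nat_lit 8) L896962 (by decide +kernel)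
theorem L896964 : W_4 (nat_lit 6) (nat_lit 0x5000080014001a0008000000000000000000000000000) (nat_lit 0x0) (nat_lit 0x10000e0007000080004000a00000000000000000000000000000000000) := T_4 (nat_lit 192) (nat_lit 175) (nat_lit 5) (nat_lit 6) (nat_lit 7) L896963 (by decide +kernel)
theorem L896965 : W_4 (nat_lit 7) (nat_lit 0x1000080014001a0008000000000000000000000000000) (nat_lit 0x0) (nat_lit 0x10000e0007000480024000a00000000000000000000000000000000000) := T_4 (nat_lit 178) (nat_lit 161) (nat_lit 6) (nat_lit 8) (nat_lit 10) L896964 (by decide +kernel)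
theorem L896996 : W_4 (nat_lit 2) (nat_lit 0x180017001a0009000000000000000000000000000) (nat_lit 0x0) (nat_lit 0x400024000000000000000000000000000000000000000) := D_4 (nat_lit 161) (nat_lit 178) (nat_lit 158) (nat_lit 6) (nat_lit 8) (nat_lit 10) (nat_lit 0) (nat_lit 8) (nat_lit 9) (by decide +kernel)
theorem L896997 : W_4 (nat_lit 3) (nat_lit 0x180016001a0009000000000000000000000000000) (nat_lit 0x0) (nat_lit 0x400024000180000000000000000000000000000000000) := T_4 (nat_lit 140) (nat_lit 139) (nat_lit 3) (nat_lit 3) (nat_lit 8) L896996 (by decide +kernel)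
theorem L896998 : W_4 (nat_lit 4) (nat_lit 0x80016001a0009000000000000000000000000000) (nat_lit 0x0) (nat_lit 0x600034000180000000000000000000000000000000000) := T_4 (nat_lit 160) (nat_lit 177) (nat_lit 7) (nat_lit 6) (nat_lit 6) L896997 (by decide +kernel)
theorem L896999 : W_4 (nat_lit 5) (nat_lit 0x80014001a0009000000000000000000000000000) (nat_lit 0x0) (nat_lit 0x600034000b80000000000000000000000000000000000) := T_4 (nat_lit 141) (nat_lit 143) (nat_lit 2) (nat_lit 5) (nat_lit 8) L896998 (by decide +kernel)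
theorem L897041 : W_4 (nat_lit 5) (nat_lit 0x8001c001a0008000000000000000000000000000) (nat_lit 0x0) (nat_lit 0x39401e000000000000000000000000000000000000) := T_4 (nat_lit 145) (nat_lit 158) (nat_lit 1) (nat_lit 9) (nat_lit 8) L867841 (by decide +kernel)
theorem L897042 : W_4 (nat_lit 6) (nat_lit 0x80014001a0008000000000000000000000000000) (nat_lit 0x0) (nat_lit 0x39401ea00000000000000000000000000000000000) := T_4 (nat_lit 143) (nat_lit 141) (nat_lit 2) (nat_lit 5) (nat_lit 8) L897041 (by decide +kernel)
theorem L897107 : W_4 (nat_lit 2) (nat_lit 0x180014001a0009800000000000000000000000000) (nat_lit 0x0) (nat_lit 0xa00000000000080000000000000000000000) := D_4 (nat_lit 143) (nat_lit 91) (nat_lit 141) (nat_lit 7) (nat_lit 6) (nat_lit 5) (nat_lit 2) (nat_lit 5) (nat_lit 8) (by decide +kernel)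
theorem L897108 : W_4 (nat_lit 3) (nat_lit 0x80014001a0009800000000000000000000000000) (nat_lit 0x0) (nat_lit 0x200010000a00000000000080000000000000000000000) := T_4 (nat_lit 160) (nat_lit 177) (nat_lit 7) (nat_lit 6) (nat_lit 6) L897107 (by decide +kernel)
theorem L897109 : W_4 (nat_lit 4) (nat_lit 0x80014001a0009000000000000000000000000000) (nat_lit 0x0) (nat_lit 0x200010000a000000008000c0000000000000000000000) := T_4 (nat_lit 107) (nat_lit 90) (nat_lit 4) (nat_lit 6) (nat_lit 9) L897108 (by decide +kernel)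
theorem L897149 : W_4 (nat_lit 2) (nat_lit 0x40002000080014001a0008000000000000000000000000000) (nat_lit 0x0) (nat_lit 0x80000000000010000800000000000000000000000000000000000) := D_4 (nat_lit 160) (nat_lit 143) (nat_lit 211) (nat_lit 6) (nat_lit 7) (nat_lit 11) (nat_lit 4) (nat_lit 7) (nat_lit 12) (by decide +kernel)
theorem L897150 : W_4 (nat_lit 3) (nat_lit 0x2000080014001a0008000000000000000000000000000) (nat_lit 0x0) (nat_lit 0x80004000100010000800000000000000000000000000000000000) := T_4 (nat_lit 194) (nat_lit 176) (nat_lit 7) (nat_lit 6) (nat_lit 7) L897149 (by decide +kernel)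
theorem L900099 : W_4 (nat_lit 2) (nat_lit 0x80034001a0008000000000000000000000000000) (nat_lit 0x0) (nat_lit 0x4000800010000000000000000000000000000000) := D_4 (nat_lit 143) (nat_lit 124) (nat_lit 158) (nat_lit 0) (nat_lit 9) (nat_lit 8) (nat_lit 1) (nat_lit 9) (nat_lit 8) (by decide +kernel)
theorem L910214 : W_4 (nat_lit 5) (nat_lit 0x10001c0000000700000000000000000000000) (nat_lit 0x0) (nat_lit 0x700018801fe000000000000000000) := Q_4 (nat_lit 95) (C_4 L645986 (C_4 L645983 (C_4 L645976 N_4))) (by decide +kernel)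
theorem L910215 : W_4 (nat_lit 5) (nat_lit 0x10001c0000000700000000000000000000000) (nat_lit 0x0) (nat_lit 0x1c008c00ff000000000000000000) := Q_4 (nat_lit 91) (C_4 L645741 (C_4 L645982 (C_4 L645706 (C_4 L645718 N_4)))) (by decide +kernel)
theorem L982745 : W_4 (nat_lit 2) (nat_lit 0x2000300018003c0002000000000000000000000000000) (nat_lit 0x0) (nat_lit 0x2000100008000000000000000000000000000000000000000) := D_4 (nat_lit 176) (nat_lit 159) (nat_lit 193) (nat_lit 5) (nat_lit 7) (nat_lit 6) (nat_lit 5) (nat_lit 7) (nat_lit 7) (by decide +kernel)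
theorem L982746 : W_4 (nat_lit 3) (nat_lit 0x300018003c0002000000000000000000000000000) (nat_lit 0x0) (nat_lit 0x6000300008000000000000000000000000000000000000000) := T_4 (nat_lit 177) (nat_lit 194) (nat_lit 6) (nat_lit 7) (nat_lit 11) L982745 (by decide +kernel)
theorem L982747 : W_4 (nat_lit 4) (nat_lit 0x300018003c0000000000000000000000000000000) (nat_lit 0x0) (nat_lit 0x6000300008000000000002000100000000000000000000000) := T_4 (nat_lit 109) (nat_lit 92) (nat_lit 7) (nat_lit 7) (nat_lit 5) L982746 (by decide +kernel)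
theorem L987979 : W_4 (nat_lit 2) (nat_lit 0x58002c0000000000000000000000000000000) (nat_lit 0x0) (nat_lit 0x8000500000000000000000000000000000000) := D_4 (nat_lit 128) (nat_lit 130) (nat_lit 147) (nat_lit 1) (nat_lit 11) (nat_lit 7) (nat_lit 3) (nat_lit 7) (nat_lit 7) (by decide +kernel)
theorem L988082 : W_4 (nat_lit 2) (nat_lit 0x1800058002c0010000800000000000000000000000) (nat_lit 0x0) (nat_lit 0x20001000080000000000000000000) := D_4 (nat_lit 96) (nat_lit 79) (nat_lit 113) (nat_lit 6) (nat_lit 10) (nat_lit 8) (nat_lit 6) (nat_lit 10) (nat_lit 9) (by decide +kernel)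
theorem L988083 : W_4 (nat_lit 3) (nat_lit 0x1800058002c0010000000000000000000000000000) (nat_lit 0x0) (nat_lit 0x8000000020001800080000000000000000000) := T_4 (nat_lit 95) (nat_lit 147) (nat_lit 7) (nat_lit 10) (nat_lit 5) L988082 (by decide +kernel)
theorem L988084 : W_4 (nat_lit 4) (nat_lit 0x800058002c0010000000000000000000000000000) (nat_lit 0x0) (nat_lit 0x2000100008000000020001800080000000000000000000) := T_4 (nat_lit 164) (nat_lit 181) (nat_lit 7) (nat_lit 10) (nat_lit 6) L988083 (by decide +kernel)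
theorem L998593 : W_4 (nat_lit 2) (nat_lit 0x4000100038000c0003000000000000000000000000000) (nat_lit 0x0) (nat_lit 0xc000200000000000000000000000000000000000000000000) := D_4 (nat_lit 177) (nat_lit 194) (nat_lit 195) (nat_lit 6) (nat_lit 7) (nat_lit 11) (nat_lit 7) (nat_lit 7) (nat_lit 7) (by decide +kernel)
theorem L998616 : W_4 (nat_lit 2) (nat_lit 0x1a000d0002000000000000000000000000000) (nat_lit 0x0) (nat_lit 0x500008000000000000000000000000000000) := D_4 (nat_lit 142) (nat_lit 123) (nat_lit 140) (nat_lit 0) (nat_lit 8) (nat_lit 8) (nat_lit 2) (nat_lit 4) (nat_lit 8) (by decide +kernel)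
theorem L998617 : W_4 (nat_lit 2) (nat_lit 0x400010001a000d0002000000000000000000000000000) (nat_lit 0x0) (nat_lit 0xc000200000000000000000000000000000000000000000000) := D_4 (nat_lit 177) (nat_lit 195) (nat_lit 194) (nat_lit 7) (nat_lit 7) (nat_lit 7) (nat_lit 6) (nat_lit 7) (nat_lit 11) (by decide +kernel)
theorem L998618 : W_4 (nat_lit 3) (nat_lit 0x10001a000d0002000000000000000000000000000) (nat_lit 0x0) (nat_lit 0xc000600020000000000000000000000000000000000000000) := T_4 (nat_lit 178) (nat_lit 161) (nat_lit 7) (nat_lit 7) (nat_lit 6) L998617 (by decide +kernel)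
theorem L999486 : W_4 (nat_lit 2) (nat_lit 0x400000001a000d0002000000000000000000000000000) (nat_lit 0x0) (nat_lit 0x400028000000000000000000000000000000) := D_4 (nat_lit 123) (nat_lit 125) (nat_lit 142) (nat_lit 3) (nat_lit 4) (nat_lit 7) (nat_lit 0) (nat_lit 8) (nat_lit 8) (by decide +kernel)
theorem L999487 : W_4 (nat_lit 2) (nat_lit 0x400000001a000d0002000000000000000000000000000) (nat_lit 0x0) (nat_lit 0x100028000000000000000000000000000000) := D_4 (nat_lit 125) (nat_lit 123) (nat_lit 140) (nat_lit 3) (nat_lit 4) (nat_lit 7) (nat_lit 1) (nat_lit 8) (nat_lit 7) (by decide +kernel)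
theorem L999488 : W_4 (nat_lit 2) (nat_lit 0x400000001a000d0002000000000000000000000000000) (nat_lit 0x0) (nat_lit 0x500008000000000000000000000000000000) := D_4 (nat_lit 142) (nat_lit 123) (nat_lit 140) (nat_lit 0) (nat_lit 8) (nat_lit 8) (nat_lit 2) (nat_lit 4) (nat_lit 8) (by decide +kernel)
theorem L999489 : W_4 (nat_lit 2) (nat_lit 0x400000001a000d0002000000000000000000000000000) (nat_lit 0x0) (nat_lit 0x500020000000000000000000000000000000) := D_4 (nat_lit 140) (nat_lit 125) (nat_lit 142) (nat_lit 1) (nat_lit 8) (nat_lit 7) (nat_lit 2) (nat_lit 4) (nat_lit 8) (by decide +kernel)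
theorem L1002058 : W_4 (nat_lit 2) (nat_lit 0x300018000c0003000000000000000000000000000) (nat_lit 0x0) (nat_lit 0x4000200000000000020000000000000000000000000000000) := D_4 (nat_lit 177) (nat_lit 125) (nat_lit 194) (nat_lit 4) (nat_lit 7) (nat_lit 10) (nat_lit 6) (nat_lit 7) (nat_lit 11) (by decide +kernel)
theorem L1027571 : W_4 (nat_lit 2) (nat_lit 0x1c001a001c000a000000000000000000000000000) (nat_lit 0x0) (nat_lit 0x400020000100000000000000000000000000000000000) := D_4 (nat_lit 161) (nat_lit 178) (nat_lit 140) (nat_lit 7) (nat_lit 7) (nat_lit 6) (nat_lit 0) (nat_lit 8) (nat_lit 9) (by decide +kernel)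
theorem L1027572 : W_4 (nat_lit 3) (nat_lit 0x18001a001c000a000000000000000000000000000) (nat_lit 0x0) (nat_lit 0x400026000100000000000000000000000000000000000) := T_4 (nat_lit 158) (nat_lit 157) (nat_lit 2) (nat_lit 4) (nat_lit 9) L1027571 (by decide +kernel)
theorem L1027573 : W_4 (nat_lit 4) (nat_lit 0x10001a001c000a000000000000000000000000000) (nat_lit 0x0) (nat_lit 0x50002e000100000000000000000000000000000000000) := T_4 (nat_lit 159) (nat_lit 176) (nat_lit 5) (nat_lit 7) (nat_lit 6) L1027572 (by decide +kernel)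
theorem L1027574 : W_4 (nat_lit 5) (nat_lit 0x100018001c000a000000000000000000000000000) (nat_lit 0x0) (nat_lit 0x50002e000700000000000000000000000000000000000) := T_4 (nat_lit 141) (nat_lit 142) (nat_lit 2) (nat_lit 5) (nat_lit 8) L1027573 (by decide +kernel)
theorem L1028841 : W_4 (nat_lit 2) (nat_lit 0x10007800180000000000000000000000000000000) (nat_lit 0x0) (nat_lit 0x20018000000000000000000000000000000000000) := D_4 (nat_lit 147) (nat_lit 148) (nat_lit 161) (nat_lit 0) (nat_lit 12) (nat_lit 8) (nat_lit 1) (nat_lit 11) (nat_lit 8) (by decide +kernel)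
theorem L1028842 : W_4 (nat_lit 3) (nat_lit 0x10003800180000000000000000000000000000000) (nat_lit 0x0) (nat_lit 0x2801c000000000000000000000000000000000000) := T_4 (nat_lit 146) (nat_lit 159) (nat_lit 1) (nat_lit 10) (nat_lit 8) L1028841 (by decide +kernel)
theorem L1028847 : W_4 (nat_lit 2) (nat_lit 0x10003800180008000000000000000000000000000) (nat_lit 0x0) (nat_lit 0x400020000000000000000400000000000000000000000) := D_4 (nat_lit 161) (nat_lit 178) (nat_lit 94) (nat_lit 6) (nat_lit 8) (nat_lit 10) (nat_lit 5) (nat_lit 9) (nat_lit 5) (by decide +kernel)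
theorem L1029394 : W_4 (nat_lit 3) (nat_lit 0x1800180008000000000000000000000000000) (nat_lit 0x0) (nat_lit 0x400020002000000000000400020000000000000000000) := T_4 (nat_lit 161) (nat_lit 178) (nat_lit 6) (nat_lit 8) (nat_lit 10) L837424 (by decide +kernel)
theorem L1034628 : W_4 (nat_lit 3) (nat_lit 0x100038000c0003000000000000000000000000000) (nat_lit 0x0) (nat_lit 0xc000600020000000000000000000000000000000000000000) := T_4 (nat_lit 178) (nat_lit 161) (nat_lit 7) (nat_lit 7) (nat_lit 6) L998593 (by decide +kernel)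
theorem L1034629 : W_4 (nat_lit 2) (nat_lit 0x100038000c0003000000000000000000000000000) (nat_lit 0x0) (nat_lit 0x4000200000000000020000000000000000000000000000000) := D_4 (nat_lit 177) (nat_lit 194) (nat_lit 125) (nat_lit 6) (nat_lit 7) (nat_lit 11) (nat_lit 4) (nat_lit 7) (nat_lit 10) (by decide +kernel)
theorem L1034814 : W_4 (nat_lit 2) (nat_lit 0x200010001a000c0002000000000000000000000000000) (nat_lit 0x0) (nat_lit 0x8000400020000000000000000000000000000000000000000) := D_4 (nat_lit 178) (nat_lit 161) (nat_lit 195) (nat_lit 7) (nat_lit 7) (nat_lit 6) (nat_lit 7) (nat_lit 7) (nat_lit 7) (by decide +kernel)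
theorem L1034815 : W_4 (nat_lit 3) (nat_lit 0x10001a000c0002000000000000000000000000000) (nat_lit 0x0) (nat_lit 0xc000600020000000000000000000000000000000000000000) := T_4 (nat_lit 177) (nat_lit 194) (nat_lit 6) (nat_lit 7) (nat_lit 11) L1034814 (by decide +kernel)
theorem L1036492 : W_4 (nat_lit 2) (nat_lit 0x4000000012001b000d0003800000000000000000000000000) (nat_lit 0x0) (nat_lit 0x800040004000000000000000000000000000000000000000) := D_4 (nat_lit 174) (nat_lit 158) (nat_lit 191) (nat_lit 5) (nat_lit 5) (nat_lit 6) (nat_lit 6) (nat_lit 4) (nat_lit 11) (by decide +kernel)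
theorem L1036493 : W_4 (nat_lit 3) (nat_lit 0x4000000010001b000d0003800000000000000000000000000) (nat_lit 0x0) (nat_lit 0x800040006000000000000000040000000000000000000000) := T_4 (nat_lit 157) (nat_lit 90) (nat_lit 5) (nat_lit 5) (nat_lit 5) L1036492 (by decide +kernel)
theorem L1036494 : W_4 (nat_lit 4) (nat_lit 0x4000000010001a000d0003800000000000000000000000000) (nat_lit 0x0) (nat_lit 0x800040006000500000000000040000000000000000000000) := T_4 (nat_lit 140) (nat_lit 142) (nat_lit 2) (nat_lit 4) (nat_lit 8) L1036493 (by decide +kernel)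
theorem L1036495 : W_4 (nat_lit 5) (nat_lit 0x4000000010001a000d0003000000000000000000000000000) (nat_lit 0x0) (nat_lit 0x800040006000500000000c00040000000000000000000000) := T_4 (nat_lit 107) (nat_lit 106) (nat_lit 3) (nat_lit 4) (nat_lit 6) L1036494 (by decide +kernel)
theorem L1036496 : W_4 (nat_lit 6) (nat_lit 0x4000000010001a000d0002000000000000000000000000000) (nat_lit 0x0) (nat_lit 0x800040006000500000001c000c0000000000000000000000) := T_4 (nat_lit 108) (nat_lit 91) (nat_lit 4) (nat_lit 7) (nat_lit 9) L1036495 (by decide +kernel)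
theorem L1036497 : W_4 (nat_lit 7) (nat_lit 0x10001a000d0002000000000000000000000000000) (nat_lit 0x0) (nat_lit 0x4800240006000500000001c000c0000000000000000000000) := T_4 (nat_lit 194) (nat_lit 177) (nat_lit 6) (nat_lit 7) (nat_lit 11) L1036496 (by decide +kernel)
theorem L1036498 : W_4 (nat_lit 2) (nat_lit 0x400012001b000d0003800000000000000000000000000) (nat_lit 0x0) (nat_lit 0x800040004000000000000000000000000000000000000000) := D_4 (nat_lit 174) (nat_lit 158) (nat_lit 191) (nat_lit 5) (nat_lit 5) (nat_lit 6) (nat_lit 6) (nat_lit 4) (nat_lit 11) (by decide +kernel)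
theorem L1036499 : W_4 (nat_lit 3) (nat_lit 0x400010001b000d0003800000000000000000000000000) (nat_lit 0x0) (nat_lit 0x800040006000000000000000040000000000000000000000) := T_4 (nat_lit 157) (nat_lit 90) (nat_lit 5) (nat_lit 5) (nat_lit 5) L1036498 (by decide +kernel)
theorem L1036500 : W_4 (nat_lit 4) (nat_lit 0x400010001b000d0003000000000000000000000000000) (nat_lit 0x0) (nat_lit 0x800040006000000000000c00040000000000000000000000) := T_4 (nat_lit 107) (nat_lit 106) (nat_lit 3) (nat_lit 4) (nat_lit 6) L1036499 (by decide +kernel)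
theorem L1036501 : W_4 (nat_lit 5) (nat_lit 0x400010001b000d0002000000000000000000000000000) (nat_lit 0x0) (nat_lit 0x800040006000000000001c000c0000000000000000000000) := T_4 (nat_lit 108) (nat_lit 91) (nat_lit 4) (nat_lit 7) (nat_lit 9) L1036500 (by decide +kernel)
theorem L1036502 : W_4 (nat_lit 6) (nat_lit 0x10001b000d0002000000000000000000000000000) (nat_lit 0x0) (nat_lit 0x800440026000000000001c000c0000000000000000000000) := T_4 (nat_lit 178) (nat_lit 161) (nat_lit 7) (nat_lit 7) (nat_lit 6) L1036501 (by decide +kernel)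
theorem L1036503 : W_4 (nat_lit 7) (nat_lit 0x10001a000d0002000000000000000000000000000) (nat_lit 0x0) (nat_lit 0x800440026000500000001c000c0000000000000000000000) := T_4 (nat_lit 140) (nat_lit 142) (nat_lit 2) (nat_lit 4) (nat_lit 8) L1036502 (by decide +kernel)
theorem L1036504 : W_4 (nat_lit 8) (nat_lit 0x1a000d0002000000000000000000000000000) (nat_lit 0x0) (nat_lit 0xc800640036000500000001c000c0000000000000000000000) := Q_4 (nat_lit 160) (C_4 L998618 (C_4 L1036497 (C_4 L1036503 N_4))) (by decide +kernel)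
theorem L1040471 : W_4 (nat_lit 2) (nat_lit 0x58002c0000000000000000000000000000000) (nat_lit 0x0) (nat_lit 0xa000100000000000000000000000000000000) := D_4 (nat_lit 147) (nat_lit 145) (nat_lit 128) (nat_lit 0) (nat_lit 11) (nat_lit 8) (nat_lit 3) (nat_lit 7) (nat_lit 7) (by decide +kernel)
theorem L1040472 : W_4 (nat_lit 2) (nat_lit 0x58002c0000000000000000000000000000000) (nat_lit 0x0) (nat_lit 0x2000500000000000000000000000000000000) := D_4 (nat_lit 130) (nat_lit 145) (nat_lit 128) (nat_lit 2) (nat_lit 7) (nat_lit 8) (nat_lit 1) (nat_lit 11) (nat_lit 7) (by decide +kernel)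
theorem L1041036 : W_4 (nat_lit 7) (nat_lit 0x38000c0002000000000000000000000000000) (nat_lit 0x0) (nat_lit 0x1000c000000001c0078001c000000000000000000) := T_4 (nat_lit 147) (nat_lit 146) (nat_lit 0) (nat_lit 11) (nat_lit 8) L717326 (by decide +kernel)
theorem L1045844 : W_4 (nat_lit 2) (nat_lit 0x400000003c001e0009000000000000000000000000000) (nat_lit 0x0) (nat_lit 0x200010000000000000000080000000000000000000000) := D_4 (nat_lit 160) (nat_lit 177) (nat_lit 91) (nat_lit 4) (nat_lit 7) (nat_lit 10) (nat_lit 7) (nat_lit 6) (nat_lit 5) (by decide +kernel)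
theorem L1045845 : W_4 (nat_lit 3) (nat_lit 0x400000003c001e0008000000000000000000000000000) (nat_lit 0x0) (nat_lit 0x200010000000000001800080000000000000000000000) := T_4 (nat_lit 108) (nat_lit 107) (nat_lit 0) (nat_lit 9) (nat_lit 7) L1045844 (by decide +kernel)
theorem L1048694 : W_4 (nat_lit 4) (nat_lit 0x300018000c0004000000000000000000000000000) (nat_lit 0x0) (nat_lit 0x100003c00180000000000000000000000) := T_4 (nat_lit 109) (nat_lit 92) (nat_lit 7) (nat_lit 7) (nat_lit 5) L1048693 (by decide +kernel)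
theorem L1048695 : W_4 (nat_lit 5) (nat_lit 0x200018000c0004000000000000000000000000000) (nat_lit 0x0) (nat_lit 0x200010000000100003c00180000000000000000000000) := T_4 (nat_lit 160) (nat_lit 177) (nat_lit 6) (nat_lit 7) (nat_lit 10) L1048694 (by decide +kernel)
theorem L1048697 : W_4 (nat_lit 2) (nat_lit 0x20001c000c0004000000000000000000000000000) (nat_lit 0x0) (nat_lit 0x300100000000000000000000000000000000) := D_4 (nat_lit 141) (nat_lit 128) (nat_lit 140) (nat_lit 2) (nat_lit 5) (nat_lit 8) (nat_lit 2) (nat_lit 4) (nat_lit 8) (by decide +kernel)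
theorem L1048709 : W_4 (nat_lit 2) (nat_lit 0x20001e000f0004800000000000000000000000000) (nat_lit 0x0) (nat_lit 0x100008000000000000000040000000000000000000000) := D_4 (nat_lit 159) (nat_lit 176) (nat_lit 90) (nat_lit 4) (nat_lit 6) (nat_lit 10) (nat_lit 7) (nat_lit 5) (nat_lit 5) (by decide +kernel)
theorem L1048710 : W_4 (nat_lit 3) (nat_lit 0x20001e000f0004000000000000000000000000000) (nat_lit 0x0) (nat_lit 0x100008000000000000c00040000000000000000000000) := T_4 (nat_lit 107) (nat_lit 106) (nat_lit 0) (nat_lit 8) (nat_lit 7) L1048709 (by decide +kernel)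
theorem L1048711 : W_4 (nat_lit 4) (nat_lit 0x20001c000f0004000000000000000000000000000) (nat_lit 0x0) (nat_lit 0x100008000300000000c00040000000000000000000000) := T_4 (nat_lit 141) (nat_lit 140) (nat_lit 2) (nat_lit 4) (nat_lit 8) L1048710 (by decide +kernel)
theorem L1048712 : W_4 (nat_lit 5) (nat_lit 0x20001c000e0004000000000000000000000000000) (nat_lit 0x0) (nat_lit 0x100008000300018000c00040000000000000000000000) := T_4 (nat_lit 124) (nat_lit 123) (nat_lit 3) (nat_lit 4) (nat_lit 7) L1048711 (by decide +kernel)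
theorem L1048713 : W_4 (nat_lit 2) (nat_lit 0x24001e000f0004000000000000000000000000000) (nat_lit 0x0) (nat_lit 0x80000000000000001000080000000000000000000000) := D_4 (nat_lit 108) (nat_lit 91) (nat_lit 175) (nat_lit 5) (nat_lit 6) (nat_lit 5) (nat_lit 6) (nat_lit 5) (nat_lit 10) (by decide +kernel)
theorem L1048714 : W_4 (nat_lit 3) (nat_lit 0x20001e000f0004000000000000000000000000000) (nat_lit 0x0) (nat_lit 0x80006000000000001000080000000000000000000000) := T_4 (nat_lit 158) (nat_lit 157) (nat_lit 1) (nat_lit 8) (nat_lit 8) L1048713 (by decide +kernel)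
theorem L1048715 : W_4 (nat_lit 4) (nat_lit 0x20001e000e0004000000000000000000000000000) (nat_lit 0x0) (nat_lit 0x80006000000018001000080000000000000000000000) := T_4 (nat_lit 124) (nat_lit 123) (nat_lit 3) (nat_lit 4) (nat_lit 7) L1048714 (by decide +kernel)
theorem L1048716 : W_4 (nat_lit 5) (nat_lit 0x20001c000e0004000000000000000000000000000) (nat_lit 0x0) (nat_lit 0x80006000300018001000080000000000000000000000) := T_4 (nat_lit 141) (nat_lit 140) (nat_lit 2) (nat_lit 4) (nat_lit 8) L1048715 (by decide +kernel)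
theorem L1048737 : W_4 (nat_lit 2) (nat_lit 0x200018001c0004000000000000000000000000000) (nat_lit 0x0) (nat_lit 0x400600000000000000000000000000000000) := D_4 (nat_lit 129) (nat_lit 142) (nat_lit 130) (nat_lit 1) (nat_lit 10) (nat_lit 7) (nat_lit 1) (nat_lit 11) (nat_lit 7) (by decide +kernel)
theorem L1048738 : W_4 (nat_lit 2) (nat_lit 0x200018001c0006000000000000000000000000000) (nat_lit 0x0) (nat_lit 0x600001000000000000000000000000000) := D_4 (nat_lit 129) (nat_lit 130) (nat_lit 108) (nat_lit 1) (nat_lit 11) (nat_lit 7) (nat_lit 0) (nat_lit 10) (nat_lit 7) (by decide +kernel)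
theorem L1048739 : W_4 (nat_lit 3) (nat_lit 0x200018001c0004000000000000000000000000000) (nat_lit 0x0) (nat_lit 0x600003000100000000000000000000000) := T_4 (nat_lit 109) (nat_lit 92) (nat_lit 7) (nat_lit 7) (nat_lit 5) L1048738 (by decide +kernel)
theorem L1048740 : W_4 (nat_lit 2) (nat_lit 0x20001a001e0004000000000000000000000000000) (nat_lit 0x0) (nat_lit 0x100018000000000000000000000000000000) := D_4 (nat_lit 124) (nat_lit 140) (nat_lit 123) (nat_lit 1) (nat_lit 8) (nat_lit 7) (nat_lit 3) (nat_lit 4) (nat_lit 7) (by decide +kernel)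
theorem L1048741 : W_4 (nat_lit 3) (nat_lit 0x200018001e0004000000000000000000000000000) (nat_lit 0x0) (nat_lit 0x700018000000000000000000000000000000) := T_4 (nat_lit 141) (nat_lit 142) (nat_lit 2) (nat_lit 5) (nat_lit 8) L1048740 (by decide +kernel)
theorem L1048742 : W_4 (nat_lit 2) (nat_lit 0x200018001e0004800000000000000000000000000) (nat_lit 0x0) (nat_lit 0x18000400000000000000000000000000) := D_4 (nat_lit 124) (nat_lit 123) (nat_lit 106) (nat_lit 3) (nat_lit 4) (nat_lit 7) (nat_lit 0) (nat_lit 8) (nat_lit 7) (by decide +kernel)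
theorem L1048743 : W_4 (nat_lit 3) (nat_lit 0x200018001e0004000000000000000000000000000) (nat_lit 0x0) (nat_lit 0x18001c00000000000000000000000000) := T_4 (nat_lit 107) (nat_lit 108) (nat_lit 0) (nat_lit 9) (nat_lit 7) L1048742 (by decide +kernel)
theorem L1048744 : W_4 (nat_lit 2) (nat_lit 0x20001c001e0005000100000000000000000000000) (nat_lit 0x0) (nat_lit 0x8000c000000000000000000) := D_4 (nat_lit 91) (nat_lit 74) (nat_lit 75) (nat_lit 7) (nat_lit 6) (nat_lit 4) (nat_lit 6) (nat_lit 6) (nat_lit 8) (by decide +kernel)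
theorem L1048745 : W_4 (nat_lit 3) (nat_lit 0x200018001e0005000100000000000000000000000) (nat_lit 0x0) (nat_lit 0x60000000000008000c000000000000000000) := T_4 (nat_lit 142) (nat_lit 141) (nat_lit 2) (nat_lit 5) (nat_lit 8) L1048744 (by decide +kernel)
theorem L1048746 : W_4 (nat_lit 4) (nat_lit 0x200018001e0004000100000000000000000000000) (nat_lit 0x0) (nat_lit 0x60000000180008000c000000000000000000) := T_4 (nat_lit 108) (nat_lit 107) (nat_lit 0) (nat_lit 9) (nat_lit 7) L1048745 (by decide +kernel)
theorem L1048747 : W_4 (nat_lit 5) (nat_lit 0x200018001e0004000000000000000000000000000) (nat_lit 0x0) (nat_lit 0x60000000380018000c000000000000000000) := T_4 (nat_lit 92) (nat_lit 109) (nat_lit 7) (nat_lit 7) (nat_lit 5) L1048746 (by decide +kernel)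
theorem L1048748 : W_4 (nat_lit 6) (nat_lit 0x200018001c0004000000000000000000000000000) (nat_lit 0x0) (nat_lit 0x700038003c0018000c000000000000000000) := Q_4 (nat_lit 125) (C_4 L1048741 (C_4 L1048743 (C_4 L1048747 N_4))) (by decide +kernel)
theorem L1048749 : W_4 (nat_lit 7) (nat_lit 0x200018000c0004000000000000000000000000000) (nat_lit 0x0) (nat_lit 0x700738003c0018000c000000000000000000) := Q_4 (nat_lit 128) (C_4 L1048737 (C_4 L1048739 (C_4 L1048748 N_4))) (by decide +kernel)
theorem L1048750 : W_4 (nat_lit 2) (nat_lit 0x8003c001a000c0007400000000000000000000000000) (nat_lit 0x0) (nat_lit 0x400030000000000000000000000000000000) := D_4 (nat_lit 125) (nat_lit 142) (nat_lit 124) (nat_lit 5) (nat_lit 6) (nat_lit 6) (nat_lit 6) (nat_lit 5) (nat_lit 10) (by decide +kernel)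
theorem L1048751 : W_4 (nat_lit 3) (nat_lit 0x8003c0018000c0007400000000000000000000000000) (nat_lit 0x0) (nat_lit 0x700030000000000000000000000000000000) := T_4 (nat_lit 141) (nat_lit 140) (nat_lit 0) (nat_lit 8) (nat_lit 9) L1048750 (by decide +kernel)
theorem L1048752 : W_4 (nat_lit 4) (nat_lit 0x3c0018000c0007400000000000000000000000000) (nat_lit 0x0) (nat_lit 0xc0000000700030000000000000000000000000000000) := T_4 (nat_lit 175) (nat_lit 174) (nat_lit 1) (nat_lit 8) (nat_lit 9) L1048751 (by decide +kernel)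
theorem L1048753 : W_4 (nat_lit 5) (nat_lit 0x380018000c0007400000000000000000000000000) (nat_lit 0x0) (nat_lit 0xc0006000700030000000000000000000000000000000) := T_4 (nat_lit 158) (nat_lit 157) (nat_lit 2) (nat_lit 4) (nat_lit 9) L1048752 (by decide +kernel)
theorem L1048754 : W_4 (nat_lit 6) (nat_lit 0x300018000c0007400000000000000000000000000) (nat_lit 0x0) (nat_lit 0x1c000e000700030000000000000000000000000000000) := T_4 (nat_lit 159) (nat_lit 176) (nat_lit 5) (nat_lit 7) (nat_lit 6) L1048753 (by decide +kernel)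
theorem L1048755 : W_4 (nat_lit 7) (nat_lit 0x300018000c0007000000000000000000000000000) (nat_lit 0x0) (nat_lit 0x1c000e000700030000c00000000000000000000000000) := T_4 (nat_lit 106) (nat_lit 107) (nat_lit 3) (nat_lit 4) (nat_lit 6) L1048754 (by decide +kernel)
theorem L1048756 : W_4 (nat_lit 8) (nat_lit 0x300018000c0006000000000000000000000000000) (nat_lit 0x0) (nat_lit 0x1c000e000700030001c00080000000000000000000000) := T_4 (nat_lit 108) (nat_lit 91) (nat_lit 4) (nat_lit 7) (nat_lit 9) L1048755 (by decide +kernel)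
theorem L1048757 : W_4 (nat_lit 9) (nat_lit 0x200018000c0006000000000000000000000000000) (nat_lit 0x0) (nat_lit 0x3c001e000700030001c00080000000000000000000000) := T_4 (nat_lit 160) (nat_lit 177) (nat_lit 6) (nat_lit 7) (nat_lit 10) L1048756 (by decide +kernel)
theorem L1048758 : W_4 (nat_lit 10) (nat_lit 0x200018000c0004000000000000000000000000000) (nat_lit 0x0) (nat_lit 0x3c001e000700030003c00180000000000000000000000) := T_4 (nat_lit 109) (nat_lit 92) (nat_lit 7) (nat_lit 7) (nat_lit 5) L1048757 (by decide +kernel)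
theorem L1048765 : W_4 (nat_lit 8) (nat_lit 0x300018000c0004000000000000000000000000000) (nat_lit 0x0) (nat_lit 0x200010001c000e000700120002000100000000000000000000000) := T_4 (nat_lit 109) (nat_lit 92) (nat_lit 7) (nat_lit 7) (nat_lit 5) L1048764 (by decide +kernel)
theorem L1048766 : W_4 (nat_lit 9) (nat_lit 0x200018000c0004000000000000000000000000000) (nat_lit 0x0) (nat_lit 0x200010003c001e000700120002000100000000000000000000000) := T_4 (nat_lit 160) (nat_lit 177) (nat_lit 6) (nat_lit 7) (nat_lit 10) L1048765 (by decide +kernel)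
theorem L1048767 : W_4 (nat_lit 2) (nat_lit 0x100028001c002c0004000000000000000000000000000) (nat_lit 0x0) (nat_lit 0x200010000000000002000000000000000000000000000) := D_4 (nat_lit 160) (nat_lit 177) (nat_lit 109) (nat_lit 6) (nat_lit 7) (nat_lit 10) (nat_lit 5) (nat_lit 7) (nat_lit 6) (by decide +kernel)
theorem L1048768 : W_4 (nat_lit 3) (nat_lit 0x28001c002c0004000000000000000000000000000) (nat_lit 0x0) (nat_lit 0x2000300010000000000002000000000000000000000000000) := T_4 (nat_lit 176) (nat_lit 193) (nat_lit 6) (nat_lit 6) (nat_lit 11) L1048767 (by decide +kernel)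
theorem L1048769 : W_4 (nat_lit 4) (nat_lit 0x28001c000c0004000000000000000000000000000) (nat_lit 0x0) (nat_lit 0x2000300010000000300002000000000000000000000000000) := T_4 (nat_lit 129) (nat_lit 128) (nat_lit 1) (nat_lit 10) (nat_lit 7) L1048768 (by decide +kernel)
theorem L1048770 : W_4 (nat_lit 2) (nat_lit 0x300028001c002e0004000000000000000000000000000) (nat_lit 0x0) (nat_lit 0x18000800000000000000000000000000) := D_4 (nat_lit 124) (nat_lit 123) (nat_lit 107) (nat_lit 3) (nat_lit 4) (nat_lit 7) (nat_lit 4) (nat_lit 6) (nat_lit 10) (by decide +kernel)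
theorem L1048771 : W_4 (nat_lit 3) (nat_lit 0x300028001c002c0004000000000000000000000000000) (nat_lit 0x0) (nat_lit 0x4000000000000000038000800000000000000000000000000) := T_4 (nat_lit 125) (nat_lit 194) (nat_lit 7) (nat_lit 6) (nat_lit 7) L1048770 (by decide +kernel)
theorem L1048772 : W_4 (nat_lit 4) (nat_lit 0x300028001c000c0004000000000000000000000000000) (nat_lit 0x0) (nat_lit 0x4000000000000000338000800000000000000000000000000) := T_4 (nat_lit 129) (nat_lit 128) (nat_lit 1) (nat_lit 10) (nat_lit 7) L1048771 (by decide +kernel)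
theorem L1048773 : W_4 (nat_lit 5) (nat_lit 0x200028001c000c0004000000000000000000000000000) (nat_lit 0x0) (nat_lit 0x6000100000000000338000800000000000000000000000000) := T_4 (nat_lit 176) (nat_lit 193) (nat_lit 6) (nat_lit 6) (nat_lit 11) L1048772 (by decide +kernel)
theorem L1048774 : W_4 (nat_lit 6) (nat_lit 0x28001c000c0004000000000000000000000000000) (nat_lit 0x0) (nat_lit 0x6000300010000000338000800000000000000000000000000) := T_4 (nat_lit 177) (nat_lit 160) (nat_lit 6) (nat_lit 7) (nat_lit 10) L1048773 (by decide +kernel)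
theorem L1048775 : W_4 (nat_lit 2) (nat_lit 0x200008003c001c000c0007000000000000000000000000000) (nat_lit 0x0) (nat_lit 0x100000c00000000000000000000000000) := D_4 (nat_lit 107) (nat_lit 128) (nat_lit 106) (nat_lit 3) (nat_lit 5) (nat_lit 6) (nat_lit 3) (nat_lit 4) (nat_lit 6) (by decide +kernel)
theorem L1048776 : W_4 (nat_lit 3) (nat_lit 0x200008003c001c000c0005000000000000000000000000000) (nat_lit 0x0) (nat_lit 0x100002c00080000000000000000000000) := T_4 (nat_lit 109) (nat_lit 91) (nat_lit 4) (nat_lit 7) (nat_lit 9) L1048775 (by decide +kernel)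
theorem L1048777 : W_4 (nat_lit 4) (nat_lit 0x200008003c001c000c0004000000000000000000000000000) (nat_lit 0x0) (nat_lit 0x120003c00080000000000000000000000) := T_4 (nat_lit 108) (nat_lit 125) (nat_lit 5) (nat_lit 6) (nat_lit 6) L1048776 (by decide +kernel)
theorem L1048778 : W_4 (nat_lit 5) (nat_lit 0x200000003c001c000c0004000000000000000000000000000) (nat_lit 0x0) (nat_lit 0xc0000000000120003c00080000000000000000000000) := T_4 (nat_lit 175) (nat_lit 174) (nat_lit 1) (nat_lit 8) (nat_lit 9) L1048777 (by decide +kernel)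
theorem L1048779 : W_4 (nat_lit 6) (nat_lit 0x2000000038001c000c0004000000000000000000000000000) (nat_lit 0x0) (nat_lit 0xc0006000000120003c00080000000000000000000000) := T_4 (nat_lit 158) (nat_lit 157) (nat_lit 2) (nat_lit 4) (nat_lit 9) L1048778 (by decide +kernel)
theorem L1048780 : W_4 (nat_lit 7) (nat_lit 0x2000000028001c000c0004000000000000000000000000000) (nat_lit 0x0) (nat_lit 0x2c0016000000120003c00080000000000000000000000) := T_4 (nat_lit 160) (nat_lit 177) (nat_lit 6) (nat_lit 7) (nat_lit 10) L1048779 (by decide +kernel)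
theorem L1048781 : W_4 (nat_lit 8) (nat_lit 0x28001c000c0004000000000000000000000000000) (nat_lit 0x0) (nat_lit 0x20003c0016000000120003c00080000000000000000000000) := T_4 (nat_lit 193) (nat_lit 176) (nat_lit 6) (nat_lit 6) (nat_lit 11) L1048780 (by decide +kernel)
theorem L1048782 : W_4 (nat_lit 2) (nat_lit 0x100028001c002e0004000000000000000000000000000) (nat_lit 0x0) (nat_lit 0x18000800000000000000000000000000) := D_4 (nat_lit 124) (nat_lit 123) (nat_lit 107) (nat_lit 3) (nat_lit 4) (nat_lit 7) (nat_lit 4) (nat_lit 6) (nat_lit 10) (by decide +kernel)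
theorem L1048783 : W_4 (nat_lit 3) (nat_lit 0x100028001c002c0004000000000000000000000000000) (nat_lit 0x0) (nat_lit 0x38002800000000000000000000000000) := T_4 (nat_lit 125) (nat_lit 109) (nat_lit 6) (nat_lit 6) (nat_lit 10) L1048782 (by decide +kernel)
theorem L1048784 : W_4 (nat_lit 4) (nat_lit 0x100028001c000c0004000000000000000000000000000) (nat_lit 0x0) (nat_lit 0x338002800000000000000000000000000) := T_4 (nat_lit 129) (nat_lit 128) (nat_lit 1) (nat_lit 10) (nat_lit 7) L1048783 (by decide +kernel)
theorem L1048785 : W_4 (nat_lit 5) (nat_lit 0x28001c000c0004000000000000000000000000000) (nat_lit 0x0) (nat_lit 0x2000100000000000338002800000000000000000000000000) := T_4 (nat_lit 176) (nat_lit 193) (nat_lit 6) (nat_lit 6) (nat_lit 11) L1048784 (by decide +kernel)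
theorem L1048786 : W_4 (nat_lit 2) (nat_lit 0x300028001c000c0004000000000000000000000000000) (nat_lit 0x0) (nat_lit 0x4000000000000000020002000000000000000000000000000) := D_4 (nat_lit 125) (nat_lit 109) (nat_lit 194) (nat_lit 6) (nat_lit 6) (nat_lit 10) (nat_lit 7) (nat_lit 6) (nat_lit 7) (by decide +kernel)
theorem L1048787 : W_4 (nat_lit 3) (nat_lit 0x200028001c000c0004000000000000000000000000000) (nat_lit 0x0) (nat_lit 0x6000100000000000020002000000000000000000000000000) := T_4 (nat_lit 176) (nat_lit 193) (nat_lit 6) (nat_lit 6) (nat_lit 11) L1048786 (by decide +kernel)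
theorem L1048788 : W_4 (nat_lit 4) (nat_lit 0x28001c000c0004000000000000000000000000000) (nat_lit 0x0) (nat_lit 0x6000300010000000020002000000000000000000000000000) := T_4 (nat_lit 177) (nat_lit 160) (nat_lit 6) (nat_lit 7) (nat_lit 10) L1048787 (by decide +kernel)
theorem L1048789 : W_4 (nat_lit 2) (nat_lit 0x8003c001c001c0005000000000000000000000000000) (nat_lit 0x0) (nat_lit 0x2800080000000000000000000000) := D_4 (nat_lit 109) (nat_lit 91) (nat_lit 107) (nat_lit 4) (nat_lit 7) (nat_lit 9) (nat_lit 3) (nat_lit 5) (nat_lit 6) (by decide +kernel)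
theorem L1048790 : W_4 (nat_lit 3) (nat_lit 0x8003c001c001c0004000000000000000000000000000) (nat_lit 0x0) (nat_lit 0x20003800080000000000000000000000) := T_4 (nat_lit 108) (nat_lit 125) (nat_lit 5) (nat_lit 6) (nat_lit 6) L1048789 (by decide +kernel)
theorem L1048791 : W_4 (nat_lit 4) (nat_lit 0x3c001c001c0004000000000000000000000000000) (nat_lit 0x0) (nat_lit 0xc0000000000020003800080000000000000000000000) := T_4 (nat_lit 175) (nat_lit 174) (nat_lit 1) (nat_lit 8) (nat_lit 9) L1048790 (by decide +kernel)
theorem L1048792 : W_4 (nat_lit 5) (nat_lit 0x38001c001c0004000000000000000000000000000) (nat_lit 0x0) (nat_lit 0xc0006000000020003800080000000000000000000000) := T_4 (nat_lit 158) (nat_lit 157) (nat_lit 2) (nat_lit 4) (nat_lit 9) L1048791 (by decide +kernel)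
theorem L1048793 : W_4 (nat_lit 6) (nat_lit 0x28001c001c0004000000000000000000000000000) (nat_lit 0x0) (nat_lit 0x2c0016000000020003800080000000000000000000000) := T_4 (nat_lit 160) (nat_lit 177) (nat_lit 6) (nat_lit 7) (nat_lit 10) L1048792 (by decide +kernel)
theorem L1048794 : W_4 (nat_lit 7) (nat_lit 0x28001c000c0004000000000000000000000000000) (nat_lit 0x0) (nat_lit 0x2c0016000000320003800080000000000000000000000) := T_4 (nat_lit 128) (nat_lit 129) (nat_lit 1) (nat_lit 10) (nat_lit 7) L1048793 (by decide +kernel)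
theorem L1048795 : W_4 (nat_lit 9) (nat_lit 0x20001c000c0004000000000000000000000000000) (nat_lit 0x0) (nat_lit 0x60003c001e000000338003c00080000000000000000000000) := Q_4 (nat_lit 159) (C_4 L1048769 (C_4 L1048774 (C_4 L1048781 (C_4 L1048785 (C_4 L1048788 (C_4 L1048794 N_4)))))) (by decide +kernel)
theorem L1048796 : W_4 (nat_lit 2) (nat_lit 0x200028001c000f0004800000000000000000000000000) (nat_lit 0x0) (nat_lit 0x1000040002000000000000000000) := D_4 (nat_lit 90) (nat_lit 73) (nat_lit 108) (nat_lit 7) (nat_lit 5) (nat_lit 4) (nat_lit 4) (nat_lit 6) (nat_lit 9) (by decide +kernel)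
theorem L1048797 : W_4 (nat_lit 3) (nat_lit 0x200020001c000f0004800000000000000000000000000) (nat_lit 0x0) (nat_lit 0x100008000000000001000040002000000000000000000) := T_4 (nat_lit 159) (nat_lit 176) (nat_lit 4) (nat_lit 6) (nat_lit 10) L1048796 (by decide +kernel)
theorem L1048798 : W_4 (nat_lit 4) (nat_lit 0x200020001c000f0004000000000000000000000000000) (nat_lit 0x0) (nat_lit 0x100008000000000001c00040002000000000000000000) := T_4 (nat_lit 107) (nat_lit 106) (nat_lit 0) (nat_lit 8) (nat_lit 7) L1048797 (by decide +kernel)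
theorem L1048799 : W_4 (nat_lit 5) (nat_lit 0x200020001c000e0004000000000000000000000000000) (nat_lit 0x0) (nat_lit 0x100008000000018001c00040002000000000000000000) := T_4 (nat_lit 124) (nat_lit 123) (nat_lit 3) (nat_lit 4) (nat_lit 7) L1048798 (by decide +kernel)
theorem L1048800 : W_4 (nat_lit 6) (nat_lit 0x20001c000e0004000000000000000000000000000) (nat_lit 0x0) (nat_lit 0x300018000000018001c00040002000000000000000000) := T_4 (nat_lit 177) (nat_lit 160) (nat_lit 6) (nat_lit 7) (nat_lit 10) L1048799 (by decide +kernel)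
theorem L1048801 : W_4 (nat_lit 2) (nat_lit 0x200024001e000e0005000000000000000000000000000) (nat_lit 0x0) (nat_lit 0x1000080008000000000000000000000000000000000000000) := D_4 (nat_lit 175) (nat_lit 192) (nat_lit 159) (nat_lit 6) (nat_lit 5) (nat_lit 11) (nat_lit 5) (nat_lit 6) (nat_lit 6) (by decide +kernel)
theorem L1048802 : W_4 (nat_lit 3) (nat_lit 0x200024001e000e0004000000000000000000000000000) (nat_lit 0x0) (nat_lit 0x1000080008000000000001000080000000000000000000000) := T_4 (nat_lit 108) (nat_lit 91) (nat_lit 5) (nat_lit 6) (nat_lit 5) L1048801 (by decide +kernel)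
theorem L1048803 : W_4 (nat_lit 4) (nat_lit 0x200020001e000e0004000000000000000000000000000) (nat_lit 0x0) (nat_lit 0x100008000e000000000001000080000000000000000000000) := T_4 (nat_lit 158) (nat_lit 157) (nat_lit 1) (nat_lit 8) (nat_lit 8) L1048802 (by decide +kernel)
theorem L1048804 : W_4 (nat_lit 5) (nat_lit 0x20001e000e0004000000000000000000000000000) (nat_lit 0x0) (nat_lit 0x100028001e000000000001000080000000000000000000000) := T_4 (nat_lit 177) (nat_lit 160) (nat_lit 6) (nat_lit 7) (nat_lit 10) L1048803 (by decide +kernel)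
theorem L1048805 : W_4 (nat_lit 6) (nat_lit 0x20001c000e0004000000000000000000000000000) (nat_lit 0x0) (nat_lit 0x100028001e000300000001000080000000000000000000000) := T_4 (nat_lit 141) (nat_lit 140) (nat_lit 2) (nat_lit 4) (nat_lit 8) L1048804 (by decide +kernel)
theorem L1048806 : W_4 (nat_lit 7) (nat_lit 0x20001c000c0004000000000000000000000000000) (nat_lit 0x0) (nat_lit 0x100038001e000300038001c000c0002000000000000000000) := Q_4 (nat_lit 125) (C_4 L1048712 (C_4 L1048716 (C_4 L1048800 (C_4 L1048805 N_4)))) (by decide +kernel)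
theorem L1048807 : W_4 (nat_lit 10) (nat_lit 0x200018000c0004000000000000000000000000000) (nat_lit 0x0) (nat_lit 0x70003c001e000700338003c000c0002000000000000000000) := Q_4 (nat_lit 142) (C_4 L1048795 (C_4 L1048697 (C_4 L1048806 N_4))) (by decide +kernel)
theorem L1048831 : W_4 (nat_lit 2) (nat_lit 0x200020001a000f0005800000000000000000000000000) (nat_lit 0x0) (nat_lit 0x4000000000000000080004000000000000000000) := D_4 (nat_lit 91) (nat_lit 74) (nat_lit 158) (nat_lit 7) (nat_lit 6) (nat_lit 4) (nat_lit 6) (nat_lit 5) (nat_lit 9) (by decide +kernel)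
theorem L1048832 : W_4 (nat_lit 3) (nat_lit 0x200020001a000f0004800000000000000000000000000) (nat_lit 0x0) (nat_lit 0x4000000100001000080004000000000000000000) := T_4 (nat_lit 108) (nat_lit 128) (nat_lit 0) (nat_lit 9) (nat_lit 7) L1048831 (by decide +kernel)
theorem L1048833 : W_4 (nat_lit 4) (nat_lit 0x200020001a000f0004000000000000000000000000000) (nat_lit 0x0) (nat_lit 0x4000000100001c00080004000000000000000000) := T_4 (nat_lit 107) (nat_lit 106) (nat_lit 0) (nat_lit 8) (nat_lit 7) L1048832 (by decide +kernel)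
theorem L1048834 : W_4 (nat_lit 5) (nat_lit 0x2000200018000f0004000000000000000000000000000) (nat_lit 0x0) (nat_lit 0x4000300100001c00080004000000000000000000) := T_4 (nat_lit 141) (nat_lit 140) (nat_lit 1) (nat_lit 8) (nat_lit 7) L1048833 (by decide +kernel)
theorem L1048835 : W_4 (nat_lit 6) (nat_lit 0x2000200018000e0004000000000000000000000000000) (nat_lit 0x0) (nat_lit 0x4000300118001c00080004000000000000000000) := T_4 (nat_lit 124) (nat_lit 123) (nat_lit 3) (nat_lit 4) (nat_lit 7) L1048834 (by decide +kernel)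
theorem L1048836 : W_4 (nat_lit 7) (nat_lit 0x200018000e0004000000000000000000000000000) (nat_lit 0x0) (nat_lit 0x200014000300118001c00080004000000000000000000) := T_4 (nat_lit 177) (nat_lit 160) (nat_lit 6) (nat_lit 7) (nat_lit 10) L1048835 (by decide +kernel)
theorem L1048837 : W_4 (nat_lit 2) (nat_lit 0x2000200018001f0004800000000000000000000000000) (nat_lit 0x0) (nat_lit 0x400600000000000000000000000000000000) := D_4 (nat_lit 129) (nat_lit 142) (nat_lit 130) (nat_lit 1) (nat_lit 10) (nat_lit 7) (nat_lit 1) (nat_lit 11) (nat_lit 7) (by decide +kernel)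
theorem L1048838 : W_4 (nat_lit 3) (nat_lit 0x2000200018000f0004800000000000000000000000000) (nat_lit 0x0) (nat_lit 0x400700001000000000000000000000000000) := T_4 (nat_lit 128) (nat_lit 108) (nat_lit 0) (nat_lit 9) (nat_lit 7) L1048837 (by decide +kernel)
theorem L1048839 : W_4 (nat_lit 4) (nat_lit 0x2000200018000f0004000000000000000000000000000) (nat_lit 0x0) (nat_lit 0x400700001c00000000000000000000000000) := T_4 (nat_lit 107) (nat_lit 106) (nat_lit 0) (nat_lit 8) (nat_lit 7) L1048838 (by decide +kernel)
theorem L1048840 : W_4 (nat_lit 5) (nat_lit 0x200018000f0004000000000000000000000000000) (nat_lit 0x0) (nat_lit 0x200010000400700001c00000000000000000000000000) := T_4 (nat_lit 177) (nat_lit 160) (nat_lit 6) (nat_lit 7) (nat_lit 10) L1048839 (by decide +kernel)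
theorem L1048841 : W_4 (nat_lit 6) (nat_lit 0x200018000e0004000000000000000000000000000) (nat_lit 0x0) (nat_lit 0x200010000400718001c00000000000000000000000000) := T_4 (nat_lit 124) (nat_lit 123) (nat_lit 3) (nat_lit 4) (nat_lit 7) L1048840 (by decide +kernel)
theorem L1048842 : W_4 (nat_lit 2) (nat_lit 0x20001a000f0004800000000000000000000000000) (nat_lit 0x0) (nat_lit 0x400100001000000000000000000000000000) := D_4 (nat_lit 128) (nat_lit 142) (nat_lit 108) (nat_lit 2) (nat_lit 5) (nat_lit 8) (nat_lit 0) (nat_lit 9) (nat_lit 7) (by decide +kernel)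
theorem L1048843 : W_4 (nat_lit 3) (nat_lit 0x20001a000f0004000000000000000000000000000) (nat_lit 0x0) (nat_lit 0x400100001c00000000000000000000000000) := T_4 (nat_lit 107) (nat_lit 106) (nat_lit 0) (nat_lit 8) (nat_lit 7) L1048842 (by decide +kernel)
theorem L1048844 : W_4 (nat_lit 4) (nat_lit 0x200018000f0004000000000000000000000000000) (nat_lit 0x0) (nat_lit 0x700100001c00000000000000000000000000) := T_4 (nat_lit 141) (nat_lit 140) (nat_lit 1) (nat_lit 8) (nat_lit 7) L1048843 (by decide +kernel)
theorem L1048845 : W_4 (nat_lit 5) (nat_lit 0x200018000e0004000000000000000000000000000) (nat_lit 0x0) (nat_lit 0x700118001c00000000000000000000000000) := T_4 (nat_lit 124) (nat_lit 123) (nat_lit 3) (nat_lit 4) (nat_lit 7) L1048844 (by decide +kernel)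
theorem L1048846 : W_4 (nat_lit 7) (nat_lit 0x200018000e0004000000000000000000000000000) (nat_lit 0x0) (nat_lit 0x100038001e000700018001c000c0002000000000000000000) := Q_4 (nat_lit 142) (C_4 L1048716 (C_4 L1048805 (C_4 L1048800 (C_4 L1048712 N_4)))) (by decide +kernel)
theorem L1048847 : W_4 (nat_lit 2) (nat_lit 0x200020001e000f0004800000000000000000000000000) (nat_lit 0x0) (nat_lit 0x8000000000000000040002000000000000000000) := D_4 (nat_lit 90) (nat_lit 159) (nat_lit 73) (nat_lit 7) (nat_lit 5) (nat_lit 5) (nat_lit 7) (nat_lit 5) (nat_lit 4) (by decide +kernel)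
theorem L1048848 : W_4 (nat_lit 3) (nat_lit 0x200020001a000f0004800000000000000000000000000) (nat_lit 0x0) (nat_lit 0x8000400100000000040002000000000000000000) := T_4 (nat_lit 142) (nat_lit 128) (nat_lit 2) (nat_lit 5) (nat_lit 8) L1048847 (by decide +kernel)
theorem L1048849 : W_4 (nat_lit 4) (nat_lit 0x200020001a000f0004000000000000000000000000000) (nat_lit 0x0) (nat_lit 0x8000400100000c00040002000000000000000000) := T_4 (nat_lit 107) (nat_lit 106) (nat_lit 0) (nat_lit 8) (nat_lit 7) L1048848 (by decide +kernel)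
theorem L1048850 : W_4 (nat_lit 5) (nat_lit 0x2000200018000f0004000000000000000000000000000) (nat_lit 0x0) (nat_lit 0x8000700100000c00040002000000000000000000) := T_4 (nat_lit 141) (nat_lit 140) (nat_lit 1) (nat_lit 8) (nat_lit 7) L1048849 (by decide +kernel)
theorem L1048851 : W_4 (nat_lit 6) (nat_lit 0x2000200018000e0004000000000000000000000000000) (nat_lit 0x0) (nat_lit 0x8000700118000c00040002000000000000000000) := T_4 (nat_lit 124) (nat_lit 123) (nat_lit 3) (nat_lit 4) (nat_lit 7) L1048850 (by decide +kernel)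
theorem L1048852 : W_4 (nat_lit 7) (nat_lit 0x200018000e0004000000000000000000000000000) (nat_lit 0x0) (nat_lit 0x200018000700118000c00040002000000000000000000) := T_4 (nat_lit 177) (nat_lit 160) (nat_lit 6) (nat_lit 7) (nat_lit 10) L1048851 (by decide +kernel)
theorem L1048853 : W_4 (nat_lit 2) (nat_lit 0x20001c000e0004000000000000000000000000000) (nat_lit 0x0) (nat_lit 0x300100000000000000000000000000000000) := D_4 (nat_lit 141) (nat_lit 140) (nat_lit 128) (nat_lit 2) (nat_lit 4) (nat_lit 8) (nat_lit 2) (nat_lit 5) (nat_lit 8) (by decide +kernel)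
theorem L1048854 : W_4 (nat_lit 2) (nat_lit 0x30001c001e0004000000000000000000000000000) (nat_lit 0x0) (nat_lit 0x1800080000000000000000000000) := D_4 (nat_lit 108) (nat_lit 107) (nat_lit 91) (nat_lit 0) (nat_lit 9) (nat_lit 7) (nat_lit 7) (nat_lit 6) (nat_lit 5) (by decide +kernel)
theorem L1048855 : W_4 (nat_lit 3) (nat_lit 0x20001c001e0004000000000000000000000000000) (nat_lit 0x0) (nat_lit 0x200010000000000001800080000000000000000000000) := T_4 (nat_lit 160) (nat_lit 177) (nat_lit 6) (nat_lit 7) (nat_lit 10) L1048854 (by decide +kernel)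
theorem L1048856 : W_4 (nat_lit 4) (nat_lit 0x20001c000e0004000000000000000000000000000) (nat_lit 0x0) (nat_lit 0x200010000000300001800080000000000000000000000) := T_4 (nat_lit 128) (nat_lit 129) (nat_lit 1) (nat_lit 10) (nat_lit 7) L1048855 (by decide +kernel)
theorem L1048857 : W_4 (nat_lit 7) (nat_lit 0x200018000e0004000000000000000000000000000) (nat_lit 0x0) (nat_lit 0x100028001e000700300001800080000000000000000000000) := Q_4 (nat_lit 142) (C_4 L1048853 (C_4 L1048805 (C_4 L1048856 N_4))) (by decide +kernel)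
theorem L1048858 : W_4 (nat_lit 2) (nat_lit 0x200024001e000f0004000000000000000000000000000) (nat_lit 0x0) (nat_lit 0x80000000000000001000080000000000000000000000) := D_4 (nat_lit 108) (nat_lit 91) (nat_lit 175) (nat_lit 5) (nat_lit 6) (nat_lit 5) (nat_lit 6) (nat_lit 5) (nat_lit 10) (by decide +kernel)
theorem L1048859 : W_4 (nat_lit 3) (nat_lit 0x200020001e000f0004000000000000000000000000000) (nat_lit 0x0) (nat_lit 0x80006000000000001000080000000000000000000000) := T_4 (nat_lit 158) (nat_lit 157) (nat_lit 1) (nat_lit 8) (nat_lit 8) L1048858 (by decide +kernel)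
theorem L1048860 : W_4 (nat_lit 4) (nat_lit 0x200020001a000f0004000000000000000000000000000) (nat_lit 0x0) (nat_lit 0x80006000400100001000080000000000000000000000) := T_4 (nat_lit 142) (nat_lit 128) (nat_lit 2) (nat_lit 5) (nat_lit 8) L1048859 (by decide +kernel)
theorem L1048861 : W_4 (nat_lit 5) (nat_lit 0x2000200018000f0004000000000000000000000000000) (nat_lit 0x0) (nat_lit 0x80006000700100001000080000000000000000000000) := T_4 (nat_lit 141) (nat_lit 140) (nat_lit 1) (nat_lit 8) (nat_lit 7) L1048860 (by decide +kernel)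
theorem L1048862 : W_4 (nat_lit 6) (nat_lit 0x2000200018000e0004000000000000000000000000000) (nat_lit 0x0) (nat_lit 0x80006000700118001000080000000000000000000000) := T_4 (nat_lit 124) (nat_lit 123) (nat_lit 3) (nat_lit 4) (nat_lit 7) L1048861 (by decide +kernel)
theorem L1048863 : W_4 (nat_lit 7) (nat_lit 0x200018000e0004000000000000000000000000000) (nat_lit 0x0) (nat_lit 0x280016000700118001000080000000000000000000000) := T_4 (nat_lit 177) (nat_lit 160) (nat_lit 6) (nat_lit 7) (nat_lit 10) L1048862 (by decide +kernel)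
theorem L1048864 : W_4 (nat_lit 8) (nat_lit 0x200018000c0004000000000000000000000000000) (nat_lit 0x0) (nat_lit 0x100038001e000700738001c000c0006000000000000000000) := Q_4 (nat_lit 125) (C_4 L1048836 (C_4 L1048841 (C_4 L1048845 (C_4 L1048846 (C_4 L1048852 (C_4 L1048857 (C_4 L1048863 N_4))))))) (by decide +kernel)
theorem L1048865 : W_4 (nat_lit 11) (nat_lit 0x200010000c0004000000000000000000000000000) (nat_lit 0x0) (nat_lit 0x200070003c001e000f00738003c001c000e000000000000000000) := Q_4 (nat_lit 143) (C_4 L1048695 (C_4 L1048749 (C_4 L1048758 (C_4 L1048766 (C_4 L1048807 (C_4 L1048864 N_4)))))) (by decide +kernel)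
theorem L1048866 : W_4 (nat_lit 12) (nat_lit 0x20001000080004000000000000000000000000000) (nat_lit 0x0) (nat_lit 0x200070003c001e000f0077803bc005e000e000000000000000000) := Q_4 (nat_lit 126) (C_4 L420 (C_4 L246 (C_4 L1048865 (C_4 L314 N_4)))) (by decide +kernel)
theorem L1048867 : W_4 (nat_lit 13) (nat_lit 0x1000080004000000000000000000000000000) (nat_lit 0x0) (nat_lit 0x200070007c003e000f0077803bc005e000e000000000000000000) := Q_4 (nat_lit 161) (C_4 L150 (C_4 L1048866 (C_4 L141 (C_4 L147 N_4)))) (by decide +kernel)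
theorem L1048892 : W_4 (nat_lit 10) (nat_lit 0x1000080004000000000000000000000000000) (nat_lit 0x0) (nat_lit 0x28001c000e0003000080004000b800700038001c00020000000000) := Q_4 (nat_lit 93) (C_4 L1048890 (C_4 L1048870 (C_4 L1048883 (C_4 L1048887 N_4)))) (by decide +kernel)
theorem L1048893 : W_4 (nat_lit 7) (nat_lit 0x1000080004000000000000000000000000000) (nat_lit 0x0) (nat_lit 0x200030000800040002000700038001c000e0000000000) := Q_4 (nat_lit 93) (C_4 L1048890 (C_4 L1048870 (C_4 L76322 (C_4 L1048690 N_4)))) (by decide +kernel)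
theorem L1048917 : W_4 (nat_lit 4) (nat_lit 0x1000080006000000000000000000000000000) (nat_lit 0x0) (nat_lit 0x4000600030000000040000000100000000000000000000000) := T_4 (nat_lit 161) (nat_lit 92) (nat_lit 4) (nat_lit 8) (nat_lit 9) L146 (by decide +kernel)
theorem L1048919 : W_4 (nat_lit 2) (nat_lit 0x1a0018000c0007000000008000000000000000000) (nat_lit 0x0) (nat_lit 0x100000c00000000000000000000000000) := D_4 (nat_lit 107) (nat_lit 128) (nat_lit 106) (nat_lit 3) (nat_lit 5) (nat_lit 6) (nat_lit 3) (nat_lit 4) (nat_lit 6) (by decide +kernel)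
theorem L1048920 : W_4 (nat_lit 3) (nat_lit 0x1a0018000c0006000000008000000000000000000) (nat_lit 0x0) (nat_lit 0x100001c00080000000000000000000000) := T_4 (nat_lit 108) (nat_lit 91) (nat_lit 4) (nat_lit 7) (nat_lit 9) L1048919 (by decide +kernel)
theorem L1048921 : W_4 (nat_lit 4) (nat_lit 0x180018000c0006000000008000000000000000000) (nat_lit 0x0) (nat_lit 0x6000000100001c00080000000000000000000000) := T_4 (nat_lit 157) (nat_lit 158) (nat_lit 2) (nat_lit 4) (nat_lit 9) L1048920 (by decide +kernel)
theorem L1048922 : W_4 (nat_lit 5) (nat_lit 0x100018000c0006000000008000000000000000000) (nat_lit 0x0) (nat_lit 0x10000e000000100001c00080000000000000000000000) := T_4 (nat_lit 159) (nat_lit 176) (nat_lit 5) (nat_lit 7) (nat_lit 6) L1048921 (by decide +kernel)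
theorem L1048923 : W_4 (nat_lit 6) (nat_lit 0x18000c0006000000008000000000000000000) (nat_lit 0x0) (nat_lit 0x30001e000000100001c00080000000000000000000000) := T_4 (nat_lit 160) (nat_lit 177) (nat_lit 6) (nat_lit 7) (nat_lit 10) L1048922 (by decide +kernel)
theorem L1048924 : W_4 (nat_lit 7) (nat_lit 0x18000c0006000000000000000000000000000) (nat_lit 0x0) (nat_lit 0x30001e000000100001c00180008000000000000000000) := T_4 (nat_lit 75) (nat_lit 92) (nat_lit 7) (nat_lit 7) (nat_lit 4) L1048923 (by decide +kernel)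
theorem L1048925 : W_4 (nat_lit 2) (nat_lit 0x1c000c0006000100010000000000000000000) (nat_lit 0x0) (nat_lit 0x300100000000000000000000000000000000) := D_4 (nat_lit 141) (nat_lit 128) (nat_lit 140) (nat_lit 2) (nat_lit 5) (nat_lit 8) (nat_lit 2) (nat_lit 4) (nat_lit 8) (by decide +kernel)
theorem L1048926 : W_4 (nat_lit 3) (nat_lit 0x18000c0006000100010000000000000000000) (nat_lit 0x0) (nat_lit 0x8000700100000000000000000000000000000000) := T_4 (nat_lit 142) (nat_lit 159) (nat_lit 5) (nat_lit 7) (nat_lit 5) L1048925 (by decide +kernel)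
theorem L1048927 : W_4 (nat_lit 4) (nat_lit 0x18000c0006000000010000000000000000000) (nat_lit 0x0) (nat_lit 0x8000700100000000100008000000000000000000) := T_4 (nat_lit 92) (nat_lit 75) (nat_lit 7) (nat_lit 7) (nat_lit 4) L1048926 (by decide +kernel)
theorem L1048928 : W_4 (nat_lit 5) (nat_lit 0x18000c0006000000000000000000000000000) (nat_lit 0x0) (nat_lit 0x8000700100000000300018000000000000000000) := T_4 (nat_lit 76) (nat_lit 93) (nat_lit 5) (nat_lit 8) (nat_lit 4) L1048927 (by decide +kernel)
theorem L1048929 : W_4 (nat_lit 8) (nat_lit 0x10000c0006000000000000000000000000000) (nat_lit 0x0) (nat_lit 0x30001e000f00100001c00380018000000000000000000) := Q_4 (nat_lit 143) (C_4 L1048918 (C_4 L1048924 (C_4 L1048928 N_4))) (by decide +kernel)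
theorem L1048931 : W_4 (nat_lit 3) (nat_lit 0x10000c0006000200000000000000000000000) (nat_lit 0x0) (nat_lit 0x100018000c00000000000000) := T_4 (nat_lit 75) (nat_lit 92) (nat_lit 7) (nat_lit 7) (nat_lit 4) L179587 (by decide +kernel)
theorem L1048932 : W_4 (nat_lit 8) (nat_lit 0x10000c0006000000000000000000000000000) (nat_lit 0x0) (nat_lit 0x18000f001000080003e001c000c00000000000000) := Q_4 (nat_lit 93) (C_4 L1048642 (C_4 L1048660 (C_4 L1048930 (C_4 L1048931 N_4)))) (by decide +kernel)
theorem L1048937 : W_4 (nat_lit 6) (nat_lit 0x18000c0006000000000000000000000000000) (nat_lit 0x0) (nat_lit 0x30001e000000100001c00080000000000000000000000) := T_4 (nat_lit 160) (nat_lit 177) (nat_lit 6) (nat_lit 7) (nat_lit 10) L1048936 (by decide +kernel)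
theorem L1048938 : W_4 (nat_lit 2) (nat_lit 0x18001c0006000000000000000000000000000) (nat_lit 0x0) (nat_lit 0x600001000000000000000000000000000) := D_4 (nat_lit 129) (nat_lit 108) (nat_lit 130) (nat_lit 0) (nat_lit 10) (nat_lit 7) (nat_lit 1) (nat_lit 11) (nat_lit 7) (by decide +kernel)
theorem L1048939 : W_4 (nat_lit 2) (nat_lit 0x1a001e000f000000000000000000000000000) (nat_lit 0x0) (nat_lit 0xc0004000000000000000000) := D_4 (nat_lit 91) (nat_lit 90) (nat_lit 74) (nat_lit 0) (nat_lit 9) (nat_lit 6) (nat_lit 7) (nat_lit 6) (nat_lit 4) (by decide +kernel)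
theorem L1048940 : W_4 (nat_lit 3) (nat_lit 0x1a001e000e000000000000000000000000000) (nat_lit 0x0) (nat_lit 0x18000c0004000000000000000000) := T_4 (nat_lit 108) (nat_lit 107) (nat_lit 3) (nat_lit 5) (nat_lit 6) L1048939 (by decide +kernel)
theorem L1048941 : W_4 (nat_lit 4) (nat_lit 0x1a001e0006000000000000000000000000000) (nat_lit 0x0) (nat_lit 0x198000c0004000000000000000000) := T_4 (nat_lit 111) (nat_lit 112) (nat_lit 2) (nat_lit 6) (nat_lit 7) L1048940 (by decide +kernel)
theorem L1048942 : W_4 (nat_lit 5) (nat_lit 0x18001e0006000000000000000000000000000) (nat_lit 0x0) (nat_lit 0x6000000198000c0004000000000000000000) := T_4 (nat_lit 141) (nat_lit 142) (nat_lit 2) (nat_lit 5) (nat_lit 8) L1048941 (by decide +kernel)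
theorem L1048943 : W_4 (nat_lit 2) (nat_lit 0x18001e0006000000000000000000000000000) (nat_lit 0x0) (nat_lit 0x10018000000000000000000000000000) := D_4 (nat_lit 111) (nat_lit 112) (nat_lit 124) (nat_lit 2) (nat_lit 6) (nat_lit 7) (nat_lit 2) (nat_lit 5) (nat_lit 7) (by decide +kernel)
theorem L1048944 : W_4 (nat_lit 2) (nat_lit 0x1a001e0007000000000000000000000000000) (nat_lit 0x0) (nat_lit 0x100018000000000000000000000000000000) := D_4 (nat_lit 124) (nat_lit 123) (nat_lit 140) (nat_lit 3) (nat_lit 4) (nat_lit 7) (nat_lit 1) (nat_lit 8) (nat_lit 7) (by decide +kernel)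
theorem L1048945 : W_4 (nat_lit 3) (nat_lit 0x18001e0007000000000000000000000000000) (nat_lit 0x0) (nat_lit 0x700018000000000000000000000000000000) := T_4 (nat_lit 141) (nat_lit 142) (nat_lit 2) (nat_lit 5) (nat_lit 8) L1048944 (by decide +kernel)
theorem L1048946 : W_4 (nat_lit 4) (nat_lit 0x18001e0006000000000000000000000000000) (nat_lit 0x0) (nat_lit 0x700018001800000000000000000000000000) := T_4 (nat_lit 108) (nat_lit 107) (nat_lit 3) (nat_lit 5) (nat_lit 6) L1048945 (by decide +kernel)
theorem L1048947 : W_4 (nat_lit 6) (nat_lit 0x18001c0006000000000000000000000000000) (nat_lit 0x0) (nat_lit 0x7000380198000c0004000000000000000000) := Q_4 (nat_lit 125) (C_4 L1048942 (C_4 L1048943 (C_4 L1048946 N_4))) (by decide +kernel)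
theorem L1048948 : W_4 (nat_lit 2) (nat_lit 0x18001c0006000000000000000000000000000) (nat_lit 0x0) (nat_lit 0x400600000000000000000000000000000000) := D_4 (nat_lit 129) (nat_lit 142) (nat_lit 130) (nat_lit 1) (nat_lit 10) (nat_lit 7) (nat_lit 1) (nat_lit 11) (nat_lit 7) (by decide +kernel)
theorem L1048949 : W_4 (nat_lit 7) (nat_lit 0x18000c0006000000000000000000000000000) (nat_lit 0x0) (nat_lit 0x7007380198000c0004000000000000000000) := Q_4 (nat_lit 128) (C_4 L1048938 (C_4 L1048947 (C_4 L1048948 N_4))) (by decide +kernel)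
theorem L1048950 : W_4 (nat_lit 8) (nat_lit 0x10000c0006000000000000000000000000000) (nat_lit 0x0) (nat_lit 0x30001e000f00738019c002c0014000000000000000000) := Q_4 (nat_lit 143) (C_4 L1048918 (C_4 L1048937 (C_4 L1048949 N_4))) (by decide +kernel)
theorem L1048951 : W_4 (nat_lit 2) (nat_lit 0x200000001c000c0006000100000000000000000000000) (nat_lit 0x0) (nat_lit 0x300100000000000000000000000000000000) := D_4 (nat_lit 141) (nat_lit 128) (nat_lit 140) (nat_lit 2) (nat_lit 5) (nat_lit 8) (nat_lit 2) (nat_lit 4) (nat_lit 8) (by decide +kernel)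
theorem L1048952 : W_4 (nat_lit 3) (nat_lit 0x2000000018000c0006000100000000000000000000000) (nat_lit 0x0) (nat_lit 0x8000700100000000000000000000000000000000) := T_4 (nat_lit 142) (nat_lit 159) (nat_lit 5) (nat_lit 7) (nat_lit 5) L1048951 (by decide +kernel)
theorem L1048953 : W_4 (nat_lit 4) (nat_lit 0x18000c0006000100000000000000000000000) (nat_lit 0x0) (nat_lit 0x200018000700100000000000000000000000000000000) := T_4 (nat_lit 177) (nat_lit 160) (nat_lit 6) (nat_lit 7) (nat_lit 10) L1048952 (by decide +kernel)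
theorem L1048954 : W_4 (nat_lit 5) (nat_lit 0x18000c0006000000000000000000000000000) (nat_lit 0x0) (nat_lit 0x200018000700100000000100008000000000000000000) := T_4 (nat_lit 92) (nat_lit 75) (nat_lit 7) (nat_lit 7) (nat_lit 4) L1048953 (by decide +kernel)
theorem L1048955 : W_4 (nat_lit 6) (nat_lit 0x10000c0006000000000000000000000000000) (nat_lit 0x0) (nat_lit 0x200018000f00100000000300018000000000000000000) := Q_4 (nat_lit 143) (C_4 L1048918 (C_4 L1048928 (C_4 L1048954 N_4))) (by decide +kernel)
theorem L1048956 : W_4 (nat_lit 9) (nat_lit 0x1000080006000000000000000000000000000) (nat_lit 0x0) (nat_lit 0x30001e000f00778039c003e001c000e00000000000000) := Q_4 (nat_lit 126) (C_4 L382727 (C_4 L1048929 (C_4 L1048932 (C_4 L1048950 (C_4 L1048955 N_4))))) (by decide +kernel)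
theorem L1048957 : W_4 (nat_lit 4) (nat_lit 0x400020001000080006000000000000000000000000000) (nat_lit 0x0) (nat_lit 0x28001c000a00000000000000000000000000000000000000000000) := T_4 (nat_lit 194) (nat_lit 177) (nat_lit 5) (nat_lit 8) (nat_lit 7) L5173 (by decide +kernel)
theorem L1048958 : W_4 (nat_lit 5) (nat_lit 0x20001000080006000000000000000000000000000) (nat_lit 0x0) (nat_lit 0x28001c000e00000000000040000000000000000000000000000000) := T_4 (nat_lit 178) (nat_lit 126) (nat_lit 4) (nat_lit 8) (nat_lit 10) L1048957 (by decide +kernel)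
theorem L1048959 : W_4 (nat_lit 6) (nat_lit 0x1000080006000000000000000000000000000) (nat_lit 0x0) (nat_lit 0x28001c000e00020000000040000000100000000000000000000000) := T_4 (nat_lit 161) (nat_lit 92) (nat_lit 4) (nat_lit 8) (nat_lit 9) L1048958 (by decide +kernel)
theorem L1048960 : W_4 (nat_lit 2) (nat_lit 0x1000080006000100000000000000000000000) (nat_lit 0x0) (nat_lit 0x200008000400000000000000) := D_4 (nat_lit 75) (nat_lit 93) (nat_lit 58) (nat_lit 4) (nat_lit 8) (nat_lit 8) (nat_lit 7) (nat_lit 7) (nat_lit 3) (by decide +kernel)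
theorem L1048961 : W_4 (nat_lit 3) (nat_lit 0x1000080006000000000000000000000000000) (nat_lit 0x0) (nat_lit 0x20000000000000000300008000400000000000000) := T_4 (nat_lit 92) (nat_lit 161) (nat_lit 4) (nat_lit 8) (nat_lit 9) L1048960 (by decide +kernel)
theorem L1049001 : W_4 (nat_lit 2) (nat_lit 0x200010001c0006000000000000000000000000000) (nat_lit 0x0) (nat_lit 0x600001000000000000000000000000000) := D_4 (nat_lit 129) (nat_lit 108) (nat_lit 130) (nat_lit 0) (nat_lit 10) (nat_lit 7) (nat_lit 0) (nat_lit 11) (nat_lit 7) (by decide +kernel)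
theorem L1049077 : W_4 (nat_lit 2) (nat_lit 0x20001000180006000000000000000000000000000) (nat_lit 0x0) (nat_lit 0x400000000000040008000000000000000000000000000) := D_4 (nat_lit 178) (nat_lit 126) (nat_lit 111) (nat_lit 4) (nat_lit 8) (nat_lit 10) (nat_lit 6) (nat_lit 8) (nat_lit 10) (by decide +kernel)
theorem L1049078 : W_4 (nat_lit 5) (nat_lit 0x30001800180007000000000000000000000000000) (nat_lit 0x0) (nat_lit 0x10000e000700040000000080000000000000000000000) := T_4 (nat_lit 126) (nat_lit 91) (nat_lit 4) (nat_lit 7) (nat_lit 9) L1048964 (by decide +kernel)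
theorem L1049079 : W_4 (nat_lit 6) (nat_lit 0x30001000180007000000000000000000000000000) (nat_lit 0x0) (nat_lit 0x10000e000f00040000000280000000000000000000000) := T_4 (nat_lit 143) (nat_lit 93) (nat_lit 5) (nat_lit 8) (nat_lit 5) L1049078 (by decide +kernel)
theorem L1049080 : W_4 (nat_lit 7) (nat_lit 0x20001000180007000000000000000000000000000) (nat_lit 0x0) (nat_lit 0x30001e000f00040000000280000000000000000000000) := T_4 (nat_lit 160) (nat_lit 177) (nat_lit 5) (nat_lit 8) (nat_lit 6) L1049079 (by decide +kernel)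
theorem L1049081 : W_4 (nat_lit 8) (nat_lit 0x20001000180006000000000000000000000000000) (nat_lit 0x0) (nat_lit 0x30001e000f00040001800280000000000000000000000) := T_4 (nat_lit 108) (nat_lit 107) (nat_lit 3) (nat_lit 5) (nat_lit 6) L1049080 (by decide +kernel)
theorem L1049082 : W_4 (nat_lit 2) (nat_lit 0x8000400030001800180006000000000000000000000000000) (nat_lit 0x0) (nat_lit 0x200010000800000000000000000000000000000000000000000000) := D_4 (nat_lit 196) (nat_lit 179) (nat_lit 213) (nat_lit 7) (nat_lit 8) (nat_lit 7) (nat_lit 7) (nat_lit 8) (nat_lit 8) (by decide +kernel)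
theorem L1049083 : W_4 (nat_lit 3) (nat_lit 0x400030001800180006000000000000000000000000000) (nat_lit 0x0) (nat_lit 0x300018000800000000000000000000000000000000000000000000) := T_4 (nat_lit 195) (nat_lit 212) (nat_lit 4) (nat_lit 8) (nat_lit 12) L1049082 (by decide +kernel)
theorem L1049084 : W_4 (nat_lit 4) (nat_lit 0x30001800180006000000000000000000000000000) (nat_lit 0x0) (nat_lit 0x300018000c00000000000000008000000000000000000000000000) := T_4 (nat_lit 178) (nat_lit 111) (nat_lit 6) (nat_lit 8) (nat_lit 10) L1049083 (by decide +kernel)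
theorem L1049085 : W_4 (nat_lit 5) (nat_lit 0x30001000180006000000000000000000000000000) (nat_lit 0x0) (nat_lit 0x300018000c00000000800000008000200000000000000000000000) := T_4 (nat_lit 143) (nat_lit 93) (nat_lit 5) (nat_lit 8) (nat_lit 5) L1049084 (by decide +kernel)
theorem L1049086 : W_4 (nat_lit 6) (nat_lit 0x20001000180006000000000000000000000000000) (nat_lit 0x0) (nat_lit 0x300018000e00010000800000008000200000000000000000000000) := T_4 (nat_lit 160) (nat_lit 177) (nat_lit 5) (nat_lit 8) (nat_lit 6) L1049085 (by decide +kernel)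
theorem L1049087 : W_4 (nat_lit 9) (nat_lit 0x1000180006000000000000000000000000000) (nat_lit 0x0) (nat_lit 0x30001c000f0003e000f00040009800280000000000000000000000) := Q_4 (nat_lit 161) (C_4 L130998 (C_4 L1049077 (C_4 L1049081 (C_4 L1049086 N_4)))) (by decide +kernel)
theorem L1049088 : W_4 (nat_lit 2) (nat_lit 0x1000180007000000000000000000000000000) (nat_lit 0x0) (nat_lit 0x600008000000000000000000000000000) := D_4 (nat_lit 129) (nat_lit 130) (nat_lit 111) (nat_lit 0) (nat_lit 11) (nat_lit 7) (nat_lit 3) (nat_lit 6) (nat_lit 6) (by decide +kernel)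
theorem L1049089 : W_4 (nat_lit 3) (nat_lit 0x1000180006000000000000000000000000000) (nat_lit 0x0) (nat_lit 0x600009800000000000000000000000000) := T_4 (nat_lit 108) (nat_lit 107) (nat_lit 3) (nat_lit 5) (nat_lit 6) L1049088 (by decide +kernel)
theorem L1049090 : W_4 (nat_lit 2) (nat_lit 0x1800580006000200010001400000000000000) (nat_lit 0x0) (nat_lit 0x8000a0000000000) := D_4 (nat_lit 59) (nat_lit 43) (nat_lit 41) (nat_lit 6) (nat_lit 8) (nat_lit 6) (nat_lit 4) (nat_lit 8) (nat_lit 6) (by decide +kernel)
theorem L1049091 : W_4 (nat_lit 3) (nat_lit 0x1800580006000200010001000000000000000) (nat_lit 0x0) (nat_lit 0x8000c000a0000000000) := T_4 (nat_lit 58) (nat_lit 75) (nat_lit 4) (nat_lit 8) (nat_lit 7) L1049090 (by decide +kernel)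
theorem L1049092 : W_4 (nat_lit 4) (nat_lit 0x1800580006000200010000000000000000000) (nat_lit 0x0) (nat_lit 0x28001c000a0000000000) := T_4 (nat_lit 60) (nat_lit 77) (nat_lit 6) (nat_lit 8) (nat_lit 7) L1049091 (by decide +kernel)
theorem L1049093 : W_4 (nat_lit 5) (nat_lit 0x1800580006000200000000000000000000000) (nat_lit 0x0) (nat_lit 0x40000000000038001c000a0000000000) := T_4 (nat_lit 76) (nat_lit 126) (nat_lit 5) (nat_lit 8) (nat_lit 4) L1049092 (by decide +kernel)
theorem L1049094 : W_4 (nat_lit 6) (nat_lit 0x1800580006000000000000000000000000000) (nat_lit 0x0) (nat_lit 0x10000000040000000200038001c000a0000000000) := T_4 (nat_lit 93) (nat_lit 160) (nat_lit 5) (nat_lit 8) (nat_lit 5) L1049093 (by decide +kernel)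
theorem L1049095 : W_4 (nat_lit 7) (nat_lit 0x1800180006000000000000000000000000000) (nat_lit 0x0) (nat_lit 0x10000000640000000200038001c000a0000000000) := T_4 (nat_lit 130) (nat_lit 129) (nat_lit 1) (nat_lit 11) (nat_lit 7) L1049094 (by decide +kernel)
theorem L1049096 : W_4 (nat_lit 2) (nat_lit 0x1800380006000000000000000000000000000) (nat_lit 0x0) (nat_lit 0x600040000000000000000000000000000000) := D_4 (nat_lit 142) (nat_lit 141) (nat_lit 126) (nat_lit 2) (nat_lit 5) (nat_lit 8) (nat_lit 1) (nat_lit 10) (nat_lit 7) (by decide +kernel)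
theorem L1049097 : W_4 (nat_lit 3) (nat_lit 0x1800180006000000000000000000000000000) (nat_lit 0x0) (nat_lit 0x600640000000000000000000000000000000) := T_4 (nat_lit 129) (nat_lit 130) (nat_lit 1) (nat_lit 11) (nat_lit 7) L1049096 (by decide +kernel)
theorem L1049098 : W_4 (nat_lit 2) (nat_lit 0x1a00180006000200010000800000000000000) (nat_lit 0x0) (nat_lit 0x20001000080000000000) := D_4 (nat_lit 60) (nat_lit 43) (nat_lit 77) (nat_lit 6) (nat_lit 8) (nat_lit 6) (nat_lit 6) (nat_lit 8) (nat_lit 7) (by decide +kernel)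
theorem L1049099 : W_4 (nat_lit 3) (nat_lit 0x1a00180006000200010000000000000000000) (nat_lit 0x0) (nat_lit 0x8000000020001800080000000000) := T_4 (nat_lit 59) (nat_lit 111) (nat_lit 7) (nat_lit 8) (nat_lit 3) L1049098 (by decide +kernel)
theorem L1049100 : W_4 (nat_lit 4) (nat_lit 0x1a00180006000200000000000000000000000) (nat_lit 0x0) (nat_lit 0x40008000000030001800080000000000) := T_4 (nat_lit 76) (nat_lit 126) (nat_lit 5) (nat_lit 8) (nat_lit 4) L1049099 (by decide +kernel)
theorem L1049101 : W_4 (nat_lit 5) (nat_lit 0x1a00180006000000000000000000000000000) (nat_lit 0x0) (nat_lit 0x10000000040008000200030001800080000000000) := T_4 (nat_lit 93) (nat_lit 160) (nat_lit 5) (nat_lit 8) (nat_lit 5) L1049100 (by decide +kernel)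
theorem L1049102 : W_4 (nat_lit 6) (nat_lit 0x1800180006000000000000000000000000000) (nat_lit 0x0) (nat_lit 0x10000600040008000200030001800080000000000) := T_4 (nat_lit 141) (nat_lit 142) (nat_lit 2) (nat_lit 5) (nat_lit 8) L1049101 (by decide +kernel)
theorem L1049103 : W_4 (nat_lit 2) (nat_lit 0x10001800180006000000000000000000000000000) (nat_lit 0x0) (nat_lit 0x4000200020000000000000000000000000000000000000000) := D_4 (nat_lit 177) (nat_lit 161) (nat_lit 194) (nat_lit 5) (nat_lit 8) (nat_lit 6) (nat_lit 6) (nat_lit 7) (nat_lit 11) (by decide +kernel)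
theorem L1049104 : W_4 (nat_lit 3) (nat_lit 0x1800180006000000000000000000000000000) (nat_lit 0x0) (nat_lit 0x4000200030000000000000000200000000000000000000000) := T_4 (nat_lit 160) (nat_lit 93) (nat_lit 5) (nat_lit 8) (nat_lit 5) L1049103 (by decide +kernel)
theorem L1049105 : W_4 (nat_lit 8) (nat_lit 0x1000180006000000000000000000000000000) (nat_lit 0x0) (nat_lit 0x4000200030000e00640008000200038001c000a0000000000) := Q_4 (nat_lit 143) (C_4 L1049095 (C_4 L1049097 (C_4 L1049102 (C_4 L1049104 N_4)))) (by decide +kernel)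
theorem L1049106 : W_4 (nat_lit 10) (nat_lit 0x1000080006000000000000000000000000000) (nat_lit 0x0) (nat_lit 0x30001c000f0003e000f00740009800280038001c000a0000000000) := Q_4 (nat_lit 128) (C_4 L130609 (C_4 L1049087 (C_4 L1049089 (C_4 L1049105 N_4)))) (by decide +kernel)
theorem L1049107 : W_4 (nat_lit 11) (nat_lit 0x1000080004000000000000000000000000000) (nat_lit 0x0) (nat_lit 0x38001c000f0003e000f0077803bc003e003c001e000a0000000000) := Q_4 (nat_lit 109) (C_4 L1048917 (C_4 L1048956 (C_4 L1048959 (C_4 L1048961 (C_4 L1049106 N_4))))) (by decide +kernel)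
theorem L1049108 : W_4 (nat_lit 14) (nat_lit 0x1000080000000000000000000000000000000) (nat_lit 0x0) (nat_lit 0x3a001f000fc003e000f00f7c07fc01fe00fe001e000e0000000000) := Q_4 (nat_lit 110) (C_4 L151 (C_4 L1048691 (C_4 L1048867 (C_4 L1048884 (C_4 L1048891 (C_4 L1048892 (C_4 L1048893 (C_4 L1048894 (C_4 L1048915 (C_4 L1048916 (C_4 L1049107 N_4))))))))))) (by decide +kernel)
theorem L1053918 : W_4 (nat_lit 2) (nat_lit 0x100018001c0008000000000000000000000000000) (nat_lit 0x0) (nat_lit 0x4000200000000000000004000000000000000000000000000) := D_4 (nat_lit 177) (nat_lit 194) (nat_lit 110) (nat_lit 6) (nat_lit 7) (nat_lit 11) (nat_lit 6) (nat_lit 7) (nat_lit 10) (by decide +kernel)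
theorem L1054139 : W_4 (nat_lit 2) (nat_lit 0x18001e0008000000020000000000000000000) (nat_lit 0x0) (nat_lit 0x18004000000000000000000000000000) := D_4 (nat_lit 124) (nat_lit 110) (nat_lit 123) (nat_lit 2) (nat_lit 5) (nat_lit 7) (nat_lit 3) (nat_lit 4) (nat_lit 7) (by decide +kernel)
theorem L1055006 : W_4 (nat_lit 3) (nat_lit 0x18001c0008000000020000000000000000000) (nat_lit 0x0) (nat_lit 0x38014000000000000000000000000000) := T_4 (nat_lit 125) (nat_lit 112) (nat_lit 2) (nat_lit 6) (nat_lit 7) L1054139 (by decide +kernel)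
theorem L1071941 : W_4 (nat_lit 2) (nat_lit 0x18000e0006000000000000000000000000000) (nat_lit 0x0) (nat_lit 0x18008000000000000000000000000000) := D_4 (nat_lit 124) (nat_lit 123) (nat_lit 111) (nat_lit 3) (nat_lit 4) (nat_lit 7) (nat_lit 2) (nat_lit 5) (nat_lit 7) (by decide +kernel)
theorem L1079320 : W_4 (nat_lit 2) (nat_lit 0x10003800180008000200000000000000000000000) (nat_lit 0x0) (nat_lit 0x400030000000000000000000) := D_4 (nat_lit 94) (nat_lit 76) (nat_lit 77) (nat_lit 4) (nat_lit 9) (nat_lit 8) (nat_lit 5) (nat_lit 9) (nat_lit 4) (by decide +kernel)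
theorem L1084976 : W_4 (nat_lit 2) (nat_lit 0x18000e0006000000000000000000000000000) (nat_lit 0x0) (nat_lit 0x2000018000000000000000000000000000000) := D_4 (nat_lit 124) (nat_lit 145) (nat_lit 123) (nat_lit 3) (nat_lit 5) (nat_lit 7) (nat_lit 3) (nat_lit 4) (nat_lit 7) (by decide +kernel)
theorem L1085164 : W_4 (nat_lit 2) (nat_lit 0x10000800058002c0034000000000000000000000000000) (nat_lit 0x0) (nat_lit 0x40002000100000000000000000000000000000000000000000) := D_4 (nat_lit 181) (nat_lit 164) (nat_lit 198) (nat_lit 7) (nat_lit 10) (nat_lit 6) (nat_lit 7) (nat_lit 10) (nat_lit 7) (by decide +kernel)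
theorem L1085165 : W_4 (nat_lit 3) (nat_lit 0x800058002c0034000000000000000000000000000) (nat_lit 0x0) (nat_lit 0x40003000100000000400000000000000000000000000000000) := T_4 (nat_lit 180) (nat_lit 130) (nat_lit 6) (nat_lit 10) (nat_lit 10) L1085164 (by decide +kernel)
theorem L1085166 : W_4 (nat_lit 4) (nat_lit 0x58002c0034000000000000000000000000000) (nat_lit 0x0) (nat_lit 0x40003000180000000400000001000000000000000000000000) := T_4 (nat_lit 163) (nat_lit 96) (nat_lit 6) (nat_lit 10) (nat_lit 9) L1085165 (by decide +kernel)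
theorem L1085167 : W_4 (nat_lit 5) (nat_lit 0x58002c0014000000000000000000000000000) (nat_lit 0x0) (nat_lit 0x40003000180000000400028001000000000000000000000000) := T_4 (nat_lit 113) (nat_lit 111) (nat_lit 1) (nat_lit 11) (nat_lit 6) L1085166 (by decide +kernel)
theorem L1101657 : W_4 (nat_lit 2) (nat_lit 0x800078002c0014001600000000000000000000000) (nat_lit 0x0) (nat_lit 0x2000800080000000000000000000) := D_4 (nat_lit 95) (nat_lit 79) (nat_lit 109) (nat_lit 6) (nat_lit 10) (nat_lit 8) (nat_lit 1) (nat_lit 11) (nat_lit 5) (by decide +kernel)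
theorem L1101658 : W_4 (nat_lit 3) (nat_lit 0x800078002c0014000600000000000000000000000) (nat_lit 0x0) (nat_lit 0x22001800080000000000000000000) := T_4 (nat_lit 96) (nat_lit 113) (nat_lit 6) (nat_lit 10) (nat_lit 9) L1101657 (by decide +kernel)
theorem L1101659 : W_4 (nat_lit 4) (nat_lit 0x800078002c0004000600000000000000000000000) (nat_lit 0x0) (nat_lit 0x3a001800080000000000000000000) := T_4 (nat_lit 112) (nat_lit 111) (nat_lit 4) (nat_lit 10) (nat_lit 9) L1101658 (by decide +kernel)
theorem L1115482 : W_4 (nat_lit 2) (nat_lit 0x200010001c000a000000000000000000000000000) (nat_lit 0x0) (nat_lit 0x4000400020000000000000000000) := D_4 (nat_lit 94) (nat_lit 77) (nat_lit 110) (nat_lit 5) (nat_lit 9) (nat_lit 4) (nat_lit 6) (nat_lit 8) (nat_lit 9) (by decide +kernel)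
theorem L1115483 : W_4 (nat_lit 3) (nat_lit 0x10001c000a000000000000000000000000000) (nat_lit 0x0) (nat_lit 0x400020000000000004000400020000000000000000000) := T_4 (nat_lit 161) (nat_lit 178) (nat_lit 6) (nat_lit 8) (nat_lit 10) L1115482 (by decide +kernel)
theorem L1115484 : W_4 (nat_lit 3) (nat_lit 0x30001c000a000c00000000000000000000000) (nat_lit 0x0) (nat_lit 0x35001000000000000000000000000) := T_4 (nat_lit 110) (nat_lit 108) (nat_lit 2) (nat_lit 6) (nat_lit 6) L586478 (by decide +kernel)
theorem L1115485 : W_4 (nat_lit 4) (nat_lit 0x30001c000a000400000000000000000000000) (nat_lit 0x0) (nat_lit 0x35001800040000000000000000000) := T_4 (nat_lit 95) (nat_lit 78) (nat_lit 6) (nat_lit 9) (nat_lit 8) L1115484 (by decide +kernel)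
theorem L1115486 : W_4 (nat_lit 5) (nat_lit 0x10001c000a000400000000000000000000000) (nat_lit 0x0) (nat_lit 0x8000e000000035001800040000000000000000000) := Q_4 (nat_lit 145) (C_4 L623039 (C_4 L1115485 N_4)) (by decide +kernel)
theorem L1115487 : W_4 (nat_lit 6) (nat_lit 0x10001c000a000000000000000000000000000) (nat_lit 0x0) (nat_lit 0x8000e000000035001c00060000000000000000000) := T_4 (nat_lit 94) (nat_lit 77) (nat_lit 5) (nat_lit 9) (nat_lit 4) L1115486 (by decide +kernel)
theorem L1115488 : W_4 (nat_lit 2) (nat_lit 0x200010001c000a000000000000000000000000000) (nat_lit 0x0) (nat_lit 0x2000000004000400000000000000000000000) := D_4 (nat_lit 94) (nat_lit 110) (nat_lit 145) (nat_lit 6) (nat_lit 8) (nat_lit 9) (nat_lit 5) (nat_lit 9) (nat_lit 5) (by decide +kernel)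
theorem L1115489 : W_4 (nat_lit 3) (nat_lit 0x10001c000a000000000000000000000000000) (nat_lit 0x0) (nat_lit 0x400020002000000004000400000000000000000000000) := T_4 (nat_lit 161) (nat_lit 178) (nat_lit 6) (nat_lit 8) (nat_lit 10) L1115488 (by decide +kernel)
theorem L1115742 : W_4 (nat_lit 2) (nat_lit 0x10001c000e000400000000000000000000000) (nat_lit 0x0) (nat_lit 0x1800800000000000000000000000) := D_4 (nat_lit 108) (nat_lit 107) (nat_lit 95) (nat_lit 3) (nat_lit 5) (nat_lit 6) (nat_lit 2) (nat_lit 6) (nat_lit 6) (by decide +kernel)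
theorem L1115743 : W_4 (nat_lit 3) (nat_lit 0x10001c000e000000000000000000000000000) (nat_lit 0x0) (nat_lit 0x1800c00020000000000000000000) := T_4 (nat_lit 94) (nat_lit 77) (nat_lit 5) (nat_lit 9) (nat_lit 4) L1115742 (by decide +kernel)
theorem L1115883 : W_4 (nat_lit 2) (nat_lit 0x4000000030001c0003000000000000000000000000000) (nat_lit 0x0) (nat_lit 0x4c00000000000000000000000000) := D_4 (nat_lit 107) (nat_lit 110) (nat_lit 106) (nat_lit 3) (nat_lit 5) (nat_lit 6) (nat_lit 3) (nat_lit 4) (nat_lit 6) (by decide +kernel)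
theorem L1116666 : W_4 (nat_lit 2) (nat_lit 0x4000100078002c0003400000000000000000000000000) (nat_lit 0x0) (nat_lit 0xc000200000000000000000000000000000000000000000000) := D_4 (nat_lit 177) (nat_lit 195) (nat_lit 194) (nat_lit 7) (nat_lit 7) (nat_lit 7) (nat_lit 6) (nat_lit 7) (nat_lit 11) (by decide +kernel)
theorem L1116667 : W_4 (nat_lit 3) (nat_lit 0x4000000078002c0003400000000000000000000000000) (nat_lit 0x0) (nat_lit 0xc000200018000000000000000000000000000000000000000) := T_4 (nat_lit 160) (nat_lit 159) (nat_lit 1) (nat_lit 10) (nat_lit 8) L1116666 (by decide +kernel)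
theorem L1116668 : W_4 (nat_lit 4) (nat_lit 0x4000000070002c0003400000000000000000000000000) (nat_lit 0x0) (nat_lit 0xc000200018000800400000000000000000000000000000000) := T_4 (nat_lit 143) (nat_lit 130) (nat_lit 2) (nat_lit 7) (nat_lit 8) L1116667 (by decide +kernel)
theorem L1117072 : W_4 (nat_lit 2) (nat_lit 0x18000d001f800040000000000000000000000) (nat_lit 0x0) (nat_lit 0x1c00000000000000000000000) := D_4 (nat_lit 95) (nat_lit 94) (nat_lit 96) (nat_lit 2) (nat_lit 6) (nat_lit 6) (nat_lit 2) (nat_lit 7) (nat_lit 6) (by decide +kernel)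
theorem L1117073 : W_4 (nat_lit 3) (nat_lit 0x18000d000f800040000000000000000000000) (nat_lit 0x0) (nat_lit 0x30001c00000000000000000000000) := T_4 (nat_lit 112) (nat_lit 113) (nat_lit 1) (nat_lit 11) (nat_lit 6) L1117072 (by decide +kernel)
theorem L1117074 : W_4 (nat_lit 4) (nat_lit 0x18000d0007800040000000000000000000000) (nat_lit 0x0) (nat_lit 0x38001c80000000000000000000000) := T_4 (nat_lit 111) (nat_lit 91) (nat_lit 0) (nat_lit 9) (nat_lit 6) L1117073 (by decide +kernel)
theorem L1117075 : W_4 (nat_lit 5) (nat_lit 0x18000d0007800000000000000000000000000) (nat_lit 0x0) (nat_lit 0x38001ce0000000000000000000000) := T_4 (nat_lit 90) (nat_lit 89) (nat_lit 0) (nat_lit 8) (nat_lit 6) L1117074 (by decide +kernel)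
theorem L1117076 : W_4 (nat_lit 6) (nat_lit 0x18000c0007800000000000000000000000000) (nat_lit 0x0) (nat_lit 0x18038001ce0000000000000000000000) := T_4 (nat_lit 124) (nat_lit 123) (nat_lit 1) (nat_lit 8) (nat_lit 6) L1117075 (by decide +kernel)
theorem L1117077 : W_4 (nat_lit 7) (nat_lit 0x18000c0007000000000000000000000000000) (nat_lit 0x0) (nat_lit 0x18038c01ce0000000000000000000000) := T_4 (nat_lit 107) (nat_lit 106) (nat_lit 3) (nat_lit 4) (nat_lit 6) L1117076 (by decide +kernel)
theorem L1117129 : W_4 (nat_lit 2) (nat_lit 0x1a000c0002000000000000000000000000000) (nat_lit 0x0) (nat_lit 0x500100000000000000000000000000000000) := D_4 (nat_lit 142) (nat_lit 140) (nat_lit 128) (nat_lit 2) (nat_lit 4) (nat_lit 8) (nat_lit 2) (nat_lit 5) (nat_lit 8) (by decide +kernel)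
theorem L1117167 : W_4 (nat_lit 2) (nat_lit 0x3e000c0002000000000000000000000000000) (nat_lit 0x0) (nat_lit 0xe000000000000000000000000000000000000000) := D_4 (nat_lit 158) (nat_lit 159) (nat_lit 157) (nat_lit 1) (nat_lit 9) (nat_lit 8) (nat_lit 1) (nat_lit 8) (nat_lit 8) (by decide +kernel)
theorem L1117168 : W_4 (nat_lit 3) (nat_lit 0x3c000c0002000000000000000000000000000) (nat_lit 0x0) (nat_lit 0xe000300000000000000000000000000000000000) := T_4 (nat_lit 141) (nat_lit 140) (nat_lit 2) (nat_lit 4) (nat_lit 8) L1117167 (by decide +kernel)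
theorem L1117912 : W_4 (nat_lit 11) (nat_lit 0x10001e0002000000000000000000000000000) (nat_lit 0x0) (nat_lit 0x700038000e000000198004c0026000300000000000000) := T_4 (nat_lit 111) (nat_lit 112) (nat_lit 2) (nat_lit 6) (nat_lit 7) L822727 (by decide +kernel)
theorem L1117913 : W_4 (nat_lit 12) (nat_lit 0x10001c0002000000000000000000000000000) (nat_lit 0x0) (nat_lit 0x700038000f8003801dc004c0026000300000000000000) := Q_4 (nat_lit 125) (C_4 L623012 (C_4 L1117907 (C_4 L285906 (C_4 L346019 (C_4 L1117911 (C_4 L1117912 N_4)))))) (by decide +kernel)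
theorem L1117919 : W_4 (nat_lit 13) (nat_lit 0x10000c0002000000000000000000000000000) (nat_lit 0x0) (nat_lit 0x70003803cf80f380fdc004c0026000300000000000000) := Q_4 (nat_lit 128) (C_4 L623020 (C_4 L346015 (C_4 L1117913 (C_4 L1117918 N_4)))) (by decide +kernel)
theorem L1117920 : W_4 (nat_lit 14) (nat_lit 0x10000c0000000000000000000000000000000) (nat_lit 0x0) (nat_lit 0x78003c03cf80f3c0ffe005f002e000700000000000000) := Q_4 (nat_lit 109) (C_4 L615321 (C_4 L1117903 (C_4 L1117919 (C_4 L284220 N_4)))) (by decide +kernel)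
theorem L1117922 : W_4 (nat_lit 10) (nat_lit 0x10000c0000000000000000000000000000000) (nat_lit 0x0) (nat_lit 0x30001c00ef8033803be00180004000000000000000000) := Q_4 (nat_lit 125) (C_4 L623036 (C_4 L619124 (C_4 L616510 (C_4 L345918 (C_4 L1117921 N_4))))) (by decide +kernel)
theorem L1117947 : W_4 (nat_lit 2) (nat_lit 0x5000000094007e004a000000020000000000000000000) (nat_lit 0x0) (nat_lit 0x2000800080000000000000000000000000000) := D_4 (nat_lit 131) (nat_lit 145) (nat_lit 115) (nat_lit 1) (nat_lit 12) (nat_lit 7) (nat_lit 2) (nat_lit 9) (nat_lit 7) (by decide +kernel)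
theorem L1117948 : W_4 (nat_lit 3) (nat_lit 0x5000000094007e000a000000020000000000000000000) (nat_lit 0x0) (nat_lit 0x20008000e0000000000000000000000000000) := T_4 (nat_lit 114) (nat_lit 113) (nat_lit 2) (nat_lit 8) (nat_lit 7) L1117947 (by decide +kernel)
theorem L1117949 : W_4 (nat_lit 4) (nat_lit 0x5000000014007e000a000000020000000000000000000) (nat_lit 0x0) (nat_lit 0x1a0008000e0000000000000000000000000000) := T_4 (nat_lit 147) (nat_lit 148) (nat_lit 3) (nat_lit 8) (nat_lit 7) L1117948 (by decide +kernel)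
theorem L1117950 : W_4 (nat_lit 5) (nat_lit 0x5000000014003e000a000000020000000000000000000) (nat_lit 0x0) (nat_lit 0x1a000c000e4000000000000000000000000000) := T_4 (nat_lit 130) (nat_lit 110) (nat_lit 0) (nat_lit 11) (nat_lit 7) L1117949 (by decide +kernel)
theorem L1117951 : W_4 (nat_lit 6) (nat_lit 0x5000000014001e000a000000020000000000000000000) (nat_lit 0x0) (nat_lit 0x1a800e000e4000000000000000000000000000) := T_4 (nat_lit 129) (nat_lit 143) (nat_lit 1) (nat_lit 10) (nat_lit 7) L1117950 (by decide +kernel)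
theorem L1117952 : W_4 (nat_lit 7) (nat_lit 0x4000000014001e000a000000020000000000000000000) (nat_lit 0x0) (nat_lit 0x10000801a800e000e4000000000000000000000000000) := T_4 (nat_lit 176) (nat_lit 159) (nat_lit 6) (nat_lit 6) (nat_lit 10) L1117951 (by decide +kernel)
theorem L1117953 : W_4 (nat_lit 8) (nat_lit 0x4000000014001e000a000000000000000000000000000) (nat_lit 0x0) (nat_lit 0x10000801a800e000e4000400020000000000000000000) := T_4 (nat_lit 77) (nat_lit 94) (nat_lit 5) (nat_lit 9) (nat_lit 4) L1117952 (by decide +kernel)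
theorem L1117954 : W_4 (nat_lit 9) (nat_lit 0x4000000014001e0002000000000000000000000000000) (nat_lit 0x0) (nat_lit 0x10000801a800e000fc000400020000000000000000000) := T_4 (nat_lit 111) (nat_lit 112) (nat_lit 2) (nat_lit 6) (nat_lit 7) L1117953 (by decide +kernel)
theorem L1117955 : W_4 (nat_lit 10) (nat_lit 0x4000000010001e0002000000000000000000000000000) (nat_lit 0x0) (nat_lit 0x10000801ae00e000fc000400020000000000000000000) := T_4 (nat_lit 142) (nat_lit 141) (nat_lit 1) (nat_lit 9) (nat_lit 7) L1117954 (by decide +kernel)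
theorem L1117956 : W_4 (nat_lit 11) (nat_lit 0x10001e0002000000000000000000000000000) (nat_lit 0x0) (nat_lit 0x50002801ae00e000fc000400020000000000000000000) := T_4 (nat_lit 178) (nat_lit 161) (nat_lit 4) (nat_lit 8) (nat_lit 10) L1117955 (by decide +kernel)
theorem L1117957 : W_4 (nat_lit 12) (nat_lit 0x10000e0002000000000000000000000000000) (nat_lit 0x0) (nat_lit 0x70003801ae00f000fd8004c0026000300000000000000) := Q_4 (nat_lit 128) (C_4 L1117931 (C_4 L1117912 (C_4 L1117956 N_4))) (by decide +kernel)
theorem L1117958 : W_4 (nat_lit 13) (nat_lit 0x10000c0002000000000000000000000000000) (nat_lit 0x0) (nat_lit 0x7f003f81afe0f3e0fdf804f0027000300000000000000) := Q_4 (nat_lit 125) (C_4 L616492 (C_4 L616485 (C_4 L616486 (C_4 L616488 (C_4 L346066 (C_4 L1117957 N_4)))))) (by decide +kernel)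
theorem L1117959 : W_4 (nat_lit 14) (nat_lit 0x10000c0000000000000000000000000000000) (nat_lit 0x0) (nat_lit 0x7f003f81afe0f3e0fff805f002f000700000000000000) := Q_4 (nat_lit 109) (C_4 L1117903 (C_4 L615321 (C_4 L1117958 (C_4 L284285 N_4)))) (by decide +kernel)
theorem L1117978 : W_4 (nat_lit 3) (nat_lit 0x34001e0001000000000000000000000000000) (nat_lit 0x0) (nat_lit 0x200010000800200000000080000000000000000000000) := T_4 (nat_lit 143) (nat_lit 129) (nat_lit 2) (nat_lit 6) (nat_lit 8) L1045407 (by decide +kernel)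
theorem L1117979 : W_4 (nat_lit 4) (nat_lit 0x30001e0001000000000000000000000000000) (nat_lit 0x0) (nat_lit 0x200010000e00200000000080000000000000000000000) := T_4 (nat_lit 142) (nat_lit 141) (nat_lit 1) (nat_lit 9) (nat_lit 7) L1117978 (by decide +kernel)
theorem L1117980 : W_4 (nat_lit 5) (nat_lit 0x10001e0001000000000000000000000000000) (nat_lit 0x0) (nat_lit 0x200010006e00200000000080000000000000000000000) := T_4 (nat_lit 145) (nat_lit 146) (nat_lit 3) (nat_lit 6) (nat_lit 7) L1117979 (by decide +kernel)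
theorem L1117981 : W_4 (nat_lit 6) (nat_lit 0x10001e0000000000000000000000000000000) (nat_lit 0x0) (nat_lit 0x200010006e00200001800080000000000000000000000) := T_4 (nat_lit 108) (nat_lit 107) (nat_lit 0) (nat_lit 9) (nat_lit 7) L1117980 (by decide +kernel)
theorem L1117982 : W_4 (nat_lit 8) (nat_lit 0x10000e0000000000000000000000000000000) (nat_lit 0x0) (nat_lit 0x20003003ee00f00079800480020000000000000000000) := Q_4 (nat_lit 128) (C_4 L1117972 (C_4 L623035 (C_4 L499559 (C_4 L1117981 N_4)))) (by decide +kernel)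
theorem L1117983 : W_4 (nat_lit 9) (nat_lit 0x10000c0000000000000000000000000000000) (nat_lit 0x0) (nat_lit 0x30003803ef80f38079e004c0020000000000000000000) := Q_4 (nat_lit 125) (C_4 L1117969 (C_4 L619124 (C_4 L616510 (C_4 L345918 (C_4 L1117982 N_4))))) (by decide +kernel)
theorem L1117985 : W_4 (nat_lit 2) (nat_lit 0x400008003c001e000b000c00000000000000000000000) (nat_lit 0x0) (nat_lit 0x200010000000000000000080000000000000000000000) := D_4 (nat_lit 160) (nat_lit 91) (nat_lit 177) (nat_lit 7) (nat_lit 6) (nat_lit 5) (nat_lit 7) (nat_lit 6) (nat_lit 6) (by decide +kernel)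
theorem L1117986 : W_4 (nat_lit 3) (nat_lit 0x400008003c001e000a000c00000000000000000000000) (nat_lit 0x0) (nat_lit 0x200010000000000005000080000000000000000000000) := T_4 (nat_lit 108) (nat_lit 110) (nat_lit 2) (nat_lit 6) (nat_lit 6) L1117985 (by decide +kernel)
theorem L1117987 : W_4 (nat_lit 4) (nat_lit 0x400008003c001e000a000400000000000000000000000) (nat_lit 0x0) (nat_lit 0x200010000000000005000880040000000000000000000) := T_4 (nat_lit 95) (nat_lit 78) (nat_lit 6) (nat_lit 9) (nat_lit 8) L1117986 (by decide +kernel)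
theorem L1117988 : W_4 (nat_lit 5) (nat_lit 0x4000080034001e000a000400000000000000000000000) (nat_lit 0x0) (nat_lit 0x200014000800000005000880040000000000000000000) := T_4 (nat_lit 143) (nat_lit 158) (nat_lit 1) (nat_lit 9) (nat_lit 8) L1117987 (by decide +kernel)
theorem L1117989 : W_4 (nat_lit 6) (nat_lit 0x4000080014001e000a000400000000000000000000000) (nat_lit 0x0) (nat_lit 0x200014006800000005000880040000000000000000000) := T_4 (nat_lit 145) (nat_lit 146) (nat_lit 3) (nat_lit 6) (nat_lit 7) L1117988 (by decide +kernel)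
theorem L1117990 : W_4 (nat_lit 7) (nat_lit 0x4000000014001e000a000400000000000000000000000) (nat_lit 0x0) (nat_lit 0x30001c006800000005000880040000000000000000000) := T_4 (nat_lit 159) (nat_lit 176) (nat_lit 6) (nat_lit 6) (nat_lit 10) L1117989 (by decide +kernel)
theorem L1117991 : W_4 (nat_lit 8) (nat_lit 0x4000000014001e000a000000000000000000000000000) (nat_lit 0x0) (nat_lit 0x30001c006800000005000c80060000000000000000000) := T_4 (nat_lit 94) (nat_lit 77) (nat_lit 5) (nat_lit 9) (nat_lit 4) L1117990 (by decide +kernel)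
theorem L1117992 : W_4 (nat_lit 9) (nat_lit 0x4000000014001e0002000000000000000000000000000) (nat_lit 0x0) (nat_lit 0x30001c00680000001d000c80060000000000000000000) := T_4 (nat_lit 111) (nat_lit 112) (nat_lit 2) (nat_lit 6) (nat_lit 7) L1117991 (by decide +kernel)
theorem L1117993 : W_4 (nat_lit 10) (nat_lit 0x4000000010001e0002000000000000000000000000000) (nat_lit 0x0) (nat_lit 0x30001c006e0000001d000c80060000000000000000000) := T_4 (nat_lit 142) (nat_lit 141) (nat_lit 1) (nat_lit 9) (nat_lit 7) L1117992 (by decide +kernel)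
theorem L1117994 : W_4 (nat_lit 11) (nat_lit 0x10001e0002000000000000000000000000000) (nat_lit 0x0) (nat_lit 0x70003c006e0000001d000c80060000000000000000000) := T_4 (nat_lit 178) (nat_lit 161) (nat_lit 4) (nat_lit 8) (nat_lit 10) L1117993 (by decide +kernel)
theorem L1117995 : W_4 (nat_lit 12) (nat_lit 0x10001c0002000000000000000000000000000) (nat_lit 0x0) (nat_lit 0x70003c006f0003001d000c80060000000000000000000) := Q_4 (nat_lit 125) (C_4 L345920 (C_4 L1117911 (C_4 L1117994 N_4))) (by decide +kernel)
theorem L1117996 : W_4 (nat_lit 13) (nat_lit 0x10000c0002000000000000000000000000000) (nat_lit 0x0) (nat_lit 0x70003c03ef00f300fd000c80060000000000000000000) := Q_4 (nat_lit 128) (C_4 L1117918 (C_4 L623005 (C_4 L1117995 (C_4 L623020 N_4)))) (by decide +kernel)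
theorem L1117997 : W_4 (nat_lit 14) (nat_lit 0x10000c0000000000000000000000000000000) (nat_lit 0x0) (nat_lit 0x40017000be03ef00f300ff000d8006c000000000000000000) := Q_4 (nat_lit 109) (C_4 L615321 (C_4 L1115481 (C_4 L1117996 (C_4 L284220 N_4)))) (by decide +kernel)
theorem L1117998 : W_4 (nat_lit 16) (nat_lit 0x1000080000000000000000000000000000000) (nat_lit 0x0) (nat_lit 0x8002f01ffe07ff07bf83efe0f7e0fff81df00ef000700000000000000) := Q_4 (nat_lit 126) (C_4 L619125 (C_4 L1117879 (C_4 L1117920 (C_4 L1117922 (C_4 L1117946 (C_4 L1117959 (C_4 L1117968 (C_4 L1117977 (C_4 L345919 (C_4 L1117983 (C_4 L1117984 (C_4 L1117997 N_4)))))))))))) (by decide +kernel)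
theorem L1118025 : W_4 (nat_lit 10) (nat_lit 0x20001000080004000000000000000000000000000) (nat_lit 0x0) (nat_lit 0x30001c00e80077803bc005e0000000000000000000000) := Q_4 (nat_lit 126) (C_4 L318 (C_4 L246 (C_4 L420 (C_4 L1118024 (C_4 L314 N_4))))) (by decide +kernel)
theorem L1118026 : W_4 (nat_lit 11) (nat_lit 0x1000080004000000000000000000000000000) (nat_lit 0x0) (nat_lit 0x20001c000f0003c00e80077803bc005e0000000000000000000000) := Q_4 (nat_lit 161) (C_4 L39788 (C_4 L1048914 (C_4 L1118025 (C_4 L1048908 (C_4 L150 N_4))))) (by decide +kernel)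
theorem L1118033 : W_4 (nat_lit 2) (nat_lit 0x2000180038000c000200030000000000000000000) (nat_lit 0x0) (nat_lit 0x3000100000000000000000000000) := D_4 (nat_lit 109) (nat_lit 108) (nat_lit 92) (nat_lit 3) (nat_lit 6) (nat_lit 6) (nat_lit 4) (nat_lit 8) (nat_lit 9) (by decide +kernel)
theorem L1118034 : W_4 (nat_lit 3) (nat_lit 0x180038000c000200030000000000000000000) (nat_lit 0x0) (nat_lit 0x400020000000000003000100000000000000000000000) := T_4 (nat_lit 161) (nat_lit 178) (nat_lit 6) (nat_lit 8) (nat_lit 10) L1118033 (by decide +kernel)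
theorem L1118035 : W_4 (nat_lit 4) (nat_lit 0x180018000c000200030000000000000000000) (nat_lit 0x0) (nat_lit 0x400020000000600003000100000000000000000000000) := T_4 (nat_lit 129) (nat_lit 130) (nat_lit 1) (nat_lit 11) (nat_lit 7) L1118034 (by decide +kernel)
theorem L1118036 : W_4 (nat_lit 5) (nat_lit 0x1800180004000200030000000000000000000) (nat_lit 0x0) (nat_lit 0x40002000000060000b000100000000800000000000000) := T_4 (nat_lit 111) (nat_lit 59) (nat_lit 7) (nat_lit 8) (nat_lit 3) L1118035 (by decide +kernel)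
theorem L1118037 : W_4 (nat_lit 6) (nat_lit 0x1800080004000200030000000000000000000) (nat_lit 0x0) (nat_lit 0x40002000200070000b000100000000800000000000000) := T_4 (nat_lit 128) (nat_lit 145) (nat_lit 7) (nat_lit 8) (nat_lit 4) L1118036 (by decide +kernel)
theorem L1118038 : W_4 (nat_lit 7) (nat_lit 0x1800080004000200010000000000000000000) (nat_lit 0x0) (nat_lit 0x40002000200070000b000100020001800000000000000) := T_4 (nat_lit 77) (nat_lit 60) (nat_lit 6) (nat_lit 8) (nat_lit 7) L1118037 (by decide +kernel)
theorem L1118039 : W_4 (nat_lit 8) (nat_lit 0x1800080004000200000000000000000000000) (nat_lit 0x0) (nat_lit 0x40002000200074000b000100030001800000000000000) := T_4 (nat_lit 76) (nat_lit 126) (nat_lit 5) (nat_lit 8) (nat_lit 4) L1118038 (by decide +kernel)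
theorem L1118040 : W_4 (nat_lit 9) (nat_lit 0x1000080004000200000000000000000000000) (nat_lit 0x0) (nat_lit 0x40003000280074000b000100030001800000000000000) := T_4 (nat_lit 143) (nat_lit 160) (nat_lit 5) (nat_lit 8) (nat_lit 5) L1118039 (by decide +kernel)
theorem L1118041 : W_4 (nat_lit 10) (nat_lit 0x1000080004000000000000000000000000000) (nat_lit 0x0) (nat_lit 0x60003000280074000b000300038001c000e0000000000) := Q_4 (nat_lit 93) (C_4 L1048890 (C_4 L1048585 (C_4 L76322 (C_4 L1118032 (C_4 L1118040 N_4))))) (by decide +kernel)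
theorem L1118042 : W_4 (nat_lit 12) (nat_lit 0x1000080000000000000000000000000000000) (nat_lit 0x0) (nat_lit 0x28001c000f000bc00e801f7807fc01fe007e003e000f0001000000) := Q_4 (nat_lit 110) (C_4 L1048916 (C_4 L235 (C_4 L1118026 (C_4 L1048891 (C_4 L1048894 (C_4 L1048915 (C_4 L1118041 N_4))))))) (by decide +kernel)
theorem L1118242 : W_4 (nat_lit 2) (nat_lit 0x8003c001a00590006800000000000000000000000000) (nat_lit 0x0) (nat_lit 0x8000400020000000000000000000000) := D_4 (nat_lit 106) (nat_lit 123) (nat_lit 89) (nat_lit 4) (nat_lit 5) (nat_lit 10) (nat_lit 4) (nat_lit 5) (nat_lit 9) (by decide +kernel)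
theorem L1118243 : W_4 (nat_lit 3) (nat_lit 0x8003c001a00580006800000000000000000000000000) (nat_lit 0x0) (nat_lit 0x100000000000018000400020000000000000000000000) := T_4 (nat_lit 124) (nat_lit 176) (nat_lit 7) (nat_lit 5) (nat_lit 6) L1118242 (by decide +kernel)
theorem L1118244 : W_4 (nat_lit 4) (nat_lit 0x3c001a00580006800000000000000000000000000) (nat_lit 0x0) (nat_lit 0x1c0000000000018000400020000000000000000000000) := T_4 (nat_lit 175) (nat_lit 174) (nat_lit 1) (nat_lit 8) (nat_lit 9) L1118243 (by decide +kernel)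
theorem L1118245 : W_4 (nat_lit 5) (nat_lit 0x3c001800580006800000000000000000000000000) (nat_lit 0x0) (nat_lit 0x1c0000000300018000400020000000000000000000000) := T_4 (nat_lit 141) (nat_lit 140) (nat_lit 0) (nat_lit 8) (nat_lit 9) L1118244 (by decide +kernel)
theorem L1118282 : W_4 (nat_lit 6) (nat_lit 0x38001800580006800000000000000000000000000) (nat_lit 0x0) (nat_lit 0x1c0006000300018000400020000000000000000000000) := T_4 (nat_lit 158) (nat_lit 157) (nat_lit 2) (nat_lit 4) (nat_lit 9) L1118245 (by decide +kernel)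
theorem L1118283 : W_4 (nat_lit 7) (nat_lit 0x38001800180006800000000000000000000000000) (nat_lit 0x0) (nat_lit 0x1c0006000300618000400020000000000000000000000) := T_4 (nat_lit 130) (nat_lit 129) (nat_lit 1) (nat_lit 11) (nat_lit 7) L1118282 (by decide +kernel)
theorem L1118284 : W_4 (nat_lit 8) (nat_lit 0x38001800180006000000000000000000000000000) (nat_lit 0x0) (nat_lit 0x1c0006000300618001c00020000000000000000000000) := T_4 (nat_lit 107) (nat_lit 108) (nat_lit 3) (nat_lit 5) (nat_lit 6) L1118283 (by decide +kernel)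
theorem L1119160 : W_4 (nat_lit 2) (nat_lit 0x20001800380006800000000000000000000000000) (nat_lit 0x0) (nat_lit 0x2600000000000000000000000000000000000) := D_4 (nat_lit 142) (nat_lit 141) (nat_lit 145) (nat_lit 2) (nat_lit 5) (nat_lit 8) (nat_lit 2) (nat_lit 6) (nat_lit 8) (by decide +kernel)
theorem L1119161 : W_4 (nat_lit 3) (nat_lit 0x20001800180006800000000000000000000000000) (nat_lit 0x0) (nat_lit 0x2600600000000000000000000000000000000) := T_4 (nat_lit 129) (nat_lit 130) (nat_lit 1) (nat_lit 11) (nat_lit 7) L1119160 (by decide +kernel)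
theorem L1122206 : W_4 (nat_lit 2) (nat_lit 0x120007c00480006000000000000000000000000000) (nat_lit 0x0) (nat_lit 0x200008000800000000000000000000000000000000) := D_4 (nat_lit 147) (nat_lit 131) (nat_lit 165) (nat_lit 2) (nat_lit 8) (nat_lit 8) (nat_lit 3) (nat_lit 8) (nat_lit 8) (by decide +kernel)
theorem L1122207 : W_4 (nat_lit 3) (nat_lit 0x20007c00480006000000000000000000000000000) (nat_lit 0x0) (nat_lit 0x380008000800000000000000000000000000000000) := T_4 (nat_lit 164) (nat_lit 163) (nat_lit 3) (nat_lit 7) (nat_lit 8) L1122206 (by decide +kernel)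
theorem L1122672 : W_4 (nat_lit 2) (nat_lit 0x24001e00090006000000000000000000000000000) (nat_lit 0x0) (nat_lit 0x8002000020000000000000000000000000000000) := D_4 (nat_lit 145) (nat_lit 159) (nat_lit 125) (nat_lit 1) (nat_lit 9) (nat_lit 8) (nat_lit 0) (nat_lit 9) (nat_lit 8) (by decide +kernel)
theorem L1122673 : W_4 (nat_lit 3) (nat_lit 0x24001e00080006000000000000000000000000000) (nat_lit 0x0) (nat_lit 0x8002000038000000000000000000000000000000) := T_4 (nat_lit 124) (nat_lit 123) (nat_lit 0) (nat_lit 8) (nat_lit 8) L1122672 (by decide +kernel)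
theorem L1122674 : W_4 (nat_lit 4) (nat_lit 0x20001e00080006000000000000000000000000000) (nat_lit 0x0) (nat_lit 0xe002000038000000000000000000000000000000) := T_4 (nat_lit 158) (nat_lit 157) (nat_lit 1) (nat_lit 8) (nat_lit 8) L1122673 (by decide +kernel)
theorem L1122675 : W_4 (nat_lit 5) (nat_lit 0x20001c00080006000000000000000000000000000) (nat_lit 0x0) (nat_lit 0xe002200138000000000000000000000000000000) := T_4 (nat_lit 141) (nat_lit 128) (nat_lit 2) (nat_lit 5) (nat_lit 8) L1122674 (by decide +kernel)
theorem L1122676 : W_4 (nat_lit 6) (nat_lit 0x20001c00080004000000000000000000000000000) (nat_lit 0x0) (nat_lit 0xe002200138002000100000000000000000000000) := T_4 (nat_lit 109) (nat_lit 92) (nat_lit 4) (nat_lit 8) (nat_lit 9) L1122675 (by decide +kernel)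
theorem L1122677 : W_4 (nat_lit 2) (nat_lit 0x20001e00080004000000000000000000000000000) (nat_lit 0x0) (nat_lit 0x200010000100000000000000000000000000000000000) := D_4 (nat_lit 160) (nat_lit 177) (nat_lit 140) (nat_lit 5) (nat_lit 8) (nat_lit 6) (nat_lit 3) (nat_lit 4) (nat_lit 8) (by decide +kernel)
theorem L1122678 : W_4 (nat_lit 3) (nat_lit 0x20001c00080004000000000000000000000000000) (nat_lit 0x0) (nat_lit 0x200010000300100000000000000000000000000000000) := T_4 (nat_lit 141) (nat_lit 128) (nat_lit 2) (nat_lit 5) (nat_lit 8) L1122677 (by decide +kernel)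
theorem L1122679 : W_4 (nat_lit 2) (nat_lit 0x34001e00090006000000000000000000000000000) (nat_lit 0x0) (nat_lit 0x8002000020000000000000000000000000000000) := D_4 (nat_lit 145) (nat_lit 125) (nat_lit 159) (nat_lit 0) (nat_lit 9) (nat_lit 8) (nat_lit 2) (nat_lit 5) (nat_lit 9) (by decide +kernel)
theorem L1122680 : W_4 (nat_lit 3) (nat_lit 0x30001e00090006000000000000000000000000000) (nat_lit 0x0) (nat_lit 0xe002000020000000000000000000000000000000) := T_4 (nat_lit 158) (nat_lit 157) (nat_lit 1) (nat_lit 8) (nat_lit 8) L1122679 (by decide +kernel)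
theorem L1122681 : W_4 (nat_lit 4) (nat_lit 0x30001e00080006000000000000000000000000000) (nat_lit 0x0) (nat_lit 0xe002000038000000000000000000000000000000) := T_4 (nat_lit 124) (nat_lit 123) (nat_lit 0) (nat_lit 8) (nat_lit 8) L1122680 (by decide +kernel)
theorem L1122682 : W_4 (nat_lit 5) (nat_lit 0x30001e00080004000000000000000000000000000) (nat_lit 0x0) (nat_lit 0xe002000038002000100000000000000000000000) := T_4 (nat_lit 109) (nat_lit 92) (nat_lit 4) (nat_lit 8) (nat_lit 9) L1122681 (by decide +kernel)
theorem L1122683 : W_4 (nat_lit 6) (nat_lit 0x30001c00080004000000000000000000000000000) (nat_lit 0x0) (nat_lit 0xe002300038002000100000000000000000000000) := T_4 (nat_lit 141) (nat_lit 140) (nat_lit 3) (nat_lit 4) (nat_lit 8) L1122682 (by decide +kernel)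
theorem L1122684 : W_4 (nat_lit 7) (nat_lit 0x20001c00080004000000000000000000000000000) (nat_lit 0x0) (nat_lit 0x20001e002300038002000100000000000000000000000) := T_4 (nat_lit 160) (nat_lit 177) (nat_lit 5) (nat_lit 8) (nat_lit 6) L1122683 (by decide +kernel)
theorem L1122685 : W_4 (nat_lit 2) (nat_lit 0x28003c00080006000000000000000000000000000) (nat_lit 0x0) (nat_lit 0x200010004000000000000000000000000000000000000) := D_4 (nat_lit 160) (nat_lit 177) (nat_lit 146) (nat_lit 5) (nat_lit 8) (nat_lit 6) (nat_lit 1) (nat_lit 10) (nat_lit 8) (by decide +kernel)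
theorem L1122686 : W_4 (nat_lit 3) (nat_lit 0x20003c00080006000000000000000000000000000) (nat_lit 0x0) (nat_lit 0x20001c004000000000000000000000000000000000000) := T_4 (nat_lit 159) (nat_lit 158) (nat_lit 1) (nat_lit 9) (nat_lit 8) L1122685 (by decide +kernel)
theorem L1122687 : W_4 (nat_lit 4) (nat_lit 0x20003c00080004000000000000000000000000000) (nat_lit 0x0) (nat_lit 0x20001c004000000002000100000000000000000000000) := T_4 (nat_lit 109) (nat_lit 92) (nat_lit 4) (nat_lit 8) (nat_lit 9) L1122686 (by decide +kernel)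
theorem L1122695 : W_4 (nat_lit 4) (nat_lit 0x20007c00080006000000000000000000000000000) (nat_lit 0x0) (nat_lit 0x380008000e00000000000000000000000000000000) := T_4 (nat_lit 130) (nat_lit 129) (nat_lit 2) (nat_lit 7) (nat_lit 8) L1122207 (by decide +kernel)
theorem L1122696 : W_4 (nat_lit 5) (nat_lit 0x20007c00080004000000000000000000000000000) (nat_lit 0x0) (nat_lit 0x380008000e00002000100000000000000000000000) := T_4 (nat_lit 109) (nat_lit 92) (nat_lit 4) (nat_lit 8) (nat_lit 9) L1122695 (by decide +kernel)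
theorem L1122697 : W_4 (nat_lit 2) (nat_lit 0x2800fc00180006000000000000000000000000000) (nat_lit 0x0) (nat_lit 0x380000000000000000000000000000000000000000) := D_4 (nat_lit 164) (nat_lit 163) (nat_lit 165) (nat_lit 3) (nat_lit 7) (nat_lit 8) (nat_lit 3) (nat_lit 8) (nat_lit 8) (by decide +kernel)
theorem L1122698 : W_4 (nat_lit 3) (nat_lit 0x28007c00180006000000000000000000000000000) (nat_lit 0x0) (nat_lit 0x380018000000000000000000000000000000000000) := T_4 (nat_lit 147) (nat_lit 148) (nat_lit 0) (nat_lit 12) (nat_lit 8) L1122697 (by decide +kernel)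
theorem L1122699 : W_4 (nat_lit 4) (nat_lit 0x28007c00080006000000000000000000000000000) (nat_lit 0x0) (nat_lit 0x380018000300000000000000000000000000000000) := T_4 (nat_lit 128) (nat_lit 129) (nat_lit 2) (nat_lit 6) (nat_lit 8) L1122698 (by decide +kernel)
theorem L1122700 : W_4 (nat_lit 5) (nat_lit 0x28007c00080004000000000000000000000000000) (nat_lit 0x0) (nat_lit 0x380018000300002000100000000000000000000000) := T_4 (nat_lit 109) (nat_lit 92) (nat_lit 4) (nat_lit 8) (nat_lit 9) L1122699 (by decide +kernel)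
theorem L1122701 : W_4 (nat_lit 6) (nat_lit 0x20007c00080004000000000000000000000000000) (nat_lit 0x0) (nat_lit 0x38c018000300002000100000000000000000000000) := T_4 (nat_lit 159) (nat_lit 158) (nat_lit 1) (nat_lit 9) (nat_lit 8) L1122700 (by decide +kernel)
theorem L1122702 : W_4 (nat_lit 8) (nat_lit 0x20003c00080004000000000000000000000000000) (nat_lit 0x0) (nat_lit 0x38c01c001f30002000100000000000000000000000) := Q_4 (nat_lit 146) (C_4 L1122688 (C_4 L1122694 (C_4 L1122696 (C_4 L1122701 N_4)))) (by decide +kernel)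
theorem L1122703 : W_4 (nat_lit 2) (nat_lit 0x34003c001a0006000000000000000000000000000) (nat_lit 0x0) (nat_lit 0x1800080000000000000000000000) := D_4 (nat_lit 108) (nat_lit 107) (nat_lit 91) (nat_lit 3) (nat_lit 5) (nat_lit 6) (nat_lit 7) (nat_lit 6) (nat_lit 5) (by decide +kernel)
theorem L1122704 : W_4 (nat_lit 3) (nat_lit 0x34003c001a0004000000000000000000000000000) (nat_lit 0x0) (nat_lit 0x3800180000000000000000000000) := T_4 (nat_lit 109) (nat_lit 92) (nat_lit 4) (nat_lit 8) (nat_lit 9) L1122703 (by decide +kernel)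
theorem L1122705 : W_4 (nat_lit 4) (nat_lit 0x34003c00180004000000000000000000000000000) (nat_lit 0x0) (nat_lit 0x30003800180000000000000000000000) := T_4 (nat_lit 125) (nat_lit 124) (nat_lit 0) (nat_lit 9) (nat_lit 8) L1122704 (by decide +kernel)
theorem L1122706 : W_4 (nat_lit 5) (nat_lit 0x30003c00180004000000000000000000000000000) (nat_lit 0x0) (nat_lit 0xc000000030003800180000000000000000000000) := T_4 (nat_lit 158) (nat_lit 159) (nat_lit 2) (nat_lit 5) (nat_lit 9) L1122705 (by decide +kernel)
theorem L1122707 : W_4 (nat_lit 6) (nat_lit 0x20003c00180004000000000000000000000000000) (nat_lit 0x0) (nat_lit 0x20001c000000030003800180000000000000000000000) := T_4 (nat_lit 160) (nat_lit 177) (nat_lit 5) (nat_lit 8) (nat_lit 6) L1122706 (by decide +kernel)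
theorem L1122708 : W_4 (nat_lit 7) (nat_lit 0x20003c00080004000000000000000000000000000) (nat_lit 0x0) (nat_lit 0x20001c000000330003800180000000000000000000000) := T_4 (nat_lit 128) (nat_lit 129) (nat_lit 2) (nat_lit 6) (nat_lit 8) L1122707 (by decide +kernel)
theorem L1122709 : W_4 (nat_lit 2) (nat_lit 0x30007c000a0004000080000000000000000000000) (nat_lit 0x0) (nat_lit 0x700000000000000000000000000000000) := D_4 (nat_lit 129) (nat_lit 128) (nat_lit 130) (nat_lit 2) (nat_lit 6) (nat_lit 8) (nat_lit 2) (nat_lit 7) (nat_lit 8) (by decide +kernel)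
theorem L1122710 : W_4 (nat_lit 3) (nat_lit 0x30003c000a0004000080000000000000000000000) (nat_lit 0x0) (nat_lit 0xc000700000000000000000000000000000000) := T_4 (nat_lit 146) (nat_lit 147) (nat_lit 1) (nat_lit 11) (nat_lit 8) L1122709 (by decide +kernel)
theorem L1122711 : W_4 (nat_lit 4) (nat_lit 0x30003c000a0004000000000000000000000000000) (nat_lit 0x0) (nat_lit 0xc000700001000080000000000000000000000) := T_4 (nat_lit 91) (nat_lit 108) (nat_lit 7) (nat_lit 6) (nat_lit 5) L1122710 (by decide +kernel)
theorem L1122712 : W_4 (nat_lit 5) (nat_lit 0x20003c000a0004000000000000000000000000000) (nat_lit 0x0) (nat_lit 0x20001000c000700001000080000000000000000000000) := T_4 (nat_lit 160) (nat_lit 177) (nat_lit 5) (nat_lit 8) (nat_lit 6) L1122711 (by decide +kernel)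
theorem L1122713 : W_4 (nat_lit 6) (nat_lit 0x20003c00080004000000000000000000000000000) (nat_lit 0x0) (nat_lit 0x20001000c000730001000080000000000000000000000) := T_4 (nat_lit 125) (nat_lit 124) (nat_lit 0) (nat_lit 9) (nat_lit 8) L1122712 (by decide +kernel)
theorem L1122714 : W_4 (nat_lit 9) (nat_lit 0x20001c00080004000000000000000000000000000) (nat_lit 0x0) (nat_lit 0x20039c01e001f30003800180000000000000000000000) := Q_4 (nat_lit 145) (C_4 L1122687 (C_4 L1122702 (C_4 L1122708 (C_4 L1122713 N_4)))) (by decide +kernel)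
theorem L1122715 : W_4 (nat_lit 10) (nat_lit 0x20001800080004000000000000000000000000000) (nat_lit 0x0) (nat_lit 0x20039e01e701f38003800180000000000000000000000) := Q_4 (nat_lit 142) (C_4 L1122676 (C_4 L1122678 (C_4 L1122684 (C_4 L1122714 N_4)))) (by decide +kernel)
theorem L1129449 : W_4 (nat_lit 2) (nat_lit 0x200010000c0027000000000000000000000000000) (nat_lit 0x0) (nat_lit 0x100000c00000000000000000000000000) := D_4 (nat_lit 107) (nat_lit 106) (nat_lit 128) (nat_lit 3) (nat_lit 4) (nat_lit 6) (nat_lit 3) (nat_lit 5) (nat_lit 6) (by decide +kernel)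
theorem L1129450 : W_4 (nat_lit 2) (nat_lit 0x380018000c0027400000000000000000000000000) (nat_lit 0x0) (nat_lit 0x6002000000000000000000000000000000000000) := D_4 (nat_lit 158) (nat_lit 145) (nat_lit 157) (nat_lit 2) (nat_lit 5) (nat_lit 9) (nat_lit 2) (nat_lit 4) (nat_lit 9) (by decide +kernel)
theorem L1129451 : W_4 (nat_lit 3) (nat_lit 0x300018000c0027400000000000000000000000000) (nat_lit 0x0) (nat_lit 0x10000e002000000000000000000000000000000000000) := T_4 (nat_lit 159) (nat_lit 176) (nat_lit 5) (nat_lit 7) (nat_lit 6) L1129450 (by decide +kernel)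
theorem L1129452 : W_4 (nat_lit 4) (nat_lit 0x300018000c0027000000000000000000000000000) (nat_lit 0x0) (nat_lit 0x10000e002000000000c00000000000000000000000000) := T_4 (nat_lit 106) (nat_lit 107) (nat_lit 3) (nat_lit 4) (nat_lit 6) L1129451 (by decide +kernel)
theorem L1129453 : W_4 (nat_lit 5) (nat_lit 0x300010000c0027000000000000000000000000000) (nat_lit 0x0) (nat_lit 0x10000e002800000000c00080000000000000000000000) := T_4 (nat_lit 143) (nat_lit 91) (nat_lit 4) (nat_lit 7) (nat_lit 9) L1129452 (by decide +kernel)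
theorem L1129454 : W_4 (nat_lit 6) (nat_lit 0x200010000c0027000000000000000000000000000) (nat_lit 0x0) (nat_lit 0x30001e002800000000c00080000000000000000000000) := T_4 (nat_lit 160) (nat_lit 177) (nat_lit 5) (nat_lit 8) (nat_lit 6) L1129453 (by decide +kernel)
theorem L1129455 : W_4 (nat_lit 2) (nat_lit 0x380018000c0027000000000000000000000000000) (nat_lit 0x0) (nat_lit 0x6002000000000000000000000000000000000000) := D_4 (nat_lit 158) (nat_lit 145) (nat_lit 157) (nat_lit 2) (nat_lit 5) (nat_lit 9) (nat_lit 2) (nat_lit 4) (nat_lit 9) (by decide +kernel)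
theorem L1129456 : W_4 (nat_lit 3) (nat_lit 0x300018000c0027000000000000000000000000000) (nat_lit 0x0) (nat_lit 0x10000e002000000000000000000000000000000000000) := T_4 (nat_lit 159) (nat_lit 176) (nat_lit 5) (nat_lit 7) (nat_lit 6) L1129455 (by decide +kernel)
theorem L1129457 : W_4 (nat_lit 4) (nat_lit 0x300010000c0027000000000000000000000000000) (nat_lit 0x0) (nat_lit 0x10000e002800000000000080000000000000000000000) := T_4 (nat_lit 143) (nat_lit 91) (nat_lit 4) (nat_lit 7) (nat_lit 9) L1129456 (by decide +kernel)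
theorem L1129458 : W_4 (nat_lit 5) (nat_lit 0x200010000c0027000000000000000000000000000) (nat_lit 0x0) (nat_lit 0x30001e002800000000000080000000000000000000000) := T_4 (nat_lit 160) (nat_lit 177) (nat_lit 5) (nat_lit 8) (nat_lit 6) L1129457 (by decide +kernel)
theorem L1129459 : W_4 (nat_lit 7) (nat_lit 0x200010000c0026000000000000000000000000000) (nat_lit 0x0) (nat_lit 0x30001e002800100001c00080000000000000000000000) := Q_4 (nat_lit 108) (C_4 L1129449 (C_4 L1129454 (C_4 L1129458 N_4))) (by decide +kernel)
theorem L1129460 : W_4 (nat_lit 8) (nat_lit 0x200010000c0024000000000000000000000000000) (nat_lit 0x0) (nat_lit 0x30001e002800100003c00180000000000000000000000) := T_4 (nat_lit 109) (nat_lit 92) (nat_lit 4) (nat_lit 8) (nat_lit 9) L1129459 (by decide +kernel)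
theorem L1129461 : W_4 (nat_lit 9) (nat_lit 0x200010000c0004000000000000000000000000000) (nat_lit 0x0) (nat_lit 0x30001e00280010003bc00580000000000000000000000) := Q_4 (nat_lit 113) (C_4 L317312 (C_4 L1129460 N_4)) (by decide +kernel)
theorem L1129462 : W_4 (nat_lit 10) (nat_lit 0x20001000080004000000000000000000000000000) (nat_lit 0x0) (nat_lit 0x30001e00e80017803bc00580000000000000000000000) := Q_4 (nat_lit 126) (C_4 L318 (C_4 L1118024 (C_4 L246 (C_4 L1129461 (C_4 L420 N_4))))) (by decide +kernel)
theorem L1129464 : W_4 (nat_lit 2) (nat_lit 0x280034001e0007000000000000000000000000000) (nat_lit 0x0) (nat_lit 0x80004000800000000000000000000000000000000000) := D_4 (nat_lit 158) (nat_lit 175) (nat_lit 143) (nat_lit 5) (nat_lit 6) (nat_lit 6) (nat_lit 1) (nat_lit 9) (nat_lit 8) (by decide +kernel)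
theorem L1129465 : W_4 (nat_lit 3) (nat_lit 0x200034001e0007000000000000000000000000000) (nat_lit 0x0) (nat_lit 0x18000c000800000000000000000000000000000000000) := T_4 (nat_lit 159) (nat_lit 176) (nat_lit 6) (nat_lit 6) (nat_lit 10) L1129464 (by decide +kernel)
theorem L1129466 : W_4 (nat_lit 4) (nat_lit 0x200014001e0007000000000000000000000000000) (nat_lit 0x0) (nat_lit 0x18000c006800000000000000000000000000000000000) := T_4 (nat_lit 145) (nat_lit 146) (nat_lit 3) (nat_lit 6) (nat_lit 7) L1129465 (by decide +kernel)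
theorem L1129467 : W_4 (nat_lit 5) (nat_lit 0x200010001e0007000000000000000000000000000) (nat_lit 0x0) (nat_lit 0x18000c006e00000000000000000000000000000000000) := T_4 (nat_lit 142) (nat_lit 141) (nat_lit 1) (nat_lit 9) (nat_lit 7) L1129466 (by decide +kernel)
theorem L1129468 : W_4 (nat_lit 6) (nat_lit 0x200010001e0006000000000000000000000000000) (nat_lit 0x0) (nat_lit 0x18000c006e00000001800000000000000000000000000) := T_4 (nat_lit 108) (nat_lit 107) (nat_lit 3) (nat_lit 5) (nat_lit 6) L1129467 (by decide +kernel)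
theorem L1129469 : W_4 (nat_lit 7) (nat_lit 0x200010001e0004000000000000000000000000000) (nat_lit 0x0) (nat_lit 0x18000c006e00000003800100000000000000000000000) := T_4 (nat_lit 109) (nat_lit 92) (nat_lit 4) (nat_lit 8) (nat_lit 9) L1129468 (by decide +kernel)
theorem L1129470 : W_4 (nat_lit 8) (nat_lit 0x200010000e0004000000000000000000000000000) (nat_lit 0x0) (nat_lit 0x18000c03ee00f00073800100000000000000000000000) := Q_4 (nat_lit 128) (C_4 L182193 (C_4 L263 (C_4 L1129469 N_4))) (by decide +kernel)
theorem L1129471 : W_4 (nat_lit 9) (nat_lit 0x200010000c0004000000000000000000000000000) (nat_lit 0x0) (nat_lit 0x18000c03ef00f38073c00140000000000000000000000) := Q_4 (nat_lit 125) (C_4 L173256 (C_4 L1129463 (C_4 L257 (C_4 L1129470 N_4)))) (by decide +kernel)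
theorem L1129481 : W_4 (nat_lit 2) (nat_lit 0x200014001e000d000000000000000000000000000) (nat_lit 0x0) (nat_lit 0x800200002000000000000000000000000000) := D_4 (nat_lit 129) (nat_lit 143) (nat_lit 109) (nat_lit 1) (nat_lit 10) (nat_lit 7) (nat_lit 3) (nat_lit 6) (nat_lit 6) (by decide +kernel)
theorem L1129482 : W_4 (nat_lit 3) (nat_lit 0x200014001e000c000000000000000000000000000) (nat_lit 0x0) (nat_lit 0x800200003800000000000000000000000000) := T_4 (nat_lit 108) (nat_lit 107) (nat_lit 0) (nat_lit 9) (nat_lit 7) L1129481 (by decide +kernel)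
theorem L1129483 : W_4 (nat_lit 4) (nat_lit 0x200010001e000c000000000000000000000000000) (nat_lit 0x0) (nat_lit 0xe00200003800000000000000000000000000) := T_4 (nat_lit 142) (nat_lit 141) (nat_lit 1) (nat_lit 9) (nat_lit 7) L1129482 (by decide +kernel)
theorem L1129484 : W_4 (nat_lit 5) (nat_lit 0x200010001e0004000000000000000000000000000) (nat_lit 0x0) (nat_lit 0xe0020000b800400000000000000000000000) := T_4 (nat_lit 111) (nat_lit 94) (nat_lit 6) (nat_lit 8) (nat_lit 9) L1129483 (by decide +kernel)
theorem L1129488 : W_4 (nat_lit 2) (nat_lit 0x200054001e000d000000000000000000000000000) (nat_lit 0x0) (nat_lit 0x8800200000000000000000000000000000000) := D_4 (nat_lit 129) (nat_lit 143) (nat_lit 147) (nat_lit 1) (nat_lit 10) (nat_lit 7) (nat_lit 3) (nat_lit 7) (nat_lit 7) (by decide +kernel)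
theorem L1129489 : W_4 (nat_lit 3) (nat_lit 0x200014001e000d000000000000000000000000000) (nat_lit 0x0) (nat_lit 0xe800200000000000000000000000000000000) := T_4 (nat_lit 146) (nat_lit 145) (nat_lit 3) (nat_lit 6) (nat_lit 7) L1129488 (by decide +kernel)
theorem L1129490 : W_4 (nat_lit 4) (nat_lit 0x200010001e000d000000000000000000000000000) (nat_lit 0x0) (nat_lit 0xee00200000000000000000000000000000000) := T_4 (nat_lit 142) (nat_lit 141) (nat_lit 1) (nat_lit 9) (nat_lit 7) L1129489 (by decide +kernel)
theorem L1129491 : W_4 (nat_lit 5) (nat_lit 0x200010001e000c000000000000000000000000000) (nat_lit 0x0) (nat_lit 0xee00200001800000000000000000000000000) := T_4 (nat_lit 108) (nat_lit 107) (nat_lit 0) (nat_lit 9) (nat_lit 7) L1129490 (by decide +kernel)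
theorem L1129492 : W_4 (nat_lit 6) (nat_lit 0x200010001e0004000000000000000000000000000) (nat_lit 0x0) (nat_lit 0xee00200009800400000000000000000000000) := T_4 (nat_lit 111) (nat_lit 94) (nat_lit 6) (nat_lit 8) (nat_lit 9) L1129491 (by decide +kernel)
theorem L1129493 : W_4 (nat_lit 8) (nat_lit 0x200010000e0004000000000000000000000000000) (nat_lit 0x0) (nat_lit 0x18000c00ee0070000b800500000000000000000000000) := Q_4 (nat_lit 128) (C_4 L1129484 (C_4 L263 (C_4 L1129469 (C_4 L1129487 (C_4 L1129492 N_4))))) (by decide +kernel)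
theorem L1129494 : W_4 (nat_lit 9) (nat_lit 0x200010000c0004000000000000000000000000000) (nat_lit 0x0) (nat_lit 0x18000c00ef0073800bc00500000000000000000000000) := Q_4 (nat_lit 125) (C_4 L1129463 (C_4 L43322 (C_4 L1129493 N_4))) (by decide +kernel)
theorem L1129495 : W_4 (nat_lit 10) (nat_lit 0x20001000080004000000000000000000000000000) (nat_lit 0x0) (nat_lit 0x18000c03ef00f7807bc01de0000000000000000000000) := Q_4 (nat_lit 126) (C_4 L246 (C_4 L1129471 (C_4 L1129479 (C_4 L1129480 (C_4 L1129494 N_4))))) (by decide +kernel)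
theorem L1129496 : W_4 (nat_lit 15) (nat_lit 0x2000100008000c000000000000000000000000000) (nat_lit 0x0) (nat_lit 0x2e001e002780e700338039e0000000000000000000000) := T_4 (nat_lit 109) (nat_lit 92) (nat_lit 4) (nat_lit 8) (nat_lit 9) L50777 (by decide +kernel)
theorem L1129497 : W_4 (nat_lit 16) (nat_lit 0x20001000080004000000000000000000000000000) (nat_lit 0x0) (nat_lit 0x2e001e002780e7003b803de0000000000000000000000) := T_4 (nat_lit 111) (nat_lit 94) (nat_lit 6) (nat_lit 8) (nat_lit 9) L1129496 (by decide +kernel)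
theorem L1129605 : W_4 (nat_lit 8) (nat_lit 0x200010001c0004000000000000000000000000000) (nat_lit 0x0) (nat_lit 0x30001e000f00000003800180000000000000000000000) := T_4 (nat_lit 109) (nat_lit 92) (nat_lit 4) (nat_lit 8) (nat_lit 9) L1048967 (by decide +kernel)
theorem L1129606 : W_4 (nat_lit 2) (nat_lit 0x300058003c0016000000000000000000000000000) (nat_lit 0x0) (nat_lit 0x100008002000000000000000000000000000000000000) := D_4 (nat_lit 159) (nat_lit 145) (nat_lit 176) (nat_lit 1) (nat_lit 10) (nat_lit 8) (nat_lit 5) (nat_lit 7) (nat_lit 6) (by decide +kernel)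
theorem L1129607 : W_4 (nat_lit 3) (nat_lit 0x300050003c0016000000000000000000000000000) (nat_lit 0x0) (nat_lit 0x100008002c00000000000000000000000000000000000) := T_4 (nat_lit 143) (nat_lit 142) (nat_lit 1) (nat_lit 10) (nat_lit 7) L1129606 (by decide +kernel)
theorem L1129608 : W_4 (nat_lit 4) (nat_lit 0x300010003c0016000000000000000000000000000) (nat_lit 0x0) (nat_lit 0x10000800ec00000000000000000000000000000000000) := T_4 (nat_lit 146) (nat_lit 147) (nat_lit 3) (nat_lit 7) (nat_lit 7) L1129607 (by decide +kernel)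
theorem L1129609 : W_4 (nat_lit 5) (nat_lit 0x300010003c0006000000000000000000000000000) (nat_lit 0x0) (nat_lit 0x10000800ec00000030000000000000000000000000000) := T_4 (nat_lit 112) (nat_lit 113) (nat_lit 2) (nat_lit 7) (nat_lit 7) L1129608 (by decide +kernel)
theorem L1129610 : W_4 (nat_lit 6) (nat_lit 0x200010003c0006000000000000000000000000000) (nat_lit 0x0) (nat_lit 0x30001800ec00000030000000000000000000000000000) := T_4 (nat_lit 160) (nat_lit 177) (nat_lit 5) (nat_lit 8) (nat_lit 6) L1129609 (by decide +kernel)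
theorem L1129611 : W_4 (nat_lit 7) (nat_lit 0x200010001c0006000000000000000000000000000) (nat_lit 0x0) (nat_lit 0x30001800ec00600030000000000000000000000000000) := T_4 (nat_lit 129) (nat_lit 130) (nat_lit 0) (nat_lit 11) (nat_lit 7) L1129610 (by decide +kernel)
theorem L1130116 : W_4 (nat_lit 8) (nat_lit 0x200010000c0006000000000000000000000000000) (nat_lit 0x0) (nat_lit 0x30001e00ef00700031800080000000000000000000000) := Q_4 (nat_lit 128) (C_4 L1129611 (C_4 L1049001 (C_4 L1048967 N_4))) (by decide +kernel)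
theorem L1130117 : W_4 (nat_lit 9) (nat_lit 0x200010000c0004000000000000000000000000000) (nat_lit 0x0) (nat_lit 0x30001e00ef00700033800180000000000000000000000) := T_4 (nat_lit 109) (nat_lit 92) (nat_lit 4) (nat_lit 8) (nat_lit 9) L1130116 (by decide +kernel)
theorem L1130190 : W_4 (nat_lit 2) (nat_lit 0x28003c001e0005000000000000000000000000000) (nat_lit 0x0) (nat_lit 0x2000100000000000000002000000000000000000000000000) := D_4 (nat_lit 176) (nat_lit 193) (nat_lit 109) (nat_lit 6) (nat_lit 6) (nat_lit 11) (nat_lit 6) (nat_lit 6) (nat_lit 10) (by decide +kernel)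
theorem L1130191 : W_4 (nat_lit 3) (nat_lit 0x20003c001e0005000000000000000000000000000) (nat_lit 0x0) (nat_lit 0x200010000c000000000002000000000000000000000000000) := T_4 (nat_lit 159) (nat_lit 158) (nat_lit 1) (nat_lit 9) (nat_lit 8) L1130190 (by decide +kernel)
theorem L1130192 : W_4 (nat_lit 4) (nat_lit 0x20003c001e0004000000000000000000000000000) (nat_lit 0x0) (nat_lit 0x200010000c000000000003800000000000000000000000000) := T_4 (nat_lit 108) (nat_lit 107) (nat_lit 0) (nat_lit 9) (nat_lit 7) L1130191 (by decide +kernel)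
theorem L1130193 : W_4 (nat_lit 5) (nat_lit 0x200038001e0004000000000000000000000000000) (nat_lit 0x0) (nat_lit 0x200010000c000600000003800000000000000000000000000) := T_4 (nat_lit 142) (nat_lit 141) (nat_lit 2) (nat_lit 5) (nat_lit 8) L1130192 (by decide +kernel)
theorem L1130194 : W_4 (nat_lit 6) (nat_lit 0x200018001e0004000000000000000000000000000) (nat_lit 0x0) (nat_lit 0x200010000c006600000003800000000000000000000000000) := T_4 (nat_lit 145) (nat_lit 146) (nat_lit 3) (nat_lit 6) (nat_lit 7) L1130193 (by decide +kernel)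
theorem L1133680 : W_4 (nat_lit 2) (nat_lit 0x3a0018000d002f800040000000000000000000000) (nat_lit 0x0) (nat_lit 0x700000000000000000000000000000000000) := D_4 (nat_lit 141) (nat_lit 140) (nat_lit 142) (nat_lit 5) (nat_lit 5) (nat_lit 5) (nat_lit 7) (nat_lit 5) (nat_lit 5) (by decide +kernel)
theorem L1133681 : W_4 (nat_lit 3) (nat_lit 0x3a0018000d002f800000000000000000000000000) (nat_lit 0x0) (nat_lit 0x700000000000060000000000000000000000) := T_4 (nat_lit 90) (nat_lit 89) (nat_lit 0) (nat_lit 8) (nat_lit 6) L1133680 (by decide +kernel)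
theorem L1133682 : W_4 (nat_lit 4) (nat_lit 0x3a0018000c002f800000000000000000000000000) (nat_lit 0x0) (nat_lit 0x700018000000060000000000000000000000) := T_4 (nat_lit 124) (nat_lit 123) (nat_lit 1) (nat_lit 8) (nat_lit 6) L1133681 (by decide +kernel)
theorem L1133757 : W_4 (nat_lit 5) (nat_lit 0x3a0018000c000f800000000000000000000000000) (nat_lit 0x0) (nat_lit 0x700018030000060000000000000000000000) := T_4 (nat_lit 113) (nat_lit 112) (nat_lit 1) (nat_lit 11) (nat_lit 6) L1133682 (by decide +kernel)
theorem L1133758 : W_4 (nat_lit 6) (nat_lit 0x3a0018000c000f000000000000000000000000000) (nat_lit 0x0) (nat_lit 0x700018030c00060000000000000000000000) := T_4 (nat_lit 107) (nat_lit 106) (nat_lit 3) (nat_lit 4) (nat_lit 6) L1133757 (by decide +kernel)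
theorem L1134330 : W_4 (nat_lit 2) (nat_lit 0x2000100028001e001000000000000000000000000) (nat_lit 0x0) (nat_lit 0x40020002000000000000000000000000) := D_4 (nat_lit 113) (nat_lit 126) (nat_lit 97) (nat_lit 1) (nat_lit 11) (nat_lit 6) (nat_lit 2) (nat_lit 8) (nat_lit 6) (by decide +kernel)
theorem L1134331 : W_4 (nat_lit 3) (nat_lit 0x2000100028001e000000000000000000000000000) (nat_lit 0x0) (nat_lit 0x40020003800000000000000000000000) := T_4 (nat_lit 96) (nat_lit 95) (nat_lit 2) (nat_lit 7) (nat_lit 6) L1134330 (by decide +kernel)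
theorem L1134332 : W_4 (nat_lit 4) (nat_lit 0x2000100028000e000000000000000000000000000) (nat_lit 0x0) (nat_lit 0x440030003800000000000000000000000) := T_4 (nat_lit 112) (nat_lit 130) (nat_lit 3) (nat_lit 7) (nat_lit 6) L1134331 (by decide +kernel)
theorem L1134333 : W_4 (nat_lit 5) (nat_lit 0x20001000280006000000000000000000000000000) (nat_lit 0x0) (nat_lit 0x440038003c00000000000000000000000) := T_4 (nat_lit 111) (nat_lit 94) (nat_lit 6) (nat_lit 8) (nat_lit 9) L1134332 (by decide +kernel)
theorem L1134334 : W_4 (nat_lit 6) (nat_lit 0x20001000280004000000000000000000000000000) (nat_lit 0x0) (nat_lit 0x44003a003d00000000000000000000000) := T_4 (nat_lit 109) (nat_lit 92) (nat_lit 4) (nat_lit 8) (nat_lit 9) L1134333 (by decide +kernel)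
theorem L1134335 : W_4 (nat_lit 2) (nat_lit 0x30001000680006000000000000000000000000000) (nat_lit 0x0) (nat_lit 0x18000400000000000000000000000) := D_4 (nat_lit 111) (nat_lit 94) (nat_lit 112) (nat_lit 6) (nat_lit 8) (nat_lit 9) (nat_lit 3) (nat_lit 7) (nat_lit 6) (by decide +kernel)
theorem L1134336 : W_4 (nat_lit 3) (nat_lit 0x30001000280006000000000000000000000000000) (nat_lit 0x0) (nat_lit 0x500018000400000000000000000000000) := T_4 (nat_lit 130) (nat_lit 128) (nat_lit 0) (nat_lit 11) (nat_lit 7) L1134335 (by decide +kernel)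
theorem L1134337 : W_4 (nat_lit 4) (nat_lit 0x30001000280004000000000000000000000000000) (nat_lit 0x0) (nat_lit 0x50001a000500000000000000000000000) := T_4 (nat_lit 109) (nat_lit 92) (nat_lit 4) (nat_lit 8) (nat_lit 9) L1134336 (by decide +kernel)
theorem L1134338 : W_4 (nat_lit 5) (nat_lit 0x20001000280004000000000000000000000000000) (nat_lit 0x0) (nat_lit 0x20001000000050001a000500000000000000000000000) := T_4 (nat_lit 160) (nat_lit 177) (nat_lit 5) (nat_lit 8) (nat_lit 6) L1134337 (by decide +kernel)
theorem L1134339 : W_4 (nat_lit 4) (nat_lit 0x30001000280004000000000000000000000000000) (nat_lit 0x0) (nat_lit 0x540003800100000000000000000000000) := T_4 (nat_lit 109) (nat_lit 92) (nat_lit 4) (nat_lit 8) (nat_lit 9) L105036 (by decide +kernel)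
theorem L1134340 : W_4 (nat_lit 5) (nat_lit 0x20001000280004000000000000000000000000000) (nat_lit 0x0) (nat_lit 0x200010000000540003800100000000000000000000000) := T_4 (nat_lit 160) (nat_lit 177) (nat_lit 5) (nat_lit 8) (nat_lit 6) L1134339 (by decide +kernel)
theorem L1134343 : W_4 (nat_lit 2) (nat_lit 0x100002000d00038000d000000000000000000000000000) (nat_lit 0x0) (nat_lit 0x32000000000000000000000000000000000000) := D_4 (nat_lit 148) (nat_lit 149) (nat_lit 145) (nat_lit 0) (nat_lit 13) (nat_lit 8) (nat_lit 0) (nat_lit 12) (nat_lit 8) (by decide +kernel)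
theorem L1134344 : W_4 (nat_lit 3) (nat_lit 0x100002000500038000d000000000000000000000000000) (nat_lit 0x0) (nat_lit 0x3a000040000000000000000000000000000000) := T_4 (nat_lit 147) (nat_lit 126) (nat_lit 3) (nat_lit 7) (nat_lit 7) L1134343 (by decide +kernel)
theorem L1134345 : W_4 (nat_lit 4) (nat_lit 0x100002000500038000c000000000000000000000000000) (nat_lit 0x0) (nat_lit 0x3a000040003000000000000000000000000000) := T_4 (nat_lit 108) (nat_lit 109) (nat_lit 3) (nat_lit 6) (nat_lit 6) L1134344 (by decide +kernel)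
theorem L1134346 : W_4 (nat_lit 5) (nat_lit 0x2000500038000c000000000000000000000000000) (nat_lit 0x0) (nat_lit 0x100008003a000040003000000000000000000000000000) := T_4 (nat_lit 180) (nat_lit 163) (nat_lit 4) (nat_lit 10) (nat_lit 10) L1134345 (by decide +kernel)
theorem L1134347 : W_4 (nat_lit 6) (nat_lit 0x20005000380004000000000000000000000000000) (nat_lit 0x0) (nat_lit 0x100008003a00004000b000400000000000000000000000) := T_4 (nat_lit 111) (nat_lit 94) (nat_lit 6) (nat_lit 8) (nat_lit 9) L1134346 (by decide +kernel)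
theorem L1134348 : W_4 (nat_lit 2) (nat_lit 0x100003000500038003d001000000000000000000000000) (nat_lit 0x0) (nat_lit 0x800080004000000000000000) := D_4 (nat_lit 79) (nat_lit 62) (nat_lit 95) (nat_lit 5) (nat_lit 11) (nat_lit 3) (nat_lit 6) (nat_lit 10) (nat_lit 8) (by decide +kernel)
theorem L1134349 : W_4 (nat_lit 3) (nat_lit 0x100003000500038003d000000000000000000000000000) (nat_lit 0x0) (nat_lit 0x3800080004000000000000000) := T_4 (nat_lit 96) (nat_lit 97) (nat_lit 2) (nat_lit 8) (nat_lit 6) L1134348 (by decide +kernel)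
theorem L1134350 : W_4 (nat_lit 4) (nat_lit 0x100003000500038001d000000000000000000000000000) (nat_lit 0x0) (nat_lit 0x60003800080004000000000000000) := T_4 (nat_lit 113) (nat_lit 114) (nat_lit 1) (nat_lit 12) (nat_lit 6) L1134349 (by decide +kernel)
theorem L1134351 : W_4 (nat_lit 5) (nat_lit 0x100003000500038001c000000000000000000000000000) (nat_lit 0x0) (nat_lit 0x63003800080004000000000000000) := T_4 (nat_lit 108) (nat_lit 109) (nat_lit 3) (nat_lit 6) (nat_lit 6) L1134350 (by decide +kernel)
theorem L1134352 : W_4 (nat_lit 6) (nat_lit 0x3000500038001c000000000000000000000000000) (nat_lit 0x0) (nat_lit 0x1000080000000000063003800080004000000000000000) := T_4 (nat_lit 180) (nat_lit 163) (nat_lit 4) (nat_lit 10) (nat_lit 10) L1134351 (by decide +kernel)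
theorem L1134353 : W_4 (nat_lit 7) (nat_lit 0x30005000380014000000000000000000000000000) (nat_lit 0x0) (nat_lit 0x100008000000000006b003c00080004000000000000000) := T_4 (nat_lit 111) (nat_lit 94) (nat_lit 6) (nat_lit 8) (nat_lit 9) L1134352 (by decide +kernel)
theorem L1134354 : W_4 (nat_lit 8) (nat_lit 0x20005000380014000000000000000000000000000) (nat_lit 0x0) (nat_lit 0x120009000000000006b003c00080004000000000000000) := T_4 (nat_lit 160) (nat_lit 177) (nat_lit 5) (nat_lit 8) (nat_lit 6) L1134353 (by decide +kernel)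
theorem L1134355 : W_4 (nat_lit 2) (nat_lit 0x100003000d00038001d000800080000000000000000000) (nat_lit 0x0) (nat_lit 0x40006000000000000000) := D_4 (nat_lit 78) (nat_lit 61) (nat_lit 62) (nat_lit 5) (nat_lit 10) (nat_lit 3) (nat_lit 6) (nat_lit 10) (nat_lit 7) (by decide +kernel)
theorem L1134356 : W_4 (nat_lit 3) (nat_lit 0x100003000d00038001d000800000000000000000000000) (nat_lit 0x0) (nat_lit 0x10000c0006000000000000000) := T_4 (nat_lit 79) (nat_lit 96) (nat_lit 6) (nat_lit 10) (nat_lit 8) L1134355 (by decide +kernel)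
theorem L1134357 : W_4 (nat_lit 4) (nat_lit 0x100003000d00038001d000000000000000000000000000) (nat_lit 0x0) (nat_lit 0x1000000000000000018000c0006000000000000000) := T_4 (nat_lit 95) (nat_lit 164) (nat_lit 7) (nat_lit 10) (nat_lit 5) L1134356 (by decide +kernel)
theorem L1134358 : W_4 (nat_lit 5) (nat_lit 0x100002000d00038001d000000000000000000000000000) (nat_lit 0x0) (nat_lit 0x2001100000000000000018000c0006000000000000000) := T_4 (nat_lit 160) (nat_lit 177) (nat_lit 5) (nat_lit 8) (nat_lit 6) L1134357 (by decide +kernel)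
theorem L1134359 : W_4 (nat_lit 6) (nat_lit 0x100002000500038001d000000000000000000000000000) (nat_lit 0x0) (nat_lit 0x2001100080000400000018000c0006000000000000000) := T_4 (nat_lit 147) (nat_lit 126) (nat_lit 3) (nat_lit 7) (nat_lit 7) L1134358 (by decide +kernel)
theorem L1134360 : W_4 (nat_lit 7) (nat_lit 0x100002000500038001c000000000000000000000000000) (nat_lit 0x0) (nat_lit 0x2001100080000400030018000c0006000000000000000) := T_4 (nat_lit 108) (nat_lit 109) (nat_lit 3) (nat_lit 6) (nat_lit 6) L1134359 (by decide +kernel)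
theorem L1134361 : W_4 (nat_lit 8) (nat_lit 0x2000500038001c000000000000000000000000000) (nat_lit 0x0) (nat_lit 0x12001900080000400030018000c0006000000000000000) := T_4 (nat_lit 180) (nat_lit 163) (nat_lit 4) (nat_lit 10) (nat_lit 10) L1134360 (by decide +kernel)
theorem L1134362 : W_4 (nat_lit 9) (nat_lit 0x20005000380014000000000000000000000000000) (nat_lit 0x0) (nat_lit 0x120019000800004000b001c000c0006000000000000000) := T_4 (nat_lit 111) (nat_lit 94) (nat_lit 6) (nat_lit 8) (nat_lit 9) L1134361 (by decide +kernel)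
theorem L1134363 : W_4 (nat_lit 10) (nat_lit 0x20005000380004000000000000000000000000000) (nat_lit 0x0) (nat_lit 0x120019000800004007b003c000c0006000000000000000) := Q_4 (nat_lit 112) (C_4 L213677 (C_4 L1134354 (C_4 L1134362 N_4))) (by decide +kernel)
theorem L1134371 : W_4 (nat_lit 11) (nat_lit 0x20001000380004000000000000000000000000000) (nat_lit 0x0) (nat_lit 0x120019803ee0004007b003c000c0006000000000000000) := Q_4 (nat_lit 146) (C_4 L1134342 (C_4 L1134347 (C_4 L1134363 (C_4 L1118135 (C_4 L1134370 N_4))))) (by decide +kernel)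
theorem L1134373 : W_4 (nat_lit 12) (nat_lit 0x20001000280004000000000000000000000000000) (nat_lit 0x0) (nat_lit 0x120019803ee00d400fb003c000c0006000000000000000) := Q_4 (nat_lit 128) (C_4 L1134341 (C_4 L1134371 (C_4 L20072 (C_4 L1134372 N_4)))) (by decide +kernel)
theorem L1134374 : W_4 (nat_lit 2) (nat_lit 0x3000100028800f800040000000000000000000000) (nat_lit 0x0) (nat_lit 0x44000400000000000000000000000000) := D_4 (nat_lit 106) (nat_lit 126) (nat_lit 122) (nat_lit 3) (nat_lit 4) (nat_lit 6) (nat_lit 1) (nat_lit 7) (nat_lit 6) (by decide +kernel)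
theorem L1134375 : W_4 (nat_lit 3) (nat_lit 0x3000100028000f800040000000000000000000000) (nat_lit 0x0) (nat_lit 0x5c000400000000000000000000000000) := T_4 (nat_lit 123) (nat_lit 124) (nat_lit 1) (nat_lit 8) (nat_lit 6) L1134374 (by decide +kernel)
theorem L1134376 : W_4 (nat_lit 4) (nat_lit 0x3000100028000f000040000000000000000000000) (nat_lit 0x0) (nat_lit 0x5c000c00020000000000000000000000) := T_4 (nat_lit 107) (nat_lit 89) (nat_lit 0) (nat_lit 8) (nat_lit 6) L1134375 (by decide +kernel)
theorem L1134377 : W_4 (nat_lit 5) (nat_lit 0x2000100028000f000040000000000000000000000) (nat_lit 0x0) (nat_lit 0x20001000000005c000c00020000000000000000000000) := T_4 (nat_lit 160) (nat_lit 177) (nat_lit 5) (nat_lit 8) (nat_lit 6) L1134376 (by decide +kernel)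
theorem L1134378 : W_4 (nat_lit 6) (nat_lit 0x2000100028000f000000000000000000000000000) (nat_lit 0x0) (nat_lit 0x20001000000005c000c000e0000000000000000000000) := T_4 (nat_lit 90) (nat_lit 91) (nat_lit 0) (nat_lit 9) (nat_lit 6) L1134377 (by decide +kernel)
theorem L1134379 : W_4 (nat_lit 7) (nat_lit 0x2000100028000e000000000000000000000000000) (nat_lit 0x0) (nat_lit 0x20001000000015c001c000e0000000000000000000000) := T_4 (nat_lit 108) (nat_lit 128) (nat_lit 3) (nat_lit 6) (nat_lit 6) L1134378 (by decide +kernel)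
theorem L1134380 : W_4 (nat_lit 8) (nat_lit 0x2000100028000c000000000000000000000000000) (nat_lit 0x0) (nat_lit 0x20001000000015c003c001e0000000000000000000000) := T_4 (nat_lit 109) (nat_lit 92) (nat_lit 4) (nat_lit 8) (nat_lit 9) L1134379 (by decide +kernel)
theorem L1134381 : W_4 (nat_lit 9) (nat_lit 0x20001000280004000000000000000000000000000) (nat_lit 0x0) (nat_lit 0x20001000000015c00bc005e0000000000000000000000) := T_4 (nat_lit 111) (nat_lit 94) (nat_lit 6) (nat_lit 8) (nat_lit 9) L1134380 (by decide +kernel)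
theorem L1134403 : W_4 (nat_lit 12) (nat_lit 0x20001000280004000000000000000000000000000) (nat_lit 0x0) (nat_lit 0x320019803ee00d400f8003c000c0006000000000000000) := Q_4 (nat_lit 128) (C_4 L1134382 (C_4 L1134400 (C_4 L1134372 (C_4 L1134402 N_4)))) (by decide +kernel)
theorem L1134404 : W_4 (nat_lit 13) (nat_lit 0x20001000080004000000000000000000000000000) (nat_lit 0x0) (nat_lit 0x320019803ee00f5c0fbc03de00c0006000000000000000) := Q_4 (nat_lit 129) (C_4 L1134334 (C_4 L1134338 (C_4 L1134340 (C_4 L1134373 (C_4 L1134381 (C_4 L1134403 N_4)))))) (by decide +kernel)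
theorem L1135552 : W_4 (nat_lit 2) (nat_lit 0x28003c001e000c000000000000000000000000000) (nat_lit 0x0) (nat_lit 0x2000100000000000000002000000000000000000000000000) := D_4 (nat_lit 176) (nat_lit 109) (nat_lit 193) (nat_lit 6) (nat_lit 6) (nat_lit 10) (nat_lit 6) (nat_lit 6) (nat_lit 11) (by decide +kernel)
theorem L1135819 : W_4 (nat_lit 2) (nat_lit 0x2000fc001a0004000000000000000000000000000) (nat_lit 0x0) (nat_lit 0x380000000000000000000000000000000000000000) := D_4 (nat_lit 164) (nat_lit 163) (nat_lit 165) (nat_lit 3) (nat_lit 7) (nat_lit 8) (nat_lit 3) (nat_lit 8) (nat_lit 8) (by decide +kernel)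
theorem L1135833 : W_4 (nat_lit 3) (nat_lit 0x20007c001a0004000000000000000000000000000) (nat_lit 0x0) (nat_lit 0x380018000000000000000000000000000000000000) := T_4 (nat_lit 147) (nat_lit 148) (nat_lit 0) (nat_lit 12) (nat_lit 8) L1135819 (by decide +kernel)
theorem L1137371 : W_4 (nat_lit 2) (nat_lit 0x380038000c0007000000000000000000000000000) (nat_lit 0x0) (nat_lit 0x100000c00000000000000000000000000) := D_4 (nat_lit 107) (nat_lit 128) (nat_lit 106) (nat_lit 3) (nat_lit 5) (nat_lit 6) (nat_lit 3) (nat_lit 4) (nat_lit 6) (by decide +kernel)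
theorem L1137372 : W_4 (nat_lit 3) (nat_lit 0x380038000c0006000000000000000000000000000) (nat_lit 0x0) (nat_lit 0x100001c00080000000000000000000000) := T_4 (nat_lit 108) (nat_lit 91) (nat_lit 4) (nat_lit 7) (nat_lit 9) L1137371 (by decide +kernel)
theorem L1137404 : W_4 (nat_lit 4) (nat_lit 0x380030000c0006000000000000000000000000000) (nat_lit 0x0) (nat_lit 0x100000000800100001c00080000000000000000000000) := T_4 (nat_lit 143) (nat_lit 176) (nat_lit 5) (nat_lit 7) (nat_lit 6) L1137372 (by decide +kernel)
theorem L1137405 : W_4 (nat_lit 5) (nat_lit 0x300030000c0006000000000000000000000000000) (nat_lit 0x0) (nat_lit 0x10000c000800100001c00080000000000000000000000) := T_4 (nat_lit 159) (nat_lit 158) (nat_lit 2) (nat_lit 5) (nat_lit 9) L1137404 (by decide +kernel)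
theorem L1137406 : W_4 (nat_lit 6) (nat_lit 0x200030000c0006000000000000000000000000000) (nat_lit 0x0) (nat_lit 0x30001c000800100001c00080000000000000000000000) := T_4 (nat_lit 160) (nat_lit 177) (nat_lit 5) (nat_lit 8) (nat_lit 6) L1137405 (by decide +kernel)
theorem L1139021 : W_4 (nat_lit 2) (nat_lit 0x380018003d000e000000000000000000000000000) (nat_lit 0x0) (nat_lit 0x6002000000000000000000000000000000000000) := D_4 (nat_lit 158) (nat_lit 145) (nat_lit 157) (nat_lit 2) (nat_lit 5) (nat_lit 9) (nat_lit 2) (nat_lit 4) (nat_lit 9) (by decide +kernel)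
theorem L1139022 : W_4 (nat_lit 3) (nat_lit 0x300018003d000e000000000000000000000000000) (nat_lit 0x0) (nat_lit 0x10000e002000000000000000000000000000000000000) := T_4 (nat_lit 159) (nat_lit 176) (nat_lit 5) (nat_lit 7) (nat_lit 6) L1139021 (by decide +kernel)
theorem L1139023 : W_4 (nat_lit 4) (nat_lit 0x200018003d000e000000000000000000000000000) (nat_lit 0x0) (nat_lit 0x30001e002000000000000000000000000000000000000) := T_4 (nat_lit 160) (nat_lit 177) (nat_lit 6) (nat_lit 7) (nat_lit 10) L1139022 (by decide +kernel)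
theorem L1139024 : W_4 (nat_lit 5) (nat_lit 0x200018003d000c000000000000000000000000000) (nat_lit 0x0) (nat_lit 0x30001e002000000002000100000000000000000000000) := T_4 (nat_lit 109) (nat_lit 92) (nat_lit 7) (nat_lit 7) (nat_lit 5) L1139023 (by decide +kernel)
theorem L1139025 : W_4 (nat_lit 6) (nat_lit 0x200010003d000c000000000000000000000000000) (nat_lit 0x0) (nat_lit 0x30001e002c00000002000100000000000000000000000) := T_4 (nat_lit 143) (nat_lit 142) (nat_lit 1) (nat_lit 10) (nat_lit 7) L1139024 (by decide +kernel)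
theorem L1139026 : W_4 (nat_lit 7) (nat_lit 0x200010003c000c000000000000000000000000000) (nat_lit 0x0) (nat_lit 0x30001e002c00030002000100000000000000000000000) := T_4 (nat_lit 124) (nat_lit 125) (nat_lit 2) (nat_lit 5) (nat_lit 7) L1139025 (by decide +kernel)
theorem L1139027 : W_4 (nat_lit 8) (nat_lit 0x200010003c0004000000000000000000000000000) (nat_lit 0x0) (nat_lit 0x30001e002c0003000a000500000000000000000000000) := T_4 (nat_lit 111) (nat_lit 94) (nat_lit 6) (nat_lit 8) (nat_lit 9) L1139026 (by decide +kernel)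
theorem L1139029 : W_4 (nat_lit 9) (nat_lit 0x20001000380004000000000000000000000000000) (nat_lit 0x0) (nat_lit 0x130019e00ef0007800ae00500000000000000000000000) := Q_4 (nat_lit 126) (C_4 L1139016 (C_4 L1139020 (C_4 L504598 (C_4 L1139027 (C_4 L1139028 N_4))))) (by decide +kernel)
theorem L1139030 : W_4 (nat_lit 10) (nat_lit 0x20001000180004000000000000000000000000000) (nat_lit 0x0) (nat_lit 0x130019e03ef00e780eae00500000000000000000000000) := Q_4 (nat_lit 129) (C_4 L1134402 (C_4 L1134382 (C_4 L1139029 (C_4 L1134372 N_4)))) (by decide +kernel)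
theorem L1139031 : W_4 (nat_lit 2) (nat_lit 0x200018003c000d000000000000000000000000000) (nat_lit 0x0) (nat_lit 0x30000800000000000000000000000000) := D_4 (nat_lit 125) (nat_lit 124) (nat_lit 107) (nat_lit 2) (nat_lit 5) (nat_lit 7) (nat_lit 0) (nat_lit 9) (nat_lit 7) (by decide +kernel)
theorem L1139032 : W_4 (nat_lit 3) (nat_lit 0x200018003c000c000000000000000000000000000) (nat_lit 0x0) (nat_lit 0x30003800000000000000000000000000) := T_4 (nat_lit 108) (nat_lit 109) (nat_lit 3) (nat_lit 6) (nat_lit 6) L1139031 (by decide +kernel)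
theorem L1139033 : W_4 (nat_lit 4) (nat_lit 0x200018003c0004000000000000000000000000000) (nat_lit 0x0) (nat_lit 0x3000b800400000000000000000000000) := T_4 (nat_lit 111) (nat_lit 94) (nat_lit 6) (nat_lit 8) (nat_lit 9) L1139032 (by decide +kernel)
theorem L1139034 : W_4 (nat_lit 5) (nat_lit 0x200010003c0004000000000000000000000000000) (nat_lit 0x0) (nat_lit 0xc0003000b800400000000000000000000000) := T_4 (nat_lit 143) (nat_lit 142) (nat_lit 1) (nat_lit 10) (nat_lit 7) L1139033 (by decide +kernel)
theorem L1139035 : W_4 (nat_lit 9) (nat_lit 0x20001000380004000000000000000000000000000) (nat_lit 0x0) (nat_lit 0x120019800ef0007800be00400000000000000000000000) := Q_4 (nat_lit 126) (C_4 L1139016 (C_4 L1139028 (C_4 L1139020 (C_4 L504598 (C_4 L1139034 N_4))))) (by decide +kernel)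
theorem L1139036 : W_4 (nat_lit 10) (nat_lit 0x20001000180004000000000000000000000000000) (nat_lit 0x0) (nat_lit 0x120019803ef00e780ebe00400000000000000000000000) := Q_4 (nat_lit 129) (C_4 L1134402 (C_4 L1134382 (C_4 L1139035 (C_4 L1134372 N_4)))) (by decide +kernel)
theorem L1139145 : W_4 (nat_lit 9) (nat_lit 0x20001000180004000000000000000000000000000) (nat_lit 0x0) (nat_lit 0x120019803ee00e700e8000400000000000000000000000) := Q_4 (nat_lit 129) (C_4 L1134402 (C_4 L1134382 (C_4 L1139144 (C_4 L1134372 N_4)))) (by decide +kernel)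
theorem L1139146 : W_4 (nat_lit 11) (nat_lit 0x20001000080004000000000000000000000000000) (nat_lit 0x0) (nat_lit 0x138019e03ef00f780ebe005c0000000000000000000000) := Q_4 (nat_lit 128) (C_4 L1130567 (C_4 L1118054 (C_4 L1139030 (C_4 L1139036 (C_4 L1139145 N_4))))) (by decide +kernel)
theorem L1144568 : W_4 (nat_lit 2) (nat_lit 0x30001c0018000c000000000000000000000000000) (nat_lit 0x0) (nat_lit 0x640000000000000000000000000000000) := D_4 (nat_lit 129) (nat_lit 130) (nat_lit 126) (nat_lit 1) (nat_lit 11) (nat_lit 7) (nat_lit 1) (nat_lit 10) (nat_lit 7) (by decide +kernel)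
theorem L1144569 : W_4 (nat_lit 3) (nat_lit 0x3000180018000c000000000000000000000000000) (nat_lit 0x0) (nat_lit 0x600640000000000000000000000000000000) := T_4 (nat_lit 142) (nat_lit 141) (nat_lit 2) (nat_lit 5) (nat_lit 8) L1144568 (by decide +kernel)
theorem L1158891 : W_4 (nat_lit 9) (nat_lit 0x10000c0004000200000000000000000000000) (nat_lit 0x0) (nat_lit 0x10000800278013803be00dc002e000200000000000000) := Q_4 (nat_lit 125) (C_4 L488376 (C_4 L175561 (C_4 L363839 (C_4 L64388 N_4)))) (by decide +kernel)
theorem L1158920 : W_4 (nat_lit 2) (nat_lit 0x10000e0007000200000000000000000000000) (nat_lit 0x0) (nat_lit 0x100000c00000000000000000000000000) := D_4 (nat_lit 107) (nat_lit 128) (nat_lit 106) (nat_lit 3) (nat_lit 5) (nat_lit 6) (nat_lit 3) (nat_lit 4) (nat_lit 6) (by decide +kernel)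
theorem L1158932 : W_4 (nat_lit 2) (nat_lit 0x1c000e0006000200000000000000000000000) (nat_lit 0x0) (nat_lit 0x300100000000000000000000000000000000) := D_4 (nat_lit 141) (nat_lit 128) (nat_lit 140) (nat_lit 2) (nat_lit 5) (nat_lit 8) (nat_lit 2) (nat_lit 4) (nat_lit 8) (by decide +kernel)
theorem L1158933 : W_4 (nat_lit 3) (nat_lit 0x14000e0006000200000000000000000000000) (nat_lit 0x0) (nat_lit 0x10000b00100000000000000000000000000000000) := T_4 (nat_lit 143) (nat_lit 160) (nat_lit 6) (nat_lit 7) (nat_lit 9) L1158932 (by decide +kernel)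
theorem L1158934 : W_4 (nat_lit 2) (nat_lit 0x100000001e000e0007000600000000000000000000000) (nat_lit 0x0) (nat_lit 0x6000000000000000080000000000000000000000) := D_4 (nat_lit 158) (nat_lit 157) (nat_lit 91) (nat_lit 1) (nat_lit 8) (nat_lit 8) (nat_lit 5) (nat_lit 6) (nat_lit 5) (by decide +kernel)
theorem L1158935 : W_4 (nat_lit 3) (nat_lit 0x100000001e000e0006000600000000000000000000000) (nat_lit 0x0) (nat_lit 0x6000000000001800080000000000000000000000) := T_4 (nat_lit 108) (nat_lit 107) (nat_lit 2) (nat_lit 5) (nat_lit 6) L1158934 (by decide +kernel)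
theorem L1158936 : W_4 (nat_lit 4) (nat_lit 0x100000001e000e0006000200000000000000000000000) (nat_lit 0x0) (nat_lit 0x6000000000001800480020000000000000000000) := T_4 (nat_lit 94) (nat_lit 77) (nat_lit 6) (nat_lit 8) (nat_lit 8) L1158935 (by decide +kernel)
theorem L1158937 : W_4 (nat_lit 5) (nat_lit 0x100000001c000e0006000200000000000000000000000) (nat_lit 0x0) (nat_lit 0x6000300000001800480020000000000000000000) := T_4 (nat_lit 141) (nat_lit 140) (nat_lit 2) (nat_lit 4) (nat_lit 8) L1158936 (by decide +kernel)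
theorem L1158938 : W_4 (nat_lit 6) (nat_lit 0x1000000014000e0006000200000000000000000000000) (nat_lit 0x0) (nat_lit 0x16000b00000001800480020000000000000000000) := T_4 (nat_lit 143) (nat_lit 160) (nat_lit 6) (nat_lit 7) (nat_lit 9) L1158937 (by decide +kernel)
theorem L1158939 : W_4 (nat_lit 7) (nat_lit 0x14000e0006000200000000000000000000000) (nat_lit 0x0) (nat_lit 0x10001e000b00000001800480020000000000000000000) := T_4 (nat_lit 176) (nat_lit 159) (nat_lit 6) (nat_lit 6) (nat_lit 10) L1158938 (by decide +kernel)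
theorem L1158946 : W_4 (nat_lit 10) (nat_lit 0x10000e0006000200000000000000000000000) (nat_lit 0x0) (nat_lit 0x10001e006f00100001801cc0026000300000000000000) := Q_4 (nat_lit 142) (C_4 L1158933 (C_4 L132201 (C_4 L1158939 (C_4 L1158945 N_4)))) (by decide +kernel)
theorem L1158947 : W_4 (nat_lit 11) (nat_lit 0x10000c0006000200000000000000000000000) (nat_lit 0x0) (nat_lit 0x10001e006f00138001c01cc0026000300000000000000) := Q_4 (nat_lit 125) (C_4 L64089 (C_4 L1048661 (C_4 L1158946 N_4))) (by decide +kernel)
theorem L1158948 : W_4 (nat_lit 12) (nat_lit 0x10000c0004000200000000000000000000000) (nat_lit 0x0) (nat_lit 0x10001e006f00138003c01de002e000300000000000000) := Q_4 (nat_lit 109) (C_4 L1158893 (C_4 L1048660 (C_4 L1158947 N_4))) (by decide +kernel)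
theorem L1158953 : W_4 (nat_lit 8) (nat_lit 0x10000c0004000200000000000000000000000) (nat_lit 0x0) (nat_lit 0x18000f0010000b801de002c000000000000000000) := Q_4 (nat_lit 109) (C_4 L1158893 (C_4 L1048660 (C_4 L1158952 N_4))) (by decide +kernel)
theorem L1158962 : W_4 (nat_lit 9) (nat_lit 0x10000c0004000200000000000000000000000) (nat_lit 0x0) (nat_lit 0x100018006f8013803ae005c002e000000000000000000) := Q_4 (nat_lit 125) (C_4 L488376 (C_4 L175561 (C_4 L64387 (C_4 L1158961 N_4)))) (by decide +kernel)
theorem L1158990 : W_4 (nat_lit 2) (nat_lit 0x34001e000c000e00000000000000000000000) (nat_lit 0x0) (nat_lit 0x2003000000000000000000000000) := D_4 (nat_lit 96) (nat_lit 97) (nat_lit 109) (nat_lit 1) (nat_lit 12) (nat_lit 5) (nat_lit 1) (nat_lit 11) (nat_lit 5) (by decide +kernel)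
theorem L1158991 : W_4 (nat_lit 3) (nat_lit 0x34001e000c000600000000000000000000000) (nat_lit 0x0) (nat_lit 0x2003800040000000000000000000) := T_4 (nat_lit 95) (nat_lit 78) (nat_lit 6) (nat_lit 9) (nat_lit 8) L1158990 (by decide +kernel)
theorem L1158992 : W_4 (nat_lit 4) (nat_lit 0x14001e000c000600000000000000000000000) (nat_lit 0x0) (nat_lit 0x6000000002003800040000000000000000000) := T_4 (nat_lit 145) (nat_lit 146) (nat_lit 3) (nat_lit 6) (nat_lit 7) L1158991 (by decide +kernel)
theorem L1159026 : W_4 (nat_lit 2) (nat_lit 0x10000e000c000200000000000000000000000) (nat_lit 0x0) (nat_lit 0x100030000000000000000000000000000) := D_4 (nat_lit 112) (nat_lit 128) (nat_lit 113) (nat_lit 2) (nat_lit 6) (nat_lit 7) (nat_lit 1) (nat_lit 11) (nat_lit 6) (by decide +kernel)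
theorem L1159046 : W_4 (nat_lit 2) (nat_lit 0x8003c001e000d000200000000000000000000000) (nat_lit 0x0) (nat_lit 0x2000100000000000000002000000000000000000000000000) := D_4 (nat_lit 176) (nat_lit 193) (nat_lit 109) (nat_lit 6) (nat_lit 6) (nat_lit 11) (nat_lit 6) (nat_lit 6) (nat_lit 10) (by decide +kernel)
theorem L1159047 : W_4 (nat_lit 3) (nat_lit 0x3c001e000d000200000000000000000000000) (nat_lit 0x0) (nat_lit 0x200010000c000000000002000000000000000000000000000) := T_4 (nat_lit 159) (nat_lit 158) (nat_lit 1) (nat_lit 9) (nat_lit 8) L1159046 (by decide +kernel)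
theorem L1159062 : W_4 (nat_lit 4) (nat_lit 0x34001e000d000200000000000000000000000) (nat_lit 0x0) (nat_lit 0x200010001c000800000002000000000000000000000000000) := T_4 (nat_lit 143) (nat_lit 160) (nat_lit 5) (nat_lit 8) (nat_lit 5) L1159047 (by decide +kernel)
theorem L1159063 : W_4 (nat_lit 5) (nat_lit 0x14001e000d000200000000000000000000000) (nat_lit 0x0) (nat_lit 0x200010001c006800000002000000000000000000000000000) := T_4 (nat_lit 145) (nat_lit 146) (nat_lit 3) (nat_lit 6) (nat_lit 7) L1159062 (by decide +kernel)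
theorem L1159064 : W_4 (nat_lit 6) (nat_lit 0x14001e000c000200000000000000000000000) (nat_lit 0x0) (nat_lit 0x200010001c006800000003800000000000000000000000000) := T_4 (nat_lit 108) (nat_lit 107) (nat_lit 0) (nat_lit 9) (nat_lit 7) L1159063 (by decide +kernel)
theorem L1159065 : W_4 (nat_lit 7) (nat_lit 0x14000e000c000200000000000000000000000) (nat_lit 0x0) (nat_lit 0x200010001c006a00100003800000000000000000000000000) := T_4 (nat_lit 128) (nat_lit 141) (nat_lit 1) (nat_lit 9) (nat_lit 7) L1159064 (by decide +kernel)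
theorem L1159066 : W_4 (nat_lit 2) (nat_lit 0x1c000e000c000200000000000000000000000) (nat_lit 0x0) (nat_lit 0x300100000000000000000000000000000000) := D_4 (nat_lit 141) (nat_lit 128) (nat_lit 140) (nat_lit 2) (nat_lit 5) (nat_lit 8) (nat_lit 2) (nat_lit 4) (nat_lit 8) (by decide +kernel)
theorem L1159067 : W_4 (nat_lit 3) (nat_lit 0x14000e000c000200000000000000000000000) (nat_lit 0x0) (nat_lit 0x10000b00100000000000000000000000000000000) := T_4 (nat_lit 143) (nat_lit 160) (nat_lit 5) (nat_lit 8) (nat_lit 5) L1159066 (by decide +kernel)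
theorem L1159068 : W_4 (nat_lit 5) (nat_lit 0x14000e000c000600000000000000000000000) (nat_lit 0x0) (nat_lit 0x6200100002003800040000000000000000000) := T_4 (nat_lit 128) (nat_lit 141) (nat_lit 1) (nat_lit 9) (nat_lit 7) L1158992 (by decide +kernel)
theorem L1159069 : W_4 (nat_lit 6) (nat_lit 0x14000e000c000200000000000000000000000) (nat_lit 0x0) (nat_lit 0x6200100002003c00060000000000000000000) := T_4 (nat_lit 94) (nat_lit 77) (nat_lit 6) (nat_lit 8) (nat_lit 8) L1159068 (by decide +kernel)
theorem L1159070 : W_4 (nat_lit 2) (nat_lit 0x8003d000e000c000600000000000000000000000) (nat_lit 0x0) (nat_lit 0x2000100000000000000002000000000000000000000000000) := D_4 (nat_lit 176) (nat_lit 109) (nat_lit 193) (nat_lit 6) (nat_lit 6) (nat_lit 10) (nat_lit 6) (nat_lit 6) (nat_lit 11) (by decide +kernel)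
theorem L1159071 : W_4 (nat_lit 3) (nat_lit 0x3d000e000c000600000000000000000000000) (nat_lit 0x0) (nat_lit 0x200010000c000000000002000000000000000000000000000) := T_4 (nat_lit 159) (nat_lit 158) (nat_lit 1) (nat_lit 9) (nat_lit 8) L1159070 (by decide +kernel)
theorem L1159072 : W_4 (nat_lit 4) (nat_lit 0x3d000e000c000200000000000000000000000) (nat_lit 0x0) (nat_lit 0x200010000c000000000002000400020000000000000000000) := T_4 (nat_lit 94) (nat_lit 77) (nat_lit 6) (nat_lit 8) (nat_lit 8) L1159071 (by decide +kernel)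
theorem L1159073 : W_4 (nat_lit 5) (nat_lit 0x1d000e000c000200000000000000000000000) (nat_lit 0x0) (nat_lit 0x200010000c006000000002000400020000000000000000000) := T_4 (nat_lit 145) (nat_lit 146) (nat_lit 0) (nat_lit 10) (nat_lit 8) L1159072 (by decide +kernel)
theorem L1159074 : W_4 (nat_lit 6) (nat_lit 0x1c000e000c000200000000000000000000000) (nat_lit 0x0) (nat_lit 0x200010000c006300000002000400020000000000000000000) := T_4 (nat_lit 140) (nat_lit 141) (nat_lit 2) (nat_lit 4) (nat_lit 8) L1159073 (by decide +kernel)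
theorem L1159075 : W_4 (nat_lit 7) (nat_lit 0x14000e000c000200000000000000000000000) (nat_lit 0x0) (nat_lit 0x200010001c006b00000002000400020000000000000000000) := T_4 (nat_lit 143) (nat_lit 160) (nat_lit 5) (nat_lit 8) (nat_lit 5) L1159074 (by decide +kernel)
theorem L1159076 : W_4 (nat_lit 2) (nat_lit 0x8003c000e000c000600000000000000000000000) (nat_lit 0x0) (nat_lit 0x2000100000000000000002000000000000000000000000000) := D_4 (nat_lit 176) (nat_lit 109) (nat_lit 193) (nat_lit 6) (nat_lit 6) (nat_lit 10) (nat_lit 6) (nat_lit 6) (nat_lit 11) (by decide +kernel)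
theorem L1159077 : W_4 (nat_lit 3) (nat_lit 0x3c000e000c000600000000000000000000000) (nat_lit 0x0) (nat_lit 0x200010000c000000000002000000000000000000000000000) := T_4 (nat_lit 159) (nat_lit 158) (nat_lit 1) (nat_lit 9) (nat_lit 8) L1159076 (by decide +kernel)
theorem L1159078 : W_4 (nat_lit 4) (nat_lit 0x3c000e000c000200000000000000000000000) (nat_lit 0x0) (nat_lit 0x200010000c000000000002000400020000000000000000000) := T_4 (nat_lit 94) (nat_lit 77) (nat_lit 6) (nat_lit 8) (nat_lit 8) L1159077 (by decide +kernel)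
theorem L1159079 : W_4 (nat_lit 5) (nat_lit 0x1c000e000c000200000000000000000000000) (nat_lit 0x0) (nat_lit 0x200010000c006000000002000400020000000000000000000) := T_4 (nat_lit 145) (nat_lit 146) (nat_lit 0) (nat_lit 10) (nat_lit 8) L1159078 (by decide +kernel)
theorem L1159080 : W_4 (nat_lit 6) (nat_lit 0x14000e000c000200000000000000000000000) (nat_lit 0x0) (nat_lit 0x200010001c006800000002000400020000000000000000000) := T_4 (nat_lit 143) (nat_lit 160) (nat_lit 5) (nat_lit 8) (nat_lit 5) L1159079 (by decide +kernel)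
theorem L1159081 : W_4 (nat_lit 8) (nat_lit 0x10000e000c000200000000000000000000000) (nat_lit 0x0) (nat_lit 0x200010001c006f00100003803c00060000000000000000000) := Q_4 (nat_lit 142) (C_4 L1159065 (C_4 L1159067 (C_4 L1159069 (C_4 L1159075 (C_4 L1159080 N_4))))) (by decide +kernel)
theorem L1159082 : W_4 (nat_lit 9) (nat_lit 0x10000e0004000200000000000000000000000) (nat_lit 0x0) (nat_lit 0x200010001c006f0010003b803c00060000000000000000000) := Q_4 (nat_lit 111) (C_4 L1159026 (C_4 L363829 (C_4 L1159081 N_4))) (by decide +kernel)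
theorem L1159083 : W_4 (nat_lit 10) (nat_lit 0x10000c0004000200000000000000000000000) (nat_lit 0x0) (nat_lit 0x200010001c006f8013803be03c00060000000000000000000) := Q_4 (nat_lit 125) (C_4 L488376 (C_4 L85320 (C_4 L1159082 (C_4 L64388 N_4)))) (by decide +kernel)
theorem L1159084 : W_4 (nat_lit 2) (nat_lit 0x58000e00168003c0000000000000000000000) (nat_lit 0x0) (nat_lit 0x100001000400000000000000000000000) := D_4 (nat_lit 108) (nat_lit 128) (nat_lit 94) (nat_lit 3) (nat_lit 5) (nat_lit 6) (nat_lit 2) (nat_lit 5) (nat_lit 6) (by decide +kernel)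
theorem L1159085 : W_4 (nat_lit 3) (nat_lit 0x58000e00160003c0000000000000000000000) (nat_lit 0x0) (nat_lit 0x100001c00400000000000000000000000) := T_4 (nat_lit 107) (nat_lit 106) (nat_lit 1) (nat_lit 8) (nat_lit 5) L1159084 (by decide +kernel)
theorem L1159086 : W_4 (nat_lit 4) (nat_lit 0x58000e0016000380000000000000000000000) (nat_lit 0x0) (nat_lit 0x100001c00460000000000000000000000) := T_4 (nat_lit 90) (nat_lit 89) (nat_lit 3) (nat_lit 4) (nat_lit 5) L1159085 (by decide +kernel)
theorem L1159087 : W_4 (nat_lit 5) (nat_lit 0x58000e0016000300000000000000000000000) (nat_lit 0x0) (nat_lit 0x100001c004e0004000000000000000000) := T_4 (nat_lit 91) (nat_lit 74) (nat_lit 4) (nat_lit 7) (nat_lit 8) L1159086 (by decide +kernel)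
theorem L1159088 : W_4 (nat_lit 6) (nat_lit 0x58000e0006000300000000000000000000000) (nat_lit 0x0) (nat_lit 0x100019c004e0004000000000000000000) := T_4 (nat_lit 112) (nat_lit 111) (nat_lit 1) (nat_lit 10) (nat_lit 6) L1159087 (by decide +kernel)
theorem L1159089 : W_4 (nat_lit 7) (nat_lit 0x58000e0006000200000000000000000000000) (nat_lit 0x0) (nat_lit 0x100019c005e000c000000000000000000) := T_4 (nat_lit 92) (nat_lit 75) (nat_lit 7) (nat_lit 7) (nat_lit 4) L1159088 (by decide +kernel)
theorem L1159090 : W_4 (nat_lit 8) (nat_lit 0x18000e0006000200000000000000000000000) (nat_lit 0x0) (nat_lit 0x6000100019c005e000c000000000000000000) := T_4 (nat_lit 146) (nat_lit 145) (nat_lit 0) (nat_lit 10) (nat_lit 8) L1159089 (by decide +kernel)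
theorem L1159091 : W_4 (nat_lit 9) (nat_lit 0x10000e0006000200000000000000000000000) (nat_lit 0x0) (nat_lit 0x10006800100019c005e000c000000000000000000) := T_4 (nat_lit 143) (nat_lit 160) (nat_lit 6) (nat_lit 7) (nat_lit 9) L1159090 (by decide +kernel)
theorem L1159092 : W_4 (nat_lit 2) (nat_lit 0x5c000e00060003a0000000000000000000000) (nat_lit 0x0) (nat_lit 0x300100000000000000000000000000000000) := D_4 (nat_lit 141) (nat_lit 128) (nat_lit 140) (nat_lit 2) (nat_lit 5) (nat_lit 8) (nat_lit 2) (nat_lit 4) (nat_lit 8) (by decide +kernel)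
theorem L1159093 : W_4 (nat_lit 3) (nat_lit 0x58000e00060003a0000000000000000000000) (nat_lit 0x0) (nat_lit 0x8000700100000000000000000000000000000000) := T_4 (nat_lit 142) (nat_lit 159) (nat_lit 5) (nat_lit 7) (nat_lit 5) L1159092 (by decide +kernel)
theorem L1159094 : W_4 (nat_lit 4) (nat_lit 0x18000e00060003a0000000000000000000000) (nat_lit 0x0) (nat_lit 0x8006700100000000000000000000000000000000) := T_4 (nat_lit 146) (nat_lit 145) (nat_lit 0) (nat_lit 10) (nat_lit 8) L1159093 (by decide +kernel)
theorem L1159095 : W_4 (nat_lit 5) (nat_lit 0x18000e0006000380000000000000000000000) (nat_lit 0x0) (nat_lit 0x8006700100000000060000000000000000000000) := T_4 (nat_lit 89) (nat_lit 90) (nat_lit 3) (nat_lit 4) (nat_lit 5) L1159094 (by decide +kernel)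
theorem L1159096 : W_4 (nat_lit 6) (nat_lit 0x18000e0006000300000000000000000000000) (nat_lit 0x0) (nat_lit 0x80067001000000000e0004000000000000000000) := T_4 (nat_lit 91) (nat_lit 74) (nat_lit 4) (nat_lit 7) (nat_lit 8) L1159095 (by decide +kernel)
theorem L1159097 : W_4 (nat_lit 7) (nat_lit 0x10000e0006000300000000000000000000000) (nat_lit 0x0) (nat_lit 0x18006f001000000000e0004000000000000000000) := T_4 (nat_lit 143) (nat_lit 160) (nat_lit 6) (nat_lit 7) (nat_lit 9) L1159096 (by decide +kernel)
theorem L1159098 : W_4 (nat_lit 8) (nat_lit 0x10000e0006000200000000000000000000000) (nat_lit 0x0) (nat_lit 0x18006f001000000001e000c000000000000000000) := T_4 (nat_lit 92) (nat_lit 75) (nat_lit 7) (nat_lit 7) (nat_lit 4) L1159097 (by decide +kernel)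
theorem L1159102 : W_4 (nat_lit 7) (nat_lit 0x10000e0006000200000000000000000000000) (nat_lit 0x0) (nat_lit 0x18000c00100019c000e0006000100000000000000) := Q_4 (nat_lit 108) (C_4 L1158920 (C_4 L363810 (C_4 L1159101 N_4))) (by decide +kernel)
theorem L1159103 : W_4 (nat_lit 2) (nat_lit 0x5c000e0016000300000000000000000000000) (nat_lit 0x0) (nat_lit 0x300100000000000000000000000000000000) := D_4 (nat_lit 141) (nat_lit 128) (nat_lit 140) (nat_lit 2) (nat_lit 5) (nat_lit 8) (nat_lit 2) (nat_lit 4) (nat_lit 8) (by decide +kernel)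
theorem L1159104 : W_4 (nat_lit 3) (nat_lit 0x58000e0016000300000000000000000000000) (nat_lit 0x0) (nat_lit 0x8000700100000000000000000000000000000000) := T_4 (nat_lit 142) (nat_lit 159) (nat_lit 5) (nat_lit 7) (nat_lit 5) L1159103 (by decide +kernel)
theorem L1159105 : W_4 (nat_lit 4) (nat_lit 0x58000e0006000300000000000000000000000) (nat_lit 0x0) (nat_lit 0x8000700100018000000000000000000000000000) := T_4 (nat_lit 112) (nat_lit 111) (nat_lit 1) (nat_lit 10) (nat_lit 6) L1159104 (by decide +kernel)
theorem L1159106 : W_4 (nat_lit 5) (nat_lit 0x18000e0006000300000000000000000000000) (nat_lit 0x0) (nat_lit 0x8006700100018000000000000000000000000000) := T_4 (nat_lit 146) (nat_lit 145) (nat_lit 0) (nat_lit 10) (nat_lit 8) L1159105 (by decide +kernel)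
theorem L1159107 : W_4 (nat_lit 6) (nat_lit 0x18000e0006000200000000000000000000000) (nat_lit 0x0) (nat_lit 0x8006700100018000100008000000000000000000) := T_4 (nat_lit 92) (nat_lit 75) (nat_lit 7) (nat_lit 7) (nat_lit 4) L1159106 (by decide +kernel)
theorem L1159108 : W_4 (nat_lit 7) (nat_lit 0x10000e0006000200000000000000000000000) (nat_lit 0x0) (nat_lit 0x18006f00100018000100008000000000000000000) := T_4 (nat_lit 143) (nat_lit 160) (nat_lit 6) (nat_lit 7) (nat_lit 9) L1159107 (by decide +kernel)
theorem L1159109 : W_4 (nat_lit 10) (nat_lit 0x10000e0004000200000000000000000000000) (nat_lit 0x0) (nat_lit 0x18006f0010001bc005e000e000700000000000000) := Q_4 (nat_lit 109) (C_4 L1048653 (C_4 L1159091 (C_4 L363786 (C_4 L1159098 (C_4 L1159102 (C_4 L1159108 N_4)))))) (by decide +kernel)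
theorem L1159110 : W_4 (nat_lit 11) (nat_lit 0x10000c0004000200000000000000000000000) (nat_lit 0x0) (nat_lit 0x100018006f8013801be005e000e000700000000000000) := Q_4 (nat_lit 125) (C_4 L488376 (C_4 L175561 (C_4 L64387 (C_4 L1159109 N_4)))) (by decide +kernel)
theorem L1159116 : W_4 (nat_lit 2) (nat_lit 0x10000e00048003c0000000000000000000000) (nat_lit 0x0) (nat_lit 0x100001000400000000000000000000000) := D_4 (nat_lit 108) (nat_lit 128) (nat_lit 94) (nat_lit 0) (nat_lit 9) (nat_lit 7) (nat_lit 1) (nat_lit 9) (nat_lit 5) (by decide +kernel)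
theorem L1159117 : W_4 (nat_lit 3) (nat_lit 0x10000e00040003c0000000000000000000000) (nat_lit 0x0) (nat_lit 0x100001c00400000000000000000000000) := T_4 (nat_lit 107) (nat_lit 106) (nat_lit 1) (nat_lit 8) (nat_lit 5) L1159116 (by decide +kernel)
theorem L1159118 : W_4 (nat_lit 4) (nat_lit 0x10000e0004000380000000000000000000000) (nat_lit 0x0) (nat_lit 0x100009c00440000000000000000000000) := T_4 (nat_lit 90) (nat_lit 111) (nat_lit 3) (nat_lit 5) (nat_lit 5) L1159117 (by decide +kernel)
theorem L1159124 : W_4 (nat_lit 2) (nat_lit 0x10000e00058003c0000000000000000000000) (nat_lit 0x0) (nat_lit 0x10000800000000000000004000000000000000000) := D_4 (nat_lit 143) (nat_lit 160) (nat_lit 74) (nat_lit 5) (nat_lit 8) (nat_lit 5) (nat_lit 7) (nat_lit 6) (nat_lit 4) (by decide +kernel)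
theorem L1159125 : W_4 (nat_lit 3) (nat_lit 0x10000e00048003c0000000000000000000000) (nat_lit 0x0) (nat_lit 0x10000800100001000000004000000000000000000) := T_4 (nat_lit 108) (nat_lit 128) (nat_lit 0) (nat_lit 9) (nat_lit 7) L1159124 (by decide +kernel)
theorem L1159126 : W_4 (nat_lit 4) (nat_lit 0x10000e00040003c0000000000000000000000) (nat_lit 0x0) (nat_lit 0x10000800100001c00000004000000000000000000) := T_4 (nat_lit 107) (nat_lit 106) (nat_lit 1) (nat_lit 8) (nat_lit 5) L1159125 (by decide +kernel)
theorem L1159127 : W_4 (nat_lit 5) (nat_lit 0x10000e0004000380000000000000000000000) (nat_lit 0x0) (nat_lit 0x10000800100009c00040004000000000000000000) := T_4 (nat_lit 90) (nat_lit 111) (nat_lit 3) (nat_lit 5) (nat_lit 5) L1159126 (by decide +kernel)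
theorem L1159128 : W_4 (nat_lit 8) (nat_lit 0x10000e0004000300000000000000000000000) (nat_lit 0x0) (nat_lit 0x10006800100019c004c0027000000000000000000) := Q_4 (nat_lit 91) (C_4 L1159115 (C_4 L1159118 (C_4 L1159121 (C_4 L1159123 (C_4 L1159127 N_4))))) (by decide +kernel)
theorem L1159129 : W_4 (nat_lit 9) (nat_lit 0x10000e0004000200000000000000000000000) (nat_lit 0x0) (nat_lit 0x10006800100019c005c002f000000000000000000) := T_4 (nat_lit 92) (nat_lit 75) (nat_lit 4) (nat_lit 8) (nat_lit 8) L1159128 (by decide +kernel)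
theorem L1159130 : W_4 (nat_lit 10) (nat_lit 0x10000c0004000200000000000000000000000) (nat_lit 0x0) (nat_lit 0x100018006f80138019e005c002f000000000000000000) := Q_4 (nat_lit 125) (C_4 L488376 (C_4 L175561 (C_4 L64387 (C_4 L1159129 N_4)))) (by decide +kernel)
theorem L1159131 : W_4 (nat_lit 2) (nat_lit 0x58000e00178003c0000000000000000000000) (nat_lit 0x0) (nat_lit 0x3000100000000000000) := D_4 (nat_lit 73) (nat_lit 72) (nat_lit 56) (nat_lit 0) (nat_lit 8) (nat_lit 5) (nat_lit 7) (nat_lit 5) (nat_lit 3) (by decide +kernel)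
theorem L1159132 : W_4 (nat_lit 3) (nat_lit 0x58000e00168003c0000000000000000000000) (nat_lit 0x0) (nat_lit 0x100001000000003000100000000000000) := T_4 (nat_lit 108) (nat_lit 128) (nat_lit 3) (nat_lit 5) (nat_lit 6) L1159131 (by decide +kernel)
theorem L1159133 : W_4 (nat_lit 4) (nat_lit 0x58000e00160003c0000000000000000000000) (nat_lit 0x0) (nat_lit 0x100001c00000003000100000000000000) := T_4 (nat_lit 107) (nat_lit 106) (nat_lit 1) (nat_lit 8) (nat_lit 5) L1159132 (by decide +kernel)
theorem L1159134 : W_4 (nat_lit 5) (nat_lit 0x58000e0016000380000000000000000000000) (nat_lit 0x0) (nat_lit 0x100001c00060003000100000000000000) := T_4 (nat_lit 90) (nat_lit 89) (nat_lit 3) (nat_lit 4) (nat_lit 5) L1159133 (by decide +kernel)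
theorem L1159135 : W_4 (nat_lit 6) (nat_lit 0x58000e0016000300000000000000000000000) (nat_lit 0x0) (nat_lit 0x100001c000e0007000100000000000000) := T_4 (nat_lit 91) (nat_lit 74) (nat_lit 4) (nat_lit 7) (nat_lit 8) L1159134 (by decide +kernel)
theorem L1159136 : W_4 (nat_lit 7) (nat_lit 0x58000e0006000300000000000000000000000) (nat_lit 0x0) (nat_lit 0x100019c000e0007000100000000000000) := T_4 (nat_lit 112) (nat_lit 111) (nat_lit 1) (nat_lit 10) (nat_lit 6) L1159135 (by decide +kernel)
theorem L1159137 : W_4 (nat_lit 8) (nat_lit 0x58000e0006000200000000000000000000000) (nat_lit 0x0) (nat_lit 0x100019c001e000f000100000000000000) := T_4 (nat_lit 92) (nat_lit 75) (nat_lit 7) (nat_lit 7) (nat_lit 4) L1159136 (by decide +kernel)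
theorem L1159138 : W_4 (nat_lit 9) (nat_lit 0x18000e0006000200000000000000000000000) (nat_lit 0x0) (nat_lit 0x6000100019c001e000f000100000000000000) := T_4 (nat_lit 146) (nat_lit 145) (nat_lit 0) (nat_lit 10) (nat_lit 8) L1159137 (by decide +kernel)
theorem L1159139 : W_4 (nat_lit 10) (nat_lit 0x10000e0006000200000000000000000000000) (nat_lit 0x0) (nat_lit 0x10006800100019c001e000f000100000000000000) := T_4 (nat_lit 143) (nat_lit 160) (nat_lit 6) (nat_lit 7) (nat_lit 9) L1159138 (by decide +kernel)
theorem L1159140 : W_4 (nat_lit 2) (nat_lit 0x5d000e00160003c0000000000000000000000) (nat_lit 0x0) (nat_lit 0x1000000003000000000000000000) := D_4 (nat_lit 73) (nat_lit 72) (nat_lit 108) (nat_lit 0) (nat_lit 8) (nat_lit 5) (nat_lit 4) (nat_lit 6) (nat_lit 8) (by decide +kernel)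
theorem L1159141 : W_4 (nat_lit 3) (nat_lit 0x5d000e0016000380000000000000000000000) (nat_lit 0x0) (nat_lit 0x1000060003000000000000000000) := T_4 (nat_lit 90) (nat_lit 89) (nat_lit 3) (nat_lit 4) (nat_lit 5) L1159140 (by decide +kernel)
theorem L1159142 : W_4 (nat_lit 4) (nat_lit 0x5d000e0016000300000000000000000000000) (nat_lit 0x0) (nat_lit 0x10000e0007000000000000000000) := T_4 (nat_lit 91) (nat_lit 74) (nat_lit 4) (nat_lit 7) (nat_lit 8) L1159141 (by decide +kernel)
theorem L1159143 : W_4 (nat_lit 5) (nat_lit 0x5c000e0016000300000000000000000000000) (nat_lit 0x0) (nat_lit 0x3000000010000e0007000000000000000000) := T_4 (nat_lit 140) (nat_lit 141) (nat_lit 2) (nat_lit 4) (nat_lit 8) L1159142 (by decide +kernel)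
theorem L1159144 : W_4 (nat_lit 6) (nat_lit 0x58000e0016000300000000000000000000000) (nat_lit 0x0) (nat_lit 0x80007000000010000e0007000000000000000000) := T_4 (nat_lit 142) (nat_lit 159) (nat_lit 5) (nat_lit 7) (nat_lit 5) L1159143 (by decide +kernel)
theorem L1159145 : W_4 (nat_lit 7) (nat_lit 0x18000e0016000300000000000000000000000) (nat_lit 0x0) (nat_lit 0x80067000000010000e0007000000000000000000) := T_4 (nat_lit 146) (nat_lit 145) (nat_lit 0) (nat_lit 10) (nat_lit 8) L1159144 (by decide +kernel)
theorem L1159146 : W_4 (nat_lit 8) (nat_lit 0x18000e0006000300000000000000000000000) (nat_lit 0x0) (nat_lit 0x80067000000190000e0007000000000000000000) := T_4 (nat_lit 112) (nat_lit 111) (nat_lit 1) (nat_lit 10) (nat_lit 6) L1159145 (by decide +kernel)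
theorem L1159147 : W_4 (nat_lit 9) (nat_lit 0x10000e0006000300000000000000000000000) (nat_lit 0x0) (nat_lit 0x18006f000000190000e0007000000000000000000) := T_4 (nat_lit 143) (nat_lit 160) (nat_lit 6) (nat_lit 7) (nat_lit 9) L1159146 (by decide +kernel)
theorem L1159148 : W_4 (nat_lit 10) (nat_lit 0x10000e0006000200000000000000000000000) (nat_lit 0x0) (nat_lit 0x18006f000000190001e000f000000000000000000) := T_4 (nat_lit 92) (nat_lit 75) (nat_lit 7) (nat_lit 7) (nat_lit 4) L1159147 (by decide +kernel)
theorem L1159149 : W_4 (nat_lit 7) (nat_lit 0x10000e0006000200000000000000000000000) (nat_lit 0x0) (nat_lit 0x8000400100019c001e000e000700000000000000) := Q_4 (nat_lit 108) (C_4 L1158920 (C_4 L363810 (C_4 L363785 N_4))) (by decide +kernel)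
theorem L1159150 : W_4 (nat_lit 11) (nat_lit 0x10000e0004000200000000000000000000000) (nat_lit 0x0) (nat_lit 0x18006f0010001bc001e000f000700000000000000) := Q_4 (nat_lit 109) (C_4 L1159108 (C_4 L1159102 (C_4 L1159139 (C_4 L1048653 (C_4 L1159148 (C_4 L1159098 (C_4 L1159149 N_4))))))) (by decide +kernel)
theorem L1159151 : W_4 (nat_lit 12) (nat_lit 0x10000c0004000200000000000000000000000) (nat_lit 0x0) (nat_lit 0x100018006f8013801be001e000f000700000000000000) := Q_4 (nat_lit 125) (C_4 L488376 (C_4 L175561 (C_4 L64387 (C_4 L1159150 N_4)))) (by decide +kernel)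
theorem L1159153 : W_4 (nat_lit 13) (nat_lit 0x1000080004000200000000000000000000000) (nat_lit 0x0) (nat_lit 0x200010001e006f8017803be03de006f000700000000000000) := Q_4 (nat_lit 126) (C_4 L1158891 (C_4 L1158948 (C_4 L1158953 (C_4 L1158954 (C_4 L1158962 (C_4 L1159083 (C_4 L1159110 (C_4 L1159130 (C_4 L1159151 (C_4 L1159152 N_4)))))))))) (by decide +kernel)
theorem L1159154 : W_4 (nat_lit 14) (nat_lit 0x1000080004000000000000000000000000000) (nat_lit 0x0) (nat_lit 0x200010001e006f8017803be03fe007f001f000e0005000000) := Q_4 (nat_lit 93) (C_4 L1158885 (C_4 L154 (C_4 L1159153 (C_4 L1048690 N_4)))) (by decide +kernel)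
theorem L1159155 : W_4 (nat_lit 11) (nat_lit 0x1000080004000000000000000000000000000) (nat_lit 0x0) (nat_lit 0x20001c000f0003e00e80017803bc00580000000000000000000000) := Q_4 (nat_lit 161) (C_4 L150 (C_4 L1129462 (C_4 L1048914 (C_4 L1048908 N_4)))) (by decide +kernel)
theorem L1159156 : W_4 (nat_lit 15) (nat_lit 0x1000080000000000000000000000000000000) (nat_lit 0x0) (nat_lit 0x28001e000f0003e00ef8017803fe03fe007f001f000e0005000000) := Q_4 (nat_lit 110) (C_4 L1158887 (C_4 L1158872 (C_4 L1159154 (C_4 L1159155 (C_4 L1048884 (C_4 L1048894 (C_4 L1158878 (C_4 L151 (C_4 L1048916 (C_4 L1158886 N_4)))))))))) (by decide +kernel)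
theorem L1159170 : W_4 (nat_lit 2) (nat_lit 0x10001c0006000000010000000000000000000) (nat_lit 0x0) (nat_lit 0x2000000000000200000000800000000000000) := D_4 (nat_lit 93) (nat_lit 145) (nat_lit 59) (nat_lit 7) (nat_lit 8) (nat_lit 4) (nat_lit 5) (nat_lit 8) (nat_lit 3) (by decide +kernel)
theorem L1159171 : W_4 (nat_lit 2) (nat_lit 0x10001c0006000000010000000000000000000) (nat_lit 0x0) (nat_lit 0x800000000000200000000800000000000000) := D_4 (nat_lit 93) (nat_lit 59) (nat_lit 143) (nat_lit 5) (nat_lit 8) (nat_lit 3) (nat_lit 5) (nat_lit 8) (nat_lit 4) (by decide +kernel)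
theorem L1159461 : W_4 (nat_lit 10) (nat_lit 0x4000000010000c0003800000000000000000000000000) (nat_lit 0x0) (nat_lit 0x1180040006e003e001f00000000000000) := T_4 (nat_lit 110) (nat_lit 128) (nat_lit 3) (nat_lit 5) (nat_lit 6) L170856 (by decide +kernel)
theorem L1159462 : W_4 (nat_lit 11) (nat_lit 0x4000000010000c0003000000000000000000000000000) (nat_lit 0x0) (nat_lit 0x118004c006e003e001f00000000000000) := T_4 (nat_lit 107) (nat_lit 106) (nat_lit 3) (nat_lit 4) (nat_lit 6) L1159461 (by decide +kernel)
theorem L1159463 : W_4 (nat_lit 12) (nat_lit 0x10000c0003000000000000000000000000000) (nat_lit 0x0) (nat_lit 0x400020000000118004c006e003e001f00000000000000) := T_4 (nat_lit 178) (nat_lit 161) (nat_lit 4) (nat_lit 8) (nat_lit 10) L1159462 (by decide +kernel)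
theorem L1160075 : W_4 (nat_lit 2) (nat_lit 0x200010000c0006000600000000000000000000000) (nat_lit 0x0) (nat_lit 0x800000000000000010000800000000000000) := D_4 (nat_lit 76) (nat_lit 143) (nat_lit 59) (nat_lit 5) (nat_lit 8) (nat_lit 4) (nat_lit 5) (nat_lit 8) (nat_lit 3) (by decide +kernel)
theorem L1160076 : W_4 (nat_lit 3) (nat_lit 0x200010000c0006000400000000000000000000000) (nat_lit 0x0) (nat_lit 0x800000000000200030000800000000000000) := T_4 (nat_lit 93) (nat_lit 77) (nat_lit 6) (nat_lit 8) (nat_lit 8) L1160075 (by decide +kernel)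
theorem L1160077 : W_4 (nat_lit 4) (nat_lit 0x200010000c0006000000000000000000000000000) (nat_lit 0x0) (nat_lit 0x800000008000600030000800000000000000) := T_4 (nat_lit 94) (nat_lit 111) (nat_lit 6) (nat_lit 8) (nat_lit 9) L1160076 (by decide +kernel)
theorem L1160078 : W_4 (nat_lit 5) (nat_lit 0x10000c0006000000000000000000000000000) (nat_lit 0x0) (nat_lit 0x400020000800000008000600030000800000000000000) := T_4 (nat_lit 161) (nat_lit 178) (nat_lit 4) (nat_lit 8) (nat_lit 10) L1160077 (by decide +kernel)
theorem L1160079 : W_4 (nat_lit 2) (nat_lit 0x10001c0007000600000000000000000000000) (nat_lit 0x0) (nat_lit 0x8001800000000000000000000000) := D_4 (nat_lit 95) (nat_lit 111) (nat_lit 96) (nat_lit 2) (nat_lit 6) (nat_lit 6) (nat_lit 1) (nat_lit 11) (nat_lit 5) (by decide +kernel)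
theorem L1160080 : W_4 (nat_lit 3) (nat_lit 0x10001c0007000200000000000000000000000) (nat_lit 0x0) (nat_lit 0x8001c00020000000000000000000) := T_4 (nat_lit 94) (nat_lit 77) (nat_lit 6) (nat_lit 8) (nat_lit 8) L1160079 (by decide +kernel)
theorem L1160081 : W_4 (nat_lit 4) (nat_lit 0x10001c0006000200000000000000000000000) (nat_lit 0x0) (nat_lit 0x9801c00020000000000000000000) := T_4 (nat_lit 108) (nat_lit 107) (nat_lit 3) (nat_lit 5) (nat_lit 6) L1160080 (by decide +kernel)
theorem L1160082 : W_4 (nat_lit 5) (nat_lit 0x10001c0006000000000000000000000000000) (nat_lit 0x0) (nat_lit 0x2000000009801e00030001800000000000000) := Q_4 (nat_lit 93) (C_4 L187714 (C_4 L130753 (C_4 L1160081 N_4))) (by decide +kernel)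
theorem L1160092 : W_4 (nat_lit 2) (nat_lit 0x40000c001e000d0006000200000000000000000000000) (nat_lit 0x0) (nat_lit 0x2000100000000000000000800000000000000000000000000) := D_4 (nat_lit 176) (nat_lit 193) (nat_lit 107) (nat_lit 6) (nat_lit 6) (nat_lit 11) (nat_lit 7) (nat_lit 5) (nat_lit 6) (by decide +kernel)
theorem L1160093 : W_4 (nat_lit 3) (nat_lit 0x400004001e000d0006000200000000000000000000000) (nat_lit 0x0) (nat_lit 0x2000100008002000000000800000000000000000000000000) := T_4 (nat_lit 159) (nat_lit 145) (nat_lit 1) (nat_lit 9) (nat_lit 8) L1160092 (by decide +kernel)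
theorem L1160094 : W_4 (nat_lit 4) (nat_lit 0x400004001e000c0006000200000000000000000000000) (nat_lit 0x0) (nat_lit 0x2000100008002000018000800000000000000000000000000) := T_4 (nat_lit 124) (nat_lit 123) (nat_lit 0) (nat_lit 8) (nat_lit 8) L1160093 (by decide +kernel)
theorem L1160095 : W_4 (nat_lit 5) (nat_lit 0x400000001e000c0006000200000000000000000000000) (nat_lit 0x0) (nat_lit 0x200010000e002000018000800000000000000000000000000) := T_4 (nat_lit 158) (nat_lit 157) (nat_lit 1) (nat_lit 8) (nat_lit 8) L1160094 (by decide +kernel)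
theorem L1160096 : W_4 (nat_lit 6) (nat_lit 0x400000001c000c0006000200000000000000000000000) (nat_lit 0x0) (nat_lit 0x200010000e002300018000800000000000000000000000000) := T_4 (nat_lit 141) (nat_lit 140) (nat_lit 2) (nat_lit 4) (nat_lit 8) L1160095 (by decide +kernel)
theorem L1160098 : W_4 (nat_lit 2) (nat_lit 0x4001e000d0006801600000000000000000000000) (nat_lit 0x0) (nat_lit 0x100008000000000000000040000000000000000000000) := D_4 (nat_lit 159) (nat_lit 90) (nat_lit 176) (nat_lit 7) (nat_lit 5) (nat_lit 5) (nat_lit 7) (nat_lit 5) (nat_lit 6) (by decide +kernel)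
theorem L1160099 : W_4 (nat_lit 3) (nat_lit 0x1e000d0006801600000000000000000000000) (nat_lit 0x0) (nat_lit 0x10000e000000000000000040000000000000000000000) := T_4 (nat_lit 158) (nat_lit 157) (nat_lit 1) (nat_lit 8) (nat_lit 8) L1160098 (by decide +kernel)
theorem L1160100 : W_4 (nat_lit 4) (nat_lit 0x1e000c0006801600000000000000000000000) (nat_lit 0x0) (nat_lit 0x10000e000000018000000040000000000000000000000) := T_4 (nat_lit 124) (nat_lit 123) (nat_lit 0) (nat_lit 8) (nat_lit 8) L1160099 (by decide +kernel)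
theorem L1160101 : W_4 (nat_lit 5) (nat_lit 0x1e000c0006800600000000000000000000000) (nat_lit 0x0) (nat_lit 0x10000e000000018000001840000000000000000000000) := T_4 (nat_lit 96) (nat_lit 95) (nat_lit 1) (nat_lit 11) (nat_lit 5) L1160100 (by decide +kernel)
theorem L1160102 : W_4 (nat_lit 6) (nat_lit 0x1e000c0006000600000000000000000000000) (nat_lit 0x0) (nat_lit 0x10000e000000018001801840000000000000000000000) := T_4 (nat_lit 107) (nat_lit 108) (nat_lit 2) (nat_lit 5) (nat_lit 6) L1160101 (by decide +kernel)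
theorem L1161815 : W_4 (nat_lit 2) (nat_lit 0x4000000010000d00078000c0000000000000000000000) (nat_lit 0x0) (nat_lit 0x200000000000000004000200000000000000) := D_4 (nat_lit 74) (nat_lit 57) (nat_lit 141) (nat_lit 7) (nat_lit 6) (nat_lit 3) (nat_lit 6) (nat_lit 5) (nat_lit 8) (by decide +kernel)
theorem L1161816 : W_4 (nat_lit 3) (nat_lit 0x4000000010000d0007800040000000000000000000000) (nat_lit 0x0) (nat_lit 0x200000008000080004000200000000000000) := T_4 (nat_lit 91) (nat_lit 111) (nat_lit 0) (nat_lit 9) (nat_lit 6) L1161815 (by decide +kernel)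
theorem L1161817 : W_4 (nat_lit 4) (nat_lit 0x4000000010000d0007800000000000000000000000000) (nat_lit 0x0) (nat_lit 0x2000000080000e0004000200000000000000) := T_4 (nat_lit 90) (nat_lit 89) (nat_lit 0) (nat_lit 8) (nat_lit 6) L1161816 (by decide +kernel)
theorem L1161868 : W_4 (nat_lit 2) (nat_lit 0x8005800040012000d00028000e0000000000000000000000) (nat_lit 0x0) (nat_lit 0x10001000200000000000000000000000000000000000000000000) := D_4 (nat_lit 192) (nat_lit 177) (nat_lit 208) (nat_lit 1) (nat_lit 8) (nat_lit 10) (nat_lit 5) (nat_lit 5) (nat_lit 8) (by decide +kernel)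
theorem L1161869 : W_4 (nat_lit 3) (nat_lit 0x5800040012000d00028000e0000000000000000000000) (nat_lit 0x0) (nat_lit 0x10001800240000000000000000000000000000000000000000000) := T_4 (nat_lit 191) (nat_lit 174) (nat_lit 5) (nat_lit 5) (nat_lit 7) L1161868 (by decide +kernel)
theorem L1161870 : W_4 (nat_lit 4) (nat_lit 0x5000040012000d00028000e0000000000000000000000) (nat_lit 0x0) (nat_lit 0x100038002c0000000000000000000000000000000000000000000) := T_4 (nat_lit 175) (nat_lit 193) (nat_lit 7) (nat_lit 5) (nat_lit 7) L1161869 (by decide +kernel)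
theorem L1161871 : W_4 (nat_lit 5) (nat_lit 0x4000040012000d00028000e0000000000000000000000) (nat_lit 0x0) (nat_lit 0x100038003c0008000000000000000000000000000000000000000) := T_4 (nat_lit 176) (nat_lit 159) (nat_lit 7) (nat_lit 5) (nat_lit 6) L1161870 (by decide +kernel)
theorem L1161872 : W_4 (nat_lit 6) (nat_lit 0x4000000012000d00028000e0000000000000000000000) (nat_lit 0x0) (nat_lit 0x100038003c000c000000000000400000000000000000000000000) := T_4 (nat_lit 158) (nat_lit 106) (nat_lit 4) (nat_lit 5) (nat_lit 9) L1161871 (by decide +kernel)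
theorem L1161873 : W_4 (nat_lit 7) (nat_lit 0x4000000012000d00028000c0000000000000000000000) (nat_lit 0x0) (nat_lit 0x100038003c000c000000000000400020001000000000000000000) := T_4 (nat_lit 89) (nat_lit 72) (nat_lit 4) (nat_lit 5) (nat_lit 8) L1161872 (by decide +kernel)
theorem L1161874 : W_4 (nat_lit 8) (nat_lit 0x4000000012000d0002800040000000000000000000000) (nat_lit 0x0) (nat_lit 0x100038003c000c0000000000004000a0005000000000000000000) := T_4 (nat_lit 91) (nat_lit 74) (nat_lit 6) (nat_lit 5) (nat_lit 8) L1161873 (by decide +kernel)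
theorem L1161875 : W_4 (nat_lit 9) (nat_lit 0x12000d0002800040000000000000000000000) (nat_lit 0x0) (nat_lit 0x100038007c002c0000000000004000a0005000000000000000000) := T_4 (nat_lit 178) (nat_lit 161) (nat_lit 4) (nat_lit 8) (nat_lit 10) L1161874 (by decide +kernel)
theorem L1161894 : W_4 (nat_lit 2) (nat_lit 0x4000000012000d8002800060006000000000000000000) (nat_lit 0x0) (nat_lit 0x4000000000000400000000000100000000000000) := D_4 (nat_lit 106) (nat_lit 56) (nat_lit 158) (nat_lit 5) (nat_lit 5) (nat_lit 3) (nat_lit 4) (nat_lit 5) (nat_lit 9) (by decide +kernel)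
theorem L1161895 : W_4 (nat_lit 3) (nat_lit 0x4000000012000d0002800060006000000000000000000) (nat_lit 0x0) (nat_lit 0x4000100008000400000000000100000000000000) := T_4 (nat_lit 123) (nat_lit 140) (nat_lit 5) (nat_lit 5) (nat_lit 4) L1161894 (by decide +kernel)
theorem L1161896 : W_4 (nat_lit 4) (nat_lit 0x4000000012000d0002800060004000000000000000000) (nat_lit 0x0) (nat_lit 0x4000100008000400000002000300000000000000) := T_4 (nat_lit 73) (nat_lit 57) (nat_lit 6) (nat_lit 5) (nat_lit 7) L1161895 (by decide +kernel)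
theorem L1161897 : W_4 (nat_lit 5) (nat_lit 0x4000000012000d0002800040004000000000000000000) (nat_lit 0x0) (nat_lit 0x4000100008000400020003000300000000000000) := T_4 (nat_lit 89) (nat_lit 72) (nat_lit 4) (nat_lit 5) (nat_lit 8) L1161896 (by decide +kernel)
theorem L1161898 : W_4 (nat_lit 6) (nat_lit 0x4000000012000d0002800040000000000000000000000) (nat_lit 0x0) (nat_lit 0x40001000080004000a0007000300000000000000) := T_4 (nat_lit 74) (nat_lit 91) (nat_lit 6) (nat_lit 5) (nat_lit 8) L1161897 (by decide +kernel)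
theorem L1161899 : W_4 (nat_lit 7) (nat_lit 0x12000d0002800040000000000000000000000) (nat_lit 0x0) (nat_lit 0x4000240001000080004000a0007000300000000000000) := T_4 (nat_lit 178) (nat_lit 161) (nat_lit 4) (nat_lit 8) (nat_lit 10) L1161898 (by decide +kernel)
theorem L1161900 : W_4 (nat_lit 2) (nat_lit 0x4000000012000d0002c00060006000000000000000000) (nat_lit 0x0) (nat_lit 0x8000000000000000100008000000000) := D_4 (nat_lit 56) (nat_lit 123) (nat_lit 39) (nat_lit 5) (nat_lit 5) (nat_lit 3) (nat_lit 5) (nat_lit 5) (nat_lit 2) (by decide +kernel)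
theorem L1161901 : W_4 (nat_lit 3) (nat_lit 0x4000000012000d0002c00060004000000000000000000) (nat_lit 0x0) (nat_lit 0x8000000000002000300008000000000) := T_4 (nat_lit 73) (nat_lit 57) (nat_lit 6) (nat_lit 5) (nat_lit 7) L1161900 (by decide +kernel)
theorem L1161902 : W_4 (nat_lit 4) (nat_lit 0x4000000012000d0002c00060000000000000000000000) (nat_lit 0x0) (nat_lit 0x8000000080006000300008000000000) := T_4 (nat_lit 74) (nat_lit 91) (nat_lit 6) (nat_lit 5) (nat_lit 8) L1161901 (by decide +kernel)
theorem L1161903 : W_4 (nat_lit 5) (nat_lit 0x4000000012000d0002800060000000000000000000000) (nat_lit 0x0) (nat_lit 0x4000000008000400080006000300008000000000) := T_4 (nat_lit 106) (nat_lit 158) (nat_lit 4) (nat_lit 5) (nat_lit 9) L1161902 (by decide +kernel)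
theorem L1161904 : W_4 (nat_lit 6) (nat_lit 0x12000d0002800060000000000000000000000) (nat_lit 0x0) (nat_lit 0x400024000000008000400080006000300008000000000) := T_4 (nat_lit 178) (nat_lit 161) (nat_lit 4) (nat_lit 8) (nat_lit 10) L1161903 (by decide +kernel)
theorem L1161905 : W_4 (nat_lit 7) (nat_lit 0x12000d0002800040000000000000000000000) (nat_lit 0x0) (nat_lit 0x4000240000000080004000a0007000300008000000000) := T_4 (nat_lit 89) (nat_lit 72) (nat_lit 4) (nat_lit 5) (nat_lit 8) L1161904 (by decide +kernel)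
theorem L1161906 : W_4 (nat_lit 8) (nat_lit 0x12000d0002800000000000000000000000000) (nat_lit 0x0) (nat_lit 0x4400260001000080004000e0007000300008000000000) := Q_4 (nat_lit 90) (C_4 L291067 (C_4 L290970 (C_4 L1161899 (C_4 L1161905 N_4)))) (by decide +kernel)
theorem L1161907 : W_4 (nat_lit 4) (nat_lit 0x4000000013000d00028000c0000000000000000000000) (nat_lit 0x0) (nat_lit 0x4000c00000001000030001000000000000000000) := T_4 (nat_lit 142) (nat_lit 143) (nat_lit 2) (nat_lit 4) (nat_lit 8) L290937 (by decide +kernel)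
theorem L1161908 : W_4 (nat_lit 5) (nat_lit 0x4000000012000d00028000c0000000000000000000000) (nat_lit 0x0) (nat_lit 0x6000d00000001000030001000000000000000000) := T_4 (nat_lit 140) (nat_lit 157) (nat_lit 5) (nat_lit 5) (nat_lit 5) L1161907 (by decide +kernel)
theorem L1161909 : W_4 (nat_lit 6) (nat_lit 0x4000000012000d0002800040000000000000000000000) (nat_lit 0x0) (nat_lit 0x6000d000000010000b0005000000000000000000) := T_4 (nat_lit 91) (nat_lit 74) (nat_lit 6) (nat_lit 5) (nat_lit 8) L1161908 (by decide +kernel)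
theorem L1161910 : W_4 (nat_lit 7) (nat_lit 0x12000d0002800040000000000000000000000) (nat_lit 0x0) (nat_lit 0x400026000d000000010000b0005000000000000000000) := T_4 (nat_lit 178) (nat_lit 161) (nat_lit 4) (nat_lit 8) (nat_lit 10) L1161909 (by decide +kernel)
theorem L1161911 : W_4 (nat_lit 2) (nat_lit 0x4000000012000d00038000c0000000000000000000000) (nat_lit 0x0) (nat_lit 0x30001000000000000000000) := D_4 (nat_lit 89) (nat_lit 72) (nat_lit 88) (nat_lit 4) (nat_lit 5) (nat_lit 8) (nat_lit 3) (nat_lit 3) (nat_lit 5) (by decide +kernel)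
theorem L1161912 : W_4 (nat_lit 3) (nat_lit 0x4000000012000d00028000c0000000000000000000000) (nat_lit 0x0) (nat_lit 0x4000000000001000030001000000000000000000) := T_4 (nat_lit 108) (nat_lit 158) (nat_lit 6) (nat_lit 5) (nat_lit 9) L1161911 (by decide +kernel)
theorem L1161913 : W_4 (nat_lit 4) (nat_lit 0x12000d00028000c0000000000000000000000) (nat_lit 0x0) (nat_lit 0x400024000000000001000030001000000000000000000) := T_4 (nat_lit 178) (nat_lit 161) (nat_lit 4) (nat_lit 8) (nat_lit 10) L1161912 (by decide +kernel)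
theorem L1161914 : W_4 (nat_lit 5) (nat_lit 0x12000d0002800040000000000000000000000) (nat_lit 0x0) (nat_lit 0x4000240000000000010000b0005000000000000000000) := T_4 (nat_lit 91) (nat_lit 74) (nat_lit 6) (nat_lit 5) (nat_lit 8) L1161913 (by decide +kernel)
theorem L1161915 : W_4 (nat_lit 8) (nat_lit 0x12000d0002800000000000000000000000000) (nat_lit 0x0) (nat_lit 0x400026000d000080010000f0007000280000000000000) := Q_4 (nat_lit 90) (C_4 L291067 (C_4 L290925 (C_4 L1161910 (C_4 L1161914 N_4)))) (by decide +kernel)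
theorem L1161917 : W_4 (nat_lit 2) (nat_lit 0x16000d0002800000000000000000000000000) (nat_lit 0x0) (nat_lit 0x900008000000000000000000000000000000) := D_4 (nat_lit 143) (nat_lit 123) (nat_lit 140) (nat_lit 0) (nat_lit 8) (nat_lit 8) (nat_lit 2) (nat_lit 4) (nat_lit 8) (by decide +kernel)
theorem L1161931 : W_4 (nat_lit 2) (nat_lit 0xf0016000d8002c00000000000000000000000000) (nat_lit 0x0) (nat_lit 0x30000000100000000000000000000000000000000000) := D_4 (nat_lit 173) (nat_lit 172) (nat_lit 140) (nat_lit 1) (nat_lit 6) (nat_lit 9) (nat_lit 5) (nat_lit 4) (nat_lit 6) (by decide +kernel)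
theorem L1161932 : W_4 (nat_lit 3) (nat_lit 0xf0016000d0002c00000000000000000000000000) (nat_lit 0x0) (nat_lit 0xb0000000100008000000000000000000000000000000) := T_4 (nat_lit 123) (nat_lit 175) (nat_lit 4) (nat_lit 5) (nat_lit 10) L1161931 (by decide +kernel)
theorem L1161933 : W_4 (nat_lit 4) (nat_lit 0xe0016000d0002c00000000000000000000000000) (nat_lit 0x0) (nat_lit 0xb0001800100008000000000000000000000000000000) := T_4 (nat_lit 156) (nat_lit 155) (nat_lit 2) (nat_lit 2) (nat_lit 9) L1161932 (by decide +kernel)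
theorem L1161934 : W_4 (nat_lit 5) (nat_lit 0xe0016000d0002800000000000000000000000000) (nat_lit 0x0) (nat_lit 0xb0001800100008000400020000000000000000000000) := T_4 (nat_lit 106) (nat_lit 89) (nat_lit 4) (nat_lit 5) (nat_lit 9) L1161933 (by decide +kernel)
theorem L1161935 : W_4 (nat_lit 6) (nat_lit 0xe0012000d0002800000000000000000000000000) (nat_lit 0x0) (nat_lit 0xb0001800d00008000400020000000000000000000000) := T_4 (nat_lit 142) (nat_lit 143) (nat_lit 1) (nat_lit 8) (nat_lit 8) L1161934 (by decide +kernel)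
theorem L1161936 : W_4 (nat_lit 7) (nat_lit 0xc0012000d0002800000000000000000000000000) (nat_lit 0x0) (nat_lit 0xf0003800d00008000400020000000000000000000000) := T_4 (nat_lit 157) (nat_lit 174) (nat_lit 5) (nat_lit 5) (nat_lit 6) L1161935 (by decide +kernel)
theorem L1161937 : W_4 (nat_lit 8) (nat_lit 0x40012000d0002800000000000000000000000000) (nat_lit 0x0) (nat_lit 0x1f000b800d00008000400020000000000000000000000) := T_4 (nat_lit 159) (nat_lit 176) (nat_lit 7) (nat_lit 5) (nat_lit 6) L1161936 (by decide +kernel)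
theorem L1161938 : W_4 (nat_lit 2) (nat_lit 0x5800040012000d0002c00000000000000000000000000) (nat_lit 0x0) (nat_lit 0x800040002000000000000000000000000000000000000000) := D_4 (nat_lit 174) (nat_lit 191) (nat_lit 157) (nat_lit 5) (nat_lit 5) (nat_lit 7) (nat_lit 5) (nat_lit 5) (nat_lit 6) (by decide +kernel)
theorem L1161939 : W_4 (nat_lit 3) (nat_lit 0x5000040012000d0002c00000000000000000000000000) (nat_lit 0x0) (nat_lit 0x28000c0002000000000000000000000000000000000000000) := T_4 (nat_lit 175) (nat_lit 193) (nat_lit 7) (nat_lit 5) (nat_lit 7) L1161938 (by decide +kernel)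
theorem L1161940 : W_4 (nat_lit 4) (nat_lit 0x1000040012000d0002c00000000000000000000000000) (nat_lit 0x0) (nat_lit 0x28004c0022000000000000000000000000000000000000000) := T_4 (nat_lit 178) (nat_lit 161) (nat_lit 4) (nat_lit 8) (nat_lit 10) L1161939 (by decide +kernel)
theorem L1161941 : W_4 (nat_lit 5) (nat_lit 0x40012000d0002c00000000000000000000000000) (nat_lit 0x0) (nat_lit 0x28005c002a000000000000000000000000000000000000000) := T_4 (nat_lit 176) (nat_lit 159) (nat_lit 7) (nat_lit 5) (nat_lit 6) L1161940 (by decide +kernel)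
theorem L1161942 : W_4 (nat_lit 6) (nat_lit 0x40012000d0002800000000000000000000000000) (nat_lit 0x0) (nat_lit 0x28005c002a000000000000400020000000000000000000000) := T_4 (nat_lit 106) (nat_lit 89) (nat_lit 4) (nat_lit 5) (nat_lit 9) L1161941 (by decide +kernel)
theorem L1161943 : W_4 (nat_lit 2) (nat_lit 0x42000f0016800d0002c00000000000000000000000000) (nat_lit 0x0) (nat_lit 0x10000c000000000000000000000000000000) := D_4 (nat_lit 123) (nat_lit 140) (nat_lit 122) (nat_lit 5) (nat_lit 4) (nat_lit 6) (nat_lit 6) (nat_lit 3) (nat_lit 10) (by decide +kernel)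
theorem L1161944 : W_4 (nat_lit 3) (nat_lit 0x42000f0016800d0002800000000000000000000000000) (nat_lit 0x0) (nat_lit 0x10000c000400020000000000000000000000) := T_4 (nat_lit 106) (nat_lit 89) (nat_lit 4) (nat_lit 5) (nat_lit 9) L1161943 (by decide +kernel)
theorem L1161945 : W_4 (nat_lit 4) (nat_lit 0x40000f0016800d0002800000000000000000000000000) (nat_lit 0x0) (nat_lit 0x3000000010000c000400020000000000000000000000) := T_4 (nat_lit 173) (nat_lit 172) (nat_lit 1) (nat_lit 6) (nat_lit 9) L1161944 (by decide +kernel)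
theorem L1161946 : W_4 (nat_lit 5) (nat_lit 0x40000f0016000d0002800000000000000000000000000) (nat_lit 0x0) (nat_lit 0x300000001c000c000400020000000000000000000000) := T_4 (nat_lit 139) (nat_lit 138) (nat_lit 0) (nat_lit 6) (nat_lit 9) L1161945 (by decide +kernel)
theorem L1161947 : W_4 (nat_lit 6) (nat_lit 0xf0016000d0002800000000000000000000000000) (nat_lit 0x0) (nat_lit 0x4300200001c000c000400020000000000000000000000) := T_4 (nat_lit 178) (nat_lit 161) (nat_lit 4) (nat_lit 8) (nat_lit 10) L1161946 (by decide +kernel)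
theorem L1161948 : W_4 (nat_lit 7) (nat_lit 0xe0016000d0002800000000000000000000000000) (nat_lit 0x0) (nat_lit 0x4300218001c000c000400020000000000000000000000) := T_4 (nat_lit 156) (nat_lit 155) (nat_lit 2) (nat_lit 2) (nat_lit 9) L1161947 (by decide +kernel)
theorem L1161949 : W_4 (nat_lit 8) (nat_lit 0x60016000d0002800000000000000000000000000) (nat_lit 0x0) (nat_lit 0x5300298001c000c000400020000000000000000000000) := T_4 (nat_lit 159) (nat_lit 176) (nat_lit 7) (nat_lit 5) (nat_lit 6) L1161948 (by decide +kernel)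
theorem L1161950 : W_4 (nat_lit 9) (nat_lit 0x60012000d0002800000000000000000000000000) (nat_lit 0x0) (nat_lit 0x530029800dc000c000400020000000000000000000000) := T_4 (nat_lit 142) (nat_lit 143) (nat_lit 1) (nat_lit 8) (nat_lit 8) L1161949 (by decide +kernel)
theorem L1161951 : W_4 (nat_lit 10) (nat_lit 0x40012000d0002800000000000000000000000000) (nat_lit 0x0) (nat_lit 0x57002b800dc000c000400020000000000000000000000) := T_4 (nat_lit 157) (nat_lit 174) (nat_lit 5) (nat_lit 5) (nat_lit 6) L1161950 (by decide +kernel)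
theorem L1161952 : W_4 (nat_lit 2) (nat_lit 0x500006001a000d0002800000000000000000000000000) (nat_lit 0x0) (nat_lit 0x2000280000000000000000000000000000000000000000000) := D_4 (nat_lit 175) (nat_lit 177) (nat_lit 193) (nat_lit 0) (nat_lit 8) (nat_lit 10) (nat_lit 7) (nat_lit 5) (nat_lit 7) (by decide +kernel)
theorem L1161953 : W_4 (nat_lit 3) (nat_lit 0x100006001a000d0002800000000000000000000000000) (nat_lit 0x0) (nat_lit 0x2000680020000000000000000000000000000000000000000) := T_4 (nat_lit 178) (nat_lit 161) (nat_lit 4) (nat_lit 8) (nat_lit 10) L1161952 (by decide +kernel)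
theorem L1161954 : W_4 (nat_lit 4) (nat_lit 0x6001a000d0002800000000000000000000000000) (nat_lit 0x0) (nat_lit 0x2000780028000000000000000000000000000000000000000) := T_4 (nat_lit 176) (nat_lit 159) (nat_lit 7) (nat_lit 5) (nat_lit 6) L1161953 (by decide +kernel)
theorem L1161955 : W_4 (nat_lit 5) (nat_lit 0x60012000d0002800000000000000000000000000) (nat_lit 0x0) (nat_lit 0x2000780028000c00000000000000000000000000000000000) := T_4 (nat_lit 143) (nat_lit 142) (nat_lit 1) (nat_lit 8) (nat_lit 8) L1161954 (by decide +kernel)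
theorem L1161956 : W_4 (nat_lit 6) (nat_lit 0x40012000d0002800000000000000000000000000) (nat_lit 0x0) (nat_lit 0x20007c002a000c00000000000000000000000000000000000) := T_4 (nat_lit 157) (nat_lit 174) (nat_lit 5) (nat_lit 5) (nat_lit 6) L1161955 (by decide +kernel)
theorem L1161957 : W_4 (nat_lit 11) (nat_lit 0x12000d0002800000000000000000000000000) (nat_lit 0x0) (nat_lit 0x28007f002f800dc000c000400020000000000000000000000) := Q_4 (nat_lit 158) (C_4 L302320 (C_4 L1161937 (C_4 L302224 (C_4 L1161942 (C_4 L1161951 (C_4 L1161956 N_4)))))) (by decide +kernel)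
theorem L1161966 : W_4 (nat_lit 7) (nat_lit 0x12000d0002800000000000000000000000000) (nat_lit 0x0) (nat_lit 0x28007c002e000c00008000400060001000000000000000000) := Q_4 (nat_lit 158) (C_4 L1161956 (C_4 L302267 (C_4 L1161942 (C_4 L302224 N_4)))) (by decide +kernel)
theorem L1161967 : W_4 (nat_lit 5) (nat_lit 0x4000000016000d0002800000000000000000000000000) (nat_lit 0x0) (nat_lit 0xa0001000080000000c0006000200000000000000) := T_4 (nat_lit 90) (nat_lit 159) (nat_lit 7) (nat_lit 5) (nat_lit 5) L290892 (by decide +kernel)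
theorem L1161968 : W_4 (nat_lit 6) (nat_lit 0x16000d0002800000000000000000000000000) (nat_lit 0x0) (nat_lit 0x40002a0001000080000000c0006000200000000000000) := T_4 (nat_lit 178) (nat_lit 161) (nat_lit 4) (nat_lit 8) (nat_lit 10) L1161967 (by decide +kernel)
theorem L1162650 : W_4 (nat_lit 2) (nat_lit 0x60012000d0002c00040000000000000000000000) (nat_lit 0x0) (nat_lit 0x8000c00000000000000000000000000000000000) := D_4 (nat_lit 142) (nat_lit 143) (nat_lit 159) (nat_lit 1) (nat_lit 8) (nat_lit 8) (nat_lit 7) (nat_lit 5) (nat_lit 5) (by decide +kernel)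
theorem L1162651 : W_4 (nat_lit 3) (nat_lit 0x60012000d0002c00000000000000000000000000) (nat_lit 0x0) (nat_lit 0x8000d00000000000040000000000000000000000) := T_4 (nat_lit 90) (nat_lit 140) (nat_lit 5) (nat_lit 5) (nat_lit 5) L1162650 (by decide +kernel)
theorem L1162652 : W_4 (nat_lit 4) (nat_lit 0x40012000d0002c00000000000000000000000000) (nat_lit 0x0) (nat_lit 0x4000a000d00000000000040000000000000000000000) := T_4 (nat_lit 157) (nat_lit 174) (nat_lit 5) (nat_lit 5) (nat_lit 6) L1162651 (by decide +kernel)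
theorem L1163164 : W_4 (nat_lit 5) (nat_lit 0x18000c0006000000000000000000000000000) (nat_lit 0x0) (nat_lit 0x9801e00030000000000000000000) := T_4 (nat_lit 93) (nat_lit 76) (nat_lit 5) (nat_lit 8) (nat_lit 4) L1158951 (by decide +kernel)
theorem L1167765 : W_4 (nat_lit 2) (nat_lit 0x4000000010000d0007800200000000000000000000000) (nat_lit 0x0) (nat_lit 0x800000000000000010000800000000000000) := D_4 (nat_lit 76) (nat_lit 59) (nat_lit 143) (nat_lit 5) (nat_lit 8) (nat_lit 3) (nat_lit 5) (nat_lit 8) (nat_lit 4) (by decide +kernel)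
theorem L1167766 : W_4 (nat_lit 3) (nat_lit 0x4000000010000d0007800000000000000000000000000) (nat_lit 0x0) (nat_lit 0x800000000000600010000800000000000000) := T_4 (nat_lit 93) (nat_lit 94) (nat_lit 2) (nat_lit 5) (nat_lit 6) L1167765 (by decide +kernel)
theorem L1167854 : W_4 (nat_lit 2) (nat_lit 0x4000200010003c0000000000000000000000000000000) (nat_lit 0x0) (nat_lit 0x8000000000002800000000000000000000000000000000000) := D_4 (nat_lit 195) (nat_lit 143) (nat_lit 145) (nat_lit 4) (nat_lit 8) (nat_lit 11) (nat_lit 6) (nat_lit 8) (nat_lit 11) (by decide +kernel)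
theorem L1167945 : W_4 (nat_lit 2) (nat_lit 0x200018003c0010000800040005000000000000000) (nat_lit 0x0) (nat_lit 0x2000280000000000) := D_4 (nat_lit 61) (nat_lit 43) (nat_lit 45) (nat_lit 4) (nat_lit 10) (nat_lit 6) (nat_lit 6) (nat_lit 10) (nat_lit 6) (by decide +kernel)
theorem L1167946 : W_4 (nat_lit 3) (nat_lit 0x200018003c0010000800040001000000000000000) (nat_lit 0x0) (nat_lit 0x80006000280000000000) := T_4 (nat_lit 62) (nat_lit 79) (nat_lit 6) (nat_lit 10) (nat_lit 7) L1167945 (by decide +kernel)
theorem L1167947 : W_4 (nat_lit 4) (nat_lit 0x200018003c0010000800040000000000000000000) (nat_lit 0x0) (nat_lit 0xa0007000280000000000) := T_4 (nat_lit 60) (nat_lit 77) (nat_lit 4) (nat_lit 10) (nat_lit 7) L1167946 (by decide +kernel)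
theorem L1167948 : W_4 (nat_lit 5) (nat_lit 0x200018003c0010000800000000000000000000000) (nat_lit 0x0) (nat_lit 0x20000000000000000e0007000280000000000) := T_4 (nat_lit 78) (nat_lit 145) (nat_lit 5) (nat_lit 10) (nat_lit 4) L1167947 (by decide +kernel)
theorem L1167949 : W_4 (nat_lit 6) (nat_lit 0x200010003c0010000800000000000000000000000) (nat_lit 0x0) (nat_lit 0x2c000000000000000e0007000280000000000) := T_4 (nat_lit 143) (nat_lit 142) (nat_lit 1) (nat_lit 10) (nat_lit 7) L1167948 (by decide +kernel)
theorem L1168597 : W_4 (nat_lit 2) (nat_lit 0x200010001c0004000300000000000000000000000) (nat_lit 0x0) (nat_lit 0x2800000000000000010000000000000000000) := D_4 (nat_lit 76) (nat_lit 143) (nat_lit 145) (nat_lit 5) (nat_lit 8) (nat_lit 4) (nat_lit 7) (nat_lit 8) (nat_lit 4) (by decide +kernel)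
theorem L1168752 : W_4 (nat_lit 2) (nat_lit 0x20001c000c0004000400000000000000000000000) (nat_lit 0x0) (nat_lit 0x200030000000000000000000) := D_4 (nat_lit 93) (nat_lit 76) (nat_lit 77) (nat_lit 5) (nat_lit 8) (nat_lit 4) (nat_lit 6) (nat_lit 8) (nat_lit 8) (by decide +kernel)
theorem L1168753 : W_4 (nat_lit 3) (nat_lit 0x20001c000c0004000000000000000000000000000) (nat_lit 0x0) (nat_lit 0x8000600030000000000000000000) := T_4 (nat_lit 94) (nat_lit 111) (nat_lit 6) (nat_lit 8) (nat_lit 9) L1168752 (by decide +kernel)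
theorem L1174556 : W_4 (nat_lit 3) (nat_lit 0x200010003c0000000000000000000000000000000) (nat_lit 0x0) (nat_lit 0x1c800400000000000000000000000000000000) := T_4 (nat_lit 130) (nat_lit 143) (nat_lit 1) (nat_lit 11) (nat_lit 7) L511689 (by decide +kernel)
theorem L1174557 : W_4 (nat_lit 6) (nat_lit 0x200010003c0010000000000000000000000000000) (nat_lit 0x0) (nat_lit 0x72801c001c0000000000000000000000000000) := T_4 (nat_lit 130) (nat_lit 143) (nat_lit 1) (nat_lit 11) (nat_lit 7) L511906 (by decide +kernel)
theorem L1174558 : W_4 (nat_lit 7) (nat_lit 0x200010003c0000000000000000000000000000000) (nat_lit 0x0) (nat_lit 0x72801c001f0000000000000000000000000000) := T_4 (nat_lit 112) (nat_lit 113) (nat_lit 2) (nat_lit 7) (nat_lit 7) L1174557 (by decide +kernel)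
theorem L1176594 : W_4 (nat_lit 8) (nat_lit 0x10001c0000000000000000000000000000000) (nat_lit 0x0) (nat_lit 0x34001a003ec00e00078000400020000000000000000000) := Q_4 (nat_lit 129) (C_4 L640803 (C_4 L504429 (C_4 L1176593 N_4))) (by decide +kernel)
theorem L1176597 : W_4 (nat_lit 2) (nat_lit 0x10001c0006000700000000000000000000000) (nat_lit 0x0) (nat_lit 0x1800800000000000000000000000) := D_4 (nat_lit 108) (nat_lit 107) (nat_lit 95) (nat_lit 3) (nat_lit 5) (nat_lit 6) (nat_lit 1) (nat_lit 10) (nat_lit 5) (by decide +kernel)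
theorem L1176598 : W_4 (nat_lit 3) (nat_lit 0x10001c0006000300000000000000000000000) (nat_lit 0x0) (nat_lit 0x1800c00020000000000000000000) := T_4 (nat_lit 94) (nat_lit 77) (nat_lit 6) (nat_lit 8) (nat_lit 8) L1176597 (by decide +kernel)
theorem L1176599 : W_4 (nat_lit 4) (nat_lit 0x10001c0006000200000000000000000000000) (nat_lit 0x0) (nat_lit 0x1800d00028000000000000000000) := T_4 (nat_lit 92) (nat_lit 75) (nat_lit 7) (nat_lit 7) (nat_lit 4) L1176598 (by decide +kernel)
theorem L1176600 : W_4 (nat_lit 5) (nat_lit 0x10001c0006000000000000000000000000000) (nat_lit 0x0) (nat_lit 0x2000000001800f00038001800000000000000) := Q_4 (nat_lit 93) (C_4 L187714 (C_4 L130753 (C_4 L1176599 N_4))) (by decide +kernel)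
theorem L1176601 : W_4 (nat_lit 4) (nat_lit 0x10001c0006000000000000000000000000000) (nat_lit 0x0) (nat_lit 0x39800d80028000000000000000000) := Q_4 (nat_lit 111) (C_4 L1115743 (C_4 L586505 N_4)) (by decide +kernel)
theorem L1176602 : W_4 (nat_lit 2) (nat_lit 0x10001c0016000f00040000000000000000000) (nat_lit 0x0) (nat_lit 0x2000000008000080000000000000000000000) := D_4 (nat_lit 111) (nat_lit 91) (nat_lit 145) (nat_lit 3) (nat_lit 6) (nat_lit 5) (nat_lit 6) (nat_lit 9) (nat_lit 8) (by decide +kernel)
theorem L1176603 : W_4 (nat_lit 3) (nat_lit 0x10001c0006000f00040000000000000000000) (nat_lit 0x0) (nat_lit 0x2000000038000080000000000000000000000) := T_4 (nat_lit 112) (nat_lit 113) (nat_lit 3) (nat_lit 7) (nat_lit 5) L1176602 (by decide +kernel)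
theorem L1176604 : W_4 (nat_lit 4) (nat_lit 0x10001c0006000f00000000000000000000000) (nat_lit 0x0) (nat_lit 0x20000000380000800c0000000000000000000) := T_4 (nat_lit 78) (nat_lit 79) (nat_lit 2) (nat_lit 7) (nat_lit 5) L1176603 (by decide +kernel)
theorem L1176605 : W_4 (nat_lit 5) (nat_lit 0x10001c0006000700000000000000000000000) (nat_lit 0x0) (nat_lit 0x20000000380018800c0000000000000000000) := T_4 (nat_lit 95) (nat_lit 96) (nat_lit 1) (nat_lit 11) (nat_lit 5) L1176604 (by decide +kernel)
theorem L1176606 : W_4 (nat_lit 6) (nat_lit 0x10001c0006000300000000000000000000000) (nat_lit 0x0) (nat_lit 0x2000000038001c800e0000000000000000000) := T_4 (nat_lit 94) (nat_lit 77) (nat_lit 6) (nat_lit 8) (nat_lit 8) L1176605 (by decide +kernel)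
theorem L1176607 : W_4 (nat_lit 7) (nat_lit 0x10001c0006000200000000000000000000000) (nat_lit 0x0) (nat_lit 0x2000000038001d800e8000000000000000000) := T_4 (nat_lit 92) (nat_lit 75) (nat_lit 7) (nat_lit 7) (nat_lit 4) L1176606 (by decide +kernel)
theorem L1176608 : W_4 (nat_lit 8) (nat_lit 0x10001c0006000000000000000000000000000) (nat_lit 0x0) (nat_lit 0x2000000038001f800f8001800000000000000) := Q_4 (nat_lit 93) (C_4 L187714 (C_4 L130753 (C_4 L1176607 N_4))) (by decide +kernel)
theorem L1176609 : W_4 (nat_lit 2) (nat_lit 0x10001c0006000200000000000000000000000) (nat_lit 0x0) (nat_lit 0x800000000000000010000800000000000000) := D_4 (nat_lit 76) (nat_lit 59) (nat_lit 143) (nat_lit 5) (nat_lit 8) (nat_lit 3) (nat_lit 5) (nat_lit 8) (nat_lit 4) (by decide +kernel)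
theorem L1176610 : W_4 (nat_lit 2) (nat_lit 0x18001c002e800380000000000000000000000) (nat_lit 0x0) (nat_lit 0x8000600000000000000000000000000000000000) := D_4 (nat_lit 142) (nat_lit 141) (nat_lit 159) (nat_lit 2) (nat_lit 5) (nat_lit 8) (nat_lit 5) (nat_lit 7) (nat_lit 5) (by decide +kernel)
theorem L1176611 : W_4 (nat_lit 3) (nat_lit 0x10001c002e800380000000000000000000000) (nat_lit 0x0) (nat_lit 0x8000e00000000000000004000000000000000000) := T_4 (nat_lit 143) (nat_lit 74) (nat_lit 4) (nat_lit 7) (nat_lit 8) L1176610 (by decide +kernel)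
theorem L1176612 : W_4 (nat_lit 4) (nat_lit 0x10001c002e800300000000000000000000000) (nat_lit 0x0) (nat_lit 0x8000e000000000000c0004000000000000000000) := T_4 (nat_lit 91) (nat_lit 90) (nat_lit 3) (nat_lit 5) (nat_lit 5) L1176611 (by decide +kernel)
theorem L1176613 : W_4 (nat_lit 5) (nat_lit 0x10001c002e800200000000000000000000000) (nat_lit 0x0) (nat_lit 0x8000e000000000001c000c000000000000000000) := T_4 (nat_lit 92) (nat_lit 75) (nat_lit 7) (nat_lit 7) (nat_lit 4) L1176612 (by decide +kernel)
theorem L1176614 : W_4 (nat_lit 6) (nat_lit 0x10001c000e800200000000000000000000000) (nat_lit 0x0) (nat_lit 0x8000e000000300001c000c000000000000000000) := T_4 (nat_lit 113) (nat_lit 112) (nat_lit 1) (nat_lit 11) (nat_lit 6) L1176613 (by decide +kernel)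
theorem L1176615 : W_4 (nat_lit 7) (nat_lit 0x10001c000e000200000000000000000000000) (nat_lit 0x0) (nat_lit 0x8000e000000318001c000c000000000000000000) := T_4 (nat_lit 107) (nat_lit 108) (nat_lit 3) (nat_lit 5) (nat_lit 6) L1176614 (by decide +kernel)
theorem L1176616 : W_4 (nat_lit 2) (nat_lit 0x10001c000e000300000000000000000000000) (nat_lit 0x0) (nat_lit 0x100000c0000000000000000000000) := D_4 (nat_lit 91) (nat_lit 90) (nat_lit 112) (nat_lit 3) (nat_lit 5) (nat_lit 5) (nat_lit 0) (nat_lit 10) (nat_lit 6) (by decide +kernel)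
theorem L1176617 : W_4 (nat_lit 3) (nat_lit 0x10001c000e000200000000000000000000000) (nat_lit 0x0) (nat_lit 0x100001c0008000000000000000000) := T_4 (nat_lit 92) (nat_lit 75) (nat_lit 7) (nat_lit 7) (nat_lit 4) L1176616 (by decide +kernel)
theorem L1176618 : W_4 (nat_lit 2) (nat_lit 0x10001c001f000200000000000000000000000) (nat_lit 0x0) (nat_lit 0x1c00000000000000000000000) := D_4 (nat_lit 95) (nat_lit 94) (nat_lit 96) (nat_lit 2) (nat_lit 6) (nat_lit 6) (nat_lit 2) (nat_lit 7) (nat_lit 6) (by decide +kernel)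
theorem L1176619 : W_4 (nat_lit 3) (nat_lit 0x10001c000f000200000000000000000000000) (nat_lit 0x0) (nat_lit 0x30001c00000000000000000000000) := T_4 (nat_lit 112) (nat_lit 113) (nat_lit 1) (nat_lit 11) (nat_lit 6) L1176618 (by decide +kernel)
theorem L1176620 : W_4 (nat_lit 4) (nat_lit 0x10001c000e000200000000000000000000000) (nat_lit 0x0) (nat_lit 0x31801c00000000000000000000000) := T_4 (nat_lit 108) (nat_lit 107) (nat_lit 3) (nat_lit 5) (nat_lit 6) L1176619 (by decide +kernel)
theorem L1176621 : W_4 (nat_lit 2) (nat_lit 0x18001c000e800380000000000000000000000) (nat_lit 0x0) (nat_lit 0x8000600000000000000000000000000000000000) := D_4 (nat_lit 142) (nat_lit 141) (nat_lit 159) (nat_lit 2) (nat_lit 5) (nat_lit 8) (nat_lit 5) (nat_lit 7) (nat_lit 5) (by decide +kernel)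
theorem L1176622 : W_4 (nat_lit 3) (nat_lit 0x10001c000e800380000000000000000000000) (nat_lit 0x0) (nat_lit 0x8000e00000000000000004000000000000000000) := T_4 (nat_lit 143) (nat_lit 74) (nat_lit 4) (nat_lit 7) (nat_lit 8) L1176621 (by decide +kernel)
theorem L1176623 : W_4 (nat_lit 4) (nat_lit 0x10001c000e800300000000000000000000000) (nat_lit 0x0) (nat_lit 0x8000e000000000000c0004000000000000000000) := T_4 (nat_lit 91) (nat_lit 90) (nat_lit 3) (nat_lit 5) (nat_lit 5) L1176622 (by decide +kernel)
theorem L1176624 : W_4 (nat_lit 5) (nat_lit 0x10001c000e000300000000000000000000000) (nat_lit 0x0) (nat_lit 0x8000e000000018000c0004000000000000000000) := T_4 (nat_lit 107) (nat_lit 108) (nat_lit 3) (nat_lit 5) (nat_lit 6) L1176623 (by decide +kernel)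
theorem L1176625 : W_4 (nat_lit 6) (nat_lit 0x10001c000e000200000000000000000000000) (nat_lit 0x0) (nat_lit 0x8000e000000018001c000c000000000000000000) := T_4 (nat_lit 92) (nat_lit 75) (nat_lit 7) (nat_lit 7) (nat_lit 4) L1176624 (by decide +kernel)
theorem L1176626 : W_4 (nat_lit 8) (nat_lit 0x10001c0006000200000000000000000000000) (nat_lit 0x0) (nat_lit 0x8000e00000039801dc000c000000000000000000) := Q_4 (nat_lit 111) (C_4 L1176615 (C_4 L1176617 (C_4 L1176620 (C_4 L1176625 N_4)))) (by decide +kernel)
theorem L1176627 : W_4 (nat_lit 9) (nat_lit 0x10001c0006000000000000000000000000000) (nat_lit 0x0) (nat_lit 0x8002e00000039801fc001c000800000000000000) := Q_4 (nat_lit 93) (C_4 L187714 (C_4 L1176609 (C_4 L1176626 N_4))) (by decide +kernel)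
theorem L1176628 : W_4 (nat_lit 2) (nat_lit 0x10001c002f000080038000600000000000000) (nat_lit 0x0) (nat_lit 0x980000000000000) := D_4 (nat_lit 56) (nat_lit 55) (nat_lit 59) (nat_lit 3) (nat_lit 4) (nat_lit 3) (nat_lit 3) (nat_lit 5) (nat_lit 3) (by decide +kernel)
theorem L1176629 : W_4 (nat_lit 3) (nat_lit 0x10001c002f000080038000200000000000000) (nat_lit 0x0) (nat_lit 0x40000d80000000000000) := T_4 (nat_lit 58) (nat_lit 78) (nat_lit 0) (nat_lit 10) (nat_lit 4) L1176628 (by decide +kernel)
theorem L1176630 : W_4 (nat_lit 4) (nat_lit 0x10001c002f000080018000200000000000000) (nat_lit 0x0) (nat_lit 0x400060000d80000000000000) := T_4 (nat_lit 77) (nat_lit 94) (nat_lit 5) (nat_lit 9) (nat_lit 4) L1176629 (by decide +kernel)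
theorem L1176631 : W_4 (nat_lit 5) (nat_lit 0x10001c000f000080018000200000000000000) (nat_lit 0x0) (nat_lit 0x30000400060000d80000000000000) := T_4 (nat_lit 113) (nat_lit 112) (nat_lit 1) (nat_lit 11) (nat_lit 6) L1176630 (by decide +kernel)
theorem L1176632 : W_4 (nat_lit 6) (nat_lit 0x10001c0007000080018000200000000000000) (nat_lit 0x0) (nat_lit 0x38000440060000d80000000000000) := T_4 (nat_lit 111) (nat_lit 90) (nat_lit 0) (nat_lit 9) (nat_lit 6) L1176631 (by decide +kernel)
theorem L1176633 : W_4 (nat_lit 7) (nat_lit 0x10001c0007000080018000000000000000000) (nat_lit 0x0) (nat_lit 0x38000440064000f80000000000000) := T_4 (nat_lit 57) (nat_lit 74) (nat_lit 7) (nat_lit 6) (nat_lit 3) L1176632 (by decide +kernel)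
theorem L1176634 : W_4 (nat_lit 8) (nat_lit 0x10001c0006000080018000000000000000000) (nat_lit 0x0) (nat_lit 0x39800440064000f80000000000000) := T_4 (nat_lit 108) (nat_lit 107) (nat_lit 3) (nat_lit 5) (nat_lit 6) L1176633 (by decide +kernel)
theorem L1176635 : W_4 (nat_lit 9) (nat_lit 0x10001c0006000080010000000000000000000) (nat_lit 0x0) (nat_lit 0x3980054006c000f80000000000000) := T_4 (nat_lit 75) (nat_lit 92) (nat_lit 7) (nat_lit 7) (nat_lit 4) L1176634 (by decide +kernel)
theorem L1176636 : W_4 (nat_lit 2) (nat_lit 0x18001c0006800180010000000000000000000) (nat_lit 0x0) (nat_lit 0x8000600000000000000000000000000000000000) := D_4 (nat_lit 142) (nat_lit 141) (nat_lit 159) (nat_lit 2) (nat_lit 5) (nat_lit 8) (nat_lit 5) (nat_lit 7) (nat_lit 5) (by decide +kernel)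
theorem L1176637 : W_4 (nat_lit 3) (nat_lit 0x10001c0006800180010000000000000000000) (nat_lit 0x0) (nat_lit 0x8000e00000000000000004000000000000000000) := T_4 (nat_lit 143) (nat_lit 74) (nat_lit 4) (nat_lit 7) (nat_lit 8) L1176636 (by decide +kernel)
theorem L1176638 : W_4 (nat_lit 4) (nat_lit 0x10001c0006800080010000000000000000000) (nat_lit 0x0) (nat_lit 0x8000e0000000000010000c000000000000000000) := T_4 (nat_lit 92) (nat_lit 75) (nat_lit 7) (nat_lit 7) (nat_lit 4) L1176637 (by decide +kernel)
theorem L1176639 : W_4 (nat_lit 5) (nat_lit 0x10001c0006000080010000000000000000000) (nat_lit 0x0) (nat_lit 0x8000e0000000180010000c000000000000000000) := T_4 (nat_lit 107) (nat_lit 108) (nat_lit 3) (nat_lit 5) (nat_lit 6) L1176638 (by decide +kernel)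
theorem L1176640 : W_4 (nat_lit 2) (nat_lit 0x18001c0006000180010000000000000000000) (nat_lit 0x0) (nat_lit 0x8000600000000000000000000000000000000000) := D_4 (nat_lit 142) (nat_lit 141) (nat_lit 159) (nat_lit 2) (nat_lit 5) (nat_lit 8) (nat_lit 5) (nat_lit 7) (nat_lit 5) (by decide +kernel)
theorem L1176641 : W_4 (nat_lit 3) (nat_lit 0x10001c0006000180010000000000000000000) (nat_lit 0x0) (nat_lit 0x8000e00000000000000004000000000000000000) := T_4 (nat_lit 143) (nat_lit 74) (nat_lit 4) (nat_lit 7) (nat_lit 8) L1176640 (by decide +kernel)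
theorem L1176642 : W_4 (nat_lit 4) (nat_lit 0x10001c0006000080010000000000000000000) (nat_lit 0x0) (nat_lit 0x8000e0000000000010000c000000000000000000) := T_4 (nat_lit 92) (nat_lit 75) (nat_lit 7) (nat_lit 7) (nat_lit 4) L1176641 (by decide +kernel)
theorem L1176643 : W_4 (nat_lit 2) (nat_lit 0x10001c00070000c001c000000000000000000) (nat_lit 0x0) (nat_lit 0x30002000000000000000000) := D_4 (nat_lit 89) (nat_lit 88) (nat_lit 73) (nat_lit 3) (nat_lit 3) (nat_lit 5) (nat_lit 1) (nat_lit 8) (nat_lit 4) (by decide +kernel)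
theorem L1176644 : W_4 (nat_lit 3) (nat_lit 0x10001c00070000c0014000000000000000000) (nat_lit 0x0) (nat_lit 0x3002a000000000000000000) := T_4 (nat_lit 75) (nat_lit 77) (nat_lit 1) (nat_lit 9) (nat_lit 4) L1176643 (by decide +kernel)
theorem L1176645 : W_4 (nat_lit 4) (nat_lit 0x10001c0007000080014000000000000000000) (nat_lit 0x0) (nat_lit 0x800007002a000000000000000000) := T_4 (nat_lit 90) (nat_lit 111) (nat_lit 0) (nat_lit 9) (nat_lit 6) L1176644 (by decide +kernel)
theorem L1176646 : W_4 (nat_lit 5) (nat_lit 0x10001c0007000080010000000000000000000) (nat_lit 0x0) (nat_lit 0x800007002e000200000000000000) := T_4 (nat_lit 74) (nat_lit 57) (nat_lit 7) (nat_lit 6) (nat_lit 3) L1176645 (by decide +kernel)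
theorem L1176647 : W_4 (nat_lit 6) (nat_lit 0x10001c0006000080010000000000000000000) (nat_lit 0x0) (nat_lit 0x980007002e000200000000000000) := T_4 (nat_lit 108) (nat_lit 107) (nat_lit 3) (nat_lit 5) (nat_lit 6) L1176646 (by decide +kernel)
theorem L1176648 : W_4 (nat_lit 2) (nat_lit 0x10001c000f000080010000200000000000000) (nat_lit 0x0) (nat_lit 0x30000100000000000000000000000) := D_4 (nat_lit 112) (nat_lit 92) (nat_lit 113) (nat_lit 0) (nat_lit 10) (nat_lit 6) (nat_lit 1) (nat_lit 11) (nat_lit 6) (by decide +kernel)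
theorem L1176649 : W_4 (nat_lit 3) (nat_lit 0x10001c0007000080010000200000000000000) (nat_lit 0x0) (nat_lit 0x38000140000000000000000000000) := T_4 (nat_lit 111) (nat_lit 90) (nat_lit 0) (nat_lit 9) (nat_lit 6) L1176648 (by decide +kernel)
theorem L1176650 : W_4 (nat_lit 4) (nat_lit 0x10001c0007000080010000000000000000000) (nat_lit 0x0) (nat_lit 0x38000140004000200000000000000) := T_4 (nat_lit 57) (nat_lit 74) (nat_lit 7) (nat_lit 6) (nat_lit 3) L1176649 (by decide +kernel)
theorem L1176651 : W_4 (nat_lit 5) (nat_lit 0x10001c0006000080010000000000000000000) (nat_lit 0x0) (nat_lit 0x39800140004000200000000000000) := T_4 (nat_lit 108) (nat_lit 107) (nat_lit 3) (nat_lit 5) (nat_lit 6) L1176650 (by decide +kernel)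
theorem L1176652 : W_4 (nat_lit 2) (nat_lit 0x10001c0007000180010000000000000000000) (nat_lit 0x0) (nat_lit 0x18000040000000000000000000000) := D_4 (nat_lit 111) (nat_lit 90) (nat_lit 112) (nat_lit 0) (nat_lit 9) (nat_lit 6) (nat_lit 0) (nat_lit 10) (nat_lit 6) (by decide +kernel)
theorem L1176653 : W_4 (nat_lit 3) (nat_lit 0x10001c0007000080010000000000000000000) (nat_lit 0x0) (nat_lit 0x18000140008000000000000000000) := T_4 (nat_lit 92) (nat_lit 75) (nat_lit 7) (nat_lit 7) (nat_lit 4) L1176652 (by decide +kernel)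
theorem L1176654 : W_4 (nat_lit 4) (nat_lit 0x10001c0006000080010000000000000000000) (nat_lit 0x0) (nat_lit 0x19800140008000000000000000000) := T_4 (nat_lit 108) (nat_lit 107) (nat_lit 3) (nat_lit 5) (nat_lit 6) L1176653 (by decide +kernel)
theorem L1176655 : W_4 (nat_lit 10) (nat_lit 0x10001c0006000000010000000000000000000) (nat_lit 0x0) (nat_lit 0x8000e000000398005f006e000f80000000000000) := Q_4 (nat_lit 91) (C_4 L1176635 (C_4 L1176639 (C_4 L1176642 (C_4 L1176647 (C_4 L1176651 (C_4 L1176654 N_4)))))) (by decide +kernel)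
theorem L1176656 : W_4 (nat_lit 2) (nat_lit 0x10001c0006000000010000000000000000000) (nat_lit 0x0) (nat_lit 0x2800000000000200000000000000000000000) := D_4 (nat_lit 93) (nat_lit 143) (nat_lit 145) (nat_lit 5) (nat_lit 8) (nat_lit 4) (nat_lit 7) (nat_lit 8) (nat_lit 4) (by decide +kernel)
theorem L1176657 : W_4 (nat_lit 11) (nat_lit 0x10001c0006000000000000000000000000000) (nat_lit 0x0) (nat_lit 0x8002e000000398007f007e000f80000000000000) := Q_4 (nat_lit 76) (C_4 L1176655 (C_4 L1159171 (C_4 L1159170 (C_4 L1176656 N_4)))) (by decide +kernel)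
theorem L1176658 : W_4 (nat_lit 7) (nat_lit 0x10001c0006000000010000000000000000000) (nat_lit 0x0) (nat_lit 0x8000e000000398001f002e000200000000000000) := Q_4 (nat_lit 91) (C_4 L1176654 (C_4 L1176642 (C_4 L1176647 (C_4 L1176651 N_4)))) (by decide +kernel)
theorem L1176659 : W_4 (nat_lit 8) (nat_lit 0x10001c0006000000000000000000000000000) (nat_lit 0x0) (nat_lit 0x8002e000000398003f003e000a00000000000000) := Q_4 (nat_lit 76) (C_4 L1176658 (C_4 L1176656 (C_4 L1159170 N_4))) (by decide +kernel)
theorem L1176660 : W_4 (nat_lit 12) (nat_lit 0x10001c0002000000000000000000000000000) (nat_lit 0x0) (nat_lit 0x8002e0000003d801ff00fe001f80000000000000) := Q_4 (nat_lit 110) (C_4 L1176600 (C_4 L1176601 (C_4 L1176608 (C_4 L1160082 (C_4 L1176627 (C_4 L1176657 (C_4 L1176659 N_4))))))) (by decide +kernel)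
theorem L1176879 : W_4 (nat_lit 2) (nat_lit 0x10001c0004000300000000000000000000000) (nat_lit 0x0) (nat_lit 0x2800000000000000010000000000000000000) := D_4 (nat_lit 76) (nat_lit 143) (nat_lit 145) (nat_lit 5) (nat_lit 8) (nat_lit 4) (nat_lit 7) (nat_lit 8) (nat_lit 4) (by decide +kernel)
theorem L1176880 : W_4 (nat_lit 3) (nat_lit 0x10001c0000000300000000000000000000000) (nat_lit 0x0) (nat_lit 0x2800000004000000018000000000000000000) := T_4 (nat_lit 110) (nat_lit 75) (nat_lit 4) (nat_lit 8) (nat_lit 8) L1176879 (by decide +kernel)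
theorem L1176881 : W_4 (nat_lit 9) (nat_lit 0x10001c0000000300000000000000000000000) (nat_lit 0x0) (nat_lit 0x200000007b007cc03ff000000000000000000) := T_4 (nat_lit 109) (nat_lit 75) (nat_lit 7) (nat_lit 7) (nat_lit 4) L623246 (by decide +kernel)
theorem L1176882 : W_4 (nat_lit 2) (nat_lit 0x10001c0000000300000000000000000000000) (nat_lit 0x0) (nat_lit 0x6000000008000000000000000000) := D_4 (nat_lit 75) (nat_lit 109) (nat_lit 110) (nat_lit 7) (nat_lit 7) (nat_lit 4) (nat_lit 4) (nat_lit 8) (nat_lit 8) (by decide +kernel)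
theorem L1176883 : W_4 (nat_lit 6) (nat_lit 0x10001c0004000300000000000000000000000) (nat_lit 0x0) (nat_lit 0x800000002000000010001c000e0005000000) := T_4 (nat_lit 76) (nat_lit 143) (nat_lit 5) (nat_lit 8) (nat_lit 4) L516221 (by decide +kernel)
theorem L1176884 : W_4 (nat_lit 6) (nat_lit 0x10001c0004000300000000000000000000000) (nat_lit 0x0) (nat_lit 0x2000000002000000010001c000e0005000000) := T_4 (nat_lit 76) (nat_lit 145) (nat_lit 7) (nat_lit 8) (nat_lit 4) L516221 (by decide +kernel)
theorem L1176885 : W_4 (nat_lit 2) (nat_lit 0x10001c00040003e0000000000000000000000) (nat_lit 0x0) (nat_lit 0xe00000000000000000000000000) := D_4 (nat_lit 106) (nat_lit 105) (nat_lit 107) (nat_lit 1) (nat_lit 7) (nat_lit 5) (nat_lit 1) (nat_lit 8) (nat_lit 5) (by decide +kernel)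
theorem L1176886 : W_4 (nat_lit 3) (nat_lit 0x10001c00040003c0000000000000000000000) (nat_lit 0x0) (nat_lit 0x2e00020000000000000000000000) := T_4 (nat_lit 89) (nat_lit 109) (nat_lit 3) (nat_lit 4) (nat_lit 5) L1176885 (by decide +kernel)
theorem L1176887 : W_4 (nat_lit 4) (nat_lit 0x10001c0004000380000000000000000000000) (nat_lit 0x0) (nat_lit 0xae00060000000000000000000000) := T_4 (nat_lit 90) (nat_lit 111) (nat_lit 3) (nat_lit 5) (nat_lit 5) L1176886 (by decide +kernel)
theorem L1176888 : W_4 (nat_lit 2) (nat_lit 0x10001c00040003e0000000000000000000000) (nat_lit 0x0) (nat_lit 0x3800000000000000000) := D_4 (nat_lit 72) (nat_lit 73) (nat_lit 71) (nat_lit 0) (nat_lit 8) (nat_lit 5) (nat_lit 0) (nat_lit 7) (nat_lit 5) (by decide +kernel)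
theorem L1176889 : W_4 (nat_lit 3) (nat_lit 0x10001c00040003c0000000000000000000000) (nat_lit 0x0) (nat_lit 0x2000020003800000000000000000) := T_4 (nat_lit 89) (nat_lit 109) (nat_lit 3) (nat_lit 4) (nat_lit 5) L1176888 (by decide +kernel)
theorem L1176890 : W_4 (nat_lit 4) (nat_lit 0x10001c0004000380000000000000000000000) (nat_lit 0x0) (nat_lit 0xa000060003800000000000000000) := T_4 (nat_lit 90) (nat_lit 111) (nat_lit 3) (nat_lit 5) (nat_lit 5) L1176889 (by decide +kernel)
theorem L1176891 : W_4 (nat_lit 5) (nat_lit 0x10001c0004000780000000000000000000000) (nat_lit 0x0) (nat_lit 0x1b800800006000200000000000000) := T_4 (nat_lit 111) (nat_lit 112) (nat_lit 3) (nat_lit 6) (nat_lit 5) L586466 (by decide +kernel)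
theorem L1176892 : W_4 (nat_lit 6) (nat_lit 0x10001c0004000380000000000000000000000) (nat_lit 0x0) (nat_lit 0x1b800c00026000200000000000000) := T_4 (nat_lit 94) (nat_lit 77) (nat_lit 6) (nat_lit 8) (nat_lit 8) L1176891 (by decide +kernel)
theorem L1176893 : W_4 (nat_lit 7) (nat_lit 0x10001c0004000300000000000000000000000) (nat_lit 0x0) (nat_lit 0x1be00ce0027800200000000000000) := Q_4 (nat_lit 91) (C_4 L209180 (C_4 L178077 (C_4 L1176887 (C_4 L1176890 (C_4 L1176892 N_4))))) (by decide +kernel)
theorem L1176894 : W_4 (nat_lit 8) (nat_lit 0x10001c0000000300000000000000000000000) (nat_lit 0x0) (nat_lit 0x280000001fe00ce0037801e000e0005000000) := Q_4 (nat_lit 110) (C_4 L1176879 (C_4 L1176883 (C_4 L1176884 (C_4 L1176893 N_4)))) (by decide +kernel)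
theorem L1176895 : W_4 (nat_lit 10) (nat_lit 0x10001c0000000100000000000000000000000) (nat_lit 0x0) (nat_lit 0x280000007fe07ee03ff801e000e0005000000) := Q_4 (nat_lit 93) (C_4 L1176880 (C_4 L1176881 (C_4 L1176882 (C_4 L1176894 N_4)))) (by decide +kernel)
theorem L1176896 : W_4 (nat_lit 10) (nat_lit 0x10001c0000000300000000000000000000000) (nat_lit 0x0) (nat_lit 0x4000a000e000000079c07cc03ff002000000000000000) := Q_4 (nat_lit 94) (C_4 L910215 (C_4 L910214 (C_4 L645964 (C_4 L645978 (C_4 L645977 (C_4 L645951 N_4)))))) (by decide +kernel)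
theorem L1176897 : W_4 (nat_lit 3) (nat_lit 0x10001c0004000300000000000000000000000) (nat_lit 0x0) (nat_lit 0x800000000000400030001000000000000000) := T_4 (nat_lit 76) (nat_lit 143) (nat_lit 5) (nat_lit 8) (nat_lit 4) L188457 (by decide +kernel)
theorem L1176898 : W_4 (nat_lit 4) (nat_lit 0x10001c0000000300000000000000000000000) (nat_lit 0x0) (nat_lit 0x800000004000400038001000000000000000) := T_4 (nat_lit 110) (nat_lit 75) (nat_lit 4) (nat_lit 8) (nat_lit 8) L1176897 (by decide +kernel)
theorem L1176899 : W_4 (nat_lit 3) (nat_lit 0x10001c0004000700000000000000000000000) (nat_lit 0x0) (nat_lit 0x200000000000180000c0000000000000000000000) := T_4 (nat_lit 111) (nat_lit 161) (nat_lit 6) (nat_lit 8) (nat_lit 9) L586460 (by decide +kernel)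
theorem L1176900 : W_4 (nat_lit 4) (nat_lit 0x10001c0004000300000000000000000000000) (nat_lit 0x0) (nat_lit 0x200000000000180004c0020000000000000000000) := T_4 (nat_lit 94) (nat_lit 77) (nat_lit 6) (nat_lit 8) (nat_lit 8) L1176899 (by decide +kernel)
theorem L1176901 : W_4 (nat_lit 5) (nat_lit 0x10001c0000000300000000000000000000000) (nat_lit 0x0) (nat_lit 0x2000000000001c0004c0028000000000000000000) := T_4 (nat_lit 110) (nat_lit 75) (nat_lit 4) (nat_lit 8) (nat_lit 8) L1176900 (by decide +kernel)
theorem L1176902 : W_4 (nat_lit 2) (nat_lit 0x10001c0004000700000000000000000000000) (nat_lit 0x0) (nat_lit 0x2800000000000000010000000000000000000) := D_4 (nat_lit 76) (nat_lit 143) (nat_lit 145) (nat_lit 5) (nat_lit 8) (nat_lit 4) (nat_lit 7) (nat_lit 8) (nat_lit 4) (by decide +kernel)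
theorem L1176903 : W_4 (nat_lit 3) (nat_lit 0x10001c0000000700000000000000000000000) (nat_lit 0x0) (nat_lit 0x2800000004000000030000000000000000000) := T_4 (nat_lit 110) (nat_lit 77) (nat_lit 6) (nat_lit 8) (nat_lit 8) L1176902 (by decide +kernel)
theorem L1176904 : W_4 (nat_lit 5) (nat_lit 0x10001c0000000700000000000000000000000) (nat_lit 0x0) (nat_lit 0x4000a000e000000078000880010000000000000000000) := Q_4 (nat_lit 111) (C_4 L645950 (C_4 L692289 N_4)) (by decide +kernel)
theorem L1176905 : W_4 (nat_lit 7) (nat_lit 0x10001c0000000300000000000000000000000) (nat_lit 0x0) (nat_lit 0x4000a000e80000007dc00cc0037000000000000000000) := Q_4 (nat_lit 94) (C_4 L645978 (C_4 L1176903 (C_4 L1176904 N_4))) (by decide +kernel)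
theorem L1176906 : W_4 (nat_lit 11) (nat_lit 0x10001c0000000100000000000000000000000) (nat_lit 0x0) (nat_lit 0x4000a000e80000007dc07ec03ff003000000000000000) := Q_4 (nat_lit 93) (C_4 L1176896 (C_4 L1176898 (C_4 L1176880 (C_4 L1176901 (C_4 L1176905 N_4))))) (by decide +kernel)
theorem L1176907 : W_4 (nat_lit 2) (nat_lit 0x200010001c0000000100000000000000000000000) (nat_lit 0x0) (nat_lit 0x800000006000000000000000000000000000) := D_4 (nat_lit 109) (nat_lit 143) (nat_lit 110) (nat_lit 7) (nat_lit 7) (nat_lit 5) (nat_lit 4) (nat_lit 8) (nat_lit 9) (by decide +kernel)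
theorem L1176908 : W_4 (nat_lit 6) (nat_lit 0x10001c0000000100000000000000000000000) (nat_lit 0x0) (nat_lit 0x28001c000e0002000080000000e000000000000000000000000000) := Q_4 (nat_lit 161) (C_4 L582046 (C_4 L1176907 N_4)) (by decide +kernel)
theorem L1176909 : W_4 (nat_lit 12) (nat_lit 0x10001c0000000000000000000000000000000) (nat_lit 0x0) (nat_lit 0x28001c000e000a000e80000007fe07ff03ff803e000e0005000000) := Q_4 (nat_lit 92) (C_4 L1176895 (C_4 L645654 (C_4 L645783 (C_4 L1176906 (C_4 L1176908 N_4))))) (by decide +kernel)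
theorem L1176910 : W_4 (nat_lit 11) (nat_lit 0x10001c0000000000000000000000000000000) (nat_lit 0x0) (nat_lit 0x40002007ec01e001e3000100008000000000000000000) := Q_4 (nat_lit 129) (C_4 L640803 (C_4 L802005 (C_4 L640820 (C_4 L640811 N_4)))) (by decide +kernel)
theorem L1176911 : W_4 (nat_lit 10) (nat_lit 0x10001c0000000000000000000000000000000) (nat_lit 0x0) (nat_lit 0x400020072c01e001f7000100008000000000000000000) := Q_4 (nat_lit 129) (C_4 L640803 (C_4 L640809 (C_4 L568074 N_4))) (by decide +kernel)
theorem L1176912 : W_4 (nat_lit 11) (nat_lit 0x10001c0000000000000000000000000000000) (nat_lit 0x0) (nat_lit 0x40002007ec01e001c7000100008000000000000000000) := Q_4 (nat_lit 129) (C_4 L640803 (C_4 L802005 (C_4 L640820 (C_4 L527668 N_4)))) (by decide +kernel)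
theorem L1176913 : W_4 (nat_lit 11) (nat_lit 0x10001c0000000000000000000000000000000) (nat_lit 0x0) (nat_lit 0x28001c003e001a000ec0060003b003d000fc004000000000000000) := Q_4 (nat_lit 129) (C_4 L640803 (C_4 L1176593 (C_4 L802016 N_4))) (by decide +kernel)
theorem L1176914 : W_4 (nat_lit 13) (nat_lit 0x10000c0000000000000000000000000000000) (nat_lit 0x0) (nat_lit 0x28001c003e001a007ec01f001ffe07ff03ff807e000e0005000000) := Q_4 (nat_lit 128) (C_4 L1176594 (C_4 L640805 (C_4 L640821 (C_4 L1176909 (C_4 L640810 (C_4 L1176910 (C_4 L568075 (C_4 L1176911 (C_4 L1176912 (C_4 L1176913 N_4)))))))))) (by decide +kernel)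
theorem L1176927 : W_4 (nat_lit 2) (nat_lit 0x4800000012000f0007800200004000000000000000000) (nat_lit 0x0) (nat_lit 0x800000000000000010000800000000000000) := D_4 (nat_lit 76) (nat_lit 59) (nat_lit 143) (nat_lit 5) (nat_lit 8) (nat_lit 3) (nat_lit 5) (nat_lit 8) (nat_lit 4) (by decide +kernel)
theorem L1176928 : W_4 (nat_lit 3) (nat_lit 0x4800000012000f0007800000004000000000000000000) (nat_lit 0x0) (nat_lit 0x800000000000600010000800000000000000) := T_4 (nat_lit 93) (nat_lit 94) (nat_lit 2) (nat_lit 5) (nat_lit 6) L1176927 (by decide +kernel)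
theorem L1176929 : W_4 (nat_lit 4) (nat_lit 0x800000012000f0007800000004000000000000000000) (nat_lit 0x0) (nat_lit 0x400020000800000000000600010000800000000000000) := T_4 (nat_lit 178) (nat_lit 161) (nat_lit 4) (nat_lit 8) (nat_lit 10) L1176928 (by decide +kernel)
theorem L1176930 : W_4 (nat_lit 5) (nat_lit 0x800000012000f0007000000004000000000000000000) (nat_lit 0x0) (nat_lit 0x400020000800000000c00600010000800000000000000) := T_4 (nat_lit 107) (nat_lit 106) (nat_lit 3) (nat_lit 4) (nat_lit 6) L1176929 (by decide +kernel)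
theorem L1176931 : W_4 (nat_lit 6) (nat_lit 0x12000f0007000000004000000000000000000) (nat_lit 0x0) (nat_lit 0x480024000800000000c00600010000800000000000000) := T_4 (nat_lit 175) (nat_lit 158) (nat_lit 6) (nat_lit 5) (nat_lit 10) L1176930 (by decide +kernel)
theorem L1176932 : W_4 (nat_lit 7) (nat_lit 0x12000f0007000000000000000000000000000) (nat_lit 0x0) (nat_lit 0x480024000800000000c00680014000800000000000000) := T_4 (nat_lit 74) (nat_lit 91) (nat_lit 5) (nat_lit 6) (nat_lit 4) L1176931 (by decide +kernel)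
theorem L1176933 : W_4 (nat_lit 8) (nat_lit 0x12000f0003000000000000000000000000000) (nat_lit 0x0) (nat_lit 0x48002400080000000cc00680014000800000000000000) := T_4 (nat_lit 110) (nat_lit 111) (nat_lit 2) (nat_lit 5) (nat_lit 7) L1176932 (by decide +kernel)
theorem L1176934 : W_4 (nat_lit 9) (nat_lit 0x10000f0003000000000000000000000000000) (nat_lit 0x0) (nat_lit 0x480024000b0000000cc00680014000800000000000000) := T_4 (nat_lit 141) (nat_lit 140) (nat_lit 1) (nat_lit 8) (nat_lit 7) L1176933 (by decide +kernel)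
theorem L1176935 : W_4 (nat_lit 5) (nat_lit 0x4000000010000f0007000000000000000000000000000) (nat_lit 0x0) (nat_lit 0x8000400000000c00660002000000000000000000) := T_4 (nat_lit 107) (nat_lit 106) (nat_lit 3) (nat_lit 4) (nat_lit 6) L170789 (by decide +kernel)
theorem L1176936 : W_4 (nat_lit 6) (nat_lit 0x4000000010000f0003000000000000000000000000000) (nat_lit 0x0) (nat_lit 0x800040000000cc00660002000000000000000000) := T_4 (nat_lit 110) (nat_lit 111) (nat_lit 2) (nat_lit 5) (nat_lit 7) L1176935 (by decide +kernel)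
theorem L1176937 : W_4 (nat_lit 7) (nat_lit 0x10000f0003000000000000000000000000000) (nat_lit 0x0) (nat_lit 0x40002800040000000cc00660002000000000000000000) := T_4 (nat_lit 178) (nat_lit 161) (nat_lit 4) (nat_lit 8) (nat_lit 10) L1176936 (by decide +kernel)
theorem L1176938 : W_4 (nat_lit 2) (nat_lit 0x12000f0007000080000000000000000000000) (nat_lit 0x0) (nat_lit 0x80004000400000000000000000000000000000000000) := D_4 (nat_lit 158) (nat_lit 175) (nat_lit 142) (nat_lit 6) (nat_lit 5) (nat_lit 10) (nat_lit 5) (nat_lit 6) (nat_lit 5) (by decide +kernel)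
theorem L1176939 : W_4 (nat_lit 3) (nat_lit 0x12000f0007000000000000000000000000000) (nat_lit 0x0) (nat_lit 0x80004000400000000000080004000000000000000000) := T_4 (nat_lit 91) (nat_lit 74) (nat_lit 5) (nat_lit 6) (nat_lit 4) L1176938 (by decide +kernel)
theorem L1176940 : W_4 (nat_lit 4) (nat_lit 0x12000f0003000000000000000000000000000) (nat_lit 0x0) (nat_lit 0x8000400040000000c000080004000000000000000000) := T_4 (nat_lit 110) (nat_lit 111) (nat_lit 2) (nat_lit 5) (nat_lit 7) L1176939 (by decide +kernel)
theorem L1176941 : W_4 (nat_lit 5) (nat_lit 0x10000f0003000000000000000000000000000) (nat_lit 0x0) (nat_lit 0x8000400070000000c000080004000000000000000000) := T_4 (nat_lit 141) (nat_lit 140) (nat_lit 1) (nat_lit 8) (nat_lit 7) L1176940 (by decide +kernel)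
theorem L1176942 : W_4 (nat_lit 10) (nat_lit 0x10000f0002000000000000000000000000000) (nat_lit 0x0) (nat_lit 0x48002c000f0000000dc006e0016000800000000000000) := Q_4 (nat_lit 108) (C_4 L284374 (C_4 L1117889 (C_4 L1176934 (C_4 L1176937 (C_4 L1176941 N_4))))) (by decide +kernel)
theorem L1177672 : W_4 (nat_lit 2) (nat_lit 0x4000000018000e00078000c0000000000000000000000) (nat_lit 0x0) (nat_lit 0x400000000000000002000100000000000000) := D_4 (nat_lit 73) (nat_lit 56) (nat_lit 142) (nat_lit 7) (nat_lit 5) (nat_lit 3) (nat_lit 4) (nat_lit 6) (nat_lit 8) (by decide +kernel)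
theorem L1177765 : W_4 (nat_lit 2) (nat_lit 0x18000e000f000000010000000000000000000) (nat_lit 0x0) (nat_lit 0xc0004000000000000000000) := D_4 (nat_lit 91) (nat_lit 74) (nat_lit 90) (nat_lit 7) (nat_lit 6) (nat_lit 4) (nat_lit 0) (nat_lit 9) (nat_lit 6) (by decide +kernel)
theorem L1177766 : W_4 (nat_lit 3) (nat_lit 0x18000e0007000000010000000000000000000) (nat_lit 0x0) (nat_lit 0x180000c0004000000000000000000) := T_4 (nat_lit 111) (nat_lit 112) (nat_lit 1) (nat_lit 10) (nat_lit 6) L1177765 (by decide +kernel)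
theorem L1177767 : W_4 (nat_lit 4) (nat_lit 0x18000e0007000000000000000000000000000) (nat_lit 0x0) (nat_lit 0x180002c0014000000000000000000) := T_4 (nat_lit 76) (nat_lit 93) (nat_lit 5) (nat_lit 8) (nat_lit 4) L1177766 (by decide +kernel)
theorem L1178755 : W_4 (nat_lit 3) (nat_lit 0x10000d0002000000000000000000000000000) (nat_lit 0x0) (nat_lit 0x200002800c000000000000000000000000000) := T_4 (nat_lit 125) (nat_lit 145) (nat_lit 3) (nat_lit 5) (nat_lit 7) L1117964 (by decide +kernel)
theorem L1178756 : W_4 (nat_lit 11) (nat_lit 0x10000d0002000000000000000000000000000) (nat_lit 0x0) (nat_lit 0x48002c000fc002e00df806e0016000800000000000000) := Q_4 (nat_lit 125) (C_4 L616484 (C_4 L1117964 (C_4 L1176942 N_4))) (by decide +kernel)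
theorem L1178757 : W_4 (nat_lit 12) (nat_lit 0x10000d0002800000000000000000000000000) (nat_lit 0x0) (nat_lit 0x28007f002f800fc000c0014000f0007000280000000000000) := Q_4 (nat_lit 141) (C_4 L1161966 (C_4 L302124 (C_4 L302103 (C_4 L1161957 (C_4 L290899 (C_4 L1161915 N_4)))))) (by decide +kernel)
theorem L1178758 : W_4 (nat_lit 4) (nat_lit 0x4000000010000d0003800000000000000000000000000) (nat_lit 0x0) (nat_lit 0x800008004000600010000800000000000000) := T_4 (nat_lit 110) (nat_lit 123) (nat_lit 1) (nat_lit 8) (nat_lit 6) L1167766 (by decide +kernel)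
theorem L1178759 : W_4 (nat_lit 5) (nat_lit 0x4000000010000d0002800000000000000000000000000) (nat_lit 0x0) (nat_lit 0x800008005400600010000800000000000000) := T_4 (nat_lit 108) (nat_lit 106) (nat_lit 3) (nat_lit 4) (nat_lit 6) L1178758 (by decide +kernel)
theorem L1178760 : W_4 (nat_lit 6) (nat_lit 0x10000d0002800000000000000000000000000) (nat_lit 0x0) (nat_lit 0x400020000800008005400600010000800000000000000) := T_4 (nat_lit 178) (nat_lit 161) (nat_lit 4) (nat_lit 8) (nat_lit 10) L1178759 (by decide +kernel)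
theorem L1178761 : W_4 (nat_lit 2) (nat_lit 0x10000d0007800240000000000000000000000) (nat_lit 0x0) (nat_lit 0x800000000000000010000800000000000000) := D_4 (nat_lit 76) (nat_lit 59) (nat_lit 143) (nat_lit 5) (nat_lit 8) (nat_lit 3) (nat_lit 5) (nat_lit 8) (nat_lit 4) (by decide +kernel)
theorem L1178762 : W_4 (nat_lit 3) (nat_lit 0x10000d0007800040000000000000000000000) (nat_lit 0x0) (nat_lit 0x800000000000600010000800000000000000) := T_4 (nat_lit 93) (nat_lit 94) (nat_lit 2) (nat_lit 5) (nat_lit 6) L1178761 (by decide +kernel)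
theorem L1178763 : W_4 (nat_lit 4) (nat_lit 0x10000d0007800000000000000000000000000) (nat_lit 0x0) (nat_lit 0x800000000000660010000800000000000000) := T_4 (nat_lit 90) (nat_lit 89) (nat_lit 0) (nat_lit 8) (nat_lit 6) L1178762 (by decide +kernel)
theorem L1178764 : W_4 (nat_lit 5) (nat_lit 0x10000d0003800000000000000000000000000) (nat_lit 0x0) (nat_lit 0x800008004000660010000800000000000000) := T_4 (nat_lit 110) (nat_lit 123) (nat_lit 1) (nat_lit 8) (nat_lit 6) L1178763 (by decide +kernel)
theorem L1178765 : W_4 (nat_lit 6) (nat_lit 0x10000d0002800000000000000000000000000) (nat_lit 0x0) (nat_lit 0x800008005400660010000800000000000000) := T_4 (nat_lit 108) (nat_lit 106) (nat_lit 3) (nat_lit 4) (nat_lit 6) L1178764 (by decide +kernel)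
theorem L1178766 : W_4 (nat_lit 2) (nat_lit 0x16000d0002800060000000000000000000000) (nat_lit 0x0) (nat_lit 0x900008000000000000000000000000000000) := D_4 (nat_lit 143) (nat_lit 140) (nat_lit 123) (nat_lit 2) (nat_lit 4) (nat_lit 8) (nat_lit 0) (nat_lit 8) (nat_lit 8) (by decide +kernel)
theorem L1178767 : W_4 (nat_lit 3) (nat_lit 0x12000d0002800060000000000000000000000) (nat_lit 0x0) (nat_lit 0x8000d00008000000000000000000000000000000) := T_4 (nat_lit 142) (nat_lit 159) (nat_lit 7) (nat_lit 5) (nat_lit 5) L1178766 (by decide +kernel)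
theorem L1178768 : W_4 (nat_lit 4) (nat_lit 0x12000d0002800040000000000000000000000) (nat_lit 0x0) (nat_lit 0x8000d00008000000020001000000000000000000) := T_4 (nat_lit 89) (nat_lit 72) (nat_lit 4) (nat_lit 5) (nat_lit 8) L1178767 (by decide +kernel)
theorem L1178769 : W_4 (nat_lit 2) (nat_lit 0x1e000d0002800060000000000000000000000) (nat_lit 0x0) (nat_lit 0x6000000000000400000000000000000000000000) := D_4 (nat_lit 158) (nat_lit 106) (nat_lit 157) (nat_lit 4) (nat_lit 5) (nat_lit 9) (nat_lit 1) (nat_lit 8) (nat_lit 8) (by decide +kernel)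
theorem L1178770 : W_4 (nat_lit 3) (nat_lit 0x16000d0002800060000000000000000000000) (nat_lit 0x0) (nat_lit 0x6000800008000400000000000000000000000000) := T_4 (nat_lit 143) (nat_lit 123) (nat_lit 0) (nat_lit 8) (nat_lit 8) L1178769 (by decide +kernel)
theorem L1178771 : W_4 (nat_lit 4) (nat_lit 0x12000d0002800060000000000000000000000) (nat_lit 0x0) (nat_lit 0xe000c00008000400000000000000000000000000) := T_4 (nat_lit 142) (nat_lit 159) (nat_lit 7) (nat_lit 5) (nat_lit 5) L1178770 (by decide +kernel)
theorem L1178772 : W_4 (nat_lit 5) (nat_lit 0x12000d0002800040000000000000000000000) (nat_lit 0x0) (nat_lit 0xe000c00008000400020001000000000000000000) := T_4 (nat_lit 89) (nat_lit 72) (nat_lit 4) (nat_lit 5) (nat_lit 8) L1178771 (by decide +kernel)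
theorem L1178773 : W_4 (nat_lit 6) (nat_lit 0x12000d0002800000000000000000000000000) (nat_lit 0x0) (nat_lit 0x4000e000d000080004000e0007000280000000000000) := Q_4 (nat_lit 90) (C_4 L291067 (C_4 L290925 (C_4 L289542 (C_4 L1178768 (C_4 L1178772 N_4))))) (by decide +kernel)
theorem L1178774 : W_4 (nat_lit 2) (nat_lit 0x4000000016000d0002800040000000000000000000000) (nat_lit 0x0) (nat_lit 0x2000900000000000000000000000000000000000) := D_4 (nat_lit 140) (nat_lit 143) (nat_lit 157) (nat_lit 2) (nat_lit 4) (nat_lit 8) (nat_lit 5) (nat_lit 5) (nat_lit 5) (by decide +kernel)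
theorem L1178775 : W_4 (nat_lit 3) (nat_lit 0x4000000012000d0002800040000000000000000000000) (nat_lit 0x0) (nat_lit 0xa000d00000000000000000000000000000000000) := T_4 (nat_lit 142) (nat_lit 159) (nat_lit 7) (nat_lit 5) (nat_lit 5) L1178774 (by decide +kernel)
theorem L1178776 : W_4 (nat_lit 4) (nat_lit 0x12000d0002800040000000000000000000000) (nat_lit 0x0) (nat_lit 0x40002a000d00000000000000000000000000000000000) := T_4 (nat_lit 178) (nat_lit 161) (nat_lit 4) (nat_lit 8) (nat_lit 10) L1178775 (by decide +kernel)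
theorem L1178777 : W_4 (nat_lit 2) (nat_lit 0x1e000d0002800040006000000000000000000) (nat_lit 0x0) (nat_lit 0x20001000080000000000000) := D_4 (nat_lit 72) (nat_lit 55) (nat_lit 89) (nat_lit 4) (nat_lit 5) (nat_lit 7) (nat_lit 4) (nat_lit 5) (nat_lit 8) (by decide +kernel)
theorem L1178778 : W_4 (nat_lit 3) (nat_lit 0x1e000d0002800040004000000000000000000) (nat_lit 0x0) (nat_lit 0x20003000280000000000000) := T_4 (nat_lit 73) (nat_lit 57) (nat_lit 6) (nat_lit 5) (nat_lit 7) L1178777 (by decide +kernel)
theorem L1178779 : W_4 (nat_lit 4) (nat_lit 0x16000d0002800040004000000000000000000) (nat_lit 0x0) (nat_lit 0x800008000000020003000280000000000000) := T_4 (nat_lit 143) (nat_lit 123) (nat_lit 0) (nat_lit 8) (nat_lit 8) L1178778 (by decide +kernel)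
theorem L1178780 : W_4 (nat_lit 5) (nat_lit 0x12000d0002800040004000000000000000000) (nat_lit 0x0) (nat_lit 0x8000c00008000000020003000280000000000000) := T_4 (nat_lit 142) (nat_lit 159) (nat_lit 7) (nat_lit 5) (nat_lit 5) L1178779 (by decide +kernel)
theorem L1178781 : W_4 (nat_lit 6) (nat_lit 0x12000d0002800040000000000000000000000) (nat_lit 0x0) (nat_lit 0x8000c000080000000a0007000280000000000000) := T_4 (nat_lit 74) (nat_lit 91) (nat_lit 6) (nat_lit 5) (nat_lit 8) L1178780 (by decide +kernel)
theorem L1178782 : W_4 (nat_lit 7) (nat_lit 0x12000d0002800000000000000000000000000) (nat_lit 0x0) (nat_lit 0x40002a000d000080000000e0007000280000000000000) := Q_4 (nat_lit 90) (C_4 L1178768 (C_4 L291067 (C_4 L1178776 (C_4 L1178781 N_4)))) (by decide +kernel)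
theorem L1178783 : W_4 (nat_lit 10) (nat_lit 0x12000d0002800000000000000000000000000) (nat_lit 0x0) (nat_lit 0x100038007c002e000d000000004000e0005000000000000000000) := Q_4 (nat_lit 90) (C_4 L1178776 (C_4 L289542 (C_4 L1161875 (C_4 L290970 N_4)))) (by decide +kernel)
theorem L1178784 : W_4 (nat_lit 2) (nat_lit 0x4000000016000d0002800040000000000000000000000) (nat_lit 0x0) (nat_lit 0x900008000000000000000000000000000000) := D_4 (nat_lit 143) (nat_lit 140) (nat_lit 123) (nat_lit 2) (nat_lit 4) (nat_lit 8) (nat_lit 0) (nat_lit 8) (nat_lit 8) (by decide +kernel)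
theorem L1178785 : W_4 (nat_lit 3) (nat_lit 0x4000000012000d0002800040000000000000000000000) (nat_lit 0x0) (nat_lit 0x8000d00008000000000000000000000000000000) := T_4 (nat_lit 142) (nat_lit 159) (nat_lit 7) (nat_lit 5) (nat_lit 5) L1178784 (by decide +kernel)
theorem L1178786 : W_4 (nat_lit 4) (nat_lit 0x12000d0002800040000000000000000000000) (nat_lit 0x0) (nat_lit 0x400028000d00008000000000000000000000000000000) := T_4 (nat_lit 178) (nat_lit 161) (nat_lit 4) (nat_lit 8) (nat_lit 10) L1178785 (by decide +kernel)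
theorem L1178787 : W_4 (nat_lit 10) (nat_lit 0x12000d0002800000000000000000000000000) (nat_lit 0x0) (nat_lit 0x100038007c002c000d000080004000e0007000380008000000000) := Q_4 (nat_lit 90) (C_4 L1178781 (C_4 L1161905 (C_4 L1178768 (C_4 L1161875 (C_4 L1178786 N_4))))) (by decide +kernel)
theorem L1178788 : W_4 (nat_lit 2) (nat_lit 0x16000d0002800040000000000000000000000) (nat_lit 0x0) (nat_lit 0x2000900000000000000000000000000000000000) := D_4 (nat_lit 140) (nat_lit 143) (nat_lit 157) (nat_lit 2) (nat_lit 4) (nat_lit 8) (nat_lit 5) (nat_lit 5) (nat_lit 5) (by decide +kernel)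
theorem L1178789 : W_4 (nat_lit 3) (nat_lit 0x16000d0002800000000000000000000000000) (nat_lit 0x0) (nat_lit 0xa000900000000000040000000000000000000000) := T_4 (nat_lit 90) (nat_lit 159) (nat_lit 7) (nat_lit 5) (nat_lit 5) L1178788 (by decide +kernel)
theorem L1178790 : W_4 (nat_lit 2) (nat_lit 0x8001e000d0002800000000000000000000000000) (nat_lit 0x0) (nat_lit 0x6002000000000000000000000000000000000000) := D_4 (nat_lit 158) (nat_lit 157) (nat_lit 145) (nat_lit 1) (nat_lit 8) (nat_lit 8) (nat_lit 1) (nat_lit 9) (nat_lit 8) (by decide +kernel)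
theorem L1178791 : W_4 (nat_lit 3) (nat_lit 0x1e000d0002800000000000000000000000000) (nat_lit 0x0) (nat_lit 0xe002000000000000040000000000000000000000) := T_4 (nat_lit 159) (nat_lit 90) (nat_lit 7) (nat_lit 5) (nat_lit 5) L1178790 (by decide +kernel)
theorem L1178792 : W_4 (nat_lit 4) (nat_lit 0x16000d0002800000000000000000000000000) (nat_lit 0x0) (nat_lit 0xe002800008000000040000000000000000000000) := T_4 (nat_lit 143) (nat_lit 123) (nat_lit 0) (nat_lit 8) (nat_lit 8) L1178791 (by decide +kernel)
theorem L1178793 : W_4 (nat_lit 7) (nat_lit 0x12000d0002800000000000000000000000000) (nat_lit 0x0) (nat_lit 0x40002e002d000080000000c0006000200000000000000) := Q_4 (nat_lit 142) (C_4 L1161968 (C_4 L1161917 (C_4 L1178789 (C_4 L1178792 N_4)))) (by decide +kernel)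
theorem L1178794 : W_4 (nat_lit 12) (nat_lit 0x10000d0002800000000000000000000000000) (nat_lit 0x0) (nat_lit 0x100038007f002f802fc000c0004000e0007000380008000000000) := Q_4 (nat_lit 141) (C_4 L1161966 (C_4 L1178773 (C_4 L1161906 (C_4 L1178782 (C_4 L1178783 (C_4 L1161957 (C_4 L1178787 (C_4 L1178793 N_4)))))))) (by decide +kernel)
theorem L1178795 : W_4 (nat_lit 5) (nat_lit 0x4000000010000d0003800000000000000000000000000) (nat_lit 0x0) (nat_lit 0x20000800c0000e0004000200000000000000) := T_4 (nat_lit 110) (nat_lit 123) (nat_lit 1) (nat_lit 8) (nat_lit 6) L1161817 (by decide +kernel)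
theorem L1178796 : W_4 (nat_lit 6) (nat_lit 0x4000000010000d0002800000000000000000000000000) (nat_lit 0x0) (nat_lit 0x20000800d4000e0004000200000000000000) := T_4 (nat_lit 108) (nat_lit 106) (nat_lit 3) (nat_lit 4) (nat_lit 6) L1178795 (by decide +kernel)
theorem L1178797 : W_4 (nat_lit 7) (nat_lit 0x10000d0002800000000000000000000000000) (nat_lit 0x0) (nat_lit 0x40002000020000800d4000e0004000200000000000000) := T_4 (nat_lit 178) (nat_lit 161) (nat_lit 4) (nat_lit 8) (nat_lit 10) L1178796 (by decide +kernel)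
theorem L1178798 : W_4 (nat_lit 5) (nat_lit 0x12000d0002c00000000000000000000000000) (nat_lit 0x0) (nat_lit 0x4000e000d00000000000060000000000000000000000) := T_4 (nat_lit 158) (nat_lit 89) (nat_lit 4) (nat_lit 5) (nat_lit 9) L1162652 (by decide +kernel)
theorem L1178799 : W_4 (nat_lit 6) (nat_lit 0x12000d0002800000000000000000000000000) (nat_lit 0x0) (nat_lit 0x4000e000d00000001400060000000000000000000000) := T_4 (nat_lit 106) (nat_lit 108) (nat_lit 3) (nat_lit 4) (nat_lit 6) L1178798 (by decide +kernel)
theorem L1178800 : W_4 (nat_lit 2) (nat_lit 0x5000060012000d0002c00040000000000000000000000) (nat_lit 0x0) (nat_lit 0x2000280000000000000000000000000000000000000000000) := D_4 (nat_lit 175) (nat_lit 177) (nat_lit 193) (nat_lit 0) (nat_lit 8) (nat_lit 10) (nat_lit 7) (nat_lit 5) (nat_lit 7) (by decide +kernel)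
theorem L1178801 : W_4 (nat_lit 3) (nat_lit 0x4000060012000d0002c00040000000000000000000000) (nat_lit 0x0) (nat_lit 0x2000380008000000000000000000000000000000000000000) := T_4 (nat_lit 176) (nat_lit 159) (nat_lit 7) (nat_lit 5) (nat_lit 6) L1178800 (by decide +kernel)
theorem L1178802 : W_4 (nat_lit 4) (nat_lit 0x4000060012000d0002c00000000000000000000000000) (nat_lit 0x0) (nat_lit 0x2000380008000100000000000040000000000000000000000) := T_4 (nat_lit 90) (nat_lit 140) (nat_lit 5) (nat_lit 5) (nat_lit 5) L1178801 (by decide +kernel)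
theorem L1178803 : W_4 (nat_lit 5) (nat_lit 0x4000040012000d0002c00000000000000000000000000) (nat_lit 0x0) (nat_lit 0x20003c000a000100000000000040000000000000000000000) := T_4 (nat_lit 157) (nat_lit 174) (nat_lit 5) (nat_lit 5) (nat_lit 6) L1178802 (by decide +kernel)
theorem L1178804 : W_4 (nat_lit 6) (nat_lit 0x4000000012000d0002c00000000000000000000000000) (nat_lit 0x0) (nat_lit 0x20003c000e000100000000000060000000000000000000000) := T_4 (nat_lit 158) (nat_lit 89) (nat_lit 4) (nat_lit 5) (nat_lit 9) L1178803 (by decide +kernel)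
theorem L1178805 : W_4 (nat_lit 7) (nat_lit 0x12000d0002c00000000000000000000000000) (nat_lit 0x0) (nat_lit 0x20007c002e000100000000000060000000000000000000000) := T_4 (nat_lit 178) (nat_lit 161) (nat_lit 4) (nat_lit 8) (nat_lit 10) L1178804 (by decide +kernel)
theorem L1178806 : W_4 (nat_lit 8) (nat_lit 0x12000d0002800000000000000000000000000) (nat_lit 0x0) (nat_lit 0x20007c002e000100000001400060000000000000000000000) := T_4 (nat_lit 106) (nat_lit 108) (nat_lit 3) (nat_lit 4) (nat_lit 6) L1178805 (by decide +kernel)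
theorem L1178811 : W_4 (nat_lit 5) (nat_lit 0x12000d0002800000000000000000000000000) (nat_lit 0x0) (nat_lit 0x40002a000d000000014000f0005000000000000000000) := Q_4 (nat_lit 90) (C_4 L1178776 (C_4 L290928 N_4)) (by decide +kernel)
theorem L1178812 : W_4 (nat_lit 2) (nat_lit 0x500006001a000d0002c00000000000000000000000000) (nat_lit 0x0) (nat_lit 0x2000280000000000000000000000000000000000000000000) := D_4 (nat_lit 175) (nat_lit 177) (nat_lit 193) (nat_lit 0) (nat_lit 8) (nat_lit 10) (nat_lit 7) (nat_lit 5) (nat_lit 7) (by decide +kernel)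
theorem L1178813 : W_4 (nat_lit 3) (nat_lit 0x400006001a000d0002c00000000000000000000000000) (nat_lit 0x0) (nat_lit 0x2000380008000000000000000000000000000000000000000) := T_4 (nat_lit 176) (nat_lit 159) (nat_lit 7) (nat_lit 5) (nat_lit 6) L1178812 (by decide +kernel)
theorem L1178814 : W_4 (nat_lit 4) (nat_lit 0x4000060012000d0002c00000000000000000000000000) (nat_lit 0x0) (nat_lit 0x2000380008000c00000000000000000000000000000000000) := T_4 (nat_lit 143) (nat_lit 142) (nat_lit 1) (nat_lit 8) (nat_lit 8) L1178813 (by decide +kernel)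
theorem L1178815 : W_4 (nat_lit 5) (nat_lit 0x4000040012000d0002c00000000000000000000000000) (nat_lit 0x0) (nat_lit 0x20003c000a000c00000000000000000000000000000000000) := T_4 (nat_lit 157) (nat_lit 174) (nat_lit 5) (nat_lit 5) (nat_lit 6) L1178814 (by decide +kernel)
theorem L1178816 : W_4 (nat_lit 6) (nat_lit 0x4000000012000d0002c00000000000000000000000000) (nat_lit 0x0) (nat_lit 0x20003c000e000c00000000000020000000000000000000000) := T_4 (nat_lit 158) (nat_lit 89) (nat_lit 4) (nat_lit 5) (nat_lit 9) L1178815 (by decide +kernel)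
theorem L1178817 : W_4 (nat_lit 7) (nat_lit 0x12000d0002c00000000000000000000000000) (nat_lit 0x0) (nat_lit 0x20007c002e000c00000000000020000000000000000000000) := T_4 (nat_lit 178) (nat_lit 161) (nat_lit 4) (nat_lit 8) (nat_lit 10) L1178816 (by decide +kernel)
theorem L1178818 : W_4 (nat_lit 8) (nat_lit 0x12000d0002800000000000000000000000000) (nat_lit 0x0) (nat_lit 0x20007c002e000c00000001400020000000000000000000000) := T_4 (nat_lit 106) (nat_lit 108) (nat_lit 3) (nat_lit 4) (nat_lit 6) L1178817 (by decide +kernel)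
theorem L1178819 : W_4 (nat_lit 3) (nat_lit 0x12000d0002800040000000000000000000000) (nat_lit 0x0) (nat_lit 0xa000d00000000000000000000000000000000000) := T_4 (nat_lit 142) (nat_lit 159) (nat_lit 7) (nat_lit 5) (nat_lit 5) L1178788 (by decide +kernel)
theorem L1178820 : W_4 (nat_lit 6) (nat_lit 0x12000d0002800000000000000000000000000) (nat_lit 0x0) (nat_lit 0x40002e000d000000010000f0005000000000000000000) := Q_4 (nat_lit 90) (C_4 L1178776 (C_4 L1178819 (C_4 L1161914 N_4))) (by decide +kernel)
theorem L1178821 : W_4 (nat_lit 11) (nat_lit 0x10000d0002800000000000000000000000000) (nat_lit 0x0) (nat_lit 0x100038007c002e000f000000014000f0005000080000000000000) := Q_4 (nat_lit 141) (C_4 L1178783 (C_4 L1178799 (C_4 L1178806 (C_4 L1178810 (C_4 L1178811 (C_4 L1178818 (C_4 L1178820 (C_4 L302103 N_4)))))))) (by decide +kernel)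
theorem L1178822 : W_4 (nat_lit 4) (nat_lit 0x4000000010000d0006800000000000000000000000000) (nat_lit 0x0) (nat_lit 0x800008001000600010000800000000000000) := T_4 (nat_lit 108) (nat_lit 123) (nat_lit 1) (nat_lit 8) (nat_lit 6) L1167766 (by decide +kernel)
theorem L1178823 : W_4 (nat_lit 5) (nat_lit 0x10000d0006800000000000000000000000000) (nat_lit 0x0) (nat_lit 0x400020000800008001000600010000800000000000000) := T_4 (nat_lit 178) (nat_lit 161) (nat_lit 4) (nat_lit 8) (nat_lit 10) L1178822 (by decide +kernel)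
theorem L1178824 : W_4 (nat_lit 5) (nat_lit 0x10000d0006800000000000000000000000000) (nat_lit 0x0) (nat_lit 0x800008001000660010000800000000000000) := T_4 (nat_lit 108) (nat_lit 123) (nat_lit 1) (nat_lit 8) (nat_lit 6) L1178763 (by decide +kernel)
theorem L1178825 : W_4 (nat_lit 4) (nat_lit 0x10000d0007800040000000000000000000000) (nat_lit 0x0) (nat_lit 0x400020000200000008000080004000200000000000000) := T_4 (nat_lit 178) (nat_lit 161) (nat_lit 4) (nat_lit 8) (nat_lit 10) L1161816 (by decide +kernel)
theorem L1178826 : W_4 (nat_lit 5) (nat_lit 0x10000d0007800000000000000000000000000) (nat_lit 0x0) (nat_lit 0x4000200002000000080000e0004000200000000000000) := T_4 (nat_lit 90) (nat_lit 89) (nat_lit 0) (nat_lit 8) (nat_lit 6) L1178825 (by decide +kernel)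
theorem L1178827 : W_4 (nat_lit 6) (nat_lit 0x10000d0006800000000000000000000000000) (nat_lit 0x0) (nat_lit 0x4000200002000080090000e0004000200000000000000) := T_4 (nat_lit 108) (nat_lit 123) (nat_lit 1) (nat_lit 8) (nat_lit 6) L1178826 (by decide +kernel)
theorem L1178828 : W_4 (nat_lit 2) (nat_lit 0x200010000d0006800600000000000000000000000) (nat_lit 0x0) (nat_lit 0x800000000000000010000800000000000000) := D_4 (nat_lit 76) (nat_lit 143) (nat_lit 59) (nat_lit 5) (nat_lit 8) (nat_lit 4) (nat_lit 5) (nat_lit 8) (nat_lit 3) (by decide +kernel)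
theorem L1178829 : W_4 (nat_lit 3) (nat_lit 0x200010000d0006800400000000000000000000000) (nat_lit 0x0) (nat_lit 0x800000000000200030000800000000000000) := T_4 (nat_lit 93) (nat_lit 77) (nat_lit 6) (nat_lit 8) (nat_lit 8) L1178828 (by decide +kernel)
theorem L1178830 : W_4 (nat_lit 4) (nat_lit 0x200010000d0006800000000000000000000000000) (nat_lit 0x0) (nat_lit 0x800000008000600030000800000000000000) := T_4 (nat_lit 94) (nat_lit 111) (nat_lit 6) (nat_lit 8) (nat_lit 9) L1178829 (by decide +kernel)
theorem L1178831 : W_4 (nat_lit 5) (nat_lit 0x10000d0006800000000000000000000000000) (nat_lit 0x0) (nat_lit 0x400020000800000008000600030000800000000000000) := T_4 (nat_lit 161) (nat_lit 178) (nat_lit 4) (nat_lit 8) (nat_lit 10) L1178830 (by decide +kernel)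
theorem L1178832 : W_4 (nat_lit 7) (nat_lit 0x10000d0002800000000000000000000000000) (nat_lit 0x0) (nat_lit 0x400020000a0000800d0006e0034000a00000000000000) := Q_4 (nat_lit 110) (C_4 L1178823 (C_4 L1178824 (C_4 L1178827 (C_4 L1178831 N_4)))) (by decide +kernel)
theorem L1178833 : W_4 (nat_lit 13) (nat_lit 0x10000d0002000000000000000000000000000) (nat_lit 0x0) (nat_lit 0x100038007f002f802fc000c00dc006f0037000b80008000000000) := Q_4 (nat_lit 107) (C_4 L1178757 (C_4 L1178760 (C_4 L1178765 (C_4 L1178794 (C_4 L1178797 (C_4 L1178821 (C_4 L1178832 N_4))))))) (by decide +kernel)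
theorem L1178834 : W_4 (nat_lit 11) (nat_lit 0x10000d0002000000000000000000000000000) (nat_lit 0x0) (nat_lit 0x48002c002f0002000dc006e0016000800000000000000) := T_4 (nat_lit 125) (nat_lit 145) (nat_lit 3) (nat_lit 5) (nat_lit 7) L1176942 (by decide +kernel)
theorem L1178835 : W_4 (nat_lit 14) (nat_lit 0x10000c0002000000000000000000000000000) (nat_lit 0x0) (nat_lit 0x100038007f002f802fc003e00df806f0037000b80008000000000) := Q_4 (nat_lit 124) (C_4 L1178755 (C_4 L1178756 (C_4 L346726 (C_4 L1178833 (C_4 L1178834 N_4))))) (by decide +kernel)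
theorem L1178856 : W_4 (nat_lit 15) (nat_lit 0x10000c0000000000000000000000000000000) (nat_lit 0x0) (nat_lit 0x100038007f002f802fe003e03ff81ff003f001f80008000000000) := Q_4 (nat_lit 109) (C_4 L1178835 (C_4 L615321 (C_4 L1178855 (C_4 L284220 N_4)))) (by decide +kernel)
theorem L1178866 : W_4 (nat_lit 15) (nat_lit 0x10000c0000000000000000000000000000000) (nat_lit 0x0) (nat_lit 0x100038007f002f802fc033e00ff807f003f000f80008000000000) := Q_4 (nat_lit 109) (C_4 L1178835 (C_4 L615321 (C_4 L284285 N_4))) (by decide +kernel)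
theorem L1178912 : W_4 (nat_lit 13) (nat_lit 0x10000c0002000000000000000000000000000) (nat_lit 0x0) (nat_lit 0x18000c00ef0073c07d701f00078001c00000000000000) := Q_4 (nat_lit 125) (C_4 L1178905 (C_4 L1178911 (C_4 L1117965 (C_4 L616486 N_4)))) (by decide +kernel)
theorem L1178913 : W_4 (nat_lit 14) (nat_lit 0x10000c0000000000000000000000000000000) (nat_lit 0x0) (nat_lit 0x58002c03ef00f3c0ff701f00078001c00000000000000) := Q_4 (nat_lit 109) (C_4 L1178883 (C_4 L615321 (C_4 L1178912 (C_4 L284220 N_4)))) (by decide +kernel)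
theorem L1178920 : W_4 (nat_lit 18) (nat_lit 0x1000080000000000000000000000000000000) (nat_lit 0x0) (nat_lit 0x29007f803ff01af87efe1f7e1fff87ff03ff807f800e8005000000) := Q_4 (nat_lit 126) (C_4 L1159165 (C_4 L1176914 (C_4 L1176926 (C_4 L623037 (C_4 L1117977 (C_4 L1117946 (C_4 L1178856 (C_4 L1178865 (C_4 L1178866 (C_4 L346044 (C_4 L1178872 (C_4 L1178913 (C_4 L1178919 N_4))))))))))))) (by decide +kernel)
theorem L1178921 : W_4 (nat_lit 9) (nat_lit 0x10000c0004000200000000000000000000000) (nat_lit 0x0) (nat_lit 0x238003803be00dc002e000200000000000000) := Q_4 (nat_lit 125) (C_4 L363839 (C_4 L488376 (C_4 L85320 (C_4 L64388 N_4)))) (by decide +kernel)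
theorem L1178922 : W_4 (nat_lit 2) (nat_lit 0x1d000c00068017c0002000000000000000000) (nat_lit 0x0) (nat_lit 0x38000000000000000000000000000000) := D_4 (nat_lit 124) (nat_lit 123) (nat_lit 125) (nat_lit 5) (nat_lit 5) (nat_lit 4) (nat_lit 7) (nat_lit 5) (nat_lit 4) (by decide +kernel)
theorem L1178923 : W_4 (nat_lit 3) (nat_lit 0x1d000c00068017c0000000000000000000000) (nat_lit 0x0) (nat_lit 0x38000000000003000000000000000000) := T_4 (nat_lit 73) (nat_lit 72) (nat_lit 0) (nat_lit 8) (nat_lit 5) L1178922 (by decide +kernel)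
theorem L1178924 : W_4 (nat_lit 4) (nat_lit 0x1d000c00060017c0000000000000000000000) (nat_lit 0x0) (nat_lit 0x38000c00000003000000000000000000) := T_4 (nat_lit 107) (nat_lit 106) (nat_lit 1) (nat_lit 8) (nat_lit 5) L1178923 (by decide +kernel)
theorem L1178925 : W_4 (nat_lit 5) (nat_lit 0x1d000c0006001780000000000000000000000) (nat_lit 0x0) (nat_lit 0x38000c00060003000000000000000000) := T_4 (nat_lit 90) (nat_lit 89) (nat_lit 3) (nat_lit 4) (nat_lit 5) L1178924 (by decide +kernel)
theorem L1178926 : W_4 (nat_lit 6) (nat_lit 0x1d000c0006001700000000000000000000000) (nat_lit 0x0) (nat_lit 0x38000c000e0007000000000000000000) := T_4 (nat_lit 91) (nat_lit 74) (nat_lit 4) (nat_lit 7) (nat_lit 8) L1178925 (by decide +kernel)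
theorem L1178927 : W_4 (nat_lit 7) (nat_lit 0x1c000c0006001700000000000000000000000) (nat_lit 0x0) (nat_lit 0x300038000c000e0007000000000000000000) := T_4 (nat_lit 140) (nat_lit 141) (nat_lit 2) (nat_lit 4) (nat_lit 8) L1178926 (by decide +kernel)
theorem L1178928 : W_4 (nat_lit 8) (nat_lit 0x18000c0006001700000000000000000000000) (nat_lit 0x0) (nat_lit 0x8000700038000c000e0007000000000000000000) := T_4 (nat_lit 142) (nat_lit 159) (nat_lit 5) (nat_lit 7) (nat_lit 5) L1178927 (by decide +kernel)
theorem L1178929 : W_4 (nat_lit 9) (nat_lit 0x18000c0006000700000000000000000000000) (nat_lit 0x0) (nat_lit 0x8000700038000c018e0007000000000000000000) := T_4 (nat_lit 96) (nat_lit 95) (nat_lit 1) (nat_lit 11) (nat_lit 5) L1178928 (by decide +kernel)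
theorem L1178930 : W_4 (nat_lit 10) (nat_lit 0x18000c0006000300000000000000000000000) (nat_lit 0x0) (nat_lit 0x8000700038000c01ce0027000000000000000000) := T_4 (nat_lit 94) (nat_lit 77) (nat_lit 6) (nat_lit 8) (nat_lit 8) L1178929 (by decide +kernel)
theorem L1178931 : W_4 (nat_lit 11) (nat_lit 0x10000c0006000300000000000000000000000) (nat_lit 0x0) (nat_lit 0x18000f00038000c01ce0027000000000000000000) := T_4 (nat_lit 143) (nat_lit 160) (nat_lit 6) (nat_lit 7) (nat_lit 9) L1178930 (by decide +kernel)
theorem L1178932 : W_4 (nat_lit 12) (nat_lit 0x10000c0006000200000000000000000000000) (nat_lit 0x0) (nat_lit 0x18000f00038000c01de002f000000000000000000) := T_4 (nat_lit 92) (nat_lit 75) (nat_lit 7) (nat_lit 7) (nat_lit 4) L1178931 (by decide +kernel)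
theorem L1178933 : W_4 (nat_lit 2) (nat_lit 0x100010000e0006800600000000000000000000000) (nat_lit 0x0) (nat_lit 0x18000400000000000000000000000000) := D_4 (nat_lit 124) (nat_lit 106) (nat_lit 123) (nat_lit 0) (nat_lit 8) (nat_lit 7) (nat_lit 2) (nat_lit 4) (nat_lit 7) (by decide +kernel)
theorem L1178934 : W_4 (nat_lit 3) (nat_lit 0x100010000e0006000600000000000000000000000) (nat_lit 0x0) (nat_lit 0x18001c00000000000000000000000000) := T_4 (nat_lit 107) (nat_lit 108) (nat_lit 2) (nat_lit 5) (nat_lit 6) L1178933 (by decide +kernel)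
theorem L1178935 : W_4 (nat_lit 4) (nat_lit 0x100010000e0006000200000000000000000000000) (nat_lit 0x0) (nat_lit 0x18001c00400020000000000000000000) := T_4 (nat_lit 94) (nat_lit 77) (nat_lit 6) (nat_lit 8) (nat_lit 8) L1178934 (by decide +kernel)
theorem L1178936 : W_4 (nat_lit 5) (nat_lit 0x10000e0006000200000000000000000000000) (nat_lit 0x0) (nat_lit 0x10000800018001c00400020000000000000000000) := T_4 (nat_lit 160) (nat_lit 143) (nat_lit 6) (nat_lit 7) (nat_lit 9) L1178935 (by decide +kernel)
theorem L1178942 : W_4 (nat_lit 2) (nat_lit 0x3d000e0006001600000000000000000000000) (nat_lit 0x0) (nat_lit 0x10000c000000000000000000000000000000000000000) := D_4 (nat_lit 159) (nat_lit 176) (nat_lit 158) (nat_lit 6) (nat_lit 6) (nat_lit 10) (nat_lit 1) (nat_lit 9) (nat_lit 8) (by decide +kernel)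
theorem L1178943 : W_4 (nat_lit 3) (nat_lit 0x1d000e0006001600000000000000000000000) (nat_lit 0x0) (nat_lit 0x10000c006000000000000000000000000000000000000) := T_4 (nat_lit 145) (nat_lit 146) (nat_lit 0) (nat_lit 10) (nat_lit 8) L1178942 (by decide +kernel)
theorem L1178944 : W_4 (nat_lit 4) (nat_lit 0x1c000e0006001600000000000000000000000) (nat_lit 0x0) (nat_lit 0x10000c006300000000000000000000000000000000000) := T_4 (nat_lit 140) (nat_lit 141) (nat_lit 2) (nat_lit 4) (nat_lit 8) L1178943 (by decide +kernel)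
theorem L1178945 : W_4 (nat_lit 5) (nat_lit 0x1c000e0006000600000000000000000000000) (nat_lit 0x0) (nat_lit 0x10000c006300000000001800000000000000000000000) := T_4 (nat_lit 96) (nat_lit 95) (nat_lit 1) (nat_lit 11) (nat_lit 5) L1178944 (by decide +kernel)
theorem L1178946 : W_4 (nat_lit 6) (nat_lit 0x1c000e0006000200000000000000000000000) (nat_lit 0x0) (nat_lit 0x10000c006300000000001c00020000000000000000000) := T_4 (nat_lit 94) (nat_lit 77) (nat_lit 6) (nat_lit 8) (nat_lit 8) L1178945 (by decide +kernel)
theorem L1178947 : W_4 (nat_lit 7) (nat_lit 0x14000e0006000200000000000000000000000) (nat_lit 0x0) (nat_lit 0x10001c006b00000000001c00020000000000000000000) := T_4 (nat_lit 143) (nat_lit 160) (nat_lit 6) (nat_lit 7) (nat_lit 9) L1178946 (by decide +kernel)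
theorem L1178948 : W_4 (nat_lit 2) (nat_lit 0x1e000e0007000600000000000000000000000) (nat_lit 0x0) (nat_lit 0x6000000000000000080000000000000000000000) := D_4 (nat_lit 158) (nat_lit 157) (nat_lit 91) (nat_lit 1) (nat_lit 8) (nat_lit 8) (nat_lit 5) (nat_lit 6) (nat_lit 5) (by decide +kernel)
theorem L1178949 : W_4 (nat_lit 3) (nat_lit 0x1e000e0006000600000000000000000000000) (nat_lit 0x0) (nat_lit 0x6000000000001800080000000000000000000000) := T_4 (nat_lit 108) (nat_lit 107) (nat_lit 2) (nat_lit 5) (nat_lit 6) L1178948 (by decide +kernel)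
theorem L1178950 : W_4 (nat_lit 4) (nat_lit 0x1e000e0006000200000000000000000000000) (nat_lit 0x0) (nat_lit 0x6000000000001800480020000000000000000000) := T_4 (nat_lit 94) (nat_lit 77) (nat_lit 6) (nat_lit 8) (nat_lit 8) L1178949 (by decide +kernel)
theorem L1178951 : W_4 (nat_lit 5) (nat_lit 0x1c000e0006000200000000000000000000000) (nat_lit 0x0) (nat_lit 0x6000300000001800480020000000000000000000) := T_4 (nat_lit 141) (nat_lit 140) (nat_lit 2) (nat_lit 4) (nat_lit 8) L1178950 (by decide +kernel)
theorem L1178952 : W_4 (nat_lit 6) (nat_lit 0x14000e0006000200000000000000000000000) (nat_lit 0x0) (nat_lit 0x16000b00000001800480020000000000000000000) := T_4 (nat_lit 143) (nat_lit 160) (nat_lit 6) (nat_lit 7) (nat_lit 9) L1178951 (by decide +kernel)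
theorem L1178953 : W_4 (nat_lit 2) (nat_lit 0x100004005e000e0007000200000000000000000000000) (nat_lit 0x0) (nat_lit 0xc00400000000000000000000000) := D_4 (nat_lit 107) (nat_lit 106) (nat_lit 94) (nat_lit 3) (nat_lit 4) (nat_lit 6) (nat_lit 2) (nat_lit 5) (nat_lit 6) (by decide +kernel)
theorem L1178954 : W_4 (nat_lit 3) (nat_lit 0x100004005e000e0006000200000000000000000000000) (nat_lit 0x0) (nat_lit 0x1c00480000000000000000000000) := T_4 (nat_lit 108) (nat_lit 91) (nat_lit 5) (nat_lit 6) (nat_lit 5) L1178953 (by decide +kernel)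
theorem L1178955 : W_4 (nat_lit 4) (nat_lit 0x100000005e000e0006000200000000000000000000000) (nat_lit 0x0) (nat_lit 0x6000000000001c00480000000000000000000000) := T_4 (nat_lit 158) (nat_lit 157) (nat_lit 1) (nat_lit 8) (nat_lit 8) L1178954 (by decide +kernel)
theorem L1178956 : W_4 (nat_lit 5) (nat_lit 0x100000001e000e0006000200000000000000000000000) (nat_lit 0x0) (nat_lit 0x6006000000001c00480000000000000000000000) := T_4 (nat_lit 146) (nat_lit 145) (nat_lit 0) (nat_lit 10) (nat_lit 8) L1178955 (by decide +kernel)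
theorem L1178957 : W_4 (nat_lit 6) (nat_lit 0x100000001c000e0006000200000000000000000000000) (nat_lit 0x0) (nat_lit 0x6006300000001c00480000000000000000000000) := T_4 (nat_lit 141) (nat_lit 140) (nat_lit 2) (nat_lit 4) (nat_lit 8) L1178956 (by decide +kernel)
theorem L1178958 : W_4 (nat_lit 7) (nat_lit 0x1000000014000e0006000200000000000000000000000) (nat_lit 0x0) (nat_lit 0x16006b00000001c00480000000000000000000000) := T_4 (nat_lit 143) (nat_lit 160) (nat_lit 6) (nat_lit 7) (nat_lit 9) L1178957 (by decide +kernel)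
theorem L1178959 : W_4 (nat_lit 8) (nat_lit 0x14000e0006000200000000000000000000000) (nat_lit 0x0) (nat_lit 0x10001e006b00000001c00480000000000000000000000) := T_4 (nat_lit 176) (nat_lit 159) (nat_lit 6) (nat_lit 6) (nat_lit 10) L1178958 (by decide +kernel)
theorem L1178960 : W_4 (nat_lit 2) (nat_lit 0x180014000e0007000200000000000000000000000) (nat_lit 0x0) (nat_lit 0xc00040000000000000000000000) := D_4 (nat_lit 107) (nat_lit 106) (nat_lit 90) (nat_lit 3) (nat_lit 4) (nat_lit 6) (nat_lit 4) (nat_lit 6) (nat_lit 9) (by decide +kernel)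
theorem L1178961 : W_4 (nat_lit 3) (nat_lit 0x180014000e0006000200000000000000000000000) (nat_lit 0x0) (nat_lit 0x200000000000000001c00040000000000000000000000) := T_4 (nat_lit 108) (nat_lit 177) (nat_lit 7) (nat_lit 6) (nat_lit 6) L1178960 (by decide +kernel)
theorem L1178962 : W_4 (nat_lit 4) (nat_lit 0x100014000e0006000200000000000000000000000) (nat_lit 0x0) (nat_lit 0x300008000000000001c00040000000000000000000000) := T_4 (nat_lit 159) (nat_lit 176) (nat_lit 6) (nat_lit 6) (nat_lit 10) L1178961 (by decide +kernel)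
theorem L1178963 : W_4 (nat_lit 5) (nat_lit 0x14000e0006000200000000000000000000000) (nat_lit 0x0) (nat_lit 0x300018000800000001c00040000000000000000000000) := T_4 (nat_lit 160) (nat_lit 143) (nat_lit 6) (nat_lit 7) (nat_lit 9) L1178962 (by decide +kernel)
theorem L1178964 : W_4 (nat_lit 10) (nat_lit 0x10000e0006000200000000000000000000000) (nat_lit 0x0) (nat_lit 0x38001e006f00000001c01cc0026000300000000000000) := Q_4 (nat_lit 142) (C_4 L1176968 (C_4 L1178947 (C_4 L1158945 (C_4 L1178952 (C_4 L1178959 (C_4 L1178963 N_4)))))) (by decide +kernel)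
theorem L1178965 : W_4 (nat_lit 11) (nat_lit 0x10000c0006000200000000000000000000000) (nat_lit 0x0) (nat_lit 0x38001e006f00038001c01cc0026000300000000000000) := Q_4 (nat_lit 125) (C_4 L64089 (C_4 L1178936 (C_4 L1178964 N_4))) (by decide +kernel)
theorem L1178966 : W_4 (nat_lit 2) (nat_lit 0x4001e000d00060003a0000000000000000000000) (nat_lit 0x0) (nat_lit 0x20001800000000000000000000000000) := D_4 (nat_lit 108) (nat_lit 125) (nat_lit 107) (nat_lit 5) (nat_lit 6) (nat_lit 5) (nat_lit 6) (nat_lit 5) (nat_lit 9) (by decide +kernel)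
theorem L1178967 : W_4 (nat_lit 3) (nat_lit 0x4001e000c00060003a0000000000000000000000) (nat_lit 0x0) (nat_lit 0x38001800000000000000000000000000) := T_4 (nat_lit 124) (nat_lit 123) (nat_lit 0) (nat_lit 8) (nat_lit 8) L1178966 (by decide +kernel)
theorem L1178968 : W_4 (nat_lit 4) (nat_lit 0x1e000c00060003a0000000000000000000000) (nat_lit 0x0) (nat_lit 0x6000000038001800000000000000000000000000) := T_4 (nat_lit 158) (nat_lit 157) (nat_lit 1) (nat_lit 8) (nat_lit 8) L1178967 (by decide +kernel)
theorem L1178969 : W_4 (nat_lit 5) (nat_lit 0x1c000c00060003a0000000000000000000000) (nat_lit 0x0) (nat_lit 0x6000300038001800000000000000000000000000) := T_4 (nat_lit 141) (nat_lit 140) (nat_lit 2) (nat_lit 4) (nat_lit 8) L1178968 (by decide +kernel)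
theorem L1178970 : W_4 (nat_lit 6) (nat_lit 0x18000c00060003a0000000000000000000000) (nat_lit 0x0) (nat_lit 0xe000700038001800000000000000000000000000) := T_4 (nat_lit 142) (nat_lit 159) (nat_lit 5) (nat_lit 7) (nat_lit 5) L1178969 (by decide +kernel)
theorem L1178971 : W_4 (nat_lit 7) (nat_lit 0x18000c0006000380000000000000000000000) (nat_lit 0x0) (nat_lit 0xe000700038001800060000000000000000000000) := T_4 (nat_lit 89) (nat_lit 90) (nat_lit 3) (nat_lit 4) (nat_lit 5) L1178970 (by decide +kernel)
theorem L1178972 : W_4 (nat_lit 8) (nat_lit 0x18000c0006000300000000000000000000000) (nat_lit 0x0) (nat_lit 0xe0007000380018000e0004000000000000000000) := T_4 (nat_lit 91) (nat_lit 74) (nat_lit 4) (nat_lit 7) (nat_lit 8) L1178971 (by decide +kernel)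
theorem L1178973 : W_4 (nat_lit 9) (nat_lit 0x10000c0006000300000000000000000000000) (nat_lit 0x0) (nat_lit 0x1e000f000380018000e0004000000000000000000) := T_4 (nat_lit 143) (nat_lit 160) (nat_lit 6) (nat_lit 7) (nat_lit 9) L1178972 (by decide +kernel)
theorem L1178974 : W_4 (nat_lit 10) (nat_lit 0x10000c0006000200000000000000000000000) (nat_lit 0x0) (nat_lit 0x1e000f000380018001e000c000000000000000000) := T_4 (nat_lit 92) (nat_lit 75) (nat_lit 7) (nat_lit 7) (nat_lit 4) L1178973 (by decide +kernel)
theorem L1178975 : W_4 (nat_lit 2) (nat_lit 0x100010000c0006000700000000000000000000000) (nat_lit 0x0) (nat_lit 0x1001800000000000000000000000) := D_4 (nat_lit 95) (nat_lit 96) (nat_lit 108) (nat_lit 1) (nat_lit 11) (nat_lit 5) (nat_lit 1) (nat_lit 10) (nat_lit 5) (by decide +kernel)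
theorem L1178976 : W_4 (nat_lit 3) (nat_lit 0x100010000c0006000300000000000000000000000) (nat_lit 0x0) (nat_lit 0x1001c00020000000000000000000) := T_4 (nat_lit 94) (nat_lit 77) (nat_lit 6) (nat_lit 8) (nat_lit 8) L1178975 (by decide +kernel)
theorem L1178977 : W_4 (nat_lit 4) (nat_lit 0x100010000c0006000200000000000000000000000) (nat_lit 0x0) (nat_lit 0x1001d00028000000000000000000) := T_4 (nat_lit 92) (nat_lit 75) (nat_lit 7) (nat_lit 7) (nat_lit 4) L1178976 (by decide +kernel)
theorem L1178978 : W_4 (nat_lit 5) (nat_lit 0x10000c0006000200000000000000000000000) (nat_lit 0x0) (nat_lit 0x10000800000001001d00028000000000000000000) := T_4 (nat_lit 160) (nat_lit 143) (nat_lit 6) (nat_lit 7) (nat_lit 9) L1178977 (by decide +kernel)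
theorem L1178979 : W_4 (nat_lit 13) (nat_lit 0x10000c0004000200000000000000000000000) (nat_lit 0x0) (nat_lit 0x38001e006f00038003c01de002f000300000000000000) := Q_4 (nat_lit 109) (C_4 L1158893 (C_4 L1178932 (C_4 L1178965 (C_4 L1178974 (C_4 L1178978 N_4))))) (by decide +kernel)
theorem L1180550 : W_4 (nat_lit 2) (nat_lit 0x10000c0007000600000000000000000000000) (nat_lit 0x0) (nat_lit 0x8001800000000000000000000000) := D_4 (nat_lit 95) (nat_lit 96) (nat_lit 111) (nat_lit 1) (nat_lit 11) (nat_lit 5) (nat_lit 2) (nat_lit 6) (nat_lit 6) (by decide +kernel)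
theorem L1180551 : W_4 (nat_lit 3) (nat_lit 0x10000c0006000600000000000000000000000) (nat_lit 0x0) (nat_lit 0x9801800000000000000000000000) := T_4 (nat_lit 108) (nat_lit 107) (nat_lit 2) (nat_lit 5) (nat_lit 6) L1180550 (by decide +kernel)
theorem L1180552 : W_4 (nat_lit 4) (nat_lit 0x10000c0006000200000000000000000000000) (nat_lit 0x0) (nat_lit 0x9801c00020000000000000000000) := T_4 (nat_lit 94) (nat_lit 77) (nat_lit 6) (nat_lit 8) (nat_lit 8) L1180551 (by decide +kernel)
theorem L1180884 : W_4 (nat_lit 2) (nat_lit 0x4001e000d0006001600000000000000000000000) (nat_lit 0x0) (nat_lit 0x8002000020000000000000000000000000000000) := D_4 (nat_lit 145) (nat_lit 125) (nat_lit 159) (nat_lit 3) (nat_lit 5) (nat_lit 7) (nat_lit 1) (nat_lit 9) (nat_lit 8) (by decide +kernel)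
theorem L1180885 : W_4 (nat_lit 3) (nat_lit 0x1e000d0006001600000000000000000000000) (nat_lit 0x0) (nat_lit 0xe002000020000000000000000000000000000000) := T_4 (nat_lit 158) (nat_lit 157) (nat_lit 1) (nat_lit 8) (nat_lit 8) L1180884 (by decide +kernel)
theorem L1180886 : W_4 (nat_lit 4) (nat_lit 0x1e000c0006001600000000000000000000000) (nat_lit 0x0) (nat_lit 0xe002000038000000000000000000000000000000) := T_4 (nat_lit 124) (nat_lit 123) (nat_lit 0) (nat_lit 8) (nat_lit 8) L1180885 (by decide +kernel)
theorem L1180887 : W_4 (nat_lit 5) (nat_lit 0x1e000c0006000600000000000000000000000) (nat_lit 0x0) (nat_lit 0xe002000038000001800000000000000000000000) := T_4 (nat_lit 96) (nat_lit 95) (nat_lit 1) (nat_lit 11) (nat_lit 5) L1180886 (by decide +kernel)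
theorem L1180888 : W_4 (nat_lit 6) (nat_lit 0x1e000c0006000200000000000000000000000) (nat_lit 0x0) (nat_lit 0xe002000038000001c00020000000000000000000) := T_4 (nat_lit 94) (nat_lit 77) (nat_lit 6) (nat_lit 8) (nat_lit 8) L1180887 (by decide +kernel)
theorem L1180889 : W_4 (nat_lit 7) (nat_lit 0x1c000c0006000200000000000000000000000) (nat_lit 0x0) (nat_lit 0xe002300038000001c00020000000000000000000) := T_4 (nat_lit 141) (nat_lit 140) (nat_lit 2) (nat_lit 4) (nat_lit 8) L1180888 (by decide +kernel)
theorem L1180968 : W_4 (nat_lit 2) (nat_lit 0x38000c0004000200000000000000000000000) (nat_lit 0x0) (nat_lit 0xc000020000000000000000000000000000000) := D_4 (nat_lit 146) (nat_lit 125) (nat_lit 147) (nat_lit 0) (nat_lit 10) (nat_lit 8) (nat_lit 0) (nat_lit 11) (nat_lit 8) (by decide +kernel)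
theorem L1181150 : W_4 (nat_lit 2) (nat_lit 0x3e000c0004000200000000000000000000000) (nat_lit 0x0) (nat_lit 0xe000000000000000000000000000000000000000) := D_4 (nat_lit 158) (nat_lit 159) (nat_lit 157) (nat_lit 1) (nat_lit 9) (nat_lit 8) (nat_lit 1) (nat_lit 8) (nat_lit 8) (by decide +kernel)
theorem L1181151 : W_4 (nat_lit 3) (nat_lit 0x3c000c0004000200000000000000000000000) (nat_lit 0x0) (nat_lit 0xe000300000000000000000000000000000000000) := T_4 (nat_lit 141) (nat_lit 140) (nat_lit 2) (nat_lit 4) (nat_lit 8) L1181150 (by decide +kernel)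
theorem L1181153 : W_4 (nat_lit 2) (nat_lit 0x8003c000e0004000200000000000000000000000) (nat_lit 0x0) (nat_lit 0x2000100000000000000002000000000000000000000000000) := D_4 (nat_lit 176) (nat_lit 193) (nat_lit 109) (nat_lit 6) (nat_lit 6) (nat_lit 11) (nat_lit 6) (nat_lit 6) (nat_lit 10) (by decide +kernel)
theorem L1181154 : W_4 (nat_lit 3) (nat_lit 0x8003c000c0004000200000000000000000000000) (nat_lit 0x0) (nat_lit 0x2000100000000000030002000000000000000000000000000) := T_4 (nat_lit 125) (nat_lit 124) (nat_lit 3) (nat_lit 5) (nat_lit 7) L1181153 (by decide +kernel)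
theorem L1181155 : W_4 (nat_lit 4) (nat_lit 0x3c000c0004000200000000000000000000000) (nat_lit 0x0) (nat_lit 0x200010000c000000030002000000000000000000000000000) := T_4 (nat_lit 159) (nat_lit 158) (nat_lit 1) (nat_lit 9) (nat_lit 8) L1181154 (by decide +kernel)
theorem L1181156 : W_4 (nat_lit 2) (nat_lit 0x3e000c0004000200000000000000000000000) (nat_lit 0x0) (nat_lit 0x38000000000000000000000000000000) := D_4 (nat_lit 124) (nat_lit 125) (nat_lit 123) (nat_lit 3) (nat_lit 5) (nat_lit 7) (nat_lit 0) (nat_lit 8) (nat_lit 8) (by decide +kernel)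
theorem L1181157 : W_4 (nat_lit 3) (nat_lit 0x3c000c0004000200000000000000000000000) (nat_lit 0x0) (nat_lit 0x300038000000000000000000000000000000) := T_4 (nat_lit 141) (nat_lit 140) (nat_lit 2) (nat_lit 4) (nat_lit 8) L1181156 (by decide +kernel)
theorem L1181240 : W_4 (nat_lit 5) (nat_lit 0x38000c0004000200000000000000000000000) (nat_lit 0x0) (nat_lit 0x200010000e000700038002000000000000000000000000000) := Q_4 (nat_lit 142) (C_4 L1181157 (C_4 L1181151 (C_4 L1181155 N_4))) (by decide +kernel)
theorem L1184290 : W_4 (nat_lit 7) (nat_lit 0x1c000c0006000600000000000000000000000) (nat_lit 0x0) (nat_lit 0x10000e000300018001801840000000000000000000000) := T_4 (nat_lit 141) (nat_lit 140) (nat_lit 2) (nat_lit 4) (nat_lit 8) L1160102 (by decide +kernel)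
theorem L1184291 : W_4 (nat_lit 8) (nat_lit 0x14000c0006000600000000000000000000000) (nat_lit 0x0) (nat_lit 0x10001e000b00018001801840000000000000000000000) := T_4 (nat_lit 143) (nat_lit 160) (nat_lit 6) (nat_lit 7) (nat_lit 9) L1184290 (by decide +kernel)
theorem L1184305 : W_4 (nat_lit 5) (nat_lit 0x78002c0004000600000000000000000000000) (nat_lit 0x0) (nat_lit 0x18000000000003a001800080000000000000000000) := T_4 (nat_lit 163) (nat_lit 164) (nat_lit 3) (nat_lit 7) (nat_lit 8) L1101659 (by decide +kernel)
theorem L1184306 : W_4 (nat_lit 6) (nat_lit 0x78000c0004000600000000000000000000000) (nat_lit 0x0) (nat_lit 0x18000000060003a001800080000000000000000000) := T_4 (nat_lit 129) (nat_lit 130) (nat_lit 2) (nat_lit 7) (nat_lit 8) L1184305 (by decide +kernel)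
theorem L1184307 : W_4 (nat_lit 7) (nat_lit 0x38000c0004000600000000000000000000000) (nat_lit 0x0) (nat_lit 0x18000c00060003a001800080000000000000000000) := T_4 (nat_lit 146) (nat_lit 147) (nat_lit 0) (nat_lit 11) (nat_lit 8) L1184306 (by decide +kernel)
theorem L1184608 : W_4 (nat_lit 2) (nat_lit 0x18000e0004000200000000000000000000000) (nat_lit 0x0) (nat_lit 0x6000010000000000000000000000000000000) := D_4 (nat_lit 145) (nat_lit 146) (nat_lit 124) (nat_lit 0) (nat_lit 10) (nat_lit 8) (nat_lit 3) (nat_lit 5) (nat_lit 7) (by decide +kernel)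
theorem L1184612 : W_4 (nat_lit 8) (nat_lit 0x38000c0004000200000000000000000000000) (nat_lit 0x0) (nat_lit 0x18000c00060003a001c000a0000000000000000000) := T_4 (nat_lit 94) (nat_lit 77) (nat_lit 6) (nat_lit 8) (nat_lit 8) L1184307 (by decide +kernel)
theorem L1184613 : W_4 (nat_lit 9) (nat_lit 0x18000c0004000200000000000000000000000) (nat_lit 0x0) (nat_lit 0x200010018e00e70063803a001c000a0000000000000000000) := Q_4 (nat_lit 145) (C_4 L1184612 (C_4 L1181240 (C_4 L1180968 N_4))) (by decide +kernel)
theorem L1184614 : W_4 (nat_lit 10) (nat_lit 0x10000c0004000200000000000000000000000) (nat_lit 0x0) (nat_lit 0x200010019e00ef0063803a001c000a0000000000000000000) := T_4 (nat_lit 143) (nat_lit 160) (nat_lit 5) (nat_lit 8) (nat_lit 5) L1184613 (by decide +kernel)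
theorem L1184615 : W_4 (nat_lit 9) (nat_lit 0x10000c0006000200000000000000000000000) (nat_lit 0x0) (nat_lit 0x8002400038019c005e000e000700000000000000) := Q_4 (nat_lit 125) (C_4 L363786 (C_4 L64089 N_4)) (by decide +kernel)
theorem L1184618 : W_4 (nat_lit 2) (nat_lit 0x4001e000d0006000300000000000000000000000) (nat_lit 0x0) (nat_lit 0x2000020008000000000000000000000000000) := D_4 (nat_lit 125) (nat_lit 145) (nat_lit 111) (nat_lit 3) (nat_lit 5) (nat_lit 7) (nat_lit 2) (nat_lit 5) (nat_lit 7) (by decide +kernel)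
theorem L1184619 : W_4 (nat_lit 3) (nat_lit 0x4001e000c0006000300000000000000000000000) (nat_lit 0x0) (nat_lit 0x2000038008000000000000000000000000000) := T_4 (nat_lit 124) (nat_lit 123) (nat_lit 0) (nat_lit 8) (nat_lit 8) L1184618 (by decide +kernel)
theorem L1184620 : W_4 (nat_lit 4) (nat_lit 0x1e000c0006000300000000000000000000000) (nat_lit 0x0) (nat_lit 0x6002000038008000000000000000000000000000) := T_4 (nat_lit 158) (nat_lit 157) (nat_lit 1) (nat_lit 8) (nat_lit 8) L1184619 (by decide +kernel)
theorem L1184621 : W_4 (nat_lit 5) (nat_lit 0x1c000c0006000300000000000000000000000) (nat_lit 0x0) (nat_lit 0x6002300038008000000000000000000000000000) := T_4 (nat_lit 141) (nat_lit 140) (nat_lit 2) (nat_lit 4) (nat_lit 8) L1184620 (by decide +kernel)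
theorem L1184622 : W_4 (nat_lit 6) (nat_lit 0x18000c0006000300000000000000000000000) (nat_lit 0x0) (nat_lit 0xe002700038008000000000000000000000000000) := T_4 (nat_lit 142) (nat_lit 159) (nat_lit 5) (nat_lit 7) (nat_lit 5) L1184621 (by decide +kernel)
theorem L1184623 : W_4 (nat_lit 7) (nat_lit 0x18000c0006000200000000000000000000000) (nat_lit 0x0) (nat_lit 0xe002700038008000100008000000000000000000) := T_4 (nat_lit 92) (nat_lit 75) (nat_lit 7) (nat_lit 7) (nat_lit 4) L1184622 (by decide +kernel)
theorem L1184624 : W_4 (nat_lit 8) (nat_lit 0x10000c0006000200000000000000000000000) (nat_lit 0x0) (nat_lit 0x1e002f00038008000100008000000000000000000) := T_4 (nat_lit 143) (nat_lit 160) (nat_lit 6) (nat_lit 7) (nat_lit 9) L1184623 (by decide +kernel)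
theorem L1184625 : W_4 (nat_lit 11) (nat_lit 0x10000c0004000200000000000000000000000) (nat_lit 0x0) (nat_lit 0x1e002f0003801bc005e000e000700000000000000) := Q_4 (nat_lit 109) (C_4 L1048642 (C_4 L1178974 (C_4 L1184615 (C_4 L1184617 (C_4 L1184624 N_4))))) (by decide +kernel)
theorem L1184626 : W_4 (nat_lit 3) (nat_lit 0x10000e0004000200000000000000000000000) (nat_lit 0x0) (nat_lit 0x10006800010000000000000000000000000000000) := T_4 (nat_lit 143) (nat_lit 160) (nat_lit 5) (nat_lit 8) (nat_lit 5) L1184608 (by decide +kernel)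
theorem L1184627 : W_4 (nat_lit 2) (nat_lit 0x10000e00048003c0000000000000000000000) (nat_lit 0x0) (nat_lit 0x1000400020000000000000000000) := D_4 (nat_lit 94) (nat_lit 77) (nat_lit 108) (nat_lit 6) (nat_lit 8) (nat_lit 8) (nat_lit 1) (nat_lit 9) (nat_lit 5) (by decide +kernel)
theorem L1184628 : W_4 (nat_lit 3) (nat_lit 0x10000e00040003c0000000000000000000000) (nat_lit 0x0) (nat_lit 0x1c00400020000000000000000000) := T_4 (nat_lit 107) (nat_lit 106) (nat_lit 1) (nat_lit 8) (nat_lit 5) L1184627 (by decide +kernel)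
theorem L1184629 : W_4 (nat_lit 4) (nat_lit 0x10000e0004000380000000000000000000000) (nat_lit 0x0) (nat_lit 0x9c00440020000000000000000000) := T_4 (nat_lit 90) (nat_lit 111) (nat_lit 3) (nat_lit 5) (nat_lit 5) L1184628 (by decide +kernel)
theorem L1184630 : W_4 (nat_lit 2) (nat_lit 0x58000e00044003c0005000000000000000000) (nat_lit 0x0) (nat_lit 0x200020000800000000000000000) := D_4 (nat_lit 89) (nat_lit 105) (nat_lit 71) (nat_lit 1) (nat_lit 7) (nat_lit 5) (nat_lit 0) (nat_lit 7) (nat_lit 5) (by decide +kernel)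
theorem L1184631 : W_4 (nat_lit 3) (nat_lit 0x58000e00044003c0004000000000000000000) (nat_lit 0x0) (nat_lit 0x200020003800000000000000000) := T_4 (nat_lit 72) (nat_lit 73) (nat_lit 0) (nat_lit 8) (nat_lit 5) L1184630 (by decide +kernel)
theorem L1184632 : W_4 (nat_lit 4) (nat_lit 0x58000e00040003c0004000000000000000000) (nat_lit 0x0) (nat_lit 0xe00020003800000000000000000) := T_4 (nat_lit 106) (nat_lit 107) (nat_lit 1) (nat_lit 8) (nat_lit 5) L1184631 (by decide +kernel)
theorem L1184633 : W_4 (nat_lit 5) (nat_lit 0x58000e0004000380004000000000000000000) (nat_lit 0x0) (nat_lit 0x8e00060003800000000000000000) := T_4 (nat_lit 90) (nat_lit 111) (nat_lit 3) (nat_lit 5) (nat_lit 5) L1184632 (by decide +kernel)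
theorem L1184634 : W_4 (nat_lit 6) (nat_lit 0x58000e0004000380000000000000000000000) (nat_lit 0x0) (nat_lit 0x9e00060007800000000000000000) := T_4 (nat_lit 74) (nat_lit 108) (nat_lit 7) (nat_lit 6) (nat_lit 4) L1184633 (by decide +kernel)
theorem L1184635 : W_4 (nat_lit 7) (nat_lit 0x18000e0004000380000000000000000000000) (nat_lit 0x0) (nat_lit 0x6000000009e00060007800000000000000000) := T_4 (nat_lit 146) (nat_lit 145) (nat_lit 0) (nat_lit 10) (nat_lit 8) L1184634 (by decide +kernel)
theorem L1184636 : W_4 (nat_lit 8) (nat_lit 0x10000e0004000380000000000000000000000) (nat_lit 0x0) (nat_lit 0x10006800000009e00060007800000000000000000) := T_4 (nat_lit 143) (nat_lit 160) (nat_lit 5) (nat_lit 8) (nat_lit 5) L1184635 (by decide +kernel)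
theorem L1184637 : W_4 (nat_lit 9) (nat_lit 0x10000e0004000300000000000000000000000) (nat_lit 0x0) (nat_lit 0x10006800000019e004e0027800000000000000000) := Q_4 (nat_lit 91) (C_4 L1159123 (C_4 L1159121 (C_4 L1184629 (C_4 L1159115 (C_4 L1184636 N_4))))) (by decide +kernel)
theorem L1184638 : W_4 (nat_lit 10) (nat_lit 0x10000e0004000200000000000000000000000) (nat_lit 0x0) (nat_lit 0x10006800000019e005e002f800000000000000000) := T_4 (nat_lit 92) (nat_lit 75) (nat_lit 4) (nat_lit 8) (nat_lit 8) L1184637 (by decide +kernel)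
theorem L1184639 : W_4 (nat_lit 11) (nat_lit 0x10000c0004000200000000000000000000000) (nat_lit 0x0) (nat_lit 0x10006b80038019e005e002f800000000000000000) := Q_4 (nat_lit 125) (C_4 L488376 (C_4 L1184626 (C_4 L1184638 N_4))) (by decide +kernel)
theorem L1184935 : W_4 (nat_lit 2) (nat_lit 0x10000e00040003e0000000000000000000000) (nat_lit 0x0) (nat_lit 0xe00000000000000000000000000) := D_4 (nat_lit 106) (nat_lit 105) (nat_lit 107) (nat_lit 1) (nat_lit 7) (nat_lit 5) (nat_lit 1) (nat_lit 8) (nat_lit 5) (by decide +kernel)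
theorem L1184936 : W_4 (nat_lit 3) (nat_lit 0x10000e00040003c0000000000000000000000) (nat_lit 0x0) (nat_lit 0x2e00020000000000000000000000) := T_4 (nat_lit 89) (nat_lit 109) (nat_lit 3) (nat_lit 4) (nat_lit 5) L1184935 (by decide +kernel)
theorem L1184937 : W_4 (nat_lit 4) (nat_lit 0x10000e0004000380000000000000000000000) (nat_lit 0x0) (nat_lit 0xae00060000000000000000000000) := T_4 (nat_lit 90) (nat_lit 111) (nat_lit 3) (nat_lit 5) (nat_lit 5) L1184936 (by decide +kernel)
theorem L1185044 : W_4 (nat_lit 2) (nat_lit 0x18000e0004000380000000000000000000000) (nat_lit 0x0) (nat_lit 0x3000000004000000000000000000) := D_4 (nat_lit 74) (nat_lit 109) (nat_lit 108) (nat_lit 4) (nat_lit 7) (nat_lit 8) (nat_lit 7) (nat_lit 6) (nat_lit 4) (by decide +kernel)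
theorem L1185045 : W_4 (nat_lit 3) (nat_lit 0x10000e0004000380000000000000000000000) (nat_lit 0x0) (nat_lit 0x10000800000003000000004000000000000000000) := T_4 (nat_lit 143) (nat_lit 160) (nat_lit 5) (nat_lit 8) (nat_lit 5) L1185044 (by decide +kernel)
theorem L1185046 : W_4 (nat_lit 9) (nat_lit 0x10000e0004000300000000000000000000000) (nat_lit 0x0) (nat_lit 0x1000680000000be000e0007800000000000000000) := Q_4 (nat_lit 91) (C_4 L1184636 (C_4 L1184937 (C_4 L1185045 N_4))) (by decide +kernel)
theorem L1185047 : W_4 (nat_lit 10) (nat_lit 0x10000e0004000200000000000000000000000) (nat_lit 0x0) (nat_lit 0x1000680000000be001e000f800000000000000000) := T_4 (nat_lit 92) (nat_lit 75) (nat_lit 4) (nat_lit 8) (nat_lit 8) L1185046 (by decide +kernel)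
theorem L1185048 : W_4 (nat_lit 11) (nat_lit 0x10000c0004000200000000000000000000000) (nat_lit 0x0) (nat_lit 0x10006b8003800be001e000f800000000000000000) := Q_4 (nat_lit 125) (C_4 L1184626 (C_4 L488376 (C_4 L1185047 N_4))) (by decide +kernel)
theorem L1185049 : W_4 (nat_lit 14) (nat_lit 0x1000080004000200000000000000000000000) (nat_lit 0x0) (nat_lit 0x200038019e00ef8067803be01de00af800700000000000000) := Q_4 (nat_lit 126) (C_4 L1158954 (C_4 L1159152 (C_4 L1178921 (C_4 L1178979 (C_4 L1184614 (C_4 L1184625 (C_4 L1184639 (C_4 L1185048 N_4)))))))) (by decide +kernel)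
theorem L1185050 : W_4 (nat_lit 15) (nat_lit 0x1000080004000000000000000000000000000) (nat_lit 0x0) (nat_lit 0x200038019e00ef8067803be01fe00bf801f00020000000000) := Q_4 (nat_lit 93) (C_4 L1048690 (C_4 L1048870 (C_4 L154 (C_4 L1048585 (C_4 L1185049 N_4))))) (by decide +kernel)
theorem L1185051 : W_4 (nat_lit 2) (nat_lit 0x8001800040002000180008000c000000000000000000000000000) (nat_lit 0x0) (nat_lit 0x1000100000000000010000000000000000000000000000000000000000) := D_4 (nat_lit 212) (nat_lit 228) (nat_lit 160) (nat_lit 5) (nat_lit 8) (nat_lit 9) (nat_lit 4) (nat_lit 8) (nat_lit 12) (by decide +kernel)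
theorem L1185052 : W_4 (nat_lit 3) (nat_lit 0x8001800040002000100008000c000000000000000000000000000) (nat_lit 0x0) (nat_lit 0x1000100000000000010000800040000000000000000000000000000000) := T_4 (nat_lit 143) (nat_lit 126) (nat_lit 4) (nat_lit 8) (nat_lit 11) L1185051 (by decide +kernel)
theorem L1185053 : W_4 (nat_lit 4) (nat_lit 0x1800040002000100008000c000000000000000000000000000) (nat_lit 0x0) (nat_lit 0x1000180004000000010000800040000000000000000000000000000000) := T_4 (nat_lit 211) (nat_lit 194) (nat_lit 5) (nat_lit 8) (nat_lit 8) L1185052 (by decide +kernel)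
theorem L1185054 : W_4 (nat_lit 5) (nat_lit 0x1000040002000100008000c000000000000000000000000000) (nat_lit 0x0) (nat_lit 0x100038000c000000010000800040000000000000000000000000000000) := T_4 (nat_lit 195) (nat_lit 213) (nat_lit 7) (nat_lit 8) (nat_lit 8) L1185053 (by decide +kernel)
theorem L1185055 : W_4 (nat_lit 6) (nat_lit 0x40002000100008000c000000000000000000000000000) (nat_lit 0x0) (nat_lit 0x100038001c000800010000800040000000000000000000000000000000) := T_4 (nat_lit 196) (nat_lit 179) (nat_lit 7) (nat_lit 8) (nat_lit 7) L1185054 (by decide +kernel)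
theorem L1185056 : W_4 (nat_lit 7) (nat_lit 0x400020001000080004000000000000000000000000000) (nat_lit 0x0) (nat_lit 0x100038001c000800010000800040008000400000000000000000000000) := T_4 (nat_lit 111) (nat_lit 94) (nat_lit 6) (nat_lit 8) (nat_lit 9) L1185055 (by decide +kernel)
theorem L1185057 : W_4 (nat_lit 2) (nat_lit 0x18000400030001000080004000000000000000000000000000) (nat_lit 0x0) (nat_lit 0x100000000000000000800040000000000000000000000000000000) := D_4 (nat_lit 143) (nat_lit 212) (nat_lit 126) (nat_lit 4) (nat_lit 8) (nat_lit 12) (nat_lit 4) (nat_lit 8) (nat_lit 11) (by decide +kernel)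
theorem L1185058 : W_4 (nat_lit 3) (nat_lit 0x10000400030001000080004000000000000000000000000000) (nat_lit 0x0) (nat_lit 0x300008000000000000800040000000000000000000000000000000) := T_4 (nat_lit 195) (nat_lit 213) (nat_lit 7) (nat_lit 8) (nat_lit 8) L1185057 (by decide +kernel)
theorem L1185059 : W_4 (nat_lit 4) (nat_lit 0x10000400020001000080004000000000000000000000000000) (nat_lit 0x0) (nat_lit 0x300008000200010000800040000000000000000000000000000000) := T_4 (nat_lit 160) (nat_lit 177) (nat_lit 5) (nat_lit 8) (nat_lit 6) L1185058 (by decide +kernel)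
theorem L1185060 : W_4 (nat_lit 5) (nat_lit 0x400020001000080004000000000000000000000000000) (nat_lit 0x0) (nat_lit 0x300018000a00010000800040000000000000000000000000000000) := T_4 (nat_lit 196) (nat_lit 179) (nat_lit 7) (nat_lit 8) (nat_lit 7) L1185059 (by decide +kernel)
theorem L1185061 : W_4 (nat_lit 8) (nat_lit 0x20001000080004000000000000000000000000000) (nat_lit 0x0) (nat_lit 0x100038001c000e00010000800040008000400000000000000000000000) := Q_4 (nat_lit 178) (C_4 L3804 (C_4 L1185056 (C_4 L3801 (C_4 L1185060 N_4)))) (by decide +kernel)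
theorem L1185065 : W_4 (nat_lit 2) (nat_lit 0x100008000f000000000000000000000000000) (nat_lit 0x0) (nat_lit 0x20000000000000000500000000000000000000000) := D_4 (nat_lit 161) (nat_lit 92) (nat_lit 94) (nat_lit 4) (nat_lit 8) (nat_lit 9) (nat_lit 6) (nat_lit 8) (nat_lit 9) (by decide +kernel)
theorem L1185066 : W_4 (nat_lit 2) (nat_lit 0x100008000f000880000000000000000000000) (nat_lit 0x0) (nat_lit 0x10001100000000000000000000000) := D_4 (nat_lit 112) (nat_lit 96) (nat_lit 92) (nat_lit 2) (nat_lit 7) (nat_lit 6) (nat_lit 0) (nat_lit 10) (nat_lit 6) (by decide +kernel)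
theorem L1185067 : W_4 (nat_lit 3) (nat_lit 0x100008000f000800000000000000000000000) (nat_lit 0x0) (nat_lit 0x100011c0000000000000000000000) := T_4 (nat_lit 91) (nat_lit 90) (nat_lit 0) (nat_lit 9) (nat_lit 6) L1185066 (by decide +kernel)
theorem L1185068 : W_4 (nat_lit 4) (nat_lit 0x100008000f000000000000000000000000000) (nat_lit 0x0) (nat_lit 0x10001dc0000000000000000000000) := T_4 (nat_lit 95) (nat_lit 94) (nat_lit 2) (nat_lit 6) (nat_lit 6) L1185067 (by decide +kernel)
theorem L1185069 : W_4 (nat_lit 2) (nat_lit 0x100008000f000000000000000000000000000) (nat_lit 0x0) (nat_lit 0x20000000000000000c00000000000000000000000) := D_4 (nat_lit 94) (nat_lit 95) (nat_lit 161) (nat_lit 2) (nat_lit 6) (nat_lit 6) (nat_lit 6) (nat_lit 8) (nat_lit 9) (by decide +kernel)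
theorem L1185070 : W_4 (nat_lit 2) (nat_lit 0x100008000f000100000000000000000000000) (nat_lit 0x0) (nat_lit 0x100000c0000000000000000000000) := D_4 (nat_lit 91) (nat_lit 90) (nat_lit 112) (nat_lit 0) (nat_lit 9) (nat_lit 6) (nat_lit 0) (nat_lit 10) (nat_lit 6) (by decide +kernel)
theorem L1185071 : W_4 (nat_lit 3) (nat_lit 0x100008000f000000000000000000000000000) (nat_lit 0x0) (nat_lit 0x200000000000100001c0000000000000000000000) := T_4 (nat_lit 92) (nat_lit 161) (nat_lit 4) (nat_lit 8) (nat_lit 9) L1185070 (by decide +kernel)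
theorem L1185072 : W_4 (nat_lit 5) (nat_lit 0x1000080007000000000000000000000000000) (nat_lit 0x0) (nat_lit 0x20000000000018001dc0000000000000000000000) := Q_4 (nat_lit 111) (C_4 L1185065 (C_4 L1185068 (C_4 L1185069 (C_4 L1185071 N_4)))) (by decide +kernel)
theorem L1185073 : W_4 (nat_lit 2) (nat_lit 0x100008000f800440000000000000000000000) (nat_lit 0x0) (nat_lit 0x38000000000000000000000000000000) := D_4 (nat_lit 124) (nat_lit 125) (nat_lit 123) (nat_lit 1) (nat_lit 9) (nat_lit 6) (nat_lit 1) (nat_lit 8) (nat_lit 6) (by decide +kernel)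
theorem L1185074 : W_4 (nat_lit 3) (nat_lit 0x100008000f000440000000000000000000000) (nat_lit 0x0) (nat_lit 0x38000800020000000000000000000000) := T_4 (nat_lit 107) (nat_lit 89) (nat_lit 0) (nat_lit 8) (nat_lit 6) L1185073 (by decide +kernel)
theorem L1185075 : W_4 (nat_lit 4) (nat_lit 0x100008000f000040000000000000000000000) (nat_lit 0x0) (nat_lit 0x38000800c20000000000000000000000) := T_4 (nat_lit 94) (nat_lit 95) (nat_lit 2) (nat_lit 6) (nat_lit 6) L1185074 (by decide +kernel)
theorem L1185076 : W_4 (nat_lit 5) (nat_lit 0x100008000f000000000000000000000000000) (nat_lit 0x0) (nat_lit 0x38000800ce0000000000000000000000) := T_4 (nat_lit 90) (nat_lit 91) (nat_lit 0) (nat_lit 9) (nat_lit 6) L1185075 (by decide +kernel)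
theorem L1185173 : W_4 (nat_lit 2) (nat_lit 0x10000b0007800040000000000000000000000) (nat_lit 0x0) (nat_lit 0x8000400000000000000002000000000000000000) := D_4 (nat_lit 142) (nat_lit 159) (nat_lit 73) (nat_lit 4) (nat_lit 6) (nat_lit 9) (nat_lit 7) (nat_lit 5) (nat_lit 4) (by decide +kernel)
theorem L1185174 : W_4 (nat_lit 3) (nat_lit 0x1000090007800040000000000000000000000) (nat_lit 0x0) (nat_lit 0x8000400020008000000002000000000000000000) := T_4 (nat_lit 125) (nat_lit 111) (nat_lit 1) (nat_lit 9) (nat_lit 6) L1185173 (by decide +kernel)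
theorem L1185175 : W_4 (nat_lit 4) (nat_lit 0x1000080007800040000000000000000000000) (nat_lit 0x0) (nat_lit 0x8000400038008000000002000000000000000000) := T_4 (nat_lit 124) (nat_lit 123) (nat_lit 1) (nat_lit 8) (nat_lit 6) L1185174 (by decide +kernel)
theorem L1185176 : W_4 (nat_lit 5) (nat_lit 0x1000080007800000000000000000000000000) (nat_lit 0x0) (nat_lit 0x8000400038008000060002000000000000000000) := T_4 (nat_lit 90) (nat_lit 89) (nat_lit 0) (nat_lit 8) (nat_lit 6) L1185175 (by decide +kernel)
theorem L1185177 : W_4 (nat_lit 2) (nat_lit 0x1000088007800020000000000000000000000) (nat_lit 0x0) (nat_lit 0x4000400010000000000000000000000) := D_4 (nat_lit 106) (nat_lit 122) (nat_lit 88) (nat_lit 1) (nat_lit 7) (nat_lit 6) (nat_lit 0) (nat_lit 7) (nat_lit 6) (by decide +kernel)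
theorem L1185178 : W_4 (nat_lit 3) (nat_lit 0x1000088007800000000000000000000000000) (nat_lit 0x0) (nat_lit 0x4000400070000000000000000000000) := T_4 (nat_lit 89) (nat_lit 90) (nat_lit 0) (nat_lit 8) (nat_lit 6) L1185177 (by decide +kernel)
theorem L1185179 : W_4 (nat_lit 4) (nat_lit 0x1000080007800000000000000000000000000) (nat_lit 0x0) (nat_lit 0x1c000400070000000000000000000000) := T_4 (nat_lit 123) (nat_lit 124) (nat_lit 1) (nat_lit 8) (nat_lit 6) L1185178 (by decide +kernel)
theorem L1185180 : W_4 (nat_lit 2) (nat_lit 0x1000080007c00000000000000000000000000) (nat_lit 0x0) (nat_lit 0x70000000000000000000000) := D_4 (nat_lit 89) (nat_lit 90) (nat_lit 88) (nat_lit 0) (nat_lit 8) (nat_lit 6) (nat_lit 0) (nat_lit 7) (nat_lit 6) (by decide +kernel)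
theorem L1185181 : W_4 (nat_lit 2) (nat_lit 0x1000084007c00010000000000000000000000) (nat_lit 0x0) (nat_lit 0x2000200008000000000000000000000) := D_4 (nat_lit 105) (nat_lit 121) (nat_lit 87) (nat_lit 1) (nat_lit 6) (nat_lit 6) (nat_lit 0) (nat_lit 6) (nat_lit 6) (by decide +kernel)
theorem L1185182 : W_4 (nat_lit 3) (nat_lit 0x1000084007c00000000000000000000000000) (nat_lit 0x0) (nat_lit 0x2000200038000000000000000000000) := T_4 (nat_lit 88) (nat_lit 89) (nat_lit 0) (nat_lit 7) (nat_lit 6) L1185181 (by decide +kernel)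
theorem L1185183 : W_4 (nat_lit 4) (nat_lit 0x1000080007c00000000000000000000000000) (nat_lit 0x0) (nat_lit 0xe000200038000000000000000000000) := T_4 (nat_lit 122) (nat_lit 123) (nat_lit 1) (nat_lit 7) (nat_lit 6) L1185182 (by decide +kernel)
theorem L1185184 : W_4 (nat_lit 2) (nat_lit 0x1000084007e00090000000000000000000000) (nat_lit 0x0) (nat_lit 0x8100040000000000000000000000) := D_4 (nat_lit 90) (nat_lit 104) (nat_lit 111) (nat_lit 2) (nat_lit 2) (nat_lit 6) (nat_lit 0) (nat_lit 9) (nat_lit 6) (by decide +kernel)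
theorem L1185185 : W_4 (nat_lit 3) (nat_lit 0x1000084007e00010000000000000000000000) (nat_lit 0x0) (nat_lit 0x81001c0000000000000000000000) := T_4 (nat_lit 91) (nat_lit 92) (nat_lit 2) (nat_lit 3) (nat_lit 6) L1185184 (by decide +kernel)
theorem L1185186 : W_4 (nat_lit 4) (nat_lit 0x1000084007e00000000000000000000000000) (nat_lit 0x0) (nat_lit 0x81001d8000000000000000000000) := T_4 (nat_lit 88) (nat_lit 87) (nat_lit 0) (nat_lit 6) (nat_lit 6) L1185185 (by decide +kernel)
theorem L1185187 : W_4 (nat_lit 5) (nat_lit 0x1000084007c00000000000000000000000000) (nat_lit 0x0) (nat_lit 0x20083001d8000000000000000000000) := T_4 (nat_lit 105) (nat_lit 121) (nat_lit 1) (nat_lit 6) (nat_lit 6) L1185186 (by decide +kernel)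
theorem L1185188 : W_4 (nat_lit 6) (nat_lit 0x1000080007c00000000000000000000000000) (nat_lit 0x0) (nat_lit 0xe0083001d8000000000000000000000) := T_4 (nat_lit 122) (nat_lit 123) (nat_lit 1) (nat_lit 7) (nat_lit 6) L1185187 (by decide +kernel)
theorem L1185189 : W_4 (nat_lit 2) (nat_lit 0x1000088007c000c0000000000000000000000) (nat_lit 0x0) (nat_lit 0x300100000000000000000000000) := D_4 (nat_lit 105) (nat_lit 104) (nat_lit 92) (nat_lit 2) (nat_lit 2) (nat_lit 6) (nat_lit 2) (nat_lit 3) (nat_lit 6) (by decide +kernel)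
theorem L1185190 : W_4 (nat_lit 3) (nat_lit 0x1000088007c00040000000000000000000000) (nat_lit 0x0) (nat_lit 0x8300180000000000000000000000) := T_4 (nat_lit 91) (nat_lit 111) (nat_lit 0) (nat_lit 9) (nat_lit 6) L1185189 (by decide +kernel)
theorem L1185191 : W_4 (nat_lit 4) (nat_lit 0x1000088007c00000000000000000000000000) (nat_lit 0x0) (nat_lit 0x83001e0000000000000000000000) := T_4 (nat_lit 90) (nat_lit 89) (nat_lit 0) (nat_lit 8) (nat_lit 6) L1185190 (by decide +kernel)
theorem L1185192 : W_4 (nat_lit 5) (nat_lit 0x1000080007c00000000000000000000000000) (nat_lit 0x0) (nat_lit 0xc0083001e0000000000000000000000) := T_4 (nat_lit 123) (nat_lit 122) (nat_lit 1) (nat_lit 7) (nat_lit 6) L1185191 (by decide +kernel)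
theorem L1185193 : W_4 (nat_lit 7) (nat_lit 0x1000080007800000000000000000000000000) (nat_lit 0x0) (nat_lit 0xe0087001f8000000000000000000000) := Q_4 (nat_lit 106) (C_4 L1185180 (C_4 L1185183 (C_4 L1185188 (C_4 L1185192 N_4)))) (by decide +kernel)
theorem L1185270 : W_4 (nat_lit 2) (nat_lit 0x14000a0007800040000000000000000000000) (nat_lit 0x0) (nat_lit 0x80002000100000000000000) := D_4 (nat_lit 73) (nat_lit 56) (nat_lit 91) (nat_lit 7) (nat_lit 5) (nat_lit 3) (nat_lit 4) (nat_lit 6) (nat_lit 8) (by decide +kernel)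
theorem L1185271 : W_4 (nat_lit 3) (nat_lit 0x10000a0007800040000000000000000000000) (nat_lit 0x0) (nat_lit 0x8000400000000000080002000100000000000000) := T_4 (nat_lit 142) (nat_lit 159) (nat_lit 4) (nat_lit 6) (nat_lit 9) L1185270 (by decide +kernel)
theorem L1185272 : W_4 (nat_lit 4) (nat_lit 0x10000a0007800000000000000000000000000) (nat_lit 0x0) (nat_lit 0x80004000000000000e0002000100000000000000) := T_4 (nat_lit 90) (nat_lit 89) (nat_lit 0) (nat_lit 8) (nat_lit 6) L1185271 (by decide +kernel)
theorem L1185306 : W_4 (nat_lit 2) (nat_lit 0x10000a0007800100008000000000000000000) (nat_lit 0x0) (nat_lit 0x8000400000000000080000000000000000000000) := D_4 (nat_lit 142) (nat_lit 159) (nat_lit 91) (nat_lit 6) (nat_lit 6) (nat_lit 9) (nat_lit 6) (nat_lit 6) (nat_lit 8) (by decide +kernel)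
theorem L1185307 : W_4 (nat_lit 3) (nat_lit 0x10000a0007800100000000000000000000000) (nat_lit 0x0) (nat_lit 0x8000400000000000080008000400000000000000) := T_4 (nat_lit 75) (nat_lit 58) (nat_lit 7) (nat_lit 7) (nat_lit 3) L1185306 (by decide +kernel)
theorem L1185355 : W_4 (nat_lit 2) (nat_lit 0x6001a00090007800000000000000000000000000) (nat_lit 0x0) (nat_lit 0x100018000000000000000000000000000000000000000) := D_4 (nat_lit 159) (nat_lit 176) (nat_lit 160) (nat_lit 7) (nat_lit 5) (nat_lit 6) (nat_lit 2) (nat_lit 4) (nat_lit 9) (by decide +kernel)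
theorem L1185356 : W_4 (nat_lit 3) (nat_lit 0x6001200090007800000000000000000000000000) (nat_lit 0x0) (nat_lit 0x100018000c00000000000000000000000000000000000) := T_4 (nat_lit 143) (nat_lit 142) (nat_lit 1) (nat_lit 8) (nat_lit 8) L1185355 (by decide +kernel)
theorem L1185357 : W_4 (nat_lit 4) (nat_lit 0x4001200090007800000000000000000000000000) (nat_lit 0x0) (nat_lit 0x14001a000c00000000000000000000000000000000000) := T_4 (nat_lit 157) (nat_lit 174) (nat_lit 5) (nat_lit 5) (nat_lit 6) L1185356 (by decide +kernel)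
theorem L1185358 : W_4 (nat_lit 5) (nat_lit 0x4001000090007800000000000000000000000000) (nat_lit 0x0) (nat_lit 0x14001a000e00000000000080000000000000000000000) := T_4 (nat_lit 141) (nat_lit 91) (nat_lit 6) (nat_lit 5) (nat_lit 9) L1185357 (by decide +kernel)
theorem L1185374 : W_4 (nat_lit 5) (nat_lit 0x1000080007000040000000000000000000000) (nat_lit 0x0) (nat_lit 0x8000400038008800020002000000000000000000) := T_4 (nat_lit 107) (nat_lit 89) (nat_lit 0) (nat_lit 8) (nat_lit 6) L1185175 (by decide +kernel)
theorem L1185375 : W_4 (nat_lit 3) (nat_lit 0x1000080007800040000000000000000000000) (nat_lit 0x0) (nat_lit 0x38008000080000000000000000000000) := T_4 (nat_lit 111) (nat_lit 91) (nat_lit 0) (nat_lit 9) (nat_lit 6) L1185137 (by decide +kernel)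
theorem L1185376 : W_4 (nat_lit 4) (nat_lit 0x1000080007000040000000000000000000000) (nat_lit 0x0) (nat_lit 0x380088000a0000000000000000000000) := T_4 (nat_lit 107) (nat_lit 89) (nat_lit 0) (nat_lit 8) (nat_lit 6) L1185375 (by decide +kernel)
theorem L1185377 : W_4 (nat_lit 2) (nat_lit 0x1000080007000060000000000000000000000) (nat_lit 0x0) (nat_lit 0x190000000000000000000000) := D_4 (nat_lit 91) (nat_lit 88) (nat_lit 92) (nat_lit 3) (nat_lit 3) (nat_lit 5) (nat_lit 3) (nat_lit 4) (nat_lit 5) (by decide +kernel)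
theorem L1185378 : W_4 (nat_lit 3) (nat_lit 0x1000080007000040000000000000000000000) (nat_lit 0x0) (nat_lit 0x8001b0000000000000000000000) := T_4 (nat_lit 89) (nat_lit 107) (nat_lit 0) (nat_lit 8) (nat_lit 6) L1185377 (by decide +kernel)
theorem L1185379 : W_4 (nat_lit 2) (nat_lit 0x10000800070000c0000000000000000000000) (nat_lit 0x0) (nat_lit 0x130000000000000000000000) := D_4 (nat_lit 89) (nat_lit 88) (nat_lit 92) (nat_lit 3) (nat_lit 3) (nat_lit 5) (nat_lit 3) (nat_lit 4) (nat_lit 5) (by decide +kernel)
theorem L1185380 : W_4 (nat_lit 3) (nat_lit 0x1000080007000040000000000000000000000) (nat_lit 0x0) (nat_lit 0x80001b0000000000000000000000) := T_4 (nat_lit 91) (nat_lit 111) (nat_lit 0) (nat_lit 9) (nat_lit 6) L1185379 (by decide +kernel)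
theorem L1185381 : W_4 (nat_lit 2) (nat_lit 0x10000a0007000040000000000000000000000) (nat_lit 0x0) (nat_lit 0x10008000080000000000000000000000) := D_4 (nat_lit 111) (nat_lit 91) (nat_lit 124) (nat_lit 0) (nat_lit 9) (nat_lit 6) (nat_lit 1) (nat_lit 9) (nat_lit 6) (by decide +kernel)
theorem L1185382 : W_4 (nat_lit 2) (nat_lit 0x14000a00070000c0000000000000000000000) (nat_lit 0x0) (nat_lit 0x8000000000000800100000000000000000000000) := D_4 (nat_lit 159) (nat_lit 107) (nat_lit 92) (nat_lit 4) (nat_lit 6) (nat_lit 9) (nat_lit 6) (nat_lit 6) (nat_lit 9) (by decide +kernel)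
theorem L1185383 : W_4 (nat_lit 3) (nat_lit 0x10000a00070000c0000000000000000000000) (nat_lit 0x0) (nat_lit 0x8000400000000800100002000000000000000000) := T_4 (nat_lit 142) (nat_lit 73) (nat_lit 4) (nat_lit 6) (nat_lit 8) L1185382 (by decide +kernel)
theorem L1185384 : W_4 (nat_lit 4) (nat_lit 0x10000a0007000040000000000000000000000) (nat_lit 0x0) (nat_lit 0x8000400000008800180002000000000000000000) := T_4 (nat_lit 91) (nat_lit 111) (nat_lit 0) (nat_lit 9) (nat_lit 6) L1185383 (by decide +kernel)
theorem L1185385 : W_4 (nat_lit 2) (nat_lit 0x14000a0007000040000000000000000000000) (nat_lit 0x0) (nat_lit 0x8000000000000800100000000000000000000000) := D_4 (nat_lit 159) (nat_lit 107) (nat_lit 92) (nat_lit 4) (nat_lit 6) (nat_lit 9) (nat_lit 6) (nat_lit 6) (nat_lit 9) (by decide +kernel)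
theorem L1185386 : W_4 (nat_lit 2) (nat_lit 0x16000a00070000c0004000000000000000000) (nat_lit 0x0) (nat_lit 0x100008000400000000000000) := D_4 (nat_lit 75) (nat_lit 92) (nat_lit 58) (nat_lit 6) (nat_lit 6) (nat_lit 8) (nat_lit 6) (nat_lit 6) (nat_lit 7) (by decide +kernel)
theorem L1185387 : W_4 (nat_lit 3) (nat_lit 0x16000a00070000c0000000000000000000000) (nat_lit 0x0) (nat_lit 0x1000000010000c000400000000000000) := T_4 (nat_lit 74) (nat_lit 124) (nat_lit 5) (nat_lit 6) (nat_lit 4) L1185386 (by decide +kernel)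
theorem L1185388 : W_4 (nat_lit 4) (nat_lit 0x14000a00070000c0000000000000000000000) (nat_lit 0x0) (nat_lit 0x400020001000000010000c000400000000000000) := T_4 (nat_lit 141) (nat_lit 158) (nat_lit 5) (nat_lit 6) (nat_lit 5) L1185387 (by decide +kernel)
theorem L1185389 : W_4 (nat_lit 5) (nat_lit 0x14000a0007000040000000000000000000000) (nat_lit 0x0) (nat_lit 0x400020001000000018000e000400000000000000) := T_4 (nat_lit 91) (nat_lit 73) (nat_lit 4) (nat_lit 6) (nat_lit 8) L1185388 (by decide +kernel)
theorem L1185390 : W_4 (nat_lit 2) (nat_lit 0x80014000a00070000c0000000000000000000000) (nat_lit 0x0) (nat_lit 0x200010000800000000000000000000000000000000000) := D_4 (nat_lit 160) (nat_lit 143) (nat_lit 177) (nat_lit 7) (nat_lit 6) (nat_lit 5) (nat_lit 7) (nat_lit 6) (nat_lit 6) (by decide +kernel)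
theorem L1185391 : W_4 (nat_lit 3) (nat_lit 0x14000a00070000c0000000000000000000000) (nat_lit 0x0) (nat_lit 0x200018000800000000800000000000000000000000000) := T_4 (nat_lit 159) (nat_lit 107) (nat_lit 4) (nat_lit 6) (nat_lit 9) L1185390 (by decide +kernel)
theorem L1185392 : W_4 (nat_lit 4) (nat_lit 0x14000a0007000040000000000000000000000) (nat_lit 0x0) (nat_lit 0x200018000800000000800080002000000000000000000) := T_4 (nat_lit 91) (nat_lit 73) (nat_lit 4) (nat_lit 6) (nat_lit 8) L1185391 (by decide +kernel)
theorem L1185393 : W_4 (nat_lit 6) (nat_lit 0x10000a0007000040000000000000000000000) (nat_lit 0x0) (nat_lit 0x20001c000e0001000080018000e000400000000000000) := Q_4 (nat_lit 142) (C_4 L1185385 (C_4 L1185389 (C_4 L1185392 N_4))) (by decide +kernel)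
theorem L1185394 : W_4 (nat_lit 2) (nat_lit 0x10000b0007000040000000000000000000000) (nat_lit 0x0) (nat_lit 0xc000800000000000000000000000000) := D_4 (nat_lit 123) (nat_lit 107) (nat_lit 122) (nat_lit 1) (nat_lit 8) (nat_lit 6) (nat_lit 2) (nat_lit 3) (nat_lit 7) (by decide +kernel)
theorem L1185395 : W_4 (nat_lit 3) (nat_lit 0x10000a0007000040000000000000000000000) (nat_lit 0x0) (nat_lit 0x1c008800000000000000000000000000) := T_4 (nat_lit 124) (nat_lit 111) (nat_lit 1) (nat_lit 9) (nat_lit 6) L1185394 (by decide +kernel)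
theorem L1185396 : W_4 (nat_lit 7) (nat_lit 0x1000080007000040000000000000000000000) (nat_lit 0x0) (nat_lit 0x20001c000e0003c00880018000e000400000000000000) := Q_4 (nat_lit 125) (C_4 L1185381 (C_4 L1185384 (C_4 L1185393 (C_4 L1185395 N_4)))) (by decide +kernel)
theorem L1185397 : W_4 (nat_lit 8) (nat_lit 0x1000080007000000000000000000000000000) (nat_lit 0x0) (nat_lit 0x20001c000e0003c0088001f000e000400000000000000) := Q_4 (nat_lit 90) (C_4 L1185374 (C_4 L1185376 (C_4 L1185378 (C_4 L1185380 (C_4 L1185396 N_4))))) (by decide +kernel)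
theorem L1185398 : W_4 (nat_lit 2) (nat_lit 0x1000088007c00110000000400000000000000) (nat_lit 0x0) (nat_lit 0x200088000000000000000000000) := D_4 (nat_lit 105) (nat_lit 91) (nat_lit 87) (nat_lit 2) (nat_lit 3) (nat_lit 6) (nat_lit 0) (nat_lit 6) (nat_lit 6) (by decide +kernel)
theorem L1185399 : W_4 (nat_lit 3) (nat_lit 0x1000088007c00100000000400000000000000) (nat_lit 0x0) (nat_lit 0x2000b8000000000000000000000) := T_4 (nat_lit 88) (nat_lit 89) (nat_lit 0) (nat_lit 7) (nat_lit 6) L1185398 (by decide +kernel)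
theorem L1185400 : W_4 (nat_lit 4) (nat_lit 0x1000088007800100000000400000000000000) (nat_lit 0x0) (nat_lit 0x40006000b8000000000000000000000) := T_4 (nat_lit 106) (nat_lit 122) (nat_lit 1) (nat_lit 7) (nat_lit 6) L1185399 (by decide +kernel)
theorem L1185401 : W_4 (nat_lit 5) (nat_lit 0x1000088007800100000000000000000000000) (nat_lit 0x0) (nat_lit 0x40006000b8008000400000000000000) := T_4 (nat_lit 58) (nat_lit 75) (nat_lit 7) (nat_lit 7) (nat_lit 3) L1185400 (by decide +kernel)
theorem L1185402 : W_4 (nat_lit 6) (nat_lit 0x1000080007800100000000000000000000000) (nat_lit 0x0) (nat_lit 0x1c0006000b8008000400000000000000) := T_4 (nat_lit 123) (nat_lit 124) (nat_lit 1) (nat_lit 8) (nat_lit 6) L1185401 (by decide +kernel)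
theorem L1185403 : W_4 (nat_lit 7) (nat_lit 0x1000080007800000000000000000000000000) (nat_lit 0x0) (nat_lit 0x2000000001c0006001b8008000400000000000000) := T_4 (nat_lit 92) (nat_lit 161) (nat_lit 4) (nat_lit 8) (nat_lit 9) L1185402 (by decide +kernel)
theorem L1185404 : W_4 (nat_lit 2) (nat_lit 0x1000084007c00120000000400000000000000) (nat_lit 0x0) (nat_lit 0x2000200080000000000000000000000) := D_4 (nat_lit 105) (nat_lit 91) (nat_lit 121) (nat_lit 2) (nat_lit 3) (nat_lit 6) (nat_lit 1) (nat_lit 6) (nat_lit 6) (by decide +kernel)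
theorem L1185405 : W_4 (nat_lit 3) (nat_lit 0x1000080007c00120000000400000000000000) (nat_lit 0x0) (nat_lit 0xe000200080000000000000000000000) := T_4 (nat_lit 122) (nat_lit 123) (nat_lit 1) (nat_lit 7) (nat_lit 6) L1185404 (by decide +kernel)
theorem L1185406 : W_4 (nat_lit 4) (nat_lit 0x1000080007800120000000400000000000000) (nat_lit 0x0) (nat_lit 0xe000600090000000000000000000000) := T_4 (nat_lit 106) (nat_lit 88) (nat_lit 0) (nat_lit 7) (nat_lit 6) L1185405 (by decide +kernel)
theorem L1185407 : W_4 (nat_lit 5) (nat_lit 0x1000080007800120000000000000000000000) (nat_lit 0x0) (nat_lit 0xe000600090008000400000000000000) := T_4 (nat_lit 58) (nat_lit 75) (nat_lit 7) (nat_lit 7) (nat_lit 3) L1185406 (by decide +kernel)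
theorem L1185408 : W_4 (nat_lit 6) (nat_lit 0x1000080007800100000000000000000000000) (nat_lit 0x0) (nat_lit 0xe0006000f0008000400000000000000) := T_4 (nat_lit 89) (nat_lit 90) (nat_lit 0) (nat_lit 8) (nat_lit 6) L1185407 (by decide +kernel)
theorem L1185409 : W_4 (nat_lit 7) (nat_lit 0x1000080007800000000000000000000000000) (nat_lit 0x0) (nat_lit 0x2000000000e0006001f0008000400000000000000) := T_4 (nat_lit 92) (nat_lit 161) (nat_lit 4) (nat_lit 8) (nat_lit 9) L1185408 (by decide +kernel)
theorem L1185410 : W_4 (nat_lit 2) (nat_lit 0x1000080007c00110000000000000000000000) (nat_lit 0x0) (nat_lit 0x200088000000000000000000000) := D_4 (nat_lit 105) (nat_lit 87) (nat_lit 91) (nat_lit 0) (nat_lit 6) (nat_lit 6) (nat_lit 2) (nat_lit 3) (nat_lit 6) (by decide +kernel)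
theorem L1185411 : W_4 (nat_lit 3) (nat_lit 0x1000080007c00010000000000000000000000) (nat_lit 0x0) (nat_lit 0x20000000000000200188000000000000000000000) := T_4 (nat_lit 92) (nat_lit 161) (nat_lit 4) (nat_lit 8) (nat_lit 9) L1185410 (by decide +kernel)
theorem L1185412 : W_4 (nat_lit 4) (nat_lit 0x1000080007c00000000000000000000000000) (nat_lit 0x0) (nat_lit 0x200000000000002001b8000000000000000000000) := T_4 (nat_lit 88) (nat_lit 89) (nat_lit 0) (nat_lit 7) (nat_lit 6) L1185411 (by decide +kernel)
theorem L1185413 : W_4 (nat_lit 2) (nat_lit 0x1000082007e00108000000000000000000000) (nat_lit 0x0) (nat_lit 0x1000100004000000000000000000000) := D_4 (nat_lit 104) (nat_lit 120) (nat_lit 86) (nat_lit 1) (nat_lit 5) (nat_lit 6) (nat_lit 0) (nat_lit 5) (nat_lit 6) (by decide +kernel)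
theorem L1185414 : W_4 (nat_lit 3) (nat_lit 0x1000082007e00100000000000000000000000) (nat_lit 0x0) (nat_lit 0x100010001c000000000000000000000) := T_4 (nat_lit 87) (nat_lit 88) (nat_lit 0) (nat_lit 6) (nat_lit 6) L1185413 (by decide +kernel)
theorem L1185415 : W_4 (nat_lit 4) (nat_lit 0x1000080007e00100000000000000000000000) (nat_lit 0x0) (nat_lit 0x700010001c000000000000000000000) := T_4 (nat_lit 121) (nat_lit 122) (nat_lit 1) (nat_lit 6) (nat_lit 6) L1185414 (by decide +kernel)
theorem L1185416 : W_4 (nat_lit 5) (nat_lit 0x1000080007c00100000000000000000000000) (nat_lit 0x0) (nat_lit 0x700030009c000000000000000000000) := T_4 (nat_lit 105) (nat_lit 91) (nat_lit 2) (nat_lit 3) (nat_lit 6) L1185415 (by decide +kernel)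
theorem L1185417 : W_4 (nat_lit 6) (nat_lit 0x1000080007c00000000000000000000000000) (nat_lit 0x0) (nat_lit 0x2000000000700030019c000000000000000000000) := T_4 (nat_lit 92) (nat_lit 161) (nat_lit 4) (nat_lit 8) (nat_lit 9) L1185416 (by decide +kernel)
theorem L1185418 : W_4 (nat_lit 2) (nat_lit 0x1000080007e00000000000000000000000000) (nat_lit 0x0) (nat_lit 0x20000000000000000180000000000000000000000) := D_4 (nat_lit 92) (nat_lit 161) (nat_lit 91) (nat_lit 4) (nat_lit 8) (nat_lit 9) (nat_lit 2) (nat_lit 3) (nat_lit 6) (by decide +kernel)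
theorem L1185419 : W_4 (nat_lit 2) (nat_lit 0x1000080007e00080000000000000000000000) (nat_lit 0x0) (nat_lit 0x100060000000000000000000000) := D_4 (nat_lit 90) (nat_lit 104) (nat_lit 89) (nat_lit 2) (nat_lit 2) (nat_lit 6) (nat_lit 0) (nat_lit 8) (nat_lit 6) (by decide +kernel)
theorem L1185420 : W_4 (nat_lit 3) (nat_lit 0x1000080007e00000000000000000000000000) (nat_lit 0x0) (nat_lit 0x1001e0000000000000000000000) := T_4 (nat_lit 91) (nat_lit 92) (nat_lit 2) (nat_lit 3) (nat_lit 6) L1185419 (by decide +kernel)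
theorem L1185421 : W_4 (nat_lit 2) (nat_lit 0x1000082007e00040000000000000000000000) (nat_lit 0x0) (nat_lit 0x1000100080000000000000000000000) := D_4 (nat_lit 104) (nat_lit 120) (nat_lit 91) (nat_lit 1) (nat_lit 5) (nat_lit 6) (nat_lit 2) (nat_lit 2) (nat_lit 6) (by decide +kernel)
theorem L1185422 : W_4 (nat_lit 3) (nat_lit 0x1000082007e00000000000000000000000000) (nat_lit 0x0) (nat_lit 0x10001000e0000000000000000000000) := T_4 (nat_lit 90) (nat_lit 89) (nat_lit 0) (nat_lit 8) (nat_lit 6) L1185421 (by decide +kernel)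
theorem L1185423 : W_4 (nat_lit 4) (nat_lit 0x1000080007e00000000000000000000000000) (nat_lit 0x0) (nat_lit 0x70001000e0000000000000000000000) := T_4 (nat_lit 121) (nat_lit 122) (nat_lit 1) (nat_lit 6) (nat_lit 6) L1185422 (by decide +kernel)
theorem L1185424 : W_4 (nat_lit 2) (nat_lit 0x3e0010000a2007f00048000000000000000000000) (nat_lit 0x0) (nat_lit 0xe0000000000000000000000000000000000000000000) := D_4 (nat_lit 174) (nat_lit 173) (nat_lit 175) (nat_lit 1) (nat_lit 7) (nat_lit 9) (nat_lit 1) (nat_lit 8) (nat_lit 9) (by decide +kernel)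
theorem L1185425 : W_4 (nat_lit 3) (nat_lit 0x3c0010000a2007f00048000000000000000000000) (nat_lit 0x0) (nat_lit 0xe0002000800000000000000000000000000000000000) := T_4 (nat_lit 157) (nat_lit 143) (nat_lit 2) (nat_lit 4) (nat_lit 9) L1185424 (by decide +kernel)
theorem L1185426 : W_4 (nat_lit 4) (nat_lit 0x380010000a2007f00048000000000000000000000) (nat_lit 0x0) (nat_lit 0xe0006002800000000000000000000000000000000000) := T_4 (nat_lit 158) (nat_lit 145) (nat_lit 2) (nat_lit 5) (nat_lit 9) L1185425 (by decide +kernel)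
theorem L1185427 : W_4 (nat_lit 5) (nat_lit 0x300010000a2007f00048000000000000000000000) (nat_lit 0x0) (nat_lit 0xe000e002c00000000000000000000000000000000000) := T_4 (nat_lit 159) (nat_lit 142) (nat_lit 4) (nat_lit 6) (nat_lit 9) L1185426 (by decide +kernel)
theorem L1185428 : W_4 (nat_lit 6) (nat_lit 0x30001000082007f00048000000000000000000000) (nat_lit 0x0) (nat_lit 0xe000e002c00030000000000000000000000000000000) := T_4 (nat_lit 125) (nat_lit 124) (nat_lit 3) (nat_lit 2) (nat_lit 6) L1185427 (by decide +kernel)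
theorem L1185429 : W_4 (nat_lit 7) (nat_lit 0x30001000082007f00040000000000000000000000) (nat_lit 0x0) (nat_lit 0xe000e002c0003000000000c000000000000000000000) := T_4 (nat_lit 87) (nat_lit 86) (nat_lit 0) (nat_lit 5) (nat_lit 6) L1185428 (by decide +kernel)
theorem L1185430 : W_4 (nat_lit 8) (nat_lit 0x30001000082007e00040000000000000000000000) (nat_lit 0x0) (nat_lit 0xe000e002c0003100010000c000000000000000000000) := T_4 (nat_lit 104) (nat_lit 120) (nat_lit 1) (nat_lit 5) (nat_lit 6) L1185429 (by decide +kernel)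
theorem L1185431 : W_4 (nat_lit 9) (nat_lit 0x20001000082007e00040000000000000000000000) (nat_lit 0x0) (nat_lit 0x2e001e002c0003100010000c000000000000000000000) := T_4 (nat_lit 160) (nat_lit 177) (nat_lit 5) (nat_lit 8) (nat_lit 6) L1185430 (by decide +kernel)
theorem L1185432 : W_4 (nat_lit 10) (nat_lit 0x20001000080007e00040000000000000000000000) (nat_lit 0x0) (nat_lit 0x2e001e002c0003700010000c000000000000000000000) := T_4 (nat_lit 121) (nat_lit 122) (nat_lit 1) (nat_lit 6) (nat_lit 6) L1185431 (by decide +kernel)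
theorem L1185433 : W_4 (nat_lit 11) (nat_lit 0x1000080007e00040000000000000000000000) (nat_lit 0x0) (nat_lit 0x2e003e002c0003700010010c000000000000000000000) := T_4 (nat_lit 161) (nat_lit 92) (nat_lit 4) (nat_lit 8) (nat_lit 9) L1185432 (by decide +kernel)
theorem L1185434 : W_4 (nat_lit 12) (nat_lit 0x1000080007e00000000000000000000000000) (nat_lit 0x0) (nat_lit 0x2e003e002c0003700010016c000000000000000000000) := T_4 (nat_lit 90) (nat_lit 89) (nat_lit 0) (nat_lit 8) (nat_lit 6) L1185433 (by decide +kernel)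
theorem L1185435 : W_4 (nat_lit 13) (nat_lit 0x1000080007c00000000000000000000000000) (nat_lit 0x0) (nat_lit 0x2e003e002c000370003001ec000000000000000000000) := Q_4 (nat_lit 105) (C_4 L1185418 (C_4 L1185420 (C_4 L1185423 (C_4 L1185434 N_4)))) (by decide +kernel)
theorem L1185436 : W_4 (nat_lit 14) (nat_lit 0x1000080007800000000000000000000000000) (nat_lit 0x0) (nat_lit 0x2e003e002c000370007001fc000000000000000000000) := Q_4 (nat_lit 106) (C_4 L1185180 (C_4 L1185412 (C_4 L1185417 (C_4 L1185435 N_4)))) (by decide +kernel)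
theorem L1185437 : W_4 (nat_lit 2) (nat_lit 0x300013000b0007800040006000000000000000000) (nat_lit 0x0) (nat_lit 0x8000c000000000000000000000000000000000000000) := D_4 (nat_lit 158) (nat_lit 175) (nat_lit 159) (nat_lit 6) (nat_lit 5) (nat_lit 10) (nat_lit 0) (nat_lit 8) (nat_lit 9) (by decide +kernel)
theorem L1185438 : W_4 (nat_lit 3) (nat_lit 0x300012000b0007800040006000000000000000000) (nat_lit 0x0) (nat_lit 0x8000e000100000000000000000000000000000000000) := T_4 (nat_lit 140) (nat_lit 157) (nat_lit 5) (nat_lit 5) (nat_lit 5) L1185437 (by decide +kernel)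
theorem L1185439 : W_4 (nat_lit 4) (nat_lit 0x300010000b0007800040006000000000000000000) (nat_lit 0x0) (nat_lit 0x8000e000300000000000080000000000000000000000) := T_4 (nat_lit 141) (nat_lit 91) (nat_lit 6) (nat_lit 5) (nat_lit 8) L1185438 (by decide +kernel)
theorem L1185440 : W_4 (nat_lit 5) (nat_lit 0x300010000b0007800040002000000000000000000) (nat_lit 0x0) (nat_lit 0x8000e000300000000000080004000200000000000000) := T_4 (nat_lit 74) (nat_lit 57) (nat_lit 6) (nat_lit 5) (nat_lit 7) L1185439 (by decide +kernel)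
theorem L1185441 : W_4 (nat_lit 6) (nat_lit 0x300010000b0007800040000000000000000000000) (nat_lit 0x0) (nat_lit 0x8000e000300000000000080006000300000000000000) := T_4 (nat_lit 73) (nat_lit 56) (nat_lit 7) (nat_lit 5) (nat_lit 3) L1185440 (by decide +kernel)
theorem L1185442 : W_4 (nat_lit 7) (nat_lit 0x300010000b0007800000000000000000000000000) (nat_lit 0x0) (nat_lit 0x8000e0003000000000000e0006000300000000000000) := T_4 (nat_lit 90) (nat_lit 89) (nat_lit 0) (nat_lit 8) (nat_lit 6) L1185441 (by decide +kernel)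
theorem L1185443 : W_4 (nat_lit 8) (nat_lit 0x200010000b0007800000000000000000000000000) (nat_lit 0x0) (nat_lit 0x28001e0003000000000000e0006000300000000000000) := T_4 (nat_lit 160) (nat_lit 177) (nat_lit 5) (nat_lit 8) (nat_lit 6) L1185442 (by decide +kernel)
theorem L1185444 : W_4 (nat_lit 9) (nat_lit 0x200010000a0007800000000000000000000000000) (nat_lit 0x0) (nat_lit 0x28001e0003000180000000e0006000300000000000000) := T_4 (nat_lit 124) (nat_lit 123) (nat_lit 1) (nat_lit 8) (nat_lit 6) L1185443 (by decide +kernel)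
theorem L1185445 : W_4 (nat_lit 10) (nat_lit 0x10000a0007800000000000000000000000000) (nat_lit 0x0) (nat_lit 0x28003e0003000180000001e0006000300000000000000) := T_4 (nat_lit 161) (nat_lit 92) (nat_lit 4) (nat_lit 8) (nat_lit 9) L1185444 (by decide +kernel)
theorem L1185446 : W_4 (nat_lit 2) (nat_lit 0x10000b0007800040000000000000000000000) (nat_lit 0x0) (nat_lit 0x400000000000000002000100000000000000) := D_4 (nat_lit 73) (nat_lit 56) (nat_lit 142) (nat_lit 7) (nat_lit 5) (nat_lit 3) (nat_lit 7) (nat_lit 5) (nat_lit 4) (by decide +kernel)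
theorem L1185447 : W_4 (nat_lit 3) (nat_lit 0x10000a0007800040000000000000000000000) (nat_lit 0x0) (nat_lit 0x400018000000000002000100000000000000) := T_4 (nat_lit 124) (nat_lit 123) (nat_lit 1) (nat_lit 8) (nat_lit 6) L1185446 (by decide +kernel)
theorem L1185448 : W_4 (nat_lit 4) (nat_lit 0x10000a0007800000000000000000000000000) (nat_lit 0x0) (nat_lit 0x400018000000060002000100000000000000) := T_4 (nat_lit 90) (nat_lit 89) (nat_lit 0) (nat_lit 8) (nat_lit 6) L1185447 (by decide +kernel)
theorem L1185449 : W_4 (nat_lit 2) (nat_lit 0x1c000b0007800180000000400000000000000) (nat_lit 0x0) (nat_lit 0x4000200000000000000004000000000000000000) := D_4 (nat_lit 141) (nat_lit 158) (nat_lit 74) (nat_lit 6) (nat_lit 5) (nat_lit 9) (nat_lit 5) (nat_lit 6) (nat_lit 4) (by decide +kernel)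
theorem L1185450 : W_4 (nat_lit 3) (nat_lit 0x1c000b0007800100000000400000000000000) (nat_lit 0x0) (nat_lit 0x14000200000000000080004000000000000000000) := T_4 (nat_lit 91) (nat_lit 160) (nat_lit 7) (nat_lit 6) (nat_lit 5) L1185449 (by decide +kernel)
theorem L1185451 : W_4 (nat_lit 4) (nat_lit 0x14000b0007800100000000400000000000000) (nat_lit 0x0) (nat_lit 0x14002a00000000000080004000000000000000000) := T_4 (nat_lit 143) (nat_lit 145) (nat_lit 0) (nat_lit 9) (nat_lit 8) L1185450 (by decide +kernel)
theorem L1185452 : W_4 (nat_lit 5) (nat_lit 0x10000b0007800100000000400000000000000) (nat_lit 0x0) (nat_lit 0x1c002e00000000000080004000000000000000000) := T_4 (nat_lit 142) (nat_lit 159) (nat_lit 6) (nat_lit 6) (nat_lit 9) L1185451 (by decide +kernel)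
theorem L1185453 : W_4 (nat_lit 6) (nat_lit 0x10000b0007800100000000000000000000000) (nat_lit 0x0) (nat_lit 0x1c002e0000000000008000c000400000000000000) := T_4 (nat_lit 58) (nat_lit 75) (nat_lit 7) (nat_lit 7) (nat_lit 3) L1185452 (by decide +kernel)
theorem L1185454 : W_4 (nat_lit 7) (nat_lit 0x10000b0007800000000000000000000000000) (nat_lit 0x0) (nat_lit 0x3c002e0000000000018000c000400000000000000) := T_4 (nat_lit 92) (nat_lit 161) (nat_lit 4) (nat_lit 8) (nat_lit 9) L1185453 (by decide +kernel)
theorem L1185455 : W_4 (nat_lit 8) (nat_lit 0x10000a0007800000000000000000000000000) (nat_lit 0x0) (nat_lit 0x3c002e0001800000018000c000400000000000000) := T_4 (nat_lit 124) (nat_lit 123) (nat_lit 1) (nat_lit 8) (nat_lit 6) L1185454 (by decide +kernel)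
theorem L1185456 : W_4 (nat_lit 11) (nat_lit 0x1000080007800000000000000000000000000) (nat_lit 0x0) (nat_lit 0x28003e002f000380000001e000e000700000000000000) := Q_4 (nat_lit 125) (C_4 L1185272 (C_4 L1185445 (C_4 L1185448 (C_4 L1185455 N_4)))) (by decide +kernel)
theorem L1185457 : W_4 (nat_lit 2) (nat_lit 0x1000090007e00108000000000000000000000) (nat_lit 0x0) (nat_lit 0x20000100004000000000000000000000) := D_4 (nat_lit 104) (nat_lit 125) (nat_lit 86) (nat_lit 3) (nat_lit 2) (nat_lit 6) (nat_lit 0) (nat_lit 5) (nat_lit 6) (by decide +kernel)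
theorem L1185458 : W_4 (nat_lit 3) (nat_lit 0x1000090007e00100000000000000000000000) (nat_lit 0x0) (nat_lit 0x2000010001c000000000000000000000) := T_4 (nat_lit 87) (nat_lit 88) (nat_lit 0) (nat_lit 6) (nat_lit 6) L1185457 (by decide +kernel)
theorem L1185459 : W_4 (nat_lit 4) (nat_lit 0x1000090007c00100000000000000000000000) (nat_lit 0x0) (nat_lit 0x2000030009c000000000000000000000) := T_4 (nat_lit 105) (nat_lit 91) (nat_lit 2) (nat_lit 3) (nat_lit 6) L1185458 (by decide +kernel)
theorem L1185460 : W_4 (nat_lit 5) (nat_lit 0x1000090007c00000000000000000000000000) (nat_lit 0x0) (nat_lit 0x2000000002000030019c000000000000000000000) := T_4 (nat_lit 92) (nat_lit 161) (nat_lit 4) (nat_lit 8) (nat_lit 9) L1185459 (by decide +kernel)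
theorem L1185461 : W_4 (nat_lit 6) (nat_lit 0x1000080007c00000000000000000000000000) (nat_lit 0x0) (nat_lit 0x2000000003800030019c000000000000000000000) := T_4 (nat_lit 124) (nat_lit 123) (nat_lit 1) (nat_lit 8) (nat_lit 6) L1185460 (by decide +kernel)
theorem L1185462 : W_4 (nat_lit 7) (nat_lit 0x1000080007800000000000000000000000000) (nat_lit 0x0) (nat_lit 0x2000000003f00070019c000000000000000000000) := Q_4 (nat_lit 106) (C_4 L1185417 (C_4 L135993 (C_4 L1185461 N_4))) (by decide +kernel)
theorem L1185463 : W_4 (nat_lit 15) (nat_lit 0x1000080007000000000000000000000000000) (nat_lit 0x0) (nat_lit 0x2e003e002f0003f000f001fc00e000700000000000000) := Q_4 (nat_lit 107) (C_4 L1185403 (C_4 L1185179 (C_4 L1185409 (C_4 L1185436 (C_4 L1185456 (C_4 L1185462 N_4)))))) (by decide +kernel)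
theorem L1185464 : W_4 (nat_lit 5) (nat_lit 0x100008000f000000000000000000000000000) (nat_lit 0x0) (nat_lit 0x200000000380008004e0000000000000000000000) := T_4 (nat_lit 161) (nat_lit 94) (nat_lit 6) (nat_lit 8) (nat_lit 9) L52163 (by decide +kernel)
theorem L1185466 : W_4 (nat_lit 6) (nat_lit 0x1000080007000000000000000000000000000) (nat_lit 0x0) (nat_lit 0x20000000038008800ce0000000000000000000000) := Q_4 (nat_lit 111) (C_4 L1185069 (C_4 L1185076 (C_4 L1185464 (C_4 L1185465 N_4)))) (by decide +kernel)
theorem L1185467 : W_4 (nat_lit 2) (nat_lit 0x3e00100009000fc00020000000000000000000000) (nat_lit 0x0) (nat_lit 0xe0000000000000000000000000000000000000000000) := D_4 (nat_lit 174) (nat_lit 173) (nat_lit 175) (nat_lit 1) (nat_lit 7) (nat_lit 9) (nat_lit 1) (nat_lit 8) (nat_lit 9) (by decide +kernel)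
theorem L1185468 : W_4 (nat_lit 3) (nat_lit 0x3c00100009000fc00020000000000000000000000) (nat_lit 0x0) (nat_lit 0xe0002000800000000000000000000000000000000000) := T_4 (nat_lit 157) (nat_lit 143) (nat_lit 2) (nat_lit 4) (nat_lit 9) L1185467 (by decide +kernel)
theorem L1185469 : W_4 (nat_lit 4) (nat_lit 0x3400100009000fc00020000000000000000000000) (nat_lit 0x0) (nat_lit 0xe000a002800000000000000000000000000000000000) := T_4 (nat_lit 159) (nat_lit 145) (nat_lit 2) (nat_lit 5) (nat_lit 9) L1185468 (by decide +kernel)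
theorem L1185470 : W_4 (nat_lit 5) (nat_lit 0x3000100009000fc00020000000000000000000000) (nat_lit 0x0) (nat_lit 0xe000e002a00000000000000000000000000000000000) := T_4 (nat_lit 158) (nat_lit 141) (nat_lit 4) (nat_lit 5) (nat_lit 9) L1185469 (by decide +kernel)
theorem L1185471 : W_4 (nat_lit 6) (nat_lit 0x3000100009000f800020000000000000000000000) (nat_lit 0x0) (nat_lit 0xe000e002a00000000400010000000000000000000000) := T_4 (nat_lit 106) (nat_lit 88) (nat_lit 0) (nat_lit 7) (nat_lit 6) L1185470 (by decide +kernel)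
theorem L1185472 : W_4 (nat_lit 7) (nat_lit 0x3000100009000f800000000000000000000000000) (nat_lit 0x0) (nat_lit 0xe000e002a00000000400070000000000000000000000) := T_4 (nat_lit 89) (nat_lit 90) (nat_lit 0) (nat_lit 8) (nat_lit 6) L1185471 (by decide +kernel)
theorem L1185473 : W_4 (nat_lit 8) (nat_lit 0x3000100009000f000000000000000000000000000) (nat_lit 0x0) (nat_lit 0xe000e002a00008000c00070000000000000000000000) := T_4 (nat_lit 107) (nat_lit 123) (nat_lit 1) (nat_lit 8) (nat_lit 6) L1185472 (by decide +kernel)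
theorem L1185474 : W_4 (nat_lit 9) (nat_lit 0x3000100008000f000000000000000000000000000) (nat_lit 0x0) (nat_lit 0xe000e002a00038000c00070000000000000000000000) := T_4 (nat_lit 124) (nat_lit 125) (nat_lit 1) (nat_lit 9) (nat_lit 6) L1185473 (by decide +kernel)
theorem L1185475 : W_4 (nat_lit 10) (nat_lit 0x30001000080007000000000000000000000000000) (nat_lit 0x0) (nat_lit 0xe000e002a00038008c00470000000000000000000000) := T_4 (nat_lit 111) (nat_lit 94) (nat_lit 6) (nat_lit 8) (nat_lit 9) L1185474 (by decide +kernel)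
theorem L1185476 : W_4 (nat_lit 11) (nat_lit 0x20001000080007000000000000000000000000000) (nat_lit 0x0) (nat_lit 0x2e001e002a00038008c00470000000000000000000000) := T_4 (nat_lit 160) (nat_lit 177) (nat_lit 5) (nat_lit 8) (nat_lit 6) L1185475 (by decide +kernel)
theorem L1185477 : W_4 (nat_lit 12) (nat_lit 0x1000080007000000000000000000000000000) (nat_lit 0x0) (nat_lit 0x2e003e002a00038008c00570000000000000000000000) := T_4 (nat_lit 161) (nat_lit 92) (nat_lit 4) (nat_lit 8) (nat_lit 9) L1185476 (by decide +kernel)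
theorem L1185496 : W_4 (nat_lit 2) (nat_lit 0x10000a000f000100008000000000000000000) (nat_lit 0x0) (nat_lit 0x8000400000000000080000000000000000000000) := D_4 (nat_lit 142) (nat_lit 91) (nat_lit 159) (nat_lit 6) (nat_lit 6) (nat_lit 8) (nat_lit 6) (nat_lit 6) (nat_lit 9) (by decide +kernel)
theorem L1185497 : W_4 (nat_lit 3) (nat_lit 0x100008000f000100008000000000000000000) (nat_lit 0x0) (nat_lit 0x8000400030000000080000000000000000000000) := T_4 (nat_lit 125) (nat_lit 124) (nat_lit 1) (nat_lit 9) (nat_lit 6) L1185496 (by decide +kernel)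
theorem L1185498 : W_4 (nat_lit 4) (nat_lit 0x100008000f000100000000000000000000000) (nat_lit 0x0) (nat_lit 0x8000400030000000080008000400000000000000) := T_4 (nat_lit 75) (nat_lit 58) (nat_lit 7) (nat_lit 7) (nat_lit 3) L1185497 (by decide +kernel)
theorem L1185924 : W_4 (nat_lit 2) (nat_lit 0x10000b0007000000000000000000000000000) (nat_lit 0x0) (nat_lit 0xc000800000000000000000000000000) := D_4 (nat_lit 123) (nat_lit 107) (nat_lit 122) (nat_lit 1) (nat_lit 8) (nat_lit 6) (nat_lit 2) (nat_lit 3) (nat_lit 7) (by decide +kernel)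
theorem L1185925 : W_4 (nat_lit 3) (nat_lit 0x1000090007000000000000000000000000000) (nat_lit 0x0) (nat_lit 0x2c008800000000000000000000000000) := T_4 (nat_lit 125) (nat_lit 111) (nat_lit 1) (nat_lit 9) (nat_lit 6) L1185924 (by decide +kernel)
theorem L1185926 : W_4 (nat_lit 2) (nat_lit 0x14000b8007000100000000400000000000000) (nat_lit 0x0) (nat_lit 0x2a00000000000000000000000000000000000) := D_4 (nat_lit 143) (nat_lit 145) (nat_lit 141) (nat_lit 0) (nat_lit 9) (nat_lit 8) (nat_lit 0) (nat_lit 8) (nat_lit 8) (by decide +kernel)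
theorem L1185927 : W_4 (nat_lit 3) (nat_lit 0x10000b8007000100000000400000000000000) (nat_lit 0x0) (nat_lit 0x8002e00000000000000000000000000000000000) := T_4 (nat_lit 142) (nat_lit 159) (nat_lit 6) (nat_lit 6) (nat_lit 9) L1185926 (by decide +kernel)
theorem L1185928 : W_4 (nat_lit 4) (nat_lit 0x10000b8007000100000000000000000000000) (nat_lit 0x0) (nat_lit 0x8002e00000000000000008000400000000000000) := T_4 (nat_lit 58) (nat_lit 75) (nat_lit 7) (nat_lit 7) (nat_lit 3) L1185927 (by decide +kernel)
theorem L1185929 : W_4 (nat_lit 5) (nat_lit 0x1000098007000100000000000000000000000) (nat_lit 0x0) (nat_lit 0x8002e00024000000000008000400000000000000) := T_4 (nat_lit 125) (nat_lit 122) (nat_lit 2) (nat_lit 3) (nat_lit 7) L1185928 (by decide +kernel)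
theorem L1185930 : W_4 (nat_lit 6) (nat_lit 0x1000098007000000000000000000000000000) (nat_lit 0x0) (nat_lit 0x28002e00024000000100008000400000000000000) := T_4 (nat_lit 92) (nat_lit 161) (nat_lit 4) (nat_lit 8) (nat_lit 9) L1185929 (by decide +kernel)
theorem L1185931 : W_4 (nat_lit 7) (nat_lit 0x1000090007000000000000000000000000000) (nat_lit 0x0) (nat_lit 0x28002e0002c000800100008000400000000000000) := T_4 (nat_lit 123) (nat_lit 107) (nat_lit 1) (nat_lit 8) (nat_lit 6) L1185930 (by decide +kernel)
theorem L1186005 : W_4 (nat_lit 2) (nat_lit 0xc002400120009000f800000000000000000000000000) (nat_lit 0x0) (nat_lit 0x2000100008000000000000000000000000000000000000000) := D_4 (nat_lit 176) (nat_lit 159) (nat_lit 193) (nat_lit 7) (nat_lit 5) (nat_lit 6) (nat_lit 7) (nat_lit 5) (nat_lit 7) (by decide +kernel)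
theorem L1186006 : W_4 (nat_lit 3) (nat_lit 0x4002400120009000f800000000000000000000000000) (nat_lit 0x0) (nat_lit 0x2800180008000000000000000000000000000000000000000) := T_4 (nat_lit 175) (nat_lit 191) (nat_lit 5) (nat_lit 5) (nat_lit 7) L1186005 (by decide +kernel)
theorem L1186007 : W_4 (nat_lit 4) (nat_lit 0x40024001200090007800000000000000000000000000) (nat_lit 0x0) (nat_lit 0x2800180008000000000008000400000000000000000000000) := T_4 (nat_lit 111) (nat_lit 94) (nat_lit 6) (nat_lit 8) (nat_lit 9) L1186006 (by decide +kernel)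
theorem L1186008 : W_4 (nat_lit 5) (nat_lit 0x24001200090007800000000000000000000000000) (nat_lit 0x0) (nat_lit 0x28001c000a000000000008000400000000000000000000000) := T_4 (nat_lit 174) (nat_lit 157) (nat_lit 5) (nat_lit 5) (nat_lit 6) L1186007 (by decide +kernel)
theorem L1186012 : W_4 (nat_lit 2) (nat_lit 0x3c002400120009000fc00000000000000000000000000) (nat_lit 0x0) (nat_lit 0xc000400000000000000000000000000000000000000000000) := D_4 (nat_lit 194) (nat_lit 195) (nat_lit 178) (nat_lit 3) (nat_lit 4) (nat_lit 10) (nat_lit 5) (nat_lit 8) (nat_lit 7) (by decide +kernel)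
theorem L1186013 : W_4 (nat_lit 3) (nat_lit 0x2c002400120009000fc00000000000000000000000000) (nat_lit 0x0) (nat_lit 0xe000500000000000000000000000000000000000000000000) := T_4 (nat_lit 176) (nat_lit 193) (nat_lit 7) (nat_lit 5) (nat_lit 7) L1186012 (by decide +kernel)
theorem L1186014 : W_4 (nat_lit 4) (nat_lit 0xc002400120009000fc00000000000000000000000000) (nat_lit 0x0) (nat_lit 0xe000700010000000000000000000000000000000000000000) := T_4 (nat_lit 177) (nat_lit 160) (nat_lit 5) (nat_lit 8) (nat_lit 6) L1186013 (by decide +kernel)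
theorem L1186015 : W_4 (nat_lit 5) (nat_lit 0x4002400120009000fc00000000000000000000000000) (nat_lit 0x0) (nat_lit 0xe800780010000000000000000000000000000000000000000) := T_4 (nat_lit 175) (nat_lit 191) (nat_lit 5) (nat_lit 5) (nat_lit 7) L1186014 (by decide +kernel)
theorem L1186016 : W_4 (nat_lit 6) (nat_lit 0x4002400120009000f800000000000000000000000000) (nat_lit 0x0) (nat_lit 0xe800780010000000000000400020000000000000000000000) := T_4 (nat_lit 106) (nat_lit 89) (nat_lit 4) (nat_lit 5) (nat_lit 9) L1186015 (by decide +kernel)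
theorem L1186017 : W_4 (nat_lit 7) (nat_lit 0x2400120009000f800000000000000000000000000) (nat_lit 0x0) (nat_lit 0xe8007c0012000000000000400020000000000000000000000) := T_4 (nat_lit 174) (nat_lit 157) (nat_lit 5) (nat_lit 5) (nat_lit 6) L1186016 (by decide +kernel)
theorem L1186040 : W_4 (nat_lit 6) (nat_lit 0x4001000090007000000000000000000000000000) (nat_lit 0x0) (nat_lit 0x14001a000e00008000800080000000000000000000000) := T_4 (nat_lit 107) (nat_lit 123) (nat_lit 1) (nat_lit 8) (nat_lit 6) L1185358 (by decide +kernel)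
theorem L1186041 : W_4 (nat_lit 6) (nat_lit 0x24001000090007800000000000000000000000000) (nat_lit 0x0) (nat_lit 0x28001c000a000200000008000480000000000000000000000) := T_4 (nat_lit 141) (nat_lit 91) (nat_lit 6) (nat_lit 5) (nat_lit 9) L1186008 (by decide +kernel)
theorem L1186042 : W_4 (nat_lit 7) (nat_lit 0x4001000090007800000000000000000000000000) (nat_lit 0x0) (nat_lit 0x28001c002a000200000008000580000000000000000000000) := T_4 (nat_lit 161) (nat_lit 92) (nat_lit 4) (nat_lit 8) (nat_lit 9) L1186041 (by decide +kernel)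
theorem L1186043 : W_4 (nat_lit 8) (nat_lit 0x4001000090007000000000000000000000000000) (nat_lit 0x0) (nat_lit 0x28001c002a000200008008800580000000000000000000000) := T_4 (nat_lit 107) (nat_lit 123) (nat_lit 1) (nat_lit 8) (nat_lit 6) L1186042 (by decide +kernel)
theorem L1186044 : W_4 (nat_lit 2) (nat_lit 0x3e001000090007800000000000000000000000000) (nat_lit 0x0) (nat_lit 0xe0000000000000000000000000000000000000000000) := D_4 (nat_lit 174) (nat_lit 173) (nat_lit 175) (nat_lit 1) (nat_lit 7) (nat_lit 9) (nat_lit 1) (nat_lit 8) (nat_lit 9) (by decide +kernel)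
theorem L1186045 : W_4 (nat_lit 3) (nat_lit 0x3c001000090007800000000000000000000000000) (nat_lit 0x0) (nat_lit 0xe0002000800000000000000000000000000000000000) := T_4 (nat_lit 157) (nat_lit 143) (nat_lit 2) (nat_lit 4) (nat_lit 9) L1186044 (by decide +kernel)
theorem L1186046 : W_4 (nat_lit 4) (nat_lit 0x34001000090007800000000000000000000000000) (nat_lit 0x0) (nat_lit 0xe000a002800000000000000000000000000000000000) := T_4 (nat_lit 159) (nat_lit 145) (nat_lit 2) (nat_lit 5) (nat_lit 9) L1186045 (by decide +kernel)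
theorem L1186047 : W_4 (nat_lit 5) (nat_lit 0x24001000090007800000000000000000000000000) (nat_lit 0x0) (nat_lit 0x2e001a002800000000000000000000000000000000000) := T_4 (nat_lit 160) (nat_lit 177) (nat_lit 5) (nat_lit 8) (nat_lit 6) L1186046 (by decide +kernel)
theorem L1186048 : W_4 (nat_lit 6) (nat_lit 0x4001000090007800000000000000000000000000) (nat_lit 0x0) (nat_lit 0x2e003a002800000000000100000000000000000000000) := T_4 (nat_lit 161) (nat_lit 92) (nat_lit 4) (nat_lit 8) (nat_lit 9) L1186047 (by decide +kernel)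
theorem L1186049 : W_4 (nat_lit 7) (nat_lit 0x4001000090007000000000000000000000000000) (nat_lit 0x0) (nat_lit 0x2e003a002800008000800100000000000000000000000) := T_4 (nat_lit 107) (nat_lit 123) (nat_lit 1) (nat_lit 8) (nat_lit 6) L1186048 (by decide +kernel)
theorem L1186050 : W_4 (nat_lit 8) (nat_lit 0x2400100009000f800000000000000000000000000) (nat_lit 0x0) (nat_lit 0xe8007c00120002000000004000a0000000000000000000000) := T_4 (nat_lit 141) (nat_lit 91) (nat_lit 6) (nat_lit 5) (nat_lit 9) L1186017 (by decide +kernel)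
theorem L1186051 : W_4 (nat_lit 9) (nat_lit 0x24001000090007800000000000000000000000000) (nat_lit 0x0) (nat_lit 0xe8007c00120002000000084004a0000000000000000000000) := T_4 (nat_lit 111) (nat_lit 94) (nat_lit 6) (nat_lit 8) (nat_lit 9) L1186050 (by decide +kernel)
theorem L1186052 : W_4 (nat_lit 10) (nat_lit 0x24001000090007000000000000000000000000000) (nat_lit 0x0) (nat_lit 0xe8007c0012000200008008c004a0000000000000000000000) := T_4 (nat_lit 107) (nat_lit 123) (nat_lit 1) (nat_lit 8) (nat_lit 6) L1186051 (by decide +kernel)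
theorem L1186053 : W_4 (nat_lit 11) (nat_lit 0x4001000090007000000000000000000000000000) (nat_lit 0x0) (nat_lit 0xe8007c0032000200008008c005a0000000000000000000000) := T_4 (nat_lit 161) (nat_lit 92) (nat_lit 4) (nat_lit 8) (nat_lit 9) L1186052 (by decide +kernel)
theorem L1186054 : W_4 (nat_lit 11) (nat_lit 0x4001000090007000000000000000000000000000) (nat_lit 0x0) (nat_lit 0x2000700038003c0038002700008000400100000000000000000000000) := T_4 (nat_lit 161) (nat_lit 92) (nat_lit 4) (nat_lit 8) (nat_lit 9) L58693 (by decide +kernel)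
theorem L1186055 : W_4 (nat_lit 2) (nat_lit 0x3e001000090007000000000000000000000000000) (nat_lit 0x0) (nat_lit 0xe0000000000000000000000000000000000000000000) := D_4 (nat_lit 174) (nat_lit 173) (nat_lit 175) (nat_lit 1) (nat_lit 7) (nat_lit 9) (nat_lit 1) (nat_lit 8) (nat_lit 9) (by decide +kernel)
theorem L1186056 : W_4 (nat_lit 3) (nat_lit 0x3c001000090007000000000000000000000000000) (nat_lit 0x0) (nat_lit 0xe0002000800000000000000000000000000000000000) := T_4 (nat_lit 157) (nat_lit 143) (nat_lit 2) (nat_lit 4) (nat_lit 9) L1186055 (by decide +kernel)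
theorem L1186057 : W_4 (nat_lit 4) (nat_lit 0x34001000090007000000000000000000000000000) (nat_lit 0x0) (nat_lit 0xe000a002800000000000000000000000000000000000) := T_4 (nat_lit 159) (nat_lit 145) (nat_lit 2) (nat_lit 5) (nat_lit 9) L1186056 (by decide +kernel)
theorem L1186058 : W_4 (nat_lit 5) (nat_lit 0x24001000090007000000000000000000000000000) (nat_lit 0x0) (nat_lit 0x2e001a002800000000000000000000000000000000000) := T_4 (nat_lit 160) (nat_lit 177) (nat_lit 5) (nat_lit 8) (nat_lit 6) L1186057 (by decide +kernel)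
theorem L1186059 : W_4 (nat_lit 6) (nat_lit 0x4001000090007000000000000000000000000000) (nat_lit 0x0) (nat_lit 0x2e003a002800000000000100000000000000000000000) := T_4 (nat_lit 161) (nat_lit 92) (nat_lit 4) (nat_lit 8) (nat_lit 9) L1186058 (by decide +kernel)
theorem L1186060 : W_4 (nat_lit 2) (nat_lit 0x2c00120009000fc00000000000000000000000000) (nat_lit 0x0) (nat_lit 0x200010002000000000000000000000000000000000000) := D_4 (nat_lit 160) (nat_lit 145) (nat_lit 177) (nat_lit 2) (nat_lit 5) (nat_lit 9) (nat_lit 5) (nat_lit 8) (nat_lit 6) (by decide +kernel)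
theorem L1186061 : W_4 (nat_lit 3) (nat_lit 0x2400120009000fc00000000000000000000000000) (nat_lit 0x0) (nat_lit 0x300018002000000000000000000000000000000000000) := T_4 (nat_lit 159) (nat_lit 176) (nat_lit 7) (nat_lit 5) (nat_lit 6) L1186060 (by decide +kernel)
theorem L1186062 : W_4 (nat_lit 4) (nat_lit 0x2400120009000f800000000000000000000000000) (nat_lit 0x0) (nat_lit 0x300018002000000000400020000000000000000000000) := T_4 (nat_lit 106) (nat_lit 89) (nat_lit 4) (nat_lit 5) (nat_lit 9) L1186061 (by decide +kernel)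
theorem L1186063 : W_4 (nat_lit 5) (nat_lit 0x2400100009000f800000000000000000000000000) (nat_lit 0x0) (nat_lit 0x3000180022000000004000a0000000000000000000000) := T_4 (nat_lit 141) (nat_lit 91) (nat_lit 6) (nat_lit 5) (nat_lit 9) L1186062 (by decide +kernel)
theorem L1186064 : W_4 (nat_lit 6) (nat_lit 0x24001000090007800000000000000000000000000) (nat_lit 0x0) (nat_lit 0x3000180022000000084004a0000000000000000000000) := T_4 (nat_lit 111) (nat_lit 94) (nat_lit 6) (nat_lit 8) (nat_lit 9) L1186063 (by decide +kernel)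
theorem L1186065 : W_4 (nat_lit 7) (nat_lit 0x24001000090007000000000000000000000000000) (nat_lit 0x0) (nat_lit 0x300018002200008008c004a0000000000000000000000) := T_4 (nat_lit 107) (nat_lit 123) (nat_lit 1) (nat_lit 8) (nat_lit 6) L1186064 (by decide +kernel)
theorem L1186066 : W_4 (nat_lit 8) (nat_lit 0x4001000090007000000000000000000000000000) (nat_lit 0x0) (nat_lit 0x300038002200008008c005a0000000000000000000000) := T_4 (nat_lit 161) (nat_lit 92) (nat_lit 4) (nat_lit 8) (nat_lit 9) L1186065 (by decide +kernel)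
theorem L1186067 : W_4 (nat_lit 12) (nat_lit 0x1000090007000000000000000000000000000) (nat_lit 0x0) (nat_lit 0x20007000f8007e003e002f00008008c005a0000000000000000000000) := Q_4 (nat_lit 158) (C_4 L1186040 (C_4 L1186043 (C_4 L1186049 (C_4 L1186053 (C_4 L1186054 (C_4 L1186059 (C_4 L1186066 N_4))))))) (by decide +kernel)
theorem L1186068 : W_4 (nat_lit 2) (nat_lit 0x20001000090007000000000000000000000000000) (nat_lit 0x0) (nat_lit 0x20008000400000000000000000000000) := D_4 (nat_lit 111) (nat_lit 125) (nat_lit 94) (nat_lit 1) (nat_lit 9) (nat_lit 6) (nat_lit 6) (nat_lit 8) (nat_lit 9) (by decide +kernel)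
theorem L1186069 : W_4 (nat_lit 3) (nat_lit 0x1000090007000000000000000000000000000) (nat_lit 0x0) (nat_lit 0x20000000020008000500000000000000000000000) := T_4 (nat_lit 161) (nat_lit 92) (nat_lit 4) (nat_lit 8) (nat_lit 9) L1186068 (by decide +kernel)
theorem L1186070 : W_4 (nat_lit 13) (nat_lit 0x1000080007000000000000000000000000000) (nat_lit 0x0) (nat_lit 0x20007000f8007e003e002f0003c008c005a0008000400000000000000) := Q_4 (nat_lit 124) (C_4 L1185925 (C_4 L1185931 (C_4 L1186067 (C_4 L1186069 N_4)))) (by decide +kernel)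
theorem L1186071 : W_4 (nat_lit 16) (nat_lit 0x1000080006000000000000000000000000000) (nat_lit 0x0) (nat_lit 0x20007000f8007e003e002f0003f019f01dfc00e000700000000000000) := Q_4 (nat_lit 108) (C_4 L1185072 (C_4 L1185397 (C_4 L1185463 (C_4 L1185466 (C_4 L1185477 (C_4 L1186070 N_4)))))) (by decide +kernel)
theorem L1186072 : W_4 (nat_lit 2) (nat_lit 0x100008001f000800000000000000000000000) (nat_lit 0x0) (nat_lit 0x60020000000000000000000000000000) := D_4 (nat_lit 126) (nat_lit 113) (nat_lit 125) (nat_lit 1) (nat_lit 11) (nat_lit 6) (nat_lit 1) (nat_lit 10) (nat_lit 6) (by decide +kernel)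
theorem L1186073 : W_4 (nat_lit 3) (nat_lit 0x100008000f000800000000000000000000000) (nat_lit 0x0) (nat_lit 0x60030001000000000000000000000000) := T_4 (nat_lit 112) (nat_lit 96) (nat_lit 2) (nat_lit 7) (nat_lit 6) L1186072 (by decide +kernel)
theorem L1186074 : W_4 (nat_lit 4) (nat_lit 0x100008000f000000000000000000000000000) (nat_lit 0x0) (nat_lit 0x60030001c00000000000000000000000) := T_4 (nat_lit 95) (nat_lit 94) (nat_lit 2) (nat_lit 6) (nat_lit 6) L1186073 (by decide +kernel)
theorem L1186075 : W_4 (nat_lit 2) (nat_lit 0x100008000f000000008000000000000000000) (nat_lit 0x0) (nat_lit 0x40000000100000000400000000000000) := D_4 (nat_lit 92) (nat_lit 58) (nat_lit 126) (nat_lit 7) (nat_lit 7) (nat_lit 3) (nat_lit 7) (nat_lit 7) (nat_lit 4) (by decide +kernel)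
theorem L1186076 : W_4 (nat_lit 2) (nat_lit 0x100008000f00048000c001400000000000000) (nat_lit 0x0) (nat_lit 0x200020001000000) := D_4 (nat_lit 41) (nat_lit 57) (nat_lit 24) (nat_lit 6) (nat_lit 6) (nat_lit 6) (nat_lit 5) (nat_lit 7) (nat_lit 1) (by decide +kernel)
theorem L1186077 : W_4 (nat_lit 3) (nat_lit 0x100008000f000480008001400000000000000) (nat_lit 0x0) (nat_lit 0x20000000000004000200020001000000) := T_4 (nat_lit 74) (nat_lit 125) (nat_lit 6) (nat_lit 6) (nat_lit 7) L1186076 (by decide +kernel)
theorem L1186078 : W_4 (nat_lit 4) (nat_lit 0x100008000f000400008001400000000000000) (nat_lit 0x0) (nat_lit 0x200000000c0004000200020001000000) := T_4 (nat_lit 91) (nat_lit 90) (nat_lit 0) (nat_lit 9) (nat_lit 6) L1186077 (by decide +kernel)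
theorem L1186079 : W_4 (nat_lit 5) (nat_lit 0x100008000f000400008000400000000000000) (nat_lit 0x0) (nat_lit 0x200000000c0024001200020001000000) := T_4 (nat_lit 60) (nat_lit 77) (nat_lit 5) (nat_lit 9) (nat_lit 3) L1186078 (by decide +kernel)
theorem L1186080 : W_4 (nat_lit 6) (nat_lit 0x100008000f000400008000000000000000000) (nat_lit 0x0) (nat_lit 0x200000001c0024001600020001000000) := T_4 (nat_lit 58) (nat_lit 92) (nat_lit 7) (nat_lit 7) (nat_lit 3) L1186079 (by decide +kernel)
theorem L1186081 : W_4 (nat_lit 7) (nat_lit 0x100008000f000000008000000000000000000) (nat_lit 0x0) (nat_lit 0x20000000dc0024001600020001000000) := T_4 (nat_lit 94) (nat_lit 95) (nat_lit 2) (nat_lit 6) (nat_lit 6) L1186080 (by decide +kernel)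
theorem L1186082 : W_4 (nat_lit 2) (nat_lit 0x100008000f800000008000000000000000000) (nat_lit 0x0) (nat_lit 0xe0000000000000000000000) := D_4 (nat_lit 90) (nat_lit 91) (nat_lit 89) (nat_lit 0) (nat_lit 9) (nat_lit 6) (nat_lit 0) (nat_lit 8) (nat_lit 6) (by decide +kernel)
theorem L1186083 : W_4 (nat_lit 2) (nat_lit 0x100008000fc00000008000000000000000000) (nat_lit 0x0) (nat_lit 0x70000000000000000000000) := D_4 (nat_lit 89) (nat_lit 90) (nat_lit 88) (nat_lit 0) (nat_lit 8) (nat_lit 6) (nat_lit 0) (nat_lit 7) (nat_lit 6) (by decide +kernel)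
theorem L1186084 : W_4 (nat_lit 3) (nat_lit 0x100008000f800000008000000000000000000) (nat_lit 0x0) (nat_lit 0x40000400070000000000000000000000) := T_4 (nat_lit 106) (nat_lit 126) (nat_lit 3) (nat_lit 4) (nat_lit 6) L1186083 (by decide +kernel)
theorem L1186085 : W_4 (nat_lit 2) (nat_lit 0x100008400fc00010008000000000000000000) (nat_lit 0x0) (nat_lit 0x2000200008000000000000000000000) := D_4 (nat_lit 105) (nat_lit 121) (nat_lit 87) (nat_lit 1) (nat_lit 6) (nat_lit 6) (nat_lit 0) (nat_lit 6) (nat_lit 6) (by decide +kernel)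
theorem L1186086 : W_4 (nat_lit 3) (nat_lit 0x100008400fc00000008000000000000000000) (nat_lit 0x0) (nat_lit 0x2000200038000000000000000000000) := T_4 (nat_lit 88) (nat_lit 89) (nat_lit 0) (nat_lit 7) (nat_lit 6) L1186085 (by decide +kernel)
theorem L1186087 : W_4 (nat_lit 4) (nat_lit 0x100008000fc00000008000000000000000000) (nat_lit 0x0) (nat_lit 0xe000200038000000000000000000000) := T_4 (nat_lit 122) (nat_lit 123) (nat_lit 1) (nat_lit 7) (nat_lit 6) L1186086 (by decide +kernel)
theorem L1186088 : W_4 (nat_lit 5) (nat_lit 0x100008000f800000008000000000000000000) (nat_lit 0x0) (nat_lit 0x4e000600038000000000000000000000) := T_4 (nat_lit 106) (nat_lit 126) (nat_lit 3) (nat_lit 4) (nat_lit 6) L1186087 (by decide +kernel)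
theorem L1186089 : W_4 (nat_lit 2) (nat_lit 0x100010000c000f80048000c001c00000001000000) (nat_lit 0x0) (nat_lit 0x13000000000000000000) := D_4 (nat_lit 73) (nat_lit 72) (nat_lit 76) (nat_lit 2) (nat_lit 4) (nat_lit 4) (nat_lit 2) (nat_lit 5) (nat_lit 4) (by decide +kernel)
theorem L1186090 : W_4 (nat_lit 3) (nat_lit 0x100010000c000f80048000c001400000001000000) (nat_lit 0x0) (nat_lit 0x13002800000000000000) := T_4 (nat_lit 59) (nat_lit 61) (nat_lit 1) (nat_lit 10) (nat_lit 3) L1186089 (by decide +kernel)
theorem L1186091 : W_4 (nat_lit 4) (nat_lit 0x100010000c000f80048000c001400000000000000) (nat_lit 0x0) (nat_lit 0x13002800020001000000) := T_4 (nat_lit 24) (nat_lit 41) (nat_lit 5) (nat_lit 7) (nat_lit 1) L1186090 (by decide +kernel)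
theorem L1186092 : W_4 (nat_lit 5) (nat_lit 0x100010000c000f80048000c001000000000000000) (nat_lit 0x0) (nat_lit 0x20000000000013002c00020001000000) := T_4 (nat_lit 58) (nat_lit 125) (nat_lit 6) (nat_lit 6) (nat_lit 7) L1186091 (by decide +kernel)
theorem L1186093 : W_4 (nat_lit 6) (nat_lit 0x100010000c000f800480008001000000000000000) (nat_lit 0x0) (nat_lit 0x20000000000017002e00020001000000) := T_4 (nat_lit 74) (nat_lit 57) (nat_lit 7) (nat_lit 6) (nat_lit 3) L1186092 (by decide +kernel)
theorem L1186094 : W_4 (nat_lit 7) (nat_lit 0x10000c000f800480008001000000000000000) (nat_lit 0x0) (nat_lit 0x10000800020000000000017002e00020001000000) := T_4 (nat_lit 160) (nat_lit 143) (nat_lit 4) (nat_lit 7) (nat_lit 9) L1186093 (by decide +kernel)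
theorem L1186095 : W_4 (nat_lit 8) (nat_lit 0x100008000f800480008001000000000000000) (nat_lit 0x0) (nat_lit 0x10000800060000400000017002e00020001000000) := T_4 (nat_lit 126) (nat_lit 106) (nat_lit 3) (nat_lit 4) (nat_lit 6) L1186094 (by decide +kernel)
theorem L1186096 : W_4 (nat_lit 9) (nat_lit 0x100008000f800480008000000000000000000) (nat_lit 0x0) (nat_lit 0x10000800060000400000037003e00020001000000) := T_4 (nat_lit 60) (nat_lit 77) (nat_lit 5) (nat_lit 9) (nat_lit 3) L1186095 (by decide +kernel)
theorem L1186097 : W_4 (nat_lit 10) (nat_lit 0x100008000f800400008000000000000000000) (nat_lit 0x0) (nat_lit 0x100008000600004000c0037003e00020001000000) := T_4 (nat_lit 91) (nat_lit 90) (nat_lit 0) (nat_lit 9) (nat_lit 6) L1186096 (by decide +kernel)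
theorem L1186098 : W_4 (nat_lit 11) (nat_lit 0x100008000f800000008000000000000000000) (nat_lit 0x0) (nat_lit 0x10000800060000400cc0037003e00020001000000) := T_4 (nat_lit 94) (nat_lit 95) (nat_lit 2) (nat_lit 6) (nat_lit 6) L1186097 (by decide +kernel)
theorem L1186099 : W_4 (nat_lit 12) (nat_lit 0x100008000f000000008000000000000000000) (nat_lit 0x0) (nat_lit 0x1000080006e000e00cf8037003e00020001000000) := Q_4 (nat_lit 107) (C_4 L1186082 (C_4 L1186084 (C_4 L1186088 (C_4 L1186098 N_4)))) (by decide +kernel)
theorem L1186100 : W_4 (nat_lit 2) (nat_lit 0x18000c000f000480008000000000000000000) (nat_lit 0x0) (nat_lit 0x20000000000004000200000000000000) := D_4 (nat_lit 74) (nat_lit 57) (nat_lit 125) (nat_lit 7) (nat_lit 6) (nat_lit 3) (nat_lit 7) (nat_lit 6) (nat_lit 4) (by decide +kernel)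
theorem L1186101 : W_4 (nat_lit 3) (nat_lit 0x10000c000f000480008000000000000000000) (nat_lit 0x0) (nat_lit 0x10000800020000000000004000200000000000000) := T_4 (nat_lit 143) (nat_lit 160) (nat_lit 4) (nat_lit 7) (nat_lit 9) L1186100 (by decide +kernel)
theorem L1186102 : W_4 (nat_lit 4) (nat_lit 0x10000c000f000080008000000000000000000) (nat_lit 0x0) (nat_lit 0x10000800020000000c00004000200000000000000) := T_4 (nat_lit 94) (nat_lit 95) (nat_lit 2) (nat_lit 6) (nat_lit 6) L1186101 (by decide +kernel)
theorem L1186103 : W_4 (nat_lit 5) (nat_lit 0x100008000f000080008000000000000000000) (nat_lit 0x0) (nat_lit 0x10000800060000000d00004000200000000000000) := T_4 (nat_lit 126) (nat_lit 92) (nat_lit 7) (nat_lit 7) (nat_lit 4) L1186102 (by decide +kernel)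
theorem L1186104 : W_4 (nat_lit 6) (nat_lit 0x100008000f000000008000000000000000000) (nat_lit 0x0) (nat_lit 0x10000800060000000dc0004000200000000000000) := T_4 (nat_lit 91) (nat_lit 90) (nat_lit 0) (nat_lit 9) (nat_lit 6) L1186103 (by decide +kernel)
theorem L1186105 : W_4 (nat_lit 13) (nat_lit 0x100008000f000000000000000000000000000) (nat_lit 0x0) (nat_lit 0x1000080006e000e00df803f003e00020001000000) := Q_4 (nat_lit 75) (C_4 L1186075 (C_4 L1186081 (C_4 L1186099 (C_4 L1186104 N_4)))) (by decide +kernel)
theorem L1186106 : W_4 (nat_lit 2) (nat_lit 0x100008001f000080000000000000000000000) (nat_lit 0x0) (nat_lit 0x60020000000000000000000000000000) := D_4 (nat_lit 126) (nat_lit 125) (nat_lit 113) (nat_lit 1) (nat_lit 10) (nat_lit 6) (nat_lit 1) (nat_lit 11) (nat_lit 6) (by decide +kernel)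
theorem L1186107 : W_4 (nat_lit 3) (nat_lit 0x100008000f000080000000000000000000000) (nat_lit 0x0) (nat_lit 0x60030000100000000000000000000000) := T_4 (nat_lit 112) (nat_lit 92) (nat_lit 0) (nat_lit 10) (nat_lit 6) L1186106 (by decide +kernel)
theorem L1186108 : W_4 (nat_lit 4) (nat_lit 0x100008000f000000000000000000000000000) (nat_lit 0x0) (nat_lit 0x600300001c0000000000000000000000) := T_4 (nat_lit 91) (nat_lit 90) (nat_lit 0) (nat_lit 9) (nat_lit 6) L1186107 (by decide +kernel)
theorem L1186109 : W_4 (nat_lit 14) (nat_lit 0x1000080007000000000000000000000000000) (nat_lit 0x0) (nat_lit 0x1000080006e038e01df803f003e00020001000000) := Q_4 (nat_lit 111) (C_4 L1186074 (C_4 L1185068 (C_4 L1186105 (C_4 L1186108 N_4)))) (by decide +kernel)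
theorem L1186110 : W_4 (nat_lit 3) (nat_lit 0x1000080007800000000000000000000000000) (nat_lit 0x0) (nat_lit 0x40000400070000000000000000000000) := T_4 (nat_lit 106) (nat_lit 126) (nat_lit 3) (nat_lit 4) (nat_lit 6) L1185180 (by decide +kernel)
theorem L1186111 : W_4 (nat_lit 2) (nat_lit 0x1000080007800100000000000000000000000) (nat_lit 0x0) (nat_lit 0x40000000000008000400000000000000) := D_4 (nat_lit 75) (nat_lit 58) (nat_lit 126) (nat_lit 7) (nat_lit 7) (nat_lit 3) (nat_lit 7) (nat_lit 7) (nat_lit 4) (by decide +kernel)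
theorem L1186112 : W_4 (nat_lit 2) (nat_lit 0x10000b00078001c0006000400000000000000) (nat_lit 0x0) (nat_lit 0x1800080000000000000) := D_4 (nat_lit 72) (nat_lit 71) (nat_lit 55) (nat_lit 3) (nat_lit 3) (nat_lit 4) (nat_lit 4) (nat_lit 5) (nat_lit 7) (by decide +kernel)
theorem L1186113 : W_4 (nat_lit 3) (nat_lit 0x10000b0007800140006000400000000000000) (nat_lit 0x0) (nat_lit 0x200000000000080001800080000000000000) := T_4 (nat_lit 91) (nat_lit 141) (nat_lit 6) (nat_lit 5) (nat_lit 8) L1186112 (by decide +kernel)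
theorem L1186114 : W_4 (nat_lit 4) (nat_lit 0x10000b0007800140002000400000000000000) (nat_lit 0x0) (nat_lit 0x200000000000080005800280000000000000) := T_4 (nat_lit 74) (nat_lit 57) (nat_lit 6) (nat_lit 5) (nat_lit 7) L1186113 (by decide +kernel)
theorem L1186115 : W_4 (nat_lit 5) (nat_lit 0x10000a0007800140002000400000000000000) (nat_lit 0x0) (nat_lit 0x200018000000080005800280000000000000) := T_4 (nat_lit 124) (nat_lit 123) (nat_lit 1) (nat_lit 8) (nat_lit 6) L1186114 (by decide +kernel)
theorem L1186116 : W_4 (nat_lit 6) (nat_lit 0x10000a0007800140000000400000000000000) (nat_lit 0x0) (nat_lit 0x200018000000080007800380000000000000) := T_4 (nat_lit 73) (nat_lit 56) (nat_lit 7) (nat_lit 5) (nat_lit 3) L1186115 (by decide +kernel)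
theorem L1186117 : W_4 (nat_lit 7) (nat_lit 0x10000a0007800140000000000000000000000) (nat_lit 0x0) (nat_lit 0x20001800000008000f800780000000000000) := T_4 (nat_lit 58) (nat_lit 75) (nat_lit 7) (nat_lit 7) (nat_lit 3) L1186116 (by decide +kernel)
theorem L1186118 : W_4 (nat_lit 8) (nat_lit 0x10000a0007800100000000000000000000000) (nat_lit 0x0) (nat_lit 0x2000180000000e000f800780000000000000) := T_4 (nat_lit 90) (nat_lit 89) (nat_lit 0) (nat_lit 8) (nat_lit 6) L1186117 (by decide +kernel)
theorem L1186119 : W_4 (nat_lit 2) (nat_lit 0x14000b0007800100000000000000000000000) (nat_lit 0x0) (nat_lit 0x60002000000000000000000) := D_4 (nat_lit 90) (nat_lit 89) (nat_lit 73) (nat_lit 0) (nat_lit 8) (nat_lit 6) (nat_lit 7) (nat_lit 5) (nat_lit 4) (by decide +kernel)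
theorem L1186120 : W_4 (nat_lit 3) (nat_lit 0x10000b0007800100000000000000000000000) (nat_lit 0x0) (nat_lit 0x8000400000000000060002000000000000000000) := T_4 (nat_lit 142) (nat_lit 159) (nat_lit 6) (nat_lit 6) (nat_lit 9) L1186119 (by decide +kernel)
theorem L1186121 : W_4 (nat_lit 4) (nat_lit 0x10000a0007800100000000000000000000000) (nat_lit 0x0) (nat_lit 0x8000400018000000060002000000000000000000) := T_4 (nat_lit 124) (nat_lit 123) (nat_lit 1) (nat_lit 8) (nat_lit 6) L1186120 (by decide +kernel)
theorem L1186122 : W_4 (nat_lit 9) (nat_lit 0x1000080007800100000000000000000000000) (nat_lit 0x0) (nat_lit 0x80006000380000000e000f800780000000000000) := Q_4 (nat_lit 125) (C_4 L1186118 (C_4 L1185307 (C_4 L1186121 N_4))) (by decide +kernel)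
theorem L1186123 : W_4 (nat_lit 2) (nat_lit 0x12000f0007800140000000000000000000000) (nat_lit 0x0) (nat_lit 0x4000000000000000080004000000000000000000) := D_4 (nat_lit 91) (nat_lit 74) (nat_lit 158) (nat_lit 6) (nat_lit 5) (nat_lit 8) (nat_lit 6) (nat_lit 5) (nat_lit 9) (by decide +kernel)
theorem L1186124 : W_4 (nat_lit 3) (nat_lit 0x10000f0007800140000000000000000000000) (nat_lit 0x0) (nat_lit 0x4000300000000000080004000000000000000000) := T_4 (nat_lit 141) (nat_lit 140) (nat_lit 1) (nat_lit 8) (nat_lit 7) L1186123 (by decide +kernel)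
theorem L1186125 : W_4 (nat_lit 4) (nat_lit 0x10000b0007800140000000000000000000000) (nat_lit 0x0) (nat_lit 0x4002300040000000080004000000000000000000) := T_4 (nat_lit 126) (nat_lit 145) (nat_lit 3) (nat_lit 5) (nat_lit 7) L1186124 (by decide +kernel)
theorem L1186126 : W_4 (nat_lit 5) (nat_lit 0x10000b0007800100000000000000000000000) (nat_lit 0x0) (nat_lit 0x40023000400000000e0004000000000000000000) := T_4 (nat_lit 90) (nat_lit 89) (nat_lit 0) (nat_lit 8) (nat_lit 6) L1186125 (by decide +kernel)
theorem L1186127 : W_4 (nat_lit 6) (nat_lit 0x10000a0007800100000000000000000000000) (nat_lit 0x0) (nat_lit 0x40023000580000000e0004000000000000000000) := T_4 (nat_lit 124) (nat_lit 123) (nat_lit 1) (nat_lit 8) (nat_lit 6) L1186126 (by decide +kernel)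
theorem L1186128 : W_4 (nat_lit 2) (nat_lit 0x14000a0007800140000000000000000000000) (nat_lit 0x0) (nat_lit 0x80002000100000000000000) := D_4 (nat_lit 73) (nat_lit 56) (nat_lit 91) (nat_lit 7) (nat_lit 5) (nat_lit 3) (nat_lit 4) (nat_lit 6) (nat_lit 8) (by decide +kernel)
theorem L1186129 : W_4 (nat_lit 3) (nat_lit 0x10000a0007800140000000000000000000000) (nat_lit 0x0) (nat_lit 0x8000400000000000080002000100000000000000) := T_4 (nat_lit 142) (nat_lit 159) (nat_lit 6) (nat_lit 6) (nat_lit 9) L1186128 (by decide +kernel)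
theorem L1186130 : W_4 (nat_lit 4) (nat_lit 0x10000a0007800100000000000000000000000) (nat_lit 0x0) (nat_lit 0x80004000000000000e0002000100000000000000) := T_4 (nat_lit 90) (nat_lit 89) (nat_lit 0) (nat_lit 8) (nat_lit 6) L1186129 (by decide +kernel)
theorem L1186131 : W_4 (nat_lit 2) (nat_lit 0x80012000f0007800100000000000000000000000) (nat_lit 0x0) (nat_lit 0x4000000000000000080004000000000000000000) := D_4 (nat_lit 91) (nat_lit 74) (nat_lit 158) (nat_lit 5) (nat_lit 6) (nat_lit 4) (nat_lit 6) (nat_lit 5) (nat_lit 9) (by decide +kernel)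
theorem L1186132 : W_4 (nat_lit 3) (nat_lit 0x80010000f0007800100000000000000000000000) (nat_lit 0x0) (nat_lit 0x4000300000000000080004000000000000000000) := T_4 (nat_lit 141) (nat_lit 140) (nat_lit 1) (nat_lit 8) (nat_lit 7) L1186131 (by decide +kernel)
theorem L1186133 : W_4 (nat_lit 4) (nat_lit 0x80010000b0007800100000000000000000000000) (nat_lit 0x0) (nat_lit 0x4002300040000000080004000000000000000000) := T_4 (nat_lit 126) (nat_lit 145) (nat_lit 3) (nat_lit 5) (nat_lit 7) L1186132 (by decide +kernel)
theorem L1186134 : W_4 (nat_lit 5) (nat_lit 0x80010000a0007800100000000000000000000000) (nat_lit 0x0) (nat_lit 0x4002300058000000080004000000000000000000) := T_4 (nat_lit 124) (nat_lit 123) (nat_lit 1) (nat_lit 8) (nat_lit 6) L1186133 (by decide +kernel)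
theorem L1186135 : W_4 (nat_lit 6) (nat_lit 0x10000a0007800100000000000000000000000) (nat_lit 0x0) (nat_lit 0xc002700058000000080004000000000000000000) := T_4 (nat_lit 159) (nat_lit 142) (nat_lit 6) (nat_lit 6) (nat_lit 9) L1186134 (by decide +kernel)
theorem L1186136 : W_4 (nat_lit 7) (nat_lit 0x1000080007800100000000000000000000000) (nat_lit 0x0) (nat_lit 0xc0027000780000000e0006000100000000000000) := Q_4 (nat_lit 125) (C_4 L1186127 (C_4 L1186121 (C_4 L1186130 (C_4 L1186135 N_4)))) (by decide +kernel)
theorem L1186137 : W_4 (nat_lit 10) (nat_lit 0x1000080007800000000000000000000000000) (nat_lit 0x0) (nat_lit 0xc0027000780000001e000f800780000000000000) := Q_4 (nat_lit 92) (C_4 L1186111 (C_4 L1186122 (C_4 L1186136 N_4))) (by decide +kernel)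
theorem L1186138 : W_4 (nat_lit 11) (nat_lit 0x1000080007000000000000000000000000000) (nat_lit 0x0) (nat_lit 0xc00270007e000f001fc00f800780000000000000) := Q_4 (nat_lit 107) (C_4 L135994 (C_4 L1185179 (C_4 L136006 (C_4 L1186110 (C_4 L1186137 N_4))))) (by decide +kernel)
theorem L1186139 : W_4 (nat_lit 2) (nat_lit 0x100009003f800840000000000000000000000) (nat_lit 0x0) (nat_lit 0xe00000000000000000000000000000000) := D_4 (nat_lit 130) (nat_lit 129) (nat_lit 131) (nat_lit 3) (nat_lit 7) (nat_lit 6) (nat_lit 3) (nat_lit 8) (nat_lit 6) (by decide +kernel)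
theorem L1186140 : W_4 (nat_lit 3) (nat_lit 0x100009001f800840000000000000000000000) (nat_lit 0x0) (nat_lit 0xe40020000000000000000000000000000) := T_4 (nat_lit 113) (nat_lit 126) (nat_lit 1) (nat_lit 11) (nat_lit 6) L1186139 (by decide +kernel)
theorem L1186141 : W_4 (nat_lit 4) (nat_lit 0x100009000f800840000000000000000000000) (nat_lit 0x0) (nat_lit 0xe40030001000000000000000000000000) := T_4 (nat_lit 112) (nat_lit 96) (nat_lit 2) (nat_lit 7) (nat_lit 6) L1186140 (by decide +kernel)
theorem L1186142 : W_4 (nat_lit 5) (nat_lit 0x100009000f800040000000000000000000000) (nat_lit 0x0) (nat_lit 0xe40030001c00000000000000000000000) := T_4 (nat_lit 95) (nat_lit 94) (nat_lit 2) (nat_lit 6) (nat_lit 6) L1186141 (by decide +kernel)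
theorem L1186143 : W_4 (nat_lit 6) (nat_lit 0x1000090007800040000000000000000000000) (nat_lit 0x0) (nat_lit 0xe40038001c80000000000000000000000) := T_4 (nat_lit 111) (nat_lit 91) (nat_lit 0) (nat_lit 9) (nat_lit 6) L1186142 (by decide +kernel)
theorem L1186144 : W_4 (nat_lit 7) (nat_lit 0x1000080007800040000000000000000000000) (nat_lit 0x0) (nat_lit 0xe58038001c80000000000000000000000) := T_4 (nat_lit 124) (nat_lit 123) (nat_lit 1) (nat_lit 8) (nat_lit 6) L1186143 (by decide +kernel)
theorem L1186145 : W_4 (nat_lit 8) (nat_lit 0x1000080007800000000000000000000000000) (nat_lit 0x0) (nat_lit 0xe58038001ce0000000000000000000000) := T_4 (nat_lit 90) (nat_lit 89) (nat_lit 0) (nat_lit 8) (nat_lit 6) L1186144 (by decide +kernel)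
theorem L1186146 : W_4 (nat_lit 9) (nat_lit 0x1000080007000000000000000000000000000) (nat_lit 0x0) (nat_lit 0xe5e038f01df8000000000000000000000) := Q_4 (nat_lit 107) (C_4 L135994 (C_4 L1186110 (C_4 L1185193 (C_4 L1186145 N_4)))) (by decide +kernel)
theorem L1186147 : W_4 (nat_lit 9) (nat_lit 0x1000080007000000000000000000000000000) (nat_lit 0x0) (nat_lit 0xe5c038c01cf0000000000000000000000) := Q_4 (nat_lit 107) (C_4 L135994 (C_4 L1186145 (C_4 L1185179 (C_4 L1186110 N_4)))) (by decide +kernel)
theorem L1186148 : W_4 (nat_lit 2) (nat_lit 0x100008000f000100000000000000000000000) (nat_lit 0x0) (nat_lit 0x40000000000008000400000000000000) := D_4 (nat_lit 75) (nat_lit 58) (nat_lit 126) (nat_lit 7) (nat_lit 7) (nat_lit 3) (nat_lit 7) (nat_lit 7) (nat_lit 4) (by decide +kernel)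
theorem L1186149 : W_4 (nat_lit 2) (nat_lit 0x1c000a000f000580004001200000000000000) (nat_lit 0x0) (nat_lit 0x2000100008000000000) := D_4 (nat_lit 56) (nat_lit 73) (nat_lit 39) (nat_lit 4) (nat_lit 6) (nat_lit 7) (nat_lit 4) (nat_lit 6) (nat_lit 6) (by decide +kernel)
theorem L1186150 : W_4 (nat_lit 3) (nat_lit 0x1c000a000f000580004001000000000000000) (nat_lit 0x0) (nat_lit 0x2000300018000000000) := T_4 (nat_lit 57) (nat_lit 40) (nat_lit 7) (nat_lit 6) (nat_lit 2) L1186149 (by decide +kernel)
theorem L1186151 : W_4 (nat_lit 4) (nat_lit 0x1c000a000f000580000001000000000000000) (nat_lit 0x0) (nat_lit 0x40000000000006000300018000000000) := T_4 (nat_lit 74) (nat_lit 126) (nat_lit 7) (nat_lit 6) (nat_lit 4) L1186150 (by decide +kernel)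
theorem L1186152 : W_4 (nat_lit 5) (nat_lit 0x14000a000f000580000001000000000000000) (nat_lit 0x0) (nat_lit 0x10000800040000000000006000300018000000000) := T_4 (nat_lit 143) (nat_lit 160) (nat_lit 7) (nat_lit 6) (nat_lit 5) L1186151 (by decide +kernel)
theorem L1186153 : W_4 (nat_lit 6) (nat_lit 0x14000a000f000500000001000000000000000) (nat_lit 0x0) (nat_lit 0x100008000400000000c0006000300018000000000) := T_4 (nat_lit 91) (nat_lit 90) (nat_lit 0) (nat_lit 9) (nat_lit 6) L1186152 (by decide +kernel)
theorem L1186154 : W_4 (nat_lit 7) (nat_lit 0x10000a000f000500000001000000000000000) (nat_lit 0x0) (nat_lit 0x18000c000400000000c0006000300018000000000) := T_4 (nat_lit 142) (nat_lit 159) (nat_lit 6) (nat_lit 6) (nat_lit 9) L1186153 (by decide +kernel)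
theorem L1186155 : W_4 (nat_lit 8) (nat_lit 0x10000a000f000500000000000000000000000) (nat_lit 0x0) (nat_lit 0x18000c000400000000c0026001300018000000000) := T_4 (nat_lit 60) (nat_lit 77) (nat_lit 5) (nat_lit 9) (nat_lit 3) L1186154 (by decide +kernel)
theorem L1186156 : W_4 (nat_lit 9) (nat_lit 0x100008000f000500000000000000000000000) (nat_lit 0x0) (nat_lit 0x18000c000700000000c0026001300018000000000) := T_4 (nat_lit 125) (nat_lit 124) (nat_lit 1) (nat_lit 9) (nat_lit 6) L1186155 (by decide +kernel)
theorem L1186157 : W_4 (nat_lit 10) (nat_lit 0x100008000f000100000000000000000000000) (nat_lit 0x0) (nat_lit 0x18000c00070000000cc0026001300018000000000) := T_4 (nat_lit 94) (nat_lit 95) (nat_lit 2) (nat_lit 6) (nat_lit 6) L1186156 (by decide +kernel)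
theorem L1186158 : W_4 (nat_lit 11) (nat_lit 0x100008000f000000000000000000000000000) (nat_lit 0x0) (nat_lit 0x18000c00070000000dc002e001700018000000000) := Q_4 (nat_lit 92) (C_4 L1185498 (C_4 L1186148 (C_4 L1186157 N_4))) (by decide +kernel)
theorem L1186159 : W_4 (nat_lit 12) (nat_lit 0x1000080007000000000000000000000000000) (nat_lit 0x0) (nat_lit 0x18000c00070038001dc002e001700018000000000) := Q_4 (nat_lit 111) (C_4 L1186074 (C_4 L1186108 (C_4 L1185080 (C_4 L1185068 (C_4 L1186158 N_4))))) (by decide +kernel)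
theorem L1186160 : W_4 (nat_lit 6) (nat_lit 0x1000080007000000000000000000000000000) (nat_lit 0x0) (nat_lit 0x800040007c008c00070002000000000000000000) := Q_4 (nat_lit 107) (C_4 L135994 (C_4 L1186110 (C_4 L1185179 (C_4 L1185176 N_4)))) (by decide +kernel)
theorem L1186161 : W_4 (nat_lit 2) (nat_lit 0x10000d0007800000008000000000000000000) (nat_lit 0x0) (nat_lit 0x2000020008000000000000000000000000000) := D_4 (nat_lit 125) (nat_lit 111) (nat_lit 145) (nat_lit 2) (nat_lit 5) (nat_lit 7) (nat_lit 3) (nat_lit 5) (nat_lit 7) (by decide +kernel)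
theorem L1186162 : W_4 (nat_lit 3) (nat_lit 0x10000c0007800000008000000000000000000) (nat_lit 0x0) (nat_lit 0x2000038008000000000000000000000000000) := T_4 (nat_lit 124) (nat_lit 123) (nat_lit 1) (nat_lit 8) (nat_lit 6) L1186161 (by decide +kernel)
theorem L1186163 : W_4 (nat_lit 4) (nat_lit 0x10000c0007800000000000000000000000000) (nat_lit 0x0) (nat_lit 0x2000038008000100008000000000000000000) := T_4 (nat_lit 75) (nat_lit 92) (nat_lit 7) (nat_lit 7) (nat_lit 4) L1186162 (by decide +kernel)
theorem L1186164 : W_4 (nat_lit 5) (nat_lit 0x10000c0007000000000000000000000000000) (nat_lit 0x0) (nat_lit 0x2000038008c00100008000000000000000000) := T_4 (nat_lit 107) (nat_lit 106) (nat_lit 3) (nat_lit 4) (nat_lit 6) L1186163 (by decide +kernel)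
theorem L1186165 : W_4 (nat_lit 2) (nat_lit 0x10000d000f800800008000000000000000000) (nat_lit 0x0) (nat_lit 0x30001000000000000000000000000) := D_4 (nat_lit 112) (nat_lit 113) (nat_lit 96) (nat_lit 1) (nat_lit 11) (nat_lit 6) (nat_lit 2) (nat_lit 7) (nat_lit 6) (by decide +kernel)
theorem L1186166 : W_4 (nat_lit 3) (nat_lit 0x10000d000f800000008000000000000000000) (nat_lit 0x0) (nat_lit 0x30001c00000000000000000000000) := T_4 (nat_lit 95) (nat_lit 94) (nat_lit 2) (nat_lit 6) (nat_lit 6) L1186165 (by decide +kernel)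
theorem L1186167 : W_4 (nat_lit 4) (nat_lit 0x10000d0007800000008000000000000000000) (nat_lit 0x0) (nat_lit 0x20038001c00000000000000000000000) := T_4 (nat_lit 111) (nat_lit 125) (nat_lit 2) (nat_lit 5) (nat_lit 7) L1186166 (by decide +kernel)
theorem L1186168 : W_4 (nat_lit 5) (nat_lit 0x10000c0007800000008000000000000000000) (nat_lit 0x0) (nat_lit 0x38038001c00000000000000000000000) := T_4 (nat_lit 124) (nat_lit 123) (nat_lit 1) (nat_lit 8) (nat_lit 6) L1186167 (by decide +kernel)
theorem L1186169 : W_4 (nat_lit 6) (nat_lit 0x10000c0007000000008000000000000000000) (nat_lit 0x0) (nat_lit 0x38038c01c00000000000000000000000) := T_4 (nat_lit 107) (nat_lit 106) (nat_lit 3) (nat_lit 4) (nat_lit 6) L1186168 (by decide +kernel)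
theorem L1186170 : W_4 (nat_lit 7) (nat_lit 0x10000c0007000000000000000000000000000) (nat_lit 0x0) (nat_lit 0x38038c01d00008000000000000000000) := T_4 (nat_lit 75) (nat_lit 92) (nat_lit 7) (nat_lit 7) (nat_lit 4) L1186169 (by decide +kernel)
theorem L1186171 : W_4 (nat_lit 3) (nat_lit 0x10000f0007800000008000000000000000000) (nat_lit 0x0) (nat_lit 0x80004000300000000000080000000000000000000000) := T_4 (nat_lit 141) (nat_lit 140) (nat_lit 1) (nat_lit 8) (nat_lit 7) L1117923 (by decide +kernel)
theorem L1186172 : W_4 (nat_lit 4) (nat_lit 0x10000d0007800000008000000000000000000) (nat_lit 0x0) (nat_lit 0x80004002300020000000080000000000000000000000) := T_4 (nat_lit 125) (nat_lit 145) (nat_lit 3) (nat_lit 5) (nat_lit 7) L1186171 (by decide +kernel)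
theorem L1186173 : W_4 (nat_lit 5) (nat_lit 0x10000c0007800000008000000000000000000) (nat_lit 0x0) (nat_lit 0x80004002300038000000080000000000000000000000) := T_4 (nat_lit 124) (nat_lit 123) (nat_lit 1) (nat_lit 8) (nat_lit 6) L1186172 (by decide +kernel)
theorem L1186174 : W_4 (nat_lit 6) (nat_lit 0x10000c0007800000000000000000000000000) (nat_lit 0x0) (nat_lit 0x80004002300038000000180008000000000000000000) := T_4 (nat_lit 75) (nat_lit 92) (nat_lit 7) (nat_lit 7) (nat_lit 4) L1186173 (by decide +kernel)
theorem L1186175 : W_4 (nat_lit 7) (nat_lit 0x10000c0007000000000000000000000000000) (nat_lit 0x0) (nat_lit 0x80004002300038000c00180008000000000000000000) := T_4 (nat_lit 107) (nat_lit 106) (nat_lit 3) (nat_lit 4) (nat_lit 6) L1186174 (by decide +kernel)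
theorem L1186176 : W_4 (nat_lit 2) (nat_lit 0x18000c0007000000000000000000000000000) (nat_lit 0x0) (nat_lit 0x200010000000000000000080000000000000000000000) := D_4 (nat_lit 160) (nat_lit 91) (nat_lit 177) (nat_lit 4) (nat_lit 7) (nat_lit 9) (nat_lit 6) (nat_lit 7) (nat_lit 10) (by decide +kernel)
theorem L1186177 : W_4 (nat_lit 2) (nat_lit 0x1c000d0017800180000000000000000000000) (nat_lit 0x0) (nat_lit 0x4000300000000000000000000000000000000000) := D_4 (nat_lit 141) (nat_lit 140) (nat_lit 158) (nat_lit 2) (nat_lit 4) (nat_lit 8) (nat_lit 6) (nat_lit 5) (nat_lit 9) (by decide +kernel)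
theorem L1186178 : W_4 (nat_lit 3) (nat_lit 0x18000d0017800180000000000000000000000) (nat_lit 0x0) (nat_lit 0xc000700000000000000000000000000000000000) := T_4 (nat_lit 142) (nat_lit 159) (nat_lit 5) (nat_lit 7) (nat_lit 5) L1186177 (by decide +kernel)
theorem L1186179 : W_4 (nat_lit 4) (nat_lit 0x18000c0017800180000000000000000000000) (nat_lit 0x0) (nat_lit 0xc000700018000000000000000000000000000000) := T_4 (nat_lit 124) (nat_lit 123) (nat_lit 1) (nat_lit 8) (nat_lit 6) L1186178 (by decide +kernel)
theorem L1186180 : W_4 (nat_lit 5) (nat_lit 0x18000c0007800180000000000000000000000) (nat_lit 0x0) (nat_lit 0xc000700018018000000000000000000000000000) := T_4 (nat_lit 112) (nat_lit 111) (nat_lit 0) (nat_lit 10) (nat_lit 6) L1186179 (by decide +kernel)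
theorem L1186181 : W_4 (nat_lit 6) (nat_lit 0x18000c0007800100000000000000000000000) (nat_lit 0x0) (nat_lit 0xc000700018018000080004000000000000000000) := T_4 (nat_lit 91) (nat_lit 74) (nat_lit 4) (nat_lit 7) (nat_lit 8) L1186180 (by decide +kernel)
theorem L1186182 : W_4 (nat_lit 7) (nat_lit 0x18000c0007000100000000000000000000000) (nat_lit 0x0) (nat_lit 0xc000700018018c00080004000000000000000000) := T_4 (nat_lit 107) (nat_lit 106) (nat_lit 3) (nat_lit 4) (nat_lit 6) L1186181 (by decide +kernel)
theorem L1186183 : W_4 (nat_lit 8) (nat_lit 0x18000c0007000000000000000000000000000) (nat_lit 0x0) (nat_lit 0xc000700018018c0018000c000000000000000000) := T_4 (nat_lit 92) (nat_lit 75) (nat_lit 7) (nat_lit 7) (nat_lit 4) L1186182 (by decide +kernel)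
theorem L1186184 : W_4 (nat_lit 2) (nat_lit 0x1c0018000c0007400000008000000000000000000) (nat_lit 0x0) (nat_lit 0x6400000000000000000000000000000000000) := D_4 (nat_lit 145) (nat_lit 146) (nat_lit 142) (nat_lit 1) (nat_lit 10) (nat_lit 8) (nat_lit 1) (nat_lit 9) (nat_lit 8) (by decide +kernel)
theorem L1186185 : W_4 (nat_lit 3) (nat_lit 0x180018000c0007400000008000000000000000000) (nat_lit 0x0) (nat_lit 0x6006400000000000000000000000000000000000) := T_4 (nat_lit 158) (nat_lit 157) (nat_lit 2) (nat_lit 4) (nat_lit 9) L1186184 (by decide +kernel)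
theorem L1186186 : W_4 (nat_lit 4) (nat_lit 0x100018000c0007400000008000000000000000000) (nat_lit 0x0) (nat_lit 0x10000e006400000000000000000000000000000000000) := T_4 (nat_lit 159) (nat_lit 176) (nat_lit 5) (nat_lit 7) (nat_lit 6) L1186185 (by decide +kernel)
theorem L1186187 : W_4 (nat_lit 5) (nat_lit 0x100018000c0007400000000000000000000000000) (nat_lit 0x0) (nat_lit 0x10000e006400000000000100008000000000000000000) := T_4 (nat_lit 75) (nat_lit 92) (nat_lit 7) (nat_lit 7) (nat_lit 4) L1186186 (by decide +kernel)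
theorem L1186188 : W_4 (nat_lit 6) (nat_lit 0x18000c0007400000000000000000000000000) (nat_lit 0x0) (nat_lit 0x30001e006400000000000100008000000000000000000) := T_4 (nat_lit 160) (nat_lit 177) (nat_lit 6) (nat_lit 7) (nat_lit 10) L1186187 (by decide +kernel)
theorem L1186189 : W_4 (nat_lit 7) (nat_lit 0x18000c0007000000000000000000000000000) (nat_lit 0x0) (nat_lit 0x30001e006400000000c00100008000000000000000000) := T_4 (nat_lit 106) (nat_lit 107) (nat_lit 3) (nat_lit 4) (nat_lit 6) L1186188 (by decide +kernel)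
theorem L1186190 : W_4 (nat_lit 9) (nat_lit 0x10000c0007000000000000000000000000000) (nat_lit 0x0) (nat_lit 0x30001e006f00018018c0018000c000000000000000000) := Q_4 (nat_lit 143) (C_4 L1186176 (C_4 L1186183 (C_4 L1186189 N_4))) (by decide +kernel)
theorem L1186191 : W_4 (nat_lit 2) (nat_lit 0x10000d0007800000000000000000000000000) (nat_lit 0x0) (nat_lit 0x2000020008000000000000000000000000000) := D_4 (nat_lit 125) (nat_lit 111) (nat_lit 145) (nat_lit 2) (nat_lit 5) (nat_lit 7) (nat_lit 3) (nat_lit 5) (nat_lit 7) (by decide +kernel)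
theorem L1186192 : W_4 (nat_lit 3) (nat_lit 0x10000c0007800000000000000000000000000) (nat_lit 0x0) (nat_lit 0x2000038008000000000000000000000000000) := T_4 (nat_lit 124) (nat_lit 123) (nat_lit 1) (nat_lit 8) (nat_lit 6) L1186191 (by decide +kernel)
theorem L1186193 : W_4 (nat_lit 4) (nat_lit 0x10000c0007000000000000000000000000000) (nat_lit 0x0) (nat_lit 0x2000038008c00000000000000000000000000) := T_4 (nat_lit 107) (nat_lit 106) (nat_lit 3) (nat_lit 4) (nat_lit 6) L1186192 (by decide +kernel)
theorem L1186194 : W_4 (nat_lit 2) (nat_lit 0x1e000c0007400180000000000000000000000) (nat_lit 0x0) (nat_lit 0x6000000020000000000000000000000000000000) := D_4 (nat_lit 158) (nat_lit 157) (nat_lit 125) (nat_lit 1) (nat_lit 8) (nat_lit 8) (nat_lit 5) (nat_lit 6) (nat_lit 5) (by decide +kernel)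
theorem L1186195 : W_4 (nat_lit 3) (nat_lit 0x1e000c0007400100000000000000000000000) (nat_lit 0x0) (nat_lit 0x6000000020000000080004000000000000000000) := T_4 (nat_lit 91) (nat_lit 74) (nat_lit 4) (nat_lit 7) (nat_lit 8) L1186194 (by decide +kernel)
theorem L1186196 : W_4 (nat_lit 4) (nat_lit 0x1c000c0007400100000000000000000000000) (nat_lit 0x0) (nat_lit 0x6000300020000000080004000000000000000000) := T_4 (nat_lit 141) (nat_lit 140) (nat_lit 2) (nat_lit 4) (nat_lit 8) L1186195 (by decide +kernel)
theorem L1186197 : W_4 (nat_lit 5) (nat_lit 0x18000c0007400100000000000000000000000) (nat_lit 0x0) (nat_lit 0xe000700020000000080004000000000000000000) := T_4 (nat_lit 142) (nat_lit 159) (nat_lit 5) (nat_lit 7) (nat_lit 5) L1186196 (by decide +kernel)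
theorem L1186198 : W_4 (nat_lit 6) (nat_lit 0x18000c0007400000000000000000000000000) (nat_lit 0x0) (nat_lit 0xe00070002000000018000c000000000000000000) := T_4 (nat_lit 92) (nat_lit 75) (nat_lit 7) (nat_lit 7) (nat_lit 4) L1186197 (by decide +kernel)
theorem L1186199 : W_4 (nat_lit 7) (nat_lit 0x18000c0007000000000000000000000000000) (nat_lit 0x0) (nat_lit 0xe000700020000c0018000c000000000000000000) := T_4 (nat_lit 106) (nat_lit 107) (nat_lit 3) (nat_lit 4) (nat_lit 6) L1186198 (by decide +kernel)
theorem L1186200 : W_4 (nat_lit 8) (nat_lit 0x10000c0007000000000000000000000000000) (nat_lit 0x0) (nat_lit 0x30001e006f00020000c0018000c000000000000000000) := Q_4 (nat_lit 143) (C_4 L1186176 (C_4 L1186189 (C_4 L1186199 N_4))) (by decide +kernel)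
theorem L1186201 : W_4 (nat_lit 2) (nat_lit 0x18000e0007000000000000000000000000000) (nat_lit 0x0) (nat_lit 0x200010000000000000000080000000000000000000000) := D_4 (nat_lit 160) (nat_lit 91) (nat_lit 177) (nat_lit 4) (nat_lit 7) (nat_lit 9) (nat_lit 6) (nat_lit 7) (nat_lit 10) (by decide +kernel)
theorem L1186202 : W_4 (nat_lit 2) (nat_lit 0x1c000e0017000180000000000000000000000) (nat_lit 0x0) (nat_lit 0x4000300000000000000000000000000000000000) := D_4 (nat_lit 141) (nat_lit 140) (nat_lit 158) (nat_lit 2) (nat_lit 4) (nat_lit 8) (nat_lit 5) (nat_lit 6) (nat_lit 5) (by decide +kernel)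
theorem L1186203 : W_4 (nat_lit 3) (nat_lit 0x1c000e0017000100000000000000000000000) (nat_lit 0x0) (nat_lit 0x4000300000000000080004000000000000000000) := T_4 (nat_lit 91) (nat_lit 74) (nat_lit 7) (nat_lit 6) (nat_lit 4) L1186202 (by decide +kernel)
theorem L1186204 : W_4 (nat_lit 4) (nat_lit 0x18000e0017000100000000000000000000000) (nat_lit 0x0) (nat_lit 0xc000700000000000080004000000000000000000) := T_4 (nat_lit 142) (nat_lit 159) (nat_lit 6) (nat_lit 6) (nat_lit 9) L1186203 (by decide +kernel)
theorem L1186205 : W_4 (nat_lit 5) (nat_lit 0x18000e0007000100000000000000000000000) (nat_lit 0x0) (nat_lit 0xc000700000018000080004000000000000000000) := T_4 (nat_lit 112) (nat_lit 111) (nat_lit 1) (nat_lit 10) (nat_lit 6) L1186204 (by decide +kernel)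
theorem L1186206 : W_4 (nat_lit 6) (nat_lit 0x18000e0007000000000000000000000000000) (nat_lit 0x0) (nat_lit 0xc00070000001800018000c000000000000000000) := T_4 (nat_lit 92) (nat_lit 75) (nat_lit 7) (nat_lit 7) (nat_lit 4) L1186205 (by decide +kernel)
theorem L1186207 : W_4 (nat_lit 2) (nat_lit 0x180058000e0017000000000000000000000000000) (nat_lit 0x0) (nat_lit 0x400000000000100008000000000000000000) := D_4 (nat_lit 92) (nat_lit 142) (nat_lit 75) (nat_lit 6) (nat_lit 6) (nat_lit 9) (nat_lit 7) (nat_lit 7) (nat_lit 4) (by decide +kernel)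
theorem L1186208 : W_4 (nat_lit 3) (nat_lit 0x100058000e0017000000000000000000000000000) (nat_lit 0x0) (nat_lit 0x100008000400000000000100008000000000000000000) := T_4 (nat_lit 159) (nat_lit 176) (nat_lit 5) (nat_lit 7) (nat_lit 6) L1186207 (by decide +kernel)
theorem L1186209 : W_4 (nat_lit 4) (nat_lit 0x100018000e0017000000000000000000000000000) (nat_lit 0x0) (nat_lit 0x100008006400000000000100008000000000000000000) := T_4 (nat_lit 146) (nat_lit 145) (nat_lit 0) (nat_lit 10) (nat_lit 8) L1186208 (by decide +kernel)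
theorem L1186210 : W_4 (nat_lit 5) (nat_lit 0x18000e0017000000000000000000000000000) (nat_lit 0x0) (nat_lit 0x300018006400000000000100008000000000000000000) := T_4 (nat_lit 160) (nat_lit 177) (nat_lit 6) (nat_lit 7) (nat_lit 10) L1186209 (by decide +kernel)
theorem L1186211 : W_4 (nat_lit 6) (nat_lit 0x18000e0007000000000000000000000000000) (nat_lit 0x0) (nat_lit 0x300018006400000018000100008000000000000000000) := T_4 (nat_lit 112) (nat_lit 111) (nat_lit 1) (nat_lit 10) (nat_lit 6) L1186210 (by decide +kernel)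
theorem L1186212 : W_4 (nat_lit 7) (nat_lit 0x10000e0007000000000000000000000000000) (nat_lit 0x0) (nat_lit 0x30001c006f0000001800018000c000000000000000000) := Q_4 (nat_lit 143) (C_4 L1186201 (C_4 L1186206 (C_4 L1186211 N_4))) (by decide +kernel)
theorem L1186213 : W_4 (nat_lit 8) (nat_lit 0x10000c0007000000000000000000000000000) (nat_lit 0x0) (nat_lit 0x30001c006f0003801800018000c000000000000000000) := Q_4 (nat_lit 125) (C_4 L337615 (C_4 L132859 (C_4 L1186212 N_4))) (by decide +kernel)
theorem L1186214 : W_4 (nat_lit 10) (nat_lit 0x1000080007000000000000000000000000000) (nat_lit 0x0) (nat_lit 0x38001e006f00078038c01d8000c000000000000000000) := Q_4 (nat_lit 126) (C_4 L1186164 (C_4 L1186170 (C_4 L1186175 (C_4 L1186190 (C_4 L1186193 (C_4 L1186200 (C_4 L1186213 N_4))))))) (by decide +kernel)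
theorem L1186215 : W_4 (nat_lit 15) (nat_lit 0x1000080006000000000000000000000000000) (nat_lit 0x0) (nat_lit 0x38001e006f00e7e039f01dfc03f803f80038001000000) := Q_4 (nat_lit 108) (C_4 L1186109 (C_4 L1158845 (C_4 L1185397 (C_4 L1186138 (C_4 L1186146 (C_4 L1186147 (C_4 L1186159 (C_4 L1186160 (C_4 L1186214 N_4))))))))) (by decide +kernel)
theorem L1186216 : W_4 (nat_lit 6) (nat_lit 0x100008000e000000000000000000000000000) (nat_lit 0x0) (nat_lit 0x28001c000e00020000000040000000400000000000000000000000) := T_4 (nat_lit 161) (nat_lit 94) (nat_lit 6) (nat_lit 8) (nat_lit 9) L1185062 (by decide +kernel)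
theorem L1186217 : W_4 (nat_lit 2) (nat_lit 0x100029001f000840000000000000000000000) (nat_lit 0x0) (nat_lit 0x8000800020000000000000000000000) := D_4 (nat_lit 107) (nat_lit 123) (nat_lit 89) (nat_lit 1) (nat_lit 8) (nat_lit 6) (nat_lit 0) (nat_lit 8) (nat_lit 6) (by decide +kernel)
theorem L1186218 : W_4 (nat_lit 3) (nat_lit 0x100029001f000800000000000000000000000) (nat_lit 0x0) (nat_lit 0x80008000e0000000000000000000000) := T_4 (nat_lit 90) (nat_lit 91) (nat_lit 0) (nat_lit 9) (nat_lit 6) L1186217 (by decide +kernel)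
theorem L1186219 : W_4 (nat_lit 4) (nat_lit 0x100028001f000800000000000000000000000) (nat_lit 0x0) (nat_lit 0x380008000e0000000000000000000000) := T_4 (nat_lit 124) (nat_lit 125) (nat_lit 1) (nat_lit 9) (nat_lit 6) L1186218 (by decide +kernel)
theorem L1186220 : W_4 (nat_lit 5) (nat_lit 0x100028001e000800000000000000000000000) (nat_lit 0x0) (nat_lit 0x380018004e0000000000000000000000) := T_4 (nat_lit 108) (nat_lit 94) (nat_lit 2) (nat_lit 6) (nat_lit 6) L1186219 (by decide +kernel)
theorem L1186221 : W_4 (nat_lit 6) (nat_lit 0x100028001e000000000000000000000000000) (nat_lit 0x0) (nat_lit 0x38001801ce0000000000000000000000) := T_4 (nat_lit 95) (nat_lit 96) (nat_lit 2) (nat_lit 7) (nat_lit 6) L1186220 (by decide +kernel)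
theorem L1186222 : W_4 (nat_lit 7) (nat_lit 0x100008001e000000000000000000000000000) (nat_lit 0x0) (nat_lit 0x638001801ce0000000000000000000000) := T_4 (nat_lit 129) (nat_lit 130) (nat_lit 3) (nat_lit 7) (nat_lit 6) L1186221 (by decide +kernel)
theorem L1186223 : W_4 (nat_lit 8) (nat_lit 0x100008000e000000000000000000000000000) (nat_lit 0x0) (nat_lit 0xe78031801ce0000000000000000000000) := Q_4 (nat_lit 112) (C_4 L1158868 (C_4 L1158855 (C_4 L1186222 N_4))) (by decide +kernel)
theorem L1186224 : W_4 (nat_lit 2) (nat_lit 0x100009000f000440000001000000000000000) (nat_lit 0x0) (nat_lit 0x8000800020000000000000000000000) := D_4 (nat_lit 107) (nat_lit 123) (nat_lit 89) (nat_lit 1) (nat_lit 8) (nat_lit 6) (nat_lit 0) (nat_lit 8) (nat_lit 6) (by decide +kernel)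
theorem L1186225 : W_4 (nat_lit 3) (nat_lit 0x100009000f000400000001000000000000000) (nat_lit 0x0) (nat_lit 0x80008000e0000000000000000000000) := T_4 (nat_lit 90) (nat_lit 91) (nat_lit 0) (nat_lit 9) (nat_lit 6) L1186224 (by decide +kernel)
theorem L1186226 : W_4 (nat_lit 4) (nat_lit 0x100008000f000400000001000000000000000) (nat_lit 0x0) (nat_lit 0x380008000e0000000000000000000000) := T_4 (nat_lit 124) (nat_lit 125) (nat_lit 1) (nat_lit 9) (nat_lit 6) L1186225 (by decide +kernel)
theorem L1186227 : W_4 (nat_lit 5) (nat_lit 0x100008000e000400000001000000000000000) (nat_lit 0x0) (nat_lit 0x380018008e0000000000000000000000) := T_4 (nat_lit 108) (nat_lit 95) (nat_lit 2) (nat_lit 6) (nat_lit 6) L1186226 (by decide +kernel)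
theorem L1186228 : W_4 (nat_lit 6) (nat_lit 0x100008000e000400000000000000000000000) (nat_lit 0x0) (nat_lit 0x380018008e0020001000000000000000) := T_4 (nat_lit 60) (nat_lit 77) (nat_lit 5) (nat_lit 9) (nat_lit 3) L1186227 (by decide +kernel)
theorem L1186229 : W_4 (nat_lit 7) (nat_lit 0x100008000e000000000000000000000000000) (nat_lit 0x0) (nat_lit 0x20000000038001800ce0020001000000000000000) := T_4 (nat_lit 94) (nat_lit 161) (nat_lit 6) (nat_lit 8) (nat_lit 9) L1186228 (by decide +kernel)
theorem L1186233 : W_4 (nat_lit 2) (nat_lit 0x100008001f000000000000000000000000000) (nat_lit 0x0) (nat_lit 0x70000000000000000000000000000000) := D_4 (nat_lit 125) (nat_lit 126) (nat_lit 124) (nat_lit 1) (nat_lit 10) (nat_lit 6) (nat_lit 1) (nat_lit 9) (nat_lit 6) (by decide +kernel)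
theorem L1186234 : W_4 (nat_lit 5) (nat_lit 0x100008001f000000000000000000000000000) (nat_lit 0x0) (nat_lit 0x6380008000e0000000000000000000000) := T_4 (nat_lit 129) (nat_lit 130) (nat_lit 3) (nat_lit 7) (nat_lit 6) L1158863 (by decide +kernel)
theorem L1186235 : W_4 (nat_lit 2) (nat_lit 0x100028001fc00840000000000000000000000) (nat_lit 0x0) (nat_lit 0x1c000000000000000000000000000000) := D_4 (nat_lit 123) (nat_lit 122) (nat_lit 124) (nat_lit 1) (nat_lit 7) (nat_lit 6) (nat_lit 1) (nat_lit 8) (nat_lit 6) (by decide +kernel)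
theorem L1186236 : W_4 (nat_lit 3) (nat_lit 0x100028001f800840000000000000000000000) (nat_lit 0x0) (nat_lit 0x5c000400000000000000000000000000) := T_4 (nat_lit 106) (nat_lit 126) (nat_lit 3) (nat_lit 4) (nat_lit 6) L1186235 (by decide +kernel)
theorem L1186237 : W_4 (nat_lit 4) (nat_lit 0x100028001f800040000000000000000000000) (nat_lit 0x0) (nat_lit 0x5c000401800000000000000000000000) := T_4 (nat_lit 95) (nat_lit 96) (nat_lit 2) (nat_lit 7) (nat_lit 6) L1186236 (by decide +kernel)
theorem L1186238 : W_4 (nat_lit 5) (nat_lit 0x100028001f000040000000000000000000000) (nat_lit 0x0) (nat_lit 0x5c000c01820000000000000000000000) := T_4 (nat_lit 107) (nat_lit 89) (nat_lit 0) (nat_lit 8) (nat_lit 6) L1186237 (by decide +kernel)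
theorem L1186239 : W_4 (nat_lit 6) (nat_lit 0x100008001f000040000000000000000000000) (nat_lit 0x0) (nat_lit 0x65c000c01820000000000000000000000) := T_4 (nat_lit 129) (nat_lit 130) (nat_lit 3) (nat_lit 7) (nat_lit 6) L1186238 (by decide +kernel)
theorem L1186240 : W_4 (nat_lit 7) (nat_lit 0x100008001f000000000000000000000000000) (nat_lit 0x0) (nat_lit 0x65c000c018e0000000000000000000000) := T_4 (nat_lit 90) (nat_lit 91) (nat_lit 0) (nat_lit 9) (nat_lit 6) L1186239 (by decide +kernel)
theorem L1186241 : W_4 (nat_lit 2) (nat_lit 0x200010002c001f000080000000000000000000000) (nat_lit 0x0) (nat_lit 0x200010000800000000000000000000000000000000000) := D_4 (nat_lit 160) (nat_lit 143) (nat_lit 177) (nat_lit 4) (nat_lit 7) (nat_lit 9) (nat_lit 5) (nat_lit 8) (nat_lit 6) (by decide +kernel)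
theorem L1186242 : W_4 (nat_lit 3) (nat_lit 0x10002c001f000080000000000000000000000) (nat_lit 0x0) (nat_lit 0x600030000800000000000000000000000000000000000) := T_4 (nat_lit 161) (nat_lit 178) (nat_lit 4) (nat_lit 8) (nat_lit 10) L1186241 (by decide +kernel)
theorem L1186243 : W_4 (nat_lit 4) (nat_lit 0x10002c001f000000000000000000000000000) (nat_lit 0x0) (nat_lit 0x6000300008000000000000c0000000000000000000000) := T_4 (nat_lit 91) (nat_lit 90) (nat_lit 0) (nat_lit 9) (nat_lit 6) L1186242 (by decide +kernel)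
theorem L1186244 : W_4 (nat_lit 5) (nat_lit 0x100028001f000000000000000000000000000) (nat_lit 0x0) (nat_lit 0x6000300008000600000000c0000000000000000000000) := T_4 (nat_lit 126) (nat_lit 125) (nat_lit 1) (nat_lit 10) (nat_lit 6) L1186243 (by decide +kernel)
theorem L1186245 : W_4 (nat_lit 6) (nat_lit 0x100008001f000000000000000000000000000) (nat_lit 0x0) (nat_lit 0x6000300008006600000000c0000000000000000000000) := T_4 (nat_lit 129) (nat_lit 130) (nat_lit 3) (nat_lit 7) (nat_lit 6) L1186244 (by decide +kernel)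
theorem L1186246 : W_4 (nat_lit 8) (nat_lit 0x100008001e000000000000000000000000000) (nat_lit 0x0) (nat_lit 0x60003000080067c001c018e0000000000000000000000) := Q_4 (nat_lit 108) (C_4 L1186233 (C_4 L1186234 (C_4 L1186240 (C_4 L1186245 N_4)))) (by decide +kernel)
theorem L1186247 : W_4 (nat_lit 9) (nat_lit 0x100008000e000000000000000000000000000) (nat_lit 0x0) (nat_lit 0x600030000800e7c031c038e0000000000000000000000) := Q_4 (nat_lit 112) (C_4 L1158868 (C_4 L1158855 (C_4 L1186232 (C_4 L1186246 N_4)))) (by decide +kernel)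
theorem L1186248 : W_4 (nat_lit 10) (nat_lit 0x1000080006000000000000000000000000000) (nat_lit 0x0) (nat_lit 0x28001c000e00030000800e7c039c03ce0020001000000000000000) := Q_4 (nat_lit 111) (C_4 L1186216 (C_4 L1186223 (C_4 L1186229 (C_4 L1186247 N_4)))) (by decide +kernel)
theorem L1186249 : W_4 (nat_lit 17) (nat_lit 0x1000080004000000000000000000000000000) (nat_lit 0x0) (nat_lit 0x2002f001f800fe003e006f00e7f03bf03dfc03f803f80038001000000) := Q_4 (nat_lit 109) (C_4 L1186071 (C_4 L1158809 (C_4 L1186215 (C_4 L1186248 N_4)))) (by decide +kernel)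
theorem L1186250 : W_4 (nat_lit 2) (nat_lit 0x200010000c000e000200018000000000000000000) (nat_lit 0x0) (nat_lit 0x30010000000000000000000000000000) := D_4 (nat_lit 125) (nat_lit 124) (nat_lit 112) (nat_lit 2) (nat_lit 5) (nat_lit 7) (nat_lit 1) (nat_lit 10) (nat_lit 6) (by decide +kernel)
theorem L1186251 : W_4 (nat_lit 3) (nat_lit 0x200010000c0006000200018000000000000000000) (nat_lit 0x0) (nat_lit 0x30018000400000000000000000000000) := T_4 (nat_lit 111) (nat_lit 94) (nat_lit 6) (nat_lit 8) (nat_lit 9) L1186250 (by decide +kernel)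
theorem L1186252 : W_4 (nat_lit 4) (nat_lit 0x10000c0006000200018000000000000000000) (nat_lit 0x0) (nat_lit 0x400020000000030018000400000000000000000000000) := T_4 (nat_lit 161) (nat_lit 178) (nat_lit 4) (nat_lit 8) (nat_lit 10) L1186251 (by decide +kernel)
theorem L1186253 : W_4 (nat_lit 5) (nat_lit 0x10000c0004000200018000000000000000000) (nat_lit 0x0) (nat_lit 0x40002000000003001a000400000000800000000000000) := T_4 (nat_lit 109) (nat_lit 59) (nat_lit 5) (nat_lit 8) (nat_lit 3) L1186252 (by decide +kernel)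
theorem L1186254 : W_4 (nat_lit 6) (nat_lit 0x1000080004000200018000000000000000000) (nat_lit 0x0) (nat_lit 0x40002000080007001a000400000000800000000000000) := T_4 (nat_lit 126) (nat_lit 143) (nat_lit 5) (nat_lit 8) (nat_lit 4) L1186253 (by decide +kernel)
theorem L1186255 : W_4 (nat_lit 7) (nat_lit 0x1000080004000200008000000000000000000) (nat_lit 0x0) (nat_lit 0x40002000080007001a000400010000c00000000000000) := T_4 (nat_lit 76) (nat_lit 58) (nat_lit 4) (nat_lit 8) (nat_lit 7) L1186254 (by decide +kernel)
theorem L1186256 : W_4 (nat_lit 8) (nat_lit 0x1000080004000200000000000000000000000) (nat_lit 0x0) (nat_lit 0x40002000080007001a000500018000c00000000000000) := T_4 (nat_lit 75) (nat_lit 92) (nat_lit 4) (nat_lit 8) (nat_lit 8) L1186255 (by decide +kernel)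
theorem L1186257 : W_4 (nat_lit 10) (nat_lit 0x1000080004000000000000000000000000000) (nat_lit 0x0) (nat_lit 0x28001c000e0002000080007001b800700038001c000e0000000000) := Q_4 (nat_lit 93) (C_4 L154 (C_4 L1048883 (C_4 L1048870 (C_4 L1186256 (C_4 L76322 N_4))))) (by decide +kernel)
theorem L1186285 : W_4 (nat_lit 9) (nat_lit 0x1000080004000000000000000000000000000) (nat_lit 0x0) (nat_lit 0x100038001c000e0003000080006003a000700008000000000000000000) := Q_4 (nat_lit 161) (C_4 L1186281 (C_4 L1185061 (C_4 L1185064 (C_4 L1048908 (C_4 L1186284 N_4))))) (by decide +kernel)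
theorem L1186988 : W_4 (nat_lit 18) (nat_lit 0x1000080000000000000000000000000000000) (nat_lit 0x0) (nat_lit 0x12003f001f800fe01be00ef81e7f0fff03ffc3ff807f802f8005000000) := Q_4 (nat_lit 110) (C_4 L1158872 (C_4 L1185050 (C_4 L1186249 (C_4 L1186257 (C_4 L1048894 (C_4 L1186277 (C_4 L76327 (C_4 L1186285 (C_4 L1048916 (C_4 L1186986 (C_4 L1186987 N_4))))))))))) (by decide +kernel)
theorem L1204960 : W_4 (nat_lit 2) (nat_lit 0x400000007e002c0002000000000000000000000000000) (nat_lit 0x0) (nat_lit 0xe000000000000000000000000000000000000000) := D_4 (nat_lit 158) (nat_lit 159) (nat_lit 157) (nat_lit 1) (nat_lit 9) (nat_lit 8) (nat_lit 1) (nat_lit 8) (nat_lit 8) (by decide +kernel)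
theorem L1204961 : W_4 (nat_lit 3) (nat_lit 0x400000007c002c0002000000000000000000000000000) (nat_lit 0x0) (nat_lit 0xe000300000000000000000000000000000000000) := T_4 (nat_lit 141) (nat_lit 140) (nat_lit 2) (nat_lit 4) (nat_lit 8) L1204960 (by decide +kernel)
theorem L1204962 : W_4 (nat_lit 4) (nat_lit 0x4000000078002c0002000000000000000000000000000) (nat_lit 0x0) (nat_lit 0xe000700100000000000000000000000000000000) := T_4 (nat_lit 142) (nat_lit 128) (nat_lit 2) (nat_lit 6) (nat_lit 8) L1204961 (by decide +kernel)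
theorem L1204963 : W_4 (nat_lit 5) (nat_lit 0x4000000078000c0002000000000000000000000000000) (nat_lit 0x0) (nat_lit 0xe000700700000000000000000000000000000000) := T_4 (nat_lit 129) (nat_lit 130) (nat_lit 2) (nat_lit 7) (nat_lit 8) L1204962 (by decide +kernel)
theorem L1204964 : W_4 (nat_lit 6) (nat_lit 0x4000000038000c0002000000000000000000000000000) (nat_lit 0x0) (nat_lit 0xe00c700700000000000000000000000000000000) := T_4 (nat_lit 146) (nat_lit 147) (nat_lit 0) (nat_lit 11) (nat_lit 8) L1204963 (by decide +kernel)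
theorem L1204965 : W_4 (nat_lit 7) (nat_lit 0x38000c0002000000000000000000000000000) (nat_lit 0x0) (nat_lit 0x40002e00c700700000000000000000000000000000000) := T_4 (nat_lit 178) (nat_lit 161) (nat_lit 4) (nat_lit 8) (nat_lit 10) L1204964 (by decide +kernel)
theorem L1206228 : W_4 (nat_lit 2) (nat_lit 0x20001c000c0004000200000000000000000000000) (nat_lit 0x0) (nat_lit 0x2000100008000000000000000000) := D_4 (nat_lit 92) (nat_lit 109) (nat_lit 75) (nat_lit 7) (nat_lit 7) (nat_lit 5) (nat_lit 4) (nat_lit 8) (nat_lit 8) (by decide +kernel)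
theorem L1206229 : W_4 (nat_lit 3) (nat_lit 0x20001c000c0004000000000000000000000000000) (nat_lit 0x0) (nat_lit 0x2000300018000000000000000000) := T_4 (nat_lit 93) (nat_lit 76) (nat_lit 5) (nat_lit 8) (nat_lit 4) L1206228 (by decide +kernel)
theorem L1207809 : W_4 (nat_lit 2) (nat_lit 0x58002c0030001c00000000000000000000000) (nat_lit 0x0) (nat_lit 0xc0000200000000000000000000000) := D_4 (nat_lit 114) (nat_lit 93) (nat_lit 115) (nat_lit 3) (nat_lit 8) (nat_lit 5) (nat_lit 0) (nat_lit 13) (nat_lit 6) (by decide +kernel)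
theorem L1207810 : W_4 (nat_lit 3) (nat_lit 0x58002c0010001c00000000000000000000000) (nat_lit 0x0) (nat_lit 0x800000000000e0000200000000000000000000000) := T_4 (nat_lit 113) (nat_lit 163) (nat_lit 6) (nat_lit 10) (nat_lit 9) L1207809 (by decide +kernel)
theorem L1207811 : W_4 (nat_lit 4) (nat_lit 0x58002c0010000c00000000000000000000000) (nat_lit 0x0) (nat_lit 0x800000000000e0001200080000000000000000000) := T_4 (nat_lit 96) (nat_lit 79) (nat_lit 6) (nat_lit 10) (nat_lit 8) L1207810 (by decide +kernel)
theorem L1207812 : W_4 (nat_lit 5) (nat_lit 0x58002c0010000800000000000000000000000) (nat_lit 0x0) (nat_lit 0x800000000000e00016000a0000000000000000000) := T_4 (nat_lit 94) (nat_lit 77) (nat_lit 4) (nat_lit 10) (nat_lit 8) L1207811 (by decide +kernel)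
theorem L1207813 : W_4 (nat_lit 6) (nat_lit 0x58002c0010000000000000000000000000000) (nat_lit 0x0) (nat_lit 0x20001800080004000e0001e000e0001000000000000000) := Q_4 (nat_lit 95) (C_4 L628201 (C_4 L1207812 (C_4 L628182 N_4))) (by decide +kernel)
theorem L1207839 : W_4 (nat_lit 2) (nat_lit 0x58002c0014000f00000000000000000000000) (nat_lit 0x0) (nat_lit 0x10000c0000000000000000000) := D_4 (nat_lit 79) (nat_lit 78) (nat_lit 96) (nat_lit 2) (nat_lit 7) (nat_lit 5) (nat_lit 6) (nat_lit 10) (nat_lit 8) (by decide +kernel)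
theorem L1207840 : W_4 (nat_lit 3) (nat_lit 0x58002c0014000700000000000000000000000) (nat_lit 0x0) (nat_lit 0x200018000c0000000000000000000) := T_4 (nat_lit 95) (nat_lit 113) (nat_lit 3) (nat_lit 7) (nat_lit 5) L1207839 (by decide +kernel)
theorem L1207841 : W_4 (nat_lit 4) (nat_lit 0x58002c0014000300000000000000000000000) (nat_lit 0x0) (nat_lit 0x20001c000e0000000000000000000) := T_4 (nat_lit 94) (nat_lit 77) (nat_lit 6) (nat_lit 8) (nat_lit 8) L1207840 (by decide +kernel)
theorem L1207842 : W_4 (nat_lit 5) (nat_lit 0x58002c0014000200000000000000000000000) (nat_lit 0x0) (nat_lit 0x20001d000e8000000000000000000) := T_4 (nat_lit 92) (nat_lit 75) (nat_lit 4) (nat_lit 8) (nat_lit 8) L1207841 (by decide +kernel)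
theorem L1207845 : W_4 (nat_lit 6) (nat_lit 0x58002c0014000000000000000000000000000) (nat_lit 0x0) (nat_lit 0x20001f000f8000000000000000000) := T_4 (nat_lit 93) (nat_lit 76) (nat_lit 5) (nat_lit 8) (nat_lit 4) L1207842 (by decide +kernel)
theorem L1212801 : W_4 (nat_lit 6) (nat_lit 0x200010000c0004000000000000000000000000000) (nat_lit 0x0) (nat_lit 0x200010000800100003c00380000000000000000000000) := T_4 (nat_lit 109) (nat_lit 92) (nat_lit 4) (nat_lit 8) (nat_lit 9) L1048976 (by decide +kernel)
theorem L1212802 : W_4 (nat_lit 3) (nat_lit 0x200010000c0004000300000000000000000000000) (nat_lit 0x0) (nat_lit 0x800000000000400030001000000000000000) := T_4 (nat_lit 76) (nat_lit 143) (nat_lit 5) (nat_lit 8) (nat_lit 4) L317463 (by decide +kernel)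
theorem L1212803 : W_4 (nat_lit 4) (nat_lit 0x200010000c0004000100000000000000000000000) (nat_lit 0x0) (nat_lit 0x800000000000600038001000000000000000) := T_4 (nat_lit 93) (nat_lit 75) (nat_lit 4) (nat_lit 8) (nat_lit 8) L1212802 (by decide +kernel)
theorem L1212804 : W_4 (nat_lit 5) (nat_lit 0x200010000c0004000000000000000000000000000) (nat_lit 0x0) (nat_lit 0x800000002000700038001000000000000000) := T_4 (nat_lit 92) (nat_lit 109) (nat_lit 4) (nat_lit 8) (nat_lit 9) L1212803 (by decide +kernel)
theorem L1212805 : W_4 (nat_lit 6) (nat_lit 0x300010000c0004000000000000000000000000000) (nat_lit 0x0) (nat_lit 0x800000002000600038001c00020000000000) := T_4 (nat_lit 93) (nat_lit 143) (nat_lit 5) (nat_lit 8) (nat_lit 5) L117056 (by decide +kernel)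
theorem L1212806 : W_4 (nat_lit 7) (nat_lit 0x200010000c0004000000000000000000000000000) (nat_lit 0x0) (nat_lit 0x200010000800000002000600038001c00020000000000) := T_4 (nat_lit 160) (nat_lit 177) (nat_lit 5) (nat_lit 8) (nat_lit 6) L1212805 (by decide +kernel)
theorem L1212807 : W_4 (nat_lit 6) (nat_lit 0x200010000c0004000200000000000000000000000) (nat_lit 0x0) (nat_lit 0x200010000000000002000400038001c00020000000000) := T_4 (nat_lit 160) (nat_lit 177) (nat_lit 5) (nat_lit 8) (nat_lit 6) L117056 (by decide +kernel)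
theorem L1212808 : W_4 (nat_lit 2) (nat_lit 0x200010000c0004000200000000000000000000000) (nat_lit 0x0) (nat_lit 0x2000100008000000000000000000) := D_4 (nat_lit 92) (nat_lit 109) (nat_lit 75) (nat_lit 4) (nat_lit 8) (nat_lit 9) (nat_lit 4) (nat_lit 8) (nat_lit 8) (by decide +kernel)
theorem L1212809 : W_4 (nat_lit 4) (nat_lit 0x200010000c0004000200000000000000000000000) (nat_lit 0x0) (nat_lit 0x2000500030001800000000000000) := T_4 (nat_lit 109) (nat_lit 92) (nat_lit 4) (nat_lit 8) (nat_lit 9) L49313 (by decide +kernel)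
theorem L1212810 : W_4 (nat_lit 7) (nat_lit 0x200010000c0004000000000000000000000000000) (nat_lit 0x0) (nat_lit 0x200010000000000002000700038001c00020000000000) := Q_4 (nat_lit 93) (C_4 L172262 (C_4 L1212807 (C_4 L1212808 (C_4 L1212809 N_4)))) (by decide +kernel)
theorem L1212811 : W_4 (nat_lit 5) (nat_lit 0x300010000c0004000000000000000000000000000) (nat_lit 0x0) (nat_lit 0x800000000000700038001400000000000000) := T_4 (nat_lit 93) (nat_lit 143) (nat_lit 5) (nat_lit 8) (nat_lit 5) L172781 (by decide +kernel)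
theorem L1212812 : W_4 (nat_lit 6) (nat_lit 0x200010000c0004000000000000000000000000000) (nat_lit 0x0) (nat_lit 0x200010000800000000000700038001400000000000000) := T_4 (nat_lit 160) (nat_lit 177) (nat_lit 5) (nat_lit 8) (nat_lit 6) L1212811 (by decide +kernel)
theorem L1212813 : W_4 (nat_lit 10) (nat_lit 0x200010000c0000000000000000000000000000000) (nat_lit 0x0) (nat_lit 0x30001e00ef00700037c00780038001c00020000000000) := Q_4 (nat_lit 110) (C_4 L1212801 (C_4 L1130117 (C_4 L1212804 (C_4 L1212806 (C_4 L1212810 (C_4 L1212812 N_4)))))) (by decide +kernel)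
theorem L1212818 : W_4 (nat_lit 11) (nat_lit 0x10000c0000000000000000000000000000000) (nat_lit 0x0) (nat_lit 0x28001c001f0003e00ef00700037c00780038001c00020000000000) := Q_4 (nat_lit 161) (C_4 L314843 (C_4 L1212813 (C_4 L1212814 (C_4 L1212817 N_4)))) (by decide +kernel)
theorem L1212820 : W_4 (nat_lit 2) (nat_lit 0x4000000018001e0002800000000000000000000000000) (nat_lit 0x0) (nat_lit 0x18000400000000000000000000000000) := D_4 (nat_lit 124) (nat_lit 123) (nat_lit 106) (nat_lit 3) (nat_lit 4) (nat_lit 7) (nat_lit 0) (nat_lit 8) (nat_lit 7) (by decide +kernel)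
theorem L1212821 : W_4 (nat_lit 3) (nat_lit 0x4000000018001e0002000000000000000000000000000) (nat_lit 0x0) (nat_lit 0x18001c00000000000000000000000000) := T_4 (nat_lit 107) (nat_lit 108) (nat_lit 0) (nat_lit 9) (nat_lit 7) L1212820 (by decide +kernel)
theorem L1212822 : W_4 (nat_lit 4) (nat_lit 0x18001e0002000000000000000000000000000) (nat_lit 0x0) (nat_lit 0x400020000000018001c00000000000000000000000000) := T_4 (nat_lit 178) (nat_lit 161) (nat_lit 4) (nat_lit 8) (nat_lit 10) L1212821 (by decide +kernel)
theorem L1213020 : W_4 (nat_lit 2) (nat_lit 0x4001e000f0002000000000000000000000000000) (nat_lit 0x0) (nat_lit 0x80000000000000001000080000000000000000000000) := D_4 (nat_lit 108) (nat_lit 91) (nat_lit 175) (nat_lit 5) (nat_lit 6) (nat_lit 5) (nat_lit 6) (nat_lit 5) (nat_lit 10) (by decide +kernel)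
theorem L1213042 : W_4 (nat_lit 3) (nat_lit 0x4000000018000e0007800080000000000000000000000) (nat_lit 0x0) (nat_lit 0x400000000000060002000100000000000000) := T_4 (nat_lit 90) (nat_lit 89) (nat_lit 0) (nat_lit 8) (nat_lit 6) L1177672 (by decide +kernel)
theorem L1213043 : W_4 (nat_lit 4) (nat_lit 0x4000000018000e0007000080000000000000000000000) (nat_lit 0x0) (nat_lit 0x400000000c00060002000100000000000000) := T_4 (nat_lit 107) (nat_lit 106) (nat_lit 3) (nat_lit 4) (nat_lit 6) L1213042 (by decide +kernel)
theorem L1213266 : W_4 (nat_lit 3) (nat_lit 0x400000001a000c0002000000000000000000000000000) (nat_lit 0x0) (nat_lit 0x500038000000000000000000000000000000) := Q_4 (nat_lit 124) (C_4 L999487 (C_4 L999489 (C_4 L999488 (C_4 L999486 N_4)))) (by decide +kernel)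
theorem L1213400 : W_4 (nat_lit 2) (nat_lit 0x100014001e0003000000000000000000000000000) (nat_lit 0x0) (nat_lit 0x300008000000000000000000000000000000000000000) := D_4 (nat_lit 159) (nat_lit 176) (nat_lit 177) (nat_lit 6) (nat_lit 6) (nat_lit 10) (nat_lit 7) (nat_lit 6) (nat_lit 6) (by decide +kernel)
theorem L1213401 : W_4 (nat_lit 3) (nat_lit 0x100010001e0003000000000000000000000000000) (nat_lit 0x0) (nat_lit 0x300008000600000000000000000000000000000000000) := T_4 (nat_lit 142) (nat_lit 141) (nat_lit 1) (nat_lit 9) (nat_lit 7) L1213400 (by decide +kernel)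
theorem L1213402 : W_4 (nat_lit 4) (nat_lit 0x100010000e0003000000000000000000000000000) (nat_lit 0x0) (nat_lit 0x300008000600300000000000000000000000000000000) := T_4 (nat_lit 128) (nat_lit 129) (nat_lit 0) (nat_lit 10) (nat_lit 7) L1213401 (by decide +kernel)
theorem L1213403 : W_4 (nat_lit 2) (nat_lit 0x100010000f0003000000000000000000000000000) (nat_lit 0x0) (nat_lit 0xc004000000000000000000000000000) := D_4 (nat_lit 123) (nat_lit 110) (nat_lit 122) (nat_lit 2) (nat_lit 4) (nat_lit 7) (nat_lit 2) (nat_lit 3) (nat_lit 7) (by decide +kernel)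
theorem L1213465 : W_4 (nat_lit 2) (nat_lit 0x4000100012001f0003000000000000000000000000000) (nat_lit 0x0) (nat_lit 0xc004000000000000000000000000000) := D_4 (nat_lit 123) (nat_lit 122) (nat_lit 110) (nat_lit 2) (nat_lit 3) (nat_lit 7) (nat_lit 2) (nat_lit 4) (nat_lit 7) (by decide +kernel)
theorem L1213466 : W_4 (nat_lit 3) (nat_lit 0x4000100012001e0003000000000000000000000000000) (nat_lit 0x0) (nat_lit 0x10001c004000000000000000000000000000) := T_4 (nat_lit 124) (nat_lit 140) (nat_lit 1) (nat_lit 8) (nat_lit 7) L1213465 (by decide +kernel)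
theorem L1214839 : W_4 (nat_lit 3) (nat_lit 0x300010000c0003000000000000000000000000000) (nat_lit 0x0) (nat_lit 0x4000200000000800020000000080000000000000000000000) := T_4 (nat_lit 143) (nat_lit 91) (nat_lit 4) (nat_lit 7) (nat_lit 9) L1002058 (by decide +kernel)
theorem L1214993 : W_4 (nat_lit 2) (nat_lit 0x10001e0003000080000000000000000000000) (nat_lit 0x0) (nat_lit 0x800000000000000004000200000000000000) := D_4 (nat_lit 74) (nat_lit 143) (nat_lit 57) (nat_lit 7) (nat_lit 6) (nat_lit 4) (nat_lit 7) (nat_lit 6) (nat_lit 3) (by decide +kernel)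
theorem L1215102 : W_4 (nat_lit 2) (nat_lit 0x300050003c0016000200010000000000000000000) (nat_lit 0x0) (nat_lit 0x400020001000000000000000) := D_4 (nat_lit 77) (nat_lit 94) (nat_lit 60) (nat_lit 6) (nat_lit 8) (nat_lit 8) (nat_lit 6) (nat_lit 8) (nat_lit 7) (by decide +kernel)
theorem L1215103 : W_4 (nat_lit 3) (nat_lit 0x300050003c0016000200000000000000000000000) (nat_lit 0x0) (nat_lit 0x400030001800000000000000) := T_4 (nat_lit 76) (nat_lit 59) (nat_lit 5) (nat_lit 8) (nat_lit 3) L1215102 (by decide +kernel)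
theorem L1215104 : W_4 (nat_lit 4) (nat_lit 0x300050003c0016000000000000000000000000000) (nat_lit 0x0) (nat_lit 0x800000000000600030001800000000000000) := T_4 (nat_lit 93) (nat_lit 143) (nat_lit 6) (nat_lit 7) (nat_lit 9) L1215103 (by decide +kernel)
theorem L1215120 : W_4 (nat_lit 5) (nat_lit 0x200050003c0016000000000000000000000000000) (nat_lit 0x0) (nat_lit 0x200010000800000000000600030001800000000000000) := T_4 (nat_lit 160) (nat_lit 177) (nat_lit 5) (nat_lit 8) (nat_lit 6) L1215104 (by decide +kernel)
theorem L1215121 : W_4 (nat_lit 6) (nat_lit 0x50003c0016000000000000000000000000000) (nat_lit 0x0) (nat_lit 0x600030000800000000000600030001800000000000000) := T_4 (nat_lit 161) (nat_lit 178) (nat_lit 4) (nat_lit 8) (nat_lit 10) L1215120 (by decide +kernel)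
theorem L1215122 : W_4 (nat_lit 7) (nat_lit 0x10003c0016000000000000000000000000000) (nat_lit 0x0) (nat_lit 0x60003000c800000000000600030001800000000000000) := T_4 (nat_lit 146) (nat_lit 147) (nat_lit 3) (nat_lit 7) (nat_lit 7) L1215121 (by decide +kernel)
theorem L1215123 : W_4 (nat_lit 8) (nat_lit 0x10003c0006000000000000000000000000000) (nat_lit 0x0) (nat_lit 0x60003000c800000030000600030001800000000000000) := T_4 (nat_lit 112) (nat_lit 113) (nat_lit 2) (nat_lit 7) (nat_lit 7) L1215122 (by decide +kernel)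
theorem L1215124 : W_4 (nat_lit 2) (nat_lit 0x18003c0006000000000000000000000000000) (nat_lit 0x0) (nat_lit 0x200010000000000000000200000000000000000000000) := D_4 (nat_lit 160) (nat_lit 177) (nat_lit 93) (nat_lit 6) (nat_lit 7) (nat_lit 10) (nat_lit 6) (nat_lit 7) (nat_lit 9) (by decide +kernel)
theorem L1215125 : W_4 (nat_lit 3) (nat_lit 0x10003c0006000000000000000000000000000) (nat_lit 0x0) (nat_lit 0x200010000c00000000000200000000000000000000000) := T_4 (nat_lit 143) (nat_lit 142) (nat_lit 1) (nat_lit 10) (nat_lit 7) L1215124 (by decide +kernel)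
theorem L1215253 : W_4 (nat_lit 2) (nat_lit 0x300010003c0016000200010000000000000000000) (nat_lit 0x0) (nat_lit 0x400020001000000000000000) := D_4 (nat_lit 77) (nat_lit 94) (nat_lit 60) (nat_lit 6) (nat_lit 8) (nat_lit 8) (nat_lit 6) (nat_lit 8) (nat_lit 7) (by decide +kernel)
theorem L1215254 : W_4 (nat_lit 3) (nat_lit 0x300010003c0016000200000000000000000000000) (nat_lit 0x0) (nat_lit 0x400030001800000000000000) := T_4 (nat_lit 76) (nat_lit 59) (nat_lit 5) (nat_lit 8) (nat_lit 3) L1215253 (by decide +kernel)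
theorem L1215255 : W_4 (nat_lit 4) (nat_lit 0x300010003c0016000000000000000000000000000) (nat_lit 0x0) (nat_lit 0x800000000000600030001800000000000000) := T_4 (nat_lit 93) (nat_lit 143) (nat_lit 6) (nat_lit 7) (nat_lit 9) L1215254 (by decide +kernel)
theorem L1215821 : W_4 (nat_lit 2) (nat_lit 0x4000000052003c0022000000000000000000000000000) (nat_lit 0x0) (nat_lit 0x800400040000000000000000000000000000) := D_4 (nat_lit 130) (nat_lit 143) (nat_lit 114) (nat_lit 1) (nat_lit 11) (nat_lit 7) (nat_lit 2) (nat_lit 8) (nat_lit 7) (by decide +kernel)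
theorem L1215822 : W_4 (nat_lit 3) (nat_lit 0x4000000052003c0002000000000000000000000000000) (nat_lit 0x0) (nat_lit 0x800400070000000000000000000000000000) := T_4 (nat_lit 113) (nat_lit 112) (nat_lit 2) (nat_lit 7) (nat_lit 7) L1215821 (by decide +kernel)
theorem L1215823 : W_4 (nat_lit 4) (nat_lit 0x4000000012003c0002000000000000000000000000000) (nat_lit 0x0) (nat_lit 0xc800400070000000000000000000000000000) := T_4 (nat_lit 146) (nat_lit 147) (nat_lit 3) (nat_lit 7) (nat_lit 7) L1215822 (by decide +kernel)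
theorem L1219273 : W_4 (nat_lit 7) (nat_lit 0x100010000c0002000000000000000000000000000) (nat_lit 0x0) (nat_lit 0x600030000e000800300005c00280000000000000000000000) := Q_4 (nat_lit 143) (C_4 L1117867 (C_4 L619455 (C_4 L1049184 N_4))) (by decide +kernel)
theorem L1219274 : W_4 (nat_lit 7) (nat_lit 0x100010000c0002000000000000000000000000000) (nat_lit 0x0) (nat_lit 0xe000700028000800320001c00080000000000000000000000) := Q_4 (nat_lit 143) (C_4 L1027467 (C_4 L619455 (C_4 L619469 (C_4 L619404 N_4)))) (by decide +kernel)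
theorem L1219277 : W_4 (nat_lit 10) (nat_lit 0x100010000c0002000000000000000000000000000) (nat_lit 0x0) (nat_lit 0x200010005c002e000f00330005c00280000000000000000000000) := Q_4 (nat_lit 143) (C_4 L619431 (C_4 L1117873 (C_4 L1049184 (C_4 L1219276 N_4)))) (by decide +kernel)
theorem L1219278 : W_4 (nat_lit 10) (nat_lit 0x300010000c0003800000000000000000000000000) (nat_lit 0x0) (nat_lit 0x2000000000000180040006e003e001f00000000000000) := T_4 (nat_lit 110) (nat_lit 177) (nat_lit 5) (nat_lit 8) (nat_lit 6) L106659 (by decide +kernel)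
theorem L1219279 : W_4 (nat_lit 11) (nat_lit 0x300010000c0003000000000000000000000000000) (nat_lit 0x0) (nat_lit 0x200000000000018004c006e003e001f00000000000000) := T_4 (nat_lit 107) (nat_lit 106) (nat_lit 3) (nat_lit 4) (nat_lit 6) L1219278 (by decide +kernel)
theorem L1219702 : W_4 (nat_lit 7) (nat_lit 0x300010000e0002000000000000000000000000000) (nat_lit 0x0) (nat_lit 0x300008000700118004c00040000000000000000000000) := T_4 (nat_lit 110) (nat_lit 177) (nat_lit 5) (nat_lit 8) (nat_lit 6) L105014 (by decide +kernel)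
theorem L1219703 : W_4 (nat_lit 8) (nat_lit 0x100010000e0002000000000000000000000000000) (nat_lit 0x0) (nat_lit 0x700028000700118004c00040000000000000000000000) := T_4 (nat_lit 161) (nat_lit 178) (nat_lit 4) (nat_lit 8) (nat_lit 10) L1219702 (by decide +kernel)
theorem L1219704 : W_4 (nat_lit 2) (nat_lit 0x100012000f4003800000000000000000000000000) (nat_lit 0x0) (nat_lit 0x4000000000000000080004000000000000000000) := D_4 (nat_lit 91) (nat_lit 74) (nat_lit 158) (nat_lit 5) (nat_lit 6) (nat_lit 4) (nat_lit 6) (nat_lit 5) (nat_lit 9) (by decide +kernel)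
theorem L1219705 : W_4 (nat_lit 3) (nat_lit 0x100010000f4003800000000000000000000000000) (nat_lit 0x0) (nat_lit 0x4000300000000000080004000000000000000000) := T_4 (nat_lit 141) (nat_lit 140) (nat_lit 1) (nat_lit 8) (nat_lit 7) L1219704 (by decide +kernel)
theorem L1219706 : W_4 (nat_lit 4) (nat_lit 0x100010000f4003000000000000000000000000000) (nat_lit 0x0) (nat_lit 0x4000300000000c00080004000000000000000000) := T_4 (nat_lit 107) (nat_lit 106) (nat_lit 3) (nat_lit 4) (nat_lit 6) L1219705 (by decide +kernel)
theorem L1219707 : W_4 (nat_lit 5) (nat_lit 0x100010000f0003000000000000000000000000000) (nat_lit 0x0) (nat_lit 0x400030000c000c00080004000000000000000000) := T_4 (nat_lit 122) (nat_lit 123) (nat_lit 2) (nat_lit 3) (nat_lit 7) L1219706 (by decide +kernel)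
theorem L1219708 : W_4 (nat_lit 2) (nat_lit 0x100012000f0003400080000000000000000000000) (nat_lit 0x0) (nat_lit 0x80004000400000000000000000000000000000000000) := D_4 (nat_lit 158) (nat_lit 175) (nat_lit 142) (nat_lit 6) (nat_lit 5) (nat_lit 10) (nat_lit 5) (nat_lit 6) (nat_lit 5) (by decide +kernel)
theorem L1219709 : W_4 (nat_lit 3) (nat_lit 0x100012000f0003400000000000000000000000000) (nat_lit 0x0) (nat_lit 0x80004000400000000000080004000000000000000000) := T_4 (nat_lit 91) (nat_lit 74) (nat_lit 5) (nat_lit 6) (nat_lit 4) L1219708 (by decide +kernel)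
theorem L1219710 : W_4 (nat_lit 4) (nat_lit 0x100012000f0003000000000000000000000000000) (nat_lit 0x0) (nat_lit 0x80004000400000000c00080004000000000000000000) := T_4 (nat_lit 106) (nat_lit 107) (nat_lit 3) (nat_lit 4) (nat_lit 6) L1219709 (by decide +kernel)
theorem L1219711 : W_4 (nat_lit 5) (nat_lit 0x100010000f0003000000000000000000000000000) (nat_lit 0x0) (nat_lit 0x80004000700000000c00080004000000000000000000) := T_4 (nat_lit 141) (nat_lit 140) (nat_lit 1) (nat_lit 8) (nat_lit 7) L1219710 (by decide +kernel)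
theorem L1219712 : W_4 (nat_lit 6) (nat_lit 0x100010000e0003000000000000000000000000000) (nat_lit 0x0) (nat_lit 0x8000400070001c004c00080004000000000000000000) := Q_4 (nat_lit 124) (C_4 L1213403 (C_4 L1219707 (C_4 L1219711 N_4))) (by decide +kernel)
theorem L1219713 : W_4 (nat_lit 2) (nat_lit 0x100010000e0003000000000000000000000000000) (nat_lit 0x0) (nat_lit 0x100000c00000000000000000000000000) := D_4 (nat_lit 107) (nat_lit 106) (nat_lit 128) (nat_lit 3) (nat_lit 4) (nat_lit 6) (nat_lit 0) (nat_lit 9) (nat_lit 7) (by decide +kernel)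
theorem L1219714 : W_4 (nat_lit 7) (nat_lit 0x100010000e0002000000000000000000000000000) (nat_lit 0x0) (nat_lit 0x38000c00070031c005c00080004000000000000000000) := Q_4 (nat_lit 108) (C_4 L1219712 (C_4 L1219713 (C_4 L1213402 N_4))) (by decide +kernel)
theorem L1219715 : W_4 (nat_lit 6) (nat_lit 0x300010000e0006000000000000000000000000000) (nat_lit 0x0) (nat_lit 0x80004000300118001c00080000000000000000000000) := T_4 (nat_lit 124) (nat_lit 123) (nat_lit 2) (nat_lit 4) (nat_lit 7) L105910 (by decide +kernel)
theorem L1219716 : W_4 (nat_lit 7) (nat_lit 0x300010000e0002000000000000000000000000000) (nat_lit 0x0) (nat_lit 0x280004000300118005c00080000000000000000000000) := T_4 (nat_lit 110) (nat_lit 177) (nat_lit 5) (nat_lit 8) (nat_lit 6) L1219715 (by decide +kernel)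
theorem L1219717 : W_4 (nat_lit 8) (nat_lit 0x100010000e0002000000000000000000000000000) (nat_lit 0x0) (nat_lit 0x680024000300118005c00080000000000000000000000) := T_4 (nat_lit 161) (nat_lit 178) (nat_lit 4) (nat_lit 8) (nat_lit 10) L1219716 (by decide +kernel)
theorem L1219718 : W_4 (nat_lit 2) (nat_lit 0x4000100012000f4003000080000000000000000000000) (nat_lit 0x0) (nat_lit 0x80004000400000000000000000000000000000000000) := D_4 (nat_lit 158) (nat_lit 175) (nat_lit 142) (nat_lit 6) (nat_lit 5) (nat_lit 10) (nat_lit 5) (nat_lit 6) (nat_lit 5) (by decide +kernel)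
theorem L1219719 : W_4 (nat_lit 3) (nat_lit 0x4000100012000f4003000000000000000000000000000) (nat_lit 0x0) (nat_lit 0x80004000400000000000080004000000000000000000) := T_4 (nat_lit 91) (nat_lit 74) (nat_lit 5) (nat_lit 6) (nat_lit 4) L1219718 (by decide +kernel)
theorem L1219720 : W_4 (nat_lit 4) (nat_lit 0x4000100010000f4003000000000000000000000000000) (nat_lit 0x0) (nat_lit 0x80004000700000000000080004000000000000000000) := T_4 (nat_lit 141) (nat_lit 140) (nat_lit 1) (nat_lit 8) (nat_lit 7) L1219719 (by decide +kernel)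
theorem L1219721 : W_4 (nat_lit 5) (nat_lit 0x4000100010000f0003000000000000000000000000000) (nat_lit 0x0) (nat_lit 0x8000400070000c000000080004000000000000000000) := T_4 (nat_lit 122) (nat_lit 123) (nat_lit 2) (nat_lit 3) (nat_lit 7) L1219720 (by decide +kernel)
theorem L1219722 : W_4 (nat_lit 6) (nat_lit 0x100010000f0003000000000000000000000000000) (nat_lit 0x0) (nat_lit 0x48002400070000c000000080004000000000000000000) := T_4 (nat_lit 178) (nat_lit 161) (nat_lit 4) (nat_lit 8) (nat_lit 10) L1219721 (by decide +kernel)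
theorem L1219723 : W_4 (nat_lit 2) (nat_lit 0x4000100010000f0003400000000000000000000000000) (nat_lit 0x0) (nat_lit 0xc000200000000000000000000000000) := D_4 (nat_lit 123) (nat_lit 122) (nat_lit 105) (nat_lit 2) (nat_lit 3) (nat_lit 7) (nat_lit 0) (nat_lit 7) (nat_lit 7) (by decide +kernel)
theorem L1219724 : W_4 (nat_lit 3) (nat_lit 0x4000100010000f0003000000000000000000000000000) (nat_lit 0x0) (nat_lit 0xc000e00000000000000000000000000) := T_4 (nat_lit 106) (nat_lit 107) (nat_lit 3) (nat_lit 4) (nat_lit 6) L1219723 (by decide +kernel)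
theorem L1219725 : W_4 (nat_lit 4) (nat_lit 0x100010000f0003000000000000000000000000000) (nat_lit 0x0) (nat_lit 0x40002000000000c000e00000000000000000000000000) := T_4 (nat_lit 178) (nat_lit 161) (nat_lit 4) (nat_lit 8) (nat_lit 10) L1219724 (by decide +kernel)
theorem L1219726 : W_4 (nat_lit 7) (nat_lit 0x100010000e0003000000000000000000000000000) (nat_lit 0x0) (nat_lit 0x48002400070001c000e00080004000000000000000000) := Q_4 (nat_lit 124) (C_4 L1219722 (C_4 L1219711 (C_4 L1219707 (C_4 L1219725 N_4)))) (by decide +kernel)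
theorem L1219727 : W_4 (nat_lit 8) (nat_lit 0x100010000e0002000000000000000000000000000) (nat_lit 0x0) (nat_lit 0x78002c00070031c001e00080004000000000000000000) := Q_4 (nat_lit 108) (C_4 L1219726 (C_4 L1219713 (C_4 L1213402 N_4))) (by decide +kernel)
theorem L1219728 : W_4 (nat_lit 2) (nat_lit 0x4000100010000f8002000000000000000000000000000) (nat_lit 0x0) (nat_lit 0xe00000000000000000000000000) := D_4 (nat_lit 106) (nat_lit 107) (nat_lit 105) (nat_lit 0) (nat_lit 8) (nat_lit 7) (nat_lit 0) (nat_lit 7) (nat_lit 7) (by decide +kernel)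
theorem L1219729 : W_4 (nat_lit 3) (nat_lit 0x4000100010000f0002000000000000000000000000000) (nat_lit 0x0) (nat_lit 0x8004e00000000000000000000000000) := T_4 (nat_lit 123) (nat_lit 110) (nat_lit 2) (nat_lit 4) (nat_lit 7) L1219728 (by decide +kernel)
theorem L1219730 : W_4 (nat_lit 4) (nat_lit 0x100010000f0002000000000000000000000000000) (nat_lit 0x0) (nat_lit 0x400020000000008004e00000000000000000000000000) := T_4 (nat_lit 178) (nat_lit 161) (nat_lit 4) (nat_lit 8) (nat_lit 10) L1219729 (by decide +kernel)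
theorem L1219731 : W_4 (nat_lit 2) (nat_lit 0x100012000f8002000000000000000000000000000) (nat_lit 0x0) (nat_lit 0xe00000000000000000000000000) := D_4 (nat_lit 106) (nat_lit 107) (nat_lit 105) (nat_lit 0) (nat_lit 8) (nat_lit 7) (nat_lit 0) (nat_lit 7) (nat_lit 7) (by decide +kernel)
theorem L1219732 : W_4 (nat_lit 3) (nat_lit 0x100012000f0002000000000000000000000000000) (nat_lit 0x0) (nat_lit 0x8004e00000000000000000000000000) := T_4 (nat_lit 123) (nat_lit 110) (nat_lit 2) (nat_lit 4) (nat_lit 7) L1219731 (by decide +kernel)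
theorem L1219733 : W_4 (nat_lit 4) (nat_lit 0x100010000f0002000000000000000000000000000) (nat_lit 0x0) (nat_lit 0x300008004e00000000000000000000000000) := T_4 (nat_lit 141) (nat_lit 140) (nat_lit 1) (nat_lit 8) (nat_lit 7) L1219732 (by decide +kernel)
theorem L1219734 : W_4 (nat_lit 2) (nat_lit 0xc00380011000f8003800040000000000000000000000) (nat_lit 0x0) (nat_lit 0x320000000000000000000000000000000000000000000) := D_4 (nat_lit 176) (nat_lit 173) (nat_lit 177) (nat_lit 2) (nat_lit 3) (nat_lit 10) (nat_lit 2) (nat_lit 4) (nat_lit 10) (by decide +kernel)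
theorem L1219735 : W_4 (nat_lit 3) (nat_lit 0x400380011000f8003800040000000000000000000000) (nat_lit 0x0) (nat_lit 0x3a0004000000000000000000000000000000000000000) := T_4 (nat_lit 175) (nat_lit 158) (nat_lit 1) (nat_lit 8) (nat_lit 9) L1219734 (by decide +kernel)
theorem L1219736 : W_4 (nat_lit 4) (nat_lit 0x400300011000f8003800040000000000000000000000) (nat_lit 0x0) (nat_lit 0x3a000c000400000000000000000000000000000000000) := T_4 (nat_lit 159) (nat_lit 142) (nat_lit 4) (nat_lit 6) (nat_lit 9) L1219735 (by decide +kernel)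
theorem L1219737 : W_4 (nat_lit 5) (nat_lit 0x400300011000f8003800000000000000000000000000) (nat_lit 0x0) (nat_lit 0x3a000c000400000000000040002000000000000000000) := T_4 (nat_lit 90) (nat_lit 73) (nat_lit 5) (nat_lit 5) (nat_lit 4) L1219736 (by decide +kernel)
theorem L1219738 : W_4 (nat_lit 6) (nat_lit 0x300011000f8003800000000000000000000000000) (nat_lit 0x0) (nat_lit 0x3e000e000400000000000040002000000000000000000) := T_4 (nat_lit 174) (nat_lit 157) (nat_lit 6) (nat_lit 4) (nat_lit 10) L1219737 (by decide +kernel)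
theorem L1219739 : W_4 (nat_lit 7) (nat_lit 0x300011000f8002800000000000000000000000000) (nat_lit 0x0) (nat_lit 0x3e000e000400004001000040002000000000000000000) := T_4 (nat_lit 108) (nat_lit 122) (nat_lit 2) (nat_lit 3) (nat_lit 7) L1219738 (by decide +kernel)
theorem L1219740 : W_4 (nat_lit 8) (nat_lit 0x300011000f0002800000000000000000000000000) (nat_lit 0x0) (nat_lit 0x3e000e00048000c001000040002000000000000000000) := T_4 (nat_lit 123) (nat_lit 139) (nat_lit 1) (nat_lit 7) (nat_lit 7) L1219739 (by decide +kernel)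
theorem L1219741 : W_4 (nat_lit 9) (nat_lit 0x100011000f0002800000000000000000000000000) (nat_lit 0x0) (nat_lit 0x7e002e00048000c001000040002000000000000000000) := T_4 (nat_lit 161) (nat_lit 178) (nat_lit 4) (nat_lit 8) (nat_lit 10) L1219740 (by decide +kernel)
theorem L1219742 : W_4 (nat_lit 10) (nat_lit 0x100010000f0002800000000000000000000000000) (nat_lit 0x0) (nat_lit 0x7e002e00078000c001000040002000000000000000000) := T_4 (nat_lit 140) (nat_lit 141) (nat_lit 1) (nat_lit 8) (nat_lit 7) L1219741 (by decide +kernel)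
theorem L1219743 : W_4 (nat_lit 11) (nat_lit 0x100010000f0002000000000000000000000000000) (nat_lit 0x0) (nat_lit 0x7e002e00078000c001c00040002000000000000000000) := T_4 (nat_lit 107) (nat_lit 106) (nat_lit 0) (nat_lit 8) (nat_lit 7) L1219742 (by decide +kernel)
theorem L1219744 : W_4 (nat_lit 2) (nat_lit 0x4000100010000f8002000000000000000000000000000) (nat_lit 0x0) (nat_lit 0x380000000000000000000000000000000000) := D_4 (nat_lit 140) (nat_lit 141) (nat_lit 139) (nat_lit 1) (nat_lit 8) (nat_lit 7) (nat_lit 1) (nat_lit 7) (nat_lit 7) (by decide +kernel)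
theorem L1219745 : W_4 (nat_lit 3) (nat_lit 0x4000100010000f0002000000000000000000000000000) (nat_lit 0x0) (nat_lit 0x380008004000000000000000000000000000) := T_4 (nat_lit 123) (nat_lit 110) (nat_lit 2) (nat_lit 4) (nat_lit 7) L1219744 (by decide +kernel)
theorem L1219746 : W_4 (nat_lit 4) (nat_lit 0x100010000f0002000000000000000000000000000) (nat_lit 0x0) (nat_lit 0x400020000380008004000000000000000000000000000) := T_4 (nat_lit 178) (nat_lit 161) (nat_lit 4) (nat_lit 8) (nat_lit 10) L1219745 (by decide +kernel)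
theorem L1219747 : W_4 (nat_lit 2) (nat_lit 0x4000100012000f0003000080000000000000000000000) (nat_lit 0x0) (nat_lit 0x80004000400000000000000000000000000000000000) := D_4 (nat_lit 158) (nat_lit 175) (nat_lit 142) (nat_lit 6) (nat_lit 5) (nat_lit 10) (nat_lit 5) (nat_lit 6) (nat_lit 5) (by decide +kernel)
theorem L1219748 : W_4 (nat_lit 3) (nat_lit 0x4000100012000f0003000000000000000000000000000) (nat_lit 0x0) (nat_lit 0x80004000400000000000080004000000000000000000) := T_4 (nat_lit 91) (nat_lit 74) (nat_lit 5) (nat_lit 6) (nat_lit 4) L1219747 (by decide +kernel)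
theorem L1219749 : W_4 (nat_lit 4) (nat_lit 0x4000100010000f0003000000000000000000000000000) (nat_lit 0x0) (nat_lit 0x80004000700000000000080004000000000000000000) := T_4 (nat_lit 141) (nat_lit 140) (nat_lit 1) (nat_lit 8) (nat_lit 7) L1219748 (by decide +kernel)
theorem L1219750 : W_4 (nat_lit 5) (nat_lit 0x100010000f0003000000000000000000000000000) (nat_lit 0x0) (nat_lit 0x480024000700000000000080004000000000000000000) := T_4 (nat_lit 178) (nat_lit 161) (nat_lit 4) (nat_lit 8) (nat_lit 10) L1219749 (by decide +kernel)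
theorem L1219751 : W_4 (nat_lit 2) (nat_lit 0x4000140012000f0003000000000000000000000000000) (nat_lit 0x0) (nat_lit 0x800080004000000000000000000) := D_4 (nat_lit 91) (nat_lit 74) (nat_lit 107) (nat_lit 5) (nat_lit 6) (nat_lit 4) (nat_lit 6) (nat_lit 5) (nat_lit 9) (by decide +kernel)
theorem L1219752 : W_4 (nat_lit 3) (nat_lit 0x4000100012000f0003000000000000000000000000000) (nat_lit 0x0) (nat_lit 0x80004000000000000800080004000000000000000000) := T_4 (nat_lit 158) (nat_lit 175) (nat_lit 6) (nat_lit 5) (nat_lit 10) L1219751 (by decide +kernel)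
theorem L1219753 : W_4 (nat_lit 4) (nat_lit 0x100012000f0003000000000000000000000000000) (nat_lit 0x0) (nat_lit 0x480024000000000000800080004000000000000000000) := T_4 (nat_lit 178) (nat_lit 161) (nat_lit 4) (nat_lit 8) (nat_lit 10) L1219752 (by decide +kernel)
theorem L1219754 : W_4 (nat_lit 5) (nat_lit 0x100010000f0003000000000000000000000000000) (nat_lit 0x0) (nat_lit 0x480024000300000000800080004000000000000000000) := T_4 (nat_lit 141) (nat_lit 140) (nat_lit 1) (nat_lit 8) (nat_lit 7) L1219753 (by decide +kernel)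
theorem L1219755 : W_4 (nat_lit 4) (nat_lit 0x300010000f0003800000000000000000000000000) (nat_lit 0x0) (nat_lit 0x200008000400000004000060002000000000000000000) := T_4 (nat_lit 110) (nat_lit 177) (nat_lit 5) (nat_lit 8) (nat_lit 6) L105952 (by decide +kernel)
theorem L1219756 : W_4 (nat_lit 5) (nat_lit 0x300010000f0003000000000000000000000000000) (nat_lit 0x0) (nat_lit 0x200008000400000004c00060002000000000000000000) := T_4 (nat_lit 107) (nat_lit 106) (nat_lit 3) (nat_lit 4) (nat_lit 6) L1219755 (by decide +kernel)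
theorem L1219757 : W_4 (nat_lit 6) (nat_lit 0x100010000f0003000000000000000000000000000) (nat_lit 0x0) (nat_lit 0x600028000400000004c00060002000000000000000000) := T_4 (nat_lit 161) (nat_lit 178) (nat_lit 4) (nat_lit 8) (nat_lit 10) L1219756 (by decide +kernel)
theorem L1219758 : W_4 (nat_lit 7) (nat_lit 0x100010000f0002000000000000000000000000000) (nat_lit 0x0) (nat_lit 0x68002c000700000005c000e0006000000000000000000) := Q_4 (nat_lit 108) (C_4 L1219750 (C_4 L1219711 (C_4 L1219754 (C_4 L1219757 N_4)))) (by decide +kernel)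
theorem L1219759 : W_4 (nat_lit 12) (nat_lit 0x100010000e0002000000000000000000000000000) (nat_lit 0x0) (nat_lit 0x7e002e00078001c005e000e0006000000000000000000) := Q_4 (nat_lit 124) (C_4 L1219730 (C_4 L1219733 (C_4 L1219743 (C_4 L1219746 (C_4 L1219758 N_4))))) (by decide +kernel)
theorem L1219760 : W_4 (nat_lit 4) (nat_lit 0x4000100010001e0003000000000000000000000000000) (nat_lit 0x0) (nat_lit 0x70001c004000000000000000000000000000) := T_4 (nat_lit 141) (nat_lit 142) (nat_lit 1) (nat_lit 9) (nat_lit 7) L1213466 (by decide +kernel)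
theorem L1219761 : W_4 (nat_lit 5) (nat_lit 0x100010001e0003000000000000000000000000000) (nat_lit 0x0) (nat_lit 0x40002000070001c004000000000000000000000000000) := T_4 (nat_lit 178) (nat_lit 161) (nat_lit 4) (nat_lit 8) (nat_lit 10) L1219760 (by decide +kernel)
theorem L1219762 : W_4 (nat_lit 6) (nat_lit 0x100010000e0003000000000000000000000000000) (nat_lit 0x0) (nat_lit 0x40002000070031c004000000000000000000000000000) := T_4 (nat_lit 128) (nat_lit 129) (nat_lit 0) (nat_lit 10) (nat_lit 7) L1219761 (by decide +kernel)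
theorem L1219763 : W_4 (nat_lit 8) (nat_lit 0x100010000e0002000000000000000000000000000) (nat_lit 0x0) (nat_lit 0x48002400070031c005e00080004000000000000000000) := Q_4 (nat_lit 108) (C_4 L1219726 (C_4 L1219713 (C_4 L1219762 N_4))) (by decide +kernel)
theorem L1219764 : W_4 (nat_lit 7) (nat_lit 0x300010000e0002000000000000000000000000000) (nat_lit 0x0) (nat_lit 0x200008000400118005c00060002000000000000000000) := T_4 (nat_lit 110) (nat_lit 177) (nat_lit 5) (nat_lit 8) (nat_lit 6) L105955 (by decide +kernel)
theorem L1219765 : W_4 (nat_lit 8) (nat_lit 0x100010000e0002000000000000000000000000000) (nat_lit 0x0) (nat_lit 0x600028000400118005c00060002000000000000000000) := T_4 (nat_lit 161) (nat_lit 178) (nat_lit 4) (nat_lit 8) (nat_lit 10) L1219764 (by decide +kernel)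
theorem L1219766 : W_4 (nat_lit 10) (nat_lit 0x300010000e0003800000000000000000000000000) (nat_lit 0x0) (nat_lit 0x2000080004000000040006e003e001f00000000000000) := T_4 (nat_lit 110) (nat_lit 177) (nat_lit 5) (nat_lit 8) (nat_lit 6) L105920 (by decide +kernel)
theorem L1219767 : W_4 (nat_lit 11) (nat_lit 0x300010000e0003000000000000000000000000000) (nat_lit 0x0) (nat_lit 0x200008000400000004c006e003e001f00000000000000) := T_4 (nat_lit 107) (nat_lit 106) (nat_lit 3) (nat_lit 4) (nat_lit 6) L1219766 (by decide +kernel)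
theorem L1219768 : W_4 (nat_lit 12) (nat_lit 0x100010000e0003000000000000000000000000000) (nat_lit 0x0) (nat_lit 0x600028000400000004c006e003e001f00000000000000) := T_4 (nat_lit 161) (nat_lit 178) (nat_lit 4) (nat_lit 8) (nat_lit 10) L1219767 (by decide +kernel)
theorem L1219769 : W_4 (nat_lit 13) (nat_lit 0x100010000e0002000000000000000000000000000) (nat_lit 0x0) (nat_lit 0x700028000600300005c006e003e001f00000000000000) := Q_4 (nat_lit 108) (C_4 L1219768 (C_4 L1219713 (C_4 L1213402 N_4))) (by decide +kernel)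
theorem L1219770 : W_4 (nat_lit 6) (nat_lit 0x300010000e0002000000000000000000000000000) (nat_lit 0x0) (nat_lit 0x200000000700718005000000000000000000000000000) := T_4 (nat_lit 110) (nat_lit 177) (nat_lit 5) (nat_lit 8) (nat_lit 6) L105905 (by decide +kernel)
theorem L1219771 : W_4 (nat_lit 7) (nat_lit 0x100010000e0002000000000000000000000000000) (nat_lit 0x0) (nat_lit 0x600020000700718005000000000000000000000000000) := T_4 (nat_lit 161) (nat_lit 178) (nat_lit 4) (nat_lit 8) (nat_lit 10) L1219770 (by decide +kernel)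
theorem L1219772 : W_4 (nat_lit 14) (nat_lit 0x100010000c0002000000000000000000000000000) (nat_lit 0x0) (nat_lit 0x7e002e00078073c005e006e003e001f00000000000000) := Q_4 (nat_lit 125) (C_4 L1219703 (C_4 L1219714 (C_4 L1219717 (C_4 L1219727 (C_4 L1219759 (C_4 L1219763 (C_4 L1219765 (C_4 L1219769 (C_4 L1219771 N_4))))))))) (by decide +kernel)
theorem L1219773 : W_4 (nat_lit 15) (nat_lit 0x10000c0002000000000000000000000000000) (nat_lit 0x0) (nat_lit 0xa000f0007e003e000f8073c005e006e003e001f00000000000000) := Q_4 (nat_lit 160) (C_4 L1117863 (C_4 L1219273 (C_4 L1219274 (C_4 L1219277 (C_4 L1219772 N_4))))) (by decide +kernel)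
theorem L1219780 : W_4 (nat_lit 16) (nat_lit 0x10000c0000000000000000000000000000000) (nat_lit 0x0) (nat_lit 0xa000f0007e003e000f8073c007e007e003e001f00000000000000) := Q_4 (nat_lit 109) (C_4 L615321 (C_4 L1219773 (C_4 L1219777 (C_4 L284220 (C_4 L1219779 N_4))))) (by decide +kernel)
theorem L1219785 : W_4 (nat_lit 10) (nat_lit 0x10000c0000000000000000000000000000000) (nat_lit 0x0) (nat_lit 0xf000f8001e00ef00738007c003c001c000000000000000000) := Q_4 (nat_lit 143) (C_4 L979511 (C_4 L1204857 (C_4 L1071408 (C_4 L1103749 (C_4 L1219783 (C_4 L1219784 N_4)))))) (by decide +kernel)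
theorem L1219796 : W_4 (nat_lit 2) (nat_lit 0x1c0018000c0007400000000000000000000000000) (nat_lit 0x0) (nat_lit 0x20006000000000000000000000000000000000000) := D_4 (nat_lit 145) (nat_lit 146) (nat_lit 161) (nat_lit 1) (nat_lit 10) (nat_lit 8) (nat_lit 2) (nat_lit 5) (nat_lit 9) (by decide +kernel)
theorem L1219797 : W_4 (nat_lit 3) (nat_lit 0x180018000c0007400000000000000000000000000) (nat_lit 0x0) (nat_lit 0x26006000000000000000000000000000000000000) := T_4 (nat_lit 158) (nat_lit 157) (nat_lit 2) (nat_lit 4) (nat_lit 9) L1219796 (by decide +kernel)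
theorem L1219806 : W_4 (nat_lit 2) (nat_lit 0x70000c0002000000000000000000000000000) (nat_lit 0x0) (nat_lit 0x800030000000000000000000000000000000) := D_4 (nat_lit 125) (nat_lit 124) (nat_lit 143) (nat_lit 3) (nat_lit 5) (nat_lit 7) (nat_lit 0) (nat_lit 10) (nat_lit 8) (by decide +kernel)
theorem L1219807 : W_4 (nat_lit 3) (nat_lit 0x30000c0002000000000000000000000000000) (nat_lit 0x0) (nat_lit 0xc800030000000000000000000000000000000) := T_4 (nat_lit 146) (nat_lit 147) (nat_lit 0) (nat_lit 11) (nat_lit 8) L1219806 (by decide +kernel)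
theorem L1219826 : W_4 (nat_lit 3) (nat_lit 0x4000000030000c0003000000000000000000000000000) (nat_lit 0x0) (nat_lit 0x300004c00000000000000000000000000) := T_4 (nat_lit 128) (nat_lit 129) (nat_lit 0) (nat_lit 10) (nat_lit 7) L1115883 (by decide +kernel)
theorem L1219827 : W_4 (nat_lit 4) (nat_lit 0x30000c0003000000000000000000000000000) (nat_lit 0x0) (nat_lit 0x400020000000300004c00000000000000000000000000) := T_4 (nat_lit 178) (nat_lit 161) (nat_lit 4) (nat_lit 8) (nat_lit 10) L1219826 (by decide +kernel)
theorem L1219837 : W_4 (nat_lit 3) (nat_lit 0x100030000c0003000000000000000000000000000) (nat_lit 0x0) (nat_lit 0x4000200000000800020000000080000000000000000000000) := T_4 (nat_lit 143) (nat_lit 91) (nat_lit 4) (nat_lit 7) (nat_lit 9) L1034629 (by decide +kernel)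
theorem L1219838 : W_4 (nat_lit 2) (nat_lit 0x300038002d0003000000000000000000000000000) (nat_lit 0x0) (nat_lit 0x10000c000000000000000000000000000000000000000) := D_4 (nat_lit 159) (nat_lit 176) (nat_lit 158) (nat_lit 5) (nat_lit 7) (nat_lit 6) (nat_lit 2) (nat_lit 5) (nat_lit 9) (by decide +kernel)
theorem L1219839 : W_4 (nat_lit 3) (nat_lit 0x100038002d0003000000000000000000000000000) (nat_lit 0x0) (nat_lit 0x50002c000000000000000000000000000000000000000) := T_4 (nat_lit 161) (nat_lit 178) (nat_lit 7) (nat_lit 7) (nat_lit 6) L1219838 (by decide +kernel)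
theorem L1219840 : W_4 (nat_lit 4) (nat_lit 0x100030002d0003000000000000000000000000000) (nat_lit 0x0) (nat_lit 0x50002c000800000000000080000000000000000000000) := T_4 (nat_lit 143) (nat_lit 91) (nat_lit 4) (nat_lit 7) (nat_lit 9) L1219839 (by decide +kernel)
theorem L1219841 : W_4 (nat_lit 5) (nat_lit 0x100030000d0003000000000000000000000000000) (nat_lit 0x0) (nat_lit 0x50002c000800300000000080000000000000000000000) := T_4 (nat_lit 129) (nat_lit 128) (nat_lit 0) (nat_lit 10) (nat_lit 7) L1219840 (by decide +kernel)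
theorem L1219842 : W_4 (nat_lit 6) (nat_lit 0x100030000c0003000000000000000000000000000) (nat_lit 0x0) (nat_lit 0x50002c000800330000000080000000000000000000000) := T_4 (nat_lit 124) (nat_lit 125) (nat_lit 3) (nat_lit 5) (nat_lit 7) L1219841 (by decide +kernel)
theorem L1219843 : W_4 (nat_lit 4) (nat_lit 0x100030000c0003000000000000000000000000000) (nat_lit 0x0) (nat_lit 0xc000600020000800000000000080000000000000000000000) := T_4 (nat_lit 143) (nat_lit 91) (nat_lit 4) (nat_lit 7) (nat_lit 9) L1034628 (by decide +kernel)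
theorem L1221524 : W_4 (nat_lit 2) (nat_lit 0x300038000c0002000000000000000000000000000) (nat_lit 0x0) (nat_lit 0x4000200000000000000004000000000000000000000000000) := D_4 (nat_lit 177) (nat_lit 194) (nat_lit 110) (nat_lit 6) (nat_lit 7) (nat_lit 11) (nat_lit 6) (nat_lit 7) (nat_lit 10) (by decide +kernel)
theorem L1221525 : W_4 (nat_lit 3) (nat_lit 0x200038000c0002000000000000000000000000000) (nat_lit 0x0) (nat_lit 0x400030001c000000000004000000000000000000000000000) := Q_4 (nat_lit 160) (C_4 L634596 (C_4 L1221524 N_4)) (by decide +kernel)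
theorem L1221593 : W_4 (nat_lit 7) (nat_lit 0x10000e0002000000000000000000000000000) (nat_lit 0x0) (nat_lit 0x480024000b8011c005f00080000000000000000000000) := Q_4 (nat_lit 124) (C_4 L1117929 (C_4 L616446 (C_4 L288001 N_4))) (by decide +kernel)
theorem L1223528 : W_4 (nat_lit 7) (nat_lit 0x3000b0000c0003800000000000000000000000000) (nat_lit 0x0) (nat_lit 0x24000e0003000180040000e0000000000000000000000) := T_4 (nat_lit 110) (nat_lit 177) (nat_lit 5) (nat_lit 8) (nat_lit 6) L108001 (by decide +kernel)
theorem L1223529 : W_4 (nat_lit 8) (nat_lit 0x3000b0000c0003000000000000000000000000000) (nat_lit 0x0) (nat_lit 0x24000e000300018004c000e0000000000000000000000) := T_4 (nat_lit 107) (nat_lit 106) (nat_lit 3) (nat_lit 4) (nat_lit 6) L1223528 (by decide +kernel)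
theorem L1223530 : W_4 (nat_lit 9) (nat_lit 0x300030000c0003000000000000000000000000000) (nat_lit 0x0) (nat_lit 0x24000e00c300018004c000e0000000000000000000000) := T_4 (nat_lit 147) (nat_lit 146) (nat_lit 1) (nat_lit 11) (nat_lit 8) L1223529 (by decide +kernel)
theorem L1224601 : W_4 (nat_lit 4) (nat_lit 0x30002c0003400000000000000000000000000) (nat_lit 0x0) (nat_lit 0x1800c800400000000080000000000000000000000) := T_4 (nat_lit 146) (nat_lit 147) (nat_lit 0) (nat_lit 11) (nat_lit 8) L621520 (by decide +kernel)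
theorem L1224602 : W_4 (nat_lit 5) (nat_lit 0x30002c0003000000000000000000000000000) (nat_lit 0x0) (nat_lit 0x1800c800400000c00080000000000000000000000) := T_4 (nat_lit 106) (nat_lit 107) (nat_lit 3) (nat_lit 4) (nat_lit 6) L1224601 (by decide +kernel)
theorem L1237444 : W_4 (nat_lit 2) (nat_lit 0x300010000c0007400200010000000000000000000) (nat_lit 0x0) (nat_lit 0x400020001000000000000000) := D_4 (nat_lit 77) (nat_lit 94) (nat_lit 60) (nat_lit 6) (nat_lit 8) (nat_lit 8) (nat_lit 6) (nat_lit 8) (nat_lit 7) (by decide +kernel)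
theorem L1237445 : W_4 (nat_lit 3) (nat_lit 0x300010000c0007400200000000000000000000000) (nat_lit 0x0) (nat_lit 0x400030001800000000000000) := T_4 (nat_lit 76) (nat_lit 59) (nat_lit 5) (nat_lit 8) (nat_lit 3) L1237444 (by decide +kernel)
theorem L1237446 : W_4 (nat_lit 4) (nat_lit 0x300010000c0007400000000000000000000000000) (nat_lit 0x0) (nat_lit 0x800000000000600030001800000000000000) := T_4 (nat_lit 93) (nat_lit 143) (nat_lit 6) (nat_lit 7) (nat_lit 9) L1237445 (by decide +kernel)
theorem L1237447 : W_4 (nat_lit 5) (nat_lit 0x300010000c0003400000000000000000000000000) (nat_lit 0x0) (nat_lit 0x200000000800000004000600030001800000000000000) := T_4 (nat_lit 110) (nat_lit 177) (nat_lit 5) (nat_lit 8) (nat_lit 6) L1237446 (by decide +kernel)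
theorem L1237448 : W_4 (nat_lit 6) (nat_lit 0x300010000c0003000000000000000000000000000) (nat_lit 0x0) (nat_lit 0x200000000800000004c00600030001800000000000000) := T_4 (nat_lit 106) (nat_lit 107) (nat_lit 3) (nat_lit 4) (nat_lit 6) L1237447 (by decide +kernel)
theorem L1237449 : W_4 (nat_lit 12) (nat_lit 0x200010000c0003000000000000000000000000000) (nat_lit 0x0) (nat_lit 0x400030001e002800038004c006e003e001f00000000000000) := Q_4 (nat_lit 160) (C_4 L1219279 (C_4 L1214839 (C_4 L635065 (C_4 L1237448 N_4)))) (by decide +kernel)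
theorem L1237704 : W_4 (nat_lit 2) (nat_lit 0x380018001c0007000000000000000000000000000) (nat_lit 0x0) (nat_lit 0x6002000000000000000000000000000000000000) := D_4 (nat_lit 158) (nat_lit 145) (nat_lit 157) (nat_lit 2) (nat_lit 5) (nat_lit 9) (nat_lit 2) (nat_lit 4) (nat_lit 9) (by decide +kernel)
theorem L1237705 : W_4 (nat_lit 3) (nat_lit 0x300018001c0007000000000000000000000000000) (nat_lit 0x0) (nat_lit 0x10000e002000000000000000000000000000000000000) := T_4 (nat_lit 159) (nat_lit 176) (nat_lit 5) (nat_lit 7) (nat_lit 6) L1237704 (by decide +kernel)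
theorem L1237706 : W_4 (nat_lit 4) (nat_lit 0x300010001c0007000000000000000000000000000) (nat_lit 0x0) (nat_lit 0x10000e002800000000000080000000000000000000000) := T_4 (nat_lit 143) (nat_lit 91) (nat_lit 4) (nat_lit 7) (nat_lit 9) L1237705 (by decide +kernel)
theorem L1237707 : W_4 (nat_lit 5) (nat_lit 0x300010001c0006000000000000000000000000000) (nat_lit 0x0) (nat_lit 0x10000e002800000001800080000000000000000000000) := T_4 (nat_lit 108) (nat_lit 107) (nat_lit 3) (nat_lit 5) (nat_lit 6) L1237706 (by decide +kernel)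
theorem L1237708 : W_4 (nat_lit 6) (nat_lit 0x200010001c0006000000000000000000000000000) (nat_lit 0x0) (nat_lit 0x30001e002800000001800080000000000000000000000) := T_4 (nat_lit 160) (nat_lit 177) (nat_lit 5) (nat_lit 8) (nat_lit 6) L1237707 (by decide +kernel)
theorem L1238566 : W_4 (nat_lit 2) (nat_lit 0x70000c0000000000000000000000000000000) (nat_lit 0x0) (nat_lit 0x800030000000000000000000000000000000) := D_4 (nat_lit 125) (nat_lit 124) (nat_lit 143) (nat_lit 3) (nat_lit 5) (nat_lit 7) (nat_lit 0) (nat_lit 10) (nat_lit 8) (by decide +kernel)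
theorem L1238567 : W_4 (nat_lit 3) (nat_lit 0x30000c0000000000000000000000000000000) (nat_lit 0x0) (nat_lit 0xc800030000000000000000000000000000000) := T_4 (nat_lit 146) (nat_lit 147) (nat_lit 0) (nat_lit 11) (nat_lit 8) L1238566 (by decide +kernel)
theorem L1238568 : W_4 (nat_lit 2) (nat_lit 0x4000200030000d0000000000000000000000000000000) (nat_lit 0x0) (nat_lit 0x8000000000000800100000000000000000000000000000000) := D_4 (nat_lit 195) (nat_lit 143) (nat_lit 128) (nat_lit 4) (nat_lit 8) (nat_lit 11) (nat_lit 6) (nat_lit 8) (nat_lit 11) (by decide +kernel)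
theorem L1238569 : W_4 (nat_lit 3) (nat_lit 0x200030000d0000000000000000000000000000000) (nat_lit 0x0) (nat_lit 0x8000400000000800100002000000000000000000000000000) := T_4 (nat_lit 178) (nat_lit 109) (nat_lit 4) (nat_lit 8) (nat_lit 10) L1238568 (by decide +kernel)
theorem L1238570 : W_4 (nat_lit 4) (nat_lit 0x200030000c0000000000000000000000000000000) (nat_lit 0x0) (nat_lit 0x8000400000000800130002000000000000000000000000000) := T_4 (nat_lit 124) (nat_lit 125) (nat_lit 3) (nat_lit 5) (nat_lit 7) L1238569 (by decide +kernel)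
theorem L1238571 : W_4 (nat_lit 6) (nat_lit 0x300030000d0004000000000000000000000000000) (nat_lit 0x0) (nat_lit 0xc000800000000000700038001400000000000000) := T_4 (nat_lit 93) (nat_lit 143) (nat_lit 5) (nat_lit 8) (nat_lit 5) L236876 (by decide +kernel)
theorem L1238572 : W_4 (nat_lit 7) (nat_lit 0x200030000d0004000000000000000000000000000) (nat_lit 0x0) (nat_lit 0x20001c000800000000000700038001400000000000000) := T_4 (nat_lit 160) (nat_lit 177) (nat_lit 5) (nat_lit 8) (nat_lit 6) L1238571 (by decide +kernel)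
theorem L1238573 : W_4 (nat_lit 8) (nat_lit 0x200030000c0004000000000000000000000000000) (nat_lit 0x0) (nat_lit 0x20001c000800030000000700038001400000000000000) := T_4 (nat_lit 124) (nat_lit 125) (nat_lit 3) (nat_lit 5) (nat_lit 7) L1238572 (by decide +kernel)
theorem L1238574 : W_4 (nat_lit 5) (nat_lit 0x200030000d0004000000000000000000000000000) (nat_lit 0x0) (nat_lit 0x100002000700038001000000000000000) := T_4 (nat_lit 92) (nat_lit 109) (nat_lit 4) (nat_lit 8) (nat_lit 9) L236323 (by decide +kernel)
theorem L1238575 : W_4 (nat_lit 6) (nat_lit 0x200030000c0004000000000000000000000000000) (nat_lit 0x0) (nat_lit 0x130002000700038001000000000000000) := T_4 (nat_lit 124) (nat_lit 125) (nat_lit 3) (nat_lit 5) (nat_lit 7) L1238574 (by decide +kernel)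
theorem L1238576 : W_4 (nat_lit 7) (nat_lit 0x200030000c0004000000000000000000000000000) (nat_lit 0x0) (nat_lit 0x30001c000800100003c00180000000000000000000000) := T_4 (nat_lit 109) (nat_lit 92) (nat_lit 4) (nat_lit 8) (nat_lit 9) L1137406 (by decide +kernel)
theorem L1238577 : W_4 (nat_lit 4) (nat_lit 0x300030000c0004000000000000000000000000000) (nat_lit 0x0) (nat_lit 0x800100000000600030001000000000000000) := T_4 (nat_lit 93) (nat_lit 143) (nat_lit 5) (nat_lit 8) (nat_lit 5) L236350 (by decide +kernel)
theorem L1238578 : W_4 (nat_lit 5) (nat_lit 0x200030000c0004000000000000000000000000000) (nat_lit 0x0) (nat_lit 0x200010000800100000000600030001000000000000000) := T_4 (nat_lit 160) (nat_lit 177) (nat_lit 5) (nat_lit 8) (nat_lit 6) L1238577 (by decide +kernel)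
theorem L1238579 : W_4 (nat_lit 9) (nat_lit 0x200030000c0000000000000000000000000000000) (nat_lit 0x0) (nat_lit 0x30001c000800138007c00780038001400000000000000) := Q_4 (nat_lit 110) (C_4 L1238573 (C_4 L1118016 (C_4 L1238575 (C_4 L1238576 (C_4 L1238578 N_4))))) (by decide +kernel)
theorem L1238580 : W_4 (nat_lit 3) (nat_lit 0x4000200030000d0000000000000000000000000000000) (nat_lit 0x0) (nat_lit 0x8000c000200000000800000000000000000000000000000000000) := T_4 (nat_lit 195) (nat_lit 143) (nat_lit 4) (nat_lit 8) (nat_lit 11) L356498 (by decide +kernel)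
theorem L1238581 : W_4 (nat_lit 4) (nat_lit 0x200030000d0000000000000000000000000000000) (nat_lit 0x0) (nat_lit 0x8000c000600000000800000002000000000000000000000000000) := T_4 (nat_lit 178) (nat_lit 109) (nat_lit 4) (nat_lit 8) (nat_lit 10) L1238580 (by decide +kernel)
theorem L1238582 : W_4 (nat_lit 5) (nat_lit 0x200030000c0000000000000000000000000000000) (nat_lit 0x0) (nat_lit 0x8000c000600000000800030002000000000000000000000000000) := T_4 (nat_lit 124) (nat_lit 125) (nat_lit 3) (nat_lit 5) (nat_lit 7) L1238581 (by decide +kernel)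
theorem L1238583 : W_4 (nat_lit 4) (nat_lit 0x200030000c0000000000000000000000000000000) (nat_lit 0x0) (nat_lit 0x200018000c00000000800000002000000000000000000000000000) := T_4 (nat_lit 178) (nat_lit 109) (nat_lit 4) (nat_lit 8) (nat_lit 10) L706323 (by decide +kernel)
theorem L1238584 : W_4 (nat_lit 2) (nat_lit 0x8000c000200030000d0000000000000000000000000000000) (nat_lit 0x0) (nat_lit 0x80004000200000000000000000000000000000000000000000000) := D_4 (nat_lit 194) (nat_lit 211) (nat_lit 177) (nat_lit 5) (nat_lit 8) (nat_lit 8) (nat_lit 5) (nat_lit 8) (nat_lit 7) (by decide +kernel)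
theorem L1238585 : W_4 (nat_lit 3) (nat_lit 0xc000200030000d0000000000000000000000000000000) (nat_lit 0x0) (nat_lit 0x8000c000200000000000100000000000000000000000000000000) := T_4 (nat_lit 195) (nat_lit 128) (nat_lit 6) (nat_lit 8) (nat_lit 11) L1238584 (by decide +kernel)
theorem L1238586 : W_4 (nat_lit 4) (nat_lit 0x4000200030000d0000000000000000000000000000000) (nat_lit 0x0) (nat_lit 0x8001c000a00000000000100000000000000000000000000000000) := T_4 (nat_lit 179) (nat_lit 196) (nat_lit 7) (nat_lit 8) (nat_lit 7) L1238585 (by decide +kernel)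
theorem L1238587 : W_4 (nat_lit 5) (nat_lit 0x4000200030000c0000000000000000000000000000000) (nat_lit 0x0) (nat_lit 0x8001c000a00000000000130000000000000000000000000000000) := T_4 (nat_lit 124) (nat_lit 125) (nat_lit 3) (nat_lit 5) (nat_lit 7) L1238586 (by decide +kernel)
theorem L1238588 : W_4 (nat_lit 6) (nat_lit 0x200030000c0000000000000000000000000000000) (nat_lit 0x0) (nat_lit 0x8001c000e00000000000130002000000000000000000000000000) := T_4 (nat_lit 178) (nat_lit 109) (nat_lit 4) (nat_lit 8) (nat_lit 10) L1238587 (by decide +kernel)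
theorem L1238589 : W_4 (nat_lit 2) (nat_lit 0xe000300030000d0000000000000000000000000000000) (nat_lit 0x0) (nat_lit 0x100000c000000000000000000000000000000000000000) := D_4 (nat_lit 159) (nat_lit 158) (nat_lit 180) (nat_lit 3) (nat_lit 5) (nat_lit 9) (nat_lit 0) (nat_lit 10) (nat_lit 10) (by decide +kernel)
theorem L1238590 : W_4 (nat_lit 3) (nat_lit 0x6000300030000d0000000000000000000000000000000) (nat_lit 0x0) (nat_lit 0x1000180000c000000000000000000000000000000000000000) := T_4 (nat_lit 179) (nat_lit 196) (nat_lit 7) (nat_lit 8) (nat_lit 7) L1238589 (by decide +kernel)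
theorem L1238591 : W_4 (nat_lit 4) (nat_lit 0x6000200030000d0000000000000000000000000000000) (nat_lit 0x0) (nat_lit 0x1000180001c000000000004000000000000000000000000000) := T_4 (nat_lit 160) (nat_lit 110) (nat_lit 5) (nat_lit 8) (nat_lit 6) L1238590 (by decide +kernel)
theorem L1238592 : W_4 (nat_lit 5) (nat_lit 0x4000200030000d0000000000000000000000000000000) (nat_lit 0x0) (nat_lit 0x14001a0001c000000000004000000000000000000000000000) := T_4 (nat_lit 177) (nat_lit 194) (nat_lit 5) (nat_lit 8) (nat_lit 7) L1238591 (by decide +kernel)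
theorem L1238593 : W_4 (nat_lit 6) (nat_lit 0x4000200030000c0000000000000000000000000000000) (nat_lit 0x0) (nat_lit 0x14001a0001c000000030004000000000000000000000000000) := T_4 (nat_lit 124) (nat_lit 125) (nat_lit 3) (nat_lit 5) (nat_lit 7) L1238592 (by decide +kernel)
theorem L1238594 : W_4 (nat_lit 7) (nat_lit 0x200030000c0000000000000000000000000000000) (nat_lit 0x0) (nat_lit 0x28001c001e0001c000800130004000000000000000000000000000) := Q_4 (nat_lit 178) (C_4 L1238587 (C_4 L706323 (C_4 L1238593 (C_4 L706255 N_4)))) (by decide +kernel)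
theorem L1238595 : W_4 (nat_lit 10) (nat_lit 0x30000c0000000000000000000000000000000) (nat_lit 0x0) (nat_lit 0x28001c001f0003c000800138007c00780038001400000000000000) := Q_4 (nat_lit 161) (C_4 L1238570 (C_4 L1238579 (C_4 L1238582 (C_4 L1238583 (C_4 L1238588 (C_4 L1238594 N_4)))))) (by decide +kernel)
theorem L1238596 : W_4 (nat_lit 2) (nat_lit 0xb8000c0016000fa0040000000000000000000) (nat_lit 0x0) (nat_lit 0x700000000000000000000000000000000) := D_4 (nat_lit 129) (nat_lit 128) (nat_lit 130) (nat_lit 5) (nat_lit 10) (nat_lit 4) (nat_lit 7) (nat_lit 10) (nat_lit 4) (by decide +kernel)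
theorem L1238597 : W_4 (nat_lit 3) (nat_lit 0xb8000c0016000fa0000000000000000000000) (nat_lit 0x0) (nat_lit 0x7000000000000c0000000000000000000) := T_4 (nat_lit 78) (nat_lit 79) (nat_lit 2) (nat_lit 7) (nat_lit 5) L1238596 (by decide +kernel)
theorem L1238598 : W_4 (nat_lit 4) (nat_lit 0xb8000c0006000fa0000000000000000000000) (nat_lit 0x0) (nat_lit 0x7000300000000c0000000000000000000) := T_4 (nat_lit 112) (nat_lit 113) (nat_lit 3) (nat_lit 7) (nat_lit 5) L1238597 (by decide +kernel)
theorem L1238599 : W_4 (nat_lit 5) (nat_lit 0xb8000c0006000f80000000000000000000000) (nat_lit 0x0) (nat_lit 0x7000300000600c0000000000000000000) := T_4 (nat_lit 89) (nat_lit 90) (nat_lit 3) (nat_lit 4) (nat_lit 5) L1238598 (by decide +kernel)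
theorem L1238600 : W_4 (nat_lit 6) (nat_lit 0xb8000c0006000f00000000000000000000000) (nat_lit 0x0) (nat_lit 0x7000300000e00c4000000000000000000) := T_4 (nat_lit 91) (nat_lit 74) (nat_lit 4) (nat_lit 7) (nat_lit 8) L1238599 (by decide +kernel)
theorem L1238601 : W_4 (nat_lit 7) (nat_lit 0xb8000c0006000700000000000000000000000) (nat_lit 0x0) (nat_lit 0x7000300018e00c4000000000000000000) := T_4 (nat_lit 95) (nat_lit 96) (nat_lit 1) (nat_lit 11) (nat_lit 5) L1238600 (by decide +kernel)
theorem L1238602 : W_4 (nat_lit 8) (nat_lit 0xb8000c0006000300000000000000000000000) (nat_lit 0x0) (nat_lit 0x700030001ce00e4000000000000000000) := T_4 (nat_lit 94) (nat_lit 77) (nat_lit 6) (nat_lit 8) (nat_lit 8) L1238601 (by decide +kernel)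
theorem L1238603 : W_4 (nat_lit 9) (nat_lit 0xb8000c0002000300000000000000000000000) (nat_lit 0x0) (nat_lit 0x10000000700034001ce00e4000000000000000000) := T_4 (nat_lit 110) (nat_lit 160) (nat_lit 6) (nat_lit 7) (nat_lit 9) L1238602 (by decide +kernel)
theorem L1238604 : W_4 (nat_lit 10) (nat_lit 0xb8000c0002000100000000000000000000000) (nat_lit 0x0) (nat_lit 0x10000000700034001ee00f4000000000000000000) := T_4 (nat_lit 93) (nat_lit 76) (nat_lit 6) (nat_lit 7) (nat_lit 8) L1238603 (by decide +kernel)
theorem L1238605 : W_4 (nat_lit 11) (nat_lit 0xb8000c0002000000000000000000000000000) (nat_lit 0x0) (nat_lit 0x10000000700034001fe00fc000000000000000000) := T_4 (nat_lit 92) (nat_lit 75) (nat_lit 7) (nat_lit 7) (nat_lit 4) L1238604 (by decide +kernel)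
theorem L1238606 : W_4 (nat_lit 12) (nat_lit 0x38000c0002000000000000000000000000000) (nat_lit 0x0) (nat_lit 0x1000c000700034001fe00fc000000000000000000) := T_4 (nat_lit 147) (nat_lit 146) (nat_lit 0) (nat_lit 11) (nat_lit 8) L1238605 (by decide +kernel)
theorem L1238607 : W_4 (nat_lit 2) (nat_lit 0x100078000c0002000000008000000000000000000) (nat_lit 0x0) (nat_lit 0x4000200000000000000004000000000000000000000000000) := D_4 (nat_lit 177) (nat_lit 194) (nat_lit 110) (nat_lit 6) (nat_lit 7) (nat_lit 11) (nat_lit 6) (nat_lit 7) (nat_lit 10) (by decide +kernel)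
theorem L1238608 : W_4 (nat_lit 3) (nat_lit 0x78000c0002000000008000000000000000000) (nat_lit 0x0) (nat_lit 0x4000200018000000000004000000000000000000000000000) := T_4 (nat_lit 160) (nat_lit 159) (nat_lit 1) (nat_lit 10) (nat_lit 8) L1238607 (by decide +kernel)
theorem L1238609 : W_4 (nat_lit 4) (nat_lit 0x38000c0002000000008000000000000000000) (nat_lit 0x0) (nat_lit 0x400020001800c000000004000000000000000000000000000) := T_4 (nat_lit 146) (nat_lit 147) (nat_lit 0) (nat_lit 11) (nat_lit 8) L1238608 (by decide +kernel)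
theorem L1238610 : W_4 (nat_lit 5) (nat_lit 0x38000c0002000000000000000000000000000) (nat_lit 0x0) (nat_lit 0x400020001800c000000004000100008000000000000000000) := T_4 (nat_lit 75) (nat_lit 92) (nat_lit 7) (nat_lit 7) (nat_lit 4) L1238609 (by decide +kernel)
theorem L1238611 : W_4 (nat_lit 2) (nat_lit 0x200000000800078003c0012001c00008000000000000000000) (nat_lit 0x0) (nat_lit 0x4000200010000000000000000000) := D_4 (nat_lit 93) (nat_lit 110) (nat_lit 76) (nat_lit 1) (nat_lit 11) (nat_lit 5) (nat_lit 0) (nat_lit 11) (nat_lit 5) (by decide +kernel)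
theorem L1238612 : W_4 (nat_lit 3) (nat_lit 0x200000000800078003c0012000c00008000000000000000000) (nat_lit 0x0) (nat_lit 0x4001200090000000000000000000) := T_4 (nat_lit 96) (nat_lit 79) (nat_lit 6) (nat_lit 10) (nat_lit 8) L1238611 (by decide +kernel)
theorem L1238613 : W_4 (nat_lit 4) (nat_lit 0x200000000800078003c0012000800008000000000000000000) (nat_lit 0x0) (nat_lit 0x40016000b0000000000000000000) := T_4 (nat_lit 94) (nat_lit 77) (nat_lit 4) (nat_lit 10) (nat_lit 8) L1238612 (by decide +kernel)
theorem L1238614 : W_4 (nat_lit 5) (nat_lit 0x200000000800078003c0012000000008000000000000000000) (nat_lit 0x0) (nat_lit 0x4001e000f0000000000000000000) := T_4 (nat_lit 95) (nat_lit 78) (nat_lit 5) (nat_lit 10) (nat_lit 4) L1238613 (by decide +kernel)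
theorem L1238615 : W_4 (nat_lit 6) (nat_lit 0x800078003c0012000000008000000000000000000) (nat_lit 0x0) (nat_lit 0x20001000000000000000004001e000f0000000000000000000) := T_4 (nat_lit 197) (nat_lit 180) (nat_lit 4) (nat_lit 10) (nat_lit 11) L1238614 (by decide +kernel)
theorem L1238616 : W_4 (nat_lit 7) (nat_lit 0x800078003c0002000000008000000000000000000) (nat_lit 0x0) (nat_lit 0x20001000000000000000034001e000f0000000000000000000) := T_4 (nat_lit 112) (nat_lit 113) (nat_lit 2) (nat_lit 7) (nat_lit 7) L1238615 (by decide +kernel)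
theorem L1238617 : W_4 (nat_lit 8) (nat_lit 0x800078002c0002000000008000000000000000000) (nat_lit 0x0) (nat_lit 0x20001000000000000100035001e000f0000000000000000000) := T_4 (nat_lit 128) (nat_lit 108) (nat_lit 0) (nat_lit 10) (nat_lit 7) L1238616 (by decide +kernel)
theorem L1238618 : W_4 (nat_lit 9) (nat_lit 0x800078000c0002000000008000000000000000000) (nat_lit 0x0) (nat_lit 0x20001000000000000700035001e000f0000000000000000000) := T_4 (nat_lit 129) (nat_lit 130) (nat_lit 2) (nat_lit 7) (nat_lit 8) L1238617 (by decide +kernel)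
theorem L1238619 : W_4 (nat_lit 10) (nat_lit 0x78000c0002000000008000000000000000000) (nat_lit 0x0) (nat_lit 0x20001000180000000700035001e000f0000000000000000000) := T_4 (nat_lit 163) (nat_lit 164) (nat_lit 3) (nat_lit 7) (nat_lit 8) L1238618 (by decide +kernel)
theorem L1238620 : W_4 (nat_lit 11) (nat_lit 0x78000c0002000000000000000000000000000) (nat_lit 0x0) (nat_lit 0x20001000180000000700035001f000f8000000000000000000) := T_4 (nat_lit 75) (nat_lit 92) (nat_lit 7) (nat_lit 7) (nat_lit 4) L1238619 (by decide +kernel)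
theorem L1238621 : W_4 (nat_lit 12) (nat_lit 0x38000c0002000000000000000000000000000) (nat_lit 0x0) (nat_lit 0x2000100018000c000700035001f000f8000000000000000000) := T_4 (nat_lit 146) (nat_lit 147) (nat_lit 0) (nat_lit 11) (nat_lit 8) L1238620 (by decide +kernel)
theorem L1238622 : W_4 (nat_lit 2) (nat_lit 0x38000c0006000700000000000000000000000) (nat_lit 0x0) (nat_lit 0x1800800000000000000000000000) := D_4 (nat_lit 108) (nat_lit 107) (nat_lit 95) (nat_lit 2) (nat_lit 5) (nat_lit 6) (nat_lit 1) (nat_lit 10) (nat_lit 5) (by decide +kernel)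
theorem L1238623 : W_4 (nat_lit 3) (nat_lit 0x38000c0006000300000000000000000000000) (nat_lit 0x0) (nat_lit 0x1800c00020000000000000000000) := T_4 (nat_lit 94) (nat_lit 77) (nat_lit 6) (nat_lit 8) (nat_lit 8) L1238622 (by decide +kernel)
theorem L1238624 : W_4 (nat_lit 4) (nat_lit 0x38000c0002000300000000000000000000000) (nat_lit 0x0) (nat_lit 0x10000000000005800c00020000000000000000000) := T_4 (nat_lit 110) (nat_lit 160) (nat_lit 6) (nat_lit 7) (nat_lit 9) L1238623 (by decide +kernel)
theorem L1238625 : W_4 (nat_lit 5) (nat_lit 0x38000c0002000100000000000000000000000) (nat_lit 0x0) (nat_lit 0x10000000000005800e00030000000000000000000) := T_4 (nat_lit 93) (nat_lit 76) (nat_lit 6) (nat_lit 7) (nat_lit 8) L1238624 (by decide +kernel)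
theorem L1238626 : W_4 (nat_lit 6) (nat_lit 0x38000c0002000000000000000000000000000) (nat_lit 0x0) (nat_lit 0x10000000000005800f00038000000000000000000) := T_4 (nat_lit 92) (nat_lit 75) (nat_lit 7) (nat_lit 7) (nat_lit 4) L1238625 (by decide +kernel)
theorem L1238627 : W_4 (nat_lit 2) (nat_lit 0x100078000c0002000000000000000000000000000) (nat_lit 0x0) (nat_lit 0x200000000000000004000200000000000000000000000) := D_4 (nat_lit 110) (nat_lit 93) (nat_lit 177) (nat_lit 6) (nat_lit 7) (nat_lit 9) (nat_lit 6) (nat_lit 7) (nat_lit 10) (by decide +kernel)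
theorem L1238628 : W_4 (nat_lit 3) (nat_lit 0x78000c0002000000000000000000000000000) (nat_lit 0x0) (nat_lit 0x200018000000000004000200000000000000000000000) := T_4 (nat_lit 160) (nat_lit 159) (nat_lit 1) (nat_lit 10) (nat_lit 8) L1238627 (by decide +kernel)
theorem L1238629 : W_4 (nat_lit 4) (nat_lit 0x38000c0002000000000000000000000000000) (nat_lit 0x0) (nat_lit 0x20001800c000000004000200000000000000000000000) := T_4 (nat_lit 146) (nat_lit 147) (nat_lit 0) (nat_lit 11) (nat_lit 8) L1238628 (by decide +kernel)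
theorem L1238630 : W_4 (nat_lit 13) (nat_lit 0x30000c0002000000000000000000000000000) (nat_lit 0x0) (nat_lit 0x2400120019800c800700035c01fe00fc000000000000000000) := Q_4 (nat_lit 143) (C_4 L1041036 (C_4 L1238606 (C_4 L1238610 (C_4 L1238621 (C_4 L1238626 (C_4 L1238629 N_4)))))) (by decide +kernel)
theorem L1238631 : W_4 (nat_lit 4) (nat_lit 0x30000c0002000000000000000000000000000) (nat_lit 0x0) (nat_lit 0x40002000c800000000000100008000000000000000000) := T_4 (nat_lit 147) (nat_lit 146) (nat_lit 0) (nat_lit 11) (nat_lit 8) L717324 (by decide +kernel)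
theorem L1238632 : W_4 (nat_lit 3) (nat_lit 0x30000c0002000000000000000000000000000) (nat_lit 0x0) (nat_lit 0x400020000800000000000100008000000000000000000) := T_4 (nat_lit 161) (nat_lit 178) (nat_lit 4) (nat_lit 8) (nat_lit 10) L635913 (by decide +kernel)
theorem L1238633 : W_4 (nat_lit 5) (nat_lit 0x4000000070002c0003000000000000000000000000000) (nat_lit 0x0) (nat_lit 0xc000200018000800400000c00000000000000000000000000) := T_4 (nat_lit 106) (nat_lit 107) (nat_lit 3) (nat_lit 4) (nat_lit 6) L1116668 (by decide +kernel)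
theorem L1238634 : W_4 (nat_lit 6) (nat_lit 0x4000000070000c0003000000000000000000000000000) (nat_lit 0x0) (nat_lit 0xc000200018000800700000c00000000000000000000000000) := T_4 (nat_lit 129) (nat_lit 128) (nat_lit 0) (nat_lit 10) (nat_lit 7) L1238633 (by decide +kernel)
theorem L1238635 : W_4 (nat_lit 7) (nat_lit 0x70000c0003000000000000000000000000000) (nat_lit 0x0) (nat_lit 0xc000600038000800700000c00000000000000000000000000) := T_4 (nat_lit 178) (nat_lit 161) (nat_lit 4) (nat_lit 8) (nat_lit 10) L1238634 (by decide +kernel)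
theorem L1238636 : W_4 (nat_lit 8) (nat_lit 0x30000c0003000000000000000000000000000) (nat_lit 0x0) (nat_lit 0xc00060003800c800700000c00000000000000000000000000) := T_4 (nat_lit 146) (nat_lit 147) (nat_lit 0) (nat_lit 11) (nat_lit 8) L1238635 (by decide +kernel)
theorem L1238637 : W_4 (nat_lit 6) (nat_lit 0x30000c0003000000000000000000000000000) (nat_lit 0x0) (nat_lit 0x1800c800700000c00080000000000000000000000) := T_4 (nat_lit 129) (nat_lit 128) (nat_lit 0) (nat_lit 10) (nat_lit 7) L1224602 (by decide +kernel)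
theorem L1238638 : W_4 (nat_lit 10) (nat_lit 0x40000000b0000c0003800000000000000000000000000) (nat_lit 0x0) (nat_lit 0x1180040006e003e001f00000000000000) := T_4 (nat_lit 110) (nat_lit 128) (nat_lit 3) (nat_lit 5) (nat_lit 6) L133422 (by decide +kernel)
theorem L1238639 : W_4 (nat_lit 11) (nat_lit 0x40000000b0000c0003000000000000000000000000000) (nat_lit 0x0) (nat_lit 0x118004c006e003e001f00000000000000) := T_4 (nat_lit 107) (nat_lit 106) (nat_lit 3) (nat_lit 4) (nat_lit 6) L1238638 (by decide +kernel)
theorem L1238640 : W_4 (nat_lit 12) (nat_lit 0xb0000c0003000000000000000000000000000) (nat_lit 0x0) (nat_lit 0x400020000000118004c006e003e001f00000000000000) := T_4 (nat_lit 178) (nat_lit 161) (nat_lit 4) (nat_lit 8) (nat_lit 10) L1238639 (by decide +kernel)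
theorem L1238641 : W_4 (nat_lit 13) (nat_lit 0x30000c0003000000000000000000000000000) (nat_lit 0x0) (nat_lit 0x40002000c000118004c006e003e001f00000000000000) := T_4 (nat_lit 147) (nat_lit 146) (nat_lit 0) (nat_lit 11) (nat_lit 8) L1238640 (by decide +kernel)
theorem L1238642 : W_4 (nat_lit 3) (nat_lit 0x100030000c0003000000000000000000000000000) (nat_lit 0x0) (nat_lit 0x800c800000000000080000000000000000000000) := T_4 (nat_lit 143) (nat_lit 91) (nat_lit 4) (nat_lit 7) (nat_lit 9) L621031 (by decide +kernel)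
theorem L1238643 : W_4 (nat_lit 10) (nat_lit 0x100030000c0003000000000000000000000000000) (nat_lit 0x0) (nat_lit 0x64002e00c300018004c000e0000000000000000000000) := T_4 (nat_lit 161) (nat_lit 178) (nat_lit 4) (nat_lit 8) (nat_lit 10) L1223530 (by decide +kernel)
theorem L1238644 : W_4 (nat_lit 2) (nat_lit 0x3000b0000c0007400200010000000000000000000) (nat_lit 0x0) (nat_lit 0x400020001000000000000000) := D_4 (nat_lit 77) (nat_lit 94) (nat_lit 60) (nat_lit 6) (nat_lit 8) (nat_lit 8) (nat_lit 6) (nat_lit 8) (nat_lit 7) (by decide +kernel)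
theorem L1238645 : W_4 (nat_lit 3) (nat_lit 0x3000b0000c0007400200000000000000000000000) (nat_lit 0x0) (nat_lit 0x400030001800000000000000) := T_4 (nat_lit 76) (nat_lit 59) (nat_lit 5) (nat_lit 8) (nat_lit 3) L1238644 (by decide +kernel)
theorem L1238646 : W_4 (nat_lit 4) (nat_lit 0x3000b0000c0007400000000000000000000000000) (nat_lit 0x0) (nat_lit 0x800000000000600030001800000000000000) := T_4 (nat_lit 93) (nat_lit 143) (nat_lit 6) (nat_lit 7) (nat_lit 9) L1238645 (by decide +kernel)
theorem L1238647 : W_4 (nat_lit 5) (nat_lit 0x3000b0000c0003400000000000000000000000000) (nat_lit 0x0) (nat_lit 0x200000000800000004000600030001800000000000000) := T_4 (nat_lit 110) (nat_lit 177) (nat_lit 5) (nat_lit 8) (nat_lit 6) L1238646 (by decide +kernel)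
theorem L1238648 : W_4 (nat_lit 6) (nat_lit 0x3000b0000c0003000000000000000000000000000) (nat_lit 0x0) (nat_lit 0x200000000800000004c00600030001800000000000000) := T_4 (nat_lit 106) (nat_lit 107) (nat_lit 3) (nat_lit 4) (nat_lit 6) L1238647 (by decide +kernel)
theorem L1238649 : W_4 (nat_lit 7) (nat_lit 0x1000b0000c0003000000000000000000000000000) (nat_lit 0x0) (nat_lit 0x600020000800000004c00600030001800000000000000) := T_4 (nat_lit 161) (nat_lit 178) (nat_lit 4) (nat_lit 8) (nat_lit 10) L1238648 (by decide +kernel)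
theorem L1238650 : W_4 (nat_lit 8) (nat_lit 0x100030000c0003000000000000000000000000000) (nat_lit 0x0) (nat_lit 0x60002000c800000004c00600030001800000000000000) := T_4 (nat_lit 147) (nat_lit 146) (nat_lit 0) (nat_lit 11) (nat_lit 8) L1238649 (by decide +kernel)
theorem L1238651 : W_4 (nat_lit 11) (nat_lit 0x30000c0003000000000000000000000000000) (nat_lit 0x0) (nat_lit 0xc00064003e00cb00018004c006e0030001800000000000000) := Q_4 (nat_lit 160) (C_4 L1219843 (C_4 L1238642 (C_4 L1238643 (C_4 L1238650 N_4)))) (by decide +kernel)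
theorem L1238652 : W_4 (nat_lit 2) (nat_lit 0x4000000078002c0003000000000000000000000000000) (nat_lit 0x0) (nat_lit 0x18000000000000000080000000000000000000000) := D_4 (nat_lit 160) (nat_lit 159) (nat_lit 91) (nat_lit 1) (nat_lit 10) (nat_lit 8) (nat_lit 4) (nat_lit 7) (nat_lit 9) (by decide +kernel)
theorem L1238653 : W_4 (nat_lit 3) (nat_lit 0x4000000070002c0003000000000000000000000000000) (nat_lit 0x0) (nat_lit 0x18000800400000000080000000000000000000000) := T_4 (nat_lit 143) (nat_lit 130) (nat_lit 2) (nat_lit 7) (nat_lit 8) L1238652 (by decide +kernel)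
theorem L1238654 : W_4 (nat_lit 4) (nat_lit 0x4000000030002c0003000000000000000000000000000) (nat_lit 0x0) (nat_lit 0x1800c800400000000080000000000000000000000) := T_4 (nat_lit 146) (nat_lit 147) (nat_lit 0) (nat_lit 11) (nat_lit 8) L1238653 (by decide +kernel)
theorem L1238655 : W_4 (nat_lit 5) (nat_lit 0x4000000030000c0003000000000000000000000000000) (nat_lit 0x0) (nat_lit 0x1800c800700000000080000000000000000000000) := T_4 (nat_lit 129) (nat_lit 128) (nat_lit 0) (nat_lit 10) (nat_lit 7) L1238654 (by decide +kernel)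
theorem L1238656 : W_4 (nat_lit 6) (nat_lit 0x30000c0003000000000000000000000000000) (nat_lit 0x0) (nat_lit 0x40003800c800700000000080000000000000000000000) := T_4 (nat_lit 178) (nat_lit 161) (nat_lit 4) (nat_lit 8) (nat_lit 10) L1238655 (by decide +kernel)
theorem L1238657 : W_4 (nat_lit 14) (nat_lit 0x30000c0002000000000000000000000000000) (nat_lit 0x0) (nat_lit 0xc00064003e00cb00718005c006e003e001f00000000000000) := Q_4 (nat_lit 108) (C_4 L1238636 (C_4 L1238637 (C_4 L1238641 (C_4 L1238651 (C_4 L1219827 (C_4 L1238656 N_4)))))) (by decide +kernel)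
theorem L1238658 : W_4 (nat_lit 2) (nat_lit 0xb0000c0002000100000000000000000000000) (nat_lit 0x0) (nat_lit 0x400020000000000004000000000000000000000000000) := D_4 (nat_lit 161) (nat_lit 178) (nat_lit 110) (nat_lit 4) (nat_lit 8) (nat_lit 10) (nat_lit 4) (nat_lit 8) (nat_lit 9) (by decide +kernel)
theorem L1238659 : W_4 (nat_lit 3) (nat_lit 0xb0000c0002000000000000000000000000000) (nat_lit 0x0) (nat_lit 0x400020000000000004000100008000000000000000000) := T_4 (nat_lit 92) (nat_lit 75) (nat_lit 7) (nat_lit 7) (nat_lit 4) L1238658 (by decide +kernel)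
theorem L1238660 : W_4 (nat_lit 4) (nat_lit 0x30000c0002000000000000000000000000000) (nat_lit 0x0) (nat_lit 0x40002000c000000004000100008000000000000000000) := T_4 (nat_lit 147) (nat_lit 146) (nat_lit 0) (nat_lit 11) (nat_lit 8) L1238659 (by decide +kernel)
theorem L1238661 : W_4 (nat_lit 2) (nat_lit 0x200030000c0002000000000000000000000000000) (nat_lit 0x0) (nat_lit 0x800000004000100000000000000000000000) := D_4 (nat_lit 92) (nat_lit 110) (nat_lit 143) (nat_lit 4) (nat_lit 8) (nat_lit 9) (nat_lit 7) (nat_lit 7) (nat_lit 5) (by decide +kernel)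
theorem L1238662 : W_4 (nat_lit 3) (nat_lit 0x30000c0002000000000000000000000000000) (nat_lit 0x0) (nat_lit 0x400020000800000004000100000000000000000000000) := T_4 (nat_lit 161) (nat_lit 178) (nat_lit 4) (nat_lit 8) (nat_lit 10) L1238661 (by decide +kernel)
theorem L1238663 : W_4 (nat_lit 15) (nat_lit 0x30000c0000000000000000000000000000000) (nat_lit 0x0) (nat_lit 0x2c0016401be00cb00718037c01fe00fe001f00000000000000) := Q_4 (nat_lit 109) (C_4 L1238630 (C_4 L1238631 (C_4 L1238632 (C_4 L1238657 (C_4 L1238660 (C_4 L1238662 N_4)))))) (by decide +kernel)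
theorem L1238664 : W_4 (nat_lit 2) (nat_lit 0x70000c0000000000000000000000000000000) (nat_lit 0x0) (nat_lit 0x130000000000000000000000000000000) := D_4 (nat_lit 125) (nat_lit 124) (nat_lit 128) (nat_lit 3) (nat_lit 5) (nat_lit 7) (nat_lit 3) (nat_lit 6) (nat_lit 7) (by decide +kernel)
theorem L1238665 : W_4 (nat_lit 3) (nat_lit 0x30000c0000000000000000000000000000000) (nat_lit 0x0) (nat_lit 0xc000130000000000000000000000000000000) := T_4 (nat_lit 146) (nat_lit 147) (nat_lit 0) (nat_lit 11) (nat_lit 8) L1238664 (by decide +kernel)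
theorem L1238666 : W_4 (nat_lit 2) (nat_lit 0x70000c0000000000000000000000000000000) (nat_lit 0x0) (nat_lit 0x800120000000000000000000000000000000) := D_4 (nat_lit 125) (nat_lit 143) (nat_lit 128) (nat_lit 0) (nat_lit 10) (nat_lit 8) (nat_lit 3) (nat_lit 6) (nat_lit 7) (by decide +kernel)
theorem L1238667 : W_4 (nat_lit 3) (nat_lit 0x30000c0000000000000000000000000000000) (nat_lit 0x0) (nat_lit 0xc800120000000000000000000000000000000) := T_4 (nat_lit 146) (nat_lit 147) (nat_lit 0) (nat_lit 11) (nat_lit 8) L1238666 (by decide +kernel)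
theorem L1238668 : W_4 (nat_lit 16) (nat_lit 0x10000c0000000000000000000000000000000) (nat_lit 0x0) (nat_lit 0x28003c001f401be00eb00738037c01fe00fe001f00000000000000) := Q_4 (nat_lit 145) (C_4 L1238567 (C_4 L1238595 (C_4 L1238663 (C_4 L1238665 (C_4 L1238667 N_4))))) (by decide +kernel)
theorem L1238670 : W_4 (nat_lit 13) (nat_lit 0x10000c0003000000000000000000000000000) (nat_lit 0x0) (nat_lit 0x400070003e002800038004c006e003e001f00000000000000) := T_4 (nat_lit 161) (nat_lit 178) (nat_lit 4) (nat_lit 8) (nat_lit 10) L1237449 (by decide +kernel)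
theorem L1238687 : W_4 (nat_lit 2) (nat_lit 0x40001c0018000c0007000000000000000000000000000) (nat_lit 0x0) (nat_lit 0x6400000000000000000000000000000000000) := D_4 (nat_lit 145) (nat_lit 146) (nat_lit 142) (nat_lit 1) (nat_lit 10) (nat_lit 8) (nat_lit 1) (nat_lit 9) (nat_lit 8) (by decide +kernel)
theorem L1238688 : W_4 (nat_lit 3) (nat_lit 0x4000180018000c0007000000000000000000000000000) (nat_lit 0x0) (nat_lit 0x6006400000000000000000000000000000000000) := T_4 (nat_lit 158) (nat_lit 157) (nat_lit 2) (nat_lit 4) (nat_lit 9) L1238687 (by decide +kernel)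
theorem L1238689 : W_4 (nat_lit 4) (nat_lit 0x4000100018000c0007000000000000000000000000000) (nat_lit 0x0) (nat_lit 0x10000e006400000000000000000000000000000000000) := T_4 (nat_lit 159) (nat_lit 176) (nat_lit 5) (nat_lit 7) (nat_lit 6) L1238688 (by decide +kernel)
theorem L1238776 : W_4 (nat_lit 2) (nat_lit 0x380030002e0003000000000000000000000000000) (nat_lit 0x0) (nat_lit 0x200000000400000004000000000000000000000000000) := D_4 (nat_lit 177) (nat_lit 110) (nat_lit 142) (nat_lit 5) (nat_lit 8) (nat_lit 6) (nat_lit 7) (nat_lit 6) (nat_lit 6) (by decide +kernel)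
theorem L1238777 : W_4 (nat_lit 3) (nat_lit 0x300030002e0003000000000000000000000000000) (nat_lit 0x0) (nat_lit 0x20000c000400000004000000000000000000000000000) := T_4 (nat_lit 159) (nat_lit 158) (nat_lit 2) (nat_lit 5) (nat_lit 9) L1238776 (by decide +kernel)
theorem L1238778 : W_4 (nat_lit 4) (nat_lit 0x300030002c0003000000000000000000000000000) (nat_lit 0x0) (nat_lit 0x20000c000400030004000000000000000000000000000) := T_4 (nat_lit 125) (nat_lit 124) (nat_lit 3) (nat_lit 5) (nat_lit 7) L1238777 (by decide +kernel)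
theorem L1238963 : W_4 (nat_lit 2) (nat_lit 0x30001c0003000000000000000000000000000) (nat_lit 0x0) (nat_lit 0x4000030000000000000000000000000000000) := D_4 (nat_lit 125) (nat_lit 124) (nat_lit 146) (nat_lit 3) (nat_lit 5) (nat_lit 7) (nat_lit 3) (nat_lit 6) (nat_lit 7) (by decide +kernel)
theorem L1238964 : W_4 (nat_lit 3) (nat_lit 0x30000c0003000000000000000000000000000) (nat_lit 0x0) (nat_lit 0x4000330000000000000000000000000000000) := T_4 (nat_lit 128) (nat_lit 129) (nat_lit 0) (nat_lit 10) (nat_lit 7) L1238963 (by decide +kernel)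
theorem L1238965 : W_4 (nat_lit 2) (nat_lit 0x4000000070000c0003000000000000000000000000000) (nat_lit 0x0) (nat_lit 0x800030000000000000000000000000000000) := D_4 (nat_lit 125) (nat_lit 124) (nat_lit 143) (nat_lit 3) (nat_lit 5) (nat_lit 7) (nat_lit 0) (nat_lit 10) (nat_lit 8) (by decide +kernel)
theorem L1238966 : W_4 (nat_lit 3) (nat_lit 0x4000000030000c0003000000000000000000000000000) (nat_lit 0x0) (nat_lit 0xc800030000000000000000000000000000000) := T_4 (nat_lit 146) (nat_lit 147) (nat_lit 0) (nat_lit 11) (nat_lit 8) L1238965 (by decide +kernel)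
theorem L1238967 : W_4 (nat_lit 4) (nat_lit 0x30000c0003000000000000000000000000000) (nat_lit 0x0) (nat_lit 0x40002000c800030000000000000000000000000000000) := T_4 (nat_lit 178) (nat_lit 161) (nat_lit 4) (nat_lit 8) (nat_lit 10) L1238966 (by decide +kernel)
theorem L1238968 : W_4 (nat_lit 5) (nat_lit 0x100030002c0003000000000000000000000000000) (nat_lit 0x0) (nat_lit 0x60002c000400030004000000000000000000000000000) := T_4 (nat_lit 161) (nat_lit 178) (nat_lit 4) (nat_lit 8) (nat_lit 10) L1238778 (by decide +kernel)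
theorem L1238969 : W_4 (nat_lit 6) (nat_lit 0x100030000c0003000000000000000000000000000) (nat_lit 0x0) (nat_lit 0x60002c000400330004000000000000000000000000000) := T_4 (nat_lit 129) (nat_lit 128) (nat_lit 0) (nat_lit 10) (nat_lit 7) L1238968 (by decide +kernel)
theorem L1238970 : W_4 (nat_lit 7) (nat_lit 0x30000c0003000000000000000000000000000) (nat_lit 0x0) (nat_lit 0xc00070003c000c00330004000080000000000000000000000) := Q_4 (nat_lit 160) (C_4 L1238969 (C_4 L1219837 (C_4 L1219842 (C_4 L1219843 N_4)))) (by decide +kernel)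
theorem L1238971 : W_4 (nat_lit 8) (nat_lit 0x10000c0003000000000000000000000000000) (nat_lit 0x0) (nat_lit 0xc00070003c00ec00730004000080000000000000000000000) := Q_4 (nat_lit 145) (C_4 L1238964 (C_4 L1238967 (C_4 L1238970 (C_4 L1238656 N_4)))) (by decide +kernel)
theorem L1238972 : W_4 (nat_lit 14) (nat_lit 0x10000c0002000000000000000000000000000) (nat_lit 0x0) (nat_lit 0xc00070003e00ec00738005c006e003e001f00000000000000) := Q_4 (nat_lit 108) (C_4 L1159463 (C_4 L622988 (C_4 L1238670 (C_4 L1238971 N_4)))) (by decide +kernel)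
theorem L1238973 : W_4 (nat_lit 2) (nat_lit 0x18001f0002800000008000000000000000000) (nat_lit 0x0) (nat_lit 0x400600000000000000000000000000000000) := D_4 (nat_lit 129) (nat_lit 130) (nat_lit 142) (nat_lit 1) (nat_lit 11) (nat_lit 7) (nat_lit 1) (nat_lit 10) (nat_lit 7) (by decide +kernel)
theorem L1238974 : W_4 (nat_lit 3) (nat_lit 0x18000f0002800000008000000000000000000) (nat_lit 0x0) (nat_lit 0x400700001000000000000000000000000000) := T_4 (nat_lit 128) (nat_lit 108) (nat_lit 0) (nat_lit 9) (nat_lit 7) L1238973 (by decide +kernel)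
theorem L1238975 : W_4 (nat_lit 4) (nat_lit 0x18000f0002000000008000000000000000000) (nat_lit 0x0) (nat_lit 0x400700001c00000000000000000000000000) := T_4 (nat_lit 107) (nat_lit 106) (nat_lit 0) (nat_lit 8) (nat_lit 7) L1238974 (by decide +kernel)
theorem L1238976 : W_4 (nat_lit 5) (nat_lit 0x18000e0002000000008000000000000000000) (nat_lit 0x0) (nat_lit 0x400718001c00000000000000000000000000) := T_4 (nat_lit 124) (nat_lit 123) (nat_lit 3) (nat_lit 4) (nat_lit 7) L1238975 (by decide +kernel)
theorem L1238977 : W_4 (nat_lit 6) (nat_lit 0x18000e0002000000000000000000000000000) (nat_lit 0x0) (nat_lit 0x400718001c00100008000000000000000000) := T_4 (nat_lit 75) (nat_lit 92) (nat_lit 7) (nat_lit 7) (nat_lit 4) L1238976 (by decide +kernel)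
theorem L1238978 : W_4 (nat_lit 2) (nat_lit 0x5c001e00030003c0000000000000000000000) (nat_lit 0x0) (nat_lit 0x4000030000000000000000000000) := D_4 (nat_lit 89) (nat_lit 110) (nat_lit 88) (nat_lit 3) (nat_lit 4) (nat_lit 5) (nat_lit 3) (nat_lit 3) (nat_lit 5) (by decide +kernel)
theorem L1238979 : W_4 (nat_lit 3) (nat_lit 0x5c001e0003000380000000000000000000000) (nat_lit 0x0) (nat_lit 0x4000070002000000000000000000) := T_4 (nat_lit 90) (nat_lit 73) (nat_lit 4) (nat_lit 6) (nat_lit 8) L1238978 (by decide +kernel)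
theorem L1238980 : W_4 (nat_lit 4) (nat_lit 0x5c001e0002000380000000000000000000000) (nat_lit 0x0) (nat_lit 0x5800070002000000000000000000) := T_4 (nat_lit 108) (nat_lit 107) (nat_lit 0) (nat_lit 9) (nat_lit 7) L1238979 (by decide +kernel)
theorem L1238981 : W_4 (nat_lit 5) (nat_lit 0x5c001e0002000300000000000000000000000) (nat_lit 0x0) (nat_lit 0x58000f0006000000000000000000) := T_4 (nat_lit 91) (nat_lit 74) (nat_lit 4) (nat_lit 7) (nat_lit 8) L1238980 (by decide +kernel)
theorem L1238982 : W_4 (nat_lit 6) (nat_lit 0x5c000e0002000300000000000000000000000) (nat_lit 0x0) (nat_lit 0x3000058000f0006000000000000000000) := T_4 (nat_lit 128) (nat_lit 129) (nat_lit 1) (nat_lit 10) (nat_lit 7) L1238981 (by decide +kernel)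
theorem L1238983 : W_4 (nat_lit 7) (nat_lit 0x58000e0002000300000000000000000000000) (nat_lit 0x0) (nat_lit 0x80004003000058000f0006000000000000000000) := T_4 (nat_lit 142) (nat_lit 159) (nat_lit 5) (nat_lit 7) (nat_lit 5) L1238982 (by decide +kernel)
theorem L1238984 : W_4 (nat_lit 8) (nat_lit 0x58000e0002000100000000000000000000000) (nat_lit 0x0) (nat_lit 0x80004003000058002f0016000000000000000000) := T_4 (nat_lit 93) (nat_lit 76) (nat_lit 6) (nat_lit 7) (nat_lit 8) L1238983 (by decide +kernel)
theorem L1238985 : W_4 (nat_lit 9) (nat_lit 0x58000e0002000000000000000000000000000) (nat_lit 0x0) (nat_lit 0x80004003000058003f001e000000000000000000) := T_4 (nat_lit 92) (nat_lit 75) (nat_lit 7) (nat_lit 7) (nat_lit 4) L1238984 (by decide +kernel)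
theorem L1238986 : W_4 (nat_lit 10) (nat_lit 0x18000e0002000000000000000000000000000) (nat_lit 0x0) (nat_lit 0x80064003000058003f001e000000000000000000) := T_4 (nat_lit 146) (nat_lit 145) (nat_lit 0) (nat_lit 10) (nat_lit 8) L1238985 (by decide +kernel)
theorem L1238987 : W_4 (nat_lit 11) (nat_lit 0x18000c0002000000000000000000000000000) (nat_lit 0x0) (nat_lit 0x8006400738005c003f001e000000000000000000) := Q_4 (nat_lit 125) (C_4 L1238977 (C_4 L616044 (C_4 L1238986 N_4))) (by decide +kernel)
theorem L1238988 : W_4 (nat_lit 2) (nat_lit 0x10001c002c0002000180000000000000000000000) (nat_lit 0x0) (nat_lit 0x4000200000000000000004000000000000000000000000000) := D_4 (nat_lit 177) (nat_lit 110) (nat_lit 194) (nat_lit 6) (nat_lit 7) (nat_lit 10) (nat_lit 6) (nat_lit 7) (nat_lit 11) (by decide +kernel)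
theorem L1238989 : W_4 (nat_lit 3) (nat_lit 0x1c002c0002000180000000000000000000000) (nat_lit 0x0) (nat_lit 0x4000200010000000000005000000000000000000000000000) := T_4 (nat_lit 160) (nat_lit 108) (nat_lit 4) (nat_lit 7) (nat_lit 9) L1238988 (by decide +kernel)
theorem L1238990 : W_4 (nat_lit 4) (nat_lit 0x1c002c0002000100000000000000000000000) (nat_lit 0x0) (nat_lit 0x4000200010000000000005000080004000000000000000000) := T_4 (nat_lit 91) (nat_lit 74) (nat_lit 4) (nat_lit 7) (nat_lit 8) L1238989 (by decide +kernel)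
theorem L1238991 : W_4 (nat_lit 5) (nat_lit 0x1c000c0002000100000000000000000000000) (nat_lit 0x0) (nat_lit 0x4000200010000000300005000080004000000000000000000) := T_4 (nat_lit 129) (nat_lit 128) (nat_lit 1) (nat_lit 10) (nat_lit 7) L1238990 (by decide +kernel)
theorem L1238992 : W_4 (nat_lit 6) (nat_lit 0x18000c0002000100000000000000000000000) (nat_lit 0x0) (nat_lit 0x4000200018000400300005000080004000000000000000000) := T_4 (nat_lit 142) (nat_lit 159) (nat_lit 5) (nat_lit 7) (nat_lit 5) L1238991 (by decide +kernel)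
theorem L1238993 : W_4 (nat_lit 7) (nat_lit 0x18000c0002000000000000000000000000000) (nat_lit 0x0) (nat_lit 0x400020001800040030000500018000c000000000000000000) := T_4 (nat_lit 92) (nat_lit 75) (nat_lit 7) (nat_lit 7) (nat_lit 4) L1238992 (by decide +kernel)
theorem L1239011 : W_4 (nat_lit 15) (nat_lit 0x10000c0002000000000000000000000000000) (nat_lit 0x0) (nat_lit 0x600030011e00ec00738035c01ff00fe000000000000000000) := Q_4 (nat_lit 143) (C_4 L1238987 (C_4 L1212819 (C_4 L1238993 (C_4 L616043 (C_4 L1239006 (C_4 L1239010 N_4)))))) (by decide +kernel)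
theorem L1239012 : W_4 (nat_lit 16) (nat_lit 0x10000c0000000000000000000000000000000) (nat_lit 0x0) (nat_lit 0xe00070013e00ec00738037c01ff00fe001f00000000000000) := Q_4 (nat_lit 109) (C_4 L1238972 (C_4 L1219779 (C_4 L1239011 (C_4 L615321 (C_4 L284220 N_4))))) (by decide +kernel)
theorem L1239034 : W_4 (nat_lit 5) (nat_lit 0x4000000018000e0007000000000000000000000000000) (nat_lit 0x0) (nat_lit 0x400000000c000e0006000100000000000000) := T_4 (nat_lit 91) (nat_lit 74) (nat_lit 7) (nat_lit 6) (nat_lit 4) L1213043 (by decide +kernel)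
theorem L1239035 : W_4 (nat_lit 6) (nat_lit 0x18000e0007000000000000000000000000000) (nat_lit 0x0) (nat_lit 0x400020000400000000c000e0006000100000000000000) := T_4 (nat_lit 178) (nat_lit 161) (nat_lit 4) (nat_lit 8) (nat_lit 10) L1239034 (by decide +kernel)
theorem L1239073 : W_4 (nat_lit 2) (nat_lit 0x3c000c0002000000000000000000000000000) (nat_lit 0x0) (nat_lit 0x200300000000000000000000000000000000) := D_4 (nat_lit 128) (nat_lit 129) (nat_lit 141) (nat_lit 2) (nat_lit 6) (nat_lit 8) (nat_lit 2) (nat_lit 5) (nat_lit 8) (by decide +kernel)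
theorem L1239362 : W_4 (nat_lit 2) (nat_lit 0x400000001e000d0006c01600000000000000000000000) (nat_lit 0x0) (nat_lit 0x6000000000000000020000000000000000000000) := D_4 (nat_lit 158) (nat_lit 157) (nat_lit 89) (nat_lit 1) (nat_lit 8) (nat_lit 8) (nat_lit 4) (nat_lit 5) (nat_lit 9) (by decide +kernel)
theorem L1239363 : W_4 (nat_lit 3) (nat_lit 0x400000001e000d0006801600000000000000000000000) (nat_lit 0x0) (nat_lit 0x6000000020000400020000000000000000000000) := T_4 (nat_lit 106) (nat_lit 125) (nat_lit 0) (nat_lit 8) (nat_lit 7) L1239362 (by decide +kernel)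
theorem L1239364 : W_4 (nat_lit 4) (nat_lit 0x400000001e000c0006801600000000000000000000000) (nat_lit 0x0) (nat_lit 0x6000000038000400020000000000000000000000) := T_4 (nat_lit 124) (nat_lit 123) (nat_lit 0) (nat_lit 8) (nat_lit 8) L1239363 (by decide +kernel)
theorem L1239820 : W_4 (nat_lit 2) (nat_lit 0x300010000e00078002c0000000000000000000000) (nat_lit 0x0) (nat_lit 0x400000000000000002000100000000000000) := D_4 (nat_lit 73) (nat_lit 56) (nat_lit 142) (nat_lit 7) (nat_lit 5) (nat_lit 3) (nat_lit 4) (nat_lit 6) (nat_lit 8) (by decide +kernel)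
theorem L1239821 : W_4 (nat_lit 3) (nat_lit 0x300010000e0007800280000000000000000000000) (nat_lit 0x0) (nat_lit 0x400000000000060002000100000000000000) := T_4 (nat_lit 90) (nat_lit 89) (nat_lit 0) (nat_lit 8) (nat_lit 6) L1239820 (by decide +kernel)
theorem L1239822 : W_4 (nat_lit 4) (nat_lit 0x300010000e0007800080000000000000000000000) (nat_lit 0x0) (nat_lit 0x400000000000660002000100000000000000) := T_4 (nat_lit 93) (nat_lit 94) (nat_lit 2) (nat_lit 5) (nat_lit 6) L1239821 (by decide +kernel)
theorem L1239823 : W_4 (nat_lit 5) (nat_lit 0x300010000e0003800080000000000000000000000) (nat_lit 0x0) (nat_lit 0x200000000400000004000660002000100000000000000) := T_4 (nat_lit 110) (nat_lit 177) (nat_lit 5) (nat_lit 8) (nat_lit 6) L1239822 (by decide +kernel)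
theorem L1239824 : W_4 (nat_lit 6) (nat_lit 0x100010000e0003800080000000000000000000000) (nat_lit 0x0) (nat_lit 0x600020000400000004000660002000100000000000000) := T_4 (nat_lit 161) (nat_lit 178) (nat_lit 4) (nat_lit 8) (nat_lit 10) L1239823 (by decide +kernel)
theorem L1239825 : W_4 (nat_lit 7) (nat_lit 0x10000e0003800080000000000000000000000) (nat_lit 0x0) (nat_lit 0x600030000c00000004000660002000100000000000000) := T_4 (nat_lit 160) (nat_lit 143) (nat_lit 4) (nat_lit 7) (nat_lit 9) L1239824 (by decide +kernel)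
theorem L1239826 : W_4 (nat_lit 8) (nat_lit 0x10000e0003000080000000000000000000000) (nat_lit 0x0) (nat_lit 0x600030000c00000004c00660002000100000000000000) := T_4 (nat_lit 107) (nat_lit 106) (nat_lit 3) (nat_lit 4) (nat_lit 6) L1239825 (by decide +kernel)
theorem L1239827 : W_4 (nat_lit 11) (nat_lit 0x10000e0003000000000000000000000000000) (nat_lit 0x0) (nat_lit 0x600030000c00000004c006f003e001f00000000000000) := Q_4 (nat_lit 91) (C_4 L615485 (C_4 L284446 (C_4 L1239826 N_4))) (by decide +kernel)
theorem L1240031 : W_4 (nat_lit 2) (nat_lit 0x1a000e0003000000000000000000000000000) (nat_lit 0x0) (nat_lit 0x200010000000000000000080000000000000000000000) := D_4 (nat_lit 160) (nat_lit 177) (nat_lit 91) (nat_lit 4) (nat_lit 7) (nat_lit 10) (nat_lit 4) (nat_lit 7) (nat_lit 9) (by decide +kernel)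
theorem L1240566 : W_4 (nat_lit 2) (nat_lit 0x4000000012001e0002000000000000000000000000000) (nat_lit 0x0) (nat_lit 0x200001800000000000000000000000000) := D_4 (nat_lit 108) (nat_lit 129) (nat_lit 107) (nat_lit 0) (nat_lit 10) (nat_lit 7) (nat_lit 0) (nat_lit 9) (nat_lit 7) (by decide +kernel)
theorem L1240567 : W_4 (nat_lit 3) (nat_lit 0x4000000012000e0002000000000000000000000000000) (nat_lit 0x0) (nat_lit 0x400300001800000000000000000000000000) := T_4 (nat_lit 128) (nat_lit 142) (nat_lit 1) (nat_lit 9) (nat_lit 7) L1240566 (by decide +kernel)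
theorem L1240568 : W_4 (nat_lit 4) (nat_lit 0x12000e0002000000000000000000000000000) (nat_lit 0x0) (nat_lit 0x400020000400300001800000000000000000000000000) := T_4 (nat_lit 178) (nat_lit 161) (nat_lit 4) (nat_lit 8) (nat_lit 10) L1240567 (by decide +kernel)
theorem L1240920 : W_4 (nat_lit 2) (nat_lit 0x4000000070000c0002000000000000000000000000000) (nat_lit 0x0) (nat_lit 0x800120000000000000000000000000000000) := D_4 (nat_lit 125) (nat_lit 143) (nat_lit 128) (nat_lit 0) (nat_lit 10) (nat_lit 8) (nat_lit 3) (nat_lit 6) (nat_lit 7) (by decide +kernel)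
theorem L1240921 : W_4 (nat_lit 3) (nat_lit 0x4000000030000c0002000000000000000000000000000) (nat_lit 0x0) (nat_lit 0xc800120000000000000000000000000000000) := T_4 (nat_lit 146) (nat_lit 147) (nat_lit 0) (nat_lit 11) (nat_lit 8) L1240920 (by decide +kernel)
theorem L1240922 : W_4 (nat_lit 4) (nat_lit 0x30000c0002000000000000000000000000000) (nat_lit 0x0) (nat_lit 0x40002000c800120000000000000000000000000000000) := T_4 (nat_lit 178) (nat_lit 161) (nat_lit 4) (nat_lit 8) (nat_lit 10) L1240921 (by decide +kernel)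
theorem L1242206 : W_4 (nat_lit 2) (nat_lit 0x4000000036000e0002000000000000000000000000000) (nat_lit 0x0) (nat_lit 0x980000000000000000000000000000000000) := D_4 (nat_lit 140) (nat_lit 139) (nat_lit 143) (nat_lit 2) (nat_lit 3) (nat_lit 8) (nat_lit 2) (nat_lit 4) (nat_lit 8) (by decide +kernel)
theorem L1242207 : W_4 (nat_lit 3) (nat_lit 0x4000000034000e0002000000000000000000000000000) (nat_lit 0x0) (nat_lit 0xb80100000000000000000000000000000000) := T_4 (nat_lit 141) (nat_lit 128) (nat_lit 1) (nat_lit 9) (nat_lit 7) L1242206 (by decide +kernel)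
theorem L1242208 : W_4 (nat_lit 4) (nat_lit 0x34000e0002000000000000000000000000000) (nat_lit 0x0) (nat_lit 0x400020000b80100000000000000000000000000000000) := T_4 (nat_lit 178) (nat_lit 161) (nat_lit 4) (nat_lit 8) (nat_lit 10) L1242207 (by decide +kernel)
theorem L1242209 : W_4 (nat_lit 5) (nat_lit 0x34000c0002000000000000000000000000000) (nat_lit 0x0) (nat_lit 0x400020000b80130000000000000000000000000000000) := T_4 (nat_lit 125) (nat_lit 124) (nat_lit 3) (nat_lit 5) (nat_lit 7) L1242208 (by decide +kernel)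
theorem L1246305 : W_4 (nat_lit 2) (nat_lit 0x10001a000d0002000000000000000000000000000) (nat_lit 0x0) (nat_lit 0x4000200000000000000004000000000000000000000000000) := D_4 (nat_lit 177) (nat_lit 194) (nat_lit 110) (nat_lit 6) (nat_lit 7) (nat_lit 11) (nat_lit 6) (nat_lit 7) (nat_lit 10) (by decide +kernel)
theorem L1247431 : W_4 (nat_lit 2) (nat_lit 0x40012000d00028000e0000000000000000000000) (nat_lit 0x0) (nat_lit 0x40002000100000000000000000000000000000000000) := D_4 (nat_lit 157) (nat_lit 140) (nat_lit 174) (nat_lit 5) (nat_lit 5) (nat_lit 5) (nat_lit 5) (nat_lit 5) (nat_lit 6) (by decide +kernel)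
theorem L1247432 : W_4 (nat_lit 3) (nat_lit 0x12000d00028000e0000000000000000000000) (nat_lit 0x0) (nat_lit 0x40006000100000000400000000000000000000000000) := T_4 (nat_lit 158) (nat_lit 106) (nat_lit 4) (nat_lit 5) (nat_lit 9) L1247431 (by decide +kernel)
theorem L1247433 : W_4 (nat_lit 4) (nat_lit 0x12000d0002800060000000000000000000000) (nat_lit 0x0) (nat_lit 0x40006000100000000400080004000000000000000000) := T_4 (nat_lit 91) (nat_lit 74) (nat_lit 6) (nat_lit 5) (nat_lit 8) L1247432 (by decide +kernel)
theorem L1247434 : W_4 (nat_lit 5) (nat_lit 0x12000d0002800040000000000000000000000) (nat_lit 0x0) (nat_lit 0x400060001000000004000a0005000000000000000000) := T_4 (nat_lit 89) (nat_lit 72) (nat_lit 4) (nat_lit 5) (nat_lit 8) L1247433 (by decide +kernel)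
theorem L1247435 : W_4 (nat_lit 2) (nat_lit 0x12000d8002800060006000000000000000000) (nat_lit 0x0) (nat_lit 0x4000000000000400000000000100000000000000) := D_4 (nat_lit 106) (nat_lit 56) (nat_lit 158) (nat_lit 5) (nat_lit 5) (nat_lit 3) (nat_lit 4) (nat_lit 5) (nat_lit 9) (by decide +kernel)
theorem L1247436 : W_4 (nat_lit 3) (nat_lit 0x12000d0002800060006000000000000000000) (nat_lit 0x0) (nat_lit 0x4000100008000400000000000100000000000000) := T_4 (nat_lit 123) (nat_lit 140) (nat_lit 5) (nat_lit 5) (nat_lit 4) L1247435 (by decide +kernel)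
theorem L1247437 : W_4 (nat_lit 4) (nat_lit 0x12000d0002800060004000000000000000000) (nat_lit 0x0) (nat_lit 0x4000100008000400000002000300000000000000) := T_4 (nat_lit 73) (nat_lit 57) (nat_lit 6) (nat_lit 5) (nat_lit 7) L1247436 (by decide +kernel)
theorem L1247438 : W_4 (nat_lit 5) (nat_lit 0x12000d0002800040004000000000000000000) (nat_lit 0x0) (nat_lit 0x4000100008000400020003000300000000000000) := T_4 (nat_lit 89) (nat_lit 72) (nat_lit 4) (nat_lit 5) (nat_lit 8) L1247437 (by decide +kernel)
theorem L1247439 : W_4 (nat_lit 6) (nat_lit 0x12000d0002800040000000000000000000000) (nat_lit 0x0) (nat_lit 0x40001000080004000a0007000300000000000000) := T_4 (nat_lit 74) (nat_lit 91) (nat_lit 6) (nat_lit 5) (nat_lit 8) L1247438 (by decide +kernel)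
theorem L1247440 : W_4 (nat_lit 2) (nat_lit 0x12000d0002c00060006000000000000000000) (nat_lit 0x0) (nat_lit 0x8000000000000000100008000000000) := D_4 (nat_lit 56) (nat_lit 123) (nat_lit 39) (nat_lit 5) (nat_lit 5) (nat_lit 3) (nat_lit 5) (nat_lit 5) (nat_lit 2) (by decide +kernel)
theorem L1247441 : W_4 (nat_lit 3) (nat_lit 0x12000d0002c00060004000000000000000000) (nat_lit 0x0) (nat_lit 0x8000000000002000300008000000000) := T_4 (nat_lit 73) (nat_lit 57) (nat_lit 6) (nat_lit 5) (nat_lit 7) L1247440 (by decide +kernel)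
theorem L1247442 : W_4 (nat_lit 4) (nat_lit 0x12000d0002800060004000000000000000000) (nat_lit 0x0) (nat_lit 0x4000000008000400000002000300008000000000) := T_4 (nat_lit 106) (nat_lit 158) (nat_lit 4) (nat_lit 5) (nat_lit 9) L1247441 (by decide +kernel)
theorem L1247443 : W_4 (nat_lit 5) (nat_lit 0x12000d0002800060000000000000000000000) (nat_lit 0x0) (nat_lit 0x4000000008000400080006000300008000000000) := T_4 (nat_lit 74) (nat_lit 91) (nat_lit 6) (nat_lit 5) (nat_lit 8) L1247442 (by decide +kernel)
theorem L1247444 : W_4 (nat_lit 6) (nat_lit 0x12000d0002800040000000000000000000000) (nat_lit 0x0) (nat_lit 0x40000000080004000a0007000300008000000000) := T_4 (nat_lit 89) (nat_lit 72) (nat_lit 4) (nat_lit 5) (nat_lit 8) L1247443 (by decide +kernel)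
theorem L1247445 : W_4 (nat_lit 7) (nat_lit 0x12000d0002800000000000000000000000000) (nat_lit 0x0) (nat_lit 0x400060001000080004000e0007000380008000000000) := Q_4 (nat_lit 90) (C_4 L291067 (C_4 L290925 (C_4 L1247434 (C_4 L1247439 (C_4 L1247444 N_4))))) (by decide +kernel)
theorem L1254978 : W_4 (nat_lit 2) (nat_lit 0x12000e0002000000000000000000000000000) (nat_lit 0x0) (nat_lit 0x2100010000000000000000000000000000000) := D_4 (nat_lit 124) (nat_lit 140) (nat_lit 145) (nat_lit 1) (nat_lit 8) (nat_lit 7) (nat_lit 3) (nat_lit 5) (nat_lit 7) (by decide +kernel)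
theorem L1254979 : W_4 (nat_lit 9) (nat_lit 0x12000c0002000000000000000000000000000) (nat_lit 0x0) (nat_lit 0x4000200025e033e001e00000000000000000000000000) := Q_4 (nat_lit 125) (C_4 L1240568 (C_4 L303808 (C_4 L1254978 N_4))) (by decide +kernel)
theorem L1254980 : W_4 (nat_lit 4) (nat_lit 0x1a000c0002000000000000000000000000000) (nat_lit 0x0) (nat_lit 0x400020000500038000000000000000000000000000000) := T_4 (nat_lit 178) (nat_lit 161) (nat_lit 4) (nat_lit 8) (nat_lit 10) L1213266 (by decide +kernel)
theorem L1254981 : W_4 (nat_lit 2) (nat_lit 0x1a000e0002000000000000000000000000000) (nat_lit 0x0) (nat_lit 0x100018000000000000000000000000000000) := D_4 (nat_lit 124) (nat_lit 140) (nat_lit 123) (nat_lit 1) (nat_lit 8) (nat_lit 7) (nat_lit 3) (nat_lit 4) (nat_lit 7) (by decide +kernel)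
theorem L1254982 : W_4 (nat_lit 2) (nat_lit 0x1a000e0003000000000000000000000000000) (nat_lit 0x0) (nat_lit 0x300000800000000000000000000000000) := D_4 (nat_lit 128) (nat_lit 107) (nat_lit 129) (nat_lit 0) (nat_lit 9) (nat_lit 7) (nat_lit 0) (nat_lit 10) (nat_lit 7) (by decide +kernel)
theorem L1254983 : W_4 (nat_lit 3) (nat_lit 0x1a000e0002000000000000000000000000000) (nat_lit 0x0) (nat_lit 0x200010000000300001800080000000000000000000000) := Q_4 (nat_lit 108) (C_4 L1240031 (C_4 L1254982 N_4)) (by decide +kernel)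
theorem L1254984 : W_4 (nat_lit 4) (nat_lit 0x1a000c0002000000000000000000000000000) (nat_lit 0x0) (nat_lit 0x200010000100338001800080000000000000000000000) := Q_4 (nat_lit 125) (C_4 L1254981 (C_4 L1254983 N_4)) (by decide +kernel)
theorem L1254985 : W_4 (nat_lit 3) (nat_lit 0x400000001a000c0002000000000000000000000000000) (nat_lit 0x0) (nat_lit 0x400700001000000000000000000000000000) := T_4 (nat_lit 128) (nat_lit 142) (nat_lit 2) (nat_lit 5) (nat_lit 8) L626854 (by decide +kernel)
theorem L1254986 : W_4 (nat_lit 4) (nat_lit 0x1a000c0002000000000000000000000000000) (nat_lit 0x0) (nat_lit 0x400020000400700001000000000000000000000000000) := T_4 (nat_lit 178) (nat_lit 161) (nat_lit 4) (nat_lit 8) (nat_lit 10) L1254985 (by decide +kernel)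
theorem L1254987 : W_4 (nat_lit 5) (nat_lit 0x12000c0002000000000000000000000000000) (nat_lit 0x0) (nat_lit 0x600030000d00738001800080000000000000000000000) := Q_4 (nat_lit 143) (C_4 L1117129 (C_4 L1254980 (C_4 L1254984 (C_4 L1254986 N_4)))) (by decide +kernel)
theorem L1254988 : W_4 (nat_lit 3) (nat_lit 0x4001e000d0002000000000000000000000000000) (nat_lit 0x0) (nat_lit 0x80000002000020001000080000000000000000000000) := T_4 (nat_lit 125) (nat_lit 145) (nat_lit 3) (nat_lit 5) (nat_lit 7) L1213020 (by decide +kernel)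
theorem L1254989 : W_4 (nat_lit 4) (nat_lit 0x4001e000c0002000000000000000000000000000) (nat_lit 0x0) (nat_lit 0x80000002000038001000080000000000000000000000) := T_4 (nat_lit 124) (nat_lit 123) (nat_lit 0) (nat_lit 8) (nat_lit 8) L1254988 (by decide +kernel)
theorem L1254990 : W_4 (nat_lit 5) (nat_lit 0x1e000c0002000000000000000000000000000) (nat_lit 0x0) (nat_lit 0x80006002000038001000080000000000000000000000) := T_4 (nat_lit 158) (nat_lit 157) (nat_lit 1) (nat_lit 8) (nat_lit 8) L1254989 (by decide +kernel)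
theorem L1254991 : W_4 (nat_lit 6) (nat_lit 0x1a000c0002000000000000000000000000000) (nat_lit 0x0) (nat_lit 0x80006002500038001000080000000000000000000000) := T_4 (nat_lit 142) (nat_lit 140) (nat_lit 2) (nat_lit 4) (nat_lit 8) L1254990 (by decide +kernel)
theorem L1254992 : W_4 (nat_lit 6) (nat_lit 0x1a000c0002000000000000000000000000000) (nat_lit 0x0) (nat_lit 0x80006002400138001000080000000000000000000000) := T_4 (nat_lit 142) (nat_lit 128) (nat_lit 2) (nat_lit 5) (nat_lit 8) L1254990 (by decide +kernel)
theorem L1254993 : W_4 (nat_lit 7) (nat_lit 0x12000c0002000000000000000000000000000) (nat_lit 0x0) (nat_lit 0x280016002d00338001800080000000000000000000000) := Q_4 (nat_lit 143) (C_4 L1254984 (C_4 L1254991 (C_4 L1117129 (C_4 L1254992 N_4)))) (by decide +kernel)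
theorem L1254994 : W_4 (nat_lit 4) (nat_lit 0x4000000012000e0002000000000000000000000000000) (nat_lit 0x0) (nat_lit 0x900018000e00000000000000000000000000) := T_4 (nat_lit 124) (nat_lit 140) (nat_lit 1) (nat_lit 8) (nat_lit 7) L616449 (by decide +kernel)
theorem L1254995 : W_4 (nat_lit 5) (nat_lit 0x12000e0002000000000000000000000000000) (nat_lit 0x0) (nat_lit 0x400020000900018000e00000000000000000000000000) := T_4 (nat_lit 178) (nat_lit 161) (nat_lit 4) (nat_lit 8) (nat_lit 10) L1254994 (by decide +kernel)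
theorem L1255026 : W_4 (nat_lit 2) (nat_lit 0x12003e0002000000000000000000000000000) (nat_lit 0x0) (nat_lit 0xe000000000000000000000000000000000000) := D_4 (nat_lit 146) (nat_lit 147) (nat_lit 145) (nat_lit 3) (nat_lit 7) (nat_lit 7) (nat_lit 3) (nat_lit 6) (nat_lit 7) (by decide +kernel)
theorem L1255091 : W_4 (nat_lit 2) (nat_lit 0x12000d0002000000000000000000000000000) (nat_lit 0x0) (nat_lit 0x2100020000000000000000000000000000000) := D_4 (nat_lit 125) (nat_lit 140) (nat_lit 145) (nat_lit 1) (nat_lit 8) (nat_lit 7) (nat_lit 3) (nat_lit 5) (nat_lit 7) (by decide +kernel)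
theorem L1255092 : W_4 (nat_lit 4) (nat_lit 0x4000000012000d0002000000000000000000000000000) (nat_lit 0x0) (nat_lit 0x900028000e00000000000000000000000000) := T_4 (nat_lit 125) (nat_lit 140) (nat_lit 1) (nat_lit 8) (nat_lit 7) L616449 (by decide +kernel)
theorem L1255093 : W_4 (nat_lit 5) (nat_lit 0x12000d0002000000000000000000000000000) (nat_lit 0x0) (nat_lit 0x400020000900028000e00000000000000000000000000) := T_4 (nat_lit 178) (nat_lit 161) (nat_lit 4) (nat_lit 8) (nat_lit 10) L1255092 (by decide +kernel)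
theorem L1255094 : W_4 (nat_lit 2) (nat_lit 0x12000d0003800000000000000000000000000) (nat_lit 0x0) (nat_lit 0x108004000000000000000000000000000) := D_4 (nat_lit 110) (nat_lit 128) (nat_lit 123) (nat_lit 3) (nat_lit 5) (nat_lit 6) (nat_lit 1) (nat_lit 8) (nat_lit 6) (by decide +kernel)
theorem L1255095 : W_4 (nat_lit 4) (nat_lit 0x12000d0002800000000000000000000000000) (nat_lit 0x0) (nat_lit 0x40000001080050000c0004000200000000000000) := Q_4 (nat_lit 108) (C_4 L304939 (C_4 L1255094 N_4)) (by decide +kernel)
theorem L1255096 : W_4 (nat_lit 8) (nat_lit 0x12000d0002000000000000000000000000000) (nat_lit 0x0) (nat_lit 0x8004c0026000100108005c000f0007000380008000000000) := Q_4 (nat_lit 107) (C_4 L1247445 (C_4 L302124 (C_4 L1178810 (C_4 L290904 (C_4 L1255095 N_4))))) (by decide +kernel)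
theorem L1255097 : W_4 (nat_lit 4) (nat_lit 0x4000000012000d0002000000000000000000000000000) (nat_lit 0x0) (nat_lit 0x2800028000e00000000000000000000000000) := T_4 (nat_lit 125) (nat_lit 145) (nat_lit 3) (nat_lit 5) (nat_lit 7) L616449 (by decide +kernel)
theorem L1255098 : W_4 (nat_lit 5) (nat_lit 0x12000d0002000000000000000000000000000) (nat_lit 0x0) (nat_lit 0x400020002800028000e00000000000000000000000000) := T_4 (nat_lit 178) (nat_lit 161) (nat_lit 4) (nat_lit 8) (nat_lit 10) L1255097 (by decide +kernel)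
theorem L1255099 : W_4 (nat_lit 9) (nat_lit 0x12000c0002000000000000000000000000000) (nat_lit 0x0) (nat_lit 0x8004c0026002900138005e000f0007000380008000000000) := Q_4 (nat_lit 124) (C_4 L1255091 (C_4 L1255093 (C_4 L1255096 (C_4 L1255098 N_4)))) (by decide +kernel)
theorem L1255100 : W_4 (nat_lit 2) (nat_lit 0x10001a000c0002000000000000000000000000000) (nat_lit 0x0) (nat_lit 0x4000200000000000000004000000000000000000000000000) := D_4 (nat_lit 177) (nat_lit 194) (nat_lit 110) (nat_lit 6) (nat_lit 7) (nat_lit 11) (nat_lit 6) (nat_lit 7) (nat_lit 10) (by decide +kernel)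
theorem L1255278 : W_4 (nat_lit 2) (nat_lit 0x400010001a000d0007000000000000000000000000000) (nat_lit 0x0) (nat_lit 0x8000c00000000000000000000000000) := D_4 (nat_lit 107) (nat_lit 106) (nat_lit 123) (nat_lit 3) (nat_lit 4) (nat_lit 6) (nat_lit 1) (nat_lit 8) (nat_lit 6) (by decide +kernel)
theorem L1255279 : W_4 (nat_lit 3) (nat_lit 0x400010001a000d0006000000000000000000000000000) (nat_lit 0x0) (nat_lit 0x8001c00080000000000000000000000) := T_4 (nat_lit 108) (nat_lit 91) (nat_lit 4) (nat_lit 7) (nat_lit 9) L1255278 (by decide +kernel)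
theorem L1255280 : W_4 (nat_lit 4) (nat_lit 0x400010001a000d0002000000000000000000000000000) (nat_lit 0x0) (nat_lit 0x8005c00280000000000000000000000) := T_4 (nat_lit 110) (nat_lit 93) (nat_lit 6) (nat_lit 7) (nat_lit 9) L1255279 (by decide +kernel)
theorem L1255281 : W_4 (nat_lit 5) (nat_lit 0x10001a000d0002000000000000000000000000000) (nat_lit 0x0) (nat_lit 0x400020000000008005c00280000000000000000000000) := T_4 (nat_lit 178) (nat_lit 161) (nat_lit 7) (nat_lit 7) (nat_lit 6) L1255280 (by decide +kernel)
theorem L1255282 : W_4 (nat_lit 6) (nat_lit 0x1a000d0002000000000000000000000000000) (nat_lit 0x0) (nat_lit 0xc000600030000000008005c00280000000000000000000000) := Q_4 (nat_lit 160) (C_4 L1246305 (C_4 L998618 (C_4 L1255281 N_4))) (by decide +kernel)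
theorem L1255283 : W_4 (nat_lit 9) (nat_lit 0x12000d0002000000000000000000000000000) (nat_lit 0x0) (nat_lit 0xc800640036000d00008005c002c0000000000000000000000) := Q_4 (nat_lit 143) (C_4 L1255282 (C_4 L998616 (C_4 L1036504 N_4))) (by decide +kernel)
theorem L1255284 : W_4 (nat_lit 10) (nat_lit 0x12000c0002000000000000000000000000000) (nat_lit 0x0) (nat_lit 0xc800640036002d00038005e002c0000000000000000000000) := Q_4 (nat_lit 124) (C_4 L1255098 (C_4 L1255093 (C_4 L1255091 (C_4 L1255283 N_4)))) (by decide +kernel)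
theorem L1255285 : W_4 (nat_lit 2) (nat_lit 0x400010001a000c0007000000000000000000000000000) (nat_lit 0x0) (nat_lit 0x100000c00000000000000000000000000) := D_4 (nat_lit 107) (nat_lit 128) (nat_lit 106) (nat_lit 3) (nat_lit 5) (nat_lit 6) (nat_lit 3) (nat_lit 4) (nat_lit 6) (by decide +kernel)
theorem L1255286 : W_4 (nat_lit 3) (nat_lit 0x400010001a000c0006000000000000000000000000000) (nat_lit 0x0) (nat_lit 0x100001c00080000000000000000000000) := T_4 (nat_lit 108) (nat_lit 91) (nat_lit 4) (nat_lit 7) (nat_lit 9) L1255285 (by decide +kernel)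
theorem L1255287 : W_4 (nat_lit 4) (nat_lit 0x400010001a000c0002000000000000000000000000000) (nat_lit 0x0) (nat_lit 0x100005c00280000000000000000000000) := T_4 (nat_lit 110) (nat_lit 93) (nat_lit 6) (nat_lit 7) (nat_lit 9) L1255286 (by decide +kernel)
theorem L1255288 : W_4 (nat_lit 5) (nat_lit 0x10001a000c0002000000000000000000000000000) (nat_lit 0x0) (nat_lit 0x400020000000100005c00280000000000000000000000) := T_4 (nat_lit 178) (nat_lit 161) (nat_lit 7) (nat_lit 7) (nat_lit 6) L1255287 (by decide +kernel)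
theorem L1255289 : W_4 (nat_lit 6) (nat_lit 0x1a000c0002000000000000000000000000000) (nat_lit 0x0) (nat_lit 0xc000600030000000100005c00280000000000000000000000) := Q_4 (nat_lit 160) (C_4 L1255100 (C_4 L1034815 (C_4 L1255288 N_4))) (by decide +kernel)
theorem L1255290 : W_4 (nat_lit 2) (nat_lit 0x400010001b000c0007800040000000000000000000000) (nat_lit 0x0) (nat_lit 0x2000000018000000000000000000000000000000) := D_4 (nat_lit 124) (nat_lit 123) (nat_lit 157) (nat_lit 1) (nat_lit 8) (nat_lit 6) (nat_lit 5) (nat_lit 5) (nat_lit 5) (by decide +kernel)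
theorem L1255291 : W_4 (nat_lit 3) (nat_lit 0x400010001b000c0007800000000000000000000000000) (nat_lit 0x0) (nat_lit 0x2000000018000000060000000000000000000000) := T_4 (nat_lit 90) (nat_lit 89) (nat_lit 0) (nat_lit 8) (nat_lit 6) L1255290 (by decide +kernel)
theorem L1255292 : W_4 (nat_lit 4) (nat_lit 0x400010001a000c0007800000000000000000000000000) (nat_lit 0x0) (nat_lit 0x2000500018000000060000000000000000000000) := T_4 (nat_lit 140) (nat_lit 142) (nat_lit 2) (nat_lit 4) (nat_lit 8) L1255291 (by decide +kernel)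
theorem L1255293 : W_4 (nat_lit 5) (nat_lit 0x400010001a000c0007000000000000000000000000000) (nat_lit 0x0) (nat_lit 0x2000500018000c00060000000000000000000000) := T_4 (nat_lit 107) (nat_lit 106) (nat_lit 3) (nat_lit 4) (nat_lit 6) L1255292 (by decide +kernel)
theorem L1255294 : W_4 (nat_lit 6) (nat_lit 0x400010001a000c0006000000000000000000000000000) (nat_lit 0x0) (nat_lit 0x2000500018001c000e0000000000000000000000) := T_4 (nat_lit 108) (nat_lit 91) (nat_lit 4) (nat_lit 7) (nat_lit 9) L1255293 (by decide +kernel)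
theorem L1255295 : W_4 (nat_lit 7) (nat_lit 0x400010001a000c0002000000000000000000000000000) (nat_lit 0x0) (nat_lit 0x2000500018005c002e0000000000000000000000) := T_4 (nat_lit 110) (nat_lit 93) (nat_lit 6) (nat_lit 7) (nat_lit 9) L1255294 (by decide +kernel)
theorem L1255296 : W_4 (nat_lit 8) (nat_lit 0x10001a000c0002000000000000000000000000000) (nat_lit 0x0) (nat_lit 0x400022000500018005c002e0000000000000000000000) := T_4 (nat_lit 178) (nat_lit 161) (nat_lit 7) (nat_lit 7) (nat_lit 6) L1255295 (by decide +kernel)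
theorem L1255297 : W_4 (nat_lit 9) (nat_lit 0x1a000c0002000000000000000000000000000) (nat_lit 0x0) (nat_lit 0xc000600032000500018005c002e0000000000000000000000) := Q_4 (nat_lit 160) (C_4 L1255100 (C_4 L1034815 (C_4 L1255296 N_4))) (by decide +kernel)
theorem L1255298 : W_4 (nat_lit 10) (nat_lit 0x12000c0002000000000000000000000000000) (nat_lit 0x0) (nat_lit 0xc000600032000d00718005c002e0000000000000000000000) := Q_4 (nat_lit 143) (C_4 L1254986 (C_4 L1117129 (C_4 L1255289 (C_4 L1255297 N_4)))) (by decide +kernel)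
theorem L1255299 : W_4 (nat_lit 2) (nat_lit 0x4000000052003e0002000000000000000000000000000) (nat_lit 0x0) (nat_lit 0x800400004000000000000000000000000000) := D_4 (nat_lit 130) (nat_lit 110) (nat_lit 143) (nat_lit 0) (nat_lit 11) (nat_lit 7) (nat_lit 1) (nat_lit 11) (nat_lit 7) (by decide +kernel)
theorem L1255300 : W_4 (nat_lit 3) (nat_lit 0x4000000052001e0002000000000000000000000000000) (nat_lit 0x0) (nat_lit 0x8800600004000000000000000000000000000) := T_4 (nat_lit 129) (nat_lit 147) (nat_lit 3) (nat_lit 7) (nat_lit 7) L1255299 (by decide +kernel)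
theorem L1255301 : W_4 (nat_lit 4) (nat_lit 0x4000000012001e0002000000000000000000000000000) (nat_lit 0x0) (nat_lit 0xe800600004000000000000000000000000000) := T_4 (nat_lit 146) (nat_lit 145) (nat_lit 3) (nat_lit 6) (nat_lit 7) L1255300 (by decide +kernel)
theorem L1255302 : W_4 (nat_lit 5) (nat_lit 0x4000000012000e0002000000000000000000000000000) (nat_lit 0x0) (nat_lit 0xec00700004000000000000000000000000000) := T_4 (nat_lit 128) (nat_lit 142) (nat_lit 1) (nat_lit 9) (nat_lit 7) L1255301 (by decide +kernel)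
theorem L1255303 : W_4 (nat_lit 6) (nat_lit 0x12000e0002000000000000000000000000000) (nat_lit 0x0) (nat_lit 0x40002000ec00700004000000000000000000000000000) := T_4 (nat_lit 178) (nat_lit 161) (nat_lit 4) (nat_lit 8) (nat_lit 10) L1255302 (by decide +kernel)
theorem L1255304 : W_4 (nat_lit 7) (nat_lit 0x12000c0002000000000000000000000000000) (nat_lit 0x0) (nat_lit 0x40002000ed00738004e00000000000000000000000000) := Q_4 (nat_lit 125) (C_4 L1255303 (C_4 L1254995 (C_4 L1254978 N_4))) (by decide +kernel)
theorem L1255305 : W_4 (nat_lit 2) (nat_lit 0x12001c0002000000000000000000000000000) (nat_lit 0x0) (nat_lit 0xc00020000000000000000000000000000000) := D_4 (nat_lit 142) (nat_lit 125) (nat_lit 143) (nat_lit 1) (nat_lit 9) (nat_lit 7) (nat_lit 2) (nat_lit 5) (nat_lit 8) (by decide +kernel)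
theorem L1255306 : W_4 (nat_lit 5) (nat_lit 0x4000000012001c0002000000000000000000000000000) (nat_lit 0x0) (nat_lit 0xc800600071000000000000000000000000000) := T_4 (nat_lit 129) (nat_lit 108) (nat_lit 0) (nat_lit 10) (nat_lit 7) L1215823 (by decide +kernel)
theorem L1255307 : W_4 (nat_lit 6) (nat_lit 0x12001c0002000000000000000000000000000) (nat_lit 0x0) (nat_lit 0x40002000c800600071000000000000000000000000000) := T_4 (nat_lit 178) (nat_lit 161) (nat_lit 4) (nat_lit 8) (nat_lit 10) L1255306 (by decide +kernel)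
theorem L1255308 : W_4 (nat_lit 3) (nat_lit 0x12003c0002000000000000000000000000000) (nat_lit 0x0) (nat_lit 0xe400020000000000000000000000000000000) := T_4 (nat_lit 125) (nat_lit 142) (nat_lit 1) (nat_lit 9) (nat_lit 7) L1255026 (by decide +kernel)
theorem L1255309 : W_4 (nat_lit 4) (nat_lit 0x12001c0002000000000000000000000000000) (nat_lit 0x0) (nat_lit 0xe400220001000000000000000000000000000) := T_4 (nat_lit 129) (nat_lit 108) (nat_lit 0) (nat_lit 10) (nat_lit 7) L1255308 (by decide +kernel)
theorem L1255310 : W_4 (nat_lit 7) (nat_lit 0x12000c0002000000000000000000000000000) (nat_lit 0x0) (nat_lit 0x40002000ec00720071000000000000000000000000000) := Q_4 (nat_lit 128) (C_4 L1255305 (C_4 L1255307 (C_4 L1255309 N_4))) (by decide +kernel)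
theorem L1255311 : W_4 (nat_lit 11) (nat_lit 0x10000c0002000000000000000000000000000) (nat_lit 0x0) (nat_lit 0xc8006c003600efe073e075e002f0007000380008000000000) := Q_4 (nat_lit 141) (C_4 L1254979 (C_4 L1254987 (C_4 L1254993 (C_4 L1255099 (C_4 L1255284 (C_4 L1255298 (C_4 L1255304 (C_4 L1255310 N_4)))))))) (by decide +kernel)
theorem L1255532 : W_4 (nat_lit 2) (nat_lit 0x18000c0002000200000000000000000000000) (nat_lit 0x0) (nat_lit 0x100018000000000000000000) := D_4 (nat_lit 92) (nat_lit 75) (nat_lit 76) (nat_lit 7) (nat_lit 7) (nat_lit 4) (nat_lit 6) (nat_lit 7) (nat_lit 8) (by decide +kernel)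
theorem L1255533 : W_4 (nat_lit 2) (nat_lit 0x18000c0002000200000000000000000000000) (nat_lit 0x0) (nat_lit 0x10000000000004000000010000000000000000000) := D_4 (nat_lit 110) (nat_lit 160) (nat_lit 76) (nat_lit 6) (nat_lit 7) (nat_lit 9) (nat_lit 5) (nat_lit 8) (nat_lit 4) (by decide +kernel)
theorem L1255534 : W_4 (nat_lit 2) (nat_lit 0x18000e0002000200000000000000000000000) (nat_lit 0x0) (nat_lit 0x2000018000000000000000000000000000000) := D_4 (nat_lit 124) (nat_lit 145) (nat_lit 123) (nat_lit 3) (nat_lit 5) (nat_lit 7) (nat_lit 3) (nat_lit 4) (nat_lit 7) (by decide +kernel)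
theorem L1255535 : W_4 (nat_lit 2) (nat_lit 0x1e000f0006801780000000000000000000000) (nat_lit 0x0) (nat_lit 0x60002000000000000000000) := D_4 (nat_lit 90) (nat_lit 89) (nat_lit 73) (nat_lit 3) (nat_lit 4) (nat_lit 5) (nat_lit 7) (nat_lit 5) (nat_lit 4) (by decide +kernel)
theorem L1255536 : W_4 (nat_lit 3) (nat_lit 0x1e000f0006801700000000000000000000000) (nat_lit 0x0) (nat_lit 0xe0006000000000000000000) := T_4 (nat_lit 91) (nat_lit 74) (nat_lit 4) (nat_lit 7) (nat_lit 8) L1255535 (by decide +kernel)
theorem L1255537 : W_4 (nat_lit 4) (nat_lit 0x1a000f0006801700000000000000000000000) (nat_lit 0x0) (nat_lit 0x4001000000000e0006000000000000000000) := T_4 (nat_lit 142) (nat_lit 128) (nat_lit 2) (nat_lit 5) (nat_lit 8) L1255536 (by decide +kernel)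
theorem L1255538 : W_4 (nat_lit 5) (nat_lit 0x1a000f0006801600000000000000000000000) (nat_lit 0x0) (nat_lit 0x4001000000001e000e000000000000000000) := T_4 (nat_lit 92) (nat_lit 75) (nat_lit 7) (nat_lit 7) (nat_lit 4) L1255537 (by decide +kernel)
theorem L1255539 : W_4 (nat_lit 6) (nat_lit 0x18000f0006801600000000000000000000000) (nat_lit 0x0) (nat_lit 0x7001000000001e000e000000000000000000) := T_4 (nat_lit 141) (nat_lit 140) (nat_lit 1) (nat_lit 8) (nat_lit 7) L1255538 (by decide +kernel)
theorem L1255540 : W_4 (nat_lit 7) (nat_lit 0x18000f0006001600000000000000000000000) (nat_lit 0x0) (nat_lit 0x700100000c001e000e000000000000000000) := T_4 (nat_lit 107) (nat_lit 106) (nat_lit 0) (nat_lit 8) (nat_lit 7) L1255539 (by decide +kernel)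
theorem L1255541 : W_4 (nat_lit 8) (nat_lit 0x18000f0006000600000000000000000000000) (nat_lit 0x0) (nat_lit 0x700100000c019e000e000000000000000000) := T_4 (nat_lit 96) (nat_lit 95) (nat_lit 1) (nat_lit 11) (nat_lit 5) L1255540 (by decide +kernel)
theorem L1255542 : W_4 (nat_lit 9) (nat_lit 0x18000f0006000200000000000000000000000) (nat_lit 0x0) (nat_lit 0x700100000c01de002e000000000000000000) := T_4 (nat_lit 94) (nat_lit 77) (nat_lit 6) (nat_lit 8) (nat_lit 8) L1255541 (by decide +kernel)
theorem L1255543 : W_4 (nat_lit 10) (nat_lit 0x18000e0006000200000000000000000000000) (nat_lit 0x0) (nat_lit 0x700118000c01de002e000000000000000000) := T_4 (nat_lit 124) (nat_lit 123) (nat_lit 3) (nat_lit 4) (nat_lit 7) L1255542 (by decide +kernel)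
theorem L1255544 : W_4 (nat_lit 11) (nat_lit 0x18000e0002000200000000000000000000000) (nat_lit 0x0) (nat_lit 0x10000700118004c01de002e000000000000000000) := T_4 (nat_lit 110) (nat_lit 160) (nat_lit 6) (nat_lit 7) (nat_lit 9) L1255543 (by decide +kernel)
theorem L1255545 : W_4 (nat_lit 2) (nat_lit 0x18002e0002000200000000000000000000000) (nat_lit 0x0) (nat_lit 0x400500000000000000000000000000000000) := D_4 (nat_lit 128) (nat_lit 130) (nat_lit 142) (nat_lit 1) (nat_lit 11) (nat_lit 7) (nat_lit 1) (nat_lit 10) (nat_lit 7) (by decide +kernel)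
theorem L1255546 : W_4 (nat_lit 2) (nat_lit 0x58002e0002000200000000000000000000000) (nat_lit 0x0) (nat_lit 0x8000500000000000000000000000000000000) := D_4 (nat_lit 128) (nat_lit 130) (nat_lit 147) (nat_lit 1) (nat_lit 11) (nat_lit 7) (nat_lit 3) (nat_lit 7) (nat_lit 7) (by decide +kernel)
theorem L1255547 : W_4 (nat_lit 3) (nat_lit 0x18002e0002000200000000000000000000000) (nat_lit 0x0) (nat_lit 0xe000500000000000000000000000000000000) := T_4 (nat_lit 146) (nat_lit 145) (nat_lit 0) (nat_lit 10) (nat_lit 8) L1255546 (by decide +kernel)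
theorem L1255548 : W_4 (nat_lit 2) (nat_lit 0x58002e0016000fa0040000000000000000000) (nat_lit 0x0) (nat_lit 0x100008000400000000000000000000000000000000) := D_4 (nat_lit 147) (nat_lit 130) (nat_lit 164) (nat_lit 7) (nat_lit 10) (nat_lit 4) (nat_lit 7) (nat_lit 10) (nat_lit 5) (by decide +kernel)
theorem L1255549 : W_4 (nat_lit 3) (nat_lit 0x58002e0006000fa0040000000000000000000) (nat_lit 0x0) (nat_lit 0x100008000400030000000000000000000000000000) := T_4 (nat_lit 112) (nat_lit 113) (nat_lit 3) (nat_lit 7) (nat_lit 5) L1255548 (by decide +kernel)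
theorem L1255550 : W_4 (nat_lit 4) (nat_lit 0x58002e0006000fa0000000000000000000000) (nat_lit 0x0) (nat_lit 0x1000080004000300000000c0000000000000000000) := T_4 (nat_lit 78) (nat_lit 79) (nat_lit 2) (nat_lit 7) (nat_lit 5) L1255549 (by decide +kernel)
theorem L1255551 : W_4 (nat_lit 5) (nat_lit 0x58002e00060007a0000000000000000000000) (nat_lit 0x0) (nat_lit 0x1000080004000300018000c0000000000000000000) := T_4 (nat_lit 95) (nat_lit 96) (nat_lit 1) (nat_lit 11) (nat_lit 5) L1255550 (by decide +kernel)
theorem L1255552 : W_4 (nat_lit 6) (nat_lit 0x58002e00060003a0000000000000000000000) (nat_lit 0x0) (nat_lit 0x100008000400030001c000e0000000000000000000) := T_4 (nat_lit 94) (nat_lit 77) (nat_lit 6) (nat_lit 8) (nat_lit 8) L1255551 (by decide +kernel)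
theorem L1255553 : W_4 (nat_lit 7) (nat_lit 0x18002e00060003a0000000000000000000000) (nat_lit 0x0) (nat_lit 0x10000e000400030001c000e0000000000000000000) := T_4 (nat_lit 146) (nat_lit 145) (nat_lit 0) (nat_lit 10) (nat_lit 8) L1255552 (by decide +kernel)
theorem L1255554 : W_4 (nat_lit 8) (nat_lit 0x18002e0006000380000000000000000000000) (nat_lit 0x0) (nat_lit 0x10000e000400030001c600e0000000000000000000) := T_4 (nat_lit 89) (nat_lit 90) (nat_lit 3) (nat_lit 4) (nat_lit 5) L1255553 (by decide +kernel)
theorem L1255555 : W_4 (nat_lit 9) (nat_lit 0x18002e0006000300000000000000000000000) (nat_lit 0x0) (nat_lit 0x10000e000400030001ce00e4000000000000000000) := T_4 (nat_lit 91) (nat_lit 74) (nat_lit 4) (nat_lit 7) (nat_lit 8) L1255554 (by decide +kernel)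
theorem L1255556 : W_4 (nat_lit 10) (nat_lit 0x18002e0002000300000000000000000000000) (nat_lit 0x0) (nat_lit 0x11000e000400034001ce00e4000000000000000000) := T_4 (nat_lit 110) (nat_lit 160) (nat_lit 6) (nat_lit 7) (nat_lit 9) L1255555 (by decide +kernel)
theorem L1255557 : W_4 (nat_lit 11) (nat_lit 0x18002e0002000200000000000000000000000) (nat_lit 0x0) (nat_lit 0x11000e000400034001de00ec000000000000000000) := T_4 (nat_lit 92) (nat_lit 75) (nat_lit 7) (nat_lit 7) (nat_lit 4) L1255556 (by decide +kernel)
theorem L1255558 : W_4 (nat_lit 2) (nat_lit 0x18003e00060003a0000000000000000000000) (nat_lit 0x0) (nat_lit 0xe000000000000000000000000000000000000) := D_4 (nat_lit 146) (nat_lit 147) (nat_lit 145) (nat_lit 3) (nat_lit 7) (nat_lit 7) (nat_lit 3) (nat_lit 6) (nat_lit 7) (by decide +kernel)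
theorem L1255559 : W_4 (nat_lit 3) (nat_lit 0x18002e00060003a0000000000000000000000) (nat_lit 0x0) (nat_lit 0xe400100000000000000000000000000000000) := T_4 (nat_lit 128) (nat_lit 142) (nat_lit 1) (nat_lit 10) (nat_lit 7) L1255558 (by decide +kernel)
theorem L1255560 : W_4 (nat_lit 4) (nat_lit 0x18002e0006000380000000000000000000000) (nat_lit 0x0) (nat_lit 0xe400100000000060000000000000000000000) := T_4 (nat_lit 89) (nat_lit 90) (nat_lit 3) (nat_lit 4) (nat_lit 5) L1255559 (by decide +kernel)
theorem L1255561 : W_4 (nat_lit 5) (nat_lit 0x18002e0006000300000000000000000000000) (nat_lit 0x0) (nat_lit 0xe4001000000000e0004000000000000000000) := T_4 (nat_lit 91) (nat_lit 74) (nat_lit 4) (nat_lit 7) (nat_lit 8) L1255560 (by decide +kernel)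
theorem L1255562 : W_4 (nat_lit 6) (nat_lit 0x18002e0006000200000000000000000000000) (nat_lit 0x0) (nat_lit 0xe4001000000001e000c000000000000000000) := T_4 (nat_lit 92) (nat_lit 75) (nat_lit 7) (nat_lit 7) (nat_lit 4) L1255561 (by decide +kernel)
theorem L1255563 : W_4 (nat_lit 7) (nat_lit 0x18002e0002000200000000000000000000000) (nat_lit 0x0) (nat_lit 0x1000e4001000040001e000c000000000000000000) := T_4 (nat_lit 110) (nat_lit 160) (nat_lit 6) (nat_lit 7) (nat_lit 9) L1255562 (by decide +kernel)
theorem L1255564 : W_4 (nat_lit 12) (nat_lit 0x18000e0002000200000000000000000000000) (nat_lit 0x0) (nat_lit 0x11000e400700034001de00ec000000000000000000) := Q_4 (nat_lit 129) (C_4 L1255545 (C_4 L1255547 (C_4 L1255557 (C_4 L1255563 N_4)))) (by decide +kernel)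
theorem L1255565 : W_4 (nat_lit 13) (nat_lit 0x18000c0002000200000000000000000000000) (nat_lit 0x0) (nat_lit 0x11000e700738034c01de00ee000000000000000000) := Q_4 (nat_lit 125) (C_4 L1255534 (C_4 L1255544 (C_4 L1255564 N_4))) (by decide +kernel)
theorem L1255566 : W_4 (nat_lit 14) (nat_lit 0x18000c0002000000000000000000000000000) (nat_lit 0x0) (nat_lit 0x11000e700738034c01fe00fe000000000000000000) := Q_4 (nat_lit 93) (C_4 L1255532 (C_4 L1255533 (C_4 L1255565 N_4))) (by decide +kernel)
theorem L1255568 : W_4 (nat_lit 15) (nat_lit 0x10000c0002000000000000000000000000000) (nat_lit 0x0) (nat_lit 0x400020011000ef00738035c01fe00ff800000000000000000) := Q_4 (nat_lit 143) (C_4 L1239010 (C_4 L1255315 (C_4 L616043 (C_4 L1255317 (C_4 L1255566 (C_4 L1255567 N_4)))))) (by decide +kernel)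
theorem L1255569 : W_4 (nat_lit 16) (nat_lit 0x10000c0000000000000000000000000000000) (nat_lit 0x0) (nat_lit 0xc8006c013600efe073e077e01ff00ff800380008000000000) := Q_4 (nat_lit 109) (C_4 L1255311 (C_4 L1219779 (C_4 L1255568 (C_4 L615321 (C_4 L284220 N_4))))) (by decide +kernel)
theorem L1255647 : W_4 (nat_lit 2) (nat_lit 0x4003c000800078003c0012000000040000000000000000000) (nat_lit 0x0) (nat_lit 0x2000200010000000000000000000000000000000000000000) := D_4 (nat_lit 177) (nat_lit 193) (nat_lit 160) (nat_lit 1) (nat_lit 10) (nat_lit 10) (nat_lit 6) (nat_lit 7) (nat_lit 11) (by decide +kernel)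
theorem L1255648 : W_4 (nat_lit 3) (nat_lit 0x3c000800078003c0012000000040000000000000000000) (nat_lit 0x0) (nat_lit 0xe000200010000000000000000000000000000000000000000) := T_4 (nat_lit 194) (nat_lit 195) (nat_lit 1) (nat_lit 11) (nat_lit 10) L1255647 (by decide +kernel)
theorem L1255649 : W_4 (nat_lit 4) (nat_lit 0x34000800078003c0012000000040000000000000000000) (nat_lit 0x0) (nat_lit 0x1e000a00010000000000000000000000000000000000000000) := T_4 (nat_lit 179) (nat_lit 196) (nat_lit 5) (nat_lit 10) (nat_lit 7) L1255648 (by decide +kernel)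
theorem L1255650 : W_4 (nat_lit 5) (nat_lit 0x14000800078003c0012000000040000000000000000000) (nat_lit 0x0) (nat_lit 0x5e002a00010000000000000000000000000000000000000000) := T_4 (nat_lit 181) (nat_lit 198) (nat_lit 7) (nat_lit 10) (nat_lit 7) L1255649 (by decide +kernel)
theorem L1255651 : W_4 (nat_lit 6) (nat_lit 0x14000800078003c0012000000000000000000000000000) (nat_lit 0x0) (nat_lit 0x5e002a00010000000000000000800040000000000000000000) := T_4 (nat_lit 78) (nat_lit 95) (nat_lit 5) (nat_lit 10) (nat_lit 4) L1255650 (by decide +kernel)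
theorem L1255652 : W_4 (nat_lit 7) (nat_lit 0x4000800078003c0012000000000000000000000000000) (nat_lit 0x0) (nat_lit 0x7e003a00010000000000000000800040000000000000000000) := T_4 (nat_lit 180) (nat_lit 197) (nat_lit 4) (nat_lit 10) (nat_lit 11) L1255651 (by decide +kernel)
theorem L1255653 : W_4 (nat_lit 8) (nat_lit 0x4000800078003c0002000000000000000000000000000) (nat_lit 0x0) (nat_lit 0x7e003a00010000000000030000800040000000000000000000) := T_4 (nat_lit 112) (nat_lit 113) (nat_lit 2) (nat_lit 7) (nat_lit 7) L1255652 (by decide +kernel)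
theorem L1255654 : W_4 (nat_lit 9) (nat_lit 0x4000000078003c0002000000000000000000000000000) (nat_lit 0x0) (nat_lit 0x7e003a00190000000000030000800040000000000000000000) := T_4 (nat_lit 163) (nat_lit 164) (nat_lit 3) (nat_lit 7) (nat_lit 8) L1255653 (by decide +kernel)
theorem L1256311 : W_4 (nat_lit 2) (nat_lit 0x4000000030000e0002000000000000000000000000000) (nat_lit 0x0) (nat_lit 0xc000100000000000000000000000000000000) := D_4 (nat_lit 146) (nat_lit 147) (nat_lit 128) (nat_lit 0) (nat_lit 11) (nat_lit 8) (nat_lit 3) (nat_lit 6) (nat_lit 7) (by decide +kernel)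
theorem L1256312 : W_4 (nat_lit 3) (nat_lit 0x4000000030000c0002000000000000000000000000000) (nat_lit 0x0) (nat_lit 0xc000130000000000000000000000000000000) := T_4 (nat_lit 125) (nat_lit 124) (nat_lit 3) (nat_lit 5) (nat_lit 7) L1256311 (by decide +kernel)
theorem L1256313 : W_4 (nat_lit 4) (nat_lit 0x30000c0002000000000000000000000000000) (nat_lit 0x0) (nat_lit 0x40002000c000130000000000000000000000000000000) := T_4 (nat_lit 178) (nat_lit 161) (nat_lit 4) (nat_lit 8) (nat_lit 10) L1256312 (by decide +kernel)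
theorem L1256314 : W_4 (nat_lit 2) (nat_lit 0x1000000034003e0002000000000000000000000000000) (nat_lit 0x0) (nat_lit 0xc00004000000000000000000000000000) := D_4 (nat_lit 130) (nat_lit 110) (nat_lit 131) (nat_lit 0) (nat_lit 11) (nat_lit 7) (nat_lit 1) (nat_lit 12) (nat_lit 7) (by decide +kernel)
theorem L1256315 : W_4 (nat_lit 3) (nat_lit 0x1000000034001e0002000000000000000000000000000) (nat_lit 0x0) (nat_lit 0x800e00004000000000000000000000000000) := T_4 (nat_lit 129) (nat_lit 143) (nat_lit 2) (nat_lit 6) (nat_lit 8) L1256314 (by decide +kernel)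
theorem L1256316 : W_4 (nat_lit 4) (nat_lit 0x34001e0002000000000000000000000000000) (nat_lit 0x0) (nat_lit 0x100008000800e00004000000000000000000000000000) := T_4 (nat_lit 176) (nat_lit 159) (nat_lit 6) (nat_lit 6) (nat_lit 10) L1256315 (by decide +kernel)
theorem L1256317 : W_4 (nat_lit 5) (nat_lit 0x34000e0002000000000000000000000000000) (nat_lit 0x0) (nat_lit 0x100008000a00f00004000000000000000000000000000) := T_4 (nat_lit 128) (nat_lit 141) (nat_lit 1) (nat_lit 9) (nat_lit 7) L1256316 (by decide +kernel)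
theorem L1256318 : W_4 (nat_lit 6) (nat_lit 0x34000c0002000000000000000000000000000) (nat_lit 0x0) (nat_lit 0x100008000a00f30004000000000000000000000000000) := T_4 (nat_lit 125) (nat_lit 124) (nat_lit 3) (nat_lit 5) (nat_lit 7) L1256317 (by decide +kernel)
theorem L1256319 : W_4 (nat_lit 2) (nat_lit 0x280034000e0002000000000000000000000000000) (nat_lit 0x0) (nat_lit 0x14000800000000000000000000000000000000000) := D_4 (nat_lit 158) (nat_lit 160) (nat_lit 143) (nat_lit 2) (nat_lit 5) (nat_lit 9) (nat_lit 1) (nat_lit 9) (nat_lit 8) (by decide +kernel)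
theorem L1256320 : W_4 (nat_lit 3) (nat_lit 0x200034000e0002000000000000000000000000000) (nat_lit 0x0) (nat_lit 0x10001c000800000000000000000000000000000000000) := T_4 (nat_lit 159) (nat_lit 176) (nat_lit 6) (nat_lit 6) (nat_lit 10) L1256319 (by decide +kernel)
theorem L1256321 : W_4 (nat_lit 4) (nat_lit 0x34000e0002000000000000000000000000000) (nat_lit 0x0) (nat_lit 0x50003c000800000000000000000000000000000000000) := T_4 (nat_lit 161) (nat_lit 178) (nat_lit 4) (nat_lit 8) (nat_lit 10) L1256320 (by decide +kernel)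
theorem L1256322 : W_4 (nat_lit 5) (nat_lit 0x34000c0002000000000000000000000000000) (nat_lit 0x0) (nat_lit 0x50003c000800030000000000000000000000000000000) := T_4 (nat_lit 125) (nat_lit 124) (nat_lit 3) (nat_lit 5) (nat_lit 7) L1256321 (by decide +kernel)
theorem L1256323 : W_4 (nat_lit 2) (nat_lit 0x400008003c001c0002000000000000000000000000000) (nat_lit 0x0) (nat_lit 0x2000100010000000000000000000000000000000000000000) := D_4 (nat_lit 176) (nat_lit 160) (nat_lit 193) (nat_lit 5) (nat_lit 7) (nat_lit 6) (nat_lit 6) (nat_lit 6) (nat_lit 11) (by decide +kernel)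
theorem L1256324 : W_4 (nat_lit 3) (nat_lit 0x400000003c001c0002000000000000000000000000000) (nat_lit 0x0) (nat_lit 0x200010001c000000000000000000000000000000000000000) := T_4 (nat_lit 159) (nat_lit 158) (nat_lit 1) (nat_lit 9) (nat_lit 8) L1256323 (by decide +kernel)
theorem L1256325 : W_4 (nat_lit 4) (nat_lit 0x400000003c000c0002000000000000000000000000000) (nat_lit 0x0) (nat_lit 0x200010001c000000300000000000000000000000000000000) := T_4 (nat_lit 128) (nat_lit 129) (nat_lit 2) (nat_lit 6) (nat_lit 8) L1256324 (by decide +kernel)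
theorem L1256326 : W_4 (nat_lit 5) (nat_lit 0x3c000c0002000000000000000000000000000) (nat_lit 0x0) (nat_lit 0x200050003c000000300000000000000000000000000000000) := T_4 (nat_lit 178) (nat_lit 161) (nat_lit 4) (nat_lit 8) (nat_lit 10) L1256325 (by decide +kernel)
theorem L1256327 : W_4 (nat_lit 6) (nat_lit 0x34000c0002000000000000000000000000000) (nat_lit 0x0) (nat_lit 0x200050003e000b00300000000000000000000000000000000) := Q_4 (nat_lit 143) (C_4 L1239073 (C_4 L1117168 (C_4 L1256326 N_4))) (by decide +kernel)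
theorem L1256328 : W_4 (nat_lit 2) (nat_lit 0x380034003e0016000600000000000000000000000) (nat_lit 0x0) (nat_lit 0x1800040000000000000000000) := D_4 (nat_lit 95) (nat_lit 96) (nat_lit 78) (nat_lit 1) (nat_lit 11) (nat_lit 5) (nat_lit 5) (nat_lit 10) (nat_lit 4) (by decide +kernel)
theorem L1256329 : W_4 (nat_lit 3) (nat_lit 0x380034003e0016000200000000000000000000000) (nat_lit 0x0) (nat_lit 0x1c00060000000000000000000) := T_4 (nat_lit 94) (nat_lit 77) (nat_lit 6) (nat_lit 8) (nat_lit 8) L1256328 (by decide +kernel)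
theorem L1256330 : W_4 (nat_lit 4) (nat_lit 0x380034003e0006000200000000000000000000000) (nat_lit 0x0) (nat_lit 0x30001c00060000000000000000000) := T_4 (nat_lit 112) (nat_lit 113) (nat_lit 2) (nat_lit 7) (nat_lit 7) L1256329 (by decide +kernel)
theorem L1256331 : W_4 (nat_lit 5) (nat_lit 0x380034003e0006000000000000000000000000000) (nat_lit 0x0) (nat_lit 0x30001e00070000000000000000000) := T_4 (nat_lit 93) (nat_lit 76) (nat_lit 7) (nat_lit 8) (nat_lit 4) L1256330 (by decide +kernel)
theorem L1256332 : W_4 (nat_lit 6) (nat_lit 0x380034001e0006000000000000000000000000000) (nat_lit 0x0) (nat_lit 0x600030001e00070000000000000000000) := T_4 (nat_lit 129) (nat_lit 130) (nat_lit 0) (nat_lit 11) (nat_lit 7) L1256331 (by decide +kernel)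
theorem L1256333 : W_4 (nat_lit 7) (nat_lit 0x380034001e0002000000000000000000000000000) (nat_lit 0x0) (nat_lit 0x200000000000600034001e00070000000000000000000) := T_4 (nat_lit 110) (nat_lit 177) (nat_lit 5) (nat_lit 8) (nat_lit 6) L1256332 (by decide +kernel)
theorem L1256334 : W_4 (nat_lit 8) (nat_lit 0x280034001e0002000000000000000000000000000) (nat_lit 0x0) (nat_lit 0x200014000000600034001e00070000000000000000000) := T_4 (nat_lit 160) (nat_lit 158) (nat_lit 2) (nat_lit 5) (nat_lit 9) L1256333 (by decide +kernel)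
theorem L1256335 : W_4 (nat_lit 9) (nat_lit 0x200034001e0002000000000000000000000000000) (nat_lit 0x0) (nat_lit 0x30001c000000600034001e00070000000000000000000) := T_4 (nat_lit 159) (nat_lit 176) (nat_lit 6) (nat_lit 6) (nat_lit 10) L1256334 (by decide +kernel)
theorem L1256336 : W_4 (nat_lit 10) (nat_lit 0x200034000e0002000000000000000000000000000) (nat_lit 0x0) (nat_lit 0x30001c000200700034001e00070000000000000000000) := T_4 (nat_lit 128) (nat_lit 141) (nat_lit 1) (nat_lit 9) (nat_lit 7) L1256335 (by decide +kernel)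
theorem L1256337 : W_4 (nat_lit 11) (nat_lit 0x200034000c0002000000000000000000000000000) (nat_lit 0x0) (nat_lit 0x30001c000200730034001e00070000000000000000000) := T_4 (nat_lit 125) (nat_lit 124) (nat_lit 3) (nat_lit 5) (nat_lit 7) L1256336 (by decide +kernel)
theorem L1256338 : W_4 (nat_lit 12) (nat_lit 0x34000c0002000000000000000000000000000) (nat_lit 0x0) (nat_lit 0x70003c000200730034001e00070000000000000000000) := T_4 (nat_lit 161) (nat_lit 178) (nat_lit 4) (nat_lit 8) (nat_lit 10) L1256337 (by decide +kernel)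
theorem L1256339 : W_4 (nat_lit 13) (nat_lit 0x30000c0002000000000000000000000000000) (nat_lit 0x0) (nat_lit 0x200070003e000f80f30034001e00070000000000000000000) := Q_4 (nat_lit 142) (C_4 L1242209 (C_4 L1256318 (C_4 L1256322 (C_4 L1256327 (C_4 L1256338 N_4))))) (by decide +kernel)
theorem L1256340 : W_4 (nat_lit 4) (nat_lit 0x38000c0002000000000000000000000000000) (nat_lit 0x0) (nat_lit 0x400070003c000000000004000000000000000000000000000) := T_4 (nat_lit 161) (nat_lit 178) (nat_lit 4) (nat_lit 8) (nat_lit 10) L1221525 (by decide +kernel)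
theorem L1256341 : W_4 (nat_lit 10) (nat_lit 0x4000000078002c0002000000000000000000000000000) (nat_lit 0x0) (nat_lit 0x7e003a00190000400100030000800040000000000000000000) := T_4 (nat_lit 128) (nat_lit 142) (nat_lit 2) (nat_lit 6) (nat_lit 8) L1255654 (by decide +kernel)
theorem L1256342 : W_4 (nat_lit 11) (nat_lit 0x4000000078000c0002000000000000000000000000000) (nat_lit 0x0) (nat_lit 0x7e003a00190000400700030000800040000000000000000000) := T_4 (nat_lit 129) (nat_lit 130) (nat_lit 2) (nat_lit 7) (nat_lit 8) L1256341 (by decide +kernel)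
theorem L1256343 : W_4 (nat_lit 12) (nat_lit 0x4000000038000c0002000000000000000000000000000) (nat_lit 0x0) (nat_lit 0x7e003a0019000c400700030000800040000000000000000000) := T_4 (nat_lit 146) (nat_lit 147) (nat_lit 0) (nat_lit 11) (nat_lit 8) L1256342 (by decide +kernel)
theorem L1256344 : W_4 (nat_lit 13) (nat_lit 0x38000c0002000000000000000000000000000) (nat_lit 0x0) (nat_lit 0x7e003e001b000c400700030000800040000000000000000000) := T_4 (nat_lit 178) (nat_lit 161) (nat_lit 4) (nat_lit 8) (nat_lit 10) L1256343 (by decide +kernel)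
theorem L1256345 : W_4 (nat_lit 14) (nat_lit 0x30000c0002000000000000000000000000000) (nat_lit 0x0) (nat_lit 0x7e003f001be00cf00700034000a00040000000000000000000) := Q_4 (nat_lit 143) (C_4 L1204965 (C_4 L1238629 (C_4 L1256340 (C_4 L1256344 N_4)))) (by decide +kernel)
theorem L1256346 : W_4 (nat_lit 15) (nat_lit 0x10000c0002000000000000000000000000000) (nat_lit 0x0) (nat_lit 0x7e003f001be00ef80f30034001e00070000000000000000000) := Q_4 (nat_lit 145) (C_4 L1240922 (C_4 L1256313 (C_4 L1219807 (C_4 L1256339 (C_4 L1256345 N_4))))) (by decide +kernel)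
theorem L1256350 : W_4 (nat_lit 15) (nat_lit 0x10000c0002000000000000000000000000000) (nat_lit 0x0) (nat_lit 0x600030011e00ef00738034c01fe00fe000000000000000000) := Q_4 (nat_lit 143) (C_4 L1255566 (C_4 L1255578 (C_4 L1219776 (C_4 L1256349 N_4)))) (by decide +kernel)
theorem L1256351 : W_4 (nat_lit 16) (nat_lit 0x10000c0000000000000000000000000000000) (nat_lit 0x0) (nat_lit 0x7f003fc01be00ef80f38036c01fe00fe000000000000000000) := Q_4 (nat_lit 109) (C_4 L1219779 (C_4 L1256346 (C_4 L1256350 (C_4 L615321 (C_4 L284528 N_4))))) (by decide +kernel)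
theorem L1258130 : W_4 (nat_lit 2) (nat_lit 0x340030005a001f0000800000000000000000000000000) (nat_lit 0x0) (nat_lit 0xe000000000000000000000000000000000000000) := D_4 (nat_lit 158) (nat_lit 157) (nat_lit 159) (nat_lit 5) (nat_lit 5) (nat_lit 6) (nat_lit 7) (nat_lit 5) (nat_lit 6) (by decide +kernel)
theorem L1258131 : W_4 (nat_lit 3) (nat_lit 0x340030005a001f0000000000000000000000000000000) (nat_lit 0x0) (nat_lit 0xe000000000000c00000000000000000000000000) := T_4 (nat_lit 107) (nat_lit 106) (nat_lit 0) (nat_lit 8) (nat_lit 7) L1258130 (by decide +kernel)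
theorem L1258132 : W_4 (nat_lit 4) (nat_lit 0x3400300058001f0000000000000000000000000000000) (nat_lit 0x0) (nat_lit 0xe000300000000c00000000000000000000000000) := T_4 (nat_lit 141) (nat_lit 140) (nat_lit 1) (nat_lit 8) (nat_lit 7) L1258131 (by decide +kernel)
theorem L1258133 : W_4 (nat_lit 5) (nat_lit 0x3400300058001e0000000000000000000000000000000) (nat_lit 0x0) (nat_lit 0xe000300018000c00000000000000000000000000) := T_4 (nat_lit 124) (nat_lit 123) (nat_lit 3) (nat_lit 4) (nat_lit 7) L1258132 (by decide +kernel)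
theorem L1258134 : W_4 (nat_lit 6) (nat_lit 0x3400300058001c0000000000000000000000000000000) (nat_lit 0x0) (nat_lit 0xe000300038001c00000000000000000000000000) := T_4 (nat_lit 125) (nat_lit 108) (nat_lit 4) (nat_lit 7) (nat_lit 10) L1258133 (by decide +kernel)
theorem L1258135 : W_4 (nat_lit 7) (nat_lit 0x3000300058001c0000000000000000000000000000000) (nat_lit 0x0) (nat_lit 0xc000e000300038001c00000000000000000000000000) := T_4 (nat_lit 174) (nat_lit 175) (nat_lit 2) (nat_lit 4) (nat_lit 10) L1258134 (by decide +kernel)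
theorem L1258136 : W_4 (nat_lit 8) (nat_lit 0x2000300058001c0000000000000000000000000000000) (nat_lit 0x0) (nat_lit 0x20001c000e000300038001c00000000000000000000000000) := T_4 (nat_lit 176) (nat_lit 193) (nat_lit 5) (nat_lit 7) (nat_lit 7) L1258135 (by decide +kernel)
theorem L1260296 : W_4 (nat_lit 2) (nat_lit 0x18003c0004000000000000000000000000000) (nat_lit 0x0) (nat_lit 0x10000000000000000200010000000000000000000) := D_4 (nat_lit 93) (nat_lit 76) (nat_lit 160) (nat_lit 5) (nat_lit 8) (nat_lit 4) (nat_lit 5) (nat_lit 8) (nat_lit 5) (by decide +kernel)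
theorem L1260474 : W_4 (nat_lit 3) (nat_lit 0x18002c0000000000000000000000000000000) (nat_lit 0x0) (nat_lit 0xe000500000000000000000000000000000000) := Q_4 (nat_lit 146) (C_4 L1040472 (C_4 L987979 (C_4 L627449 (C_4 L1040471 N_4)))) (by decide +kernel)
theorem L1261194 : W_4 (nat_lit 2) (nat_lit 0x200018003c0004000000000000000000000000000) (nat_lit 0x0) (nat_lit 0x10000000000000000200010000000000000000000) := D_4 (nat_lit 93) (nat_lit 76) (nat_lit 160) (nat_lit 5) (nat_lit 8) (nat_lit 4) (nat_lit 5) (nat_lit 8) (nat_lit 5) (by decide +kernel)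
theorem L1265206 : W_4 (nat_lit 12) (nat_lit 0x10000e0002000000000000000000000000000) (nat_lit 0x0) (nat_lit 0x600030000f0031c005c006f003e001f00000000000000) := Q_4 (nat_lit 108) (C_4 L284291 (C_4 L1239827 (C_4 L284511 N_4))) (by decide +kernel)
theorem L1265207 : W_4 (nat_lit 2) (nat_lit 0x4000180034001e0003000080004000000000000000000) (nat_lit 0x0) (nat_lit 0x40002000100000000000000) := D_4 (nat_lit 73) (nat_lit 90) (nat_lit 56) (nat_lit 4) (nat_lit 6) (nat_lit 8) (nat_lit 4) (nat_lit 6) (nat_lit 7) (by decide +kernel)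
theorem L1265208 : W_4 (nat_lit 3) (nat_lit 0x4000180034001e0003000080000000000000000000000) (nat_lit 0x0) (nat_lit 0x40006000300000000000000) := T_4 (nat_lit 74) (nat_lit 57) (nat_lit 7) (nat_lit 6) (nat_lit 3) L1265207 (by decide +kernel)
theorem L1265209 : W_4 (nat_lit 4) (nat_lit 0x4000180034001e0003000000000000000000000000000) (nat_lit 0x0) (nat_lit 0x8000000000000c0006000300000000000000) := T_4 (nat_lit 91) (nat_lit 143) (nat_lit 7) (nat_lit 6) (nat_lit 5) L1265208 (by decide +kernel)
theorem L1265210 : W_4 (nat_lit 5) (nat_lit 0x4000080034001e0003000000000000000000000000000) (nat_lit 0x0) (nat_lit 0x2000100008000000000000c0006000300000000000000) := T_4 (nat_lit 160) (nat_lit 177) (nat_lit 7) (nat_lit 6) (nat_lit 6) L1265209 (by decide +kernel)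
theorem L1265211 : W_4 (nat_lit 6) (nat_lit 0x4000000034001e0003000000000000000000000000000) (nat_lit 0x0) (nat_lit 0x3000180008000000000000c0006000300000000000000) := T_4 (nat_lit 159) (nat_lit 176) (nat_lit 6) (nat_lit 6) (nat_lit 10) L1265210 (by decide +kernel)
theorem L1265212 : W_4 (nat_lit 7) (nat_lit 0x4000000034001e0002000000000000000000000000000) (nat_lit 0x0) (nat_lit 0x3000180008000000018000c0006000300000000000000) := T_4 (nat_lit 108) (nat_lit 107) (nat_lit 0) (nat_lit 9) (nat_lit 7) L1265211 (by decide +kernel)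
theorem L1265213 : W_4 (nat_lit 8) (nat_lit 0x4000000030001e0002000000000000000000000000000) (nat_lit 0x0) (nat_lit 0x300018000e000000018000c0006000300000000000000) := T_4 (nat_lit 142) (nat_lit 141) (nat_lit 1) (nat_lit 9) (nat_lit 7) L1265212 (by decide +kernel)
theorem L1265214 : W_4 (nat_lit 9) (nat_lit 0x4000000010001e0002000000000000000000000000000) (nat_lit 0x0) (nat_lit 0x300018006e000000018000c0006000300000000000000) := T_4 (nat_lit 145) (nat_lit 146) (nat_lit 3) (nat_lit 6) (nat_lit 7) L1265213 (by decide +kernel)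
theorem L1265215 : W_4 (nat_lit 10) (nat_lit 0x10001e0002000000000000000000000000000) (nat_lit 0x0) (nat_lit 0x700038006e000000018000c0006000300000000000000) := T_4 (nat_lit 178) (nat_lit 161) (nat_lit 4) (nat_lit 8) (nat_lit 10) L1265214 (by decide +kernel)
theorem L1265216 : W_4 (nat_lit 11) (nat_lit 0x10000e0002000000000000000000000000000) (nat_lit 0x0) (nat_lit 0x70003801ee00f000358000c0006000300000000000000) := Q_4 (nat_lit 128) (C_4 L1221645 (C_4 L1265215 (C_4 L1178904 (C_4 L1239729 (C_4 L1117931 N_4))))) (by decide +kernel)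
theorem L1265217 : W_4 (nat_lit 13) (nat_lit 0x10000c0002000000000000000000000000000) (nat_lit 0x0) (nat_lit 0x70003801efe0f3e035f806f003e001f00000000000000) := Q_4 (nat_lit 125) (C_4 L616492 (C_4 L616486 (C_4 L1265206 (C_4 L616488 (C_4 L346066 (C_4 L1265216 N_4)))))) (by decide +kernel)
theorem L1265218 : W_4 (nat_lit 16) (nat_lit 0x10000c0000000000000000000000000000000) (nat_lit 0x0) (nat_lit 0x400070013801efe0f3e037f81ff00ff801f00000000000000) := Q_4 (nat_lit 109) (C_4 L1219779 (C_4 L1255568 (C_4 L615321 (C_4 L1265217 (C_4 L284220 N_4))))) (by decide +kernel)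
theorem L1270865 : W_4 (nat_lit 2) (nat_lit 0x58002c0004000000000000000000000000000) (nat_lit 0x0) (nat_lit 0x10000000000000000200010000000000000000000) := D_4 (nat_lit 93) (nat_lit 76) (nat_lit 160) (nat_lit 5) (nat_lit 8) (nat_lit 4) (nat_lit 5) (nat_lit 8) (nat_lit 5) (by decide +kernel)
theorem L1278407 : W_4 (nat_lit 16) (nat_lit 0x10000c0000000000000000000000000000000) (nat_lit 0x0) (nat_lit 0x7e003f001be00ef80f30037001f8007c000000000000000000) := Q_4 (nat_lit 109) (C_4 L1219779 (C_4 L1256346 (C_4 L1278406 (C_4 L615321 (C_4 L284220 N_4))))) (by decide +kernel)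
theorem L1278408 : W_4 (nat_lit 7) (nat_lit 0x10000c0002000000000000000000000000000) (nat_lit 0x0) (nat_lit 0x400030001e006f00100005800f00038000000000000000000) := Q_4 (nat_lit 143) (C_4 L1255578 (C_4 L1239010 (C_4 L1219776 N_4))) (by decide +kernel)
theorem L1278409 : W_4 (nat_lit 16) (nat_lit 0x10000c0000000000000000000000000000000) (nat_lit 0x0) (nat_lit 0x7f003fc01be03ef80f380f7c01f40078000000000000000000) := Q_4 (nat_lit 109) (C_4 L1219779 (C_4 L1256346 (C_4 L1278408 (C_4 L1178864 (C_4 L284528 N_4))))) (by decide +kernel)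
theorem L1278410 : W_4 (nat_lit 17) (nat_lit 0x1000080000000000000000000000000000000) (nat_lit 0x0) (nat_lit 0x8002f01ffe07ff07bf83efe0f7e0f7f81ff00ff801f80028000000000) := Q_4 (nat_lit 126) (C_4 L619125 (C_4 L1212818 (C_4 L1219780 (C_4 L1219785 (C_4 L1238668 (C_4 L1238669 (C_4 L1178865 (C_4 L1239012 (C_4 L1255569 (C_4 L1256351 (C_4 L1256358 (C_4 L284529 (C_4 L1265205 (C_4 L1265218 (C_4 L1278407 (C_4 L1278409 N_4)))))))))))))))) (by decide +kernel)
theorem L1278411 : W_4 (nat_lit 13) (nat_lit 0x10000c0002000000000000000000000000000) (nat_lit 0x0) (nat_lit 0x100008803ee00f0007d801ff00fe001f80000000000000) := Q_4 (nat_lit 128) (C_4 L1115467 (C_4 L1176660 (C_4 L1115480 (C_4 L346015 N_4)))) (by decide +kernel)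
theorem L1278415 : W_4 (nat_lit 3) (nat_lit 0x3c000c0000000000000000000000000000000) (nat_lit 0x0) (nat_lit 0x1c00c000000000000000000000000000000000000) := T_4 (nat_lit 159) (nat_lit 158) (nat_lit 1) (nat_lit 9) (nat_lit 8) L625698 (by decide +kernel)
theorem L1278416 : W_4 (nat_lit 2) (nat_lit 0x20003c000c0004000000000000000000000000000) (nat_lit 0x0) (nat_lit 0x10000000000000000200010000000000000000000) := D_4 (nat_lit 93) (nat_lit 76) (nat_lit 160) (nat_lit 5) (nat_lit 8) (nat_lit 4) (nat_lit 5) (nat_lit 8) (nat_lit 5) (by decide +kernel)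
theorem L1278417 : W_4 (nat_lit 2) (nat_lit 0x28003c002c001e000000000000000000000000000) (nat_lit 0x0) (nat_lit 0x2000100010000000000000000000000000000000000000000) := D_4 (nat_lit 176) (nat_lit 193) (nat_lit 160) (nat_lit 6) (nat_lit 6) (nat_lit 11) (nat_lit 5) (nat_lit 7) (nat_lit 6) (by decide +kernel)
theorem L1278418 : W_4 (nat_lit 3) (nat_lit 0x28003c002c001c000000000000000000000000000) (nat_lit 0x0) (nat_lit 0x2000100010000000400002000000000000000000000000000) := T_4 (nat_lit 109) (nat_lit 130) (nat_lit 3) (nat_lit 7) (nat_lit 6) L1278417 (by decide +kernel)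
theorem L1278419 : W_4 (nat_lit 4) (nat_lit 0x20003c002c001c000000000000000000000000000) (nat_lit 0x0) (nat_lit 0x200010001c000000400002000000000000000000000000000) := T_4 (nat_lit 159) (nat_lit 158) (nat_lit 1) (nat_lit 9) (nat_lit 8) L1278418 (by decide +kernel)
theorem L1278420 : W_4 (nat_lit 5) (nat_lit 0x20003c002c000c000000000000000000000000000) (nat_lit 0x0) (nat_lit 0x200010001c000000400032000000000000000000000000000) := T_4 (nat_lit 112) (nat_lit 113) (nat_lit 1) (nat_lit 11) (nat_lit 6) L1278419 (by decide +kernel)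
theorem L1278421 : W_4 (nat_lit 6) (nat_lit 0x20003c002c0004000000000000000000000000000) (nat_lit 0x0) (nat_lit 0x200010001c00000040003a000400000000000000000000000) := T_4 (nat_lit 111) (nat_lit 94) (nat_lit 6) (nat_lit 8) (nat_lit 9) L1278420 (by decide +kernel)
theorem L1278422 : W_4 (nat_lit 7) (nat_lit 0x20003c000c0004000000000000000000000000000) (nat_lit 0x0) (nat_lit 0x200010001c00000070003a000400000000000000000000000) := T_4 (nat_lit 129) (nat_lit 128) (nat_lit 2) (nat_lit 6) (nat_lit 8) L1278421 (by decide +kernel)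
theorem L1278423 : W_4 (nat_lit 2) (nat_lit 0x28003c000c0004000200000000000000000000000) (nat_lit 0x0) (nat_lit 0x8000400020000000000000000000) := D_4 (nat_lit 94) (nat_lit 111) (nat_lit 77) (nat_lit 6) (nat_lit 8) (nat_lit 9) (nat_lit 6) (nat_lit 8) (nat_lit 8) (by decide +kernel)
theorem L1278424 : W_4 (nat_lit 3) (nat_lit 0x28003c000c0004000000000000000000000000000) (nat_lit 0x0) (nat_lit 0x8000600030000000000000000000) := T_4 (nat_lit 93) (nat_lit 76) (nat_lit 5) (nat_lit 8) (nat_lit 4) L1278423 (by decide +kernel)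
theorem L1278425 : W_4 (nat_lit 4) (nat_lit 0x20003c000c0004000000000000000000000000000) (nat_lit 0x0) (nat_lit 0xc000000000008000600030000000000000000000) := T_4 (nat_lit 159) (nat_lit 158) (nat_lit 1) (nat_lit 9) (nat_lit 8) L1278424 (by decide +kernel)
theorem L1278426 : W_4 (nat_lit 8) (nat_lit 0x20003c000c0000000000000000000000000000000) (nat_lit 0x0) (nat_lit 0x200010001c00000070003e000600030000000000000000000) := Q_4 (nat_lit 110) (C_4 L1278416 (C_4 L1278422 (C_4 L1278425 N_4))) (by decide +kernel)
theorem L1278427 : W_4 (nat_lit 2) (nat_lit 0x400028003c000c0000000000000000000000000000000) (nat_lit 0x0) (nat_lit 0x300008000000000000000000000000000) := D_4 (nat_lit 128) (nat_lit 129) (nat_lit 111) (nat_lit 2) (nat_lit 6) (nat_lit 8) (nat_lit 6) (nat_lit 8) (nat_lit 10) (by decide +kernel)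
theorem L1278428 : W_4 (nat_lit 3) (nat_lit 0x28003c000c0000000000000000000000000000000) (nat_lit 0x0) (nat_lit 0x8000400000000000300008000000000000000000000000000) := T_4 (nat_lit 178) (nat_lit 195) (nat_lit 4) (nat_lit 8) (nat_lit 11) L1278427 (by decide +kernel)
theorem L1278429 : W_4 (nat_lit 4) (nat_lit 0x20003c000c0000000000000000000000000000000) (nat_lit 0x0) (nat_lit 0x800040000c000000300008000000000000000000000000000) := T_4 (nat_lit 159) (nat_lit 158) (nat_lit 1) (nat_lit 9) (nat_lit 8) L1278428 (by decide +kernel)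
theorem L1278430 : W_4 (nat_lit 9) (nat_lit 0x3c000c0000000000000000000000000000000) (nat_lit 0x0) (nat_lit 0xa00050003c00000070003e000600030000000000000000000) := Q_4 (nat_lit 161) (C_4 L625760 (C_4 L1278426 (C_4 L1278429 N_4))) (by decide +kernel)
theorem L1278431 : W_4 (nat_lit 10) (nat_lit 0x1c000c0000000000000000000000000000000) (nat_lit 0x0) (nat_lit 0xa00050003c00e00070003e000600030000000000000000000) := Q_4 (nat_lit 145) (C_4 L1278415 (C_4 L625756 (C_4 L1278430 N_4))) (by decide +kernel)
theorem L1278432 : W_4 (nat_lit 11) (nat_lit 0x18000c0000000000000000000000000000000) (nat_lit 0x0) (nat_lit 0xa00050003e00e70071803e800600030000000000000000000) := Q_4 (nat_lit 142) (C_4 L625692 (C_4 L619149 (C_4 L1278431 N_4))) (by decide +kernel)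
theorem L1278433 : W_4 (nat_lit 2) (nat_lit 0x400000001a001c000f000080000000000000000000000) (nat_lit 0x0) (nat_lit 0xc00020000000000000000000) := D_4 (nat_lit 94) (nat_lit 95) (nat_lit 77) (nat_lit 2) (nat_lit 6) (nat_lit 6) (nat_lit 5) (nat_lit 9) (nat_lit 4) (by decide +kernel)
theorem L1278434 : W_4 (nat_lit 3) (nat_lit 0x400000001a001c0007000080000000000000000000000) (nat_lit 0x0) (nat_lit 0x8000c40020000000000000000000) := T_4 (nat_lit 111) (nat_lit 90) (nat_lit 0) (nat_lit 9) (nat_lit 6) L1278433 (by decide +kernel)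
theorem L1278435 : W_4 (nat_lit 4) (nat_lit 0x400000001a001c0007000000000000000000000000000) (nat_lit 0x0) (nat_lit 0x10000000000008000cc0020000000000000000000) := T_4 (nat_lit 91) (nat_lit 160) (nat_lit 4) (nat_lit 7) (nat_lit 9) L1278434 (by decide +kernel)
theorem L1278436 : W_4 (nat_lit 5) (nat_lit 0x4000000018001c0007000000000000000000000000000) (nat_lit 0x0) (nat_lit 0x10000600000008000cc0020000000000000000000) := T_4 (nat_lit 141) (nat_lit 142) (nat_lit 2) (nat_lit 5) (nat_lit 8) L1278435 (by decide +kernel)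
theorem L1278437 : W_4 (nat_lit 6) (nat_lit 0x4000000018001c0006000000000000000000000000000) (nat_lit 0x0) (nat_lit 0x10000600000009800cc0020000000000000000000) := T_4 (nat_lit 108) (nat_lit 107) (nat_lit 3) (nat_lit 5) (nat_lit 6) L1278436 (by decide +kernel)
theorem L1278438 : W_4 (nat_lit 7) (nat_lit 0x18001c0006000000000000000000000000000) (nat_lit 0x0) (nat_lit 0x400030000600000009800cc0020000000000000000000) := T_4 (nat_lit 178) (nat_lit 161) (nat_lit 4) (nat_lit 8) (nat_lit 10) L1278437 (by decide +kernel)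
theorem L1278439 : W_4 (nat_lit 8) (nat_lit 0x18001c0002000000000000000000000000000) (nat_lit 0x0) (nat_lit 0x40003000060000000d801ec0030000000000000000000) := Q_4 (nat_lit 110) (C_4 L1054342 (C_4 L1278438 (C_4 L1112921 N_4))) (by decide +kernel)
theorem L1278440 : W_4 (nat_lit 9) (nat_lit 0x18000c0002000000000000000000000000000) (nat_lit 0x0) (nat_lit 0x40003000060070000d801ec0030000000000000000000) := Q_4 (nat_lit 128) (C_4 L1278439 (C_4 L619145 (C_4 L619128 N_4))) (by decide +kernel)
theorem L1278441 : W_4 (nat_lit 11) (nat_lit 0x18000c0000000000000000000000000000000) (nat_lit 0x0) (nat_lit 0x40003000060071000fc01fe003f800000000000000000) := Q_4 (nat_lit 109) (C_4 L1239010 (C_4 L1255317 (C_4 L983447 (C_4 L1278440 N_4)))) (by decide +kernel)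
theorem L1278442 : W_4 (nat_lit 7) (nat_lit 0x18000c0002000000000000000000000000000) (nat_lit 0x0) (nat_lit 0x50003e002000300005c00280000000000000000000000) := Q_4 (nat_lit 160) (C_4 L1049184 (C_4 L1117873 (C_4 L625704 N_4))) (by decide +kernel)
theorem L1278443 : W_4 (nat_lit 8) (nat_lit 0x18000c0000000000000000000000000000000) (nat_lit 0x0) (nat_lit 0x50003e002000300007c00f80038000000000000000000) := Q_4 (nat_lit 109) (C_4 L1239010 (C_4 L983447 (C_4 L1278442 N_4))) (by decide +kernel)
theorem L1278444 : W_4 (nat_lit 2) (nat_lit 0x4000100018000c0007000000000000000000000000000) (nat_lit 0x0) (nat_lit 0x100000c00000000000000000000000000) := D_4 (nat_lit 107) (nat_lit 128) (nat_lit 106) (nat_lit 3) (nat_lit 5) (nat_lit 6) (nat_lit 3) (nat_lit 4) (nat_lit 6) (by decide +kernel)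
theorem L1278445 : W_4 (nat_lit 3) (nat_lit 0x4000100018000c0006000000000000000000000000000) (nat_lit 0x0) (nat_lit 0x100001c00080000000000000000000000) := T_4 (nat_lit 108) (nat_lit 91) (nat_lit 4) (nat_lit 7) (nat_lit 9) L1278444 (by decide +kernel)
theorem L1278446 : W_4 (nat_lit 4) (nat_lit 0x4000100018000c0002000000000000000000000000000) (nat_lit 0x0) (nat_lit 0x100005c00280000000000000000000000) := T_4 (nat_lit 110) (nat_lit 93) (nat_lit 6) (nat_lit 7) (nat_lit 9) L1278445 (by decide +kernel)
theorem L1278447 : W_4 (nat_lit 5) (nat_lit 0x100018000c0002000000000000000000000000000) (nat_lit 0x0) (nat_lit 0x400020000000100005c00280000000000000000000000) := T_4 (nat_lit 178) (nat_lit 161) (nat_lit 7) (nat_lit 7) (nat_lit 6) L1278446 (by decide +kernel)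
theorem L1278448 : W_4 (nat_lit 7) (nat_lit 0x18000c0002000000000000000000000000000) (nat_lit 0x0) (nat_lit 0x50003e006400100005c00280000000000000000000000) := Q_4 (nat_lit 160) (C_4 L1049184 (C_4 L1255577 (C_4 L625704 (C_4 L1278447 N_4)))) (by decide +kernel)
theorem L1278449 : W_4 (nat_lit 8) (nat_lit 0x18000c0000000000000000000000000000000) (nat_lit 0x0) (nat_lit 0x50003e006700100007c00f80038000000000000000000) := Q_4 (nat_lit 109) (C_4 L1239010 (C_4 L1219776 (C_4 L1278448 N_4))) (by decide +kernel)
theorem L1279821 : W_4 (nat_lit 2) (nat_lit 0x4000000018000d00078000c0010000000000000000000) (nat_lit 0x0) (nat_lit 0x200000000000000004000200000000000000) := D_4 (nat_lit 74) (nat_lit 57) (nat_lit 141) (nat_lit 7) (nat_lit 6) (nat_lit 3) (nat_lit 6) (nat_lit 5) (nat_lit 8) (by decide +kernel)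
theorem L1279822 : W_4 (nat_lit 3) (nat_lit 0x4000000018000d0007800040010000000000000000000) (nat_lit 0x0) (nat_lit 0x200000008000080004000200000000000000) := T_4 (nat_lit 91) (nat_lit 111) (nat_lit 0) (nat_lit 9) (nat_lit 6) L1279821 (by decide +kernel)
theorem L1279823 : W_4 (nat_lit 4) (nat_lit 0x4000000018000c0007800040010000000000000000000) (nat_lit 0x0) (nat_lit 0x200018008000080004000200000000000000) := T_4 (nat_lit 124) (nat_lit 123) (nat_lit 1) (nat_lit 8) (nat_lit 6) L1279822 (by decide +kernel)
theorem L1279824 : W_4 (nat_lit 5) (nat_lit 0x4000000018000c0007800000010000000000000000000) (nat_lit 0x0) (nat_lit 0x2000180080000e0004000200000000000000) := T_4 (nat_lit 90) (nat_lit 89) (nat_lit 0) (nat_lit 8) (nat_lit 6) L1279823 (by decide +kernel)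
theorem L1279825 : W_4 (nat_lit 6) (nat_lit 0x4000000018000c0007800000000000000000000000000) (nat_lit 0x0) (nat_lit 0x2000180080002e0014000200000000000000) := T_4 (nat_lit 76) (nat_lit 93) (nat_lit 5) (nat_lit 8) (nat_lit 4) L1279824 (by decide +kernel)
theorem L1279826 : W_4 (nat_lit 7) (nat_lit 0x4000000018000c0007000000000000000000000000000) (nat_lit 0x0) (nat_lit 0x200018008c002e0014000200000000000000) := T_4 (nat_lit 107) (nat_lit 106) (nat_lit 3) (nat_lit 4) (nat_lit 6) L1279825 (by decide +kernel)
theorem L1280010 : W_4 (nat_lit 2) (nat_lit 0x20001c002c001c000000000000000000000000000) (nat_lit 0x0) (nat_lit 0x400002000100000000000000000000000) := D_4 (nat_lit 109) (nat_lit 92) (nat_lit 130) (nat_lit 7) (nat_lit 7) (nat_lit 5) (nat_lit 3) (nat_lit 7) (nat_lit 6) (by decide +kernel)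
theorem L1280011 : W_4 (nat_lit 3) (nat_lit 0x20001c000c001c000000000000000000000000000) (nat_lit 0x0) (nat_lit 0x700002000100000000000000000000000) := T_4 (nat_lit 129) (nat_lit 128) (nat_lit 1) (nat_lit 10) (nat_lit 7) L1280010 (by decide +kernel)
theorem L1280012 : W_4 (nat_lit 4) (nat_lit 0x20001c000c000c000000000000000000000000000) (nat_lit 0x0) (nat_lit 0x700032000100000000000000000000000) := T_4 (nat_lit 112) (nat_lit 113) (nat_lit 1) (nat_lit 11) (nat_lit 6) L1280011 (by decide +kernel)
theorem L1280013 : W_4 (nat_lit 5) (nat_lit 0x20001c000c0004000000000000000000000000000) (nat_lit 0x0) (nat_lit 0x70003a000500000000000000000000000) := T_4 (nat_lit 111) (nat_lit 94) (nat_lit 6) (nat_lit 8) (nat_lit 9) L1280012 (by decide +kernel)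
theorem L1280014 : W_4 (nat_lit 6) (nat_lit 0x20001c000c0000000000000000000000000000000) (nat_lit 0x0) (nat_lit 0x70003e000700038000000000000000000) := Q_4 (nat_lit 110) (C_4 L1206229 (C_4 L1280013 (C_4 L1168753 N_4))) (by decide +kernel)
theorem L1280015 : W_4 (nat_lit 7) (nat_lit 0x1c000c0000000000000000000000000000000) (nat_lit 0x0) (nat_lit 0x800040002000000070003e000700038000000000000000000) := Q_4 (nat_lit 161) (C_4 L625751 (C_4 L1280014 (C_4 L619498 N_4))) (by decide +kernel)
theorem L1280016 : W_4 (nat_lit 8) (nat_lit 0x18000c0000000000000000000000000000000) (nat_lit 0x0) (nat_lit 0xa00050002e00270071803e800700038000000000000000000) := Q_4 (nat_lit 142) (C_4 L625692 (C_4 L619149 (C_4 L1280015 N_4))) (by decide +kernel)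
theorem L1280110 : W_4 (nat_lit 5) (nat_lit 0x4000000018000c0007000000000000000000000000000) (nat_lit 0x0) (nat_lit 0x10001e006400000000000080000000000000000000000) := T_4 (nat_lit 160) (nat_lit 91) (nat_lit 4) (nat_lit 7) (nat_lit 9) L1238689 (by decide +kernel)
theorem L1280111 : W_4 (nat_lit 6) (nat_lit 0x18000c0007000000000000000000000000000) (nat_lit 0x0) (nat_lit 0x50003e006400000000000080000000000000000000000) := T_4 (nat_lit 178) (nat_lit 161) (nat_lit 4) (nat_lit 8) (nat_lit 10) L1280110 (by decide +kernel)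
theorem L1280112 : W_4 (nat_lit 4) (nat_lit 0x80018000c0007400000000000000000000000000) (nat_lit 0x0) (nat_lit 0x100036006000000000000000000000000000000000000) := T_4 (nat_lit 160) (nat_lit 176) (nat_lit 5) (nat_lit 7) (nat_lit 6) L1219797 (by decide +kernel)
theorem L1280113 : W_4 (nat_lit 5) (nat_lit 0x80018000c0007000000000000000000000000000) (nat_lit 0x0) (nat_lit 0x100036006000000000c00000000000000000000000000) := T_4 (nat_lit 106) (nat_lit 107) (nat_lit 3) (nat_lit 4) (nat_lit 6) L1280112 (by decide +kernel)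
theorem L1280114 : W_4 (nat_lit 7) (nat_lit 0x3a0018000c0007000000000000000000000000000) (nat_lit 0x0) (nat_lit 0x700018038c00460000000000000000000000) := T_4 (nat_lit 111) (nat_lit 94) (nat_lit 6) (nat_lit 8) (nat_lit 9) L1133758 (by decide +kernel)
theorem L1280115 : W_4 (nat_lit 8) (nat_lit 0x1a0018000c0007000000000000000000000000000) (nat_lit 0x0) (nat_lit 0x400020000700018038c00460000000000000000000000) := T_4 (nat_lit 161) (nat_lit 178) (nat_lit 7) (nat_lit 7) (nat_lit 6) L1280114 (by decide +kernel)
theorem L1280116 : W_4 (nat_lit 9) (nat_lit 0x180018000c0007000000000000000000000000000) (nat_lit 0x0) (nat_lit 0x400026000700018038c00460000000000000000000000) := T_4 (nat_lit 157) (nat_lit 158) (nat_lit 2) (nat_lit 4) (nat_lit 9) L1280115 (by decide +kernel)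
theorem L1280117 : W_4 (nat_lit 10) (nat_lit 0x80018000c0007000000000000000000000000000) (nat_lit 0x0) (nat_lit 0x500036000700018038c00460000000000000000000000) := T_4 (nat_lit 160) (nat_lit 176) (nat_lit 5) (nat_lit 7) (nat_lit 6) L1280116 (by decide +kernel)
theorem L1280118 : W_4 (nat_lit 2) (nat_lit 0x1c0018000c0007400000000000000000000000000) (nat_lit 0x0) (nat_lit 0x6400000000000000000000000000000000000) := D_4 (nat_lit 145) (nat_lit 146) (nat_lit 142) (nat_lit 1) (nat_lit 10) (nat_lit 8) (nat_lit 1) (nat_lit 9) (nat_lit 8) (by decide +kernel)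
theorem L1280119 : W_4 (nat_lit 3) (nat_lit 0x180018000c0007400000000000000000000000000) (nat_lit 0x0) (nat_lit 0x6006400000000000000000000000000000000000) := T_4 (nat_lit 158) (nat_lit 157) (nat_lit 2) (nat_lit 4) (nat_lit 9) L1280118 (by decide +kernel)
theorem L1280120 : W_4 (nat_lit 4) (nat_lit 0x80018000c0007400000000000000000000000000) (nat_lit 0x0) (nat_lit 0x100016006400000000000000000000000000000000000) := T_4 (nat_lit 160) (nat_lit 176) (nat_lit 5) (nat_lit 7) (nat_lit 6) L1280119 (by decide +kernel)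
theorem L1280121 : W_4 (nat_lit 5) (nat_lit 0x80018000c0007000000000000000000000000000) (nat_lit 0x0) (nat_lit 0x100016006400000000c00000000000000000000000000) := T_4 (nat_lit 106) (nat_lit 107) (nat_lit 3) (nat_lit 4) (nat_lit 6) L1280120 (by decide +kernel)
theorem L1280122 : W_4 (nat_lit 2) (nat_lit 0x40000a001a000d0007800040000000000000000000000) (nat_lit 0x0) (nat_lit 0x140004000000000000000000000000000000000000000) := D_4 (nat_lit 158) (nat_lit 176) (nat_lit 174) (nat_lit 7) (nat_lit 5) (nat_lit 6) (nat_lit 5) (nat_lit 5) (nat_lit 6) (by decide +kernel)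
theorem L1280123 : W_4 (nat_lit 3) (nat_lit 0x400008001a000d0007800040000000000000000000000) (nat_lit 0x0) (nat_lit 0x140006000100000000000000000000000000000000000) := T_4 (nat_lit 157) (nat_lit 140) (nat_lit 5) (nat_lit 5) (nat_lit 5) L1280122 (by decide +kernel)
theorem L1280124 : W_4 (nat_lit 4) (nat_lit 0x4000080018000d0007800040000000000000000000000) (nat_lit 0x0) (nat_lit 0x140006000700000000000000000000000000000000000) := T_4 (nat_lit 141) (nat_lit 142) (nat_lit 7) (nat_lit 5) (nat_lit 5) L1280123 (by decide +kernel)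
theorem L1280125 : W_4 (nat_lit 5) (nat_lit 0x4000080018000d0007800000000000000000000000000) (nat_lit 0x0) (nat_lit 0x140006000700000000000060000000000000000000000) := T_4 (nat_lit 90) (nat_lit 89) (nat_lit 0) (nat_lit 8) (nat_lit 6) L1280124 (by decide +kernel)
theorem L1280126 : W_4 (nat_lit 6) (nat_lit 0x4000080018000c0007800000000000000000000000000) (nat_lit 0x0) (nat_lit 0x140006000700018000000060000000000000000000000) := T_4 (nat_lit 124) (nat_lit 123) (nat_lit 1) (nat_lit 8) (nat_lit 6) L1280125 (by decide +kernel)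
theorem L1280127 : W_4 (nat_lit 7) (nat_lit 0x4000080018000c0007000000000000000000000000000) (nat_lit 0x0) (nat_lit 0x140006000700018000c00060000000000000000000000) := T_4 (nat_lit 107) (nat_lit 106) (nat_lit 3) (nat_lit 4) (nat_lit 6) L1280126 (by decide +kernel)
theorem L1280128 : W_4 (nat_lit 8) (nat_lit 0x80018000c0007000000000000000000000000000) (nat_lit 0x0) (nat_lit 0x540026000700018000c00060000000000000000000000) := T_4 (nat_lit 178) (nat_lit 161) (nat_lit 4) (nat_lit 8) (nat_lit 10) L1280127 (by decide +kernel)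
theorem L1280129 : W_4 (nat_lit 2) (nat_lit 0x100008001c000c0007800040000000000000000000000) (nat_lit 0x0) (nat_lit 0x200018000000000000000000000000000000) := D_4 (nat_lit 124) (nat_lit 123) (nat_lit 141) (nat_lit 1) (nat_lit 8) (nat_lit 6) (nat_lit 7) (nat_lit 5) (nat_lit 5) (by decide +kernel)
theorem L1280130 : W_4 (nat_lit 3) (nat_lit 0x1000080018000c0007800040000000000000000000000) (nat_lit 0x0) (nat_lit 0x2000000000000600018000000000000000000000000000000) := T_4 (nat_lit 142) (nat_lit 193) (nat_lit 6) (nat_lit 6) (nat_lit 11) L1280129 (by decide +kernel)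
theorem L1280131 : W_4 (nat_lit 4) (nat_lit 0x1000080018000c0007800000000000000000000000000) (nat_lit 0x0) (nat_lit 0x2000000000000600018000000060000000000000000000000) := T_4 (nat_lit 90) (nat_lit 89) (nat_lit 0) (nat_lit 8) (nat_lit 6) L1280130 (by decide +kernel)
theorem L1280132 : W_4 (nat_lit 5) (nat_lit 0x80018000c0007800000000000000000000000000) (nat_lit 0x0) (nat_lit 0x2000100010000600018000000060000000000000000000000) := T_4 (nat_lit 176) (nat_lit 160) (nat_lit 5) (nat_lit 7) (nat_lit 6) L1280131 (by decide +kernel)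
theorem L1280133 : W_4 (nat_lit 6) (nat_lit 0x80018000c0007000000000000000000000000000) (nat_lit 0x0) (nat_lit 0x2000100010000600018000c00060000000000000000000000) := T_4 (nat_lit 107) (nat_lit 106) (nat_lit 3) (nat_lit 4) (nat_lit 6) L1280132 (by decide +kernel)
theorem L1280134 : W_4 (nat_lit 4) (nat_lit 0x4000080018000c0007000000000000000000000000000) (nat_lit 0x0) (nat_lit 0x100016006400000000000000000000000000000000000) := T_4 (nat_lit 160) (nat_lit 176) (nat_lit 5) (nat_lit 7) (nat_lit 6) L1238688 (by decide +kernel)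
theorem L1280135 : W_4 (nat_lit 5) (nat_lit 0x80018000c0007000000000000000000000000000) (nat_lit 0x0) (nat_lit 0x500036006400000000000000000000000000000000000) := T_4 (nat_lit 178) (nat_lit 161) (nat_lit 4) (nat_lit 8) (nat_lit 10) L1280134 (by decide +kernel)
theorem L1280136 : W_4 (nat_lit 2) (nat_lit 0x40000a001a000d0007800040000000000000000000000) (nat_lit 0x0) (nat_lit 0x40014000000000000000000000000000000000000000) := D_4 (nat_lit 158) (nat_lit 160) (nat_lit 174) (nat_lit 2) (nat_lit 4) (nat_lit 9) (nat_lit 5) (nat_lit 5) (nat_lit 6) (by decide +kernel)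
theorem L1280137 : W_4 (nat_lit 3) (nat_lit 0x400008001a000d0007800040000000000000000000000) (nat_lit 0x0) (nat_lit 0x40016000100000000000000000000000000000000000) := T_4 (nat_lit 157) (nat_lit 140) (nat_lit 5) (nat_lit 5) (nat_lit 5) L1280136 (by decide +kernel)
theorem L1280138 : W_4 (nat_lit 4) (nat_lit 0x4000080018000d0007800040000000000000000000000) (nat_lit 0x0) (nat_lit 0x40016000700000000000000000000000000000000000) := T_4 (nat_lit 141) (nat_lit 142) (nat_lit 7) (nat_lit 5) (nat_lit 5) L1280137 (by decide +kernel)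
theorem L1280139 : W_4 (nat_lit 5) (nat_lit 0x4000080018000c0007800040000000000000000000000) (nat_lit 0x0) (nat_lit 0x40016000700018000000000000000000000000000000) := T_4 (nat_lit 124) (nat_lit 123) (nat_lit 1) (nat_lit 8) (nat_lit 6) L1280138 (by decide +kernel)
theorem L1280140 : W_4 (nat_lit 6) (nat_lit 0x4000080018000c0007800000000000000000000000000) (nat_lit 0x0) (nat_lit 0x40016000700018000000060000000000000000000000) := T_4 (nat_lit 90) (nat_lit 89) (nat_lit 0) (nat_lit 8) (nat_lit 6) L1280139 (by decide +kernel)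
theorem L1280141 : W_4 (nat_lit 7) (nat_lit 0x80018000c0007800000000000000000000000000) (nat_lit 0x0) (nat_lit 0x440036000700018000000060000000000000000000000) := T_4 (nat_lit 178) (nat_lit 161) (nat_lit 4) (nat_lit 8) (nat_lit 10) L1280140 (by decide +kernel)
theorem L1280142 : W_4 (nat_lit 8) (nat_lit 0x80018000c0007000000000000000000000000000) (nat_lit 0x0) (nat_lit 0x440036000700018000c00060000000000000000000000) := T_4 (nat_lit 107) (nat_lit 106) (nat_lit 3) (nat_lit 4) (nat_lit 6) L1280141 (by decide +kernel)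
theorem L1280143 : W_4 (nat_lit 11) (nat_lit 0x18000c0007000000000000000000000000000) (nat_lit 0x0) (nat_lit 0x200054003e006700018038c00460000000000000000000000) := Q_4 (nat_lit 159) (C_4 L1280113 (C_4 L1280117 (C_4 L1280121 (C_4 L1280128 (C_4 L1280133 (C_4 L1280135 (C_4 L1280142 N_4))))))) (by decide +kernel)
theorem L1280144 : W_4 (nat_lit 12) (nat_lit 0x18000c0006000000000000000000000000000) (nat_lit 0x0) (nat_lit 0x200054003e006700018039c01ce0000000000000000000000) := Q_4 (nat_lit 108) (C_4 L1117077 (C_4 L1280111 (C_4 L1280143 N_4))) (by decide +kernel)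
theorem L1280145 : W_4 (nat_lit 13) (nat_lit 0x18000c0002000000000000000000000000000) (nat_lit 0x0) (nat_lit 0x200054003e00670001803dc01ee0030000000000000000000) := Q_4 (nat_lit 110) (C_4 L1163164 (C_4 L1280144 (C_4 L1048918 N_4))) (by decide +kernel)
theorem L1280146 : W_4 (nat_lit 14) (nat_lit 0x18000c0000000000000000000000000000000) (nat_lit 0x0) (nat_lit 0x200054003e00670001803fc01fe0038000000000000000000) := Q_4 (nat_lit 109) (C_4 L1280145 (C_4 L1239010 (C_4 L983447 N_4))) (by decide +kernel)
theorem L1281126 : W_4 (nat_lit 2) (nat_lit 0xd8002c0010000e000c0000000000000000000) (nat_lit 0x0) (nat_lit 0x10000000000004000000010000000000000000000) := D_4 (nat_lit 110) (nat_lit 160) (nat_lit 76) (nat_lit 5) (nat_lit 8) (nat_lit 5) (nat_lit 5) (nat_lit 8) (nat_lit 4) (by decide +kernel)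
theorem L1281127 : W_4 (nat_lit 3) (nat_lit 0xd8002c0010000c000c0000000000000000000) (nat_lit 0x0) (nat_lit 0x10000000000004000300010000000000000000000) := T_4 (nat_lit 93) (nat_lit 92) (nat_lit 2) (nat_lit 7) (nat_lit 5) L1281126 (by decide +kernel)
theorem L1281128 : W_4 (nat_lit 4) (nat_lit 0xd8002c0010000c00080000000000000000000) (nat_lit 0x0) (nat_lit 0x10000000000004000300050004000000000000000) := T_4 (nat_lit 78) (nat_lit 62) (nat_lit 6) (nat_lit 10) (nat_lit 7) L1281127 (by decide +kernel)
theorem L1281129 : W_4 (nat_lit 5) (nat_lit 0xd8002c0010000c00000000000000000000000) (nat_lit 0x0) (nat_lit 0x100000000000040013000d0004000000000000000) := T_4 (nat_lit 79) (nat_lit 96) (nat_lit 6) (nat_lit 10) (nat_lit 8) L1281128 (by decide +kernel)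
theorem L1281130 : W_4 (nat_lit 6) (nat_lit 0xd8002c0010000800000000000000000000000) (nat_lit 0x0) (nat_lit 0x100000000000040017000f0004000000000000000) := T_4 (nat_lit 94) (nat_lit 77) (nat_lit 4) (nat_lit 10) (nat_lit 8) L1281129 (by decide +kernel)
theorem L1281131 : W_4 (nat_lit 7) (nat_lit 0x58002c0010000800000000000000000000000) (nat_lit 0x0) (nat_lit 0x1100080000000040017000f0004000000000000000) := T_4 (nat_lit 147) (nat_lit 164) (nat_lit 7) (nat_lit 10) (nat_lit 5) L1281130 (by decide +kernel)
theorem L1281132 : W_4 (nat_lit 8) (nat_lit 0x58002c0010000000000000000000000000000) (nat_lit 0x0) (nat_lit 0x20001900080000000ec001f000f0004000000000000000) := Q_4 (nat_lit 95) (C_4 L1207812 (C_4 L628208 (C_4 L628201 (C_4 L1281131 N_4)))) (by decide +kernel)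
theorem L1281137 : W_4 (nat_lit 6) (nat_lit 0x1800058002c0010000400000000000000000000000) (nat_lit 0x0) (nat_lit 0x10008000000004001b000d0004000000000000000) := T_4 (nat_lit 95) (nat_lit 147) (nat_lit 7) (nat_lit 10) (nat_lit 5) L1281136 (by decide +kernel)
theorem L1281138 : W_4 (nat_lit 7) (nat_lit 0x800058002c0010000400000000000000000000000) (nat_lit 0x0) (nat_lit 0x2000110008000000004001b000d0004000000000000000) := T_4 (nat_lit 164) (nat_lit 181) (nat_lit 7) (nat_lit 10) (nat_lit 6) L1281137 (by decide +kernel)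
theorem L1281139 : W_4 (nat_lit 8) (nat_lit 0x800058002c0010000000000000000000000000000) (nat_lit 0x0) (nat_lit 0x200011000800000000c001f000d0004000000000000000) := T_4 (nat_lit 94) (nat_lit 111) (nat_lit 4) (nat_lit 10) (nat_lit 9) L1281138 (by decide +kernel)
theorem L1281142 : W_4 (nat_lit 9) (nat_lit 0x58002c0010000000000000000000000000000) (nat_lit 0x0) (nat_lit 0x200070003800190008001c0002c001f000d0004000000000000000) := Q_4 (nat_lit 163) (C_4 L988084 (C_4 L628236 (C_4 L1281139 (C_4 L1281141 (C_4 L628258 N_4))))) (by decide +kernel)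
theorem L1281143 : W_4 (nat_lit 2) (nat_lit 0x58002c0014000000000000000000000000000) (nat_lit 0x0) (nat_lit 0x10000000000000000200010000000000000000000) := D_4 (nat_lit 93) (nat_lit 160) (nat_lit 76) (nat_lit 5) (nat_lit 8) (nat_lit 5) (nat_lit 5) (nat_lit 8) (nat_lit 4) (by decide +kernel)
theorem L1281144 : W_4 (nat_lit 7) (nat_lit 0x58002c0010000000000000000000000000000) (nat_lit 0x0) (nat_lit 0x4000300019000000040002c001f000f8000000000000000000) := Q_4 (nat_lit 110) (C_4 L1207845 (C_4 L1085167 (C_4 L1281143 N_4))) (by decide +kernel)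
theorem L1281152 : W_4 (nat_lit 6) (nat_lit 0x58002c0010000000000000000000000000000) (nat_lit 0x0) (nat_lit 0x4000300019000000040002c001200010000000000000000000) := Q_4 (nat_lit 110) (C_4 L1281143 (C_4 L1085167 N_4)) (by decide +kernel)
theorem L1281153 : W_4 (nat_lit 2) (nat_lit 0xd8002c0010000800040000000000000000000) (nat_lit 0x0) (nat_lit 0x1000080004000000000000000) := D_4 (nat_lit 79) (nat_lit 62) (nat_lit 96) (nat_lit 6) (nat_lit 10) (nat_lit 7) (nat_lit 6) (nat_lit 10) (nat_lit 8) (by decide +kernel)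
theorem L1281154 : W_4 (nat_lit 3) (nat_lit 0xd8002c0010000800000000000000000000000) (nat_lit 0x0) (nat_lit 0x4000000010000c0004000000000000000) := T_4 (nat_lit 78) (nat_lit 130) (nat_lit 7) (nat_lit 10) (nat_lit 4) L1281153 (by decide +kernel)
theorem L1281155 : W_4 (nat_lit 4) (nat_lit 0x58002c0010000800000000000000000000000) (nat_lit 0x0) (nat_lit 0x1000080004000000010000c0004000000000000000) := T_4 (nat_lit 147) (nat_lit 164) (nat_lit 7) (nat_lit 10) (nat_lit 5) L1281154 (by decide +kernel)
theorem L1281156 : W_4 (nat_lit 2) (nat_lit 0x58002c0018001c00000000000000000000000) (nat_lit 0x0) (nat_lit 0x4006000000000000000000000000) := D_4 (nat_lit 97) (nat_lit 98) (nat_lit 110) (nat_lit 1) (nat_lit 13) (nat_lit 5) (nat_lit 1) (nat_lit 12) (nat_lit 5) (by decide +kernel)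
theorem L1281157 : W_4 (nat_lit 3) (nat_lit 0x58002c0010001c00000000000000000000000) (nat_lit 0x0) (nat_lit 0x8000000000000c006000000000000000000000000) := T_4 (nat_lit 111) (nat_lit 163) (nat_lit 4) (nat_lit 10) (nat_lit 9) L1281156 (by decide +kernel)
theorem L1281158 : W_4 (nat_lit 4) (nat_lit 0x58002c0010001800000000000000000000000) (nat_lit 0x0) (nat_lit 0x8000000000000c006400020000000000000000000) := T_4 (nat_lit 94) (nat_lit 77) (nat_lit 4) (nat_lit 10) (nat_lit 8) L1281157 (by decide +kernel)
theorem L1281159 : W_4 (nat_lit 5) (nat_lit 0x58002c0010000800000000000000000000000) (nat_lit 0x0) (nat_lit 0x8000000000000c0074000a0000000000000000000) := T_4 (nat_lit 96) (nat_lit 79) (nat_lit 6) (nat_lit 10) (nat_lit 8) L1281158 (by decide +kernel)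
theorem L1281160 : W_4 (nat_lit 8) (nat_lit 0x58002c0010000000000000000000000000000) (nat_lit 0x0) (nat_lit 0x200019000800040000c007f000f0004000000000000000) := Q_4 (nat_lit 95) (C_4 L1281131 (C_4 L628208 (C_4 L1281155 (C_4 L1281159 N_4)))) (by decide +kernel)
theorem L1281161 : W_4 (nat_lit 2) (nat_lit 0x500010000800058002c0034000000000000000000000000000) (nat_lit 0x0) (nat_lit 0xa00020000000000000000000000000000000000000000000000000) := D_4 (nat_lit 197) (nat_lit 213) (nat_lit 215) (nat_lit 5) (nat_lit 10) (nat_lit 8) (nat_lit 7) (nat_lit 10) (nat_lit 8) (by decide +kernel)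
theorem L1281162 : W_4 (nat_lit 3) (nat_lit 0x100010000800058002c0034000000000000000000000000000) (nat_lit 0x0) (nat_lit 0xa00060002000000000000000000000000000000000000000000000) := T_4 (nat_lit 198) (nat_lit 181) (nat_lit 7) (nat_lit 10) (nat_lit 7) L1281161 (by decide +kernel)
theorem L1281163 : W_4 (nat_lit 4) (nat_lit 0x10000800058002c0034000000000000000000000000000) (nat_lit 0x0) (nat_lit 0xa00070002800000000000000000000000000000000000000000000) := T_4 (nat_lit 196) (nat_lit 179) (nat_lit 5) (nat_lit 10) (nat_lit 7) L1281162 (by decide +kernel)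
theorem L1281164 : W_4 (nat_lit 5) (nat_lit 0x800058002c0034000000000000000000000000000) (nat_lit 0x0) (nat_lit 0xa00070003800000000000400000000000000000000000000000000) := T_4 (nat_lit 180) (nat_lit 130) (nat_lit 6) (nat_lit 10) (nat_lit 10) L1281163 (by decide +kernel)
theorem L1281165 : W_4 (nat_lit 6) (nat_lit 0x58002c0034000000000000000000000000000) (nat_lit 0x0) (nat_lit 0xa00070003800080000000400000001000000000000000000000000) := T_4 (nat_lit 163) (nat_lit 96) (nat_lit 6) (nat_lit 10) (nat_lit 9) L1281164 (by decide +kernel)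
theorem L1281166 : W_4 (nat_lit 7) (nat_lit 0x58002c0014000000000000000000000000000) (nat_lit 0x0) (nat_lit 0xa00070003800080000000400028001000000000000000000000000) := T_4 (nat_lit 113) (nat_lit 111) (nat_lit 1) (nat_lit 11) (nat_lit 6) L1281165 (by decide +kernel)
theorem L1281167 : W_4 (nat_lit 8) (nat_lit 0x58002c0010000000000000000000000000000) (nat_lit 0x0) (nat_lit 0xa0007000380009000000040002c001200010000000000000000000) := Q_4 (nat_lit 110) (C_4 L1281143 (C_4 L1281166 N_4)) (by decide +kernel)
theorem L1281168 : W_4 (nat_lit 2) (nat_lit 0x58002c001c000000000000000000000000000) (nat_lit 0x0) (nat_lit 0xa0000000000000000400000000000000000000000) := D_4 (nat_lit 94) (nat_lit 163) (nat_lit 161) (nat_lit 4) (nat_lit 10) (nat_lit 9) (nat_lit 6) (nat_lit 8) (nat_lit 9) (by decide +kernel)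
theorem L1281169 : W_4 (nat_lit 3) (nat_lit 0x58002c0014000000000000000000000000000) (nat_lit 0x0) (nat_lit 0xa0000000000028000400000000000000000000000) := T_4 (nat_lit 111) (nat_lit 113) (nat_lit 1) (nat_lit 11) (nat_lit 6) L1281168 (by decide +kernel)
theorem L1281170 : W_4 (nat_lit 4) (nat_lit 0x58002c0010000000000000000000000000000) (nat_lit 0x0) (nat_lit 0xb000000000002c000600010000000000000000000) := Q_4 (nat_lit 110) (C_4 L1281143 (C_4 L1281169 N_4)) (by decide +kernel)
theorem L1281176 : W_4 (nat_lit 2) (nat_lit 0x58002c001c000400000000000000000000000) (nat_lit 0x0) (nat_lit 0x800020001000000000000000) := D_4 (nat_lit 77) (nat_lit 60) (nat_lit 95) (nat_lit 7) (nat_lit 9) (nat_lit 3) (nat_lit 4) (nat_lit 10) (nat_lit 8) (by decide +kernel)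
theorem L1281177 : W_4 (nat_lit 3) (nat_lit 0x58002c001c000000000000000000000000000) (nat_lit 0x0) (nat_lit 0x20000000000000000c00020001000000000000000) := T_4 (nat_lit 94) (nat_lit 161) (nat_lit 6) (nat_lit 8) (nat_lit 9) L1281176 (by decide +kernel)
theorem L1281178 : W_4 (nat_lit 4) (nat_lit 0x58002c0014000000000000000000000000000) (nat_lit 0x0) (nat_lit 0x20000000000028000c00020001000000000000000) := T_4 (nat_lit 111) (nat_lit 113) (nat_lit 1) (nat_lit 11) (nat_lit 6) L1281177 (by decide +kernel)
theorem L1281179 : W_4 (nat_lit 5) (nat_lit 0x58002c0010000000000000000000000000000) (nat_lit 0x0) (nat_lit 0x3000000000002c000e00030001000000000000000) := Q_4 (nat_lit 110) (C_4 L1281143 (C_4 L1281178 N_4)) (by decide +kernel)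
theorem L1281180 : W_4 (nat_lit 10) (nat_lit 0x58002c0000000000000000000000000000000) (nat_lit 0x0) (nat_lit 0xa000700038001b0008001c000fc00ff001f8005000000000000000) := Q_4 (nat_lit 112) (C_4 L1207813 (C_4 L628184 (C_4 L1281132 (C_4 L1281142 (C_4 L1281144 (C_4 L1281152 (C_4 L1281160 (C_4 L1281167 (C_4 L1281170 (C_4 L1281179 N_4)))))))))) (by decide +kernel)
theorem L1281181 : W_4 (nat_lit 2) (nat_lit 0xd8002c0014001c00000000000000000000000) (nat_lit 0x0) (nat_lit 0x80000000000008002000000000000000000000000) := D_4 (nat_lit 111) (nat_lit 97) (nat_lit 163) (nat_lit 1) (nat_lit 12) (nat_lit 5) (nat_lit 4) (nat_lit 10) (nat_lit 9) (by decide +kernel)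
theorem L1281182 : W_4 (nat_lit 3) (nat_lit 0xd8002c0014001800000000000000000000000) (nat_lit 0x0) (nat_lit 0x80000000000008002400020000000000000000000) := T_4 (nat_lit 94) (nat_lit 77) (nat_lit 4) (nat_lit 10) (nat_lit 8) L1281181 (by decide +kernel)
theorem L1281183 : W_4 (nat_lit 4) (nat_lit 0xd8002c0014000800000000000000000000000) (nat_lit 0x0) (nat_lit 0x800000000000080034000a0000000000000000000) := T_4 (nat_lit 96) (nat_lit 79) (nat_lit 6) (nat_lit 10) (nat_lit 8) L1281182 (by decide +kernel)
theorem L1281184 : W_4 (nat_lit 5) (nat_lit 0xd8002c0014000000000000000000000000000) (nat_lit 0x0) (nat_lit 0x180000000000008003c000a0000000000000000000) := T_4 (nat_lit 95) (nat_lit 164) (nat_lit 7) (nat_lit 10) (nat_lit 5) L1281183 (by decide +kernel)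
theorem L1281185 : W_4 (nat_lit 6) (nat_lit 0x58002c0014000000000000000000000000000) (nat_lit 0x0) (nat_lit 0x18000a000000008003c000a0000000000000000000) := T_4 (nat_lit 147) (nat_lit 145) (nat_lit 0) (nat_lit 11) (nat_lit 8) L1281184 (by decide +kernel)
theorem L1281186 : W_4 (nat_lit 2) (nat_lit 0xd8002c00140008000a0000000000000000000) (nat_lit 0x0) (nat_lit 0x40005000000000000000) := D_4 (nat_lit 78) (nat_lit 62) (nat_lit 60) (nat_lit 6) (nat_lit 10) (nat_lit 7) (nat_lit 4) (nat_lit 10) (nat_lit 7) (by decide +kernel)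
theorem L1281187 : W_4 (nat_lit 3) (nat_lit 0xd8002c0014000800080000000000000000000) (nat_lit 0x0) (nat_lit 0x400060005000000000000000) := T_4 (nat_lit 77) (nat_lit 94) (nat_lit 4) (nat_lit 10) (nat_lit 8) L1281186 (by decide +kernel)
theorem L1281188 : W_4 (nat_lit 4) (nat_lit 0xd8002c0014000800000000000000000000000) (nat_lit 0x0) (nat_lit 0x14000e0005000000000000000) := T_4 (nat_lit 79) (nat_lit 96) (nat_lit 6) (nat_lit 10) (nat_lit 8) L1281187 (by decide +kernel)
theorem L1281189 : W_4 (nat_lit 5) (nat_lit 0xd8002c0014000000000000000000000000000) (nat_lit 0x0) (nat_lit 0x100000000000000001c000e0005000000000000000) := T_4 (nat_lit 95) (nat_lit 164) (nat_lit 7) (nat_lit 10) (nat_lit 5) L1281188 (by decide +kernel)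
theorem L1281190 : W_4 (nat_lit 6) (nat_lit 0x58002c0014000000000000000000000000000) (nat_lit 0x0) (nat_lit 0x10000a000000000001c000e0005000000000000000) := T_4 (nat_lit 147) (nat_lit 145) (nat_lit 0) (nat_lit 11) (nat_lit 8) L1281189 (by decide +kernel)
theorem L1281191 : W_4 (nat_lit 2) (nat_lit 0xd8002c0034000800000000000000000000000) (nat_lit 0x0) (nat_lit 0x80000000000000001000080000000000000000000) := D_4 (nat_lit 96) (nat_lit 79) (nat_lit 163) (nat_lit 6) (nat_lit 10) (nat_lit 8) (nat_lit 6) (nat_lit 10) (nat_lit 9) (by decide +kernel)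
theorem L1281192 : W_4 (nat_lit 3) (nat_lit 0xd8002c0034000000000000000000000000000) (nat_lit 0x0) (nat_lit 0x180000000000000001800080000000000000000000) := T_4 (nat_lit 95) (nat_lit 164) (nat_lit 7) (nat_lit 10) (nat_lit 5) L1281191 (by decide +kernel)
theorem L1281193 : W_4 (nat_lit 4) (nat_lit 0xd8002c0014000000000000000000000000000) (nat_lit 0x0) (nat_lit 0x180000000000028001800080000000000000000000) := T_4 (nat_lit 113) (nat_lit 111) (nat_lit 1) (nat_lit 11) (nat_lit 6) L1281192 (by decide +kernel)
theorem L1281194 : W_4 (nat_lit 5) (nat_lit 0x58002c0014000000000000000000000000000) (nat_lit 0x0) (nat_lit 0x18000a000000028001800080000000000000000000) := T_4 (nat_lit 147) (nat_lit 145) (nat_lit 0) (nat_lit 11) (nat_lit 8) L1281193 (by decide +kernel)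
theorem L1281195 : W_4 (nat_lit 7) (nat_lit 0x58002c0004000000000000000000000000000) (nat_lit 0x0) (nat_lit 0x1a000a000000038003c000e0005000000000000000) := Q_4 (nat_lit 112) (C_4 L1281178 (C_4 L1281185 (C_4 L1281190 (C_4 L1281169 (C_4 L1281194 N_4))))) (by decide +kernel)
theorem L1281196 : W_4 (nat_lit 8) (nat_lit 0x58002c0000000000000000000000000000000) (nat_lit 0x0) (nat_lit 0x1b000a00000003c003e000f0005000000000000000) := Q_4 (nat_lit 110) (C_4 L1270865 (C_4 L1281195 N_4)) (by decide +kernel)
theorem L1281215 : W_4 (nat_lit 11) (nat_lit 0x18002c0000000000000000000000000000000) (nat_lit 0x0) (nat_lit 0xa000700038001b000e001c000fc00ff001f8005000000000000000) := Q_4 (nat_lit 146) (C_4 L627449 (C_4 L1281180 (C_4 L1281196 (C_4 L1281214 N_4)))) (by decide +kernel)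
theorem L1281216 : W_4 (nat_lit 7) (nat_lit 0x18002c0000000000000000000000000000000) (nat_lit 0x0) (nat_lit 0x200010000e002700118000800000000000000000000000000) := T_4 (nat_lit 142) (nat_lit 128) (nat_lit 1) (nat_lit 10) (nat_lit 7) L627503 (by decide +kernel)
theorem L1281217 : W_4 (nat_lit 12) (nat_lit 0x18000c0000000000000000000000000000000) (nat_lit 0x0) (nat_lit 0xa000720039001be00e701f180fc80ff001f8005000000000000000) := Q_4 (nat_lit 129) (C_4 L1260474 (C_4 L627403 (C_4 L1281215 (C_4 L1281216 N_4)))) (by decide +kernel)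
theorem L1281477 : W_4 (nat_lit 2) (nat_lit 0x3a0018002c000f000000000000000000000000000) (nat_lit 0x0) (nat_lit 0x400030000000000000000000000000000) := D_4 (nat_lit 112) (nat_lit 130) (nat_lit 113) (nat_lit 3) (nat_lit 7) (nat_lit 6) (nat_lit 1) (nat_lit 11) (nat_lit 6) (by decide +kernel)
theorem L1281478 : W_4 (nat_lit 3) (nat_lit 0x3a0018002c0007000000000000000000000000000) (nat_lit 0x0) (nat_lit 0x400038000400000000000000000000000) := T_4 (nat_lit 111) (nat_lit 94) (nat_lit 6) (nat_lit 8) (nat_lit 9) L1281477 (by decide +kernel)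
theorem L1281479 : W_4 (nat_lit 4) (nat_lit 0x3a0018000c0007000000000000000000000000000) (nat_lit 0x0) (nat_lit 0x700038000400000000000000000000000) := T_4 (nat_lit 129) (nat_lit 128) (nat_lit 0) (nat_lit 10) (nat_lit 7) L1281478 (by decide +kernel)
theorem L1281480 : W_4 (nat_lit 5) (nat_lit 0x3a0018000c0006000000000000000000000000000) (nat_lit 0x0) (nat_lit 0x700039000480000000000000000000000) := T_4 (nat_lit 108) (nat_lit 91) (nat_lit 4) (nat_lit 7) (nat_lit 9) L1281479 (by decide +kernel)
theorem L1281481 : W_4 (nat_lit 6) (nat_lit 0x380018000c0006000000000000000000000000000) (nat_lit 0x0) (nat_lit 0x6000000700039000480000000000000000000000) := T_4 (nat_lit 157) (nat_lit 158) (nat_lit 2) (nat_lit 4) (nat_lit 9) L1281480 (by decide +kernel)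
theorem L1281482 : W_4 (nat_lit 7) (nat_lit 0x300018000c0006000000000000000000000000000) (nat_lit 0x0) (nat_lit 0x10000e000000700039000480000000000000000000000) := T_4 (nat_lit 159) (nat_lit 176) (nat_lit 5) (nat_lit 7) (nat_lit 6) L1281481 (by decide +kernel)
theorem L1281483 : W_4 (nat_lit 8) (nat_lit 0x300018000c0002000000000000000000000000000) (nat_lit 0x0) (nat_lit 0x10000e00000070003d000680000000000000000000000) := T_4 (nat_lit 110) (nat_lit 93) (nat_lit 6) (nat_lit 7) (nat_lit 9) L1281482 (by decide +kernel)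
theorem L1281484 : W_4 (nat_lit 9) (nat_lit 0x100018000c0002000000000000000000000000000) (nat_lit 0x0) (nat_lit 0x50002e00000070003d000680000000000000000000000) := T_4 (nat_lit 161) (nat_lit 178) (nat_lit 7) (nat_lit 7) (nat_lit 6) L1281483 (by decide +kernel)
theorem L1281485 : W_4 (nat_lit 2) (nat_lit 0x300018002c000f000000000000000000000000000) (nat_lit 0x0) (nat_lit 0x400030000000000000000000000000000) := D_4 (nat_lit 112) (nat_lit 130) (nat_lit 113) (nat_lit 3) (nat_lit 7) (nat_lit 6) (nat_lit 1) (nat_lit 11) (nat_lit 6) (by decide +kernel)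
theorem L1281486 : W_4 (nat_lit 3) (nat_lit 0x300018002c0007000000000000000000000000000) (nat_lit 0x0) (nat_lit 0x400038000400000000000000000000000) := T_4 (nat_lit 111) (nat_lit 94) (nat_lit 6) (nat_lit 8) (nat_lit 9) L1281485 (by decide +kernel)
theorem L1281487 : W_4 (nat_lit 4) (nat_lit 0x300018000c0007000000000000000000000000000) (nat_lit 0x0) (nat_lit 0x700038000400000000000000000000000) := T_4 (nat_lit 129) (nat_lit 128) (nat_lit 0) (nat_lit 10) (nat_lit 7) L1281486 (by decide +kernel)
theorem L1281488 : W_4 (nat_lit 5) (nat_lit 0x300018000c0006000000000000000000000000000) (nat_lit 0x0) (nat_lit 0x700039000480000000000000000000000) := T_4 (nat_lit 108) (nat_lit 91) (nat_lit 4) (nat_lit 7) (nat_lit 9) L1281487 (by decide +kernel)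
theorem L1281489 : W_4 (nat_lit 6) (nat_lit 0x300018000c0002000000000000000000000000000) (nat_lit 0x0) (nat_lit 0x70003d000680000000000000000000000) := T_4 (nat_lit 110) (nat_lit 93) (nat_lit 6) (nat_lit 7) (nat_lit 9) L1281488 (by decide +kernel)
theorem L1281490 : W_4 (nat_lit 7) (nat_lit 0x100018000c0002000000000000000000000000000) (nat_lit 0x0) (nat_lit 0x40002000000070003d000680000000000000000000000) := T_4 (nat_lit 161) (nat_lit 178) (nat_lit 7) (nat_lit 7) (nat_lit 6) L1281489 (by decide +kernel)
theorem L1281491 : W_4 (nat_lit 10) (nat_lit 0x18000c0002000000000000000000000000000) (nat_lit 0x0) (nat_lit 0x50003e00640070003d000680000000000000000000000) := Q_4 (nat_lit 160) (C_4 L1255577 (C_4 L1281484 (C_4 L625704 (C_4 L1281490 N_4)))) (by decide +kernel)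
theorem L1281492 : W_4 (nat_lit 15) (nat_lit 0x18000c0000000000000000000000000000000) (nat_lit 0x0) (nat_lit 0x50013e00e70070003f001fe00fc000000000000000000) := Q_4 (nat_lit 109) (C_4 L1239006 (C_4 L1219776 (C_4 L983447 (C_4 L1281491 N_4)))) (by decide +kernel)
theorem L1281493 : W_4 (nat_lit 16) (nat_lit 0x10000c0000000000000000000000000000000) (nat_lit 0x0) (nat_lit 0xa0007a003d401be00ef01f180ffc0ffe01ff805000000000000000) := Q_4 (nat_lit 143) (C_4 L1278432 (C_4 L1278441 (C_4 L625701 (C_4 L1278443 (C_4 L1278449 (C_4 L1280016 (C_4 L1280146 (C_4 L1281217 (C_4 L1281492 N_4))))))))) (by decide +kernel)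
theorem L1281520 : W_4 (nat_lit 2) (nat_lit 0x280038000e0007800040000000000000000000000) (nat_lit 0x0) (nat_lit 0x100014000000000000000000000000000000000000000) := D_4 (nat_lit 160) (nat_lit 158) (nat_lit 176) (nat_lit 2) (nat_lit 5) (nat_lit 9) (nat_lit 5) (nat_lit 7) (nat_lit 6) (by decide +kernel)
theorem L1281521 : W_4 (nat_lit 3) (nat_lit 0x200038000e0007800040000000000000000000000) (nat_lit 0x0) (nat_lit 0x10001c000400000000000000000000000000000000000) := T_4 (nat_lit 159) (nat_lit 142) (nat_lit 4) (nat_lit 6) (nat_lit 9) L1281520 (by decide +kernel)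
theorem L1281522 : W_4 (nat_lit 4) (nat_lit 0x200038000e0007800000000000000000000000000) (nat_lit 0x0) (nat_lit 0x10001c000400000000000060000000000000000000000) := T_4 (nat_lit 90) (nat_lit 89) (nat_lit 0) (nat_lit 8) (nat_lit 6) L1281521 (by decide +kernel)
theorem L1281523 : W_4 (nat_lit 5) (nat_lit 0x200018000e0007800000000000000000000000000) (nat_lit 0x0) (nat_lit 0x10001c006400000000000060000000000000000000000) := T_4 (nat_lit 145) (nat_lit 146) (nat_lit 0) (nat_lit 10) (nat_lit 8) L1281522 (by decide +kernel)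
theorem L1281524 : W_4 (nat_lit 6) (nat_lit 0x200018000e0007000000000000000000000000000) (nat_lit 0x0) (nat_lit 0x10001c006400000000c00060000000000000000000000) := T_4 (nat_lit 107) (nat_lit 106) (nat_lit 3) (nat_lit 4) (nat_lit 6) L1281523 (by decide +kernel)
theorem L1281525 : W_4 (nat_lit 7) (nat_lit 0x18000e0007000000000000000000000000000) (nat_lit 0x0) (nat_lit 0x50003c006400000000c00060000000000000000000000) := T_4 (nat_lit 161) (nat_lit 178) (nat_lit 4) (nat_lit 8) (nat_lit 10) L1281524 (by decide +kernel)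
theorem L1281630 : W_4 (nat_lit 2) (nat_lit 0x18000e0007000000000000000000000000000) (nat_lit 0x0) (nat_lit 0x10000000000000000080004000000000000000000) := D_4 (nat_lit 91) (nat_lit 160) (nat_lit 74) (nat_lit 4) (nat_lit 7) (nat_lit 9) (nat_lit 7) (nat_lit 6) (nat_lit 4) (by decide +kernel)
theorem L1283305 : W_4 (nat_lit 9) (nat_lit 0x10000c0006000000000000000000000000000) (nat_lit 0x0) (nat_lit 0x18002c00038019c01ee0036000900000000000000) := Q_4 (nat_lit 93) (C_4 L1048930 (C_4 L1184617 (C_4 L1180552 N_4))) (by decide +kernel)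
theorem L1283306 : W_4 (nat_lit 5) (nat_lit 0x400000001c000c0006801600000000000000000000000) (nat_lit 0x0) (nat_lit 0x6000300038000400020000000000000000000000) := T_4 (nat_lit 141) (nat_lit 140) (nat_lit 2) (nat_lit 4) (nat_lit 8) L1239364 (by decide +kernel)
theorem L1283307 : W_4 (nat_lit 6) (nat_lit 0x4000000014000c0006801600000000000000000000000) (nat_lit 0x0) (nat_lit 0x16000b00038000400020000000000000000000000) := T_4 (nat_lit 143) (nat_lit 160) (nat_lit 6) (nat_lit 7) (nat_lit 9) L1283306 (by decide +kernel)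
theorem L1283308 : W_4 (nat_lit 7) (nat_lit 0x4000000014000c0006800600000000000000000000000) (nat_lit 0x0) (nat_lit 0x16000b00038000401820000000000000000000000) := T_4 (nat_lit 96) (nat_lit 95) (nat_lit 1) (nat_lit 11) (nat_lit 5) L1283307 (by decide +kernel)
theorem L1283309 : W_4 (nat_lit 8) (nat_lit 0x4000000014000c0006000600000000000000000000000) (nat_lit 0x0) (nat_lit 0x16000b00038001c01820000000000000000000000) := T_4 (nat_lit 107) (nat_lit 108) (nat_lit 2) (nat_lit 5) (nat_lit 6) L1283308 (by decide +kernel)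
theorem L1283310 : W_4 (nat_lit 9) (nat_lit 0x4000000014000c0006000200000000000000000000000) (nat_lit 0x0) (nat_lit 0x16000b00038001c01c20020000000000000000000) := T_4 (nat_lit 94) (nat_lit 77) (nat_lit 6) (nat_lit 8) (nat_lit 8) L1283309 (by decide +kernel)
theorem L1283311 : W_4 (nat_lit 10) (nat_lit 0x14000c0006000200000000000000000000000) (nat_lit 0x0) (nat_lit 0x400036000b00038001c01c20020000000000000000000) := T_4 (nat_lit 178) (nat_lit 161) (nat_lit 4) (nat_lit 8) (nat_lit 10) L1283310 (by decide +kernel)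
theorem L1283312 : W_4 (nat_lit 8) (nat_lit 0x14000c0006000200000000000000000000000) (nat_lit 0x0) (nat_lit 0x1e002b00038000001c00020000000000000000000) := T_4 (nat_lit 143) (nat_lit 160) (nat_lit 6) (nat_lit 7) (nat_lit 9) L1180889 (by decide +kernel)
theorem L1283313 : W_4 (nat_lit 10) (nat_lit 0x14000c0006000200000000000000000000000) (nat_lit 0x0) (nat_lit 0x18000c002200038001801cc0026000300000000000000) := Q_4 (nat_lit 125) (C_4 L1176968 (C_4 L175037 N_4)) (by decide +kernel)
theorem L1283314 : W_4 (nat_lit 9) (nat_lit 0x14000c0006000200000000000000000000000) (nat_lit 0x0) (nat_lit 0x10001e000b00018001801c40020000000000000000000) := T_4 (nat_lit 94) (nat_lit 77) (nat_lit 6) (nat_lit 8) (nat_lit 8) L1184291 (by decide +kernel)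
theorem L1283315 : W_4 (nat_lit 2) (nat_lit 0x100014000f0006000600000000000000000000000) (nat_lit 0x0) (nat_lit 0x1c00000000000000000000000000) := D_4 (nat_lit 107) (nat_lit 108) (nat_lit 106) (nat_lit 2) (nat_lit 5) (nat_lit 6) (nat_lit 0) (nat_lit 8) (nat_lit 7) (by decide +kernel)
theorem L1283316 : W_4 (nat_lit 3) (nat_lit 0x100014000f0006000200000000000000000000000) (nat_lit 0x0) (nat_lit 0x1c00400020000000000000000000) := T_4 (nat_lit 94) (nat_lit 77) (nat_lit 6) (nat_lit 8) (nat_lit 8) L1283315 (by decide +kernel)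
theorem L1283317 : W_4 (nat_lit 4) (nat_lit 0x100014000e0006000200000000000000000000000) (nat_lit 0x0) (nat_lit 0x18001c00400020000000000000000000) := T_4 (nat_lit 124) (nat_lit 123) (nat_lit 2) (nat_lit 4) (nat_lit 7) L1283316 (by decide +kernel)
theorem L1283318 : W_4 (nat_lit 5) (nat_lit 0x14000e0006000200000000000000000000000) (nat_lit 0x0) (nat_lit 0x10000800018001c00400020000000000000000000) := T_4 (nat_lit 160) (nat_lit 143) (nat_lit 6) (nat_lit 7) (nat_lit 9) L1283317 (by decide +kernel)
theorem L1283319 : W_4 (nat_lit 8) (nat_lit 0x14000c0006000200000000000000000000000) (nat_lit 0x0) (nat_lit 0x10001c006800038001c01c00020000000000000000000) := Q_4 (nat_lit 125) (C_4 L1158945 (C_4 L1283318 (C_4 L175037 N_4))) (by decide +kernel)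
theorem L1283320 : W_4 (nat_lit 2) (nat_lit 0x400004003e000c0006801600000000000000000000000) (nat_lit 0x0) (nat_lit 0xc000020000000000000000000000000000000) := D_4 (nat_lit 146) (nat_lit 147) (nat_lit 125) (nat_lit 0) (nat_lit 11) (nat_lit 8) (nat_lit 0) (nat_lit 10) (nat_lit 8) (by decide +kernel)
theorem L1283321 : W_4 (nat_lit 3) (nat_lit 0x400004001e000c0006801600000000000000000000000) (nat_lit 0x0) (nat_lit 0x800e000020000000000000000000000000000000) := T_4 (nat_lit 145) (nat_lit 159) (nat_lit 1) (nat_lit 9) (nat_lit 8) L1283320 (by decide +kernel)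
theorem L1283322 : W_4 (nat_lit 4) (nat_lit 0x400000001e000c0006801600000000000000000000000) (nat_lit 0x0) (nat_lit 0xe00e000020000000000000000000000000000000) := T_4 (nat_lit 158) (nat_lit 157) (nat_lit 1) (nat_lit 8) (nat_lit 8) L1283321 (by decide +kernel)
theorem L1283323 : W_4 (nat_lit 5) (nat_lit 0x400000001c000c0006801600000000000000000000000) (nat_lit 0x0) (nat_lit 0xe00e300020000000000000000000000000000000) := T_4 (nat_lit 141) (nat_lit 140) (nat_lit 2) (nat_lit 4) (nat_lit 8) L1283322 (by decide +kernel)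
theorem L1283324 : W_4 (nat_lit 6) (nat_lit 0x1c000c0006801600000000000000000000000) (nat_lit 0x0) (nat_lit 0x40002e00e300020000000000000000000000000000000) := T_4 (nat_lit 178) (nat_lit 161) (nat_lit 4) (nat_lit 8) (nat_lit 10) L1283323 (by decide +kernel)
theorem L1283325 : W_4 (nat_lit 7) (nat_lit 0x14000c0006801600000000000000000000000) (nat_lit 0x0) (nat_lit 0x40003e00eb00020000000000000000000000000000000) := T_4 (nat_lit 143) (nat_lit 160) (nat_lit 6) (nat_lit 7) (nat_lit 9) L1283324 (by decide +kernel)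
theorem L1283326 : W_4 (nat_lit 8) (nat_lit 0x14000c0006800600000000000000000000000) (nat_lit 0x0) (nat_lit 0x40003e00eb00020000001800000000000000000000000) := T_4 (nat_lit 96) (nat_lit 95) (nat_lit 1) (nat_lit 11) (nat_lit 5) L1283325 (by decide +kernel)
theorem L1283327 : W_4 (nat_lit 9) (nat_lit 0x14000c0006000600000000000000000000000) (nat_lit 0x0) (nat_lit 0x40003e00eb00020001801800000000000000000000000) := T_4 (nat_lit 107) (nat_lit 108) (nat_lit 2) (nat_lit 5) (nat_lit 6) L1283326 (by decide +kernel)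
theorem L1283328 : W_4 (nat_lit 10) (nat_lit 0x14000c0006000200000000000000000000000) (nat_lit 0x0) (nat_lit 0x40003e00eb00020001801c00020000000000000000000) := T_4 (nat_lit 94) (nat_lit 77) (nat_lit 6) (nat_lit 8) (nat_lit 8) L1283327 (by decide +kernel)
theorem L1283329 : W_4 (nat_lit 7) (nat_lit 0x4000000014000c0006000200000000000000000000000) (nat_lit 0x0) (nat_lit 0x200010001e002b00018000800000000000000000000000000) := T_4 (nat_lit 143) (nat_lit 160) (nat_lit 6) (nat_lit 7) (nat_lit 9) L1160096 (by decide +kernel)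
theorem L1283330 : W_4 (nat_lit 8) (nat_lit 0x14000c0006000200000000000000000000000) (nat_lit 0x0) (nat_lit 0x200050003e002b00018000800000000000000000000000000) := T_4 (nat_lit 178) (nat_lit 161) (nat_lit 4) (nat_lit 8) (nat_lit 10) L1283329 (by decide +kernel)
theorem L1283331 : W_4 (nat_lit 2) (nat_lit 0x400000001e000d0006800600000000000000000000000) (nat_lit 0x0) (nat_lit 0x2000020000400000000000000000000000000) := D_4 (nat_lit 125) (nat_lit 106) (nat_lit 145) (nat_lit 0) (nat_lit 8) (nat_lit 7) (nat_lit 3) (nat_lit 5) (nat_lit 7) (by decide +kernel)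
theorem L1283332 : W_4 (nat_lit 3) (nat_lit 0x400000001e000d0006000600000000000000000000000) (nat_lit 0x0) (nat_lit 0x2000020001c00000000000000000000000000) := T_4 (nat_lit 107) (nat_lit 108) (nat_lit 2) (nat_lit 5) (nat_lit 6) L1283331 (by decide +kernel)
theorem L1283333 : W_4 (nat_lit 4) (nat_lit 0x400000001e000d0006000200000000000000000000000) (nat_lit 0x0) (nat_lit 0x2000020001c00400020000000000000000000) := T_4 (nat_lit 94) (nat_lit 77) (nat_lit 6) (nat_lit 8) (nat_lit 8) L1283332 (by decide +kernel)
theorem L1283334 : W_4 (nat_lit 5) (nat_lit 0x400000001e000c0006000200000000000000000000000) (nat_lit 0x0) (nat_lit 0x2000038001c00400020000000000000000000) := T_4 (nat_lit 124) (nat_lit 123) (nat_lit 0) (nat_lit 8) (nat_lit 8) L1283333 (by decide +kernel)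
theorem L1283335 : W_4 (nat_lit 6) (nat_lit 0x1e000c0006000200000000000000000000000) (nat_lit 0x0) (nat_lit 0x400020002000038001c00400020000000000000000000) := T_4 (nat_lit 178) (nat_lit 161) (nat_lit 4) (nat_lit 8) (nat_lit 10) L1283334 (by decide +kernel)
theorem L1283336 : W_4 (nat_lit 7) (nat_lit 0x1c000c0006000200000000000000000000000) (nat_lit 0x0) (nat_lit 0x400020002300038001c00400020000000000000000000) := T_4 (nat_lit 141) (nat_lit 140) (nat_lit 2) (nat_lit 4) (nat_lit 8) L1283335 (by decide +kernel)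
theorem L1283337 : W_4 (nat_lit 8) (nat_lit 0x14000c0006000200000000000000000000000) (nat_lit 0x0) (nat_lit 0x400030002b00038001c00400020000000000000000000) := T_4 (nat_lit 143) (nat_lit 160) (nat_lit 6) (nat_lit 7) (nat_lit 9) L1283336 (by decide +kernel)
theorem L1283338 : W_4 (nat_lit 11) (nat_lit 0x10000c0006000200000000000000000000000) (nat_lit 0x0) (nat_lit 0x200058003e00ef00038001c01ce0026000300000000000000) := Q_4 (nat_lit 142) (C_4 L1283311 (C_4 L1283312 (C_4 L1283313 (C_4 L1283314 (C_4 L1283319 (C_4 L1283328 (C_4 L1283330 (C_4 L1283337 N_4)))))))) (by decide +kernel)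
theorem L1283339 : W_4 (nat_lit 12) (nat_lit 0x10000c0006000000000000000000000000000) (nat_lit 0x0) (nat_lit 0x200058003e00ef00038001c01ee0036001b00000000000000) := Q_4 (nat_lit 93) (C_4 L1048930 (C_4 L133172 (C_4 L1283338 N_4))) (by decide +kernel)
theorem L1283340 : W_4 (nat_lit 8) (nat_lit 0x18000e0006000000000000000000000000000) (nat_lit 0x0) (nat_lit 0x50003c006400000001c000e0006000100000000000000) := Q_4 (nat_lit 108) (C_4 L1281630 (C_4 L1239035 (C_4 L1281525 N_4))) (by decide +kernel)
theorem L1283532 : W_4 (nat_lit 9) (nat_lit 0x18000c0006000000000000000000000000000) (nat_lit 0x0) (nat_lit 0x50003c006400038009c000e0006000100000000000000) := Q_4 (nat_lit 125) (C_4 L1084976 (C_4 L1283340 (C_4 L1071941 N_4))) (by decide +kernel)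
theorem L1283533 : W_4 (nat_lit 8) (nat_lit 0x18000c0007000000000000000000000000000) (nat_lit 0x0) (nat_lit 0x400020000200018008c002e0014000200000000000000) := T_4 (nat_lit 178) (nat_lit 161) (nat_lit 4) (nat_lit 8) (nat_lit 10) L1279826 (by decide +kernel)
theorem L1283534 : W_4 (nat_lit 2) (nat_lit 0x18000d0007800040010000000000000000000) (nat_lit 0x0) (nat_lit 0x20008000080000000000000000000000) := D_4 (nat_lit 111) (nat_lit 91) (nat_lit 125) (nat_lit 0) (nat_lit 9) (nat_lit 6) (nat_lit 2) (nat_lit 5) (nat_lit 7) (by decide +kernel)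
theorem L1283535 : W_4 (nat_lit 3) (nat_lit 0x18000c0007800040010000000000000000000) (nat_lit 0x0) (nat_lit 0x38008000080000000000000000000000) := T_4 (nat_lit 124) (nat_lit 123) (nat_lit 1) (nat_lit 8) (nat_lit 6) L1283534 (by decide +kernel)
theorem L1283536 : W_4 (nat_lit 4) (nat_lit 0x18000c0007800000010000000000000000000) (nat_lit 0x0) (nat_lit 0x380080000e0000000000000000000000) := T_4 (nat_lit 90) (nat_lit 89) (nat_lit 0) (nat_lit 8) (nat_lit 6) L1283535 (by decide +kernel)
theorem L1283537 : W_4 (nat_lit 5) (nat_lit 0x18000c0007800000000000000000000000000) (nat_lit 0x0) (nat_lit 0x380080002e0010000000000000000000) := T_4 (nat_lit 76) (nat_lit 93) (nat_lit 5) (nat_lit 8) (nat_lit 4) L1283536 (by decide +kernel)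
theorem L1283538 : W_4 (nat_lit 6) (nat_lit 0x18000c0007000000000000000000000000000) (nat_lit 0x0) (nat_lit 0x38008c002e0010000000000000000000) := T_4 (nat_lit 107) (nat_lit 106) (nat_lit 3) (nat_lit 4) (nat_lit 6) L1283537 (by decide +kernel)
theorem L1283539 : W_4 (nat_lit 2) (nat_lit 0x4000000018000d0007800000000000000000000000000) (nat_lit 0x0) (nat_lit 0x2000020008000000000000000000000000000) := D_4 (nat_lit 125) (nat_lit 111) (nat_lit 145) (nat_lit 2) (nat_lit 5) (nat_lit 7) (nat_lit 3) (nat_lit 5) (nat_lit 7) (by decide +kernel)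
theorem L1283540 : W_4 (nat_lit 3) (nat_lit 0x4000000018000c0007800000000000000000000000000) (nat_lit 0x0) (nat_lit 0x2000038008000000000000000000000000000) := T_4 (nat_lit 124) (nat_lit 123) (nat_lit 1) (nat_lit 8) (nat_lit 6) L1283539 (by decide +kernel)
theorem L1283541 : W_4 (nat_lit 4) (nat_lit 0x4000000018000c0007000000000000000000000000000) (nat_lit 0x0) (nat_lit 0x2000038008c00000000000000000000000000) := T_4 (nat_lit 107) (nat_lit 106) (nat_lit 3) (nat_lit 4) (nat_lit 6) L1283540 (by decide +kernel)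
theorem L1283542 : W_4 (nat_lit 5) (nat_lit 0x18000c0007000000000000000000000000000) (nat_lit 0x0) (nat_lit 0x400020002000038008c00000000000000000000000000) := T_4 (nat_lit 178) (nat_lit 161) (nat_lit 4) (nat_lit 8) (nat_lit 10) L1283541 (by decide +kernel)
theorem L1283543 : W_4 (nat_lit 2) (nat_lit 0x4000000018000f0007800040010000000000000000000) (nat_lit 0x0) (nat_lit 0x400000000000000002000100000000000000) := D_4 (nat_lit 73) (nat_lit 142) (nat_lit 56) (nat_lit 7) (nat_lit 5) (nat_lit 4) (nat_lit 7) (nat_lit 5) (nat_lit 3) (by decide +kernel)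
theorem L1283544 : W_4 (nat_lit 3) (nat_lit 0x4000000018000d0007800040010000000000000000000) (nat_lit 0x0) (nat_lit 0x2400020000000000002000100000000000000) := T_4 (nat_lit 125) (nat_lit 145) (nat_lit 3) (nat_lit 5) (nat_lit 7) L1283543 (by decide +kernel)
theorem L1283545 : W_4 (nat_lit 4) (nat_lit 0x18000d0007800040010000000000000000000) (nat_lit 0x0) (nat_lit 0x400020002400020000000000002000100000000000000) := T_4 (nat_lit 178) (nat_lit 161) (nat_lit 4) (nat_lit 8) (nat_lit 10) L1283544 (by decide +kernel)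
theorem L1283546 : W_4 (nat_lit 5) (nat_lit 0x18000c0007800040010000000000000000000) (nat_lit 0x0) (nat_lit 0x400020002400038000000000002000100000000000000) := T_4 (nat_lit 124) (nat_lit 123) (nat_lit 1) (nat_lit 8) (nat_lit 6) L1283545 (by decide +kernel)
theorem L1283547 : W_4 (nat_lit 6) (nat_lit 0x18000c0007800000010000000000000000000) (nat_lit 0x0) (nat_lit 0x400020002400038000000060002000100000000000000) := T_4 (nat_lit 90) (nat_lit 89) (nat_lit 0) (nat_lit 8) (nat_lit 6) L1283546 (by decide +kernel)
theorem L1283548 : W_4 (nat_lit 7) (nat_lit 0x18000c0007800000000000000000000000000) (nat_lit 0x0) (nat_lit 0x400020002400038000000260012000100000000000000) := T_4 (nat_lit 76) (nat_lit 93) (nat_lit 5) (nat_lit 8) (nat_lit 4) L1283547 (by decide +kernel)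
theorem L1283549 : W_4 (nat_lit 8) (nat_lit 0x18000c0007000000000000000000000000000) (nat_lit 0x0) (nat_lit 0x400020002400038000c00260012000100000000000000) := T_4 (nat_lit 107) (nat_lit 106) (nat_lit 3) (nat_lit 4) (nat_lit 6) L1283548 (by decide +kernel)
theorem L1283550 : W_4 (nat_lit 2) (nat_lit 0x4000000018000c000f800040010000000000000000000) (nat_lit 0x0) (nat_lit 0x20030000000000000000000000000000) := D_4 (nat_lit 112) (nat_lit 125) (nat_lit 113) (nat_lit 1) (nat_lit 10) (nat_lit 6) (nat_lit 1) (nat_lit 11) (nat_lit 6) (by decide +kernel)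
theorem L1283551 : W_4 (nat_lit 3) (nat_lit 0x4000000018000c0007800040010000000000000000000) (nat_lit 0x0) (nat_lit 0x20038000080000000000000000000000) := T_4 (nat_lit 111) (nat_lit 91) (nat_lit 0) (nat_lit 9) (nat_lit 6) L1283550 (by decide +kernel)
theorem L1283552 : W_4 (nat_lit 4) (nat_lit 0x4000000018000c0007800000010000000000000000000) (nat_lit 0x0) (nat_lit 0x200380000e0000000000000000000000) := T_4 (nat_lit 90) (nat_lit 89) (nat_lit 0) (nat_lit 8) (nat_lit 6) L1283551 (by decide +kernel)
theorem L1283553 : W_4 (nat_lit 5) (nat_lit 0x18000c0007800000010000000000000000000) (nat_lit 0x0) (nat_lit 0x4000200000000200380000e0000000000000000000000) := T_4 (nat_lit 178) (nat_lit 161) (nat_lit 4) (nat_lit 8) (nat_lit 10) L1283552 (by decide +kernel)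
theorem L1283554 : W_4 (nat_lit 6) (nat_lit 0x18000c0007000000010000000000000000000) (nat_lit 0x0) (nat_lit 0x400020000000020038c000e0000000000000000000000) := T_4 (nat_lit 107) (nat_lit 106) (nat_lit 3) (nat_lit 4) (nat_lit 6) L1283553 (by decide +kernel)
theorem L1283555 : W_4 (nat_lit 7) (nat_lit 0x18000c0007000000000000000000000000000) (nat_lit 0x0) (nat_lit 0x400020000000020038c002e0010000000000000000000) := T_4 (nat_lit 76) (nat_lit 93) (nat_lit 5) (nat_lit 8) (nat_lit 4) L1283554 (by decide +kernel)
theorem L1283556 : W_4 (nat_lit 2) (nat_lit 0x18000e0007000000000000000000000000000) (nat_lit 0x0) (nat_lit 0x2000010008000000000000000000000000000) := D_4 (nat_lit 124) (nat_lit 145) (nat_lit 111) (nat_lit 3) (nat_lit 5) (nat_lit 7) (nat_lit 2) (nat_lit 5) (nat_lit 7) (by decide +kernel)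
theorem L1283557 : W_4 (nat_lit 2) (nat_lit 0x18000e0007000000000000000000000000000) (nat_lit 0x0) (nat_lit 0x2000018000000000000000000000000000000) := D_4 (nat_lit 124) (nat_lit 145) (nat_lit 123) (nat_lit 3) (nat_lit 5) (nat_lit 7) (nat_lit 3) (nat_lit 4) (nat_lit 7) (by decide +kernel)
theorem L1283558 : W_4 (nat_lit 5) (nat_lit 0x18000c0007000000000000000000000000000) (nat_lit 0x0) (nat_lit 0x20000380180002c0014000000000000000000) := Q_4 (nat_lit 125) (C_4 L1177767 (C_4 L1283556 (C_4 L1283557 N_4))) (by decide +kernel)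
theorem L1283559 : W_4 (nat_lit 9) (nat_lit 0x18000c0006000000000000000000000000000) (nat_lit 0x0) (nat_lit 0x400020002600038039c002e0016000300000000000000) := Q_4 (nat_lit 108) (C_4 L1283533 (C_4 L1283538 (C_4 L1283542 (C_4 L1283549 (C_4 L1283555 (C_4 L1283558 N_4)))))) (by decide +kernel)
theorem L1283560 : W_4 (nat_lit 10) (nat_lit 0x10000c0006000000000000000000000000000) (nat_lit 0x0) (nat_lit 0x50003c006e00038039c002e0016000300000000000000) := Q_4 (nat_lit 143) (C_4 L1048918 (C_4 L1283532 (C_4 L1283559 N_4))) (by decide +kernel)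
theorem L1283561 : W_4 (nat_lit 13) (nat_lit 0x10000c0002000000000000000000000000000) (nat_lit 0x0) (nat_lit 0x200058003e00ef0003803dc01ee0036001b00000000000000) := Q_4 (nat_lit 110) (C_4 L1160078 (C_4 L1283305 (C_4 L337582 (C_4 L1283339 (C_4 L1283560 N_4))))) (by decide +kernel)
theorem L1283562 : W_4 (nat_lit 14) (nat_lit 0x10000c0000000000000000000000000000000) (nat_lit 0x0) (nat_lit 0x200058003e00efe003e03ff81ff003f001f00000000000000) := Q_4 (nat_lit 109) (C_4 L1283561 (C_4 L1219779 (C_4 L1178855 (C_4 L615321 (C_4 L284220 N_4))))) (by decide +kernel)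
theorem L1283564 : W_4 (nat_lit 2) (nat_lit 0x4000000018003e0012000000000000000000000000000) (nat_lit 0x0) (nat_lit 0x2000018000000000000000000000000000000) := D_4 (nat_lit 124) (nat_lit 145) (nat_lit 123) (nat_lit 3) (nat_lit 5) (nat_lit 7) (nat_lit 3) (nat_lit 4) (nat_lit 7) (by decide +kernel)
theorem L1283565 : W_4 (nat_lit 3) (nat_lit 0x4000000018003c0012000000000000000000000000000) (nat_lit 0x0) (nat_lit 0x2000038008000000000000000000000000000) := T_4 (nat_lit 125) (nat_lit 111) (nat_lit 2) (nat_lit 6) (nat_lit 7) L1283564 (by decide +kernel)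
theorem L1283566 : W_4 (nat_lit 4) (nat_lit 0x4000000018003c0002000000000000000000000000000) (nat_lit 0x0) (nat_lit 0x2000038038000000000000000000000000000) := T_4 (nat_lit 112) (nat_lit 113) (nat_lit 2) (nat_lit 7) (nat_lit 7) L1283565 (by decide +kernel)
theorem L1283567 : W_4 (nat_lit 5) (nat_lit 0x4000000018001c0002000000000000000000000000000) (nat_lit 0x0) (nat_lit 0x2000638038000000000000000000000000000) := T_4 (nat_lit 129) (nat_lit 130) (nat_lit 1) (nat_lit 11) (nat_lit 7) L1283566 (by decide +kernel)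
theorem L1283568 : W_4 (nat_lit 6) (nat_lit 0x18001c0002000000000000000000000000000) (nat_lit 0x0) (nat_lit 0x400020002000638038000000000000000000000000000) := T_4 (nat_lit 178) (nat_lit 161) (nat_lit 4) (nat_lit 8) (nat_lit 10) L1283567 (by decide +kernel)
theorem L1283569 : W_4 (nat_lit 2) (nat_lit 0x20001a001e000a000000000000000000000000000) (nat_lit 0x0) (nat_lit 0x4000400020000000000000000000) := D_4 (nat_lit 94) (nat_lit 77) (nat_lit 110) (nat_lit 5) (nat_lit 9) (nat_lit 4) (nat_lit 6) (nat_lit 8) (nat_lit 9) (by decide +kernel)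
theorem L1283570 : W_4 (nat_lit 3) (nat_lit 0x1a001e000a000000000000000000000000000) (nat_lit 0x0) (nat_lit 0x400020000000000004000400020000000000000000000) := T_4 (nat_lit 161) (nat_lit 178) (nat_lit 6) (nat_lit 8) (nat_lit 10) L1283569 (by decide +kernel)
theorem L1283571 : W_4 (nat_lit 4) (nat_lit 0x1a001e0002000000000000000000000000000) (nat_lit 0x0) (nat_lit 0x40002000000000001c000400020000000000000000000) := T_4 (nat_lit 111) (nat_lit 112) (nat_lit 2) (nat_lit 6) (nat_lit 7) L1283570 (by decide +kernel)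
theorem L1283572 : W_4 (nat_lit 5) (nat_lit 0x18001e0002000000000000000000000000000) (nat_lit 0x0) (nat_lit 0x40002000060000001c000400020000000000000000000) := T_4 (nat_lit 141) (nat_lit 142) (nat_lit 2) (nat_lit 5) (nat_lit 8) L1283571 (by decide +kernel)
theorem L1283573 : W_4 (nat_lit 6) (nat_lit 0x18001c0002000000000000000000000000000) (nat_lit 0x0) (nat_lit 0x40002000070003801c000400020000000000000000000) := Q_4 (nat_lit 125) (C_4 L1054343 (C_4 L619136 (C_4 L1283572 N_4))) (by decide +kernel)
theorem L1283574 : W_4 (nat_lit 7) (nat_lit 0x10001c0002000000000000000000000000000) (nat_lit 0x0) (nat_lit 0x400020002f0063803c000400020000000000000000000) := Q_4 (nat_lit 143) (C_4 L619145 (C_4 L1283568 (C_4 L1283573 N_4))) (by decide +kernel)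
theorem L1283575 : W_4 (nat_lit 12) (nat_lit 0x10000c0002000000000000000000000000000) (nat_lit 0x0) (nat_lit 0x50002803af80f380fdc00cc0024000200000000000000) := Q_4 (nat_lit 128) (C_4 L623020 (C_4 L1176924 (C_4 L1283563 (C_4 L1283574 (C_4 L346029 N_4))))) (by decide +kernel)
theorem L1283576 : W_4 (nat_lit 13) (nat_lit 0x10000c0000000000000000000000000000000) (nat_lit 0x0) (nat_lit 0x58002e03afe0f3e0fff81ff003f001f00000000000000) := Q_4 (nat_lit 109) (C_4 L1283575 (C_4 L1219779 (C_4 L1178855 (C_4 L615321 (C_4 L346009 N_4))))) (by decide +kernel)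
theorem L1283591 : W_4 (nat_lit 2) (nat_lit 0x4000080034001e000b000000000000000000000000000) (nat_lit 0x0) (nat_lit 0x80004000800000000000000000000000000000000000) := D_4 (nat_lit 158) (nat_lit 143) (nat_lit 175) (nat_lit 1) (nat_lit 9) (nat_lit 8) (nat_lit 5) (nat_lit 6) (nat_lit 6) (by decide +kernel)
theorem L1283592 : W_4 (nat_lit 3) (nat_lit 0x4000080034001e000a000000000000000000000000000) (nat_lit 0x0) (nat_lit 0x80004000800000001800000000000000000000000000) := T_4 (nat_lit 108) (nat_lit 107) (nat_lit 0) (nat_lit 9) (nat_lit 7) L1283591 (by decide +kernel)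
theorem L1283593 : W_4 (nat_lit 4) (nat_lit 0x4000000034001e000a000000000000000000000000000) (nat_lit 0x0) (nat_lit 0x18000c000800000001800000000000000000000000000) := T_4 (nat_lit 159) (nat_lit 176) (nat_lit 6) (nat_lit 6) (nat_lit 10) L1283592 (by decide +kernel)
theorem L1283594 : W_4 (nat_lit 5) (nat_lit 0x4000000014001e000a000000000000000000000000000) (nat_lit 0x0) (nat_lit 0x18000c006800000001800000000000000000000000000) := T_4 (nat_lit 145) (nat_lit 146) (nat_lit 3) (nat_lit 6) (nat_lit 7) L1283593 (by decide +kernel)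
theorem L1283595 : W_4 (nat_lit 6) (nat_lit 0x4000000010001e000a000000000000000000000000000) (nat_lit 0x0) (nat_lit 0x18000c006e00000001800000000000000000000000000) := T_4 (nat_lit 142) (nat_lit 141) (nat_lit 1) (nat_lit 9) (nat_lit 7) L1283594 (by decide +kernel)
theorem L1283596 : W_4 (nat_lit 7) (nat_lit 0x4000000010001c000a000000000000000000000000000) (nat_lit 0x0) (nat_lit 0x18000c006e00020011800000000000000000000000000) := T_4 (nat_lit 125) (nat_lit 112) (nat_lit 2) (nat_lit 6) (nat_lit 7) L1283595 (by decide +kernel)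
theorem L1283597 : W_4 (nat_lit 8) (nat_lit 0x10001c000a000000000000000000000000000) (nat_lit 0x0) (nat_lit 0x58002c006e00020011800000000000000000000000000) := T_4 (nat_lit 178) (nat_lit 161) (nat_lit 6) (nat_lit 8) (nat_lit 10) L1283596 (by decide +kernel)
theorem L1283598 : W_4 (nat_lit 9) (nat_lit 0x10001c0002000000000000000000000000000) (nat_lit 0x0) (nat_lit 0x5800ac00ee0002003d801c00060000000000000000000) := Q_4 (nat_lit 111) (C_4 L1115489 (C_4 L1115483 (C_4 L1115487 (C_4 L346041 (C_4 L1283597 N_4))))) (by decide +kernel)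
theorem L1283599 : W_4 (nat_lit 10) (nat_lit 0x10000c0002000000000000000000000000000) (nat_lit 0x0) (nat_lit 0x5800ac03ee00f200fd801c00060000000000000000000) := Q_4 (nat_lit 128) (C_4 L1283563 (C_4 L623020 (C_4 L1283598 (C_4 L1178863 (C_4 L623005 N_4))))) (by decide +kernel)
theorem L1283600 : W_4 (nat_lit 14) (nat_lit 0x10000c0000000000000000000000000000000) (nat_lit 0x0) (nat_lit 0x15800ac03ee00f200ff801ff00fe001f80000000000000) := Q_4 (nat_lit 109) (C_4 L1283599 (C_4 L1219779 (C_4 L1278411 (C_4 L615321 (C_4 L284220 N_4))))) (by decide +kernel)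
theorem L1283601 : W_4 (nat_lit 11) (nat_lit 0x10000e0002000000000000000000000000000) (nat_lit 0x0) (nat_lit 0x58002c006e00f0001d800c00060000000000000000000) := Q_4 (nat_lit 128) (C_4 L1239729 (C_4 L1178904 (C_4 L1117931 (C_4 L1178881 N_4)))) (by decide +kernel)
theorem L1283602 : W_4 (nat_lit 12) (nat_lit 0x10000c0002000000000000000000000000000) (nat_lit 0x0) (nat_lit 0x58002c006fe0f3e01df80c80060000000000000000000) := Q_4 (nat_lit 125) (C_4 L1283601 (C_4 L1117965 (C_4 L1221593 (C_4 L616492 N_4)))) (by decide +kernel)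
theorem L1283603 : W_4 (nat_lit 13) (nat_lit 0x10000c0000000000000000000000000000000) (nat_lit 0x0) (nat_lit 0x58002e006fe0f3e03ff81ff007f001f00000000000000) := Q_4 (nat_lit 109) (C_4 L1283602 (C_4 L1219779 (C_4 L1178855 (C_4 L615321 (C_4 L346009 N_4))))) (by decide +kernel)
theorem L1283604 : W_4 (nat_lit 18) (nat_lit 0x1000080000000000000000000000000000000) (nat_lit 0x0) (nat_lit 0xa0007a003dc01be03efe1f7e0fff8fff01ff805f80000000000000) := Q_4 (nat_lit 126) (C_4 L1159165 (C_4 L1281493 (C_4 L1176926 (C_4 L623037 (C_4 L1178872 (C_4 L1117946 (C_4 L1283562 (C_4 L1178865 (C_4 L1283576 (C_4 L1117968 (C_4 L1117977 (C_4 L1283590 (C_4 L346044 (C_4 L1283600 (C_4 L1283603 (C_4 L1178919 N_4)))))))))))))))) (by decide +kernel)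
theorem L1283605 : W_4 (nat_lit 2) (nat_lit 0x100018001f000a80000000000000000000000) (nat_lit 0x0) (nat_lit 0x40060000000000000000000000000000) := D_4 (nat_lit 113) (nat_lit 114) (nat_lit 126) (nat_lit 1) (nat_lit 12) (nat_lit 6) (nat_lit 1) (nat_lit 11) (nat_lit 6) (by decide +kernel)
theorem L1283606 : W_4 (nat_lit 3) (nat_lit 0x100018000f000a80000000000000000000000) (nat_lit 0x0) (nat_lit 0x40070001000000000000000000000000) := T_4 (nat_lit 112) (nat_lit 96) (nat_lit 2) (nat_lit 7) (nat_lit 6) L1283605 (by decide +kernel)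
theorem L1283607 : W_4 (nat_lit 4) (nat_lit 0x100018000f000a00000000000000000000000) (nat_lit 0x0) (nat_lit 0x400700010c0000000000000000000000) := T_4 (nat_lit 91) (nat_lit 90) (nat_lit 0) (nat_lit 9) (nat_lit 6) L1283606 (by decide +kernel)
theorem L1283608 : W_4 (nat_lit 5) (nat_lit 0x100018000f000200000000000000000000000) (nat_lit 0x0) (nat_lit 0x40070001cc0000000000000000000000) := T_4 (nat_lit 95) (nat_lit 94) (nat_lit 2) (nat_lit 6) (nat_lit 6) L1283607 (by decide +kernel)
theorem L1283609 : W_4 (nat_lit 6) (nat_lit 0x100008000f000200000000000000000000000) (nat_lit 0x0) (nat_lit 0x340070001cc0000000000000000000000) := T_4 (nat_lit 128) (nat_lit 129) (nat_lit 3) (nat_lit 6) (nat_lit 6) L1283608 (by decide +kernel)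
theorem L1283610 : W_4 (nat_lit 2) (nat_lit 0x100018000f000780004000000000000000000) (nat_lit 0x0) (nat_lit 0x10000800040000000000000000000000000000000) := D_4 (nat_lit 143) (nat_lit 160) (nat_lit 126) (nat_lit 5) (nat_lit 8) (nat_lit 5) (nat_lit 4) (nat_lit 7) (nat_lit 8) (by decide +kernel)
theorem L1283611 : W_4 (nat_lit 3) (nat_lit 0x100018000f000780000000000000000000000) (nat_lit 0x0) (nat_lit 0x10000800040000000000006000000000000000000) := T_4 (nat_lit 74) (nat_lit 73) (nat_lit 0) (nat_lit 9) (nat_lit 5) L1283610 (by decide +kernel)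
theorem L1283612 : W_4 (nat_lit 4) (nat_lit 0x100008000f000780000000000000000000000) (nat_lit 0x0) (nat_lit 0x10000800340000000000006000000000000000000) := T_4 (nat_lit 128) (nat_lit 129) (nat_lit 3) (nat_lit 6) (nat_lit 6) L1283611 (by decide +kernel)
theorem L1283613 : W_4 (nat_lit 5) (nat_lit 0x100008000f000700000000000000000000000) (nat_lit 0x0) (nat_lit 0x100008003400000000c0006000000000000000000) := T_4 (nat_lit 91) (nat_lit 90) (nat_lit 3) (nat_lit 5) (nat_lit 5) L1283612 (by decide +kernel)
theorem L1283614 : W_4 (nat_lit 6) (nat_lit 0x100008000f000600000000000000000000000) (nat_lit 0x0) (nat_lit 0x100008003400000001c000e000000000000000000) := T_4 (nat_lit 92) (nat_lit 75) (nat_lit 4) (nat_lit 8) (nat_lit 8) L1283613 (by decide +kernel)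
theorem L1283615 : W_4 (nat_lit 7) (nat_lit 0x100008000f000200000000000000000000000) (nat_lit 0x0) (nat_lit 0x10000800340000000dc000e000000000000000000) := T_4 (nat_lit 94) (nat_lit 95) (nat_lit 2) (nat_lit 6) (nat_lit 6) L1283614 (by decide +kernel)
theorem L1283616 : W_4 (nat_lit 2) (nat_lit 0x180008000f000b00000000000000000000000) (nat_lit 0x0) (nat_lit 0x30001000000000000000000000000) := D_4 (nat_lit 112) (nat_lit 113) (nat_lit 96) (nat_lit 0) (nat_lit 11) (nat_lit 6) (nat_lit 2) (nat_lit 7) (nat_lit 6) (by decide +kernel)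
theorem L1283617 : W_4 (nat_lit 3) (nat_lit 0x180008000f000300000000000000000000000) (nat_lit 0x0) (nat_lit 0x30001c00000000000000000000000) := T_4 (nat_lit 95) (nat_lit 94) (nat_lit 2) (nat_lit 6) (nat_lit 6) L1283616 (by decide +kernel)
theorem L1283618 : W_4 (nat_lit 4) (nat_lit 0x180008000f000200000000000000000000000) (nat_lit 0x0) (nat_lit 0x30001d00008000000000000000000) := T_4 (nat_lit 92) (nat_lit 75) (nat_lit 4) (nat_lit 8) (nat_lit 8) L1283617 (by decide +kernel)
theorem L1283619 : W_4 (nat_lit 5) (nat_lit 0x100008000f000200000000000000000000000) (nat_lit 0x0) (nat_lit 0x10000800000030001d00008000000000000000000) := T_4 (nat_lit 143) (nat_lit 160) (nat_lit 5) (nat_lit 8) (nat_lit 5) L1283618 (by decide +kernel)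
theorem L1283620 : W_4 (nat_lit 8) (nat_lit 0x1000080007000200000000000000000000000) (nat_lit 0x0) (nat_lit 0x10000800340078001dc000e000000000000000000) := Q_4 (nat_lit 111) (C_4 L1048601 (C_4 L1283609 (C_4 L1283615 (C_4 L1283619 N_4)))) (by decide +kernel)
theorem L1283621 : W_4 (nat_lit 9) (nat_lit 0x1000080006000200000000000000000000000) (nat_lit 0x0) (nat_lit 0x1000080035c079c01df000e000000000000000000) := Q_4 (nat_lit 108) (C_4 L1048599 (C_4 L1187006 (C_4 L1283620 N_4))) (by decide +kernel)
theorem L1283648 : W_4 (nat_lit 2) (nat_lit 0x1c001c0007000780000000000000000000000) (nat_lit 0x0) (nat_lit 0x18000040000000000000000000000) := D_4 (nat_lit 111) (nat_lit 112) (nat_lit 90) (nat_lit 3) (nat_lit 6) (nat_lit 5) (nat_lit 3) (nat_lit 5) (nat_lit 5) (by decide +kernel)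
theorem L1283649 : W_4 (nat_lit 3) (nat_lit 0x1c001c0007000700000000000000000000000) (nat_lit 0x0) (nat_lit 0x180000c0004000000000000000000) := T_4 (nat_lit 91) (nat_lit 74) (nat_lit 4) (nat_lit 7) (nat_lit 8) L1283648 (by decide +kernel)
theorem L1283650 : W_4 (nat_lit 4) (nat_lit 0x1c00180007000700000000000000000000000) (nat_lit 0x0) (nat_lit 0x80000000400180000c0004000000000000000000) := T_4 (nat_lit 126) (nat_lit 159) (nat_lit 5) (nat_lit 7) (nat_lit 5) L1283649 (by decide +kernel)
theorem L1283651 : W_4 (nat_lit 5) (nat_lit 0x1800180007000700000000000000000000000) (nat_lit 0x0) (nat_lit 0x80006000400180000c0004000000000000000000) := T_4 (nat_lit 142) (nat_lit 141) (nat_lit 2) (nat_lit 5) (nat_lit 8) L1283650 (by decide +kernel)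
theorem L1283652 : W_4 (nat_lit 6) (nat_lit 0x1000180007000700000000000000000000000) (nat_lit 0x0) (nat_lit 0x18000e000400180000c0004000000000000000000) := T_4 (nat_lit 143) (nat_lit 160) (nat_lit 5) (nat_lit 8) (nat_lit 5) L1283651 (by decide +kernel)
theorem L1283653 : W_4 (nat_lit 7) (nat_lit 0x1000180007000600000000000000000000000) (nat_lit 0x0) (nat_lit 0x18000e000400180001c000c000000000000000000) := T_4 (nat_lit 92) (nat_lit 75) (nat_lit 4) (nat_lit 8) (nat_lit 8) L1283652 (by decide +kernel)
theorem L1283654 : W_4 (nat_lit 8) (nat_lit 0x1000180007000200000000000000000000000) (nat_lit 0x0) (nat_lit 0x18000e000400180005c002c000000000000000000) := T_4 (nat_lit 94) (nat_lit 77) (nat_lit 6) (nat_lit 8) (nat_lit 8) L1283653 (by decide +kernel)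
theorem L1283655 : W_4 (nat_lit 9) (nat_lit 0x1000080007000200000000000000000000000) (nat_lit 0x0) (nat_lit 0x18002e007400180005c002c000000000000000000) := Q_4 (nat_lit 128) (C_4 L76924 (C_4 L1187067 (C_4 L1283654 N_4))) (by decide +kernel)
theorem L1283656 : W_4 (nat_lit 10) (nat_lit 0x1000080006000200000000000000000000000) (nat_lit 0x0) (nat_lit 0x18002e0075c019c005f002c000000000000000000) := Q_4 (nat_lit 108) (C_4 L1048599 (C_4 L1187006 (C_4 L1283655 N_4))) (by decide +kernel)
theorem L1283667 : W_4 (nat_lit 11) (nat_lit 0x1000080004000200000000000000000000000) (nat_lit 0x0) (nat_lit 0x18002e0075c07bc01df00ef000000000000000000) := Q_4 (nat_lit 109) (C_4 L1187005 (C_4 L66124 (C_4 L1048589 (C_4 L1283621 (C_4 L1283656 (C_4 L1283666 N_4)))))) (by decide +kernel)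
theorem L1283668 : W_4 (nat_lit 16) (nat_lit 0x1000080004000000000000000000000000000) (nat_lit 0x0) (nat_lit 0x1800ae0075c07be03ff01ff801c000e0007000280) := Q_4 (nat_lit 93) (C_4 L1186276 (C_4 L1187128 (C_4 L1048870 (C_4 L234 (C_4 L1186996 (C_4 L1283667 N_4)))))) (by decide +kernel)
theorem L1283669 : W_4 (nat_lit 14) (nat_lit 0x1000080004000000000000000000000000000) (nat_lit 0x0) (nat_lit 0x28001c003e001b803ee00f5c0fbc03de00c0006000000000000000) := Q_4 (nat_lit 161) (C_4 L1204728 (C_4 L1204735 (C_4 L1193354 (C_4 L1134404 (C_4 L1185064 (C_4 L1048908 N_4)))))) (by decide +kernel)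
theorem L1283670 : W_4 (nat_lit 18) (nat_lit 0x1000080000000000000000000000000000000) (nat_lit 0x0) (nat_lit 0x28001c003e003b803ee01f5c0ffe07ff01ff81fc000e0007000280) := Q_4 (nat_lit 110) (C_4 L1204744 (C_4 L1204852 (C_4 L1186986 (C_4 L1283668 (C_4 L1283669 (C_4 L1190136 (C_4 L1158878 N_4))))))) (by decide +kernel)
theorem L1283698 : W_4 (nat_lit 3) (nat_lit 0x10001c0008000000020000000000000000000) (nat_lit 0x0) (nat_lit 0x20074000000000000000000000000000) := T_4 (nat_lit 112) (nat_lit 125) (nat_lit 2) (nat_lit 6) (nat_lit 7) L527709 (by decide +kernel)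
theorem L1283699 : W_4 (nat_lit 4) (nat_lit 0x10001c0008000000000000000000000000000) (nat_lit 0x0) (nat_lit 0x20074000400020000000000000000000) := T_4 (nat_lit 77) (nat_lit 94) (nat_lit 5) (nat_lit 9) (nat_lit 4) L1283698 (by decide +kernel)
theorem L1283737 : W_4 (nat_lit 2) (nat_lit 0x30001c0028001e00000000000000000000000) (nat_lit 0x0) (nat_lit 0x6002000000000000000000000000) := D_4 (nat_lit 110) (nat_lit 109) (nat_lit 97) (nat_lit 1) (nat_lit 11) (nat_lit 5) (nat_lit 1) (nat_lit 12) (nat_lit 5) (by decide +kernel)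
theorem L1283738 : W_4 (nat_lit 3) (nat_lit 0x30001c0028000e00000000000000000000000) (nat_lit 0x0) (nat_lit 0x46003000000000000000000000000) := T_4 (nat_lit 96) (nat_lit 114) (nat_lit 3) (nat_lit 8) (nat_lit 5) L1283737 (by decide +kernel)
theorem L1283739 : W_4 (nat_lit 4) (nat_lit 0x30001c0028000c00000000000000000000000) (nat_lit 0x0) (nat_lit 0x46003200010000000000000000000) := T_4 (nat_lit 93) (nat_lit 76) (nat_lit 4) (nat_lit 9) (nat_lit 8) L1283738 (by decide +kernel)
theorem L1283740 : W_4 (nat_lit 5) (nat_lit 0x30001c0028000400000000000000000000000) (nat_lit 0x0) (nat_lit 0x46003a00050000000000000000000) := T_4 (nat_lit 95) (nat_lit 78) (nat_lit 6) (nat_lit 9) (nat_lit 8) L1283739 (by decide +kernel)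
theorem L1283741 : W_4 (nat_lit 6) (nat_lit 0x10001c0028000400000000000000000000000) (nat_lit 0x0) (nat_lit 0x8000e000000046003a00050000000000000000000) := Q_4 (nat_lit 145) (C_4 L643842 (C_4 L1283740 N_4)) (by decide +kernel)
theorem L1283742 : W_4 (nat_lit 7) (nat_lit 0x10001c0028000000000000000000000000000) (nat_lit 0x0) (nat_lit 0x8000e000000046003e00070000000000000000000) := T_4 (nat_lit 94) (nat_lit 77) (nat_lit 5) (nat_lit 9) (nat_lit 4) L1283741 (by decide +kernel)
theorem L1283917 : W_4 (nat_lit 2) (nat_lit 0x30001c002c000e00000000000000000000000) (nat_lit 0x0) (nat_lit 0x2003000000000000000000000000) := D_4 (nat_lit 96) (nat_lit 97) (nat_lit 109) (nat_lit 1) (nat_lit 12) (nat_lit 5) (nat_lit 1) (nat_lit 11) (nat_lit 5) (by decide +kernel)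
theorem L1283918 : W_4 (nat_lit 3) (nat_lit 0x30001c0028000e00000000000000000000000) (nat_lit 0x0) (nat_lit 0x16003000000000000000000000000) := T_4 (nat_lit 110) (nat_lit 112) (nat_lit 1) (nat_lit 11) (nat_lit 6) L1283917 (by decide +kernel)
theorem L1283919 : W_4 (nat_lit 4) (nat_lit 0x30001c0028000c00000000000000000000000) (nat_lit 0x0) (nat_lit 0x16003200010000000000000000000) := T_4 (nat_lit 93) (nat_lit 76) (nat_lit 4) (nat_lit 9) (nat_lit 8) L1283918 (by decide +kernel)
theorem L1283920 : W_4 (nat_lit 5) (nat_lit 0x30001c0028000400000000000000000000000) (nat_lit 0x0) (nat_lit 0x16003a00050000000000000000000) := T_4 (nat_lit 95) (nat_lit 78) (nat_lit 6) (nat_lit 9) (nat_lit 8) L1283919 (by decide +kernel)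
theorem L1283921 : W_4 (nat_lit 6) (nat_lit 0x10001c0028000400000000000000000000000) (nat_lit 0x0) (nat_lit 0x8000e000000016003a00050000000000000000000) := Q_4 (nat_lit 145) (C_4 L643842 (C_4 L1283920 N_4)) (by decide +kernel)
theorem L1283922 : W_4 (nat_lit 7) (nat_lit 0x10001c0028000000000000000000000000000) (nat_lit 0x0) (nat_lit 0x8000e000000016003e00070000000000000000000) := T_4 (nat_lit 94) (nat_lit 77) (nat_lit 5) (nat_lit 9) (nat_lit 4) L1283921 (by decide +kernel)
theorem L1283923 : W_4 (nat_lit 8) (nat_lit 0x10001c0008000000000000000000000000000) (nat_lit 0x0) (nat_lit 0x8000e000000076003e00070000000000000000000) := Q_4 (nat_lit 113) (C_4 L643844 (C_4 L611893 (C_4 L1283742 (C_4 L1283922 N_4)))) (by decide +kernel)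
theorem L1283924 : W_4 (nat_lit 2) (nat_lit 0x80034001e000b000e00000000000000000000000) (nat_lit 0x0) (nat_lit 0x80004000800000000000000000000000000000000000) := D_4 (nat_lit 158) (nat_lit 175) (nat_lit 143) (nat_lit 5) (nat_lit 6) (nat_lit 6) (nat_lit 1) (nat_lit 9) (nat_lit 8) (by decide +kernel)
theorem L1283925 : W_4 (nat_lit 3) (nat_lit 0x34001e000b000e00000000000000000000000) (nat_lit 0x0) (nat_lit 0x18000c000800000000000000000000000000000000000) := T_4 (nat_lit 159) (nat_lit 176) (nat_lit 6) (nat_lit 6) (nat_lit 10) L1283924 (by decide +kernel)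
theorem L1283926 : W_4 (nat_lit 4) (nat_lit 0x34001e000b000c00000000000000000000000) (nat_lit 0x0) (nat_lit 0x18000c000800000000000200010000000000000000000) := T_4 (nat_lit 93) (nat_lit 76) (nat_lit 4) (nat_lit 9) (nat_lit 8) L1283925 (by decide +kernel)
theorem L1283927 : W_4 (nat_lit 5) (nat_lit 0x34001e0009000c00000000000000000000000) (nat_lit 0x0) (nat_lit 0x18000c000800000006000200010000000000000000000) := T_4 (nat_lit 109) (nat_lit 110) (nat_lit 2) (nat_lit 6) (nat_lit 6) L1283926 (by decide +kernel)
theorem L1283928 : W_4 (nat_lit 6) (nat_lit 0x34001e0009000400000000000000000000000) (nat_lit 0x0) (nat_lit 0x18000c000800000006000a00050000000000000000000) := T_4 (nat_lit 95) (nat_lit 78) (nat_lit 6) (nat_lit 9) (nat_lit 8) L1283927 (by decide +kernel)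
theorem L1283929 : W_4 (nat_lit 7) (nat_lit 0x14001e0009000400000000000000000000000) (nat_lit 0x0) (nat_lit 0x18000c006800000006000a00050000000000000000000) := T_4 (nat_lit 145) (nat_lit 146) (nat_lit 3) (nat_lit 6) (nat_lit 7) L1283928 (by decide +kernel)
theorem L1283930 : W_4 (nat_lit 8) (nat_lit 0x10001e0009000400000000000000000000000) (nat_lit 0x0) (nat_lit 0x18000c006e00000006000a00050000000000000000000) := T_4 (nat_lit 142) (nat_lit 141) (nat_lit 1) (nat_lit 9) (nat_lit 7) L1283929 (by decide +kernel)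
theorem L1283931 : W_4 (nat_lit 9) (nat_lit 0x10001e0008000400000000000000000000000) (nat_lit 0x0) (nat_lit 0x18000c006e00000007800a00050000000000000000000) := T_4 (nat_lit 108) (nat_lit 107) (nat_lit 0) (nat_lit 9) (nat_lit 7) L1283930 (by decide +kernel)
theorem L1283932 : W_4 (nat_lit 10) (nat_lit 0x10001e0008000000000000000000000000000) (nat_lit 0x0) (nat_lit 0x18000c006e00000007800e00070000000000000000000) := T_4 (nat_lit 94) (nat_lit 77) (nat_lit 5) (nat_lit 9) (nat_lit 4) L1283931 (by decide +kernel)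
theorem L1283933 : W_4 (nat_lit 11) (nat_lit 0x10001c0008000000000000000000000000000) (nat_lit 0x0) (nat_lit 0x18000c006f8003c007f00e00070000000000000000000) := Q_4 (nat_lit 125) (C_4 L822654 (C_4 L568091 (C_4 L568085 (C_4 L1283932 N_4)))) (by decide +kernel)
theorem L1283934 : W_4 (nat_lit 12) (nat_lit 0x1000180008000000000000000000000000000) (nat_lit 0x0) (nat_lit 0x18008c00ef8007c077f03e00070000000000000000000) := Q_4 (nat_lit 126) (C_4 L1283699 (C_4 L822655 (C_4 L1283923 (C_4 L1283933 N_4)))) (by decide +kernel)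
theorem L1283935 : W_4 (nat_lit 3) (nat_lit 0x4000000010001c0008000000000000000000000000000) (nat_lit 0x0) (nat_lit 0x20074000000000000000000000000000) := T_4 (nat_lit 112) (nat_lit 125) (nat_lit 2) (nat_lit 6) (nat_lit 7) L586929 (by decide +kernel)
theorem L1283936 : W_4 (nat_lit 4) (nat_lit 0x10001c0008000000000000000000000000000) (nat_lit 0x0) (nat_lit 0x400020000000020074000000000000000000000000000) := T_4 (nat_lit 178) (nat_lit 161) (nat_lit 6) (nat_lit 8) (nat_lit 10) L1283935 (by decide +kernel)
theorem L1283960 : W_4 (nat_lit 2) (nat_lit 0x10001a001c000e000000000000000000000000000) (nat_lit 0x0) (nat_lit 0x1800080000000000000000000000) := D_4 (nat_lit 108) (nat_lit 107) (nat_lit 91) (nat_lit 3) (nat_lit 5) (nat_lit 6) (nat_lit 4) (nat_lit 7) (nat_lit 9) (by decide +kernel)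
theorem L1283961 : W_4 (nat_lit 3) (nat_lit 0x10001a001c000a000000000000000000000000000) (nat_lit 0x0) (nat_lit 0x5800280000000000000000000000) := T_4 (nat_lit 110) (nat_lit 93) (nat_lit 6) (nat_lit 7) (nat_lit 9) L1283960 (by decide +kernel)
theorem L1283962 : W_4 (nat_lit 4) (nat_lit 0x100018001c000a000000000000000000000000000) (nat_lit 0x0) (nat_lit 0x600000005800280000000000000000000000) := T_4 (nat_lit 141) (nat_lit 142) (nat_lit 2) (nat_lit 5) (nat_lit 8) L1283961 (by decide +kernel)
theorem L1283963 : W_4 (nat_lit 2) (nat_lit 0x100018001c000b000000000000000000000000000) (nat_lit 0x0) (nat_lit 0x4c00000000000000000000000000) := D_4 (nat_lit 107) (nat_lit 110) (nat_lit 106) (nat_lit 3) (nat_lit 5) (nat_lit 6) (nat_lit 3) (nat_lit 4) (nat_lit 6) (by decide +kernel)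
theorem L1283964 : W_4 (nat_lit 3) (nat_lit 0x100018001c000a000000000000000000000000000) (nat_lit 0x0) (nat_lit 0x5c00080000000000000000000000) := T_4 (nat_lit 108) (nat_lit 91) (nat_lit 4) (nat_lit 7) (nat_lit 9) L1283963 (by decide +kernel)
theorem L1283965 : W_4 (nat_lit 6) (nat_lit 0x100018001c0008000000000000000000000000000) (nat_lit 0x0) (nat_lit 0x50002e000700000007c00280000000000000000000000) := Q_4 (nat_lit 109) (C_4 L1027574 (C_4 L1283962 (C_4 L1283964 N_4))) (by decide +kernel)
theorem L1283966 : W_4 (nat_lit 8) (nat_lit 0x18001c0008000000000000000000000000000) (nat_lit 0x0) (nat_lit 0xe000f0003e000700000007c00280000000000000000000000) := Q_4 (nat_lit 160) (C_4 L644067 (C_4 L1053918 (C_4 L1283965 N_4))) (by decide +kernel)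
theorem L1284329 : W_4 (nat_lit 2) (nat_lit 0x14001a0008000000000000000000000000000) (nat_lit 0x0) (nat_lit 0x200040010000000000000000000000000000) := D_4 (nat_lit 126) (nat_lit 112) (nat_lit 141) (nat_lit 2) (nat_lit 6) (nat_lit 7) (nat_lit 1) (nat_lit 9) (nat_lit 7) (by decide +kernel)
theorem L1284330 : W_4 (nat_lit 4) (nat_lit 0x40000c0014001a0009000000000000000000000000000) (nat_lit 0x0) (nat_lit 0x4000b00010000000000000800040000000000000000000000) := T_4 (nat_lit 107) (nat_lit 90) (nat_lit 4) (nat_lit 6) (nat_lit 9) L588009 (by decide +kernel)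
theorem L1284331 : W_4 (nat_lit 5) (nat_lit 0x4000080014001a0009000000000000000000000000000) (nat_lit 0x0) (nat_lit 0x4000b80014000000000000800040000000000000000000000) := T_4 (nat_lit 158) (nat_lit 175) (nat_lit 5) (nat_lit 6) (nat_lit 6) L1284330 (by decide +kernel)
theorem L1284332 : W_4 (nat_lit 6) (nat_lit 0x80014001a0009000000000000000000000000000) (nat_lit 0x0) (nat_lit 0x4000f80034000000000000800040000000000000000000000) := T_4 (nat_lit 178) (nat_lit 161) (nat_lit 6) (nat_lit 8) (nat_lit 10) L1284331 (by decide +kernel)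
theorem L1284333 : W_4 (nat_lit 7) (nat_lit 0x80014001a0008000000000000000000000000000) (nat_lit 0x0) (nat_lit 0x4000f80034000b800000018000c0002000000000000000000) := Q_4 (nat_lit 108) (C_4 L897109 (C_4 L536213 (C_4 L1284332 (C_4 L896999 N_4)))) (by decide +kernel)
theorem L1284334 : W_4 (nat_lit 2) (nat_lit 0x48000d001c001a0008000000000000000000000000000) (nat_lit 0x0) (nat_lit 0x20001000100000000000000000000000000000000000000000000) := D_4 (nat_lit 192) (nat_lit 176) (nat_lit 209) (nat_lit 5) (nat_lit 6) (nat_lit 7) (nat_lit 6) (nat_lit 5) (nat_lit 12) (by decide +kernel)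
theorem L1284335 : W_4 (nat_lit 3) (nat_lit 0x40000d001c001a0008000000000000000000000000000) (nat_lit 0x0) (nat_lit 0x20001000180000000000000001000000000000000000000000000) := T_4 (nat_lit 175) (nat_lit 108) (nat_lit 5) (nat_lit 6) (nat_lit 6) L1284334 (by decide +kernel)
theorem L1284336 : W_4 (nat_lit 4) (nat_lit 0x40000c001c001a0008000000000000000000000000000) (nat_lit 0x0) (nat_lit 0x20001000180003000000000001000000000000000000000000000) := T_4 (nat_lit 156) (nat_lit 157) (nat_lit 2) (nat_lit 3) (nat_lit 9) L1284335 (by decide +kernel)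
theorem L1284337 : W_4 (nat_lit 5) (nat_lit 0x400008001c001a0008000000000000000000000000000) (nat_lit 0x0) (nat_lit 0x20001000180007002000000001000000000000000000000000000) := T_4 (nat_lit 158) (nat_lit 145) (nat_lit 1) (nat_lit 9) (nat_lit 8) L1284336 (by decide +kernel)
theorem L1284338 : W_4 (nat_lit 6) (nat_lit 0x4000080014001a0008000000000000000000000000000) (nat_lit 0x0) (nat_lit 0x20001000180007002a00000001000000000000000000000000000) := T_4 (nat_lit 143) (nat_lit 141) (nat_lit 2) (nat_lit 5) (nat_lit 8) L1284337 (by decide +kernel)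
theorem L1284339 : W_4 (nat_lit 7) (nat_lit 0x80014001a0008000000000000000000000000000) (nat_lit 0x0) (nat_lit 0x20001000580027002a00000001000000000000000000000000000) := T_4 (nat_lit 178) (nat_lit 161) (nat_lit 6) (nat_lit 8) (nat_lit 10) L1284338 (by decide +kernel)
theorem L1284340 : W_4 (nat_lit 2) (nat_lit 0x180014001a0009000080000000000000000000000) (nat_lit 0x0) (nat_lit 0x800040002000000000000000000) := D_4 (nat_lit 90) (nat_lit 73) (nat_lit 107) (nat_lit 4) (nat_lit 6) (nat_lit 8) (nat_lit 4) (nat_lit 6) (nat_lit 9) (by decide +kernel)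
theorem L1284341 : W_4 (nat_lit 3) (nat_lit 0x180014001a0009000000000000000000000000000) (nat_lit 0x0) (nat_lit 0x8000000008000c0002000000000000000000) := T_4 (nat_lit 91) (nat_lit 143) (nat_lit 7) (nat_lit 6) (nat_lit 5) L1284340 (by decide +kernel)
theorem L1284342 : W_4 (nat_lit 4) (nat_lit 0x80014001a0009000000000000000000000000000) (nat_lit 0x0) (nat_lit 0x2000100008000000008000c0002000000000000000000) := T_4 (nat_lit 160) (nat_lit 177) (nat_lit 7) (nat_lit 6) (nat_lit 6) L1284341 (by decide +kernel)
theorem L1284343 : W_4 (nat_lit 2) (nat_lit 0x60001c0014001a0008000000000000000000000000000) (nat_lit 0x0) (nat_lit 0x1900000000000000000000000000000000000000000000) := D_4 (nat_lit 179) (nat_lit 180) (nat_lit 176) (nat_lit 0) (nat_lit 10) (nat_lit 10) (nat_lit 0) (nat_lit 9) (nat_lit 10) (by decide +kernel)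
theorem L1284344 : W_4 (nat_lit 3) (nat_lit 0x6000180014001a0008000000000000000000000000000) (nat_lit 0x0) (nat_lit 0x1900006000000000000000000000000000000000000000) := T_4 (nat_lit 158) (nat_lit 157) (nat_lit 3) (nat_lit 4) (nat_lit 9) L1284343 (by decide +kernel)
theorem L1284345 : W_4 (nat_lit 4) (nat_lit 0x6000080014001a0008000000000000000000000000000) (nat_lit 0x0) (nat_lit 0x1900016000000000001000000000000000000000000000) := T_4 (nat_lit 160) (nat_lit 108) (nat_lit 7) (nat_lit 6) (nat_lit 6) L1284344 (by decide +kernel)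
theorem L1284346 : W_4 (nat_lit 5) (nat_lit 0x2000080014001a0008000000000000000000000000000) (nat_lit 0x0) (nat_lit 0x1d00036000000000001000000000000000000000000000) := T_4 (nat_lit 178) (nat_lit 161) (nat_lit 6) (nat_lit 8) (nat_lit 10) L1284345 (by decide +kernel)
theorem L1284347 : W_4 (nat_lit 2) (nat_lit 0x2000180014001a0008000000000000000000000000000) (nat_lit 0x0) (nat_lit 0x400020000000000004000000000000000000000000000) := D_4 (nat_lit 161) (nat_lit 178) (nat_lit 110) (nat_lit 6) (nat_lit 8) (nat_lit 10) (nat_lit 5) (nat_lit 8) (nat_lit 6) (by decide +kernel)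
theorem L1284348 : W_4 (nat_lit 3) (nat_lit 0x2000080014001a0008000000000000000000000000000) (nat_lit 0x0) (nat_lit 0x400030000000000005000000000000000000000000000) := T_4 (nat_lit 160) (nat_lit 108) (nat_lit 7) (nat_lit 6) (nat_lit 6) L1284347 (by decide +kernel)
theorem L1284349 : W_4 (nat_lit 6) (nat_lit 0x80014001a0008000000000000000000000000000) (nat_lit 0x0) (nat_lit 0x80005001f80036000800000005000000000000000000000000000) := Q_4 (nat_lit 177) (C_4 L536392 (C_4 L897150 (C_4 L1284346 (C_4 L1284348 N_4)))) (by decide +kernel)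
theorem L1284350 : W_4 (nat_lit 5) (nat_lit 0x6000080014001a0009800000000000000000000000000) (nat_lit 0x0) (nat_lit 0x20007000980000000000000006000000000000000000000000000) := T_4 (nat_lit 109) (nat_lit 110) (nat_lit 3) (nat_lit 5) (nat_lit 6) L896902 (by decide +kernel)
theorem L1284351 : W_4 (nat_lit 6) (nat_lit 0x6000080014001a0009000000000000000000000000000) (nat_lit 0x0) (nat_lit 0x20007000980000000000000006800040000000000000000000000) := T_4 (nat_lit 107) (nat_lit 90) (nat_lit 4) (nat_lit 6) (nat_lit 9) L1284350 (by decide +kernel)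
theorem L1284352 : W_4 (nat_lit 7) (nat_lit 0x4000080014001a0009000000000000000000000000000) (nat_lit 0x0) (nat_lit 0x20007000b80010000000000006800040000000000000000000000) := T_4 (nat_lit 177) (nat_lit 160) (nat_lit 7) (nat_lit 6) (nat_lit 6) L1284351 (by decide +kernel)
theorem L1284353 : W_4 (nat_lit 8) (nat_lit 0x80014001a0009000000000000000000000000000) (nat_lit 0x0) (nat_lit 0x20007000f80030000000000006800040000000000000000000000) := T_4 (nat_lit 178) (nat_lit 161) (nat_lit 6) (nat_lit 8) (nat_lit 10) L1284352 (by decide +kernel)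
theorem L1284354 : W_4 (nat_lit 2) (nat_lit 0x3c0014001a000b800000000000000000000000000) (nat_lit 0x0) (nat_lit 0x300000000000080000000000000000000000) := D_4 (nat_lit 141) (nat_lit 140) (nat_lit 91) (nat_lit 0) (nat_lit 8) (nat_lit 9) (nat_lit 5) (nat_lit 6) (nat_lit 5) (by decide +kernel)
theorem L1284355 : W_4 (nat_lit 3) (nat_lit 0x380014001a000b800000000000000000000000000) (nat_lit 0x0) (nat_lit 0x4002300000000000080000000000000000000000) := T_4 (nat_lit 158) (nat_lit 145) (nat_lit 2) (nat_lit 5) (nat_lit 9) L1284354 (by decide +kernel)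
theorem L1284356 : W_4 (nat_lit 4) (nat_lit 0x380014001a0009800000000000000000000000000) (nat_lit 0x0) (nat_lit 0x4002300000006000080000000000000000000000) := T_4 (nat_lit 109) (nat_lit 110) (nat_lit 3) (nat_lit 5) (nat_lit 6) L1284355 (by decide +kernel)
theorem L1284357 : W_4 (nat_lit 5) (nat_lit 0x380014001a0009000000000000000000000000000) (nat_lit 0x0) (nat_lit 0x40023000000068000c0000000000000000000000) := T_4 (nat_lit 107) (nat_lit 90) (nat_lit 4) (nat_lit 6) (nat_lit 9) L1284356 (by decide +kernel)
theorem L1284358 : W_4 (nat_lit 6) (nat_lit 0x180014001a0009000000000000000000000000000) (nat_lit 0x0) (nat_lit 0x4000240023000000068000c0000000000000000000000) := T_4 (nat_lit 161) (nat_lit 178) (nat_lit 6) (nat_lit 8) (nat_lit 10) L1284357 (by decide +kernel)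
theorem L1284359 : W_4 (nat_lit 7) (nat_lit 0x80014001a0009000000000000000000000000000) (nat_lit 0x0) (nat_lit 0x6000340023000000068000c0000000000000000000000) := T_4 (nat_lit 160) (nat_lit 177) (nat_lit 7) (nat_lit 6) (nat_lit 6) L1284358 (by decide +kernel)
theorem L1284360 : W_4 (nat_lit 9) (nat_lit 0x80014001a0008000000000000000000000000000) (nat_lit 0x0) (nat_lit 0x20007000f800340023000000078000c0002000000000000000000) := Q_4 (nat_lit 108) (C_4 L536213 (C_4 L1284332 (C_4 L1284353 (C_4 L587544 (C_4 L1284359 N_4))))) (by decide +kernel)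
theorem L1284361 : W_4 (nat_lit 2) (nat_lit 0x10007000080014001a0008000000000000000000000000000) (nat_lit 0x0) (nat_lit 0x20002000800000000000000000000000000000000000000000000) := D_4 (nat_lit 193) (nat_lit 179) (nat_lit 209) (nat_lit 1) (nat_lit 9) (nat_lit 10) (nat_lit 5) (nat_lit 6) (nat_lit 8) (by decide +kernel)
theorem L1284362 : W_4 (nat_lit 3) (nat_lit 0x7000080014001a0008000000000000000000000000000) (nat_lit 0x0) (nat_lit 0x20003000880000000000000000000000000000000000000000000) := T_4 (nat_lit 192) (nat_lit 175) (nat_lit 5) (nat_lit 6) (nat_lit 7) L1284361 (by decide +kernel)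
theorem L1284363 : W_4 (nat_lit 4) (nat_lit 0x6000080014001a0008000000000000000000000000000) (nat_lit 0x0) (nat_lit 0x20007000980000000000000000000000000000000000000000000) := T_4 (nat_lit 176) (nat_lit 194) (nat_lit 7) (nat_lit 6) (nat_lit 7) L1284362 (by decide +kernel)
theorem L1284364 : W_4 (nat_lit 5) (nat_lit 0x2000080014001a0008000000000000000000000000000) (nat_lit 0x0) (nat_lit 0x20007000d80020000000000000000000000000000000000000000) := T_4 (nat_lit 178) (nat_lit 161) (nat_lit 6) (nat_lit 8) (nat_lit 10) L1284363 (by decide +kernel)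
theorem L1284365 : W_4 (nat_lit 6) (nat_lit 0x80014001a0008000000000000000000000000000) (nat_lit 0x0) (nat_lit 0xa0007000f80030000800000005000000000000000000000000000) := Q_4 (nat_lit 177) (C_4 L1284364 (C_4 L897150 (C_4 L1284348 N_4))) (by decide +kernel)
theorem L1284366 : W_4 (nat_lit 10) (nat_lit 0x14001a0008000000000000000000000000000) (nat_lit 0x0) (nat_lit 0xa0007001f803bf01eb800000078000c0002000000000000000000) := Q_4 (nat_lit 159) (C_4 L897042 (C_4 L1284333 (C_4 L1284339 (C_4 L1284349 (C_4 L1284360 (C_4 L1284365 N_4)))))) (by decide +kernel)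
theorem L1284367 : W_4 (nat_lit 2) (nat_lit 0x14001a0009000000000000000000000000000) (nat_lit 0x0) (nat_lit 0x40010800000000000000000000000000) := D_4 (nat_lit 126) (nat_lit 112) (nat_lit 107) (nat_lit 2) (nat_lit 6) (nat_lit 7) (nat_lit 0) (nat_lit 9) (nat_lit 7) (by decide +kernel)
theorem L1284368 : W_4 (nat_lit 2) (nat_lit 0x40001c0014001a0009000000000000000000000000000) (nat_lit 0x0) (nat_lit 0x2000800000000000080000000000000000000000) := D_4 (nat_lit 143) (nat_lit 157) (nat_lit 91) (nat_lit 2) (nat_lit 4) (nat_lit 9) (nat_lit 7) (nat_lit 6) (nat_lit 5) (by decide +kernel)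
theorem L1284369 : W_4 (nat_lit 3) (nat_lit 0x4000180014001a0009000000000000000000000000000) (nat_lit 0x0) (nat_lit 0x80006000800000000000080000000000000000000000) := T_4 (nat_lit 158) (nat_lit 175) (nat_lit 5) (nat_lit 6) (nat_lit 6) L1284368 (by decide +kernel)
theorem L1284370 : W_4 (nat_lit 4) (nat_lit 0x4000100014001a0009000000000000000000000000000) (nat_lit 0x0) (nat_lit 0x28000e000800000000000080000000000000000000000) := T_4 (nat_lit 159) (nat_lit 177) (nat_lit 7) (nat_lit 6) (nat_lit 6) L1284369 (by decide +kernel)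
theorem L1284371 : W_4 (nat_lit 5) (nat_lit 0x100014001a0009000000000000000000000000000) (nat_lit 0x0) (nat_lit 0x68002e000800000000000080000000000000000000000) := T_4 (nat_lit 178) (nat_lit 161) (nat_lit 6) (nat_lit 8) (nat_lit 10) L1284370 (by decide +kernel)
theorem L1284372 : W_4 (nat_lit 2) (nat_lit 0x100014001a00090000c0000000000000000000000) (nat_lit 0x0) (nat_lit 0x200008000000000000800000000000000000000000000) := D_4 (nat_lit 159) (nat_lit 177) (nat_lit 107) (nat_lit 7) (nat_lit 6) (nat_lit 6) (nat_lit 4) (nat_lit 6) (nat_lit 9) (by decide +kernel)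
theorem L1284373 : W_4 (nat_lit 3) (nat_lit 0x100014001a0009000080000000000000000000000) (nat_lit 0x0) (nat_lit 0x200008000000000000800040002000000000000000000) := T_4 (nat_lit 90) (nat_lit 73) (nat_lit 4) (nat_lit 6) (nat_lit 8) L1284372 (by decide +kernel)
theorem L1284374 : W_4 (nat_lit 4) (nat_lit 0x100014001a0009000000000000000000000000000) (nat_lit 0x0) (nat_lit 0x2000080008000000008000c0002000000000000000000) := T_4 (nat_lit 91) (nat_lit 143) (nat_lit 7) (nat_lit 6) (nat_lit 5) L1284373 (by decide +kernel)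
theorem L1284375 : W_4 (nat_lit 2) (nat_lit 0x400018001c001a000d800000000000000000000000000) (nat_lit 0x0) (nat_lit 0x6002000000000000000000000000000000000000) := D_4 (nat_lit 158) (nat_lit 157) (nat_lit 145) (nat_lit 2) (nat_lit 4) (nat_lit 9) (nat_lit 1) (nat_lit 9) (nat_lit 8) (by decide +kernel)
theorem L1284376 : W_4 (nat_lit 3) (nat_lit 0x400010001c001a000d800000000000000000000000000) (nat_lit 0x0) (nat_lit 0xe002000000000000040000000000000000000000) := T_4 (nat_lit 159) (nat_lit 90) (nat_lit 4) (nat_lit 6) (nat_lit 9) L1284375 (by decide +kernel)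
theorem L1284377 : W_4 (nat_lit 4) (nat_lit 0x400010001c001a000d000000000000000000000000000) (nat_lit 0x0) (nat_lit 0xe002000000002800040000000000000000000000) := T_4 (nat_lit 107) (nat_lit 109) (nat_lit 3) (nat_lit 5) (nat_lit 6) L1284376 (by decide +kernel)
theorem L1284378 : W_4 (nat_lit 5) (nat_lit 0x400010001c001a0009000000000000000000000000000) (nat_lit 0x0) (nat_lit 0xe002000000006800240000000000000000000000) := T_4 (nat_lit 110) (nat_lit 93) (nat_lit 5) (nat_lit 8) (nat_lit 5) L1284377 (by decide +kernel)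
theorem L1284379 : W_4 (nat_lit 6) (nat_lit 0x4000100014001a0009000000000000000000000000000) (nat_lit 0x0) (nat_lit 0xe0028000000068002c0000000000000000000000) := T_4 (nat_lit 143) (nat_lit 91) (nat_lit 7) (nat_lit 6) (nat_lit 5) L1284378 (by decide +kernel)
theorem L1284380 : W_4 (nat_lit 7) (nat_lit 0x100014001a0009000000000000000000000000000) (nat_lit 0x0) (nat_lit 0x40002e0028000000068002c0000000000000000000000) := T_4 (nat_lit 178) (nat_lit 161) (nat_lit 6) (nat_lit 8) (nat_lit 10) L1284379 (by decide +kernel)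
theorem L1284381 : W_4 (nat_lit 2) (nat_lit 0x100014001a000d0000c0000000000000000000000) (nat_lit 0x0) (nat_lit 0x600020000000000000000000000000000000000000000) := D_4 (nat_lit 161) (nat_lit 178) (nat_lit 177) (nat_lit 6) (nat_lit 8) (nat_lit 10) (nat_lit 5) (nat_lit 8) (nat_lit 6) (by decide +kernel)
theorem L1284382 : W_4 (nat_lit 3) (nat_lit 0x100014001a00090000c0000000000000000000000) (nat_lit 0x0) (nat_lit 0x600020000000000006000000000000000000000000000) := T_4 (nat_lit 110) (nat_lit 109) (nat_lit 0) (nat_lit 9) (nat_lit 6) L1284381 (by decide +kernel)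
theorem L1284383 : W_4 (nat_lit 4) (nat_lit 0x100014001a0009000080000000000000000000000) (nat_lit 0x0) (nat_lit 0x600020000000000006000040002000000000000000000) := T_4 (nat_lit 90) (nat_lit 73) (nat_lit 4) (nat_lit 6) (nat_lit 8) L1284382 (by decide +kernel)
theorem L1284384 : W_4 (nat_lit 5) (nat_lit 0x100014001a0009000000000000000000000000000) (nat_lit 0x0) (nat_lit 0x6000200008000000060000c0002000000000000000000) := T_4 (nat_lit 91) (nat_lit 143) (nat_lit 7) (nat_lit 6) (nat_lit 5) L1284383 (by decide +kernel)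
theorem L1284385 : W_4 (nat_lit 2) (nat_lit 0x300014001a0009000000000000000000000000000) (nat_lit 0x0) (nat_lit 0x200008000000000004000000000000000000000000000) := D_4 (nat_lit 177) (nat_lit 159) (nat_lit 110) (nat_lit 7) (nat_lit 6) (nat_lit 6) (nat_lit 5) (nat_lit 8) (nat_lit 6) (by decide +kernel)
theorem L1284386 : W_4 (nat_lit 3) (nat_lit 0x100014001a0009000000000000000000000000000) (nat_lit 0x0) (nat_lit 0x600028000000000004000000000000000000000000000) := T_4 (nat_lit 161) (nat_lit 178) (nat_lit 6) (nat_lit 8) (nat_lit 10) L1284385 (by decide +kernel)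
theorem L1284387 : W_4 (nat_lit 8) (nat_lit 0x14001a0009000000000000000000000000000) (nat_lit 0x0) (nat_lit 0x68003e0028000000068002c0002000000000000000000) := Q_4 (nat_lit 160) (C_4 L1284371 (C_4 L1284374 (C_4 L1284380 (C_4 L1284384 (C_4 L1284386 N_4))))) (by decide +kernel)
theorem L1284388 : W_4 (nat_lit 2) (nat_lit 0x100014001e0009000000000000000000000000000) (nat_lit 0x0) (nat_lit 0x200000000800000000000080000000000000000000000) := D_4 (nat_lit 143) (nat_lit 91) (nat_lit 177) (nat_lit 7) (nat_lit 6) (nat_lit 5) (nat_lit 4) (nat_lit 7) (nat_lit 10) (by decide +kernel)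
theorem L1284389 : W_4 (nat_lit 3) (nat_lit 0x100014001a0009000000000000000000000000000) (nat_lit 0x0) (nat_lit 0x200000000800040010000080000000000000000000000) := T_4 (nat_lit 126) (nat_lit 112) (nat_lit 2) (nat_lit 6) (nat_lit 7) L1284388 (by decide +kernel)
theorem L1284390 : W_4 (nat_lit 2) (nat_lit 0x380014001e000b0000d0000000200000000000000) (nat_lit 0x0) (nat_lit 0x80004002000000000000000000000000000000000000) := D_4 (nat_lit 158) (nat_lit 175) (nat_lit 145) (nat_lit 5) (nat_lit 6) (nat_lit 6) (nat_lit 2) (nat_lit 5) (nat_lit 9) (by decide +kernel)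
theorem L1284391 : W_4 (nat_lit 3) (nat_lit 0x180014001e000b0000d0000000200000000000000) (nat_lit 0x0) (nat_lit 0x480024002000000000000000000000000000000000000) := T_4 (nat_lit 161) (nat_lit 178) (nat_lit 6) (nat_lit 8) (nat_lit 10) L1284390 (by decide +kernel)
theorem L1284392 : W_4 (nat_lit 4) (nat_lit 0x100014001e000b0000d0000000200000000000000) (nat_lit 0x0) (nat_lit 0x58002c002000000000000000000000000000000000000) := T_4 (nat_lit 159) (nat_lit 176) (nat_lit 6) (nat_lit 6) (nat_lit 10) L1284391 (by decide +kernel)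
theorem L1284393 : W_4 (nat_lit 5) (nat_lit 0x100014001e000b0000d0000000000000000000000) (nat_lit 0x0) (nat_lit 0x58002c002000000000000000004000200000000000000) := T_4 (nat_lit 57) (nat_lit 74) (nat_lit 7) (nat_lit 6) (nat_lit 3) L1284392 (by decide +kernel)
theorem L1284394 : W_4 (nat_lit 6) (nat_lit 0x100014001e000b0000c0000000000000000000000) (nat_lit 0x0) (nat_lit 0x58002c002000000000000030004000200000000000000) := T_4 (nat_lit 88) (nat_lit 89) (nat_lit 3) (nat_lit 3) (nat_lit 5) L1284393 (by decide +kernel)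
theorem L1284395 : W_4 (nat_lit 7) (nat_lit 0x100014001a000b0000c0000000000000000000000) (nat_lit 0x0) (nat_lit 0x58002c002000040010000030004000200000000000000) := T_4 (nat_lit 126) (nat_lit 112) (nat_lit 2) (nat_lit 6) (nat_lit 7) L1284394 (by decide +kernel)
theorem L1284396 : W_4 (nat_lit 8) (nat_lit 0x100014001a00090000c0000000000000000000000) (nat_lit 0x0) (nat_lit 0x58002c002000040016000030004000200000000000000) := T_4 (nat_lit 109) (nat_lit 110) (nat_lit 0) (nat_lit 9) (nat_lit 6) L1284395 (by decide +kernel)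
theorem L1284397 : W_4 (nat_lit 9) (nat_lit 0x100014001a0009000080000000000000000000000) (nat_lit 0x0) (nat_lit 0x58002c002000040016000070006000200000000000000) := T_4 (nat_lit 90) (nat_lit 73) (nat_lit 4) (nat_lit 6) (nat_lit 8) L1284396 (by decide +kernel)
theorem L1284398 : W_4 (nat_lit 10) (nat_lit 0x100014001a0009000000000000000000000000000) (nat_lit 0x0) (nat_lit 0x58002c0028000400160000f0006000200000000000000) := T_4 (nat_lit 91) (nat_lit 143) (nat_lit 7) (nat_lit 6) (nat_lit 5) L1284397 (by decide +kernel)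
theorem L1284399 : W_4 (nat_lit 11) (nat_lit 0x14001a0009000000000000000000000000000) (nat_lit 0x0) (nat_lit 0x78003c0028000400160000f0006000200000000000000) := Q_4 (nat_lit 160) (C_4 L1284386 (C_4 L1284389 (C_4 L1284398 N_4))) (by decide +kernel)
theorem L1284400 : W_4 (nat_lit 12) (nat_lit 0x14001a0008000000000000000000000000000) (nat_lit 0x0) (nat_lit 0x78003e0028000400178002f0006000200000000000000) := Q_4 (nat_lit 108) (C_4 L1284367 (C_4 L1284387 (C_4 L1284399 N_4))) (by decide +kernel)
theorem L1284401 : W_4 (nat_lit 13) (nat_lit 0x10001a0008000000000000000000000000000) (nat_lit 0x0) (nat_lit 0xa0007001f803bf01ef800400178002f0006000200000000000000) := Q_4 (nat_lit 142) (C_4 L1284329 (C_4 L1284366 (C_4 L1284400 N_4))) (by decide +kernel)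
theorem L1284402 : W_4 (nat_lit 2) (nat_lit 0x40000800fc001a0008000000000000000000000000000) (nat_lit 0x0) (nat_lit 0x380000000000000000000000000000000000000000) := D_4 (nat_lit 164) (nat_lit 163) (nat_lit 165) (nat_lit 3) (nat_lit 7) (nat_lit 8) (nat_lit 3) (nat_lit 8) (nat_lit 8) (by decide +kernel)
theorem L1284403 : W_4 (nat_lit 3) (nat_lit 0x400008007c001a0008000000000000000000000000000) (nat_lit 0x0) (nat_lit 0x380018000000000000000000000000000000000000) := T_4 (nat_lit 147) (nat_lit 148) (nat_lit 0) (nat_lit 12) (nat_lit 8) L1284402 (by decide +kernel)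
theorem L1284404 : W_4 (nat_lit 4) (nat_lit 0x400008003c001a0008000000000000000000000000000) (nat_lit 0x0) (nat_lit 0x39001c000000000000000000000000000000000000) := T_4 (nat_lit 146) (nat_lit 160) (nat_lit 1) (nat_lit 10) (nat_lit 8) L1284403 (by decide +kernel)
theorem L1284412 : W_4 (nat_lit 3) (nat_lit 0x40000c0014001a0009000000000000000000000000000) (nat_lit 0x0) (nat_lit 0x200012000800000000000080000000000000000000000) := T_4 (nat_lit 160) (nat_lit 177) (nat_lit 7) (nat_lit 6) (nat_lit 6) L1284368 (by decide +kernel)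
theorem L1284413 : W_4 (nat_lit 4) (nat_lit 0x4000080014001a0009000000000000000000000000000) (nat_lit 0x0) (nat_lit 0x280016000800000000000080000000000000000000000) := T_4 (nat_lit 158) (nat_lit 175) (nat_lit 5) (nat_lit 6) (nat_lit 6) L1284412 (by decide +kernel)
theorem L1284414 : W_4 (nat_lit 5) (nat_lit 0x80014001a0009000000000000000000000000000) (nat_lit 0x0) (nat_lit 0x680036000800000000000080000000000000000000000) := T_4 (nat_lit 178) (nat_lit 161) (nat_lit 6) (nat_lit 8) (nat_lit 10) L1284413 (by decide +kernel)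
theorem L1284423 : W_4 (nat_lit 2) (nat_lit 0x3c0014001a0009000000000000000000000000000) (nat_lit 0x0) (nat_lit 0x300000000000080000000000000000000000) := D_4 (nat_lit 141) (nat_lit 91) (nat_lit 140) (nat_lit 5) (nat_lit 6) (nat_lit 5) (nat_lit 0) (nat_lit 8) (nat_lit 9) (by decide +kernel)
theorem L1284424 : W_4 (nat_lit 3) (nat_lit 0x380014001a0009000000000000000000000000000) (nat_lit 0x0) (nat_lit 0x80004000300000000000080000000000000000000000) := T_4 (nat_lit 158) (nat_lit 175) (nat_lit 5) (nat_lit 6) (nat_lit 6) L1284423 (by decide +kernel)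
theorem L1284425 : W_4 (nat_lit 4) (nat_lit 0x180014001a0009000000000000000000000000000) (nat_lit 0x0) (nat_lit 0x480024000300000000000080000000000000000000000) := T_4 (nat_lit 161) (nat_lit 178) (nat_lit 6) (nat_lit 8) (nat_lit 10) L1284424 (by decide +kernel)
theorem L1284426 : W_4 (nat_lit 5) (nat_lit 0x80014001a0009000000000000000000000000000) (nat_lit 0x0) (nat_lit 0x680034000300000000000080000000000000000000000) := T_4 (nat_lit 160) (nat_lit 177) (nat_lit 7) (nat_lit 6) (nat_lit 6) L1284425 (by decide +kernel)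
theorem L1284450 : W_4 (nat_lit 2) (nat_lit 0x38000c0034001b0008000000000000000000000000000) (nat_lit 0x0) (nat_lit 0x400003000000000000000000000000000000000000000) := D_4 (nat_lit 157) (nat_lit 156) (nat_lit 178) (nat_lit 3) (nat_lit 3) (nat_lit 9) (nat_lit 0) (nat_lit 8) (nat_lit 10) (by decide +kernel)
theorem L1284451 : W_4 (nat_lit 3) (nat_lit 0x18000c0034001b0008000000000000000000000000000) (nat_lit 0x0) (nat_lit 0x4000600003000000000000000000000000000000000000000) := T_4 (nat_lit 177) (nat_lit 194) (nat_lit 7) (nat_lit 6) (nat_lit 7) L1284450 (by decide +kernel)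
theorem L1284452 : W_4 (nat_lit 4) (nat_lit 0x1800080034001b0008000000000000000000000000000) (nat_lit 0x0) (nat_lit 0x4000600007000000000001000000000000000000000000000) := T_4 (nat_lit 158) (nat_lit 108) (nat_lit 5) (nat_lit 6) (nat_lit 6) L1284451 (by decide +kernel)
theorem L1284453 : W_4 (nat_lit 5) (nat_lit 0x1000080034001b0008000000000000000000000000000) (nat_lit 0x0) (nat_lit 0x5000680007000000000001000000000000000000000000000) := T_4 (nat_lit 175) (nat_lit 192) (nat_lit 5) (nat_lit 6) (nat_lit 7) L1284452 (by decide +kernel)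
theorem L1284454 : W_4 (nat_lit 6) (nat_lit 0x1000080014001b0008000000000000000000000000000) (nat_lit 0x0) (nat_lit 0x5000680007002800000001000000000000000000000000000) := T_4 (nat_lit 145) (nat_lit 143) (nat_lit 0) (nat_lit 9) (nat_lit 8) L1284453 (by decide +kernel)
theorem L1284455 : W_4 (nat_lit 7) (nat_lit 0x1000080014001a0008000000000000000000000000000) (nat_lit 0x0) (nat_lit 0x5000680007002800010001800000000000000000000000000) := T_4 (nat_lit 124) (nat_lit 107) (nat_lit 4) (nat_lit 6) (nat_lit 10) L1284454 (by decide +kernel)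
theorem L1284456 : W_4 (nat_lit 5) (nat_lit 0x1000080014001a0008000000000000000000000000000) (nat_lit 0x0) (nat_lit 0x5000280004000000010001800040000000000000000000000) := T_4 (nat_lit 177) (nat_lit 194) (nat_lit 7) (nat_lit 6) (nat_lit 7) L587903 (by decide +kernel)
theorem L1284457 : W_4 (nat_lit 2) (nat_lit 0x1800080014001a0008800000000000000000000000000) (nat_lit 0x0) (nat_lit 0x4000000000001000040000000000000000000000) := D_4 (nat_lit 108) (nat_lit 158) (nat_lit 90) (nat_lit 5) (nat_lit 6) (nat_lit 6) (nat_lit 4) (nat_lit 6) (nat_lit 9) (by decide +kernel)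
theorem L1284458 : W_4 (nat_lit 3) (nat_lit 0x1000080014001a0008800000000000000000000000000) (nat_lit 0x0) (nat_lit 0x1000080004000000000001000040000000000000000000000) := T_4 (nat_lit 175) (nat_lit 192) (nat_lit 5) (nat_lit 6) (nat_lit 7) L1284457 (by decide +kernel)
theorem L1284459 : W_4 (nat_lit 4) (nat_lit 0x1000080014001a0008000000000000000000000000000) (nat_lit 0x0) (nat_lit 0x1000080004000000010001800040000000000000000000000) := T_4 (nat_lit 107) (nat_lit 124) (nat_lit 4) (nat_lit 6) (nat_lit 10) L1284458 (by decide +kernel)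
theorem L1284460 : W_4 (nat_lit 2) (nat_lit 0x30005000080014001a0008000000000000000000000000000) (nat_lit 0x0) (nat_lit 0x4000a00000000000000000000000000000000000000000000) := D_4 (nat_lit 177) (nat_lit 179) (nat_lit 194) (nat_lit 1) (nat_lit 9) (nat_lit 10) (nat_lit 7) (nat_lit 6) (nat_lit 7) (by decide +kernel)
theorem L1284461 : W_4 (nat_lit 3) (nat_lit 0x10005000080014001a0008000000000000000000000000000) (nat_lit 0x0) (nat_lit 0x20006000a00000000000000000000000000000000000000000000) := T_4 (nat_lit 193) (nat_lit 209) (nat_lit 5) (nat_lit 6) (nat_lit 8) L1284460 (by decide +kernel)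
theorem L1284462 : W_4 (nat_lit 4) (nat_lit 0x10001000080014001a0008000000000000000000000000000) (nat_lit 0x0) (nat_lit 0x20006000e00020000000000000000000000000000000000000000) := T_4 (nat_lit 178) (nat_lit 161) (nat_lit 6) (nat_lit 8) (nat_lit 10) L1284461 (by decide +kernel)
theorem L1284463 : W_4 (nat_lit 5) (nat_lit 0x1000080014001a0008000000000000000000000000000) (nat_lit 0x0) (nat_lit 0x20007000e80020000000000000000000000000000000000000000) := T_4 (nat_lit 192) (nat_lit 175) (nat_lit 5) (nat_lit 6) (nat_lit 7) L1284462 (by decide +kernel)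
theorem L1284464 : W_4 (nat_lit 2) (nat_lit 0x22001f000080034001b0008000000000000000000000000000) (nat_lit 0x0) (nat_lit 0x180004000000000000000000000000000000000000) := D_4 (nat_lit 163) (nat_lit 164) (nat_lit 146) (nat_lit 2) (nat_lit 7) (nat_lit 10) (nat_lit 4) (nat_lit 10) (nat_lit 11) (by decide +kernel)
theorem L1284465 : W_4 (nat_lit 3) (nat_lit 0x22000f000080034001b0008000000000000000000000000000) (nat_lit 0x0) (nat_lit 0x40001000180004000000000000000000000000000000000000) := T_4 (nat_lit 180) (nat_lit 198) (nat_lit 3) (nat_lit 7) (nat_lit 10) L1284464 (by decide +kernel)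
theorem L1284466 : W_4 (nat_lit 4) (nat_lit 0x2000f000080034001b0008000000000000000000000000000) (nat_lit 0x0) (nat_lit 0x70001000180004000000000000000000000000000000000000) := T_4 (nat_lit 197) (nat_lit 196) (nat_lit 3) (nat_lit 6) (nat_lit 10) L1284465 (by decide +kernel)
theorem L1284467 : W_4 (nat_lit 5) (nat_lit 0xf000080034001b0008000000000000000000000000000) (nat_lit 0x0) (nat_lit 0x73001000180004000000000000000000000000000000000000) := T_4 (nat_lit 193) (nat_lit 192) (nat_lit 1) (nat_lit 9) (nat_lit 10) L1284466 (by decide +kernel)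
theorem L1284468 : W_4 (nat_lit 6) (nat_lit 0x7000080034001b0008000000000000000000000000000) (nat_lit 0x0) (nat_lit 0x73001800184004000000000000000000000000000000000000) := T_4 (nat_lit 179) (nat_lit 158) (nat_lit 0) (nat_lit 9) (nat_lit 10) L1284467 (by decide +kernel)
theorem L1284469 : W_4 (nat_lit 7) (nat_lit 0x5000080034001b0008000000000000000000000000000) (nat_lit 0x0) (nat_lit 0x77001a00184004000000000000000000000000000000000000) := T_4 (nat_lit 177) (nat_lit 194) (nat_lit 7) (nat_lit 6) (nat_lit 7) L1284468 (by decide +kernel)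
theorem L1284470 : W_4 (nat_lit 8) (nat_lit 0x5000080014001b0008000000000000000000000000000) (nat_lit 0x0) (nat_lit 0x77001a00184006800000000000000000000000000000000000) := T_4 (nat_lit 145) (nat_lit 143) (nat_lit 0) (nat_lit 9) (nat_lit 8) L1284469 (by decide +kernel)
theorem L1284471 : W_4 (nat_lit 9) (nat_lit 0x5000080014001a0008000000000000000000000000000) (nat_lit 0x0) (nat_lit 0x77001a00184006800010000800000000000000000000000000) := T_4 (nat_lit 124) (nat_lit 107) (nat_lit 4) (nat_lit 6) (nat_lit 10) L1284470 (by decide +kernel)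
theorem L1284472 : W_4 (nat_lit 10) (nat_lit 0x1000080014001a0008000000000000000000000000000) (nat_lit 0x0) (nat_lit 0x77001e001a4006800010000800000000000000000000000000) := T_4 (nat_lit 178) (nat_lit 161) (nat_lit 6) (nat_lit 8) (nat_lit 10) L1284471 (by decide +kernel)
theorem L1284473 : W_4 (nat_lit 2) (nat_lit 0x20001f000080034001b0008000000000000000000000000000) (nat_lit 0x0) (nat_lit 0x180004000000000000000000000000000000000000) := D_4 (nat_lit 163) (nat_lit 164) (nat_lit 146) (nat_lit 2) (nat_lit 7) (nat_lit 10) (nat_lit 4) (nat_lit 10) (nat_lit 11) (by decide +kernel)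
theorem L1284474 : W_4 (nat_lit 3) (nat_lit 0x20000f000080034001b0008000000000000000000000000000) (nat_lit 0x0) (nat_lit 0x40001000180004000000000000000000000000000000000000) := T_4 (nat_lit 180) (nat_lit 198) (nat_lit 3) (nat_lit 7) (nat_lit 10) L1284473 (by decide +kernel)
theorem L1284475 : W_4 (nat_lit 4) (nat_lit 0xf000080034001b0008000000000000000000000000000) (nat_lit 0x0) (nat_lit 0x70001000180004000000000000000000000000000000000000) := T_4 (nat_lit 197) (nat_lit 196) (nat_lit 3) (nat_lit 6) (nat_lit 10) L1284474 (by decide +kernel)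
theorem L1284476 : W_4 (nat_lit 5) (nat_lit 0xf000080014001b0008000000000000000000000000000) (nat_lit 0x0) (nat_lit 0x70001000180006800000000000000000000000000000000000) := T_4 (nat_lit 145) (nat_lit 143) (nat_lit 0) (nat_lit 9) (nat_lit 8) L1284475 (by decide +kernel)
theorem L1284477 : W_4 (nat_lit 6) (nat_lit 0xf000080014001a0008000000000000000000000000000) (nat_lit 0x0) (nat_lit 0x70001000180006800010000800000000000000000000000000) := T_4 (nat_lit 124) (nat_lit 107) (nat_lit 4) (nat_lit 6) (nat_lit 10) L1284476 (by decide +kernel)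
theorem L1284478 : W_4 (nat_lit 7) (nat_lit 0x7000080014001a0008000000000000000000000000000) (nat_lit 0x0) (nat_lit 0x70001800184006800010000800000000000000000000000000) := T_4 (nat_lit 179) (nat_lit 158) (nat_lit 0) (nat_lit 9) (nat_lit 10) L1284477 (by decide +kernel)
theorem L1284479 : W_4 (nat_lit 8) (nat_lit 0x3000080014001a0008000000000000000000000000000) (nat_lit 0x0) (nat_lit 0x70001c001a4006800010000800000000000000000000000000) := T_4 (nat_lit 178) (nat_lit 161) (nat_lit 6) (nat_lit 8) (nat_lit 10) L1284478 (by decide +kernel)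
theorem L1284480 : W_4 (nat_lit 9) (nat_lit 0x1000080014001a0008000000000000000000000000000) (nat_lit 0x0) (nat_lit 0x74001e001a4006800010000800000000000000000000000000) := T_4 (nat_lit 177) (nat_lit 194) (nat_lit 7) (nat_lit 6) (nat_lit 7) L1284479 (by decide +kernel)
theorem L1284481 : W_4 (nat_lit 11) (nat_lit 0x80014001a0008000000000000000000000000000) (nat_lit 0x0) (nat_lit 0x20077001f801a7006800010001800040000000000000000000000) := Q_4 (nat_lit 176) (C_4 L536139 (C_4 L1284455 (C_4 L1284456 (C_4 L1284459 (C_4 L1284463 (C_4 L1284472 (C_4 L1284480 N_4))))))) (by decide +kernel)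
theorem L1284482 : W_4 (nat_lit 4) (nat_lit 0x1000080014001a0008000000000000000000000000000) (nat_lit 0x0) (nat_lit 0x80006000200000000200010000800000000000000000000000000) := T_4 (nat_lit 124) (nat_lit 107) (nat_lit 4) (nat_lit 6) (nat_lit 10) L587834 (by decide +kernel)
theorem L1284483 : W_4 (nat_lit 6) (nat_lit 0x80014001a0008000000000000000000000000000) (nat_lit 0x0) (nat_lit 0xa0007000f80024000200010001800040000000000000000000000) := Q_4 (nat_lit 176) (C_4 L1284463 (C_4 L1284459 (C_4 L1284482 N_4))) (by decide +kernel)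
theorem L1284484 : W_4 (nat_lit 2) (nat_lit 0x8001c001a0008000000000000000000000000000) (nat_lit 0x0) (nat_lit 0x4002000010000000000000000000000000000000) := D_4 (nat_lit 145) (nat_lit 158) (nat_lit 124) (nat_lit 1) (nat_lit 9) (nat_lit 8) (nat_lit 0) (nat_lit 9) (nat_lit 8) (by decide +kernel)
theorem L1284485 : W_4 (nat_lit 3) (nat_lit 0x80014001a0008000000000000000000000000000) (nat_lit 0x0) (nat_lit 0x4002a00010000000000000000000000000000000) := T_4 (nat_lit 143) (nat_lit 141) (nat_lit 2) (nat_lit 5) (nat_lit 8) L1284484 (by decide +kernel)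
theorem L1284486 : W_4 (nat_lit 2) (nat_lit 0x1000700008001c001b4008000000000000000000000000000) (nat_lit 0x0) (nat_lit 0x20002000800000000000000000000000000000000000000000000) := D_4 (nat_lit 193) (nat_lit 179) (nat_lit 209) (nat_lit 1) (nat_lit 9) (nat_lit 10) (nat_lit 5) (nat_lit 6) (nat_lit 8) (by decide +kernel)
theorem L1284487 : W_4 (nat_lit 3) (nat_lit 0x1000500008001c001b4008000000000000000000000000000) (nat_lit 0x0) (nat_lit 0x20006000a00000000000000000000000000000000000000000000) := T_4 (nat_lit 177) (nat_lit 194) (nat_lit 7) (nat_lit 6) (nat_lit 7) L1284486 (by decide +kernel)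
theorem L1284488 : W_4 (nat_lit 4) (nat_lit 0x500008001c001b4008000000000000000000000000000) (nat_lit 0x0) (nat_lit 0x20007000a80000000000000000000000000000000000000000000) := T_4 (nat_lit 192) (nat_lit 175) (nat_lit 5) (nat_lit 6) (nat_lit 7) L1284487 (by decide +kernel)
theorem L1284489 : W_4 (nat_lit 5) (nat_lit 0x400008001c001b4008000000000000000000000000000) (nat_lit 0x0) (nat_lit 0x20007000b80000000000000000800000000000000000000000000) := T_4 (nat_lit 176) (nat_lit 107) (nat_lit 4) (nat_lit 6) (nat_lit 10) L1284488 (by decide +kernel)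
theorem L1284490 : W_4 (nat_lit 6) (nat_lit 0x400008001c001b0008000000000000000000000000000) (nat_lit 0x0) (nat_lit 0x20007000b8000000000000c000800000000000000000000000000) := T_4 (nat_lit 122) (nat_lit 123) (nat_lit 3) (nat_lit 3) (nat_lit 7) L1284489 (by decide +kernel)
theorem L1284491 : W_4 (nat_lit 7) (nat_lit 0x400008001c001a0008000000000000000000000000000) (nat_lit 0x0) (nat_lit 0x20007000b8000000200001c000800000000000000000000000000) := T_4 (nat_lit 124) (nat_lit 145) (nat_lit 0) (nat_lit 9) (nat_lit 8) L1284490 (by decide +kernel)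
theorem L1284492 : W_4 (nat_lit 8) (nat_lit 0x8001c001a0008000000000000000000000000000) (nat_lit 0x0) (nat_lit 0x20007000f8002000200001c000800000000000000000000000000) := T_4 (nat_lit 178) (nat_lit 161) (nat_lit 6) (nat_lit 8) (nat_lit 10) L1284491 (by decide +kernel)
theorem L1284493 : W_4 (nat_lit 9) (nat_lit 0x80014001a0008000000000000000000000000000) (nat_lit 0x0) (nat_lit 0x20007000f80020002a0001c000800000000000000000000000000) := T_4 (nat_lit 143) (nat_lit 141) (nat_lit 2) (nat_lit 5) (nat_lit 8) L1284492 (by decide +kernel)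
theorem L1284503 : W_4 (nat_lit 2) (nat_lit 0x18001c001a0009000000000000000000000000000) (nat_lit 0x0) (nat_lit 0x80004002000000000000000000000000000000000000) := D_4 (nat_lit 158) (nat_lit 175) (nat_lit 145) (nat_lit 5) (nat_lit 6) (nat_lit 6) (nat_lit 1) (nat_lit 9) (nat_lit 8) (by decide +kernel)
theorem L1284504 : W_4 (nat_lit 3) (nat_lit 0x180014001a0009000000000000000000000000000) (nat_lit 0x0) (nat_lit 0x80004002800000000000080000000000000000000000) := T_4 (nat_lit 143) (nat_lit 91) (nat_lit 7) (nat_lit 6) (nat_lit 5) L1284503 (by decide +kernel)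
theorem L1284505 : W_4 (nat_lit 4) (nat_lit 0x80014001a0009000000000000000000000000000) (nat_lit 0x0) (nat_lit 0x280014002800000000000080000000000000000000000) := T_4 (nat_lit 160) (nat_lit 177) (nat_lit 7) (nat_lit 6) (nat_lit 6) L1284504 (by decide +kernel)
theorem L1284506 : W_4 (nat_lit 5) (nat_lit 0x80014001a0008000000000000000000000000000) (nat_lit 0x0) (nat_lit 0x10003800140028000100018000c0002000000000000000000) := Q_4 (nat_lit 108) (C_4 L587570 (C_4 L1284342 (C_4 L1284505 N_4))) (by decide +kernel)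
theorem L1284507 : W_4 (nat_lit 2) (nat_lit 0x8002c0034001a0008000000000000000000000000000) (nat_lit 0x0) (nat_lit 0x20001000100000000000000000000000000000000000000000000) := D_4 (nat_lit 192) (nat_lit 176) (nat_lit 209) (nat_lit 5) (nat_lit 6) (nat_lit 7) (nat_lit 6) (nat_lit 5) (nat_lit 12) (by decide +kernel)
theorem L1284508 : W_4 (nat_lit 3) (nat_lit 0x2c0034001a0008000000000000000000000000000) (nat_lit 0x0) (nat_lit 0x20001000180000000000000001000000000000000000000000000) := T_4 (nat_lit 175) (nat_lit 108) (nat_lit 5) (nat_lit 6) (nat_lit 6) L1284507 (by decide +kernel)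
theorem L1284509 : W_4 (nat_lit 4) (nat_lit 0x280034001a0008000000000000000000000000000) (nat_lit 0x0) (nat_lit 0x20001000180014000000000001000000000000000000000000000) := T_4 (nat_lit 158) (nat_lit 160) (nat_lit 2) (nat_lit 5) (nat_lit 9) L1284508 (by decide +kernel)
theorem L1284510 : W_4 (nat_lit 5) (nat_lit 0x80034001a0008000000000000000000000000000) (nat_lit 0x0) (nat_lit 0x20001000580034000000000001000000000000000000000000000) := T_4 (nat_lit 161) (nat_lit 178) (nat_lit 6) (nat_lit 8) (nat_lit 10) L1284509 (by decide +kernel)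
theorem L1284511 : W_4 (nat_lit 5) (nat_lit 0x4000080034001a0008000000000000000000000000000) (nat_lit 0x0) (nat_lit 0x39001c800010000000000000000000000000000000) := T_4 (nat_lit 143) (nat_lit 124) (nat_lit 0) (nat_lit 9) (nat_lit 8) L1284404 (by decide +kernel)
theorem L1284512 : W_4 (nat_lit 6) (nat_lit 0x80034001a0008000000000000000000000000000) (nat_lit 0x0) (nat_lit 0x4003b001c800010000000000000000000000000000000) := T_4 (nat_lit 178) (nat_lit 161) (nat_lit 6) (nat_lit 8) (nat_lit 10) L1284511 (by decide +kernel)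
theorem L1284513 : W_4 (nat_lit 7) (nat_lit 0x80014001a0008000000000000000000000000000) (nat_lit 0x0) (nat_lit 0x200010005803b401e800010001000000000000000000000000000) := Q_4 (nat_lit 145) (C_4 L900099 (C_4 L1284510 (C_4 L1284512 N_4))) (by decide +kernel)
theorem L1284514 : W_4 (nat_lit 2) (nat_lit 0x80003000500008001c001b4008000000000000000000000000000) (nat_lit 0x0) (nat_lit 0x1000040000000000010000000000000000000000000000000000000000) := D_4 (nat_lit 210) (nat_lit 160) (nat_lit 228) (nat_lit 6) (nat_lit 6) (nat_lit 12) (nat_lit 7) (nat_lit 6) (nat_lit 9) (by decide +kernel)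
theorem L1284515 : W_4 (nat_lit 3) (nat_lit 0x3000500008001c001b4008000000000000000000000000000) (nat_lit 0x0) (nat_lit 0x10000c0004000000010000000000000000000000000000000000000000) := T_4 (nat_lit 211) (nat_lit 194) (nat_lit 7) (nat_lit 6) (nat_lit 8) L1284514 (by decide +kernel)
theorem L1284516 : W_4 (nat_lit 4) (nat_lit 0x3000500008001c001b0008000000000000000000000000000) (nat_lit 0x0) (nat_lit 0x10000c000400000001000000000c000000000000000000000000000000) := T_4 (nat_lit 122) (nat_lit 123) (nat_lit 3) (nat_lit 3) (nat_lit 7) L1284515 (by decide +kernel)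
theorem L1284517 : W_4 (nat_lit 5) (nat_lit 0x1000500008001c001b0008000000000000000000000000000) (nat_lit 0x0) (nat_lit 0x10000e000600000001000000000c000000000000000000000000000000) := T_4 (nat_lit 193) (nat_lit 209) (nat_lit 5) (nat_lit 6) (nat_lit 8) L1284516 (by decide +kernel)
theorem L1284518 : W_4 (nat_lit 6) (nat_lit 0x10005000080014001b0008000000000000000000000000000) (nat_lit 0x0) (nat_lit 0x10000e000600000001000280000c000000000000000000000000000000) := T_4 (nat_lit 143) (nat_lit 145) (nat_lit 0) (nat_lit 9) (nat_lit 8) L1284517 (by decide +kernel)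
theorem L1284519 : W_4 (nat_lit 7) (nat_lit 0x10005000080014001a0008000000000000000000000000000) (nat_lit 0x0) (nat_lit 0x10000e000600000001000280001c000800000000000000000000000000) := T_4 (nat_lit 124) (nat_lit 107) (nat_lit 4) (nat_lit 6) (nat_lit 10) L1284518 (by decide +kernel)
theorem L1284520 : W_4 (nat_lit 8) (nat_lit 0x5000080014001a0008000000000000000000000000000) (nat_lit 0x0) (nat_lit 0x10000e000700008001000280001c000800000000000000000000000000) := T_4 (nat_lit 192) (nat_lit 175) (nat_lit 5) (nat_lit 6) (nat_lit 7) L1284519 (by decide +kernel)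
theorem L1284521 : W_4 (nat_lit 9) (nat_lit 0x1000080014001a0008000000000000000000000000000) (nat_lit 0x0) (nat_lit 0x10000e000700048003000280001c000800000000000000000000000000) := T_4 (nat_lit 178) (nat_lit 161) (nat_lit 6) (nat_lit 8) (nat_lit 10) L1284520 (by decide +kernel)
theorem L1284522 : W_4 (nat_lit 2) (nat_lit 0x400040006000180008001c001b0008000000000000000000000000000) (nat_lit 0x0) (nat_lit 0x8000800000000000000004000000000000000000000000000000000000000) := D_4 (nat_lit 227) (nat_lit 158) (nat_lit 243) (nat_lit 4) (nat_lit 6) (nat_lit 13) (nat_lit 5) (nat_lit 6) (nat_lit 10) (by decide +kernel)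
theorem L1284523 : W_4 (nat_lit 3) (nat_lit 0x40006000180008001c001b0008000000000000000000000000000) (nat_lit 0x0) (nat_lit 0x8000c00020000000000004000000000000000000000000000000000000000) := T_4 (nat_lit 226) (nat_lit 209) (nat_lit 5) (nat_lit 6) (nat_lit 9) L1284522 (by decide +kernel)
theorem L1284524 : W_4 (nat_lit 4) (nat_lit 0x6000180008001c001b0008000000000000000000000000000) (nat_lit 0x0) (nat_lit 0x8000c00060000000000014000000000000000000000000000000000000000) := T_4 (nat_lit 210) (nat_lit 160) (nat_lit 6) (nat_lit 6) (nat_lit 12) L1284523 (by decide +kernel)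
theorem L1284525 : W_4 (nat_lit 5) (nat_lit 0x4000180008001c001b0008000000000000000000000000000) (nat_lit 0x0) (nat_lit 0x8000c000e0002000000014000000000000000000000000000000000000000) := T_4 (nat_lit 193) (nat_lit 211) (nat_lit 7) (nat_lit 6) (nat_lit 8) L1284524 (by decide +kernel)
theorem L1284526 : W_4 (nat_lit 6) (nat_lit 0x40001800080014001b0008000000000000000000000000000) (nat_lit 0x0) (nat_lit 0x8000c000e0002000000014002800000000000000000000000000000000000) := T_4 (nat_lit 143) (nat_lit 145) (nat_lit 0) (nat_lit 9) (nat_lit 8) L1284525 (by decide +kernel)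
theorem L1284527 : W_4 (nat_lit 7) (nat_lit 0x40001800080014001a0008000000000000000000000000000) (nat_lit 0x0) (nat_lit 0x8000c000e0002000000014002800010000800000000000000000000000000) := T_4 (nat_lit 124) (nat_lit 107) (nat_lit 4) (nat_lit 6) (nat_lit 10) L1284526 (by decide +kernel)
theorem L1284528 : W_4 (nat_lit 8) (nat_lit 0x1800080014001a0008000000000000000000000000000) (nat_lit 0x0) (nat_lit 0x8000c000e0006000200014002800010000800000000000000000000000000) := T_4 (nat_lit 194) (nat_lit 177) (nat_lit 7) (nat_lit 6) (nat_lit 7) L1284527 (by decide +kernel)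
theorem L1284529 : W_4 (nat_lit 9) (nat_lit 0x1000080014001a0008000000000000000000000000000) (nat_lit 0x0) (nat_lit 0x8000c000e0007000280014002800010000800000000000000000000000000) := T_4 (nat_lit 175) (nat_lit 192) (nat_lit 5) (nat_lit 6) (nat_lit 7) L1284528 (by decide +kernel)
theorem L1284530 : W_4 (nat_lit 2) (nat_lit 0x1800380034001b0008000000000000000000000000000) (nat_lit 0x0) (nat_lit 0x240000000000000004000000000000000000000000000) := D_4 (nat_lit 177) (nat_lit 110) (nat_lit 174) (nat_lit 5) (nat_lit 8) (nat_lit 6) (nat_lit 2) (nat_lit 4) (nat_lit 10) (by decide +kernel)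
theorem L1284531 : W_4 (nat_lit 3) (nat_lit 0x1800280034001b0008000000000000000000000000000) (nat_lit 0x0) (nat_lit 0x240014000000000004000000000000000000000000000) := T_4 (nat_lit 160) (nat_lit 158) (nat_lit 2) (nat_lit 5) (nat_lit 9) L1284530 (by decide +kernel)
theorem L1284532 : W_4 (nat_lit 4) (nat_lit 0x1800280014001b0008000000000000000000000000000) (nat_lit 0x0) (nat_lit 0x240014002800000004000000000000000000000000000) := T_4 (nat_lit 145) (nat_lit 143) (nat_lit 0) (nat_lit 9) (nat_lit 8) L1284531 (by decide +kernel)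
theorem L1284533 : W_4 (nat_lit 5) (nat_lit 0x1800280014001a0008000000000000000000000000000) (nat_lit 0x0) (nat_lit 0x240014002800010004800000000000000000000000000) := T_4 (nat_lit 124) (nat_lit 107) (nat_lit 4) (nat_lit 6) (nat_lit 10) L1284532 (by decide +kernel)
theorem L1284534 : W_4 (nat_lit 6) (nat_lit 0x1000280014001a0008000000000000000000000000000) (nat_lit 0x0) (nat_lit 0x10002c0014002800010004800000000000000000000000000) := T_4 (nat_lit 175) (nat_lit 192) (nat_lit 5) (nat_lit 6) (nat_lit 7) L1284533 (by decide +kernel)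
theorem L1284535 : W_4 (nat_lit 7) (nat_lit 0x1000080014001a0008000000000000000000000000000) (nat_lit 0x0) (nat_lit 0x10006c0034002800010004800000000000000000000000000) := T_4 (nat_lit 161) (nat_lit 178) (nat_lit 6) (nat_lit 8) (nat_lit 10) L1284534 (by decide +kernel)
theorem L1284536 : W_4 (nat_lit 10) (nat_lit 0x80014001a0008000000000000000000000000000) (nat_lit 0x0) (nat_lit 0x8001c000e0077001fc01b400680001c004800000000000000000000000000) := Q_4 (nat_lit 176) (C_4 L1284463 (C_4 L1284521 (C_4 L1284529 (C_4 L1284535 (C_4 L1284480 N_4))))) (by decide +kernel)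
theorem L1284537 : W_4 (nat_lit 6) (nat_lit 0x80014001a0008000000000000000000000000000) (nat_lit 0x0) (nat_lit 0x20007000f80034000000010001800040000000000000000000000) := Q_4 (nat_lit 176) (C_4 L1284463 (C_4 L1284459 (C_4 L826637 N_4))) (by decide +kernel)
theorem L1284542 : W_4 (nat_lit 4) (nat_lit 0x4000180014001a0008000000000000000000000000000) (nat_lit 0x0) (nat_lit 0x280006000800000001000080000000000000000000000) := T_4 (nat_lit 108) (nat_lit 177) (nat_lit 7) (nat_lit 6) (nat_lit 6) L1284369 (by decide +kernel)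
theorem L1284543 : W_4 (nat_lit 5) (nat_lit 0x180014001a0008000000000000000000000000000) (nat_lit 0x0) (nat_lit 0x680026000800000001000080000000000000000000000) := T_4 (nat_lit 178) (nat_lit 161) (nat_lit 6) (nat_lit 8) (nat_lit 10) L1284542 (by decide +kernel)
theorem L1284544 : W_4 (nat_lit 4) (nat_lit 0x180014001a0008000000000000000000000000000) (nat_lit 0x0) (nat_lit 0x280004002800000001000080000000000000000000000) := T_4 (nat_lit 108) (nat_lit 177) (nat_lit 7) (nat_lit 6) (nat_lit 6) L1284504 (by decide +kernel)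
theorem L1284545 : W_4 (nat_lit 2) (nat_lit 0x3c0014001a0008000000000000000000000000000) (nat_lit 0x0) (nat_lit 0xc0000000000000001000000000000000000000000000) := D_4 (nat_lit 175) (nat_lit 108) (nat_lit 174) (nat_lit 5) (nat_lit 6) (nat_lit 6) (nat_lit 1) (nat_lit 8) (nat_lit 9) (by decide +kernel)
theorem L1284546 : W_4 (nat_lit 3) (nat_lit 0x380014001a0008000000000000000000000000000) (nat_lit 0x0) (nat_lit 0xc0004002000000001000000000000000000000000000) := T_4 (nat_lit 158) (nat_lit 145) (nat_lit 2) (nat_lit 5) (nat_lit 9) L1284545 (by decide +kernel)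
theorem L1284547 : W_4 (nat_lit 4) (nat_lit 0x180014001a0008000000000000000000000000000) (nat_lit 0x0) (nat_lit 0x4c0024002000000001000000000000000000000000000) := T_4 (nat_lit 161) (nat_lit 178) (nat_lit 6) (nat_lit 8) (nat_lit 10) L1284546 (by decide +kernel)
theorem L1284548 : W_4 (nat_lit 2) (nat_lit 0x380014001a000c000200000000000000000000000) (nat_lit 0x0) (nat_lit 0x4002000000000000000010000000000000000000) := D_4 (nat_lit 145) (nat_lit 158) (nat_lit 76) (nat_lit 2) (nat_lit 5) (nat_lit 9) (nat_lit 7) (nat_lit 8) (nat_lit 4) (by decide +kernel)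
theorem L1284549 : W_4 (nat_lit 3) (nat_lit 0x380014001a000c000000000000000000000000000) (nat_lit 0x0) (nat_lit 0x4002800000000000200010000000000000000000) := T_4 (nat_lit 93) (nat_lit 143) (nat_lit 5) (nat_lit 8) (nat_lit 5) L1284548 (by decide +kernel)
theorem L1284550 : W_4 (nat_lit 4) (nat_lit 0x380014001a0008000000000000000000000000000) (nat_lit 0x0) (nat_lit 0x200004002800000004000200010000000000000000000) := T_4 (nat_lit 110) (nat_lit 177) (nat_lit 5) (nat_lit 8) (nat_lit 6) L1284549 (by decide +kernel)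
theorem L1284551 : W_4 (nat_lit 5) (nat_lit 0x180014001a0008000000000000000000000000000) (nat_lit 0x0) (nat_lit 0x600024002800000004000200010000000000000000000) := T_4 (nat_lit 161) (nat_lit 178) (nat_lit 6) (nat_lit 8) (nat_lit 10) L1284550 (by decide +kernel)
theorem L1284552 : W_4 (nat_lit 2) (nat_lit 0x4000180014001a0009000080000000000000000000000) (nat_lit 0x0) (nat_lit 0x800040002000000000000000000) := D_4 (nat_lit 90) (nat_lit 73) (nat_lit 107) (nat_lit 4) (nat_lit 6) (nat_lit 8) (nat_lit 4) (nat_lit 6) (nat_lit 9) (by decide +kernel)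
theorem L1284553 : W_4 (nat_lit 3) (nat_lit 0x4000180014001a0009000000000000000000000000000) (nat_lit 0x0) (nat_lit 0x8000000008000c0002000000000000000000) := T_4 (nat_lit 91) (nat_lit 143) (nat_lit 7) (nat_lit 6) (nat_lit 5) L1284552 (by decide +kernel)
theorem L1284554 : W_4 (nat_lit 4) (nat_lit 0x4000180014001a0008000000000000000000000000000) (nat_lit 0x0) (nat_lit 0x2000000008000000018000c0002000000000000000000) := T_4 (nat_lit 108) (nat_lit 177) (nat_lit 7) (nat_lit 6) (nat_lit 6) L1284553 (by decide +kernel)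
theorem L1284555 : W_4 (nat_lit 5) (nat_lit 0x180014001a0008000000000000000000000000000) (nat_lit 0x0) (nat_lit 0x6000200008000000018000c0002000000000000000000) := T_4 (nat_lit 178) (nat_lit 161) (nat_lit 6) (nat_lit 8) (nat_lit 10) L1284554 (by decide +kernel)
theorem L1284556 : W_4 (nat_lit 6) (nat_lit 0x80014001a0008000000000000000000000000000) (nat_lit 0x0) (nat_lit 0x6c00360028000000058002c0012000000000000000000) := Q_4 (nat_lit 160) (C_4 L1284543 (C_4 L1284544 (C_4 L1284547 (C_4 L1284551 (C_4 L1284555 N_4))))) (by decide +kernel)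
theorem L1284557 : W_4 (nat_lit 8) (nat_lit 0x6000080014001a0008000000000000000000000000000) (nat_lit 0x0) (nat_lit 0x74001900184006800010000800000000000000000000000000) := T_4 (nat_lit 176) (nat_lit 194) (nat_lit 7) (nat_lit 6) (nat_lit 7) L1284478 (by decide +kernel)
theorem L1284558 : W_4 (nat_lit 9) (nat_lit 0x2000080014001a0008000000000000000000000000000) (nat_lit 0x0) (nat_lit 0x74001d001a4006800010000800000000000000000000000000) := T_4 (nat_lit 178) (nat_lit 161) (nat_lit 6) (nat_lit 8) (nat_lit 10) L1284557 (by decide +kernel)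
theorem L1284559 : W_4 (nat_lit 10) (nat_lit 0x80014001a0008000000000000000000000000000) (nat_lit 0x0) (nat_lit 0x80074001f001b4006800010005800000000000000000000000000) := Q_4 (nat_lit 177) (C_4 L1284348 (C_4 L1284558 (C_4 L897150 N_4))) (by decide +kernel)
theorem L1285483 : W_4 (nat_lit 2) (nat_lit 0x1000080014001a000b800000000000000000000000000) (nat_lit 0x0) (nat_lit 0x4000200010000000000000000000000000000000000000000) := D_4 (nat_lit 177) (nat_lit 160) (nat_lit 194) (nat_lit 7) (nat_lit 6) (nat_lit 6) (nat_lit 7) (nat_lit 6) (nat_lit 7) (by decide +kernel)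
theorem L1285484 : W_4 (nat_lit 3) (nat_lit 0x80014001a000b800000000000000000000000000) (nat_lit 0x0) (nat_lit 0x4000300010000000010000000000000000000000000000000) := T_4 (nat_lit 176) (nat_lit 124) (nat_lit 4) (nat_lit 6) (nat_lit 10) L1285483 (by decide +kernel)
theorem L1285485 : W_4 (nat_lit 4) (nat_lit 0x80014001a0009800000000000000000000000000) (nat_lit 0x0) (nat_lit 0x4000300010000000010006000000000000000000000000000) := T_4 (nat_lit 109) (nat_lit 110) (nat_lit 3) (nat_lit 5) (nat_lit 6) L1285484 (by decide +kernel)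
theorem L1285486 : W_4 (nat_lit 5) (nat_lit 0x80014001a0009000000000000000000000000000) (nat_lit 0x0) (nat_lit 0x4000300010000000010006800040000000000000000000000) := T_4 (nat_lit 107) (nat_lit 90) (nat_lit 4) (nat_lit 6) (nat_lit 9) L1285485 (by decide +kernel)
theorem L1285487 : W_4 (nat_lit 2) (nat_lit 0x30000c0016001a0009000000000000000000000000000) (nat_lit 0x0) (nat_lit 0x40002000000000000000010000000000000000000000000000000) := D_4 (nat_lit 193) (nat_lit 210) (nat_lit 124) (nat_lit 4) (nat_lit 6) (nat_lit 12) (nat_lit 4) (nat_lit 6) (nat_lit 11) (by decide +kernel)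
theorem L1285488 : W_4 (nat_lit 3) (nat_lit 0x20000c0016001a0009000000000000000000000000000) (nat_lit 0x0) (nat_lit 0x40006000100000000000010000000000000000000000000000000) := T_4 (nat_lit 176) (nat_lit 194) (nat_lit 7) (nat_lit 6) (nat_lit 7) L1285487 (by decide +kernel)
theorem L1285489 : W_4 (nat_lit 4) (nat_lit 0x20000c0014001a0009000000000000000000000000000) (nat_lit 0x0) (nat_lit 0x40006000100000000200010000000080000000000000000000000) := T_4 (nat_lit 141) (nat_lit 91) (nat_lit 5) (nat_lit 6) (nat_lit 5) L1285488 (by decide +kernel)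
theorem L1285490 : W_4 (nat_lit 5) (nat_lit 0x2000080014001a0009000000000000000000000000000) (nat_lit 0x0) (nat_lit 0x40006000180004000200010000000080000000000000000000000) := T_4 (nat_lit 158) (nat_lit 175) (nat_lit 5) (nat_lit 6) (nat_lit 6) L1285489 (by decide +kernel)
theorem L1285491 : W_4 (nat_lit 6) (nat_lit 0x80014001a0009000000000000000000000000000) (nat_lit 0x0) (nat_lit 0x40006000380014000200010000000080000000000000000000000) := T_4 (nat_lit 177) (nat_lit 160) (nat_lit 7) (nat_lit 6) (nat_lit 6) L1285490 (by decide +kernel)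
theorem L1285651 : W_4 (nat_lit 12) (nat_lit 0x80010001a0008000000000000000000000000000) (nat_lit 0x0) (nat_lit 0xa0077001f801a7006e0001c001800040000000000000000000000) := Q_4 (nat_lit 142) (C_4 L1284481 (C_4 L1284493 (C_4 L1284483 (C_4 L1284485 (C_4 L1284339 N_4))))) (by decide +kernel)
theorem L1285652 : W_4 (nat_lit 7) (nat_lit 0x80014001a0008000000000000000000000000000) (nat_lit 0x0) (nat_lit 0x40007000380014000a000100018000c0002000000000000000000) := Q_4 (nat_lit 108) (C_4 L1285491 (C_4 L587570 (C_4 L1284342 N_4))) (by decide +kernel)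
theorem L1285653 : W_4 (nat_lit 4) (nat_lit 0x1000080014001a0008000000000000000000000000000) (nat_lit 0x0) (nat_lit 0x5000280014000000000001000000000000000000000000000) := T_4 (nat_lit 177) (nat_lit 194) (nat_lit 7) (nat_lit 6) (nat_lit 7) L587922 (by decide +kernel)
theorem L1285654 : W_4 (nat_lit 5) (nat_lit 0x80014001a0008000000000000000000000000000) (nat_lit 0x0) (nat_lit 0x80007000380014000200010001800040000000000000000000000) := Q_4 (nat_lit 176) (C_4 L1284482 (C_4 L1284459 (C_4 L1285653 N_4))) (by decide +kernel)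
theorem L1285655 : W_4 (nat_lit 5) (nat_lit 0x8001c001a0008000000000000000000000000000) (nat_lit 0x0) (nat_lit 0x39001e000010000000000000000000000000000000) := T_4 (nat_lit 145) (nat_lit 124) (nat_lit 0) (nat_lit 9) (nat_lit 8) L867841 (by decide +kernel)
theorem L1285656 : W_4 (nat_lit 6) (nat_lit 0x80014001a0008000000000000000000000000000) (nat_lit 0x0) (nat_lit 0x39001ea00010000000000000000000000000000000) := T_4 (nat_lit 143) (nat_lit 141) (nat_lit 2) (nat_lit 5) (nat_lit 8) L1285655 (by decide +kernel)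
theorem L1285657 : W_4 (nat_lit 8) (nat_lit 0x80010001a0008000000000000000000000000000) (nat_lit 0x0) (nat_lit 0xc000700038039401ee000100018000c0002000000000000000000) := Q_4 (nat_lit 142) (C_4 L1284506 (C_4 L1285652 (C_4 L1284485 (C_4 L1285654 (C_4 L897042 (C_4 L1285656 N_4)))))) (by decide +kernel)
theorem L1285658 : W_4 (nat_lit 2) (nat_lit 0x1000500018001c001a000b800000000000000000000000000) (nat_lit 0x0) (nat_lit 0x60002000000000000000000000000000000000000000000000000) := D_4 (nat_lit 193) (nat_lit 209) (nat_lit 210) (nat_lit 5) (nat_lit 6) (nat_lit 8) (nat_lit 6) (nat_lit 6) (nat_lit 12) (by decide +kernel)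
theorem L1285659 : W_4 (nat_lit 3) (nat_lit 0x1000500008001c001a000b800000000000000000000000000) (nat_lit 0x0) (nat_lit 0x60002000000010000000000000000080000000000000000000000) := T_4 (nat_lit 160) (nat_lit 91) (nat_lit 7) (nat_lit 6) (nat_lit 5) L1285658 (by decide +kernel)
theorem L1285660 : W_4 (nat_lit 4) (nat_lit 0x500008001c001a000b800000000000000000000000000) (nat_lit 0x0) (nat_lit 0x60003000080010000000000000000080000000000000000000000) := T_4 (nat_lit 192) (nat_lit 175) (nat_lit 5) (nat_lit 6) (nat_lit 7) L1285659 (by decide +kernel)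
theorem L1285661 : W_4 (nat_lit 5) (nat_lit 0x5000080014001a000b800000000000000000000000000) (nat_lit 0x0) (nat_lit 0x60003000080010000a00000000000080000000000000000000000) := T_4 (nat_lit 143) (nat_lit 141) (nat_lit 2) (nat_lit 5) (nat_lit 8) L1285660 (by decide +kernel)
theorem L1285662 : W_4 (nat_lit 6) (nat_lit 0x4000080014001a000b800000000000000000000000000) (nat_lit 0x0) (nat_lit 0x60003000180010000a00010000000080000000000000000000000) := T_4 (nat_lit 176) (nat_lit 124) (nat_lit 4) (nat_lit 6) (nat_lit 10) L1285661 (by decide +kernel)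
theorem L1285663 : W_4 (nat_lit 7) (nat_lit 0x4000080014001a0009800000000000000000000000000) (nat_lit 0x0) (nat_lit 0x60003000180010000a00010006000080000000000000000000000) := T_4 (nat_lit 109) (nat_lit 110) (nat_lit 3) (nat_lit 5) (nat_lit 6) L1285662 (by decide +kernel)
theorem L1285664 : W_4 (nat_lit 8) (nat_lit 0x4000080014001a0009000000000000000000000000000) (nat_lit 0x0) (nat_lit 0x60003000180010000a000100068000c0000000000000000000000) := T_4 (nat_lit 107) (nat_lit 90) (nat_lit 4) (nat_lit 6) (nat_lit 9) L1285663 (by decide +kernel)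
theorem L1285665 : W_4 (nat_lit 9) (nat_lit 0x80014001a0009000000000000000000000000000) (nat_lit 0x0) (nat_lit 0x60003000580030000a000100068000c0000000000000000000000) := T_4 (nat_lit 178) (nat_lit 161) (nat_lit 6) (nat_lit 8) (nat_lit 10) L1285664 (by decide +kernel)
theorem L1285666 : W_4 (nat_lit 2) (nat_lit 0xc0014001a0009000000000000000000000000000) (nat_lit 0x0) (nat_lit 0xa00000000000080000000000000000000000) := D_4 (nat_lit 141) (nat_lit 91) (nat_lit 143) (nat_lit 5) (nat_lit 6) (nat_lit 5) (nat_lit 2) (nat_lit 5) (nat_lit 8) (by decide +kernel)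
theorem L1285667 : W_4 (nat_lit 3) (nat_lit 0x80014001a0009000000000000000000000000000) (nat_lit 0x0) (nat_lit 0x80004000a00000000000080000000000000000000000) := T_4 (nat_lit 158) (nat_lit 175) (nat_lit 5) (nat_lit 6) (nat_lit 6) L1285666 (by decide +kernel)
theorem L1285668 : W_4 (nat_lit 2) (nat_lit 0x4000080016001b000b800000000000000000000000000) (nat_lit 0x0) (nat_lit 0x4000000000000000080004000000000000000000) := D_4 (nat_lit 91) (nat_lit 158) (nat_lit 74) (nat_lit 6) (nat_lit 5) (nat_lit 9) (nat_lit 5) (nat_lit 6) (nat_lit 4) (by decide +kernel)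
theorem L1285669 : W_4 (nat_lit 3) (nat_lit 0x4000080014001b000b800000000000000000000000000) (nat_lit 0x0) (nat_lit 0x4000a00000000000080004000000000000000000) := T_4 (nat_lit 141) (nat_lit 143) (nat_lit 2) (nat_lit 5) (nat_lit 8) L1285668 (by decide +kernel)
theorem L1285670 : W_4 (nat_lit 4) (nat_lit 0x4000080014001a000b800000000000000000000000000) (nat_lit 0x0) (nat_lit 0x100004000a00010000000080004000000000000000000) := T_4 (nat_lit 124) (nat_lit 176) (nat_lit 4) (nat_lit 6) (nat_lit 10) L1285669 (by decide +kernel)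
theorem L1285671 : W_4 (nat_lit 5) (nat_lit 0x4000080014001a0009800000000000000000000000000) (nat_lit 0x0) (nat_lit 0x100004000a00010006000080004000000000000000000) := T_4 (nat_lit 109) (nat_lit 110) (nat_lit 3) (nat_lit 5) (nat_lit 6) L1285670 (by decide +kernel)
theorem L1285672 : W_4 (nat_lit 6) (nat_lit 0x4000080014001a0009000000000000000000000000000) (nat_lit 0x0) (nat_lit 0x100004000a000100068000c0004000000000000000000) := T_4 (nat_lit 107) (nat_lit 90) (nat_lit 4) (nat_lit 6) (nat_lit 9) L1285671 (by decide +kernel)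
theorem L1285673 : W_4 (nat_lit 7) (nat_lit 0x80014001a0009000000000000000000000000000) (nat_lit 0x0) (nat_lit 0x500024000a000100068000c0004000000000000000000) := T_4 (nat_lit 178) (nat_lit 161) (nat_lit 6) (nat_lit 8) (nat_lit 10) L1285672 (by decide +kernel)
theorem L1285674 : W_4 (nat_lit 10) (nat_lit 0x80014001a0008000000000000000000000000000) (nat_lit 0x0) (nat_lit 0x60003000580034000a000100078000c0006000000000000000000) := Q_4 (nat_lit 108) (C_4 L587570 (C_4 L536213 (C_4 L1285665 (C_4 L1285667 (C_4 L1285673 N_4))))) (by decide +kernel)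
theorem L1285675 : W_4 (nat_lit 13) (nat_lit 0x80014001a0008000000000000000000000000000) (nat_lit 0x0) (nat_lit 0x10000e003fc01fe0036000b80010000800000000000000000000000000) := Q_4 (nat_lit 176) (C_4 L1284482 (C_4 L896965 (C_4 L1284463 (C_4 L536157 (C_4 L826681 N_4))))) (by decide +kernel)
theorem L1285676 : W_4 (nat_lit 6) (nat_lit 0x80014001a0008000000000000000000000000000) (nat_lit 0x0) (nat_lit 0x680036000b800000018000c0002000000000000000000) := Q_4 (nat_lit 108) (C_4 L1285667 (C_4 L1284414 (C_4 L1284426 (C_4 L1284342 (C_4 L896999 N_4))))) (by decide +kernel)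
theorem L1285677 : W_4 (nat_lit 2) (nat_lit 0x3000080016001a0008000000000000000000000000000) (nat_lit 0x0) (nat_lit 0x2000000000000000010000800000000000000000000000000) := D_4 (nat_lit 124) (nat_lit 193) (nat_lit 107) (nat_lit 4) (nat_lit 6) (nat_lit 11) (nat_lit 4) (nat_lit 6) (nat_lit 10) (by decide +kernel)
theorem L1285678 : W_4 (nat_lit 3) (nat_lit 0x2000080016001a0008000000000000000000000000000) (nat_lit 0x0) (nat_lit 0x6000100000000000010000800000000000000000000000000) := T_4 (nat_lit 176) (nat_lit 194) (nat_lit 7) (nat_lit 6) (nat_lit 7) L1285677 (by decide +kernel)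
theorem L1285679 : W_4 (nat_lit 4) (nat_lit 0x2000080014001a0008000000000000000000000000000) (nat_lit 0x0) (nat_lit 0x6000100000000a00010000800000000000000000000000000) := T_4 (nat_lit 141) (nat_lit 143) (nat_lit 2) (nat_lit 5) (nat_lit 8) L1285678 (by decide +kernel)
theorem L1285680 : W_4 (nat_lit 5) (nat_lit 0x80014001a0008000000000000000000000000000) (nat_lit 0x0) (nat_lit 0x80006000700030000a00010005800000000000000000000000000) := Q_4 (nat_lit 177) (C_4 L897150 (C_4 L1284348 (C_4 L1285679 N_4))) (by decide +kernel)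
theorem L1285681 : W_4 (nat_lit 14) (nat_lit 0x80010001a0008000000000000000000000000000) (nat_lit 0x0) (nat_lit 0x10000e003fc01fe0036000f800100078000c0006000000000000000000) := Q_4 (nat_lit 142) (C_4 L1284537 (C_4 L1285654 (C_4 L1284483 (C_4 L1285674 (C_4 L1285675 (C_4 L1284365 (C_4 L1285676 (C_4 L1285680 N_4)))))))) (by decide +kernel)
theorem L1285682 : W_4 (nat_lit 2) (nat_lit 0x380010001a000c000200000000000000000000000) (nat_lit 0x0) (nat_lit 0x4002000000000000000010000000000000000000) := D_4 (nat_lit 145) (nat_lit 158) (nat_lit 76) (nat_lit 2) (nat_lit 5) (nat_lit 9) (nat_lit 7) (nat_lit 8) (nat_lit 4) (by decide +kernel)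
theorem L1285683 : W_4 (nat_lit 3) (nat_lit 0x380010001a000c000000000000000000000000000) (nat_lit 0x0) (nat_lit 0x4002800000000000200010000000000000000000) := T_4 (nat_lit 93) (nat_lit 143) (nat_lit 5) (nat_lit 8) (nat_lit 5) L1285682 (by decide +kernel)
theorem L1285684 : W_4 (nat_lit 4) (nat_lit 0x380010001a0008000000000000000000000000000) (nat_lit 0x0) (nat_lit 0x200004002800000004000200010000000000000000000) := T_4 (nat_lit 110) (nat_lit 177) (nat_lit 5) (nat_lit 8) (nat_lit 6) L1285683 (by decide +kernel)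
theorem L1285686 : W_4 (nat_lit 2) (nat_lit 0x8003c001a001b000c000000000000000000000000000) (nat_lit 0x0) (nat_lit 0x2000100000000000000000800000000000000000000000000) := D_4 (nat_lit 176) (nat_lit 193) (nat_lit 107) (nat_lit 7) (nat_lit 5) (nat_lit 7) (nat_lit 7) (nat_lit 5) (nat_lit 6) (by decide +kernel)
theorem L1285687 : W_4 (nat_lit 3) (nat_lit 0x8003c001a001a000c000000000000000000000000000) (nat_lit 0x0) (nat_lit 0x2000100000000000010001800000000000000000000000000) := T_4 (nat_lit 124) (nat_lit 108) (nat_lit 6) (nat_lit 5) (nat_lit 10) L1285686 (by decide +kernel)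
theorem L1285688 : W_4 (nat_lit 4) (nat_lit 0x8003c0018001a000c000000000000000000000000000) (nat_lit 0x0) (nat_lit 0x2000100000000300010001800000000000000000000000000) := T_4 (nat_lit 141) (nat_lit 140) (nat_lit 0) (nat_lit 8) (nat_lit 9) L1285687 (by decide +kernel)
theorem L1285689 : W_4 (nat_lit 5) (nat_lit 0x3c0018001a000c000000000000000000000000000) (nat_lit 0x0) (nat_lit 0x20001c0000000300010001800000000000000000000000000) := T_4 (nat_lit 175) (nat_lit 174) (nat_lit 1) (nat_lit 8) (nat_lit 9) L1285688 (by decide +kernel)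
theorem L1285690 : W_4 (nat_lit 6) (nat_lit 0x380018001a000c000000000000000000000000000) (nat_lit 0x0) (nat_lit 0x20001c0006000300010001800000000000000000000000000) := T_4 (nat_lit 158) (nat_lit 157) (nat_lit 2) (nat_lit 4) (nat_lit 9) L1285689 (by decide +kernel)
theorem L1285691 : W_4 (nat_lit 7) (nat_lit 0x380010001a000c000000000000000000000000000) (nat_lit 0x0) (nat_lit 0x20001c0006000b00010001800200000000000000000000000) := T_4 (nat_lit 143) (nat_lit 93) (nat_lit 5) (nat_lit 8) (nat_lit 5) L1285690 (by decide +kernel)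
theorem L1285692 : W_4 (nat_lit 8) (nat_lit 0x380010001a0008000000000000000000000000000) (nat_lit 0x0) (nat_lit 0x20003c0006000b00010005800200000000000000000000000) := T_4 (nat_lit 110) (nat_lit 177) (nat_lit 5) (nat_lit 8) (nat_lit 6) L1285691 (by decide +kernel)
theorem L1285720 : W_4 (nat_lit 6) (nat_lit 0x380010001a0008000000000000000000000000000) (nat_lit 0x0) (nat_lit 0x20001c0004002300010001800000000000000000000000000) := T_4 (nat_lit 158) (nat_lit 145) (nat_lit 2) (nat_lit 5) (nat_lit 9) L823546 (by decide +kernel)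
theorem L1285721 : W_4 (nat_lit 2) (nat_lit 0x380010001a000c000200000000000000000000000) (nat_lit 0x0) (nat_lit 0x2000000000000000010000800000000000000) := D_4 (nat_lit 76) (nat_lit 59) (nat_lit 145) (nat_lit 7) (nat_lit 8) (nat_lit 3) (nat_lit 7) (nat_lit 8) (nat_lit 4) (by decide +kernel)
theorem L1285722 : W_4 (nat_lit 3) (nat_lit 0x380010001a000c000000000000000000000000000) (nat_lit 0x0) (nat_lit 0x2800000000000200010000800000000000000) := T_4 (nat_lit 93) (nat_lit 143) (nat_lit 5) (nat_lit 8) (nat_lit 5) L1285721 (by decide +kernel)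
theorem L1285723 : W_4 (nat_lit 4) (nat_lit 0x380010001a0008000000000000000000000000000) (nat_lit 0x0) (nat_lit 0x200000002800000004000200010000800000000000000) := T_4 (nat_lit 110) (nat_lit 177) (nat_lit 5) (nat_lit 8) (nat_lit 6) L1285722 (by decide +kernel)
theorem L1285724 : W_4 (nat_lit 9) (nat_lit 0x280010001a0008000000000000000000000000000) (nat_lit 0x0) (nat_lit 0x20003c0016002b00010005800200010000800000000000000) := Q_4 (nat_lit 160) (C_4 L1285692 (C_4 L588225 (C_4 L1285720 (C_4 L1285684 (C_4 L1285723 N_4))))) (by decide +kernel)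
theorem L1285725 : W_4 (nat_lit 10) (nat_lit 0x80010001a0008000000000000000000000000000) (nat_lit 0x0) (nat_lit 0x20007c0036002b00010005800200010000800000000000000) := T_4 (nat_lit 161) (nat_lit 178) (nat_lit 6) (nat_lit 8) (nat_lit 10) L1285724 (by decide +kernel)
theorem L1285726 : W_4 (nat_lit 2) (nat_lit 0x4000080014001b0008800000000000000000000000000) (nat_lit 0x0) (nat_lit 0x1000040002000000000000000000) := D_4 (nat_lit 90) (nat_lit 108) (nat_lit 73) (nat_lit 4) (nat_lit 6) (nat_lit 9) (nat_lit 7) (nat_lit 5) (nat_lit 4) (by decide +kernel)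
theorem L1285727 : W_4 (nat_lit 3) (nat_lit 0x4000080014001a0008800000000000000000000000000) (nat_lit 0x0) (nat_lit 0x100000000000010001000040002000000000000000000) := T_4 (nat_lit 124) (nat_lit 176) (nat_lit 4) (nat_lit 6) (nat_lit 10) L1285726 (by decide +kernel)
theorem L1285728 : W_4 (nat_lit 4) (nat_lit 0x80014001a0008800000000000000000000000000) (nat_lit 0x0) (nat_lit 0x500020000000010001000040002000000000000000000) := T_4 (nat_lit 178) (nat_lit 161) (nat_lit 6) (nat_lit 8) (nat_lit 10) L1285727 (by decide +kernel)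
theorem L1285729 : W_4 (nat_lit 2) (nat_lit 0x4000080014001b0008800000000000000000000000000) (nat_lit 0x0) (nat_lit 0x200000000000040002000000000000000000) := D_4 (nat_lit 90) (nat_lit 73) (nat_lit 141) (nat_lit 7) (nat_lit 5) (nat_lit 4) (nat_lit 7) (nat_lit 5) (nat_lit 5) (by decide +kernel)
theorem L1285730 : W_4 (nat_lit 3) (nat_lit 0x4000080014001a0008800000000000000000000000000) (nat_lit 0x0) (nat_lit 0x100000000200010000000040002000000000000000000) := T_4 (nat_lit 124) (nat_lit 176) (nat_lit 4) (nat_lit 6) (nat_lit 10) L1285729 (by decide +kernel)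
theorem L1285731 : W_4 (nat_lit 4) (nat_lit 0x80014001a0008800000000000000000000000000) (nat_lit 0x0) (nat_lit 0x500020000200010000000040002000000000000000000) := T_4 (nat_lit 178) (nat_lit 161) (nat_lit 6) (nat_lit 8) (nat_lit 10) L1285730 (by decide +kernel)
theorem L1285732 : W_4 (nat_lit 2) (nat_lit 0x2c0016001a000b800000000000000000000000000) (nat_lit 0x0) (nat_lit 0x10002100000000000000000000000000000000000) := D_4 (nat_lit 160) (nat_lit 145) (nat_lit 140) (nat_lit 2) (nat_lit 5) (nat_lit 9) (nat_lit 0) (nat_lit 8) (nat_lit 9) (by decide +kernel)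
theorem L1285733 : W_4 (nat_lit 3) (nat_lit 0xc0016001a000b800000000000000000000000000) (nat_lit 0x0) (nat_lit 0x400030002100000000000000000000000000000000000) := T_4 (nat_lit 161) (nat_lit 178) (nat_lit 6) (nat_lit 8) (nat_lit 10) L1285732 (by decide +kernel)
theorem L1285734 : W_4 (nat_lit 4) (nat_lit 0xc0014001a000b800000000000000000000000000) (nat_lit 0x0) (nat_lit 0x400030002300000000000080000000000000000000000) := T_4 (nat_lit 141) (nat_lit 91) (nat_lit 5) (nat_lit 6) (nat_lit 5) L1285733 (by decide +kernel)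
theorem L1285735 : W_4 (nat_lit 5) (nat_lit 0x80014001a000b800000000000000000000000000) (nat_lit 0x0) (nat_lit 0x480034002300000000000080000000000000000000000) := T_4 (nat_lit 158) (nat_lit 175) (nat_lit 5) (nat_lit 6) (nat_lit 6) L1285734 (by decide +kernel)
theorem L1285736 : W_4 (nat_lit 6) (nat_lit 0x80014001a0009800000000000000000000000000) (nat_lit 0x0) (nat_lit 0x480034002300000006000080000000000000000000000) := T_4 (nat_lit 109) (nat_lit 110) (nat_lit 3) (nat_lit 5) (nat_lit 6) L1285735 (by decide +kernel)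
theorem L1285737 : W_4 (nat_lit 7) (nat_lit 0x80014001a0008800000000000000000000000000) (nat_lit 0x0) (nat_lit 0x4800340023000000070000c0000000000000000000000) := T_4 (nat_lit 108) (nat_lit 90) (nat_lit 4) (nat_lit 6) (nat_lit 9) L1285736 (by decide +kernel)
theorem L1285738 : W_4 (nat_lit 2) (nat_lit 0x18002c0014001a0008800000000000000000000000000) (nat_lit 0x0) (nat_lit 0x40010002000000000000000000000000000000000000) := D_4 (nat_lit 160) (nat_lit 145) (nat_lit 174) (nat_lit 2) (nat_lit 5) (nat_lit 9) (nat_lit 1) (nat_lit 8) (nat_lit 9) (by decide +kernel)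
theorem L1285739 : W_4 (nat_lit 3) (nat_lit 0x1800280014001a0008800000000000000000000000000) (nat_lit 0x0) (nat_lit 0x40014002000000001000000000000000000000000000) := T_4 (nat_lit 158) (nat_lit 108) (nat_lit 5) (nat_lit 6) (nat_lit 6) L1285738 (by decide +kernel)
theorem L1285740 : W_4 (nat_lit 4) (nat_lit 0x1000280014001a0008800000000000000000000000000) (nat_lit 0x0) (nat_lit 0x10000c0014002000000001000000000000000000000000000) := T_4 (nat_lit 175) (nat_lit 192) (nat_lit 5) (nat_lit 6) (nat_lit 7) L1285739 (by decide +kernel)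
theorem L1285741 : W_4 (nat_lit 5) (nat_lit 0x280014001a0008800000000000000000000000000) (nat_lit 0x0) (nat_lit 0x10001c0014002000010001000000000000000000000000000) := T_4 (nat_lit 176) (nat_lit 124) (nat_lit 4) (nat_lit 6) (nat_lit 10) L1285740 (by decide +kernel)
theorem L1285742 : W_4 (nat_lit 6) (nat_lit 0x80014001a0008800000000000000000000000000) (nat_lit 0x0) (nat_lit 0x10005c0034002000010001000000000000000000000000000) := T_4 (nat_lit 161) (nat_lit 178) (nat_lit 6) (nat_lit 8) (nat_lit 10) L1285741 (by decide +kernel)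
theorem L1285743 : W_4 (nat_lit 8) (nat_lit 0x80014001a0008000000000000000000000000000) (nat_lit 0x0) (nat_lit 0x10005c00340023000100078000c0002000000000000000000) := Q_4 (nat_lit 107) (C_4 L1285728 (C_4 L587977 (C_4 L1285731 (C_4 L1285737 (C_4 L1285742 N_4))))) (by decide +kernel)
theorem L1285744 : W_4 (nat_lit 11) (nat_lit 0x80010001a0008000000000000000000000000000) (nat_lit 0x0) (nat_lit 0x600030005c03b701ef000100078000c0006000000000000000000) := Q_4 (nat_lit 142) (C_4 L1285656 (C_4 L1285674 (C_4 L1284485 (C_4 L1284513 (C_4 L1285743 (C_4 L1284339 N_4)))))) (by decide +kernel)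
theorem L1285759 : W_4 (nat_lit 12) (nat_lit 0x80010001a0008000000000000000000000000000) (nat_lit 0x0) (nat_lit 0x8001c000e0077001fc03b701ec0001c0058002c0012000000000000000000) := Q_4 (nat_lit 142) (C_4 L1284506 (C_4 L1284559 (C_4 L1284537 (C_4 L1284481 (C_4 L1284513 (C_4 L1284536 (C_4 L1284556 (C_4 L1284365 N_4)))))))) (by decide +kernel)
theorem L1285760 : W_4 (nat_lit 6) (nat_lit 0x80014001a0008000000000000000000000000000) (nat_lit 0x0) (nat_lit 0xa0007000f80026000200010000800000000000000000000000000) := Q_4 (nat_lit 176) (C_4 L536157 (C_4 L1284482 (C_4 L1284463 (C_4 L536139 N_4)))) (by decide +kernel)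
theorem L1285761 : W_4 (nat_lit 14) (nat_lit 0x80010001a0008000000000000000000000000000) (nat_lit 0x0) (nat_lit 0x8001c000e007fc01fe03b601ef8001c004800000000000000000000000000) := Q_4 (nat_lit 142) (C_4 L1285656 (C_4 L1285675 (C_4 L1284493 (C_4 L1284536 (C_4 L1285760 (C_4 L897042 N_4)))))) (by decide +kernel)
theorem L1285762 : W_4 (nat_lit 6) (nat_lit 0x80014001a0008000000000000000000000000000) (nat_lit 0x0) (nat_lit 0xa0007000f80030000200010001800040000000000000000000000) := Q_4 (nat_lit 176) (C_4 L536157 (C_4 L1284482 (C_4 L1284463 (C_4 L826637 N_4)))) (by decide +kernel)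
theorem L1285763 : W_4 (nat_lit 4) (nat_lit 0x30005000080014001a0008000000000000000000000000000) (nat_lit 0x0) (nat_lit 0x10000c0004000000004000200010000000000000000000000000000000) := T_4 (nat_lit 141) (nat_lit 124) (nat_lit 4) (nat_lit 6) (nat_lit 11) L896961 (by decide +kernel)
theorem L1285764 : W_4 (nat_lit 5) (nat_lit 0x10005000080014001a0008000000000000000000000000000) (nat_lit 0x0) (nat_lit 0x10000e0006000000004000200010000000000000000000000000000000) := T_4 (nat_lit 193) (nat_lit 209) (nat_lit 5) (nat_lit 6) (nat_lit 8) L1285763 (by decide +kernel)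
theorem L1285765 : W_4 (nat_lit 6) (nat_lit 0x5000080014001a0008000000000000000000000000000) (nat_lit 0x0) (nat_lit 0x10000e0007000080004000200010000000000000000000000000000000) := T_4 (nat_lit 192) (nat_lit 175) (nat_lit 5) (nat_lit 6) (nat_lit 7) L1285764 (by decide +kernel)
theorem L1285766 : W_4 (nat_lit 7) (nat_lit 0x1000080014001a0008000000000000000000000000000) (nat_lit 0x0) (nat_lit 0x10000e0007000480024000200010000000000000000000000000000000) := T_4 (nat_lit 178) (nat_lit 161) (nat_lit 6) (nat_lit 8) (nat_lit 10) L1285765 (by decide +kernel)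
theorem L1285767 : W_4 (nat_lit 2) (nat_lit 0x58000c0014001a0008000000000000000000000000000) (nat_lit 0x0) (nat_lit 0xa00002000000000000000000000000000000000000000) := D_4 (nat_lit 177) (nat_lit 179) (nat_lit 157) (nat_lit 0) (nat_lit 9) (nat_lit 10) (nat_lit 0) (nat_lit 8) (nat_lit 10) (by decide +kernel)
theorem L1285768 : W_4 (nat_lit 3) (nat_lit 0x18000c0014001a0008000000000000000000000000000) (nat_lit 0x0) (nat_lit 0xe00022000000000000000000000000000000000000000) := T_4 (nat_lit 178) (nat_lit 161) (nat_lit 6) (nat_lit 8) (nat_lit 10) L1285767 (by decide +kernel)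
theorem L1285769 : W_4 (nat_lit 4) (nat_lit 0x1800080014001a0008000000000000000000000000000) (nat_lit 0x0) (nat_lit 0xe00026000000000001000000000000000000000000000) := T_4 (nat_lit 158) (nat_lit 108) (nat_lit 5) (nat_lit 6) (nat_lit 6) L1285768 (by decide +kernel)
theorem L1285770 : W_4 (nat_lit 5) (nat_lit 0x1000080014001a0008000000000000000000000000000) (nat_lit 0x0) (nat_lit 0x1000e80026000000000001000000000000000000000000000) := T_4 (nat_lit 175) (nat_lit 192) (nat_lit 5) (nat_lit 6) (nat_lit 7) L1285769 (by decide +kernel)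
theorem L1285771 : W_4 (nat_lit 2) (nat_lit 0x70000d0016001a0009000000000000000000000000000) (nat_lit 0x0) (nat_lit 0x40002000000000000000010000000000000000000000000000000) := D_4 (nat_lit 193) (nat_lit 210) (nat_lit 124) (nat_lit 4) (nat_lit 6) (nat_lit 12) (nat_lit 4) (nat_lit 6) (nat_lit 11) (by decide +kernel)
theorem L1285772 : W_4 (nat_lit 3) (nat_lit 0x70000d0014001a0009000000000000000000000000000) (nat_lit 0x0) (nat_lit 0x40002000000000000200010000000080000000000000000000000) := T_4 (nat_lit 141) (nat_lit 91) (nat_lit 5) (nat_lit 6) (nat_lit 5) L1285771 (by decide +kernel)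
theorem L1285773 : W_4 (nat_lit 4) (nat_lit 0x70000c0014001a0009000000000000000000000000000) (nat_lit 0x0) (nat_lit 0x40002000000003000200010000000080000000000000000000000) := T_4 (nat_lit 156) (nat_lit 157) (nat_lit 3) (nat_lit 3) (nat_lit 9) L1285772 (by decide +kernel)
theorem L1285774 : W_4 (nat_lit 5) (nat_lit 0x7000080014001a0009000000000000000000000000000) (nat_lit 0x0) (nat_lit 0x40002000800007000200010000000080000000000000000000000) := T_4 (nat_lit 158) (nat_lit 179) (nat_lit 0) (nat_lit 9) (nat_lit 10) L1285773 (by decide +kernel)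
theorem L1285775 : W_4 (nat_lit 6) (nat_lit 0x7000080014001a0008000000000000000000000000000) (nat_lit 0x0) (nat_lit 0x40002000800017000200010001000080000000000000000000000) := T_4 (nat_lit 108) (nat_lit 160) (nat_lit 7) (nat_lit 6) (nat_lit 6) L1285774 (by decide +kernel)
theorem L1285776 : W_4 (nat_lit 7) (nat_lit 0x5000080014001a0008000000000000000000000000000) (nat_lit 0x0) (nat_lit 0x40006000a00017000200010001000080000000000000000000000) := T_4 (nat_lit 177) (nat_lit 194) (nat_lit 7) (nat_lit 6) (nat_lit 7) L1285775 (by decide +kernel)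
theorem L1285777 : W_4 (nat_lit 8) (nat_lit 0x1000080014001a0008000000000000000000000000000) (nat_lit 0x0) (nat_lit 0x40006000e00037000200010001000080000000000000000000000) := T_4 (nat_lit 178) (nat_lit 161) (nat_lit 6) (nat_lit 8) (nat_lit 10) L1285776 (by decide +kernel)
theorem L1285778 : W_4 (nat_lit 9) (nat_lit 0x80014001a0008000000000000000000000000000) (nat_lit 0x0) (nat_lit 0x10000e0007000f80037000200010001000080000000000000000000000) := Q_4 (nat_lit 176) (C_4 L1285766 (C_4 L1285653 (C_4 L1284463 (C_4 L1285770 (C_4 L1285777 N_4))))) (by decide +kernel)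
theorem L1285779 : W_4 (nat_lit 2) (nat_lit 0x40000c0014001a0009000080000000000000000000000) (nat_lit 0x0) (nat_lit 0x800040002000000000000000000) := D_4 (nat_lit 90) (nat_lit 73) (nat_lit 107) (nat_lit 4) (nat_lit 6) (nat_lit 8) (nat_lit 4) (nat_lit 6) (nat_lit 9) (by decide +kernel)
theorem L1285780 : W_4 (nat_lit 3) (nat_lit 0x40000c0014001a0009000000000000000000000000000) (nat_lit 0x0) (nat_lit 0x2000000008000c0002000000000000000000) := T_4 (nat_lit 91) (nat_lit 141) (nat_lit 5) (nat_lit 6) (nat_lit 5) L1285779 (by decide +kernel)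
theorem L1285781 : W_4 (nat_lit 4) (nat_lit 0x40000c0014001a0008000000000000000000000000000) (nat_lit 0x0) (nat_lit 0x800000002000000018000c0002000000000000000000) := T_4 (nat_lit 108) (nat_lit 175) (nat_lit 5) (nat_lit 6) (nat_lit 6) L1285780 (by decide +kernel)
theorem L1285782 : W_4 (nat_lit 5) (nat_lit 0xc0014001a0008000000000000000000000000000) (nat_lit 0x0) (nat_lit 0x4800200002000000018000c0002000000000000000000) := T_4 (nat_lit 178) (nat_lit 161) (nat_lit 6) (nat_lit 8) (nat_lit 10) L1285781 (by decide +kernel)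
theorem L1285783 : W_4 (nat_lit 4) (nat_lit 0xc0014001a0008000000000000000000000000000) (nat_lit 0x0) (nat_lit 0x800000002000000018000c0002000000000000000000) := T_4 (nat_lit 108) (nat_lit 175) (nat_lit 5) (nat_lit 6) (nat_lit 6) L536212 (by decide +kernel)
theorem L1285784 : W_4 (nat_lit 2) (nat_lit 0x1c0014001a000b800000000000000000000000000) (nat_lit 0x0) (nat_lit 0x400020002000000000000000000000000000000000000) := D_4 (nat_lit 161) (nat_lit 145) (nat_lit 178) (nat_lit 2) (nat_lit 5) (nat_lit 9) (nat_lit 6) (nat_lit 8) (nat_lit 10) (by decide +kernel)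
theorem L1285785 : W_4 (nat_lit 3) (nat_lit 0xc0014001a000b800000000000000000000000000) (nat_lit 0x0) (nat_lit 0x600030002000000000000000000000000000000000000) := T_4 (nat_lit 160) (nat_lit 177) (nat_lit 7) (nat_lit 6) (nat_lit 6) L1285784 (by decide +kernel)
theorem L1285786 : W_4 (nat_lit 4) (nat_lit 0xc0014001a0009800000000000000000000000000) (nat_lit 0x0) (nat_lit 0x600030002000000006000000000000000000000000000) := T_4 (nat_lit 109) (nat_lit 110) (nat_lit 3) (nat_lit 5) (nat_lit 6) L1285785 (by decide +kernel)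
theorem L1285787 : W_4 (nat_lit 5) (nat_lit 0xc0014001a0009000000000000000000000000000) (nat_lit 0x0) (nat_lit 0x600030002000000006800040000000000000000000000) := T_4 (nat_lit 107) (nat_lit 90) (nat_lit 4) (nat_lit 6) (nat_lit 9) L1285786 (by decide +kernel)
theorem L1285788 : W_4 (nat_lit 6) (nat_lit 0xc0014001a0008000000000000000000000000000) (nat_lit 0x0) (nat_lit 0x680030002000000007800040000000000000000000000) := T_4 (nat_lit 108) (nat_lit 175) (nat_lit 5) (nat_lit 6) (nat_lit 6) L1285787 (by decide +kernel)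
theorem L1285789 : W_4 (nat_lit 2) (nat_lit 0x8003c0014001a0008000000000000000000000000000) (nat_lit 0x0) (nat_lit 0x1000000000000300000000000000000000000000000000000) := D_4 (nat_lit 141) (nat_lit 140) (nat_lit 192) (nat_lit 0) (nat_lit 8) (nat_lit 9) (nat_lit 6) (nat_lit 5) (nat_lit 11) (by decide +kernel)
theorem L1285790 : W_4 (nat_lit 3) (nat_lit 0x3c0014001a0008000000000000000000000000000) (nat_lit 0x0) (nat_lit 0x10000c0000000300000000000000000000000000000000000) := T_4 (nat_lit 175) (nat_lit 174) (nat_lit 1) (nat_lit 8) (nat_lit 9) L1285789 (by decide +kernel)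
theorem L1285791 : W_4 (nat_lit 4) (nat_lit 0x2c0014001a0008000000000000000000000000000) (nat_lit 0x0) (nat_lit 0x10000c0010002300000000000000000000000000000000000) := T_4 (nat_lit 160) (nat_lit 145) (nat_lit 2) (nat_lit 5) (nat_lit 9) L1285790 (by decide +kernel)
theorem L1285792 : W_4 (nat_lit 5) (nat_lit 0xc0014001a0008000000000000000000000000000) (nat_lit 0x0) (nat_lit 0x10004c0030002300000000000000000000000000000000000) := T_4 (nat_lit 161) (nat_lit 178) (nat_lit 6) (nat_lit 8) (nat_lit 10) L1285791 (by decide +kernel)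
theorem L1285793 : W_4 (nat_lit 2) (nat_lit 0x3c0014001a0008000000000000000000000000000) (nat_lit 0x0) (nat_lit 0x200000000000000005000000000000000000000000000) := D_4 (nat_lit 177) (nat_lit 110) (nat_lit 108) (nat_lit 5) (nat_lit 8) (nat_lit 6) (nat_lit 7) (nat_lit 6) (nat_lit 6) (by decide +kernel)
theorem L1285794 : W_4 (nat_lit 3) (nat_lit 0x2c0014001a0008000000000000000000000000000) (nat_lit 0x0) (nat_lit 0x200010002000000005000000000000000000000000000) := T_4 (nat_lit 160) (nat_lit 145) (nat_lit 2) (nat_lit 5) (nat_lit 9) L1285793 (by decide +kernel)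
theorem L1285795 : W_4 (nat_lit 4) (nat_lit 0xc0014001a0008000000000000000000000000000) (nat_lit 0x0) (nat_lit 0x600030002000000005000000000000000000000000000) := T_4 (nat_lit 161) (nat_lit 178) (nat_lit 6) (nat_lit 8) (nat_lit 10) L1285794 (by decide +kernel)
theorem L1285796 : W_4 (nat_lit 7) (nat_lit 0x80014001a0008000000000000000000000000000) (nat_lit 0x0) (nat_lit 0x10006c00340023000000078000c0002000000000000000000) := Q_4 (nat_lit 158) (C_4 L1285782 (C_4 L1285783 (C_4 L1285788 (C_4 L1285792 (C_4 L1285795 N_4))))) (by decide +kernel)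
theorem L1285797 : W_4 (nat_lit 2) (nat_lit 0x4000080016001a000d0000d001c000000000000000000) (nat_lit 0x0) (nat_lit 0x2000000000000200000000800000000000000) := D_4 (nat_lit 93) (nat_lit 59) (nat_lit 145) (nat_lit 7) (nat_lit 8) (nat_lit 3) (nat_lit 7) (nat_lit 8) (nat_lit 4) (by decide +kernel)
theorem L1285798 : W_4 (nat_lit 3) (nat_lit 0x4000080016001a000d0000d000c000000000000000000) (nat_lit 0x0) (nat_lit 0x2000000000000200030000800000000000000) := T_4 (nat_lit 76) (nat_lit 77) (nat_lit 1) (nat_lit 9) (nat_lit 4) L1285797 (by decide +kernel)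
theorem L1285799 : W_4 (nat_lit 4) (nat_lit 0x4000080016001a000d0000c000c000000000000000000) (nat_lit 0x0) (nat_lit 0x2000000000000230030000800000000000000) := T_4 (nat_lit 88) (nat_lit 89) (nat_lit 2) (nat_lit 3) (nat_lit 5) L1285798 (by decide +kernel)
theorem L1285800 : W_4 (nat_lit 5) (nat_lit 0x4000080016001a000d0000c0004000000000000000000) (nat_lit 0x0) (nat_lit 0x2000000000000230038000c00000000000000) := T_4 (nat_lit 75) (nat_lit 58) (nat_lit 6) (nat_lit 6) (nat_lit 7) L1285799 (by decide +kernel)
theorem L1285801 : W_4 (nat_lit 6) (nat_lit 0x4000080016001a000d0000c0000000000000000000000) (nat_lit 0x0) (nat_lit 0x200001000000023003c000c00000000000000) := T_4 (nat_lit 74) (nat_lit 124) (nat_lit 5) (nat_lit 6) (nat_lit 4) L1285800 (by decide +kernel)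
theorem L1285802 : W_4 (nat_lit 7) (nat_lit 0x4000080014001a000d0000c0000000000000000000000) (nat_lit 0x0) (nat_lit 0x400220001000000023003c000c00000000000000) := T_4 (nat_lit 141) (nat_lit 158) (nat_lit 5) (nat_lit 6) (nat_lit 5) L1285801 (by decide +kernel)
theorem L1285803 : W_4 (nat_lit 8) (nat_lit 0x4000080014001a00090000c0000000000000000000000) (nat_lit 0x0) (nat_lit 0x400220001000600023003c000c00000000000000) := T_4 (nat_lit 110) (nat_lit 109) (nat_lit 0) (nat_lit 9) (nat_lit 6) L1285802 (by decide +kernel)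
theorem L1285804 : W_4 (nat_lit 9) (nat_lit 0x4000080014001a0009000040000000000000000000000) (nat_lit 0x0) (nat_lit 0x40022000100060002b003e000c00000000000000) := T_4 (nat_lit 91) (nat_lit 73) (nat_lit 4) (nat_lit 6) (nat_lit 8) L1285803 (by decide +kernel)
theorem L1285805 : W_4 (nat_lit 10) (nat_lit 0x4000080014001a0009000000000000000000000000000) (nat_lit 0x0) (nat_lit 0x40022000100068002f003e000c00000000000000) := T_4 (nat_lit 90) (nat_lit 107) (nat_lit 4) (nat_lit 6) (nat_lit 9) L1285804 (by decide +kernel)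
theorem L1285806 : W_4 (nat_lit 11) (nat_lit 0x80014001a0009000000000000000000000000000) (nat_lit 0x0) (nat_lit 0x4000240022000100068002f003e000c00000000000000) := T_4 (nat_lit 178) (nat_lit 161) (nat_lit 6) (nat_lit 8) (nat_lit 10) L1285805 (by decide +kernel)
theorem L1285807 : W_4 (nat_lit 3) (nat_lit 0x380014001a0009000000000000000000000000000) (nat_lit 0x0) (nat_lit 0x4002300000000000080000000000000000000000) := T_4 (nat_lit 158) (nat_lit 145) (nat_lit 2) (nat_lit 5) (nat_lit 9) L1284423 (by decide +kernel)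
theorem L1285808 : W_4 (nat_lit 4) (nat_lit 0x180014001a0009000000000000000000000000000) (nat_lit 0x0) (nat_lit 0x400024002300000000000080000000000000000000000) := T_4 (nat_lit 161) (nat_lit 178) (nat_lit 6) (nat_lit 8) (nat_lit 10) L1285807 (by decide +kernel)
theorem L1285809 : W_4 (nat_lit 5) (nat_lit 0x80014001a0009000000000000000000000000000) (nat_lit 0x0) (nat_lit 0x600034002300000000000080000000000000000000000) := T_4 (nat_lit 160) (nat_lit 177) (nat_lit 7) (nat_lit 6) (nat_lit 6) L1285808 (by decide +kernel)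
theorem L1285810 : W_4 (nat_lit 12) (nat_lit 0x80014001a0008000000000000000000000000000) (nat_lit 0x0) (nat_lit 0x40007000340023000100078002f003e000c00000000000000) := Q_4 (nat_lit 108) (C_4 L1285486 (C_4 L536265 (C_4 L1285806 (C_4 L1284359 (C_4 L1285809 N_4))))) (by decide +kernel)
theorem L1285811 : W_4 (nat_lit 13) (nat_lit 0x80010001a0008000000000000000000000000000) (nat_lit 0x0) (nat_lit 0x10000e0007000fc00370027000100078002f003e000c00000000000000) := Q_4 (nat_lit 142) (C_4 L1285654 (C_4 L1285760 (C_4 L1285743 (C_4 L1284537 (C_4 L1284360 (C_4 L1285762 (C_4 L1285778 (C_4 L1285796 (C_4 L1285810 N_4))))))))) (by decide +kernel)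
theorem L1285812 : W_4 (nat_lit 8) (nat_lit 0x80010001a0008000000000000000000000000000) (nat_lit 0x0) (nat_lit 0xa0007000fc03b701ef800000078002c0012000000000000000000) := Q_4 (nat_lit 142) (C_4 L897042 (C_4 L1285796 (C_4 L1285676 (C_4 L1284339 (C_4 L1284556 (C_4 L1284365 N_4)))))) (by decide +kernel)
theorem L1285813 : W_4 (nat_lit 10) (nat_lit 0x80010001a0008000000000000000000000000000) (nat_lit 0x0) (nat_lit 0xa0007000f803b001ee0001c005800040000000000000000000000) := Q_4 (nat_lit 142) (C_4 L1285656 (C_4 L1285762 (C_4 L1284493 (C_4 L1284365 N_4)))) (by decide +kernel)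
theorem L1285814 : W_4 (nat_lit 10) (nat_lit 0x80010001a0008000000000000000000000000000) (nat_lit 0x0) (nat_lit 0x10000e0007000f803b701ee00010005000080000000000000000000000) := Q_4 (nat_lit 142) (C_4 L1285656 (C_4 L1285778 (C_4 L1284485 (C_4 L1284513 (C_4 L1284365 N_4))))) (by decide +kernel)
theorem L1285815 : W_4 (nat_lit 8) (nat_lit 0x80010001a0008000000000000000000000000000) (nat_lit 0x0) (nat_lit 0x10006c03b601ef800100078002c0012000000000000000000) := Q_4 (nat_lit 142) (C_4 L1285656 (C_4 L1285796 (C_4 L1285676 (C_4 L1284485 (C_4 L1284556 N_4))))) (by decide +kernel)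
theorem L1285816 : W_4 (nat_lit 13) (nat_lit 0x80010001a0008000000000000000000000000000) (nat_lit 0x0) (nat_lit 0x80076001f003b401ef000100078002f003e000c00000000000000) := Q_4 (nat_lit 142) (C_4 L1285656 (C_4 L1285810 (C_4 L1285680 (C_4 L1284485 (C_4 L1284559 (C_4 L897042 N_4)))))) (by decide +kernel)
theorem L1285817 : W_4 (nat_lit 15) (nat_lit 0x10001a0008000000000000000000000000000) (nat_lit 0x0) (nat_lit 0x8001c000e007fc01fe03bf01ef8001c0078002f003e000c00000000000000) := Q_4 (nat_lit 159) (C_4 L1285651 (C_4 L1285657 (C_4 L1285681 (C_4 L1285725 (C_4 L1285744 (C_4 L1285759 (C_4 L1285761 (C_4 L1285811 (C_4 L1285812 (C_4 L1285813 (C_4 L1285814 (C_4 L1285815 (C_4 L1285816 N_4))))))))))))) (by decide +kernel)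
theorem L1285818 : W_4 (nat_lit 16) (nat_lit 0x1000180008000000000000000000000000000) (nat_lit 0x0) (nat_lit 0x8001c000e007fc01fe03bf01ef8007c017c002f003e000e00000000000000) := Q_4 (nat_lit 125) (C_4 L1284401 (C_4 L587455 (C_4 L587454 (C_4 L1285817 N_4)))) (by decide +kernel)
theorem L1285819 : W_4 (nat_lit 17) (nat_lit 0x1000180000000000000000000000000000000) (nat_lit 0x0) (nat_lit 0x8001c000e007fc01fe03bf01ef8007c07ff03ef007e000e00000000000000) := Q_4 (nat_lit 111) (C_4 L568090 (C_4 L527683 (C_4 L1283934 (C_4 L568080 (C_4 L1285818 N_4))))) (by decide +kernel)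
theorem L1285823 : W_4 (nat_lit 2) (nat_lit 0x18003c000d000000000000000000000000000) (nat_lit 0x0) (nat_lit 0x200010000000000000000200000000000000000000000) := D_4 (nat_lit 160) (nat_lit 177) (nat_lit 93) (nat_lit 6) (nat_lit 7) (nat_lit 10) (nat_lit 5) (nat_lit 8) (nat_lit 5) (by decide +kernel)
theorem L1285824 : W_4 (nat_lit 3) (nat_lit 0x10003c000d000000000000000000000000000) (nat_lit 0x0) (nat_lit 0x200010000c00000000000200000000000000000000000) := T_4 (nat_lit 143) (nat_lit 142) (nat_lit 1) (nat_lit 10) (nat_lit 7) L1285823 (by decide +kernel)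
theorem L1285825 : W_4 (nat_lit 4) (nat_lit 0x10003c000c000000000000000000000000000) (nat_lit 0x0) (nat_lit 0x200010000c00000003000200000000000000000000000) := T_4 (nat_lit 108) (nat_lit 109) (nat_lit 3) (nat_lit 6) (nat_lit 6) L1285824 (by decide +kernel)
theorem L1286145 : W_4 (nat_lit 2) (nat_lit 0x200010003c0008000000000000000000000000000) (nat_lit 0x0) (nat_lit 0x4000400020000000000000000000) := D_4 (nat_lit 94) (nat_lit 110) (nat_lit 77) (nat_lit 6) (nat_lit 8) (nat_lit 9) (nat_lit 5) (nat_lit 9) (nat_lit 4) (by decide +kernel)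
theorem L1286340 : W_4 (nat_lit 5) (nat_lit 0x200010003c0016000000000000000000000000000) (nat_lit 0x0) (nat_lit 0x200010000800000000000600030001800000000000000) := T_4 (nat_lit 160) (nat_lit 177) (nat_lit 5) (nat_lit 8) (nat_lit 6) L1215255 (by decide +kernel)
theorem L1286341 : W_4 (nat_lit 6) (nat_lit 0x200010003c0014000000000000000000000000000) (nat_lit 0x0) (nat_lit 0x200010000800000003000600030001800000000000000) := T_4 (nat_lit 109) (nat_lit 108) (nat_lit 0) (nat_lit 10) (nat_lit 7) L1286340 (by decide +kernel)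
theorem L1286454 : W_4 (nat_lit 4) (nat_lit 0x10003c0004000000000000000000000000000) (nat_lit 0x0) (nat_lit 0x200010000c00000003000200000000000000000000000) := T_4 (nat_lit 109) (nat_lit 108) (nat_lit 0) (nat_lit 10) (nat_lit 7) L1215125 (by decide +kernel)
theorem L1286455 : W_4 (nat_lit 2) (nat_lit 0x6000000018003c001e000800040000000000000000000) (nat_lit 0x0) (nat_lit 0x400020001000000000000000) := D_4 (nat_lit 77) (nat_lit 94) (nat_lit 60) (nat_lit 5) (nat_lit 9) (nat_lit 4) (nat_lit 4) (nat_lit 10) (nat_lit 7) (by decide +kernel)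
theorem L1286456 : W_4 (nat_lit 3) (nat_lit 0x6000000018003c001e000800000000000000000000000) (nat_lit 0x0) (nat_lit 0x400060003000000000000000) := T_4 (nat_lit 78) (nat_lit 61) (nat_lit 5) (nat_lit 10) (nat_lit 3) L1286455 (by decide +kernel)
theorem L1286457 : W_4 (nat_lit 4) (nat_lit 0x6000000018003c0016000800000000000000000000000) (nat_lit 0x0) (nat_lit 0x8001400060003000000000000000) := T_4 (nat_lit 111) (nat_lit 96) (nat_lit 2) (nat_lit 7) (nat_lit 6) L1286456 (by decide +kernel)
theorem L1286458 : W_4 (nat_lit 5) (nat_lit 0x4000000018003c0016000800000000000000000000000) (nat_lit 0x0) (nat_lit 0x200010000000000008001400060003000000000000000) := T_4 (nat_lit 177) (nat_lit 160) (nat_lit 6) (nat_lit 7) (nat_lit 10) L1286457 (by decide +kernel)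
theorem L1286459 : W_4 (nat_lit 6) (nat_lit 0x18003c0016000800000000000000000000000) (nat_lit 0x0) (nat_lit 0x600030000000000008001400060003000000000000000) := T_4 (nat_lit 178) (nat_lit 161) (nat_lit 4) (nat_lit 8) (nat_lit 10) L1286458 (by decide +kernel)
theorem L1286460 : W_4 (nat_lit 7) (nat_lit 0x10003c0016000800000000000000000000000) (nat_lit 0x0) (nat_lit 0x600030000c00000008001400060003000000000000000) := T_4 (nat_lit 143) (nat_lit 142) (nat_lit 1) (nat_lit 10) (nat_lit 7) L1286459 (by decide +kernel)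
theorem L1286461 : W_4 (nat_lit 8) (nat_lit 0x10003c0014000800000000000000000000000) (nat_lit 0x0) (nat_lit 0x600030000c0000000b001400060003000000000000000) := T_4 (nat_lit 109) (nat_lit 108) (nat_lit 0) (nat_lit 10) (nat_lit 7) L1286460 (by decide +kernel)
theorem L1286462 : W_4 (nat_lit 2) (nat_lit 0x50003c0016000800000000000000000000000) (nat_lit 0x0) (nat_lit 0x8001000080000000000000000000) := D_4 (nat_lit 96) (nat_lit 111) (nat_lit 79) (nat_lit 2) (nat_lit 7) (nat_lit 6) (nat_lit 6) (nat_lit 10) (nat_lit 8) (by decide +kernel)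
theorem L1286463 : W_4 (nat_lit 3) (nat_lit 0x10003c0016000800000000000000000000000) (nat_lit 0x0) (nat_lit 0xc000000008001000080000000000000000000) := T_4 (nat_lit 146) (nat_lit 147) (nat_lit 3) (nat_lit 7) (nat_lit 7) L1286462 (by decide +kernel)
theorem L1286464 : W_4 (nat_lit 4) (nat_lit 0x10003c0014000800000000000000000000000) (nat_lit 0x0) (nat_lit 0xc00000000b001000080000000000000000000) := T_4 (nat_lit 109) (nat_lit 108) (nat_lit 0) (nat_lit 10) (nat_lit 7) L1286463 (by decide +kernel)
theorem L1286465 : W_4 (nat_lit 2) (nat_lit 0x50003c0016000c00000000000000000000000) (nat_lit 0x0) (nat_lit 0x400020000000000008000000000000000000000000000) := D_4 (nat_lit 161) (nat_lit 178) (nat_lit 111) (nat_lit 4) (nat_lit 8) (nat_lit 10) (nat_lit 6) (nat_lit 8) (nat_lit 9) (by decide +kernel)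
theorem L1286466 : W_4 (nat_lit 3) (nat_lit 0x50003c0016000800000000000000000000000) (nat_lit 0x0) (nat_lit 0x400020000000000008000400020000000000000000000) := T_4 (nat_lit 94) (nat_lit 77) (nat_lit 4) (nat_lit 10) (nat_lit 8) L1286465 (by decide +kernel)
theorem L1286467 : W_4 (nat_lit 4) (nat_lit 0x50003c0014000800000000000000000000000) (nat_lit 0x0) (nat_lit 0x40002000000000000b000400020000000000000000000) := T_4 (nat_lit 109) (nat_lit 108) (nat_lit 0) (nat_lit 10) (nat_lit 7) L1286466 (by decide +kernel)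
theorem L1286468 : W_4 (nat_lit 5) (nat_lit 0x10003c0014000800000000000000000000000) (nat_lit 0x0) (nat_lit 0x40002000c00000000b000400020000000000000000000) := T_4 (nat_lit 146) (nat_lit 147) (nat_lit 3) (nat_lit 7) (nat_lit 7) L1286467 (by decide +kernel)
theorem L1286469 : W_4 (nat_lit 9) (nat_lit 0x10003c0014000000000000000000000000000) (nat_lit 0x0) (nat_lit 0x60003000cc0000000b001c000e0007000000000000000) := Q_4 (nat_lit 95) (C_4 L188266 (C_4 L1286461 (C_4 L1286464 (C_4 L1286468 N_4)))) (by decide +kernel)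
theorem L1286470 : W_4 (nat_lit 10) (nat_lit 0x10003c0004000000000000000000000000000) (nat_lit 0x0) (nat_lit 0x60003000cc0000003b001c000e0007000000000000000) := T_4 (nat_lit 112) (nat_lit 113) (nat_lit 2) (nat_lit 7) (nat_lit 7) L1286469 (by decide +kernel)
theorem L1286471 : W_4 (nat_lit 9) (nat_lit 0x10003c0004000000000000000000000000000) (nat_lit 0x0) (nat_lit 0x60003000c800000033000600030001800000000000000) := T_4 (nat_lit 109) (nat_lit 108) (nat_lit 0) (nat_lit 10) (nat_lit 7) L1215123 (by decide +kernel)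
theorem L1286472 : W_4 (nat_lit 2) (nat_lit 0x200058003c0006000200000000000000000000000) (nat_lit 0x0) (nat_lit 0x8000400020000000000000000000) := D_4 (nat_lit 94) (nat_lit 77) (nat_lit 111) (nat_lit 6) (nat_lit 8) (nat_lit 8) (nat_lit 6) (nat_lit 8) (nat_lit 9) (by decide +kernel)
theorem L1286473 : W_4 (nat_lit 3) (nat_lit 0x58003c0006000200000000000000000000000) (nat_lit 0x0) (nat_lit 0x400020000000000008000400020000000000000000000) := T_4 (nat_lit 161) (nat_lit 178) (nat_lit 4) (nat_lit 8) (nat_lit 10) L1286472 (by decide +kernel)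
theorem L1286474 : W_4 (nat_lit 4) (nat_lit 0x58003c0006000000000000000000000000000) (nat_lit 0x0) (nat_lit 0x400020000000000008000600030000000000000000000) := T_4 (nat_lit 93) (nat_lit 76) (nat_lit 5) (nat_lit 8) (nat_lit 4) L1286473 (by decide +kernel)
theorem L1286475 : W_4 (nat_lit 5) (nat_lit 0x58003c0004000000000000000000000000000) (nat_lit 0x0) (nat_lit 0x40002000000000000b000600030000000000000000000) := T_4 (nat_lit 109) (nat_lit 108) (nat_lit 0) (nat_lit 10) (nat_lit 7) L1286474 (by decide +kernel)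
theorem L1286476 : W_4 (nat_lit 6) (nat_lit 0x50003c0004000000000000000000000000000) (nat_lit 0x0) (nat_lit 0x400020000c0000000b000600030000000000000000000) := T_4 (nat_lit 143) (nat_lit 142) (nat_lit 1) (nat_lit 10) (nat_lit 7) L1286475 (by decide +kernel)
theorem L1286477 : W_4 (nat_lit 7) (nat_lit 0x10003c0004000000000000000000000000000) (nat_lit 0x0) (nat_lit 0x40002000cc0000000b000600030000000000000000000) := T_4 (nat_lit 146) (nat_lit 147) (nat_lit 3) (nat_lit 7) (nat_lit 7) L1286476 (by decide +kernel)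
theorem L1286478 : W_4 (nat_lit 3) (nat_lit 0x10003c0004000000000000000000000000000) (nat_lit 0x0) (nat_lit 0x10000c00000000000200010000000000000000000) := T_4 (nat_lit 143) (nat_lit 142) (nat_lit 1) (nat_lit 10) (nat_lit 7) L1260296 (by decide +kernel)
theorem L1286479 : W_4 (nat_lit 2) (nat_lit 0x300050003c0016000400000000000000000000000) (nat_lit 0x0) (nat_lit 0xa00020000000000000000000) := D_4 (nat_lit 77) (nat_lit 93) (nat_lit 95) (nat_lit 6) (nat_lit 8) (nat_lit 8) (nat_lit 4) (nat_lit 10) (nat_lit 8) (by decide +kernel)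
theorem L1286480 : W_4 (nat_lit 3) (nat_lit 0x300050003c0016000000000000000000000000000) (nat_lit 0x0) (nat_lit 0x8000e00020000000000000000000) := T_4 (nat_lit 94) (nat_lit 111) (nat_lit 6) (nat_lit 8) (nat_lit 9) L1286479 (by decide +kernel)
theorem L1286481 : W_4 (nat_lit 4) (nat_lit 0x200050003c0016000000000000000000000000000) (nat_lit 0x0) (nat_lit 0x200010000000000008000e00020000000000000000000) := T_4 (nat_lit 160) (nat_lit 177) (nat_lit 5) (nat_lit 8) (nat_lit 6) L1286480 (by decide +kernel)
theorem L1286482 : W_4 (nat_lit 5) (nat_lit 0x50003c0016000000000000000000000000000) (nat_lit 0x0) (nat_lit 0x600030000000000008000e00020000000000000000000) := T_4 (nat_lit 161) (nat_lit 178) (nat_lit 4) (nat_lit 8) (nat_lit 10) L1286481 (by decide +kernel)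
theorem L1286483 : W_4 (nat_lit 6) (nat_lit 0x50003c0006000000000000000000000000000) (nat_lit 0x0) (nat_lit 0x600030000000000038000e00020000000000000000000) := T_4 (nat_lit 112) (nat_lit 113) (nat_lit 2) (nat_lit 7) (nat_lit 7) L1286482 (by decide +kernel)
theorem L1286484 : W_4 (nat_lit 7) (nat_lit 0x50003c0004000000000000000000000000000) (nat_lit 0x0) (nat_lit 0x60003000000000003b000e00020000000000000000000) := T_4 (nat_lit 109) (nat_lit 108) (nat_lit 0) (nat_lit 10) (nat_lit 7) L1286483 (by decide +kernel)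
theorem L1286485 : W_4 (nat_lit 8) (nat_lit 0x10003c0004000000000000000000000000000) (nat_lit 0x0) (nat_lit 0x60003000c00000003b000e00020000000000000000000) := T_4 (nat_lit 146) (nat_lit 147) (nat_lit 3) (nat_lit 7) (nat_lit 7) L1286484 (by decide +kernel)
theorem L1286486 : W_4 (nat_lit 11) (nat_lit 0x10003c0000000000000000000000000000000) (nat_lit 0x0) (nat_lit 0x60003000cc0000003f001e000f0007800000000000000) := Q_4 (nat_lit 110) (C_4 L1286454 (C_4 L1286470 (C_4 L1286471 (C_4 L1286477 (C_4 L1286478 (C_4 L1286485 N_4)))))) (by decide +kernel)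
theorem L1286501 : W_4 (nat_lit 2) (nat_lit 0x18003c001e000800020000000000000000000) (nat_lit 0x0) (nat_lit 0x40003000000000000000) := D_4 (nat_lit 78) (nat_lit 60) (nat_lit 61) (nat_lit 4) (nat_lit 10) (nat_lit 7) (nat_lit 5) (nat_lit 10) (nat_lit 3) (by decide +kernel)
theorem L1286502 : W_4 (nat_lit 3) (nat_lit 0x18003c001e000000020000000000000000000) (nat_lit 0x0) (nat_lit 0x1800040003000000000000000) := T_4 (nat_lit 95) (nat_lit 96) (nat_lit 2) (nat_lit 7) (nat_lit 6) L1286501 (by decide +kernel)
theorem L1286503 : W_4 (nat_lit 4) (nat_lit 0x18003c000e000000020000000000000000000) (nat_lit 0x0) (nat_lit 0x30001800040003000000000000000) := T_4 (nat_lit 112) (nat_lit 113) (nat_lit 2) (nat_lit 7) (nat_lit 7) L1286502 (by decide +kernel)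
theorem L1286504 : W_4 (nat_lit 5) (nat_lit 0x18003c000e000000000000000000000000000) (nat_lit 0x0) (nat_lit 0x30001c00060003000000000000000) := T_4 (nat_lit 77) (nat_lit 94) (nat_lit 5) (nat_lit 9) (nat_lit 4) L1286503 (by decide +kernel)
theorem L1286505 : W_4 (nat_lit 6) (nat_lit 0x18003c000c000000000000000000000000000) (nat_lit 0x0) (nat_lit 0x33001c00060003000000000000000) := T_4 (nat_lit 109) (nat_lit 108) (nat_lit 3) (nat_lit 6) (nat_lit 6) L1286504 (by decide +kernel)
theorem L1286506 : W_4 (nat_lit 7) (nat_lit 0x10003c000c000000000000000000000000000) (nat_lit 0x0) (nat_lit 0xc00000033001c00060003000000000000000) := T_4 (nat_lit 143) (nat_lit 142) (nat_lit 1) (nat_lit 10) (nat_lit 7) L1286505 (by decide +kernel)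
theorem L1286507 : W_4 (nat_lit 2) (nat_lit 0x10003c001e000800020000000000000000000) (nat_lit 0x0) (nat_lit 0x40003000000000000000) := D_4 (nat_lit 78) (nat_lit 60) (nat_lit 61) (nat_lit 4) (nat_lit 10) (nat_lit 7) (nat_lit 5) (nat_lit 10) (nat_lit 3) (by decide +kernel)
theorem L1286508 : W_4 (nat_lit 3) (nat_lit 0x10003c001e000000020000000000000000000) (nat_lit 0x0) (nat_lit 0x1800040003000000000000000) := T_4 (nat_lit 95) (nat_lit 96) (nat_lit 2) (nat_lit 7) (nat_lit 6) L1286507 (by decide +kernel)
theorem L1286509 : W_4 (nat_lit 4) (nat_lit 0x10003c000e000000020000000000000000000) (nat_lit 0x0) (nat_lit 0x30001800040003000000000000000) := T_4 (nat_lit 112) (nat_lit 113) (nat_lit 2) (nat_lit 7) (nat_lit 7) L1286508 (by decide +kernel)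
theorem L1286510 : W_4 (nat_lit 5) (nat_lit 0x10003c000e000000000000000000000000000) (nat_lit 0x0) (nat_lit 0x30001c00060003000000000000000) := T_4 (nat_lit 77) (nat_lit 94) (nat_lit 5) (nat_lit 9) (nat_lit 4) L1286509 (by decide +kernel)
theorem L1286511 : W_4 (nat_lit 6) (nat_lit 0x10003c000c000000000000000000000000000) (nat_lit 0x0) (nat_lit 0x33001c00060003000000000000000) := T_4 (nat_lit 109) (nat_lit 108) (nat_lit 3) (nat_lit 6) (nat_lit 6) L1286510 (by decide +kernel)
theorem L1286512 : W_4 (nat_lit 2) (nat_lit 0x18003c002c000000000000000000000000000) (nat_lit 0x0) (nat_lit 0x200010000000000000000200000000000000000000000) := D_4 (nat_lit 160) (nat_lit 177) (nat_lit 93) (nat_lit 6) (nat_lit 7) (nat_lit 10) (nat_lit 5) (nat_lit 8) (nat_lit 5) (by decide +kernel)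
theorem L1286513 : W_4 (nat_lit 3) (nat_lit 0x10003c002c000000000000000000000000000) (nat_lit 0x0) (nat_lit 0x200010000c00000000000200000000000000000000000) := T_4 (nat_lit 143) (nat_lit 142) (nat_lit 1) (nat_lit 10) (nat_lit 7) L1286512 (by decide +kernel)
theorem L1286514 : W_4 (nat_lit 4) (nat_lit 0x10003c000c000000000000000000000000000) (nat_lit 0x0) (nat_lit 0x200010000c00000030000200000000000000000000000) := T_4 (nat_lit 113) (nat_lit 112) (nat_lit 2) (nat_lit 7) (nat_lit 7) L1286513 (by decide +kernel)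
theorem L1286515 : W_4 (nat_lit 8) (nat_lit 0x10003c0008000000000000000000000000000) (nat_lit 0x0) (nat_lit 0x200010000c00000037001e00060003000000000000000) := Q_4 (nat_lit 110) (C_4 L1286506 (C_4 L1286511 (C_4 L1286514 (C_4 L1285825 N_4)))) (by decide +kernel)
theorem L1286516 : W_4 (nat_lit 2) (nat_lit 0x900078003c000a000000020000000000000000000) (nat_lit 0x0) (nat_lit 0x200000000000000004000200000000000000000000000) := D_4 (nat_lit 110) (nat_lit 93) (nat_lit 177) (nat_lit 6) (nat_lit 7) (nat_lit 9) (nat_lit 6) (nat_lit 7) (nat_lit 10) (by decide +kernel)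
theorem L1286517 : W_4 (nat_lit 3) (nat_lit 0x800078003c000a000000020000000000000000000) (nat_lit 0x0) (nat_lit 0x200018000000000004000200000000000000000000000) := T_4 (nat_lit 160) (nat_lit 159) (nat_lit 1) (nat_lit 10) (nat_lit 8) L1286516 (by decide +kernel)
theorem L1286518 : W_4 (nat_lit 4) (nat_lit 0x800058003c000a000000020000000000000000000) (nat_lit 0x0) (nat_lit 0x200118002000000004000200000000000000000000000) := T_4 (nat_lit 145) (nat_lit 164) (nat_lit 3) (nat_lit 7) (nat_lit 8) L1286517 (by decide +kernel)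
theorem L1286519 : W_4 (nat_lit 5) (nat_lit 0x58003c000a000000020000000000000000000) (nat_lit 0x0) (nat_lit 0x1200198002000000004000200000000000000000000000) := T_4 (nat_lit 163) (nat_lit 180) (nat_lit 4) (nat_lit 10) (nat_lit 10) L1286518 (by decide +kernel)
theorem L1286520 : W_4 (nat_lit 6) (nat_lit 0x18003c000a000000020000000000000000000) (nat_lit 0x0) (nat_lit 0x120019800e000000004000200000000000000000000000) := T_4 (nat_lit 146) (nat_lit 147) (nat_lit 3) (nat_lit 7) (nat_lit 7) L1286519 (by decide +kernel)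
theorem L1286521 : W_4 (nat_lit 7) (nat_lit 0x10003c000a000000020000000000000000000) (nat_lit 0x0) (nat_lit 0x120019800ec00000004000200000000000000000000000) := T_4 (nat_lit 143) (nat_lit 142) (nat_lit 1) (nat_lit 10) (nat_lit 7) L1286520 (by decide +kernel)
theorem L1286522 : W_4 (nat_lit 8) (nat_lit 0x10003c0008000000020000000000000000000) (nat_lit 0x0) (nat_lit 0x120019800ec00000007000200000000000000000000000) := T_4 (nat_lit 109) (nat_lit 108) (nat_lit 0) (nat_lit 10) (nat_lit 7) L1286521 (by decide +kernel)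
theorem L1286523 : W_4 (nat_lit 9) (nat_lit 0x10003c0008000000000000000000000000000) (nat_lit 0x0) (nat_lit 0x120019800ec00000007000600020000000000000000000) := T_4 (nat_lit 77) (nat_lit 94) (nat_lit 5) (nat_lit 9) (nat_lit 4) L1286522 (by decide +kernel)
theorem L1286524 : W_4 (nat_lit 10) (nat_lit 0x10003c0000000000000000000000000000000) (nat_lit 0x0) (nat_lit 0x320019800ec0000003f001e00060003000000000000000) := Q_4 (nat_lit 111) (C_4 L1286515 (C_4 L802128 (C_4 L568057 (C_4 L1286523 N_4)))) (by decide +kernel)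
theorem L1286525 : W_4 (nat_lit 5) (nat_lit 0x10003c0008000000000000000000000000000) (nat_lit 0x0) (nat_lit 0x100008000e000000003000400020000000000000000000) := T_4 (nat_lit 146) (nat_lit 147) (nat_lit 3) (nat_lit 7) (nat_lit 7) L610845 (by decide +kernel)
theorem L1286526 : W_4 (nat_lit 8) (nat_lit 0x10003c0000000000000000000000000000000) (nat_lit 0x0) (nat_lit 0x14000a000e00000003f001c000e0006000000000000000) := Q_4 (nat_lit 111) (C_4 L802008 (C_4 L568057 (C_4 L802012 (C_4 L1286525 (C_4 L614211 N_4))))) (by decide +kernel)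
theorem L1287177 : W_4 (nat_lit 2) (nat_lit 0x300058003c0016001c00000000000000000000000) (nat_lit 0x0) (nat_lit 0x100008002000000000000000000000000000000000000) := D_4 (nat_lit 159) (nat_lit 145) (nat_lit 176) (nat_lit 1) (nat_lit 10) (nat_lit 8) (nat_lit 5) (nat_lit 7) (nat_lit 6) (by decide +kernel)
theorem L1287178 : W_4 (nat_lit 3) (nat_lit 0x200058003c0016001c00000000000000000000000) (nat_lit 0x0) (nat_lit 0x300018002000000000000000000000000000000000000) := T_4 (nat_lit 160) (nat_lit 177) (nat_lit 6) (nat_lit 7) (nat_lit 10) L1287177 (by decide +kernel)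
theorem L1287179 : W_4 (nat_lit 4) (nat_lit 0x200058003c0012001c00000000000000000000000) (nat_lit 0x0) (nat_lit 0x300018002000000004000200000000000000000000000) := T_4 (nat_lit 110) (nat_lit 93) (nat_lit 1) (nat_lit 11) (nat_lit 5) L1287178 (by decide +kernel)
theorem L1287180 : W_4 (nat_lit 5) (nat_lit 0x200050003c0012001c00000000000000000000000) (nat_lit 0x0) (nat_lit 0x300018002c00000004000200000000000000000000000) := T_4 (nat_lit 143) (nat_lit 142) (nat_lit 1) (nat_lit 10) (nat_lit 7) L1287179 (by decide +kernel)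
theorem L1287181 : W_4 (nat_lit 6) (nat_lit 0x200050003c0010001c00000000000000000000000) (nat_lit 0x0) (nat_lit 0x300018002c00000007000200000000000000000000000) := T_4 (nat_lit 109) (nat_lit 108) (nat_lit 0) (nat_lit 10) (nat_lit 7) L1287180 (by decide +kernel)
theorem L1287182 : W_4 (nat_lit 7) (nat_lit 0x200050003c0010001800000000000000000000000) (nat_lit 0x0) (nat_lit 0x300018002c00000007000600020000000000000000000) := T_4 (nat_lit 94) (nat_lit 77) (nat_lit 4) (nat_lit 10) (nat_lit 8) L1287181 (by decide +kernel)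
theorem L1287183 : W_4 (nat_lit 8) (nat_lit 0x200050003c0010000800000000000000000000000) (nat_lit 0x0) (nat_lit 0x300018002c000000070016000a0000000000000000000) := T_4 (nat_lit 96) (nat_lit 79) (nat_lit 6) (nat_lit 10) (nat_lit 8) L1287182 (by decide +kernel)
theorem L1287184 : W_4 (nat_lit 9) (nat_lit 0x200010003c0010000800000000000000000000000) (nat_lit 0x0) (nat_lit 0x30001800ec000000070016000a0000000000000000000) := T_4 (nat_lit 146) (nat_lit 147) (nat_lit 3) (nat_lit 7) (nat_lit 7) L1287183 (by decide +kernel)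
theorem L1287185 : W_4 (nat_lit 2) (nat_lit 0x200010003c0012000800060000000000000000000) (nat_lit 0x0) (nat_lit 0xc000000000000400000000000000000000000) := D_4 (nat_lit 146) (nat_lit 147) (nat_lit 94) (nat_lit 3) (nat_lit 7) (nat_lit 7) (nat_lit 4) (nat_lit 10) (nat_lit 8) (by decide +kernel)
theorem L1287186 : W_4 (nat_lit 3) (nat_lit 0x200010003c0012000800040000000000000000000) (nat_lit 0x0) (nat_lit 0xc000000000000400020001000000000000000) := T_4 (nat_lit 77) (nat_lit 60) (nat_lit 4) (nat_lit 10) (nat_lit 7) L1287185 (by decide +kernel)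
theorem L1287187 : W_4 (nat_lit 4) (nat_lit 0x200010003c0012000800000000000000000000000) (nat_lit 0x0) (nat_lit 0xe000000000000400060001000000000000000) := T_4 (nat_lit 78) (nat_lit 145) (nat_lit 5) (nat_lit 10) (nat_lit 4) L1287186 (by decide +kernel)
theorem L1287188 : W_4 (nat_lit 5) (nat_lit 0x200010003c0010000800000000000000000000000) (nat_lit 0x0) (nat_lit 0xe000000003000400060001000000000000000) := T_4 (nat_lit 109) (nat_lit 108) (nat_lit 0) (nat_lit 10) (nat_lit 7) L1287187 (by decide +kernel)
theorem L1287189 : W_4 (nat_lit 10) (nat_lit 0x200010003c0010000000000000000000000000000) (nat_lit 0x0) (nat_lit 0x30001800ec00000007001e000e0007000280000000000) := Q_4 (nat_lit 95) (C_4 L504801 (C_4 L1167949 (C_4 L318630 (C_4 L1287184 (C_4 L1287188 N_4))))) (by decide +kernel)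
theorem L1287190 : W_4 (nat_lit 11) (nat_lit 0x200010003c0000000000000000000000000000000) (nat_lit 0x0) (nat_lit 0x30001800ec00000037001e000e0007000280000000000) := T_4 (nat_lit 112) (nat_lit 113) (nat_lit 2) (nat_lit 7) (nat_lit 7) L1287189 (by decide +kernel)
theorem L1287191 : W_4 (nat_lit 2) (nat_lit 0xe000300058003c0010000000000000000000000000000) (nat_lit 0x0) (nat_lit 0xc002000000000000000000000000000000000000) := D_4 (nat_lit 159) (nat_lit 158) (nat_lit 145) (nat_lit 3) (nat_lit 5) (nat_lit 9) (nat_lit 1) (nat_lit 10) (nat_lit 8) (by decide +kernel)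
theorem L1287192 : W_4 (nat_lit 3) (nat_lit 0x6000300058003c0010000000000000000000000000000) (nat_lit 0x0) (nat_lit 0x1000080000c002000000000000000000000000000000000000) := T_4 (nat_lit 179) (nat_lit 196) (nat_lit 7) (nat_lit 8) (nat_lit 7) L1287191 (by decide +kernel)
theorem L1287193 : W_4 (nat_lit 4) (nat_lit 0x6000200058003c0010000000000000000000000000000) (nat_lit 0x0) (nat_lit 0x1000080001c002000000004000000000000000000000000000) := T_4 (nat_lit 160) (nat_lit 110) (nat_lit 6) (nat_lit 7) (nat_lit 10) L1287192 (by decide +kernel)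
theorem L1287194 : W_4 (nat_lit 5) (nat_lit 0x4000200058003c0010000000000000000000000000000) (nat_lit 0x0) (nat_lit 0x14000a0001c002000000004000000000000000000000000000) := T_4 (nat_lit 177) (nat_lit 194) (nat_lit 5) (nat_lit 8) (nat_lit 7) L1287193 (by decide +kernel)
theorem L1287195 : W_4 (nat_lit 6) (nat_lit 0x200058003c0010000000000000000000000000000) (nat_lit 0x0) (nat_lit 0x1c000e0001c002000000004000000000000000000000000000) := T_4 (nat_lit 178) (nat_lit 195) (nat_lit 4) (nat_lit 8) (nat_lit 11) L1287194 (by decide +kernel)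
theorem L1287196 : W_4 (nat_lit 7) (nat_lit 0x200050003c0010000000000000000000000000000) (nat_lit 0x0) (nat_lit 0x1c000e0001c002c00000004000000000000000000000000000) := T_4 (nat_lit 143) (nat_lit 142) (nat_lit 1) (nat_lit 10) (nat_lit 7) L1287195 (by decide +kernel)
theorem L1287197 : W_4 (nat_lit 8) (nat_lit 0x200050003c0000000000000000000000000000000) (nat_lit 0x0) (nat_lit 0x1c000e0001c002c00000034000000000000000000000000000) := T_4 (nat_lit 112) (nat_lit 113) (nat_lit 2) (nat_lit 7) (nat_lit 7) L1287196 (by decide +kernel)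
theorem L1287198 : W_4 (nat_lit 9) (nat_lit 0x200010003c0000000000000000000000000000000) (nat_lit 0x0) (nat_lit 0x1c000e0001c00ec00000034000000000000000000000000000) := T_4 (nat_lit 146) (nat_lit 147) (nat_lit 3) (nat_lit 7) (nat_lit 7) L1287197 (by decide +kernel)
theorem L1287199 : W_4 (nat_lit 12) (nat_lit 0x10003c0000000000000000000000000000000) (nat_lit 0x0) (nat_lit 0x28001c000f0003c00ec00000037001e000e0007000280000000000) := Q_4 (nat_lit 161) (C_4 L557559 (C_4 L1287190 (C_4 L504562 (C_4 L1287198 N_4)))) (by decide +kernel)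
theorem L1287200 : W_4 (nat_lit 3) (nat_lit 0x200010003c0004000000000000000000000000000) (nat_lit 0x0) (nat_lit 0x10000c00000000000200010000000000000000000) := T_4 (nat_lit 143) (nat_lit 142) (nat_lit 1) (nat_lit 10) (nat_lit 7) L1261194 (by decide +kernel)
theorem L1287201 : W_4 (nat_lit 2) (nat_lit 0x380018003c000e000000000000000000000000000) (nat_lit 0x0) (nat_lit 0x6002000000000000000000000000000000000000) := D_4 (nat_lit 158) (nat_lit 145) (nat_lit 157) (nat_lit 2) (nat_lit 5) (nat_lit 9) (nat_lit 2) (nat_lit 4) (nat_lit 9) (by decide +kernel)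
theorem L1287202 : W_4 (nat_lit 3) (nat_lit 0x300018003c000e000000000000000000000000000) (nat_lit 0x0) (nat_lit 0x10000e002000000000000000000000000000000000000) := T_4 (nat_lit 159) (nat_lit 176) (nat_lit 5) (nat_lit 7) (nat_lit 6) L1287201 (by decide +kernel)
theorem L1287203 : W_4 (nat_lit 4) (nat_lit 0x200018003c000e000000000000000000000000000) (nat_lit 0x0) (nat_lit 0x30001e002000000000000000000000000000000000000) := T_4 (nat_lit 160) (nat_lit 177) (nat_lit 6) (nat_lit 7) (nat_lit 10) L1287202 (by decide +kernel)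
theorem L1287204 : W_4 (nat_lit 5) (nat_lit 0x200010003c000e000000000000000000000000000) (nat_lit 0x0) (nat_lit 0x30001e002c00000000000000000000000000000000000) := T_4 (nat_lit 143) (nat_lit 142) (nat_lit 1) (nat_lit 10) (nat_lit 7) L1287203 (by decide +kernel)
theorem L1287205 : W_4 (nat_lit 6) (nat_lit 0x200010003c000c000000000000000000000000000) (nat_lit 0x0) (nat_lit 0x30001e002c00000003000000000000000000000000000) := T_4 (nat_lit 109) (nat_lit 108) (nat_lit 3) (nat_lit 6) (nat_lit 6) L1287204 (by decide +kernel)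
theorem L1287206 : W_4 (nat_lit 7) (nat_lit 0x200010003c0004000000000000000000000000000) (nat_lit 0x0) (nat_lit 0x30001e002c0000000b000400000000000000000000000) := T_4 (nat_lit 111) (nat_lit 94) (nat_lit 6) (nat_lit 8) (nat_lit 9) L1287205 (by decide +kernel)
theorem L1287207 : W_4 (nat_lit 7) (nat_lit 0x200010003c0004000000000000000000000000000) (nat_lit 0x0) (nat_lit 0x200010000800000033000600030001800000000000000) := T_4 (nat_lit 112) (nat_lit 113) (nat_lit 2) (nat_lit 7) (nat_lit 7) L1286341 (by decide +kernel)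
theorem L1287208 : W_4 (nat_lit 2) (nat_lit 0x200018003c001e000800010000000000000000000) (nat_lit 0x0) (nat_lit 0x2000000000000000040002000000000000000) := D_4 (nat_lit 78) (nat_lit 61) (nat_lit 145) (nat_lit 5) (nat_lit 10) (nat_lit 3) (nat_lit 5) (nat_lit 10) (nat_lit 4) (by decide +kernel)
theorem L1287209 : W_4 (nat_lit 3) (nat_lit 0x200018003c001e000000010000000000000000000) (nat_lit 0x0) (nat_lit 0x2000000000001800040002000000000000000) := T_4 (nat_lit 95) (nat_lit 96) (nat_lit 2) (nat_lit 7) (nat_lit 6) L1287208 (by decide +kernel)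
theorem L1287210 : W_4 (nat_lit 4) (nat_lit 0x200018003c001c000000010000000000000000000) (nat_lit 0x0) (nat_lit 0x2000000003001800040002000000000000000) := T_4 (nat_lit 109) (nat_lit 108) (nat_lit 3) (nat_lit 6) (nat_lit 6) L1287209 (by decide +kernel)
theorem L1287211 : W_4 (nat_lit 5) (nat_lit 0x200018003c0014000000010000000000000000000) (nat_lit 0x0) (nat_lit 0x200000000b001c00040002000000000000000) := T_4 (nat_lit 111) (nat_lit 94) (nat_lit 6) (nat_lit 8) (nat_lit 9) L1287210 (by decide +kernel)
theorem L1287212 : W_4 (nat_lit 6) (nat_lit 0x200018003c0014000000000000000000000000000) (nat_lit 0x0) (nat_lit 0x200000000b001e00050002000000000000000) := T_4 (nat_lit 76) (nat_lit 93) (nat_lit 5) (nat_lit 8) (nat_lit 4) L1287211 (by decide +kernel)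
theorem L1287213 : W_4 (nat_lit 7) (nat_lit 0x200018003c0004000000000000000000000000000) (nat_lit 0x0) (nat_lit 0x200000003b001e00050002000000000000000) := T_4 (nat_lit 112) (nat_lit 113) (nat_lit 2) (nat_lit 7) (nat_lit 7) L1287212 (by decide +kernel)
theorem L1287214 : W_4 (nat_lit 8) (nat_lit 0x200010003c0004000000000000000000000000000) (nat_lit 0x0) (nat_lit 0x2c0000003b001e00050002000000000000000) := T_4 (nat_lit 143) (nat_lit 142) (nat_lit 1) (nat_lit 10) (nat_lit 7) L1287213 (by decide +kernel)
theorem L1287215 : W_4 (nat_lit 4) (nat_lit 0x300010003c0016000000000000000000000000000) (nat_lit 0x0) (nat_lit 0x2000000008001c00040002000000000000000) := T_4 (nat_lit 111) (nat_lit 94) (nat_lit 6) (nat_lit 8) (nat_lit 9) L611138 (by decide +kernel)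
theorem L1287216 : W_4 (nat_lit 5) (nat_lit 0x200010003c0016000000000000000000000000000) (nat_lit 0x0) (nat_lit 0x200010002000000008001c00040002000000000000000) := T_4 (nat_lit 160) (nat_lit 177) (nat_lit 5) (nat_lit 8) (nat_lit 6) L1287215 (by decide +kernel)
theorem L1287217 : W_4 (nat_lit 6) (nat_lit 0x200010003c0006000000000000000000000000000) (nat_lit 0x0) (nat_lit 0x200010002000000038001c00040002000000000000000) := T_4 (nat_lit 112) (nat_lit 113) (nat_lit 2) (nat_lit 7) (nat_lit 7) L1287216 (by decide +kernel)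
theorem L1287218 : W_4 (nat_lit 7) (nat_lit 0x200010003c0004000000000000000000000000000) (nat_lit 0x0) (nat_lit 0x20001000200000003b001c00040002000000000000000) := T_4 (nat_lit 109) (nat_lit 108) (nat_lit 0) (nat_lit 10) (nat_lit 7) L1287217 (by decide +kernel)
theorem L1287219 : W_4 (nat_lit 9) (nat_lit 0x200010003c0000000000000000000000000000000) (nat_lit 0x0) (nat_lit 0x30001e002c0000003f001e00070003800000000000000) := Q_4 (nat_lit 110) (C_4 L1287200 (C_4 L1287206 (C_4 L1287207 (C_4 L1287214 (C_4 L1287218 N_4))))) (by decide +kernel)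
theorem L1287220 : W_4 (nat_lit 3) (nat_lit 0x200010003c0000000000000000000000000000000) (nat_lit 0x0) (nat_lit 0x8000400000002800000008000000000000000000000000000) := T_4 (nat_lit 178) (nat_lit 111) (nat_lit 6) (nat_lit 8) (nat_lit 10) L1167854 (by decide +kernel)
theorem L1287221 : W_4 (nat_lit 10) (nat_lit 0x10003c0000000000000000000000000000000) (nat_lit 0x0) (nat_lit 0x800070003e002c0000003f001e00070003800000000000000) := Q_4 (nat_lit 161) (C_4 L802000 (C_4 L1287219 (C_4 L557559 (C_4 L1287220 N_4)))) (by decide +kernel)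
theorem L1287222 : W_4 (nat_lit 2) (nat_lit 0xb00078003c000a000000000000000000000000000) (nat_lit 0x0) (nat_lit 0x4000200000000000000004000000000000000000000000000) := D_4 (nat_lit 177) (nat_lit 194) (nat_lit 110) (nat_lit 6) (nat_lit 7) (nat_lit 11) (nat_lit 6) (nat_lit 7) (nat_lit 10) (by decide +kernel)
theorem L1287223 : W_4 (nat_lit 3) (nat_lit 0xa00078003c000a000000000000000000000000000) (nat_lit 0x0) (nat_lit 0x4000200018000000000004000000000000000000000000000) := T_4 (nat_lit 160) (nat_lit 159) (nat_lit 1) (nat_lit 10) (nat_lit 8) L1287222 (by decide +kernel)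
theorem L1287224 : W_4 (nat_lit 4) (nat_lit 0xa00058003c000a000000000000000000000000000) (nat_lit 0x0) (nat_lit 0x4000200118002000000004000000000000000000000000000) := T_4 (nat_lit 145) (nat_lit 164) (nat_lit 3) (nat_lit 7) (nat_lit 8) L1287223 (by decide +kernel)
theorem L1287225 : W_4 (nat_lit 5) (nat_lit 0xa00058003c0008000000000000000000000000000) (nat_lit 0x0) (nat_lit 0x4000200118002000000007000000000000000000000000000) := T_4 (nat_lit 109) (nat_lit 108) (nat_lit 0) (nat_lit 10) (nat_lit 7) L1287224 (by decide +kernel)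
theorem L1287226 : W_4 (nat_lit 6) (nat_lit 0x200058003c0008000000000000000000000000000) (nat_lit 0x0) (nat_lit 0x4001200198002000000007000000000000000000000000000) := T_4 (nat_lit 163) (nat_lit 180) (nat_lit 4) (nat_lit 10) (nat_lit 10) L1287225 (by decide +kernel)
theorem L1287227 : W_4 (nat_lit 7) (nat_lit 0x200018003c0008000000000000000000000000000) (nat_lit 0x0) (nat_lit 0x400120019800e000000007000000000000000000000000000) := T_4 (nat_lit 146) (nat_lit 147) (nat_lit 3) (nat_lit 7) (nat_lit 7) L1287226 (by decide +kernel)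
theorem L1287228 : W_4 (nat_lit 8) (nat_lit 0x200010003c0008000000000000000000000000000) (nat_lit 0x0) (nat_lit 0x400120019800ec00000007000000000000000000000000000) := T_4 (nat_lit 143) (nat_lit 142) (nat_lit 1) (nat_lit 10) (nat_lit 7) L1287227 (by decide +kernel)
theorem L1287229 : W_4 (nat_lit 9) (nat_lit 0x200010003c0000000000000000000000000000000) (nat_lit 0x0) (nat_lit 0x400120019800ec0000000f000400020000000000000000000) := Q_4 (nat_lit 111) (C_4 L1286145 (C_4 L1287228 (C_4 L586321 N_4))) (by decide +kernel)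
theorem L1287230 : W_4 (nat_lit 10) (nat_lit 0x10003c0000000000000000000000000000000) (nat_lit 0x0) (nat_lit 0xc0016001b800ec0000000f000400020000000000000000000) := Q_4 (nat_lit 161) (C_4 L1287220 (C_4 L802000 (C_4 L1287229 (C_4 L557559 N_4)))) (by decide +kernel)
theorem L1287234 : W_4 (nat_lit 8) (nat_lit 0x10003c0000000000000000000000000000000) (nat_lit 0x0) (nat_lit 0x28001e000f0003800ec0000003f000200000000000000000000000) := Q_4 (nat_lit 161) (C_4 L1287220 (C_4 L802015 (C_4 L1287233 N_4))) (by decide +kernel)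
theorem L1287235 : W_4 (nat_lit 13) (nat_lit 0x1000380000000000000000000000000000000) (nat_lit 0x0) (nat_lit 0x28001e003f001be00ec0004003f001e000f0007800280000000000) := Q_4 (nat_lit 126) (C_4 L1176593 (C_4 L1286486 (C_4 L1286524 (C_4 L1286526 (C_4 L1287199 (C_4 L1287221 (C_4 L1287230 (C_4 L1287234 N_4)))))))) (by decide +kernel)
theorem L1287236 : W_4 (nat_lit 14) (nat_lit 0x1000180000000000000000000000000000000) (nat_lit 0x0) (nat_lit 0xa8007e003f001be07ee03e401ff001e000f0007800280000000000) := Q_4 (nat_lit 129) (C_4 L822520 (C_4 L822519 (C_4 L820130 (C_4 L1287235 (C_4 L822518 N_4))))) (by decide +kernel)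
theorem L1287237 : W_4 (nat_lit 5) (nat_lit 0x1000380008000000020000000000000000000) (nat_lit 0x0) (nat_lit 0x38800c000e0000000000000000000000000000) := T_4 (nat_lit 130) (nat_lit 143) (nat_lit 1) (nat_lit 11) (nat_lit 7) L530839 (by decide +kernel)
theorem L1287238 : W_4 (nat_lit 6) (nat_lit 0x1000380008000000000000000000000000000) (nat_lit 0x0) (nat_lit 0x38800c000e0000400020000000000000000000) := T_4 (nat_lit 77) (nat_lit 94) (nat_lit 5) (nat_lit 9) (nat_lit 4) L1287237 (by decide +kernel)
theorem L1287248 : W_4 (nat_lit 3) (nat_lit 0x1000380008000000000000000000000000000) (nat_lit 0x0) (nat_lit 0x800c00006000000000000000000000000000) := T_4 (nat_lit 130) (nat_lit 143) (nat_lit 1) (nat_lit 11) (nat_lit 7) L605262 (by decide +kernel)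
theorem L1287250 : W_4 (nat_lit 4) (nat_lit 0x3000100018000c000000000000000000000000000) (nat_lit 0x0) (nat_lit 0xe00640000000200000000000000000000000) := T_4 (nat_lit 143) (nat_lit 93) (nat_lit 5) (nat_lit 8) (nat_lit 5) L1144569 (by decide +kernel)
theorem L1287251 : W_4 (nat_lit 5) (nat_lit 0x2000100018000c000000000000000000000000000) (nat_lit 0x0) (nat_lit 0x200010000e00640000000200000000000000000000000) := T_4 (nat_lit 160) (nat_lit 177) (nat_lit 5) (nat_lit 8) (nat_lit 6) L1287250 (by decide +kernel)
theorem L1287252 : W_4 (nat_lit 6) (nat_lit 0x20001000180008000000000000000000000000000) (nat_lit 0x0) (nat_lit 0x200010000e00640004000600000000000000000000000) := T_4 (nat_lit 110) (nat_lit 94) (nat_lit 6) (nat_lit 8) (nat_lit 9) L1287251 (by decide +kernel)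
theorem L1287253 : W_4 (nat_lit 7) (nat_lit 0x1000180008000000000000000000000000000) (nat_lit 0x0) (nat_lit 0x600030000e00640004000600000000000000000000000) := T_4 (nat_lit 161) (nat_lit 178) (nat_lit 6) (nat_lit 8) (nat_lit 10) L1287252 (by decide +kernel)
theorem L1287254 : W_4 (nat_lit 2) (nat_lit 0x1000380018000000000000000000000000000) (nat_lit 0x0) (nat_lit 0x40060000000000000000000000000000) := D_4 (nat_lit 113) (nat_lit 114) (nat_lit 126) (nat_lit 1) (nat_lit 12) (nat_lit 6) (nat_lit 2) (nat_lit 7) (nat_lit 7) (by decide +kernel)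
theorem L1288538 : W_4 (nat_lit 2) (nat_lit 0x18001c0008000000000000000000000000000) (nat_lit 0x0) (nat_lit 0x400600000000000000000000000000000000) := D_4 (nat_lit 129) (nat_lit 130) (nat_lit 142) (nat_lit 1) (nat_lit 11) (nat_lit 7) (nat_lit 1) (nat_lit 10) (nat_lit 7) (by decide +kernel)
theorem L1295112 : W_4 (nat_lit 2) (nat_lit 0x400000001000780008000000000000000000000000000) (nat_lit 0x0) (nat_lit 0x800006000000000000000000000000000) := D_4 (nat_lit 110) (nat_lit 131) (nat_lit 109) (nat_lit 0) (nat_lit 12) (nat_lit 7) (nat_lit 0) (nat_lit 11) (nat_lit 7) (by decide +kernel)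
theorem L1295113 : W_4 (nat_lit 3) (nat_lit 0x400000001000580008000000000000000000000000000) (nat_lit 0x0) (nat_lit 0x800a00006000000000000000000000000000) := T_4 (nat_lit 129) (nat_lit 143) (nat_lit 1) (nat_lit 11) (nat_lit 7) L1295112 (by decide +kernel)
theorem L1295114 : W_4 (nat_lit 4) (nat_lit 0x1000580008000000000000000000000000000) (nat_lit 0x0) (nat_lit 0x400020000800a00006000000000000000000000000000) := T_4 (nat_lit 178) (nat_lit 161) (nat_lit 6) (nat_lit 8) (nat_lit 10) L1295113 (by decide +kernel)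
theorem L1295115 : W_4 (nat_lit 5) (nat_lit 0x1000580008000000000000000000000000000) (nat_lit 0x0) (nat_lit 0x1c800240007000000000000000000000000000) := T_4 (nat_lit 129) (nat_lit 143) (nat_lit 1) (nat_lit 11) (nat_lit 7) L608227 (by decide +kernel)
theorem L1295116 : W_4 (nat_lit 10) (nat_lit 0x1000580008000000000000000000000000000) (nat_lit 0x0) (nat_lit 0x24001200fc803a000f0000000000000000000000000000) := T_4 (nat_lit 129) (nat_lit 143) (nat_lit 1) (nat_lit 11) (nat_lit 7) L605219 (by decide +kernel)
theorem L1296664 : W_4 (nat_lit 5) (nat_lit 0x10001e0008000000000000000000000000000) (nat_lit 0x0) (nat_lit 0x400020000800018004e00000000000000000000000000) := T_4 (nat_lit 124) (nat_lit 110) (nat_lit 2) (nat_lit 5) (nat_lit 7) L822700 (by decide +kernel)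
theorem L1296668 : W_4 (nat_lit 3) (nat_lit 0x10001e0008000000000000000000000000000) (nat_lit 0x0) (nat_lit 0x700010004000000000000000000000000000) := T_4 (nat_lit 124) (nat_lit 110) (nat_lit 2) (nat_lit 5) (nat_lit 7) L341989 (by decide +kernel)
theorem L1307462 : W_4 (nat_lit 2) (nat_lit 0x4000000018005e0008000000000000000000000000000) (nat_lit 0x0) (nat_lit 0x18004000000000000000000000000000) := D_4 (nat_lit 124) (nat_lit 110) (nat_lit 123) (nat_lit 2) (nat_lit 5) (nat_lit 7) (nat_lit 3) (nat_lit 4) (nat_lit 7) (by decide +kernel)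
theorem L1307463 : W_4 (nat_lit 3) (nat_lit 0x4000000018005c0008000000000000000000000000000) (nat_lit 0x0) (nat_lit 0x38014000000000000000000000000000) := T_4 (nat_lit 125) (nat_lit 112) (nat_lit 2) (nat_lit 6) (nat_lit 7) L1307462 (by decide +kernel)
theorem L1307464 : W_4 (nat_lit 4) (nat_lit 0x4000000018001c0008000000000000000000000000000) (nat_lit 0x0) (nat_lit 0x638014000000000000000000000000000) := T_4 (nat_lit 130) (nat_lit 129) (nat_lit 1) (nat_lit 11) (nat_lit 7) L1307463 (by decide +kernel)
theorem L1308118 : W_4 (nat_lit 2) (nat_lit 0x30001c0058003f001000000000000000000000000) (nat_lit 0x0) (nat_lit 0x200000000c0000000000000000000000) := D_4 (nat_lit 91) (nat_lit 90) (nat_lit 125) (nat_lit 0) (nat_lit 9) (nat_lit 6) (nat_lit 7) (nat_lit 6) (nat_lit 5) (by decide +kernel)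
theorem L1308119 : W_4 (nat_lit 3) (nat_lit 0x3000180058003f001000000000000000000000000) (nat_lit 0x0) (nat_lit 0x6000200000000c0000000000000000000000) := T_4 (nat_lit 142) (nat_lit 141) (nat_lit 2) (nat_lit 5) (nat_lit 8) L1308118 (by decide +kernel)
theorem L1308120 : W_4 (nat_lit 4) (nat_lit 0x3000180058003e001000000000000000000000000) (nat_lit 0x0) (nat_lit 0x6000200018000c0000000000000000000000) := T_4 (nat_lit 108) (nat_lit 107) (nat_lit 3) (nat_lit 5) (nat_lit 6) L1308119 (by decide +kernel)
theorem L1308121 : W_4 (nat_lit 5) (nat_lit 0x3000100058003e001000000000000000000000000) (nat_lit 0x0) (nat_lit 0xe000200018002c0000000000000000000000) := T_4 (nat_lit 143) (nat_lit 93) (nat_lit 5) (nat_lit 8) (nat_lit 5) L1308120 (by decide +kernel)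
theorem L1308122 : W_4 (nat_lit 6) (nat_lit 0x2000100058003e001000000000000000000000000) (nat_lit 0x0) (nat_lit 0x200010000e000200018002c0000000000000000000000) := T_4 (nat_lit 160) (nat_lit 177) (nat_lit 5) (nat_lit 8) (nat_lit 6) L1308121 (by decide +kernel)
theorem L1308123 : W_4 (nat_lit 7) (nat_lit 0x2000100058003c001000000000000000000000000) (nat_lit 0x0) (nat_lit 0x200010000e00020003800ac0000000000000000000000) := T_4 (nat_lit 109) (nat_lit 95) (nat_lit 2) (nat_lit 7) (nat_lit 6) L1308122 (by decide +kernel)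
theorem L1308124 : W_4 (nat_lit 8) (nat_lit 0x2000100058003c000000000000000000000000000) (nat_lit 0x0) (nat_lit 0x200010000e00020003803ac0000000000000000000000) := T_4 (nat_lit 96) (nat_lit 97) (nat_lit 2) (nat_lit 8) (nat_lit 6) L1308123 (by decide +kernel)
theorem L1308125 : W_4 (nat_lit 9) (nat_lit 0x20001000580038000000000000000000000000000) (nat_lit 0x0) (nat_lit 0x200010000e00820007803ac0000000000000000000000) := T_4 (nat_lit 110) (nat_lit 131) (nat_lit 3) (nat_lit 8) (nat_lit 6) L1308124 (by decide +kernel)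
theorem L1308126 : W_4 (nat_lit 10) (nat_lit 0x20001000580028000000000000000000000000000) (nat_lit 0x0) (nat_lit 0x200010000e00820057803ac0000000000000000000000) := T_4 (nat_lit 112) (nat_lit 114) (nat_lit 1) (nat_lit 12) (nat_lit 6) L1308125 (by decide +kernel)
theorem L1308615 : W_4 (nat_lit 3) (nat_lit 0x10003c0001000000000000000000000000000) (nat_lit 0x0) (nat_lit 0xe00020000800000000000000000000000000) := T_4 (nat_lit 142) (nat_lit 143) (nat_lit 1) (nat_lit 10) (nat_lit 7) L569359 (by decide +kernel)
theorem L1308616 : W_4 (nat_lit 4) (nat_lit 0x10003c0000000000000000000000000000000) (nat_lit 0x0) (nat_lit 0xe00020003800000000000000000000000000) := T_4 (nat_lit 108) (nat_lit 109) (nat_lit 0) (nat_lit 10) (nat_lit 7) L1308615 (by decide +kernel)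
theorem L1308617 : W_4 (nat_lit 12) (nat_lit 0x1000380000000000000000000000000000000) (nat_lit 0x0) (nat_lit 0x6000b000ce0006003f801e000f0007800000000000000) := Q_4 (nat_lit 126) (C_4 L568150 (C_4 L1286486 (C_4 L1308616 (C_4 L820131 N_4)))) (by decide +kernel)
theorem L1308618 : W_4 (nat_lit 13) (nat_lit 0x1000180000000000000000000000000000000) (nat_lit 0x0) (nat_lit 0xa00070003e001b007ce03e601ff801e000f0007800000000000000) := Q_4 (nat_lit 129) (C_4 L822520 (C_4 L822519 (C_4 L820130 (C_4 L1308617 (C_4 L822518 N_4))))) (by decide +kernel)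
theorem L1308619 : W_4 (nat_lit 11) (nat_lit 0x1000380000000000000000000000000000000) (nat_lit 0x0) (nat_lit 0x320019800ee0006003f801e00060003000000000000000) := Q_4 (nat_lit 126) (C_4 L568150 (C_4 L1308616 (C_4 L1286524 (C_4 L820131 N_4)))) (by decide +kernel)
theorem L1308620 : W_4 (nat_lit 12) (nat_lit 0x1000180000000000000000000000000000000) (nat_lit 0x0) (nat_lit 0xa00070003a0019807ee03e601ff801e000e0003000000000000000) := Q_4 (nat_lit 129) (C_4 L822520 (C_4 L822519 (C_4 L820130 (C_4 L1308619 (C_4 L822518 N_4))))) (by decide +kernel)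
theorem L1308621 : W_4 (nat_lit 2) (nat_lit 0x400000001000580038000000000000000000000000000) (nat_lit 0x0) (nat_lit 0x840004000000000000000000000000000) := D_4 (nat_lit 110) (nat_lit 126) (nat_lit 131) (nat_lit 1) (nat_lit 11) (nat_lit 6) (nat_lit 3) (nat_lit 8) (nat_lit 6) (by decide +kernel)
theorem L1308622 : W_4 (nat_lit 3) (nat_lit 0x400000001000580028000000000000000000000000000) (nat_lit 0x0) (nat_lit 0x840054000000000000000000000000000) := T_4 (nat_lit 112) (nat_lit 114) (nat_lit 1) (nat_lit 12) (nat_lit 6) L1308621 (by decide +kernel)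
theorem L1308623 : W_4 (nat_lit 4) (nat_lit 0x1000580028000000000000000000000000000) (nat_lit 0x0) (nat_lit 0x400020000000840054000000000000000000000000000) := T_4 (nat_lit 178) (nat_lit 161) (nat_lit 6) (nat_lit 8) (nat_lit 10) L1308622 (by decide +kernel)
theorem L1308634 : W_4 (nat_lit 2) (nat_lit 0x9000580038000000000000000000000000000) (nat_lit 0x0) (nat_lit 0x840004000000000000000000000000000) := D_4 (nat_lit 110) (nat_lit 126) (nat_lit 131) (nat_lit 1) (nat_lit 11) (nat_lit 6) (nat_lit 3) (nat_lit 8) (nat_lit 6) (by decide +kernel)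
theorem L1308635 : W_4 (nat_lit 7) (nat_lit 0x9000580028000000000000000000000000000) (nat_lit 0x0) (nat_lit 0x20007c003a0000000840014000800000000000000000000000) := Q_4 (nat_lit 112) (C_4 L604959 (C_4 L1308634 N_4)) (by decide +kernel)
theorem L1308636 : W_4 (nat_lit 2) (nat_lit 0x40000000d000580028003800000000000000000000000) (nat_lit 0x0) (nat_lit 0x100000000000014000000000000000000000000000) := D_4 (nat_lit 112) (nat_lit 110) (nat_lit 164) (nat_lit 2) (nat_lit 8) (nat_lit 6) (nat_lit 4) (nat_lit 11) (nat_lit 9) (by decide +kernel)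
theorem L1308637 : W_4 (nat_lit 3) (nat_lit 0x40000000d000580028001800000000000000000000000) (nat_lit 0x0) (nat_lit 0x100000000000014002000100000000000000000000) := T_4 (nat_lit 97) (nat_lit 80) (nat_lit 6) (nat_lit 11) (nat_lit 8) L1308636 (by decide +kernel)
theorem L1308638 : W_4 (nat_lit 4) (nat_lit 0x40000000d000580028001000000000000000000000000) (nat_lit 0x0) (nat_lit 0x100000000000014002800140000000000000000000) := T_4 (nat_lit 95) (nat_lit 78) (nat_lit 4) (nat_lit 11) (nat_lit 8) L1308637 (by decide +kernel)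
theorem L1308639 : W_4 (nat_lit 5) (nat_lit 0x40000000d000580028000000000000000000000000000) (nat_lit 0x0) (nat_lit 0x180000000000014003800140000000000000000000) := T_4 (nat_lit 96) (nat_lit 163) (nat_lit 5) (nat_lit 11) (nat_lit 5) L1308638 (by decide +kernel)
theorem L1308640 : W_4 (nat_lit 6) (nat_lit 0xd000580028000000000000000000000000000) (nat_lit 0x0) (nat_lit 0x4001a0000000000014003800140000000000000000000) := T_4 (nat_lit 178) (nat_lit 161) (nat_lit 6) (nat_lit 8) (nat_lit 10) L1308639 (by decide +kernel)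
theorem L1308641 : W_4 (nat_lit 7) (nat_lit 0x9000580028000000000000000000000000000) (nat_lit 0x0) (nat_lit 0x4001a0016000800014003800140000000000000000000) := Q_4 (nat_lit 146) (C_4 L1308640 (C_4 L605290 N_4)) (by decide +kernel)
theorem L1308642 : W_4 (nat_lit 8) (nat_lit 0x1000580028000000000000000000000000000) (nat_lit 0x0) (nat_lit 0x20007c003a001e0008400140078001c000a000000000000000) := Q_4 (nat_lit 147) (C_4 L605320 (C_4 L591237 (C_4 L591706 (C_4 L591767 (C_4 L1308635 (C_4 L1308641 N_4)))))) (by decide +kernel)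
theorem L1308643 : W_4 (nat_lit 16) (nat_lit 0x1000580008000000000000000000000000000) (nat_lit 0x0) (nat_lit 0x1f800f801fe00fb007e0078603f400f8001f000e000300000000000) := Q_4 (nat_lit 113) (C_4 L829433 (C_4 L591720 (C_4 L591766 (C_4 L605304 (C_4 L1308623 (C_4 L605321 (C_4 L1308642 N_4))))))) (by decide +kernel)
theorem L1308644 : W_4 (nat_lit 17) (nat_lit 0x1000180008000000000000000000000000000) (nat_lit 0x0) (nat_lit 0x1f800f801fe00fb00fe807e603f700f8001f000e000300000000000) := Q_4 (nat_lit 130) (C_4 L605377 (C_4 L1295116 (C_4 L1295115 (C_4 L1308643 (C_4 L1295114 N_4))))) (by decide +kernel)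
theorem L1308645 : W_4 (nat_lit 18) (nat_lit 0x1000180000000000000000000000000000000) (nat_lit 0x0) (nat_lit 0x1f800f801fe00fb00fe807e603ff00fc001f000f000300000000000) := Q_4 (nat_lit 111) (C_4 L1308644 (C_4 L822604 (C_4 L614223 (C_4 L568090 N_4)))) (by decide +kernel)
theorem L1308646 : W_4 (nat_lit 8) (nat_lit 0x1000380000000000000000000000000000000) (nat_lit 0x0) (nat_lit 0x34001a000ee0006003b800400020000000000000000000) := Q_4 (nat_lit 126) (C_4 L568150 (C_4 L1308616 (C_4 L1176593 N_4))) (by decide +kernel)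
theorem L1308647 : W_4 (nat_lit 10) (nat_lit 0x1000180000000000000000000000000000000) (nat_lit 0x0) (nat_lit 0xa00070003c001a007ee03e601fb801c000a0000000000000000000) := Q_4 (nat_lit 129) (C_4 L822520 (C_4 L822519 (C_4 L820130 (C_4 L1308646 (C_4 L822518 N_4))))) (by decide +kernel)
theorem L1308653 : W_4 (nat_lit 5) (nat_lit 0x1000580038000000000000000000000000000) (nat_lit 0x0) (nat_lit 0x100008000800006003800040000000000000000000) := T_4 (nat_lit 110) (nat_lit 131) (nat_lit 3) (nat_lit 8) (nat_lit 6) L605333 (by decide +kernel)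
theorem L1308654 : W_4 (nat_lit 6) (nat_lit 0x1000580028000000000000000000000000000) (nat_lit 0x0) (nat_lit 0x100008000800056003800040000000000000000000) := T_4 (nat_lit 112) (nat_lit 114) (nat_lit 1) (nat_lit 12) (nat_lit 6) L1308653 (by decide +kernel)
theorem L1308655 : W_4 (nat_lit 11) (nat_lit 0x1000580028000000000000000000000000000) (nat_lit 0x0) (nat_lit 0x600030000e00820057803ac0000000000000000000000) := T_4 (nat_lit 161) (nat_lit 178) (nat_lit 6) (nat_lit 8) (nat_lit 10) L1308126 (by decide +kernel)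
theorem L1308656 : W_4 (nat_lit 2) (nat_lit 0x3000100058003c001200000000000000000000000) (nat_lit 0x0) (nat_lit 0x2000000000000000010000800000000000000) := D_4 (nat_lit 76) (nat_lit 59) (nat_lit 145) (nat_lit 7) (nat_lit 8) (nat_lit 3) (nat_lit 7) (nat_lit 8) (nat_lit 4) (by decide +kernel)
theorem L1308657 : W_4 (nat_lit 3) (nat_lit 0x3000100058003c001000000000000000000000000) (nat_lit 0x0) (nat_lit 0x2800000000000200010000800000000000000) := T_4 (nat_lit 93) (nat_lit 143) (nat_lit 5) (nat_lit 8) (nat_lit 5) L1308656 (by decide +kernel)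
theorem L1308658 : W_4 (nat_lit 4) (nat_lit 0x2000100058003c001000000000000000000000000) (nat_lit 0x0) (nat_lit 0x200010002800000000000200010000800000000000000) := T_4 (nat_lit 160) (nat_lit 177) (nat_lit 5) (nat_lit 8) (nat_lit 6) L1308657 (by decide +kernel)
theorem L1308659 : W_4 (nat_lit 5) (nat_lit 0x2000100058003c000000000000000000000000000) (nat_lit 0x0) (nat_lit 0x200010002800000000003200010000800000000000000) := T_4 (nat_lit 96) (nat_lit 97) (nat_lit 2) (nat_lit 8) (nat_lit 6) L1308658 (by decide +kernel)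
theorem L1308660 : W_4 (nat_lit 6) (nat_lit 0x20001000580038000000000000000000000000000) (nat_lit 0x0) (nat_lit 0x200010002800800004003200010000800000000000000) := T_4 (nat_lit 110) (nat_lit 131) (nat_lit 3) (nat_lit 8) (nat_lit 6) L1308659 (by decide +kernel)
theorem L1308661 : W_4 (nat_lit 7) (nat_lit 0x1000580038000000000000000000000000000) (nat_lit 0x0) (nat_lit 0x600030002800800004003200010000800000000000000) := T_4 (nat_lit 161) (nat_lit 178) (nat_lit 6) (nat_lit 8) (nat_lit 10) L1308660 (by decide +kernel)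
theorem L1308662 : W_4 (nat_lit 8) (nat_lit 0x1000580028000000000000000000000000000) (nat_lit 0x0) (nat_lit 0x600030002800800054003200010000800000000000000) := T_4 (nat_lit 112) (nat_lit 114) (nat_lit 1) (nat_lit 12) (nat_lit 6) L1308661 (by decide +kernel)
theorem L1308663 : W_4 (nat_lit 2) (nat_lit 0x3000100058003c000200000000000000000000000) (nat_lit 0x0) (nat_lit 0x2000000000000000010000800000000000000) := D_4 (nat_lit 76) (nat_lit 59) (nat_lit 145) (nat_lit 7) (nat_lit 8) (nat_lit 3) (nat_lit 7) (nat_lit 8) (nat_lit 4) (by decide +kernel)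
theorem L1308664 : W_4 (nat_lit 3) (nat_lit 0x3000100058003c000000000000000000000000000) (nat_lit 0x0) (nat_lit 0x2800000000000200010000800000000000000) := T_4 (nat_lit 93) (nat_lit 143) (nat_lit 5) (nat_lit 8) (nat_lit 5) L1308663 (by decide +kernel)
theorem L1308665 : W_4 (nat_lit 4) (nat_lit 0x2000100058003c000000000000000000000000000) (nat_lit 0x0) (nat_lit 0x200010002800000000000200010000800000000000000) := T_4 (nat_lit 160) (nat_lit 177) (nat_lit 5) (nat_lit 8) (nat_lit 6) L1308664 (by decide +kernel)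
theorem L1308666 : W_4 (nat_lit 5) (nat_lit 0x20001000580038000000000000000000000000000) (nat_lit 0x0) (nat_lit 0x200010002800800004000200010000800000000000000) := T_4 (nat_lit 110) (nat_lit 131) (nat_lit 3) (nat_lit 8) (nat_lit 6) L1308665 (by decide +kernel)
theorem L1308667 : W_4 (nat_lit 6) (nat_lit 0x1000580038000000000000000000000000000) (nat_lit 0x0) (nat_lit 0x600030002800800004000200010000800000000000000) := T_4 (nat_lit 161) (nat_lit 178) (nat_lit 6) (nat_lit 8) (nat_lit 10) L1308666 (by decide +kernel)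
theorem L1308668 : W_4 (nat_lit 7) (nat_lit 0x1000580028000000000000000000000000000) (nat_lit 0x0) (nat_lit 0x600030002800800054000200010000800000000000000) := T_4 (nat_lit 112) (nat_lit 114) (nat_lit 1) (nat_lit 12) (nat_lit 6) L1308667 (by decide +kernel)
theorem L1308669 : W_4 (nat_lit 3) (nat_lit 0x9000580028001800000000000000000000000) (nat_lit 0x0) (nat_lit 0x100000000000010006000100000000000000000000) := T_4 (nat_lit 97) (nat_lit 80) (nat_lit 6) (nat_lit 11) (nat_lit 8) L829280 (by decide +kernel)
theorem L1308670 : W_4 (nat_lit 4) (nat_lit 0x9000580028001000000000000000000000000) (nat_lit 0x0) (nat_lit 0x100000000000010006800140000000000000000000) := T_4 (nat_lit 95) (nat_lit 78) (nat_lit 4) (nat_lit 11) (nat_lit 8) L1308669 (by decide +kernel)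
theorem L1308671 : W_4 (nat_lit 7) (nat_lit 0x9000580028000000000000000000000000000) (nat_lit 0x0) (nat_lit 0x3800160008000100078001c000e000500000000000) := Q_4 (nat_lit 96) (C_4 L829489 (C_4 L591822 (C_4 L1308670 N_4))) (by decide +kernel)
theorem L1308672 : W_4 (nat_lit 2) (nat_lit 0xf000580028000000000000000000000000000) (nat_lit 0x0) (nat_lit 0x400030000000000000000000000000000000000000000) := D_4 (nat_lit 161) (nat_lit 160) (nat_lit 178) (nat_lit 1) (nat_lit 11) (nat_lit 8) (nat_lit 6) (nat_lit 8) (nat_lit 10) (by decide +kernel)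
theorem L1308673 : W_4 (nat_lit 3) (nat_lit 0xd000580028000000000000000000000000000) (nat_lit 0x0) (nat_lit 0x400030002000800000000000000000000000000000000) := T_4 (nat_lit 145) (nat_lit 131) (nat_lit 2) (nat_lit 8) (nat_lit 8) L1308672 (by decide +kernel)
theorem L1308674 : W_4 (nat_lit 7) (nat_lit 0x9000580028000000000000000000000000000) (nat_lit 0x0) (nat_lit 0x4002b0016000800000003000180008000000000000000) := Q_4 (nat_lit 146) (C_4 L533106 (C_4 L605293 (C_4 L605290 (C_4 L1308673 N_4)))) (by decide +kernel)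
theorem L1308675 : W_4 (nat_lit 2) (nat_lit 0x1400300009000580028000000000000000000000000000) (nat_lit 0x0) (nat_lit 0x20002800000000000000000000000000000000000000000000) := D_4 (nat_lit 181) (nat_lit 179) (nat_lit 197) (nat_lit 2) (nat_lit 8) (nat_lit 10) (nat_lit 5) (nat_lit 11) (nat_lit 7) (by decide +kernel)
theorem L1308676 : W_4 (nat_lit 3) (nat_lit 0x400300009000580028000000000000000000000000000) (nat_lit 0x0) (nat_lit 0x20003800080000000000000000000000000000000000000000) := T_4 (nat_lit 180) (nat_lit 163) (nat_lit 5) (nat_lit 11) (nat_lit 6) L1308675 (by decide +kernel)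
theorem L1308677 : W_4 (nat_lit 4) (nat_lit 0x400100009000580028000000000000000000000000000) (nat_lit 0x0) (nat_lit 0x20007800280000000000000000000000000000000000000000) := T_4 (nat_lit 165) (nat_lit 182) (nat_lit 7) (nat_lit 11) (nat_lit 6) L1308676 (by decide +kernel)
theorem L1308678 : W_4 (nat_lit 5) (nat_lit 0x100009000580028000000000000000000000000000) (nat_lit 0x0) (nat_lit 0x20007c002a0000000000000000000000000000000000000000) := T_4 (nat_lit 178) (nat_lit 161) (nat_lit 6) (nat_lit 8) (nat_lit 10) L1308677 (by decide +kernel)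
theorem L1308679 : W_4 (nat_lit 2) (nat_lit 0x500010000900058003c000000000000000000000000000) (nat_lit 0x0) (nat_lit 0xa0002000000000000000000000000000000000000000000000) := D_4 (nat_lit 181) (nat_lit 199) (nat_lit 197) (nat_lit 7) (nat_lit 11) (nat_lit 7) (nat_lit 5) (nat_lit 11) (nat_lit 7) (by decide +kernel)
theorem L1308680 : W_4 (nat_lit 3) (nat_lit 0x400010000900058003c000000000000000000000000000) (nat_lit 0x0) (nat_lit 0xa0003000080000000000000000000000000000000000000000) := T_4 (nat_lit 180) (nat_lit 163) (nat_lit 5) (nat_lit 11) (nat_lit 6) L1308679 (by decide +kernel)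
theorem L1308681 : W_4 (nat_lit 4) (nat_lit 0x10000900058003c000000000000000000000000000) (nat_lit 0x0) (nat_lit 0xa0007000280000000000000000000000000000000000000000) := T_4 (nat_lit 182) (nat_lit 165) (nat_lit 7) (nat_lit 11) (nat_lit 6) L1308680 (by decide +kernel)
theorem L1308682 : W_4 (nat_lit 5) (nat_lit 0x100009000580038000000000000000000000000000) (nat_lit 0x0) (nat_lit 0xa0007000280000000800004000000000000000000000000000) := T_4 (nat_lit 110) (nat_lit 131) (nat_lit 3) (nat_lit 8) (nat_lit 6) L1308681 (by decide +kernel)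
theorem L1308683 : W_4 (nat_lit 6) (nat_lit 0x100009000580028000000000000000000000000000) (nat_lit 0x0) (nat_lit 0xa0007000280000000800014000800000000000000000000000) := T_4 (nat_lit 112) (nat_lit 95) (nat_lit 4) (nat_lit 11) (nat_lit 9) L1308682 (by decide +kernel)
theorem L1308684 : W_4 (nat_lit 2) (nat_lit 0x3a000b00058003c000200000000000000000000000) (nat_lit 0x0) (nat_lit 0x200010000800000000000000000000000000000000000) := D_4 (nat_lit 160) (nat_lit 177) (nat_lit 143) (nat_lit 5) (nat_lit 8) (nat_lit 6) (nat_lit 5) (nat_lit 8) (nat_lit 5) (by decide +kernel)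
theorem L1308685 : W_4 (nat_lit 3) (nat_lit 0x3a000b00058003c000000000000000000000000000) (nat_lit 0x0) (nat_lit 0x200010000800000000000200010000000000000000000) := T_4 (nat_lit 93) (nat_lit 76) (nat_lit 7) (nat_lit 8) (nat_lit 4) L1308684 (by decide +kernel)
theorem L1308686 : W_4 (nat_lit 4) (nat_lit 0x32000b00058003c000000000000000000000000000) (nat_lit 0x0) (nat_lit 0x1200090000800000000000200010000000000000000000) := T_4 (nat_lit 163) (nat_lit 180) (nat_lit 5) (nat_lit 11) (nat_lit 6) L1308685 (by decide +kernel)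
theorem L1308687 : W_4 (nat_lit 5) (nat_lit 0x32000b000580038000000000000000000000000000) (nat_lit 0x0) (nat_lit 0x1200090000800800004000200010000000000000000000) := T_4 (nat_lit 110) (nat_lit 131) (nat_lit 3) (nat_lit 8) (nat_lit 6) L1308686 (by decide +kernel)
theorem L1308688 : W_4 (nat_lit 6) (nat_lit 0x32000b000580028000000000000000000000000000) (nat_lit 0x0) (nat_lit 0x1200090000800800014000a00010000000000000000000) := T_4 (nat_lit 112) (nat_lit 95) (nat_lit 4) (nat_lit 11) (nat_lit 9) L1308687 (by decide +kernel)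
theorem L1308689 : W_4 (nat_lit 7) (nat_lit 0x30000b000580028000000000000000000000000000) (nat_lit 0x0) (nat_lit 0x16000b0000800800014000a00010000000000000000000) := T_4 (nat_lit 161) (nat_lit 178) (nat_lit 6) (nat_lit 8) (nat_lit 10) L1308688 (by decide +kernel)
theorem L1308690 : W_4 (nat_lit 8) (nat_lit 0x300009000580028000000000000000000000000000) (nat_lit 0x0) (nat_lit 0x16000b0006800800014000a00010000000000000000000) := T_4 (nat_lit 145) (nat_lit 146) (nat_lit 3) (nat_lit 8) (nat_lit 8) L1308689 (by decide +kernel)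
theorem L1308691 : W_4 (nat_lit 9) (nat_lit 0x100009000580028000000000000000000000000000) (nat_lit 0x0) (nat_lit 0x56002b0006800800014000a00010000000000000000000) := T_4 (nat_lit 165) (nat_lit 182) (nat_lit 7) (nat_lit 11) (nat_lit 6) L1308690 (by decide +kernel)
theorem L1308692 : W_4 (nat_lit 2) (nat_lit 0x33000b00058003c000000000000000000000000000) (nat_lit 0x0) (nat_lit 0x800000000000200010000000000000000000) := D_4 (nat_lit 93) (nat_lit 143) (nat_lit 76) (nat_lit 5) (nat_lit 8) (nat_lit 5) (nat_lit 7) (nat_lit 8) (nat_lit 4) (by decide +kernel)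
theorem L1308693 : W_4 (nat_lit 3) (nat_lit 0x32000b00058003c000000000000000000000000000) (nat_lit 0x0) (nat_lit 0x200010000800000000000200010000000000000000000) := T_4 (nat_lit 160) (nat_lit 177) (nat_lit 5) (nat_lit 8) (nat_lit 6) L1308692 (by decide +kernel)
theorem L1308694 : W_4 (nat_lit 4) (nat_lit 0x32000b000580038000000000000000000000000000) (nat_lit 0x0) (nat_lit 0x200010000800800004000200010000000000000000000) := T_4 (nat_lit 110) (nat_lit 131) (nat_lit 3) (nat_lit 8) (nat_lit 6) L1308693 (by decide +kernel)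
theorem L1308695 : W_4 (nat_lit 5) (nat_lit 0x32000b000580028000000000000000000000000000) (nat_lit 0x0) (nat_lit 0x200010000800800014000a00010000000000000000000) := T_4 (nat_lit 112) (nat_lit 95) (nat_lit 4) (nat_lit 11) (nat_lit 9) L1308694 (by decide +kernel)
theorem L1308696 : W_4 (nat_lit 6) (nat_lit 0x30000b000580028000000000000000000000000000) (nat_lit 0x0) (nat_lit 0x600030000800800014000a00010000000000000000000) := T_4 (nat_lit 161) (nat_lit 178) (nat_lit 6) (nat_lit 8) (nat_lit 10) L1308695 (by decide +kernel)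
theorem L1308697 : W_4 (nat_lit 7) (nat_lit 0x300009000580028000000000000000000000000000) (nat_lit 0x0) (nat_lit 0x600030006800800014000a00010000000000000000000) := T_4 (nat_lit 145) (nat_lit 146) (nat_lit 3) (nat_lit 8) (nat_lit 8) L1308696 (by decide +kernel)
theorem L1308698 : W_4 (nat_lit 8) (nat_lit 0x100009000580028000000000000000000000000000) (nat_lit 0x0) (nat_lit 0x4600230006800800014000a00010000000000000000000) := T_4 (nat_lit 165) (nat_lit 182) (nat_lit 7) (nat_lit 11) (nat_lit 6) L1308697 (by decide +kernel)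
theorem L1308699 : W_4 (nat_lit 2) (nat_lit 0x1b000900058003c000200000000000000000000000) (nat_lit 0x0) (nat_lit 0x6000000000000000010000000000000000000) := D_4 (nat_lit 145) (nat_lit 146) (nat_lit 76) (nat_lit 1) (nat_lit 11) (nat_lit 8) (nat_lit 7) (nat_lit 8) (nat_lit 4) (by decide +kernel)
theorem L1308700 : W_4 (nat_lit 3) (nat_lit 0x1b000900058003c000000000000000000000000000) (nat_lit 0x0) (nat_lit 0x6800000000000200010000000000000000000) := T_4 (nat_lit 93) (nat_lit 143) (nat_lit 5) (nat_lit 8) (nat_lit 5) L1308699 (by decide +kernel)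
theorem L1308701 : W_4 (nat_lit 4) (nat_lit 0x1a000900058003c000000000000000000000000000) (nat_lit 0x0) (nat_lit 0x200010006800000000000200010000000000000000000) := T_4 (nat_lit 160) (nat_lit 177) (nat_lit 5) (nat_lit 8) (nat_lit 6) L1308700 (by decide +kernel)
theorem L1308702 : W_4 (nat_lit 5) (nat_lit 0x18000900058003c000000000000000000000000000) (nat_lit 0x0) (nat_lit 0x600030006800000000000200010000000000000000000) := T_4 (nat_lit 161) (nat_lit 178) (nat_lit 6) (nat_lit 8) (nat_lit 10) L1308701 (by decide +kernel)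
theorem L1308703 : W_4 (nat_lit 6) (nat_lit 0x10000900058003c000000000000000000000000000) (nat_lit 0x0) (nat_lit 0x16000b0006800000000000200010000000000000000000) := T_4 (nat_lit 163) (nat_lit 180) (nat_lit 5) (nat_lit 11) (nat_lit 6) L1308702 (by decide +kernel)
theorem L1308704 : W_4 (nat_lit 7) (nat_lit 0x100009000580038000000000000000000000000000) (nat_lit 0x0) (nat_lit 0x16000b0006800800004000200010000000000000000000) := T_4 (nat_lit 110) (nat_lit 131) (nat_lit 3) (nat_lit 8) (nat_lit 6) L1308703 (by decide +kernel)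
theorem L1308705 : W_4 (nat_lit 8) (nat_lit 0x100009000580028000000000000000000000000000) (nat_lit 0x0) (nat_lit 0x16000b0006800800014000a00010000000000000000000) := T_4 (nat_lit 112) (nat_lit 95) (nat_lit 4) (nat_lit 11) (nat_lit 9) L1308704 (by decide +kernel)
theorem L1308706 : W_4 (nat_lit 10) (nat_lit 0x9000580028000000000000000000000000000) (nat_lit 0x0) (nat_lit 0xa0007e003b0006800800014000a00010000000000000000000) := Q_4 (nat_lit 164) (C_4 L1308678 (C_4 L1308683 (C_4 L1308691 (C_4 L1308698 (C_4 L1308705 N_4))))) (by decide +kernel)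
theorem L1308707 : W_4 (nat_lit 11) (nat_lit 0x1000580028000000000000000000000000000) (nat_lit 0x0) (nat_lit 0xa0007e003b001e800800014007a001d000e000500000000000) := Q_4 (nat_lit 147) (C_4 L605320 (C_4 L1308641 (C_4 L591237 (C_4 L1308671 (C_4 L605298 (C_4 L1308674 (C_4 L1308706 N_4))))))) (by decide +kernel)
theorem L1308708 : W_4 (nat_lit 14) (nat_lit 0x1000580008000000000000000000000000000) (nat_lit 0x0) (nat_lit 0x1f800f801fe00fb007ee078203f7807ac01d000e800700000000000) := Q_4 (nat_lit 113) (C_4 L829433 (C_4 L1308654 (C_4 L605304 (C_4 L1308655 (C_4 L1308662 (C_4 L1308668 (C_4 L605321 (C_4 L1308707 N_4)))))))) (by decide +kernel)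
theorem L1308709 : W_4 (nat_lit 8) (nat_lit 0x20001000580008000000000000000000000000000) (nat_lit 0x0) (nat_lit 0x120009001e800200066001000000000000000000000000) := T_4 (nat_lit 129) (nat_lit 143) (nat_lit 1) (nat_lit 11) (nat_lit 7) L605375 (by decide +kernel)
theorem L1308710 : W_4 (nat_lit 9) (nat_lit 0x1000580008000000000000000000000000000) (nat_lit 0x0) (nat_lit 0x16000b001e800200066001000000000000000000000000) := T_4 (nat_lit 161) (nat_lit 178) (nat_lit 6) (nat_lit 8) (nat_lit 10) L1308709 (by decide +kernel)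
theorem L1308711 : W_4 (nat_lit 15) (nat_lit 0x1000180008000000000000000000000000000) (nat_lit 0x0) (nat_lit 0x1f800f801fe00fb00fee07e203f7807ac01d000e800700000000000) := Q_4 (nat_lit 130) (C_4 L1295116 (C_4 L605270 (C_4 L1308708 (C_4 L1295114 (C_4 L1308710 N_4))))) (by decide +kernel)
theorem L1308712 : W_4 (nat_lit 2) (nat_lit 0x5000380008000400000000000000000000000) (nat_lit 0x0) (nat_lit 0x1000080002000000000000000000000000000000000000) := D_4 (nat_lit 163) (nat_lit 180) (nat_lit 145) (nat_lit 4) (nat_lit 10) (nat_lit 10) (nat_lit 7) (nat_lit 9) (nat_lit 5) (by decide +kernel)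
theorem L1308713 : W_4 (nat_lit 3) (nat_lit 0x5000380008000000000000000000000000000) (nat_lit 0x0) (nat_lit 0x1000080002000000000000400020000000000000000000) := T_4 (nat_lit 94) (nat_lit 77) (nat_lit 7) (nat_lit 9) (nat_lit 4) L1308712 (by decide +kernel)
theorem L1308714 : W_4 (nat_lit 2) (nat_lit 0xf400380008000e00000000000000000000000) (nat_lit 0x0) (nat_lit 0x300000000000010000000000000000000000000000) := D_4 (nat_lit 164) (nat_lit 112) (nat_lit 165) (nat_lit 7) (nat_lit 10) (nat_lit 5) (nat_lit 3) (nat_lit 8) (nat_lit 8) (by decide +kernel)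
theorem L1308715 : W_4 (nat_lit 3) (nat_lit 0x7400380008000e00000000000000000000000) (nat_lit 0x0) (nat_lit 0x300018000000010000000000000000000000000000) := T_4 (nat_lit 147) (nat_lit 148) (nat_lit 0) (nat_lit 12) (nat_lit 8) L1308714 (by decide +kernel)
theorem L1308716 : W_4 (nat_lit 4) (nat_lit 0x7000380008000e00000000000000000000000) (nat_lit 0x0) (nat_lit 0x300018c00000010000000000000000000000000000) := T_4 (nat_lit 142) (nat_lit 143) (nat_lit 2) (nat_lit 6) (nat_lit 8) L1308715 (by decide +kernel)
theorem L1308717 : W_4 (nat_lit 5) (nat_lit 0x7000380008000c00000000000000000000000) (nat_lit 0x0) (nat_lit 0x300018c00000010000200010000000000000000000) := T_4 (nat_lit 93) (nat_lit 76) (nat_lit 4) (nat_lit 9) (nat_lit 8) L1308716 (by decide +kernel)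
theorem L1308718 : W_4 (nat_lit 6) (nat_lit 0x5000380008000c00000000000000000000000) (nat_lit 0x0) (nat_lit 0x30001ac00000010000200050000000000000000000) := T_4 (nat_lit 145) (nat_lit 78) (nat_lit 6) (nat_lit 9) (nat_lit 8) L1308717 (by decide +kernel)
theorem L1308719 : W_4 (nat_lit 7) (nat_lit 0x5000380008000800000000000000000000000) (nat_lit 0x0) (nat_lit 0x30001ac00000010000600070000000000000000000) := T_4 (nat_lit 94) (nat_lit 77) (nat_lit 7) (nat_lit 9) (nat_lit 4) L1308718 (by decide +kernel)
theorem L1308720 : W_4 (nat_lit 2) (nat_lit 0x500038001c001800020000000000000000000) (nat_lit 0x0) (nat_lit 0x20006000000000000000000000000) := D_4 (nat_lit 97) (nat_lit 98) (nat_lit 113) (nat_lit 1) (nat_lit 13) (nat_lit 5) (nat_lit 2) (nat_lit 8) (nat_lit 6) (by decide +kernel)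
theorem L1308721 : W_4 (nat_lit 3) (nat_lit 0x5000380018001800020000000000000000000) (nat_lit 0x0) (nat_lit 0x26006000000000000000000000000) := T_4 (nat_lit 110) (nat_lit 109) (nat_lit 2) (nat_lit 7) (nat_lit 6) L1308720 (by decide +kernel)
theorem L1308722 : W_4 (nat_lit 4) (nat_lit 0x5000380018000800020000000000000000000) (nat_lit 0x0) (nat_lit 0x26007000080000000000000000000) := T_4 (nat_lit 96) (nat_lit 79) (nat_lit 6) (nat_lit 10) (nat_lit 8) L1308721 (by decide +kernel)
theorem L1308723 : W_4 (nat_lit 5) (nat_lit 0x5000380018000800000000000000000000000) (nat_lit 0x0) (nat_lit 0x260074000a0000000000000000000) := T_4 (nat_lit 77) (nat_lit 94) (nat_lit 7) (nat_lit 9) (nat_lit 4) L1308722 (by decide +kernel)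
theorem L1308724 : W_4 (nat_lit 6) (nat_lit 0x5000380008000800000000000000000000000) (nat_lit 0x0) (nat_lit 0x360074000e0007000000000000000) := Q_4 (nat_lit 112) (C_4 L527794 (C_4 L527769 (C_4 L1308723 N_4))) (by decide +kernel)
theorem L1308725 : W_4 (nat_lit 2) (nat_lit 0x7800380008000e00000000000000000000000) (nat_lit 0x0) (nat_lit 0x18000000000004000000000000000000000000000) := D_4 (nat_lit 160) (nat_lit 110) (nat_lit 159) (nat_lit 5) (nat_lit 8) (nat_lit 5) (nat_lit 1) (nat_lit 10) (nat_lit 8) (by decide +kernel)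
theorem L1308726 : W_4 (nat_lit 3) (nat_lit 0x7000380008000e00000000000000000000000) (nat_lit 0x0) (nat_lit 0x18000c00000004000000000000000000000000000) := T_4 (nat_lit 143) (nat_lit 142) (nat_lit 2) (nat_lit 6) (nat_lit 8) L1308725 (by decide +kernel)
theorem L1308727 : W_4 (nat_lit 4) (nat_lit 0x7000380008000c00000000000000000000000) (nat_lit 0x0) (nat_lit 0x18000c00000004000200010000000000000000000) := T_4 (nat_lit 93) (nat_lit 76) (nat_lit 4) (nat_lit 9) (nat_lit 8) L1308726 (by decide +kernel)
theorem L1308728 : W_4 (nat_lit 5) (nat_lit 0x5000380008000c00000000000000000000000) (nat_lit 0x0) (nat_lit 0x18002c00000004000200050000000000000000000) := T_4 (nat_lit 145) (nat_lit 78) (nat_lit 6) (nat_lit 9) (nat_lit 8) L1308727 (by decide +kernel)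
theorem L1308729 : W_4 (nat_lit 6) (nat_lit 0x5000380008000800000000000000000000000) (nat_lit 0x0) (nat_lit 0x18002c00000004000600070000000000000000000) := T_4 (nat_lit 94) (nat_lit 77) (nat_lit 7) (nat_lit 9) (nat_lit 4) L1308728 (by decide +kernel)
theorem L1308730 : W_4 (nat_lit 4) (nat_lit 0x5000380008000800000000000000000000000) (nat_lit 0x0) (nat_lit 0x10003a0000000100010000c0006000000000000000) := Q_4 (nat_lit 112) (C_4 L527794 (C_4 L603088 N_4)) (by decide +kernel)
theorem L1308731 : W_4 (nat_lit 6) (nat_lit 0x5000380008000800000000000000000000000) (nat_lit 0x0) (nat_lit 0x10003a0000000360074000a0000000000000000000) := Q_4 (nat_lit 112) (C_4 L1308723 (C_4 L603088 N_4)) (by decide +kernel)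
theorem L1308732 : W_4 (nat_lit 8) (nat_lit 0x5000380008000000000000000000000000000) (nat_lit 0x0) (nat_lit 0x31803ac00000036007e000f0007000000000000000) := Q_4 (nat_lit 95) (C_4 L1308719 (C_4 L1308724 (C_4 L1308729 (C_4 L1308730 (C_4 L1308731 N_4))))) (by decide +kernel)
theorem L1308733 : W_4 (nat_lit 9) (nat_lit 0x1000380008000000000000000000000000000) (nat_lit 0x0) (nat_lit 0x300039803ec00000076007e000f0007000000000000000) := Q_4 (nat_lit 146) (C_4 L610848 (C_4 L1308713 (C_4 L608362 (C_4 L1308732 N_4)))) (by decide +kernel)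
theorem L1308734 : W_4 (nat_lit 7) (nat_lit 0x1000380008000000000000000000000000000) (nat_lit 0x0) (nat_lit 0x200010007e001c001f60038000c0004000000000000000) := Q_4 (nat_lit 130) (C_4 L605269 (C_4 L605228 (C_4 L605262 N_4))) (by decide +kernel)
theorem L1308735 : W_4 (nat_lit 10) (nat_lit 0x1000180008000000000000000000000000000) (nat_lit 0x0) (nat_lit 0x300039807ec01e001f6007e000f0007000000000000000) := Q_4 (nat_lit 129) (C_4 L1287248 (C_4 L1308733 (C_4 L1287238 (C_4 L1308734 N_4)))) (by decide +kernel)
theorem L1308736 : W_4 (nat_lit 16) (nat_lit 0x1000180000000000000000000000000000000) (nat_lit 0x0) (nat_lit 0x1f800f801fe00fb80fee07e203ff807ec01f000f800700000000000) := Q_4 (nat_lit 111) (C_4 L1308711 (C_4 L527683 (C_4 L1308735 (C_4 L568080 N_4)))) (by decide +kernel)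
theorem L1309209 : W_4 (nat_lit 9) (nat_lit 0x38001800180002000000000000000000000000000) (nat_lit 0x0) (nat_lit 0x1c0006000300618005c00220000000000000000000000) := T_4 (nat_lit 110) (nat_lit 93) (nat_lit 5) (nat_lit 8) (nat_lit 5) L1118284 (by decide +kernel)
theorem L1309210 : W_4 (nat_lit 4) (nat_lit 0x3a001800180002000000000000000000000000000) (nat_lit 0x0) (nat_lit 0x100000000000060001c00080000000000000000000000) := T_4 (nat_lit 126) (nat_lit 176) (nat_lit 5) (nat_lit 7) (nat_lit 6) L802176 (by decide +kernel)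
theorem L1309211 : W_4 (nat_lit 5) (nat_lit 0x38001800180002000000000000000000000000000) (nat_lit 0x0) (nat_lit 0x100006000000060001c00080000000000000000000000) := T_4 (nat_lit 157) (nat_lit 158) (nat_lit 2) (nat_lit 4) (nat_lit 9) L1309210 (by decide +kernel)
theorem L1309212 : W_4 (nat_lit 2) (nat_lit 0x380018001c0002000000000000000000000000000) (nat_lit 0x0) (nat_lit 0x200001000080000000000000000000000) := D_4 (nat_lit 108) (nat_lit 91) (nat_lit 129) (nat_lit 4) (nat_lit 7) (nat_lit 9) (nat_lit 0) (nat_lit 10) (nat_lit 7) (by decide +kernel)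
theorem L1309213 : W_4 (nat_lit 3) (nat_lit 0x38001800180002000000000000000000000000000) (nat_lit 0x0) (nat_lit 0x100000000000240001000080000000000000000000000) := T_4 (nat_lit 126) (nat_lit 176) (nat_lit 5) (nat_lit 7) (nat_lit 6) L1309212 (by decide +kernel)
theorem L1309214 : W_4 (nat_lit 2) (nat_lit 0x3a001800380006000000000000000000000000000) (nat_lit 0x0) (nat_lit 0x40001800000000000000000000000000) := D_4 (nat_lit 108) (nat_lit 107) (nat_lit 126) (nat_lit 3) (nat_lit 5) (nat_lit 6) (nat_lit 0) (nat_lit 10) (nat_lit 7) (by decide +kernel)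
theorem L1309215 : W_4 (nat_lit 3) (nat_lit 0x3a001800180006000000000000000000000000000) (nat_lit 0x0) (nat_lit 0x640001800000000000000000000000000) := T_4 (nat_lit 129) (nat_lit 130) (nat_lit 1) (nat_lit 11) (nat_lit 7) L1309214 (by decide +kernel)
theorem L1309216 : W_4 (nat_lit 4) (nat_lit 0x3a001800180002000000000000000000000000000) (nat_lit 0x0) (nat_lit 0x640005800200000000000000000000000) := T_4 (nat_lit 110) (nat_lit 93) (nat_lit 5) (nat_lit 8) (nat_lit 5) L1309215 (by decide +kernel)
theorem L1309217 : W_4 (nat_lit 5) (nat_lit 0x38001800180002000000000000000000000000000) (nat_lit 0x0) (nat_lit 0x6000000640005800200000000000000000000000) := T_4 (nat_lit 157) (nat_lit 158) (nat_lit 2) (nat_lit 4) (nat_lit 9) L1309216 (by decide +kernel)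
theorem L1309218 : W_4 (nat_lit 10) (nat_lit 0x38001800180000000000000000000000000000000) (nat_lit 0x0) (nat_lit 0x400020001c0006000300678007c002a0000000000000000000000) := Q_4 (nat_lit 109) (C_4 L837518 (C_4 L1309209 (C_4 L1309211 (C_4 L1309213 (C_4 L1309217 N_4))))) (by decide +kernel)
theorem L1312218 : W_4 (nat_lit 2) (nat_lit 0x20001800380006000000000000000000000000000) (nat_lit 0x0) (nat_lit 0x40001800000000000000000000000000) := D_4 (nat_lit 108) (nat_lit 107) (nat_lit 126) (nat_lit 3) (nat_lit 5) (nat_lit 6) (nat_lit 0) (nat_lit 10) (nat_lit 7) (by decide +kernel)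
theorem L1312219 : W_4 (nat_lit 3) (nat_lit 0x20001800180006000000000000000000000000000) (nat_lit 0x0) (nat_lit 0x640001800000000000000000000000000) := T_4 (nat_lit 129) (nat_lit 130) (nat_lit 1) (nat_lit 11) (nat_lit 7) L1312218 (by decide +kernel)
theorem L1312808 : W_4 (nat_lit 9) (nat_lit 0x300058001c0000000000000000000000000000000) (nat_lit 0x0) (nat_lit 0x60003c000e000300038001c00000000000000000000000000) := T_4 (nat_lit 177) (nat_lit 194) (nat_lit 6) (nat_lit 7) (nat_lit 11) L1258136 (by decide +kernel)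
theorem L1313094 : W_4 (nat_lit 5) (nat_lit 0x30005800380000000000000000000000000000000) (nat_lit 0x0) (nat_lit 0x6000300008008000040003000000000000000000000000000) := T_4 (nat_lit 126) (nat_lit 147) (nat_lit 3) (nat_lit 7) (nat_lit 7) L1286191 (by decide +kernel)
theorem L1315437 : W_4 (nat_lit 2) (nat_lit 0x4000200058003f0000000000000000000000000000000) (nat_lit 0x0) (nat_lit 0x1c00000000000000000000000000) := D_4 (nat_lit 107) (nat_lit 108) (nat_lit 106) (nat_lit 0) (nat_lit 9) (nat_lit 7) (nat_lit 0) (nat_lit 8) (nat_lit 7) (by decide +kernel)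
theorem L1315438 : W_4 (nat_lit 3) (nat_lit 0x4000200058003e0000000000000000000000000000000) (nat_lit 0x0) (nat_lit 0x18001c00000000000000000000000000) := T_4 (nat_lit 124) (nat_lit 123) (nat_lit 3) (nat_lit 4) (nat_lit 7) L1315437 (by decide +kernel)
theorem L1315439 : W_4 (nat_lit 4) (nat_lit 0x4000200058003c0000000000000000000000000000000) (nat_lit 0x0) (nat_lit 0x2000038001c00000000000000000000000000) := T_4 (nat_lit 125) (nat_lit 145) (nat_lit 3) (nat_lit 6) (nat_lit 7) L1315438 (by decide +kernel)
theorem L1315440 : W_4 (nat_lit 5) (nat_lit 0x4000200018003c0000000000000000000000000000000) (nat_lit 0x0) (nat_lit 0xe000038001c00000000000000000000000000) := T_4 (nat_lit 146) (nat_lit 147) (nat_lit 3) (nat_lit 7) (nat_lit 7) L1315439 (by decide +kernel)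
theorem L1315441 : W_4 (nat_lit 6) (nat_lit 0x400020001800380000000000000000000000000000000) (nat_lit 0x0) (nat_lit 0xe000078003c00000000000000000000000000) := T_4 (nat_lit 126) (nat_lit 109) (nat_lit 4) (nat_lit 8) (nat_lit 10) L1315440 (by decide +kernel)
theorem L1315442 : W_4 (nat_lit 7) (nat_lit 0x400020001800180000000000000000000000000000000) (nat_lit 0x0) (nat_lit 0xe000678003c00000000000000000000000000) := T_4 (nat_lit 129) (nat_lit 130) (nat_lit 1) (nat_lit 11) (nat_lit 7) L1315441 (by decide +kernel)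
theorem L1315443 : W_4 (nat_lit 8) (nat_lit 0x20001800180000000000000000000000000000000) (nat_lit 0x0) (nat_lit 0x28001c000e0000000e000678003c00000000000000000000000000) := Q_4 (nat_lit 178) (C_4 L979602 (C_4 L808096 (C_4 L1315442 N_4))) (by decide +kernel)
theorem L1315444 : W_4 (nat_lit 2) (nat_lit 0xe000300018005c0000000000000000000000000000000) (nat_lit 0x0) (nat_lit 0x100000c000000000000000000000000000000000000000) := D_4 (nat_lit 159) (nat_lit 158) (nat_lit 180) (nat_lit 3) (nat_lit 5) (nat_lit 9) (nat_lit 0) (nat_lit 10) (nat_lit 10) (by decide +kernel)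
theorem L1315445 : W_4 (nat_lit 3) (nat_lit 0x6000300018005c0000000000000000000000000000000) (nat_lit 0x0) (nat_lit 0x1000180000c000000000000000000000000000000000000000) := T_4 (nat_lit 179) (nat_lit 196) (nat_lit 7) (nat_lit 8) (nat_lit 7) L1315444 (by decide +kernel)
theorem L1315446 : W_4 (nat_lit 4) (nat_lit 0x6000200018005c0000000000000000000000000000000) (nat_lit 0x0) (nat_lit 0x1000180001c000000000004000000000000000000000000000) := T_4 (nat_lit 160) (nat_lit 110) (nat_lit 6) (nat_lit 7) (nat_lit 10) L1315445 (by decide +kernel)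
theorem L1315447 : W_4 (nat_lit 5) (nat_lit 0x4000200018005c0000000000000000000000000000000) (nat_lit 0x0) (nat_lit 0x14001a0001c000000000004000000000000000000000000000) := T_4 (nat_lit 177) (nat_lit 194) (nat_lit 5) (nat_lit 8) (nat_lit 7) L1315446 (by decide +kernel)
theorem L1315448 : W_4 (nat_lit 6) (nat_lit 0x400020001800580000000000000000000000000000000) (nat_lit 0x0) (nat_lit 0x14001a0001c000000040006000000000000000000000000000) := T_4 (nat_lit 126) (nat_lit 109) (nat_lit 4) (nat_lit 8) (nat_lit 10) L1315447 (by decide +kernel)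
theorem L1315449 : W_4 (nat_lit 7) (nat_lit 0x400020001800180000000000000000000000000000000) (nat_lit 0x0) (nat_lit 0x14001a0001c000000640006000000000000000000000000000) := T_4 (nat_lit 130) (nat_lit 129) (nat_lit 1) (nat_lit 11) (nat_lit 7) L1315448 (by decide +kernel)
theorem L1315450 : W_4 (nat_lit 8) (nat_lit 0x20001800180000000000000000000000000000000) (nat_lit 0x0) (nat_lit 0x28001c001e0001c000000640006000000000000000000000000000) := Q_4 (nat_lit 178) (C_4 L979602 (C_4 L808096 (C_4 L1315449 N_4))) (by decide +kernel)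
theorem L1315451 : W_4 (nat_lit 2) (nat_lit 0x30001800180000000000000000000000000000000) (nat_lit 0x0) (nat_lit 0x200000000000000004000200000000000000000000000) := D_4 (nat_lit 110) (nat_lit 93) (nat_lit 177) (nat_lit 5) (nat_lit 8) (nat_lit 5) (nat_lit 5) (nat_lit 8) (nat_lit 6) (by decide +kernel)
theorem L1315452 : W_4 (nat_lit 2) (nat_lit 0x30001800180000000000000000000000000000000) (nat_lit 0x0) (nat_lit 0x4000200000000000000004000000000000000000000000000) := D_4 (nat_lit 177) (nat_lit 194) (nat_lit 110) (nat_lit 6) (nat_lit 7) (nat_lit 11) (nat_lit 5) (nat_lit 8) (nat_lit 6) (by decide +kernel)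
theorem L1315471 : W_4 (nat_lit 2) (nat_lit 0x30005800380000000000000000000000000000000) (nat_lit 0x0) (nat_lit 0xa000040000000000000000000000000000000) := D_4 (nat_lit 147) (nat_lit 145) (nat_lit 126) (nat_lit 1) (nat_lit 11) (nat_lit 8) (nat_lit 3) (nat_lit 7) (nat_lit 7) (by decide +kernel)
theorem L1315472 : W_4 (nat_lit 3) (nat_lit 0x30005800180000000000000000000000000000000) (nat_lit 0x0) (nat_lit 0xa000640000000000000000000000000000000) := T_4 (nat_lit 129) (nat_lit 130) (nat_lit 1) (nat_lit 11) (nat_lit 7) L1315471 (by decide +kernel)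
theorem L1315473 : W_4 (nat_lit 6) (nat_lit 0x30005800180000000000000000000000000000000) (nat_lit 0x0) (nat_lit 0x6000300008008000640003000000000000000000000000000) := T_4 (nat_lit 129) (nat_lit 130) (nat_lit 1) (nat_lit 11) (nat_lit 7) L1313094 (by decide +kernel)
theorem L1315474 : W_4 (nat_lit 2) (nat_lit 0x30005800180000000000000000000000000000000) (nat_lit 0x0) (nat_lit 0x800a000000000000000000000000000000000000) := D_4 (nat_lit 145) (nat_lit 147) (nat_lit 159) (nat_lit 1) (nat_lit 11) (nat_lit 8) (nat_lit 1) (nat_lit 10) (nat_lit 8) (by decide +kernel)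
theorem L1315475 : W_4 (nat_lit 2) (nat_lit 0x300058001c0000000000000000000000000000000) (nat_lit 0x0) (nat_lit 0x8002000020000000000000000000000000000000) := D_4 (nat_lit 145) (nat_lit 125) (nat_lit 159) (nat_lit 3) (nat_lit 6) (nat_lit 7) (nat_lit 1) (nat_lit 10) (nat_lit 8) (by decide +kernel)
theorem L1315476 : W_4 (nat_lit 2) (nat_lit 0x600010003c005a005c0000000000000000000000000000000) (nat_lit 0x0) (nat_lit 0xc0000000000010000000000000000000000000000000) := D_4 (nat_lit 175) (nat_lit 174) (nat_lit 124) (nat_lit 1) (nat_lit 8) (nat_lit 9) (nat_lit 7) (nat_lit 5) (nat_lit 7) (by decide +kernel)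
theorem L1315477 : W_4 (nat_lit 3) (nat_lit 0x600010003c0058005c0000000000000000000000000000000) (nat_lit 0x0) (nat_lit 0xc0000000300010000000000000000000000000000000) := T_4 (nat_lit 141) (nat_lit 140) (nat_lit 0) (nat_lit 8) (nat_lit 9) L1315476 (by decide +kernel)
theorem L1315478 : W_4 (nat_lit 4) (nat_lit 0x400010003c0058005c0000000000000000000000000000000) (nat_lit 0x0) (nat_lit 0x400020000c0000000300010000000000000000000000000000000) := T_4 (nat_lit 193) (nat_lit 210) (nat_lit 6) (nat_lit 6) (nat_lit 12) L1315477 (by decide +kernel)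
theorem L1315479 : W_4 (nat_lit 5) (nat_lit 0x40001000380058005c0000000000000000000000000000000) (nat_lit 0x0) (nat_lit 0x400020000c0006000300010000000000000000000000000000000) := T_4 (nat_lit 158) (nat_lit 157) (nat_lit 2) (nat_lit 4) (nat_lit 9) L1315478 (by decide +kernel)
theorem L1315480 : W_4 (nat_lit 6) (nat_lit 0x40000000380058005c0000000000000000000000000000000) (nat_lit 0x0) (nat_lit 0x400020001c0006000300010002000000000000000000000000000) := T_4 (nat_lit 176) (nat_lit 109) (nat_lit 5) (nat_lit 7) (nat_lit 6) L1315479 (by decide +kernel)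
theorem L1315481 : W_4 (nat_lit 7) (nat_lit 0x380058005c0000000000000000000000000000000) (nat_lit 0x0) (nat_lit 0x400060003c0006000300010002000000000000000000000000000) := T_4 (nat_lit 194) (nat_lit 177) (nat_lit 6) (nat_lit 7) (nat_lit 11) L1315480 (by decide +kernel)
theorem L1315482 : W_4 (nat_lit 8) (nat_lit 0x300058005c0000000000000000000000000000000) (nat_lit 0x0) (nat_lit 0x400060003c000e002300010002000000000000000000000000000) := T_4 (nat_lit 159) (nat_lit 145) (nat_lit 1) (nat_lit 10) (nat_lit 8) L1315481 (by decide +kernel)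
theorem L1315483 : W_4 (nat_lit 9) (nat_lit 0x300058001c0000000000000000000000000000000) (nat_lit 0x0) (nat_lit 0x400060003c000e002300610002000000000000000000000000000) := T_4 (nat_lit 130) (nat_lit 129) (nat_lit 1) (nat_lit 11) (nat_lit 7) L1315482 (by decide +kernel)
theorem L1315484 : W_4 (nat_lit 2) (nat_lit 0x40000000300058005e0001000000000000000000000000000) (nat_lit 0x0) (nat_lit 0x2000080004000000000000000000) := D_4 (nat_lit 91) (nat_lit 109) (nat_lit 74) (nat_lit 4) (nat_lit 7) (nat_lit 9) (nat_lit 7) (nat_lit 6) (nat_lit 4) (by decide +kernel)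
theorem L1315485 : W_4 (nat_lit 3) (nat_lit 0x40000000300058005e0000000000000000000000000000000) (nat_lit 0x0) (nat_lit 0x3800080004000000000000000000) := T_4 (nat_lit 108) (nat_lit 107) (nat_lit 0) (nat_lit 9) (nat_lit 7) L1315484 (by decide +kernel)
theorem L1315486 : W_4 (nat_lit 4) (nat_lit 0x40000000300058001e0000000000000000000000000000000) (nat_lit 0x0) (nat_lit 0x600003800080004000000000000000000) := T_4 (nat_lit 130) (nat_lit 129) (nat_lit 1) (nat_lit 11) (nat_lit 7) L1315485 (by decide +kernel)
theorem L1315487 : W_4 (nat_lit 5) (nat_lit 0x40000000300058001c0000000000000000000000000000000) (nat_lit 0x0) (nat_lit 0x2000620003800080004000000000000000000) := T_4 (nat_lit 125) (nat_lit 145) (nat_lit 3) (nat_lit 6) (nat_lit 7) L1315486 (by decide +kernel)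
theorem L1315488 : W_4 (nat_lit 6) (nat_lit 0x300058001c0000000000000000000000000000000) (nat_lit 0x0) (nat_lit 0x4000200000002000620003800080004000000000000000000) := T_4 (nat_lit 194) (nat_lit 177) (nat_lit 6) (nat_lit 7) (nat_lit 11) L1315487 (by decide +kernel)
theorem L1315489 : W_4 (nat_lit 10) (nat_lit 0x30005800180000000000000000000000000000000) (nat_lit 0x0) (nat_lit 0x400060003c000e002300678003c00080004000000000000000000) := Q_4 (nat_lit 126) (C_4 L1312808 (C_4 L1315475 (C_4 L1315483 (C_4 L1315488 N_4)))) (by decide +kernel)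
theorem L1315490 : W_4 (nat_lit 11) (nat_lit 0x30001800180000000000000000000000000000000) (nat_lit 0x0) (nat_lit 0x400060003c000e00e300678003c00080004000000000000000000) := Q_4 (nat_lit 146) (C_4 L1315472 (C_4 L1315473 (C_4 L1315474 (C_4 L1315489 N_4)))) (by decide +kernel)
theorem L1315512 : W_4 (nat_lit 2) (nat_lit 0x380058003c0000000200000000000000000000000) (nat_lit 0x0) (nat_lit 0x100000000000000003000000000000000000000000000) := D_4 (nat_lit 109) (nat_lit 108) (nat_lit 176) (nat_lit 0) (nat_lit 10) (nat_lit 7) (nat_lit 5) (nat_lit 7) (nat_lit 6) (by decide +kernel)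
theorem L1315513 : W_4 (nat_lit 3) (nat_lit 0x38005800380000000200000000000000000000000) (nat_lit 0x0) (nat_lit 0x100000008000040003000000000000000000000000000) := T_4 (nat_lit 126) (nat_lit 147) (nat_lit 3) (nat_lit 7) (nat_lit 7) L1315512 (by decide +kernel)
theorem L1315514 : W_4 (nat_lit 4) (nat_lit 0x38005800180000000200000000000000000000000) (nat_lit 0x0) (nat_lit 0x100000008000640003000000000000000000000000000) := T_4 (nat_lit 129) (nat_lit 130) (nat_lit 1) (nat_lit 11) (nat_lit 7) L1315513 (by decide +kernel)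
theorem L1315515 : W_4 (nat_lit 5) (nat_lit 0x38005800180000000000000000000000000000000) (nat_lit 0x0) (nat_lit 0x100000008000640007000200000000000000000000000) := T_4 (nat_lit 93) (nat_lit 110) (nat_lit 5) (nat_lit 8) (nat_lit 5) L1315514 (by decide +kernel)
theorem L1315516 : W_4 (nat_lit 6) (nat_lit 0x38001800180000000000000000000000000000000) (nat_lit 0x0) (nat_lit 0x10000000e000640007000200000000000000000000000) := T_4 (nat_lit 146) (nat_lit 145) (nat_lit 1) (nat_lit 10) (nat_lit 8) L1315515 (by decide +kernel)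
theorem L1315517 : W_4 (nat_lit 11) (nat_lit 0x30001800180000000000000000000000000000000) (nat_lit 0x0) (nat_lit 0x400020001c000e00e300678007c002a0000000000000000000000) := Q_4 (nat_lit 159) (C_4 L1309218 (C_4 L860999 (C_4 L1315516 N_4))) (by decide +kernel)
theorem L1315518 : W_4 (nat_lit 12) (nat_lit 0x20001800180000000000000000000000000000000) (nat_lit 0x0) (nat_lit 0x400060003c001e00e300678007c002a0004000000000000000000) := Q_4 (nat_lit 160) (C_4 L1315451 (C_4 L1315452 (C_4 L1315490 (C_4 L1315517 N_4)))) (by decide +kernel)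
theorem L1315519 : W_4 (nat_lit 2) (nat_lit 0xe000300018001c0000000000000000000000000000000) (nat_lit 0x0) (nat_lit 0x100000c000000000000000000000000000000000000000) := D_4 (nat_lit 159) (nat_lit 158) (nat_lit 180) (nat_lit 3) (nat_lit 5) (nat_lit 9) (nat_lit 0) (nat_lit 10) (nat_lit 10) (by decide +kernel)
theorem L1315520 : W_4 (nat_lit 3) (nat_lit 0x6000300018001c0000000000000000000000000000000) (nat_lit 0x0) (nat_lit 0x1000180000c000000000000000000000000000000000000000) := T_4 (nat_lit 179) (nat_lit 196) (nat_lit 7) (nat_lit 8) (nat_lit 7) L1315519 (by decide +kernel)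
theorem L1315521 : W_4 (nat_lit 4) (nat_lit 0x6000200018001c0000000000000000000000000000000) (nat_lit 0x0) (nat_lit 0x1000180001c000000000004000000000000000000000000000) := T_4 (nat_lit 160) (nat_lit 110) (nat_lit 6) (nat_lit 7) (nat_lit 10) L1315520 (by decide +kernel)
theorem L1315522 : W_4 (nat_lit 5) (nat_lit 0x4000200018001c0000000000000000000000000000000) (nat_lit 0x0) (nat_lit 0x14001a0001c000000000004000000000000000000000000000) := T_4 (nat_lit 177) (nat_lit 194) (nat_lit 5) (nat_lit 8) (nat_lit 7) L1315521 (by decide +kernel)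
theorem L1315523 : W_4 (nat_lit 6) (nat_lit 0x400020001800180000000000000000000000000000000) (nat_lit 0x0) (nat_lit 0x14001a0001c000000040006000000000000000000000000000) := T_4 (nat_lit 126) (nat_lit 109) (nat_lit 4) (nat_lit 8) (nat_lit 10) L1315522 (by decide +kernel)
theorem L1315524 : W_4 (nat_lit 7) (nat_lit 0x20001800180000000000000000000000000000000) (nat_lit 0x0) (nat_lit 0x28001c001e0001c000000040006000000000000000000000000000) := Q_4 (nat_lit 178) (C_4 L979602 (C_4 L808096 (C_4 L1315523 N_4))) (by decide +kernel)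
theorem L1315531 : W_4 (nat_lit 2) (nat_lit 0x400030001800180000000000000000000000000000000) (nat_lit 0x0) (nat_lit 0x100008000000000002000000000000000000000000000000000000) := D_4 (nat_lit 195) (nat_lit 212) (nat_lit 145) (nat_lit 4) (nat_lit 8) (nat_lit 12) (nat_lit 6) (nat_lit 8) (nat_lit 11) (by decide +kernel)
theorem L1315612 : W_4 (nat_lit 2) (nat_lit 0x8000400020001800580000000000000000000000000000000) (nat_lit 0x0) (nat_lit 0x200010000800000000000000000000000000000000000000000000) := D_4 (nat_lit 196) (nat_lit 179) (nat_lit 213) (nat_lit 7) (nat_lit 8) (nat_lit 7) (nat_lit 7) (nat_lit 8) (nat_lit 8) (by decide +kernel)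
theorem L1315613 : W_4 (nat_lit 3) (nat_lit 0x400020001800580000000000000000000000000000000) (nat_lit 0x0) (nat_lit 0x200018000800000002000000000000000000000000000000000000) := T_4 (nat_lit 195) (nat_lit 145) (nat_lit 6) (nat_lit 8) (nat_lit 11) L1315612 (by decide +kernel)
theorem L1315614 : W_4 (nat_lit 4) (nat_lit 0x400020001800180000000000000000000000000000000) (nat_lit 0x0) (nat_lit 0x200018000800000002000600000000000000000000000000000000) := T_4 (nat_lit 130) (nat_lit 129) (nat_lit 1) (nat_lit 11) (nat_lit 7) L1315613 (by decide +kernel)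
theorem L1315615 : W_4 (nat_lit 2) (nat_lit 0xe00030001800580000000000000000000000000000000) (nat_lit 0x0) (nat_lit 0x100000c000000000000000000000000000000000000000) := D_4 (nat_lit 159) (nat_lit 158) (nat_lit 180) (nat_lit 3) (nat_lit 5) (nat_lit 9) (nat_lit 0) (nat_lit 10) (nat_lit 10) (by decide +kernel)
theorem L1315616 : W_4 (nat_lit 3) (nat_lit 0x600030001800580000000000000000000000000000000) (nat_lit 0x0) (nat_lit 0x1000180000c000000000000000000000000000000000000000) := T_4 (nat_lit 179) (nat_lit 196) (nat_lit 7) (nat_lit 8) (nat_lit 7) L1315615 (by decide +kernel)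
theorem L1315617 : W_4 (nat_lit 4) (nat_lit 0x600030001800180000000000000000000000000000000) (nat_lit 0x0) (nat_lit 0x1000180000c000000600000000000000000000000000000000) := T_4 (nat_lit 130) (nat_lit 129) (nat_lit 1) (nat_lit 11) (nat_lit 7) L1315616 (by decide +kernel)
theorem L1315618 : W_4 (nat_lit 5) (nat_lit 0x600020001800180000000000000000000000000000000) (nat_lit 0x0) (nat_lit 0x1000180001c000000600004000000000000000000000000000) := T_4 (nat_lit 160) (nat_lit 110) (nat_lit 5) (nat_lit 8) (nat_lit 6) L1315617 (by decide +kernel)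
theorem L1315619 : W_4 (nat_lit 6) (nat_lit 0x400020001800180000000000000000000000000000000) (nat_lit 0x0) (nat_lit 0x14001a0001c000000600004000000000000000000000000000) := T_4 (nat_lit 177) (nat_lit 194) (nat_lit 5) (nat_lit 8) (nat_lit 7) L1315618 (by decide +kernel)
theorem L1315620 : W_4 (nat_lit 2) (nat_lit 0x8000400020001800180000000000000000000000000000000) (nat_lit 0x0) (nat_lit 0x80004000200000000000000000000000000000000000000000000) := D_4 (nat_lit 194) (nat_lit 211) (nat_lit 177) (nat_lit 5) (nat_lit 8) (nat_lit 8) (nat_lit 5) (nat_lit 8) (nat_lit 7) (by decide +kernel)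
theorem L1315621 : W_4 (nat_lit 3) (nat_lit 0x400020001800180000000000000000000000000000000) (nat_lit 0x0) (nat_lit 0x8000c000200000002000000000000000000000000000000000000) := T_4 (nat_lit 195) (nat_lit 145) (nat_lit 6) (nat_lit 8) (nat_lit 11) L1315620 (by decide +kernel)
theorem L1315622 : W_4 (nat_lit 7) (nat_lit 0x20001800180000000000000000000000000000000) (nat_lit 0x0) (nat_lit 0x28001c001e0001c002000600004000000000000000000000000000) := Q_4 (nat_lit 178) (C_4 L1315614 (C_4 L808096 (C_4 L1315619 (C_4 L1315621 N_4)))) (by decide +kernel)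
theorem L1315623 : W_4 (nat_lit 8) (nat_lit 0x20001800180000000000000000000000000000000) (nat_lit 0x0) (nat_lit 0x200018000c0000000e000678003c00000000000000000000000000) := Q_4 (nat_lit 178) (C_4 L979602 (C_4 L1315614 (C_4 L1315442 N_4))) (by decide +kernel)
theorem L1315624 : W_4 (nat_lit 13) (nat_lit 0x1800180000000000000000000000000000000) (nat_lit 0x0) (nat_lit 0x2c001e001fc003e00e300678007c002a0004000000000000000000) := Q_4 (nat_lit 161) (C_4 L1315443 (C_4 L1315450 (C_4 L1315518 (C_4 L1315524 (C_4 L1315622 (C_4 L1315623 N_4)))))) (by decide +kernel)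
theorem L1315625 : W_4 (nat_lit 14) (nat_lit 0x1000180000000000000000000000000000000) (nat_lit 0x0) (nat_lit 0x2e001f001fe03bf01ef0067c007c002e0004000000000000000000) := Q_4 (nat_lit 143) (C_4 L1114092 (C_4 L802142 (C_4 L1315624 (C_4 L822525 (C_4 L822581 N_4))))) (by decide +kernel)
theorem L1315626 : W_4 (nat_lit 2) (nat_lit 0x10003c0008000000000000000000000000000) (nat_lit 0x0) (nat_lit 0xc00400000000000000000000000000000000) := D_4 (nat_lit 143) (nat_lit 142) (nat_lit 130) (nat_lit 1) (nat_lit 10) (nat_lit 7) (nat_lit 1) (nat_lit 11) (nat_lit 7) (by decide +kernel)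
theorem L1315627 : W_4 (nat_lit 2) (nat_lit 0x4000000018003c001e000800000000000000000000000) (nat_lit 0x0) (nat_lit 0x2000000000000000040002000000000000000) := D_4 (nat_lit 78) (nat_lit 61) (nat_lit 145) (nat_lit 5) (nat_lit 10) (nat_lit 3) (nat_lit 5) (nat_lit 10) (nat_lit 4) (by decide +kernel)
theorem L1315628 : W_4 (nat_lit 3) (nat_lit 0x4000000018003c001e000000000000000000000000000) (nat_lit 0x0) (nat_lit 0x2000000000001800040002000000000000000) := T_4 (nat_lit 95) (nat_lit 96) (nat_lit 2) (nat_lit 7) (nat_lit 6) L1315627 (by decide +kernel)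
theorem L1315629 : W_4 (nat_lit 4) (nat_lit 0x4000000010003c001e000000000000000000000000000) (nat_lit 0x0) (nat_lit 0x2c00000000001800040002000000000000000) := T_4 (nat_lit 143) (nat_lit 142) (nat_lit 1) (nat_lit 10) (nat_lit 7) L1315628 (by decide +kernel)
theorem L1315630 : W_4 (nat_lit 5) (nat_lit 0x4000000010003c000e000000000000000000000000000) (nat_lit 0x0) (nat_lit 0x2c00000030001800040002000000000000000) := T_4 (nat_lit 112) (nat_lit 113) (nat_lit 2) (nat_lit 7) (nat_lit 7) L1315629 (by decide +kernel)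
theorem L1315631 : W_4 (nat_lit 6) (nat_lit 0x4000000010003c000c000000000000000000000000000) (nat_lit 0x0) (nat_lit 0x2c00000033001800040002000000000000000) := T_4 (nat_lit 109) (nat_lit 108) (nat_lit 3) (nat_lit 6) (nat_lit 6) L1315630 (by decide +kernel)
theorem L1315632 : W_4 (nat_lit 7) (nat_lit 0x10003c000c000000000000000000000000000) (nat_lit 0x0) (nat_lit 0x400020002c00000033001800040002000000000000000) := T_4 (nat_lit 178) (nat_lit 161) (nat_lit 6) (nat_lit 8) (nat_lit 10) L1315631 (by decide +kernel)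
theorem L1315633 : W_4 (nat_lit 2) (nat_lit 0x4000000010003c001e000800000000000000000000000) (nat_lit 0x0) (nat_lit 0x2000000000000000040002000000000000000) := D_4 (nat_lit 78) (nat_lit 61) (nat_lit 145) (nat_lit 5) (nat_lit 10) (nat_lit 3) (nat_lit 5) (nat_lit 10) (nat_lit 4) (by decide +kernel)
theorem L1315634 : W_4 (nat_lit 3) (nat_lit 0x4000000010003c001e000000000000000000000000000) (nat_lit 0x0) (nat_lit 0x2000000000001800040002000000000000000) := T_4 (nat_lit 95) (nat_lit 96) (nat_lit 2) (nat_lit 7) (nat_lit 6) L1315633 (by decide +kernel)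
theorem L1315635 : W_4 (nat_lit 4) (nat_lit 0x4000000010003c000e000000000000000000000000000) (nat_lit 0x0) (nat_lit 0x2000000030001800040002000000000000000) := T_4 (nat_lit 112) (nat_lit 113) (nat_lit 2) (nat_lit 7) (nat_lit 7) L1315634 (by decide +kernel)
theorem L1315636 : W_4 (nat_lit 5) (nat_lit 0x4000000010003c000c000000000000000000000000000) (nat_lit 0x0) (nat_lit 0x2000000033001800040002000000000000000) := T_4 (nat_lit 109) (nat_lit 108) (nat_lit 3) (nat_lit 6) (nat_lit 6) L1315635 (by decide +kernel)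
theorem L1315637 : W_4 (nat_lit 6) (nat_lit 0x10003c000c000000000000000000000000000) (nat_lit 0x0) (nat_lit 0x400020002000000033001800040002000000000000000) := T_4 (nat_lit 178) (nat_lit 161) (nat_lit 6) (nat_lit 8) (nat_lit 10) L1315636 (by decide +kernel)
theorem L1315638 : W_4 (nat_lit 8) (nat_lit 0x10003c0008000000000000000000000000000) (nat_lit 0x0) (nat_lit 0x600030002c00000037001a00040002000000000000000) := Q_4 (nat_lit 110) (C_4 L1286514 (C_4 L1315632 (C_4 L1315637 (C_4 L1285825 N_4)))) (by decide +kernel)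
theorem L1315639 : W_4 (nat_lit 9) (nat_lit 0x10001c0008000000000000000000000000000) (nat_lit 0x0) (nat_lit 0x60003003ac01e00077001a00040002000000000000000) := Q_4 (nat_lit 129) (C_4 L822676 (C_4 L822662 (C_4 L1315626 (C_4 L1315638 (C_4 L611753 N_4))))) (by decide +kernel)
theorem L1315640 : W_4 (nat_lit 2) (nat_lit 0x4000000018003e0009000000000000000000000000000) (nat_lit 0x0) (nat_lit 0x18004000000000000000000000000000) := D_4 (nat_lit 124) (nat_lit 110) (nat_lit 123) (nat_lit 2) (nat_lit 5) (nat_lit 7) (nat_lit 3) (nat_lit 4) (nat_lit 7) (by decide +kernel)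
theorem L1315641 : W_4 (nat_lit 3) (nat_lit 0x4000000018003c0009000000000000000000000000000) (nat_lit 0x0) (nat_lit 0x38004800000000000000000000000000) := T_4 (nat_lit 125) (nat_lit 107) (nat_lit 0) (nat_lit 9) (nat_lit 7) L1315640 (by decide +kernel)
theorem L1315642 : W_4 (nat_lit 4) (nat_lit 0x4000000018003c0008000000000000000000000000000) (nat_lit 0x0) (nat_lit 0x38007800000000000000000000000000) := T_4 (nat_lit 108) (nat_lit 109) (nat_lit 0) (nat_lit 10) (nat_lit 7) L1315641 (by decide +kernel)
theorem L1315643 : W_4 (nat_lit 5) (nat_lit 0x4000000018001c0008000000000000000000000000000) (nat_lit 0x0) (nat_lit 0x638007800000000000000000000000000) := T_4 (nat_lit 129) (nat_lit 130) (nat_lit 1) (nat_lit 11) (nat_lit 7) L1315642 (by decide +kernel)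
theorem L1315644 : W_4 (nat_lit 6) (nat_lit 0x18001c0008000000000000000000000000000) (nat_lit 0x0) (nat_lit 0x400020000000638007800000000000000000000000000) := T_4 (nat_lit 178) (nat_lit 161) (nat_lit 6) (nat_lit 8) (nat_lit 10) L1315643 (by decide +kernel)
theorem L1315645 : W_4 (nat_lit 9) (nat_lit 0x10001c0008000000000000000000000000000) (nat_lit 0x0) (nat_lit 0xe000f0003e000f00638007c00280000000000000000000000) := Q_4 (nat_lit 143) (C_4 L1288538 (C_4 L1315644 (C_4 L1283966 N_4))) (by decide +kernel)
theorem L1315646 : W_4 (nat_lit 10) (nat_lit 0x1000180008000000000000000000000000000) (nat_lit 0x0) (nat_lit 0xe000f0003e03af81e7c077f01a80040002000000000000000) := Q_4 (nat_lit 126) (C_4 L1283936 (C_4 L822655 (C_4 L1315639 (C_4 L1315645 N_4)))) (by decide +kernel)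
theorem L1315647 : W_4 (nat_lit 2) (nat_lit 0x18003e0009000000020000000000000000000) (nat_lit 0x0) (nat_lit 0x18004000000000000000000000000000) := D_4 (nat_lit 124) (nat_lit 110) (nat_lit 123) (nat_lit 2) (nat_lit 5) (nat_lit 7) (nat_lit 3) (nat_lit 4) (nat_lit 7) (by decide +kernel)
theorem L1315648 : W_4 (nat_lit 3) (nat_lit 0x18003c0009000000020000000000000000000) (nat_lit 0x0) (nat_lit 0x38004800000000000000000000000000) := T_4 (nat_lit 125) (nat_lit 107) (nat_lit 0) (nat_lit 9) (nat_lit 7) L1315647 (by decide +kernel)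
theorem L1315649 : W_4 (nat_lit 4) (nat_lit 0x18003c0008000000020000000000000000000) (nat_lit 0x0) (nat_lit 0x38007800000000000000000000000000) := T_4 (nat_lit 108) (nat_lit 109) (nat_lit 0) (nat_lit 10) (nat_lit 7) L1315648 (by decide +kernel)
theorem L1315650 : W_4 (nat_lit 5) (nat_lit 0x10003c0008000000020000000000000000000) (nat_lit 0x0) (nat_lit 0xc00038007800000000000000000000000000) := T_4 (nat_lit 143) (nat_lit 142) (nat_lit 1) (nat_lit 10) (nat_lit 7) L1315649 (by decide +kernel)
theorem L1315651 : W_4 (nat_lit 6) (nat_lit 0x10003c0008000000000000000000000000000) (nat_lit 0x0) (nat_lit 0xc00038007800400020000000000000000000) := T_4 (nat_lit 77) (nat_lit 94) (nat_lit 5) (nat_lit 9) (nat_lit 4) L1315650 (by decide +kernel)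
theorem L1315652 : W_4 (nat_lit 9) (nat_lit 0x1000380008000000000000000000000000000) (nat_lit 0x0) (nat_lit 0x200010000c00078037801e00060003000000000000000) := Q_4 (nat_lit 126) (C_4 L530451 (C_4 L1286515 (C_4 L1315651 N_4))) (by decide +kernel)
theorem L1315653 : W_4 (nat_lit 2) (nat_lit 0x900078003c001000020000000000000000000) (nat_lit 0x0) (nat_lit 0x100000000000000000800040000000000000000000) := D_4 (nat_lit 95) (nat_lit 78) (nat_lit 164) (nat_lit 7) (nat_lit 10) (nat_lit 4) (nat_lit 4) (nat_lit 11) (nat_lit 9) (by decide +kernel)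
theorem L1315654 : W_4 (nat_lit 3) (nat_lit 0x100078003c001000020000000000000000000) (nat_lit 0x0) (nat_lit 0x100018000000000000800040000000000000000000) := T_4 (nat_lit 147) (nat_lit 148) (nat_lit 3) (nat_lit 8) (nat_lit 7) L1315653 (by decide +kernel)
theorem L1315655 : W_4 (nat_lit 4) (nat_lit 0x100078003c000000020000000000000000000) (nat_lit 0x0) (nat_lit 0x100018000000000003800040000000000000000000) := T_4 (nat_lit 96) (nat_lit 97) (nat_lit 2) (nat_lit 8) (nat_lit 6) L1315654 (by decide +kernel)
theorem L1315656 : W_4 (nat_lit 5) (nat_lit 0x100078002c000000020000000000000000000) (nat_lit 0x0) (nat_lit 0x100018000040010003800040000000000000000000) := T_4 (nat_lit 112) (nat_lit 126) (nat_lit 2) (nat_lit 7) (nat_lit 7) L1315655 (by decide +kernel)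
theorem L1315657 : W_4 (nat_lit 6) (nat_lit 0x100078000c000000020000000000000000000) (nat_lit 0x0) (nat_lit 0x100018000040070003800040000000000000000000) := T_4 (nat_lit 113) (nat_lit 114) (nat_lit 2) (nat_lit 8) (nat_lit 7) L1315656 (by decide +kernel)
theorem L1315658 : W_4 (nat_lit 7) (nat_lit 0x1000780008000000020000000000000000000) (nat_lit 0x0) (nat_lit 0x100018000040076003800040000000000000000000) := T_4 (nat_lit 110) (nat_lit 109) (nat_lit 0) (nat_lit 11) (nat_lit 7) L1315657 (by decide +kernel)
theorem L1315659 : W_4 (nat_lit 8) (nat_lit 0x1000780008000000000000000000000000000) (nat_lit 0x0) (nat_lit 0x100018000040076003c00060000000000000000000) := T_4 (nat_lit 77) (nat_lit 94) (nat_lit 5) (nat_lit 9) (nat_lit 4) L1315658 (by decide +kernel)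
theorem L1315660 : W_4 (nat_lit 9) (nat_lit 0x1000380008000000000000000000000000000) (nat_lit 0x0) (nat_lit 0x10007a001c401f6003c00060000000000000000000) := Q_4 (nat_lit 130) (C_4 L605262 (C_4 L605228 (C_4 L1315659 N_4))) (by decide +kernel)
theorem L1315661 : W_4 (nat_lit 10) (nat_lit 0x1000180008000000000000000000000000000) (nat_lit 0x0) (nat_lit 0x20011007ac01e781f7803e00060003000000000000000) := Q_4 (nat_lit 129) (C_4 L1287248 (C_4 L1287238 (C_4 L1315652 (C_4 L1315660 N_4)))) (by decide +kernel)
theorem L1315662 : W_4 (nat_lit 11) (nat_lit 0x1000180000000000000000000000000000000) (nat_lit 0x0) (nat_lit 0xe000f0013e07af81e7c1fff03e80060003000000000000000) := Q_4 (nat_lit 111) (C_4 L1315646 (C_4 L1287253 (C_4 L1315661 (C_4 L568090 (C_4 L568080 N_4))))) (by decide +kernel)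
theorem L1315663 : W_4 (nat_lit 2) (nat_lit 0x20001800580008000000000000000000000000000) (nat_lit 0x0) (nat_lit 0x4000400020000000000000000000) := D_4 (nat_lit 94) (nat_lit 77) (nat_lit 110) (nat_lit 5) (nat_lit 9) (nat_lit 4) (nat_lit 6) (nat_lit 8) (nat_lit 9) (by decide +kernel)
theorem L1315664 : W_4 (nat_lit 3) (nat_lit 0x1800580008000000000000000000000000000) (nat_lit 0x0) (nat_lit 0x400020000000000004000400020000000000000000000) := T_4 (nat_lit 161) (nat_lit 178) (nat_lit 6) (nat_lit 8) (nat_lit 10) L1315663 (by decide +kernel)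
theorem L1315665 : W_4 (nat_lit 4) (nat_lit 0x1800180008000000000000000000000000000) (nat_lit 0x0) (nat_lit 0x400020000000600004000400020000000000000000000) := T_4 (nat_lit 130) (nat_lit 129) (nat_lit 1) (nat_lit 11) (nat_lit 7) L1315664 (by decide +kernel)
theorem L1315666 : W_4 (nat_lit 4) (nat_lit 0x18001c0008000000000000000000000000000) (nat_lit 0x0) (nat_lit 0x38014000400020000000000000000000) := T_4 (nat_lit 77) (nat_lit 94) (nat_lit 5) (nat_lit 9) (nat_lit 4) L1055006 (by decide +kernel)
theorem L1315667 : W_4 (nat_lit 2) (nat_lit 0x18001e0008000000000000000000000000000) (nat_lit 0x0) (nat_lit 0x6000010000000000000000000000000000000) := D_4 (nat_lit 145) (nat_lit 146) (nat_lit 124) (nat_lit 3) (nat_lit 6) (nat_lit 7) (nat_lit 3) (nat_lit 5) (nat_lit 7) (by decide +kernel)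
theorem L1315668 : W_4 (nat_lit 3) (nat_lit 0x18001c0008000000000000000000000000000) (nat_lit 0x0) (nat_lit 0x6000030010000000000000000000000000000) := T_4 (nat_lit 125) (nat_lit 112) (nat_lit 2) (nat_lit 6) (nat_lit 7) L1315667 (by decide +kernel)
theorem L1315669 : W_4 (nat_lit 2) (nat_lit 0x800058003c0018000000020000000000000000000) (nat_lit 0x0) (nat_lit 0x2000100002000000000000000000000000000000000000) := D_4 (nat_lit 164) (nat_lit 145) (nat_lit 181) (nat_lit 3) (nat_lit 7) (nat_lit 8) (nat_lit 7) (nat_lit 10) (nat_lit 6) (by decide +kernel)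
theorem L1315670 : W_4 (nat_lit 3) (nat_lit 0x58003c0018000000020000000000000000000) (nat_lit 0x0) (nat_lit 0x3000180002000000000000000000000000000000000000) := T_4 (nat_lit 163) (nat_lit 180) (nat_lit 4) (nat_lit 10) (nat_lit 10) L1315669 (by decide +kernel)
theorem L1315671 : W_4 (nat_lit 4) (nat_lit 0x18003c0018000000020000000000000000000) (nat_lit 0x0) (nat_lit 0x300018000e000000000000000000000000000000000000) := T_4 (nat_lit 146) (nat_lit 147) (nat_lit 3) (nat_lit 7) (nat_lit 7) L1315670 (by decide +kernel)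
theorem L1315672 : W_4 (nat_lit 5) (nat_lit 0x18003c0008000000020000000000000000000) (nat_lit 0x0) (nat_lit 0x300018000e000000030000000000000000000000000000) := T_4 (nat_lit 112) (nat_lit 113) (nat_lit 2) (nat_lit 7) (nat_lit 7) L1315671 (by decide +kernel)
theorem L1315673 : W_4 (nat_lit 6) (nat_lit 0x18001c0008000000020000000000000000000) (nat_lit 0x0) (nat_lit 0x300018000e000600030000000000000000000000000000) := T_4 (nat_lit 129) (nat_lit 130) (nat_lit 1) (nat_lit 11) (nat_lit 7) L1315672 (by decide +kernel)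
theorem L1315674 : W_4 (nat_lit 7) (nat_lit 0x18001c0008000000000000000000000000000) (nat_lit 0x0) (nat_lit 0x300018000e000600030000400020000000000000000000) := T_4 (nat_lit 77) (nat_lit 94) (nat_lit 5) (nat_lit 9) (nat_lit 4) L1315673 (by decide +kernel)
theorem L1315675 : W_4 (nat_lit 2) (nat_lit 0x58003e0008000000020000000000000000000) (nat_lit 0x0) (nat_lit 0x18004000000000000000000000000000) := D_4 (nat_lit 124) (nat_lit 123) (nat_lit 110) (nat_lit 3) (nat_lit 4) (nat_lit 7) (nat_lit 2) (nat_lit 5) (nat_lit 7) (by decide +kernel)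
theorem L1315676 : W_4 (nat_lit 3) (nat_lit 0x58003c0008000000020000000000000000000) (nat_lit 0x0) (nat_lit 0x2000038004000000000000000000000000000) := T_4 (nat_lit 125) (nat_lit 145) (nat_lit 3) (nat_lit 6) (nat_lit 7) L1315675 (by decide +kernel)
theorem L1315677 : W_4 (nat_lit 4) (nat_lit 0x18003c0008000000020000000000000000000) (nat_lit 0x0) (nat_lit 0xe000038004000000000000000000000000000) := T_4 (nat_lit 146) (nat_lit 147) (nat_lit 3) (nat_lit 7) (nat_lit 7) L1315676 (by decide +kernel)
theorem L1315678 : W_4 (nat_lit 5) (nat_lit 0x18003c0008000000000000000000000000000) (nat_lit 0x0) (nat_lit 0xe000038004000400020000000000000000000) := T_4 (nat_lit 77) (nat_lit 94) (nat_lit 5) (nat_lit 9) (nat_lit 4) L1315677 (by decide +kernel)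
theorem L1315679 : W_4 (nat_lit 6) (nat_lit 0x18001c0008000000000000000000000000000) (nat_lit 0x0) (nat_lit 0xe000638004000400020000000000000000000) := T_4 (nat_lit 129) (nat_lit 130) (nat_lit 1) (nat_lit 11) (nat_lit 7) L1315678 (by decide +kernel)
theorem L1315680 : W_4 (nat_lit 8) (nat_lit 0x1800180008000000000000000000000000000) (nat_lit 0x0) (nat_lit 0x300018000e000678034000400020000000000000000000) := Q_4 (nat_lit 126) (C_4 L1315666 (C_4 L1315668 (C_4 L1315674 (C_4 L1315679 N_4)))) (by decide +kernel)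
theorem L1315681 : W_4 (nat_lit 2) (nat_lit 0x20001800580008000000000000000000000000000) (nat_lit 0x0) (nat_lit 0x2000000004000400000000000000000000000) := D_4 (nat_lit 94) (nat_lit 110) (nat_lit 145) (nat_lit 6) (nat_lit 8) (nat_lit 9) (nat_lit 5) (nat_lit 9) (nat_lit 5) (by decide +kernel)
theorem L1315682 : W_4 (nat_lit 3) (nat_lit 0x1800580008000000000000000000000000000) (nat_lit 0x0) (nat_lit 0x400020002000000004000400000000000000000000000) := T_4 (nat_lit 161) (nat_lit 178) (nat_lit 6) (nat_lit 8) (nat_lit 10) L1315681 (by decide +kernel)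
theorem L1315683 : W_4 (nat_lit 4) (nat_lit 0x1800180008000000000000000000000000000) (nat_lit 0x0) (nat_lit 0x400020002000600004000400000000000000000000000) := T_4 (nat_lit 130) (nat_lit 129) (nat_lit 1) (nat_lit 11) (nat_lit 7) L1315682 (by decide +kernel)
theorem L1315684 : W_4 (nat_lit 5) (nat_lit 0x18001c0008000000000000000000000000000) (nat_lit 0x0) (nat_lit 0x400020000000638014000000000000000000000000000) := T_4 (nat_lit 178) (nat_lit 161) (nat_lit 6) (nat_lit 8) (nat_lit 10) L1307464 (by decide +kernel)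
theorem L1315685 : W_4 (nat_lit 2) (nat_lit 0x4000800058003c0018000000000000000000000000000) (nat_lit 0x0) (nat_lit 0x2000100002000000000000000000000000000000000000) := D_4 (nat_lit 164) (nat_lit 145) (nat_lit 181) (nat_lit 3) (nat_lit 7) (nat_lit 8) (nat_lit 7) (nat_lit 10) (nat_lit 6) (by decide +kernel)
theorem L1315686 : W_4 (nat_lit 3) (nat_lit 0x4000000058003c0018000000000000000000000000000) (nat_lit 0x0) (nat_lit 0x3000180002000000000000000000000000000000000000) := T_4 (nat_lit 163) (nat_lit 180) (nat_lit 4) (nat_lit 10) (nat_lit 10) L1315685 (by decide +kernel)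
theorem L1315687 : W_4 (nat_lit 4) (nat_lit 0x4000000018003c0018000000000000000000000000000) (nat_lit 0x0) (nat_lit 0x300018000e000000000000000000000000000000000000) := T_4 (nat_lit 146) (nat_lit 147) (nat_lit 3) (nat_lit 7) (nat_lit 7) L1315686 (by decide +kernel)
theorem L1315688 : W_4 (nat_lit 5) (nat_lit 0x4000000018003c0008000000000000000000000000000) (nat_lit 0x0) (nat_lit 0x300018000e000000030000000000000000000000000000) := T_4 (nat_lit 112) (nat_lit 113) (nat_lit 2) (nat_lit 7) (nat_lit 7) L1315687 (by decide +kernel)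
theorem L1315689 : W_4 (nat_lit 6) (nat_lit 0x4000000018001c0008000000000000000000000000000) (nat_lit 0x0) (nat_lit 0x300018000e000600030000000000000000000000000000) := T_4 (nat_lit 129) (nat_lit 130) (nat_lit 1) (nat_lit 11) (nat_lit 7) L1315688 (by decide +kernel)
theorem L1315690 : W_4 (nat_lit 7) (nat_lit 0x18001c0008000000000000000000000000000) (nat_lit 0x0) (nat_lit 0x34001a000e000600030000000000000000000000000000) := T_4 (nat_lit 178) (nat_lit 161) (nat_lit 6) (nat_lit 8) (nat_lit 10) L1315689 (by decide +kernel)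
theorem L1315691 : W_4 (nat_lit 2) (nat_lit 0x4000000058003e0008000000000000000000000000000) (nat_lit 0x0) (nat_lit 0x18004000000000000000000000000000) := D_4 (nat_lit 124) (nat_lit 123) (nat_lit 110) (nat_lit 3) (nat_lit 4) (nat_lit 7) (nat_lit 2) (nat_lit 5) (nat_lit 7) (by decide +kernel)
theorem L1315692 : W_4 (nat_lit 3) (nat_lit 0x4000000058003c0008000000000000000000000000000) (nat_lit 0x0) (nat_lit 0x2000038004000000000000000000000000000) := T_4 (nat_lit 125) (nat_lit 145) (nat_lit 3) (nat_lit 6) (nat_lit 7) L1315691 (by decide +kernel)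
theorem L1315693 : W_4 (nat_lit 4) (nat_lit 0x4000000018003c0008000000000000000000000000000) (nat_lit 0x0) (nat_lit 0xe000038004000000000000000000000000000) := T_4 (nat_lit 146) (nat_lit 147) (nat_lit 3) (nat_lit 7) (nat_lit 7) L1315692 (by decide +kernel)
theorem L1315694 : W_4 (nat_lit 5) (nat_lit 0x18003c0008000000000000000000000000000) (nat_lit 0x0) (nat_lit 0x40002000e000038004000000000000000000000000000) := T_4 (nat_lit 178) (nat_lit 161) (nat_lit 6) (nat_lit 8) (nat_lit 10) L1315693 (by decide +kernel)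
theorem L1315695 : W_4 (nat_lit 6) (nat_lit 0x18001c0008000000000000000000000000000) (nat_lit 0x0) (nat_lit 0x40002000e000638004000000000000000000000000000) := T_4 (nat_lit 129) (nat_lit 130) (nat_lit 1) (nat_lit 11) (nat_lit 7) L1315694 (by decide +kernel)
theorem L1315696 : W_4 (nat_lit 8) (nat_lit 0x1800180008000000000000000000000000000) (nat_lit 0x0) (nat_lit 0x34001a000e000678034000000000000000000000000000) := Q_4 (nat_lit 126) (C_4 L1315668 (C_4 L1315684 (C_4 L1315690 (C_4 L1315695 N_4)))) (by decide +kernel)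
theorem L1315697 : W_4 (nat_lit 9) (nat_lit 0x1800180000000000000000000000000000000) (nat_lit 0x0) (nat_lit 0x34001a000e00067803c000400020000000000000000000) := Q_4 (nat_lit 111) (C_4 L1029394 (C_4 L1315665 (C_4 L1315680 (C_4 L1315683 (C_4 L1315696 N_4))))) (by decide +kernel)
theorem L1315698 : W_4 (nat_lit 2) (nat_lit 0x200010001a00180000000000000000000000000000000) (nat_lit 0x0) (nat_lit 0x20000000040004000000000000000000000000000) := D_4 (nat_lit 110) (nat_lit 126) (nat_lit 161) (nat_lit 6) (nat_lit 7) (nat_lit 10) (nat_lit 5) (nat_lit 8) (nat_lit 6) (by decide +kernel)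
theorem L1315699 : W_4 (nat_lit 3) (nat_lit 0x10001a00180000000000000000000000000000000) (nat_lit 0x0) (nat_lit 0x4000200020000000040004000000000000000000000000000) := T_4 (nat_lit 177) (nat_lit 194) (nat_lit 6) (nat_lit 7) (nat_lit 11) L1315698 (by decide +kernel)
theorem L1315700 : W_4 (nat_lit 4) (nat_lit 0x10001800180000000000000000000000000000000) (nat_lit 0x0) (nat_lit 0x4000200020000600040004000000000000000000000000000) := T_4 (nat_lit 141) (nat_lit 142) (nat_lit 2) (nat_lit 5) (nat_lit 8) L1315699 (by decide +kernel)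
theorem L1315701 : W_4 (nat_lit 3) (nat_lit 0x30001800180000000000000000000000000000000) (nat_lit 0x0) (nat_lit 0x100008000400000002000000008000000000000000000000000000) := T_4 (nat_lit 178) (nat_lit 111) (nat_lit 6) (nat_lit 8) (nat_lit 10) L1315531 (by decide +kernel)
theorem L1315702 : W_4 (nat_lit 2) (nat_lit 0x4000000038003c001e0008000000000000000000000000000) (nat_lit 0x0) (nat_lit 0x2000100000000000000002000000000000000000000000000) := D_4 (nat_lit 176) (nat_lit 109) (nat_lit 193) (nat_lit 6) (nat_lit 6) (nat_lit 10) (nat_lit 6) (nat_lit 6) (nat_lit 11) (by decide +kernel)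
theorem L1315703 : W_4 (nat_lit 3) (nat_lit 0x4000000038003c001a0008000000000000000000000000000) (nat_lit 0x0) (nat_lit 0x2000100000000000040012000000000000000000000000000) := T_4 (nat_lit 126) (nat_lit 112) (nat_lit 2) (nat_lit 6) (nat_lit 7) L1315702 (by decide +kernel)
theorem L1315704 : W_4 (nat_lit 4) (nat_lit 0x4000000038003c00180008000000000000000000000000000) (nat_lit 0x0) (nat_lit 0x2000100000000000070012000000000000000000000000000) := T_4 (nat_lit 125) (nat_lit 124) (nat_lit 0) (nat_lit 9) (nat_lit 8) L1315703 (by decide +kernel)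
theorem L1315705 : W_4 (nat_lit 5) (nat_lit 0x4000000038003800180008000000000000000000000000000) (nat_lit 0x0) (nat_lit 0x2000100000000600070012000000000000000000000000000) := T_4 (nat_lit 142) (nat_lit 141) (nat_lit 2) (nat_lit 5) (nat_lit 8) L1315704 (by decide +kernel)
theorem L1315706 : W_4 (nat_lit 6) (nat_lit 0x4000000038003800180000000000000000000000000000000) (nat_lit 0x0) (nat_lit 0x200010000000060007001a000400000000000000000000000) := T_4 (nat_lit 111) (nat_lit 94) (nat_lit 5) (nat_lit 9) (nat_lit 5) L1315705 (by decide +kernel)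
theorem L1315707 : W_4 (nat_lit 7) (nat_lit 0x4000000030003800180000000000000000000000000000000) (nat_lit 0x0) (nat_lit 0x200010000c00060007001a000400000000000000000000000) := T_4 (nat_lit 159) (nat_lit 158) (nat_lit 2) (nat_lit 5) (nat_lit 9) L1315706 (by decide +kernel)
theorem L1315708 : W_4 (nat_lit 8) (nat_lit 0x30003800180000000000000000000000000000000) (nat_lit 0x0) (nat_lit 0x600030000c00060007001a000400000000000000000000000) := T_4 (nat_lit 194) (nat_lit 177) (nat_lit 6) (nat_lit 7) (nat_lit 11) L1315707 (by decide +kernel)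
theorem L1315709 : W_4 (nat_lit 2) (nat_lit 0x4000000030003c001a0000000000000000000000000000000) (nat_lit 0x0) (nat_lit 0xc000040000000000000000000000000000000) := D_4 (nat_lit 146) (nat_lit 147) (nat_lit 126) (nat_lit 1) (nat_lit 11) (nat_lit 8) (nat_lit 3) (nat_lit 6) (nat_lit 7) (by decide +kernel)
theorem L1315710 : W_4 (nat_lit 3) (nat_lit 0x4000000030003c00180000000000000000000000000000000) (nat_lit 0x0) (nat_lit 0xc000070000000000000000000000000000000) := T_4 (nat_lit 125) (nat_lit 124) (nat_lit 0) (nat_lit 9) (nat_lit 8) L1315709 (by decide +kernel)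
theorem L1315711 : W_4 (nat_lit 4) (nat_lit 0x30003c00180000000000000000000000000000000) (nat_lit 0x0) (nat_lit 0x400020000000c000070000000000000000000000000000000) := T_4 (nat_lit 194) (nat_lit 177) (nat_lit 6) (nat_lit 7) (nat_lit 11) L1315710 (by decide +kernel)
theorem L1315712 : W_4 (nat_lit 5) (nat_lit 0x30003800180000000000000000000000000000000) (nat_lit 0x0) (nat_lit 0x400020000000c600070000000000000000000000000000000) := T_4 (nat_lit 142) (nat_lit 141) (nat_lit 2) (nat_lit 5) (nat_lit 8) L1315711 (by decide +kernel)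
theorem L1315713 : W_4 (nat_lit 9) (nat_lit 0x30001800180000000000000000000000000000000) (nat_lit 0x0) (nat_lit 0x600030000c00e60007001a000400000000000000000000000) := Q_4 (nat_lit 145) (C_4 L860993 (C_4 L1315708 (C_4 L1315712 N_4))) (by decide +kernel)
theorem L1315714 : W_4 (nat_lit 2) (nat_lit 0x400030001800180000000000000000000000000000000) (nat_lit 0x0) (nat_lit 0x8000000000000000040002000000000000000000000000000) := D_4 (nat_lit 126) (nat_lit 109) (nat_lit 195) (nat_lit 7) (nat_lit 7) (nat_lit 6) (nat_lit 4) (nat_lit 8) (nat_lit 11) (by decide +kernel)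
theorem L1315715 : W_4 (nat_lit 2) (nat_lit 0xe00030001a00180002000000000000000000000000000) (nat_lit 0x0) (nat_lit 0x100000c000000000000000000000000000000000000000) := D_4 (nat_lit 159) (nat_lit 158) (nat_lit 180) (nat_lit 3) (nat_lit 5) (nat_lit 9) (nat_lit 0) (nat_lit 10) (nat_lit 10) (by decide +kernel)
theorem L1315716 : W_4 (nat_lit 3) (nat_lit 0x600030001a00180002000000000000000000000000000) (nat_lit 0x0) (nat_lit 0x1000180000c000000000000000000000000000000000000000) := T_4 (nat_lit 179) (nat_lit 196) (nat_lit 7) (nat_lit 8) (nat_lit 7) L1315715 (by decide +kernel)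
theorem L1315717 : W_4 (nat_lit 4) (nat_lit 0x600030001a00180000000000000000000000000000000) (nat_lit 0x0) (nat_lit 0x1000180000c000000040002000000000000000000000000000) := T_4 (nat_lit 109) (nat_lit 126) (nat_lit 7) (nat_lit 7) (nat_lit 6) L1315716 (by decide +kernel)
theorem L1315718 : W_4 (nat_lit 5) (nat_lit 0x400030001a00180000000000000000000000000000000) (nat_lit 0x0) (nat_lit 0x14001a0000c000000040002000000000000000000000000000) := T_4 (nat_lit 177) (nat_lit 194) (nat_lit 6) (nat_lit 7) (nat_lit 11) L1315717 (by decide +kernel)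
theorem L1315719 : W_4 (nat_lit 6) (nat_lit 0x400030001800180000000000000000000000000000000) (nat_lit 0x0) (nat_lit 0x14001a0000c000600040002000000000000000000000000000) := T_4 (nat_lit 141) (nat_lit 142) (nat_lit 2) (nat_lit 5) (nat_lit 8) L1315718 (by decide +kernel)
theorem L1315720 : W_4 (nat_lit 7) (nat_lit 0x30001800180000000000000000000000000000000) (nat_lit 0x0) (nat_lit 0x10001c001e0000c002600040002000000000000000000000000000) := Q_4 (nat_lit 178) (C_4 L1315714 (C_4 L1315531 (C_4 L1315719 N_4))) (by decide +kernel)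
theorem L1315721 : W_4 (nat_lit 10) (nat_lit 0x10001800180000000000000000000000000000000) (nat_lit 0x0) (nat_lit 0x18001e001f0002c00e60007001a000400000000000000000000000) := Q_4 (nat_lit 161) (C_4 L1315701 (C_4 L861121 (C_4 L1315713 (C_4 L1315720 N_4)))) (by decide +kernel)
theorem L1315722 : W_4 (nat_lit 2) (nat_lit 0x200010001800180000000000000000000000000000000) (nat_lit 0x0) (nat_lit 0x20000000000004000200000000000000000000000) := D_4 (nat_lit 110) (nat_lit 93) (nat_lit 161) (nat_lit 5) (nat_lit 8) (nat_lit 5) (nat_lit 5) (nat_lit 8) (nat_lit 6) (by decide +kernel)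
theorem L1315723 : W_4 (nat_lit 3) (nat_lit 0x10001800180000000000000000000000000000000) (nat_lit 0x0) (nat_lit 0x4000200020000000000004000200000000000000000000000) := T_4 (nat_lit 177) (nat_lit 194) (nat_lit 6) (nat_lit 7) (nat_lit 11) L1315722 (by decide +kernel)
theorem L1315724 : W_4 (nat_lit 3) (nat_lit 0x10003800180008000000000000000000000000000) (nat_lit 0x0) (nat_lit 0x4000600030000000000000000000) := T_4 (nat_lit 93) (nat_lit 110) (nat_lit 5) (nat_lit 8) (nat_lit 5) L1079320 (by decide +kernel)
theorem L1315725 : W_4 (nat_lit 2) (nat_lit 0x400018003c001e0008000200000000000000000000000) (nat_lit 0x0) (nat_lit 0x2000100000000000000002000000000000000000000000000) := D_4 (nat_lit 176) (nat_lit 109) (nat_lit 193) (nat_lit 6) (nat_lit 6) (nat_lit 10) (nat_lit 6) (nat_lit 6) (nat_lit 11) (by decide +kernel)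
theorem L1315726 : W_4 (nat_lit 3) (nat_lit 0x400018003c001a0008000200000000000000000000000) (nat_lit 0x0) (nat_lit 0x2000100000000000040012000000000000000000000000000) := T_4 (nat_lit 126) (nat_lit 112) (nat_lit 2) (nat_lit 6) (nat_lit 7) L1315725 (by decide +kernel)
theorem L1315727 : W_4 (nat_lit 4) (nat_lit 0x400018003c00180008000200000000000000000000000) (nat_lit 0x0) (nat_lit 0x2000100000000000070012000000000000000000000000000) := T_4 (nat_lit 125) (nat_lit 124) (nat_lit 0) (nat_lit 9) (nat_lit 8) L1315726 (by decide +kernel)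
theorem L1315728 : W_4 (nat_lit 5) (nat_lit 0x400010003c00180008000200000000000000000000000) (nat_lit 0x0) (nat_lit 0x200010000c000000070012000000000000000000000000000) := T_4 (nat_lit 159) (nat_lit 158) (nat_lit 1) (nat_lit 9) (nat_lit 8) L1315727 (by decide +kernel)
theorem L1315729 : W_4 (nat_lit 6) (nat_lit 0x400010003800180008000200000000000000000000000) (nat_lit 0x0) (nat_lit 0x200010000c000600070012000000000000000000000000000) := T_4 (nat_lit 142) (nat_lit 141) (nat_lit 2) (nat_lit 5) (nat_lit 8) L1315728 (by decide +kernel)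
theorem L1315730 : W_4 (nat_lit 7) (nat_lit 0x10003800180008000200000000000000000000000) (nat_lit 0x0) (nat_lit 0x200050002c000600070012000000000000000000000000000) := T_4 (nat_lit 178) (nat_lit 161) (nat_lit 6) (nat_lit 8) (nat_lit 10) L1315729 (by decide +kernel)
theorem L1315731 : W_4 (nat_lit 8) (nat_lit 0x10003800180008000000000000000000000000000) (nat_lit 0x0) (nat_lit 0x200050002c000600070016000200000000000000000000000) := T_4 (nat_lit 93) (nat_lit 110) (nat_lit 5) (nat_lit 8) (nat_lit 5) L1315730 (by decide +kernel)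
theorem L1315732 : W_4 (nat_lit 9) (nat_lit 0x10003800180000000000000000000000000000000) (nat_lit 0x0) (nat_lit 0x200050002c00060007001e000600030000000000000000000) := Q_4 (nat_lit 111) (C_4 L861144 (C_4 L1028847 (C_4 L1315724 (C_4 L1315731 N_4)))) (by decide +kernel)
theorem L1315733 : W_4 (nat_lit 10) (nat_lit 0x10001800180000000000000000000000000000000) (nat_lit 0x0) (nat_lit 0x20005003ac01e60007001e000600030000000000000000000) := Q_4 (nat_lit 145) (C_4 L1114090 (C_4 L1028842 (C_4 L1315732 N_4))) (by decide +kernel)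
theorem L1315734 : W_4 (nat_lit 11) (nat_lit 0x1800180000000000000000000000000000000) (nat_lit 0x0) (nat_lit 0x18001e001f003bc01e60007001e000600030000000000000000000) := Q_4 (nat_lit 160) (C_4 L1049233 (C_4 L1315700 (C_4 L1315721 (C_4 L1315723 (C_4 L1315733 N_4))))) (by decide +kernel)
theorem L1315735 : W_4 (nat_lit 12) (nat_lit 0x1000180000000000000000000000000000000) (nat_lit 0x0) (nat_lit 0x18001e003f003bc01ee0067803e000600030000000000000000000) := Q_4 (nat_lit 143) (C_4 L1052159 (C_4 L802142 (C_4 L1315697 (C_4 L1315734 (C_4 L822525 N_4))))) (by decide +kernel)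
theorem L1315736 : W_4 (nat_lit 7) (nat_lit 0x10001c0008000000000000000000000000000) (nat_lit 0x0) (nat_lit 0x34001a001ec01e00034000000000000000000000000000) := Q_4 (nat_lit 129) (C_4 L1315626 (C_4 L822678 (C_4 L802128 (C_4 L614619 N_4)))) (by decide +kernel)
theorem L1315737 : W_4 (nat_lit 4) (nat_lit 0x4000000034001e0008000000000000000000000000000) (nat_lit 0x0) (nat_lit 0x200010000800200001800080000000000000000000000) := T_4 (nat_lit 143) (nat_lit 129) (nat_lit 2) (nat_lit 6) (nat_lit 8) L1045845 (by decide +kernel)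
theorem L1315738 : W_4 (nat_lit 5) (nat_lit 0x4000000014001e0008000000000000000000000000000) (nat_lit 0x0) (nat_lit 0x200010006800200001800080000000000000000000000) := T_4 (nat_lit 145) (nat_lit 146) (nat_lit 3) (nat_lit 6) (nat_lit 7) L1315737 (by decide +kernel)
theorem L1315739 : W_4 (nat_lit 6) (nat_lit 0x4000000010001e0008000000000000000000000000000) (nat_lit 0x0) (nat_lit 0x200010006e00200001800080000000000000000000000) := T_4 (nat_lit 142) (nat_lit 141) (nat_lit 1) (nat_lit 9) (nat_lit 7) L1315738 (by decide +kernel)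
theorem L1315740 : W_4 (nat_lit 7) (nat_lit 0x10001e0008000000000000000000000000000) (nat_lit 0x0) (nat_lit 0x600030006e00200001800080000000000000000000000) := T_4 (nat_lit 178) (nat_lit 161) (nat_lit 6) (nat_lit 8) (nat_lit 10) L1315739 (by decide +kernel)
theorem L1315741 : W_4 (nat_lit 8) (nat_lit 0x10001c0008000000000000000000000000000) (nat_lit 0x0) (nat_lit 0x600030006f00238005e00080000000000000000000000) := Q_4 (nat_lit 125) (C_4 L1296668 (C_4 L1296664 (C_4 L568085 (C_4 L1315740 N_4)))) (by decide +kernel)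
theorem L1315742 : W_4 (nat_lit 9) (nat_lit 0x1000180008000000000000000000000000000) (nat_lit 0x0) (nat_lit 0x36001b001ef01e78075e00080000000000000000000000) := Q_4 (nat_lit 126) (C_4 L1283936 (C_4 L568092 (C_4 L568087 (C_4 L1315736 (C_4 L1315741 N_4))))) (by decide +kernel)
theorem L1315743 : W_4 (nat_lit 2) (nat_lit 0x50003e0008000000020000000000000000000) (nat_lit 0x0) (nat_lit 0xe00000000000000000000000000000000000) := D_4 (nat_lit 142) (nat_lit 141) (nat_lit 143) (nat_lit 1) (nat_lit 9) (nat_lit 7) (nat_lit 1) (nat_lit 10) (nat_lit 7) (by decide +kernel)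
theorem L1315744 : W_4 (nat_lit 3) (nat_lit 0x50003c0008000000020000000000000000000) (nat_lit 0x0) (nat_lit 0x2e00020000000000000000000000000000000) := T_4 (nat_lit 125) (nat_lit 145) (nat_lit 3) (nat_lit 6) (nat_lit 7) L1315743 (by decide +kernel)
theorem L1315745 : W_4 (nat_lit 4) (nat_lit 0x10003c0008000000020000000000000000000) (nat_lit 0x0) (nat_lit 0xee00020000000000000000000000000000000) := T_4 (nat_lit 146) (nat_lit 147) (nat_lit 3) (nat_lit 7) (nat_lit 7) L1315744 (by decide +kernel)
theorem L1315746 : W_4 (nat_lit 5) (nat_lit 0x10003c0008000000000000000000000000000) (nat_lit 0x0) (nat_lit 0xee00020000000400020000000000000000000) := T_4 (nat_lit 77) (nat_lit 94) (nat_lit 5) (nat_lit 9) (nat_lit 4) L1315745 (by decide +kernel)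
theorem L1315747 : W_4 (nat_lit 7) (nat_lit 0x1000380008000000000000000000000000000) (nat_lit 0x0) (nat_lit 0x300018000ee00060030000400020000000000000000000) := Q_4 (nat_lit 126) (C_4 L802128 (C_4 L568057 (C_4 L530451 (C_4 L1315746 N_4)))) (by decide +kernel)
theorem L1315748 : W_4 (nat_lit 10) (nat_lit 0x1000180008000000000000000000000000000) (nat_lit 0x0) (nat_lit 0x300018007ee01e601f0001c00060003000000000000000) := Q_4 (nat_lit 129) (C_4 L1287238 (C_4 L1315747 (C_4 L610858 (C_4 L822588 N_4)))) (by decide +kernel)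
theorem L1315749 : W_4 (nat_lit 11) (nat_lit 0x1000180000000000000000000000000000000) (nat_lit 0x0) (nat_lit 0x36001b00fef03e783fde07e800e0007000000000000000) := Q_4 (nat_lit 111) (C_4 L1315742 (C_4 L1287253 (C_4 L1315748 (C_4 L822604 (C_4 L568090 N_4))))) (by decide +kernel)
theorem L1315750 : W_4 (nat_lit 9) (nat_lit 0x10001c0008000000000000000000000000000) (nat_lit 0x0) (nat_lit 0x600030002c01e00077001a00040002000000000000000) := Q_4 (nat_lit 129) (C_4 L1315626 (C_4 L1315638 (C_4 L822676 (C_4 L611753 N_4)))) (by decide +kernel)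
theorem L1315751 : W_4 (nat_lit 10) (nat_lit 0x1000180008000000000000000000000000000) (nat_lit 0x0) (nat_lit 0x600030006f81e7c077f01a80040002000000000000000) := Q_4 (nat_lit 126) (C_4 L1283936 (C_4 L1315741 (C_4 L822655 (C_4 L1315750 N_4)))) (by decide +kernel)
theorem L1315752 : W_4 (nat_lit 7) (nat_lit 0x1000380008000000000000000000000000000) (nat_lit 0x0) (nat_lit 0x6001c600770034000a0004000000000000000) := Q_4 (nat_lit 112) (C_4 L1287254 (C_4 L614215 (C_4 L614221 N_4))) (by decide +kernel)
theorem L1315753 : W_4 (nat_lit 10) (nat_lit 0x1000180008000000000000000000000000000) (nat_lit 0x0) (nat_lit 0x200010076c01e781f7803e000e0007000000000000000) := Q_4 (nat_lit 129) (C_4 L1287248 (C_4 L1315652 (C_4 L822588 (C_4 L1315752 N_4)))) (by decide +kernel)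
theorem L1315754 : W_4 (nat_lit 11) (nat_lit 0x1000180000000000000000000000000000000) (nat_lit 0x0) (nat_lit 0x600030076f81e7c1fff03e800e0007000000000000000) := Q_4 (nat_lit 111) (C_4 L1315751 (C_4 L1287253 (C_4 L1315753 (C_4 L568090 (C_4 L568080 N_4))))) (by decide +kernel)
theorem L1315755 : W_4 (nat_lit 13) (nat_lit 0x1000180000000000000000000000000000000) (nat_lit 0x0) (nat_lit 0x7800bc00ef81e7c07ff03e80070002000000000000000) := Q_4 (nat_lit 111) (C_4 L1315751 (C_4 L1287253 (C_4 L1283934 (C_4 L568090 (C_4 L568080 N_4))))) (by decide +kernel)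
theorem L1315756 : W_4 (nat_lit 19) (nat_lit 0x1000080000000000000000000000000000000) (nat_lit 0x0) (nat_lit 0x8001c01fe00ffc1ffe0fbf0fef87f7c3fff0fef01fe00fe00780000000000) := Q_4 (nat_lit 128) (C_4 L1285819 (C_4 L1287236 (C_4 L1308618 (C_4 L1308620 (C_4 L614224 (C_4 L1308645 (C_4 L1308647 (C_4 L1308736 (C_4 L1315625 (C_4 L1315662 (C_4 L1315735 (C_4 L1315749 (C_4 L1315754 (C_4 L1315755 N_4)))))))))))))) (by decide +kernel)
theorem L1315757 : W_4 (nat_lit 12) (nat_lit 0x20001000080000000000000000000000000000000) (nat_lit 0x0) (nat_lit 0x138019e03ef00f780efe007c0028000000000000000000) := Q_4 (nat_lit 110) (C_4 L1204732 (C_4 L1048897 (C_4 L1139146 (C_4 L144 N_4)))) (by decide +kernel)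
theorem L1315758 : W_4 (nat_lit 14) (nat_lit 0x1000080000000000000000000000000000000) (nat_lit 0x0) (nat_lit 0x200012801fc007f803be03ef00f780efe007c0028000000000000000000) := Q_4 (nat_lit 161) (C_4 L1283696 (C_4 L1283694 (C_4 L77 (C_4 L1315757 (C_4 L1283695 N_4))))) (by decide +kernel)
theorem L1393612 : W_4 (nat_lit 2) (nat_lit 0x300010001c0004000200008000000000000000000) (nat_lit 0x0) (nat_lit 0x2000000000000000010000400000000000000) := D_4 (nat_lit 76) (nat_lit 145) (nat_lit 58) (nat_lit 7) (nat_lit 8) (nat_lit 4) (nat_lit 4) (nat_lit 8) (nat_lit 7) (by decide +kernel)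
theorem L1393613 : W_4 (nat_lit 3) (nat_lit 0x300010001c0004000200000000000000000000000) (nat_lit 0x0) (nat_lit 0x2000000000000100018000400000000000000) := T_4 (nat_lit 75) (nat_lit 92) (nat_lit 4) (nat_lit 8) (nat_lit 8) L1393612 (by decide +kernel)
theorem L1489556 : W_4 (nat_lit 2) (nat_lit 0x4000200010001e0000000000000000000000000000000) (nat_lit 0x0) (nat_lit 0x8000000000006000000000000000000000000000000000000) := D_4 (nat_lit 145) (nat_lit 146) (nat_lit 195) (nat_lit 3) (nat_lit 6) (nat_lit 7) (nat_lit 6) (nat_lit 8) (nat_lit 11) (by decide +kernel)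
theorem L1523098 : W_4 (nat_lit 4) (nat_lit 0x20003c001a0004000000000000000000000000000) (nat_lit 0x0) (nat_lit 0x38001c000040000000000000000000000000000000) := T_4 (nat_lit 146) (nat_lit 126) (nat_lit 3) (nat_lit 6) (nat_lit 7) L1135833 (by decide +kernel)
theorem L1523099 : W_4 (nat_lit 5) (nat_lit 0x20001c001a0004000000000000000000000000000) (nat_lit 0x0) (nat_lit 0x38001e000050000000000000000000000000000000) := T_4 (nat_lit 145) (nat_lit 124) (nat_lit 0) (nat_lit 9) (nat_lit 8) L1523098 (by decide +kernel)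
theorem L1523100 : W_4 (nat_lit 6) (nat_lit 0x200018001a0004000000000000000000000000000) (nat_lit 0x0) (nat_lit 0x38001e600050000000000000000000000000000000) := T_4 (nat_lit 142) (nat_lit 141) (nat_lit 2) (nat_lit 5) (nat_lit 8) L1523099 (by decide +kernel)
theorem L1673259 : W_4 (nat_lit 2) (nat_lit 0x18000680030003800080000000000000000000000000000000) (nat_lit 0x0) (nat_lit 0xc004000000000000000000000000000000000000) := D_4 (nat_lit 159) (nat_lit 158) (nat_lit 146) (nat_lit 2) (nat_lit 5) (nat_lit 9) (nat_lit 1) (nat_lit 10) (nat_lit 8) (by decide +kernel)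
theorem L1673260 : W_4 (nat_lit 3) (nat_lit 0x18000680020003800080000000000000000000000000000000) (nat_lit 0x0) (nat_lit 0x10000000000001c004000000000000000000000000000000000000) := T_4 (nat_lit 160) (nat_lit 212) (nat_lit 4) (nat_lit 8) (nat_lit 12) L1673259 (by decide +kernel)
theorem L1673261 : W_4 (nat_lit 4) (nat_lit 0x18000600020003800080000000000000000000000000000000) (nat_lit 0x0) (nat_lit 0x10000000018001c004000000000000000000000000000000000000) := T_4 (nat_lit 175) (nat_lit 176) (nat_lit 3) (nat_lit 5) (nat_lit 10) L1673260 (by decide +kernel)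
theorem L1673262 : W_4 (nat_lit 5) (nat_lit 0x18000600020003000080000000000000000000000000000000) (nat_lit 0x0) (nat_lit 0x10000000018001c004800040000000000000000000000000000000) := T_4 (nat_lit 143) (nat_lit 126) (nat_lit 4) (nat_lit 8) (nat_lit 11) L1673261 (by decide +kernel)
theorem L1673263 : W_4 (nat_lit 6) (nat_lit 0x18000600020001000080000000000000000000000000000000) (nat_lit 0x0) (nat_lit 0x10000000018001c006800140000000000000000000000000000000) := T_4 (nat_lit 145) (nat_lit 128) (nat_lit 6) (nat_lit 8) (nat_lit 11) L1673262 (by decide +kernel)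
theorem L1673264 : W_4 (nat_lit 7) (nat_lit 0x10000600020001000080000000000000000000000000000000) (nat_lit 0x0) (nat_lit 0x30000800018001c006800140000000000000000000000000000000) := T_4 (nat_lit 195) (nat_lit 213) (nat_lit 7) (nat_lit 8) (nat_lit 8) L1673263 (by decide +kernel)
theorem L1673265 : W_4 (nat_lit 8) (nat_lit 0x600020001000080000000000000000000000000000000) (nat_lit 0x0) (nat_lit 0x30001800098001c006800140000000000000000000000000000000) := T_4 (nat_lit 196) (nat_lit 179) (nat_lit 7) (nat_lit 8) (nat_lit 7) L1673264 (by decide +kernel)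
theorem L1673266 : W_4 (nat_lit 9) (nat_lit 0x400020001000080000000000000000000000000000000) (nat_lit 0x0) (nat_lit 0x30001c000b8001c006800140000000000000000000000000000000) := T_4 (nat_lit 177) (nat_lit 194) (nat_lit 5) (nat_lit 8) (nat_lit 7) L1673265 (by decide +kernel)
theorem L1673267 : W_4 (nat_lit 2) (nat_lit 0x14000400020001000080000000000000000000000000000000) (nat_lit 0x0) (nat_lit 0x280008000000000000000000000000000000000000000000000000) := D_4 (nat_lit 195) (nat_lit 213) (nat_lit 211) (nat_lit 7) (nat_lit 8) (nat_lit 8) (nat_lit 5) (nat_lit 8) (nat_lit 8) (by decide +kernel)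
theorem L1673268 : W_4 (nat_lit 3) (nat_lit 0x10000400020001000080000000000000000000000000000000) (nat_lit 0x0) (nat_lit 0x28000c000200000000000000000000000000000000000000000000) := T_4 (nat_lit 194) (nat_lit 177) (nat_lit 5) (nat_lit 8) (nat_lit 7) L1673267 (by decide +kernel)
theorem L1673269 : W_4 (nat_lit 4) (nat_lit 0x400020001000080000000000000000000000000000000) (nat_lit 0x0) (nat_lit 0x28001c000a00000000000000000000000000000000000000000000) := T_4 (nat_lit 196) (nat_lit 179) (nat_lit 7) (nat_lit 8) (nat_lit 7) L1673268 (by decide +kernel)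
theorem L1673270 : W_4 (nat_lit 2) (nat_lit 0x1c000400030003800080000000000000000000000000000000) (nat_lit 0x0) (nat_lit 0xc004000000000000000000000000000000000000) := D_4 (nat_lit 159) (nat_lit 158) (nat_lit 146) (nat_lit 2) (nat_lit 5) (nat_lit 9) (nat_lit 1) (nat_lit 10) (nat_lit 8) (by decide +kernel)
theorem L1673271 : W_4 (nat_lit 3) (nat_lit 0x1c000400020003800080000000000000000000000000000000) (nat_lit 0x0) (nat_lit 0x10000000000001c004000000000000000000000000000000000000) := T_4 (nat_lit 160) (nat_lit 212) (nat_lit 4) (nat_lit 8) (nat_lit 12) L1673270 (by decide +kernel)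
theorem L1673272 : W_4 (nat_lit 4) (nat_lit 0x1c000400020003000080000000000000000000000000000000) (nat_lit 0x0) (nat_lit 0x10000000000001c004800040000000000000000000000000000000) := T_4 (nat_lit 143) (nat_lit 126) (nat_lit 4) (nat_lit 8) (nat_lit 11) L1673271 (by decide +kernel)
theorem L1673273 : W_4 (nat_lit 5) (nat_lit 0x18000400020003000080000000000000000000000000000000) (nat_lit 0x0) (nat_lit 0x18000400000001c004800040000000000000000000000000000000) := T_4 (nat_lit 194) (nat_lit 211) (nat_lit 5) (nat_lit 8) (nat_lit 8) L1673272 (by decide +kernel)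
theorem L1673274 : W_4 (nat_lit 6) (nat_lit 0x18000400020001000080000000000000000000000000000000) (nat_lit 0x0) (nat_lit 0x18000400000001c006800140000000000000000000000000000000) := T_4 (nat_lit 145) (nat_lit 128) (nat_lit 6) (nat_lit 8) (nat_lit 11) L1673273 (by decide +kernel)
theorem L1673275 : W_4 (nat_lit 7) (nat_lit 0x10000400020001000080000000000000000000000000000000) (nat_lit 0x0) (nat_lit 0x38000c00000001c006800140000000000000000000000000000000) := T_4 (nat_lit 195) (nat_lit 213) (nat_lit 7) (nat_lit 8) (nat_lit 8) L1673274 (by decide +kernel)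
theorem L1673276 : W_4 (nat_lit 8) (nat_lit 0x400020001000080000000000000000000000000000000) (nat_lit 0x0) (nat_lit 0x38001c00080001c006800140000000000000000000000000000000) := T_4 (nat_lit 196) (nat_lit 179) (nat_lit 7) (nat_lit 8) (nat_lit 7) L1673275 (by decide +kernel)
theorem L1673277 : W_4 (nat_lit 2) (nat_lit 0x18000400030003800080000000000000000000000000000000) (nat_lit 0x0) (nat_lit 0xc004000000000000000000000000000000000000) := D_4 (nat_lit 159) (nat_lit 158) (nat_lit 146) (nat_lit 2) (nat_lit 5) (nat_lit 9) (nat_lit 1) (nat_lit 10) (nat_lit 8) (by decide +kernel)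
theorem L1673278 : W_4 (nat_lit 3) (nat_lit 0x18000400020003800080000000000000000000000000000000) (nat_lit 0x0) (nat_lit 0x10000000000001c004000000000000000000000000000000000000) := T_4 (nat_lit 160) (nat_lit 212) (nat_lit 4) (nat_lit 8) (nat_lit 12) L1673277 (by decide +kernel)
theorem L1673279 : W_4 (nat_lit 4) (nat_lit 0x18000400020003000080000000000000000000000000000000) (nat_lit 0x0) (nat_lit 0x10000000000001c004800040000000000000000000000000000000) := T_4 (nat_lit 143) (nat_lit 126) (nat_lit 4) (nat_lit 8) (nat_lit 11) L1673278 (by decide +kernel)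
theorem L1673280 : W_4 (nat_lit 5) (nat_lit 0x18000400020001000080000000000000000000000000000000) (nat_lit 0x0) (nat_lit 0x10000000000001c006800140000000000000000000000000000000) := T_4 (nat_lit 145) (nat_lit 128) (nat_lit 6) (nat_lit 8) (nat_lit 11) L1673279 (by decide +kernel)
theorem L1673281 : W_4 (nat_lit 6) (nat_lit 0x10000400020001000080000000000000000000000000000000) (nat_lit 0x0) (nat_lit 0x30000800000001c006800140000000000000000000000000000000) := T_4 (nat_lit 195) (nat_lit 213) (nat_lit 7) (nat_lit 8) (nat_lit 8) L1673280 (by decide +kernel)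
theorem L1673282 : W_4 (nat_lit 7) (nat_lit 0x400020001000080000000000000000000000000000000) (nat_lit 0x0) (nat_lit 0x30001800080001c006800140000000000000000000000000000000) := T_4 (nat_lit 196) (nat_lit 179) (nat_lit 7) (nat_lit 8) (nat_lit 7) L1673281 (by decide +kernel)
theorem L1673283 : W_4 (nat_lit 2) (nat_lit 0xc000400030003800080000000000000000000000000000000) (nat_lit 0x0) (nat_lit 0xc004000000000000000000000000000000000000) := D_4 (nat_lit 159) (nat_lit 158) (nat_lit 146) (nat_lit 2) (nat_lit 5) (nat_lit 9) (nat_lit 1) (nat_lit 10) (nat_lit 8) (by decide +kernel)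
theorem L1673284 : W_4 (nat_lit 3) (nat_lit 0xc000400020003800080000000000000000000000000000000) (nat_lit 0x0) (nat_lit 0x10000000000001c004000000000000000000000000000000000000) := T_4 (nat_lit 160) (nat_lit 212) (nat_lit 4) (nat_lit 8) (nat_lit 12) L1673283 (by decide +kernel)
theorem L1673285 : W_4 (nat_lit 4) (nat_lit 0xc000400020001800080000000000000000000000000000000) (nat_lit 0x0) (nat_lit 0x10000000000001c006000100000000000000000000000000000000) := T_4 (nat_lit 145) (nat_lit 128) (nat_lit 6) (nat_lit 8) (nat_lit 11) L1673284 (by decide +kernel)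
theorem L1673286 : W_4 (nat_lit 5) (nat_lit 0xc000400020001000080000000000000000000000000000000) (nat_lit 0x0) (nat_lit 0x10000000000001c006800140000000000000000000000000000000) := T_4 (nat_lit 143) (nat_lit 126) (nat_lit 4) (nat_lit 8) (nat_lit 11) L1673285 (by decide +kernel)
theorem L1673287 : W_4 (nat_lit 6) (nat_lit 0x4000400020001000080000000000000000000000000000000) (nat_lit 0x0) (nat_lit 0x18000800000001c006800140000000000000000000000000000000) := T_4 (nat_lit 195) (nat_lit 211) (nat_lit 5) (nat_lit 8) (nat_lit 8) L1673286 (by decide +kernel)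
theorem L1673288 : W_4 (nat_lit 7) (nat_lit 0x400020001000080000000000000000000000000000000) (nat_lit 0x0) (nat_lit 0x18000c00020001c006800140000000000000000000000000000000) := T_4 (nat_lit 194) (nat_lit 177) (nat_lit 5) (nat_lit 8) (nat_lit 7) L1673287 (by decide +kernel)
theorem L1673289 : W_4 (nat_lit 10) (nat_lit 0x20001000080000000000000000000000000000000) (nat_lit 0x0) (nat_lit 0x38001c001f8001c006800140004000000000000000000000000000) := Q_4 (nat_lit 178) (C_4 L1673266 (C_4 L1283685 (C_4 L1673269 (C_4 L1673276 (C_4 L1673282 (C_4 L1673288 N_4)))))) (by decide +kernel)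
theorem L2435108 : W_4 (nat_lit 3) (nat_lit 0x200010001e0000000000000000000000000000000) (nat_lit 0x0) (nat_lit 0x8000400000006000000008000000000000000000000000000) := T_4 (nat_lit 178) (nat_lit 111) (nat_lit 6) (nat_lit 8) (nat_lit 10) L1489556 (by decide +kernel)
theorem L2557500 : W_4 (nat_lit 9) (nat_lit 0x10000e0002000000000000000000000000000) (nat_lit 0x0) (nat_lit 0x78003c006600f0003d800000000000000000000000000) := Q_4 (nat_lit 128) (C_4 L1315848 (C_4 L1117931 (C_4 L346060 N_4))) (by decide +kernel)
theorem L2557501 : W_4 (nat_lit 10) (nat_lit 0x10000c0002000000000000000000000000000) (nat_lit 0x0) (nat_lit 0x78003c006780f3c03df00080000000000000000000000) := Q_4 (nat_lit 125) (C_4 L1117965 (C_4 L1315841 (C_4 L346066 (C_4 L2557500 N_4)))) (by decide +kernel)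
theorem L2557502 : W_4 (nat_lit 13) (nat_lit 0x10000c0000000000000000000000000000000) (nat_lit 0x0) (nat_lit 0x10007c003c01e7e0f3e07ff001f000e000700000000000000) := Q_4 (nat_lit 109) (C_4 L284285 (C_4 L284220 (C_4 L284528 (C_4 L284362 (C_4 L2557501 N_4))))) (by decide +kernel)
theorem L2557503 : W_4 (nat_lit 2) (nat_lit 0x500000001c001e000b000080000000000000000000000) (nat_lit 0x0) (nat_lit 0x4000040002000000000000000000) := D_4 (nat_lit 90) (nat_lit 73) (nat_lit 110) (nat_lit 4) (nat_lit 6) (nat_lit 8) (nat_lit 0) (nat_lit 9) (nat_lit 6) (by decide +kernel)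
theorem L2557504 : W_4 (nat_lit 3) (nat_lit 0x500000001c001e000b000000000000000000000000000) (nat_lit 0x0) (nat_lit 0x40000c0006000000000000000000) := T_4 (nat_lit 91) (nat_lit 74) (nat_lit 7) (nat_lit 6) (nat_lit 4) L2557503 (by decide +kernel)
theorem L2557505 : W_4 (nat_lit 4) (nat_lit 0x400000001c001e000b000000000000000000000000000) (nat_lit 0x0) (nat_lit 0x1000080000000000040000c0006000000000000000000) := T_4 (nat_lit 176) (nat_lit 159) (nat_lit 6) (nat_lit 6) (nat_lit 10) L2557504 (by decide +kernel)
theorem L2557506 : W_4 (nat_lit 5) (nat_lit 0x400000001c001e000a000000000000000000000000000) (nat_lit 0x0) (nat_lit 0x1000080000000000058000c0006000000000000000000) := T_4 (nat_lit 108) (nat_lit 107) (nat_lit 0) (nat_lit 9) (nat_lit 7) L2557505 (by decide +kernel)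
theorem L2557507 : W_4 (nat_lit 6) (nat_lit 0x4000000018001e000a000000000000000000000000000) (nat_lit 0x0) (nat_lit 0x1000080006000000058000c0006000000000000000000) := T_4 (nat_lit 142) (nat_lit 141) (nat_lit 2) (nat_lit 5) (nat_lit 8) L2557506 (by decide +kernel)
theorem L2557508 : W_4 (nat_lit 7) (nat_lit 0x4000000018001e0002000000000000000000000000000) (nat_lit 0x0) (nat_lit 0x10000800060000001d8000c0006000000000000000000) := T_4 (nat_lit 111) (nat_lit 112) (nat_lit 2) (nat_lit 6) (nat_lit 7) L2557507 (by decide +kernel)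
theorem L2557509 : W_4 (nat_lit 8) (nat_lit 0x18001e0002000000000000000000000000000) (nat_lit 0x0) (nat_lit 0x50002800060000001d8000c0006000000000000000000) := T_4 (nat_lit 178) (nat_lit 161) (nat_lit 4) (nat_lit 8) (nat_lit 10) L2557508 (by decide +kernel)
theorem L2557510 : W_4 (nat_lit 9) (nat_lit 0x18001c0002000000000000000000000000000) (nat_lit 0x0) (nat_lit 0x50002800060003801dc000c0006000000000000000000) := Q_4 (nat_lit 125) (C_4 L1212822 (C_4 L1054343 (C_4 L2557509 N_4))) (by decide +kernel)
theorem L2557511 : W_4 (nat_lit 10) (nat_lit 0x18000c0002000000000000000000000000000) (nat_lit 0x0) (nat_lit 0x50002800060073801dc000c0006000000000000000000) := Q_4 (nat_lit 128) (C_4 L619145 (C_4 L619128 (C_4 L2557510 N_4))) (by decide +kernel)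
theorem L2557512 : W_4 (nat_lit 11) (nat_lit 0x10000c0002000000000000000000000000000) (nat_lit 0x0) (nat_lit 0x2000f0007c003e000f0073801dc002c0006000000000000000000) := Q_4 (nat_lit 143) (C_4 L1212819 (C_4 L1255567 (C_4 L1255570 (C_4 L619470 (C_4 L2557511 (C_4 L619432 N_4)))))) (by decide +kernel)
theorem L2557513 : W_4 (nat_lit 12) (nat_lit 0x10000c0000000000000000000000000000000) (nat_lit 0x0) (nat_lit 0x2000f0007c003e000f8073c01fe003f000e000700000000000000) := Q_4 (nat_lit 109) (C_4 L1219779 (C_4 L1117903 (C_4 L615321 (C_4 L2557512 (C_4 L284220 N_4))))) (by decide +kernel)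
theorem L2558164 : W_4 (nat_lit 2) (nat_lit 0x38001e000b0003e0000000000000000000000) (nat_lit 0x0) (nat_lit 0x3800000000000000000) := D_4 (nat_lit 72) (nat_lit 73) (nat_lit 71) (nat_lit 0) (nat_lit 8) (nat_lit 5) (nat_lit 0) (nat_lit 7) (nat_lit 5) (by decide +kernel)
theorem L2558165 : W_4 (nat_lit 3) (nat_lit 0x38001e000b0003c0000000000000000000000) (nat_lit 0x0) (nat_lit 0x30003800000000000000000) := T_4 (nat_lit 89) (nat_lit 88) (nat_lit 3) (nat_lit 3) (nat_lit 5) L2558164 (by decide +kernel)
theorem L2558166 : W_4 (nat_lit 4) (nat_lit 0x38001e000b000380000000000000000000000) (nat_lit 0x0) (nat_lit 0x4000070003800000000000000000) := T_4 (nat_lit 90) (nat_lit 110) (nat_lit 3) (nat_lit 5) (nat_lit 5) L2558165 (by decide +kernel)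
theorem L2558167 : W_4 (nat_lit 5) (nat_lit 0x38001e000b000180000000000000000000000) (nat_lit 0x0) (nat_lit 0x4000270013800000000000000000) := T_4 (nat_lit 93) (nat_lit 76) (nat_lit 6) (nat_lit 7) (nat_lit 8) L2558166 (by decide +kernel)
theorem L2558168 : W_4 (nat_lit 6) (nat_lit 0x38001e000b000100000000000000000000000) (nat_lit 0x0) (nat_lit 0x40002f0017800000000000000000) := T_4 (nat_lit 91) (nat_lit 74) (nat_lit 7) (nat_lit 6) (nat_lit 4) L2558167 (by decide +kernel)
theorem L2558169 : W_4 (nat_lit 7) (nat_lit 0x38001e000b000000000000000000000000000) (nat_lit 0x0) (nat_lit 0x40003f001f800000000000000000) := T_4 (nat_lit 92) (nat_lit 75) (nat_lit 7) (nat_lit 7) (nat_lit 4) L2558168 (by decide +kernel)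
theorem L2558170 : W_4 (nat_lit 8) (nat_lit 0x38001e000a000000000000000000000000000) (nat_lit 0x0) (nat_lit 0x58003f001f800000000000000000) := T_4 (nat_lit 108) (nat_lit 107) (nat_lit 0) (nat_lit 9) (nat_lit 7) L2558169 (by decide +kernel)
theorem L2558171 : W_4 (nat_lit 9) (nat_lit 0x18001e000a000000000000000000000000000) (nat_lit 0x0) (nat_lit 0x60000000058003f001f800000000000000000) := T_4 (nat_lit 145) (nat_lit 146) (nat_lit 3) (nat_lit 6) (nat_lit 7) L2558170 (by decide +kernel)
theorem L2558172 : W_4 (nat_lit 10) (nat_lit 0x18001e0002000000000000000000000000000) (nat_lit 0x0) (nat_lit 0x600000001d8003f001f800000000000000000) := T_4 (nat_lit 111) (nat_lit 112) (nat_lit 2) (nat_lit 6) (nat_lit 7) L2558171 (by decide +kernel)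
theorem L2558173 : W_4 (nat_lit 2) (nat_lit 0x38001e000e000300000000000000000000000) (nat_lit 0x0) (nat_lit 0xc0004000000000000000000) := D_4 (nat_lit 91) (nat_lit 90) (nat_lit 74) (nat_lit 3) (nat_lit 5) (nat_lit 5) (nat_lit 4) (nat_lit 7) (nat_lit 8) (by decide +kernel)
theorem L2558174 : W_4 (nat_lit 3) (nat_lit 0x38001e000a000300000000000000000000000) (nat_lit 0x0) (nat_lit 0x100000000000040000c0004000000000000000000) := T_4 (nat_lit 110) (nat_lit 160) (nat_lit 6) (nat_lit 7) (nat_lit 9) L2558173 (by decide +kernel)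
theorem L2558175 : W_4 (nat_lit 4) (nat_lit 0x38001e000a000100000000000000000000000) (nat_lit 0x0) (nat_lit 0x100000000000040002c0014000000000000000000) := T_4 (nat_lit 93) (nat_lit 76) (nat_lit 6) (nat_lit 7) (nat_lit 8) L2558174 (by decide +kernel)
theorem L2558176 : W_4 (nat_lit 5) (nat_lit 0x38001e000a000000000000000000000000000) (nat_lit 0x0) (nat_lit 0x100000000000040003c001c000000000000000000) := T_4 (nat_lit 92) (nat_lit 75) (nat_lit 7) (nat_lit 7) (nat_lit 4) L2558175 (by decide +kernel)
theorem L2558177 : W_4 (nat_lit 6) (nat_lit 0x18001e000a000000000000000000000000000) (nat_lit 0x0) (nat_lit 0x100060000000040003c001c000000000000000000) := T_4 (nat_lit 145) (nat_lit 146) (nat_lit 3) (nat_lit 6) (nat_lit 7) L2558176 (by decide +kernel)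
theorem L2558178 : W_4 (nat_lit 7) (nat_lit 0x18001e0002000000000000000000000000000) (nat_lit 0x0) (nat_lit 0x1000600000001c0003c001c000000000000000000) := T_4 (nat_lit 111) (nat_lit 112) (nat_lit 2) (nat_lit 6) (nat_lit 7) L2558177 (by decide +kernel)
theorem L2558179 : W_4 (nat_lit 2) (nat_lit 0x18001e0003000300000000000000000000000) (nat_lit 0x0) (nat_lit 0x200010000000000004000000000000000000000000000) := D_4 (nat_lit 160) (nat_lit 110) (nat_lit 177) (nat_lit 6) (nat_lit 7) (nat_lit 9) (nat_lit 4) (nat_lit 7) (nat_lit 10) (by decide +kernel)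
theorem L2558180 : W_4 (nat_lit 3) (nat_lit 0x18001e0003000100000000000000000000000) (nat_lit 0x0) (nat_lit 0x200010000000000004000200010000000000000000000) := T_4 (nat_lit 93) (nat_lit 76) (nat_lit 6) (nat_lit 7) (nat_lit 8) L2558179 (by decide +kernel)
theorem L2558181 : W_4 (nat_lit 4) (nat_lit 0x18001e0002000100000000000000000000000) (nat_lit 0x0) (nat_lit 0x200010000000000005800200010000000000000000000) := T_4 (nat_lit 108) (nat_lit 107) (nat_lit 0) (nat_lit 9) (nat_lit 7) L2558180 (by decide +kernel)
theorem L2558182 : W_4 (nat_lit 5) (nat_lit 0x18001e0002000000000000000000000000000) (nat_lit 0x0) (nat_lit 0x200010000000000005800300018000000000000000000) := T_4 (nat_lit 92) (nat_lit 75) (nat_lit 7) (nat_lit 7) (nat_lit 4) L2558181 (by decide +kernel)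
theorem L2558183 : W_4 (nat_lit 11) (nat_lit 0x10001e0002000000000000000000000000000) (nat_lit 0x0) (nat_lit 0x20001000680000001d8003f001f800000000000000000) := Q_4 (nat_lit 143) (C_4 L619143 (C_4 L2558172 (C_4 L2558178 (C_4 L2558182 N_4)))) (by decide +kernel)
theorem L2558184 : W_4 (nat_lit 2) (nat_lit 0x50003e000a000000008000000000000000000) (nat_lit 0x0) (nat_lit 0x800400004000000000000000000000000000) := D_4 (nat_lit 130) (nat_lit 143) (nat_lit 110) (nat_lit 1) (nat_lit 11) (nat_lit 7) (nat_lit 0) (nat_lit 11) (nat_lit 7) (by decide +kernel)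
theorem L2558185 : W_4 (nat_lit 3) (nat_lit 0x50001e000a000000008000000000000000000) (nat_lit 0x0) (nat_lit 0x8800600004000000000000000000000000000) := T_4 (nat_lit 129) (nat_lit 147) (nat_lit 3) (nat_lit 7) (nat_lit 7) L2558184 (by decide +kernel)
theorem L2558186 : W_4 (nat_lit 4) (nat_lit 0x50001e000a000000000000000000000000000) (nat_lit 0x0) (nat_lit 0x8800600004000100008000000000000000000) := T_4 (nat_lit 75) (nat_lit 92) (nat_lit 7) (nat_lit 7) (nat_lit 4) L2558185 (by decide +kernel)
theorem L2558187 : W_4 (nat_lit 5) (nat_lit 0x10001e000a000000000000000000000000000) (nat_lit 0x0) (nat_lit 0xe800600004000100008000000000000000000) := T_4 (nat_lit 146) (nat_lit 145) (nat_lit 3) (nat_lit 6) (nat_lit 7) L2558186 (by decide +kernel)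
theorem L2558188 : W_4 (nat_lit 6) (nat_lit 0x10001e0002000000000000000000000000000) (nat_lit 0x0) (nat_lit 0xe80060001c000100008000000000000000000) := T_4 (nat_lit 111) (nat_lit 112) (nat_lit 2) (nat_lit 6) (nat_lit 7) L2558187 (by decide +kernel)
theorem L2558189 : W_4 (nat_lit 12) (nat_lit 0x10000e0002000000000000000000000000000) (nat_lit 0x0) (nat_lit 0x20001000e80070001d8003f001f800000000000000000) := Q_4 (nat_lit 128) (C_4 L1117931 (C_4 L2558183 (C_4 L2558188 N_4))) (by decide +kernel)
theorem L2558190 : W_4 (nat_lit 13) (nat_lit 0x10000c0002000000000000000000000000000) (nat_lit 0x0) (nat_lit 0x28001400eb8073c01df003f001f800000000000000000) := Q_4 (nat_lit 125) (C_4 L1178917 (C_4 L1117965 (C_4 L1117930 (C_4 L2558189 N_4)))) (by decide +kernel)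
theorem L2558191 : W_4 (nat_lit 2) (nat_lit 0x4000000010001e000b0000e0006000000000000000000) (nat_lit 0x0) (nat_lit 0x18000400000000000000) := D_4 (nat_lit 75) (nat_lit 58) (nat_lit 76) (nat_lit 6) (nat_lit 6) (nat_lit 7) (nat_lit 1) (nat_lit 8) (nat_lit 4) (by decide +kernel)
theorem L2558192 : W_4 (nat_lit 3) (nat_lit 0x4000000010001e000b0000c0006000000000000000000) (nat_lit 0x0) (nat_lit 0x30018000400000000000000) := T_4 (nat_lit 89) (nat_lit 88) (nat_lit 3) (nat_lit 3) (nat_lit 5) L2558191 (by decide +kernel)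
theorem L2558193 : W_4 (nat_lit 4) (nat_lit 0x4000000010001e000b0000c0004000000000000000000) (nat_lit 0x0) (nat_lit 0x3001a000500000000000000) := T_4 (nat_lit 73) (nat_lit 56) (nat_lit 4) (nat_lit 6) (nat_lit 7) L2558192 (by decide +kernel)
theorem L2558194 : W_4 (nat_lit 5) (nat_lit 0x4000000010001e000b000080004000000000000000000) (nat_lit 0x0) (nat_lit 0x400007001a000500000000000000) := T_4 (nat_lit 90) (nat_lit 110) (nat_lit 0) (nat_lit 9) (nat_lit 6) L2558193 (by decide +kernel)
theorem L2558195 : W_4 (nat_lit 6) (nat_lit 0x4000000010001e0003000080004000000000000000000) (nat_lit 0x0) (nat_lit 0x1c00007001a000500000000000000) := T_4 (nat_lit 111) (nat_lit 112) (nat_lit 2) (nat_lit 6) (nat_lit 7) L2558194 (by decide +kernel)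
theorem L2558196 : W_4 (nat_lit 7) (nat_lit 0x4000000010001e0003000080000000000000000000000) (nat_lit 0x0) (nat_lit 0x1c00007001e000700000000000000) := T_4 (nat_lit 74) (nat_lit 57) (nat_lit 7) (nat_lit 6) (nat_lit 3) L2558195 (by decide +kernel)
theorem L2558197 : W_4 (nat_lit 8) (nat_lit 0x10001e0003000080000000000000000000000) (nat_lit 0x0) (nat_lit 0x40002000000000001c00007001e000700000000000000) := T_4 (nat_lit 178) (nat_lit 161) (nat_lit 4) (nat_lit 8) (nat_lit 10) L2558196 (by decide +kernel)
theorem L2558198 : W_4 (nat_lit 2) (nat_lit 0x200010001e000f000080000000000000000000000) (nat_lit 0x0) (nat_lit 0x200010000800000000000000000000000000000000000) := D_4 (nat_lit 160) (nat_lit 143) (nat_lit 177) (nat_lit 4) (nat_lit 7) (nat_lit 9) (nat_lit 5) (nat_lit 8) (nat_lit 6) (by decide +kernel)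
theorem L2558199 : W_4 (nat_lit 3) (nat_lit 0x200010001e000b000080000000000000000000000) (nat_lit 0x0) (nat_lit 0x200010000800000004000040000000000000000000000) := T_4 (nat_lit 110) (nat_lit 90) (nat_lit 0) (nat_lit 9) (nat_lit 6) L2558198 (by decide +kernel)
theorem L2558200 : W_4 (nat_lit 4) (nat_lit 0x10001e000b000080000000000000000000000) (nat_lit 0x0) (nat_lit 0x600030000800000004000040000000000000000000000) := T_4 (nat_lit 161) (nat_lit 178) (nat_lit 6) (nat_lit 8) (nat_lit 10) L2558199 (by decide +kernel)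
theorem L2558201 : W_4 (nat_lit 5) (nat_lit 0x10001e0003000080000000000000000000000) (nat_lit 0x0) (nat_lit 0x60003000080000001c000040000000000000000000000) := T_4 (nat_lit 111) (nat_lit 112) (nat_lit 2) (nat_lit 6) (nat_lit 7) L2558200 (by decide +kernel)
theorem L2558202 : W_4 (nat_lit 9) (nat_lit 0x10001e0003000000000000000000000000000) (nat_lit 0x0) (nat_lit 0x60003000080000001c0000f001e000700000000000000) := Q_4 (nat_lit 91) (C_4 L1214993 (C_4 L2558197 (C_4 L2558201 N_4))) (by decide +kernel)
theorem L2558203 : W_4 (nat_lit 10) (nat_lit 0x10001e0002000000000000000000000000000) (nat_lit 0x0) (nat_lit 0x60003000080000001d8000f001e000700000000000000) := T_4 (nat_lit 108) (nat_lit 107) (nat_lit 0) (nat_lit 9) (nat_lit 7) L2558202 (by decide +kernel)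
theorem L2558204 : W_4 (nat_lit 2) (nat_lit 0x4000000050003e000a000000000000000000000000000) (nat_lit 0x0) (nat_lit 0x800400004000000000000000000000000000) := D_4 (nat_lit 130) (nat_lit 143) (nat_lit 110) (nat_lit 1) (nat_lit 11) (nat_lit 7) (nat_lit 0) (nat_lit 11) (nat_lit 7) (by decide +kernel)
theorem L2558205 : W_4 (nat_lit 3) (nat_lit 0x4000000050001e000a000000000000000000000000000) (nat_lit 0x0) (nat_lit 0x8800600004000000000000000000000000000) := T_4 (nat_lit 129) (nat_lit 147) (nat_lit 3) (nat_lit 7) (nat_lit 7) L2558204 (by decide +kernel)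
theorem L2558206 : W_4 (nat_lit 4) (nat_lit 0x4000000010001e000a000000000000000000000000000) (nat_lit 0x0) (nat_lit 0xe800600004000000000000000000000000000) := T_4 (nat_lit 146) (nat_lit 145) (nat_lit 3) (nat_lit 6) (nat_lit 7) L2558205 (by decide +kernel)
theorem L2558207 : W_4 (nat_lit 5) (nat_lit 0x4000000010001e0002000000000000000000000000000) (nat_lit 0x0) (nat_lit 0xe80060001c000000000000000000000000000) := T_4 (nat_lit 111) (nat_lit 112) (nat_lit 2) (nat_lit 6) (nat_lit 7) L2558206 (by decide +kernel)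
theorem L2558208 : W_4 (nat_lit 6) (nat_lit 0x10001e0002000000000000000000000000000) (nat_lit 0x0) (nat_lit 0x40002000e80060001c000000000000000000000000000) := T_4 (nat_lit 178) (nat_lit 161) (nat_lit 4) (nat_lit 8) (nat_lit 10) L2558207 (by decide +kernel)
theorem L2558209 : W_4 (nat_lit 11) (nat_lit 0x10000e0002000000000000000000000000000) (nat_lit 0x0) (nat_lit 0x60003001e80070003d8000f001e000700000000000000) := Q_4 (nat_lit 128) (C_4 L1221645 (C_4 L1117931 (C_4 L2558203 (C_4 L2558208 N_4)))) (by decide +kernel)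
theorem L2558210 : W_4 (nat_lit 12) (nat_lit 0x10000c0002000000000000000000000000000) (nat_lit 0x0) (nat_lit 0x68003401ebe073e03df800f001e000700000000000000) := Q_4 (nat_lit 125) (C_4 L1117965 (C_4 L1315841 (C_4 L616492 (C_4 L2558209 N_4)))) (by decide +kernel)
theorem L2558211 : W_4 (nat_lit 14) (nat_lit 0x10000c0000000000000000000000000000000) (nat_lit 0x0) (nat_lit 0x68003401ebe073e03ff803f001f800700000000000000) := Q_4 (nat_lit 109) (C_4 L1219779 (C_4 L2558190 (C_4 L615321 (C_4 L2558210 (C_4 L284220 N_4))))) (by decide +kernel)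
theorem L2559824 : W_4 (nat_lit 2) (nat_lit 0xb00078003c0010000300040000000000000000000) (nat_lit 0x0) (nat_lit 0x20001000000000000000008000000000000000000000000000) := D_4 (nat_lit 180) (nat_lit 111) (nat_lit 197) (nat_lit 4) (nat_lit 10) (nat_lit 10) (nat_lit 4) (nat_lit 10) (nat_lit 11) (by decide +kernel)
theorem L2559825 : W_4 (nat_lit 3) (nat_lit 0x300078003c0010000300040000000000000000000) (nat_lit 0x0) (nat_lit 0x20001000180000000000008000000000000000000000000000) := T_4 (nat_lit 163) (nat_lit 164) (nat_lit 3) (nat_lit 7) (nat_lit 8) L2559824 (by decide +kernel)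
theorem L2559826 : W_4 (nat_lit 4) (nat_lit 0x300078003c0010000300000000000000000000000) (nat_lit 0x0) (nat_lit 0x20001000180000000000008000800040000000000000000000) := T_4 (nat_lit 78) (nat_lit 95) (nat_lit 5) (nat_lit 10) (nat_lit 4) L2559825 (by decide +kernel)
theorem L2559827 : W_4 (nat_lit 5) (nat_lit 0x300058003c0010000300000000000000000000000) (nat_lit 0x0) (nat_lit 0x20001000188002000000008000800040000000000000000000) := T_4 (nat_lit 145) (nat_lit 159) (nat_lit 1) (nat_lit 10) (nat_lit 8) L2559826 (by decide +kernel)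
theorem L2559828 : W_4 (nat_lit 6) (nat_lit 0x300018003c0010000300000000000000000000000) (nat_lit 0x0) (nat_lit 0x2000100018800e000000008000800040000000000000000000) := T_4 (nat_lit 146) (nat_lit 147) (nat_lit 3) (nat_lit 7) (nat_lit 7) L2559827 (by decide +kernel)
theorem L2559829 : W_4 (nat_lit 7) (nat_lit 0x300018003c0010000200000000000000000000000) (nat_lit 0x0) (nat_lit 0x2000100018800e00000000a000900040000000000000000000) := T_4 (nat_lit 92) (nat_lit 109) (nat_lit 7) (nat_lit 7) (nat_lit 5) L2559828 (by decide +kernel)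
theorem L2559830 : W_4 (nat_lit 8) (nat_lit 0x300018003c0010000000000000000000000000000) (nat_lit 0x0) (nat_lit 0x2000100018800e00000000e000b00040000000000000000000) := T_4 (nat_lit 93) (nat_lit 110) (nat_lit 5) (nat_lit 8) (nat_lit 5) L2559829 (by decide +kernel)
theorem L2559831 : W_4 (nat_lit 9) (nat_lit 0x300018003c0000000000000000000000000000000) (nat_lit 0x0) (nat_lit 0x2000100018800e00000003e000b00040000000000000000000) := T_4 (nat_lit 112) (nat_lit 113) (nat_lit 2) (nat_lit 7) (nat_lit 7) L2559830 (by decide +kernel)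
theorem L2559832 : W_4 (nat_lit 10) (nat_lit 0x200018003c0000000000000000000000000000000) (nat_lit 0x0) (nat_lit 0x2600130019800e00000003e000b00040000000000000000000) := Q_4 (nat_lit 160) (C_4 L982747 (C_4 L1286402 (C_4 L2559831 N_4))) (by decide +kernel)
theorem L2559833 : W_4 (nat_lit 11) (nat_lit 0x200010003c0000000000000000000000000000000) (nat_lit 0x0) (nat_lit 0x2600130019800ec0000003e000b00040000000000000000000) := T_4 (nat_lit 143) (nat_lit 142) (nat_lit 1) (nat_lit 10) (nat_lit 7) L2559832 (by decide +kernel)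
theorem L2559834 : W_4 (nat_lit 12) (nat_lit 0x200010001c0000000000000000000000000000000) (nat_lit 0x0) (nat_lit 0x2600130019807ec01e001fe000b00040000000000000000000) := Q_4 (nat_lit 129) (C_4 L1174558 (C_4 L1174556 (C_4 L2559833 (C_4 L510976 N_4)))) (by decide +kernel)
theorem L2559835 : W_4 (nat_lit 7) (nat_lit 0x200010001c0004000000000000000000000000000) (nat_lit 0x0) (nat_lit 0x30001e002800000003800180000000000000000000000) := T_4 (nat_lit 109) (nat_lit 92) (nat_lit 4) (nat_lit 8) (nat_lit 9) L1237708 (by decide +kernel)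
theorem L2559836 : W_4 (nat_lit 3) (nat_lit 0x200010001c0004000100000000000000000000000) (nat_lit 0x0) (nat_lit 0x2800000000000200018000000000000000000) := T_4 (nat_lit 93) (nat_lit 75) (nat_lit 4) (nat_lit 8) (nat_lit 8) L1168597 (by decide +kernel)
theorem L2559837 : W_4 (nat_lit 4) (nat_lit 0x200010001c0004000000000000000000000000000) (nat_lit 0x0) (nat_lit 0x2800000002000300018000000000000000000) := T_4 (nat_lit 92) (nat_lit 109) (nat_lit 4) (nat_lit 8) (nat_lit 9) L2559836 (by decide +kernel)
theorem L2559838 : W_4 (nat_lit 2) (nat_lit 0x300010001c0004000200010000000000000000000) (nat_lit 0x0) (nat_lit 0xa000000000000800000000000000) := D_4 (nat_lit 59) (nat_lit 111) (nat_lit 109) (nat_lit 7) (nat_lit 8) (nat_lit 3) (nat_lit 5) (nat_lit 8) (nat_lit 3) (by decide +kernel)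
theorem L2559839 : W_4 (nat_lit 3) (nat_lit 0x300010001c0004000200000000000000000000000) (nat_lit 0x0) (nat_lit 0x200000000a000000010000800000000000000) := T_4 (nat_lit 76) (nat_lit 145) (nat_lit 7) (nat_lit 8) (nat_lit 4) L2559838 (by decide +kernel)
theorem L2559840 : W_4 (nat_lit 4) (nat_lit 0x300010001c0004000000000000000000000000000) (nat_lit 0x0) (nat_lit 0x280000000a000200010000800000000000000) := T_4 (nat_lit 93) (nat_lit 143) (nat_lit 5) (nat_lit 8) (nat_lit 5) L2559839 (by decide +kernel)
theorem L2559841 : W_4 (nat_lit 5) (nat_lit 0x200010001c0004000000000000000000000000000) (nat_lit 0x0) (nat_lit 0x20001000280000000a000200010000800000000000000) := T_4 (nat_lit 160) (nat_lit 177) (nat_lit 5) (nat_lit 8) (nat_lit 6) L2559840 (by decide +kernel)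
theorem L2559842 : W_4 (nat_lit 2) (nat_lit 0x300010001c0004000300010000800000000000000) (nat_lit 0x0) (nat_lit 0x20001000080000000000) := D_4 (nat_lit 60) (nat_lit 43) (nat_lit 77) (nat_lit 6) (nat_lit 8) (nat_lit 6) (nat_lit 6) (nat_lit 8) (nat_lit 7) (by decide +kernel)
theorem L2559843 : W_4 (nat_lit 3) (nat_lit 0x300010001c0004000300010000000000000000000) (nat_lit 0x0) (nat_lit 0x8000000020001800080000000000) := T_4 (nat_lit 59) (nat_lit 111) (nat_lit 7) (nat_lit 8) (nat_lit 3) L2559842 (by decide +kernel)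
theorem L2559844 : W_4 (nat_lit 4) (nat_lit 0x300010001c0004000300000000000000000000000) (nat_lit 0x0) (nat_lit 0x2000000008000000030001800080000000000) := T_4 (nat_lit 76) (nat_lit 145) (nat_lit 7) (nat_lit 8) (nat_lit 4) L2559843 (by decide +kernel)
theorem L2559845 : W_4 (nat_lit 5) (nat_lit 0x300010001c0004000100000000000000000000000) (nat_lit 0x0) (nat_lit 0x2000000008000200038001800080000000000) := T_4 (nat_lit 93) (nat_lit 75) (nat_lit 4) (nat_lit 8) (nat_lit 8) L2559844 (by decide +kernel)
theorem L2559846 : W_4 (nat_lit 6) (nat_lit 0x300010001c0004000000000000000000000000000) (nat_lit 0x0) (nat_lit 0x200000000a000300038001800080000000000) := T_4 (nat_lit 92) (nat_lit 109) (nat_lit 4) (nat_lit 8) (nat_lit 9) L2559845 (by decide +kernel)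
theorem L2559847 : W_4 (nat_lit 7) (nat_lit 0x200010001c0004000000000000000000000000000) (nat_lit 0x0) (nat_lit 0x20001000200000000a000300038001800080000000000) := T_4 (nat_lit 160) (nat_lit 177) (nat_lit 5) (nat_lit 8) (nat_lit 6) L2559846 (by decide +kernel)
theorem L2559848 : W_4 (nat_lit 4) (nat_lit 0x300010001c0004000000000000000000000000000) (nat_lit 0x0) (nat_lit 0x2800000000000300018000400000000000000) := T_4 (nat_lit 93) (nat_lit 143) (nat_lit 5) (nat_lit 8) (nat_lit 5) L1393613 (by decide +kernel)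
theorem L2559849 : W_4 (nat_lit 5) (nat_lit 0x200010001c0004000000000000000000000000000) (nat_lit 0x0) (nat_lit 0x200010002800000000000300018000400000000000000) := T_4 (nat_lit 160) (nat_lit 177) (nat_lit 5) (nat_lit 8) (nat_lit 6) L2559848 (by decide +kernel)
theorem L2559850 : W_4 (nat_lit 9) (nat_lit 0x200010001c0000000000000000000000000000000) (nat_lit 0x0) (nat_lit 0x30001e002f0000000f800380038001c00080000000000) := Q_4 (nat_lit 110) (C_4 L1129605 (C_4 L2559835 (C_4 L2559837 (C_4 L2559841 (C_4 L2559847 (C_4 L2559849 N_4)))))) (by decide +kernel)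
theorem L2559851 : W_4 (nat_lit 8) (nat_lit 0x200010001c0000000000000000000000000000000) (nat_lit 0x0) (nat_lit 0x600030001807ec01e001f7000200000000000000000000000) := Q_4 (nat_lit 129) (C_4 L1174558 (C_4 L1287233 (C_4 L1174556 (C_4 L510976 N_4)))) (by decide +kernel)
theorem L2559852 : W_4 (nat_lit 2) (nat_lit 0x40000000b00078003c0000000000000000000000000000000) (nat_lit 0x0) (nat_lit 0x20001000000000000000008000000000000000000000000000) := D_4 (nat_lit 180) (nat_lit 111) (nat_lit 197) (nat_lit 4) (nat_lit 10) (nat_lit 10) (nat_lit 4) (nat_lit 10) (nat_lit 11) (by decide +kernel)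
theorem L2559853 : W_4 (nat_lit 3) (nat_lit 0x40000000300078003c0000000000000000000000000000000) (nat_lit 0x0) (nat_lit 0x20001000180000000000008000000000000000000000000000) := T_4 (nat_lit 163) (nat_lit 164) (nat_lit 3) (nat_lit 7) (nat_lit 8) L2559852 (by decide +kernel)
theorem L2559854 : W_4 (nat_lit 4) (nat_lit 0x300078003c0000000000000000000000000000000) (nat_lit 0x0) (nat_lit 0x24001200180000000000008000000000000000000000000000) := T_4 (nat_lit 194) (nat_lit 177) (nat_lit 6) (nat_lit 7) (nat_lit 11) L2559853 (by decide +kernel)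
theorem L2559855 : W_4 (nat_lit 5) (nat_lit 0x300058003c0000000000000000000000000000000) (nat_lit 0x0) (nat_lit 0x24001200188002000000008000000000000000000000000000) := T_4 (nat_lit 145) (nat_lit 159) (nat_lit 1) (nat_lit 10) (nat_lit 8) L2559854 (by decide +kernel)
theorem L2559856 : W_4 (nat_lit 6) (nat_lit 0x300018003c0000000000000000000000000000000) (nat_lit 0x0) (nat_lit 0x2400120018800e000000008000000000000000000000000000) := T_4 (nat_lit 146) (nat_lit 147) (nat_lit 3) (nat_lit 7) (nat_lit 7) L2559855 (by decide +kernel)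
theorem L2559857 : W_4 (nat_lit 2) (nat_lit 0xb00078003c0010000200000000000000000000000) (nat_lit 0x0) (nat_lit 0x20001000000000000000008000000000000000000000000000) := D_4 (nat_lit 180) (nat_lit 111) (nat_lit 197) (nat_lit 4) (nat_lit 10) (nat_lit 10) (nat_lit 4) (nat_lit 10) (nat_lit 11) (by decide +kernel)
theorem L2559858 : W_4 (nat_lit 3) (nat_lit 0x300078003c0010000200000000000000000000000) (nat_lit 0x0) (nat_lit 0x20001000180000000000008000000000000000000000000000) := T_4 (nat_lit 163) (nat_lit 164) (nat_lit 3) (nat_lit 7) (nat_lit 8) L2559857 (by decide +kernel)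
theorem L2559859 : W_4 (nat_lit 4) (nat_lit 0x300078003c0010000000000000000000000000000) (nat_lit 0x0) (nat_lit 0x2000100018000000000000c000200000000000000000000000) := T_4 (nat_lit 93) (nat_lit 110) (nat_lit 5) (nat_lit 8) (nat_lit 5) L2559858 (by decide +kernel)
theorem L2559860 : W_4 (nat_lit 5) (nat_lit 0x300058003c0010000000000000000000000000000) (nat_lit 0x0) (nat_lit 0x2000100018800200000000c000200000000000000000000000) := T_4 (nat_lit 145) (nat_lit 159) (nat_lit 1) (nat_lit 10) (nat_lit 8) L2559859 (by decide +kernel)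
theorem L2559861 : W_4 (nat_lit 6) (nat_lit 0x300018003c0010000000000000000000000000000) (nat_lit 0x0) (nat_lit 0x2000100018800e00000000c000200000000000000000000000) := T_4 (nat_lit 146) (nat_lit 147) (nat_lit 3) (nat_lit 7) (nat_lit 7) L2559860 (by decide +kernel)
theorem L2559862 : W_4 (nat_lit 7) (nat_lit 0x300018003c0000000000000000000000000000000) (nat_lit 0x0) (nat_lit 0x2000100018800e00000003c000200000000000000000000000) := T_4 (nat_lit 112) (nat_lit 113) (nat_lit 2) (nat_lit 7) (nat_lit 7) L2559861 (by decide +kernel)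
theorem L2559863 : W_4 (nat_lit 8) (nat_lit 0x200018003c0000000000000000000000000000000) (nat_lit 0x0) (nat_lit 0x2400120019800e00000003c000200000000000000000000000) := Q_4 (nat_lit 160) (C_4 L2559856 (C_4 L1286402 (C_4 L2559862 N_4))) (by decide +kernel)
theorem L2559864 : W_4 (nat_lit 9) (nat_lit 0x200010003c0000000000000000000000000000000) (nat_lit 0x0) (nat_lit 0x2400120019800ec0000003c000200000000000000000000000) := T_4 (nat_lit 143) (nat_lit 142) (nat_lit 1) (nat_lit 10) (nat_lit 7) L2559863 (by decide +kernel)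
theorem L2559865 : W_4 (nat_lit 10) (nat_lit 0x200010001c0000000000000000000000000000000) (nat_lit 0x0) (nat_lit 0x2400120019807ec01e001fc000200000000000000000000000) := Q_4 (nat_lit 129) (C_4 L1174558 (C_4 L1174556 (C_4 L2559864 (C_4 L510976 N_4)))) (by decide +kernel)
theorem L2559866 : W_4 (nat_lit 13) (nat_lit 0x200010000c0000000000000000000000000000000) (nat_lit 0x0) (nat_lit 0x2600130019e07ef01f001ff800b80078001c00080000000000) := Q_4 (nat_lit 128) (C_4 L556566 (C_4 L2559834 (C_4 L635627 (C_4 L2559850 (C_4 L2559851 (C_4 L2559865 N_4)))))) (by decide +kernel)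
theorem L2559867 : W_4 (nat_lit 14) (nat_lit 0x10000c0000000000000000000000000000000) (nat_lit 0x0) (nat_lit 0x28003e001f001be07ef01f001ff800b80078001c00080000000000) := Q_4 (nat_lit 161) (C_4 L1212814 (C_4 L1212817 (C_4 L2559866 (C_4 L314843 N_4)))) (by decide +kernel)
theorem L2559868 : W_4 (nat_lit 2) (nat_lit 0x300018000e0017000000000000000000000000000) (nat_lit 0x0) (nat_lit 0x100000c00000000000000000000000000) := D_4 (nat_lit 107) (nat_lit 128) (nat_lit 106) (nat_lit 3) (nat_lit 5) (nat_lit 6) (nat_lit 3) (nat_lit 4) (nat_lit 6) (by decide +kernel)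
theorem L2559869 : W_4 (nat_lit 3) (nat_lit 0x300018000e0016000000000000000000000000000) (nat_lit 0x0) (nat_lit 0x100001c00080000000000000000000000) := T_4 (nat_lit 108) (nat_lit 91) (nat_lit 4) (nat_lit 7) (nat_lit 9) L2559868 (by decide +kernel)
theorem L2559870 : W_4 (nat_lit 4) (nat_lit 0x300010000e0016000000000000000000000000000) (nat_lit 0x0) (nat_lit 0x800100001c00280000000000000000000000) := T_4 (nat_lit 143) (nat_lit 93) (nat_lit 6) (nat_lit 7) (nat_lit 9) L2559869 (by decide +kernel)
theorem L2559871 : W_4 (nat_lit 5) (nat_lit 0x200010000e0016000000000000000000000000000) (nat_lit 0x0) (nat_lit 0x200010000800100001c00280000000000000000000000) := T_4 (nat_lit 160) (nat_lit 177) (nat_lit 5) (nat_lit 8) (nat_lit 6) L2559870 (by decide +kernel)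
theorem L2559872 : W_4 (nat_lit 6) (nat_lit 0x200010000e0006000000000000000000000000000) (nat_lit 0x0) (nat_lit 0x200010000800100019c00280000000000000000000000) := T_4 (nat_lit 112) (nat_lit 111) (nat_lit 1) (nat_lit 10) (nat_lit 6) L2559871 (by decide +kernel)
theorem L2559873 : W_4 (nat_lit 7) (nat_lit 0x10000e0006000000000000000000000000000) (nat_lit 0x0) (nat_lit 0x600030000800100019c00280000000000000000000000) := T_4 (nat_lit 161) (nat_lit 178) (nat_lit 4) (nat_lit 8) (nat_lit 10) L2559872 (by decide +kernel)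
theorem L2559874 : W_4 (nat_lit 11) (nat_lit 0x10000e0002000000000000000000000000000) (nat_lit 0x0) (nat_lit 0x7c003e000c0031801dc00280000000000000000000000) := Q_4 (nat_lit 110) (C_4 L337445 (C_4 L1315860 (C_4 L2559873 N_4))) (by decide +kernel)
theorem L2559875 : W_4 (nat_lit 12) (nat_lit 0x10000c0002000000000000000000000000000) (nat_lit 0x0) (nat_lit 0x7c003e01ece073e03df802f001e000700000000000000) := Q_4 (nat_lit 125) (C_4 L1117965 (C_4 L2558209 (C_4 L2559874 (C_4 L616492 N_4)))) (by decide +kernel)
theorem L2559876 : W_4 (nat_lit 13) (nat_lit 0x10000c0002000000000000000000000000000) (nat_lit 0x0) (nat_lit 0x20001800ec0073c01df003f001f800000000000000000) := Q_4 (nat_lit 125) (C_4 L1117965 (C_4 L2558189 (C_4 L1117960 (C_4 L616486 N_4)))) (by decide +kernel)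
theorem L2559877 : W_4 (nat_lit 14) (nat_lit 0x10000c0000000000000000000000000000000) (nat_lit 0x0) (nat_lit 0x7c003e01ece073e03ff803f001f800700000000000000) := Q_4 (nat_lit 109) (C_4 L1219779 (C_4 L2559875 (C_4 L2559876 (C_4 L615321 (C_4 L284220 N_4))))) (by decide +kernel)
theorem L2562620 : W_4 (nat_lit 2) (nat_lit 0x30003e0010000000000000000000000000000) (nat_lit 0x0) (nat_lit 0x800c00000000000000000000000000000000) := D_4 (nat_lit 130) (nat_lit 131) (nat_lit 143) (nat_lit 1) (nat_lit 12) (nat_lit 7) (nat_lit 1) (nat_lit 11) (nat_lit 7) (by decide +kernel)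
theorem L2562621 : W_4 (nat_lit 3) (nat_lit 0x30001e0010000000000000000000000000000) (nat_lit 0x0) (nat_lit 0x800e00020000000000000000000000000000) := T_4 (nat_lit 129) (nat_lit 113) (nat_lit 2) (nat_lit 7) (nat_lit 7) L2562620 (by decide +kernel)
theorem L2562622 : W_4 (nat_lit 4) (nat_lit 0x30001e0000000000000000000000000000000) (nat_lit 0x0) (nat_lit 0x800e00038000000000000000000000000000) := T_4 (nat_lit 112) (nat_lit 111) (nat_lit 2) (nat_lit 6) (nat_lit 7) L2562621 (by decide +kernel)
theorem L2562623 : W_4 (nat_lit 5) (nat_lit 0x10001e0000000000000000000000000000000) (nat_lit 0x0) (nat_lit 0x6800e00038000000000000000000000000000) := T_4 (nat_lit 145) (nat_lit 146) (nat_lit 3) (nat_lit 6) (nat_lit 7) L2562622 (by decide +kernel)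
theorem L2562639 : W_4 (nat_lit 2) (nat_lit 0x200010001e0002000000000000000000000000000) (nat_lit 0x0) (nat_lit 0x800000000000100008000000000000000000) := D_4 (nat_lit 92) (nat_lit 143) (nat_lit 75) (nat_lit 7) (nat_lit 7) (nat_lit 5) (nat_lit 7) (nat_lit 7) (nat_lit 4) (by decide +kernel)
theorem L2562640 : W_4 (nat_lit 2) (nat_lit 0x280034001e0002000000000000000000000000000) (nat_lit 0x0) (nat_lit 0x14000800000000000000000000000000000000000) := D_4 (nat_lit 158) (nat_lit 160) (nat_lit 143) (nat_lit 2) (nat_lit 5) (nat_lit 9) (nat_lit 1) (nat_lit 9) (nat_lit 8) (by decide +kernel)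
theorem L2562641 : W_4 (nat_lit 3) (nat_lit 0x200034001e0002000000000000000000000000000) (nat_lit 0x0) (nat_lit 0x10001c000800000000000000000000000000000000000) := T_4 (nat_lit 159) (nat_lit 176) (nat_lit 6) (nat_lit 6) (nat_lit 10) L2562640 (by decide +kernel)
theorem L2562642 : W_4 (nat_lit 4) (nat_lit 0x200014001e0002000000000000000000000000000) (nat_lit 0x0) (nat_lit 0x10001c006800000000000000000000000000000000000) := T_4 (nat_lit 145) (nat_lit 146) (nat_lit 3) (nat_lit 6) (nat_lit 7) L2562641 (by decide +kernel)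
theorem L2562643 : W_4 (nat_lit 5) (nat_lit 0x200010001e0002000000000000000000000000000) (nat_lit 0x0) (nat_lit 0x10001c006e00000000000000000000000000000000000) := T_4 (nat_lit 142) (nat_lit 141) (nat_lit 1) (nat_lit 9) (nat_lit 7) L2562642 (by decide +kernel)
theorem L2562644 : W_4 (nat_lit 6) (nat_lit 0x200010001e0000000000000000000000000000000) (nat_lit 0x0) (nat_lit 0x10001c006e00000006000100008000000000000000000) := Q_4 (nat_lit 109) (C_4 L501836 (C_4 L2562639 (C_4 L2562643 N_4))) (by decide +kernel)
theorem L2562645 : W_4 (nat_lit 7) (nat_lit 0x10001e0000000000000000000000000000000) (nat_lit 0x0) (nat_lit 0x1c001f0003c006e0000000e000100008000000000000000000) := Q_4 (nat_lit 161) (C_4 L2435108 (C_4 L501802 (C_4 L2562644 N_4))) (by decide +kernel)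
theorem L2562646 : W_4 (nat_lit 8) (nat_lit 0x10000e0000000000000000000000000000000) (nat_lit 0x0) (nat_lit 0x1e001f0003c03ee00f0007e000100008000000000000000000) := Q_4 (nat_lit 128) (C_4 L1117975 (C_4 L623035 (C_4 L2562623 (C_4 L2562645 (C_4 L499559 N_4))))) (by decide +kernel)
theorem L2562647 : W_4 (nat_lit 9) (nat_lit 0x10000c0000000000000000000000000000000) (nat_lit 0x0) (nat_lit 0x1e001f0003c03ef80f3807ee00140008000000000000000000) := Q_4 (nat_lit 125) (C_4 L619124 (C_4 L1117969 (C_4 L616510 (C_4 L345918 (C_4 L2562646 N_4))))) (by decide +kernel)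
theorem L2562648 : W_4 (nat_lit 5) (nat_lit 0x10000f0002000000000000000000000000000) (nat_lit 0x0) (nat_lit 0x70010000dc00000000000000000000000000) := T_4 (nat_lit 110) (nat_lit 111) (nat_lit 2) (nat_lit 5) (nat_lit 7) L170886 (by decide +kernel)
theorem L2562649 : W_4 (nat_lit 8) (nat_lit 0x10000e0002000000000000000000000000000) (nat_lit 0x0) (nat_lit 0xfc011e00df80000000000000000000000000) := Q_4 (nat_lit 124) (C_4 L1117964 (C_4 L616484 (C_4 L2562648 N_4))) (by decide +kernel)
theorem L2562650 : W_4 (nat_lit 12) (nat_lit 0x10000c0002000000000000000000000000000) (nat_lit 0x0) (nat_lit 0x60003001efe073e03df800f001e000700000000000000) := Q_4 (nat_lit 125) (C_4 L616492 (C_4 L2558209 (C_4 L2562649 (C_4 L1117965 N_4)))) (by decide +kernel)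
theorem L2562651 : W_4 (nat_lit 14) (nat_lit 0x10000c0000000000000000000000000000000) (nat_lit 0x0) (nat_lit 0x60003801efe073e03ff803f001f800700000000000000) := Q_4 (nat_lit 109) (C_4 L1219779 (C_4 L2559876 (C_4 L615321 (C_4 L2562650 (C_4 L284220 N_4))))) (by decide +kernel)
theorem L2562652 : W_4 (nat_lit 2) (nat_lit 0x3c0018002e0017000000000000000000000000000) (nat_lit 0x0) (nat_lit 0xc0000000400000000000000000000000000000000000) := D_4 (nat_lit 175) (nat_lit 174) (nat_lit 142) (nat_lit 1) (nat_lit 8) (nat_lit 9) (nat_lit 5) (nat_lit 6) (nat_lit 6) (by decide +kernel)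
theorem L2562653 : W_4 (nat_lit 3) (nat_lit 0x380018002e0017000000000000000000000000000) (nat_lit 0x0) (nat_lit 0xc0006000400000000000000000000000000000000000) := T_4 (nat_lit 158) (nat_lit 157) (nat_lit 2) (nat_lit 4) (nat_lit 9) L2562652 (by decide +kernel)
theorem L2562654 : W_4 (nat_lit 4) (nat_lit 0x300018002e0017000000000000000000000000000) (nat_lit 0x0) (nat_lit 0x1c000e000400000000000000000000000000000000000) := T_4 (nat_lit 159) (nat_lit 176) (nat_lit 5) (nat_lit 7) (nat_lit 6) L2562653 (by decide +kernel)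
theorem L2562655 : W_4 (nat_lit 5) (nat_lit 0x300018000e0017000000000000000000000000000) (nat_lit 0x0) (nat_lit 0x1c000e000400300000000000000000000000000000000) := T_4 (nat_lit 129) (nat_lit 128) (nat_lit 0) (nat_lit 10) (nat_lit 7) L2562654 (by decide +kernel)
theorem L2562656 : W_4 (nat_lit 6) (nat_lit 0x300018000e0016000000000000000000000000000) (nat_lit 0x0) (nat_lit 0x1c000e000400300001000080000000000000000000000) := T_4 (nat_lit 108) (nat_lit 91) (nat_lit 4) (nat_lit 7) (nat_lit 9) L2562655 (by decide +kernel)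
theorem L2562657 : W_4 (nat_lit 7) (nat_lit 0x300010000e0016000000000000000000000000000) (nat_lit 0x0) (nat_lit 0x1c000e000c00300001000280000000000000000000000) := T_4 (nat_lit 143) (nat_lit 93) (nat_lit 6) (nat_lit 7) (nat_lit 9) L2562656 (by decide +kernel)
theorem L2562658 : W_4 (nat_lit 8) (nat_lit 0x200010000e0016000000000000000000000000000) (nat_lit 0x0) (nat_lit 0x3c001e000c00300001000280000000000000000000000) := T_4 (nat_lit 160) (nat_lit 177) (nat_lit 5) (nat_lit 8) (nat_lit 6) L2562657 (by decide +kernel)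
theorem L2562659 : W_4 (nat_lit 9) (nat_lit 0x200010000e0006000000000000000000000000000) (nat_lit 0x0) (nat_lit 0x3c001e000c00300019000280000000000000000000000) := T_4 (nat_lit 112) (nat_lit 111) (nat_lit 1) (nat_lit 10) (nat_lit 6) L2562658 (by decide +kernel)
theorem L2562660 : W_4 (nat_lit 10) (nat_lit 0x10000e0006000000000000000000000000000) (nat_lit 0x0) (nat_lit 0x7c003e000c00300019000280000000000000000000000) := T_4 (nat_lit 161) (nat_lit 178) (nat_lit 4) (nat_lit 8) (nat_lit 10) L2562659 (by decide +kernel)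
theorem L2562661 : W_4 (nat_lit 11) (nat_lit 0x10000e0002000000000000000000000000000) (nat_lit 0x0) (nat_lit 0x7c003e000c0031801d000280000000000000000000000) := Q_4 (nat_lit 110) (C_4 L337445 (C_4 L1315860 (C_4 L2562660 N_4))) (by decide +kernel)
theorem L2562662 : W_4 (nat_lit 2) (nat_lit 0x280034001e000a000000000000000000000000000) (nat_lit 0x0) (nat_lit 0x14000800000000000000000000000000000000000) := D_4 (nat_lit 158) (nat_lit 160) (nat_lit 143) (nat_lit 2) (nat_lit 5) (nat_lit 9) (nat_lit 1) (nat_lit 9) (nat_lit 8) (by decide +kernel)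
theorem L2562663 : W_4 (nat_lit 3) (nat_lit 0x200034001e000a000000000000000000000000000) (nat_lit 0x0) (nat_lit 0x10001c000800000000000000000000000000000000000) := T_4 (nat_lit 159) (nat_lit 176) (nat_lit 6) (nat_lit 6) (nat_lit 10) L2562662 (by decide +kernel)
theorem L2562664 : W_4 (nat_lit 4) (nat_lit 0x200030001e000a000000000000000000000000000) (nat_lit 0x0) (nat_lit 0x10001c000e00000000000000000000000000000000000) := T_4 (nat_lit 142) (nat_lit 141) (nat_lit 1) (nat_lit 9) (nat_lit 7) L2562663 (by decide +kernel)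
theorem L2562665 : W_4 (nat_lit 5) (nat_lit 0x30001e000a000000000000000000000000000) (nat_lit 0x0) (nat_lit 0x50003c000e00000000000000000000000000000000000) := T_4 (nat_lit 161) (nat_lit 178) (nat_lit 6) (nat_lit 8) (nat_lit 10) L2562664 (by decide +kernel)
theorem L2562666 : W_4 (nat_lit 6) (nat_lit 0x30001e0002000000000000000000000000000) (nat_lit 0x0) (nat_lit 0x50003c000e00000018000000000000000000000000000) := T_4 (nat_lit 111) (nat_lit 112) (nat_lit 2) (nat_lit 6) (nat_lit 7) L2562665 (by decide +kernel)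
theorem L2562667 : W_4 (nat_lit 7) (nat_lit 0x10001e0002000000000000000000000000000) (nat_lit 0x0) (nat_lit 0x50003c006e00000018000000000000000000000000000) := T_4 (nat_lit 145) (nat_lit 146) (nat_lit 3) (nat_lit 6) (nat_lit 7) L2562666 (by decide +kernel)
theorem L2562668 : W_4 (nat_lit 9) (nat_lit 0x10000e0002000000000000000000000000000) (nat_lit 0x0) (nat_lit 0x50003c00ee00f0003d000000000000000000000000000) := Q_4 (nat_lit 128) (C_4 L1178904 (C_4 L2558208 (C_4 L2562667 (C_4 L1315848 N_4)))) (by decide +kernel)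
theorem L2562669 : W_4 (nat_lit 12) (nat_lit 0x10000c0002000000000000000000000000000) (nat_lit 0x0) (nat_lit 0x7c003e00eee0f3e03d380280000000000000000000000) := Q_4 (nat_lit 125) (C_4 L616492 (C_4 L1117965 (C_4 L2562661 (C_4 L2562668 N_4)))) (by decide +kernel)
theorem L2562670 : W_4 (nat_lit 13) (nat_lit 0x10000c0000000000000000000000000000000) (nat_lit 0x0) (nat_lit 0x60007c003e00efe0f3e03f38038001c000000000000000000) := Q_4 (nat_lit 109) (C_4 L1219779 (C_4 L1278406 (C_4 L615321 (C_4 L2562669 (C_4 L284220 N_4))))) (by decide +kernel)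
theorem L2562671 : W_4 (nat_lit 16) (nat_lit 0x1000080000000000000000000000000000000) (nat_lit 0x0) (nat_lit 0x8002f01ffe07ff07bf87efe1f7e1fff80bf007f801f00080000000000) := Q_4 (nat_lit 126) (C_4 L2557502 (C_4 L1238669 (C_4 L2557513 (C_4 L2558211 (C_4 L1117984 (C_4 L619125 (C_4 L1178865 (C_4 L2559867 (C_4 L2559877 (C_4 L2562647 (C_4 L1256358 (C_4 L1265205 (C_4 L2562651 (C_4 L2562670 N_4)))))))))))))) (by decide +kernel)
theorem L2563306 : W_4 (nat_lit 2) (nat_lit 0x100058000e000f00040000000000000000000) (nat_lit 0x0) (nat_lit 0x10000000000002000100000000000) := D_4 (nat_lit 61) (nat_lit 112) (nat_lit 44) (nat_lit 5) (nat_lit 10) (nat_lit 3) (nat_lit 5) (nat_lit 10) (nat_lit 2) (by decide +kernel)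
theorem L2563307 : W_4 (nat_lit 3) (nat_lit 0x1000580006000f00040000000000000000000) (nat_lit 0x0) (nat_lit 0x2000000018000000000002000100000000000) := T_4 (nat_lit 111) (nat_lit 145) (nat_lit 6) (nat_lit 9) (nat_lit 8) L2563306 (by decide +kernel)
theorem L2563308 : W_4 (nat_lit 4) (nat_lit 0x1000580006000f00000000000000000000000) (nat_lit 0x0) (nat_lit 0x20000000180000000c0002000100000000000) := T_4 (nat_lit 78) (nat_lit 79) (nat_lit 2) (nat_lit 7) (nat_lit 5) L2563307 (by decide +kernel)
theorem L2563309 : W_4 (nat_lit 5) (nat_lit 0x1000180006000f00000000000000000000000) (nat_lit 0x0) (nat_lit 0x20006000180000000c0002000100000000000) := T_4 (nat_lit 130) (nat_lit 129) (nat_lit 0) (nat_lit 11) (nat_lit 7) L2563308 (by decide +kernel)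
theorem L2563310 : W_4 (nat_lit 6) (nat_lit 0x1000180006000700000000000000000000000) (nat_lit 0x0) (nat_lit 0x20006000180018000c0002000100000000000) := T_4 (nat_lit 95) (nat_lit 96) (nat_lit 1) (nat_lit 11) (nat_lit 5) L2563309 (by decide +kernel)
theorem L2563311 : W_4 (nat_lit 7) (nat_lit 0x1000180006000300000000000000000000000) (nat_lit 0x0) (nat_lit 0x2000600018001c000e0002000100000000000) := T_4 (nat_lit 94) (nat_lit 77) (nat_lit 6) (nat_lit 8) (nat_lit 8) L2563310 (by decide +kernel)
theorem L2563312 : W_4 (nat_lit 8) (nat_lit 0x1000180006000200000000000000000000000) (nat_lit 0x0) (nat_lit 0x2000600018001d000e8002000100000000000) := T_4 (nat_lit 92) (nat_lit 75) (nat_lit 4) (nat_lit 8) (nat_lit 8) L2563311 (by decide +kernel)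
theorem L2563313 : W_4 (nat_lit 2) (nat_lit 0x1c005c0006001780000000000000000000000) (nat_lit 0x0) (nat_lit 0x18000040000000000000000000000) := D_4 (nat_lit 111) (nat_lit 112) (nat_lit 90) (nat_lit 3) (nat_lit 6) (nat_lit 5) (nat_lit 3) (nat_lit 5) (nat_lit 5) (by decide +kernel)
theorem L2563314 : W_4 (nat_lit 3) (nat_lit 0x1c005c0006001700000000000000000000000) (nat_lit 0x0) (nat_lit 0x180000c0004000000000000000000) := T_4 (nat_lit 91) (nat_lit 74) (nat_lit 4) (nat_lit 7) (nat_lit 8) L2563313 (by decide +kernel)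
theorem L2563315 : W_4 (nat_lit 4) (nat_lit 0x1c00580006001700000000000000000000000) (nat_lit 0x0) (nat_lit 0x80000000400180000c0004000000000000000000) := T_4 (nat_lit 126) (nat_lit 159) (nat_lit 5) (nat_lit 7) (nat_lit 5) L2563314 (by decide +kernel)
theorem L2563316 : W_4 (nat_lit 5) (nat_lit 0x1c00580006000700000000000000000000000) (nat_lit 0x0) (nat_lit 0x80000000400180018c0004000000000000000000) := T_4 (nat_lit 96) (nat_lit 95) (nat_lit 1) (nat_lit 11) (nat_lit 5) L2563315 (by decide +kernel)
theorem L2563317 : W_4 (nat_lit 6) (nat_lit 0x1c00580006000300000000000000000000000) (nat_lit 0x0) (nat_lit 0x8000000040018001cc0024000000000000000000) := T_4 (nat_lit 94) (nat_lit 77) (nat_lit 6) (nat_lit 8) (nat_lit 8) L2563316 (by decide +kernel)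
theorem L2563318 : W_4 (nat_lit 7) (nat_lit 0x1c00580006000200000000000000000000000) (nat_lit 0x0) (nat_lit 0x8000000040018001dc002c000000000000000000) := T_4 (nat_lit 92) (nat_lit 75) (nat_lit 4) (nat_lit 8) (nat_lit 8) L2563317 (by decide +kernel)
theorem L2563319 : W_4 (nat_lit 8) (nat_lit 0x1800580006000200000000000000000000000) (nat_lit 0x0) (nat_lit 0x8000600040018001dc002c000000000000000000) := T_4 (nat_lit 142) (nat_lit 141) (nat_lit 2) (nat_lit 5) (nat_lit 8) L2563318 (by decide +kernel)
theorem L2563320 : W_4 (nat_lit 9) (nat_lit 0x1000580006000200000000000000000000000) (nat_lit 0x0) (nat_lit 0x18000e00040018001dc002c000000000000000000) := T_4 (nat_lit 143) (nat_lit 160) (nat_lit 5) (nat_lit 8) (nat_lit 5) L2563319 (by decide +kernel)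
theorem L2563321 : W_4 (nat_lit 10) (nat_lit 0x1000180006000200000000000000000000000) (nat_lit 0x0) (nat_lit 0x18000e00640018001dc002c000000000000000000) := T_4 (nat_lit 130) (nat_lit 129) (nat_lit 0) (nat_lit 11) (nat_lit 7) L2563320 (by decide +kernel)
theorem L2563322 : W_4 (nat_lit 2) (nat_lit 0x1a0018000e000f00040000000000000000000) (nat_lit 0x0) (nat_lit 0x10000000000002000100000000000) := D_4 (nat_lit 61) (nat_lit 112) (nat_lit 44) (nat_lit 5) (nat_lit 10) (nat_lit 3) (nat_lit 5) (nat_lit 10) (nat_lit 2) (by decide +kernel)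
theorem L2563323 : W_4 (nat_lit 3) (nat_lit 0x1a00180006000f00040000000000000000000) (nat_lit 0x0) (nat_lit 0x2000000018000000000002000100000000000) := T_4 (nat_lit 111) (nat_lit 145) (nat_lit 6) (nat_lit 9) (nat_lit 8) L2563322 (by decide +kernel)
theorem L2563324 : W_4 (nat_lit 4) (nat_lit 0x1a00180006000f00000000000000000000000) (nat_lit 0x0) (nat_lit 0x20000000180000000c0002000100000000000) := T_4 (nat_lit 78) (nat_lit 79) (nat_lit 2) (nat_lit 7) (nat_lit 5) L2563323 (by decide +kernel)
theorem L2563325 : W_4 (nat_lit 5) (nat_lit 0x1a00180006000700000000000000000000000) (nat_lit 0x0) (nat_lit 0x20000000180018000c0002000100000000000) := T_4 (nat_lit 95) (nat_lit 96) (nat_lit 1) (nat_lit 11) (nat_lit 5) L2563324 (by decide +kernel)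
theorem L2563326 : W_4 (nat_lit 6) (nat_lit 0x1a00180006000300000000000000000000000) (nat_lit 0x0) (nat_lit 0x2000000018001c000e0002000100000000000) := T_4 (nat_lit 94) (nat_lit 77) (nat_lit 6) (nat_lit 8) (nat_lit 8) L2563325 (by decide +kernel)
theorem L2563327 : W_4 (nat_lit 7) (nat_lit 0x1800180006000300000000000000000000000) (nat_lit 0x0) (nat_lit 0x2600000018001c000e0002000100000000000) := T_4 (nat_lit 141) (nat_lit 142) (nat_lit 2) (nat_lit 5) (nat_lit 8) L2563326 (by decide +kernel)
theorem L2563328 : W_4 (nat_lit 8) (nat_lit 0x1000180006000300000000000000000000000) (nat_lit 0x0) (nat_lit 0x10002e00000018001c000e0002000100000000000) := T_4 (nat_lit 143) (nat_lit 160) (nat_lit 5) (nat_lit 8) (nat_lit 5) L2563327 (by decide +kernel)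
theorem L2563329 : W_4 (nat_lit 9) (nat_lit 0x1000180006000200000000000000000000000) (nat_lit 0x0) (nat_lit 0x10002e00000018001d000e8002000100000000000) := T_4 (nat_lit 92) (nat_lit 75) (nat_lit 4) (nat_lit 8) (nat_lit 8) L2563328 (by decide +kernel)
theorem L2563330 : W_4 (nat_lit 11) (nat_lit 0x1000080006000200000000000000000000000) (nat_lit 0x0) (nat_lit 0x18002e00740018001dc00ec002000100000000000) := Q_4 (nat_lit 128) (C_4 L2563312 (C_4 L2563321 (C_4 L2563329 (C_4 L1187077 N_4)))) (by decide +kernel)
theorem L2563331 : W_4 (nat_lit 12) (nat_lit 0x1000080004000200000000000000000000000) (nat_lit 0x0) (nat_lit 0x18002e0077c01bc01df00ec002000100000000000) := Q_4 (nat_lit 109) (C_4 L1283666 (C_4 L1187013 (C_4 L1048589 (C_4 L66124 (C_4 L2563330 N_4))))) (by decide +kernel)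
theorem L2563332 : W_4 (nat_lit 13) (nat_lit 0x1000080004000000000000000000000000000) (nat_lit 0x0) (nat_lit 0x18002e0077c01bc01ff00fc003c001e0005000000) := Q_4 (nat_lit 93) (C_4 L1186996 (C_4 L1048870 (C_4 L234 (C_4 L2563331 (C_4 L1186276 N_4))))) (by decide +kernel)
theorem L2563348 : W_4 (nat_lit 12) (nat_lit 0x1000080004000000000000000000000000000) (nat_lit 0x0) (nat_lit 0x28001c001e803bc01ee00f7001b8005c0000000000000000000000) := Q_4 (nat_lit 161) (C_4 L1204728 (C_4 L1193354 (C_4 L2563347 (C_4 L1185064 (C_4 L1048908 (C_4 L1048914 N_4)))))) (by decide +kernel)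
theorem L2563349 : W_4 (nat_lit 14) (nat_lit 0x1000080000000000000000000000000000000) (nat_lit 0x0) (nat_lit 0x38001f001fe03bf01ef81f7c01fc01ff00fc003c001e0005000000) := Q_4 (nat_lit 110) (C_4 L1190136 (C_4 L2563332 (C_4 L1186986 (C_4 L2563348 (C_4 L1204729 (C_4 L1204744 N_4)))))) (by decide +kernel)
theorem L2563350 : W_4 (nat_lit 5) (nat_lit 0x30001000080006000200020000000000000000000) (nat_lit 0x0) (nat_lit 0x2000340001800000010001800000000000000) := T_4 (nat_lit 76) (nat_lit 60) (nat_lit 6) (nat_lit 8) (nat_lit 7) L109809 (by decide +kernel)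
theorem L2563351 : W_4 (nat_lit 6) (nat_lit 0x30001000080006000200000000000000000000000) (nat_lit 0x0) (nat_lit 0x2000340001800400030001800000000000000) := T_4 (nat_lit 77) (nat_lit 94) (nat_lit 6) (nat_lit 8) (nat_lit 8) L2563350 (by decide +kernel)
theorem L2563352 : W_4 (nat_lit 7) (nat_lit 0x30001000080006000000000000000000000000000) (nat_lit 0x0) (nat_lit 0x2800340001800600030001800000000000000) := T_4 (nat_lit 93) (nat_lit 143) (nat_lit 5) (nat_lit 8) (nat_lit 5) L2563351 (by decide +kernel)
theorem L2563353 : W_4 (nat_lit 8) (nat_lit 0x20001000080006000000000000000000000000000) (nat_lit 0x0) (nat_lit 0x200010002800340001800600030001800000000000000) := T_4 (nat_lit 160) (nat_lit 177) (nat_lit 5) (nat_lit 8) (nat_lit 6) L2563352 (by decide +kernel)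
theorem L2563354 : W_4 (nat_lit 9) (nat_lit 0x20001000080004000000000000000000000000000) (nat_lit 0x0) (nat_lit 0x200010002800340003800700030001800000000000000) := T_4 (nat_lit 109) (nat_lit 92) (nat_lit 4) (nat_lit 8) (nat_lit 9) L2563353 (by decide +kernel)
theorem L2563355 : W_4 (nat_lit 2) (nat_lit 0x20001800080004000000000000000000000000000) (nat_lit 0x0) (nat_lit 0x200010000000000000000200000000000000000000000) := D_4 (nat_lit 160) (nat_lit 177) (nat_lit 93) (nat_lit 5) (nat_lit 8) (nat_lit 6) (nat_lit 5) (nat_lit 8) (nat_lit 5) (by decide +kernel)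
theorem L2563356 : W_4 (nat_lit 4) (nat_lit 0x20001800180004000000000000000000000000000) (nat_lit 0x0) (nat_lit 0x640003800100000000000000000000000) := T_4 (nat_lit 109) (nat_lit 92) (nat_lit 4) (nat_lit 8) (nat_lit 9) L1312219 (by decide +kernel)
theorem L2563357 : W_4 (nat_lit 2) (nat_lit 0x5000100028003c001a0006800000010000000000000000000) (nat_lit 0x0) (nat_lit 0xa0002000000000000000000000000000000000000000000000000) := D_4 (nat_lit 193) (nat_lit 209) (nat_lit 211) (nat_lit 5) (nat_lit 6) (nat_lit 8) (nat_lit 7) (nat_lit 6) (nat_lit 8) (by decide +kernel)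
theorem L2563358 : W_4 (nat_lit 3) (nat_lit 0x1000100028003c001a0006800000010000000000000000000) (nat_lit 0x0) (nat_lit 0xa0006000200000000000000000000000000000000000000000000) := T_4 (nat_lit 194) (nat_lit 177) (nat_lit 7) (nat_lit 6) (nat_lit 7) L2563357 (by decide +kernel)
theorem L2563359 : W_4 (nat_lit 4) (nat_lit 0x100028003c001a0006800000010000000000000000000) (nat_lit 0x0) (nat_lit 0xa0007000280000000000000000000000000000000000000000000) := T_4 (nat_lit 192) (nat_lit 175) (nat_lit 5) (nat_lit 6) (nat_lit 7) L2563358 (by decide +kernel)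
theorem L2563360 : W_4 (nat_lit 5) (nat_lit 0x28003c001a0006800000010000000000000000000) (nat_lit 0x0) (nat_lit 0xa0007000380000000000040000000000000000000000000000000) := T_4 (nat_lit 176) (nat_lit 126) (nat_lit 6) (nat_lit 6) (nat_lit 10) L2563359 (by decide +kernel)
theorem L2563361 : W_4 (nat_lit 6) (nat_lit 0x28003c001a0006800000000000000000000000000) (nat_lit 0x0) (nat_lit 0xa0007000380000000000040000000200010000000000000000000) := T_4 (nat_lit 76) (nat_lit 93) (nat_lit 7) (nat_lit 8) (nat_lit 4) L2563360 (by decide +kernel)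
theorem L2563362 : W_4 (nat_lit 7) (nat_lit 0x20003c001a0006800000000000000000000000000) (nat_lit 0x0) (nat_lit 0xa000700038000c000000040000000200010000000000000000000) := T_4 (nat_lit 159) (nat_lit 158) (nat_lit 1) (nat_lit 9) (nat_lit 8) L2563361 (by decide +kernel)
theorem L2563363 : W_4 (nat_lit 8) (nat_lit 0x20001c001a0006800000000000000000000000000) (nat_lit 0x0) (nat_lit 0xa000700038000c002000050000000200010000000000000000000) := T_4 (nat_lit 145) (nat_lit 124) (nat_lit 0) (nat_lit 9) (nat_lit 8) L2563362 (by decide +kernel)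
theorem L2563364 : W_4 (nat_lit 9) (nat_lit 0x200018001a0006800000000000000000000000000) (nat_lit 0x0) (nat_lit 0xa000700038000c002600050000000200010000000000000000000) := T_4 (nat_lit 142) (nat_lit 141) (nat_lit 2) (nat_lit 5) (nat_lit 8) L2563363 (by decide +kernel)
theorem L2563365 : W_4 (nat_lit 10) (nat_lit 0x200018001a0006000000000000000000000000000) (nat_lit 0x0) (nat_lit 0xa000700038000c002600050001800200010000000000000000000) := T_4 (nat_lit 107) (nat_lit 108) (nat_lit 3) (nat_lit 5) (nat_lit 6) L2563364 (by decide +kernel)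
theorem L2563366 : W_4 (nat_lit 11) (nat_lit 0x200018001a0004000000000000000000000000000) (nat_lit 0x0) (nat_lit 0xa000700038000c002600050003800300010000000000000000000) := T_4 (nat_lit 109) (nat_lit 92) (nat_lit 4) (nat_lit 8) (nat_lit 9) L2563365 (by decide +kernel)
theorem L2563367 : W_4 (nat_lit 2) (nat_lit 0x20001a001a000f000080000000000000000000000) (nat_lit 0x0) (nat_lit 0x40010000000004000000000000000000) := D_4 (nat_lit 126) (nat_lit 112) (nat_lit 74) (nat_lit 2) (nat_lit 6) (nat_lit 7) (nat_lit 7) (nat_lit 6) (nat_lit 4) (by decide +kernel)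
theorem L2563368 : W_4 (nat_lit 3) (nat_lit 0x20001a001a000f000000000000000000000000000) (nat_lit 0x0) (nat_lit 0x400100000c0004000000000000000000) := T_4 (nat_lit 91) (nat_lit 90) (nat_lit 0) (nat_lit 9) (nat_lit 6) L2563367 (by decide +kernel)
theorem L2563369 : W_4 (nat_lit 4) (nat_lit 0x20001a001a0007000000000000000000000000000) (nat_lit 0x0) (nat_lit 0x500180000c0004000000000000000000) := T_4 (nat_lit 111) (nat_lit 124) (nat_lit 1) (nat_lit 9) (nat_lit 6) L2563368 (by decide +kernel)
theorem L2563370 : W_4 (nat_lit 5) (nat_lit 0x20001a001a0006000000000000000000000000000) (nat_lit 0x0) (nat_lit 0x500198000c0004000000000000000000) := T_4 (nat_lit 108) (nat_lit 107) (nat_lit 3) (nat_lit 5) (nat_lit 6) L2563369 (by decide +kernel)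
theorem L2563371 : W_4 (nat_lit 6) (nat_lit 0x20001a001a0004000000000000000000000000000) (nat_lit 0x0) (nat_lit 0x5001b8001c0004000000000000000000) := T_4 (nat_lit 109) (nat_lit 92) (nat_lit 4) (nat_lit 8) (nat_lit 9) L2563370 (by decide +kernel)
theorem L2563372 : W_4 (nat_lit 7) (nat_lit 0x200018001a0004000000000000000000000000000) (nat_lit 0x0) (nat_lit 0x60005001b8001c0004000000000000000000) := T_4 (nat_lit 141) (nat_lit 142) (nat_lit 2) (nat_lit 5) (nat_lit 8) L2563371 (by decide +kernel)
theorem L2563373 : W_4 (nat_lit 2) (nat_lit 0x200018001a000f000080000000000000000000000) (nat_lit 0x0) (nat_lit 0x40010000000004000000000000000000) := D_4 (nat_lit 126) (nat_lit 112) (nat_lit 74) (nat_lit 2) (nat_lit 6) (nat_lit 7) (nat_lit 7) (nat_lit 6) (nat_lit 4) (by decide +kernel)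
theorem L2563374 : W_4 (nat_lit 3) (nat_lit 0x200018001a000f000000000000000000000000000) (nat_lit 0x0) (nat_lit 0x400100000c0004000000000000000000) := T_4 (nat_lit 91) (nat_lit 90) (nat_lit 0) (nat_lit 9) (nat_lit 6) L2563373 (by decide +kernel)
theorem L2563375 : W_4 (nat_lit 4) (nat_lit 0x200018001a0007000000000000000000000000000) (nat_lit 0x0) (nat_lit 0x500180000c0004000000000000000000) := T_4 (nat_lit 111) (nat_lit 124) (nat_lit 1) (nat_lit 9) (nat_lit 6) L2563374 (by decide +kernel)
theorem L2563376 : W_4 (nat_lit 5) (nat_lit 0x200018001a0006000000000000000000000000000) (nat_lit 0x0) (nat_lit 0x500198000c0004000000000000000000) := T_4 (nat_lit 108) (nat_lit 107) (nat_lit 3) (nat_lit 5) (nat_lit 6) L2563375 (by decide +kernel)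
theorem L2563377 : W_4 (nat_lit 6) (nat_lit 0x200018001a0004000000000000000000000000000) (nat_lit 0x0) (nat_lit 0x5001b8001c0004000000000000000000) := T_4 (nat_lit 109) (nat_lit 92) (nat_lit 4) (nat_lit 8) (nat_lit 9) L2563376 (by decide +kernel)
theorem L2563378 : W_4 (nat_lit 2) (nat_lit 0x20001c001a0007000000000000000000000000000) (nat_lit 0x0) (nat_lit 0x2000010008000000000000000000000000000) := D_4 (nat_lit 124) (nat_lit 111) (nat_lit 145) (nat_lit 1) (nat_lit 9) (nat_lit 6) (nat_lit 0) (nat_lit 9) (nat_lit 8) (by decide +kernel)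
theorem L2563379 : W_4 (nat_lit 3) (nat_lit 0x200018001a0007000000000000000000000000000) (nat_lit 0x0) (nat_lit 0x2600010008000000000000000000000000000) := T_4 (nat_lit 142) (nat_lit 141) (nat_lit 2) (nat_lit 5) (nat_lit 8) L2563378 (by decide +kernel)
theorem L2563380 : W_4 (nat_lit 4) (nat_lit 0x200018001a0006000000000000000000000000000) (nat_lit 0x0) (nat_lit 0x2600010009800000000000000000000000000) := T_4 (nat_lit 108) (nat_lit 107) (nat_lit 3) (nat_lit 5) (nat_lit 6) L2563379 (by decide +kernel)
theorem L2563381 : W_4 (nat_lit 5) (nat_lit 0x200018001a0004000000000000000000000000000) (nat_lit 0x0) (nat_lit 0x260001000b800100000000000000000000000) := T_4 (nat_lit 109) (nat_lit 92) (nat_lit 4) (nat_lit 8) (nat_lit 9) L2563380 (by decide +kernel)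
theorem L2563382 : W_4 (nat_lit 2) (nat_lit 0x20001a001e000f000000010000000000000000000) (nat_lit 0x0) (nat_lit 0xc0004000000000000000000) := D_4 (nat_lit 91) (nat_lit 90) (nat_lit 74) (nat_lit 0) (nat_lit 9) (nat_lit 6) (nat_lit 7) (nat_lit 6) (nat_lit 4) (by decide +kernel)
theorem L2563383 : W_4 (nat_lit 3) (nat_lit 0x20001a001e000e000000010000000000000000000) (nat_lit 0x0) (nat_lit 0x18000c0004000000000000000000) := T_4 (nat_lit 108) (nat_lit 107) (nat_lit 3) (nat_lit 5) (nat_lit 6) L2563382 (by decide +kernel)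
theorem L2563384 : W_4 (nat_lit 4) (nat_lit 0x20001a001e000c000000010000000000000000000) (nat_lit 0x0) (nat_lit 0x38001c0004000000000000000000) := T_4 (nat_lit 109) (nat_lit 92) (nat_lit 7) (nat_lit 7) (nat_lit 5) L2563383 (by decide +kernel)
theorem L2563385 : W_4 (nat_lit 5) (nat_lit 0x20001a001e000c000000000000000000000000000) (nat_lit 0x0) (nat_lit 0x38003c0014000000000000000000) := T_4 (nat_lit 76) (nat_lit 93) (nat_lit 5) (nat_lit 8) (nat_lit 4) L2563384 (by decide +kernel)
theorem L2563386 : W_4 (nat_lit 6) (nat_lit 0x20001a001e0004000000000000000000000000000) (nat_lit 0x0) (nat_lit 0x1b8003c0014000000000000000000) := T_4 (nat_lit 111) (nat_lit 112) (nat_lit 2) (nat_lit 6) (nat_lit 7) L2563385 (by decide +kernel)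
theorem L2563387 : W_4 (nat_lit 7) (nat_lit 0x200018001e0004000000000000000000000000000) (nat_lit 0x0) (nat_lit 0x60000001b8003c0014000000000000000000) := T_4 (nat_lit 141) (nat_lit 142) (nat_lit 2) (nat_lit 5) (nat_lit 8) L2563386 (by decide +kernel)
theorem L2563388 : W_4 (nat_lit 2) (nat_lit 0x200058001e000d000180000000000000000000000) (nat_lit 0x0) (nat_lit 0x240010000000000000000000) := D_4 (nat_lit 93) (nat_lit 90) (nat_lit 76) (nat_lit 3) (nat_lit 5) (nat_lit 5) (nat_lit 5) (nat_lit 8) (nat_lit 4) (by decide +kernel)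
theorem L2563389 : W_4 (nat_lit 3) (nat_lit 0x200058001e0005000180000000000000000000000) (nat_lit 0x0) (nat_lit 0x18000240010000000000000000000) := T_4 (nat_lit 111) (nat_lit 112) (nat_lit 2) (nat_lit 6) (nat_lit 7) L2563388 (by decide +kernel)
theorem L2563390 : W_4 (nat_lit 4) (nat_lit 0x200058001e0005000080000000000000000000000) (nat_lit 0x0) (nat_lit 0x1a000340010000000000000000000) := T_4 (nat_lit 92) (nat_lit 109) (nat_lit 7) (nat_lit 7) (nat_lit 5) L2563389 (by decide +kernel)
theorem L2563391 : W_4 (nat_lit 5) (nat_lit 0x200058001e0005000000000000000000000000000) (nat_lit 0x0) (nat_lit 0x1a0003c0014000000000000000000) := T_4 (nat_lit 91) (nat_lit 74) (nat_lit 7) (nat_lit 6) (nat_lit 4) L2563390 (by decide +kernel)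
theorem L2563392 : W_4 (nat_lit 6) (nat_lit 0x200018001e0005000000000000000000000000000) (nat_lit 0x0) (nat_lit 0x600000001a0003c0014000000000000000000) := T_4 (nat_lit 146) (nat_lit 145) (nat_lit 3) (nat_lit 6) (nat_lit 7) L2563391 (by decide +kernel)
theorem L2563393 : W_4 (nat_lit 7) (nat_lit 0x200018001e0004000000000000000000000000000) (nat_lit 0x0) (nat_lit 0x600000001b8003c0014000000000000000000) := T_4 (nat_lit 108) (nat_lit 107) (nat_lit 0) (nat_lit 9) (nat_lit 7) L2563392 (by decide +kernel)
theorem L2563394 : W_4 (nat_lit 3) (nat_lit 0x20003c001e000c000000000000000000000000000) (nat_lit 0x0) (nat_lit 0x200010000c000000000002000000000000000000000000000) := T_4 (nat_lit 159) (nat_lit 158) (nat_lit 1) (nat_lit 9) (nat_lit 8) L1135552 (by decide +kernel)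
theorem L2563395 : W_4 (nat_lit 4) (nat_lit 0x20001c001e000c000000000000000000000000000) (nat_lit 0x0) (nat_lit 0x200010000c006000000002000000000000000000000000000) := T_4 (nat_lit 145) (nat_lit 146) (nat_lit 3) (nat_lit 6) (nat_lit 7) L2563394 (by decide +kernel)
theorem L2563396 : W_4 (nat_lit 5) (nat_lit 0x200018001e000c000000000000000000000000000) (nat_lit 0x0) (nat_lit 0x200010000c006600000002000000000000000000000000000) := T_4 (nat_lit 142) (nat_lit 141) (nat_lit 2) (nat_lit 5) (nat_lit 8) L2563395 (by decide +kernel)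
theorem L2563397 : W_4 (nat_lit 6) (nat_lit 0x200018001e0004000000000000000000000000000) (nat_lit 0x0) (nat_lit 0x200010000c00660000001a000000000000000000000000000) := T_4 (nat_lit 111) (nat_lit 112) (nat_lit 2) (nat_lit 6) (nat_lit 7) L2563396 (by decide +kernel)
theorem L2563398 : W_4 (nat_lit 2) (nat_lit 0x20003c001e000d000280000000000000000000000) (nat_lit 0x0) (nat_lit 0x140002000000000000000000) := D_4 (nat_lit 90) (nat_lit 92) (nat_lit 73) (nat_lit 3) (nat_lit 5) (nat_lit 5) (nat_lit 4) (nat_lit 6) (nat_lit 8) (by decide +kernel)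
theorem L2563399 : W_4 (nat_lit 3) (nat_lit 0x200038001e000d000280000000000000000000000) (nat_lit 0x0) (nat_lit 0x600000000000140002000000000000000000) := T_4 (nat_lit 142) (nat_lit 141) (nat_lit 2) (nat_lit 5) (nat_lit 8) L2563398 (by decide +kernel)
theorem L2563400 : W_4 (nat_lit 4) (nat_lit 0x200038001e000d000200000000000000000000000) (nat_lit 0x0) (nat_lit 0x6000000000001c0006000000000000000000) := T_4 (nat_lit 91) (nat_lit 74) (nat_lit 7) (nat_lit 6) (nat_lit 4) L2563399 (by decide +kernel)
theorem L2563401 : W_4 (nat_lit 5) (nat_lit 0x200038001e0005000200000000000000000000000) (nat_lit 0x0) (nat_lit 0x6000000180001c0006000000000000000000) := T_4 (nat_lit 111) (nat_lit 112) (nat_lit 2) (nat_lit 6) (nat_lit 7) L2563400 (by decide +kernel)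
theorem L2563402 : W_4 (nat_lit 6) (nat_lit 0x200038001e0004000200000000000000000000000) (nat_lit 0x0) (nat_lit 0x6000000198001c0006000000000000000000) := T_4 (nat_lit 108) (nat_lit 107) (nat_lit 0) (nat_lit 9) (nat_lit 7) L2563401 (by decide +kernel)
theorem L2563403 : W_4 (nat_lit 7) (nat_lit 0x200038001e0004000000000000000000000000000) (nat_lit 0x0) (nat_lit 0x6000000198003c0016000000000000000000) := T_4 (nat_lit 93) (nat_lit 76) (nat_lit 7) (nat_lit 8) (nat_lit 4) L2563402 (by decide +kernel)
theorem L2563404 : W_4 (nat_lit 8) (nat_lit 0x200018001e0004000000000000000000000000000) (nat_lit 0x0) (nat_lit 0x66000000198003c0016000000000000000000) := T_4 (nat_lit 145) (nat_lit 146) (nat_lit 3) (nat_lit 6) (nat_lit 7) L2563403 (by decide +kernel)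
theorem L2563405 : W_4 (nat_lit 9) (nat_lit 0x200018001a0004000000000000000000000000000) (nat_lit 0x0) (nat_lit 0x200010000c00660004001b8003c0016000000000000000000) := Q_4 (nat_lit 126) (C_4 L1130194 (C_4 L2563387 (C_4 L2563393 (C_4 L2563397 (C_4 L2563404 N_4))))) (by decide +kernel)
theorem L2563406 : W_4 (nat_lit 12) (nat_lit 0x20001800180004000000000000000000000000000) (nat_lit 0x0) (nat_lit 0xa000700038038c01e60007001b8003c0016000000000000000000) := Q_4 (nat_lit 125) (C_4 L2563366 (C_4 L1523100 (C_4 L2563372 (C_4 L2563377 (C_4 L2563381 (C_4 L2563405 N_4)))))) (by decide +kernel)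
theorem L2563407 : W_4 (nat_lit 4) (nat_lit 0x20001800180006000000000000000000000000000) (nat_lit 0x0) (nat_lit 0x2600600001800000000000000000000000000) := T_4 (nat_lit 107) (nat_lit 108) (nat_lit 3) (nat_lit 5) (nat_lit 6) L1119161 (by decide +kernel)
theorem L2563408 : W_4 (nat_lit 5) (nat_lit 0x20001800180004000000000000000000000000000) (nat_lit 0x0) (nat_lit 0x2600600003800100000000000000000000000) := T_4 (nat_lit 109) (nat_lit 92) (nat_lit 4) (nat_lit 8) (nat_lit 9) L2563407 (by decide +kernel)
theorem L2563409 : W_4 (nat_lit 13) (nat_lit 0x20001800080004000000000000000000000000000) (nat_lit 0x0) (nat_lit 0xa000700038038c01e60077001b8003c0016000000000000000000) := Q_4 (nat_lit 128) (C_4 L1481973 (C_4 L2563356 (C_4 L2563406 (C_4 L2563408 N_4)))) (by decide +kernel)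
theorem L2563410 : W_4 (nat_lit 2) (nat_lit 0x20001800180006000200010000800000000000000) (nat_lit 0x0) (nat_lit 0x20001000080000000000) := D_4 (nat_lit 60) (nat_lit 43) (nat_lit 77) (nat_lit 6) (nat_lit 8) (nat_lit 6) (nat_lit 6) (nat_lit 8) (nat_lit 7) (by decide +kernel)
theorem L2563411 : W_4 (nat_lit 3) (nat_lit 0x20001800180006000200010000000000000000000) (nat_lit 0x0) (nat_lit 0x8000000020001800080000000000) := T_4 (nat_lit 59) (nat_lit 111) (nat_lit 7) (nat_lit 8) (nat_lit 3) L2563410 (by decide +kernel)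
theorem L2563412 : W_4 (nat_lit 4) (nat_lit 0x20001800080006000200010000000000000000000) (nat_lit 0x0) (nat_lit 0x2000100008000000020001800080000000000) := T_4 (nat_lit 128) (nat_lit 145) (nat_lit 7) (nat_lit 8) (nat_lit 4) L2563411 (by decide +kernel)
theorem L2563413 : W_4 (nat_lit 5) (nat_lit 0x20001800080006000200000000000000000000000) (nat_lit 0x0) (nat_lit 0x2000140008000000030001800080000000000) := T_4 (nat_lit 76) (nat_lit 126) (nat_lit 5) (nat_lit 8) (nat_lit 4) L2563412 (by decide +kernel)
theorem L2563414 : W_4 (nat_lit 6) (nat_lit 0x20001800080006000000000000000000000000000) (nat_lit 0x0) (nat_lit 0x10002000140008000200030001800080000000000) := T_4 (nat_lit 93) (nat_lit 160) (nat_lit 5) (nat_lit 8) (nat_lit 5) L2563413 (by decide +kernel)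
theorem L2563415 : W_4 (nat_lit 7) (nat_lit 0x20001800080004000000000000000000000000000) (nat_lit 0x0) (nat_lit 0x1000200014000a000300030001800080000000000) := T_4 (nat_lit 109) (nat_lit 92) (nat_lit 4) (nat_lit 8) (nat_lit 9) L2563414 (by decide +kernel)
theorem L2563416 : W_4 (nat_lit 14) (nat_lit 0x20001000080004000000000000000000000000000) (nat_lit 0x0) (nat_lit 0xa000700038039e01ef01f7801b8003c0036001800080000000000) := Q_4 (nat_lit 143) (C_4 L2563355 (C_4 L1122715 (C_4 L2563409 (C_4 L2563415 N_4)))) (by decide +kernel)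
theorem L2563417 : W_4 (nat_lit 17) (nat_lit 0x20001000080000000000000000000000000000000) (nat_lit 0x0) (nat_lit 0xa00070013e039e03ef81f7807fe03fe0036001b00080000000000) := Q_4 (nat_lit 110) (C_4 L1134407 (C_4 L1129495 (C_4 L2563347 (C_4 L1048897 (C_4 L2563354 (C_4 L1129497 (C_4 L2563416 N_4))))))) (by decide +kernel)
theorem L2563418 : W_4 (nat_lit 18) (nat_lit 0x1000080000000000000000000000000000000) (nat_lit 0x0) (nat_lit 0x200013a01ff007fe03be03ef81f7807fe03fe0036001b00080000000000) := Q_4 (nat_lit 161) (C_4 L1283696 (C_4 L1673289 (C_4 L1283694 (C_4 L77 (C_4 L2563417 (C_4 L1283695 N_4)))))) (by decide +kernel)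
end Crest.Agent.Helper32.Snaky.R1_1
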