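import Crest.Agent.Helper32.Snaky.Gen.S2_0_p1
set_option autoImplicit false
set_option maxRecDepth 100000
set_option linter.all false
set_option Elab.async false
namespace Crest.Agent.Helper32.Snaky.S2_0
@[reducible] def W_2 (d M Bz Z : Nat) : Prop := Crest.Agent.Helper32.Snaky.Wins (nat_lit 17) d M Bz Z
theorem D_2 {d M Bz Z : Nat} (m t1 t2 o1 x1 y1 o2 x2 y2 : Nat) (h : Crest.Agent.Helper32.Snaky.chkDoubleC (nat_lit 17) d M Bz Z m t1 t2 o1 x1 y1 o2 x2 y2 = true) : W_2 d M Bz Z := Crest.Agent.Helper32.Snaky.doubleC m t1 t2 o1 x1 y1 o2 x2 y2 h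
theorem T_2 {d M Bz Z cd cM cBz cZ : Nat} (m t o x y : Nat) (child : W_2 cd cM cBz cZ) (h : Crest.Agent.Helper32.Snaky.chkThreatC (nat_lit 17) d M Bz Z cd cM cBz cZ m t o x y = true) : W_2 d M Bz Z := Crest.Agent.Helper32.Snaky.threatC m t o x y child h
theorem Q_2 {d M Bz Z : Nat} (m : Nat) {l : List Crest.Agent.Helper32.Snaky.Spec} (kids : Crest.Agent.Helper32.Snaky.AllWins (nat_lit 17) l) (h : Crest.Agent.Helper32.Snaky.chkQuiet d M Bz Z m l = true) : W_2 d M Bz Z := Crest.Agent.Helper32.Snaky.quiet m kids h
theorem C_2 {cd cM cBz cZ : Nat} {l : List Crest.Agent.Helper32.Snaky.Spec} (h : W_2 cd cM cBz cZ) (hl : Crest.Agent.Helper32.Snaky.AllWins (nat_lit 17) l) : Crest.Agent.Helper32.Snaky.AllWins (nat_lit 17) ((cd, cM, cBz, cZ) :: l) := Crest.Agent.Helper32.Snaky.AllWins.cons h hl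
theorem N_2 : Crest.Agent.Helper32.Snaky.AllWins (nat_lit 17) [] := Crest.Agent.Helper32.Snaky.AllWins.nil
theorem L3974563 : W_2 (nat_lit 8) (nat_lit 0x20001c000c0004000000000000000000000000000) (nat_lit 0x0) (nat_lit 0x10000e002300038002c00140000000000000000000000) := T_2 (nat_lit 92) (nat_lit 109) (nat_lit 7) (nat_lit 7) (nat_lit 5) L3974562 (by decide +kernel)
theorem L3974564 : W_2 (nat_lit 2) (nat_lit 0x20001c000e0004000000000000000000000000000) (nat_lit 0x0) (nat_lit 0x2000018000000000000000000000000000000) := D_2 (nat_lit 124) (nat_lit 145) (nat_lit 123) (nat_lit 3) (nat_lit 5) (nat_lit 7) (nat_lit 3) (nat_lit 4) (nat_lit 7) (by decide +kernel)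
theorem L3974565 : W_2 (nat_lit 2) (nat_lit 0x20001c001e8005000100000000000000000000000) (nat_lit 0x0) (nat_lit 0x8000c000000000000000000) := D_2 (nat_lit 91) (nat_lit 74) (nat_lit 75) (nat_lit 7) (nat_lit 6) (nat_lit 4) (nat_lit 6) (nat_lit 6) (nat_lit 8) (by decide +kernel)
theorem L3974566 : W_2 (nat_lit 3) (nat_lit 0x20001c001e8005000000000000000000000000000) (nat_lit 0x0) (nat_lit 0x200018000c000000000000000000) := T_2 (nat_lit 92) (nat_lit 109) (nat_lit 7) (nat_lit 7) (nat_lit 5) L3974565 (by decide +kernel)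
theorem L3974567 : W_2 (nat_lit 4) (nat_lit 0x20001c001e8004000000000000000000000000000) (nat_lit 0x0) (nat_lit 0x380018000c000000000000000000) := T_2 (nat_lit 108) (nat_lit 107) (nat_lit 0) (nat_lit 9) (nat_lit 7) L3974566 (by decide +kernel)
theorem L3974568 : W_2 (nat_lit 5) (nat_lit 0x20001c000e8004000000000000000000000000000) (nat_lit 0x0) (nat_lit 0x30000380018000c000000000000000000) := T_2 (nat_lit 128) (nat_lit 129) (nat_lit 1) (nat_lit 10) (nat_lit 7) L3974567 (by decide +kernel)
theorem L3974569 : W_2 (nat_lit 6) (nat_lit 0x20001c000e0004000000000000000000000000000) (nat_lit 0x0) (nat_lit 0x31800380018000c000000000000000000) := T_2 (nat_lit 123) (nat_lit 124) (nat_lit 3) (nat_lit 4) (nat_lit 7) L3974568 (by decide +kernel)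
theorem L3974570 : W_2 (nat_lit 2) (nat_lit 0x20001c001e0005000100000000000000000000000) (nat_lit 0x0) (nat_lit 0x8000c000000000000000000) := D_2 (nat_lit 91) (nat_lit 74) (nat_lit 75) (nat_lit 7) (nat_lit 6) (nat_lit 4) (nat_lit 6) (nat_lit 6) (nat_lit 8) (by decide +kernel)
theorem L3974571 : W_2 (nat_lit 3) (nat_lit 0x20001c001e0005000000000000000000000000000) (nat_lit 0x0) (nat_lit 0x200018000c000000000000000000) := T_2 (nat_lit 92) (nat_lit 109) (nat_lit 7) (nat_lit 7) (nat_lit 5) L3974570 (by decide +kernel)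
theorem L3974572 : W_2 (nat_lit 4) (nat_lit 0x20001c001e0004000000000000000000000000000) (nat_lit 0x0) (nat_lit 0x380018000c000000000000000000) := T_2 (nat_lit 108) (nat_lit 107) (nat_lit 0) (nat_lit 9) (nat_lit 7) L3974571 (by decide +kernel)
theorem L3974573 : W_2 (nat_lit 5) (nat_lit 0x20001c000e0004000000000000000000000000000) (nat_lit 0x0) (nat_lit 0x30000380018000c000000000000000000) := T_2 (nat_lit 128) (nat_lit 129) (nat_lit 1) (nat_lit 10) (nat_lit 7) L3974572 (by decide +kernel)
theorem L3974574 : W_2 (nat_lit 7) (nat_lit 0x20001c000c0004000000000000000000000000000) (nat_lit 0x0) (nat_lit 0x200033800380018000c000000000000000000) := Q_2 (nat_lit 125) (C_2 L3974564 (C_2 L3974569 (C_2 L3974573 N_2))) (by decide +kernel)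
theorem L3974575 : W_2 (nat_lit 9) (nat_lit 0x200018000c0004000000000000000000000000000) (nat_lit 0x0) (nat_lit 0x10000e002700338003c001c000c000000000000000000) := Q_2 (nat_lit 142) (C_2 L3974556 (C_2 L3974563 (C_2 L3974574 N_2))) (by decide +kernel)
theorem L3974576 : W_2 (nat_lit 2) (nat_lit 0x32001e000f0004800000000000000000000000000) (nat_lit 0x0) (nat_lit 0x100008000000000000000040000000000000000000000) := D_2 (nat_lit 159) (nat_lit 176) (nat_lit 90) (nat_lit 4) (nat_lit 6) (nat_lit 10) (nat_lit 7) (nat_lit 5) (nat_lit 5) (by decide +kernel)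
theorem L3974577 : W_2 (nat_lit 3) (nat_lit 0x32001e000f0004000000000000000000000000000) (nat_lit 0x0) (nat_lit 0x100008000000000000c00040000000000000000000000) := T_2 (nat_lit 107) (nat_lit 106) (nat_lit 0) (nat_lit 8) (nat_lit 7) L3974576 (by decide +kernel)
theorem L3974578 : W_2 (nat_lit 4) (nat_lit 0x32001e000d0004000000000000000000000000000) (nat_lit 0x0) (nat_lit 0x100008002000020000c00040000000000000000000000) := T_2 (nat_lit 125) (nat_lit 145) (nat_lit 3) (nat_lit 5) (nat_lit 7) L3974577 (by decide +kernel)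
theorem L3974579 : W_2 (nat_lit 5) (nat_lit 0x32001e000c0004000000000000000000000000000) (nat_lit 0x0) (nat_lit 0x100008002000038000c00040000000000000000000000) := T_2 (nat_lit 124) (nat_lit 123) (nat_lit 0) (nat_lit 8) (nat_lit 8) L3974578 (by decide +kernel)
theorem L3974580 : W_2 (nat_lit 6) (nat_lit 0x30001e000c0004000000000000000000000000000) (nat_lit 0x0) (nat_lit 0x10000e002000038000c00040000000000000000000000) := T_2 (nat_lit 157) (nat_lit 158) (nat_lit 1) (nat_lit 8) (nat_lit 8) L3974579 (by decide +kernel)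
theorem L3974581 : W_2 (nat_lit 7) (nat_lit 0x30001c000c0004000000000000000000000000000) (nat_lit 0x0) (nat_lit 0x10000e002300038000c00040000000000000000000000) := T_2 (nat_lit 141) (nat_lit 140) (nat_lit 3) (nat_lit 4) (nat_lit 8) L3974580 (by decide +kernel)
theorem L3974582 : W_2 (nat_lit 8) (nat_lit 0x20001c000c0004000000000000000000000000000) (nat_lit 0x0) (nat_lit 0x30001e002300038000c00040000000000000000000000) := T_2 (nat_lit 160) (nat_lit 177) (nat_lit 6) (nat_lit 7) (nat_lit 10) L3974581 (by decide +kernel)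
theorem L3974583 : W_2 (nat_lit 2) (nat_lit 0x20001c001e8005000000000000000000000000000) (nat_lit 0x0) (nat_lit 0x200010000000000000000080000000000000000000000) := D_2 (nat_lit 160) (nat_lit 177) (nat_lit 91) (nat_lit 6) (nat_lit 7) (nat_lit 10) (nat_lit 7) (nat_lit 6) (nat_lit 5) (by decide +kernel)
theorem L3974584 : W_2 (nat_lit 3) (nat_lit 0x20001c001e8004000000000000000000000000000) (nat_lit 0x0) (nat_lit 0x200010000000000001800080000000000000000000000) := T_2 (nat_lit 108) (nat_lit 107) (nat_lit 0) (nat_lit 9) (nat_lit 7) L3974583 (by decide +kernel)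
theorem L3974585 : W_2 (nat_lit 4) (nat_lit 0x20001c000e8004000000000000000000000000000) (nat_lit 0x0) (nat_lit 0x200010000000300001800080000000000000000000000) := T_2 (nat_lit 128) (nat_lit 129) (nat_lit 1) (nat_lit 10) (nat_lit 7) L3974584 (by decide +kernel)
theorem L3974586 : W_2 (nat_lit 5) (nat_lit 0x20001c000e0004000000000000000000000000000) (nat_lit 0x0) (nat_lit 0x200010000000318001800080000000000000000000000) := T_2 (nat_lit 123) (nat_lit 124) (nat_lit 3) (nat_lit 4) (nat_lit 7) L3974585 (by decide +kernel)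
theorem L3974587 : W_2 (nat_lit 2) (nat_lit 0x30001c000e0005000000000000000000000000000) (nat_lit 0x0) (nat_lit 0x300000800000000000000000000000000) := D_2 (nat_lit 128) (nat_lit 129) (nat_lit 107) (nat_lit 1) (nat_lit 10) (nat_lit 7) (nat_lit 0) (nat_lit 9) (nat_lit 7) (by decide +kernel)
theorem L3974588 : W_2 (nat_lit 3) (nat_lit 0x30001c000e0004000000000000000000000000000) (nat_lit 0x0) (nat_lit 0x300001800080000000000000000000000) := T_2 (nat_lit 108) (nat_lit 91) (nat_lit 7) (nat_lit 6) (nat_lit 5) L3974587 (by decide +kernel)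
theorem L3974589 : W_2 (nat_lit 4) (nat_lit 0x20001c000e0004000000000000000000000000000) (nat_lit 0x0) (nat_lit 0x200010000000300001800080000000000000000000000) := T_2 (nat_lit 160) (nat_lit 177) (nat_lit 6) (nat_lit 7) (nat_lit 10) L3974588 (by decide +kernel)
theorem L3974590 : W_2 (nat_lit 6) (nat_lit 0x20001c000c0004000000000000000000000000000) (nat_lit 0x0) (nat_lit 0x200010002000338001800080000000000000000000000) := Q_2 (nat_lit 125) (C_2 L3974564 (C_2 L3974586 (C_2 L3974589 N_2))) (by decide +kernel)
theorem L3974591 : W_2 (nat_lit 9) (nat_lit 0x200018000c0004000000000000000000000000000) (nat_lit 0x0) (nat_lit 0x30001e002700338001c000c0000000000000000000000) := Q_2 (nat_lit 142) (C_2 L3974556 (C_2 L3974582 (C_2 L3974590 N_2))) (by decide +kernel)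
theorem L3974592 : W_2 (nat_lit 2) (nat_lit 0x380018000c0006000000000000000000000000000) (nat_lit 0x0) (nat_lit 0x6002000000000000000000000000000000000000) := D_2 (nat_lit 158) (nat_lit 145) (nat_lit 157) (nat_lit 2) (nat_lit 5) (nat_lit 9) (nat_lit 2) (nat_lit 4) (nat_lit 9) (by decide +kernel)
theorem L3974593 : W_2 (nat_lit 3) (nat_lit 0x300018000c0006000000000000000000000000000) (nat_lit 0x0) (nat_lit 0x10000e002000000000000000000000000000000000000) := T_2 (nat_lit 159) (nat_lit 176) (nat_lit 5) (nat_lit 7) (nat_lit 6) L3974592 (by decide +kernel)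
theorem L3974594 : W_2 (nat_lit 4) (nat_lit 0x300018000c0004000000000000000000000000000) (nat_lit 0x0) (nat_lit 0x10000e002000000002000100000000000000000000000) := T_2 (nat_lit 109) (nat_lit 92) (nat_lit 7) (nat_lit 7) (nat_lit 5) L3974593 (by decide +kernel)
theorem L3974595 : W_2 (nat_lit 5) (nat_lit 0x200018000c0004000000000000000000000000000) (nat_lit 0x0) (nat_lit 0x30001e002000000002000100000000000000000000000) := T_2 (nat_lit 160) (nat_lit 177) (nat_lit 6) (nat_lit 7) (nat_lit 10) L3974594 (by decide +kernel)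
theorem L3974596 : W_2 (nat_lit 10) (nat_lit 0x20001800080004000000000000000000000000000) (nat_lit 0x0) (nat_lit 0x30001e002700378003c001c000c000000000000000000) := Q_2 (nat_lit 126) (C_2 L18069 (C_2 L3974555 (C_2 L3974575 (C_2 L3974591 (C_2 L3974595 N_2))))) (by decide +kernel)
theorem L3975261 : W_2 (nat_lit 2) (nat_lit 0x120001800080007c00000000000000000000000000) (nat_lit 0x0) (nat_lit 0x1c000000000000000000000000000000) := D_2 (nat_lit 123) (nat_lit 122) (nat_lit 124) (nat_lit 1) (nat_lit 7) (nat_lit 6) (nat_lit 1) (nat_lit 8) (nat_lit 6) (by decide +kernel)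
theorem L3975262 : W_2 (nat_lit 3) (nat_lit 0x120001800080007800000000000000000000000000) (nat_lit 0x0) (nat_lit 0x5c000400000000000000000000000000) := T_2 (nat_lit 106) (nat_lit 126) (nat_lit 3) (nat_lit 4) (nat_lit 6) L3975261 (by decide +kernel)
theorem L3975263 : W_2 (nat_lit 4) (nat_lit 0x120001800080007000000000000000000000000000) (nat_lit 0x0) (nat_lit 0x15c000c00000000000000000000000000) := T_2 (nat_lit 107) (nat_lit 128) (nat_lit 3) (nat_lit 5) (nat_lit 6) L3975262 (by decide +kernel)
theorem L3975293 : W_2 (nat_lit 2) (nat_lit 0x120001800088007c00000000000000000000000000) (nat_lit 0x0) (nat_lit 0x70000000000000000000000) := D_2 (nat_lit 89) (nat_lit 88) (nat_lit 90) (nat_lit 0) (nat_lit 7) (nat_lit 6) (nat_lit 0) (nat_lit 8) (nat_lit 6) (by decide +kernel)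
theorem L3975294 : W_2 (nat_lit 3) (nat_lit 0x120001800088007800000000000000000000000000) (nat_lit 0x0) (nat_lit 0x4000400070000000000000000000000) := T_2 (nat_lit 106) (nat_lit 122) (nat_lit 1) (nat_lit 7) (nat_lit 6) L3975293 (by decide +kernel)
theorem L3975295 : W_2 (nat_lit 4) (nat_lit 0x120001800080007800000000000000000000000000) (nat_lit 0x0) (nat_lit 0x1c000400070000000000000000000000) := T_2 (nat_lit 123) (nat_lit 124) (nat_lit 1) (nat_lit 8) (nat_lit 6) L3975294 (by decide +kernel)
theorem L3975296 : W_2 (nat_lit 5) (nat_lit 0x120001800080007000000000000000000000000000) (nat_lit 0x0) (nat_lit 0x11c000c00070000000000000000000000) := T_2 (nat_lit 107) (nat_lit 128) (nat_lit 3) (nat_lit 5) (nat_lit 6) L3975295 (by decide +kernel)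
theorem L3975297 : W_2 (nat_lit 2) (nat_lit 0x1380018000c0007400000000000000000000000000) (nat_lit 0x0) (nat_lit 0x6002000000000000000000000000000000000000) := D_2 (nat_lit 158) (nat_lit 145) (nat_lit 157) (nat_lit 2) (nat_lit 5) (nat_lit 9) (nat_lit 2) (nat_lit 4) (nat_lit 9) (by decide +kernel)
theorem L3975298 : W_2 (nat_lit 3) (nat_lit 0x1300018000c0007400000000000000000000000000) (nat_lit 0x0) (nat_lit 0x10000e002000000000000000000000000000000000000) := T_2 (nat_lit 159) (nat_lit 176) (nat_lit 5) (nat_lit 7) (nat_lit 6) L3975297 (by decide +kernel)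
theorem L3975299 : W_2 (nat_lit 4) (nat_lit 0x1300018000c0007000000000000000000000000000) (nat_lit 0x0) (nat_lit 0x10000e002000000000c00000000000000000000000000) := T_2 (nat_lit 106) (nat_lit 107) (nat_lit 3) (nat_lit 4) (nat_lit 6) L3975298 (by decide +kernel)
theorem L3975300 : W_2 (nat_lit 5) (nat_lit 0x130001800080007000000000000000000000000000) (nat_lit 0x0) (nat_lit 0x10000e002000040000c00080000000000000000000000) := T_2 (nat_lit 126) (nat_lit 91) (nat_lit 4) (nat_lit 7) (nat_lit 9) L3975299 (by decide +kernel)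
theorem L3975301 : W_2 (nat_lit 6) (nat_lit 0x120001800080007000000000000000000000000000) (nat_lit 0x0) (nat_lit 0x30001e002000040000c00080000000000000000000000) := T_2 (nat_lit 160) (nat_lit 177) (nat_lit 5) (nat_lit 8) (nat_lit 6) L3975300 (by decide +kernel)
theorem L3975302 : W_2 (nat_lit 2) (nat_lit 0x1380018001c0007000000000000000000000000000) (nat_lit 0x0) (nat_lit 0x6002000000000000000000000000000000000000) := D_2 (nat_lit 158) (nat_lit 145) (nat_lit 157) (nat_lit 2) (nat_lit 5) (nat_lit 9) (nat_lit 2) (nat_lit 4) (nat_lit 9) (by decide +kernel)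
theorem L3975303 : W_2 (nat_lit 3) (nat_lit 0x1300018001c0007000000000000000000000000000) (nat_lit 0x0) (nat_lit 0x10000e002000000000000000000000000000000000000) := T_2 (nat_lit 159) (nat_lit 176) (nat_lit 5) (nat_lit 7) (nat_lit 6) L3975302 (by decide +kernel)
theorem L3975304 : W_2 (nat_lit 4) (nat_lit 0x1300018000c0007000000000000000000000000000) (nat_lit 0x0) (nat_lit 0x10000e002000300000000000000000000000000000000) := T_2 (nat_lit 128) (nat_lit 129) (nat_lit 0) (nat_lit 10) (nat_lit 7) L3975303 (by decide +kernel)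
theorem L3975305 : W_2 (nat_lit 5) (nat_lit 0x130001800080007000000000000000000000000000) (nat_lit 0x0) (nat_lit 0x10000e002000340000000080000000000000000000000) := T_2 (nat_lit 126) (nat_lit 91) (nat_lit 4) (nat_lit 7) (nat_lit 9) L3975304 (by decide +kernel)
theorem L3975306 : W_2 (nat_lit 6) (nat_lit 0x120001800080007000000000000000000000000000) (nat_lit 0x0) (nat_lit 0x30001e002000340000000080000000000000000000000) := T_2 (nat_lit 160) (nat_lit 177) (nat_lit 5) (nat_lit 8) (nat_lit 6) L3975305 (by decide +kernel)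
theorem L3975307 : W_2 (nat_lit 7) (nat_lit 0x120001800080006000000000000000000000000000) (nat_lit 0x0) (nat_lit 0x30001e00200035c001c000f0000000000000000000000) := Q_2 (nat_lit 108) (C_2 L3975263 (C_2 L3975296 (C_2 L3975301 (C_2 L3975306 N_2)))) (by decide +kernel)
theorem L3975308 : W_2 (nat_lit 8) (nat_lit 0x120001800080004000000000000000000000000000) (nat_lit 0x0) (nat_lit 0x30001e00200035c003c001f0000000000000000000000) := T_2 (nat_lit 109) (nat_lit 92) (nat_lit 4) (nat_lit 8) (nat_lit 9) L3975307 (by decide +kernel)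
theorem L3975309 : W_2 (nat_lit 9) (nat_lit 0x20001800080004000000000000000000000000000) (nat_lit 0x0) (nat_lit 0xb001de00200035c003c001f0000000000000000000000) := Q_2 (nat_lit 164) (C_2 L61543 (C_2 L3975308 N_2)) (by decide +kernel)
theorem L3975310 : W_2 (nat_lit 11) (nat_lit 0x20001000080004000000000000000000000000000) (nat_lit 0x0) (nat_lit 0xb001de002f0037c003c001f000c000000000000000000) := Q_2 (nat_lit 143) (C_2 L8927 (C_2 L8905 (C_2 L3974596 (C_2 L3975309 N_2)))) (by decide +kernel)
theorem L3975311 : W_2 (nat_lit 12) (nat_lit 0x1000080004000000000000000000000000000) (nat_lit 0x0) (nat_lit 0x14000f001fe002f0037c003c001f000c000000000000000000) := Q_2 (nat_lit 161) (C_2 L3974257 (C_2 L18622 (C_2 L3974553 (C_2 L3975310 N_2)))) (by decide +kernel)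
theorem L3975312 : W_2 (nat_lit 5) (nat_lit 0x1000080004000000000000000000000000000) (nat_lit 0x0) (nat_lit 0x14000e00070002800040002000300000000000000000000000) := Q_2 (nat_lit 161) (C_2 L3974553 (C_2 L3974257 (C_2 L18622 (C_2 L18166 N_2)))) (by decide +kernel)
theorem L3975313 : W_2 (nat_lit 13) (nat_lit 0x1000080000000000000000000000000000000) (nat_lit 0x0) (nat_lit 0x14000f001fe002f0077c007c007f003c001c00020000000000) := Q_2 (nat_lit 110) (C_2 L18156 (C_2 L20654 (C_2 L18147 (C_2 L3974548 (C_2 L3974550 (C_2 L3975311 (C_2 L3975312 N_2))))))) (by decide +kernel)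
theorem L3975314 : W_2 (nat_lit 2) (nat_lit 0x200010000d0004000000000000000000000000000) (nat_lit 0x0) (nat_lit 0x20008000400000000000000000000000) := D_2 (nat_lit 111) (nat_lit 94) (nat_lit 125) (nat_lit 6) (nat_lit 8) (nat_lit 9) (nat_lit 2) (nat_lit 5) (nat_lit 7) (by decide +kernel)
theorem L3975315 : W_2 (nat_lit 2) (nat_lit 0x200010000f8004000000000000000000000000000) (nat_lit 0x0) (nat_lit 0x380000000000000000000000000000000000) := D_2 (nat_lit 140) (nat_lit 139) (nat_lit 141) (nat_lit 1) (nat_lit 7) (nat_lit 7) (nat_lit 1) (nat_lit 8) (nat_lit 7) (by decide +kernel)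
theorem L3975316 : W_2 (nat_lit 3) (nat_lit 0x200010000f0004000000000000000000000000000) (nat_lit 0x0) (nat_lit 0xb80008000000000000000000000000000000) := T_2 (nat_lit 123) (nat_lit 143) (nat_lit 3) (nat_lit 4) (nat_lit 7) L3975315 (by decide +kernel)
theorem L3975317 : W_2 (nat_lit 4) (nat_lit 0x200010000d0004000000000000000000000000000) (nat_lit 0x0) (nat_lit 0x2b80028000000000000000000000000000000) := T_2 (nat_lit 125) (nat_lit 145) (nat_lit 3) (nat_lit 5) (nat_lit 7) L3975316 (by decide +kernel)
theorem L3975444 : W_2 (nat_lit 2) (nat_lit 0x4003c001a000d80048004c0000000000000000000000) (nat_lit 0x0) (nat_lit 0x400020001000000000000000000) := D_2 (nat_lit 89) (nat_lit 106) (nat_lit 72) (nat_lit 4) (nat_lit 5) (nat_lit 9) (nat_lit 4) (nat_lit 5) (nat_lit 8) (by decide +kernel)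
theorem L3975445 : W_2 (nat_lit 3) (nat_lit 0x4003c001a000d8004800480000000000000000000000) (nat_lit 0x0) (nat_lit 0x400060005000000000000000000) := T_2 (nat_lit 90) (nat_lit 74) (nat_lit 6) (nat_lit 5) (nat_lit 8) L3975444 (by decide +kernel)
theorem L3975446 : W_2 (nat_lit 4) (nat_lit 0x4003c001a000d8004800400000000000000000000000) (nat_lit 0x0) (nat_lit 0x14000e0005000000000000000000) := T_2 (nat_lit 91) (nat_lit 108) (nat_lit 6) (nat_lit 5) (nat_lit 9) L3975445 (by decide +kernel)
theorem L3975447 : W_2 (nat_lit 5) (nat_lit 0x4003c001a000d8004000400000000000000000000000) (nat_lit 0x0) (nat_lit 0x100000000000000001c000e0005000000000000000000) := T_2 (nat_lit 107) (nat_lit 176) (nat_lit 7) (nat_lit 5) (nat_lit 6) L3975446 (by decide +kernel)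
theorem L3975448 : W_2 (nat_lit 6) (nat_lit 0x4003c001a000d0004000400000000000000000000000) (nat_lit 0x0) (nat_lit 0x100000000400008001c000e0005000000000000000000) := T_2 (nat_lit 123) (nat_lit 142) (nat_lit 0) (nat_lit 8) (nat_lit 8) L3975447 (by decide +kernel)
theorem L3975449 : W_2 (nat_lit 7) (nat_lit 0x4003c0018000d0004000400000000000000000000000) (nat_lit 0x0) (nat_lit 0x100000000700008001c000e0005000000000000000000) := T_2 (nat_lit 141) (nat_lit 140) (nat_lit 0) (nat_lit 8) (nat_lit 9) L3975448 (by decide +kernel)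
theorem L3975450 : W_2 (nat_lit 8) (nat_lit 0x3c0018000d0004000400000000000000000000000) (nat_lit 0x0) (nat_lit 0x1c0000000700008001c000e0005000000000000000000) := T_2 (nat_lit 174) (nat_lit 175) (nat_lit 1) (nat_lit 8) (nat_lit 9) L3975449 (by decide +kernel)
theorem L3975451 : W_2 (nat_lit 9) (nat_lit 0x3c0010000d0004000400000000000000000000000) (nat_lit 0x0) (nat_lit 0x1c0002000f00008001c000e0005000000000000000000) := T_2 (nat_lit 143) (nat_lit 157) (nat_lit 2) (nat_lit 4) (nat_lit 9) L3975450 (by decide +kernel)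
theorem L3975473 : W_2 (nat_lit 2) (nat_lit 0x8007c0010000d0004000000000000000000000000000) (nat_lit 0x0) (nat_lit 0x700000000000000000000000000000000000) := D_2 (nat_lit 141) (nat_lit 140) (nat_lit 142) (nat_lit 0) (nat_lit 8) (nat_lit 9) (nat_lit 0) (nat_lit 9) (nat_lit 9) (by decide +kernel)
theorem L3975474 : W_2 (nat_lit 3) (nat_lit 0x800780010000d0004000000000000000000000000000) (nat_lit 0x0) (nat_lit 0x40004000700000000000000000000000000000000000) := T_2 (nat_lit 158) (nat_lit 174) (nat_lit 1) (nat_lit 8) (nat_lit 9) L3975473 (by decide +kernel)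
theorem L3975475 : W_2 (nat_lit 4) (nat_lit 0x780010000d0004000000000000000000000000000) (nat_lit 0x0) (nat_lit 0x1c0004000700000000000000000000000000000000000) := T_2 (nat_lit 175) (nat_lit 176) (nat_lit 1) (nat_lit 9) (nat_lit 9) L3975474 (by decide +kernel)
theorem L3975476 : W_2 (nat_lit 5) (nat_lit 0x380010000d0004000000000000000000000000000) (nat_lit 0x0) (nat_lit 0x9c0044000700000000000000000000000000000000000) := T_2 (nat_lit 162) (nat_lit 179) (nat_lit 7) (nat_lit 8) (nat_lit 6) L3975475 (by decide +kernel)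
theorem L3975511 : W_2 (nat_lit 10) (nat_lit 0x3c0010000d0004000000000000000000000000000) (nat_lit 0x0) (nat_lit 0x1c0002000f00008009c004e0005000000000000000000) := T_2 (nat_lit 94) (nat_lit 111) (nat_lit 6) (nat_lit 8) (nat_lit 9) L3975451 (by decide +kernel)
theorem L3975512 : W_2 (nat_lit 11) (nat_lit 0x380010000d0004000000000000000000000000000) (nat_lit 0x0) (nat_lit 0x1c0006002f00008009c004e0005000000000000000000) := T_2 (nat_lit 158) (nat_lit 145) (nat_lit 2) (nat_lit 5) (nat_lit 9) L3975511 (by decide +kernel)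
theorem L3975513 : W_2 (nat_lit 2) (nat_lit 0x800780010000d0004000400000000000000000000000) (nat_lit 0x0) (nat_lit 0x40004002000000000000000000000000000000000000) := D_2 (nat_lit 158) (nat_lit 174) (nat_lit 145) (nat_lit 1) (nat_lit 8) (nat_lit 9) (nat_lit 2) (nat_lit 5) (nat_lit 9) (by decide +kernel)
theorem L3975514 : W_2 (nat_lit 3) (nat_lit 0x780010000d0004000400000000000000000000000) (nat_lit 0x0) (nat_lit 0x1c0004002000000000000000000000000000000000000) := T_2 (nat_lit 175) (nat_lit 176) (nat_lit 1) (nat_lit 9) (nat_lit 9) L3975513 (by decide +kernel)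
theorem L3975515 : W_2 (nat_lit 4) (nat_lit 0x380010000d0004000400000000000000000000000) (nat_lit 0x0) (nat_lit 0x9c0044002000000000000000000000000000000000000) := T_2 (nat_lit 162) (nat_lit 179) (nat_lit 7) (nat_lit 8) (nat_lit 6) L3975514 (by decide +kernel)
theorem L3975516 : W_2 (nat_lit 5) (nat_lit 0x380010000d0004000000000000000000000000000) (nat_lit 0x0) (nat_lit 0x9c0044002000000008000400000000000000000000000) := T_2 (nat_lit 94) (nat_lit 111) (nat_lit 6) (nat_lit 8) (nat_lit 9) L3975515 (by decide +kernel)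
theorem L3975517 : W_2 (nat_lit 2) (nat_lit 0x1f80034000d0004000400000000000000000000000) (nat_lit 0x0) (nat_lit 0x7000000000000000000000000000000000000000000000) := D_2 (nat_lit 181) (nat_lit 180) (nat_lit 182) (nat_lit 3) (nat_lit 7) (nat_lit 9) (nat_lit 3) (nat_lit 8) (nat_lit 9) (by decide +kernel)
theorem L3975518 : W_2 (nat_lit 3) (nat_lit 0xf80034000d0004000400000000000000000000000) (nat_lit 0x0) (nat_lit 0x7000300000000000000000000000000000000000000000) := T_2 (nat_lit 164) (nat_lit 165) (nat_lit 0) (nat_lit 12) (nat_lit 9) L3975517 (by decide +kernel)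
theorem L3975519 : W_2 (nat_lit 4) (nat_lit 0x780034000d0004000400000000000000000000000) (nat_lit 0x0) (nat_lit 0x7000380000800000000000000000000000000000000000) := T_2 (nat_lit 163) (nat_lit 143) (nat_lit 3) (nat_lit 6) (nat_lit 8) L3975518 (by decide +kernel)
theorem L3975520 : W_2 (nat_lit 5) (nat_lit 0x780030000d0004000400000000000000000000000) (nat_lit 0x0) (nat_lit 0x7000380000e00000000000000000000000000000000000) := T_2 (nat_lit 142) (nat_lit 141) (nat_lit 0) (nat_lit 9) (nat_lit 9) L3975519 (by decide +kernel)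
theorem L3975521 : W_2 (nat_lit 6) (nat_lit 0x380030000d0004000400000000000000000000000) (nat_lit 0x0) (nat_lit 0x78003c0000e00000000000000000000000000000000000) := T_2 (nat_lit 162) (nat_lit 179) (nat_lit 7) (nat_lit 8) (nat_lit 6) L3975520 (by decide +kernel)
theorem L3975522 : W_2 (nat_lit 7) (nat_lit 0x380030000d0004000000000000000000000000000) (nat_lit 0x0) (nat_lit 0x78003c0000e00000008000400000000000000000000000) := T_2 (nat_lit 94) (nat_lit 111) (nat_lit 6) (nat_lit 8) (nat_lit 9) L3975521 (by decide +kernel)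
theorem L3975523 : W_2 (nat_lit 8) (nat_lit 0x380010000d0004000000000000000000000000000) (nat_lit 0x0) (nat_lit 0x78003c4002e00000008000400000000000000000000000) := T_2 (nat_lit 145) (nat_lit 158) (nat_lit 2) (nat_lit 5) (nat_lit 9) L3975522 (by decide +kernel)
theorem L3975524 : W_2 (nat_lit 2) (nat_lit 0x20801f80114000d0004000400000000000000000000000) (nat_lit 0x0) (nat_lit 0x200022000000000000000000000000000000000000) := D_2 (nat_lit 165) (nat_lit 145) (nat_lit 149) (nat_lit 0) (nat_lit 12) (nat_lit 9) (nat_lit 2) (nat_lit 9) (nat_lit 9) (by decide +kernel)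
theorem L3975525 : W_2 (nat_lit 3) (nat_lit 0x20801f80014000d0004000400000000000000000000000) (nat_lit 0x0) (nat_lit 0x20003a000000000000000000000000000000000000) := T_2 (nat_lit 148) (nat_lit 147) (nat_lit 2) (nat_lit 8) (nat_lit 9) L3975524 (by decide +kernel)
theorem L3975526 : W_2 (nat_lit 4) (nat_lit 0x20800f80014000d0004000400000000000000000000000) (nat_lit 0x0) (nat_lit 0x400030003a000000000000000000000000000000000000) := T_2 (nat_lit 164) (nat_lit 182) (nat_lit 3) (nat_lit 8) (nat_lit 9) L3975525 (by decide +kernel)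
theorem L3975527 : W_2 (nat_lit 5) (nat_lit 0x800f80014000d0004000400000000000000000000000) (nat_lit 0x0) (nat_lit 0x700030003a000000000000000000000000000000000000) := T_2 (nat_lit 181) (nat_lit 180) (nat_lit 3) (nat_lit 7) (nat_lit 9) L3975526 (by decide +kernel)
theorem L3975528 : W_2 (nat_lit 6) (nat_lit 0x800780014000d0004000400000000000000000000000) (nat_lit 0x0) (nat_lit 0x700038003a800000000000000000000000000000000000) := T_2 (nat_lit 163) (nat_lit 143) (nat_lit 0) (nat_lit 10) (nat_lit 9) L3975527 (by decide +kernel)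
theorem L3975529 : W_2 (nat_lit 7) (nat_lit 0x800780014000d0004000000000000000000000000000) (nat_lit 0x0) (nat_lit 0x700038003a800000008000400000000000000000000000) := T_2 (nat_lit 94) (nat_lit 111) (nat_lit 6) (nat_lit 8) (nat_lit 9) L3975528 (by decide +kernel)
theorem L3975530 : W_2 (nat_lit 8) (nat_lit 0x800780010000d0004000000000000000000000000000) (nat_lit 0x0) (nat_lit 0x700038003ae00000008000400000000000000000000000) := T_2 (nat_lit 142) (nat_lit 141) (nat_lit 0) (nat_lit 9) (nat_lit 9) L3975529 (by decide +kernel)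
theorem L3975531 : W_2 (nat_lit 9) (nat_lit 0x780010000d0004000000000000000000000000000) (nat_lit 0x0) (nat_lit 0x718038003ae00000008000400000000000000000000000) := T_2 (nat_lit 175) (nat_lit 176) (nat_lit 1) (nat_lit 9) (nat_lit 9) L3975530 (by decide +kernel)
theorem L3975532 : W_2 (nat_lit 10) (nat_lit 0x380010000d0004000000000000000000000000000) (nat_lit 0x0) (nat_lit 0x79803c003ae00000008000400000000000000000000000) := T_2 (nat_lit 162) (nat_lit 179) (nat_lit 7) (nat_lit 8) (nat_lit 6) L3975531 (by decide +kernel)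
theorem L3975533 : W_2 (nat_lit 12) (nat_lit 0x300010000d0004000000000000000000000000000) (nat_lit 0x0) (nat_lit 0x79c03ce03af00008009c004e0005000000000000000000) := Q_2 (nat_lit 159) (C_2 L3975476 (C_2 L3975512 (C_2 L3975516 (C_2 L3975523 (C_2 L3975532 N_2))))) (by decide +kernel)
theorem L3975534 : W_2 (nat_lit 13) (nat_lit 0x200010000d0004000000000000000000000000000) (nat_lit 0x0) (nat_lit 0x7bc03de03af00008009c004e0005000000000000000000) := T_2 (nat_lit 160) (nat_lit 177) (nat_lit 5) (nat_lit 8) (nat_lit 6) L3975533 (by decide +kernel)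
theorem L3975535 : W_2 (nat_lit 14) (nat_lit 0x200010000c0004000000000000000000000000000) (nat_lit 0x0) (nat_lit 0x7bc03de03af80038009c004e0005000000000000000000) := Q_2 (nat_lit 124) (C_2 L18740 (C_2 L3975314 (C_2 L3975317 (C_2 L3975534 N_2)))) (by decide +kernel)
theorem L3975536 : W_2 (nat_lit 4) (nat_lit 0x200010000c0004000000000000000000000000000) (nat_lit 0x0) (nat_lit 0x2003a000500000000000000000000000) := T_2 (nat_lit 111) (nat_lit 94) (nat_lit 6) (nat_lit 8) (nat_lit 9) L18749 (by decide +kernel)
theorem L3975537 : W_2 (nat_lit 2) (nat_lit 0x60001c000c0004000100000000000000000000000) (nat_lit 0x0) (nat_lit 0x180002000000000000000000000000000000000000) := D_2 (nat_lit 163) (nat_lit 164) (nat_lit 145) (nat_lit 0) (nat_lit 11) (nat_lit 9) (nat_lit 3) (nat_lit 6) (nat_lit 8) (by decide +kernel)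
theorem L3975538 : W_2 (nat_lit 3) (nat_lit 0x600018000c0004000100000000000000000000000) (nat_lit 0x0) (nat_lit 0x180002600000000000000000000000000000000000) := T_2 (nat_lit 142) (nat_lit 141) (nat_lit 3) (nat_lit 5) (nat_lit 8) L3975537 (by decide +kernel)
theorem L3975539 : W_2 (nat_lit 4) (nat_lit 0x200018000c0004000100000000000000000000000) (nat_lit 0x0) (nat_lit 0x8001c0002600000000000000000000000000000000000) := T_2 (nat_lit 162) (nat_lit 179) (nat_lit 7) (nat_lit 8) (nat_lit 6) L3975538 (by decide +kernel)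
theorem L3975540 : W_2 (nat_lit 5) (nat_lit 0x200018000c0004000000000000000000000000000) (nat_lit 0x0) (nat_lit 0x8001c0002600000002000100000000000000000000000) := T_2 (nat_lit 92) (nat_lit 109) (nat_lit 7) (nat_lit 7) (nat_lit 5) L3975539 (by decide +kernel)
theorem L3975541 : W_2 (nat_lit 2) (nat_lit 0x10000f8001a000c0006000080000000000000000000000) (nat_lit 0x0) (nat_lit 0x6000100000000000000000000000000000000000) := D_2 (nat_lit 158) (nat_lit 157) (nat_lit 140) (nat_lit 2) (nat_lit 4) (nat_lit 9) (nat_lit 0) (nat_lit 8) (nat_lit 9) (by decide +kernel)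
theorem L3975542 : W_2 (nat_lit 3) (nat_lit 0x10000f0001a000c0006000080000000000000000000000) (nat_lit 0x0) (nat_lit 0x10000e000100000000000000000000000000000000000) := T_2 (nat_lit 159) (nat_lit 176) (nat_lit 5) (nat_lit 7) (nat_lit 6) L3975541 (by decide +kernel)
theorem L3975543 : W_2 (nat_lit 4) (nat_lit 0x10000f0001a000c0006000000000000000000000000000) (nat_lit 0x0) (nat_lit 0x10000e000100000001000080000000000000000000000) := T_2 (nat_lit 91) (nat_lit 108) (nat_lit 4) (nat_lit 7) (nat_lit 9) L3975542 (by decide +kernel)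
theorem L3975544 : W_2 (nat_lit 5) (nat_lit 0x10000f0001a000c0004000000000000000000000000000) (nat_lit 0x0) (nat_lit 0x10000e000100000003000180000000000000000000000) := T_2 (nat_lit 109) (nat_lit 92) (nat_lit 7) (nat_lit 7) (nat_lit 5) L3975543 (by decide +kernel)
theorem L3975545 : W_2 (nat_lit 6) (nat_lit 0xf0001a000c0004000000000000000000000000000) (nat_lit 0x0) (nat_lit 0x310000e000100000003000180000000000000000000000) := T_2 (nat_lit 180) (nat_lit 181) (nat_lit 3) (nat_lit 7) (nat_lit 9) L3975544 (by decide +kernel)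
theorem L3975546 : W_2 (nat_lit 7) (nat_lit 0xe0001a000c0004000000000000000000000000000) (nat_lit 0x0) (nat_lit 0x330001e000100000003000180000000000000000000000) := T_2 (nat_lit 160) (nat_lit 177) (nat_lit 6) (nat_lit 7) (nat_lit 10) L3975545 (by decide +kernel)
theorem L3975547 : W_2 (nat_lit 8) (nat_lit 0x60001a000c0004000000000000000000000000000) (nat_lit 0x0) (nat_lit 0x330019e000100000003000180000000000000000000000) := T_2 (nat_lit 163) (nat_lit 164) (nat_lit 0) (nat_lit 11) (nat_lit 9) L3975546 (by decide +kernel)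
theorem L3975548 : W_2 (nat_lit 9) (nat_lit 0x600018000c0004000000000000000000000000000) (nat_lit 0x0) (nat_lit 0x330019e000700000003000180000000000000000000000) := T_2 (nat_lit 141) (nat_lit 142) (nat_lit 3) (nat_lit 5) (nat_lit 8) L3975547 (by decide +kernel)
theorem L3975549 : W_2 (nat_lit 10) (nat_lit 0x200018000c0004000000000000000000000000000) (nat_lit 0x0) (nat_lit 0x3b001de000700000003000180000000000000000000000) := T_2 (nat_lit 162) (nat_lit 179) (nat_lit 7) (nat_lit 8) (nat_lit 6) L3975548 (by decide +kernel)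
theorem L3975550 : W_2 (nat_lit 2) (nat_lit 0x60001c000c0004000000000000000000000000000) (nat_lit 0x0) (nat_lit 0x180002000000000000000000000000000000000000) := D_2 (nat_lit 163) (nat_lit 164) (nat_lit 145) (nat_lit 0) (nat_lit 11) (nat_lit 9) (nat_lit 3) (nat_lit 6) (nat_lit 8) (by decide +kernel)
theorem L3975551 : W_2 (nat_lit 3) (nat_lit 0x600018000c0004000000000000000000000000000) (nat_lit 0x0) (nat_lit 0x180002600000000000000000000000000000000000) := T_2 (nat_lit 142) (nat_lit 141) (nat_lit 3) (nat_lit 5) (nat_lit 8) L3975550 (by decide +kernel)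
theorem L3975552 : W_2 (nat_lit 4) (nat_lit 0x200018000c0004000000000000000000000000000) (nat_lit 0x0) (nat_lit 0x8001c0002600000000000000000000000000000000000) := T_2 (nat_lit 162) (nat_lit 179) (nat_lit 7) (nat_lit 8) (nat_lit 6) L3975551 (by decide +kernel)
theorem L3975553 : W_2 (nat_lit 11) (nat_lit 0x200010000c0004000000000000000000000000000) (nat_lit 0x0) (nat_lit 0x3b001de002f00000003000180000000000000000000000) := Q_2 (nat_lit 143) (C_2 L3975540 (C_2 L3975549 (C_2 L3974595 (C_2 L3975552 N_2)))) (by decide +kernel)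
theorem L3975554 : W_2 (nat_lit 15) (nat_lit 0x20001000080004000000000000000000000000000) (nat_lit 0x0) (nat_lit 0x7bc03de03af8007803bc005e0005000000000000000000) := Q_2 (nat_lit 126) (C_2 L3975535 (C_2 L3975536 (C_2 L3975553 N_2))) (by decide +kernel)
theorem L3975555 : W_2 (nat_lit 16) (nat_lit 0x1000080004000000000000000000000000000) (nat_lit 0x0) (nat_lit 0x14007fc03fe03af8007803bc005e0005000000000000000000) := Q_2 (nat_lit 161) (C_2 L3974553 (C_2 L3974257 (C_2 L18622 (C_2 L3975554 N_2)))) (by decide +kernel)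
theorem L3975556 : W_2 (nat_lit 17) (nat_lit 0x1000080000000000000000000000000000000) (nat_lit 0x0) (nat_lit 0x8001c007fc03fe03af8007803fe01fe01ff801c000a0000000000) := Q_2 (nat_lit 110) (C_2 L18138 (C_2 L3975312 (C_2 L18147 (C_2 L3974284 (C_2 L18629 (C_2 L18188 (C_2 L3975555 (C_2 L19996 N_2)))))))) (by decide +kernel)
theorem L3975557 : W_2 (nat_lit 6) (nat_lit 0x1800080004000200018000000000000000000) (nat_lit 0x0) (nat_lit 0x2600700008000000020001800080000000000) := T_2 (nat_lit 128) (nat_lit 145) (nat_lit 7) (nat_lit 8) (nat_lit 4) L3749316 (by decide +kernel)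
theorem L3975558 : W_2 (nat_lit 7) (nat_lit 0x1000080004000200018000000000000000000) (nat_lit 0x0) (nat_lit 0x10002e00700008000000020001800080000000000) := T_2 (nat_lit 143) (nat_lit 160) (nat_lit 5) (nat_lit 8) (nat_lit 5) L3975557 (by decide +kernel)
theorem L3975559 : W_2 (nat_lit 8) (nat_lit 0x1000080004000200008000000000000000000) (nat_lit 0x0) (nat_lit 0x10002e00700008000000030001c00080000000000) := T_2 (nat_lit 76) (nat_lit 58) (nat_lit 4) (nat_lit 8) (nat_lit 7) L3975558 (by decide +kernel)
theorem L3975560 : W_2 (nat_lit 9) (nat_lit 0x1000080004000200000000000000000000000) (nat_lit 0x0) (nat_lit 0x10002e00700008000100038001c00080000000000) := T_2 (nat_lit 75) (nat_lit 92) (nat_lit 4) (nat_lit 8) (nat_lit 8) L3975559 (by decide +kernel)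
theorem L3975561 : W_2 (nat_lit 2) (nat_lit 0x1800080004000200030000c00000000000000) (nat_lit 0x0) (nat_lit 0x2000100008000000000000000000000000000) := D_2 (nat_lit 128) (nat_lit 145) (nat_lit 111) (nat_lit 7) (nat_lit 8) (nat_lit 4) (nat_lit 7) (nat_lit 8) (nat_lit 3) (by decide +kernel)
theorem L3975562 : W_2 (nat_lit 3) (nat_lit 0x1800080004000200030000400000000000000) (nat_lit 0x0) (nat_lit 0x2000100008000000000000800020000000000) := T_2 (nat_lit 59) (nat_lit 41) (nat_lit 4) (nat_lit 8) (nat_lit 6) L3975561 (by decide +kernel)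
theorem L3975563 : W_2 (nat_lit 4) (nat_lit 0x1800080004000200030000000000000000000) (nat_lit 0x0) (nat_lit 0x2000100008000000008000c00020000000000) := T_2 (nat_lit 58) (nat_lit 75) (nat_lit 4) (nat_lit 8) (nat_lit 7) L3975562 (by decide +kernel)
theorem L3975564 : W_2 (nat_lit 5) (nat_lit 0x1800080004000200020000000000000000000) (nat_lit 0x0) (nat_lit 0x2000100008000000018001c00020000000000) := T_2 (nat_lit 76) (nat_lit 60) (nat_lit 6) (nat_lit 8) (nat_lit 7) L3975563 (by decide +kernel)
theorem L3975565 : W_2 (nat_lit 6) (nat_lit 0x1800080004000200000000000000000000000) (nat_lit 0x0) (nat_lit 0x2000100008000400038001c00020000000000) := T_2 (nat_lit 77) (nat_lit 94) (nat_lit 6) (nat_lit 8) (nat_lit 8) L3975564 (by decide +kernel)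
theorem L3975566 : W_2 (nat_lit 7) (nat_lit 0x1000080004000200000000000000000000000) (nat_lit 0x0) (nat_lit 0x10002800100008000400038001c00020000000000) := T_2 (nat_lit 143) (nat_lit 160) (nat_lit 5) (nat_lit 8) (nat_lit 5) L3975565 (by decide +kernel)
theorem L3975567 : W_2 (nat_lit 2) (nat_lit 0x180038000e000200030000000000000000000) (nat_lit 0x0) (nat_lit 0x400020000000000000000100000000000000000000000) := D_2 (nat_lit 161) (nat_lit 178) (nat_lit 92) (nat_lit 6) (nat_lit 8) (nat_lit 10) (nat_lit 4) (nat_lit 8) (nat_lit 9) (by decide +kernel)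
theorem L3975568 : W_2 (nat_lit 3) (nat_lit 0x180038000c000200030000000000000000000) (nat_lit 0x0) (nat_lit 0x400020000000000003000100000000000000000000000) := T_2 (nat_lit 109) (nat_lit 108) (nat_lit 3) (nat_lit 6) (nat_lit 6) L3975567 (by decide +kernel)
theorem L3975569 : W_2 (nat_lit 4) (nat_lit 0x180018000c000200030000000000000000000) (nat_lit 0x0) (nat_lit 0x400020000000600003000100000000000000000000000) := T_2 (nat_lit 129) (nat_lit 130) (nat_lit 1) (nat_lit 11) (nat_lit 7) L3975568 (by decide +kernel)
theorem L3975570 : W_2 (nat_lit 5) (nat_lit 0x1800180004000200030000000000000000000) (nat_lit 0x0) (nat_lit 0x40002000000060000b000100000000800000000000000) := T_2 (nat_lit 111) (nat_lit 59) (nat_lit 7) (nat_lit 8) (nat_lit 3) L3975569 (by decide +kernel)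
theorem L3975571 : W_2 (nat_lit 6) (nat_lit 0x1800080004000200030000000000000000000) (nat_lit 0x0) (nat_lit 0x40002000200070000b000100000000800000000000000) := T_2 (nat_lit 128) (nat_lit 145) (nat_lit 7) (nat_lit 8) (nat_lit 4) L3975570 (by decide +kernel)
theorem L3975572 : W_2 (nat_lit 7) (nat_lit 0x1000080004000200030000000000000000000) (nat_lit 0x0) (nat_lit 0x40003000280070000b000100000000800000000000000) := T_2 (nat_lit 143) (nat_lit 160) (nat_lit 5) (nat_lit 8) (nat_lit 5) L3975571 (by decide +kernel)
theorem L3975573 : W_2 (nat_lit 8) (nat_lit 0x1000080004000200020000000000000000000) (nat_lit 0x0) (nat_lit 0x40003000280070000b000100010001800000000000000) := T_2 (nat_lit 76) (nat_lit 60) (nat_lit 6) (nat_lit 8) (nat_lit 7) L3975572 (by decide +kernel)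
theorem L3975574 : W_2 (nat_lit 9) (nat_lit 0x1000080004000200000000000000000000000) (nat_lit 0x0) (nat_lit 0x40003000280070000b000500030001800000000000000) := T_2 (nat_lit 77) (nat_lit 94) (nat_lit 6) (nat_lit 8) (nat_lit 8) L3975573 (by decide +kernel)
theorem L3975575 : W_2 (nat_lit 2) (nat_lit 0x180018000c000200018000000000000000000) (nat_lit 0x0) (nat_lit 0x400020000000000000000400000000000000000000000) := D_2 (nat_lit 161) (nat_lit 178) (nat_lit 94) (nat_lit 6) (nat_lit 8) (nat_lit 10) (nat_lit 6) (nat_lit 8) (nat_lit 9) (by decide +kernel)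
theorem L3975576 : W_2 (nat_lit 3) (nat_lit 0x1800180004000200018000000000000000000) (nat_lit 0x0) (nat_lit 0x400020000000000008000400000000800000000000000) := T_2 (nat_lit 111) (nat_lit 59) (nat_lit 7) (nat_lit 8) (nat_lit 3) L3975575 (by decide +kernel)
theorem L3975577 : W_2 (nat_lit 4) (nat_lit 0x1800080004000200018000000000000000000) (nat_lit 0x0) (nat_lit 0x400020002000100008000400000000800000000000000) := T_2 (nat_lit 128) (nat_lit 145) (nat_lit 7) (nat_lit 8) (nat_lit 4) L3975576 (by decide +kernel)
theorem L3975578 : W_2 (nat_lit 5) (nat_lit 0x1800080004000200008000000000000000000) (nat_lit 0x0) (nat_lit 0x400020002000100008000400010000c00000000000000) := T_2 (nat_lit 76) (nat_lit 58) (nat_lit 4) (nat_lit 8) (nat_lit 7) L3975577 (by decide +kernel)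
theorem L3975579 : W_2 (nat_lit 6) (nat_lit 0x1800080004000200000000000000000000000) (nat_lit 0x0) (nat_lit 0x400020002000100008000500018000c00000000000000) := T_2 (nat_lit 75) (nat_lit 92) (nat_lit 4) (nat_lit 8) (nat_lit 8) L3975578 (by decide +kernel)
theorem L3975580 : W_2 (nat_lit 7) (nat_lit 0x1000080004000200000000000000000000000) (nat_lit 0x0) (nat_lit 0x400030002800100008000500018000c00000000000000) := T_2 (nat_lit 143) (nat_lit 160) (nat_lit 5) (nat_lit 8) (nat_lit 5) L3975579 (by decide +kernel)
theorem L3975581 : W_2 (nat_lit 10) (nat_lit 0x1000080004000000000000000000000000000) (nat_lit 0x0) (nat_lit 0x600030002e0070000b000700038001c000a0000000000) := Q_2 (nat_lit 93) (C_2 L3974295 (C_2 L18146 (C_2 L180 (C_2 L3975560 (C_2 L3975566 (C_2 L3975574 (C_2 L3975580 N_2))))))) (by decide +kernel)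
theorem L3975582 : W_2 (nat_lit 2) (nat_lit 0x10001000080004000600008000000000000000000) (nat_lit 0x0) (nat_lit 0x200020000000000008000000000000000000000000000) := D_2 (nat_lit 161) (nat_lit 111) (nat_lit 177) (nat_lit 6) (nat_lit 8) (nat_lit 9) (nat_lit 5) (nat_lit 8) (nat_lit 6) (by decide +kernel)
theorem L3975583 : W_2 (nat_lit 3) (nat_lit 0x1000080004000600008000000000000000000) (nat_lit 0x0) (nat_lit 0x200030000800000008000000000000000000000000000) := T_2 (nat_lit 160) (nat_lit 143) (nat_lit 5) (nat_lit 8) (nat_lit 5) L3975582 (by decide +kernel)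
theorem L3975584 : W_2 (nat_lit 4) (nat_lit 0x1000080004000200008000000000000000000) (nat_lit 0x0) (nat_lit 0x200030000800000008000400020000000000000000000) := T_2 (nat_lit 94) (nat_lit 77) (nat_lit 6) (nat_lit 8) (nat_lit 8) L3975583 (by decide +kernel)
theorem L3975585 : W_2 (nat_lit 5) (nat_lit 0x1000080004000200000000000000000000000) (nat_lit 0x0) (nat_lit 0x200030000800000008000500028000000000000000000) := T_2 (nat_lit 75) (nat_lit 92) (nat_lit 4) (nat_lit 8) (nat_lit 8) L3975584 (by decide +kernel)
theorem L3975586 : W_2 (nat_lit 10) (nat_lit 0x1000080004000000000000000000000000000) (nat_lit 0x0) (nat_lit 0x600030002e00740008000700038001c00080000000000) := Q_2 (nat_lit 93) (C_2 L3975580 (C_2 L18142 (C_2 L180 (C_2 L3975560 (C_2 L3975585 N_2))))) (by decide +kernel)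
theorem L3975587 : W_2 (nat_lit 2) (nat_lit 0x1000080004000200018001800000000000000) (nat_lit 0x0) (nat_lit 0x2000100008000000000000000000000000000) := D_2 (nat_lit 128) (nat_lit 145) (nat_lit 111) (nat_lit 7) (nat_lit 8) (nat_lit 4) (nat_lit 7) (nat_lit 8) (nat_lit 3) (by decide +kernel)
theorem L3975588 : W_2 (nat_lit 3) (nat_lit 0x1000080004000200018001000000000000000) (nat_lit 0x0) (nat_lit 0x2000100008000000000000800080000000000) := T_2 (nat_lit 59) (nat_lit 43) (nat_lit 6) (nat_lit 8) (nat_lit 6) L3975587 (by decide +kernel)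
theorem L3975589 : W_2 (nat_lit 4) (nat_lit 0x1000080004000200018000000000000000000) (nat_lit 0x0) (nat_lit 0x2000100008000000020001800080000000000) := T_2 (nat_lit 60) (nat_lit 77) (nat_lit 6) (nat_lit 8) (nat_lit 7) L3975588 (by decide +kernel)
theorem L3975590 : W_2 (nat_lit 5) (nat_lit 0x1000080004000200008000000000000000000) (nat_lit 0x0) (nat_lit 0x2000100008000000030001c00080000000000) := T_2 (nat_lit 76) (nat_lit 58) (nat_lit 4) (nat_lit 8) (nat_lit 7) L3975589 (by decide +kernel)
theorem L3975591 : W_2 (nat_lit 6) (nat_lit 0x1000080004000200000000000000000000000) (nat_lit 0x0) (nat_lit 0x2000100008000100038001c00080000000000) := T_2 (nat_lit 75) (nat_lit 92) (nat_lit 4) (nat_lit 8) (nat_lit 8) L3975590 (by decide +kernel)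
theorem L3975592 : W_2 (nat_lit 2) (nat_lit 0x1800080004000200010000c00000000000000) (nat_lit 0x0) (nat_lit 0x2000100008000000000000000000000000000) := D_2 (nat_lit 128) (nat_lit 145) (nat_lit 111) (nat_lit 7) (nat_lit 8) (nat_lit 4) (nat_lit 7) (nat_lit 8) (nat_lit 3) (by decide +kernel)
theorem L3975593 : W_2 (nat_lit 3) (nat_lit 0x1800080004000200010000400000000000000) (nat_lit 0x0) (nat_lit 0x2000100008000000000000800020000000000) := T_2 (nat_lit 59) (nat_lit 41) (nat_lit 4) (nat_lit 8) (nat_lit 6) L3975592 (by decide +kernel)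
theorem L3975594 : W_2 (nat_lit 4) (nat_lit 0x1800080004000200010000000000000000000) (nat_lit 0x0) (nat_lit 0x2000100008000000008000c00020000000000) := T_2 (nat_lit 58) (nat_lit 75) (nat_lit 4) (nat_lit 8) (nat_lit 7) L3975593 (by decide +kernel)
theorem L3975595 : W_2 (nat_lit 5) (nat_lit 0x1800080004000200000000000000000000000) (nat_lit 0x0) (nat_lit 0x2000140008000000018000c00020000000000) := T_2 (nat_lit 76) (nat_lit 126) (nat_lit 5) (nat_lit 8) (nat_lit 4) L3975594 (by decide +kernel)
theorem L3975596 : W_2 (nat_lit 6) (nat_lit 0x1000080004000200000000000000000000000) (nat_lit 0x0) (nat_lit 0x10002800140008000000018000c00020000000000) := T_2 (nat_lit 143) (nat_lit 160) (nat_lit 5) (nat_lit 8) (nat_lit 5) L3975595 (by decide +kernel)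
theorem L3975597 : W_2 (nat_lit 4) (nat_lit 0x1000080004000200000000000000000000000) (nat_lit 0x0) (nat_lit 0x200030000800000002000100008000000000000000000) := T_2 (nat_lit 160) (nat_lit 143) (nat_lit 5) (nat_lit 8) (nat_lit 5) L2533387 (by decide +kernel)
theorem L3975598 : W_2 (nat_lit 2) (nat_lit 0x1800080004000200010001800000000000000) (nat_lit 0x0) (nat_lit 0x2000100008000000000000000000000000000) := D_2 (nat_lit 128) (nat_lit 145) (nat_lit 111) (nat_lit 7) (nat_lit 8) (nat_lit 4) (nat_lit 7) (nat_lit 8) (nat_lit 3) (by decide +kernel)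
theorem L3975599 : W_2 (nat_lit 3) (nat_lit 0x1800080004000200010001000000000000000) (nat_lit 0x0) (nat_lit 0x2000100008000000000000800080000000000) := T_2 (nat_lit 59) (nat_lit 43) (nat_lit 6) (nat_lit 8) (nat_lit 6) L3975598 (by decide +kernel)
theorem L3975600 : W_2 (nat_lit 4) (nat_lit 0x1800080004000200010000000000000000000) (nat_lit 0x0) (nat_lit 0x2000100008000000020001800080000000000) := T_2 (nat_lit 60) (nat_lit 77) (nat_lit 6) (nat_lit 8) (nat_lit 7) L3975599 (by decide +kernel)
theorem L3975601 : W_2 (nat_lit 5) (nat_lit 0x1800080004000200000000000000000000000) (nat_lit 0x0) (nat_lit 0x2000140008000000030001800080000000000) := T_2 (nat_lit 76) (nat_lit 126) (nat_lit 5) (nat_lit 8) (nat_lit 4) L3975600 (by decide +kernel)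
theorem L3975602 : W_2 (nat_lit 6) (nat_lit 0x1000080004000200000000000000000000000) (nat_lit 0x0) (nat_lit 0x10002800140008000000030001800080000000000) := T_2 (nat_lit 143) (nat_lit 160) (nat_lit 5) (nat_lit 8) (nat_lit 5) L3975601 (by decide +kernel)
theorem L3975603 : W_2 (nat_lit 10) (nat_lit 0x1000080004000000000000000000000000000) (nat_lit 0x0) (nat_lit 0x200030002e0074000a000300038001c000a0000000000) := Q_2 (nat_lit 93) (C_2 L3975560 (C_2 L3974311 (C_2 L3975591 (C_2 L3975596 (C_2 L3975597 (C_2 L3975602 N_2)))))) (by decide +kernel)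
theorem L3975604 : W_2 (nat_lit 2) (nat_lit 0x1000080004000200030000c00000000000000) (nat_lit 0x0) (nat_lit 0x2000100008000000000000000000000000000) := D_2 (nat_lit 128) (nat_lit 145) (nat_lit 111) (nat_lit 7) (nat_lit 8) (nat_lit 4) (nat_lit 7) (nat_lit 8) (nat_lit 3) (by decide +kernel)
theorem L3975605 : W_2 (nat_lit 3) (nat_lit 0x1000080004000200030000400000000000000) (nat_lit 0x0) (nat_lit 0x2000100008000000000000800020000000000) := T_2 (nat_lit 59) (nat_lit 41) (nat_lit 4) (nat_lit 8) (nat_lit 6) L3975604 (by decide +kernel)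
theorem L3975606 : W_2 (nat_lit 4) (nat_lit 0x1000080004000200030000000000000000000) (nat_lit 0x0) (nat_lit 0x2000100008000000008000c00020000000000) := T_2 (nat_lit 58) (nat_lit 75) (nat_lit 4) (nat_lit 8) (nat_lit 7) L3975605 (by decide +kernel)
theorem L3975607 : W_2 (nat_lit 5) (nat_lit 0x1000080004000200020000000000000000000) (nat_lit 0x0) (nat_lit 0x2000100008000000018001c00020000000000) := T_2 (nat_lit 76) (nat_lit 60) (nat_lit 6) (nat_lit 8) (nat_lit 7) L3975606 (by decide +kernel)
theorem L3975608 : W_2 (nat_lit 6) (nat_lit 0x1000080004000200000000000000000000000) (nat_lit 0x0) (nat_lit 0x2000100008000400038001c00020000000000) := T_2 (nat_lit 77) (nat_lit 94) (nat_lit 6) (nat_lit 8) (nat_lit 8) L3975607 (by decide +kernel)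
theorem L3975609 : W_2 (nat_lit 3) (nat_lit 0x1000080004000600000000000000000000000) (nat_lit 0x0) (nat_lit 0x200030000800000008000000000000000000000000000) := T_2 (nat_lit 160) (nat_lit 143) (nat_lit 5) (nat_lit 8) (nat_lit 5) L2533389 (by decide +kernel)
theorem L3975610 : W_2 (nat_lit 4) (nat_lit 0x1000080004000200000000000000000000000) (nat_lit 0x0) (nat_lit 0x200030000800000008000400020000000000000000000) := T_2 (nat_lit 94) (nat_lit 77) (nat_lit 6) (nat_lit 8) (nat_lit 8) L3975609 (by decide +kernel)
theorem L3975611 : W_2 (nat_lit 8) (nat_lit 0x1000080004000000000000000000000000000) (nat_lit 0x0) (nat_lit 0x20003000280014000a000600038001c000a0000000000) := Q_2 (nat_lit 93) (C_2 L3975602 (C_2 L3974292 (C_2 L3975566 (C_2 L3975608 (C_2 L3975610 (C_2 L3975596 N_2)))))) (by decide +kernel)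
theorem L3975612 : W_2 (nat_lit 2) (nat_lit 0x8001800040002000180008000c000100000000000000000000000) (nat_lit 0x0) (nat_lit 0x1000100000000000010000000000000000000000000000000000000000) := D_2 (nat_lit 212) (nat_lit 228) (nat_lit 160) (nat_lit 5) (nat_lit 8) (nat_lit 9) (nat_lit 4) (nat_lit 8) (nat_lit 12) (by decide +kernel)
theorem L3975613 : W_2 (nat_lit 3) (nat_lit 0x8001800040002000100008000c000100000000000000000000000) (nat_lit 0x0) (nat_lit 0x1000100000000000010000800040000000000000000000000000000000) := T_2 (nat_lit 143) (nat_lit 126) (nat_lit 4) (nat_lit 8) (nat_lit 11) L3975612 (by decide +kernel)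
theorem L3975614 : W_2 (nat_lit 4) (nat_lit 0x1800040002000100008000c000100000000000000000000000) (nat_lit 0x0) (nat_lit 0x1000180004000000010000800040000000000000000000000000000000) := T_2 (nat_lit 211) (nat_lit 194) (nat_lit 5) (nat_lit 8) (nat_lit 8) L3975613 (by decide +kernel)
theorem L3975615 : W_2 (nat_lit 5) (nat_lit 0x1000040002000100008000c000100000000000000000000000) (nat_lit 0x0) (nat_lit 0x100038000c000000010000800040000000000000000000000000000000) := T_2 (nat_lit 195) (nat_lit 213) (nat_lit 7) (nat_lit 8) (nat_lit 8) L3975614 (by decide +kernel)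
theorem L3975616 : W_2 (nat_lit 6) (nat_lit 0x40002000100008000c000100000000000000000000000) (nat_lit 0x0) (nat_lit 0x100038001c000800010000800040000000000000000000000000000000) := T_2 (nat_lit 196) (nat_lit 179) (nat_lit 7) (nat_lit 8) (nat_lit 7) L3975615 (by decide +kernel)
theorem L3975617 : W_2 (nat_lit 7) (nat_lit 0x2000100008000c000100000000000000000000000) (nat_lit 0x0) (nat_lit 0x100038001c000c00010000800140000000000000000000000000000000) := T_2 (nat_lit 178) (nat_lit 128) (nat_lit 6) (nat_lit 8) (nat_lit 10) L3975616 (by decide +kernel)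
theorem L3975618 : W_2 (nat_lit 8) (nat_lit 0x2000100008000c000000000000000000000000000) (nat_lit 0x0) (nat_lit 0x100038001c000c00010000800140002000100000000000000000000000) := T_2 (nat_lit 92) (nat_lit 109) (nat_lit 4) (nat_lit 8) (nat_lit 9) L3975617 (by decide +kernel)
theorem L3975619 : W_2 (nat_lit 9) (nat_lit 0x20001000080004000000000000000000000000000) (nat_lit 0x0) (nat_lit 0x100038001c000c0001000080014000a000500000000000000000000000) := T_2 (nat_lit 111) (nat_lit 94) (nat_lit 6) (nat_lit 8) (nat_lit 9) L3975618 (by decide +kernel)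
theorem L3975620 : W_2 (nat_lit 3) (nat_lit 0x300010000c000c000000000000000000000000000) (nat_lit 0x0) (nat_lit 0x130030000000000000000000000000000) := T_2 (nat_lit 125) (nat_lit 124) (nat_lit 2) (nat_lit 5) (nat_lit 7) L2524796 (by decide +kernel)
theorem L3975621 : W_2 (nat_lit 4) (nat_lit 0x300010000c0004000000000000000000000000000) (nat_lit 0x0) (nat_lit 0x130038000400000000000000000000000) := T_2 (nat_lit 111) (nat_lit 94) (nat_lit 6) (nat_lit 8) (nat_lit 9) L3975620 (by decide +kernel)
theorem L3975622 : W_2 (nat_lit 5) (nat_lit 0x200010000c0004000000000000000000000000000) (nat_lit 0x0) (nat_lit 0x200010000000130038000400000000000000000000000) := T_2 (nat_lit 160) (nat_lit 177) (nat_lit 5) (nat_lit 8) (nat_lit 6) L3975621 (by decide +kernel)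
theorem L3975623 : W_2 (nat_lit 10) (nat_lit 0x200010000c0004000000000000000000000000000) (nat_lit 0x0) (nat_lit 0x30001e002f00338003c001c000c000000000000000000) := Q_2 (nat_lit 143) (C_2 L3974575 (C_2 L3974595 (C_2 L3974555 (C_2 L3974591 N_2)))) (by decide +kernel)
theorem L3975624 : W_2 (nat_lit 2) (nat_lit 0x300010002c001f000800000000000000000000000) (nat_lit 0x0) (nat_lit 0x8000000000000c0000000000000000000000) := D_2 (nat_lit 91) (nat_lit 143) (nat_lit 90) (nat_lit 4) (nat_lit 7) (nat_lit 9) (nat_lit 0) (nat_lit 9) (nat_lit 6) (by decide +kernel)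
theorem L3975625 : W_2 (nat_lit 3) (nat_lit 0x300010002c001e000800000000000000000000000) (nat_lit 0x0) (nat_lit 0x8001000010000c0000000000000000000000) := T_2 (nat_lit 108) (nat_lit 128) (nat_lit 3) (nat_lit 6) (nat_lit 6) L3975624 (by decide +kernel)
theorem L3975626 : W_2 (nat_lit 4) (nat_lit 0x300010000c001e000800000000000000000000000) (nat_lit 0x0) (nat_lit 0x8007000010000c0000000000000000000000) := T_2 (nat_lit 129) (nat_lit 130) (nat_lit 3) (nat_lit 7) (nat_lit 6) L3975625 (by decide +kernel)
theorem L3975627 : W_2 (nat_lit 5) (nat_lit 0x300010000c001e000000000000000000000000000) (nat_lit 0x0) (nat_lit 0x8007000010018c0000000000000000000000) := T_2 (nat_lit 95) (nat_lit 96) (nat_lit 2) (nat_lit 7) (nat_lit 6) L3975626 (by decide +kernel)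
theorem L3975628 : W_2 (nat_lit 6) (nat_lit 0x300010000c000e000000000000000000000000000) (nat_lit 0x0) (nat_lit 0x8007000310018c0000000000000000000000) := T_2 (nat_lit 112) (nat_lit 113) (nat_lit 1) (nat_lit 11) (nat_lit 6) L3975627 (by decide +kernel)
theorem L3975629 : W_2 (nat_lit 7) (nat_lit 0x300010000c000c000000000000000000000000000) (nat_lit 0x0) (nat_lit 0x8007000330019c0000000000000000000000) := T_2 (nat_lit 109) (nat_lit 92) (nat_lit 4) (nat_lit 8) (nat_lit 9) L3975628 (by decide +kernel)
theorem L3975630 : W_2 (nat_lit 8) (nat_lit 0x300010000c0004000000000000000000000000000) (nat_lit 0x0) (nat_lit 0x80070003b001dc0000000000000000000000) := T_2 (nat_lit 111) (nat_lit 94) (nat_lit 6) (nat_lit 8) (nat_lit 9) L3975629 (by decide +kernel)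
theorem L3975631 : W_2 (nat_lit 9) (nat_lit 0x200010000c0004000000000000000000000000000) (nat_lit 0x0) (nat_lit 0x20001000080070003b001dc0000000000000000000000) := T_2 (nat_lit 160) (nat_lit 177) (nat_lit 5) (nat_lit 8) (nat_lit 6) L3975630 (by decide +kernel)
theorem L3975632 : W_2 (nat_lit 11) (nat_lit 0x20001000080004000000000000000000000000000) (nat_lit 0x0) (nat_lit 0x30001e002f0077803bc01dc000c000000000000000000) := Q_2 (nat_lit 126) (C_2 L3975622 (C_2 L3975536 (C_2 L3975623 (C_2 L3975631 N_2)))) (by decide +kernel)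
theorem L3975633 : W_2 (nat_lit 12) (nat_lit 0x1000080004000000000000000000000000000) (nat_lit 0x0) (nat_lit 0x100038001c000f0003e002f0077803bc01dc000c000000000000000000) := Q_2 (nat_lit 161) (C_2 L3974335 (C_2 L18622 (C_2 L18624 (C_2 L3975619 (C_2 L3975632 N_2))))) (by decide +kernel)
theorem L3975634 : W_2 (nat_lit 10) (nat_lit 0x1000080004000000000000000000000000000) (nat_lit 0x0) (nat_lit 0x100038001c000e0003000080014000a000700020000000000000000000) := Q_2 (nat_lit 161) (C_2 L3975619 (C_2 L18622 (C_2 L3974335 (C_2 L18624 (C_2 L18179 N_2))))) (by decide +kernel)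
theorem L3975635 : W_2 (nat_lit 13) (nat_lit 0x1000080000000000000000000000000000000) (nat_lit 0x0) (nat_lit 0x100038001c000f0003e002f0077803fc01fc003e001c000a0000000000) := Q_2 (nat_lit 110) (C_2 L3975581 (C_2 L3974301 (C_2 L20425 (C_2 L18147 (C_2 L3975586 (C_2 L3975603 (C_2 L18628 (C_2 L3975611 (C_2 L3975633 (C_2 L3975634 N_2)))))))))) (by decide +kernel)
theorem L3975636 : W_2 (nat_lit 2) (nat_lit 0x700010001c001f000080000000000000000000000) (nat_lit 0x0) (nat_lit 0x2000000000001800000000000000000000000) := D_2 (nat_lit 95) (nat_lit 145) (nat_lit 96) (nat_lit 6) (nat_lit 9) (nat_lit 9) (nat_lit 2) (nat_lit 7) (nat_lit 6) (by decide +kernel)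
theorem L3975637 : W_2 (nat_lit 3) (nat_lit 0x700010001c000f000080000000000000000000000) (nat_lit 0x0) (nat_lit 0x2000000030001800000000000000000000000) := T_2 (nat_lit 112) (nat_lit 113) (nat_lit 1) (nat_lit 11) (nat_lit 6) L3975636 (by decide +kernel)
theorem L3975638 : W_2 (nat_lit 4) (nat_lit 0x7000100018000f000080000000000000000000000) (nat_lit 0x0) (nat_lit 0x2800040030001800000000000000000000000) := T_2 (nat_lit 126) (nat_lit 143) (nat_lit 4) (nat_lit 7) (nat_lit 9) L3975637 (by decide +kernel)
theorem L3975639 : W_2 (nat_lit 5) (nat_lit 0x7000100018000f000000000000000000000000000) (nat_lit 0x0) (nat_lit 0x28000400300018c0000000000000000000000) := T_2 (nat_lit 91) (nat_lit 90) (nat_lit 0) (nat_lit 9) (nat_lit 6) L3975638 (by decide +kernel)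
theorem L3975640 : W_2 (nat_lit 6) (nat_lit 0x70001000180007000000000000000000000000000) (nat_lit 0x0) (nat_lit 0x2800040038001cc0000000000000000000000) := T_2 (nat_lit 111) (nat_lit 94) (nat_lit 6) (nat_lit 8) (nat_lit 9) L3975639 (by decide +kernel)
theorem L3975641 : W_2 (nat_lit 7) (nat_lit 0x30001000180007000000000000000000000000000) (nat_lit 0x0) (nat_lit 0x800040002800040038001cc0000000000000000000000) := T_2 (nat_lit 162) (nat_lit 179) (nat_lit 7) (nat_lit 8) (nat_lit 6) L3975640 (by decide +kernel)
theorem L3975642 : W_2 (nat_lit 8) (nat_lit 0x30001000180006000000000000000000000000000) (nat_lit 0x0) (nat_lit 0x800040002800040039801cc0000000000000000000000) := T_2 (nat_lit 108) (nat_lit 107) (nat_lit 3) (nat_lit 5) (nat_lit 6) L3975641 (by decide +kernel)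
theorem L3975643 : W_2 (nat_lit 9) (nat_lit 0x20001000180006000000000000000000000000000) (nat_lit 0x0) (nat_lit 0xa00050002800040039801cc0000000000000000000000) := T_2 (nat_lit 160) (nat_lit 177) (nat_lit 5) (nat_lit 8) (nat_lit 6) L3975642 (by decide +kernel)
theorem L3975644 : W_2 (nat_lit 10) (nat_lit 0x20001000180004000000000000000000000000000) (nat_lit 0x0) (nat_lit 0xa0005000280004003b801dc0000000000000000000000) := T_2 (nat_lit 109) (nat_lit 92) (nat_lit 4) (nat_lit 8) (nat_lit 9) L3975643 (by decide +kernel)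
theorem L3975645 : W_2 (nat_lit 11) (nat_lit 0x20001000080004000000000000000000000000000) (nat_lit 0x0) (nat_lit 0x1a001d0002e0074007b801dc0000000000000000000000) := Q_2 (nat_lit 128) (C_2 L3974347 (C_2 L3974527 (C_2 L3974531 (C_2 L754 (C_2 L3975644 N_2))))) (by decide +kernel)
theorem L3975646 : W_2 (nat_lit 12) (nat_lit 0x1000080004000000000000000000000000000) (nat_lit 0x0) (nat_lit 0x500038001c001e001f0002e0074007b801dc0000000000000000000000) := Q_2 (nat_lit 161) (C_2 L3974553 (C_2 L3975619 (C_2 L3974343 (C_2 L3975645 N_2)))) (by decide +kernel)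
theorem L3975647 : W_2 (nat_lit 13) (nat_lit 0x1000080000000000000000000000000000000) (nat_lit 0x0) (nat_lit 0x500038001c001e001f8002e0074007fc01fc003e001c000a0000000000) := Q_2 (nat_lit 110) (C_2 L3975581 (C_2 L3975634 (C_2 L3974329 (C_2 L3975312 (C_2 L3975586 (C_2 L3974306 (C_2 L3975646 (C_2 L20425 N_2)))))))) (by decide +kernel)
theorem L3975648 : W_2 (nat_lit 5) (nat_lit 0x1000080004000000000000000000000000000) (nat_lit 0x0) (nat_lit 0x200030000800040008000700038001400000000000000) := Q_2 (nat_lit 93) (C_2 L3975610 (C_2 L180 (C_2 L18141 N_2))) (by decide +kernel)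
theorem L3975649 : W_2 (nat_lit 7) (nat_lit 0x1000080004000000000000000000000000000) (nat_lit 0x0) (nat_lit 0xa00070002800140008000300038001c00080000000000) := Q_2 (nat_lit 93) (C_2 L3975602 (C_2 L3974549 (C_2 L18141 (C_2 L3975591 N_2)))) (by decide +kernel)
theorem L3975650 : W_2 (nat_lit 2) (nat_lit 0x60001c00080004000400000000000000000000000) (nat_lit 0x0) (nat_lit 0x180002000000000000000000000000000000000000) := D_2 (nat_lit 163) (nat_lit 164) (nat_lit 145) (nat_lit 0) (nat_lit 11) (nat_lit 9) (nat_lit 3) (nat_lit 6) (nat_lit 8) (by decide +kernel)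
theorem L3975651 : W_2 (nat_lit 3) (nat_lit 0x60001800080004000400000000000000000000000) (nat_lit 0x0) (nat_lit 0x180002600000000000000000000000000000000000) := T_2 (nat_lit 142) (nat_lit 141) (nat_lit 3) (nat_lit 5) (nat_lit 8) L3975650 (by decide +kernel)
theorem L3975652 : W_2 (nat_lit 4) (nat_lit 0x20001800080004000400000000000000000000000) (nat_lit 0x0) (nat_lit 0x8001c0002600000000000000000000000000000000000) := T_2 (nat_lit 162) (nat_lit 179) (nat_lit 7) (nat_lit 8) (nat_lit 6) L3975651 (by decide +kernel)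
theorem L3975653 : W_2 (nat_lit 5) (nat_lit 0x20001800080004000000000000000000000000000) (nat_lit 0x0) (nat_lit 0x8001c0002600000008000400000000000000000000000) := T_2 (nat_lit 94) (nat_lit 111) (nat_lit 6) (nat_lit 8) (nat_lit 9) L3975652 (by decide +kernel)
theorem L3975656 : W_2 (nat_lit 3) (nat_lit 0x20001c00080004000000000000000000000000000) (nat_lit 0x0) (nat_lit 0x200740000000000000000000000000000000) := T_2 (nat_lit 128) (nat_lit 141) (nat_lit 2) (nat_lit 5) (nat_lit 8) L1120061 (by decide +kernel)
theorem L3975657 : W_2 (nat_lit 2) (nat_lit 0x8003c001e00088004000400000000000000000000000) (nat_lit 0x0) (nat_lit 0x1000000000000000020001000000000000000000000000000) := D_2 (nat_lit 125) (nat_lit 108) (nat_lit 192) (nat_lit 5) (nat_lit 6) (nat_lit 6) (nat_lit 6) (nat_lit 5) (nat_lit 11) (by decide +kernel)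
theorem L3975658 : W_2 (nat_lit 3) (nat_lit 0x3c001e00088004000400000000000000000000000) (nat_lit 0x0) (nat_lit 0x10000c0000000000020001000000000000000000000000000) := T_2 (nat_lit 175) (nat_lit 174) (nat_lit 1) (nat_lit 8) (nat_lit 9) L3975657 (by decide +kernel)
theorem L3975659 : W_2 (nat_lit 4) (nat_lit 0x34001e00088004000400000000000000000000000) (nat_lit 0x0) (nat_lit 0x10000c0008002000020001000000000000000000000000000) := T_2 (nat_lit 159) (nat_lit 145) (nat_lit 2) (nat_lit 5) (nat_lit 9) L3975658 (by decide +kernel)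
theorem L3975660 : W_2 (nat_lit 5) (nat_lit 0x30001e00088004000400000000000000000000000) (nat_lit 0x0) (nat_lit 0x10000c000e002000020001000000000000000000000000000) := T_2 (nat_lit 158) (nat_lit 157) (nat_lit 1) (nat_lit 8) (nat_lit 8) L3975659 (by decide +kernel)
theorem L3975661 : W_2 (nat_lit 6) (nat_lit 0x30001e00080004000400000000000000000000000) (nat_lit 0x0) (nat_lit 0x10000c000e002000038001000000000000000000000000000) := T_2 (nat_lit 123) (nat_lit 124) (nat_lit 0) (nat_lit 8) (nat_lit 8) L3975660 (by decide +kernel)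
theorem L3975662 : W_2 (nat_lit 7) (nat_lit 0x30001e00080004000000000000000000000000000) (nat_lit 0x0) (nat_lit 0x10000c000e002000038009000400000000000000000000000) := T_2 (nat_lit 94) (nat_lit 111) (nat_lit 6) (nat_lit 8) (nat_lit 9) L3975661 (by decide +kernel)
theorem L3975663 : W_2 (nat_lit 8) (nat_lit 0x30001c00080004000000000000000000000000000) (nat_lit 0x0) (nat_lit 0x10000c000e002300038009000400000000000000000000000) := T_2 (nat_lit 141) (nat_lit 140) (nat_lit 3) (nat_lit 4) (nat_lit 8) L3975662 (by decide +kernel)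
theorem L3975664 : W_2 (nat_lit 9) (nat_lit 0x20001c00080004000000000000000000000000000) (nat_lit 0x0) (nat_lit 0x10002c001e002300038009000400000000000000000000000) := T_2 (nat_lit 160) (nat_lit 177) (nat_lit 5) (nat_lit 8) (nat_lit 6) L3975663 (by decide +kernel)
theorem L3975804 : W_2 (nat_lit 2) (nat_lit 0x20001c000b0004000400000000000000000000000) (nat_lit 0x0) (nat_lit 0x4c000000000000000000000000000000) := D_2 (nat_lit 123) (nat_lit 122) (nat_lit 126) (nat_lit 3) (nat_lit 3) (nat_lit 7) (nat_lit 3) (nat_lit 4) (nat_lit 7) (by decide +kernel)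
theorem L3975805 : W_2 (nat_lit 3) (nat_lit 0x20001c000a0004000400000000000000000000000) (nat_lit 0x0) (nat_lit 0x200005c000000000000000000000000000000) := T_2 (nat_lit 124) (nat_lit 145) (nat_lit 0) (nat_lit 9) (nat_lit 8) L3975804 (by decide +kernel)
theorem L3975806 : W_2 (nat_lit 4) (nat_lit 0x20001c000a0004000000000000000000000000000) (nat_lit 0x0) (nat_lit 0x200005c008000400000000000000000000000) := T_2 (nat_lit 94) (nat_lit 111) (nat_lit 6) (nat_lit 8) (nat_lit 9) L3975805 (by decide +kernel)
theorem L3975807 : W_2 (nat_lit 2) (nat_lit 0x30001c000e000c000080000000000000000000000) (nat_lit 0x0) (nat_lit 0x300010000000000000000000000000000) := D_2 (nat_lit 128) (nat_lit 129) (nat_lit 112) (nat_lit 1) (nat_lit 10) (nat_lit 7) (nat_lit 2) (nat_lit 6) (nat_lit 7) (by decide +kernel)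
theorem L3975808 : W_2 (nat_lit 3) (nat_lit 0x30001c000a000c000080000000000000000000000) (nat_lit 0x0) (nat_lit 0x350010000000000000000000000000000) := T_2 (nat_lit 126) (nat_lit 124) (nat_lit 2) (nat_lit 5) (nat_lit 7) L3975807 (by decide +kernel)
theorem L3975809 : W_2 (nat_lit 4) (nat_lit 0x30001c000a0004000080000000000000000000000) (nat_lit 0x0) (nat_lit 0x350018000400000000000000000000000) := T_2 (nat_lit 111) (nat_lit 94) (nat_lit 6) (nat_lit 8) (nat_lit 9) L3975808 (by decide +kernel)
theorem L3975810 : W_2 (nat_lit 5) (nat_lit 0x30001c000a0004000000000000000000000000000) (nat_lit 0x0) (nat_lit 0x350019000480000000000000000000000) := T_2 (nat_lit 91) (nat_lit 108) (nat_lit 7) (nat_lit 6) (nat_lit 5) L3975809 (by decide +kernel)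
theorem L3975811 : W_2 (nat_lit 6) (nat_lit 0x20001c000a0004000000000000000000000000000) (nat_lit 0x0) (nat_lit 0x200010000000350019000480000000000000000000000) := T_2 (nat_lit 160) (nat_lit 177) (nat_lit 5) (nat_lit 8) (nat_lit 6) L3975810 (by decide +kernel)
theorem L3975812 : W_2 (nat_lit 2) (nat_lit 0x20001c000b0004000000000000000000000000000) (nat_lit 0x0) (nat_lit 0x4c000000000000000000000000000000) := D_2 (nat_lit 123) (nat_lit 122) (nat_lit 126) (nat_lit 3) (nat_lit 3) (nat_lit 7) (nat_lit 3) (nat_lit 4) (nat_lit 7) (by decide +kernel)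
theorem L3975813 : W_2 (nat_lit 3) (nat_lit 0x20001c000a0004000000000000000000000000000) (nat_lit 0x0) (nat_lit 0x200005c000000000000000000000000000000) := T_2 (nat_lit 124) (nat_lit 145) (nat_lit 0) (nat_lit 9) (nat_lit 8) L3975812 (by decide +kernel)
theorem L3975814 : W_2 (nat_lit 2) (nat_lit 0x28001c000a0004000000000000000000000000000) (nat_lit 0x0) (nat_lit 0x4002000010000000000000000000000000000000) := D_2 (nat_lit 145) (nat_lit 124) (nat_lit 158) (nat_lit 0) (nat_lit 9) (nat_lit 8) (nat_lit 1) (nat_lit 9) (nat_lit 8) (by decide +kernel)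
theorem L3975815 : W_2 (nat_lit 2) (nat_lit 0x8003c001c000a0004000480000000000000000000000) (nat_lit 0x0) (nat_lit 0x20001000100000000000000000000000000000000000000000000) := D_2 (nat_lit 192) (nat_lit 176) (nat_lit 209) (nat_lit 5) (nat_lit 6) (nat_lit 7) (nat_lit 6) (nat_lit 5) (nat_lit 12) (by decide +kernel)
theorem L3975816 : W_2 (nat_lit 3) (nat_lit 0x3c001c000a0004000480000000000000000000000) (nat_lit 0x0) (nat_lit 0x200010001c0000000000000000000000000000000000000000000) := T_2 (nat_lit 175) (nat_lit 174) (nat_lit 1) (nat_lit 8) (nat_lit 9) L3975815 (by decide +kernel)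
theorem L3975817 : W_2 (nat_lit 4) (nat_lit 0x38001c000a0004000480000000000000000000000) (nat_lit 0x0) (nat_lit 0x200010001c0006000000000000000000000000000000000000000) := T_2 (nat_lit 158) (nat_lit 157) (nat_lit 2) (nat_lit 4) (nat_lit 9) L3975816 (by decide +kernel)
theorem L3975818 : W_2 (nat_lit 5) (nat_lit 0x38001c000a0004000400000000000000000000000) (nat_lit 0x0) (nat_lit 0x200010001c0006000000000001000080000000000000000000000) := T_2 (nat_lit 91) (nat_lit 108) (nat_lit 7) (nat_lit 6) (nat_lit 5) L3975817 (by decide +kernel)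
theorem L3975819 : W_2 (nat_lit 6) (nat_lit 0x28001c000a0004000400000000000000000000000) (nat_lit 0x0) (nat_lit 0x200010003c0016000000000001000080000000000000000000000) := T_2 (nat_lit 160) (nat_lit 177) (nat_lit 5) (nat_lit 8) (nat_lit 6) L3975818 (by decide +kernel)
theorem L3975820 : W_2 (nat_lit 7) (nat_lit 0x28001c000a0004000000000000000000000000000) (nat_lit 0x0) (nat_lit 0x200010003c0016000000000009000480000000000000000000000) := T_2 (nat_lit 94) (nat_lit 111) (nat_lit 6) (nat_lit 8) (nat_lit 9) L3975819 (by decide +kernel)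
theorem L3975821 : W_2 (nat_lit 2) (nat_lit 0x2000100038001c000b4004000480000000000000000000000) (nat_lit 0x0) (nat_lit 0x20001000080000000000000000000000000000000000000000000) := D_2 (nat_lit 192) (nat_lit 209) (nat_lit 175) (nat_lit 5) (nat_lit 6) (nat_lit 8) (nat_lit 5) (nat_lit 6) (nat_lit 7) (by decide +kernel)
theorem L3975822 : W_2 (nat_lit 3) (nat_lit 0x100038001c000b4004000480000000000000000000000) (nat_lit 0x0) (nat_lit 0x60003000080000000000000000000000000000000000000000000) := T_2 (nat_lit 193) (nat_lit 210) (nat_lit 6) (nat_lit 6) (nat_lit 12) L3975821 (by decide +kernel)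
theorem L3975823 : W_2 (nat_lit 4) (nat_lit 0x100038001c000b0004000480000000000000000000000) (nat_lit 0x0) (nat_lit 0x6000300008000000000000c000000000000000000000000000000) := T_2 (nat_lit 122) (nat_lit 123) (nat_lit 3) (nat_lit 3) (nat_lit 7) L3975822 (by decide +kernel)
theorem L3975824 : W_2 (nat_lit 5) (nat_lit 0x38001c000b0004000480000000000000000000000) (nat_lit 0x0) (nat_lit 0x6000300018000000000000c000800000000000000000000000000) := T_2 (nat_lit 176) (nat_lit 107) (nat_lit 4) (nat_lit 6) (nat_lit 10) L3975823 (by decide +kernel)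
theorem L3975825 : W_2 (nat_lit 6) (nat_lit 0x38001c000b0004000080000000000000000000000) (nat_lit 0x0) (nat_lit 0x6000300018000000000000c008800400000000000000000000000) := T_2 (nat_lit 94) (nat_lit 111) (nat_lit 6) (nat_lit 8) (nat_lit 9) L3975824 (by decide +kernel)
theorem L3975826 : W_2 (nat_lit 7) (nat_lit 0x38001c000a0004000080000000000000000000000) (nat_lit 0x0) (nat_lit 0x6000300018000000200001c008800400000000000000000000000) := T_2 (nat_lit 124) (nat_lit 145) (nat_lit 0) (nat_lit 9) (nat_lit 8) L3975825 (by decide +kernel)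
theorem L3975827 : W_2 (nat_lit 8) (nat_lit 0x38001c000a0004000000000000000000000000000) (nat_lit 0x0) (nat_lit 0x6000300018000000200001c009800480000000000000000000000) := T_2 (nat_lit 91) (nat_lit 108) (nat_lit 7) (nat_lit 6) (nat_lit 5) L3975826 (by decide +kernel)
theorem L3975828 : W_2 (nat_lit 9) (nat_lit 0x28001c000a0004000000000000000000000000000) (nat_lit 0x0) (nat_lit 0x6000300038001000200001c009800480000000000000000000000) := T_2 (nat_lit 160) (nat_lit 177) (nat_lit 5) (nat_lit 8) (nat_lit 6) L3975827 (by decide +kernel)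
theorem L3975829 : W_2 (nat_lit 10) (nat_lit 0x20001c000a0004000000000000000000000000000) (nat_lit 0x0) (nat_lit 0x600030003c001e00200001c009800480000000000000000000000) := Q_2 (nat_lit 159) (C_2 L3975814 (C_2 L3975820 (C_2 L3975828 N_2))) (by decide +kernel)
theorem L3975830 : W_2 (nat_lit 2) (nat_lit 0x20001c001a0004000000000000000000000000000) (nat_lit 0x0) (nat_lit 0x2000240000000000000000000000000000000) := D_2 (nat_lit 129) (nat_lit 145) (nat_lit 126) (nat_lit 2) (nat_lit 6) (nat_lit 8) (nat_lit 1) (nat_lit 10) (nat_lit 7) (by decide +kernel)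
theorem L3975831 : W_2 (nat_lit 2) (nat_lit 0x20001c001a0004000000000000000000000000000) (nat_lit 0x0) (nat_lit 0x640000000000000000000000000000000) := D_2 (nat_lit 129) (nat_lit 126) (nat_lit 130) (nat_lit 1) (nat_lit 10) (nat_lit 7) (nat_lit 1) (nat_lit 11) (nat_lit 7) (by decide +kernel)
theorem L3975832 : W_2 (nat_lit 2) (nat_lit 0x20001c001a0004000000000000000000000000000) (nat_lit 0x0) (nat_lit 0x2000600000000000000000000000000000000) := D_2 (nat_lit 129) (nat_lit 145) (nat_lit 130) (nat_lit 2) (nat_lit 6) (nat_lit 8) (nat_lit 1) (nat_lit 11) (nat_lit 7) (by decide +kernel)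
theorem L3975833 : W_2 (nat_lit 2) (nat_lit 0x38001c001a0005800400000000000000000000000) (nat_lit 0x0) (nat_lit 0x6002000000000000000000000000000000000000) := D_2 (nat_lit 158) (nat_lit 145) (nat_lit 157) (nat_lit 2) (nat_lit 5) (nat_lit 9) (nat_lit 2) (nat_lit 4) (nat_lit 9) (by decide +kernel)
theorem L3975834 : W_2 (nat_lit 3) (nat_lit 0x30001c001a0005800400000000000000000000000) (nat_lit 0x0) (nat_lit 0xe002000000000000040000000000000000000000) := T_2 (nat_lit 159) (nat_lit 90) (nat_lit 4) (nat_lit 6) (nat_lit 9) L3975833 (by decide +kernel)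
theorem L3975835 : W_2 (nat_lit 4) (nat_lit 0x30001c001a0005000400000000000000000000000) (nat_lit 0x0) (nat_lit 0xe002000040000800040000000000000000000000) := T_2 (nat_lit 107) (nat_lit 126) (nat_lit 0) (nat_lit 9) (nat_lit 7) L3975834 (by decide +kernel)
theorem L3975836 : W_2 (nat_lit 5) (nat_lit 0x30001c001a0005000000000000000000000000000) (nat_lit 0x0) (nat_lit 0xe002000040008800440000000000000000000000) := T_2 (nat_lit 94) (nat_lit 111) (nat_lit 6) (nat_lit 8) (nat_lit 9) L3975835 (by decide +kernel)
theorem L3975837 : W_2 (nat_lit 6) (nat_lit 0x30001c001a0004000000000000000000000000000) (nat_lit 0x0) (nat_lit 0xe0020000400098004c0000000000000000000000) := T_2 (nat_lit 108) (nat_lit 91) (nat_lit 7) (nat_lit 6) (nat_lit 5) L3975836 (by decide +kernel)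
theorem L3975838 : W_2 (nat_lit 7) (nat_lit 0x20001c001a0004000000000000000000000000000) (nat_lit 0x0) (nat_lit 0x20001e0020000400098004c0000000000000000000000) := T_2 (nat_lit 160) (nat_lit 177) (nat_lit 5) (nat_lit 8) (nat_lit 6) L3975837 (by decide +kernel)
theorem L3975839 : W_2 (nat_lit 8) (nat_lit 0x20001c000a0004000000000000000000000000000) (nat_lit 0x0) (nat_lit 0x20001e0020007400098004c0000000000000000000000) := Q_2 (nat_lit 128) (C_2 L3975830 (C_2 L3975831 (C_2 L3975832 (C_2 L3975838 N_2)))) (by decide +kernel)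
theorem L3975840 : W_2 (nat_lit 11) (nat_lit 0x20001c00080004000000000000000000000000000) (nat_lit 0x0) (nat_lit 0x600030003c001e00200077c0198004c0000000000000000000000) := Q_2 (nat_lit 125) (C_2 L3975806 (C_2 L3975811 (C_2 L3975813 (C_2 L3975829 (C_2 L3975839 N_2))))) (by decide +kernel)
theorem L3977476 : W_2 (nat_lit 5) (nat_lit 0x20001800180004000000000000000000000000000) (nat_lit 0x0) (nat_lit 0xa000d0000600000008000400000000000000000000000) := T_2 (nat_lit 160) (nat_lit 177) (nat_lit 5) (nat_lit 8) (nat_lit 6) L2454362 (by decide +kernel)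
theorem L3977477 : W_2 (nat_lit 3) (nat_lit 0xe000180038000c000000000000000000000000000) (nat_lit 0x0) (nat_lit 0x3200010002000000000000000000000000000000000000) := T_2 (nat_lit 160) (nat_lit 177) (nat_lit 5) (nat_lit 8) (nat_lit 6) L681374 (by decide +kernel)
theorem L3977478 : W_2 (nat_lit 4) (nat_lit 0xe0001800380004000000000000000000000000000) (nat_lit 0x0) (nat_lit 0x3200010002000000008000400000000000000000000000) := T_2 (nat_lit 111) (nat_lit 94) (nat_lit 6) (nat_lit 8) (nat_lit 9) L3977477 (by decide +kernel)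
theorem L3977479 : W_2 (nat_lit 5) (nat_lit 0xe0001800180004000000000000000000000000000) (nat_lit 0x0) (nat_lit 0x3200010002000600008000400000000000000000000000) := T_2 (nat_lit 129) (nat_lit 130) (nat_lit 1) (nat_lit 11) (nat_lit 7) L3977478 (by decide +kernel)
theorem L3977480 : W_2 (nat_lit 6) (nat_lit 0x60001800180004000000000000000000000000000) (nat_lit 0x0) (nat_lit 0x3200190002000600008000400000000000000000000000) := T_2 (nat_lit 163) (nat_lit 164) (nat_lit 0) (nat_lit 11) (nat_lit 9) L3977479 (by decide +kernel)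
theorem L3977481 : W_2 (nat_lit 7) (nat_lit 0x20001800180004000000000000000000000000000) (nat_lit 0x0) (nat_lit 0x3a001d0002000600008000400000000000000000000000) := T_2 (nat_lit 162) (nat_lit 179) (nat_lit 7) (nat_lit 8) (nat_lit 6) L3977480 (by decide +kernel)
theorem L3977482 : W_2 (nat_lit 8) (nat_lit 0x20001000180004000000000000000000000000000) (nat_lit 0x0) (nat_lit 0x3a001d0002e00600008000400000000000000000000000) := Q_2 (nat_lit 143) (C_2 L3974522 (C_2 L3974526 (C_2 L3977476 (C_2 L3977481 N_2)))) (by decide +kernel)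
theorem L3977494 : W_2 (nat_lit 2) (nat_lit 0x60001600380004000000000000000000000000000) (nat_lit 0x0) (nat_lit 0x200018000000000000000000000000000000000000000) := D_2 (nat_lit 160) (nat_lit 159) (nat_lit 177) (nat_lit 0) (nat_lit 9) (nat_lit 9) (nat_lit 5) (nat_lit 8) (nat_lit 6) (by decide +kernel)
theorem L3977495 : W_2 (nat_lit 3) (nat_lit 0x60001400380004000000000000000000000000000) (nat_lit 0x0) (nat_lit 0x200018000a00000000000000000000000000000000000) := T_2 (nat_lit 141) (nat_lit 143) (nat_lit 3) (nat_lit 5) (nat_lit 8) L3977494 (by decide +kernel)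
theorem L3977496 : W_2 (nat_lit 4) (nat_lit 0x20001400380004000000000000000000000000000) (nat_lit 0x0) (nat_lit 0xa00058000a00000000000000000000000000000000000) := T_2 (nat_lit 162) (nat_lit 179) (nat_lit 7) (nat_lit 8) (nat_lit 6) L3977495 (by decide +kernel)
theorem L3977665 : W_2 (nat_lit 2) (nat_lit 0x20001400380004000000000000000000000000000) (nat_lit 0x0) (nat_lit 0x2a00000000000000000000000000000000000) := D_2 (nat_lit 143) (nat_lit 145) (nat_lit 141) (nat_lit 2) (nat_lit 6) (nat_lit 8) (nat_lit 2) (nat_lit 5) (nat_lit 8) (by decide +kernel)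
theorem L3982705 : W_2 (nat_lit 12) (nat_lit 0x20001400080004000000000000000000000000000) (nat_lit 0x0) (nat_lit 0x600030003c001e002b0077c0198004c0000000000000000000000) := Q_2 (nat_lit 143) (C_2 L3975664 (C_2 L3975656 (C_2 L3975840 N_2))) (by decide +kernel)
theorem L3982706 : W_2 (nat_lit 2) (nat_lit 0x60001c00080004000000000000000000000000000) (nat_lit 0x0) (nat_lit 0x180002000000000000000000000000000000000000) := D_2 (nat_lit 163) (nat_lit 145) (nat_lit 164) (nat_lit 3) (nat_lit 6) (nat_lit 8) (nat_lit 0) (nat_lit 11) (nat_lit 9) (by decide +kernel)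
theorem L3982707 : W_2 (nat_lit 3) (nat_lit 0x60001400080004000000000000000000000000000) (nat_lit 0x0) (nat_lit 0x180002a00000000000000000000000000000000000) := T_2 (nat_lit 143) (nat_lit 141) (nat_lit 3) (nat_lit 5) (nat_lit 8) L3982706 (by decide +kernel)
theorem L3982708 : W_2 (nat_lit 4) (nat_lit 0x20001400080004000000000000000000000000000) (nat_lit 0x0) (nat_lit 0x8001c0002a00000000000000000000000000000000000) := T_2 (nat_lit 162) (nat_lit 179) (nat_lit 7) (nat_lit 8) (nat_lit 6) L3982707 (by decide +kernel)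
theorem L3982709 : W_2 (nat_lit 2) (nat_lit 0x20001f0011400080004000400000000000000000000000) (nat_lit 0x0) (nat_lit 0x200022000000000000000000000000000000000000) := D_2 (nat_lit 165) (nat_lit 145) (nat_lit 149) (nat_lit 0) (nat_lit 12) (nat_lit 9) (nat_lit 2) (nat_lit 9) (nat_lit 9) (by decide +kernel)
theorem L3982710 : W_2 (nat_lit 3) (nat_lit 0x20001f0001400080004000400000000000000000000000) (nat_lit 0x0) (nat_lit 0x20003a000000000000000000000000000000000000) := T_2 (nat_lit 148) (nat_lit 147) (nat_lit 2) (nat_lit 8) (nat_lit 9) L3982709 (by decide +kernel)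
theorem L3982711 : W_2 (nat_lit 4) (nat_lit 0x20000f0001400080004000400000000000000000000000) (nat_lit 0x0) (nat_lit 0x400030003a000000000000000000000000000000000000) := T_2 (nat_lit 164) (nat_lit 182) (nat_lit 3) (nat_lit 8) (nat_lit 9) L3982710 (by decide +kernel)
theorem L3982712 : W_2 (nat_lit 5) (nat_lit 0xf0001400080004000400000000000000000000000) (nat_lit 0x0) (nat_lit 0x700030003a000000000000000000000000000000000000) := T_2 (nat_lit 181) (nat_lit 180) (nat_lit 3) (nat_lit 7) (nat_lit 9) L3982711 (by decide +kernel)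
theorem L3982713 : W_2 (nat_lit 6) (nat_lit 0x70001400080004000400000000000000000000000) (nat_lit 0x0) (nat_lit 0x700038003a800000000000000000000000000000000000) := T_2 (nat_lit 163) (nat_lit 143) (nat_lit 0) (nat_lit 10) (nat_lit 9) L3982712 (by decide +kernel)
theorem L3982714 : W_2 (nat_lit 7) (nat_lit 0x30001400080004000400000000000000000000000) (nat_lit 0x0) (nat_lit 0x78003c003a800000000000000000000000000000000000) := T_2 (nat_lit 162) (nat_lit 179) (nat_lit 7) (nat_lit 8) (nat_lit 6) L3982713 (by decide +kernel)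
theorem L3982715 : W_2 (nat_lit 8) (nat_lit 0x20001400080004000400000000000000000000000) (nat_lit 0x0) (nat_lit 0x7a003d003a800000000000000000000000000000000000) := T_2 (nat_lit 160) (nat_lit 177) (nat_lit 5) (nat_lit 8) (nat_lit 6) L3982714 (by decide +kernel)
theorem L3982716 : W_2 (nat_lit 9) (nat_lit 0x20001400080004000000000000000000000000000) (nat_lit 0x0) (nat_lit 0x7a003d003a800000008000400000000000000000000000) := T_2 (nat_lit 94) (nat_lit 111) (nat_lit 6) (nat_lit 8) (nat_lit 9) L3982715 (by decide +kernel)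
theorem L3982717 : W_2 (nat_lit 13) (nat_lit 0x20001000080004000000000000000000000000000) (nat_lit 0x0) (nat_lit 0x60003007bc03de03af0077c0398004c0000000000000000000000) := Q_2 (nat_lit 142) (C_2 L3982705 (C_2 L1197176 (C_2 L3982708 (C_2 L3982716 N_2)))) (by decide +kernel)
theorem L3982718 : W_2 (nat_lit 14) (nat_lit 0x1000080004000000000000000000000000000) (nat_lit 0x0) (nat_lit 0x60017007fc03fe03af0077c0398004c0000000000000000000000) := Q_2 (nat_lit 161) (C_2 L3974553 (C_2 L3974258 (C_2 L18624 (C_2 L3982717 N_2)))) (by decide +kernel)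
theorem L3982719 : W_2 (nat_lit 15) (nat_lit 0x1000080000000000000000000000000000000) (nat_lit 0x0) (nat_lit 0x16001f007fc03fe03af0077c03de007e003f801c00080000000000) := Q_2 (nat_lit 110) (C_2 L3974306 (C_2 L3975586 (C_2 L3975648 (C_2 L3974548 (C_2 L3975649 (C_2 L18654 (C_2 L3982718 (C_2 L20381 N_2)))))))) (by decide +kernel)
theorem L3982720 : W_2 (nat_lit 8) (nat_lit 0x1000080004000000000000000000000000000) (nat_lit 0x0) (nat_lit 0x28001c000e0007000000010000a000700028000000000000000000) := Q_2 (nat_lit 161) (C_2 L3974553 (C_2 L3974335 (C_2 L3974258 (C_2 L18627 N_2)))) (by decide +kernel)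
theorem L3982721 : W_2 (nat_lit 5) (nat_lit 0x1000080004000000000000000000000000000) (nat_lit 0x0) (nat_lit 0x14000e00070002800000002000300008000000000000000000) := Q_2 (nat_lit 161) (C_2 L3974553 (C_2 L18647 (C_2 L118 N_2))) (by decide +kernel)
theorem L3982722 : W_2 (nat_lit 2) (nat_lit 0x60001c00380004000100000000000000000000000) (nat_lit 0x0) (nat_lit 0x190000000000000000000000000000000000000000) := D_2 (nat_lit 163) (nat_lit 164) (nat_lit 160) (nat_lit 0) (nat_lit 11) (nat_lit 9) (nat_lit 0) (nat_lit 10) (nat_lit 9) (by decide +kernel)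
theorem L3982723 : W_2 (nat_lit 3) (nat_lit 0x20001c00380004000100000000000000000000000) (nat_lit 0x0) (nat_lit 0x8001d0000000000000000000000000000000000000000) := T_2 (nat_lit 162) (nat_lit 179) (nat_lit 7) (nat_lit 8) (nat_lit 6) L3982722 (by decide +kernel)
theorem L3982727 : W_2 (nat_lit 2) (nat_lit 0x20001000380004000000000000000000000000000) (nat_lit 0x0) (nat_lit 0x400002000100000000000000000000000) := D_2 (nat_lit 109) (nat_lit 92) (nat_lit 130) (nat_lit 4) (nat_lit 8) (nat_lit 9) (nat_lit 0) (nat_lit 11) (nat_lit 7) (by decide +kernel)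
theorem L3982728 : W_2 (nat_lit 2) (nat_lit 0x70009000780044000000000000000000000000000) (nat_lit 0x0) (nat_lit 0x2000800080000000000000000000000000000) := D_2 (nat_lit 131) (nat_lit 145) (nat_lit 115) (nat_lit 1) (nat_lit 12) (nat_lit 7) (nat_lit 2) (nat_lit 9) (nat_lit 7) (by decide +kernel)
theorem L3982729 : W_2 (nat_lit 3) (nat_lit 0x70009000780004000000000000000000000000000) (nat_lit 0x0) (nat_lit 0x20008000e0000000000000000000000000000) := T_2 (nat_lit 114) (nat_lit 113) (nat_lit 2) (nat_lit 8) (nat_lit 7) L3982728 (by decide +kernel)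
theorem L3982730 : W_2 (nat_lit 4) (nat_lit 0x70001000780004000000000000000000000000000) (nat_lit 0x0) (nat_lit 0x1a0008000e0000000000000000000000000000) := T_2 (nat_lit 147) (nat_lit 148) (nat_lit 3) (nat_lit 8) (nat_lit 7) L3982729 (by decide +kernel)
theorem L3982731 : W_2 (nat_lit 5) (nat_lit 0x30001000780004000000000000000000000000000) (nat_lit 0x0) (nat_lit 0x80004001a0008000e0000000000000000000000000000) := T_2 (nat_lit 162) (nat_lit 179) (nat_lit 7) (nat_lit 8) (nat_lit 6) L3982730 (by decide +kernel)
theorem L3982732 : W_2 (nat_lit 6) (nat_lit 0x30001000380004000000000000000000000000000) (nat_lit 0x0) (nat_lit 0x80004001a800c000e0000000000000000000000000000) := T_2 (nat_lit 130) (nat_lit 143) (nat_lit 1) (nat_lit 11) (nat_lit 7) L3982731 (by decide +kernel)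
theorem L3982733 : W_2 (nat_lit 7) (nat_lit 0x20001000380004000000000000000000000000000) (nat_lit 0x0) (nat_lit 0xa0005001a800c000e0000000000000000000000000000) := T_2 (nat_lit 160) (nat_lit 177) (nat_lit 5) (nat_lit 8) (nat_lit 6) L3982732 (by decide +kernel)
theorem L3982736 : W_2 (nat_lit 2) (nat_lit 0x7c001400380004000100000000000000000000000) (nat_lit 0x0) (nat_lit 0x1c0000000000000000000000000000000000000000000) := D_2 (nat_lit 175) (nat_lit 176) (nat_lit 174) (nat_lit 1) (nat_lit 9) (nat_lit 9) (nat_lit 1) (nat_lit 8) (nat_lit 9) (by decide +kernel)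
theorem L3982737 : W_2 (nat_lit 3) (nat_lit 0x78001400380004000100000000000000000000000) (nat_lit 0x0) (nat_lit 0x1c0004002000000000000000000000000000000000000) := T_2 (nat_lit 158) (nat_lit 145) (nat_lit 2) (nat_lit 5) (nat_lit 9) L3982736 (by decide +kernel)
theorem L3982738 : W_2 (nat_lit 4) (nat_lit 0x78001400380004000000000000000000000000000) (nat_lit 0x0) (nat_lit 0x1c0004002000000002000100000000000000000000000) := T_2 (nat_lit 92) (nat_lit 109) (nat_lit 4) (nat_lit 8) (nat_lit 9) L3982737 (by decide +kernel)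
theorem L3982739 : W_2 (nat_lit 5) (nat_lit 0x70001400380004000000000000000000000000000) (nat_lit 0x0) (nat_lit 0x1c000c002200000002000100000000000000000000000) := T_2 (nat_lit 159) (nat_lit 141) (nat_lit 0) (nat_lit 9) (nat_lit 9) L3982738 (by decide +kernel)
theorem L3982740 : W_2 (nat_lit 6) (nat_lit 0x60001400380004000000000000000000000000000) (nat_lit 0x0) (nat_lit 0x3c001c002200000002000100000000000000000000000) := T_2 (nat_lit 160) (nat_lit 177) (nat_lit 5) (nat_lit 8) (nat_lit 6) L3982739 (by decide +kernel)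
theorem L3982741 : W_2 (nat_lit 7) (nat_lit 0x20001400380004000000000000000000000000000) (nat_lit 0x0) (nat_lit 0xbc005c002200000002000100000000000000000000000) := T_2 (nat_lit 162) (nat_lit 179) (nat_lit 7) (nat_lit 8) (nat_lit 6) L3982740 (by decide +kernel)
theorem L3982742 : W_2 (nat_lit 4) (nat_lit 0x20001400380004000100000000000000000000000) (nat_lit 0x0) (nat_lit 0x8001d0002800000000000000000000000000000000000) := T_2 (nat_lit 143) (nat_lit 145) (nat_lit 2) (nat_lit 6) (nat_lit 8) L3982723 (by decide +kernel)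
theorem L3982743 : W_2 (nat_lit 5) (nat_lit 0x20001400380004000000000000000000000000000) (nat_lit 0x0) (nat_lit 0x8001d0002800000002000100000000000000000000000) := T_2 (nat_lit 92) (nat_lit 109) (nat_lit 4) (nat_lit 8) (nat_lit 9) L3982742 (by decide +kernel)
theorem L3982744 : W_2 (nat_lit 8) (nat_lit 0x20001000380004000000000000000000000000000) (nat_lit 0x0) (nat_lit 0xbc01dc002e00000002000100000000000000000000000) := Q_2 (nat_lit 142) (C_2 L3977665 (C_2 L3977496 (C_2 L3982741 (C_2 L3982743 N_2)))) (by decide +kernel)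
theorem L3982745 : W_2 (nat_lit 9) (nat_lit 0x20001000180004000000000000000000000000000) (nat_lit 0x0) (nat_lit 0xbc01dc01ae00e000e2000100000000000000000000000) := Q_2 (nat_lit 129) (C_2 L3982727 (C_2 L3982733 (C_2 L3982744 N_2))) (by decide +kernel)
theorem L3982746 : W_2 (nat_lit 2) (nat_lit 0x700014001a000f000080000000000000000000000) (nat_lit 0x0) (nat_lit 0xc000200000000000000000000000000000000000) := D_2 (nat_lit 141) (nat_lit 158) (nat_lit 159) (nat_lit 5) (nat_lit 6) (nat_lit 5) (nat_lit 0) (nat_lit 9) (nat_lit 9) (by decide +kernel)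
theorem L3982747 : W_2 (nat_lit 3) (nat_lit 0x700010001a000f000080000000000000000000000) (nat_lit 0x0) (nat_lit 0xc000e00000000000000000000000000000000000) := T_2 (nat_lit 142) (nat_lit 143) (nat_lit 7) (nat_lit 6) (nat_lit 5) L3982746 (by decide +kernel)
theorem L3982748 : W_2 (nat_lit 4) (nat_lit 0x700010001a000f000000000000000000000000000) (nat_lit 0x0) (nat_lit 0xc000e000000000000c0000000000000000000000) := T_2 (nat_lit 91) (nat_lit 90) (nat_lit 0) (nat_lit 9) (nat_lit 6) L3982747 (by decide +kernel)
theorem L3982749 : W_2 (nat_lit 5) (nat_lit 0x7000100018000f000000000000000000000000000) (nat_lit 0x0) (nat_lit 0xc000e000300000000c0000000000000000000000) := T_2 (nat_lit 125) (nat_lit 124) (nat_lit 1) (nat_lit 9) (nat_lit 6) L3982748 (by decide +kernel)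
theorem L3982750 : W_2 (nat_lit 6) (nat_lit 0x7000100018000e000000000000000000000000000) (nat_lit 0x0) (nat_lit 0xc000e000300018000c0000000000000000000000) := T_2 (nat_lit 108) (nat_lit 107) (nat_lit 3) (nat_lit 5) (nat_lit 6) L3982749 (by decide +kernel)
theorem L3982751 : W_2 (nat_lit 7) (nat_lit 0x6000100018000e000000000000000000000000000) (nat_lit 0x0) (nat_lit 0x20001c000e000300018000c0000000000000000000000) := T_2 (nat_lit 160) (nat_lit 177) (nat_lit 5) (nat_lit 8) (nat_lit 6) L3982750 (by decide +kernel)
theorem L3982752 : W_2 (nat_lit 8) (nat_lit 0x6000100018000c000000000000000000000000000) (nat_lit 0x0) (nat_lit 0x20001c000e000300038001c0000000000000000000000) := T_2 (nat_lit 109) (nat_lit 92) (nat_lit 4) (nat_lit 8) (nat_lit 9) L3982751 (by decide +kernel)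
theorem L3982753 : W_2 (nat_lit 9) (nat_lit 0x60001000180004000000000000000000000000000) (nat_lit 0x0) (nat_lit 0x20001c000e0003000b8005c0000000000000000000000) := T_2 (nat_lit 111) (nat_lit 94) (nat_lit 6) (nat_lit 8) (nat_lit 9) L3982752 (by decide +kernel)
theorem L3982754 : W_2 (nat_lit 10) (nat_lit 0x20001000180004000000000000000000000000000) (nat_lit 0x0) (nat_lit 0xa0005c000e0003000b8005c0000000000000000000000) := T_2 (nat_lit 162) (nat_lit 179) (nat_lit 7) (nat_lit 8) (nat_lit 6) L3982753 (by decide +kernel)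
theorem L3982755 : W_2 (nat_lit 11) (nat_lit 0x20001000080004000000000000000000000000000) (nat_lit 0x0) (nat_lit 0x3bc01dc01ae00f300eb8005c0000000000000000000000) := Q_2 (nat_lit 128) (C_2 L1830 (C_2 L3977482 (C_2 L3974347 (C_2 L3982745 (C_2 L3982754 N_2))))) (by decide +kernel)
theorem L3982756 : W_2 (nat_lit 12) (nat_lit 0x1000080004000000000000000000000000000) (nat_lit 0x0) (nat_lit 0x28001c003fc01fc01ae00f300eb8005c0000000000000000000000) := Q_2 (nat_lit 161) (C_2 L3974553 (C_2 L3974335 (C_2 L3974258 (C_2 L18624 (C_2 L3982755 N_2))))) (by decide +kernel)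
theorem L3982757 : W_2 (nat_lit 13) (nat_lit 0x1000080000000000000000000000000000000) (nat_lit 0x0) (nat_lit 0x38001c003fc01fc01ae00f300ffe00fe00ff801c000a0000000000) := Q_2 (nat_lit 110) (C_2 L3974306 (C_2 L3975581 (C_2 L3982720 (C_2 L18156 (C_2 L18138 (C_2 L3982721 (C_2 L18654 (C_2 L3982756 (C_2 L18612 N_2))))))))) (by decide +kernel)
theorem L3982758 : W_2 (nat_lit 3) (nat_lit 0x20001000080006000000000000000000000000000) (nat_lit 0x0) (nat_lit 0x400000000000140008000400000000000000000000000) := T_2 (nat_lit 111) (nat_lit 94) (nat_lit 6) (nat_lit 8) (nat_lit 9) L7792 (by decide +kernel)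
theorem L3982759 : W_2 (nat_lit 4) (nat_lit 0x20001000080004000000000000000000000000000) (nat_lit 0x0) (nat_lit 0x40000000000014000a000500000000000000000000000) := T_2 (nat_lit 109) (nat_lit 92) (nat_lit 4) (nat_lit 8) (nat_lit 9) L3982758 (by decide +kernel)
theorem L3982760 : W_2 (nat_lit 11) (nat_lit 0x1000080004000000000000000000000000000) (nat_lit 0x0) (nat_lit 0x100038001c001c001f0002e0077007b801dc0000000000000000000000) := Q_2 (nat_lit 161) (C_2 L3975619 (C_2 L3974257 (C_2 L3974258 (C_2 L3982759 (C_2 L3974540 N_2))))) (by decide +kernel)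
theorem L3982761 : W_2 (nat_lit 12) (nat_lit 0x1000080000000000000000000000000000000) (nat_lit 0x0) (nat_lit 0x100038001c001c001fe002e0077807f801fc0038001c000a0000000000) := Q_2 (nat_lit 110) (C_2 L3974306 (C_2 L3974329 (C_2 L3974259 (C_2 L20654 (C_2 L3974284 (C_2 L3974301 (C_2 L3982760 N_2))))))) (by decide +kernel)
theorem L3982762 : W_2 (nat_lit 2) (nat_lit 0x14000400020001000080000000000000000000000000000000) (nat_lit 0x0) (nat_lit 0x280008000000000000000000000000000000000000000000000000) := D_2 (nat_lit 195) (nat_lit 211) (nat_lit 213) (nat_lit 5) (nat_lit 8) (nat_lit 8) (nat_lit 7) (nat_lit 8) (nat_lit 8) (by decide +kernel)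
theorem L3982763 : W_2 (nat_lit 3) (nat_lit 0x4000400020001000080000000000000000000000000000000) (nat_lit 0x0) (nat_lit 0x280018000800000000000000000000000000000000000000000000) := T_2 (nat_lit 196) (nat_lit 179) (nat_lit 7) (nat_lit 8) (nat_lit 7) L3982762 (by decide +kernel)
theorem L3982764 : W_2 (nat_lit 4) (nat_lit 0x400020001000080000000000000000000000000000000) (nat_lit 0x0) (nat_lit 0x28001c000a00000000000000000000000000000000000000000000) := T_2 (nat_lit 194) (nat_lit 177) (nat_lit 5) (nat_lit 8) (nat_lit 7) L3982763 (by decide +kernel)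
theorem L3982765 : W_2 (nat_lit 2) (nat_lit 0x300008000600020001000180000000000000000000000000000000) (nat_lit 0x0) (nat_lit 0x2000000000000000010000800000000000000000000000000000000000) := D_2 (nat_lit 160) (nat_lit 143) (nat_lit 229) (nat_lit 4) (nat_lit 8) (nat_lit 12) (nat_lit 4) (nat_lit 8) (nat_lit 13) (by decide +kernel)
theorem L3982766 : W_2 (nat_lit 3) (nat_lit 0x200008000600020001000180000000000000000000000000000000) (nat_lit 0x0) (nat_lit 0x6000100000000000010000800000000000000000000000000000000000) := T_2 (nat_lit 212) (nat_lit 230) (nat_lit 7) (nat_lit 8) (nat_lit 9) L3982765 (by decide +kernel)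
theorem L3982767 : W_2 (nat_lit 4) (nat_lit 0x8000600020001000180000000000000000000000000000000) (nat_lit 0x0) (nat_lit 0x6000300010000000010000800000000000000000000000000000000000) := T_2 (nat_lit 213) (nat_lit 196) (nat_lit 7) (nat_lit 8) (nat_lit 8) L3982766 (by decide +kernel)
theorem L3982768 : W_2 (nat_lit 5) (nat_lit 0x600020001000180000000000000000000000000000000) (nat_lit 0x0) (nat_lit 0x6000300018000000010002800000000000000000000000000000000000) := T_2 (nat_lit 195) (nat_lit 145) (nat_lit 6) (nat_lit 8) (nat_lit 11) L3982767 (by decide +kernel)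
theorem L3982769 : W_2 (nat_lit 6) (nat_lit 0x400020001000180000000000000000000000000000000) (nat_lit 0x0) (nat_lit 0x600030001c000200010002800000000000000000000000000000000000) := T_2 (nat_lit 177) (nat_lit 194) (nat_lit 5) (nat_lit 8) (nat_lit 7) L3982768 (by decide +kernel)
theorem L3982770 : W_2 (nat_lit 7) (nat_lit 0x400020001000080000000000000000000000000000000) (nat_lit 0x0) (nat_lit 0x600030001c000200010002800100008000000000000000000000000000) := T_2 (nat_lit 128) (nat_lit 111) (nat_lit 6) (nat_lit 8) (nat_lit 10) L3982769 (by decide +kernel)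
theorem L3982771 : W_2 (nat_lit 2) (nat_lit 0x4000400020001000180000000000000000000000000000000) (nat_lit 0x0) (nat_lit 0x80008000000000002000000000000000000000000000000000000) := D_2 (nat_lit 195) (nat_lit 145) (nat_lit 211) (nat_lit 6) (nat_lit 8) (nat_lit 11) (nat_lit 5) (nat_lit 8) (nat_lit 8) (by decide +kernel)
theorem L3982772 : W_2 (nat_lit 3) (nat_lit 0x400020001000180000000000000000000000000000000) (nat_lit 0x0) (nat_lit 0x8000c000200000002000000000000000000000000000000000000) := T_2 (nat_lit 194) (nat_lit 177) (nat_lit 5) (nat_lit 8) (nat_lit 7) L3982771 (by decide +kernel)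
theorem L3982773 : W_2 (nat_lit 4) (nat_lit 0x400020001000080000000000000000000000000000000) (nat_lit 0x0) (nat_lit 0x8000c000200000002000100008000000000000000000000000000) := T_2 (nat_lit 128) (nat_lit 111) (nat_lit 6) (nat_lit 8) (nat_lit 10) L3982772 (by decide +kernel)
theorem L3982774 : W_2 (nat_lit 12) (nat_lit 0x20001000080000000000000000000000000000000) (nat_lit 0x0) (nat_lit 0x60003800ff007f801dc002e00700018000000000000000000000000000) := Q_2 (nat_lit 178) (C_2 L35941 (C_2 L3982764 (C_2 L34786 (C_2 L3982770 (C_2 L34822 (C_2 L3982773 N_2)))))) (by decide +kernel)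
theorem L3982775 : W_2 (nat_lit 9) (nat_lit 0x20001000080000000000000000000000000000000) (nat_lit 0x0) (nat_lit 0x800068007c003f001dc00200014000a000000000000000000000000000) := Q_2 (nat_lit 178) (C_2 L3982773 (C_2 L3982764 (C_2 L34786 (C_2 L34329 N_2)))) (by decide +kernel)
theorem L3982776 : W_2 (nat_lit 13) (nat_lit 0x20001000080000000000000000000000000000000) (nat_lit 0x0) (nat_lit 0x28003f007f803cc002e0077003bc00000000000000000000000000) := Q_2 (nat_lit 178) (C_2 L3982773 (C_2 L3982764 (C_2 L1400068 (C_2 L35403 N_2)))) (by decide +kernel)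
theorem L3982808 : W_2 (nat_lit 2) (nat_lit 0x180008000c000200010000c0000000000000000000000000000000) (nat_lit 0x0) (nat_lit 0x2000000000000000040002000000000000000000000000000000000000) := D_2 (nat_lit 162) (nat_lit 145) (nat_lit 229) (nat_lit 6) (nat_lit 8) (nat_lit 12) (nat_lit 6) (nat_lit 8) (nat_lit 13) (by decide +kernel)
theorem L3982809 : W_2 (nat_lit 3) (nat_lit 0x80008000c000200010000c0000000000000000000000000000000) (nat_lit 0x0) (nat_lit 0x3000100000000000040002000000000000000000000000000000000000) := T_2 (nat_lit 212) (nat_lit 228) (nat_lit 5) (nat_lit 8) (nat_lit 9) L3982808 (by decide +kernel)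
theorem L3982810 : W_2 (nat_lit 4) (nat_lit 0x8000c000200010000c0000000000000000000000000000000) (nat_lit 0x0) (nat_lit 0x3000180004000000040002000000000000000000000000000000000000) := T_2 (nat_lit 211) (nat_lit 194) (nat_lit 5) (nat_lit 8) (nat_lit 8) L3982809 (by decide +kernel)
theorem L3982811 : W_2 (nat_lit 5) (nat_lit 0xc000200010000c0000000000000000000000000000000) (nat_lit 0x0) (nat_lit 0x300018000c000000040002800000000000000000000000000000000000) := T_2 (nat_lit 195) (nat_lit 143) (nat_lit 4) (nat_lit 8) (nat_lit 11) L3982810 (by decide +kernel)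
theorem L3982812 : W_2 (nat_lit 6) (nat_lit 0x4000200010000c0000000000000000000000000000000) (nat_lit 0x0) (nat_lit 0x300018001c000800040002800000000000000000000000000000000000) := T_2 (nat_lit 179) (nat_lit 196) (nat_lit 7) (nat_lit 8) (nat_lit 7) L3982811 (by decide +kernel)
theorem L3982813 : W_2 (nat_lit 7) (nat_lit 0x400020001000080000000000000000000000000000000) (nat_lit 0x0) (nat_lit 0x300018001c000800040002800040002000000000000000000000000000) := T_2 (nat_lit 126) (nat_lit 109) (nat_lit 4) (nat_lit 8) (nat_lit 10) L3982812 (by decide +kernel)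
theorem L3982814 : W_2 (nat_lit 2) (nat_lit 0x10003000080006000200030000d0000000000000000000000000000000) (nat_lit 0x0) (nat_lit 0x20002000000000000000010000000000000000000000000000000000000000) := D_2 (nat_lit 229) (nat_lit 160) (nat_lit 245) (nat_lit 4) (nat_lit 8) (nat_lit 13) (nat_lit 5) (nat_lit 8) (nat_lit 10) (by decide +kernel)
theorem L3982815 : W_2 (nat_lit 3) (nat_lit 0x3000080006000200030000d0000000000000000000000000000000) (nat_lit 0x0) (nat_lit 0x20003000080000000000010000000000000000000000000000000000000000) := T_2 (nat_lit 228) (nat_lit 211) (nat_lit 5) (nat_lit 8) (nat_lit 9) L3982814 (by decide +kernel)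
theorem L3982816 : W_2 (nat_lit 4) (nat_lit 0x3000080006000200030000c0000000000000000000000000000000) (nat_lit 0x0) (nat_lit 0x20003000080000000000010000000030000000000000000000000000000000) := T_2 (nat_lit 124) (nat_lit 125) (nat_lit 3) (nat_lit 5) (nat_lit 7) L3982815 (by decide +kernel)
theorem L3982817 : W_2 (nat_lit 5) (nat_lit 0x3000080006000200010000c0000000000000000000000000000000) (nat_lit 0x0) (nat_lit 0x20003000080000000000050002000030000000000000000000000000000000) := T_2 (nat_lit 145) (nat_lit 162) (nat_lit 6) (nat_lit 8) (nat_lit 12) L3982816 (by decide +kernel)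
theorem L3982818 : W_2 (nat_lit 6) (nat_lit 0x2000080006000200010000c0000000000000000000000000000000) (nat_lit 0x0) (nat_lit 0x20007000180000000000050002000030000000000000000000000000000000) := T_2 (nat_lit 212) (nat_lit 230) (nat_lit 7) (nat_lit 8) (nat_lit 9) L3982817 (by decide +kernel)
theorem L3982819 : W_2 (nat_lit 7) (nat_lit 0x80006000200010000c0000000000000000000000000000000) (nat_lit 0x0) (nat_lit 0x20007000380010000000050002000030000000000000000000000000000000) := T_2 (nat_lit 213) (nat_lit 196) (nat_lit 7) (nat_lit 8) (nat_lit 8) L3982818 (by decide +kernel)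
theorem L3982820 : W_2 (nat_lit 8) (nat_lit 0x6000200010000c0000000000000000000000000000000) (nat_lit 0x0) (nat_lit 0x20007000380018000000050002800030000000000000000000000000000000) := T_2 (nat_lit 195) (nat_lit 143) (nat_lit 4) (nat_lit 8) (nat_lit 11) L3982819 (by decide +kernel)
theorem L3982821 : W_2 (nat_lit 9) (nat_lit 0x4000200010000c0000000000000000000000000000000) (nat_lit 0x0) (nat_lit 0x2000700038001c000200050002800030000000000000000000000000000000) := T_2 (nat_lit 177) (nat_lit 194) (nat_lit 5) (nat_lit 8) (nat_lit 7) L3982820 (by decide +kernel)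
theorem L3982822 : W_2 (nat_lit 10) (nat_lit 0x400020001000080000000000000000000000000000000) (nat_lit 0x0) (nat_lit 0x2000700038001c000200050002800070002000000000000000000000000000) := T_2 (nat_lit 126) (nat_lit 109) (nat_lit 4) (nat_lit 8) (nat_lit 10) L3982821 (by decide +kernel)
theorem L3982823 : W_2 (nat_lit 2) (nat_lit 0x100004000200010000c0000000000000000000000000000000) (nat_lit 0x0) (nat_lit 0x200008000000000000800000000000000000000000000000000000) := D_2 (nat_lit 195) (nat_lit 143) (nat_lit 213) (nat_lit 4) (nat_lit 8) (nat_lit 11) (nat_lit 7) (nat_lit 8) (nat_lit 8) (by decide +kernel)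
theorem L3982824 : W_2 (nat_lit 3) (nat_lit 0x4000200010000c0000000000000000000000000000000) (nat_lit 0x0) (nat_lit 0x200018000800000000800000000000000000000000000000000000) := T_2 (nat_lit 196) (nat_lit 179) (nat_lit 7) (nat_lit 8) (nat_lit 7) L3982823 (by decide +kernel)
theorem L3982825 : W_2 (nat_lit 4) (nat_lit 0x400020001000080000000000000000000000000000000) (nat_lit 0x0) (nat_lit 0x200018000800000000800040002000000000000000000000000000) := T_2 (nat_lit 126) (nat_lit 109) (nat_lit 4) (nat_lit 8) (nat_lit 10) L3982824 (by decide +kernel)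
theorem L3982826 : W_2 (nat_lit 2) (nat_lit 0x40004000200010000c0000000000000000000000000000000) (nat_lit 0x0) (nat_lit 0x80008000000000000800000000000000000000000000000000000) := D_2 (nat_lit 195) (nat_lit 143) (nat_lit 211) (nat_lit 4) (nat_lit 8) (nat_lit 11) (nat_lit 5) (nat_lit 8) (nat_lit 8) (by decide +kernel)
theorem L3982827 : W_2 (nat_lit 3) (nat_lit 0x4000200010000c0000000000000000000000000000000) (nat_lit 0x0) (nat_lit 0x8000c000200000000800000000000000000000000000000000000) := T_2 (nat_lit 194) (nat_lit 177) (nat_lit 5) (nat_lit 8) (nat_lit 7) L3982826 (by decide +kernel)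
theorem L3982828 : W_2 (nat_lit 4) (nat_lit 0x400020001000080000000000000000000000000000000) (nat_lit 0x0) (nat_lit 0x8000c000200000000800040002000000000000000000000000000) := T_2 (nat_lit 126) (nat_lit 109) (nat_lit 4) (nat_lit 8) (nat_lit 10) L3982827 (by decide +kernel)
theorem L3982829 : W_2 (nat_lit 11) (nat_lit 0x20001000080000000000000000000000000000000) (nat_lit 0x0) (nat_lit 0x2000f00078007c003f001dc002800070002000000000000000000000000000) := Q_2 (nat_lit 178) (C_2 L3982764 (C_2 L3982813 (C_2 L3982822 (C_2 L34329 (C_2 L3982825 (C_2 L3982828 N_2)))))) (by decide +kernel)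
theorem L3982830 : W_2 (nat_lit 17) (nat_lit 0x20001000080000000000000000000000000000000) (nat_lit 0x0) (nat_lit 0x84006a01ff807f8079c00ae00f600ea000000000000000000000000000) := Q_2 (nat_lit 178) (C_2 L3982828 (C_2 L3982773 (C_2 L3982825 (C_2 L35290 N_2)))) (by decide +kernel)
theorem L3982831 : W_2 (nat_lit 2) (nat_lit 0x280008000400020001000180002000000000000000000000000000) (nat_lit 0x0) (nat_lit 0x5000100000000000000000000000000000000000000000000000000000) := D_2 (nat_lit 212) (nat_lit 228) (nat_lit 230) (nat_lit 5) (nat_lit 8) (nat_lit 9) (nat_lit 7) (nat_lit 8) (nat_lit 9) (by decide +kernel)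
theorem L3982832 : W_2 (nat_lit 3) (nat_lit 0x80008000400020001000180002000000000000000000000000000) (nat_lit 0x0) (nat_lit 0x5000300010000000000000000000000000000000000000000000000000) := T_2 (nat_lit 213) (nat_lit 196) (nat_lit 7) (nat_lit 8) (nat_lit 8) L3982831 (by decide +kernel)
theorem L3982833 : W_2 (nat_lit 4) (nat_lit 0x8000400020001000180002000000000000000000000000000) (nat_lit 0x0) (nat_lit 0x5000380014000000000000000000000000000000000000000000000000) := T_2 (nat_lit 211) (nat_lit 194) (nat_lit 5) (nat_lit 8) (nat_lit 8) L3982832 (by decide +kernel)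
theorem L3982834 : W_2 (nat_lit 5) (nat_lit 0x400020001000180002000000000000000000000000000) (nat_lit 0x0) (nat_lit 0x500038001c000000000002000000000000000000000000000000000000) := T_2 (nat_lit 195) (nat_lit 145) (nat_lit 6) (nat_lit 8) (nat_lit 11) L3982833 (by decide +kernel)
theorem L3982835 : W_2 (nat_lit 6) (nat_lit 0x400020001000080002000000000000000000000000000) (nat_lit 0x0) (nat_lit 0x500038001c000000000002000100008000000000000000000000000000) := T_2 (nat_lit 128) (nat_lit 111) (nat_lit 6) (nat_lit 8) (nat_lit 10) L3982834 (by decide +kernel)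
theorem L3982836 : W_2 (nat_lit 7) (nat_lit 0x400020001000080000000000000000000000000000000) (nat_lit 0x0) (nat_lit 0x500038001c00000000000200014000a000000000000000000000000000) := T_2 (nat_lit 109) (nat_lit 126) (nat_lit 4) (nat_lit 8) (nat_lit 10) L3982835 (by decide +kernel)
theorem L3982837 : W_2 (nat_lit 2) (nat_lit 0x40001800080004000600010000c0008000000000000000000000000000) (nat_lit 0x0) (nat_lit 0x80002000000000000800000000000000000000000000000000000000000000) := D_2 (nat_lit 229) (nat_lit 179) (nat_lit 247) (nat_lit 6) (nat_lit 8) (nat_lit 13) (nat_lit 7) (nat_lit 8) (nat_lit 10) (by decide +kernel)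
theorem L3982838 : W_2 (nat_lit 3) (nat_lit 0x1800080004000600010000c0008000000000000000000000000000) (nat_lit 0x0) (nat_lit 0x80006000200000000800000000000000000000000000000000000000000000) := T_2 (nat_lit 230) (nat_lit 213) (nat_lit 7) (nat_lit 8) (nat_lit 9) L3982837 (by decide +kernel)
theorem L3982839 : W_2 (nat_lit 4) (nat_lit 0x1800080004000200010000c0008000000000000000000000000000) (nat_lit 0x0) (nat_lit 0x80006000200000000800040002000000000000000000000000000000000000) := T_2 (nat_lit 162) (nat_lit 145) (nat_lit 6) (nat_lit 8) (nat_lit 12) L3982838 (by decide +kernel)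
theorem L3982840 : W_2 (nat_lit 5) (nat_lit 0x800080004000200010000c0008000000000000000000000000000) (nat_lit 0x0) (nat_lit 0x80007000300000000800040002000000000000000000000000000000000000) := T_2 (nat_lit 212) (nat_lit 228) (nat_lit 5) (nat_lit 8) (nat_lit 9) L3982839 (by decide +kernel)
theorem L3982841 : W_2 (nat_lit 6) (nat_lit 0x80004000200010000c0008000000000000000000000000000) (nat_lit 0x0) (nat_lit 0x80007000380004000800040002000000000000000000000000000000000000) := T_2 (nat_lit 211) (nat_lit 194) (nat_lit 5) (nat_lit 8) (nat_lit 8) L3982840 (by decide +kernel)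
theorem L3982842 : W_2 (nat_lit 7) (nat_lit 0x4000200010000c0008000000000000000000000000000) (nat_lit 0x0) (nat_lit 0x8000700038000c000800040002800000000000000000000000000000000000) := T_2 (nat_lit 195) (nat_lit 143) (nat_lit 4) (nat_lit 8) (nat_lit 11) L3982841 (by decide +kernel)
theorem L3982843 : W_2 (nat_lit 8) (nat_lit 0x400020001000080008000000000000000000000000000) (nat_lit 0x0) (nat_lit 0x8000700038000c000800040002800040002000000000000000000000000000) := T_2 (nat_lit 126) (nat_lit 109) (nat_lit 4) (nat_lit 8) (nat_lit 10) L3982842 (by decide +kernel)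
theorem L3982844 : W_2 (nat_lit 9) (nat_lit 0x400020001000080000000000000000000000000000000) (nat_lit 0x0) (nat_lit 0x8000700038000c00080004000280014000a000000000000000000000000000) := T_2 (nat_lit 111) (nat_lit 128) (nat_lit 6) (nat_lit 8) (nat_lit 10) L3982843 (by decide +kernel)
theorem L3982845 : W_2 (nat_lit 15) (nat_lit 0x20001000080000000000000000000000000000000) (nat_lit 0x0) (nat_lit 0x800070003801dc007c0015003ae00f700fa002800140000000000000000000) := Q_2 (nat_lit 178) (C_2 L3982825 (C_2 L34786 (C_2 L3982836 (C_2 L35905 (C_2 L3982844 N_2))))) (by decide +kernel)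
theorem L3982846 : W_2 (nat_lit 2) (nat_lit 0x1000300008000400030001000180002000000000000000000000000000) (nat_lit 0x0) (nat_lit 0x20002000000000000200000000000000000000000000000000000000000000) := D_2 (nat_lit 229) (nat_lit 245) (nat_lit 177) (nat_lit 5) (nat_lit 8) (nat_lit 10) (nat_lit 4) (nat_lit 8) (nat_lit 13) (by decide +kernel)
theorem L3982847 : W_2 (nat_lit 3) (nat_lit 0x1000300008000400020001000180002000000000000000000000000000) (nat_lit 0x0) (nat_lit 0x20002000000000000200010000800000000000000000000000000000000000) := T_2 (nat_lit 160) (nat_lit 143) (nat_lit 4) (nat_lit 8) (nat_lit 12) L3982846 (by decide +kernel)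
theorem L3982848 : W_2 (nat_lit 4) (nat_lit 0x300008000400020001000180002000000000000000000000000000) (nat_lit 0x0) (nat_lit 0x20003000080000000200010000800000000000000000000000000000000000) := T_2 (nat_lit 228) (nat_lit 211) (nat_lit 5) (nat_lit 8) (nat_lit 9) L3982847 (by decide +kernel)
theorem L3982849 : W_2 (nat_lit 5) (nat_lit 0x200008000400020001000180002000000000000000000000000000) (nat_lit 0x0) (nat_lit 0x20007000180000000200010000800000000000000000000000000000000000) := T_2 (nat_lit 212) (nat_lit 230) (nat_lit 7) (nat_lit 8) (nat_lit 9) L3982848 (by decide +kernel)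
theorem L3982850 : W_2 (nat_lit 6) (nat_lit 0x8000400020001000180002000000000000000000000000000) (nat_lit 0x0) (nat_lit 0x20007000380010000200010000800000000000000000000000000000000000) := T_2 (nat_lit 213) (nat_lit 196) (nat_lit 7) (nat_lit 8) (nat_lit 8) L3982849 (by decide +kernel)
theorem L3982851 : W_2 (nat_lit 7) (nat_lit 0x400020001000180002000000000000000000000000000) (nat_lit 0x0) (nat_lit 0x20007000380018000200010002800000000000000000000000000000000000) := T_2 (nat_lit 195) (nat_lit 145) (nat_lit 6) (nat_lit 8) (nat_lit 11) L3982850 (by decide +kernel)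
theorem L3982852 : W_2 (nat_lit 8) (nat_lit 0x400020001000180000000000000000000000000000000) (nat_lit 0x0) (nat_lit 0x20007000380018000200010002800040002000000000000000000000000000) := T_2 (nat_lit 109) (nat_lit 126) (nat_lit 4) (nat_lit 8) (nat_lit 10) L3982851 (by decide +kernel)
theorem L3982853 : W_2 (nat_lit 9) (nat_lit 0x400020001000080000000000000000000000000000000) (nat_lit 0x0) (nat_lit 0x2000700038001800020001000280014000a000000000000000000000000000) := T_2 (nat_lit 128) (nat_lit 111) (nat_lit 6) (nat_lit 8) (nat_lit 10) L3982852 (by decide +kernel)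
theorem L3982854 : W_2 (nat_lit 12) (nat_lit 0x20001000080000000000000000000000000000000) (nat_lit 0x0) (nat_lit 0x2000700038001e0007801d003af00f7807bc00000000000000000000000000) := Q_2 (nat_lit 178) (C_2 L3982836 (C_2 L3982828 (C_2 L3982773 (C_2 L35529 (C_2 L3982853 N_2))))) (by decide +kernel)
theorem L3982864 : W_2 (nat_lit 2) (nat_lit 0x900078003c00080000000000000000000000000000000) (nat_lit 0x0) (nat_lit 0x2000000000000000040002000000000000000000000000000) := D_2 (nat_lit 126) (nat_lit 109) (nat_lit 193) (nat_lit 5) (nat_lit 7) (nat_lit 6) (nat_lit 6) (nat_lit 6) (nat_lit 11) (by decide +kernel)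
theorem L3982865 : W_2 (nat_lit 3) (nat_lit 0x800078003c00080000000000000000000000000000000) (nat_lit 0x0) (nat_lit 0x2000180000000000040002000000000000000000000000000) := T_2 (nat_lit 176) (nat_lit 175) (nat_lit 1) (nat_lit 9) (nat_lit 9) L3982864 (by decide +kernel)
theorem L3982866 : W_2 (nat_lit 4) (nat_lit 0x800068003c00080000000000000000000000000000000) (nat_lit 0x0) (nat_lit 0x2001180010000000040002000000000000000000000000000) := T_2 (nat_lit 160) (nat_lit 180) (nat_lit 3) (nat_lit 6) (nat_lit 9) L3982865 (by decide +kernel)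
theorem L3982867 : W_2 (nat_lit 5) (nat_lit 0x68003c00080000000000000000000000000000000) (nat_lit 0x0) (nat_lit 0x12001980010000000040002000000000000000000000000000) := T_2 (nat_lit 179) (nat_lit 196) (nat_lit 4) (nat_lit 9) (nat_lit 11) L3982866 (by decide +kernel)
theorem L3982868 : W_2 (nat_lit 6) (nat_lit 0x60003c00080000000000000000000000000000000) (nat_lit 0x0) (nat_lit 0x1200198001c000000040002000000000000000000000000000) := T_2 (nat_lit 159) (nat_lit 158) (nat_lit 1) (nat_lit 9) (nat_lit 8) L3982867 (by decide +kernel)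
theorem L3982911 : W_2 (nat_lit 2) (nat_lit 0x100078001c00080000000000000000000000000000000) (nat_lit 0x0) (nat_lit 0x2000000000000000040002000000000000000000000000000) := D_2 (nat_lit 126) (nat_lit 109) (nat_lit 193) (nat_lit 5) (nat_lit 7) (nat_lit 6) (nat_lit 6) (nat_lit 6) (nat_lit 11) (by decide +kernel)
theorem L3982993 : W_2 (nat_lit 2) (nat_lit 0x28001c001c0002000000000000000000000000000) (nat_lit 0x0) (nat_lit 0x2000100010000000000000000000000000000000000000000) := D_2 (nat_lit 176) (nat_lit 193) (nat_lit 160) (nat_lit 6) (nat_lit 6) (nat_lit 11) (nat_lit 5) (nat_lit 7) (nat_lit 6) (by decide +kernel)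
theorem L3982994 : W_2 (nat_lit 3) (nat_lit 0x28001c001c0000000000000000000000000000000) (nat_lit 0x0) (nat_lit 0x2000100010000000000002000100000000000000000000000) := T_2 (nat_lit 109) (nat_lit 92) (nat_lit 7) (nat_lit 7) (nat_lit 5) L3982993 (by decide +kernel)
theorem L3983254 : W_2 (nat_lit 4) (nat_lit 0x28001c000c0000000000000000000000000000000) (nat_lit 0x0) (nat_lit 0x2000100010000000300002000100000000000000000000000) := T_2 (nat_lit 128) (nat_lit 129) (nat_lit 1) (nat_lit 10) (nat_lit 7) L3982994 (by decide +kernel)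
theorem L3983311 : W_2 (nat_lit 2) (nat_lit 0x68001c00080000000000000000000000000000000) (nat_lit 0x0) (nat_lit 0x190000000000000000000000000000000000000000) := D_2 (nat_lit 163) (nat_lit 160) (nat_lit 164) (nat_lit 0) (nat_lit 10) (nat_lit 9) (nat_lit 0) (nat_lit 11) (nat_lit 9) (by decide +kernel)
theorem L3983313 : W_2 (nat_lit 2) (nat_lit 0x100038001c00080000000000000000000000000000000) (nat_lit 0x0) (nat_lit 0x800c0000000000000000000000000000000000000000) := D_2 (nat_lit 162) (nat_lit 163) (nat_lit 175) (nat_lit 0) (nat_lit 10) (nat_lit 9) (nat_lit 1) (nat_lit 9) (nat_lit 9) (by decide +kernel)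
theorem L3986436 : W_2 (nat_lit 2) (nat_lit 0x300038001c00080000000000000000000000000000000) (nat_lit 0x0) (nat_lit 0xc0040000000000000000000000000000000000000000) := D_2 (nat_lit 175) (nat_lit 174) (nat_lit 162) (nat_lit 2) (nat_lit 4) (nat_lit 10) (nat_lit 1) (nat_lit 9) (nat_lit 9) (by decide +kernel)
theorem L3986437 : W_2 (nat_lit 3) (nat_lit 0x100038001c00080000000000000000000000000000000) (nat_lit 0x0) (nat_lit 0x40002c0040000000000000000000000000000000000000000) := T_2 (nat_lit 177) (nat_lit 194) (nat_lit 6) (nat_lit 7) (nat_lit 11) L3986436 (by decide +kernel)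
theorem L3995701 : W_2 (nat_lit 2) (nat_lit 0x20001a001c0038000500000000000000000000000) (nat_lit 0x0) (nat_lit 0xa80000000000000000000000) := D_2 (nat_lit 93) (nat_lit 95) (nat_lit 91) (nat_lit 3) (nat_lit 7) (nat_lit 5) (nat_lit 3) (nat_lit 6) (nat_lit 5) (by decide +kernel)
theorem L3995702 : W_2 (nat_lit 3) (nat_lit 0x20001a001c0038000400000000000000000000000) (nat_lit 0x0) (nat_lit 0x2000b80000000000000000000000) := T_2 (nat_lit 92) (nat_lit 109) (nat_lit 7) (nat_lit 7) (nat_lit 5) L3995701 (by decide +kernel)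
theorem L4008291 : W_2 (nat_lit 3) (nat_lit 0x78001c00080000000000000000000000000000000) (nat_lit 0x0) (nat_lit 0x2000180000000000040002000000000000000000000000000) := T_2 (nat_lit 176) (nat_lit 175) (nat_lit 1) (nat_lit 9) (nat_lit 9) L3982911 (by decide +kernel)
theorem L4020168 : W_2 (nat_lit 2) (nat_lit 0x7c001c000a0000000000000000000000000000000) (nat_lit 0x0) (nat_lit 0x1c0000000000000000000000000000000000000000000) := D_2 (nat_lit 175) (nat_lit 174) (nat_lit 176) (nat_lit 1) (nat_lit 8) (nat_lit 9) (nat_lit 1) (nat_lit 9) (nat_lit 9) (by decide +kernel)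
theorem L4029603 : W_2 (nat_lit 2) (nat_lit 0x3c001a000c0002000080000000000000000000000) (nat_lit 0x0) (nat_lit 0x40000400100000000000000000000000000000000) := D_2 (nat_lit 142) (nat_lit 162) (nat_lit 128) (nat_lit 3) (nat_lit 5) (nat_lit 8) (nat_lit 2) (nat_lit 5) (nat_lit 8) (by decide +kernel)
theorem L4029604 : W_2 (nat_lit 3) (nat_lit 0x3c0018000c0002000080000000000000000000000) (nat_lit 0x0) (nat_lit 0x40000700100000000000000000000000000000000) := T_2 (nat_lit 141) (nat_lit 140) (nat_lit 0) (nat_lit 8) (nat_lit 9) L4029603 (by decide +kernel)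
theorem L4029605 : W_2 (nat_lit 4) (nat_lit 0x3c0018000c0002000000000000000000000000000) (nat_lit 0x0) (nat_lit 0x40000700100001000080000000000000000000000) := T_2 (nat_lit 91) (nat_lit 108) (nat_lit 4) (nat_lit 7) (nat_lit 9) L4029604 (by decide +kernel)
theorem L4029606 : W_2 (nat_lit 5) (nat_lit 0x380018000c0002000000000000000000000000000) (nat_lit 0x0) (nat_lit 0x46000700100001000080000000000000000000000) := T_2 (nat_lit 158) (nat_lit 157) (nat_lit 2) (nat_lit 4) (nat_lit 9) L4029605 (by decide +kernel)
theorem L4029607 : W_2 (nat_lit 6) (nat_lit 0x300018000c0002000000000000000000000000000) (nat_lit 0x0) (nat_lit 0x10004e000700100001000080000000000000000000000) := T_2 (nat_lit 159) (nat_lit 176) (nat_lit 5) (nat_lit 7) (nat_lit 6) L4029606 (by decide +kernel)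
theorem L4035214 : W_2 (nat_lit 3) (nat_lit 0x3c001c000a0000000000000000000000000000000) (nat_lit 0x0) (nat_lit 0x1c00c0000000000000000000000000000000000000000) := T_2 (nat_lit 162) (nat_lit 163) (nat_lit 0) (nat_lit 10) (nat_lit 9) L4020168 (by decide +kernel)
theorem L4035215 : W_2 (nat_lit 4) (nat_lit 0x38001c000a0000000000000000000000000000000) (nat_lit 0x0) (nat_lit 0x1c00c6000000000000000000000000000000000000000) := T_2 (nat_lit 158) (nat_lit 157) (nat_lit 2) (nat_lit 4) (nat_lit 9) L4035214 (by decide +kernel)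
theorem L4069244 : W_2 (nat_lit 2) (nat_lit 0x2000200018003e0000000100000000000000000000000) (nat_lit 0x0) (nat_lit 0x38000000000000000000000000000) := D_2 (nat_lit 112) (nat_lit 111) (nat_lit 113) (nat_lit 2) (nat_lit 6) (nat_lit 7) (nat_lit 2) (nat_lit 7) (nat_lit 7) (by decide +kernel)
theorem L4069245 : W_2 (nat_lit 3) (nat_lit 0x2000200018001e0000000100000000000000000000000) (nat_lit 0x0) (nat_lit 0x600038000000000000000000000000000) := T_2 (nat_lit 129) (nat_lit 130) (nat_lit 1) (nat_lit 11) (nat_lit 7) L4069244 (by decide +kernel)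
theorem L4069246 : W_2 (nat_lit 4) (nat_lit 0x2000200018001e0000000000000000000000000000000) (nat_lit 0x0) (nat_lit 0x60003a000100000000000000000000000) := T_2 (nat_lit 92) (nat_lit 109) (nat_lit 7) (nat_lit 7) (nat_lit 5) L4069245 (by decide +kernel)
theorem L4069896 : W_2 (nat_lit 2) (nat_lit 0x20001c001e0009000000000000000000000000000) (nat_lit 0x0) (nat_lit 0x200010000000000000000080000000000000000000000) := D_2 (nat_lit 160) (nat_lit 177) (nat_lit 91) (nat_lit 4) (nat_lit 7) (nat_lit 10) (nat_lit 7) (nat_lit 6) (nat_lit 5) (by decide +kernel)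
theorem L4069897 : W_2 (nat_lit 3) (nat_lit 0x20001c001e0008000000000000000000000000000) (nat_lit 0x0) (nat_lit 0x200010000000000001800080000000000000000000000) := T_2 (nat_lit 108) (nat_lit 107) (nat_lit 0) (nat_lit 9) (nat_lit 7) L4069896 (by decide +kernel)
theorem L4069898 : W_2 (nat_lit 4) (nat_lit 0x200018001e0008000000000000000000000000000) (nat_lit 0x0) (nat_lit 0x200010000600000001800080000000000000000000000) := T_2 (nat_lit 142) (nat_lit 141) (nat_lit 2) (nat_lit 5) (nat_lit 8) L4069897 (by decide +kernel)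
theorem L4069900 : W_2 (nat_lit 2) (nat_lit 0x200018001e000b000000000000000000000000000) (nat_lit 0x0) (nat_lit 0x10000000000000000080004000000000000000000) := D_2 (nat_lit 91) (nat_lit 74) (nat_lit 160) (nat_lit 7) (nat_lit 6) (nat_lit 4) (nat_lit 4) (nat_lit 7) (nat_lit 9) (by decide +kernel)
theorem L4069901 : W_2 (nat_lit 3) (nat_lit 0x200018001e000a000000000000000000000000000) (nat_lit 0x0) (nat_lit 0x10000000000001800080004000000000000000000) := T_2 (nat_lit 108) (nat_lit 107) (nat_lit 0) (nat_lit 9) (nat_lit 7) L4069900 (by decide +kernel)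
theorem L4070138 : W_2 (nat_lit 2) (nat_lit 0x5000100028003c001a0000000400000000000000000000000) (nat_lit 0x0) (nat_lit 0xa0002000000000000000000000000000000000000000000000000) := D_2 (nat_lit 193) (nat_lit 211) (nat_lit 209) (nat_lit 7) (nat_lit 6) (nat_lit 8) (nat_lit 5) (nat_lit 6) (nat_lit 8) (by decide +kernel)
theorem L4070139 : W_2 (nat_lit 3) (nat_lit 0x4000100028003c001a0000000400000000000000000000000) (nat_lit 0x0) (nat_lit 0xa0003000080000000000000000000000000000000000000000000) := T_2 (nat_lit 192) (nat_lit 175) (nat_lit 5) (nat_lit 6) (nat_lit 7) L4070138 (by decide +kernel)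
theorem L4070140 : W_2 (nat_lit 4) (nat_lit 0x100028003c001a0000000400000000000000000000000) (nat_lit 0x0) (nat_lit 0xa0007000280000000000000000000000000000000000000000000) := T_2 (nat_lit 194) (nat_lit 177) (nat_lit 7) (nat_lit 6) (nat_lit 7) L4070139 (by decide +kernel)
theorem L4144377 : W_2 (nat_lit 7) (nat_lit 0x400000001800180000000000000000000000000000000) (nat_lit 0x0) (nat_lit 0x400038001c000200030000000600008000000000000000000000000000) := T_2 (nat_lit 161) (nat_lit 111) (nat_lit 6) (nat_lit 8) (nat_lit 10) L825570 (by decide +kernel)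
theorem L4200068 : W_2 (nat_lit 2) (nat_lit 0x680068003c001a0001000180000000000000000000000) (nat_lit 0x0) (nat_lit 0x800040002000000000000000000) := D_2 (nat_lit 90) (nat_lit 107) (nat_lit 73) (nat_lit 4) (nat_lit 6) (nat_lit 9) (nat_lit 4) (nat_lit 6) (nat_lit 8) (by decide +kernel)
theorem L4200069 : W_2 (nat_lit 3) (nat_lit 0x680068003c001a0001000100000000000000000000000) (nat_lit 0x0) (nat_lit 0x8000c000a000000000000000000) := T_2 (nat_lit 91) (nat_lit 75) (nat_lit 6) (nat_lit 6) (nat_lit 8) L4200068 (by decide +kernel)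
theorem L4200070 : W_2 (nat_lit 4) (nat_lit 0x680068003c001a0001000000000000000000000000000) (nat_lit 0x0) (nat_lit 0x28001c000a000000000000000000) := T_2 (nat_lit 92) (nat_lit 109) (nat_lit 6) (nat_lit 6) (nat_lit 9) L4200069 (by decide +kernel)
theorem L4200071 : W_2 (nat_lit 5) (nat_lit 0x680068003c001a0000000000000000000000000000000) (nat_lit 0x0) (nat_lit 0x100000000000038001c000a000000000000000000) := T_2 (nat_lit 108) (nat_lit 160) (nat_lit 7) (nat_lit 6) (nat_lit 6) L4200070 (by decide +kernel)
theorem L4200072 : W_2 (nat_lit 6) (nat_lit 0x680068003c00180000000000000000000000000000000) (nat_lit 0x0) (nat_lit 0x100000000300038001c000a000000000000000000) := T_2 (nat_lit 125) (nat_lit 124) (nat_lit 0) (nat_lit 9) (nat_lit 8) L4200071 (by decide +kernel)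
theorem L4201910 : W_2 (nat_lit 7) (nat_lit 0x600068003c00180000000000000000000000000000000) (nat_lit 0x0) (nat_lit 0x1800100000000300038001c000a000000000000000000) := T_2 (nat_lit 175) (nat_lit 176) (nat_lit 2) (nat_lit 5) (nat_lit 10) L4200072 (by decide +kernel)
theorem L4201911 : W_2 (nat_lit 8) (nat_lit 0x600028003c00180000000000000000000000000000000) (nat_lit 0x0) (nat_lit 0x1800d00000000300038001c000a000000000000000000) := T_2 (nat_lit 162) (nat_lit 163) (nat_lit 3) (nat_lit 6) (nat_lit 8) L4201910 (by decide +kernel)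
theorem L4201912 : W_2 (nat_lit 9) (nat_lit 0x600020003c00180000000000000000000000000000000) (nat_lit 0x0) (nat_lit 0x1800dc0000000300038001c000a000000000000000000) := T_2 (nat_lit 159) (nat_lit 158) (nat_lit 1) (nat_lit 9) (nat_lit 8) L4201911 (by decide +kernel)
theorem L4207754 : W_2 (nat_lit 10) (nat_lit 0x400020003c00180000000000000000000000000000000) (nat_lit 0x0) (nat_lit 0x40003800dc0000000300038001c000a000000000000000000) := T_2 (nat_lit 177) (nat_lit 194) (nat_lit 5) (nat_lit 8) (nat_lit 7) L4201912 (by decide +kernel)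
theorem L4207828 : W_2 (nat_lit 5) (nat_lit 0x100028003c00180000000400000000000000000000000) (nat_lit 0x0) (nat_lit 0xa0007000280000000000030000000000000000000000000000000) := T_2 (nat_lit 125) (nat_lit 124) (nat_lit 0) (nat_lit 9) (nat_lit 8) L4070140 (by decide +kernel)
theorem L4313078 : W_2 (nat_lit 2) (nat_lit 0x1f000100008003c00090000000000000000000000000000000) (nat_lit 0x0) (nat_lit 0x700000000000000000000000000000000000000000000000000000) := D_2 (nat_lit 213) (nat_lit 214) (nat_lit 212) (nat_lit 3) (nat_lit 6) (nat_lit 11) (nat_lit 3) (nat_lit 5) (nat_lit 11) (by decide +kernel)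
theorem L4313079 : W_2 (nat_lit 3) (nat_lit 0x17000100008003c00090000000000000000000000000000000) (nat_lit 0x0) (nat_lit 0x700008000080000000000000000000000000000000000000000000) := T_2 (nat_lit 195) (nat_lit 175) (nat_lit 0) (nat_lit 9) (nat_lit 11) L4313078 (by decide +kernel)
theorem L4313454 : W_2 (nat_lit 2) (nat_lit 0x200038003c00080000000000000000000000000000000) (nat_lit 0x0) (nat_lit 0x30001000000000000000000000000000) := D_2 (nat_lit 125) (nat_lit 108) (nat_lit 124) (nat_lit 7) (nat_lit 6) (nat_lit 6) (nat_lit 0) (nat_lit 9) (nat_lit 8) (by decide +kernel)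
theorem L4313634 : W_2 (nat_lit 2) (nat_lit 0x400000003c000a000100008000c000000000000000000) (nat_lit 0x0) (nat_lit 0x40002000100000000000000) := D_2 (nat_lit 73) (nat_lit 90) (nat_lit 56) (nat_lit 4) (nat_lit 6) (nat_lit 8) (nat_lit 4) (nat_lit 6) (nat_lit 7) (by decide +kernel)
theorem L4313635 : W_2 (nat_lit 3) (nat_lit 0x400000003c000a0001000080008000000000000000000) (nat_lit 0x0) (nat_lit 0x40006000500000000000000) := T_2 (nat_lit 74) (nat_lit 58) (nat_lit 6) (nat_lit 6) (nat_lit 7) L4313634 (by decide +kernel)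
theorem L4313636 : W_2 (nat_lit 4) (nat_lit 0x400000003c000a0001000080000000000000000000000) (nat_lit 0x0) (nat_lit 0x14000e000500000000000000) := T_2 (nat_lit 75) (nat_lit 92) (nat_lit 6) (nat_lit 6) (nat_lit 8) L4313635 (by decide +kernel)
theorem L4313637 : W_2 (nat_lit 5) (nat_lit 0x400000003c000a0001000000000000000000000000000) (nat_lit 0x0) (nat_lit 0x100000000000000001c000e000500000000000000) := T_2 (nat_lit 91) (nat_lit 160) (nat_lit 7) (nat_lit 6) (nat_lit 5) L4313636 (by decide +kernel)
theorem L4313638 : W_2 (nat_lit 2) (nat_lit 0x400008003c001a00010000c0000000000000000000000) (nat_lit 0x0) (nat_lit 0x2000100008000000000000000000) := D_2 (nat_lit 92) (nat_lit 109) (nat_lit 75) (nat_lit 6) (nat_lit 6) (nat_lit 9) (nat_lit 6) (nat_lit 6) (nat_lit 8) (by decide +kernel)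
theorem L4313639 : W_2 (nat_lit 3) (nat_lit 0x400008003c001a0001000040000000000000000000000) (nat_lit 0x0) (nat_lit 0x200018000a000000000000000000) := T_2 (nat_lit 91) (nat_lit 73) (nat_lit 4) (nat_lit 6) (nat_lit 8) L4313638 (by decide +kernel)
theorem L4313640 : W_2 (nat_lit 4) (nat_lit 0x400008003c001a0001000000000000000000000000000) (nat_lit 0x0) (nat_lit 0x28001c000a000000000000000000) := T_2 (nat_lit 90) (nat_lit 107) (nat_lit 4) (nat_lit 6) (nat_lit 9) L4313639 (by decide +kernel)
theorem L4313641 : W_2 (nat_lit 5) (nat_lit 0x400000003c001a0001000000000000000000000000000) (nat_lit 0x0) (nat_lit 0xc0000000000028001c000a000000000000000000) := T_2 (nat_lit 159) (nat_lit 158) (nat_lit 1) (nat_lit 9) (nat_lit 8) L4313640 (by decide +kernel)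
theorem L4313642 : W_2 (nat_lit 6) (nat_lit 0x400000003c000a0001000000000000000000000000000) (nat_lit 0x0) (nat_lit 0xc0000003000028001c000a000000000000000000) := T_2 (nat_lit 128) (nat_lit 129) (nat_lit 2) (nat_lit 6) (nat_lit 8) L4313641 (by decide +kernel)
theorem L4313643 : W_2 (nat_lit 2) (nat_lit 0x400008003c000a0001000000000000000000000000000) (nat_lit 0x0) (nat_lit 0x200010000000000000000080000000000000000000000) := D_2 (nat_lit 160) (nat_lit 91) (nat_lit 177) (nat_lit 7) (nat_lit 6) (nat_lit 5) (nat_lit 7) (nat_lit 6) (nat_lit 6) (by decide +kernel)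
theorem L4313644 : W_2 (nat_lit 3) (nat_lit 0x400000003c000a0001000000000000000000000000000) (nat_lit 0x0) (nat_lit 0x20001c000000000000000080000000000000000000000) := T_2 (nat_lit 159) (nat_lit 158) (nat_lit 1) (nat_lit 9) (nat_lit 8) L4313643 (by decide +kernel)
theorem L4313645 : W_2 (nat_lit 2) (nat_lit 0x1000700008003c001a0001000140000000000000000000000) (nat_lit 0x0) (nat_lit 0x20002000800000000000000000000000000000000000000000000) := D_2 (nat_lit 193) (nat_lit 179) (nat_lit 209) (nat_lit 1) (nat_lit 9) (nat_lit 10) (nat_lit 5) (nat_lit 6) (nat_lit 8) (by decide +kernel)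
theorem L4313646 : W_2 (nat_lit 3) (nat_lit 0x700008003c001a0001000140000000000000000000000) (nat_lit 0x0) (nat_lit 0x20003000880000000000000000000000000000000000000000000) := T_2 (nat_lit 192) (nat_lit 175) (nat_lit 5) (nat_lit 6) (nat_lit 7) L4313645 (by decide +kernel)
theorem L4313647 : W_2 (nat_lit 4) (nat_lit 0x600008003c001a0001000140000000000000000000000) (nat_lit 0x0) (nat_lit 0x20007000980000000000000000000000000000000000000000000) := T_2 (nat_lit 176) (nat_lit 194) (nat_lit 7) (nat_lit 6) (nat_lit 7) L4313646 (by decide +kernel)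
theorem L4313648 : W_2 (nat_lit 5) (nat_lit 0x600008003c001a0001000100000000000000000000000) (nat_lit 0x0) (nat_lit 0x20007000980000000000000000800040000000000000000000000) := T_2 (nat_lit 90) (nat_lit 107) (nat_lit 4) (nat_lit 6) (nat_lit 9) L4313647 (by decide +kernel)
theorem L4313649 : W_2 (nat_lit 6) (nat_lit 0x400008003c001a0001000100000000000000000000000) (nat_lit 0x0) (nat_lit 0x20007000b80010000000000000800040000000000000000000000) := T_2 (nat_lit 177) (nat_lit 160) (nat_lit 7) (nat_lit 6) (nat_lit 6) L4313648 (by decide +kernel)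
theorem L4313650 : W_2 (nat_lit 7) (nat_lit 0x400008003c001a0001000000000000000000000000000) (nat_lit 0x0) (nat_lit 0x20007000b80010000000000002800140000000000000000000000) := T_2 (nat_lit 92) (nat_lit 109) (nat_lit 6) (nat_lit 6) (nat_lit 9) L4313649 (by decide +kernel)
theorem L4313651 : W_2 (nat_lit 8) (nat_lit 0x400008003c000a0001000000000000000000000000000) (nat_lit 0x0) (nat_lit 0x20007000b80010000000300002800140000000000000000000000) := T_2 (nat_lit 128) (nat_lit 129) (nat_lit 2) (nat_lit 6) (nat_lit 8) L4313650 (by decide +kernel)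
theorem L4313652 : W_2 (nat_lit 9) (nat_lit 0x400000003c000a0001000000000000000000000000000) (nat_lit 0x0) (nat_lit 0x20007000b8001c000000300002800140000000000000000000000) := T_2 (nat_lit 159) (nat_lit 158) (nat_lit 1) (nat_lit 9) (nat_lit 8) L4313651 (by decide +kernel)
theorem L4313653 : W_2 (nat_lit 10) (nat_lit 0x400000003c000a0000000000000000000000000000000) (nat_lit 0x0) (nat_lit 0x20007000b8001c0000003000038001c000e000500000000000000) := Q_2 (nat_lit 108) (C_2 L4313637 (C_2 L4313642 (C_2 L4313644 (C_2 L4313652 N_2)))) (by decide +kernel)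
theorem L4313654 : W_2 (nat_lit 11) (nat_lit 0x400000003c00080000000000000000000000000000000) (nat_lit 0x0) (nat_lit 0x20007000b8001c0000003300038001c000e000500000000000000) := T_2 (nat_lit 125) (nat_lit 124) (nat_lit 0) (nat_lit 9) (nat_lit 8) L4313653 (by decide +kernel)
theorem L4313655 : W_2 (nat_lit 12) (nat_lit 0x3c00080000000000000000000000000000000) (nat_lit 0x0) (nat_lit 0x2000f000f8003c00000033000b8001c000e000500000000000000) := Q_2 (nat_lit 178) (C_2 L1139111 (C_2 L1474657 (C_2 L4313654 N_2))) (by decide +kernel)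
theorem L4313656 : W_2 (nat_lit 4) (nat_lit 0x800050003c00080000000000000000000000000000000) (nat_lit 0x0) (nat_lit 0x400160002c000000000000000000000000000000000000000) := T_2 (nat_lit 177) (nat_lit 194) (nat_lit 6) (nat_lit 7) (nat_lit 11) L60774 (by decide +kernel)
theorem L4313657 : W_2 (nat_lit 5) (nat_lit 0x50003c00080000000000000000000000000000000) (nat_lit 0x0) (nat_lit 0x14001e0002c000000000000000000000000000000000000000) := T_2 (nat_lit 179) (nat_lit 196) (nat_lit 4) (nat_lit 9) (nat_lit 11) L4313656 (by decide +kernel)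
theorem L4313658 : W_2 (nat_lit 6) (nat_lit 0x10003c00080000000000000000000000000000000) (nat_lit 0x0) (nat_lit 0x14001e000ec000000000000000000000000000000000000000) := T_2 (nat_lit 162) (nat_lit 163) (nat_lit 3) (nat_lit 6) (nat_lit 8) L4313657 (by decide +kernel)
theorem L4313836 : W_2 (nat_lit 2) (nat_lit 0x1000b00048003c000a0000000000000000000000000000000) (nat_lit 0x0) (nat_lit 0x20002000400000000000000000000000000000000000000000000) := D_2 (nat_lit 193) (nat_lit 178) (nat_lit 209) (nat_lit 1) (nat_lit 9) (nat_lit 10) (nat_lit 5) (nat_lit 6) (nat_lit 8) (by decide +kernel)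
theorem L4313837 : W_2 (nat_lit 3) (nat_lit 0xb00048003c000a0000000000000000000000000000000) (nat_lit 0x0) (nat_lit 0x20003000480000000000000000000000000000000000000000000) := T_2 (nat_lit 192) (nat_lit 175) (nat_lit 5) (nat_lit 6) (nat_lit 7) L4313836 (by decide +kernel)
theorem L4313838 : W_2 (nat_lit 4) (nat_lit 0xa00048003c000a0000000000000000000000000000000) (nat_lit 0x0) (nat_lit 0x20007000580000000000000000000000000000000000000000000) := T_2 (nat_lit 176) (nat_lit 194) (nat_lit 7) (nat_lit 6) (nat_lit 7) L4313837 (by decide +kernel)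
theorem L4313839 : W_2 (nat_lit 5) (nat_lit 0x200048003c000a0000000000000000000000000000000) (nat_lit 0x0) (nat_lit 0x20017000d80000000000000000000000000000000000000000000) := T_2 (nat_lit 179) (nat_lit 196) (nat_lit 4) (nat_lit 9) (nat_lit 11) L4313838 (by decide +kernel)
theorem L4313840 : W_2 (nat_lit 6) (nat_lit 0x200040003c000a0000000000000000000000000000000) (nat_lit 0x0) (nat_lit 0x20017000d8000c000000000000000000000000000000000000000) := T_2 (nat_lit 159) (nat_lit 158) (nat_lit 1) (nat_lit 9) (nat_lit 8) L4313839 (by decide +kernel)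
theorem L4313841 : W_2 (nat_lit 7) (nat_lit 0x200000003c000a0000000000000000000000000000000) (nat_lit 0x0) (nat_lit 0x20017000d800cc000000000000000000000000000000000000000) := T_2 (nat_lit 162) (nat_lit 163) (nat_lit 3) (nat_lit 6) (nat_lit 8) L4313840 (by decide +kernel)
theorem L4313842 : W_2 (nat_lit 8) (nat_lit 0x200000003c00080000000000000000000000000000000) (nat_lit 0x0) (nat_lit 0x20017000d800cc000000030000000000000000000000000000000) := T_2 (nat_lit 125) (nat_lit 124) (nat_lit 0) (nat_lit 9) (nat_lit 8) L4313841 (by decide +kernel)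
theorem L4313843 : W_2 (nat_lit 2) (nat_lit 0x200048003c000a0001000180000000000000000000000) (nat_lit 0x0) (nat_lit 0x800040002000000000000000000) := D_2 (nat_lit 90) (nat_lit 107) (nat_lit 73) (nat_lit 4) (nat_lit 6) (nat_lit 9) (nat_lit 4) (nat_lit 6) (nat_lit 8) (by decide +kernel)
theorem L4313844 : W_2 (nat_lit 3) (nat_lit 0x200048003c000a0001000100000000000000000000000) (nat_lit 0x0) (nat_lit 0x8000c000a000000000000000000) := T_2 (nat_lit 91) (nat_lit 75) (nat_lit 6) (nat_lit 6) (nat_lit 8) L4313843 (by decide +kernel)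
theorem L4313845 : W_2 (nat_lit 4) (nat_lit 0x200048003c000a0001000000000000000000000000000) (nat_lit 0x0) (nat_lit 0x28001c000a000000000000000000) := T_2 (nat_lit 92) (nat_lit 109) (nat_lit 6) (nat_lit 6) (nat_lit 9) L4313844 (by decide +kernel)
theorem L4313846 : W_2 (nat_lit 5) (nat_lit 0x200048003c000a0000000000000000000000000000000) (nat_lit 0x0) (nat_lit 0x100000000000038001c000a000000000000000000) := T_2 (nat_lit 108) (nat_lit 160) (nat_lit 7) (nat_lit 6) (nat_lit 6) L4313845 (by decide +kernel)
theorem L4313847 : W_2 (nat_lit 6) (nat_lit 0x200008003c000a0000000000000000000000000000000) (nat_lit 0x0) (nat_lit 0xd00000000000038001c000a000000000000000000) := T_2 (nat_lit 162) (nat_lit 163) (nat_lit 3) (nat_lit 6) (nat_lit 8) L4313846 (by decide +kernel)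
theorem L4313848 : W_2 (nat_lit 7) (nat_lit 0x200008003c00080000000000000000000000000000000) (nat_lit 0x0) (nat_lit 0xd00000000300038001c000a000000000000000000) := T_2 (nat_lit 125) (nat_lit 124) (nat_lit 0) (nat_lit 9) (nat_lit 8) L4313847 (by decide +kernel)
theorem L4313849 : W_2 (nat_lit 8) (nat_lit 0x200000003c00080000000000000000000000000000000) (nat_lit 0x0) (nat_lit 0xdc0000000300038001c000a000000000000000000) := T_2 (nat_lit 159) (nat_lit 158) (nat_lit 1) (nat_lit 9) (nat_lit 8) L4313848 (by decide +kernel)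
theorem L4313850 : W_2 (nat_lit 9) (nat_lit 0x3c00080000000000000000000000000000000) (nat_lit 0x0) (nat_lit 0x200ff003f800fc0000000300038001c000a000000000000000000) := Q_2 (nat_lit 177) (C_2 L58960 (C_2 L1134450 (C_2 L4313842 (C_2 L4313849 N_2)))) (by decide +kernel)
theorem L4314094 : W_2 (nat_lit 2) (nat_lit 0x4000100078003c00180000000400000000000000000000000) (nat_lit 0x0) (nat_lit 0xc0002000000000000000000000000000000000000000000000000) := D_2 (nat_lit 193) (nat_lit 210) (nat_lit 211) (nat_lit 6) (nat_lit 6) (nat_lit 12) (nat_lit 7) (nat_lit 6) (nat_lit 8) (by decide +kernel)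
theorem L4314195 : W_2 (nat_lit 11) (nat_lit 0x20003c00180000000000000000000000000000000) (nat_lit 0x0) (nat_lit 0xc0007800dc0000000300038001c000a000000000000000000) := T_2 (nat_lit 178) (nat_lit 195) (nat_lit 6) (nat_lit 8) (nat_lit 11) L4207754 (by decide +kernel)
theorem L4314196 : W_2 (nat_lit 12) (nat_lit 0x20003c00080000000000000000000000000000000) (nat_lit 0x0) (nat_lit 0xc0007800dc0000003300038001c000a000000000000000000) := T_2 (nat_lit 128) (nat_lit 129) (nat_lit 2) (nat_lit 6) (nat_lit 8) L4314195 (by decide +kernel)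
theorem L4314197 : W_2 (nat_lit 2) (nat_lit 0x200068003c000a0000000000000000000000000000000) (nat_lit 0x0) (nat_lit 0x4000500000000000000000000000000000000000000000000) := D_2 (nat_lit 194) (nat_lit 178) (nat_lit 176) (nat_lit 5) (nat_lit 8) (nat_lit 7) (nat_lit 7) (nat_lit 6) (nat_lit 7) (by decide +kernel)
theorem L4314198 : W_2 (nat_lit 3) (nat_lit 0x200068003c00080000000000000000000000000000000) (nat_lit 0x0) (nat_lit 0x4000500000000000030000000000000000000000000000000) := T_2 (nat_lit 125) (nat_lit 124) (nat_lit 0) (nat_lit 9) (nat_lit 8) L4314197 (by decide +kernel)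
theorem L4314199 : W_2 (nat_lit 4) (nat_lit 0x200028003c00080000000000000000000000000000000) (nat_lit 0x0) (nat_lit 0x40005000c0000000030000000000000000000000000000000) := T_2 (nat_lit 162) (nat_lit 163) (nat_lit 3) (nat_lit 6) (nat_lit 8) L4314198 (by decide +kernel)
theorem L4314200 : W_2 (nat_lit 5) (nat_lit 0x200020003c00080000000000000000000000000000000) (nat_lit 0x0) (nat_lit 0x40005000cc000000030000000000000000000000000000000) := T_2 (nat_lit 159) (nat_lit 158) (nat_lit 1) (nat_lit 9) (nat_lit 8) L4314199 (by decide +kernel)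
theorem L4314201 : W_2 (nat_lit 3) (nat_lit 0x200030003c00080000000000000000000000000000000) (nat_lit 0x0) (nat_lit 0xc000000030001000000000000000000000000000) := T_2 (nat_lit 159) (nat_lit 158) (nat_lit 2) (nat_lit 5) (nat_lit 9) L4313454 (by decide +kernel)
theorem L4314202 : W_2 (nat_lit 4) (nat_lit 0x200020003c00080000000000000000000000000000000) (nat_lit 0x0) (nat_lit 0x400000001c000000030001000000000000000000000000000) := T_2 (nat_lit 160) (nat_lit 194) (nat_lit 6) (nat_lit 7) (nat_lit 11) L4314201 (by decide +kernel)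
theorem L4314203 : W_2 (nat_lit 2) (nat_lit 0x200068003c000a0001000180000000000000000000000) (nat_lit 0x0) (nat_lit 0x800040002000000000000000000) := D_2 (nat_lit 90) (nat_lit 107) (nat_lit 73) (nat_lit 4) (nat_lit 6) (nat_lit 9) (nat_lit 4) (nat_lit 6) (nat_lit 8) (by decide +kernel)
theorem L4314204 : W_2 (nat_lit 3) (nat_lit 0x200068003c000a0001000100000000000000000000000) (nat_lit 0x0) (nat_lit 0x8000c000a000000000000000000) := T_2 (nat_lit 91) (nat_lit 75) (nat_lit 6) (nat_lit 6) (nat_lit 8) L4314203 (by decide +kernel)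
theorem L4314205 : W_2 (nat_lit 4) (nat_lit 0x200068003c000a0001000000000000000000000000000) (nat_lit 0x0) (nat_lit 0x28001c000a000000000000000000) := T_2 (nat_lit 92) (nat_lit 109) (nat_lit 6) (nat_lit 6) (nat_lit 9) L4314204 (by decide +kernel)
theorem L4314206 : W_2 (nat_lit 5) (nat_lit 0x200068003c000a0000000000000000000000000000000) (nat_lit 0x0) (nat_lit 0x100000000000038001c000a000000000000000000) := T_2 (nat_lit 108) (nat_lit 160) (nat_lit 7) (nat_lit 6) (nat_lit 6) L4314205 (by decide +kernel)
theorem L4314207 : W_2 (nat_lit 6) (nat_lit 0x200028003c000a0000000000000000000000000000000) (nat_lit 0x0) (nat_lit 0xd00000000000038001c000a000000000000000000) := T_2 (nat_lit 162) (nat_lit 163) (nat_lit 3) (nat_lit 6) (nat_lit 8) L4314206 (by decide +kernel)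
theorem L4314208 : W_2 (nat_lit 7) (nat_lit 0x200028003c00080000000000000000000000000000000) (nat_lit 0x0) (nat_lit 0xd00000000300038001c000a000000000000000000) := T_2 (nat_lit 125) (nat_lit 124) (nat_lit 0) (nat_lit 9) (nat_lit 8) L4314207 (by decide +kernel)
theorem L4314209 : W_2 (nat_lit 8) (nat_lit 0x200020003c00080000000000000000000000000000000) (nat_lit 0x0) (nat_lit 0xdc0000000300038001c000a000000000000000000) := T_2 (nat_lit 159) (nat_lit 158) (nat_lit 1) (nat_lit 9) (nat_lit 8) L4314208 (by decide +kernel)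
theorem L4314210 : W_2 (nat_lit 9) (nat_lit 0x20003c00080000000000000000000000000000000) (nat_lit 0x0) (nat_lit 0x40007000dc0000000300038001c000a000000000000000000) := Q_2 (nat_lit 177) (C_2 L1139010 (C_2 L4314200 (C_2 L4314202 (C_2 L4314209 N_2)))) (by decide +kernel)
theorem L4314292 : W_2 (nat_lit 3) (nat_lit 0x100078003c00180000000400000000000000000000000) (nat_lit 0x0) (nat_lit 0xc0006000200000000000000000000000000000000000000000000) := T_2 (nat_lit 194) (nat_lit 177) (nat_lit 6) (nat_lit 7) (nat_lit 11) L4314094 (by decide +kernel)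
theorem L4314293 : W_2 (nat_lit 4) (nat_lit 0x100068003c00180000000400000000000000000000000) (nat_lit 0x0) (nat_lit 0xc0006000280010000000000000000000000000000000000000000) := T_2 (nat_lit 160) (nat_lit 175) (nat_lit 1) (nat_lit 9) (nat_lit 9) L4314292 (by decide +kernel)
theorem L4314294 : W_2 (nat_lit 5) (nat_lit 0x100028003c00180000000400000000000000000000000) (nat_lit 0x0) (nat_lit 0xc00060002800d0000000000000000000000000000000000000000) := T_2 (nat_lit 162) (nat_lit 163) (nat_lit 3) (nat_lit 6) (nat_lit 8) L4314293 (by decide +kernel)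
theorem L4314295 : W_2 (nat_lit 6) (nat_lit 0x100028003c00180000000000000000000000000000000) (nat_lit 0x0) (nat_lit 0xc00060002800d0000000000008000400000000000000000000000) := T_2 (nat_lit 94) (nat_lit 111) (nat_lit 5) (nat_lit 9) (nat_lit 5) L4314294 (by decide +kernel)
theorem L4314296 : W_2 (nat_lit 7) (nat_lit 0x100028003c00080000000000000000000000000000000) (nat_lit 0x0) (nat_lit 0xc00060002800d0000000300008000400000000000000000000000) := T_2 (nat_lit 128) (nat_lit 129) (nat_lit 2) (nat_lit 6) (nat_lit 8) L4314295 (by decide +kernel)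
theorem L4314298 : W_2 (nat_lit 2) (nat_lit 0x4000100078003c00090000000000000000000000000000000) (nat_lit 0x0) (nat_lit 0xc0002000000000000000000000000000000000000000000000000) := D_2 (nat_lit 193) (nat_lit 210) (nat_lit 211) (nat_lit 6) (nat_lit 6) (nat_lit 12) (nat_lit 7) (nat_lit 6) (nat_lit 8) (by decide +kernel)
theorem L4314299 : W_2 (nat_lit 3) (nat_lit 0x100078003c00090000000000000000000000000000000) (nat_lit 0x0) (nat_lit 0xc0006000200000000000000000000000000000000000000000000) := T_2 (nat_lit 194) (nat_lit 177) (nat_lit 6) (nat_lit 7) (nat_lit 11) L4314298 (by decide +kernel)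
theorem L4314300 : W_2 (nat_lit 4) (nat_lit 0x100068003c00090000000000000000000000000000000) (nat_lit 0x0) (nat_lit 0xc0006000280010000000000000000000000000000000000000000) := T_2 (nat_lit 160) (nat_lit 175) (nat_lit 1) (nat_lit 9) (nat_lit 9) L4314299 (by decide +kernel)
theorem L4314304 : W_2 (nat_lit 6) (nat_lit 0x100028003c00180000000000000000000000000000000) (nat_lit 0x0) (nat_lit 0xa0007000280000000000030008000400000000000000000000000) := T_2 (nat_lit 94) (nat_lit 111) (nat_lit 5) (nat_lit 9) (nat_lit 5) L4207828 (by decide +kernel)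
theorem L4314305 : W_2 (nat_lit 7) (nat_lit 0x100028003c00080000000000000000000000000000000) (nat_lit 0x0) (nat_lit 0xa0007000280000000000330008000400000000000000000000000) := T_2 (nat_lit 128) (nat_lit 129) (nat_lit 2) (nat_lit 6) (nat_lit 8) L4314304 (by decide +kernel)
theorem L4314307 : W_2 (nat_lit 2) (nat_lit 0x180068003c00180000000400000000000000000000000) (nat_lit 0x0) (nat_lit 0x1000000000000000030000000000000000000000000000000) := D_2 (nat_lit 125) (nat_lit 124) (nat_lit 192) (nat_lit 0) (nat_lit 9) (nat_lit 8) (nat_lit 5) (nat_lit 6) (nat_lit 7) (by decide +kernel)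
theorem L4314308 : W_2 (nat_lit 3) (nat_lit 0x100068003c00180000000400000000000000000000000) (nat_lit 0x0) (nat_lit 0x1000080010000000030000000000000000000000000000000) := T_2 (nat_lit 175) (nat_lit 160) (nat_lit 1) (nat_lit 9) (nat_lit 9) L4314307 (by decide +kernel)
theorem L4314309 : W_2 (nat_lit 4) (nat_lit 0x100068003c00180000000000000000000000000000000) (nat_lit 0x0) (nat_lit 0x1000080010000000030008000400000000000000000000000) := T_2 (nat_lit 94) (nat_lit 111) (nat_lit 5) (nat_lit 9) (nat_lit 5) L4314308 (by decide +kernel)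
theorem L4314310 : W_2 (nat_lit 5) (nat_lit 0x100068003c00080000000000000000000000000000000) (nat_lit 0x0) (nat_lit 0x1000080010000000330008000400000000000000000000000) := T_2 (nat_lit 128) (nat_lit 129) (nat_lit 2) (nat_lit 6) (nat_lit 8) L4314309 (by decide +kernel)
theorem L4314386 : W_2 (nat_lit 6) (nat_lit 0x100028003c00080000000000000000000000000000000) (nat_lit 0x0) (nat_lit 0x10000800d0000000330008000400000000000000000000000) := T_2 (nat_lit 162) (nat_lit 163) (nat_lit 3) (nat_lit 6) (nat_lit 8) L4314310 (by decide +kernel)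
theorem L4314387 : W_2 (nat_lit 5) (nat_lit 0x100028003c00090000000000000000000000000000000) (nat_lit 0x0) (nat_lit 0xc00060002800d0000000000000000000000000000000000000000) := T_2 (nat_lit 162) (nat_lit 163) (nat_lit 3) (nat_lit 6) (nat_lit 8) L4314300 (by decide +kernel)
theorem L4314388 : W_2 (nat_lit 6) (nat_lit 0x100028003c00080000000000000000000000000000000) (nat_lit 0x0) (nat_lit 0xc00060002800d0000000030000000000000000000000000000000) := T_2 (nat_lit 124) (nat_lit 125) (nat_lit 0) (nat_lit 9) (nat_lit 8) L4314387 (by decide +kernel)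
theorem L4314389 : W_2 (nat_lit 2) (nat_lit 0x300068003c001a0001000580000000000000000000000) (nat_lit 0x0) (nat_lit 0x800040002000000000000000000) := D_2 (nat_lit 90) (nat_lit 107) (nat_lit 73) (nat_lit 4) (nat_lit 6) (nat_lit 9) (nat_lit 4) (nat_lit 6) (nat_lit 8) (by decide +kernel)
theorem L4314390 : W_2 (nat_lit 3) (nat_lit 0x300068003c001a0001000500000000000000000000000) (nat_lit 0x0) (nat_lit 0x8000c000a000000000000000000) := T_2 (nat_lit 91) (nat_lit 75) (nat_lit 6) (nat_lit 6) (nat_lit 8) L4314389 (by decide +kernel)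
theorem L4314391 : W_2 (nat_lit 4) (nat_lit 0x300068003c001a0001000400000000000000000000000) (nat_lit 0x0) (nat_lit 0x28001c000a000000000000000000) := T_2 (nat_lit 92) (nat_lit 109) (nat_lit 6) (nat_lit 6) (nat_lit 9) L4314390 (by decide +kernel)
theorem L4314392 : W_2 (nat_lit 5) (nat_lit 0x300068003c001a0000000400000000000000000000000) (nat_lit 0x0) (nat_lit 0x100000000000038001c000a000000000000000000) := T_2 (nat_lit 108) (nat_lit 160) (nat_lit 7) (nat_lit 6) (nat_lit 6) L4314391 (by decide +kernel)
theorem L4314393 : W_2 (nat_lit 6) (nat_lit 0x100068003c001a0000000400000000000000000000000) (nat_lit 0x0) (nat_lit 0x40002000100000000000038001c000a000000000000000000) := T_2 (nat_lit 177) (nat_lit 194) (nat_lit 7) (nat_lit 6) (nat_lit 7) L4314392 (by decide +kernel)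
theorem L4314394 : W_2 (nat_lit 7) (nat_lit 0x100028003c001a0000000400000000000000000000000) (nat_lit 0x0) (nat_lit 0x40002000d00000000000038001c000a000000000000000000) := T_2 (nat_lit 162) (nat_lit 163) (nat_lit 3) (nat_lit 6) (nat_lit 8) L4314393 (by decide +kernel)
theorem L4314395 : W_2 (nat_lit 8) (nat_lit 0x100028003c00180000000400000000000000000000000) (nat_lit 0x0) (nat_lit 0x40002000d00000000300038001c000a000000000000000000) := T_2 (nat_lit 125) (nat_lit 124) (nat_lit 0) (nat_lit 9) (nat_lit 8) L4314394 (by decide +kernel)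
theorem L4314396 : W_2 (nat_lit 9) (nat_lit 0x100028003c00180000000000000000000000000000000) (nat_lit 0x0) (nat_lit 0x40002000d000000003000b8005c000a000000000000000000) := T_2 (nat_lit 94) (nat_lit 111) (nat_lit 5) (nat_lit 9) (nat_lit 5) L4314395 (by decide +kernel)
theorem L4314397 : W_2 (nat_lit 10) (nat_lit 0x100028003c00080000000000000000000000000000000) (nat_lit 0x0) (nat_lit 0x40002000d000000033000b8005c000a000000000000000000) := T_2 (nat_lit 128) (nat_lit 129) (nat_lit 2) (nat_lit 6) (nat_lit 8) L4314396 (by decide +kernel)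
theorem L4314398 : W_2 (nat_lit 11) (nat_lit 0x28003c00080000000000000000000000000000000) (nat_lit 0x0) (nat_lit 0xe00070003800d000000033000b8005c000a000000000000000000) := Q_2 (nat_lit 176) (C_2 L4314296 (C_2 L4314386 (C_2 L4314388 (C_2 L4314305 (C_2 L4314397 N_2))))) (by decide +kernel)
theorem L4314399 : W_2 (nat_lit 12) (nat_lit 0x20003c00080000000000000000000000000000000) (nat_lit 0x0) (nat_lit 0xe00070003800dc00000033000b8005c000a000000000000000000) := T_2 (nat_lit 159) (nat_lit 158) (nat_lit 1) (nat_lit 9) (nat_lit 8) L4314398 (by decide +kernel)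
theorem L4314400 : W_2 (nat_lit 13) (nat_lit 0x3c00080000000000000000000000000000000) (nat_lit 0x0) (nat_lit 0xe000f0007800fc00000033000b8005c000a000000000000000000) := Q_2 (nat_lit 161) (C_2 L61169 (C_2 L4314196 (C_2 L4314210 (C_2 L4314399 N_2)))) (by decide +kernel)
theorem L4314401 : W_2 (nat_lit 14) (nat_lit 0x1c00080000000000000000000000000000000) (nat_lit 0x0) (nat_lit 0xe00ff003f800fc00200033001b800dc006e000500000000000000) := Q_2 (nat_lit 145) (C_2 L1054 (C_2 L3494636 (C_2 L1133105 (C_2 L4313655 (C_2 L4313850 (C_2 L4314400 N_2)))))) (by decide +kernel)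
theorem L4314402 : W_2 (nat_lit 15) (nat_lit 0x1800080000000000000000000000000000000) (nat_lit 0x0) (nat_lit 0xe00ff003f800ff00270073c01b800dc006e000500000000000000) := Q_2 (nat_lit 142) (C_2 L3490890 (C_2 L3494581 (C_2 L4314401 (C_2 L1322 N_2)))) (by decide +kernel)
theorem L4314636 : W_2 (nat_lit 4) (nat_lit 0x13000100008003c00090000000000000000000000000000000) (nat_lit 0x0) (nat_lit 0x78000c000080000000000000000000000000000000000000000000) := T_2 (nat_lit 194) (nat_lit 211) (nat_lit 7) (nat_lit 6) (nat_lit 8) L4313079 (by decide +kernel)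
theorem L4314637 : W_2 (nat_lit 5) (nat_lit 0x12000100008003c00090000000000000000000000000000000) (nat_lit 0x0) (nat_lit 0x7a000d000080000000000000000000000000000000000000000000) := T_2 (nat_lit 192) (nat_lit 209) (nat_lit 5) (nat_lit 6) (nat_lit 8) L4314636 (by decide +kernel)
theorem L4314641 : W_2 (nat_lit 2) (nat_lit 0x1f000100008003c00180000000000000000000000000000000) (nat_lit 0x0) (nat_lit 0x700000000000000000000000000000000000000000000000000000) := D_2 (nat_lit 213) (nat_lit 214) (nat_lit 212) (nat_lit 3) (nat_lit 6) (nat_lit 11) (nat_lit 3) (nat_lit 5) (nat_lit 11) (by decide +kernel)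
theorem L4314642 : W_2 (nat_lit 3) (nat_lit 0x17000100008003c00180000000000000000000000000000000) (nat_lit 0x0) (nat_lit 0x700008000080000000000000000000000000000000000000000000) := T_2 (nat_lit 195) (nat_lit 175) (nat_lit 0) (nat_lit 9) (nat_lit 11) L4314641 (by decide +kernel)
theorem L4314643 : W_2 (nat_lit 4) (nat_lit 0x13000100008003c00180000000000000000000000000000000) (nat_lit 0x0) (nat_lit 0x78000c000080000000000000000000000000000000000000000000) := T_2 (nat_lit 194) (nat_lit 211) (nat_lit 7) (nat_lit 6) (nat_lit 8) L4314642 (by decide +kernel)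
theorem L4314644 : W_2 (nat_lit 5) (nat_lit 0x12000100008003c00180000000000000000000000000000000) (nat_lit 0x0) (nat_lit 0x7a000d000080000000000000000000000000000000000000000000) := T_2 (nat_lit 192) (nat_lit 209) (nat_lit 5) (nat_lit 6) (nat_lit 8) L4314643 (by decide +kernel)
theorem L4314665 : W_2 (nat_lit 2) (nat_lit 0x14000180008003c001a0000000000000000000000000000000) (nat_lit 0x0) (nat_lit 0x8000a000000000000000000000000000000000000000000000000) := D_2 (nat_lit 193) (nat_lit 195) (nat_lit 211) (nat_lit 0) (nat_lit 9) (nat_lit 11) (nat_lit 7) (nat_lit 6) (nat_lit 8) (by decide +kernel)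
theorem L4314666 : W_2 (nat_lit 3) (nat_lit 0x10000180008003c001a0000000000000000000000000000000) (nat_lit 0x0) (nat_lit 0x8000e000200000000000000000000000000000000000000000000) := T_2 (nat_lit 194) (nat_lit 177) (nat_lit 7) (nat_lit 6) (nat_lit 7) L4314665 (by decide +kernel)
theorem L4314667 : W_2 (nat_lit 4) (nat_lit 0x10000100008003c001a0000000000000000000000000000000) (nat_lit 0x0) (nat_lit 0x8000f000280000000000000000000000000000000000000000000) := T_2 (nat_lit 175) (nat_lit 192) (nat_lit 5) (nat_lit 6) (nat_lit 7) L4314666 (by decide +kernel)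
theorem L4314668 : W_2 (nat_lit 5) (nat_lit 0x10000100008003c000a0000000000000000000000000000000) (nat_lit 0x0) (nat_lit 0x8000f000280000000000300000000000000000000000000000000) := T_2 (nat_lit 128) (nat_lit 129) (nat_lit 2) (nat_lit 6) (nat_lit 8) L4314667 (by decide +kernel)
theorem L4314669 : W_2 (nat_lit 6) (nat_lit 0x10000100008003c00080000000000000000000000000000000) (nat_lit 0x0) (nat_lit 0x8000f000280000000000330000000000000000000000000000000) := T_2 (nat_lit 125) (nat_lit 124) (nat_lit 0) (nat_lit 9) (nat_lit 8) L4314668 (by decide +kernel)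
theorem L4314671 : W_2 (nat_lit 6) (nat_lit 0x10000100008003c00090000000000000000000000000000000) (nat_lit 0x0) (nat_lit 0x7a000f000080000000000040000000000000000000000000000000) := T_2 (nat_lit 193) (nat_lit 126) (nat_lit 6) (nat_lit 6) (nat_lit 11) L4314637 (by decide +kernel)
theorem L4314672 : W_2 (nat_lit 7) (nat_lit 0x10000100008003c00080000000000000000000000000000000) (nat_lit 0x0) (nat_lit 0x7a000f000080000000000070000000000000000000000000000000) := T_2 (nat_lit 124) (nat_lit 125) (nat_lit 0) (nat_lit 9) (nat_lit 8) L4314671 (by decide +kernel)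
theorem L4314674 : W_2 (nat_lit 6) (nat_lit 0x10000100008003c00180000000000000000000000000000000) (nat_lit 0x0) (nat_lit 0x7a000f000080000000000040000000000000000000000000000000) := T_2 (nat_lit 193) (nat_lit 126) (nat_lit 6) (nat_lit 6) (nat_lit 11) L4314644 (by decide +kernel)
theorem L4314675 : W_2 (nat_lit 7) (nat_lit 0x10000100008003c00080000000000000000000000000000000) (nat_lit 0x0) (nat_lit 0x7a000f000080000000000340000000000000000000000000000000) := T_2 (nat_lit 128) (nat_lit 129) (nat_lit 2) (nat_lit 6) (nat_lit 8) L4314674 (by decide +kernel)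
theorem L4314717 : W_2 (nat_lit 2) (nat_lit 0x10000100008003c001c0000000000000000000000000000000) (nat_lit 0x0) (nat_lit 0x20002000100000000000000000000000) := D_2 (nat_lit 109) (nat_lit 125) (nat_lit 92) (nat_lit 6) (nat_lit 6) (nat_lit 10) (nat_lit 5) (nat_lit 7) (nat_lit 5) (by decide +kernel)
theorem L4314718 : W_2 (nat_lit 3) (nat_lit 0x10000100008003c00180000000000000000000000000000000) (nat_lit 0x0) (nat_lit 0x2000000000000000060002000100000000000000000000000) := T_2 (nat_lit 126) (nat_lit 193) (nat_lit 6) (nat_lit 6) (nat_lit 11) L4314717 (by decide +kernel)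
theorem L4314719 : W_2 (nat_lit 4) (nat_lit 0x10000100008003c00080000000000000000000000000000000) (nat_lit 0x0) (nat_lit 0x2000000000000000360002000100000000000000000000000) := T_2 (nat_lit 128) (nat_lit 129) (nat_lit 2) (nat_lit 6) (nat_lit 8) L4314718 (by decide +kernel)
theorem L4314720 : W_2 (nat_lit 2) (nat_lit 0x10000380008003c001e0008800000000000000000000000000) (nat_lit 0x0) (nat_lit 0x20000000000000000400020000000000000000000) := D_2 (nat_lit 94) (nat_lit 77) (nat_lit 161) (nat_lit 5) (nat_lit 9) (nat_lit 4) (nat_lit 5) (nat_lit 9) (nat_lit 5) (by decide +kernel)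
theorem L4314721 : W_2 (nat_lit 3) (nat_lit 0x10000380008003c001e0000800000000000000000000000000) (nat_lit 0x0) (nat_lit 0x20000000000018000400020000000000000000000) := T_2 (nat_lit 111) (nat_lit 112) (nat_lit 2) (nat_lit 6) (nat_lit 7) L4314720 (by decide +kernel)
theorem L4314722 : W_2 (nat_lit 4) (nat_lit 0x10000380008003c001e0000000000000000000000000000000) (nat_lit 0x0) (nat_lit 0x20000000000019800400020000000000000000000) := T_2 (nat_lit 107) (nat_lit 108) (nat_lit 0) (nat_lit 9) (nat_lit 7) L4314721 (by decide +kernel)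
theorem L4314723 : W_2 (nat_lit 5) (nat_lit 0x10000180008003c001e0000000000000000000000000000000) (nat_lit 0x0) (nat_lit 0x4000200020000000000019800400020000000000000000000) := T_2 (nat_lit 177) (nat_lit 194) (nat_lit 7) (nat_lit 6) (nat_lit 7) L4314722 (by decide +kernel)
theorem L4314724 : W_2 (nat_lit 6) (nat_lit 0x10000180008003c001a0000000000000000000000000000000) (nat_lit 0x0) (nat_lit 0x400020002000000004001b800400020000000000000000000) := T_2 (nat_lit 126) (nat_lit 109) (nat_lit 6) (nat_lit 6) (nat_lit 10) L4314723 (by decide +kernel)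
theorem L4314725 : W_2 (nat_lit 7) (nat_lit 0x10000100008003c001a0000000000000000000000000000000) (nat_lit 0x0) (nat_lit 0x500028002000000004001b800400020000000000000000000) := T_2 (nat_lit 175) (nat_lit 192) (nat_lit 5) (nat_lit 6) (nat_lit 7) L4314724 (by decide +kernel)
theorem L4314726 : W_2 (nat_lit 8) (nat_lit 0x10000100008003c000a0000000000000000000000000000000) (nat_lit 0x0) (nat_lit 0x500028002000000034001b800400020000000000000000000) := T_2 (nat_lit 128) (nat_lit 129) (nat_lit 2) (nat_lit 6) (nat_lit 8) L4314725 (by decide +kernel)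
theorem L4314727 : W_2 (nat_lit 9) (nat_lit 0x10000100008003c00080000000000000000000000000000000) (nat_lit 0x0) (nat_lit 0x500028002000000037001b800400020000000000000000000) := T_2 (nat_lit 125) (nat_lit 124) (nat_lit 0) (nat_lit 9) (nat_lit 8) L4314726 (by decide +kernel)
theorem L4314728 : W_2 (nat_lit 10) (nat_lit 0x10000000008003c00080000000000000000000000000000000) (nat_lit 0x0) (nat_lit 0x7a000f00038002000000037001b800500020000000000000000000) := Q_2 (nat_lit 176) (C_2 L4314675 (C_2 L4314672 (C_2 L4314669 (C_2 L4314719 (C_2 L4314727 N_2))))) (by decide +kernel)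
theorem L4314729 : W_2 (nat_lit 11) (nat_lit 0x10000000000003c00080000000000000000000000000000000) (nat_lit 0x0) (nat_lit 0x7a000f00038002c00000037001b800500020000000000000000000) := T_2 (nat_lit 159) (nat_lit 158) (nat_lit 1) (nat_lit 9) (nat_lit 8) L4314728 (by decide +kernel)
theorem L4314730 : W_2 (nat_lit 12) (nat_lit 0x3c00080000000000000000000000000000000) (nat_lit 0x0) (nat_lit 0x7a001f000b800ec00000037001b800500020000000000000000000) := Q_2 (nat_lit 196) (C_2 L56882 (C_2 L4314729 N_2)) (by decide +kernel)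
theorem L4315763 : W_2 (nat_lit 2) (nat_lit 0x40003c001a0008000000000000000000000000000) (nat_lit 0x0) (nat_lit 0x40010000800000000000000000000000) := D_2 (nat_lit 112) (nat_lit 126) (nat_lit 95) (nat_lit 2) (nat_lit 6) (nat_lit 7) (nat_lit 6) (nat_lit 9) (nat_lit 9) (by decide +kernel)
theorem L4315764 : W_2 (nat_lit 3) (nat_lit 0x3c001a0008000000000000000000000000000) (nat_lit 0x0) (nat_lit 0xc0000000040010000800000000000000000000000) := T_2 (nat_lit 162) (nat_lit 163) (nat_lit 3) (nat_lit 6) (nat_lit 8) L4315763 (by decide +kernel)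
theorem L4315765 : W_2 (nat_lit 4) (nat_lit 0x3c00180008000000000000000000000000000) (nat_lit 0x0) (nat_lit 0xc0000000070010000800000000000000000000000) := T_2 (nat_lit 125) (nat_lit 124) (nat_lit 0) (nat_lit 9) (nat_lit 8) L4315764 (by decide +kernel)
theorem L4315766 : W_2 (nat_lit 5) (nat_lit 0x3c00180000000000000000000000000000000) (nat_lit 0x0) (nat_lit 0xe0000000070018000c00020000000000000000000) := Q_2 (nat_lit 111) (C_2 L61284 (C_2 L4315765 N_2)) (by decide +kernel)
theorem L4315767 : W_2 (nat_lit 6) (nat_lit 0x8003c001a0000000000000000000000000000000) (nat_lit 0x0) (nat_lit 0x34001a000f0000000000001000000000000000000000000000) := T_2 (nat_lit 162) (nat_lit 163) (nat_lit 3) (nat_lit 6) (nat_lit 8) L1095 (by decide +kernel)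
theorem L4315768 : W_2 (nat_lit 7) (nat_lit 0x3c001a0000000000000000000000000000000) (nat_lit 0x0) (nat_lit 0x34001a000fc000000000001000000000000000000000000000) := T_2 (nat_lit 159) (nat_lit 158) (nat_lit 1) (nat_lit 9) (nat_lit 8) L4315767 (by decide +kernel)
theorem L4315772 : W_2 (nat_lit 4) (nat_lit 0x1c001a0001000000000000000000000000000) (nat_lit 0x0) (nat_lit 0x8000000050000800040002000100000000000000) := T_2 (nat_lit 107) (nat_lit 126) (nat_lit 0) (nat_lit 9) (nat_lit 7) L3455028 (by decide +kernel)
theorem L4315773 : W_2 (nat_lit 7) (nat_lit 0x1c001a0001000000000000000000000000000) (nat_lit 0x0) (nat_lit 0x1000000005000080018000e000700008000000000) := T_2 (nat_lit 107) (nat_lit 126) (nat_lit 0) (nat_lit 9) (nat_lit 7) L3455033 (by decide +kernel)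
theorem L4315774 : W_2 (nat_lit 2) (nat_lit 0x1c001a0001000080000000000000000000000) (nat_lit 0x0) (nat_lit 0x40000800000004000000000000000000) := D_2 (nat_lit 126) (nat_lit 74) (nat_lit 107) (nat_lit 7) (nat_lit 6) (nat_lit 4) (nat_lit 0) (nat_lit 9) (nat_lit 7) (by decide +kernel)
theorem L4315775 : W_2 (nat_lit 3) (nat_lit 0x1c001a0001000000000000000000000000000) (nat_lit 0x0) (nat_lit 0x10000000040000800080004000000000000000000) := T_2 (nat_lit 91) (nat_lit 160) (nat_lit 7) (nat_lit 6) (nat_lit 5) L4315774 (by decide +kernel)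
theorem L4315776 : W_2 (nat_lit 8) (nat_lit 0x1c001a0000000000000000000000000000000) (nat_lit 0x0) (nat_lit 0x180000000500018001c000e000700008000000000) := Q_2 (nat_lit 108) (C_2 L1144501 (C_2 L4315772 (C_2 L4315773 (C_2 L4315775 N_2)))) (by decide +kernel)
theorem L4315777 : W_2 (nat_lit 8) (nat_lit 0x1c001a0000000000000000000000000000000) (nat_lit 0x0) (nat_lit 0x34001a000fc002000010001000000000000000000000000000) := T_2 (nat_lit 145) (nat_lit 124) (nat_lit 0) (nat_lit 9) (nat_lit 8) L4315768 (by decide +kernel)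
theorem L4315846 : W_2 (nat_lit 4) (nat_lit 0x1c001a0001000000000000000000000000000) (nat_lit 0x0) (nat_lit 0x80000000400008000c0002000100000000000000) := T_2 (nat_lit 107) (nat_lit 126) (nat_lit 0) (nat_lit 9) (nat_lit 7) L3455022 (by decide +kernel)
theorem L4315847 : W_2 (nat_lit 2) (nat_lit 0x8001c001a0001800000000000000000000000000) (nat_lit 0x0) (nat_lit 0x80004002000000000000000000000000000000000000) := D_2 (nat_lit 158) (nat_lit 145) (nat_lit 175) (nat_lit 1) (nat_lit 9) (nat_lit 8) (nat_lit 5) (nat_lit 6) (nat_lit 6) (by decide +kernel)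
theorem L4315848 : W_2 (nat_lit 3) (nat_lit 0x1c001a0001800000000000000000000000000) (nat_lit 0x0) (nat_lit 0x8000c002000000000000040000000000000000000000) := T_2 (nat_lit 159) (nat_lit 90) (nat_lit 4) (nat_lit 6) (nat_lit 9) L4315847 (by decide +kernel)
theorem L4315849 : W_2 (nat_lit 4) (nat_lit 0x1c001a0001000000000000000000000000000) (nat_lit 0x0) (nat_lit 0x8000c002000040000800040000000000000000000000) := T_2 (nat_lit 107) (nat_lit 126) (nat_lit 0) (nat_lit 9) (nat_lit 7) L4315848 (by decide +kernel)
theorem L4315850 : W_2 (nat_lit 6) (nat_lit 0x1c001a0000000000000000000000000000000) (nat_lit 0x0) (nat_lit 0x8001c0020000400018001c000e000500000000000000) := Q_2 (nat_lit 108) (C_2 L4315775 (C_2 L4315846 (C_2 L1144501 (C_2 L4315849 N_2)))) (by decide +kernel)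
theorem L4315851 : W_2 (nat_lit 9) (nat_lit 0x1c00180000000000000000000000000000000) (nat_lit 0x0) (nat_lit 0x34001a800fc00200007c0018001c000e000700008000000000) := Q_2 (nat_lit 125) (C_2 L58944 (C_2 L4315776 (C_2 L4315777 (C_2 L4315850 N_2)))) (by decide +kernel)
theorem L4315852 : W_2 (nat_lit 10) (nat_lit 0x1c00080000000000000000000000000000000) (nat_lit 0x0) (nat_lit 0x34001a800fc00200077c0018001c000e000700008000000000) := Q_2 (nat_lit 128) (C_2 L1076 (C_2 L121 (C_2 L4315851 N_2))) (by decide +kernel)
theorem L4315853 : W_2 (nat_lit 11) (nat_lit 0x1800080000000000000000000000000000000) (nat_lit 0x0) (nat_lit 0x36001b800ff00270077c0018001c000e000700008000000000) := Q_2 (nat_lit 142) (C_2 L3490890 (C_2 L3494581 (C_2 L4315852 (C_2 L1322 N_2)))) (by decide +kernel)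
theorem L4315854 : W_2 (nat_lit 2) (nat_lit 0xf0001a001e000d0000000040000000000000000000000) (nat_lit 0x0) (nat_lit 0x30000000020000000000000000000000000000000000000000) := D_2 (nat_lit 196) (nat_lit 197) (nat_lit 161) (nat_lit 3) (nat_lit 6) (nat_lit 10) (nat_lit 7) (nat_lit 8) (nat_lit 7) (by decide +kernel)
theorem L4315855 : W_2 (nat_lit 3) (nat_lit 0x70001a001e000d0000000040000000000000000000000) (nat_lit 0x0) (nat_lit 0x30001800020000000000000000000000000000000000000000) := T_2 (nat_lit 179) (nat_lit 180) (nat_lit 0) (nat_lit 10) (nat_lit 10) L4315854 (by decide +kernel)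
theorem L4315856 : W_2 (nat_lit 4) (nat_lit 0x30001a001e000d0000000040000000000000000000000) (nat_lit 0x0) (nat_lit 0x38001c00020000000000000000000000000000000000000000) := T_2 (nat_lit 178) (nat_lit 195) (nat_lit 7) (nat_lit 7) (nat_lit 7) L4315855 (by decide +kernel)
theorem L4315857 : W_2 (nat_lit 5) (nat_lit 0x30001a001e00090000000040000000000000000000000) (nat_lit 0x0) (nat_lit 0x38001c00020000000040002000000000000000000000000000) := T_2 (nat_lit 126) (nat_lit 109) (nat_lit 5) (nat_lit 7) (nat_lit 6) L4315856 (by decide +kernel)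
theorem L4315858 : W_2 (nat_lit 6) (nat_lit 0x300018001e00090000000040000000000000000000000) (nat_lit 0x0) (nat_lit 0x38001c00026000000040002000000000000000000000000000) := T_2 (nat_lit 157) (nat_lit 158) (nat_lit 2) (nat_lit 4) (nat_lit 9) L4315857 (by decide +kernel)
theorem L4315859 : W_2 (nat_lit 7) (nat_lit 0x200018001e00090000000040000000000000000000000) (nat_lit 0x0) (nat_lit 0x3a001d00026000000040002000000000000000000000000000) := T_2 (nat_lit 176) (nat_lit 193) (nat_lit 4) (nat_lit 6) (nat_lit 11) L4315858 (by decide +kernel)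
theorem L4315860 : W_2 (nat_lit 8) (nat_lit 0x200018001e00090000000000000000000000000000000) (nat_lit 0x0) (nat_lit 0x3a001d00026000000040002800040000000000000000000000) := T_2 (nat_lit 90) (nat_lit 107) (nat_lit 7) (nat_lit 5) (nat_lit 5) L4315859 (by decide +kernel)
theorem L4315861 : W_2 (nat_lit 9) (nat_lit 0x18001e00090000000000000000000000000000000) (nat_lit 0x0) (nat_lit 0x3e001f00026000000040002800040000000000000000000000) := T_2 (nat_lit 177) (nat_lit 194) (nat_lit 6) (nat_lit 7) (nat_lit 11) L4315860 (by decide +kernel)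
theorem L4315862 : W_2 (nat_lit 10) (nat_lit 0x18001e00080000000000000000000000000000000) (nat_lit 0x0) (nat_lit 0x3e001f00026000000058002800040000000000000000000000) := T_2 (nat_lit 124) (nat_lit 123) (nat_lit 0) (nat_lit 8) (nat_lit 8) L4315861 (by decide +kernel)
theorem L4315863 : W_2 (nat_lit 2) (nat_lit 0x40003c001e00088000000000000000000000000000000) (nat_lit 0x0) (nat_lit 0x8000000000000000040002000000000000000000000000000) := D_2 (nat_lit 126) (nat_lit 109) (nat_lit 195) (nat_lit 7) (nat_lit 7) (nat_lit 6) (nat_lit 4) (nat_lit 8) (nat_lit 11) (by decide +kernel)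
theorem L4315864 : W_2 (nat_lit 3) (nat_lit 0x3c001e00088000000000000000000000000000000) (nat_lit 0x0) (nat_lit 0x8000c00000000000040002000000000000000000000000000) := T_2 (nat_lit 178) (nat_lit 179) (nat_lit 3) (nat_lit 5) (nat_lit 9) L4315863 (by decide +kernel)
theorem L4315865 : W_2 (nat_lit 4) (nat_lit 0x38001e00088000000000000000000000000000000) (nat_lit 0x0) (nat_lit 0x8000c00006000000040002000000000000000000000000000) := T_2 (nat_lit 158) (nat_lit 157) (nat_lit 2) (nat_lit 4) (nat_lit 9) L4315864 (by decide +kernel)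
theorem L4315866 : W_2 (nat_lit 5) (nat_lit 0x18001e00088000000000000000000000000000000) (nat_lit 0x0) (nat_lit 0x8000c00066000000040002000000000000000000000000000) := T_2 (nat_lit 161) (nat_lit 162) (nat_lit 3) (nat_lit 5) (nat_lit 8) L4315865 (by decide +kernel)
theorem L4315867 : W_2 (nat_lit 6) (nat_lit 0x18001e00080000000000000000000000000000000) (nat_lit 0x0) (nat_lit 0x8000c00066000000058002000000000000000000000000000) := T_2 (nat_lit 123) (nat_lit 124) (nat_lit 0) (nat_lit 8) (nat_lit 8) L4315866 (by decide +kernel)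
theorem L4315868 : W_2 (nat_lit 2) (nat_lit 0x64003c001e00080000000000000000000000000000000) (nat_lit 0x0) (nat_lit 0x8000000000000000040002000000000000000000000000000) := D_2 (nat_lit 126) (nat_lit 195) (nat_lit 109) (nat_lit 7) (nat_lit 7) (nat_lit 7) (nat_lit 7) (nat_lit 7) (nat_lit 6) (by decide +kernel)
theorem L4315869 : W_2 (nat_lit 3) (nat_lit 0x24003c001e00080000000000000000000000000000000) (nat_lit 0x0) (nat_lit 0x8000c00000000000040002000000000000000000000000000) := T_2 (nat_lit 178) (nat_lit 179) (nat_lit 3) (nat_lit 5) (nat_lit 9) L4315868 (by decide +kernel)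
theorem L4315870 : W_2 (nat_lit 4) (nat_lit 0x20003c001e00080000000000000000000000000000000) (nat_lit 0x0) (nat_lit 0x8000cc0000000000040002000000000000000000000000000) := T_2 (nat_lit 174) (nat_lit 175) (nat_lit 1) (nat_lit 8) (nat_lit 9) L4315869 (by decide +kernel)
theorem L4315871 : W_2 (nat_lit 5) (nat_lit 0x20001c001e00080000000000000000000000000000000) (nat_lit 0x0) (nat_lit 0x8000cc0060000000040002000000000000000000000000000) := T_2 (nat_lit 161) (nat_lit 162) (nat_lit 3) (nat_lit 5) (nat_lit 8) L4315870 (by decide +kernel)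
theorem L4315872 : W_2 (nat_lit 6) (nat_lit 0x1c001e00080000000000000000000000000000000) (nat_lit 0x0) (nat_lit 0xc000ec0060000000040002000000000000000000000000000) := T_2 (nat_lit 177) (nat_lit 194) (nat_lit 6) (nat_lit 7) (nat_lit 11) L4315871 (by decide +kernel)
theorem L4315873 : W_2 (nat_lit 7) (nat_lit 0x18001e00080000000000000000000000000000000) (nat_lit 0x0) (nat_lit 0xc000ec0066000000040002000000000000000000000000000) := T_2 (nat_lit 158) (nat_lit 157) (nat_lit 2) (nat_lit 4) (nat_lit 9) L4315872 (by decide +kernel)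
theorem L4315874 : W_2 (nat_lit 2) (nat_lit 0x740038001e000d0000000040000000000000000000000) (nat_lit 0x0) (nat_lit 0x10001800000000000000000000000000000000000000000000) := D_2 (nat_lit 179) (nat_lit 196) (nat_lit 180) (nat_lit 7) (nat_lit 8) (nat_lit 7) (nat_lit 0) (nat_lit 10) (nat_lit 10) (by decide +kernel)
theorem L4315875 : W_2 (nat_lit 3) (nat_lit 0x340038001e000d0000000040000000000000000000000) (nat_lit 0x0) (nat_lit 0x18001c00000000000000000000000000000000000000000000) := T_2 (nat_lit 178) (nat_lit 195) (nat_lit 7) (nat_lit 7) (nat_lit 7) L4315874 (by decide +kernel)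
theorem L4315876 : W_2 (nat_lit 4) (nat_lit 0x340038001e000d0000000000000000000000000000000) (nat_lit 0x0) (nat_lit 0x18001c00000000000000000800040000000000000000000000) := T_2 (nat_lit 90) (nat_lit 107) (nat_lit 7) (nat_lit 5) (nat_lit 5) L4315875 (by decide +kernel)
theorem L4315877 : W_2 (nat_lit 5) (nat_lit 0x340038001e00090000000000000000000000000000000) (nat_lit 0x0) (nat_lit 0x18001c00000000000040002800040000000000000000000000) := T_2 (nat_lit 126) (nat_lit 109) (nat_lit 5) (nat_lit 7) (nat_lit 6) L4315876 (by decide +kernel)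
theorem L4315878 : W_2 (nat_lit 6) (nat_lit 0x300038001e00090000000000000000000000000000000) (nat_lit 0x0) (nat_lit 0x18001cc0000000000040002800040000000000000000000000) := T_2 (nat_lit 174) (nat_lit 175) (nat_lit 2) (nat_lit 4) (nat_lit 10) L4315877 (by decide +kernel)
theorem L4315879 : W_2 (nat_lit 7) (nat_lit 0x200038001e00090000000000000000000000000000000) (nat_lit 0x0) (nat_lit 0x1a001dc0000000000040002800040000000000000000000000) := T_2 (nat_lit 176) (nat_lit 193) (nat_lit 4) (nat_lit 6) (nat_lit 11) L4315878 (by decide +kernel)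
theorem L4315880 : W_2 (nat_lit 8) (nat_lit 0x200038001e00080000000000000000000000000000000) (nat_lit 0x0) (nat_lit 0x1a001dc0000000000058002800040000000000000000000000) := T_2 (nat_lit 124) (nat_lit 123) (nat_lit 0) (nat_lit 8) (nat_lit 8) L4315879 (by decide +kernel)
theorem L4315881 : W_2 (nat_lit 9) (nat_lit 0x38001e00080000000000000000000000000000000) (nat_lit 0x0) (nat_lit 0x1e001fc0000000000058002800040000000000000000000000) := T_2 (nat_lit 177) (nat_lit 194) (nat_lit 6) (nat_lit 7) (nat_lit 11) L4315880 (by decide +kernel)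
theorem L4315882 : W_2 (nat_lit 10) (nat_lit 0x18001e00080000000000000000000000000000000) (nat_lit 0x0) (nat_lit 0x1e001fc0060000000058002800040000000000000000000000) := T_2 (nat_lit 161) (nat_lit 162) (nat_lit 3) (nat_lit 5) (nat_lit 8) L4315881 (by decide +kernel)
theorem L4315883 : W_2 (nat_lit 2) (nat_lit 0x1c001e00090000000000000000000000000000000) (nat_lit 0x0) (nat_lit 0x100000000000000000800040000000000000000000000) := D_2 (nat_lit 107) (nat_lit 90) (nat_lit 176) (nat_lit 7) (nat_lit 5) (nat_lit 5) (nat_lit 7) (nat_lit 5) (nat_lit 6) (by decide +kernel)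
theorem L4315884 : W_2 (nat_lit 3) (nat_lit 0x18001e00090000000000000000000000000000000) (nat_lit 0x0) (nat_lit 0x100006000000000000800040000000000000000000000) := T_2 (nat_lit 158) (nat_lit 157) (nat_lit 2) (nat_lit 4) (nat_lit 9) L4315883 (by decide +kernel)
theorem L4315885 : W_2 (nat_lit 4) (nat_lit 0x18001e00080000000000000000000000000000000) (nat_lit 0x0) (nat_lit 0x100006000000018000800040000000000000000000000) := T_2 (nat_lit 124) (nat_lit 123) (nat_lit 0) (nat_lit 8) (nat_lit 8) L4315884 (by decide +kernel)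
theorem L4315886 : W_2 (nat_lit 11) (nat_lit 0x10001e00080000000000000000000000000000000) (nat_lit 0x0) (nat_lit 0x37003fc01fc006e000000058002800040000000000000000000000) := Q_2 (nat_lit 159) (C_2 L2436504 (C_2 L4315862 (C_2 L4315867 (C_2 L2433540 (C_2 L4315873 (C_2 L4315882 (C_2 L4315885 N_2))))))) (by decide +kernel)
theorem L4315887 : W_2 (nat_lit 9) (nat_lit 0x10001e00080000000000000000000000000000000) (nat_lit 0x0) (nat_lit 0x78003e000e000000038001800080000000000000000000000) := T_2 (nat_lit 177) (nat_lit 194) (nat_lit 6) (nat_lit 7) (nat_lit 11) L3433322 (by decide +kernel)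
theorem L4315888 : W_2 (nat_lit 2) (nat_lit 0x44003c001e00080000000000000000000000000000000) (nat_lit 0x0) (nat_lit 0x8000000000000000040002000000000000000000000000000) := D_2 (nat_lit 126) (nat_lit 109) (nat_lit 195) (nat_lit 7) (nat_lit 7) (nat_lit 6) (nat_lit 4) (nat_lit 8) (nat_lit 11) (by decide +kernel)
theorem L4315889 : W_2 (nat_lit 3) (nat_lit 0x4003c001e00080000000000000000000000000000000) (nat_lit 0x0) (nat_lit 0x8000c00000000000040002000000000000000000000000000) := T_2 (nat_lit 178) (nat_lit 179) (nat_lit 3) (nat_lit 5) (nat_lit 9) L4315888 (by decide +kernel)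
theorem L4315890 : W_2 (nat_lit 4) (nat_lit 0x3c001e00080000000000000000000000000000000) (nat_lit 0x0) (nat_lit 0x8000cc0000000000040002000000000000000000000000000) := T_2 (nat_lit 174) (nat_lit 175) (nat_lit 1) (nat_lit 8) (nat_lit 9) L4315889 (by decide +kernel)
theorem L4315891 : W_2 (nat_lit 5) (nat_lit 0x1c001e00080000000000000000000000000000000) (nat_lit 0x0) (nat_lit 0x8000cc0060000000040002000000000000000000000000000) := T_2 (nat_lit 161) (nat_lit 162) (nat_lit 3) (nat_lit 5) (nat_lit 8) L4315890 (by decide +kernel)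
theorem L4315892 : W_2 (nat_lit 6) (nat_lit 0x18001e00080000000000000000000000000000000) (nat_lit 0x0) (nat_lit 0x8000cc0066000000040002000000000000000000000000000) := T_2 (nat_lit 158) (nat_lit 157) (nat_lit 2) (nat_lit 4) (nat_lit 9) L4315891 (by decide +kernel)
theorem L4315893 : W_2 (nat_lit 2) (nat_lit 0x100038001e00090000000000000000000000000000000) (nat_lit 0x0) (nat_lit 0x20000800040000000000000000000000) := D_2 (nat_lit 107) (nat_lit 125) (nat_lit 90) (nat_lit 4) (nat_lit 6) (nat_lit 10) (nat_lit 7) (nat_lit 5) (nat_lit 5) (by decide +kernel)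
theorem L4315894 : W_2 (nat_lit 3) (nat_lit 0x38001e00090000000000000000000000000000000) (nat_lit 0x0) (nat_lit 0x2000100000000000020000800040000000000000000000000) := T_2 (nat_lit 176) (nat_lit 193) (nat_lit 4) (nat_lit 6) (nat_lit 11) L4315893 (by decide +kernel)
theorem L4315895 : W_2 (nat_lit 4) (nat_lit 0x38001e00080000000000000000000000000000000) (nat_lit 0x0) (nat_lit 0x2000100000000000038000800040000000000000000000000) := T_2 (nat_lit 124) (nat_lit 123) (nat_lit 0) (nat_lit 8) (nat_lit 8) L4315894 (by decide +kernel)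
theorem L4315896 : W_2 (nat_lit 5) (nat_lit 0x18001e00080000000000000000000000000000000) (nat_lit 0x0) (nat_lit 0x2000100060000000038000800040000000000000000000000) := T_2 (nat_lit 161) (nat_lit 162) (nat_lit 3) (nat_lit 5) (nat_lit 8) L4315895 (by decide +kernel)
theorem L4315897 : W_2 (nat_lit 7) (nat_lit 0x10001e00080000000000000000000000000000000) (nat_lit 0x0) (nat_lit 0xa000dc006e000000078002800040000000000000000000000) := Q_2 (nat_lit 159) (C_2 L4315885 (C_2 L4315867 (C_2 L4315892 (C_2 L4315896 N_2)))) (by decide +kernel)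
theorem L4315898 : W_2 (nat_lit 2) (nat_lit 0x68003c001e000a0000000000000000000000000000000) (nat_lit 0x0) (nat_lit 0x8000000000000000040002000000000000000000000000000) := D_2 (nat_lit 126) (nat_lit 195) (nat_lit 109) (nat_lit 7) (nat_lit 7) (nat_lit 7) (nat_lit 7) (nat_lit 7) (nat_lit 6) (by decide +kernel)
theorem L4315899 : W_2 (nat_lit 3) (nat_lit 0x28003c001e000a0000000000000000000000000000000) (nat_lit 0x0) (nat_lit 0x8000c00000000000040002000000000000000000000000000) := T_2 (nat_lit 178) (nat_lit 179) (nat_lit 3) (nat_lit 5) (nat_lit 9) L4315898 (by decide +kernel)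
theorem L4315900 : W_2 (nat_lit 4) (nat_lit 0x28001c001e000a0000000000000000000000000000000) (nat_lit 0x0) (nat_lit 0x8000c40020000000040002000000000000000000000000000) := T_2 (nat_lit 161) (nat_lit 174) (nat_lit 1) (nat_lit 8) (nat_lit 9) L4315899 (by decide +kernel)
theorem L4315901 : W_2 (nat_lit 5) (nat_lit 0x20001c001e000a0000000000000000000000000000000) (nat_lit 0x0) (nat_lit 0x9000cc0020000000040002000000000000000000000000000) := T_2 (nat_lit 175) (nat_lit 192) (nat_lit 6) (nat_lit 5) (nat_lit 11) L4315900 (by decide +kernel)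
theorem L4315902 : W_2 (nat_lit 6) (nat_lit 0x20001c001e00080000000000000000000000000000000) (nat_lit 0x0) (nat_lit 0x9000cc0020000000060003000000000000000000000000000) := T_2 (nat_lit 125) (nat_lit 108) (nat_lit 7) (nat_lit 6) (nat_lit 6) L4315901 (by decide +kernel)
theorem L4315903 : W_2 (nat_lit 7) (nat_lit 0x1c001e00080000000000000000000000000000000) (nat_lit 0x0) (nat_lit 0xd000ec0020000000060003000000000000000000000000000) := T_2 (nat_lit 177) (nat_lit 194) (nat_lit 6) (nat_lit 7) (nat_lit 11) L4315902 (by decide +kernel)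
theorem L4315904 : W_2 (nat_lit 8) (nat_lit 0x18001e00080000000000000000000000000000000) (nat_lit 0x0) (nat_lit 0xd000ec0026000000060003000000000000000000000000000) := T_2 (nat_lit 158) (nat_lit 157) (nat_lit 2) (nat_lit 4) (nat_lit 9) L4315903 (by decide +kernel)
theorem L4315905 : W_2 (nat_lit 2) (nat_lit 0x18001e000c0000000000000000000000000000000) (nat_lit 0x0) (nat_lit 0x100000000000000002000100000000000000000000000) := D_2 (nat_lit 109) (nat_lit 92) (nat_lit 176) (nat_lit 5) (nat_lit 7) (nat_lit 5) (nat_lit 5) (nat_lit 7) (nat_lit 6) (by decide +kernel)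
theorem L4315906 : W_2 (nat_lit 2) (nat_lit 0xf00018001e000c0001000000000000000000000000000) (nat_lit 0x0) (nat_lit 0x10000000060000000000000000000000000000000000000000) := D_2 (nat_lit 161) (nat_lit 162) (nat_lit 196) (nat_lit 3) (nat_lit 5) (nat_lit 8) (nat_lit 7) (nat_lit 8) (nat_lit 7) (by decide +kernel)
theorem L4315907 : W_2 (nat_lit 3) (nat_lit 0x700018001e000c0001000000000000000000000000000) (nat_lit 0x0) (nat_lit 0x10001800060000000000000000000000000000000000000000) := T_2 (nat_lit 179) (nat_lit 180) (nat_lit 0) (nat_lit 10) (nat_lit 10) L4315906 (by decide +kernel)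
theorem L4315908 : W_2 (nat_lit 4) (nat_lit 0x300018001e000c0001000000000000000000000000000) (nat_lit 0x0) (nat_lit 0x18001c00060000000000000000000000000000000000000000) := T_2 (nat_lit 178) (nat_lit 195) (nat_lit 7) (nat_lit 7) (nat_lit 7) L4315907 (by decide +kernel)
theorem L4315909 : W_2 (nat_lit 5) (nat_lit 0x300018001e000c0000000000000000000000000000000) (nat_lit 0x0) (nat_lit 0x18001c00060000000020001000000000000000000000000000) := T_2 (nat_lit 108) (nat_lit 125) (nat_lit 7) (nat_lit 6) (nat_lit 6) L4315908 (by decide +kernel)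
theorem L4315910 : W_2 (nat_lit 6) (nat_lit 0x200018001e000c0000000000000000000000000000000) (nat_lit 0x0) (nat_lit 0x1a001d00060000000020001000000000000000000000000000) := T_2 (nat_lit 176) (nat_lit 193) (nat_lit 6) (nat_lit 6) (nat_lit 11) L4315909 (by decide +kernel)
theorem L4315911 : W_2 (nat_lit 7) (nat_lit 0x18001e000c0000000000000000000000000000000) (nat_lit 0x0) (nat_lit 0x1e001f00060000000020001000000000000000000000000000) := T_2 (nat_lit 177) (nat_lit 194) (nat_lit 6) (nat_lit 7) (nat_lit 11) L4315910 (by decide +kernel)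
theorem L4315912 : W_2 (nat_lit 2) (nat_lit 0x38001e000c0000000000000000000000000000000) (nat_lit 0x0) (nat_lit 0x400000000000000002000100000000000000000000000) := D_2 (nat_lit 109) (nat_lit 178) (nat_lit 92) (nat_lit 7) (nat_lit 7) (nat_lit 6) (nat_lit 7) (nat_lit 7) (nat_lit 5) (by decide +kernel)
theorem L4315913 : W_2 (nat_lit 3) (nat_lit 0x18001e000c0000000000000000000000000000000) (nat_lit 0x0) (nat_lit 0x400060000000000002000100000000000000000000000) := T_2 (nat_lit 161) (nat_lit 162) (nat_lit 3) (nat_lit 5) (nat_lit 8) L4315912 (by decide +kernel)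
theorem L4315914 : W_2 (nat_lit 8) (nat_lit 0x18001e00080000000000000000000000000000000) (nat_lit 0x0) (nat_lit 0x1e001f00060000000060003000100000000000000000000000) := Q_2 (nat_lit 126) (C_2 L4315905 (C_2 L4315911 (C_2 L4315913 N_2))) (by decide +kernel)
theorem L4315915 : W_2 (nat_lit 2) (nat_lit 0x100018001e00080000000000000000000000000000000) (nat_lit 0x0) (nat_lit 0x2000000000000000040002000000000000000000000000000) := D_2 (nat_lit 126) (nat_lit 109) (nat_lit 193) (nat_lit 5) (nat_lit 7) (nat_lit 6) (nat_lit 6) (nat_lit 6) (nat_lit 11) (by decide +kernel)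
theorem L4315916 : W_2 (nat_lit 2) (nat_lit 0x38001a001e000a0002000000000000000000000000000) (nat_lit 0x0) (nat_lit 0x60001000000000000000000000000000000000000000) := D_2 (nat_lit 174) (nat_lit 173) (nat_lit 156) (nat_lit 2) (nat_lit 3) (nat_lit 10) (nat_lit 0) (nat_lit 7) (nat_lit 10) (by decide +kernel)
theorem L4315917 : W_2 (nat_lit 3) (nat_lit 0x30001a001e000a0002000000000000000000000000000) (nat_lit 0x0) (nat_lit 0x10000e0001000000000000000000000000000000000000000) := T_2 (nat_lit 175) (nat_lit 192) (nat_lit 5) (nat_lit 6) (nat_lit 7) L4315916 (by decide +kernel)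
theorem L4315918 : W_2 (nat_lit 4) (nat_lit 0x30001a001e00080002000000000000000000000000000) (nat_lit 0x0) (nat_lit 0x10000e0001000000020001000000000000000000000000000) := T_2 (nat_lit 125) (nat_lit 108) (nat_lit 7) (nat_lit 6) (nat_lit 6) L4315917 (by decide +kernel)
theorem L4315919 : W_2 (nat_lit 5) (nat_lit 0x10001a001e00080002000000000000000000000000000) (nat_lit 0x0) (nat_lit 0x50002e0001000000020001000000000000000000000000000) := T_2 (nat_lit 177) (nat_lit 194) (nat_lit 6) (nat_lit 7) (nat_lit 11) L4315918 (by decide +kernel)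
theorem L4315920 : W_2 (nat_lit 6) (nat_lit 0x10001a001e00080000000000000000000000000000000) (nat_lit 0x0) (nat_lit 0x50002e0001000000060003000000000000000000000000000) := T_2 (nat_lit 109) (nat_lit 126) (nat_lit 5) (nat_lit 7) (nat_lit 6) L4315919 (by decide +kernel)
theorem L4315921 : W_2 (nat_lit 7) (nat_lit 0x100018001e00080000000000000000000000000000000) (nat_lit 0x0) (nat_lit 0x50002e0007000000060003000000000000000000000000000) := T_2 (nat_lit 157) (nat_lit 158) (nat_lit 2) (nat_lit 4) (nat_lit 9) L4315920 (by decide +kernel)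
theorem L4315922 : W_2 (nat_lit 8) (nat_lit 0x18001e00080000000000000000000000000000000) (nat_lit 0x0) (nat_lit 0xe000f0003e0007000000060003000000000000000000000000000) := Q_2 (nat_lit 176) (C_2 L2431670 (C_2 L4315915 (C_2 L4315921 N_2))) (by decide +kernel)
theorem L4315923 : W_2 (nat_lit 9) (nat_lit 0x10001e00080000000000000000000000000000000) (nat_lit 0x0) (nat_lit 0xe001f001fe006f000000060003000100000000000000000000000) := Q_2 (nat_lit 159) (C_2 L4315892 (C_2 L4315904 (C_2 L2433543 (C_2 L4315914 (C_2 L4315922 N_2))))) (by decide +kernel)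
theorem L4315924 : W_2 (nat_lit 2) (nat_lit 0x300010001e000e8002000000000000000000000000000) (nat_lit 0x0) (nat_lit 0x400020000000000000000100000000000000000000000) := D_2 (nat_lit 161) (nat_lit 178) (nat_lit 92) (nat_lit 7) (nat_lit 7) (nat_lit 6) (nat_lit 7) (nat_lit 7) (nat_lit 5) (by decide +kernel)
theorem L4315925 : W_2 (nat_lit 3) (nat_lit 0x300010001e000e8000000000000000000000000000000) (nat_lit 0x0) (nat_lit 0x400028000000000002000100000000000000000000000) := T_2 (nat_lit 109) (nat_lit 159) (nat_lit 6) (nat_lit 6) (nat_lit 10) L4315924 (by decide +kernel)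
theorem L4315926 : W_2 (nat_lit 4) (nat_lit 0x200010001e000e8000000000000000000000000000000) (nat_lit 0x0) (nat_lit 0x2000500028000000000002000100000000000000000000000) := T_2 (nat_lit 176) (nat_lit 193) (nat_lit 5) (nat_lit 7) (nat_lit 7) L4315925 (by decide +kernel)
theorem L4315927 : W_2 (nat_lit 5) (nat_lit 0x10001e000e8000000000000000000000000000000) (nat_lit 0x0) (nat_lit 0x6000700028000000000002000100000000000000000000000) := T_2 (nat_lit 177) (nat_lit 194) (nat_lit 6) (nat_lit 7) (nat_lit 11) L4315926 (by decide +kernel)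
theorem L4315928 : W_2 (nat_lit 6) (nat_lit 0x10001e000e0000000000000000000000000000000) (nat_lit 0x0) (nat_lit 0x6000700028000000018002000100000000000000000000000) := T_2 (nat_lit 123) (nat_lit 124) (nat_lit 3) (nat_lit 4) (nat_lit 7) L4315927 (by decide +kernel)
theorem L4315929 : W_2 (nat_lit 2) (nat_lit 0xe00030001e000e0000000000000000000000000000000) (nat_lit 0x0) (nat_lit 0x3000008000000000000000000000000000000000000000) := D_2 (nat_lit 180) (nat_lit 181) (nat_lit 159) (nat_lit 0) (nat_lit 11) (nat_lit 10) (nat_lit 0) (nat_lit 10) (nat_lit 10) (by decide +kernel)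
theorem L4315930 : W_2 (nat_lit 3) (nat_lit 0x600030001e000e0000000000000000000000000000000) (nat_lit 0x0) (nat_lit 0x10003800008000000000000000000000000000000000000000) := T_2 (nat_lit 179) (nat_lit 196) (nat_lit 7) (nat_lit 8) (nat_lit 7) L4315929 (by decide +kernel)
theorem L4315931 : W_2 (nat_lit 4) (nat_lit 0x200030001e000e0000000000000000000000000000000) (nat_lit 0x0) (nat_lit 0x18003c00008000000000000000000000000000000000000000) := T_2 (nat_lit 178) (nat_lit 195) (nat_lit 7) (nat_lit 7) (nat_lit 7) L4315930 (by decide +kernel)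
theorem L4315932 : W_2 (nat_lit 5) (nat_lit 0x200010001e000e0000000000000000000000000000000) (nat_lit 0x0) (nat_lit 0x18003c00068000000000000000000000000000000000000000) := T_2 (nat_lit 161) (nat_lit 162) (nat_lit 3) (nat_lit 5) (nat_lit 8) L4315931 (by decide +kernel)
theorem L4315933 : W_2 (nat_lit 6) (nat_lit 0x10001e000e0000000000000000000000000000000) (nat_lit 0x0) (nat_lit 0x1c003e00068000000000000000000000000000000000000000) := T_2 (nat_lit 177) (nat_lit 194) (nat_lit 6) (nat_lit 7) (nat_lit 11) L4315932 (by decide +kernel)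
theorem L4315934 : W_2 (nat_lit 2) (nat_lit 0x300010001e000e8002000000000000000000000000000) (nat_lit 0x0) (nat_lit 0x20000000000000000100008000000000000000000) := D_2 (nat_lit 92) (nat_lit 161) (nat_lit 75) (nat_lit 7) (nat_lit 7) (nat_lit 5) (nat_lit 7) (nat_lit 7) (nat_lit 4) (by decide +kernel)
theorem L4315935 : W_2 (nat_lit 3) (nat_lit 0x300010001e000e8000000000000000000000000000000) (nat_lit 0x0) (nat_lit 0x28000000000002000100008000000000000000000) := T_2 (nat_lit 109) (nat_lit 159) (nat_lit 6) (nat_lit 6) (nat_lit 10) L4315934 (by decide +kernel)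
theorem L4315936 : W_2 (nat_lit 4) (nat_lit 0x200010001e000e8000000000000000000000000000000) (nat_lit 0x0) (nat_lit 0x2000100028000000000002000100008000000000000000000) := T_2 (nat_lit 176) (nat_lit 193) (nat_lit 5) (nat_lit 7) (nat_lit 7) L4315935 (by decide +kernel)
theorem L4315937 : W_2 (nat_lit 5) (nat_lit 0x10001e000e8000000000000000000000000000000) (nat_lit 0x0) (nat_lit 0x6000300028000000000002000100008000000000000000000) := T_2 (nat_lit 177) (nat_lit 194) (nat_lit 6) (nat_lit 7) (nat_lit 11) L4315936 (by decide +kernel)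
theorem L4315938 : W_2 (nat_lit 6) (nat_lit 0x10001e000e0000000000000000000000000000000) (nat_lit 0x0) (nat_lit 0x6000300028000000018002000100008000000000000000000) := T_2 (nat_lit 123) (nat_lit 124) (nat_lit 3) (nat_lit 4) (nat_lit 7) L4315937 (by decide +kernel)
theorem L4315939 : W_2 (nat_lit 2) (nat_lit 0x600010001e000f0000800000000000000000000000000) (nat_lit 0x0) (nat_lit 0x2000100008000000000000000000000000000000000000000) := D_2 (nat_lit 176) (nat_lit 193) (nat_lit 159) (nat_lit 5) (nat_lit 7) (nat_lit 7) (nat_lit 4) (nat_lit 6) (nat_lit 10) (by decide +kernel)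
theorem L4315940 : W_2 (nat_lit 3) (nat_lit 0x600010001e000f0000000000000000000000000000000) (nat_lit 0x0) (nat_lit 0x2000100008000000000000c00000000000000000000000000) := T_2 (nat_lit 107) (nat_lit 106) (nat_lit 0) (nat_lit 8) (nat_lit 7) L4315939 (by decide +kernel)
theorem L4315941 : W_2 (nat_lit 4) (nat_lit 0x200010001e000f0000000000000000000000000000000) (nat_lit 0x0) (nat_lit 0xa000500008000000000000c00000000000000000000000000) := T_2 (nat_lit 178) (nat_lit 195) (nat_lit 7) (nat_lit 7) (nat_lit 7) L4315940 (by decide +kernel)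
theorem L4315942 : W_2 (nat_lit 5) (nat_lit 0x200010001e000e0000000000000000000000000000000) (nat_lit 0x0) (nat_lit 0xa000500008000000018000c00000000000000000000000000) := T_2 (nat_lit 124) (nat_lit 123) (nat_lit 3) (nat_lit 4) (nat_lit 7) L4315941 (by decide +kernel)
theorem L4315943 : W_2 (nat_lit 6) (nat_lit 0x10001e000e0000000000000000000000000000000) (nat_lit 0x0) (nat_lit 0xe000700008000000018000c00000000000000000000000000) := T_2 (nat_lit 177) (nat_lit 194) (nat_lit 6) (nat_lit 7) (nat_lit 11) L4315942 (by decide +kernel)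
theorem L4315944 : W_2 (nat_lit 7) (nat_lit 0x10001e000a0000000000000000000000000000000) (nat_lit 0x0) (nat_lit 0x1e003f00068000000058002c00100008000000000000000000) := Q_2 (nat_lit 126) (C_2 L2454565 (C_2 L4315928 (C_2 L4315933 (C_2 L4315938 (C_2 L4315943 N_2))))) (by decide +kernel)
theorem L4315945 : W_2 (nat_lit 2) (nat_lit 0x10001e000f0000800080000000000000000000000) (nat_lit 0x0) (nat_lit 0x100008000000000000000040000000000000000000000) := D_2 (nat_lit 159) (nat_lit 176) (nat_lit 90) (nat_lit 4) (nat_lit 6) (nat_lit 10) (nat_lit 7) (nat_lit 5) (nat_lit 5) (by decide +kernel)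
theorem L4315946 : W_2 (nat_lit 3) (nat_lit 0x10001e000f0000000080000000000000000000000) (nat_lit 0x0) (nat_lit 0x100008000000000000c00040000000000000000000000) := T_2 (nat_lit 107) (nat_lit 106) (nat_lit 0) (nat_lit 8) (nat_lit 7) L4315945 (by decide +kernel)
theorem L4315947 : W_2 (nat_lit 4) (nat_lit 0x10001e000f0000000000000000000000000000000) (nat_lit 0x0) (nat_lit 0x100008000000000001c000c0000000000000000000000) := T_2 (nat_lit 91) (nat_lit 108) (nat_lit 7) (nat_lit 6) (nat_lit 5) L4315946 (by decide +kernel)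
theorem L4315948 : W_2 (nat_lit 5) (nat_lit 0x10001e000e0000000000000000000000000000000) (nat_lit 0x0) (nat_lit 0x100008000000018001c000c0000000000000000000000) := T_2 (nat_lit 124) (nat_lit 123) (nat_lit 3) (nat_lit 4) (nat_lit 7) L4315947 (by decide +kernel)
theorem L4315949 : W_2 (nat_lit 6) (nat_lit 0x10001e000a0000000000000000000000000000000) (nat_lit 0x0) (nat_lit 0x500068000000058003c001c0000000000000000000000) := Q_2 (nat_lit 126) (C_2 L2454565 (C_2 L4315948 N_2)) (by decide +kernel)
theorem L4315950 : W_2 (nat_lit 8) (nat_lit 0x10001e00080000000000000000000000000000000) (nat_lit 0x0) (nat_lit 0x1e003f00068000000078003c001c0008000000000000000000) := Q_2 (nat_lit 125) (C_2 L4315944 (C_2 L2454743 (C_2 L4315949 (C_2 L2433657 N_2)))) (by decide +kernel)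
theorem L4315951 : W_2 (nat_lit 12) (nat_lit 0x1e00080000000000000000000000000000000) (nat_lit 0x0) (nat_lit 0x3f003fc03fe007f000000078003c001c0008000000000000000000) := Q_2 (nat_lit 160) (C_2 L4315886 (C_2 L4315887 (C_2 L4315897 (C_2 L2454744 (C_2 L2436547 (C_2 L4315923 (C_2 L4315950 N_2))))))) (by decide +kernel)
theorem L4315952 : W_2 (nat_lit 13) (nat_lit 0x1c00080000000000000000000000000000000) (nat_lit 0x0) (nat_lit 0x3f003fc03fe007fc003c007f003c001c0008000000000000000000) := Q_2 (nat_lit 141) (C_2 L3490889 (C_2 L60448 (C_2 L4315951 (C_2 L10866 N_2)))) (by decide +kernel)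
theorem L4316787 : W_2 (nat_lit 2) (nat_lit 0x80007a001c000a0000000000000000000000000000000) (nat_lit 0x0) (nat_lit 0x200010000400000000000000000000000000000000000000000000) := D_2 (nat_lit 196) (nat_lit 213) (nat_lit 178) (nat_lit 4) (nat_lit 9) (nat_lit 12) (nat_lit 7) (nat_lit 8) (nat_lit 7) (by decide +kernel)
theorem L4316788 : W_2 (nat_lit 3) (nat_lit 0x7a001c000a0000000000000000000000000000000) (nat_lit 0x0) (nat_lit 0x200010001c00000000000000000000000000000000000000000000) := T_2 (nat_lit 179) (nat_lit 180) (nat_lit 3) (nat_lit 6) (nat_lit 9) L4316787 (by decide +kernel)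
theorem L4316789 : W_2 (nat_lit 4) (nat_lit 0x3a001c000a0000000000000000000000000000000) (nat_lit 0x0) (nat_lit 0x200010001c000c0000000000000000000000000000000000000000) := T_2 (nat_lit 162) (nat_lit 163) (nat_lit 0) (nat_lit 10) (nat_lit 9) L4316788 (by decide +kernel)
theorem L4316790 : W_2 (nat_lit 5) (nat_lit 0x38001c000a0000000000000000000000000000000) (nat_lit 0x0) (nat_lit 0x200010001c000c6000000000000000000000000000000000000000) := T_2 (nat_lit 157) (nat_lit 158) (nat_lit 2) (nat_lit 4) (nat_lit 9) L4316789 (by decide +kernel)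
theorem L4316864 : W_2 (nat_lit 2) (nat_lit 0x100018001c000a0000000000000000000000000000000) (nat_lit 0x0) (nat_lit 0x40002000000000000000040000000000000000000000000000000) := D_2 (nat_lit 193) (nat_lit 126) (nat_lit 210) (nat_lit 6) (nat_lit 6) (nat_lit 11) (nat_lit 6) (nat_lit 6) (nat_lit 12) (by decide +kernel)
theorem L4316865 : W_2 (nat_lit 2) (nat_lit 0x200010001a001c000a0000000000000000000000000000000) (nat_lit 0x0) (nat_lit 0x20001000080000000000000000000000000000000000000000000) := D_2 (nat_lit 192) (nat_lit 209) (nat_lit 175) (nat_lit 5) (nat_lit 6) (nat_lit 8) (nat_lit 5) (nat_lit 6) (nat_lit 7) (by decide +kernel)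
theorem L4316866 : W_2 (nat_lit 3) (nat_lit 0x10001a001c000a0000000000000000000000000000000) (nat_lit 0x0) (nat_lit 0x60003000080000000000000000000000000000000000000000000) := T_2 (nat_lit 193) (nat_lit 210) (nat_lit 6) (nat_lit 6) (nat_lit 12) L4316865 (by decide +kernel)
theorem L4316867 : W_2 (nat_lit 4) (nat_lit 0x100018001c000a0000000000000000000000000000000) (nat_lit 0x0) (nat_lit 0x60003000080006000000000000000000000000000000000000000) := T_2 (nat_lit 157) (nat_lit 158) (nat_lit 2) (nat_lit 4) (nat_lit 9) L4316866 (by decide +kernel)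
theorem L4316868 : W_2 (nat_lit 2) (nat_lit 0x1a003a001c000b0000000000000000000000000000000) (nat_lit 0x0) (nat_lit 0x4c000000000000000000000000000000) := D_2 (nat_lit 123) (nat_lit 126) (nat_lit 122) (nat_lit 3) (nat_lit 4) (nat_lit 7) (nat_lit 3) (nat_lit 3) (nat_lit 7) (by decide +kernel)
theorem L4316869 : W_2 (nat_lit 3) (nat_lit 0x1a003a001c000a0000000000000000000000000000000) (nat_lit 0x0) (nat_lit 0x5c000800000000000000000000000000) := T_2 (nat_lit 124) (nat_lit 107) (nat_lit 4) (nat_lit 6) (nat_lit 10) L4316868 (by decide +kernel)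
theorem L4316870 : W_2 (nat_lit 4) (nat_lit 0x1a001a001c000a0000000000000000000000000000000) (nat_lit 0x0) (nat_lit 0x6000000005c000800000000000000000000000000) := T_2 (nat_lit 161) (nat_lit 162) (nat_lit 1) (nat_lit 9) (nat_lit 9) L4316869 (by decide +kernel)
theorem L4316871 : W_2 (nat_lit 5) (nat_lit 0x18001a001c000a0000000000000000000000000000000) (nat_lit 0x0) (nat_lit 0x6006000000005c000800000000000000000000000000) := T_2 (nat_lit 173) (nat_lit 174) (nat_lit 2) (nat_lit 3) (nat_lit 10) L4316870 (by decide +kernel)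
theorem L4316872 : W_2 (nat_lit 6) (nat_lit 0x10001a001c000a0000000000000000000000000000000) (nat_lit 0x0) (nat_lit 0x10000e006000000005c000800000000000000000000000000) := T_2 (nat_lit 175) (nat_lit 192) (nat_lit 5) (nat_lit 6) (nat_lit 7) L4316871 (by decide +kernel)
theorem L4316873 : W_2 (nat_lit 7) (nat_lit 0x100018001c000a0000000000000000000000000000000) (nat_lit 0x0) (nat_lit 0x10000e006600000005c000800000000000000000000000000) := T_2 (nat_lit 157) (nat_lit 158) (nat_lit 2) (nat_lit 4) (nat_lit 9) L4316872 (by decide +kernel)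
theorem L4316884 : W_2 (nat_lit 5) (nat_lit 0x100018001c000a0000000000000000000000000000000) (nat_lit 0x0) (nat_lit 0x50002e0007000000000000000000000000000000000000000) := T_2 (nat_lit 177) (nat_lit 194) (nat_lit 7) (nat_lit 6) (nat_lit 7) L3411876 (by decide +kernel)
theorem L4316885 : W_2 (nat_lit 6) (nat_lit 0x18001c000a0000000000000000000000000000000) (nat_lit 0x0) (nat_lit 0x600070003e0007000000040000000000000000000000000000000) := Q_2 (nat_lit 176) (C_2 L4316867 (C_2 L4316864 (C_2 L4316884 N_2))) (by decide +kernel)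
theorem L4316886 : W_2 (nat_lit 2) (nat_lit 0x40001a0038001c000a0000000000000000000000000000000) (nat_lit 0x0) (nat_lit 0xc0002000000000000000000000000000000000000000000000000) := D_2 (nat_lit 193) (nat_lit 210) (nat_lit 211) (nat_lit 6) (nat_lit 6) (nat_lit 12) (nat_lit 7) (nat_lit 6) (nat_lit 8) (by decide +kernel)
theorem L4316887 : W_2 (nat_lit 3) (nat_lit 0x1a0038001c000a0000000000000000000000000000000) (nat_lit 0x0) (nat_lit 0xc0006000200000000000000000000000000000000000000000000) := T_2 (nat_lit 194) (nat_lit 177) (nat_lit 7) (nat_lit 6) (nat_lit 7) L4316886 (by decide +kernel)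
theorem L4316888 : W_2 (nat_lit 4) (nat_lit 0x1a0018001c000a0000000000000000000000000000000) (nat_lit 0x0) (nat_lit 0xc0006000200060000000000000000000000000000000000000000) := T_2 (nat_lit 161) (nat_lit 162) (nat_lit 1) (nat_lit 9) (nat_lit 9) L4316887 (by decide +kernel)
theorem L4316889 : W_2 (nat_lit 5) (nat_lit 0x180018001c000a0000000000000000000000000000000) (nat_lit 0x0) (nat_lit 0xc0006000260060000000000000000000000000000000000000000) := T_2 (nat_lit 173) (nat_lit 174) (nat_lit 2) (nat_lit 3) (nat_lit 10) L4316888 (by decide +kernel)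
theorem L4316890 : W_2 (nat_lit 6) (nat_lit 0x100018001c000a0000000000000000000000000000000) (nat_lit 0x0) (nat_lit 0xc00070002e0060000000000000000000000000000000000000000) := T_2 (nat_lit 175) (nat_lit 192) (nat_lit 5) (nat_lit 6) (nat_lit 7) L4316889 (by decide +kernel)
theorem L4316891 : W_2 (nat_lit 2) (nat_lit 0x400010001a001c000a0000800000000000000000000000000) (nat_lit 0x0) (nat_lit 0xc0002000000000000000000000000000000000000000000000000) := D_2 (nat_lit 193) (nat_lit 210) (nat_lit 211) (nat_lit 6) (nat_lit 6) (nat_lit 12) (nat_lit 7) (nat_lit 6) (nat_lit 8) (by decide +kernel)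
theorem L4316892 : W_2 (nat_lit 3) (nat_lit 0x10001a001c000a0000800000000000000000000000000) (nat_lit 0x0) (nat_lit 0xc0006000200000000000000000000000000000000000000000000) := T_2 (nat_lit 194) (nat_lit 177) (nat_lit 7) (nat_lit 6) (nat_lit 7) L4316891 (by decide +kernel)
theorem L4316893 : W_2 (nat_lit 4) (nat_lit 0x100018001c000a0000800000000000000000000000000) (nat_lit 0x0) (nat_lit 0xc0006000200006000000000000000000000000000000000000000) := T_2 (nat_lit 157) (nat_lit 158) (nat_lit 2) (nat_lit 4) (nat_lit 9) L4316892 (by decide +kernel)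
theorem L4316894 : W_2 (nat_lit 5) (nat_lit 0x100018001c000a0000000000000000000000000000000) (nat_lit 0x0) (nat_lit 0xc0006000200006000000010000800000000000000000000000000) := T_2 (nat_lit 107) (nat_lit 124) (nat_lit 4) (nat_lit 6) (nat_lit 10) L4316893 (by decide +kernel)
theorem L4317004 : W_2 (nat_lit 7) (nat_lit 0x100010001c000a0000000000000000000000000000000) (nat_lit 0x0) (nat_lit 0xe00070002e006f000000010000800000000000000000000000000) := Q_2 (nat_lit 159) (C_2 L4316894 (C_2 L4316867 (C_2 L4316890 (C_2 L4316884 N_2)))) (by decide +kernel)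
theorem L4317005 : W_2 (nat_lit 8) (nat_lit 0x100010001c000a0000000000000000000000000000000) (nat_lit 0x0) (nat_lit 0x600030000e006e00000005c000800000000000000000000000000) := Q_2 (nat_lit 159) (C_2 L4316873 (C_2 L4316867 (C_2 L4316864 N_2))) (by decide +kernel)
theorem L4317010 : W_2 (nat_lit 2) (nat_lit 0x3a0038001c000b0000000000000000000000000000000) (nat_lit 0x0) (nat_lit 0x4c000000000000000000000000000000) := D_2 (nat_lit 123) (nat_lit 126) (nat_lit 122) (nat_lit 3) (nat_lit 4) (nat_lit 7) (nat_lit 3) (nat_lit 3) (nat_lit 7) (by decide +kernel)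
theorem L4317011 : W_2 (nat_lit 3) (nat_lit 0x3a0038001c000a0000000000000000000000000000000) (nat_lit 0x0) (nat_lit 0x5c000800000000000000000000000000) := T_2 (nat_lit 124) (nat_lit 107) (nat_lit 4) (nat_lit 6) (nat_lit 10) L4317010 (by decide +kernel)
theorem L4317012 : W_2 (nat_lit 4) (nat_lit 0x1a0038001c000a0000000000000000000000000000000) (nat_lit 0x0) (nat_lit 0x400020000000000005c000800000000000000000000000000) := T_2 (nat_lit 177) (nat_lit 194) (nat_lit 7) (nat_lit 6) (nat_lit 7) L4317011 (by decide +kernel)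
theorem L4317013 : W_2 (nat_lit 5) (nat_lit 0x1a0018001c000a0000000000000000000000000000000) (nat_lit 0x0) (nat_lit 0x400020006000000005c000800000000000000000000000000) := T_2 (nat_lit 161) (nat_lit 162) (nat_lit 1) (nat_lit 9) (nat_lit 9) L4317012 (by decide +kernel)
theorem L4317014 : W_2 (nat_lit 6) (nat_lit 0x180018001c000a0000000000000000000000000000000) (nat_lit 0x0) (nat_lit 0x400026006000000005c000800000000000000000000000000) := T_2 (nat_lit 173) (nat_lit 174) (nat_lit 2) (nat_lit 3) (nat_lit 10) L4317013 (by decide +kernel)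
theorem L4317015 : W_2 (nat_lit 7) (nat_lit 0x100018001c000a0000000000000000000000000000000) (nat_lit 0x0) (nat_lit 0x50002e006000000005c000800000000000000000000000000) := T_2 (nat_lit 175) (nat_lit 192) (nat_lit 5) (nat_lit 6) (nat_lit 7) L4317014 (by decide +kernel)
theorem L4317270 : W_2 (nat_lit 2) (nat_lit 0x2000100018001c000a0000000000000000000000000000000) (nat_lit 0x0) (nat_lit 0x20001000080000000000000000000000000000000000000000000) := D_2 (nat_lit 192) (nat_lit 209) (nat_lit 175) (nat_lit 5) (nat_lit 6) (nat_lit 8) (nat_lit 5) (nat_lit 6) (nat_lit 7) (by decide +kernel)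
theorem L4317271 : W_2 (nat_lit 3) (nat_lit 0x100018001c000a0000000000000000000000000000000) (nat_lit 0x0) (nat_lit 0x60003000080000000000000000000000000000000000000000000) := T_2 (nat_lit 193) (nat_lit 210) (nat_lit 6) (nat_lit 6) (nat_lit 12) L4317270 (by decide +kernel)
theorem L4317272 : W_2 (nat_lit 2) (nat_lit 0x18001c001c000a0000000000000000000000000000000) (nat_lit 0x0) (nat_lit 0x60020000000000000000000000000000000000000000) := D_2 (nat_lit 174) (nat_lit 173) (nat_lit 161) (nat_lit 2) (nat_lit 3) (nat_lit 10) (nat_lit 1) (nat_lit 8) (nat_lit 9) (by decide +kernel)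
theorem L4317273 : W_2 (nat_lit 3) (nat_lit 0x10001c001c000a0000000000000000000000000000000) (nat_lit 0x0) (nat_lit 0x10000e0020000000000000000000000000000000000000000) := T_2 (nat_lit 175) (nat_lit 192) (nat_lit 5) (nat_lit 6) (nat_lit 7) L4317272 (by decide +kernel)
theorem L4317274 : W_2 (nat_lit 4) (nat_lit 0x100018001c000a0000000000000000000000000000000) (nat_lit 0x0) (nat_lit 0x10000e0026000000000000000000000000000000000000000) := T_2 (nat_lit 158) (nat_lit 157) (nat_lit 2) (nat_lit 4) (nat_lit 9) L4317273 (by decide +kernel)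
theorem L4317275 : W_2 (nat_lit 2) (nat_lit 0x48003c001c000a0000000000000000000000000000000) (nat_lit 0x0) (nat_lit 0x20001000100000000000000000000000000000000000000000000) := D_2 (nat_lit 192) (nat_lit 176) (nat_lit 209) (nat_lit 5) (nat_lit 6) (nat_lit 7) (nat_lit 6) (nat_lit 5) (nat_lit 12) (by decide +kernel)
theorem L4317276 : W_2 (nat_lit 3) (nat_lit 0x40003c001c000a0000000000000000000000000000000) (nat_lit 0x0) (nat_lit 0x200010001c0000000000000000000000000000000000000000000) := T_2 (nat_lit 175) (nat_lit 174) (nat_lit 1) (nat_lit 8) (nat_lit 9) L4317275 (by decide +kernel)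
theorem L4317277 : W_2 (nat_lit 4) (nat_lit 0x3c001c000a0000000000000000000000000000000) (nat_lit 0x0) (nat_lit 0x20001000dc0000000000000000000000000000000000000000000) := T_2 (nat_lit 178) (nat_lit 179) (nat_lit 3) (nat_lit 5) (nat_lit 9) L4317276 (by decide +kernel)
theorem L4317278 : W_2 (nat_lit 5) (nat_lit 0x38001c000a0000000000000000000000000000000) (nat_lit 0x0) (nat_lit 0x20001000dc0006000000000000000000000000000000000000000) := T_2 (nat_lit 158) (nat_lit 157) (nat_lit 2) (nat_lit 4) (nat_lit 9) L4317277 (by decide +kernel)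
theorem L4317279 : W_2 (nat_lit 2) (nat_lit 0x800078001c000a0000000000000000000000000000000) (nat_lit 0x0) (nat_lit 0x200010000400000000000000000000000000000000000000000000) := D_2 (nat_lit 196) (nat_lit 213) (nat_lit 178) (nat_lit 4) (nat_lit 9) (nat_lit 12) (nat_lit 7) (nat_lit 8) (nat_lit 7) (by decide +kernel)
theorem L4317280 : W_2 (nat_lit 3) (nat_lit 0x78001c000a0000000000000000000000000000000) (nat_lit 0x0) (nat_lit 0x200010001c00000000000000000000000000000000000000000000) := T_2 (nat_lit 179) (nat_lit 180) (nat_lit 3) (nat_lit 6) (nat_lit 9) L4317279 (by decide +kernel)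
theorem L4317281 : W_2 (nat_lit 4) (nat_lit 0x38001c000a0000000000000000000000000000000) (nat_lit 0x0) (nat_lit 0x200010001c000c0000000000000000000000000000000000000000) := T_2 (nat_lit 162) (nat_lit 163) (nat_lit 0) (nat_lit 10) (nat_lit 9) L4317280 (by decide +kernel)
theorem L4317282 : W_2 (nat_lit 6) (nat_lit 0x18001c000a0000000000000000000000000000000) (nat_lit 0x0) (nat_lit 0x220011001dc00e6000000000000000000000000000000000000000) := Q_2 (nat_lit 161) (C_2 L4316790 (C_2 L4035215 (C_2 L4317278 (C_2 L4317281 N_2)))) (by decide +kernel)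
theorem L4317283 : W_2 (nat_lit 2) (nat_lit 0x1000100018001c000a0001800100000000000000000000000) (nat_lit 0x0) (nat_lit 0x60002000000000000000000000000000000000000000000000000) := D_2 (nat_lit 193) (nat_lit 210) (nat_lit 209) (nat_lit 6) (nat_lit 6) (nat_lit 12) (nat_lit 5) (nat_lit 6) (nat_lit 8) (by decide +kernel)
theorem L4317284 : W_2 (nat_lit 3) (nat_lit 0x100018001c000a0001800100000000000000000000000) (nat_lit 0x0) (nat_lit 0x60003000080000000000000000000000000000000000000000000) := T_2 (nat_lit 192) (nat_lit 175) (nat_lit 5) (nat_lit 6) (nat_lit 7) L4317283 (by decide +kernel)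
theorem L4317285 : W_2 (nat_lit 4) (nat_lit 0x18001c000a0001800100000000000000000000000) (nat_lit 0x0) (nat_lit 0x60003000180000000000010000000000000000000000000000000) := T_2 (nat_lit 176) (nat_lit 124) (nat_lit 4) (nat_lit 6) (nat_lit 10) L4317284 (by decide +kernel)
theorem L4317286 : W_2 (nat_lit 5) (nat_lit 0x18001c000a0001000100000000000000000000000) (nat_lit 0x0) (nat_lit 0x60003000180000000000010000800040000000000000000000000) := T_2 (nat_lit 107) (nat_lit 90) (nat_lit 4) (nat_lit 6) (nat_lit 9) L4317285 (by decide +kernel)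
theorem L4317287 : W_2 (nat_lit 6) (nat_lit 0x18001c000a0001000000000000000000000000000) (nat_lit 0x0) (nat_lit 0x60003000180000000000010002800140000000000000000000000) := T_2 (nat_lit 92) (nat_lit 109) (nat_lit 6) (nat_lit 6) (nat_lit 9) L4317286 (by decide +kernel)
theorem L4317288 : W_2 (nat_lit 7) (nat_lit 0x18001c000a0000000000000000000000000000000) (nat_lit 0x0) (nat_lit 0x600030001800000000000100038001c0000000000000000000000) := T_2 (nat_lit 108) (nat_lit 91) (nat_lit 7) (nat_lit 6) (nat_lit 5) L4317287 (by decide +kernel)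
theorem L4318675 : W_2 (nat_lit 3) (nat_lit 0x700008001c00080000000000000000000000000000000) (nat_lit 0x0) (nat_lit 0x880007000000000000000000000000000000000000000) := T_2 (nat_lit 158) (nat_lit 179) (nat_lit 0) (nat_lit 9) (nat_lit 10) L1413782 (by decide +kernel)
theorem L4322398 : W_2 (nat_lit 2) (nat_lit 0x1a001c000b0001800100000000000000000000000) (nat_lit 0x0) (nat_lit 0x4c000000000000000000000000000000) := D_2 (nat_lit 123) (nat_lit 126) (nat_lit 122) (nat_lit 3) (nat_lit 4) (nat_lit 7) (nat_lit 3) (nat_lit 3) (nat_lit 7) (by decide +kernel)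
theorem L4322399 : W_2 (nat_lit 3) (nat_lit 0x1a001c000a0001800100000000000000000000000) (nat_lit 0x0) (nat_lit 0x10000000000005c000000000000000000000000000000) := T_2 (nat_lit 124) (nat_lit 176) (nat_lit 4) (nat_lit 6) (nat_lit 10) L4322398 (by decide +kernel)
theorem L4322400 : W_2 (nat_lit 4) (nat_lit 0x1a001c000a0001000100000000000000000000000) (nat_lit 0x0) (nat_lit 0x10000000000005c000800040000000000000000000000) := T_2 (nat_lit 107) (nat_lit 90) (nat_lit 4) (nat_lit 6) (nat_lit 9) L4322399 (by decide +kernel)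
theorem L4322401 : W_2 (nat_lit 5) (nat_lit 0x1a001c000a0001000000000000000000000000000) (nat_lit 0x0) (nat_lit 0x10000000000005c002800140000000000000000000000) := T_2 (nat_lit 92) (nat_lit 109) (nat_lit 6) (nat_lit 6) (nat_lit 9) L4322400 (by decide +kernel)
theorem L4322402 : W_2 (nat_lit 6) (nat_lit 0x1a001c000a0000000000000000000000000000000) (nat_lit 0x0) (nat_lit 0x10000000000005c0038001c0000000000000000000000) := T_2 (nat_lit 108) (nat_lit 91) (nat_lit 7) (nat_lit 6) (nat_lit 5) L4322401 (by decide +kernel)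
theorem L4322403 : W_2 (nat_lit 7) (nat_lit 0x18001c000a0000000000000000000000000000000) (nat_lit 0x0) (nat_lit 0x10000600000005c0038001c0000000000000000000000) := T_2 (nat_lit 157) (nat_lit 158) (nat_lit 2) (nat_lit 4) (nat_lit 9) L4322402 (by decide +kernel)
theorem L4322404 : W_2 (nat_lit 8) (nat_lit 0x10001c000a0000000000000000000000000000000) (nat_lit 0x0) (nat_lit 0x260013001dc00ee00000005c0038001c0000000000000000000000) := Q_2 (nat_lit 159) (C_2 L1106873 (C_2 L4317288 (C_2 L4317282 (C_2 L4322403 N_2)))) (by decide +kernel)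
theorem L4322452 : W_2 (nat_lit 5) (nat_lit 0x300010001c000a0000000000000000000000000000000) (nat_lit 0x0) (nat_lit 0xa0004800e0000000040002000000000000000000000000000) := T_2 (nat_lit 126) (nat_lit 193) (nat_lit 5) (nat_lit 7) (nat_lit 7) L1144428 (by decide +kernel)
theorem L4322453 : W_2 (nat_lit 6) (nat_lit 0x100010001c000a0000000000000000000000000000000) (nat_lit 0x0) (nat_lit 0xe0006800e0000000040002000000000000000000000000000) := T_2 (nat_lit 177) (nat_lit 194) (nat_lit 6) (nat_lit 7) (nat_lit 11) L4322452 (by decide +kernel)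
theorem L4322454 : W_2 (nat_lit 2) (nat_lit 0x300018001c000e0000000000000000000000000000000) (nat_lit 0x0) (nat_lit 0x18000800000000000000000000000000) := D_2 (nat_lit 124) (nat_lit 107) (nat_lit 123) (nat_lit 4) (nat_lit 6) (nat_lit 10) (nat_lit 3) (nat_lit 4) (nat_lit 7) (by decide +kernel)
theorem L4322455 : W_2 (nat_lit 3) (nat_lit 0x300018001c000a0000000000000000000000000000000) (nat_lit 0x0) (nat_lit 0x58002800000000000000000000000000) := T_2 (nat_lit 126) (nat_lit 109) (nat_lit 6) (nat_lit 6) (nat_lit 10) L4322454 (by decide +kernel)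
theorem L4322456 : W_2 (nat_lit 4) (nat_lit 0x100018001c000a0000000000000000000000000000000) (nat_lit 0x0) (nat_lit 0x4000200000000000058002800000000000000000000000000) := T_2 (nat_lit 177) (nat_lit 194) (nat_lit 7) (nat_lit 6) (nat_lit 7) L4322455 (by decide +kernel)
theorem L4322457 : W_2 (nat_lit 8) (nat_lit 0x100010001c000a0000000000000000000000000000000) (nat_lit 0x0) (nat_lit 0x50002e006f00000005c002800000000000000000000000000) := Q_2 (nat_lit 159) (C_2 L4317274 (C_2 L4317015 (C_2 L4316884 (C_2 L4322456 N_2)))) (by decide +kernel)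
theorem L4322458 : W_2 (nat_lit 9) (nat_lit 0x10001c000a0000000000000000000000000000000) (nat_lit 0x0) (nat_lit 0x8000e000f0007e00ef00000005c002800000000000000000000000000) := Q_2 (nat_lit 176) (C_2 L4317004 (C_2 L4317005 (C_2 L330192 (C_2 L4322453 (C_2 L4322457 N_2))))) (by decide +kernel)
theorem L4322459 : W_2 (nat_lit 10) (nat_lit 0x1c000a0000000000000000000000000000000) (nat_lit 0x0) (nat_lit 0x8002e001f001fe00ff00000005c0038001c0000000000000000000000) := Q_2 (nat_lit 160) (C_2 L58760 (C_2 L4322404 (C_2 L58758 (C_2 L4322458 N_2)))) (by decide +kernel)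
theorem L4323332 : W_2 (nat_lit 5) (nat_lit 0x100008001c00080000000000000000000000000000000) (nat_lit 0x0) (nat_lit 0x14000e0007000000000000000040000000000000000000000000000000) := T_2 (nat_lit 193) (nat_lit 126) (nat_lit 6) (nat_lit 6) (nat_lit 11) L1109646 (by decide +kernel)
theorem L4323563 : W_2 (nat_lit 2) (nat_lit 0xf00018003c001c00080000000000000000000000000000000) (nat_lit 0x0) (nat_lit 0x100000000c00000000000000000000000000000000000000000000) := D_2 (nat_lit 178) (nat_lit 179) (nat_lit 212) (nat_lit 3) (nat_lit 5) (nat_lit 9) (nat_lit 4) (nat_lit 8) (nat_lit 12) (by decide +kernel)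
theorem L4323564 : W_2 (nat_lit 3) (nat_lit 0x700018003c001c00080000000000000000000000000000000) (nat_lit 0x0) (nat_lit 0x100018000c00000000000000000000000000000000000000000000) := T_2 (nat_lit 195) (nat_lit 196) (nat_lit 0) (nat_lit 9) (nat_lit 11) L4323563 (by decide +kernel)
theorem L4323565 : W_2 (nat_lit 4) (nat_lit 0x700010003c001c00080000000000000000000000000000000) (nat_lit 0x0) (nat_lit 0x100018000cc0000000000000000000000000000000000000000000) := T_2 (nat_lit 175) (nat_lit 174) (nat_lit 1) (nat_lit 8) (nat_lit 9) L4323564 (by decide +kernel)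
theorem L4323566 : W_2 (nat_lit 5) (nat_lit 0x300010003c001c00080000000000000000000000000000000) (nat_lit 0x0) (nat_lit 0x18001c000cc0000000000000000000000000000000000000000000) := T_2 (nat_lit 194) (nat_lit 211) (nat_lit 7) (nat_lit 6) (nat_lit 8) L4323565 (by decide +kernel)
theorem L4323567 : W_2 (nat_lit 6) (nat_lit 0x200010003c001c00080000000000000000000000000000000) (nat_lit 0x0) (nat_lit 0x1a001d000cc0000000000000000000000000000000000000000000) := T_2 (nat_lit 192) (nat_lit 209) (nat_lit 5) (nat_lit 6) (nat_lit 8) L4323566 (by decide +kernel)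
theorem L4323568 : W_2 (nat_lit 7) (nat_lit 0x10003c001c00080000000000000000000000000000000) (nat_lit 0x0) (nat_lit 0x1e001f000cc0000000000000000000000000000000000000000000) := T_2 (nat_lit 193) (nat_lit 210) (nat_lit 6) (nat_lit 6) (nat_lit 12) L4323567 (by decide +kernel)
theorem L4323569 : W_2 (nat_lit 8) (nat_lit 0x100038001c00080000000000000000000000000000000) (nat_lit 0x0) (nat_lit 0x1e001f000cc0006000000000000000000000000000000000000000) := T_2 (nat_lit 158) (nat_lit 157) (nat_lit 2) (nat_lit 4) (nat_lit 9) L4323568 (by decide +kernel)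
theorem L4323570 : W_2 (nat_lit 2) (nat_lit 0x700090007a001c00080000000000000000000000000000000) (nat_lit 0x0) (nat_lit 0x18000400000000000000000000000000000000000000000000) := D_2 (nat_lit 178) (nat_lit 195) (nat_lit 196) (nat_lit 2) (nat_lit 5) (nat_lit 11) (nat_lit 7) (nat_lit 8) (nat_lit 7) (by decide +kernel)
theorem L4323571 : W_2 (nat_lit 3) (nat_lit 0x700010007a001c00080000000000000000000000000000000) (nat_lit 0x0) (nat_lit 0x18001c00000000000000000000000000000000000000000000) := T_2 (nat_lit 179) (nat_lit 180) (nat_lit 3) (nat_lit 6) (nat_lit 9) L4323570 (by decide +kernel)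
theorem L4323572 : W_2 (nat_lit 4) (nat_lit 0x300010007a001c00080000000000000000000000000000000) (nat_lit 0x0) (nat_lit 0x8001c001c00000000000000000000000000000000000000000000) := T_2 (nat_lit 194) (nat_lit 211) (nat_lit 7) (nat_lit 6) (nat_lit 8) L4323571 (by decide +kernel)
theorem L4323573 : W_2 (nat_lit 5) (nat_lit 0x200010007a001c00080000000000000000000000000000000) (nat_lit 0x0) (nat_lit 0xa001d001c00000000000000000000000000000000000000000000) := T_2 (nat_lit 192) (nat_lit 209) (nat_lit 5) (nat_lit 6) (nat_lit 8) L4323572 (by decide +kernel)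
theorem L4323574 : W_2 (nat_lit 6) (nat_lit 0x10007a001c00080000000000000000000000000000000) (nat_lit 0x0) (nat_lit 0xe001f001c00000000000000000000000000000000000000000000) := T_2 (nat_lit 193) (nat_lit 210) (nat_lit 6) (nat_lit 6) (nat_lit 12) L4323573 (by decide +kernel)
theorem L4323575 : W_2 (nat_lit 7) (nat_lit 0x10003a001c00080000000000000000000000000000000) (nat_lit 0x0) (nat_lit 0xe001f001c000c0000000000000000000000000000000000000000) := T_2 (nat_lit 162) (nat_lit 163) (nat_lit 0) (nat_lit 10) (nat_lit 9) L4323574 (by decide +kernel)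
theorem L4323576 : W_2 (nat_lit 8) (nat_lit 0x100038001c00080000000000000000000000000000000) (nat_lit 0x0) (nat_lit 0xe001f001c000c6000000000000000000000000000000000000000) := T_2 (nat_lit 157) (nat_lit 158) (nat_lit 2) (nat_lit 4) (nat_lit 9) L4323575 (by decide +kernel)
theorem L4323577 : W_2 (nat_lit 9) (nat_lit 0x100018001c00080000000000000000000000000000000) (nat_lit 0x0) (nat_lit 0x1e001f001cc00e6000000000000000000000000000000000000000) := Q_2 (nat_lit 161) (C_2 L3983313 (C_2 L4323569 (C_2 L4323576 N_2))) (by decide +kernel)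
theorem L4323578 : W_2 (nat_lit 2) (nat_lit 0x300078003c001c00080008000000000000000000000000000) (nat_lit 0x0) (nat_lit 0x100018000000000000000000000000000000000000000000000000) := D_2 (nat_lit 195) (nat_lit 212) (nat_lit 196) (nat_lit 4) (nat_lit 8) (nat_lit 12) (nat_lit 3) (nat_lit 5) (nat_lit 10) (by decide +kernel)
theorem L4323579 : W_2 (nat_lit 3) (nat_lit 0x300058003c001c00080008000000000000000000000000000) (nat_lit 0x0) (nat_lit 0x100018800200000000000000000000000000000000000000000000) := T_2 (nat_lit 177) (nat_lit 191) (nat_lit 1) (nat_lit 8) (nat_lit 10) L4323578 (by decide +kernel)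
theorem L4323580 : W_2 (nat_lit 4) (nat_lit 0x300058003c001c00080000000000000000000000000000000) (nat_lit 0x0) (nat_lit 0x100018800200000000000100008000000000000000000000000000) := T_2 (nat_lit 111) (nat_lit 128) (nat_lit 6) (nat_lit 8) (nat_lit 10) L4323579 (by decide +kernel)
theorem L4323581 : W_2 (nat_lit 5) (nat_lit 0x300018003c001c00080000000000000000000000000000000) (nat_lit 0x0) (nat_lit 0x100018800e00000000000100008000000000000000000000000000) := T_2 (nat_lit 178) (nat_lit 179) (nat_lit 3) (nat_lit 5) (nat_lit 9) L4323580 (by decide +kernel)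
theorem L4323582 : W_2 (nat_lit 6) (nat_lit 0x300010003c001c00080000000000000000000000000000000) (nat_lit 0x0) (nat_lit 0x100018800ec0000000000100008000000000000000000000000000) := T_2 (nat_lit 175) (nat_lit 174) (nat_lit 1) (nat_lit 8) (nat_lit 9) L4323581 (by decide +kernel)
theorem L4323583 : W_2 (nat_lit 7) (nat_lit 0x200010003c001c00080000000000000000000000000000000) (nat_lit 0x0) (nat_lit 0x120019800ec0000000000100008000000000000000000000000000) := T_2 (nat_lit 192) (nat_lit 209) (nat_lit 5) (nat_lit 6) (nat_lit 8) L4323582 (by decide +kernel)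
theorem L4323584 : W_2 (nat_lit 8) (nat_lit 0x10003c001c00080000000000000000000000000000000) (nat_lit 0x0) (nat_lit 0x16001b800ec0000000000100008000000000000000000000000000) := T_2 (nat_lit 193) (nat_lit 210) (nat_lit 6) (nat_lit 6) (nat_lit 12) L4323583 (by decide +kernel)
theorem L4323585 : W_2 (nat_lit 9) (nat_lit 0x100038001c00080000000000000000000000000000000) (nat_lit 0x0) (nat_lit 0x16001b800ec0006000000100008000000000000000000000000000) := T_2 (nat_lit 158) (nat_lit 157) (nat_lit 2) (nat_lit 4) (nat_lit 9) L4323584 (by decide +kernel)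
theorem L4323586 : W_2 (nat_lit 2) (nat_lit 0x300090007a001c00080000000000000000000000000000000) (nat_lit 0x0) (nat_lit 0x10000600000000000000000000000000000000000000000000) := D_2 (nat_lit 178) (nat_lit 177) (nat_lit 196) (nat_lit 1) (nat_lit 9) (nat_lit 10) (nat_lit 7) (nat_lit 8) (nat_lit 7) (by decide +kernel)
theorem L4323587 : W_2 (nat_lit 3) (nat_lit 0x300010007a001c00080000000000000000000000000000000) (nat_lit 0x0) (nat_lit 0x10001e00000000000000000000000000000000000000000000) := T_2 (nat_lit 179) (nat_lit 180) (nat_lit 3) (nat_lit 6) (nat_lit 9) L4323586 (by decide +kernel)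
theorem L4323588 : W_2 (nat_lit 4) (nat_lit 0x200010007a001c00080000000000000000000000000000000) (nat_lit 0x0) (nat_lit 0x20011001e00000000000000000000000000000000000000000000) := T_2 (nat_lit 192) (nat_lit 209) (nat_lit 5) (nat_lit 6) (nat_lit 8) L4323587 (by decide +kernel)
theorem L4323589 : W_2 (nat_lit 5) (nat_lit 0x10007a001c00080000000000000000000000000000000) (nat_lit 0x0) (nat_lit 0x60013001e00000000000000000000000000000000000000000000) := T_2 (nat_lit 193) (nat_lit 210) (nat_lit 6) (nat_lit 6) (nat_lit 12) L4323588 (by decide +kernel)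
theorem L4323590 : W_2 (nat_lit 6) (nat_lit 0x10003a001c00080000000000000000000000000000000) (nat_lit 0x0) (nat_lit 0x60013001e000c0000000000000000000000000000000000000000) := T_2 (nat_lit 162) (nat_lit 163) (nat_lit 0) (nat_lit 10) (nat_lit 9) L4323589 (by decide +kernel)
theorem L4323591 : W_2 (nat_lit 7) (nat_lit 0x100038001c00080000000000000000000000000000000) (nat_lit 0x0) (nat_lit 0x60013001e000c6000000000000000000000000000000000000000) := T_2 (nat_lit 157) (nat_lit 158) (nat_lit 2) (nat_lit 4) (nat_lit 9) L4323590 (by decide +kernel)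
theorem L4323592 : W_2 (nat_lit 10) (nat_lit 0x100018001c00080000000000000000000000000000000) (nat_lit 0x0) (nat_lit 0x16001b801ec00e6000000100008000000000000000000000000000) := Q_2 (nat_lit 161) (C_2 L3983313 (C_2 L4323585 (C_2 L4323591 N_2))) (by decide +kernel)
theorem L4323593 : W_2 (nat_lit 2) (nat_lit 0x78003c001c00080000000000000000000000000000000) (nat_lit 0x0) (nat_lit 0x20001800000000000000000000000000000000000000000000000) := D_2 (nat_lit 192) (nat_lit 209) (nat_lit 191) (nat_lit 6) (nat_lit 5) (nat_lit 12) (nat_lit 1) (nat_lit 8) (nat_lit 10) (by decide +kernel)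
theorem L4323594 : W_2 (nat_lit 3) (nat_lit 0x38003c001c00080000000000000000000000000000000) (nat_lit 0x0) (nat_lit 0x20001800c00000000000000000000000000000000000000000000) := T_2 (nat_lit 178) (nat_lit 179) (nat_lit 3) (nat_lit 5) (nat_lit 9) L4323593 (by decide +kernel)
theorem L4323595 : W_2 (nat_lit 4) (nat_lit 0x30003c001c00080000000000000000000000000000000) (nat_lit 0x0) (nat_lit 0x20001800cc0000000000000000000000000000000000000000000) := T_2 (nat_lit 175) (nat_lit 174) (nat_lit 2) (nat_lit 4) (nat_lit 10) L4323594 (by decide +kernel)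
theorem L4323596 : W_2 (nat_lit 5) (nat_lit 0x10003c001c00080000000000000000000000000000000) (nat_lit 0x0) (nat_lit 0x20005800ec0000000000000000000000000000000000000000000) := T_2 (nat_lit 177) (nat_lit 194) (nat_lit 6) (nat_lit 7) (nat_lit 11) L4323595 (by decide +kernel)
theorem L4323597 : W_2 (nat_lit 6) (nat_lit 0x100038001c00080000000000000000000000000000000) (nat_lit 0x0) (nat_lit 0x20005800ec0006000000000000000000000000000000000000000) := T_2 (nat_lit 158) (nat_lit 157) (nat_lit 2) (nat_lit 4) (nat_lit 9) L4323596 (by decide +kernel)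
theorem L4323598 : W_2 (nat_lit 2) (nat_lit 0xb00078001c00080000000000000000000000000000000) (nat_lit 0x0) (nat_lit 0x400006000000000000000000000000000000000000000) := D_2 (nat_lit 158) (nat_lit 178) (nat_lit 157) (nat_lit 3) (nat_lit 5) (nat_lit 9) (nat_lit 2) (nat_lit 4) (nat_lit 9) (by decide +kernel)
theorem L4323599 : W_2 (nat_lit 3) (nat_lit 0x300078001c00080000000000000000000000000000000) (nat_lit 0x0) (nat_lit 0x1c00006000000000000000000000000000000000000000) := T_2 (nat_lit 179) (nat_lit 180) (nat_lit 3) (nat_lit 6) (nat_lit 9) L4323598 (by decide +kernel)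
theorem L4323600 : W_2 (nat_lit 4) (nat_lit 0x300038001c00080000000000000000000000000000000) (nat_lit 0x0) (nat_lit 0x1c000c6000000000000000000000000000000000000000) := T_2 (nat_lit 162) (nat_lit 163) (nat_lit 1) (nat_lit 10) (nat_lit 9) L4323599 (by decide +kernel)
theorem L4323601 : W_2 (nat_lit 5) (nat_lit 0x100038001c00080000000000000000000000000000000) (nat_lit 0x0) (nat_lit 0x4001e000c6000000000000000000000000000000000000000) := T_2 (nat_lit 177) (nat_lit 194) (nat_lit 6) (nat_lit 7) (nat_lit 11) L4323600 (by decide +kernel)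
theorem L4323602 : W_2 (nat_lit 7) (nat_lit 0x100018001c00080000000000000000000000000000000) (nat_lit 0x0) (nat_lit 0x20005801ec00e6000000000000000000000000000000000000000) := Q_2 (nat_lit 161) (C_2 L3986437 (C_2 L4323597 (C_2 L3983313 (C_2 L4323601 N_2)))) (by decide +kernel)
theorem L4323603 : W_2 (nat_lit 11) (nat_lit 0x100008001c00080000000000000000000000000000000) (nat_lit 0x0) (nat_lit 0x1e001fc01ec00f6000000100008000000000000000000000000000) := Q_2 (nat_lit 160) (C_2 L1137983 (C_2 L4323577 (C_2 L1107156 (C_2 L4323592 (C_2 L4323602 N_2))))) (by decide +kernel)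
theorem L4323604 : W_2 (nat_lit 3) (nat_lit 0x100008001c00080000000000000000000000000000000) (nat_lit 0x0) (nat_lit 0x2000000010000000040002000100000000000000000000000) := T_2 (nat_lit 126) (nat_lit 193) (nat_lit 6) (nat_lit 6) (nat_lit 11) L1136558 (by decide +kernel)
theorem L4323633 : W_2 (nat_lit 2) (nat_lit 0x500028001c00080000000000000000000000000000000) (nat_lit 0x0) (nat_lit 0x8000000000000000040002000000000000000000000000000) := D_2 (nat_lit 126) (nat_lit 109) (nat_lit 195) (nat_lit 4) (nat_lit 8) (nat_lit 10) (nat_lit 4) (nat_lit 8) (nat_lit 11) (by decide +kernel)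
theorem L4323634 : W_2 (nat_lit 2) (nat_lit 0x700028001c00080000000000000000000000000000000) (nat_lit 0x0) (nat_lit 0x10000800004000000000000000000000000000000000000000) := D_2 (nat_lit 179) (nat_lit 196) (nat_lit 158) (nat_lit 7) (nat_lit 8) (nat_lit 7) (nat_lit 0) (nat_lit 9) (nat_lit 10) (by decide +kernel)
theorem L4323635 : W_2 (nat_lit 3) (nat_lit 0x500028001c00080000000000000000000000000000000) (nat_lit 0x0) (nat_lit 0x14000a00004000000000000000000000000000000000000000) := T_2 (nat_lit 177) (nat_lit 194) (nat_lit 5) (nat_lit 8) (nat_lit 7) L4323634 (by decide +kernel)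
theorem L4323643 : W_2 (nat_lit 2) (nat_lit 0x700008001c00080000000000000000000000000000000) (nat_lit 0x0) (nat_lit 0x4000000030000000000000000000000000000000000000000) := D_2 (nat_lit 194) (nat_lit 160) (nat_lit 161) (nat_lit 6) (nat_lit 7) (nat_lit 11) (nat_lit 5) (nat_lit 8) (nat_lit 7) (by decide +kernel)
theorem L4323644 : W_2 (nat_lit 4) (nat_lit 0x500008001c00080000000000000000000000000000000) (nat_lit 0x0) (nat_lit 0x4000a80037000000000000000000000000000000000000000) := Q_2 (nat_lit 177) (C_2 L4318675 (C_2 L4323643 N_2)) (by decide +kernel)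
theorem L4323645 : W_2 (nat_lit 4) (nat_lit 0x500008001c00080000000000000000000000000000000) (nat_lit 0x0) (nat_lit 0x1c000a00024000000040002000000000000000000000000000) := Q_2 (nat_lit 161) (C_2 L4323635 (C_2 L4323633 N_2)) (by decide +kernel)
theorem L4323646 : W_2 (nat_lit 2) (nat_lit 0xd00038001c00080000000000000000000000000000000) (nat_lit 0x0) (nat_lit 0x800c0000000000000000000000000000000000000000) := D_2 (nat_lit 162) (nat_lit 163) (nat_lit 175) (nat_lit 0) (nat_lit 10) (nat_lit 9) (nat_lit 1) (nat_lit 9) (nat_lit 9) (by decide +kernel)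
theorem L4323647 : W_2 (nat_lit 3) (nat_lit 0xd00028001c00080000000000000000000000000000000) (nat_lit 0x0) (nat_lit 0x800d4000000000000000000000000000000000000000) := T_2 (nat_lit 160) (nat_lit 158) (nat_lit 3) (nat_lit 5) (nat_lit 9) L4323646 (by decide +kernel)
theorem L4323648 : W_2 (nat_lit 4) (nat_lit 0x500028001c00080000000000000000000000000000000) (nat_lit 0x0) (nat_lit 0x100008800d4000000000000000000000000000000000000000) := T_2 (nat_lit 179) (nat_lit 196) (nat_lit 7) (nat_lit 8) (nat_lit 7) L4323647 (by decide +kernel)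
theorem L4323649 : W_2 (nat_lit 5) (nat_lit 0x500008001c00080000000000000000000000000000000) (nat_lit 0x0) (nat_lit 0x180008800f4000000040002000000000000000000000000000) := Q_2 (nat_lit 161) (C_2 L4323633 (C_2 L4323648 N_2)) (by decide +kernel)
theorem L4323650 : W_2 (nat_lit 2) (nat_lit 0x700068001c00080008000000000000000000000000000) (nat_lit 0x0) (nat_lit 0x190000000000000000000000000000000000000000) := D_2 (nat_lit 163) (nat_lit 164) (nat_lit 160) (nat_lit 1) (nat_lit 11) (nat_lit 9) (nat_lit 1) (nat_lit 10) (nat_lit 9) (by decide +kernel)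
theorem L4323651 : W_2 (nat_lit 3) (nat_lit 0x700028001c00080008000000000000000000000000000) (nat_lit 0x0) (nat_lit 0x801d0000000000000000000000000000000000000000) := T_2 (nat_lit 162) (nat_lit 175) (nat_lit 2) (nat_lit 5) (nat_lit 10) L4323650 (by decide +kernel)
theorem L4323652 : W_2 (nat_lit 4) (nat_lit 0x500028001c00080008000000000000000000000000000) (nat_lit 0x0) (nat_lit 0x40002801d0000000000000000000000000000000000000000) := T_2 (nat_lit 177) (nat_lit 194) (nat_lit 5) (nat_lit 8) (nat_lit 7) L4323651 (by decide +kernel)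
theorem L4323653 : W_2 (nat_lit 5) (nat_lit 0x500028001c00080000000000000000000000000000000) (nat_lit 0x0) (nat_lit 0x40002801d0000000100008000000000000000000000000000) := T_2 (nat_lit 111) (nat_lit 128) (nat_lit 6) (nat_lit 8) (nat_lit 10) L4323652 (by decide +kernel)
theorem L4323654 : W_2 (nat_lit 6) (nat_lit 0x500008001c00080000000000000000000000000000000) (nat_lit 0x0) (nat_lit 0xc0002801f000000014000a000000000000000000000000000) := Q_2 (nat_lit 161) (C_2 L4323633 (C_2 L4323653 N_2)) (by decide +kernel)
theorem L4323655 : W_2 (nat_lit 2) (nat_lit 0x700018001c00080000000000000000000000000000000) (nat_lit 0x0) (nat_lit 0x8000000000000000040002000000000000000000000000000) := D_2 (nat_lit 126) (nat_lit 109) (nat_lit 195) (nat_lit 5) (nat_lit 7) (nat_lit 6) (nat_lit 7) (nat_lit 7) (nat_lit 7) (by decide +kernel)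
theorem L4323656 : W_2 (nat_lit 3) (nat_lit 0x700008001c00080000000000000000000000000000000) (nat_lit 0x0) (nat_lit 0xc000000010000000040002000000000000000000000000000) := T_2 (nat_lit 160) (nat_lit 194) (nat_lit 6) (nat_lit 7) (nat_lit 11) L4323655 (by decide +kernel)
theorem L4323657 : W_2 (nat_lit 4) (nat_lit 0x500008001c00080000000000000000000000000000000) (nat_lit 0x0) (nat_lit 0xc000a80017000000040002000000000000000000000000000) := Q_2 (nat_lit 177) (C_2 L4318675 (C_2 L4323656 N_2)) (by decide +kernel)
theorem L4323658 : W_2 (nat_lit 7) (nat_lit 0x100008001c00080000000000000000000000000000000) (nat_lit 0x0) (nat_lit 0x1c000e801f700000014000a000000000000000000000000000) := Q_2 (nat_lit 178) (C_2 L4323644 (C_2 L4323645 (C_2 L4323649 (C_2 L4323654 (C_2 L4323657 N_2))))) (by decide +kernel)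
theorem L4323659 : W_2 (nat_lit 12) (nat_lit 0x8001c00080000000000000000000000000000000) (nat_lit 0x0) (nat_lit 0x14001e001fc01fc01f700000014000a000100000000000000000000000) := Q_2 (nat_lit 176) (C_2 L4323332 (C_2 L4323603 (C_2 L4323604 (C_2 L4323658 N_2)))) (by decide +kernel)
theorem L4324875 : W_2 (nat_lit 2) (nat_lit 0x400028001c00080000000000000000000000000000000) (nat_lit 0x0) (nat_lit 0x8000000000000000040002000000000000000000000000000) := D_2 (nat_lit 126) (nat_lit 195) (nat_lit 109) (nat_lit 4) (nat_lit 8) (nat_lit 11) (nat_lit 4) (nat_lit 8) (nat_lit 10) (by decide +kernel)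
theorem L4324877 : W_2 (nat_lit 3) (nat_lit 0xc00028001c00080000000000000000000000000000000) (nat_lit 0x0) (nat_lit 0x34000a000000000000000000000000000) := T_2 (nat_lit 126) (nat_lit 109) (nat_lit 4) (nat_lit 8) (nat_lit 10) L1105414 (by decide +kernel)
theorem L4324878 : W_2 (nat_lit 4) (nat_lit 0x400028001c00080000000000000000000000000000000) (nat_lit 0x0) (nat_lit 0x1000080000000000034000a000000000000000000000000000) := T_2 (nat_lit 179) (nat_lit 196) (nat_lit 7) (nat_lit 8) (nat_lit 7) L4324877 (by decide +kernel)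
theorem L4324879 : W_2 (nat_lit 5) (nat_lit 0x28001c00080000000000000000000000000000000) (nat_lit 0x0) (nat_lit 0x28001c000e0000000000034000a000000000000000000000000000) := Q_2 (nat_lit 178) (C_2 L4324875 (C_2 L1124747 (C_2 L4324878 N_2))) (by decide +kernel)
theorem L4324882 : W_2 (nat_lit 2) (nat_lit 0x10000c000400028001c00080008000000000000000000000000000) (nat_lit 0x0) (nat_lit 0x4000200010000000000000000000000000000000000000000000000000) := D_2 (nat_lit 213) (nat_lit 196) (nat_lit 230) (nat_lit 7) (nat_lit 8) (nat_lit 8) (nat_lit 7) (nat_lit 8) (nat_lit 9) (by decide +kernel)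
theorem L4324883 : W_2 (nat_lit 3) (nat_lit 0xc000400028001c00080008000000000000000000000000000) (nat_lit 0x0) (nat_lit 0x4000300010000000010000000000000000000000000000000000000000) := T_2 (nat_lit 212) (nat_lit 160) (nat_lit 4) (nat_lit 8) (nat_lit 12) L4324882 (by decide +kernel)
theorem L4324884 : W_2 (nat_lit 4) (nat_lit 0x4000400028001c00080008000000000000000000000000000) (nat_lit 0x0) (nat_lit 0x4000380018000000010000000000000000000000000000000000000000) := T_2 (nat_lit 195) (nat_lit 211) (nat_lit 5) (nat_lit 8) (nat_lit 8) L4324883 (by decide +kernel)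
theorem L4324885 : W_2 (nat_lit 5) (nat_lit 0x400028001c00080008000000000000000000000000000) (nat_lit 0x0) (nat_lit 0x400038001c000200010000000000000000000000000000000000000000) := T_2 (nat_lit 194) (nat_lit 177) (nat_lit 5) (nat_lit 8) (nat_lit 7) L4324884 (by decide +kernel)
theorem L4324886 : W_2 (nat_lit 6) (nat_lit 0x400028001c00080000000000000000000000000000000) (nat_lit 0x0) (nat_lit 0x400038001c000200010000000100008000000000000000000000000000) := T_2 (nat_lit 111) (nat_lit 128) (nat_lit 6) (nat_lit 8) (nat_lit 10) L4324885 (by decide +kernel)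
theorem L4324893 : W_2 (nat_lit 3) (nat_lit 0x400028001c00080000000000000000000000000000000) (nat_lit 0x0) (nat_lit 0x34000a000000000000000000000000000) := T_2 (nat_lit 126) (nat_lit 109) (nat_lit 4) (nat_lit 8) (nat_lit 10) L1105357 (by decide +kernel)
theorem L4324894 : W_2 (nat_lit 7) (nat_lit 0x28001c00080000000000000000000000000000000) (nat_lit 0x0) (nat_lit 0x400038001c00060001000000034000a000000000000000000000000000) := Q_2 (nat_lit 178) (C_2 L4324886 (C_2 L4324875 (C_2 L4324893 N_2))) (by decide +kernel)
theorem L4330123 : W_2 (nat_lit 6) (nat_lit 0x1800380000000000000000000000000000000) (nat_lit 0x0) (nat_lit 0x400078039c00000000000000000000000000) := T_2 (nat_lit 126) (nat_lit 142) (nat_lit 1) (nat_lit 10) (nat_lit 7) L3543005 (by decide +kernel)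
theorem L4330124 : W_2 (nat_lit 7) (nat_lit 0x1800180000000000000000000000000000000) (nat_lit 0x0) (nat_lit 0x400678039c00000000000000000000000000) := T_2 (nat_lit 129) (nat_lit 130) (nat_lit 1) (nat_lit 11) (nat_lit 7) L4330123 (by decide +kernel)
theorem L4330383 : W_2 (nat_lit 2) (nat_lit 0x18001f0008000000000000000000000000000) (nat_lit 0x0) (nat_lit 0x1c00000000000000000000000000) := D_2 (nat_lit 107) (nat_lit 108) (nat_lit 106) (nat_lit 0) (nat_lit 9) (nat_lit 7) (nat_lit 0) (nat_lit 8) (nat_lit 7) (by decide +kernel)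
theorem L4330384 : W_2 (nat_lit 3) (nat_lit 0x18001e0008000000000000000000000000000) (nat_lit 0x0) (nat_lit 0x18001c00000000000000000000000000) := T_2 (nat_lit 124) (nat_lit 123) (nat_lit 3) (nat_lit 4) (nat_lit 7) L4330383 (by decide +kernel)
theorem L4330385 : W_2 (nat_lit 4) (nat_lit 0x18001e0000000000000000000000000000000) (nat_lit 0x0) (nat_lit 0x18019c00000000000000000000000000) := T_2 (nat_lit 111) (nat_lit 112) (nat_lit 2) (nat_lit 6) (nat_lit 7) L4330384 (by decide +kernel)
theorem L4330386 : W_2 (nat_lit 7) (nat_lit 0x18001e0000000000000000000000000000000) (nat_lit 0x0) (nat_lit 0x40002000060000001b80018000c000000000000000000) := T_2 (nat_lit 142) (nat_lit 141) (nat_lit 2) (nat_lit 5) (nat_lit 8) L1143949 (by decide +kernel)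
theorem L4330387 : W_2 (nat_lit 8) (nat_lit 0x18001c0000000000000000000000000000000) (nat_lit 0x0) (nat_lit 0x40002000070003801bc0018000c000000000000000000) := Q_2 (nat_lit 125) (C_2 L3460713 (C_2 L4330385 (C_2 L4330386 N_2))) (by decide +kernel)
theorem L4330388 : W_2 (nat_lit 9) (nat_lit 0x18000c0000000000000000000000000000000) (nat_lit 0x0) (nat_lit 0x40002000070073801bc0018000c000000000000000000) := Q_2 (nat_lit 128) (C_2 L3460579 (C_2 L6293 (C_2 L4330387 N_2))) (by decide +kernel)
theorem L4330389 : W_2 (nat_lit 2) (nat_lit 0x4003c001e000d0002800080000000000000000000000) (nat_lit 0x0) (nat_lit 0x20000400020000000000000000000000) := D_2 (nat_lit 106) (nat_lit 89) (nat_lit 125) (nat_lit 4) (nat_lit 5) (nat_lit 9) (nat_lit 0) (nat_lit 8) (nat_lit 7) (by decide +kernel)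
theorem L4330390 : W_2 (nat_lit 3) (nat_lit 0x4003c001e000d0002000080000000000000000000000) (nat_lit 0x0) (nat_lit 0x20000c00060000000000000000000000) := T_2 (nat_lit 107) (nat_lit 90) (nat_lit 7) (nat_lit 5) (nat_lit 5) L4330389 (by decide +kernel)
theorem L4330391 : W_2 (nat_lit 4) (nat_lit 0x4003c001e000c0002000080000000000000000000000) (nat_lit 0x0) (nat_lit 0x38000c00060000000000000000000000) := T_2 (nat_lit 124) (nat_lit 123) (nat_lit 0) (nat_lit 8) (nat_lit 8) L4330390 (by decide +kernel)
theorem L4330392 : W_2 (nat_lit 5) (nat_lit 0x4003c001a000c0002000080000000000000000000000) (nat_lit 0x0) (nat_lit 0x40000400038000c00060000000000000000000000) := T_2 (nat_lit 142) (nat_lit 162) (nat_lit 3) (nat_lit 5) (nat_lit 8) L4330391 (by decide +kernel)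
theorem L4330393 : W_2 (nat_lit 6) (nat_lit 0x3c001a000c0002000080000000000000000000000) (nat_lit 0x0) (nat_lit 0xc0040000400038000c00060000000000000000000000) := T_2 (nat_lit 174) (nat_lit 175) (nat_lit 1) (nat_lit 8) (nat_lit 9) L4330392 (by decide +kernel)
theorem L4330394 : W_2 (nat_lit 7) (nat_lit 0x3c0018000c0002000080000000000000000000000) (nat_lit 0x0) (nat_lit 0xc0040000700038000c00060000000000000000000000) := T_2 (nat_lit 141) (nat_lit 140) (nat_lit 0) (nat_lit 8) (nat_lit 9) L4330393 (by decide +kernel)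
theorem L4330395 : W_2 (nat_lit 8) (nat_lit 0x3c0018000c0002000000000000000000000000000) (nat_lit 0x0) (nat_lit 0xc0040000700038001c000e0000000000000000000000) := T_2 (nat_lit 91) (nat_lit 108) (nat_lit 4) (nat_lit 7) (nat_lit 9) L4330394 (by decide +kernel)
theorem L4330396 : W_2 (nat_lit 9) (nat_lit 0x380018000c0002000000000000000000000000000) (nat_lit 0x0) (nat_lit 0xc0046000700038001c000e0000000000000000000000) := T_2 (nat_lit 158) (nat_lit 157) (nat_lit 2) (nat_lit 4) (nat_lit 9) L4330395 (by decide +kernel)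
theorem L4330397 : W_2 (nat_lit 10) (nat_lit 0x300018000c0002000000000000000000000000000) (nat_lit 0x0) (nat_lit 0x1c004e000700038001c000e0000000000000000000000) := T_2 (nat_lit 159) (nat_lit 176) (nat_lit 5) (nat_lit 7) (nat_lit 6) L4330396 (by decide +kernel)
theorem L4330398 : W_2 (nat_lit 11) (nat_lit 0x100018000c0002000000000000000000000000000) (nat_lit 0x0) (nat_lit 0x5c006e000700038001c000e0000000000000000000000) := T_2 (nat_lit 161) (nat_lit 178) (nat_lit 7) (nat_lit 7) (nat_lit 6) L4330397 (by decide +kernel)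
theorem L4330399 : W_2 (nat_lit 12) (nat_lit 0x18000c0002000000000000000000000000000) (nat_lit 0x0) (nat_lit 0xc0007c007e000700038001c000e0000000000000000000000) := Q_2 (nat_lit 160) (C_2 L62299 (C_2 L4330398 (C_2 L33246 N_2))) (by decide +kernel)
theorem L4330400 : W_2 (nat_lit 13) (nat_lit 0x18000c0000000000000000000000000000000) (nat_lit 0x0) (nat_lit 0xc0007c007e000700038003c00fe001c000000000000000000) := Q_2 (nat_lit 109) (C_2 L33238 (C_2 L1216 (C_2 L4330399 N_2))) (by decide +kernel)
theorem L4330401 : W_2 (nat_lit 7) (nat_lit 0x100018000c0002000000000000000000000000000) (nat_lit 0x0) (nat_lit 0x50006e000700100001000080000000000000000000000) := T_2 (nat_lit 161) (nat_lit 178) (nat_lit 7) (nat_lit 7) (nat_lit 6) L4029607 (by decide +kernel)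
theorem L4330402 : W_2 (nat_lit 8) (nat_lit 0x18000c0002000000000000000000000000000) (nat_lit 0x0) (nat_lit 0xe00070007e000700100001000080000000000000000000000) := Q_2 (nat_lit 160) (C_2 L62299 (C_2 L4330401 (C_2 L33244 N_2))) (by decide +kernel)
theorem L4330403 : W_2 (nat_lit 9) (nat_lit 0x18000c0000000000000000000000000000000) (nat_lit 0x0) (nat_lit 0xe00070007e000700300003800f8001c000000000000000000) := Q_2 (nat_lit 109) (C_2 L33238 (C_2 L1496 (C_2 L4330402 N_2))) (by decide +kernel)
theorem L4331868 : W_2 (nat_lit 6) (nat_lit 0x18001c0000000000000000000000000000000) (nat_lit 0x0) (nat_lit 0x638039c00000000000000000000000000) := T_2 (nat_lit 129) (nat_lit 130) (nat_lit 1) (nat_lit 11) (nat_lit 7) L3543005 (by decide +kernel)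
theorem L4331869 : W_2 (nat_lit 5) (nat_lit 0x18001c0000000000000000000000000000000) (nat_lit 0x0) (nat_lit 0x10000700038019c00080004000000000000000000) := Q_2 (nat_lit 125) (C_2 L4330385 (C_2 L3460713 (C_2 L22969 N_2))) (by decide +kernel)
theorem L4331870 : W_2 (nat_lit 7) (nat_lit 0x18000c0000000000000000000000000000000) (nat_lit 0x0) (nat_lit 0x10000700738039c00080004000000000000000000) := Q_2 (nat_lit 128) (C_2 L3460579 (C_2 L4331868 (C_2 L4331869 N_2))) (by decide +kernel)
theorem L4332893 : W_2 (nat_lit 2) (nat_lit 0x4003c001a000c0002000000000000000000000000000) (nat_lit 0x0) (nat_lit 0x40000400100000000000000000000000000000000) := D_2 (nat_lit 142) (nat_lit 162) (nat_lit 128) (nat_lit 3) (nat_lit 5) (nat_lit 8) (nat_lit 2) (nat_lit 5) (nat_lit 8) (by decide +kernel)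
theorem L4332894 : W_2 (nat_lit 3) (nat_lit 0x4003c0018000c0002000000000000000000000000000) (nat_lit 0x0) (nat_lit 0x40000700100000000000000000000000000000000) := T_2 (nat_lit 141) (nat_lit 140) (nat_lit 0) (nat_lit 8) (nat_lit 9) L4332893 (by decide +kernel)
theorem L4332895 : W_2 (nat_lit 4) (nat_lit 0x3c0018000c0002000000000000000000000000000) (nat_lit 0x0) (nat_lit 0xc0040000700100000000000000000000000000000000) := T_2 (nat_lit 174) (nat_lit 175) (nat_lit 1) (nat_lit 8) (nat_lit 9) L4332894 (by decide +kernel)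
theorem L4332896 : W_2 (nat_lit 5) (nat_lit 0x380018000c0002000000000000000000000000000) (nat_lit 0x0) (nat_lit 0xc0046000700100000000000000000000000000000000) := T_2 (nat_lit 158) (nat_lit 157) (nat_lit 2) (nat_lit 4) (nat_lit 9) L4332895 (by decide +kernel)
theorem L4332897 : W_2 (nat_lit 6) (nat_lit 0x300018000c0002000000000000000000000000000) (nat_lit 0x0) (nat_lit 0x1c004e000700100000000000000000000000000000000) := T_2 (nat_lit 159) (nat_lit 176) (nat_lit 5) (nat_lit 7) (nat_lit 6) L4332896 (by decide +kernel)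
theorem L4333841 : W_2 (nat_lit 7) (nat_lit 0x100018000c0002000000000000000000000000000) (nat_lit 0x0) (nat_lit 0x5c006e000700100000000000000000000000000000000) := T_2 (nat_lit 161) (nat_lit 178) (nat_lit 7) (nat_lit 7) (nat_lit 6) L4332897 (by decide +kernel)
theorem L4333842 : W_2 (nat_lit 8) (nat_lit 0x18000c0002000000000000000000000000000) (nat_lit 0x0) (nat_lit 0xe0007c007e000700100000000000000000000000000000000) := Q_2 (nat_lit 160) (C_2 L62299 (C_2 L4333841 (C_2 L33244 N_2))) (by decide +kernel)
theorem L4333843 : W_2 (nat_lit 9) (nat_lit 0x18000c0000000000000000000000000000000) (nat_lit 0x0) (nat_lit 0xe0007c007e000700300002000100008000000000000000000) := Q_2 (nat_lit 109) (C_2 L1496 (C_2 L1216 (C_2 L4333842 N_2))) (by decide +kernel)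
theorem L4333844 : W_2 (nat_lit 15) (nat_lit 0x1800080000000000000000000000000000000) (nat_lit 0x0) (nat_lit 0xf0007c007e00070077803bc00fe003f000200000000000000) := Q_2 (nat_lit 126) (C_2 L62302 (C_2 L3455346 (C_2 L4330388 (C_2 L4330400 (C_2 L4330403 (C_2 L4331870 (C_2 L4333843 N_2))))))) (by decide +kernel)
theorem L4333845 : W_2 (nat_lit 2) (nat_lit 0x1d00048003c001c0000000000000000000000000000000) (nat_lit 0x0) (nat_lit 0x20000000000002000100000000000000000000000) := D_2 (nat_lit 109) (nat_lit 161) (nat_lit 92) (nat_lit 4) (nat_lit 8) (nat_lit 10) (nat_lit 5) (nat_lit 7) (nat_lit 5) (by decide +kernel)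
theorem L4333846 : W_2 (nat_lit 3) (nat_lit 0x1900048003c001c0000000000000000000000000000000) (nat_lit 0x0) (nat_lit 0x8000400020000000000002000100000000000000000000000) := T_2 (nat_lit 178) (nat_lit 195) (nat_lit 5) (nat_lit 9) (nat_lit 7) L4333845 (by decide +kernel)
theorem L4333847 : W_2 (nat_lit 4) (nat_lit 0x900048003c001c0000000000000000000000000000000) (nat_lit 0x0) (nat_lit 0x28001400020000000000002000100000000000000000000000) := T_2 (nat_lit 180) (nat_lit 197) (nat_lit 7) (nat_lit 9) (nat_lit 7) L4333846 (by decide +kernel)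
theorem L4334247 : W_2 (nat_lit 2) (nat_lit 0x800020003c001e0001000180002000000000000000000) (nat_lit 0x0) (nat_lit 0x18000400000000000000000000000000000000000000000000) := D_2 (nat_lit 178) (nat_lit 195) (nat_lit 196) (nat_lit 6) (nat_lit 8) (nat_lit 11) (nat_lit 7) (nat_lit 8) (nat_lit 7) (by decide +kernel)
theorem L4334248 : W_2 (nat_lit 3) (nat_lit 0x800000003c001e0001000180002000000000000000000) (nat_lit 0x0) (nat_lit 0x18000400020000000000002000000000000000000000000000) := T_2 (nat_lit 161) (nat_lit 109) (nat_lit 7) (nat_lit 7) (nat_lit 5) L4334247 (by decide +kernel)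
theorem L4334249 : W_2 (nat_lit 4) (nat_lit 0x800000003c001e0001000180000000000000000000000) (nat_lit 0x0) (nat_lit 0x18000400020000000000002000040002000000000000000000) := T_2 (nat_lit 73) (nat_lit 90) (nat_lit 4) (nat_lit 6) (nat_lit 8) L4334248 (by decide +kernel)
theorem L4334250 : W_2 (nat_lit 5) (nat_lit 0x800000003c001e0001000080000000000000000000000) (nat_lit 0x0) (nat_lit 0x1800040002000000000000200014000a000000000000000000) := T_2 (nat_lit 92) (nat_lit 75) (nat_lit 6) (nat_lit 6) (nat_lit 8) L4334249 (by decide +kernel)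
theorem L4334251 : W_2 (nat_lit 6) (nat_lit 0x800000003c001e0001000000000000000000000000000) (nat_lit 0x0) (nat_lit 0x180004000200000000000020001c000e000000000000000000) := T_2 (nat_lit 91) (nat_lit 74) (nat_lit 7) (nat_lit 6) (nat_lit 4) L4334250 (by decide +kernel)
theorem L4335240 : W_2 (nat_lit 2) (nat_lit 0x900008003c000c0000000000000000000000000000000) (nat_lit 0x0) (nat_lit 0x20002000100000000000000000000000) := D_2 (nat_lit 109) (nat_lit 125) (nat_lit 92) (nat_lit 6) (nat_lit 6) (nat_lit 10) (nat_lit 5) (nat_lit 7) (nat_lit 5) (by decide +kernel)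
theorem L4335274 : W_2 (nat_lit 5) (nat_lit 0x800008003c000a0001000000000000000000000000000) (nat_lit 0x0) (nat_lit 0x3000028001c000a000000000000000000) := T_2 (nat_lit 128) (nat_lit 129) (nat_lit 2) (nat_lit 6) (nat_lit 8) L254597 (by decide +kernel)
theorem L4335275 : W_2 (nat_lit 6) (nat_lit 0x800000003c000a0001000000000000000000000000000) (nat_lit 0x0) (nat_lit 0xc0000003000028001c000a000000000000000000) := T_2 (nat_lit 159) (nat_lit 158) (nat_lit 1) (nat_lit 9) (nat_lit 8) L4335274 (by decide +kernel)
theorem L4335276 : W_2 (nat_lit 2) (nat_lit 0x800000003c001a0001800000000000000000000000000) (nat_lit 0x0) (nat_lit 0xc000000000000000040000000000000000000000) := D_2 (nat_lit 159) (nat_lit 158) (nat_lit 90) (nat_lit 1) (nat_lit 9) (nat_lit 8) (nat_lit 4) (nat_lit 6) (nat_lit 9) (by decide +kernel)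
theorem L4335277 : W_2 (nat_lit 3) (nat_lit 0x800000003c001a0001000000000000000000000000000) (nat_lit 0x0) (nat_lit 0xc000000040000800040000000000000000000000) := T_2 (nat_lit 107) (nat_lit 126) (nat_lit 0) (nat_lit 9) (nat_lit 7) L4335276 (by decide +kernel)
theorem L4335278 : W_2 (nat_lit 4) (nat_lit 0x800000003c000a0001000000000000000000000000000) (nat_lit 0x0) (nat_lit 0xc000000340000800040000000000000000000000) := T_2 (nat_lit 128) (nat_lit 129) (nat_lit 2) (nat_lit 6) (nat_lit 8) L4335277 (by decide +kernel)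
theorem L4335279 : W_2 (nat_lit 2) (nat_lit 0x1000b00008003c000a0003000040002000000000000000000) (nat_lit 0x0) (nat_lit 0x20002000400000000000000000000000000000000000000000000) := D_2 (nat_lit 193) (nat_lit 178) (nat_lit 209) (nat_lit 1) (nat_lit 9) (nat_lit 10) (nat_lit 5) (nat_lit 6) (nat_lit 8) (by decide +kernel)
theorem L4335280 : W_2 (nat_lit 3) (nat_lit 0x1000900008003c000a0003000040002000000000000000000) (nat_lit 0x0) (nat_lit 0x20006000600000000000000000000000000000000000000000000) := T_2 (nat_lit 177) (nat_lit 194) (nat_lit 7) (nat_lit 6) (nat_lit 7) L4335279 (by decide +kernel)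
theorem L4335281 : W_2 (nat_lit 4) (nat_lit 0x900008003c000a0003000040002000000000000000000) (nat_lit 0x0) (nat_lit 0x20007000680000000000000000000000000000000000000000000) := T_2 (nat_lit 192) (nat_lit 175) (nat_lit 5) (nat_lit 6) (nat_lit 7) L4335280 (by decide +kernel)
theorem L4335282 : W_2 (nat_lit 5) (nat_lit 0x800008003c000a0003000040002000000000000000000) (nat_lit 0x0) (nat_lit 0x20007000780000000000040000000000000000000000000000000) := T_2 (nat_lit 176) (nat_lit 126) (nat_lit 6) (nat_lit 6) (nat_lit 10) L4335281 (by decide +kernel)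
theorem L4335283 : W_2 (nat_lit 6) (nat_lit 0x800008003c000a0001000040002000000000000000000) (nat_lit 0x0) (nat_lit 0x20007000780000000000040002000100000000000000000000000) := T_2 (nat_lit 109) (nat_lit 92) (nat_lit 6) (nat_lit 6) (nat_lit 9) L4335282 (by decide +kernel)
theorem L4335284 : W_2 (nat_lit 7) (nat_lit 0x800008003c000a0001000040000000000000000000000) (nat_lit 0x0) (nat_lit 0x20007000780000000000040002000180002000000000000000000) := T_2 (nat_lit 73) (nat_lit 91) (nat_lit 4) (nat_lit 6) (nat_lit 8) L4335283 (by decide +kernel)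
theorem L4335285 : W_2 (nat_lit 8) (nat_lit 0x800008003c000a0001000000000000000000000000000) (nat_lit 0x0) (nat_lit 0x200070007800000000000400028001c0002000000000000000000) := T_2 (nat_lit 90) (nat_lit 107) (nat_lit 4) (nat_lit 6) (nat_lit 9) L4335284 (by decide +kernel)
theorem L4335286 : W_2 (nat_lit 9) (nat_lit 0x800000003c000a0001000000000000000000000000000) (nat_lit 0x0) (nat_lit 0x2000700078000c0000000400028001c0002000000000000000000) := T_2 (nat_lit 159) (nat_lit 158) (nat_lit 1) (nat_lit 9) (nat_lit 8) L4335285 (by decide +kernel)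
theorem L4335287 : W_2 (nat_lit 7) (nat_lit 0x800000003c001a0001000000000000000000000000000) (nat_lit 0x0) (nat_lit 0x180004000200000000400028001c000e000000000000000000) := T_2 (nat_lit 126) (nat_lit 107) (nat_lit 0) (nat_lit 9) (nat_lit 7) L4334251 (by decide +kernel)
theorem L4335288 : W_2 (nat_lit 8) (nat_lit 0x800000003c000a0001000000000000000000000000000) (nat_lit 0x0) (nat_lit 0x180004000200000003400028001c000e000000000000000000) := T_2 (nat_lit 128) (nat_lit 129) (nat_lit 2) (nat_lit 6) (nat_lit 8) L4335287 (by decide +kernel)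
theorem L4335289 : W_2 (nat_lit 2) (nat_lit 0x800008003c001a0001000180002000000000000000000) (nat_lit 0x0) (nat_lit 0x40000000000004000100000000000000) := D_2 (nat_lit 74) (nat_lit 56) (nat_lit 126) (nat_lit 4) (nat_lit 6) (nat_lit 7) (nat_lit 7) (nat_lit 6) (nat_lit 4) (by decide +kernel)
theorem L4335290 : W_2 (nat_lit 3) (nat_lit 0x800008003c001a0001000180000000000000000000000) (nat_lit 0x0) (nat_lit 0x40000000040006000100000000000000) := T_2 (nat_lit 73) (nat_lit 90) (nat_lit 4) (nat_lit 6) (nat_lit 8) L4335289 (by decide +kernel)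
theorem L4335291 : W_2 (nat_lit 4) (nat_lit 0x800008003c001a0001000100000000000000000000000) (nat_lit 0x0) (nat_lit 0x400000000c000e000100000000000000) := T_2 (nat_lit 91) (nat_lit 75) (nat_lit 6) (nat_lit 6) (nat_lit 8) L4335290 (by decide +kernel)
theorem L4335292 : W_2 (nat_lit 5) (nat_lit 0x800008003c001a0001000000000000000000000000000) (nat_lit 0x0) (nat_lit 0x400020001c000e000100000000000000) := T_2 (nat_lit 92) (nat_lit 109) (nat_lit 6) (nat_lit 6) (nat_lit 9) L4335291 (by decide +kernel)
theorem L4335293 : W_2 (nat_lit 6) (nat_lit 0x800000003c001a0001000000000000000000000000000) (nat_lit 0x0) (nat_lit 0xc0000000400020001c000e000100000000000000) := T_2 (nat_lit 159) (nat_lit 158) (nat_lit 1) (nat_lit 9) (nat_lit 8) L4335292 (by decide +kernel)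
theorem L4335294 : W_2 (nat_lit 7) (nat_lit 0x800000003c000a0001000000000000000000000000000) (nat_lit 0x0) (nat_lit 0xc0000003400020001c000e000100000000000000) := T_2 (nat_lit 128) (nat_lit 129) (nat_lit 2) (nat_lit 6) (nat_lit 8) L4335293 (by decide +kernel)
theorem L4335295 : W_2 (nat_lit 2) (nat_lit 0x800024003c001e0001000180000000000000000000000) (nat_lit 0x0) (nat_lit 0x18000400000000000000000000000000000000000000000000) := D_2 (nat_lit 178) (nat_lit 195) (nat_lit 196) (nat_lit 6) (nat_lit 8) (nat_lit 11) (nat_lit 7) (nat_lit 8) (nat_lit 7) (by decide +kernel)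
theorem L4335296 : W_2 (nat_lit 3) (nat_lit 0x800004003c001e0001000180000000000000000000000) (nat_lit 0x0) (nat_lit 0x18000400020000000000002000000000000000000000000000) := T_2 (nat_lit 161) (nat_lit 109) (nat_lit 7) (nat_lit 7) (nat_lit 5) L4335295 (by decide +kernel)
theorem L4335297 : W_2 (nat_lit 4) (nat_lit 0x800004003c001e0001000080000000000000000000000) (nat_lit 0x0) (nat_lit 0x18000400020000000000002000100008000000000000000000) := T_2 (nat_lit 92) (nat_lit 75) (nat_lit 6) (nat_lit 6) (nat_lit 8) L4335296 (by decide +kernel)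
theorem L4335298 : W_2 (nat_lit 5) (nat_lit 0x800004003c001e0001000000000000000000000000000) (nat_lit 0x0) (nat_lit 0x1800040002000000000000200018000c000000000000000000) := T_2 (nat_lit 91) (nat_lit 74) (nat_lit 7) (nat_lit 6) (nat_lit 4) L4335297 (by decide +kernel)
theorem L4335299 : W_2 (nat_lit 6) (nat_lit 0x800004003c001a0001000000000000000000000000000) (nat_lit 0x0) (nat_lit 0x1800040002000000004000280018000c000000000000000000) := T_2 (nat_lit 126) (nat_lit 107) (nat_lit 0) (nat_lit 9) (nat_lit 7) L4335298 (by decide +kernel)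
theorem L4335300 : W_2 (nat_lit 7) (nat_lit 0x800004003c000a0001000000000000000000000000000) (nat_lit 0x0) (nat_lit 0x1800040002000000034000280018000c000000000000000000) := T_2 (nat_lit 128) (nat_lit 129) (nat_lit 2) (nat_lit 6) (nat_lit 8) L4335299 (by decide +kernel)
theorem L4335301 : W_2 (nat_lit 8) (nat_lit 0x800000003c000a0001000000000000000000000000000) (nat_lit 0x0) (nat_lit 0x1800040002c00000034000280018000c000000000000000000) := T_2 (nat_lit 158) (nat_lit 159) (nat_lit 1) (nat_lit 9) (nat_lit 8) L4335300 (by decide +kernel)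
theorem L4335302 : W_2 (nat_lit 10) (nat_lit 0x800000003c000a0000000000000000000000000000000) (nat_lit 0x0) (nat_lit 0x2001f00078002c0000003400038001c000e000100000000000000) := Q_2 (nat_lit 108) (C_2 L4335275 (C_2 L4335278 (C_2 L4335286 (C_2 L4335288 (C_2 L4335294 (C_2 L4335301 N_2)))))) (by decide +kernel)
theorem L4335303 : W_2 (nat_lit 11) (nat_lit 0x800000003c00080000000000000000000000000000000) (nat_lit 0x0) (nat_lit 0x2001f00078002c0000003700038001c000e000100000000000000) := T_2 (nat_lit 125) (nat_lit 124) (nat_lit 0) (nat_lit 9) (nat_lit 8) L4335302 (by decide +kernel)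
theorem L4335750 : W_2 (nat_lit 2) (nat_lit 0x800008003c001e0000000000000000000000000000000) (nat_lit 0x0) (nat_lit 0x2000100000000000000002000000000000000000000000000) := D_2 (nat_lit 176) (nat_lit 193) (nat_lit 109) (nat_lit 6) (nat_lit 6) (nat_lit 11) (nat_lit 6) (nat_lit 6) (nat_lit 10) (by decide +kernel)
theorem L4335751 : W_2 (nat_lit 3) (nat_lit 0x800008003c001c0000000000000000000000000000000) (nat_lit 0x0) (nat_lit 0x2000100000000000030002000000000000000000000000000) := T_2 (nat_lit 125) (nat_lit 124) (nat_lit 3) (nat_lit 5) (nat_lit 7) L4335750 (by decide +kernel)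
theorem L4335752 : W_2 (nat_lit 4) (nat_lit 0x800008003c000c0000000000000000000000000000000) (nat_lit 0x0) (nat_lit 0x2000100000000000330002000000000000000000000000000) := T_2 (nat_lit 128) (nat_lit 129) (nat_lit 2) (nat_lit 6) (nat_lit 8) L4335751 (by decide +kernel)
theorem L4335753 : W_2 (nat_lit 3) (nat_lit 0x800008003c000c0000000000000000000000000000000) (nat_lit 0x0) (nat_lit 0x2000100000000000020002000100000000000000000000000) := T_2 (nat_lit 176) (nat_lit 193) (nat_lit 6) (nat_lit 6) (nat_lit 11) L4335240 (by decide +kernel)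
theorem L4335754 : W_2 (nat_lit 5) (nat_lit 0x900048003c000c0000000000000000000000000000000) (nat_lit 0x0) (nat_lit 0x28001400020000000300002000100000000000000000000000) := T_2 (nat_lit 128) (nat_lit 129) (nat_lit 2) (nat_lit 6) (nat_lit 8) L4333847 (by decide +kernel)
theorem L4335755 : W_2 (nat_lit 6) (nat_lit 0x800048003c000c0000000000000000000000000000000) (nat_lit 0x0) (nat_lit 0x2a001500020000000300002000100000000000000000000000) := T_2 (nat_lit 176) (nat_lit 193) (nat_lit 6) (nat_lit 6) (nat_lit 11) L4335754 (by decide +kernel)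
theorem L4335756 : W_2 (nat_lit 7) (nat_lit 0x800008003c000c0000000000000000000000000000000) (nat_lit 0x0) (nat_lit 0x2a0015000e0000000300002000100000000000000000000000) := T_2 (nat_lit 162) (nat_lit 163) (nat_lit 3) (nat_lit 6) (nat_lit 8) L4335755 (by decide +kernel)
theorem L4335757 : W_2 (nat_lit 2) (nat_lit 0xb80048003c001e0000800000000000000000000000000) (nat_lit 0x0) (nat_lit 0x8000400020000000000000000000000000000000000000000) := D_2 (nat_lit 178) (nat_lit 161) (nat_lit 195) (nat_lit 2) (nat_lit 5) (nat_lit 10) (nat_lit 5) (nat_lit 9) (nat_lit 7) (by decide +kernel)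
theorem L4335758 : W_2 (nat_lit 3) (nat_lit 0xb80008003c001e0000800000000000000000000000000) (nat_lit 0x0) (nat_lit 0x80004000e0000000000000000000000000000000000000000) := T_2 (nat_lit 162) (nat_lit 163) (nat_lit 3) (nat_lit 6) (nat_lit 8) L4335757 (by decide +kernel)
theorem L4335759 : W_2 (nat_lit 4) (nat_lit 0xb80008003c001e0000000000000000000000000000000) (nat_lit 0x0) (nat_lit 0x80004000e0000000000001800000000000000000000000000) := T_2 (nat_lit 107) (nat_lit 108) (nat_lit 0) (nat_lit 9) (nat_lit 7) L4335758 (by decide +kernel)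
theorem L4335760 : W_2 (nat_lit 5) (nat_lit 0x980008003c001e0000000000000000000000000000000) (nat_lit 0x0) (nat_lit 0xc0006000e0000000000001800000000000000000000000000) := T_2 (nat_lit 177) (nat_lit 194) (nat_lit 7) (nat_lit 6) (nat_lit 7) L4335759 (by decide +kernel)
theorem L4335761 : W_2 (nat_lit 6) (nat_lit 0x900008003c001e0000000000000000000000000000000) (nat_lit 0x0) (nat_lit 0xd0006800e0000000000001800000000000000000000000000) := T_2 (nat_lit 175) (nat_lit 192) (nat_lit 5) (nat_lit 6) (nat_lit 7) L4335760 (by decide +kernel)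
theorem L4335762 : W_2 (nat_lit 7) (nat_lit 0x800008003c001e0000000000000000000000000000000) (nat_lit 0x0) (nat_lit 0xf0007800e0000000000001800000000000000000000000000) := T_2 (nat_lit 176) (nat_lit 193) (nat_lit 6) (nat_lit 6) (nat_lit 11) L4335761 (by decide +kernel)
theorem L4335763 : W_2 (nat_lit 8) (nat_lit 0x800008003c001c0000000000000000000000000000000) (nat_lit 0x0) (nat_lit 0xf0007800e0000000030001800000000000000000000000000) := T_2 (nat_lit 125) (nat_lit 124) (nat_lit 3) (nat_lit 5) (nat_lit 7) L4335762 (by decide +kernel)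
theorem L4335764 : W_2 (nat_lit 9) (nat_lit 0x800008003c000c0000000000000000000000000000000) (nat_lit 0x0) (nat_lit 0xf0007800e0000000330001800000000000000000000000000) := T_2 (nat_lit 128) (nat_lit 129) (nat_lit 2) (nat_lit 6) (nat_lit 8) L4335763 (by decide +kernel)
theorem L4335765 : W_2 (nat_lit 2) (nat_lit 0x1c00048003c001c0000000000000000000000000000000) (nat_lit 0x0) (nat_lit 0x20000000000002000100000000000000000000000) := D_2 (nat_lit 109) (nat_lit 161) (nat_lit 92) (nat_lit 4) (nat_lit 8) (nat_lit 10) (nat_lit 5) (nat_lit 7) (nat_lit 5) (by decide +kernel)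
theorem L4335766 : W_2 (nat_lit 3) (nat_lit 0x1800048003c001c0000000000000000000000000000000) (nat_lit 0x0) (nat_lit 0x8000400020000000000002000100000000000000000000000) := T_2 (nat_lit 178) (nat_lit 195) (nat_lit 5) (nat_lit 9) (nat_lit 7) L4335765 (by decide +kernel)
theorem L4335767 : W_2 (nat_lit 4) (nat_lit 0x800048003c001c0000000000000000000000000000000) (nat_lit 0x0) (nat_lit 0x28001400020000000000002000100000000000000000000000) := T_2 (nat_lit 180) (nat_lit 197) (nat_lit 7) (nat_lit 9) (nat_lit 7) L4335766 (by decide +kernel)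
theorem L4335768 : W_2 (nat_lit 5) (nat_lit 0x800048003c000c0000000000000000000000000000000) (nat_lit 0x0) (nat_lit 0x28001400020000000300002000100000000000000000000000) := T_2 (nat_lit 128) (nat_lit 129) (nat_lit 2) (nat_lit 6) (nat_lit 8) L4335767 (by decide +kernel)
theorem L4335769 : W_2 (nat_lit 6) (nat_lit 0x800008003c000c0000000000000000000000000000000) (nat_lit 0x0) (nat_lit 0x280014000e0000000300002000100000000000000000000000) := T_2 (nat_lit 162) (nat_lit 163) (nat_lit 3) (nat_lit 6) (nat_lit 8) L4335768 (by decide +kernel)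
theorem L4335770 : W_2 (nat_lit 10) (nat_lit 0x800008003c00080000000000000000000000000000000) (nat_lit 0x0) (nat_lit 0x2f0017800e0000000370003800100000000000000000000000) := Q_2 (nat_lit 126) (C_2 L4335752 (C_2 L4335753 (C_2 L4335756 (C_2 L4335764 (C_2 L4335769 N_2))))) (by decide +kernel)
theorem L4335771 : W_2 (nat_lit 11) (nat_lit 0x800000003c00080000000000000000000000000000000) (nat_lit 0x0) (nat_lit 0x2f0017800ec000000370003800100000000000000000000000) := T_2 (nat_lit 159) (nat_lit 158) (nat_lit 1) (nat_lit 9) (nat_lit 8) L4335770 (by decide +kernel)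
theorem L4335772 : W_2 (nat_lit 12) (nat_lit 0x3c00080000000000000000000000000000000) (nat_lit 0x0) (nat_lit 0x2003f001f800ec0000003700038001c000e000100000000000000) := Q_2 (nat_lit 179) (C_2 L3491874 (C_2 L4335303 (C_2 L4335771 N_2))) (by decide +kernel)
theorem L4336499 : W_2 (nat_lit 2) (nat_lit 0x8000580008003c000e0000000000000000000000000000000) (nat_lit 0x0) (nat_lit 0x14000200000000000000000000000000000000000000000000) := D_2 (nat_lit 177) (nat_lit 196) (nat_lit 194) (nat_lit 3) (nat_lit 5) (nat_lit 10) (nat_lit 7) (nat_lit 6) (nat_lit 7) (by decide +kernel)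
theorem L4336500 : W_2 (nat_lit 3) (nat_lit 0x8000500008003c000e0000000000000000000000000000000) (nat_lit 0x0) (nat_lit 0x15000280000000000000000000000000000000000000000000) := T_2 (nat_lit 175) (nat_lit 192) (nat_lit 5) (nat_lit 6) (nat_lit 7) L4336499 (by decide +kernel)
theorem L4336501 : W_2 (nat_lit 4) (nat_lit 0x8000400008003c000e0000000000000000000000000000000) (nat_lit 0x0) (nat_lit 0x17000380000000000000000000000000000000000000000000) := T_2 (nat_lit 176) (nat_lit 193) (nat_lit 6) (nat_lit 6) (nat_lit 11) L4336500 (by decide +kernel)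
theorem L4336502 : W_2 (nat_lit 5) (nat_lit 0x8000400008003c000c0000000000000000000000000000000) (nat_lit 0x0) (nat_lit 0x17000380000000000030000000000000000000000000000000) := T_2 (nat_lit 125) (nat_lit 124) (nat_lit 3) (nat_lit 5) (nat_lit 7) L4336501 (by decide +kernel)
theorem L4336503 : W_2 (nat_lit 6) (nat_lit 0x8000400000003c000c0000000000000000000000000000000) (nat_lit 0x0) (nat_lit 0x1700038000c000000030000000000000000000000000000000) := T_2 (nat_lit 159) (nat_lit 158) (nat_lit 1) (nat_lit 9) (nat_lit 8) L4336502 (by decide +kernel)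
theorem L4336504 : W_2 (nat_lit 7) (nat_lit 0x400000003c000c0000000000000000000000000000000) (nat_lit 0x0) (nat_lit 0x1f00038002c000000030000000000000000000000000000000) := T_2 (nat_lit 195) (nat_lit 161) (nat_lit 4) (nat_lit 8) (nat_lit 11) L4336503 (by decide +kernel)
theorem L4336505 : W_2 (nat_lit 8) (nat_lit 0x400000003c00080000000000000000000000000000000) (nat_lit 0x0) (nat_lit 0x1f00038002c000000070002000100000000000000000000000) := Q_2 (nat_lit 126) (C_2 L1472429 (C_2 L1133689 (C_2 L4336504 (C_2 L1403697 N_2)))) (by decide +kernel)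
theorem L4336506 : W_2 (nat_lit 2) (nat_lit 0x400000003c001e0009000e00004000000000000000000) (nat_lit 0x0) (nat_lit 0x2000100008000000000000000000) := D_2 (nat_lit 92) (nat_lit 109) (nat_lit 75) (nat_lit 1) (nat_lit 10) (nat_lit 5) (nat_lit 0) (nat_lit 10) (nat_lit 5) (by decide +kernel)
theorem L4336507 : W_2 (nat_lit 3) (nat_lit 0x400000003c001e0009000600004000000000000000000) (nat_lit 0x0) (nat_lit 0x2000900048000000000000000000) := T_2 (nat_lit 95) (nat_lit 78) (nat_lit 6) (nat_lit 9) (nat_lit 8) L4336506 (by decide +kernel)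
theorem L4336508 : W_2 (nat_lit 4) (nat_lit 0x400000003c001e0009000400004000000000000000000) (nat_lit 0x0) (nat_lit 0x2000b00058000000000000000000) := T_2 (nat_lit 93) (nat_lit 76) (nat_lit 4) (nat_lit 9) (nat_lit 8) L4336507 (by decide +kernel)
theorem L4336509 : W_2 (nat_lit 5) (nat_lit 0x400000003c001e0009000000004000000000000000000) (nat_lit 0x0) (nat_lit 0x2000f00078000000000000000000) := T_2 (nat_lit 94) (nat_lit 77) (nat_lit 5) (nat_lit 9) (nat_lit 4) L4336508 (by decide +kernel)
theorem L4336510 : W_2 (nat_lit 6) (nat_lit 0x400000003c001e0009000000000000000000000000000) (nat_lit 0x0) (nat_lit 0x2000f8007c000000000000000000) := T_2 (nat_lit 74) (nat_lit 91) (nat_lit 7) (nat_lit 6) (nat_lit 4) L4336509 (by decide +kernel)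
theorem L4336511 : W_2 (nat_lit 7) (nat_lit 0x400000003c001e0001000000000000000000000000000) (nat_lit 0x0) (nat_lit 0x1a000f8007c000000000000000000) := T_2 (nat_lit 111) (nat_lit 112) (nat_lit 2) (nat_lit 6) (nat_lit 7) L4336510 (by decide +kernel)
theorem L4336562 : W_2 (nat_lit 8) (nat_lit 0x400000003c001a0001000000000000000000000000000) (nat_lit 0x0) (nat_lit 0x4001a800f8007c000000000000000000) := T_2 (nat_lit 126) (nat_lit 107) (nat_lit 0) (nat_lit 9) (nat_lit 7) L4336511 (by decide +kernel)
theorem L4336563 : W_2 (nat_lit 9) (nat_lit 0x400000003c000a0001000000000000000000000000000) (nat_lit 0x0) (nat_lit 0x34001a800f8007c000000000000000000) := T_2 (nat_lit 128) (nat_lit 129) (nat_lit 2) (nat_lit 6) (nat_lit 8) L4336562 (by decide +kernel)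
theorem L4336607 : W_2 (nat_lit 2) (nat_lit 0x1000700008003c000a0003000040002000000000000000000) (nat_lit 0x0) (nat_lit 0x20002000800000000000000000000000000000000000000000000) := D_2 (nat_lit 193) (nat_lit 179) (nat_lit 209) (nat_lit 1) (nat_lit 9) (nat_lit 10) (nat_lit 5) (nat_lit 6) (nat_lit 8) (by decide +kernel)
theorem L4336608 : W_2 (nat_lit 3) (nat_lit 0x1000500008003c000a0003000040002000000000000000000) (nat_lit 0x0) (nat_lit 0x20006000a00000000000000000000000000000000000000000000) := T_2 (nat_lit 177) (nat_lit 194) (nat_lit 7) (nat_lit 6) (nat_lit 7) L4336607 (by decide +kernel)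
theorem L4336609 : W_2 (nat_lit 4) (nat_lit 0x500008003c000a0003000040002000000000000000000) (nat_lit 0x0) (nat_lit 0x20007000a80000000000000000000000000000000000000000000) := T_2 (nat_lit 192) (nat_lit 175) (nat_lit 5) (nat_lit 6) (nat_lit 7) L4336608 (by decide +kernel)
theorem L4336610 : W_2 (nat_lit 5) (nat_lit 0x400008003c000a0003000040002000000000000000000) (nat_lit 0x0) (nat_lit 0x20007000b80000000000040000000000000000000000000000000) := T_2 (nat_lit 176) (nat_lit 126) (nat_lit 6) (nat_lit 6) (nat_lit 10) L4336609 (by decide +kernel)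
theorem L4336611 : W_2 (nat_lit 6) (nat_lit 0x400008003c000a0001000040002000000000000000000) (nat_lit 0x0) (nat_lit 0x20007000b80000000000040002000100000000000000000000000) := T_2 (nat_lit 109) (nat_lit 92) (nat_lit 6) (nat_lit 6) (nat_lit 9) L4336610 (by decide +kernel)
theorem L4336612 : W_2 (nat_lit 7) (nat_lit 0x400008003c000a0001000040000000000000000000000) (nat_lit 0x0) (nat_lit 0x20007000b80000000000040002000180002000000000000000000) := T_2 (nat_lit 73) (nat_lit 91) (nat_lit 4) (nat_lit 6) (nat_lit 8) L4336611 (by decide +kernel)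
theorem L4336613 : W_2 (nat_lit 8) (nat_lit 0x400008003c000a0001000000000000000000000000000) (nat_lit 0x0) (nat_lit 0x20007000b800000000000400028001c0002000000000000000000) := T_2 (nat_lit 90) (nat_lit 107) (nat_lit 4) (nat_lit 6) (nat_lit 9) L4336612 (by decide +kernel)
theorem L4336614 : W_2 (nat_lit 9) (nat_lit 0x400000003c000a0001000000000000000000000000000) (nat_lit 0x0) (nat_lit 0x20007000b8000c0000000400028001c0002000000000000000000) := T_2 (nat_lit 159) (nat_lit 158) (nat_lit 1) (nat_lit 9) (nat_lit 8) L4336613 (by decide +kernel)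
theorem L4336615 : W_2 (nat_lit 2) (nat_lit 0x400008003c001a0001000180002000000000000000000) (nat_lit 0x0) (nat_lit 0x40000000000004000100000000000000) := D_2 (nat_lit 74) (nat_lit 56) (nat_lit 126) (nat_lit 4) (nat_lit 6) (nat_lit 7) (nat_lit 7) (nat_lit 6) (nat_lit 4) (by decide +kernel)
theorem L4336616 : W_2 (nat_lit 3) (nat_lit 0x400008003c001a0001000180000000000000000000000) (nat_lit 0x0) (nat_lit 0x40000000040006000100000000000000) := T_2 (nat_lit 73) (nat_lit 90) (nat_lit 4) (nat_lit 6) (nat_lit 8) L4336615 (by decide +kernel)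
theorem L4336617 : W_2 (nat_lit 4) (nat_lit 0x400008003c001a0001000100000000000000000000000) (nat_lit 0x0) (nat_lit 0x400000000c000e000100000000000000) := T_2 (nat_lit 91) (nat_lit 75) (nat_lit 6) (nat_lit 6) (nat_lit 8) L4336616 (by decide +kernel)
theorem L4336618 : W_2 (nat_lit 5) (nat_lit 0x400008003c001a0001000000000000000000000000000) (nat_lit 0x0) (nat_lit 0x400020001c000e000100000000000000) := T_2 (nat_lit 92) (nat_lit 109) (nat_lit 6) (nat_lit 6) (nat_lit 9) L4336617 (by decide +kernel)
theorem L4336619 : W_2 (nat_lit 6) (nat_lit 0x400008003c000a0001000000000000000000000000000) (nat_lit 0x0) (nat_lit 0x3400020001c000e000100000000000000) := T_2 (nat_lit 128) (nat_lit 129) (nat_lit 2) (nat_lit 6) (nat_lit 8) L4336618 (by decide +kernel)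
theorem L4336620 : W_2 (nat_lit 7) (nat_lit 0x400000003c000a0001000000000000000000000000000) (nat_lit 0x0) (nat_lit 0xc0000003400020001c000e000100000000000000) := T_2 (nat_lit 159) (nat_lit 158) (nat_lit 1) (nat_lit 9) (nat_lit 8) L4336619 (by decide +kernel)
theorem L4336621 : W_2 (nat_lit 10) (nat_lit 0x400000003c000a0000000000000000000000000000000) (nat_lit 0x0) (nat_lit 0x20007000b8000c00000034001b800fc007e000100000000000000) := Q_2 (nat_lit 108) (C_2 L1412692 (C_2 L4336563 (C_2 L4336614 (C_2 L4313642 (C_2 L4336620 N_2))))) (by decide +kernel)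
theorem L4336622 : W_2 (nat_lit 11) (nat_lit 0x400000003c00080000000000000000000000000000000) (nat_lit 0x0) (nat_lit 0x20007000b8000c00000037001b800fc007e000100000000000000) := T_2 (nat_lit 125) (nat_lit 124) (nat_lit 0) (nat_lit 9) (nat_lit 8) L4336621 (by decide +kernel)
theorem L4336623 : W_2 (nat_lit 12) (nat_lit 0x3c00080000000000000000000000000000000) (nat_lit 0x0) (nat_lit 0x2001f000f8002c00000037001b800fc007e000100000000000000) := Q_2 (nat_lit 178) (C_2 L4336505 (C_2 L1139111 (C_2 L1475175 (C_2 L4336622 N_2)))) (by decide +kernel)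
theorem L4336744 : W_2 (nat_lit 2) (nat_lit 0x1f000100008003c00080000000000000000000000000000000) (nat_lit 0x0) (nat_lit 0x700000000000000000000000000000000000000000000000000000) := D_2 (nat_lit 213) (nat_lit 214) (nat_lit 212) (nat_lit 3) (nat_lit 6) (nat_lit 11) (nat_lit 3) (nat_lit 5) (nat_lit 11) (by decide +kernel)
theorem L4336745 : W_2 (nat_lit 3) (nat_lit 0x17000100008003c00080000000000000000000000000000000) (nat_lit 0x0) (nat_lit 0x700008000080000000000000000000000000000000000000000000) := T_2 (nat_lit 195) (nat_lit 175) (nat_lit 0) (nat_lit 9) (nat_lit 11) L4336744 (by decide +kernel)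
theorem L4336749 : W_2 (nat_lit 4) (nat_lit 0x13000100008003c00080000000000000000000000000000000) (nat_lit 0x0) (nat_lit 0x78000c000080000000000000000000000000000000000000000000) := T_2 (nat_lit 194) (nat_lit 211) (nat_lit 7) (nat_lit 6) (nat_lit 8) L4336745 (by decide +kernel)
theorem L4336750 : W_2 (nat_lit 5) (nat_lit 0x12000100008003c00080000000000000000000000000000000) (nat_lit 0x0) (nat_lit 0x7a000d000080000000000000000000000000000000000000000000) := T_2 (nat_lit 192) (nat_lit 209) (nat_lit 5) (nat_lit 6) (nat_lit 8) L4336749 (by decide +kernel)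
theorem L4336751 : W_2 (nat_lit 6) (nat_lit 0x10000100008003c00080000000000000000000000000000000) (nat_lit 0x0) (nat_lit 0x7a000f000080000000000040000000000000000000000000000000) := T_2 (nat_lit 193) (nat_lit 126) (nat_lit 6) (nat_lit 6) (nat_lit 11) L4336750 (by decide +kernel)
theorem L4336753 : W_2 (nat_lit 2) (nat_lit 0x10000780008003c000a0000000000000000000000000000000) (nat_lit 0x0) (nat_lit 0x20000800020000000000000000000000000000000000000000) := D_2 (nat_lit 179) (nat_lit 197) (nat_lit 161) (nat_lit 3) (nat_lit 6) (nat_lit 10) (nat_lit 7) (nat_lit 8) (nat_lit 7) (by decide +kernel)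
theorem L4336754 : W_2 (nat_lit 3) (nat_lit 0x10000380008003c000a0000000000000000000000000000000) (nat_lit 0x0) (nat_lit 0x28000c00020000000000000000000000000000000000000000) := T_2 (nat_lit 178) (nat_lit 195) (nat_lit 3) (nat_lit 5) (nat_lit 10) L4336753 (by decide +kernel)
theorem L4336755 : W_2 (nat_lit 4) (nat_lit 0x10000300008003c000a0000000000000000000000000000000) (nat_lit 0x0) (nat_lit 0x29000c80020000000000000000000000000000000000000000) := T_2 (nat_lit 175) (nat_lit 192) (nat_lit 5) (nat_lit 6) (nat_lit 7) L4336754 (by decide +kernel)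
theorem L4336756 : W_2 (nat_lit 5) (nat_lit 0x10000100008003c000a0000000000000000000000000000000) (nat_lit 0x0) (nat_lit 0x2d000e80020000000000000000000000000000000000000000) := T_2 (nat_lit 177) (nat_lit 194) (nat_lit 7) (nat_lit 6) (nat_lit 7) L4336755 (by decide +kernel)
theorem L4336757 : W_2 (nat_lit 6) (nat_lit 0x10000100008003c00080000000000000000000000000000000) (nat_lit 0x0) (nat_lit 0x2d000e80020000000030000000000000000000000000000000) := T_2 (nat_lit 125) (nat_lit 124) (nat_lit 0) (nat_lit 9) (nat_lit 8) L4336756 (by decide +kernel)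
theorem L4336759 : W_2 (nat_lit 2) (nat_lit 0x10000100008003c000c0000000000000000000000000000000) (nat_lit 0x0) (nat_lit 0x20002000100000000000000000000000) := D_2 (nat_lit 109) (nat_lit 125) (nat_lit 92) (nat_lit 6) (nat_lit 6) (nat_lit 10) (nat_lit 5) (nat_lit 7) (nat_lit 5) (by decide +kernel)
theorem L4336760 : W_2 (nat_lit 3) (nat_lit 0x10000100008003c00080000000000000000000000000000000) (nat_lit 0x0) (nat_lit 0x2000000000000000060002000100000000000000000000000) := T_2 (nat_lit 126) (nat_lit 193) (nat_lit 6) (nat_lit 6) (nat_lit 11) L4336759 (by decide +kernel)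
theorem L4336761 : W_2 (nat_lit 7) (nat_lit 0x10000000008003c00080000000000000000000000000000000) (nat_lit 0x0) (nat_lit 0x7a002f000f80020000000070002000100000000000000000000000) := Q_2 (nat_lit 176) (C_2 L4336751 (C_2 L4336757 (C_2 L4336760 N_2))) (by decide +kernel)
theorem L4336762 : W_2 (nat_lit 8) (nat_lit 0x10000000000003c00080000000000000000000000000000000) (nat_lit 0x0) (nat_lit 0x7a002f000f8002c000000070002000100000000000000000000000) := T_2 (nat_lit 159) (nat_lit 158) (nat_lit 1) (nat_lit 9) (nat_lit 8) L4336761 (by decide +kernel)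
theorem L4336788 : W_2 (nat_lit 2) (nat_lit 0x10000380048003c000a0000000000000000000000000000000) (nat_lit 0x0) (nat_lit 0x8000400020000000000000000000000000000000000000000) := D_2 (nat_lit 178) (nat_lit 195) (nat_lit 161) (nat_lit 3) (nat_lit 5) (nat_lit 10) (nat_lit 2) (nat_lit 5) (nat_lit 10) (by decide +kernel)
theorem L4336789 : W_2 (nat_lit 3) (nat_lit 0x10000300048003c000a0000000000000000000000000000000) (nat_lit 0x0) (nat_lit 0x9000480020000000000000000000000000000000000000000) := T_2 (nat_lit 175) (nat_lit 192) (nat_lit 5) (nat_lit 6) (nat_lit 7) L4336788 (by decide +kernel)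
theorem L4336790 : W_2 (nat_lit 4) (nat_lit 0x10000100048003c000a0000000000000000000000000000000) (nat_lit 0x0) (nat_lit 0xd000680020000000000000000000000000000000000000000) := T_2 (nat_lit 177) (nat_lit 194) (nat_lit 7) (nat_lit 6) (nat_lit 7) L4336789 (by decide +kernel)
theorem L4336791 : W_2 (nat_lit 5) (nat_lit 0x10000100048003c00080000000000000000000000000000000) (nat_lit 0x0) (nat_lit 0xd000680020000000030000000000000000000000000000000) := T_2 (nat_lit 125) (nat_lit 124) (nat_lit 0) (nat_lit 9) (nat_lit 8) L4336790 (by decide +kernel)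
theorem L4336792 : W_2 (nat_lit 6) (nat_lit 0x10000100008003c00080000000000000000000000000000000) (nat_lit 0x0) (nat_lit 0xd0006800e0000000030000000000000000000000000000000) := T_2 (nat_lit 162) (nat_lit 163) (nat_lit 3) (nat_lit 6) (nat_lit 8) L4336791 (by decide +kernel)
theorem L4336793 : W_2 (nat_lit 7) (nat_lit 0x10000000008003c00080000000000000000000000000000000) (nat_lit 0x0) (nat_lit 0x7a000f0007800e0000000070002000100000000000000000000000) := Q_2 (nat_lit 176) (C_2 L4336751 (C_2 L4336792 (C_2 L4336760 N_2))) (by decide +kernel)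
theorem L4336794 : W_2 (nat_lit 8) (nat_lit 0x10000000000003c00080000000000000000000000000000000) (nat_lit 0x0) (nat_lit 0x7a000f0007800ec000000070002000100000000000000000000000) := T_2 (nat_lit 159) (nat_lit 158) (nat_lit 1) (nat_lit 9) (nat_lit 8) L4336793 (by decide +kernel)
theorem L4336795 : W_2 (nat_lit 9) (nat_lit 0x3c00080000000000000000000000000000000) (nat_lit 0x0) (nat_lit 0x7a003f000f800ec000000070002000100000000000000000000000) := Q_2 (nat_lit 196) (C_2 L56882 (C_2 L4336762 (C_2 L4336794 N_2))) (by decide +kernel)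
theorem L4336796 : W_2 (nat_lit 6) (nat_lit 0x3c00080000000000000000000000000000000) (nat_lit 0x0) (nat_lit 0xe0000000370018000c00020000000000000000000) := T_2 (nat_lit 128) (nat_lit 129) (nat_lit 2) (nat_lit 6) (nat_lit 8) L4315766 (by decide +kernel)
theorem L4337120 : W_2 (nat_lit 2) (nat_lit 0x800000003c001e0009000e00004000000000000000000) (nat_lit 0x0) (nat_lit 0x2000100008000000000000000000) := D_2 (nat_lit 92) (nat_lit 109) (nat_lit 75) (nat_lit 1) (nat_lit 10) (nat_lit 5) (nat_lit 0) (nat_lit 10) (nat_lit 5) (by decide +kernel)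
theorem L4337121 : W_2 (nat_lit 3) (nat_lit 0x800000003c001e0009000600004000000000000000000) (nat_lit 0x0) (nat_lit 0x2000900048000000000000000000) := T_2 (nat_lit 95) (nat_lit 78) (nat_lit 6) (nat_lit 9) (nat_lit 8) L4337120 (by decide +kernel)
theorem L4337122 : W_2 (nat_lit 4) (nat_lit 0x800000003c001e0009000400004000000000000000000) (nat_lit 0x0) (nat_lit 0x2000b00058000000000000000000) := T_2 (nat_lit 93) (nat_lit 76) (nat_lit 4) (nat_lit 9) (nat_lit 8) L4337121 (by decide +kernel)
theorem L4337123 : W_2 (nat_lit 5) (nat_lit 0x800000003c001e0009000000004000000000000000000) (nat_lit 0x0) (nat_lit 0x2000f00078000000000000000000) := T_2 (nat_lit 94) (nat_lit 77) (nat_lit 5) (nat_lit 9) (nat_lit 4) L4337122 (by decide +kernel)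
theorem L4337124 : W_2 (nat_lit 6) (nat_lit 0x800000003c001e0009000000000000000000000000000) (nat_lit 0x0) (nat_lit 0x2000f8007c000000000000000000) := T_2 (nat_lit 74) (nat_lit 91) (nat_lit 7) (nat_lit 6) (nat_lit 4) L4337123 (by decide +kernel)
theorem L4337125 : W_2 (nat_lit 7) (nat_lit 0x800000003c001e0001000000000000000000000000000) (nat_lit 0x0) (nat_lit 0x1a000f8007c000000000000000000) := T_2 (nat_lit 111) (nat_lit 112) (nat_lit 2) (nat_lit 6) (nat_lit 7) L4337124 (by decide +kernel)
theorem L4337126 : W_2 (nat_lit 8) (nat_lit 0x800000003c001a0001000000000000000000000000000) (nat_lit 0x0) (nat_lit 0x4001a800f8007c000000000000000000) := T_2 (nat_lit 126) (nat_lit 107) (nat_lit 0) (nat_lit 9) (nat_lit 7) L4337125 (by decide +kernel)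
theorem L4337127 : W_2 (nat_lit 9) (nat_lit 0x800000003c000a0001000000000000000000000000000) (nat_lit 0x0) (nat_lit 0x34001a800f8007c000000000000000000) := T_2 (nat_lit 128) (nat_lit 129) (nat_lit 2) (nat_lit 6) (nat_lit 8) L4337126 (by decide +kernel)
theorem L4337179 : W_2 (nat_lit 10) (nat_lit 0x800000003c000a0000000000000000000000000000000) (nat_lit 0x0) (nat_lit 0x2000700078000c00000034001b800fc007e000100000000000000) := Q_2 (nat_lit 108) (C_2 L4335278 (C_2 L4335275 (C_2 L4337127 (C_2 L4335286 (C_2 L4335294 N_2))))) (by decide +kernel)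
theorem L4337180 : W_2 (nat_lit 11) (nat_lit 0x800000003c00080000000000000000000000000000000) (nat_lit 0x0) (nat_lit 0x2000700078000c00000037001b800fc007e000100000000000000) := T_2 (nat_lit 125) (nat_lit 124) (nat_lit 0) (nat_lit 9) (nat_lit 8) L4337179 (by decide +kernel)
theorem L4337181 : W_2 (nat_lit 12) (nat_lit 0x3c00080000000000000000000000000000000) (nat_lit 0x0) (nat_lit 0x20017000f800cc00000037001b800fc007e000100000000000000) := Q_2 (nat_lit 179) (C_2 L3491874 (C_2 L4337180 N_2)) (by decide +kernel)
theorem L4337182 : W_2 (nat_lit 13) (nat_lit 0x1c00080000000000000000000000000000000) (nat_lit 0x0) (nat_lit 0x7a003f001f800ec00200037001b800fc007e000100000000000000) := Q_2 (nat_lit 145) (C_2 L4314730 (C_2 L4335772 (C_2 L4336623 (C_2 L4336795 (C_2 L1133105 (C_2 L4336796 (C_2 L4337181 N_2))))))) (by decide +kernel)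
theorem L4337183 : W_2 (nat_lit 6) (nat_lit 0x1c00080000000000000000000000000000000) (nat_lit 0x0) (nat_lit 0x4000ef80238005e002000100000000000000000000000) := Q_2 (nat_lit 141) (C_2 L3490889 (C_2 L57921 (C_2 L10869 (C_2 L10866 N_2)))) (by decide +kernel)
theorem L4337184 : W_2 (nat_lit 14) (nat_lit 0x1800080000000000000000000000000000000) (nat_lit 0x0) (nat_lit 0x7a003f001f800ef80278077e01b800fc007e000100000000000000) := Q_2 (nat_lit 142) (C_2 L3490890 (C_2 L4337182 (C_2 L4337183 (C_2 L1322 N_2)))) (by decide +kernel)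
theorem L4337185 : W_2 (nat_lit 5) (nat_lit 0x18001c0000000000000000000000000000000) (nat_lit 0x0) (nat_lit 0x20001000200003801bc00080004000000000000000000) := Q_2 (nat_lit 125) (C_2 L4330385 (C_2 L326984 (C_2 L21461 N_2))) (by decide +kernel)
theorem L4337186 : W_2 (nat_lit 5) (nat_lit 0x18001c0000000000000000000000000000000) (nat_lit 0x0) (nat_lit 0x200010000700038003800080004000000000000000000) := Q_2 (nat_lit 125) (C_2 L3460713 (C_2 L326984 N_2)) (by decide +kernel)
theorem L4337188 : W_2 (nat_lit 2) (nat_lit 0x18001c0002000000000000000000000000000) (nat_lit 0x0) (nat_lit 0x400020000000000000000100000000000000000000000) := D_2 (nat_lit 161) (nat_lit 178) (nat_lit 92) (nat_lit 4) (nat_lit 8) (nat_lit 10) (nat_lit 7) (nat_lit 7) (nat_lit 5) (by decide +kernel)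
theorem L4337189 : W_2 (nat_lit 2) (nat_lit 0x4000100018001c0002000000000000000000000000000) (nat_lit 0x0) (nat_lit 0xc000200000000000000000000000000000000000000000000) := D_2 (nat_lit 177) (nat_lit 194) (nat_lit 195) (nat_lit 6) (nat_lit 7) (nat_lit 11) (nat_lit 7) (nat_lit 7) (nat_lit 7) (by decide +kernel)
theorem L4337190 : W_2 (nat_lit 3) (nat_lit 0x100018001c0002000000000000000000000000000) (nat_lit 0x0) (nat_lit 0xc000600020000000000000000000000000000000000000000) := T_2 (nat_lit 178) (nat_lit 161) (nat_lit 7) (nat_lit 7) (nat_lit 6) L4337189 (by decide +kernel)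
theorem L4337191 : W_2 (nat_lit 2) (nat_lit 0x1c0018001c0002000000000000000000000000000) (nat_lit 0x0) (nat_lit 0x400020002000000000000000000000000000000000000) := D_2 (nat_lit 161) (nat_lit 178) (nat_lit 145) (nat_lit 7) (nat_lit 7) (nat_lit 6) (nat_lit 2) (nat_lit 5) (nat_lit 9) (by decide +kernel)
theorem L4337192 : W_2 (nat_lit 3) (nat_lit 0x180018001c0002000000000000000000000000000) (nat_lit 0x0) (nat_lit 0x400026002000000000000000000000000000000000000) := T_2 (nat_lit 158) (nat_lit 157) (nat_lit 2) (nat_lit 4) (nat_lit 9) L4337191 (by decide +kernel)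
theorem L4337193 : W_2 (nat_lit 4) (nat_lit 0x100018001c0002000000000000000000000000000) (nat_lit 0x0) (nat_lit 0x50002e002000000000000000000000000000000000000) := T_2 (nat_lit 159) (nat_lit 176) (nat_lit 5) (nat_lit 7) (nat_lit 6) L4337192 (by decide +kernel)
theorem L4337194 : W_2 (nat_lit 2) (nat_lit 0x1c0018001c0002000000000000000000000000000) (nat_lit 0x0) (nat_lit 0x2600000000000000000000000000000000000) := D_2 (nat_lit 142) (nat_lit 141) (nat_lit 145) (nat_lit 2) (nat_lit 5) (nat_lit 8) (nat_lit 1) (nat_lit 9) (nat_lit 8) (by decide +kernel)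
theorem L4337195 : W_2 (nat_lit 3) (nat_lit 0x180018001c0002000000000000000000000000000) (nat_lit 0x0) (nat_lit 0x6002600000000000000000000000000000000000) := T_2 (nat_lit 158) (nat_lit 157) (nat_lit 2) (nat_lit 4) (nat_lit 9) L4337194 (by decide +kernel)
theorem L4337196 : W_2 (nat_lit 4) (nat_lit 0x100018001c0002000000000000000000000000000) (nat_lit 0x0) (nat_lit 0x10000e002600000000000000000000000000000000000) := T_2 (nat_lit 159) (nat_lit 176) (nat_lit 5) (nat_lit 7) (nat_lit 6) L4337195 (by decide +kernel)
theorem L4337197 : W_2 (nat_lit 5) (nat_lit 0x18001c0002000000000000000000000000000) (nat_lit 0x0) (nat_lit 0xc00070003e002600000000000000000000000000000000000) := Q_2 (nat_lit 160) (C_2 L4337190 (C_2 L4337193 (C_2 L4337196 N_2))) (by decide +kernel)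
theorem L4337198 : W_2 (nat_lit 6) (nat_lit 0x18001c0000000000000000000000000000000) (nat_lit 0x0) (nat_lit 0xc00070003e002600000002000100008000000000000000000) := Q_2 (nat_lit 109) (C_2 L3462004 (C_2 L4337188 (C_2 L4337197 N_2))) (by decide +kernel)
theorem L4337199 : W_2 (nat_lit 9) (nat_lit 0x1800180000000000000000000000000000000) (nat_lit 0x0) (nat_lit 0xc00070003e00270007801bc0018000c000000000000000000) := Q_2 (nat_lit 126) (C_2 L4331869 (C_2 L4337185 (C_2 L4330387 (C_2 L4337186 (C_2 L4337198 N_2))))) (by decide +kernel)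
theorem L4337200 : W_2 (nat_lit 10) (nat_lit 0x1800080000000000000000000000000000000) (nat_lit 0x0) (nat_lit 0xc00070003e00270077803bc0078002c000000000000000000) := Q_2 (nat_lit 128) (C_2 L22288 (C_2 L4330124 (C_2 L74239 (C_2 L4337199 N_2)))) (by decide +kernel)
theorem L4337201 : W_2 (nat_lit 2) (nat_lit 0x380008003c000e0001000080000000000000000000000) (nat_lit 0x0) (nat_lit 0x800040002000000000000000000) := D_2 (nat_lit 90) (nat_lit 107) (nat_lit 73) (nat_lit 4) (nat_lit 6) (nat_lit 9) (nat_lit 4) (nat_lit 6) (nat_lit 8) (by decide +kernel)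
theorem L4337202 : W_2 (nat_lit 3) (nat_lit 0x380008003c000e0001000000000000000000000000000) (nat_lit 0x0) (nat_lit 0x8000c0006000000000000000000) := T_2 (nat_lit 91) (nat_lit 74) (nat_lit 7) (nat_lit 6) (nat_lit 4) L4337201 (by decide +kernel)
theorem L4337203 : W_2 (nat_lit 4) (nat_lit 0x380008003c000e0000000000000000000000000000000) (nat_lit 0x0) (nat_lit 0x100000000000018000c0006000000000000000000) := T_2 (nat_lit 108) (nat_lit 160) (nat_lit 7) (nat_lit 6) (nat_lit 6) L4337202 (by decide +kernel)
theorem L4337204 : W_2 (nat_lit 5) (nat_lit 0x180008003c000e0000000000000000000000000000000) (nat_lit 0x0) (nat_lit 0x40002000100000000000018000c0006000000000000000000) := T_2 (nat_lit 177) (nat_lit 194) (nat_lit 7) (nat_lit 6) (nat_lit 7) L4337203 (by decide +kernel)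
theorem L4337205 : W_2 (nat_lit 6) (nat_lit 0x100008003c000e0000000000000000000000000000000) (nat_lit 0x0) (nat_lit 0x50002800100000000000018000c0006000000000000000000) := T_2 (nat_lit 175) (nat_lit 192) (nat_lit 5) (nat_lit 6) (nat_lit 7) L4337204 (by decide +kernel)
theorem L4337206 : W_2 (nat_lit 7) (nat_lit 0x8003c000e0000000000000000000000000000000) (nat_lit 0x0) (nat_lit 0x70003800100000000000018000c0006000000000000000000) := T_2 (nat_lit 176) (nat_lit 193) (nat_lit 6) (nat_lit 6) (nat_lit 11) L4337205 (by decide +kernel)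
theorem L4337207 : W_2 (nat_lit 8) (nat_lit 0x3c000e0000000000000000000000000000000) (nat_lit 0x0) (nat_lit 0x700038001c0000000000018000c0006000000000000000000) := T_2 (nat_lit 159) (nat_lit 158) (nat_lit 1) (nat_lit 9) (nat_lit 8) L4337206 (by decide +kernel)
theorem L4337208 : W_2 (nat_lit 9) (nat_lit 0x3c000c0000000000000000000000000000000) (nat_lit 0x0) (nat_lit 0x700038001c0000000300018000c0006000000000000000000) := T_2 (nat_lit 125) (nat_lit 124) (nat_lit 3) (nat_lit 5) (nat_lit 7) L4337207 (by decide +kernel)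
theorem L4337481 : W_2 (nat_lit 8) (nat_lit 0x20003c00080000000000000000000000000000000) (nat_lit 0x0) (nat_lit 0x28001f000f800d0000000040002000000000000000000000000000) := Q_2 (nat_lit 178) (C_2 L1139811 (C_2 L1133491 (C_2 L1133400 N_2))) (by decide +kernel)
theorem L4337482 : W_2 (nat_lit 7) (nat_lit 0x20003c00080000000000000000000000000000000) (nat_lit 0x0) (nat_lit 0x120019800dc000000040002000000000000000000000000000) := T_2 (nat_lit 162) (nat_lit 163) (nat_lit 3) (nat_lit 6) (nat_lit 8) L3982868 (by decide +kernel)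
theorem L4337483 : W_2 (nat_lit 2) (nat_lit 0x700068003c00080000000000000000000000000000000) (nat_lit 0x0) (nat_lit 0x2000000000000000040002000000000000000000000000000) := D_2 (nat_lit 126) (nat_lit 109) (nat_lit 193) (nat_lit 4) (nat_lit 8) (nat_lit 10) (nat_lit 6) (nat_lit 6) (nat_lit 11) (by decide +kernel)
theorem L4337484 : W_2 (nat_lit 3) (nat_lit 0x700060003c00080000000000000000000000000000000) (nat_lit 0x0) (nat_lit 0x200000000c000000040002000000000000000000000000000) := T_2 (nat_lit 159) (nat_lit 158) (nat_lit 1) (nat_lit 9) (nat_lit 8) L4337483 (by decide +kernel)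
theorem L4337485 : W_2 (nat_lit 4) (nat_lit 0x600060003c00080000000000000000000000000000000) (nat_lit 0x0) (nat_lit 0x200018000c000000040002000000000000000000000000000) := T_2 (nat_lit 176) (nat_lit 175) (nat_lit 2) (nat_lit 5) (nat_lit 10) L4337484 (by decide +kernel)
theorem L4337486 : W_2 (nat_lit 5) (nat_lit 0x600020003c00080000000000000000000000000000000) (nat_lit 0x0) (nat_lit 0x20001800cc000000040002000000000000000000000000000) := T_2 (nat_lit 162) (nat_lit 163) (nat_lit 3) (nat_lit 6) (nat_lit 8) L4337485 (by decide +kernel)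
theorem L4337487 : W_2 (nat_lit 6) (nat_lit 0x400020003c00080000000000000000000000000000000) (nat_lit 0x0) (nat_lit 0x60003800cc000000040002000000000000000000000000000) := T_2 (nat_lit 177) (nat_lit 194) (nat_lit 5) (nat_lit 8) (nat_lit 7) L4337486 (by decide +kernel)
theorem L4337488 : W_2 (nat_lit 7) (nat_lit 0x20003c00080000000000000000000000000000000) (nat_lit 0x0) (nat_lit 0x28001e000f800cc000000040002000000000000000000000000000) := Q_2 (nat_lit 178) (C_2 L1139811 (C_2 L1134048 (C_2 L1133491 (C_2 L4337487 N_2)))) (by decide +kernel)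
theorem L4337489 : W_2 (nat_lit 2) (nat_lit 0x40001e00128003c00080002000000000000000000000000000) (nat_lit 0x0) (nat_lit 0x80002000200000000000000000000000000000000000000000) := D_2 (nat_lit 181) (nat_lit 199) (nat_lit 165) (nat_lit 3) (nat_lit 8) (nat_lit 10) (nat_lit 2) (nat_lit 8) (nat_lit 10) (by decide +kernel)
theorem L4337490 : W_2 (nat_lit 3) (nat_lit 0x40001e00028003c00080002000000000000000000000000000) (nat_lit 0x0) (nat_lit 0x80002000380000000000000000000000000000000000000000) := T_2 (nat_lit 164) (nat_lit 163) (nat_lit 2) (nat_lit 7) (nat_lit 10) L4337489 (by decide +kernel)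
theorem L4337491 : W_2 (nat_lit 4) (nat_lit 0x1e00028003c00080002000000000000000000000000000) (nat_lit 0x0) (nat_lit 0xe0002000380000000000000000000000000000000000000000) := T_2 (nat_lit 198) (nat_lit 197) (nat_lit 3) (nat_lit 7) (nat_lit 10) L4337490 (by decide +kernel)
theorem L4337492 : W_2 (nat_lit 5) (nat_lit 0xe00028003c00080002000000000000000000000000000) (nat_lit 0x0) (nat_lit 0xe0003000390000000000000000000000000000000000000000) := T_2 (nat_lit 180) (nat_lit 160) (nat_lit 0) (nat_lit 10) (nat_lit 10) L4337491 (by decide +kernel)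
theorem L4337493 : W_2 (nat_lit 6) (nat_lit 0xc00028003c00080002000000000000000000000000000) (nat_lit 0x0) (nat_lit 0xe4003200390000000000000000000000000000000000000000) := T_2 (nat_lit 177) (nat_lit 194) (nat_lit 5) (nat_lit 8) (nat_lit 7) L4337492 (by decide +kernel)
theorem L4337494 : W_2 (nat_lit 7) (nat_lit 0x400028003c00080002000000000000000000000000000) (nat_lit 0x0) (nat_lit 0xf4003a00390000000000000000000000000000000000000000) := T_2 (nat_lit 179) (nat_lit 196) (nat_lit 7) (nat_lit 8) (nat_lit 7) L4337493 (by decide +kernel)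
theorem L4337495 : W_2 (nat_lit 8) (nat_lit 0x400028003c00080000000000000000000000000000000) (nat_lit 0x0) (nat_lit 0xf4003a00390000000040002000000000000000000000000000) := T_2 (nat_lit 109) (nat_lit 126) (nat_lit 4) (nat_lit 8) (nat_lit 10) L4337494 (by decide +kernel)
theorem L4337496 : W_2 (nat_lit 9) (nat_lit 0x400020003c00080000000000000000000000000000000) (nat_lit 0x0) (nat_lit 0xf4003a0039c000000040002000000000000000000000000000) := T_2 (nat_lit 159) (nat_lit 158) (nat_lit 1) (nat_lit 9) (nat_lit 8) L4337495 (by decide +kernel)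
theorem L4337497 : W_2 (nat_lit 10) (nat_lit 0x20003c00080000000000000000000000000000000) (nat_lit 0x0) (nat_lit 0x10003800fc003e0039c000000040002000000000000000000000000000) := Q_2 (nat_lit 178) (C_2 L1139811 (C_2 L1134067 (C_2 L1133491 (C_2 L4337496 N_2)))) (by decide +kernel)
theorem L4337498 : W_2 (nat_lit 2) (nat_lit 0x2000b00078003c00080000000000000000000000000000000) (nat_lit 0x0) (nat_lit 0x20001000400000000000000000000000000000000000000000000) := D_2 (nat_lit 192) (nat_lit 209) (nat_lit 178) (nat_lit 5) (nat_lit 6) (nat_lit 8) (nat_lit 1) (nat_lit 9) (nat_lit 10) (by decide +kernel)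
theorem L4337499 : W_2 (nat_lit 3) (nat_lit 0xb00078003c00080000000000000000000000000000000) (nat_lit 0x0) (nat_lit 0x60003000400000000000000000000000000000000000000000000) := T_2 (nat_lit 193) (nat_lit 210) (nat_lit 6) (nat_lit 6) (nat_lit 12) L4337498 (by decide +kernel)
theorem L4337500 : W_2 (nat_lit 4) (nat_lit 0x900078003c00080000000000000000000000000000000) (nat_lit 0x0) (nat_lit 0x60007000600000000000000000000000000000000000000000000) := T_2 (nat_lit 177) (nat_lit 194) (nat_lit 6) (nat_lit 7) (nat_lit 11) L4337499 (by decide +kernel)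
theorem L4337501 : W_2 (nat_lit 5) (nat_lit 0x800078003c00080000000000000000000000000000000) (nat_lit 0x0) (nat_lit 0x60007000780000000000000000000000000000000000000000000) := T_2 (nat_lit 176) (nat_lit 175) (nat_lit 1) (nat_lit 9) (nat_lit 9) L4337500 (by decide +kernel)
theorem L4337502 : W_2 (nat_lit 6) (nat_lit 0x800068003c00080000000000000000000000000000000) (nat_lit 0x0) (nat_lit 0x60007001780010000000000000000000000000000000000000000) := T_2 (nat_lit 160) (nat_lit 180) (nat_lit 3) (nat_lit 6) (nat_lit 9) L4337501 (by decide +kernel)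
theorem L4337503 : W_2 (nat_lit 7) (nat_lit 0x68003c00080000000000000000000000000000000) (nat_lit 0x0) (nat_lit 0x60017001f80010000000000000000000000000000000000000000) := T_2 (nat_lit 179) (nat_lit 196) (nat_lit 4) (nat_lit 9) (nat_lit 11) L4337502 (by decide +kernel)
theorem L4337504 : W_2 (nat_lit 8) (nat_lit 0x28003c00080000000000000000000000000000000) (nat_lit 0x0) (nat_lit 0x60017001f800d0000000000000000000000000000000000000000) := T_2 (nat_lit 162) (nat_lit 163) (nat_lit 3) (nat_lit 6) (nat_lit 8) L4337503 (by decide +kernel)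
theorem L4337505 : W_2 (nat_lit 9) (nat_lit 0x20003c00080000000000000000000000000000000) (nat_lit 0x0) (nat_lit 0x60017001f800dc000000000000000000000000000000000000000) := T_2 (nat_lit 159) (nat_lit 158) (nat_lit 1) (nat_lit 9) (nat_lit 8) L4337504 (by decide +kernel)
theorem L4337524 : W_2 (nat_lit 2) (nat_lit 0x8000400060003c00080000000000000000000000000000000) (nat_lit 0x0) (nat_lit 0x80004000200000000000000000000000000000000000000000000) := D_2 (nat_lit 194) (nat_lit 211) (nat_lit 177) (nat_lit 5) (nat_lit 8) (nat_lit 8) (nat_lit 5) (nat_lit 8) (nat_lit 7) (by decide +kernel)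
theorem L4337525 : W_2 (nat_lit 3) (nat_lit 0x400060003c00080000000000000000000000000000000) (nat_lit 0x0) (nat_lit 0x18000c000200000000000000000000000000000000000000000000) := T_2 (nat_lit 195) (nat_lit 212) (nat_lit 6) (nat_lit 8) (nat_lit 12) L4337524 (by decide +kernel)
theorem L4337526 : W_2 (nat_lit 4) (nat_lit 0x400020003c00080000000000000000000000000000000) (nat_lit 0x0) (nat_lit 0x18000c0002000c0000000000000000000000000000000000000000) := T_2 (nat_lit 162) (nat_lit 163) (nat_lit 3) (nat_lit 6) (nat_lit 8) L4337525 (by decide +kernel)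
theorem L4337527 : W_2 (nat_lit 7) (nat_lit 0x20003c00080000000000000000000000000000000) (nat_lit 0x0) (nat_lit 0x18000e0007800cc000000040002000000000000000000000000000) := Q_2 (nat_lit 178) (C_2 L1133491 (C_2 L4337487 (C_2 L4337526 N_2))) (by decide +kernel)
theorem L4337528 : W_2 (nat_lit 2) (nat_lit 0x40003e00228003c00080002000000000000000000000000000) (nat_lit 0x0) (nat_lit 0x4000440000000000000000000000000000000000000000) := D_2 (nat_lit 182) (nat_lit 162) (nat_lit 166) (nat_lit 0) (nat_lit 12) (nat_lit 10) (nat_lit 2) (nat_lit 9) (nat_lit 10) (by decide +kernel)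
theorem L4337529 : W_2 (nat_lit 3) (nat_lit 0x40003e00028003c00080002000000000000000000000000000) (nat_lit 0x0) (nat_lit 0x4000740000000000000000000000000000000000000000) := T_2 (nat_lit 165) (nat_lit 164) (nat_lit 2) (nat_lit 8) (nat_lit 10) L4337528 (by decide +kernel)
theorem L4337530 : W_2 (nat_lit 4) (nat_lit 0x40001e00028003c00080002000000000000000000000000000) (nat_lit 0x0) (nat_lit 0x80006000740000000000000000000000000000000000000000) := T_2 (nat_lit 181) (nat_lit 199) (nat_lit 3) (nat_lit 8) (nat_lit 10) L4337529 (by decide +kernel)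
theorem L4337531 : W_2 (nat_lit 5) (nat_lit 0x1e00028003c00080002000000000000000000000000000) (nat_lit 0x0) (nat_lit 0xe0006000740000000000000000000000000000000000000000) := T_2 (nat_lit 198) (nat_lit 197) (nat_lit 3) (nat_lit 7) (nat_lit 10) L4337530 (by decide +kernel)
theorem L4337532 : W_2 (nat_lit 6) (nat_lit 0xe00028003c00080002000000000000000000000000000) (nat_lit 0x0) (nat_lit 0xe0007000750000000000000000000000000000000000000000) := T_2 (nat_lit 180) (nat_lit 160) (nat_lit 0) (nat_lit 10) (nat_lit 10) L4337531 (by decide +kernel)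
theorem L4337533 : W_2 (nat_lit 7) (nat_lit 0xc00028003c00080002000000000000000000000000000) (nat_lit 0x0) (nat_lit 0xe4007200750000000000000000000000000000000000000000) := T_2 (nat_lit 177) (nat_lit 194) (nat_lit 5) (nat_lit 8) (nat_lit 7) L4337532 (by decide +kernel)
theorem L4337534 : W_2 (nat_lit 8) (nat_lit 0x400028003c00080002000000000000000000000000000) (nat_lit 0x0) (nat_lit 0xf4007a00750000000000000000000000000000000000000000) := T_2 (nat_lit 179) (nat_lit 196) (nat_lit 7) (nat_lit 8) (nat_lit 7) L4337533 (by decide +kernel)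
theorem L4337535 : W_2 (nat_lit 9) (nat_lit 0x400028003c00080000000000000000000000000000000) (nat_lit 0x0) (nat_lit 0xf4007a00750000000040002000000000000000000000000000) := T_2 (nat_lit 109) (nat_lit 126) (nat_lit 4) (nat_lit 8) (nat_lit 10) L4337534 (by decide +kernel)
theorem L4337536 : W_2 (nat_lit 10) (nat_lit 0x400020003c00080000000000000000000000000000000) (nat_lit 0x0) (nat_lit 0xf4007a0075c000000040002000000000000000000000000000) := T_2 (nat_lit 159) (nat_lit 158) (nat_lit 1) (nat_lit 9) (nat_lit 8) L4337535 (by decide +kernel)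
theorem L4337537 : W_2 (nat_lit 11) (nat_lit 0x20003c00080000000000000000000000000000000) (nat_lit 0x0) (nat_lit 0x10003800fc007e0075c000000040002000000000000000000000000000) := Q_2 (nat_lit 178) (C_2 L1139811 (C_2 L1134067 (C_2 L1133491 (C_2 L4337536 N_2)))) (by decide +kernel)
theorem L4337538 : W_2 (nat_lit 12) (nat_lit 0x3c00080000000000000000000000000000000) (nat_lit 0x0) (nat_lit 0x10003e00ff007f807fc000000040002000000000000000000000000000) := Q_2 (nat_lit 161) (C_2 L4337481 (C_2 L4337482 (C_2 L4337488 (C_2 L4337497 (C_2 L4337505 (C_2 L4337527 (C_2 L4337537 N_2))))))) (by decide +kernel)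
theorem L4337915 : W_2 (nat_lit 2) (nat_lit 0x10000000000003c000a0001000080004000000000000000000) (nat_lit 0x0) (nat_lit 0x100008000400000000000000) := D_2 (nat_lit 75) (nat_lit 58) (nat_lit 92) (nat_lit 6) (nat_lit 6) (nat_lit 7) (nat_lit 6) (nat_lit 6) (nat_lit 8) (by decide +kernel)
theorem L4337916 : W_2 (nat_lit 3) (nat_lit 0x10000000000003c000a0001000080000000000000000000000) (nat_lit 0x0) (nat_lit 0x4000000010000c000400000000000000) := T_2 (nat_lit 74) (nat_lit 126) (nat_lit 7) (nat_lit 6) (nat_lit 4) L4337915 (by decide +kernel)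
theorem L4337917 : W_2 (nat_lit 4) (nat_lit 0x10000000000003c000a0001000000000000000000000000000) (nat_lit 0x0) (nat_lit 0x1000000004000000018000c000400000000000000) := T_2 (nat_lit 91) (nat_lit 160) (nat_lit 7) (nat_lit 6) (nat_lit 5) L4337916 (by decide +kernel)
theorem L4337919 : W_2 (nat_lit 2) (nat_lit 0x10000000008003c000a00010000c0000000000000000000000) (nat_lit 0x0) (nat_lit 0x2000100008000000000000000000) := D_2 (nat_lit 92) (nat_lit 109) (nat_lit 75) (nat_lit 6) (nat_lit 6) (nat_lit 9) (nat_lit 6) (nat_lit 6) (nat_lit 8) (by decide +kernel)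
theorem L4337920 : W_2 (nat_lit 3) (nat_lit 0x10000000008003c000a0001000040000000000000000000000) (nat_lit 0x0) (nat_lit 0x200018000a000000000000000000) := T_2 (nat_lit 91) (nat_lit 73) (nat_lit 4) (nat_lit 6) (nat_lit 8) L4337919 (by decide +kernel)
theorem L4337921 : W_2 (nat_lit 4) (nat_lit 0x10000000008003c000a0001000000000000000000000000000) (nat_lit 0x0) (nat_lit 0x28001c000a000000000000000000) := T_2 (nat_lit 90) (nat_lit 107) (nat_lit 4) (nat_lit 6) (nat_lit 9) L4337920 (by decide +kernel)
theorem L4337922 : W_2 (nat_lit 5) (nat_lit 0x10000000000003c000a0001000000000000000000000000000) (nat_lit 0x0) (nat_lit 0xc0000000000028001c000a000000000000000000) := T_2 (nat_lit 159) (nat_lit 158) (nat_lit 1) (nat_lit 9) (nat_lit 8) L4337921 (by decide +kernel)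
theorem L4337979 : W_2 (nat_lit 2) (nat_lit 0x10000000004003c000a0001000080004000000000000000000) (nat_lit 0x0) (nat_lit 0x40002000100000000000000) := D_2 (nat_lit 73) (nat_lit 90) (nat_lit 56) (nat_lit 4) (nat_lit 6) (nat_lit 8) (nat_lit 4) (nat_lit 6) (nat_lit 7) (by decide +kernel)
theorem L4337980 : W_2 (nat_lit 3) (nat_lit 0x10000000004003c000a0001000080000000000000000000000) (nat_lit 0x0) (nat_lit 0x40000000040006000100000000000000) := T_2 (nat_lit 74) (nat_lit 126) (nat_lit 7) (nat_lit 6) (nat_lit 4) L4337979 (by decide +kernel)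
theorem L4337981 : W_2 (nat_lit 4) (nat_lit 0x10000000004003c000a0001000000000000000000000000000) (nat_lit 0x0) (nat_lit 0x100000000400000000c0006000100000000000000) := T_2 (nat_lit 91) (nat_lit 160) (nat_lit 7) (nat_lit 6) (nat_lit 5) L4337980 (by decide +kernel)
theorem L4337982 : W_2 (nat_lit 5) (nat_lit 0x10000000000003c000a0001000000000000000000000000000) (nat_lit 0x0) (nat_lit 0x1c0000000400000000c0006000100000000000000) := T_2 (nat_lit 158) (nat_lit 159) (nat_lit 1) (nat_lit 9) (nat_lit 8) L4337981 (by decide +kernel)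
theorem L4337983 : W_2 (nat_lit 2) (nat_lit 0x40013000100008003c000a0003000040000000000000000000000) (nat_lit 0x0) (nat_lit 0x1000080004000000000000000000000000000000000000000000000000) := D_2 (nat_lit 211) (nat_lit 194) (nat_lit 228) (nat_lit 7) (nat_lit 6) (nat_lit 8) (nat_lit 7) (nat_lit 6) (nat_lit 9) (by decide +kernel)
theorem L4337984 : W_2 (nat_lit 3) (nat_lit 0x13000100008003c000a0003000040000000000000000000000) (nat_lit 0x0) (nat_lit 0x10000c0004000000010000000000000000000000000000000000000000) := T_2 (nat_lit 210) (nat_lit 160) (nat_lit 6) (nat_lit 6) (nat_lit 12) L4337983 (by decide +kernel)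
theorem L4337985 : W_2 (nat_lit 4) (nat_lit 0x11000100008003c000a0003000040000000000000000000000) (nat_lit 0x0) (nat_lit 0x10000e0006000000010000000000000000000000000000000000000000) := T_2 (nat_lit 193) (nat_lit 209) (nat_lit 5) (nat_lit 6) (nat_lit 8) L4337984 (by decide +kernel)
theorem L4337986 : W_2 (nat_lit 5) (nat_lit 0x10000100008003c000a0003000040000000000000000000000) (nat_lit 0x0) (nat_lit 0x10000e0007000080010000000000000000000000000000000000000000) := T_2 (nat_lit 192) (nat_lit 175) (nat_lit 5) (nat_lit 6) (nat_lit 7) L4337985 (by decide +kernel)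
theorem L4337987 : W_2 (nat_lit 6) (nat_lit 0x10000000008003c000a0003000040000000000000000000000) (nat_lit 0x0) (nat_lit 0x10000e0007000180010000000040000000000000000000000000000000) := T_2 (nat_lit 176) (nat_lit 126) (nat_lit 6) (nat_lit 6) (nat_lit 10) L4337986 (by decide +kernel)
theorem L4337988 : W_2 (nat_lit 7) (nat_lit 0x10000000008003c000a0001000040000000000000000000000) (nat_lit 0x0) (nat_lit 0x10000e0007000180010000000040002000100000000000000000000000) := T_2 (nat_lit 109) (nat_lit 92) (nat_lit 6) (nat_lit 6) (nat_lit 9) L4337987 (by decide +kernel)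
theorem L4337989 : W_2 (nat_lit 8) (nat_lit 0x10000000008003c000a0001000000000000000000000000000) (nat_lit 0x0) (nat_lit 0x10000e0007000180010000000040002800140000000000000000000000) := T_2 (nat_lit 90) (nat_lit 107) (nat_lit 4) (nat_lit 6) (nat_lit 9) L4337988 (by decide +kernel)
theorem L4337990 : W_2 (nat_lit 9) (nat_lit 0x10000000000003c000a0001000000000000000000000000000) (nat_lit 0x0) (nat_lit 0x10000e000700018001c000000040002800140000000000000000000000) := T_2 (nat_lit 159) (nat_lit 158) (nat_lit 1) (nat_lit 9) (nat_lit 8) L4337989 (by decide +kernel)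
theorem L4337991 : W_2 (nat_lit 10) (nat_lit 0x10000000000003c000a0000000000000000000000000000000) (nat_lit 0x0) (nat_lit 0x10000e000700018001c0000000400038001c000e000500000000000000) := Q_2 (nat_lit 108) (C_2 L4337922 (C_2 L4337917 (C_2 L4337982 (C_2 L4337990 N_2)))) (by decide +kernel)
theorem L4337992 : W_2 (nat_lit 11) (nat_lit 0x10000000000003c00080000000000000000000000000000000) (nat_lit 0x0) (nat_lit 0x10000e000700018001c0000000700038001c000e000500000000000000) := T_2 (nat_lit 125) (nat_lit 124) (nat_lit 0) (nat_lit 9) (nat_lit 8) L4337991 (by decide +kernel)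
theorem L4337993 : W_2 (nat_lit 12) (nat_lit 0x3c00080000000000000000000000000000000) (nat_lit 0x0) (nat_lit 0x10000e00170009800dc0000000700038001c000e000500000000000000) := Q_2 (nat_lit 196) (C_2 L56882 (C_2 L4337992 N_2)) (by decide +kernel)
theorem L4337994 : W_2 (nat_lit 2) (nat_lit 0x900078003c00080000000000000000000000000000000) (nat_lit 0x0) (nat_lit 0x40002000000000000000040000000000000000000000000000000) := D_2 (nat_lit 193) (nat_lit 126) (nat_lit 210) (nat_lit 6) (nat_lit 6) (nat_lit 11) (nat_lit 6) (nat_lit 6) (nat_lit 12) (by decide +kernel)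
theorem L4337995 : W_2 (nat_lit 3) (nat_lit 0x800078003c00080000000000000000000000000000000) (nat_lit 0x0) (nat_lit 0x40002000180000000000040000000000000000000000000000000) := T_2 (nat_lit 176) (nat_lit 175) (nat_lit 1) (nat_lit 9) (nat_lit 9) L4337994 (by decide +kernel)
theorem L4337996 : W_2 (nat_lit 4) (nat_lit 0x800058003c00080000000000000000000000000000000) (nat_lit 0x0) (nat_lit 0x40002001180020000000040000000000000000000000000000000) := T_2 (nat_lit 161) (nat_lit 180) (nat_lit 3) (nat_lit 6) (nat_lit 9) L4337995 (by decide +kernel)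
theorem L4337997 : W_2 (nat_lit 5) (nat_lit 0x58003c00080000000000000000000000000000000) (nat_lit 0x0) (nat_lit 0x40012001980020000000040000000000000000000000000000000) := T_2 (nat_lit 179) (nat_lit 196) (nat_lit 4) (nat_lit 9) (nat_lit 11) L4337996 (by decide +kernel)
theorem L4337998 : W_2 (nat_lit 6) (nat_lit 0x18003c00080000000000000000000000000000000) (nat_lit 0x0) (nat_lit 0x400120019800e0000000040000000000000000000000000000000) := T_2 (nat_lit 162) (nat_lit 163) (nat_lit 3) (nat_lit 6) (nat_lit 8) L4337997 (by decide +kernel)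
theorem L4337999 : W_2 (nat_lit 7) (nat_lit 0x10003c00080000000000000000000000000000000) (nat_lit 0x0) (nat_lit 0x400120019800ec000000040000000000000000000000000000000) := T_2 (nat_lit 159) (nat_lit 158) (nat_lit 1) (nat_lit 9) (nat_lit 8) L4337998 (by decide +kernel)
theorem L4338000 : W_2 (nat_lit 8) (nat_lit 0x3c00080000000000000000000000000000000) (nat_lit 0x0) (nat_lit 0x40016001f800fc000000070001000080000000000000000000000) := Q_2 (nat_lit 160) (C_2 L58951 (C_2 L4313658 (C_2 L4337999 N_2))) (by decide +kernel)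
theorem L4339073 : W_2 (nat_lit 2) (nat_lit 0x800078001c000e0003000040000000000000000000000) (nat_lit 0x0) (nat_lit 0x200010000000000002000000000000000000000000000000000000) := D_2 (nat_lit 196) (nat_lit 145) (nat_lit 213) (nat_lit 4) (nat_lit 9) (nat_lit 11) (nat_lit 4) (nat_lit 9) (nat_lit 12) (by decide +kernel)
theorem L4339074 : W_2 (nat_lit 3) (nat_lit 0x78001c000e0003000040000000000000000000000) (nat_lit 0x0) (nat_lit 0x200010001800000002000000000000000000000000000000000000) := T_2 (nat_lit 179) (nat_lit 180) (nat_lit 3) (nat_lit 6) (nat_lit 9) L4339073 (by decide +kernel)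
theorem L4339075 : W_2 (nat_lit 4) (nat_lit 0x38001c000e0003000040000000000000000000000) (nat_lit 0x0) (nat_lit 0x2000100018000c0002000000000000000000000000000000000000) := T_2 (nat_lit 162) (nat_lit 163) (nat_lit 0) (nat_lit 10) (nat_lit 9) L4339074 (by decide +kernel)
theorem L4339076 : W_2 (nat_lit 5) (nat_lit 0x18001c000e0003000040000000000000000000000) (nat_lit 0x0) (nat_lit 0x200010001c000e0002000000000000000000000000000000000000) := T_2 (nat_lit 161) (nat_lit 178) (nat_lit 7) (nat_lit 7) (nat_lit 6) L4339075 (by decide +kernel)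
theorem L4339077 : W_2 (nat_lit 6) (nat_lit 0x18001c000a0003000040000000000000000000000) (nat_lit 0x0) (nat_lit 0x200010001d000e0002000040000000000000000000000000000000) := T_2 (nat_lit 126) (nat_lit 176) (nat_lit 6) (nat_lit 6) (nat_lit 10) L4339076 (by decide +kernel)
theorem L4339078 : W_2 (nat_lit 7) (nat_lit 0x18001c000a0003000000000000000000000000000) (nat_lit 0x0) (nat_lit 0x200010001d000e0002000040000800040000000000000000000000) := T_2 (nat_lit 90) (nat_lit 107) (nat_lit 4) (nat_lit 6) (nat_lit 9) L4339077 (by decide +kernel)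
theorem L4339079 : W_2 (nat_lit 8) (nat_lit 0x18001c000a0001000000000000000000000000000) (nat_lit 0x0) (nat_lit 0x200010001d000e0002000040002800140000000000000000000000) := T_2 (nat_lit 109) (nat_lit 92) (nat_lit 6) (nat_lit 6) (nat_lit 9) L4339078 (by decide +kernel)
theorem L4339080 : W_2 (nat_lit 9) (nat_lit 0x18001c000a0000000000000000000000000000000) (nat_lit 0x0) (nat_lit 0x200010001d000e00020000400038001c0000000000000000000000) := T_2 (nat_lit 108) (nat_lit 91) (nat_lit 7) (nat_lit 6) (nat_lit 5) L4339079 (by decide +kernel)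
theorem L4339081 : W_2 (nat_lit 10) (nat_lit 0x10001c000a0000000000000000000000000000000) (nat_lit 0x0) (nat_lit 0x220011001dc00ee0020000400038001c0000000000000000000000) := Q_2 (nat_lit 159) (C_2 L4317282 (C_2 L1106873 (C_2 L4339080 N_2))) (by decide +kernel)
theorem L4339082 : W_2 (nat_lit 2) (nat_lit 0x380018001c000a0002000000000000000000000000000) (nat_lit 0x0) (nat_lit 0x40060000000000000000000000000000000000000000) := D_2 (nat_lit 161) (nat_lit 174) (nat_lit 162) (nat_lit 2) (nat_lit 4) (nat_lit 10) (nat_lit 1) (nat_lit 9) (nat_lit 9) (by decide +kernel)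
theorem L4339083 : W_2 (nat_lit 3) (nat_lit 0x300018001c000a0002000000000000000000000000000) (nat_lit 0x0) (nat_lit 0x10000c0060000000000000000000000000000000000000000) := T_2 (nat_lit 175) (nat_lit 192) (nat_lit 5) (nat_lit 6) (nat_lit 7) L4339082 (by decide +kernel)
theorem L4339084 : W_2 (nat_lit 4) (nat_lit 0x300018001c000a0000000000000000000000000000000) (nat_lit 0x0) (nat_lit 0x10000c0060000000040002000000000000000000000000000) := T_2 (nat_lit 109) (nat_lit 126) (nat_lit 6) (nat_lit 6) (nat_lit 10) L4339083 (by decide +kernel)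
theorem L4339085 : W_2 (nat_lit 5) (nat_lit 0x100018001c000a0000000000000000000000000000000) (nat_lit 0x0) (nat_lit 0x50002c0060000000040002000000000000000000000000000) := T_2 (nat_lit 177) (nat_lit 194) (nat_lit 7) (nat_lit 6) (nat_lit 7) L4339084 (by decide +kernel)
theorem L4339086 : W_2 (nat_lit 6) (nat_lit 0x18001c000a0000000000000000000000000000000) (nat_lit 0x0) (nat_lit 0x600070003c0060000000040002000000000000000000000000000) := Q_2 (nat_lit 176) (C_2 L4317271 (C_2 L4339085 (C_2 L4316864 N_2))) (by decide +kernel)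
theorem L4339087 : W_2 (nat_lit 7) (nat_lit 0x10001c000a0000000000000000000000000000000) (nat_lit 0x0) (nat_lit 0x260017001fe00ef002000040002000000000000000000000000000) := Q_2 (nat_lit 159) (C_2 L4317282 (C_2 L4316885 (C_2 L327380 (C_2 L4339086 N_2)))) (by decide +kernel)
theorem L4339088 : W_2 (nat_lit 11) (nat_lit 0x1c000a0000000000000000000000000000000) (nat_lit 0x0) (nat_lit 0x260017001fe00ff0020000400038001c0000000000000000000000) := Q_2 (nat_lit 160) (C_2 L58760 (C_2 L4339081 (C_2 L58758 (C_2 L4339087 N_2)))) (by decide +kernel)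
theorem L4339089 : W_2 (nat_lit 12) (nat_lit 0x1c00080000000000000000000000000000000) (nat_lit 0x0) (nat_lit 0x8002e001f001fe00ff00200007c0038001c000a000000000000000000) := Q_2 (nat_lit 125) (C_2 L1079 (C_2 L4322459 (C_2 L327265 (C_2 L4339088 N_2)))) (by decide +kernel)
theorem L4339090 : W_2 (nat_lit 2) (nat_lit 0x24001e000b0000000000000000000000000000000) (nat_lit 0x0) (nat_lit 0x1000080000000000000001000000000000000000000000000) := D_2 (nat_lit 175) (nat_lit 192) (nat_lit 108) (nat_lit 6) (nat_lit 5) (nat_lit 11) (nat_lit 6) (nat_lit 5) (nat_lit 10) (by decide +kernel)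
theorem L4339091 : W_2 (nat_lit 3) (nat_lit 0x24001e00090000000000000000000000000000000) (nat_lit 0x0) (nat_lit 0x1000080000002000020001000000000000000000000000000) := T_2 (nat_lit 125) (nat_lit 145) (nat_lit 0) (nat_lit 9) (nat_lit 8) L4339090 (by decide +kernel)
theorem L4339092 : W_2 (nat_lit 4) (nat_lit 0x20001e00090000000000000000000000000000000) (nat_lit 0x0) (nat_lit 0x1000080006002000020001000000000000000000000000000) := T_2 (nat_lit 158) (nat_lit 157) (nat_lit 1) (nat_lit 8) (nat_lit 8) L4339091 (by decide +kernel)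
theorem L4339093 : W_2 (nat_lit 5) (nat_lit 0x20001e00080000000000000000000000000000000) (nat_lit 0x0) (nat_lit 0x1000080006002000038001000000000000000000000000000) := T_2 (nat_lit 124) (nat_lit 123) (nat_lit 0) (nat_lit 8) (nat_lit 8) L4339092 (by decide +kernel)
theorem L4339094 : W_2 (nat_lit 6) (nat_lit 0x1e00080000000000000000000000000000000) (nat_lit 0x0) (nat_lit 0x1000080066002000038001000000000000000000000000000) := T_2 (nat_lit 161) (nat_lit 162) (nat_lit 3) (nat_lit 5) (nat_lit 8) L4339093 (by decide +kernel)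
theorem L4339095 : W_2 (nat_lit 7) (nat_lit 0x1c00080000000000000000000000000000000) (nat_lit 0x0) (nat_lit 0x100048006780238007e003000100000000000000000000000) := Q_2 (nat_lit 141) (C_2 L3490889 (C_2 L57921 (C_2 L4339094 (C_2 L56828 (C_2 L10866 N_2))))) (by decide +kernel)
theorem L4339096 : W_2 (nat_lit 8) (nat_lit 0x1c00080000000000000000000000000000000) (nat_lit 0x0) (nat_lit 0x100008007fc023c007f001000000000000000000000000000) := Q_2 (nat_lit 141) (C_2 L4339094 (C_2 L3490889 (C_2 L3492588 (C_2 L60448 N_2)))) (by decide +kernel)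
theorem L4339097 : W_2 (nat_lit 2) (nat_lit 0x1f00088000000000000000000000000000000) (nat_lit 0x0) (nat_lit 0x70000000000000000000000000000000000000000) := D_2 (nat_lit 161) (nat_lit 162) (nat_lit 160) (nat_lit 3) (nat_lit 5) (nat_lit 8) (nat_lit 3) (nat_lit 4) (nat_lit 8) (by decide +kernel)
theorem L4339098 : W_2 (nat_lit 3) (nat_lit 0x1e00088000000000000000000000000000000) (nat_lit 0x0) (nat_lit 0x70000100004000000000000000000000000000000) := T_2 (nat_lit 140) (nat_lit 122) (nat_lit 0) (nat_lit 7) (nat_lit 8) L4339097 (by decide +kernel)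
theorem L4339099 : W_2 (nat_lit 4) (nat_lit 0x1e00080000000000000000000000000000000) (nat_lit 0x0) (nat_lit 0x7000010001c000000000000000000000000000000) := T_2 (nat_lit 123) (nat_lit 124) (nat_lit 0) (nat_lit 8) (nat_lit 8) L4339098 (by decide +kernel)
theorem L4339100 : W_2 (nat_lit 4) (nat_lit 0x1e00080000000000000000000000000000000) (nat_lit 0x0) (nat_lit 0xe0002000038000000000000000000000000000000) := T_2 (nat_lit 162) (nat_lit 161) (nat_lit 3) (nat_lit 5) (nat_lit 8) L3493819 (by decide +kernel)
theorem L4339101 : W_2 (nat_lit 8) (nat_lit 0x1c00080000000000000000000000000000000) (nat_lit 0x0) (nat_lit 0xfbc023c007f000000000000000000000000000000) := Q_2 (nat_lit 141) (C_2 L57921 (C_2 L60448 (C_2 L4339099 (C_2 L4339100 N_2)))) (by decide +kernel)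
theorem L4339102 : W_2 (nat_lit 8) (nat_lit 0x1c00080000000000000000000000000000000) (nat_lit 0x0) (nat_lit 0xfdc023c007f000000000000000000000000000000) := Q_2 (nat_lit 141) (C_2 L4339100 (C_2 L4339099 (C_2 L60448 (C_2 L57928 N_2)))) (by decide +kernel)
theorem L4339103 : W_2 (nat_lit 14) (nat_lit 0x1800080000000000000000000000000000000) (nat_lit 0x0) (nat_lit 0x8003f003fc03fe00ffc027c007f003c001c000e000500000000000000) := Q_2 (nat_lit 142) (C_2 L3494581 (C_2 L4339089 (C_2 L4315952 (C_2 L4337183 (C_2 L4339095 (C_2 L4339096 (C_2 L10870 (C_2 L4339101 (C_2 L4339102 (C_2 L1321 N_2)))))))))) (by decide +kernel)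
theorem L4339104 : W_2 (nat_lit 16) (nat_lit 0x400000001800180000000000000000000000000000000) (nat_lit 0x0) (nat_lit 0x1e800f403ffc0fbc07df00200064003b000f800fc000000000000000000) := Q_2 (nat_lit 177) (C_2 L3482967 (C_2 L3544253 (C_2 L3544264 (C_2 L3483026 (C_2 L3482980 (C_2 L3482982 (C_2 L3483025 N_2))))))) (by decide +kernel)
theorem L4339105 : W_2 (nat_lit 17) (nat_lit 0x1800180000000000000000000000000000000) (nat_lit 0x0) (nat_lit 0x1e800fc03ffc0ffc07ff0020006400fb000f800fc000000000000000000) := Q_2 (nat_lit 178) (C_2 L4144377 (C_2 L74349 (C_2 L62808 (C_2 L62492 (C_2 L670385 (C_2 L4339104 N_2)))))) (by decide +kernel)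
theorem L4340413 : W_2 (nat_lit 2) (nat_lit 0x3000100018001c000a000080000000000000000000000) (nat_lit 0x0) (nat_lit 0x10000c000000000000000000) := D_2 (nat_lit 92) (nat_lit 74) (nat_lit 75) (nat_lit 4) (nat_lit 7) (nat_lit 8) (nat_lit 7) (nat_lit 7) (nat_lit 4) (by decide +kernel)
theorem L4340414 : W_2 (nat_lit 3) (nat_lit 0x3000100018001c000a000000000000000000000000000) (nat_lit 0x0) (nat_lit 0x100018000c000000000000000000) := T_2 (nat_lit 91) (nat_lit 108) (nat_lit 4) (nat_lit 7) (nat_lit 9) L4340413 (by decide +kernel)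
theorem L4340415 : W_2 (nat_lit 4) (nat_lit 0x3000100018001c0008000000000000000000000000000) (nat_lit 0x0) (nat_lit 0x800000000000300018000c000000000000000000) := T_2 (nat_lit 109) (nat_lit 159) (nat_lit 5) (nat_lit 7) (nat_lit 6) L4340414 (by decide +kernel)
theorem L4340416 : W_2 (nat_lit 5) (nat_lit 0x2000100018001c0008000000000000000000000000000) (nat_lit 0x0) (nat_lit 0x200010000800000000000300018000c000000000000000000) := T_2 (nat_lit 176) (nat_lit 193) (nat_lit 5) (nat_lit 7) (nat_lit 7) L4340415 (by decide +kernel)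
theorem L4340417 : W_2 (nat_lit 6) (nat_lit 0x100018001c0008000000000000000000000000000) (nat_lit 0x0) (nat_lit 0x600030000800000000000300018000c000000000000000000) := T_2 (nat_lit 177) (nat_lit 194) (nat_lit 6) (nat_lit 7) (nat_lit 11) L4340416 (by decide +kernel)
theorem L4340418 : W_2 (nat_lit 7) (nat_lit 0x100018001c0008000000000000000000000000000) (nat_lit 0x0) (nat_lit 0x10000e00260000000300058002c000000000000000000) := Q_2 (nat_lit 109) (C_2 L3712598 (C_2 L3712603 (C_2 L3458326 N_2))) (by decide +kernel)
theorem L4340419 : W_2 (nat_lit 4) (nat_lit 0x200018001a001c0008000000000000000000000000000) (nat_lit 0x0) (nat_lit 0xa000d00006000000000000000000000000000000000000000) := T_2 (nat_lit 176) (nat_lit 193) (nat_lit 5) (nat_lit 7) (nat_lit 7) L3461498 (by decide +kernel)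
theorem L4340420 : W_2 (nat_lit 5) (nat_lit 0x18001a001c0008000000000000000000000000000) (nat_lit 0x0) (nat_lit 0xe000f00006000000000000000000000000000000000000000) := T_2 (nat_lit 177) (nat_lit 194) (nat_lit 6) (nat_lit 7) (nat_lit 11) L4340419 (by decide +kernel)
theorem L4340421 : W_2 (nat_lit 6) (nat_lit 0x180018001c0008000000000000000000000000000) (nat_lit 0x0) (nat_lit 0xe000f00006000600000000000000000000000000000000000) := T_2 (nat_lit 141) (nat_lit 142) (nat_lit 2) (nat_lit 5) (nat_lit 8) L4340420 (by decide +kernel)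
theorem L4340840 : W_2 (nat_lit 6) (nat_lit 0x10001a001c0008000000000000000000000000000) (nat_lit 0x0) (nat_lit 0xe000f0000e000000000002000000000000000000000000000) := T_2 (nat_lit 177) (nat_lit 194) (nat_lit 6) (nat_lit 7) (nat_lit 11) L3461500 (by decide +kernel)
theorem L4347690 : W_2 (nat_lit 6) (nat_lit 0x1a00180008000400000000000000000000000) (nat_lit 0x0) (nat_lit 0x300018000e0002000000010000800040000000000000000000) := T_2 (nat_lit 145) (nat_lit 161) (nat_lit 5) (nat_lit 9) (nat_lit 5) L22691 (by decide +kernel)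
theorem L4362295 : W_2 (nat_lit 2) (nat_lit 0xc00048003c00180008000400000000000000000000000) (nat_lit 0x0) (nat_lit 0x10000800040000000000000000000) := D_2 (nat_lit 95) (nat_lit 112) (nat_lit 78) (nat_lit 6) (nat_lit 9) (nat_lit 9) (nat_lit 6) (nat_lit 9) (nat_lit 8) (by decide +kernel)
theorem L4362296 : W_2 (nat_lit 3) (nat_lit 0xc00048003c00180008000000000000000000000000000) (nat_lit 0x0) (nat_lit 0x10000c00060000000000000000000) := T_2 (nat_lit 94) (nat_lit 77) (nat_lit 5) (nat_lit 9) (nat_lit 4) L4362295 (by decide +kernel)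
theorem L4362297 : W_2 (nat_lit 4) (nat_lit 0xc00048003c00180000000000000000000000000000000) (nat_lit 0x0) (nat_lit 0x20000000000018000c00060000000000000000000) := T_2 (nat_lit 111) (nat_lit 161) (nat_lit 6) (nat_lit 8) (nat_lit 10) L4362296 (by decide +kernel)
theorem L4362298 : W_2 (nat_lit 5) (nat_lit 0x800048003c00180000000000000000000000000000000) (nat_lit 0x0) (nat_lit 0x8000400020000000000018000c00060000000000000000000) := T_2 (nat_lit 178) (nat_lit 195) (nat_lit 5) (nat_lit 9) (nat_lit 7) L4362297 (by decide +kernel)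
theorem L4362299 : W_2 (nat_lit 6) (nat_lit 0x48003c00180000000000000000000000000000000) (nat_lit 0x0) (nat_lit 0x18000c00020000000000018000c00060000000000000000000) := T_2 (nat_lit 179) (nat_lit 196) (nat_lit 4) (nat_lit 9) (nat_lit 11) L4362298 (by decide +kernel)
theorem L4362300 : W_2 (nat_lit 7) (nat_lit 0x8003c00180000000000000000000000000000000) (nat_lit 0x0) (nat_lit 0x18000c000e0000000000018000c00060000000000000000000) := T_2 (nat_lit 162) (nat_lit 163) (nat_lit 3) (nat_lit 6) (nat_lit 8) L4362299 (by decide +kernel)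
theorem L4362301 : W_2 (nat_lit 8) (nat_lit 0x8003c00080000000000000000000000000000000) (nat_lit 0x0) (nat_lit 0x18000c000e0000000300018000c00060000000000000000000) := T_2 (nat_lit 128) (nat_lit 129) (nat_lit 2) (nat_lit 6) (nat_lit 8) L4362300 (by decide +kernel)
theorem L4362302 : W_2 (nat_lit 9) (nat_lit 0x8001c00080000000000000000000000000000000) (nat_lit 0x0) (nat_lit 0x18000c000e4002000300018000c00060000000000000000000) := T_2 (nat_lit 145) (nat_lit 158) (nat_lit 1) (nat_lit 9) (nat_lit 8) L4362301 (by decide +kernel)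
theorem L4362724 : W_2 (nat_lit 2) (nat_lit 0x68001c00080000000000000000000000000000000) (nat_lit 0x0) (nat_lit 0x180002000000000000000000000000000000000000) := D_2 (nat_lit 163) (nat_lit 145) (nat_lit 164) (nat_lit 3) (nat_lit 6) (nat_lit 8) (nat_lit 0) (nat_lit 11) (nat_lit 9) (by decide +kernel)
theorem L4362733 : W_2 (nat_lit 2) (nat_lit 0xa00078001c00080000000000000000000000000000000) (nat_lit 0x0) (nat_lit 0x200010000000000002000000000000000000000000000000000000) := D_2 (nat_lit 196) (nat_lit 145) (nat_lit 213) (nat_lit 4) (nat_lit 9) (nat_lit 11) (nat_lit 4) (nat_lit 9) (nat_lit 12) (by decide +kernel)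
theorem L4362734 : W_2 (nat_lit 3) (nat_lit 0x200078001c00080000000000000000000000000000000) (nat_lit 0x0) (nat_lit 0x200010001800000002000000000000000000000000000000000000) := T_2 (nat_lit 179) (nat_lit 180) (nat_lit 3) (nat_lit 6) (nat_lit 9) L4362733 (by decide +kernel)
theorem L4362735 : W_2 (nat_lit 4) (nat_lit 0x78001c00080000000000000000000000000000000) (nat_lit 0x0) (nat_lit 0x200014001a00000002000000000000000000000000000000000000) := T_2 (nat_lit 177) (nat_lit 194) (nat_lit 6) (nat_lit 7) (nat_lit 11) L4362734 (by decide +kernel)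
theorem L4362736 : W_2 (nat_lit 6) (nat_lit 0x68001c00080000000000000000000000000000000) (nat_lit 0x0) (nat_lit 0x200016001b80010002000040002000000000000000000000000000) := Q_2 (nat_lit 160) (C_2 L4008291 (C_2 L2427113 (C_2 L4362735 N_2))) (by decide +kernel)
theorem L4362737 : W_2 (nat_lit 7) (nat_lit 0x28001c00080000000000000000000000000000000) (nat_lit 0x0) (nat_lit 0x200016001b801d0002000040002000000000000000000000000000) := Q_2 (nat_lit 162) (C_2 L4362724 (C_2 L3983311 (C_2 L4362736 N_2))) (by decide +kernel)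
theorem L4362738 : W_2 (nat_lit 2) (nat_lit 0xc00028001c00180000000000000000000000000000000) (nat_lit 0x0) (nat_lit 0x2000600000000000000000000000000000000) := D_2 (nat_lit 129) (nat_lit 145) (nat_lit 130) (nat_lit 2) (nat_lit 6) (nat_lit 8) (nat_lit 1) (nat_lit 11) (nat_lit 7) (by decide +kernel)
theorem L4362739 : W_2 (nat_lit 3) (nat_lit 0xc00028001c00080000000000000000000000000000000) (nat_lit 0x0) (nat_lit 0x2000700008000000000000000000000000000) := T_2 (nat_lit 128) (nat_lit 111) (nat_lit 6) (nat_lit 8) (nat_lit 10) L4362738 (by decide +kernel)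
theorem L4362740 : W_2 (nat_lit 4) (nat_lit 0x400028001c00080000000000000000000000000000000) (nat_lit 0x0) (nat_lit 0x10000800000002000700008000000000000000000000000000) := T_2 (nat_lit 179) (nat_lit 196) (nat_lit 7) (nat_lit 8) (nat_lit 7) L4362739 (by decide +kernel)
theorem L4362741 : W_2 (nat_lit 2) (nat_lit 0xe000c00078001c00080008000000000000000000000000000) (nat_lit 0x0) (nat_lit 0x40000000180000000000000000000000000000000000000000000) := D_2 (nat_lit 176) (nat_lit 175) (nat_lit 210) (nat_lit 1) (nat_lit 9) (nat_lit 9) (nat_lit 6) (nat_lit 6) (nat_lit 12) (by decide +kernel)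
theorem L4362742 : W_2 (nat_lit 3) (nat_lit 0xc000c00078001c00080008000000000000000000000000000) (nat_lit 0x0) (nat_lit 0x40003000180000000000000000000000000000000000000000000) := T_2 (nat_lit 193) (nat_lit 192) (nat_lit 2) (nat_lit 5) (nat_lit 11) L4362741 (by decide +kernel)
theorem L4362743 : W_2 (nat_lit 4) (nat_lit 0xc000400078001c00080008000000000000000000000000000) (nat_lit 0x0) (nat_lit 0x40003001980000000000000000000000000000000000000000000) := T_2 (nat_lit 179) (nat_lit 180) (nat_lit 3) (nat_lit 6) (nat_lit 9) L4362742 (by decide +kernel)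
theorem L4362744 : W_2 (nat_lit 5) (nat_lit 0xc000400038001c00080008000000000000000000000000000) (nat_lit 0x0) (nat_lit 0x400030019800c0000000000000000000000000000000000000000) := T_2 (nat_lit 162) (nat_lit 163) (nat_lit 0) (nat_lit 10) (nat_lit 9) L4362743 (by decide +kernel)
theorem L4362745 : W_2 (nat_lit 6) (nat_lit 0xc000400028001c00080008000000000000000000000000000) (nat_lit 0x0) (nat_lit 0x1400030019800d0000000000000000000000000000000000000000) := T_2 (nat_lit 160) (nat_lit 212) (nat_lit 4) (nat_lit 8) (nat_lit 12) L4362744 (by decide +kernel)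
theorem L4362746 : W_2 (nat_lit 7) (nat_lit 0x4000400028001c00080008000000000000000000000000000) (nat_lit 0x0) (nat_lit 0x1c000b0019800d0000000000000000000000000000000000000000) := T_2 (nat_lit 195) (nat_lit 211) (nat_lit 5) (nat_lit 8) (nat_lit 8) L4362745 (by decide +kernel)
theorem L4362747 : W_2 (nat_lit 8) (nat_lit 0x400028001c00080008000000000000000000000000000) (nat_lit 0x0) (nat_lit 0x1c000f001b800d0000000000000000000000000000000000000000) := T_2 (nat_lit 194) (nat_lit 177) (nat_lit 5) (nat_lit 8) (nat_lit 7) L4362746 (by decide +kernel)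
theorem L4362748 : W_2 (nat_lit 9) (nat_lit 0x400028001c00080000000000000000000000000000000) (nat_lit 0x0) (nat_lit 0x1c000f001b800d0000000100008000000000000000000000000000) := T_2 (nat_lit 111) (nat_lit 128) (nat_lit 6) (nat_lit 8) (nat_lit 10) L4362747 (by decide +kernel)
theorem L4362749 : W_2 (nat_lit 10) (nat_lit 0x28001c00080000000000000000000000000000000) (nat_lit 0x0) (nat_lit 0x40003c001f001f800d0002000700008000000000000000000000000000) := Q_2 (nat_lit 178) (C_2 L1124747 (C_2 L4324886 (C_2 L4362740 (C_2 L4362748 N_2)))) (by decide +kernel)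
theorem L4362750 : W_2 (nat_lit 5) (nat_lit 0x28001c00080000000000000000000000000000000) (nat_lit 0x0) (nat_lit 0xa00050001000000034000a000100000000000000000000000) := Q_2 (nat_lit 126) (C_2 L1105358 (C_2 L3983254 (C_2 L1105077 N_2))) (by decide +kernel)
theorem L4362751 : W_2 (nat_lit 11) (nat_lit 0x8001c00080000000000000000000000000000000) (nat_lit 0x0) (nat_lit 0x40003c001f001f801f000200074000a000100000000000000000000000) := Q_2 (nat_lit 161) (C_2 L4362737 (C_2 L4324894 (C_2 L4324879 (C_2 L4362749 (C_2 L4362750 N_2))))) (by decide +kernel)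
theorem L4362752 : W_2 (nat_lit 13) (nat_lit 0x1c00080000000000000000000000000000000) (nat_lit 0x0) (nat_lit 0x54003e001fc01fc01ff00200074001a000d00060000000000000000000) := Q_2 (nat_lit 159) (C_2 L1101 (C_2 L4323659 (C_2 L4362302 (C_2 L4362751 N_2)))) (by decide +kernel)
theorem L4362753 : W_2 (nat_lit 14) (nat_lit 0x1800080000000000000000000000000000000) (nat_lit 0x0) (nat_lit 0x54003e001fc01fc01ff80278075e01a000d00060000000000000000000) := Q_2 (nat_lit 142) (C_2 L4337183 (C_2 L3490890 (C_2 L4362752 (C_2 L1322 N_2)))) (by decide +kernel)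
theorem L4362754 : W_2 (nat_lit 7) (nat_lit 0x3c00080000000000000000000000000000000) (nat_lit 0x0) (nat_lit 0x200010003c00000037001b800580024000000000000000000) := Q_2 (nat_lit 126) (C_2 L3494708 (C_2 L57656 (C_2 L60247 N_2))) (by decide +kernel)
theorem L4362755 : W_2 (nat_lit 13) (nat_lit 0x1c00080000000000000000000000000000000) (nat_lit 0x0) (nat_lit 0x10000e001f000d800fc00200037001b800dc006e000500000000000000) := Q_2 (nat_lit 145) (C_2 L4337993 (C_2 L4336796 (C_2 L4362754 (C_2 L1133105 N_2)))) (by decide +kernel)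
theorem L4362756 : W_2 (nat_lit 14) (nat_lit 0x1800080000000000000000000000000000000) (nat_lit 0x0) (nat_lit 0x10000e001f000d800ffc027c037f01b800dc006e000500000000000000) := Q_2 (nat_lit 142) (C_2 L4339102 (C_2 L3490890 (C_2 L4362755 (C_2 L10870 (C_2 L4339101 N_2))))) (by decide +kernel)
theorem L4378168 : W_2 (nat_lit 2) (nat_lit 0x2000200019003f0000800000000000000000000000000) (nat_lit 0x0) (nat_lit 0x38000000000000000000000000000) := D_2 (nat_lit 112) (nat_lit 111) (nat_lit 113) (nat_lit 2) (nat_lit 6) (nat_lit 7) (nat_lit 2) (nat_lit 7) (nat_lit 7) (by decide +kernel)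
theorem L4378169 : W_2 (nat_lit 3) (nat_lit 0x2000200019001f0000800000000000000000000000000) (nat_lit 0x0) (nat_lit 0x600038000000000000000000000000000) := T_2 (nat_lit 129) (nat_lit 130) (nat_lit 1) (nat_lit 11) (nat_lit 7) L4378168 (by decide +kernel)
theorem L4378170 : W_2 (nat_lit 4) (nat_lit 0x2000200019000f0000800000000000000000000000000) (nat_lit 0x0) (nat_lit 0x700039000000000000000000000000000) := T_2 (nat_lit 128) (nat_lit 108) (nat_lit 0) (nat_lit 9) (nat_lit 7) L4378169 (by decide +kernel)
theorem L4378171 : W_2 (nat_lit 5) (nat_lit 0x2000200019000f0000000000000000000000000000000) (nat_lit 0x0) (nat_lit 0x700039c00000000000000000000000000) := T_2 (nat_lit 107) (nat_lit 106) (nat_lit 0) (nat_lit 8) (nat_lit 7) L4378170 (by decide +kernel)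
theorem L4378172 : W_2 (nat_lit 6) (nat_lit 0x2000200018000f0000000000000000000000000000000) (nat_lit 0x0) (nat_lit 0x300700039c00000000000000000000000000) := T_2 (nat_lit 140) (nat_lit 141) (nat_lit 1) (nat_lit 8) (nat_lit 7) L4378171 (by decide +kernel)
theorem L4378173 : W_2 (nat_lit 7) (nat_lit 0x2000200018000e0000000000000000000000000000000) (nat_lit 0x0) (nat_lit 0x300718039c00000000000000000000000000) := T_2 (nat_lit 124) (nat_lit 123) (nat_lit 3) (nat_lit 4) (nat_lit 7) L4378172 (by decide +kernel)
theorem L4405352 : W_2 (nat_lit 2) (nat_lit 0xf80014001800080000000000000000000000000000000) (nat_lit 0x0) (nat_lit 0x3800000000000000000000000000000000000000000000000) := D_2 (nat_lit 192) (nat_lit 193) (nat_lit 191) (nat_lit 1) (nat_lit 9) (nat_lit 10) (nat_lit 1) (nat_lit 8) (nat_lit 10) (by decide +kernel)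
theorem L4405353 : W_2 (nat_lit 3) (nat_lit 0xf00014001800080000000000000000000000000000000) (nat_lit 0x0) (nat_lit 0x3800080002000000000000000000000000000000000000000) := T_2 (nat_lit 175) (nat_lit 157) (nat_lit 0) (nat_lit 8) (nat_lit 10) L4405352 (by decide +kernel)
theorem L4405354 : W_2 (nat_lit 4) (nat_lit 0xf00010001800080000000000000000000000000000000) (nat_lit 0x0) (nat_lit 0x380008000e000000000000000000000000000000000000000) := T_2 (nat_lit 158) (nat_lit 159) (nat_lit 0) (nat_lit 9) (nat_lit 10) L4405353 (by decide +kernel)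
theorem L4405355 : W_2 (nat_lit 3) (nat_lit 0xf00010001800080000000000000000000000000000000) (nat_lit 0x0) (nat_lit 0x300000000c0002000000000000000000000000000000000000) := T_2 (nat_lit 162) (nat_lit 163) (nat_lit 2) (nat_lit 6) (nat_lit 10) L3472078 (by decide +kernel)
theorem L4405356 : W_2 (nat_lit 5) (nat_lit 0xe00010001800080000000000000000000000000000000) (nat_lit 0x0) (nat_lit 0x338001800ce002000000000000000000000000000000000000) := Q_2 (nat_lit 176) (C_2 L4405354 (C_2 L3506104 (C_2 L4405355 N_2))) (by decide +kernel)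
theorem L4422335 : W_2 (nat_lit 4) (nat_lit 0x1e00040003800080000000000000000000000000000000) (nat_lit 0x0) (nat_lit 0x180000000700018000000000000000000000000000) := T_2 (nat_lit 163) (nat_lit 164) (nat_lit 2) (nat_lit 7) (nat_lit 10) L1519513 (by decide +kernel)
theorem L4422336 : W_2 (nat_lit 5) (nat_lit 0x1e00040001800080000000000000000000000000000000) (nat_lit 0x0) (nat_lit 0x10000000180002000700018000000000000000000000000000) := T_2 (nat_lit 145) (nat_lit 196) (nat_lit 4) (nat_lit 9) (nat_lit 11) L4422335 (by decide +kernel)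
theorem L4422337 : W_2 (nat_lit 9) (nat_lit 0x1e00000001800080000000000000000000000000000000) (nat_lit 0x0) (nat_lit 0x1c000f0007e0000001c0002000700018000000000000000000000000000) := Q_2 (nat_lit 162) (C_2 L3551723 (C_2 L3551727 (C_2 L3551725 (C_2 L4422336 N_2)))) (by decide +kernel)
theorem L4422338 : W_2 (nat_lit 10) (nat_lit 0xe00000001800080000000000000000000000000000000) (nat_lit 0x0) (nat_lit 0x1c000f000fe0030003c0002000700018000000000000000000000000000) := Q_2 (nat_lit 180) (C_2 L4422337 (C_2 L236709 (C_2 L236697 (C_2 L236679 N_2)))) (by decide +kernel)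
theorem L4422372 : W_2 (nat_lit 2) (nat_lit 0x10003e00100003800080000000000000000000000000000000) (nat_lit 0x0) (nat_lit 0xc004000000000000000000000000000000000000000000000) := D_2 (nat_lit 195) (nat_lit 182) (nat_lit 194) (nat_lit 1) (nat_lit 12) (nat_lit 10) (nat_lit 1) (nat_lit 11) (nat_lit 10) (by decide +kernel)
theorem L4422373 : W_2 (nat_lit 3) (nat_lit 0x10001e00100003800080000000000000000000000000000000) (nat_lit 0x0) (nat_lit 0xc006000200000000000000000000000000000000000000000) := T_2 (nat_lit 181) (nat_lit 165) (nat_lit 2) (nat_lit 8) (nat_lit 10) L4422372 (by decide +kernel)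
theorem L4422374 : W_2 (nat_lit 4) (nat_lit 0x10001e00000003800080000000000000000000000000000000) (nat_lit 0x0) (nat_lit 0xc006000380000000000000000000000000000000000000000) := T_2 (nat_lit 164) (nat_lit 163) (nat_lit 2) (nat_lit 7) (nat_lit 10) L4422373 (by decide +kernel)
theorem L4422375 : W_2 (nat_lit 5) (nat_lit 0x10001e00000001800080000000000000000000000000000000) (nat_lit 0x0) (nat_lit 0xc0060003c0002000000000000000000000000000000000000) := T_2 (nat_lit 145) (nat_lit 162) (nat_lit 4) (nat_lit 9) (nat_lit 11) L4422374 (by decide +kernel)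
theorem L4422376 : W_2 (nat_lit 2) (nat_lit 0x200050003e00080001800080000000000000000000000000000000) (nat_lit 0x0) (nat_lit 0xc004000000000000000000000000000000000000000000000) := D_2 (nat_lit 195) (nat_lit 182) (nat_lit 194) (nat_lit 1) (nat_lit 12) (nat_lit 10) (nat_lit 1) (nat_lit 11) (nat_lit 10) (by decide +kernel)
theorem L4422377 : W_2 (nat_lit 3) (nat_lit 0x200050001e00080001800080000000000000000000000000000000) (nat_lit 0x0) (nat_lit 0x8c006000000000000000000000000000000000000000000000) := T_2 (nat_lit 181) (nat_lit 199) (nat_lit 3) (nat_lit 8) (nat_lit 10) L4422376 (by decide +kernel)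
theorem L4422378 : W_2 (nat_lit 4) (nat_lit 0x50001e00080001800080000000000000000000000000000000) (nat_lit 0x0) (nat_lit 0x400020008c006000000000000000000000000000000000000000000000) := T_2 (nat_lit 213) (nat_lit 230) (nat_lit 6) (nat_lit 9) (nat_lit 13) L4422377 (by decide +kernel)
theorem L4422379 : W_2 (nat_lit 5) (nat_lit 0x10001e00080001800080000000000000000000000000000000) (nat_lit 0x0) (nat_lit 0x40002000ec006000000000000000000000000000000000000000000000) := T_2 (nat_lit 198) (nat_lit 197) (nat_lit 3) (nat_lit 7) (nat_lit 10) L4422378 (by decide +kernel)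
theorem L4422380 : W_2 (nat_lit 6) (nat_lit 0x10001e00000001800080000000000000000000000000000000) (nat_lit 0x0) (nat_lit 0x40002000ec006000180000000000000000000000000000000000000000) := T_2 (nat_lit 163) (nat_lit 164) (nat_lit 2) (nat_lit 7) (nat_lit 10) L4422379 (by decide +kernel)
theorem L4422381 : W_2 (nat_lit 2) (nat_lit 0x50003e00000003800080000000000000000000000000000000) (nat_lit 0x0) (nat_lit 0x380000000000000000000000000000000000000000) := D_2 (nat_lit 164) (nat_lit 165) (nat_lit 163) (nat_lit 2) (nat_lit 8) (nat_lit 10) (nat_lit 2) (nat_lit 7) (nat_lit 10) (by decide +kernel)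
theorem L4422382 : W_2 (nat_lit 3) (nat_lit 0x50001e00000003800080000000000000000000000000000000) (nat_lit 0x0) (nat_lit 0x80002000380000000000000000000000000000000000000000) := T_2 (nat_lit 181) (nat_lit 199) (nat_lit 3) (nat_lit 8) (nat_lit 10) L4422381 (by decide +kernel)
theorem L4422383 : W_2 (nat_lit 4) (nat_lit 0x50001e00000001800080000000000000000000000000000000) (nat_lit 0x0) (nat_lit 0x800020003c0002000000000000000000000000000000000000) := T_2 (nat_lit 145) (nat_lit 162) (nat_lit 4) (nat_lit 9) (nat_lit 11) L4422382 (by decide +kernel)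
theorem L4422384 : W_2 (nat_lit 5) (nat_lit 0x10001e00000001800080000000000000000000000000000000) (nat_lit 0x0) (nat_lit 0xe00020003c0002000000000000000000000000000000000000) := T_2 (nat_lit 198) (nat_lit 197) (nat_lit 3) (nat_lit 7) (nat_lit 10) L4422383 (by decide +kernel)
theorem L4422385 : W_2 (nat_lit 2) (nat_lit 0x50003e00000003800080000000000000000000000000000000) (nat_lit 0x0) (nat_lit 0xc004000000000000000000000000000000000000000000000) := D_2 (nat_lit 195) (nat_lit 194) (nat_lit 182) (nat_lit 1) (nat_lit 11) (nat_lit 10) (nat_lit 1) (nat_lit 12) (nat_lit 10) (by decide +kernel)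
theorem L4422386 : W_2 (nat_lit 3) (nat_lit 0x50001e00000003800080000000000000000000000000000000) (nat_lit 0x0) (nat_lit 0x8c006000000000000000000000000000000000000000000000) := T_2 (nat_lit 181) (nat_lit 199) (nat_lit 3) (nat_lit 8) (nat_lit 10) L4422385 (by decide +kernel)
theorem L4422387 : W_2 (nat_lit 4) (nat_lit 0x10001e00000003800080000000000000000000000000000000) (nat_lit 0x0) (nat_lit 0xec006000000000000000000000000000000000000000000000) := T_2 (nat_lit 198) (nat_lit 197) (nat_lit 3) (nat_lit 7) (nat_lit 10) L4422386 (by decide +kernel)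
theorem L4422388 : W_2 (nat_lit 5) (nat_lit 0x10001e00000001800080000000000000000000000000000000) (nat_lit 0x0) (nat_lit 0xec006000040002000000000000000000000000000000000000) := T_2 (nat_lit 145) (nat_lit 162) (nat_lit 4) (nat_lit 9) (nat_lit 11) L4422387 (by decide +kernel)
theorem L4422389 : W_2 (nat_lit 2) (nat_lit 0xe00030001e000c0001800080000000000000000000000000000000) (nat_lit 0x0) (nat_lit 0x100000c000000000000000000000000000000000000000000000000) := D_2 (nat_lit 195) (nat_lit 194) (nat_lit 216) (nat_lit 3) (nat_lit 7) (nat_lit 11) (nat_lit 0) (nat_lit 12) (nat_lit 12) (by decide +kernel)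
theorem L4422390 : W_2 (nat_lit 3) (nat_lit 0x600030001e000c0001800080000000000000000000000000000000) (nat_lit 0x0) (nat_lit 0x1000180000c000000000000000000000000000000000000000000000000) := T_2 (nat_lit 215) (nat_lit 232) (nat_lit 7) (nat_lit 10) (nat_lit 9) L4422389 (by decide +kernel)
theorem L4422391 : W_2 (nat_lit 4) (nat_lit 0x200030001e000c0001800080000000000000000000000000000000) (nat_lit 0x0) (nat_lit 0x18001c0000c000000000000000000000000000000000000000000000000) := T_2 (nat_lit 214) (nat_lit 231) (nat_lit 7) (nat_lit 9) (nat_lit 9) L4422390 (by decide +kernel)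
theorem L4422392 : W_2 (nat_lit 5) (nat_lit 0x30001e000c0001800080000000000000000000000000000000) (nat_lit 0x0) (nat_lit 0x1c001e0000c000000000000000000000000000000000000000000000000) := T_2 (nat_lit 213) (nat_lit 230) (nat_lit 6) (nat_lit 9) (nat_lit 13) L4422391 (by decide +kernel)
theorem L4422393 : W_2 (nat_lit 6) (nat_lit 0x30001e00080001800080000000000000000000000000000000) (nat_lit 0x0) (nat_lit 0x1c001e0000c000000040002000000000000000000000000000000000000) := T_2 (nat_lit 162) (nat_lit 145) (nat_lit 4) (nat_lit 9) (nat_lit 11) L4422392 (by decide +kernel)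
theorem L4422394 : W_2 (nat_lit 7) (nat_lit 0x30001e00000001800080000000000000000000000000000000) (nat_lit 0x0) (nat_lit 0x1c001e0000c0000001c0002000000000000000000000000000000000000) := T_2 (nat_lit 163) (nat_lit 164) (nat_lit 2) (nat_lit 7) (nat_lit 10) L4422393 (by decide +kernel)
theorem L4422395 : W_2 (nat_lit 8) (nat_lit 0x10001e00000001800080000000000000000000000000000000) (nat_lit 0x0) (nat_lit 0x1c001e0006c0000001c0002000000000000000000000000000000000000) := T_2 (nat_lit 197) (nat_lit 198) (nat_lit 3) (nat_lit 7) (nat_lit 10) L4422394 (by decide +kernel)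
theorem L4422396 : W_2 (nat_lit 9) (nat_lit 0x10000e00000001800080000000000000000000000000000000) (nat_lit 0x0) (nat_lit 0x1c001e000ec0070003c0002000000000000000000000000000000000000) := Q_2 (nat_lit 180) (C_2 L4422375 (C_2 L4422380 (C_2 L4422384 (C_2 L4422388 (C_2 L4422395 N_2))))) (by decide +kernel)
theorem L4422397 : W_2 (nat_lit 2) (nat_lit 0x10000f80000003800080000000000000000000000000000000) (nat_lit 0x0) (nat_lit 0xe000000000000000000000000000000000000000) := D_2 (nat_lit 158) (nat_lit 159) (nat_lit 157) (nat_lit 0) (nat_lit 9) (nat_lit 10) (nat_lit 0) (nat_lit 8) (nat_lit 10) (by decide +kernel)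
theorem L4422398 : W_2 (nat_lit 3) (nat_lit 0x10000f00000003800080000000000000000000000000000000) (nat_lit 0x0) (nat_lit 0x800008000e000000000000000000000000000000000000000) := T_2 (nat_lit 175) (nat_lit 195) (nat_lit 3) (nat_lit 5) (nat_lit 10) L4422397 (by decide +kernel)
theorem L4422399 : W_2 (nat_lit 4) (nat_lit 0x10000e00000003800080000000000000000000000000000000) (nat_lit 0x0) (nat_lit 0x2800018000e000000000000000000000000000000000000000) := T_2 (nat_lit 176) (nat_lit 197) (nat_lit 3) (nat_lit 6) (nat_lit 10) L4422398 (by decide +kernel)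
theorem L4422400 : W_2 (nat_lit 5) (nat_lit 0x10000e00000001800080000000000000000000000000000000) (nat_lit 0x0) (nat_lit 0x2800018004e002000000000000000000000000000000000000) := T_2 (nat_lit 145) (nat_lit 162) (nat_lit 4) (nat_lit 9) (nat_lit 11) L4422399 (by decide +kernel)
theorem L4422401 : W_2 (nat_lit 2) (nat_lit 0x10000e000c0001800080000000000000000000000000000000) (nat_lit 0x0) (nat_lit 0x1000300000000000000000000000000000000000000000) := D_2 (nat_lit 164) (nat_lit 165) (nat_lit 180) (nat_lit 1) (nat_lit 12) (nat_lit 9) (nat_lit 2) (nat_lit 7) (nat_lit 10) (by decide +kernel)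
theorem L4422402 : W_2 (nat_lit 3) (nat_lit 0x10000e00040001800080000000000000000000000000000000) (nat_lit 0x0) (nat_lit 0x1100380000000000000000000000000000000000000000) := T_2 (nat_lit 163) (nat_lit 176) (nat_lit 2) (nat_lit 6) (nat_lit 10) L4422401 (by decide +kernel)
theorem L4422403 : W_2 (nat_lit 4) (nat_lit 0x10000e00000001800080000000000000000000000000000000) (nat_lit 0x0) (nat_lit 0x11003c0002000000000000000000000000000000000000) := T_2 (nat_lit 162) (nat_lit 145) (nat_lit 4) (nat_lit 9) (nat_lit 11) L4422402 (by decide +kernel)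
theorem L4422404 : W_2 (nat_lit 10) (nat_lit 0xe00000001800080000000000000000000000000000000) (nat_lit 0x0) (nat_lit 0x1c001e000fc0071803ce002000000000000000000000000000000000000) := Q_2 (nat_lit 196) (C_2 L1414887 (C_2 L4422396 (C_2 L4422400 (C_2 L4422403 N_2)))) (by decide +kernel)
theorem L4422405 : W_2 (nat_lit 2) (nat_lit 0xf00046003800180000000000000000000000000000000) (nat_lit 0x0) (nat_lit 0x600010000000000000000000000000000) := D_2 (nat_lit 129) (nat_lit 130) (nat_lit 112) (nat_lit 1) (nat_lit 11) (nat_lit 7) (nat_lit 6) (nat_lit 9) (nat_lit 10) (by decide +kernel)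
theorem L4422406 : W_2 (nat_lit 3) (nat_lit 0xf00046003800080000000000000000000000000000000) (nat_lit 0x0) (nat_lit 0x8000000000000000700010000000000000000000000000000) := T_2 (nat_lit 128) (nat_lit 195) (nat_lit 5) (nat_lit 9) (nat_lit 7) L4422405 (by decide +kernel)
theorem L4422407 : W_2 (nat_lit 4) (nat_lit 0xf00046001800080000000000000000000000000000000) (nat_lit 0x0) (nat_lit 0x18000000000002000700010000000000000000000000000000) := T_2 (nat_lit 145) (nat_lit 196) (nat_lit 4) (nat_lit 9) (nat_lit 11) L4422406 (by decide +kernel)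
theorem L4422408 : W_2 (nat_lit 5) (nat_lit 0xf00006001800080000000000000000000000000000000) (nat_lit 0x0) (nat_lit 0x180000000c0002000700010000000000000000000000000000) := T_2 (nat_lit 162) (nat_lit 163) (nat_lit 2) (nat_lit 6) (nat_lit 10) L4422407 (by decide +kernel)
theorem L4422409 : W_2 (nat_lit 6) (nat_lit 0xf00004001800080000000000000000000000000000000) (nat_lit 0x0) (nat_lit 0x180000800c2002000700010000000000000000000000000000) := T_2 (nat_lit 157) (nat_lit 175) (nat_lit 0) (nat_lit 8) (nat_lit 10) L4422408 (by decide +kernel)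
theorem L4422410 : W_2 (nat_lit 7) (nat_lit 0xf00000001800080000000000000000000000000000000) (nat_lit 0x0) (nat_lit 0x180000800ce002000700010000000000000000000000000000) := T_2 (nat_lit 158) (nat_lit 159) (nat_lit 0) (nat_lit 9) (nat_lit 10) L4422409 (by decide +kernel)
theorem L4422411 : W_2 (nat_lit 8) (nat_lit 0xe00000001800080000000000000000000000000000000) (nat_lit 0x0) (nat_lit 0x1f8011801ce002000700010000000000000000000000000000) := Q_2 (nat_lit 176) (C_2 L236750 (C_2 L236639 (C_2 L4422410 N_2))) (by decide +kernel)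
theorem L4422412 : W_2 (nat_lit 11) (nat_lit 0x600000001800080000000000000000000000000000000) (nat_lit 0x0) (nat_lit 0x1c001f001ff80f9803ce002000700018000000000000000000000000000) := Q_2 (nat_lit 179) (C_2 L4422338 (C_2 L1475429 (C_2 L3551732 (C_2 L3551730 (C_2 L236689 (C_2 L4422404 (C_2 L4422411 N_2))))))) (by decide +kernel)
theorem L4422413 : W_2 (nat_lit 3) (nat_lit 0x600000001800080000000000000000000000000000000) (nat_lit 0x0) (nat_lit 0xc000000020000000040002000000000000000000000000000) := T_2 (nat_lit 161) (nat_lit 194) (nat_lit 5) (nat_lit 8) (nat_lit 7) L673014 (by decide +kernel)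
theorem L4422414 : W_2 (nat_lit 9) (nat_lit 0x600000001800080000000000000000000000000000000) (nat_lit 0x0) (nat_lit 0x2000180009001e000200074003a000000000000000000000000000) := Q_2 (nat_lit 161) (C_2 L63486 (C_2 L672997 (C_2 L673014 (C_2 L67720 N_2)))) (by decide +kernel)
theorem L4422415 : W_2 (nat_lit 12) (nat_lit 0x200000001800080000000000000000000000000000000) (nat_lit 0x0) (nat_lit 0x1c001f001ff80fd803ee00200074003a000000000000000000000000000) := Q_2 (nat_lit 178) (C_2 L4422412 (C_2 L673000 (C_2 L4422413 (C_2 L1477383 (C_2 L4422414 N_2))))) (by decide +kernel)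
theorem L4422416 : W_2 (nat_lit 6) (nat_lit 0x600000001800080000000000000000000000000000000) (nat_lit 0x0) (nat_lit 0xe000100018000000060003000080000000000000000000000) := T_2 (nat_lit 160) (nat_lit 194) (nat_lit 6) (nat_lit 7) (nat_lit 11) L2635 (by decide +kernel)
theorem L4422417 : W_2 (nat_lit 2) (nat_lit 0x8000600060001800080000000000000000000000000000000) (nat_lit 0x0) (nat_lit 0x200010000800000000000000000000000000000000000000000000) := D_2 (nat_lit 196) (nat_lit 179) (nat_lit 213) (nat_lit 7) (nat_lit 8) (nat_lit 7) (nat_lit 7) (nat_lit 8) (nat_lit 8) (by decide +kernel)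
theorem L4422418 : W_2 (nat_lit 2) (nat_lit 0x100008000600060001800080008000000000000000000000000000) (nat_lit 0x0) (nat_lit 0x4000200010000000000000000000000000000000000000000000000000) := D_2 (nat_lit 213) (nat_lit 196) (nat_lit 230) (nat_lit 7) (nat_lit 8) (nat_lit 8) (nat_lit 7) (nat_lit 8) (nat_lit 9) (by decide +kernel)
theorem L4422419 : W_2 (nat_lit 3) (nat_lit 0x8000600060001800080008000000000000000000000000000) (nat_lit 0x0) (nat_lit 0x4000300010000000010000000000000000000000000000000000000000) := T_2 (nat_lit 212) (nat_lit 160) (nat_lit 4) (nat_lit 8) (nat_lit 12) L4422418 (by decide +kernel)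
theorem L4422420 : W_2 (nat_lit 4) (nat_lit 0x8000600060001800080000000000000000000000000000000) (nat_lit 0x0) (nat_lit 0x4000300010000000010000000100008000000000000000000000000000) := T_2 (nat_lit 111) (nat_lit 128) (nat_lit 6) (nat_lit 8) (nat_lit 10) L4422419 (by decide +kernel)
theorem L4422421 : W_2 (nat_lit 2) (nat_lit 0x20001000080006000e0001800080008000000000000000000000000000) (nat_lit 0x0) (nat_lit 0x20001000080000000000000000000000000000000000000000000000000000) := D_2 (nat_lit 228) (nat_lit 211) (nat_lit 245) (nat_lit 5) (nat_lit 8) (nat_lit 9) (nat_lit 5) (nat_lit 8) (nat_lit 10) (by decide +kernel)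
theorem L4422422 : W_2 (nat_lit 3) (nat_lit 0x1000080006000e0001800080008000000000000000000000000000) (nat_lit 0x0) (nat_lit 0x20003000080000000800000000000000000000000000000000000000000000) := T_2 (nat_lit 229) (nat_lit 179) (nat_lit 6) (nat_lit 8) (nat_lit 13) L4422421 (by decide +kernel)
theorem L4422423 : W_2 (nat_lit 4) (nat_lit 0x1000080006000e0001800080000000000000000000000000000000) (nat_lit 0x0) (nat_lit 0x20003000080000000800000000000100008000000000000000000000000000) := T_2 (nat_lit 111) (nat_lit 128) (nat_lit 6) (nat_lit 8) (nat_lit 10) L4422422 (by decide +kernel)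
theorem L4422424 : W_2 (nat_lit 5) (nat_lit 0x80006000e0001800080000000000000000000000000000000) (nat_lit 0x0) (nat_lit 0x20003000180000000800010000000100008000000000000000000000000000) := T_2 (nat_lit 212) (nat_lit 160) (nat_lit 4) (nat_lit 8) (nat_lit 12) L4422423 (by decide +kernel)
theorem L4422425 : W_2 (nat_lit 6) (nat_lit 0x8000600060001800080000000000000000000000000000000) (nat_lit 0x0) (nat_lit 0x20003000180000000800190000000100008000000000000000000000000000) := T_2 (nat_lit 163) (nat_lit 164) (nat_lit 1) (nat_lit 11) (nat_lit 9) L4422424 (by decide +kernel)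
theorem L4422426 : W_2 (nat_lit 7) (nat_lit 0x600060001800080000000000000000000000000000000) (nat_lit 0x0) (nat_lit 0x20007000380018000800190000000100008000000000000000000000000000) := Q_2 (nat_lit 195) (C_2 L4422417 (C_2 L4422420 (C_2 L4422425 N_2))) (by decide +kernel)
theorem L4422427 : W_2 (nat_lit 9) (nat_lit 0x600020001800080000000000000000000000000000000) (nat_lit 0x0) (nat_lit 0x200070003800fb0079801dc000000100008000000000000000000000000000) := Q_2 (nat_lit 162) (C_2 L35425 (C_2 L673012 (C_2 L673001 (C_2 L4422426 N_2)))) (by decide +kernel)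
theorem L4422428 : W_2 (nat_lit 10) (nat_lit 0x600000001800080000000000000000000000000000000) (nat_lit 0x0) (nat_lit 0x200070003800fb0079801fc00000016000b000000000000000000000000000) := Q_2 (nat_lit 161) (C_2 L673015 (C_2 L62848 (C_2 L673014 (C_2 L4422427 N_2)))) (by decide +kernel)
theorem L4422429 : W_2 (nat_lit 11) (nat_lit 0x200000001800080000000000000000000000000000000) (nat_lit 0x0) (nat_lit 0x200070003800ff007d801fc00000016000b000080000000000000000000000) := Q_2 (nat_lit 178) (C_2 L4422416 (C_2 L4422413 (C_2 L62837 (C_2 L4422428 N_2)))) (by decide +kernel)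
theorem L4422430 : W_2 (nat_lit 8) (nat_lit 0x600020001800080000000000000000000000000000000) (nat_lit 0x0) (nat_lit 0xa0007000380008000000010002000700008000000000000000000000000000) := T_2 (nat_lit 128) (nat_lit 111) (nat_lit 6) (nat_lit 8) (nat_lit 10) L825283 (by decide +kernel)
theorem L4422431 : W_2 (nat_lit 11) (nat_lit 0x600000001800080000000000000000000000000000000) (nat_lit 0x0) (nat_lit 0xa00070003800fb0079803fc002000700018000000000000000000000000000) := Q_2 (nat_lit 161) (C_2 L672995 (C_2 L4422427 (C_2 L67720 (C_2 L673013 (C_2 L4422430 N_2))))) (by decide +kernel)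
theorem L4422432 : W_2 (nat_lit 12) (nat_lit 0x200000001800080000000000000000000000000000000) (nat_lit 0x0) (nat_lit 0xa001f001f801ff80fd803fe002000700018000000000000000000000000000) := Q_2 (nat_lit 178) (C_2 L4422412 (C_2 L62837 (C_2 L4422431 N_2))) (by decide +kernel)
theorem L4422433 : W_2 (nat_lit 10) (nat_lit 0x200000001800080000000000000000000000000000000) (nat_lit 0x0) (nat_lit 0x20001e000d001f000200077803b000000000000000000000000000) := Q_2 (nat_lit 178) (C_2 L62836 (C_2 L4422414 (C_2 L4422413 (C_2 L62837 N_2)))) (by decide +kernel)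
theorem L4422434 : W_2 (nat_lit 2) (nat_lit 0x200020001800080000000000000000000000000000000) (nat_lit 0x0) (nat_lit 0x4000400010000000000000000000000000000000000000000) := D_2 (nat_lit 194) (nat_lit 160) (nat_lit 178) (nat_lit 6) (nat_lit 7) (nat_lit 11) (nat_lit 5) (nat_lit 8) (nat_lit 7) (by decide +kernel)
theorem L4422435 : W_2 (nat_lit 2) (nat_lit 0x2000200018001e0002000000000000000000000000000) (nat_lit 0x0) (nat_lit 0x600001000000000000000000000000000) := D_2 (nat_lit 129) (nat_lit 130) (nat_lit 108) (nat_lit 1) (nat_lit 11) (nat_lit 7) (nat_lit 0) (nat_lit 10) (nat_lit 7) (by decide +kernel)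
theorem L4422436 : W_2 (nat_lit 3) (nat_lit 0x2000200018001e0000000000000000000000000000000) (nat_lit 0x0) (nat_lit 0x600003000100000000000000000000000) := T_2 (nat_lit 109) (nat_lit 92) (nat_lit 7) (nat_lit 7) (nat_lit 5) L4422435 (by decide +kernel)
theorem L4422437 : W_2 (nat_lit 2) (nat_lit 0x2000200018003e0000000000000000000000000000000) (nat_lit 0x0) (nat_lit 0x38000000000000000000000000000) := D_2 (nat_lit 112) (nat_lit 111) (nat_lit 113) (nat_lit 2) (nat_lit 6) (nat_lit 7) (nat_lit 2) (nat_lit 7) (nat_lit 7) (by decide +kernel)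
theorem L4422438 : W_2 (nat_lit 3) (nat_lit 0x2000200018001e0000000000000000000000000000000) (nat_lit 0x0) (nat_lit 0x600038000000000000000000000000000) := T_2 (nat_lit 129) (nat_lit 130) (nat_lit 1) (nat_lit 11) (nat_lit 7) L4422437 (by decide +kernel)
theorem L4422439 : W_2 (nat_lit 2) (nat_lit 0x2000200018001e0008000000000000000000000000000) (nat_lit 0x0) (nat_lit 0x2000000000000400020000000000000000000) := D_2 (nat_lit 94) (nat_lit 77) (nat_lit 145) (nat_lit 5) (nat_lit 9) (nat_lit 4) (nat_lit 5) (nat_lit 9) (nat_lit 5) (by decide +kernel)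
theorem L4422440 : W_2 (nat_lit 3) (nat_lit 0x2000200018001e0000000000000000000000000000000) (nat_lit 0x0) (nat_lit 0x2000000018000400020000000000000000000) := T_2 (nat_lit 111) (nat_lit 112) (nat_lit 2) (nat_lit 6) (nat_lit 7) L4422439 (by decide +kernel)
theorem L4422441 : W_2 (nat_lit 5) (nat_lit 0x2000200018000e0000000000000000000000000000000) (nat_lit 0x0) (nat_lit 0x200070003b000500020000000000000000000) := Q_2 (nat_lit 128) (C_2 L4069246 (C_2 L4422436 (C_2 L4422438 (C_2 L4422440 N_2)))) (by decide +kernel)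
theorem L4422442 : W_2 (nat_lit 8) (nat_lit 0x2000200018000c0000000000000000000000000000000) (nat_lit 0x0) (nat_lit 0x230073803bc00500020000000000000000000) := Q_2 (nat_lit 125) (C_2 L4378173 (C_2 L673078 (C_2 L4422441 N_2))) (by decide +kernel)
theorem L4422443 : W_2 (nat_lit 9) (nat_lit 0x200020001800080000000000000000000000000000000) (nat_lit 0x0) (nat_lit 0x60001c00d800230077803bc00500020000000000000000000) := Q_2 (nat_lit 126) (C_2 L682069 (C_2 L682067 (C_2 L4422442 N_2))) (by decide +kernel)
theorem L4422444 : W_2 (nat_lit 4) (nat_lit 0x2000300018000c0000000000000000000000000000000) (nat_lit 0x0) (nat_lit 0x8000400000002000038001000000000000000000000000000) := T_2 (nat_lit 178) (nat_lit 195) (nat_lit 7) (nat_lit 7) (nat_lit 7) L33921 (by decide +kernel)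
theorem L4422445 : W_2 (nat_lit 6) (nat_lit 0x2000200018000c0000000000000000000000000000000) (nat_lit 0x0) (nat_lit 0xa0005c00d8002000038001000000000000000000000000000) := Q_2 (nat_lit 160) (C_2 L2430629 (C_2 L682068 (C_2 L682066 (C_2 L4422444 N_2)))) (by decide +kernel)
theorem L4422446 : W_2 (nat_lit 2) (nat_lit 0x2000200018000c0000000000000000000000000000000) (nat_lit 0x0) (nat_lit 0x8000400000000000000002000000000000000000000000000) := D_2 (nat_lit 178) (nat_lit 195) (nat_lit 109) (nat_lit 4) (nat_lit 8) (nat_lit 11) (nat_lit 4) (nat_lit 8) (nat_lit 10) (by decide +kernel)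
theorem L4422447 : W_2 (nat_lit 9) (nat_lit 0x200020001800080000000000000000000000000000000) (nat_lit 0x0) (nat_lit 0xa0005c00d800230077803bc00500020000000000000000000) := Q_2 (nat_lit 126) (C_2 L4422442 (C_2 L4422445 (C_2 L4422446 N_2))) (by decide +kernel)
theorem L4422448 : W_2 (nat_lit 10) (nat_lit 0x200000001800080000000000000000000000000000000) (nat_lit 0x0) (nat_lit 0xe0005c00f800230077803bc00500020000000000000000000) := Q_2 (nat_lit 161) (C_2 L673076 (C_2 L4422434 (C_2 L4422443 (C_2 L4422447 N_2)))) (by decide +kernel)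
theorem L4422449 : W_2 (nat_lit 10) (nat_lit 0x2000000018000e0000000000000000000000000000000) (nat_lit 0x0) (nat_lit 0x2000200070003b800f8007c000000000000000000) := Q_2 (nat_lit 128) (C_2 L749532 (C_2 L330549 (C_2 L673137 N_2))) (by decide +kernel)
theorem L4422450 : W_2 (nat_lit 11) (nat_lit 0x2000000018000c0000000000000000000000000000000) (nat_lit 0x0) (nat_lit 0x2400230073803bc00f8007c000000000000000000) := Q_2 (nat_lit 125) (C_2 L70162 (C_2 L62361 (C_2 L4422449 N_2))) (by decide +kernel)
theorem L4422451 : W_2 (nat_lit 12) (nat_lit 0x200000001800080000000000000000000000000000000) (nat_lit 0x0) (nat_lit 0x600010003c00230077803bc00f8007c000000000000000000) := Q_2 (nat_lit 126) (C_2 L1551 (C_2 L4422450 (C_2 L1262 (C_2 L1263 N_2)))) (by decide +kernel)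
theorem L4423041 : W_2 (nat_lit 4) (nat_lit 0x600010001800080000000000000000000000000000000) (nat_lit 0x0) (nat_lit 0x8000000000002000078001000000000000000000000000000) := T_2 (nat_lit 126) (nat_lit 195) (nat_lit 7) (nat_lit 7) (nat_lit 7) L1477091 (by decide +kernel)
theorem L4423042 : W_2 (nat_lit 5) (nat_lit 0x600000001800080000000000000000000000000000000) (nat_lit 0x0) (nat_lit 0xc000000010002000078001000000000000000000000000000) := T_2 (nat_lit 160) (nat_lit 194) (nat_lit 6) (nat_lit 7) (nat_lit 11) L4423041 (by decide +kernel)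
theorem L4423043 : W_2 (nat_lit 7) (nat_lit 0x200000001800080000000000000000000000000000000) (nat_lit 0x0) (nat_lit 0x20001c001c0003c00200017800b000000000000000000000000000) := Q_2 (nat_lit 178) (C_2 L4423042 (C_2 L4422413 (C_2 L62837 (C_2 L673020 N_2)))) (by decide +kernel)
theorem L4423044 : W_2 (nat_lit 4) (nat_lit 0x2000000018000e0000000000000000000000000000000) (nat_lit 0x0) (nat_lit 0x10000000100003e00000000000000000000000000) := T_2 (nat_lit 108) (nat_lit 160) (nat_lit 4) (nat_lit 7) (nat_lit 10) L749534 (by decide +kernel)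
theorem L4423045 : W_2 (nat_lit 7) (nat_lit 0x2000000018000c0000000000000000000000000000000) (nat_lit 0x0) (nat_lit 0x14002300138003e00080004000000000000000000) := Q_2 (nat_lit 125) (C_2 L70162 (C_2 L62361 (C_2 L4423044 N_2))) (by decide +kernel)
theorem L4423046 : W_2 (nat_lit 3) (nat_lit 0x6000000018000c0002000000000000000000000000000) (nat_lit 0x0) (nat_lit 0x8000000010000000020001000080000000000000000000000) := T_2 (nat_lit 160) (nat_lit 195) (nat_lit 7) (nat_lit 7) (nat_lit 7) L1517460 (by decide +kernel)
theorem L4423047 : W_2 (nat_lit 4) (nat_lit 0x2000000018000c0002000000000000000000000000000) (nat_lit 0x0) (nat_lit 0x8000400030000000020001000080000000000000000000000) := T_2 (nat_lit 178) (nat_lit 161) (nat_lit 4) (nat_lit 8) (nat_lit 10) L4423046 (by decide +kernel)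
theorem L4423048 : W_2 (nat_lit 2) (nat_lit 0x2000000018000c0003800180010000000000000000000) (nat_lit 0x0) (nat_lit 0x320000000000000000000000000000000) := D_2 (nat_lit 128) (nat_lit 129) (nat_lit 125) (nat_lit 0) (nat_lit 10) (nat_lit 7) (nat_lit 0) (nat_lit 9) (nat_lit 7) (by decide +kernel)
theorem L4423049 : W_2 (nat_lit 3) (nat_lit 0x2000000018000c0003000180010000000000000000000) (nat_lit 0x0) (nat_lit 0x320000c00000000000000000000000000) := T_2 (nat_lit 107) (nat_lit 106) (nat_lit 3) (nat_lit 4) (nat_lit 6) L4423048 (by decide +kernel)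
theorem L4423050 : W_2 (nat_lit 4) (nat_lit 0x2000000018000c0002000180010000000000000000000) (nat_lit 0x0) (nat_lit 0x10000000320001c00000000000000000000000000) := T_2 (nat_lit 108) (nat_lit 160) (nat_lit 4) (nat_lit 7) (nat_lit 9) L4423049 (by decide +kernel)
theorem L4423051 : W_2 (nat_lit 5) (nat_lit 0x2000000018000c0002000100010000000000000000000) (nat_lit 0x0) (nat_lit 0x10000000320001c00080004000000000000000000) := T_2 (nat_lit 91) (nat_lit 74) (nat_lit 4) (nat_lit 7) (nat_lit 8) L4423050 (by decide +kernel)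
theorem L4423052 : W_2 (nat_lit 6) (nat_lit 0x2000000018000c0002000100000000000000000000000) (nat_lit 0x0) (nat_lit 0x10000000320001c00280014000000000000000000) := T_2 (nat_lit 76) (nat_lit 93) (nat_lit 6) (nat_lit 7) (nat_lit 8) L4423051 (by decide +kernel)
theorem L4423053 : W_2 (nat_lit 7) (nat_lit 0x2000000018000c0002000000000000000000000000000) (nat_lit 0x0) (nat_lit 0x10000000320001c0038001c000000000000000000) := T_2 (nat_lit 92) (nat_lit 75) (nat_lit 7) (nat_lit 7) (nat_lit 4) L4423052 (by decide +kernel)
theorem L4423054 : W_2 (nat_lit 8) (nat_lit 0x2000000018000c0000000000000000000000000000000) (nat_lit 0x0) (nat_lit 0x8000400030000000320003c0038001c000000000000000000) := Q_2 (nat_lit 109) (C_2 L673615 (C_2 L4423047 (C_2 L4423053 N_2))) (by decide +kernel)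
theorem L4423055 : W_2 (nat_lit 2) (nat_lit 0x2000100018000c0002000180010000000000000000000) (nat_lit 0x0) (nat_lit 0x2000100008000000000000000000000000000000000000000) := D_2 (nat_lit 176) (nat_lit 159) (nat_lit 193) (nat_lit 5) (nat_lit 7) (nat_lit 6) (nat_lit 5) (nat_lit 7) (nat_lit 7) (by decide +kernel)
theorem L4423056 : W_2 (nat_lit 3) (nat_lit 0x2000000018000c0002000180010000000000000000000) (nat_lit 0x0) (nat_lit 0x2000100018000000000001000000000000000000000000000) := T_2 (nat_lit 160) (nat_lit 108) (nat_lit 4) (nat_lit 7) (nat_lit 9) L4423055 (by decide +kernel)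
theorem L4423057 : W_2 (nat_lit 4) (nat_lit 0x2000000018000c0002000100010000000000000000000) (nat_lit 0x0) (nat_lit 0x2000100018000000000001000080004000000000000000000) := T_2 (nat_lit 91) (nat_lit 74) (nat_lit 4) (nat_lit 7) (nat_lit 8) L4423056 (by decide +kernel)
theorem L4423058 : W_2 (nat_lit 5) (nat_lit 0x2000000018000c0002000100000000000000000000000) (nat_lit 0x0) (nat_lit 0x2000100018000000000001000280014000000000000000000) := T_2 (nat_lit 76) (nat_lit 93) (nat_lit 6) (nat_lit 7) (nat_lit 8) L4423057 (by decide +kernel)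
theorem L4423059 : W_2 (nat_lit 6) (nat_lit 0x2000000018000c0002000000000000000000000000000) (nat_lit 0x0) (nat_lit 0x200010001800000000000100038001c000000000000000000) := T_2 (nat_lit 92) (nat_lit 75) (nat_lit 7) (nat_lit 7) (nat_lit 4) L4423058 (by decide +kernel)
theorem L4423060 : W_2 (nat_lit 7) (nat_lit 0x2000000018000c0000000000000000000000000000000) (nat_lit 0x0) (nat_lit 0xa00050003800000002000300038001c000000000000000000) := Q_2 (nat_lit 109) (C_2 L673615 (C_2 L4423047 (C_2 L4423059 N_2))) (by decide +kernel)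
theorem L4423061 : W_2 (nat_lit 2) (nat_lit 0x6000100018000c0002000180010000000000000000000) (nat_lit 0x0) (nat_lit 0x2000100008000000000000000000000000000000000000000) := D_2 (nat_lit 176) (nat_lit 159) (nat_lit 193) (nat_lit 5) (nat_lit 7) (nat_lit 6) (nat_lit 5) (nat_lit 7) (nat_lit 7) (by decide +kernel)
theorem L4423062 : W_2 (nat_lit 3) (nat_lit 0x6000000018000c0002000180010000000000000000000) (nat_lit 0x0) (nat_lit 0x2000100018000000000001000000000000000000000000000) := T_2 (nat_lit 160) (nat_lit 108) (nat_lit 4) (nat_lit 7) (nat_lit 9) L4423061 (by decide +kernel)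
theorem L4423063 : W_2 (nat_lit 4) (nat_lit 0x6000000018000c0002000100010000000000000000000) (nat_lit 0x0) (nat_lit 0x2000100018000000000001000080004000000000000000000) := T_2 (nat_lit 91) (nat_lit 74) (nat_lit 4) (nat_lit 7) (nat_lit 8) L4423062 (by decide +kernel)
theorem L4423064 : W_2 (nat_lit 5) (nat_lit 0x6000000018000c0002000100000000000000000000000) (nat_lit 0x0) (nat_lit 0x2000100018000000000001000280014000000000000000000) := T_2 (nat_lit 76) (nat_lit 93) (nat_lit 6) (nat_lit 7) (nat_lit 8) L4423063 (by decide +kernel)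
theorem L4423065 : W_2 (nat_lit 6) (nat_lit 0x6000000018000c0002000000000000000000000000000) (nat_lit 0x0) (nat_lit 0x200010001800000000000100038001c000000000000000000) := T_2 (nat_lit 92) (nat_lit 75) (nat_lit 7) (nat_lit 7) (nat_lit 4) L4423064 (by decide +kernel)
theorem L4423066 : W_2 (nat_lit 7) (nat_lit 0x6000000018000c0000000000000000000000000000000) (nat_lit 0x0) (nat_lit 0x200010003800000000000300038001c000000000000000000) := T_2 (nat_lit 109) (nat_lit 161) (nat_lit 4) (nat_lit 8) (nat_lit 10) L4423065 (by decide +kernel)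
theorem L4423067 : W_2 (nat_lit 5) (nat_lit 0x6000000018000c0000000000000000000000000000000) (nat_lit 0x0) (nat_lit 0xa00090001e000000000002000000000000000000000000000) := T_2 (nat_lit 160) (nat_lit 195) (nat_lit 7) (nat_lit 7) (nat_lit 7) L5843 (by decide +kernel)
theorem L4423068 : W_2 (nat_lit 9) (nat_lit 0x2000000018000c0000000000000000000000000000000) (nat_lit 0x0) (nat_lit 0x1a000d001fe00200070003b00038001c000000000000000000) := Q_2 (nat_lit 178) (C_2 L62326 (C_2 L62863 (C_2 L4423066 (C_2 L4423067 N_2)))) (by decide +kernel)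
theorem L4423069 : W_2 (nat_lit 6) (nat_lit 0x2000000018000e0000000000000000000000000000000) (nat_lit 0x0) (nat_lit 0x10000000700039800080004000000000000000000) := T_2 (nat_lit 108) (nat_lit 160) (nat_lit 4) (nat_lit 7) (nat_lit 10) L669106 (by decide +kernel)
theorem L4423070 : W_2 (nat_lit 7) (nat_lit 0x2000000018000c0000000000000000000000000000000) (nat_lit 0x0) (nat_lit 0x14002300738039c00080004000000000000000000) := Q_2 (nat_lit 125) (C_2 L70162 (C_2 L62361 (C_2 L4423069 N_2))) (by decide +kernel)
theorem L4423071 : W_2 (nat_lit 8) (nat_lit 0x6000000018000c0000000000000000000000000000000) (nat_lit 0x0) (nat_lit 0x100009001e000200070003a000000000000000000000000000) := T_2 (nat_lit 161) (nat_lit 109) (nat_lit 4) (nat_lit 8) (nat_lit 10) L62359 (by decide +kernel)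
theorem L4423072 : W_2 (nat_lit 9) (nat_lit 0x2000000018000c0000000000000000000000000000000) (nat_lit 0x0) (nat_lit 0x1a000d001fe00200070003a000000000000000000000000000) := Q_2 (nat_lit 178) (C_2 L4423067 (C_2 L62863 (C_2 L62326 (C_2 L4423071 N_2)))) (by decide +kernel)
theorem L4423073 : W_2 (nat_lit 12) (nat_lit 0x200000001800080000000000000000000000000000000) (nat_lit 0x0) (nat_lit 0x1a000d001fe00230077803be00f8007c000000000000000000) := Q_2 (nat_lit 126) (C_2 L4422450 (C_2 L4423045 (C_2 L4423054 (C_2 L4423060 (C_2 L4423068 (C_2 L4423070 (C_2 L4423072 N_2))))))) (by decide +kernel)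
theorem L4425095 : W_2 (nat_lit 7) (nat_lit 0x600000001800080000000000000000000000000000000) (nat_lit 0x0) (nat_lit 0xf78039803de002000000000000000000000000000000000000) := Q_2 (nat_lit 179) (C_2 L1475429 (C_2 L1404511 (C_2 L236646 (C_2 L236641 N_2)))) (by decide +kernel)
theorem L4425319 : W_2 (nat_lit 5) (nat_lit 0x600010001800080000000000000000000000000000000) (nat_lit 0x0) (nat_lit 0xa00090000e000000040002000000000000000000000000000) := T_2 (nat_lit 126) (nat_lit 195) (nat_lit 7) (nat_lit 7) (nat_lit 7) L5843 (by decide +kernel)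
theorem L4425320 : W_2 (nat_lit 6) (nat_lit 0x600010001800080000000000000000000000000000000) (nat_lit 0x0) (nat_lit 0xfb8039803ce002000700010000000000000000000000000000) := Q_2 (nat_lit 179) (C_2 L4405356 (C_2 L236645 (C_2 L3506108 (C_2 L21842 N_2)))) (by decide +kernel)
theorem L4425329 : W_2 (nat_lit 5) (nat_lit 0x600010001800080000000000000000000000000000000) (nat_lit 0x0) (nat_lit 0x200090000e002000078003000000000000000000000000000) := Q_2 (nat_lit 126) (C_2 L1477091 (C_2 L5843 N_2)) (by decide +kernel)
theorem L4425330 : W_2 (nat_lit 7) (nat_lit 0x600000001800080000000000000000000000000000000) (nat_lit 0x0) (nat_lit 0xfb8039803de002000778013000080000000000000000000000) := Q_2 (nat_lit 160) (C_2 L4423041 (C_2 L2635 (C_2 L4425319 (C_2 L4425320 (C_2 L4425329 N_2))))) (by decide +kernel)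
theorem L4425331 : W_2 (nat_lit 12) (nat_lit 0x200000001800080000000000000000000000000000000) (nat_lit 0x0) (nat_lit 0x1c001f001ff80fd803de00200077801b000080000000000000000000000) := Q_2 (nat_lit 178) (C_2 L4422412 (C_2 L4423042 (C_2 L4422416 (C_2 L4425095 (C_2 L4425330 N_2))))) (by decide +kernel)
theorem L4425332 : W_2 (nat_lit 13) (nat_lit 0x1800080000000000000000000000000000000) (nat_lit 0x0) (nat_lit 0xa001f001f801ff80ffc03fe00230077803be00f8007c000000000000000000) := Q_2 (nat_lit 177) (C_2 L4422415 (C_2 L4422429 (C_2 L673017 (C_2 L673021 (C_2 L4422432 (C_2 L4422433 (C_2 L4422448 (C_2 L4422451 (C_2 L4423043 (C_2 L4423073 (C_2 L4425331 N_2))))))))))) (by decide +kernel)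
theorem L4425818 : W_2 (nat_lit 7) (nat_lit 0x1a00180008000000000000000000000000000) (nat_lit 0x0) (nat_lit 0x300018000e0002000000010000c00060000000000000000000) := T_2 (nat_lit 94) (nat_lit 77) (nat_lit 5) (nat_lit 9) (nat_lit 4) L4347690 (by decide +kernel)
theorem L4425819 : W_2 (nat_lit 8) (nat_lit 0x1800180008000000000000000000000000000) (nat_lit 0x0) (nat_lit 0x300018000e0002600000010000c00060000000000000000000) := T_2 (nat_lit 141) (nat_lit 142) (nat_lit 2) (nat_lit 5) (nat_lit 8) L4425818 (by decide +kernel)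
theorem L4425835 : W_2 (nat_lit 4) (nat_lit 0x1a001c0038000400000000000000000000000) (nat_lit 0x0) (nat_lit 0x400020000000000002000b80000000000000000000000) := T_2 (nat_lit 161) (nat_lit 178) (nat_lit 6) (nat_lit 8) (nat_lit 10) L3995702 (by decide +kernel)
theorem L4425836 : W_2 (nat_lit 5) (nat_lit 0x1a001c0018000400000000000000000000000) (nat_lit 0x0) (nat_lit 0x400020000000000062000b80000000000000000000000) := T_2 (nat_lit 113) (nat_lit 114) (nat_lit 1) (nat_lit 12) (nat_lit 6) L4425835 (by decide +kernel)
theorem L4425837 : W_2 (nat_lit 6) (nat_lit 0x1a001c0018000000000000000000000000000) (nat_lit 0x0) (nat_lit 0x400020000000000062000f80020000000000000000000) := T_2 (nat_lit 94) (nat_lit 77) (nat_lit 5) (nat_lit 9) (nat_lit 4) L4425836 (by decide +kernel)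
theorem L4428336 : W_2 (nat_lit 6) (nat_lit 0x18001a0000000000000000000000000000000) (nat_lit 0x0) (nat_lit 0x200010000700058003800080004000000000000000000) := T_2 (nat_lit 141) (nat_lit 142) (nat_lit 2) (nat_lit 5) (nat_lit 8) L249025 (by decide +kernel)
theorem L4428337 : W_2 (nat_lit 4) (nat_lit 0x18001a0000000000000000000000000000000) (nat_lit 0x0) (nat_lit 0x260005c000000000000000000000000000000) := T_2 (nat_lit 142) (nat_lit 141) (nat_lit 2) (nat_lit 5) (nat_lit 8) L58944 (by decide +kernel)
theorem L4428338 : W_2 (nat_lit 8) (nat_lit 0x1c001a0000000000000000000000000000000) (nat_lit 0x0) (nat_lit 0x18000c000e0002000010018000c00060000000000000000000) := T_2 (nat_lit 145) (nat_lit 124) (nat_lit 0) (nat_lit 9) (nat_lit 8) L1143271 (by decide +kernel)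
theorem L4428339 : W_2 (nat_lit 9) (nat_lit 0x18001a0000000000000000000000000000000) (nat_lit 0x0) (nat_lit 0x18000c000e0002600010018000c00060000000000000000000) := T_2 (nat_lit 142) (nat_lit 141) (nat_lit 2) (nat_lit 5) (nat_lit 8) L4428338 (by decide +kernel)
theorem L4428340 : W_2 (nat_lit 5) (nat_lit 0x18001a0000000000000000000000000000000) (nat_lit 0x0) (nat_lit 0x20001000200005801bc00080004000000000000000000) := Q_2 (nat_lit 126) (C_2 L4330385 (C_2 L326984 (C_2 L21461 N_2))) (by decide +kernel)
theorem L4428341 : W_2 (nat_lit 6) (nat_lit 0x18001a0000000000000000000000000000000) (nat_lit 0x0) (nat_lit 0x400030002600040019800480024000000000000000000) := T_2 (nat_lit 142) (nat_lit 141) (nat_lit 2) (nat_lit 5) (nat_lit 8) L1144491 (by decide +kernel)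
theorem L4428342 : W_2 (nat_lit 10) (nat_lit 0x1800180000000000000000000000000000000) (nat_lit 0x0) (nat_lit 0x18000e000f000270007c01bc00c80064000000000000000000) := Q_2 (nat_lit 125) (C_2 L4428336 (C_2 L4428337 (C_2 L4428339 (C_2 L4428340 (C_2 L4428341 N_2))))) (by decide +kernel)
theorem L4428343 : W_2 (nat_lit 11) (nat_lit 0x1800080000000000000000000000000000000) (nat_lit 0x0) (nat_lit 0x18000e000f000270077c03bc00f8006c000000000000000000) := Q_2 (nat_lit 128) (C_2 L4330124 (C_2 L3473385 (C_2 L22288 (C_2 L74239 (C_2 L4428342 N_2))))) (by decide +kernel)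
theorem L4428344 : W_2 (nat_lit 11) (nat_lit 0x18000c0000000000000000000000000000000) (nat_lit 0x0) (nat_lit 0x40002000200073803bc00f8003c000000000000000000) := Q_2 (nat_lit 109) (C_2 L62270 (C_2 L1216 (C_2 L677368 N_2))) (by decide +kernel)
theorem L4428345 : W_2 (nat_lit 2) (nat_lit 0x100018000f0001800000000000000000000000000) (nat_lit 0x0) (nat_lit 0x400000000000080004000000000000000000) := D_2 (nat_lit 91) (nat_lit 74) (nat_lit 142) (nat_lit 7) (nat_lit 6) (nat_lit 4) (nat_lit 7) (nat_lit 6) (nat_lit 5) (by decide +kernel)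
theorem L4428346 : W_2 (nat_lit 3) (nat_lit 0x18000f0001800000000000000000000000000) (nat_lit 0x0) (nat_lit 0x200010000400000000000080004000000000000000000) := T_2 (nat_lit 160) (nat_lit 177) (nat_lit 4) (nat_lit 7) (nat_lit 10) L4428345 (by decide +kernel)
theorem L4428347 : W_2 (nat_lit 4) (nat_lit 0x18000f0000800000000000000000000000000) (nat_lit 0x0) (nat_lit 0x200010000400100001000080004000000000000000000) := T_2 (nat_lit 108) (nat_lit 128) (nat_lit 0) (nat_lit 9) (nat_lit 7) L4428346 (by decide +kernel)
theorem L4428348 : W_2 (nat_lit 5) (nat_lit 0x18000f0000000000000000000000000000000) (nat_lit 0x0) (nat_lit 0x200010000400100001c00080004000000000000000000) := T_2 (nat_lit 107) (nat_lit 106) (nat_lit 0) (nat_lit 8) (nat_lit 7) L4428347 (by decide +kernel)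
theorem L4428349 : W_2 (nat_lit 6) (nat_lit 0x18000e0000000000000000000000000000000) (nat_lit 0x0) (nat_lit 0x200010000400118001c00080004000000000000000000) := T_2 (nat_lit 124) (nat_lit 123) (nat_lit 3) (nat_lit 4) (nat_lit 7) L4428348 (by decide +kernel)
theorem L4428350 : W_2 (nat_lit 2) (nat_lit 0x18001e0000000000000000000000000000000) (nat_lit 0x0) (nat_lit 0x400600000000000000000000000000000000) := D_2 (nat_lit 129) (nat_lit 142) (nat_lit 130) (nat_lit 1) (nat_lit 10) (nat_lit 7) (nat_lit 1) (nat_lit 11) (nat_lit 7) (by decide +kernel)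
theorem L4428351 : W_2 (nat_lit 6) (nat_lit 0x18000e0000000000000000000000000000000) (nat_lit 0x0) (nat_lit 0x400020002400700039800400020000000000000000000) := Q_2 (nat_lit 128) (C_2 L21451 (C_2 L62289 (C_2 L4428350 N_2))) (by decide +kernel)
theorem L4428352 : W_2 (nat_lit 7) (nat_lit 0x18000c0000000000000000000000000000000) (nat_lit 0x0) (nat_lit 0x600030002400738039c00480024000000000000000000) := Q_2 (nat_lit 125) (C_2 L1215 (C_2 L4428349 (C_2 L4428351 N_2))) (by decide +kernel)
theorem L4428353 : W_2 (nat_lit 2) (nat_lit 0x200018001c0000000000000000000000000000000) (nat_lit 0x0) (nat_lit 0x400600000000000000000000000000000000) := D_2 (nat_lit 129) (nat_lit 142) (nat_lit 130) (nat_lit 1) (nat_lit 10) (nat_lit 7) (nat_lit 1) (nat_lit 11) (nat_lit 7) (by decide +kernel)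
theorem L4428354 : W_2 (nat_lit 7) (nat_lit 0x200018001c0000000000000000000000000000000) (nat_lit 0x0) (nat_lit 0x200003807a000f80020000000000000000000) := Q_2 (nat_lit 111) (C_2 L668793 (C_2 L668221 (C_2 L74234 N_2))) (by decide +kernel)
theorem L4428355 : W_2 (nat_lit 8) (nat_lit 0x200018000c0000000000000000000000000000000) (nat_lit 0x0) (nat_lit 0x240073807a000f80020000000000000000000) := Q_2 (nat_lit 128) (C_2 L4428353 (C_2 L62189 (C_2 L4428354 N_2))) (by decide +kernel)
theorem L4428356 : W_2 (nat_lit 10) (nat_lit 0x18000c0000000000000000000000000000000) (nat_lit 0x0) (nat_lit 0x1c000f001e000240073807a000f80020000000000000000000) := Q_2 (nat_lit 161) (C_2 L62249 (C_2 L1410 (C_2 L4428355 N_2))) (by decide +kernel)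
theorem L4428357 : W_2 (nat_lit 3) (nat_lit 0x200018001e0000000100000000000000000000000) (nat_lit 0x0) (nat_lit 0x18001c00000000000000000000000000) := T_2 (nat_lit 124) (nat_lit 123) (nat_lit 3) (nat_lit 4) (nat_lit 7) L819573 (by decide +kernel)
theorem L4428358 : W_2 (nat_lit 4) (nat_lit 0x200018001e0000000000000000000000000000000) (nat_lit 0x0) (nat_lit 0x18003c00100000000000000000000000) := T_2 (nat_lit 92) (nat_lit 109) (nat_lit 7) (nat_lit 7) (nat_lit 5) L4428357 (by decide +kernel)
theorem L4428359 : W_2 (nat_lit 5) (nat_lit 0x200018001c0000000000000000000000000000000) (nat_lit 0x0) (nat_lit 0x200003801bc00500020000000000000000000) := Q_2 (nat_lit 125) (C_2 L4428358 (C_2 L668121 (C_2 L668114 N_2))) (by decide +kernel)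
theorem L4428360 : W_2 (nat_lit 7) (nat_lit 0x200018000c0000000000000000000000000000000) (nat_lit 0x0) (nat_lit 0x240073803bc00500020000000000000000000) := Q_2 (nat_lit 128) (C_2 L4428353 (C_2 L62486 (C_2 L4428359 N_2))) (by decide +kernel)
theorem L4428361 : W_2 (nat_lit 10) (nat_lit 0x18000c0000000000000000000000000000000) (nat_lit 0x0) (nat_lit 0x1c000f001e000240073803bc00500020000000000000000000) := Q_2 (nat_lit 161) (C_2 L62249 (C_2 L1410 (C_2 L4428360 N_2))) (by decide +kernel)
theorem L4428362 : W_2 (nat_lit 7) (nat_lit 0x18000c0000000000000000000000000000000) (nat_lit 0x0) (nat_lit 0x20001000240073803be00080004000000000000000000) := Q_2 (nat_lit 125) (C_2 L4428349 (C_2 L1215 (C_2 L234783 N_2))) (by decide +kernel)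
theorem L4428363 : W_2 (nat_lit 12) (nat_lit 0x1800080000000000000000000000000000000) (nat_lit 0x0) (nat_lit 0x1e000fc01fe00240077807be00f8003c000200000000000000) := Q_2 (nat_lit 126) (C_2 L62247 (C_2 L62302 (C_2 L4428344 (C_2 L62301 (C_2 L4428352 (C_2 L62250 (C_2 L4428356 (C_2 L4428361 (C_2 L4428362 N_2))))))))) (by decide +kernel)
theorem L4428364 : W_2 (nat_lit 2) (nat_lit 0x700038003c001c0000000000000000000000000000000) (nat_lit 0x0) (nat_lit 0x10001800000000000000000000000000000000000000000000) := D_2 (nat_lit 179) (nat_lit 180) (nat_lit 196) (nat_lit 0) (nat_lit 10) (nat_lit 10) (nat_lit 7) (nat_lit 8) (nat_lit 7) (by decide +kernel)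
theorem L4428365 : W_2 (nat_lit 3) (nat_lit 0x700018003c001c0000000000000000000000000000000) (nat_lit 0x0) (nat_lit 0x10001800020000000000008000000000000000000000000000) := T_2 (nat_lit 161) (nat_lit 111) (nat_lit 6) (nat_lit 8) (nat_lit 10) L4428364 (by decide +kernel)
theorem L4428366 : W_2 (nat_lit 4) (nat_lit 0x300018003c001c0000000000000000000000000000000) (nat_lit 0x0) (nat_lit 0x18001c00020000000000008000000000000000000000000000) := T_2 (nat_lit 178) (nat_lit 195) (nat_lit 7) (nat_lit 7) (nat_lit 7) L4428365 (by decide +kernel)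
theorem L4428367 : W_2 (nat_lit 5) (nat_lit 0x100018003c001c0000000000000000000000000000000) (nat_lit 0x0) (nat_lit 0x1c001e00020000000000008000000000000000000000000000) := T_2 (nat_lit 177) (nat_lit 194) (nat_lit 6) (nat_lit 7) (nat_lit 11) L4428366 (by decide +kernel)
theorem L4428368 : W_2 (nat_lit 6) (nat_lit 0x100008003c001c0000000000000000000000000000000) (nat_lit 0x0) (nat_lit 0x1c001e0003000000000000a000000000000000000000000000) := T_2 (nat_lit 160) (nat_lit 109) (nat_lit 5) (nat_lit 7) (nat_lit 6) L4428367 (by decide +kernel)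
theorem L4428369 : W_2 (nat_lit 7) (nat_lit 0x8003c001c0000000000000000000000000000000) (nat_lit 0x0) (nat_lit 0x1e001f0003000000000000a000000000000000000000000000) := T_2 (nat_lit 176) (nat_lit 193) (nat_lit 6) (nat_lit 6) (nat_lit 11) L4428368 (by decide +kernel)
theorem L4428370 : W_2 (nat_lit 8) (nat_lit 0x8003c000c0000000000000000000000000000000) (nat_lit 0x0) (nat_lit 0x1e001f0003000000030000a000000000000000000000000000) := T_2 (nat_lit 128) (nat_lit 129) (nat_lit 2) (nat_lit 6) (nat_lit 8) L4428369 (by decide +kernel)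
theorem L4428371 : W_2 (nat_lit 9) (nat_lit 0x3c000c0000000000000000000000000000000) (nat_lit 0x0) (nat_lit 0x1e001f0003c00000030000a000000000000000000000000000) := T_2 (nat_lit 159) (nat_lit 158) (nat_lit 1) (nat_lit 9) (nat_lit 8) L4428370 (by decide +kernel)
theorem L4428372 : W_2 (nat_lit 10) (nat_lit 0x3c00080000000000000000000000000000000) (nat_lit 0x0) (nat_lit 0x1f001f8003c00000037001b8004c0026000000000000000000) := Q_2 (nat_lit 126) (C_2 L4337208 (C_2 L60247 (C_2 L4428371 N_2))) (by decide +kernel)
theorem L4428373 : W_2 (nat_lit 13) (nat_lit 0x1c00080000000000000000000000000000000) (nat_lit 0x0) (nat_lit 0x10003e00ff007f807fc00200037001b800cc0026000000000000000000) := Q_2 (nat_lit 145) (C_2 L3494636 (C_2 L4337538 (C_2 L4338000 (C_2 L4336796 (C_2 L4428372 N_2))))) (by decide +kernel)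
theorem L4428374 : W_2 (nat_lit 14) (nat_lit 0x1800080000000000000000000000000000000) (nat_lit 0x0) (nat_lit 0x10003e00ff007f807ffc027c077f01b800cc0026000000000000000000) := Q_2 (nat_lit 142) (C_2 L4339102 (C_2 L3490890 (C_2 L4428373 (C_2 L1322 N_2)))) (by decide +kernel)
theorem L4428537 : W_2 (nat_lit 2) (nat_lit 0x3c0018001c000a000080020000000000000000000) (nat_lit 0x0) (nat_lit 0x700000000000000000000000000000000000) := D_2 (nat_lit 141) (nat_lit 142) (nat_lit 140) (nat_lit 2) (nat_lit 5) (nat_lit 8) (nat_lit 0) (nat_lit 8) (nat_lit 9) (by decide +kernel)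
theorem L4428650 : W_2 (nat_lit 3) (nat_lit 0x20001c001e0008000100000000000000000000000) (nat_lit 0x0) (nat_lit 0x180008000c000000000000000000) := T_2 (nat_lit 108) (nat_lit 107) (nat_lit 0) (nat_lit 9) (nat_lit 7) L1143945 (by decide +kernel)
theorem L4428651 : W_2 (nat_lit 4) (nat_lit 0x200018001e0008000100000000000000000000000) (nat_lit 0x0) (nat_lit 0x60000000180008000c000000000000000000) := T_2 (nat_lit 142) (nat_lit 141) (nat_lit 2) (nat_lit 5) (nat_lit 8) L4428650 (by decide +kernel)
theorem L4428652 : W_2 (nat_lit 5) (nat_lit 0x200018001c0008000100000000000000000000000) (nat_lit 0x0) (nat_lit 0x60002001180008000c000000000000000000) := T_2 (nat_lit 125) (nat_lit 112) (nat_lit 2) (nat_lit 6) (nat_lit 7) L4428651 (by decide +kernel)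
theorem L4428653 : W_2 (nat_lit 6) (nat_lit 0x200018001c0008000000000000000000000000000) (nat_lit 0x0) (nat_lit 0x60002001380018000c000000000000000000) := T_2 (nat_lit 92) (nat_lit 109) (nat_lit 7) (nat_lit 7) (nat_lit 5) L4428652 (by decide +kernel)
theorem L4429542 : W_2 (nat_lit 9) (nat_lit 0x1c001c0008000000000000000000000000000) (nat_lit 0x0) (nat_lit 0x8000c0020000200138005c002e000000000000000000) := T_2 (nat_lit 125) (nat_lit 112) (nat_lit 2) (nat_lit 6) (nat_lit 7) L24490 (by decide +kernel)
theorem L4429543 : W_2 (nat_lit 10) (nat_lit 0x18001c0008000000000000000000000000000) (nat_lit 0x0) (nat_lit 0x8000c0026000200138005c002e000000000000000000) := T_2 (nat_lit 142) (nat_lit 141) (nat_lit 2) (nat_lit 5) (nat_lit 8) L4429542 (by decide +kernel)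
theorem L4429544 : W_2 (nat_lit 6) (nat_lit 0x18001c0008000000020000000000000000000) (nat_lit 0x0) (nat_lit 0x200010000600020013800080004000000000000000000) := T_2 (nat_lit 141) (nat_lit 142) (nat_lit 2) (nat_lit 5) (nat_lit 8) L249029 (by decide +kernel)
theorem L4429545 : W_2 (nat_lit 7) (nat_lit 0x18001c0008000000000000000000000000000) (nat_lit 0x0) (nat_lit 0x200010000600020013800480024000000000000000000) := T_2 (nat_lit 77) (nat_lit 94) (nat_lit 5) (nat_lit 9) (nat_lit 4) L4429544 (by decide +kernel)
theorem L4429546 : W_2 (nat_lit 2) (nat_lit 0x1c001e0009000000020000000000000000000) (nat_lit 0x0) (nat_lit 0x200010000000000000000080000000000000000000000) := D_2 (nat_lit 160) (nat_lit 177) (nat_lit 91) (nat_lit 4) (nat_lit 7) (nat_lit 10) (nat_lit 7) (nat_lit 6) (nat_lit 5) (by decide +kernel)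
theorem L4429547 : W_2 (nat_lit 3) (nat_lit 0x1c001e0008000000020000000000000000000) (nat_lit 0x0) (nat_lit 0x200010000000000001800080000000000000000000000) := T_2 (nat_lit 108) (nat_lit 107) (nat_lit 0) (nat_lit 9) (nat_lit 7) L4429546 (by decide +kernel)
theorem L4429548 : W_2 (nat_lit 4) (nat_lit 0x18001e0008000000020000000000000000000) (nat_lit 0x0) (nat_lit 0x200010000600000001800080000000000000000000000) := T_2 (nat_lit 142) (nat_lit 141) (nat_lit 2) (nat_lit 5) (nat_lit 8) L4429547 (by decide +kernel)
theorem L4429549 : W_2 (nat_lit 5) (nat_lit 0x18001c0008000000020000000000000000000) (nat_lit 0x0) (nat_lit 0x200010000600020011800080000000000000000000000) := T_2 (nat_lit 125) (nat_lit 112) (nat_lit 2) (nat_lit 6) (nat_lit 7) L4429548 (by decide +kernel)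
theorem L4429550 : W_2 (nat_lit 6) (nat_lit 0x18001c0008000000000000000000000000000) (nat_lit 0x0) (nat_lit 0x200010000600020011800480020000000000000000000) := T_2 (nat_lit 77) (nat_lit 94) (nat_lit 5) (nat_lit 9) (nat_lit 4) L4429549 (by decide +kernel)
theorem L4429551 : W_2 (nat_lit 2) (nat_lit 0x100018001e0009000000020000000000000000000) (nat_lit 0x0) (nat_lit 0x2000080004000000000000000000) := D_2 (nat_lit 91) (nat_lit 109) (nat_lit 74) (nat_lit 4) (nat_lit 7) (nat_lit 9) (nat_lit 7) (nat_lit 6) (nat_lit 4) (by decide +kernel)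
theorem L4429552 : W_2 (nat_lit 3) (nat_lit 0x18001e0009000000020000000000000000000) (nat_lit 0x0) (nat_lit 0x200010000000000002000080004000000000000000000) := T_2 (nat_lit 160) (nat_lit 177) (nat_lit 4) (nat_lit 7) (nat_lit 10) L4429551 (by decide +kernel)
theorem L4429553 : W_2 (nat_lit 4) (nat_lit 0x18001e0008000000020000000000000000000) (nat_lit 0x0) (nat_lit 0x200010000000000003800080004000000000000000000) := T_2 (nat_lit 108) (nat_lit 107) (nat_lit 0) (nat_lit 9) (nat_lit 7) L4429552 (by decide +kernel)
theorem L4429554 : W_2 (nat_lit 5) (nat_lit 0x18001c0008000000020000000000000000000) (nat_lit 0x0) (nat_lit 0x200010000000020013800080004000000000000000000) := T_2 (nat_lit 125) (nat_lit 112) (nat_lit 2) (nat_lit 6) (nat_lit 7) L4429553 (by decide +kernel)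
theorem L4429555 : W_2 (nat_lit 6) (nat_lit 0x18001c0008000000000000000000000000000) (nat_lit 0x0) (nat_lit 0x200010000000020013800480024000000000000000000) := T_2 (nat_lit 77) (nat_lit 94) (nat_lit 5) (nat_lit 9) (nat_lit 4) L4429554 (by decide +kernel)
theorem L4429556 : W_2 (nat_lit 3) (nat_lit 0x1a001e0009000000000000000000000000000) (nat_lit 0x0) (nat_lit 0x200010000000000002000080004000000000000000000) := T_2 (nat_lit 160) (nat_lit 177) (nat_lit 4) (nat_lit 7) (nat_lit 10) L2522824 (by decide +kernel)
theorem L4429557 : W_2 (nat_lit 4) (nat_lit 0x1a001e0008000000000000000000000000000) (nat_lit 0x0) (nat_lit 0x200010000000000003800080004000000000000000000) := T_2 (nat_lit 108) (nat_lit 107) (nat_lit 0) (nat_lit 9) (nat_lit 7) L4429556 (by decide +kernel)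
theorem L4429558 : W_2 (nat_lit 5) (nat_lit 0x18001e0008000000000000000000000000000) (nat_lit 0x0) (nat_lit 0x200010000600000003800080004000000000000000000) := T_2 (nat_lit 141) (nat_lit 142) (nat_lit 2) (nat_lit 5) (nat_lit 8) L4429557 (by decide +kernel)
theorem L4429559 : W_2 (nat_lit 6) (nat_lit 0x18001c0008000000000000000000000000000) (nat_lit 0x0) (nat_lit 0x200010000600020013800080004000000000000000000) := T_2 (nat_lit 125) (nat_lit 112) (nat_lit 2) (nat_lit 6) (nat_lit 7) L4429558 (by decide +kernel)
theorem L4429570 : W_2 (nat_lit 7) (nat_lit 0x100018001c0008000000000000000000000000000) (nat_lit 0x0) (nat_lit 0xe000f0000e000600000002000000000000000000000000000) := T_2 (nat_lit 141) (nat_lit 142) (nat_lit 2) (nat_lit 5) (nat_lit 8) L4340840 (by decide +kernel)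
theorem L4429573 : W_2 (nat_lit 2) (nat_lit 0x10000f000180018001c0009000000020000000000000000000) (nat_lit 0x0) (nat_lit 0xc0002000000000000000000000000000000000000) := D_2 (nat_lit 162) (nat_lit 163) (nat_lit 145) (nat_lit 2) (nat_lit 6) (nat_lit 10) (nat_lit 4) (nat_lit 9) (nat_lit 11) (by decide +kernel)
theorem L4429574 : W_2 (nat_lit 3) (nat_lit 0xf000180018001c0009000000020000000000000000000) (nat_lit 0x0) (nat_lit 0x300000000c0002000000000000000000000000000000000000) := T_2 (nat_lit 196) (nat_lit 197) (nat_lit 3) (nat_lit 6) (nat_lit 10) L4429573 (by decide +kernel)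
theorem L4429575 : W_2 (nat_lit 4) (nat_lit 0xf000180018001c0008000000020000000000000000000) (nat_lit 0x0) (nat_lit 0x300000000c0002000020001000000000000000000000000000) := T_2 (nat_lit 108) (nat_lit 125) (nat_lit 4) (nat_lit 7) (nat_lit 10) L4429574 (by decide +kernel)
theorem L4429576 : W_2 (nat_lit 5) (nat_lit 0x7000180018001c0008000000020000000000000000000) (nat_lit 0x0) (nat_lit 0x300018000c0002000020001000000000000000000000000000) := T_2 (nat_lit 179) (nat_lit 180) (nat_lit 0) (nat_lit 10) (nat_lit 10) L4429575 (by decide +kernel)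
theorem L4429577 : W_2 (nat_lit 6) (nat_lit 0x3000180018001c0008000000020000000000000000000) (nat_lit 0x0) (nat_lit 0x38001c000c0002000020001000000000000000000000000000) := T_2 (nat_lit 178) (nat_lit 195) (nat_lit 7) (nat_lit 7) (nat_lit 7) L4429576 (by decide +kernel)
theorem L4429578 : W_2 (nat_lit 7) (nat_lit 0x2000180018001c0008000000020000000000000000000) (nat_lit 0x0) (nat_lit 0x3a001d000c0002000020001000000000000000000000000000) := T_2 (nat_lit 176) (nat_lit 193) (nat_lit 5) (nat_lit 7) (nat_lit 7) L4429577 (by decide +kernel)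
theorem L4429579 : W_2 (nat_lit 8) (nat_lit 0x180018001c0008000000020000000000000000000) (nat_lit 0x0) (nat_lit 0x3e001f000c0002000020001000000000000000000000000000) := T_2 (nat_lit 177) (nat_lit 194) (nat_lit 6) (nat_lit 7) (nat_lit 11) L4429578 (by decide +kernel)
theorem L4429580 : W_2 (nat_lit 9) (nat_lit 0x180018001c0008000000000000000000000000000) (nat_lit 0x0) (nat_lit 0x3e001f000c0002000020001000400020000000000000000000) := T_2 (nat_lit 77) (nat_lit 94) (nat_lit 5) (nat_lit 9) (nat_lit 4) L4429579 (by decide +kernel)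
theorem L4429581 : W_2 (nat_lit 10) (nat_lit 0x100018001c0008000000000000000000000000000) (nat_lit 0x0) (nat_lit 0x3e001f000ce002600020001000400020000000000000000000) := Q_2 (nat_lit 159) (C_2 L4340421 (C_2 L3712615 (C_2 L3461651 (C_2 L4429580 N_2)))) (by decide +kernel)
theorem L4429582 : W_2 (nat_lit 2) (nat_lit 0x700010001a001c000b400300000000000000000000000) (nat_lit 0x0) (nat_lit 0xc00020000000000000000000) := D_2 (nat_lit 94) (nat_lit 77) (nat_lit 95) (nat_lit 5) (nat_lit 9) (nat_lit 4) (nat_lit 1) (nat_lit 10) (nat_lit 5) (by decide +kernel)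
theorem L4429583 : W_2 (nat_lit 3) (nat_lit 0x700010001a001c000b400100000000000000000000000) (nat_lit 0x0) (nat_lit 0xe00030000000000000000000) := T_2 (nat_lit 93) (nat_lit 76) (nat_lit 6) (nat_lit 7) (nat_lit 8) L4429582 (by decide +kernel)
theorem L4429584 : W_2 (nat_lit 4) (nat_lit 0x700010001a001c000b000100000000000000000000000) (nat_lit 0x0) (nat_lit 0xc00e00030000000000000000000) := T_2 (nat_lit 106) (nat_lit 107) (nat_lit 3) (nat_lit 4) (nat_lit 6) L4429583 (by decide +kernel)
theorem L4429585 : W_2 (nat_lit 5) (nat_lit 0x700010001a001c000b000000000000000000000000000) (nat_lit 0x0) (nat_lit 0xc00f00038000000000000000000) := T_2 (nat_lit 92) (nat_lit 75) (nat_lit 7) (nat_lit 7) (nat_lit 4) L4429584 (by decide +kernel)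
theorem L4429586 : W_2 (nat_lit 6) (nat_lit 0x7000100018001c000b000000000000000000000000000) (nat_lit 0x0) (nat_lit 0x600000000c00f00038000000000000000000) := T_2 (nat_lit 141) (nat_lit 142) (nat_lit 2) (nat_lit 5) (nat_lit 8) L4429585 (by decide +kernel)
theorem L4429587 : W_2 (nat_lit 7) (nat_lit 0x7000100018001c0009000000000000000000000000000) (nat_lit 0x0) (nat_lit 0x600000002c00f80038000000000000000000) := T_2 (nat_lit 109) (nat_lit 91) (nat_lit 4) (nat_lit 7) (nat_lit 9) L4429586 (by decide +kernel)
theorem L4429588 : W_2 (nat_lit 8) (nat_lit 0x7000100018001c0008000000000000000000000000000) (nat_lit 0x0) (nat_lit 0x600020003c00f80038000000000000000000) := T_2 (nat_lit 108) (nat_lit 125) (nat_lit 4) (nat_lit 7) (nat_lit 10) L4429587 (by decide +kernel)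
theorem L4429589 : W_2 (nat_lit 9) (nat_lit 0x3000100018001c0008000000000000000000000000000) (nat_lit 0x0) (nat_lit 0x8000400000000600020003c00f80038000000000000000000) := T_2 (nat_lit 178) (nat_lit 195) (nat_lit 7) (nat_lit 7) (nat_lit 7) L4429588 (by decide +kernel)
theorem L4429590 : W_2 (nat_lit 10) (nat_lit 0x2000100018001c0008000000000000000000000000000) (nat_lit 0x0) (nat_lit 0xa000500000000600020003c00f80038000000000000000000) := T_2 (nat_lit 176) (nat_lit 193) (nat_lit 5) (nat_lit 7) (nat_lit 7) L4429589 (by decide +kernel)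
theorem L4429591 : W_2 (nat_lit 11) (nat_lit 0x100018001c0008000000000000000000000000000) (nat_lit 0x0) (nat_lit 0xe000700000000600020003c00f80038000000000000000000) := T_2 (nat_lit 177) (nat_lit 194) (nat_lit 6) (nat_lit 7) (nat_lit 11) L4429590 (by decide +kernel)
theorem L4429592 : W_2 (nat_lit 2) (nat_lit 0x6000100018001c000b000100020000000000000000000) (nat_lit 0x0) (nat_lit 0x8000600000000000000000000000000000000000) := D_2 (nat_lit 142) (nat_lit 141) (nat_lit 159) (nat_lit 2) (nat_lit 5) (nat_lit 8) (nat_lit 5) (nat_lit 7) (nat_lit 5) (by decide +kernel)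
theorem L4429593 : W_2 (nat_lit 3) (nat_lit 0x6000100018001c000b000000020000000000000000000) (nat_lit 0x0) (nat_lit 0x8000600000000000100008000000000000000000) := T_2 (nat_lit 92) (nat_lit 75) (nat_lit 7) (nat_lit 7) (nat_lit 4) L4429592 (by decide +kernel)
theorem L4429594 : W_2 (nat_lit 4) (nat_lit 0x2000100018001c000b000000020000000000000000000) (nat_lit 0x0) (nat_lit 0x8000400008000600000000000100008000000000000000000) := T_2 (nat_lit 178) (nat_lit 195) (nat_lit 7) (nat_lit 7) (nat_lit 7) L4429593 (by decide +kernel)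
theorem L4429595 : W_2 (nat_lit 5) (nat_lit 0x2000100018001c0009000000020000000000000000000) (nat_lit 0x0) (nat_lit 0x8000400008000600000002000180008000000000000000000) := T_2 (nat_lit 109) (nat_lit 91) (nat_lit 4) (nat_lit 7) (nat_lit 9) L4429594 (by decide +kernel)
theorem L4429596 : W_2 (nat_lit 6) (nat_lit 0x2000100018001c0008000000020000000000000000000) (nat_lit 0x0) (nat_lit 0x8000400008000600020003000180008000000000000000000) := T_2 (nat_lit 108) (nat_lit 125) (nat_lit 4) (nat_lit 7) (nat_lit 10) L4429595 (by decide +kernel)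
theorem L4429597 : W_2 (nat_lit 7) (nat_lit 0x100018001c0008000000020000000000000000000) (nat_lit 0x0) (nat_lit 0xc000600008000600020003000180008000000000000000000) := T_2 (nat_lit 177) (nat_lit 194) (nat_lit 6) (nat_lit 7) (nat_lit 11) L4429596 (by decide +kernel)
theorem L4429598 : W_2 (nat_lit 8) (nat_lit 0x100018001c0008000000000000000000000000000) (nat_lit 0x0) (nat_lit 0xc000600008000600020003000580028000000000000000000) := T_2 (nat_lit 77) (nat_lit 94) (nat_lit 5) (nat_lit 9) (nat_lit 4) L4429597 (by decide +kernel)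
theorem L4429599 : W_2 (nat_lit 12) (nat_lit 0x18001c0008000000000000000000000000000) (nat_lit 0x0) (nat_lit 0x3e001f000de002600020003c00f8003c000000000000000000) := Q_2 (nat_lit 160) (C_2 L4429570 (C_2 L4340418 (C_2 L4429581 (C_2 L4340417 (C_2 L4429591 (C_2 L4429598 N_2)))))) (by decide +kernel)
theorem L4429600 : W_2 (nat_lit 13) (nat_lit 0x1800180008000000000000000000000000000) (nat_lit 0x0) (nat_lit 0x3e001f800de002600060013c00fc007e000000000000000000) := Q_2 (nat_lit 126) (C_2 L4429543 (C_2 L4429545 (C_2 L243420 (C_2 L4429550 (C_2 L4429555 (C_2 L4429559 (C_2 L4429599 N_2))))))) (by decide +kernel)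
theorem L4429601 : W_2 (nat_lit 7) (nat_lit 0x1a001c0008000000000000000000000000000) (nat_lit 0x0) (nat_lit 0x400020000000020072000f80020000000000000000000) := T_2 (nat_lit 112) (nat_lit 125) (nat_lit 2) (nat_lit 6) (nat_lit 7) L4425837 (by decide +kernel)
theorem L4429602 : W_2 (nat_lit 8) (nat_lit 0x18001c0008000000000000000000000000000) (nat_lit 0x0) (nat_lit 0x400020000600020072000f80020000000000000000000) := T_2 (nat_lit 141) (nat_lit 142) (nat_lit 2) (nat_lit 5) (nat_lit 8) L4429601 (by decide +kernel)
theorem L4429603 : W_2 (nat_lit 3) (nat_lit 0x1c0018001c000a000080020000000000000000000) (nat_lit 0x0) (nat_lit 0x400020000700000000000000000000000000000000000) := T_2 (nat_lit 161) (nat_lit 178) (nat_lit 7) (nat_lit 7) (nat_lit 6) L4428537 (by decide +kernel)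
theorem L4429604 : W_2 (nat_lit 4) (nat_lit 0x180018001c000a000080020000000000000000000) (nat_lit 0x0) (nat_lit 0x400026000700000000000000000000000000000000000) := T_2 (nat_lit 158) (nat_lit 157) (nat_lit 2) (nat_lit 4) (nat_lit 9) L4429603 (by decide +kernel)
theorem L4429605 : W_2 (nat_lit 5) (nat_lit 0x100018001c000a000080020000000000000000000) (nat_lit 0x0) (nat_lit 0x50002e000700000000000000000000000000000000000) := T_2 (nat_lit 159) (nat_lit 176) (nat_lit 5) (nat_lit 7) (nat_lit 6) L4429604 (by decide +kernel)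
theorem L4429606 : W_2 (nat_lit 6) (nat_lit 0x100018001c000a000000020000000000000000000) (nat_lit 0x0) (nat_lit 0x50002e000700000001000080000000000000000000000) := T_2 (nat_lit 91) (nat_lit 108) (nat_lit 4) (nat_lit 7) (nat_lit 9) L4429605 (by decide +kernel)
theorem L4429607 : W_2 (nat_lit 7) (nat_lit 0x100018001c000a000000000000000000000000000) (nat_lit 0x0) (nat_lit 0x50002e000700000001000480020000000000000000000) := T_2 (nat_lit 77) (nat_lit 94) (nat_lit 5) (nat_lit 9) (nat_lit 4) L4429606 (by decide +kernel)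
theorem L4429608 : W_2 (nat_lit 2) (nat_lit 0x4000100018001c000a000000000000000000000000000) (nat_lit 0x0) (nat_lit 0xc000200000000000000000000000000000000000000000000) := D_2 (nat_lit 177) (nat_lit 194) (nat_lit 195) (nat_lit 6) (nat_lit 7) (nat_lit 11) (nat_lit 7) (nat_lit 7) (nat_lit 7) (by decide +kernel)
theorem L4429609 : W_2 (nat_lit 3) (nat_lit 0x100018001c000a000000000000000000000000000) (nat_lit 0x0) (nat_lit 0xc000600020000000000000000000000000000000000000000) := T_2 (nat_lit 178) (nat_lit 161) (nat_lit 7) (nat_lit 7) (nat_lit 6) L4429608 (by decide +kernel)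
theorem L4429610 : W_2 (nat_lit 8) (nat_lit 0x18001c000a000000000000000000000000000) (nat_lit 0x0) (nat_lit 0xe00070003e000700000001000480020000000000000000000) := Q_2 (nat_lit 160) (C_2 L3477311 (C_2 L4429607 (C_2 L4429609 N_2))) (by decide +kernel)
theorem L4429611 : W_2 (nat_lit 9) (nat_lit 0x18001c0008000000000000000000000000000) (nat_lit 0x0) (nat_lit 0xe00070003e00070000001300078003c000000000000000000) := Q_2 (nat_lit 109) (C_2 L3487328 (C_2 L3461558 (C_2 L4429610 N_2))) (by decide +kernel)
theorem L4429612 : W_2 (nat_lit 9) (nat_lit 0x18001c0008000000000000000000000000000) (nat_lit 0x0) (nat_lit 0xe00070003e000700000003000580028000000000000000000) := Q_2 (nat_lit 109) (C_2 L3461558 (C_2 L4429610 (C_2 L823971 N_2))) (by decide +kernel)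
theorem L4429613 : W_2 (nat_lit 2) (nat_lit 0x38001a001e000b000000020000000000000000000) (nat_lit 0x0) (nat_lit 0x6000100000000000000000000000000000000000) := D_2 (nat_lit 158) (nat_lit 157) (nat_lit 140) (nat_lit 2) (nat_lit 4) (nat_lit 9) (nat_lit 0) (nat_lit 8) (nat_lit 9) (by decide +kernel)
theorem L4429614 : W_2 (nat_lit 3) (nat_lit 0x30001a001e000b000000020000000000000000000) (nat_lit 0x0) (nat_lit 0x10000e000100000000000000000000000000000000000) := T_2 (nat_lit 159) (nat_lit 176) (nat_lit 5) (nat_lit 7) (nat_lit 6) L4429613 (by decide +kernel)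
theorem L4429615 : W_2 (nat_lit 4) (nat_lit 0x20001a001e000b000000020000000000000000000) (nat_lit 0x0) (nat_lit 0x30001e000100000000000000000000000000000000000) := T_2 (nat_lit 160) (nat_lit 177) (nat_lit 4) (nat_lit 7) (nat_lit 10) L4429614 (by decide +kernel)
theorem L4429616 : W_2 (nat_lit 5) (nat_lit 0x20001a001e000b000000000000000000000000000) (nat_lit 0x0) (nat_lit 0x30001e000100000000000400020000000000000000000) := T_2 (nat_lit 77) (nat_lit 94) (nat_lit 5) (nat_lit 9) (nat_lit 4) L4429615 (by decide +kernel)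
theorem L4429617 : W_2 (nat_lit 6) (nat_lit 0x20001a001e000a000000000000000000000000000) (nat_lit 0x0) (nat_lit 0x30001e000100000001800400020000000000000000000) := T_2 (nat_lit 108) (nat_lit 107) (nat_lit 0) (nat_lit 9) (nat_lit 7) L4429616 (by decide +kernel)
theorem L4429618 : W_2 (nat_lit 7) (nat_lit 0x20001a001e0008000000000000000000000000000) (nat_lit 0x0) (nat_lit 0x30001e000100000003800500020000000000000000000) := T_2 (nat_lit 109) (nat_lit 92) (nat_lit 7) (nat_lit 7) (nat_lit 5) L4429617 (by decide +kernel)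
theorem L4429619 : W_2 (nat_lit 8) (nat_lit 0x1a001e0008000000000000000000000000000) (nat_lit 0x0) (nat_lit 0x70003e000100000003800500020000000000000000000) := T_2 (nat_lit 161) (nat_lit 178) (nat_lit 6) (nat_lit 8) (nat_lit 10) L4429618 (by decide +kernel)
theorem L4429620 : W_2 (nat_lit 9) (nat_lit 0x1a001c0008000000000000000000000000000) (nat_lit 0x0) (nat_lit 0x70003e000100020013800500020000000000000000000) := T_2 (nat_lit 125) (nat_lit 112) (nat_lit 2) (nat_lit 6) (nat_lit 7) L4429619 (by decide +kernel)
theorem L4429621 : W_2 (nat_lit 10) (nat_lit 0x18001c0008000000000000000000000000000) (nat_lit 0x0) (nat_lit 0x70003e000700020013800500020000000000000000000) := T_2 (nat_lit 141) (nat_lit 142) (nat_lit 2) (nat_lit 5) (nat_lit 8) L4429620 (by decide +kernel)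
theorem L4429622 : W_2 (nat_lit 11) (nat_lit 0x1800180008000000000000000000000000000) (nat_lit 0x0) (nat_lit 0xe00070003e000700060073800f8003c000000000000000000) := Q_2 (nat_lit 126) (C_2 L4429602 (C_2 L4429611 (C_2 L4429550 (C_2 L4429555 (C_2 L4429559 (C_2 L4429612 (C_2 L4429621 N_2))))))) (by decide +kernel)
theorem L4429623 : W_2 (nat_lit 7) (nat_lit 0x18001c0008000000000000000000000000000) (nat_lit 0x0) (nat_lit 0x40002000060002001380018000c000000000000000000) := T_2 (nat_lit 161) (nat_lit 178) (nat_lit 6) (nat_lit 8) (nat_lit 10) L4428653 (by decide +kernel)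
theorem L4429624 : W_2 (nat_lit 2) (nat_lit 0x38001a001c000a000080000000000000000000000) (nat_lit 0x0) (nat_lit 0x4002100000000000000000000000000000000000) := D_2 (nat_lit 158) (nat_lit 145) (nat_lit 140) (nat_lit 2) (nat_lit 5) (nat_lit 9) (nat_lit 0) (nat_lit 8) (nat_lit 9) (by decide +kernel)
theorem L4429625 : W_2 (nat_lit 3) (nat_lit 0x30001a001c000a000080000000000000000000000) (nat_lit 0x0) (nat_lit 0x10000c002100000000000000000000000000000000000) := T_2 (nat_lit 159) (nat_lit 176) (nat_lit 5) (nat_lit 7) (nat_lit 6) L4429624 (by decide +kernel)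
theorem L4429626 : W_2 (nat_lit 4) (nat_lit 0x300018001c000a000080000000000000000000000) (nat_lit 0x0) (nat_lit 0x10000c002700000000000000000000000000000000000) := T_2 (nat_lit 141) (nat_lit 142) (nat_lit 2) (nat_lit 5) (nat_lit 8) L4429625 (by decide +kernel)
theorem L4429627 : W_2 (nat_lit 5) (nat_lit 0x300018001c000a000000000000000000000000000) (nat_lit 0x0) (nat_lit 0x10000c002700000001000080000000000000000000000) := T_2 (nat_lit 91) (nat_lit 108) (nat_lit 4) (nat_lit 7) (nat_lit 9) L4429626 (by decide +kernel)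
theorem L4429628 : W_2 (nat_lit 6) (nat_lit 0x100018001c000a000000000000000000000000000) (nat_lit 0x0) (nat_lit 0x50002c002700000001000080000000000000000000000) := T_2 (nat_lit 161) (nat_lit 178) (nat_lit 7) (nat_lit 7) (nat_lit 6) L4429627 (by decide +kernel)
theorem L4429629 : W_2 (nat_lit 7) (nat_lit 0x18001c000a000000000000000000000000000) (nat_lit 0x0) (nat_lit 0xe00070003c002700000001000080000000000000000000000) := Q_2 (nat_lit 160) (C_2 L4429609 (C_2 L4429628 (C_2 L3477311 N_2))) (by decide +kernel)
theorem L4429630 : W_2 (nat_lit 8) (nat_lit 0x18001c0008000000000000000000000000000) (nat_lit 0x0) (nat_lit 0xe00070003c002700000003000180008000000000000000000) := Q_2 (nat_lit 109) (C_2 L3461558 (C_2 L823971 (C_2 L4429629 N_2))) (by decide +kernel)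
theorem L4429631 : W_2 (nat_lit 5) (nat_lit 0x200018001c0008000000000000000000000000000) (nat_lit 0x0) (nat_lit 0x200010000600020011800080000000000000000000000) := T_2 (nat_lit 125) (nat_lit 112) (nat_lit 2) (nat_lit 6) (nat_lit 7) L4069898 (by decide +kernel)
theorem L4429632 : W_2 (nat_lit 6) (nat_lit 0x18001c0008000000000000000000000000000) (nat_lit 0x0) (nat_lit 0x600030000600020011800080000000000000000000000) := T_2 (nat_lit 161) (nat_lit 178) (nat_lit 6) (nat_lit 8) (nat_lit 10) L4429631 (by decide +kernel)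
theorem L4429633 : W_2 (nat_lit 4) (nat_lit 0x200018001c000a000000000000000000000000000) (nat_lit 0x0) (nat_lit 0x10000000020011800080004000000000000000000) := T_2 (nat_lit 125) (nat_lit 112) (nat_lit 2) (nat_lit 6) (nat_lit 7) L4069901 (by decide +kernel)
theorem L4429634 : W_2 (nat_lit 5) (nat_lit 0x200018001c0008000000000000000000000000000) (nat_lit 0x0) (nat_lit 0x10000000020013800180004000000000000000000) := T_2 (nat_lit 109) (nat_lit 92) (nat_lit 7) (nat_lit 7) (nat_lit 5) L4429633 (by decide +kernel)
theorem L4429635 : W_2 (nat_lit 6) (nat_lit 0x18001c0008000000000000000000000000000) (nat_lit 0x0) (nat_lit 0x400030000000020013800180004000000000000000000) := T_2 (nat_lit 161) (nat_lit 178) (nat_lit 6) (nat_lit 8) (nat_lit 10) L4429634 (by decide +kernel)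
theorem L4429636 : W_2 (nat_lit 2) (nat_lit 0x800068003c001e000a000000000000000000000000000) (nat_lit 0x0) (nat_lit 0x20001000010000000000000000000000000000000000000000) := D_2 (nat_lit 180) (nat_lit 160) (nat_lit 197) (nat_lit 3) (nat_lit 6) (nat_lit 9) (nat_lit 7) (nat_lit 9) (nat_lit 7) (by decide +kernel)
theorem L4429637 : W_2 (nat_lit 3) (nat_lit 0x68003c001e000a000000000000000000000000000) (nat_lit 0x0) (nat_lit 0x30001800010000000000000000000000000000000000000000) := T_2 (nat_lit 179) (nat_lit 196) (nat_lit 4) (nat_lit 9) (nat_lit 11) L4429636 (by decide +kernel)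
theorem L4429638 : W_2 (nat_lit 4) (nat_lit 0x28003c001e000a000000000000000000000000000) (nat_lit 0x0) (nat_lit 0x300018000d0000000000000000000000000000000000000000) := T_2 (nat_lit 162) (nat_lit 163) (nat_lit 3) (nat_lit 6) (nat_lit 8) L4429637 (by decide +kernel)
theorem L4429639 : W_2 (nat_lit 5) (nat_lit 0x28001c001e000a000000000000000000000000000) (nat_lit 0x0) (nat_lit 0x300018000d4002000000000000000000000000000000000000) := T_2 (nat_lit 145) (nat_lit 158) (nat_lit 1) (nat_lit 9) (nat_lit 8) L4429638 (by decide +kernel)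
theorem L4429640 : W_2 (nat_lit 6) (nat_lit 0x20001c001e000a000000000000000000000000000) (nat_lit 0x0) (nat_lit 0x300019000dc002000000000000000000000000000000000000) := T_2 (nat_lit 159) (nat_lit 176) (nat_lit 6) (nat_lit 6) (nat_lit 10) L4429639 (by decide +kernel)
theorem L4429641 : W_2 (nat_lit 7) (nat_lit 0x200018001e000a000000000000000000000000000) (nat_lit 0x0) (nat_lit 0x300019000dc002600000000000000000000000000000000000) := T_2 (nat_lit 142) (nat_lit 141) (nat_lit 2) (nat_lit 5) (nat_lit 8) L4429640 (by decide +kernel)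
theorem L4429642 : W_2 (nat_lit 8) (nat_lit 0x200018001e0008000000000000000000000000000) (nat_lit 0x0) (nat_lit 0x300019000dc002600000002000100000000000000000000000) := T_2 (nat_lit 109) (nat_lit 92) (nat_lit 7) (nat_lit 7) (nat_lit 5) L4429641 (by decide +kernel)
theorem L4429643 : W_2 (nat_lit 9) (nat_lit 0x18001e0008000000000000000000000000000) (nat_lit 0x0) (nat_lit 0x30001d000fc002600000002000100000000000000000000000) := T_2 (nat_lit 161) (nat_lit 178) (nat_lit 6) (nat_lit 8) (nat_lit 10) L4429642 (by decide +kernel)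
theorem L4429644 : W_2 (nat_lit 10) (nat_lit 0x18001c0008000000000000000000000000000) (nat_lit 0x0) (nat_lit 0x30001d000fc002600020012000100000000000000000000000) := T_2 (nat_lit 125) (nat_lit 112) (nat_lit 2) (nat_lit 6) (nat_lit 7) L4429643 (by decide +kernel)
theorem L4429645 : W_2 (nat_lit 11) (nat_lit 0x1800180008000000000000000000000000000) (nat_lit 0x0) (nat_lit 0x3e001f000fc00270006001380018000c000000000000000000) := Q_2 (nat_lit 126) (C_2 L4429623 (C_2 L4429630 (C_2 L4429632 (C_2 L4429635 (C_2 L4429559 (C_2 L4429644 N_2)))))) (by decide +kernel)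
theorem L4429646 : W_2 (nat_lit 14) (nat_lit 0x1800180000000000000000000000000000000) (nat_lit 0x0) (nat_lit 0x3e001f800fe00270006007bc00fc007e000000000000000000) := Q_2 (nat_lit 111) (C_2 L4425819 (C_2 L4429600 (C_2 L4429622 (C_2 L74238 (C_2 L4429645 N_2))))) (by decide +kernel)
theorem L4429647 : W_2 (nat_lit 18) (nat_lit 0x1800080000000000000000000000000000000) (nat_lit 0x0) (nat_lit 0x1e800fc03ffc0ffc07ff0027007600fbc00fc00fe000000000000000000) := Q_2 (nat_lit 128) (C_2 L3473385 (C_2 L4339105 (C_2 L22288 (C_2 L4429646 N_2)))) (by decide +kernel)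
theorem L4430950 : W_2 (nat_lit 9) (nat_lit 0x1c001a0000000000000000000000000000000) (nat_lit 0x0) (nat_lit 0x3e001f000dc002000010000000000000000000000000000000) := T_2 (nat_lit 145) (nat_lit 124) (nat_lit 0) (nat_lit 9) (nat_lit 8) L330141 (by decide +kernel)
theorem L4430951 : W_2 (nat_lit 10) (nat_lit 0x1c00180000000000000000000000000000000) (nat_lit 0x0) (nat_lit 0x3e001f800dc00200007c0018001c000e000700008000000000) := Q_2 (nat_lit 125) (C_2 L58944 (C_2 L4315850 (C_2 L4315776 (C_2 L4430950 N_2)))) (by decide +kernel)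
theorem L4430952 : W_2 (nat_lit 11) (nat_lit 0x1c00080000000000000000000000000000000) (nat_lit 0x0) (nat_lit 0x3e001f800dc00200077c0018001c000e000700008000000000) := Q_2 (nat_lit 128) (C_2 L1076 (C_2 L121 (C_2 L4430951 N_2))) (by decide +kernel)
theorem L4430953 : W_2 (nat_lit 12) (nat_lit 0x1800080000000000000000000000000000000) (nat_lit 0x0) (nat_lit 0x3e001f800df00270077c0018001c000e000700008000000000) := Q_2 (nat_lit 142) (C_2 L3490890 (C_2 L3494581 (C_2 L4430952 (C_2 L1322 N_2)))) (by decide +kernel)
theorem L4430954 : W_2 (nat_lit 19) (nat_lit 0x1000080000000000000000000000000000000) (nat_lit 0x0) (nat_lit 0xa001fc01ff03ffc0ffe07ffc02fc077f0fbe00fe00ff000700008000000000) := Q_2 (nat_lit 143) (C_2 L4314402 (C_2 L4315853 (C_2 L4333844 (C_2 L4337184 (C_2 L4337200 (C_2 L4339103 (C_2 L4362753 (C_2 L4362756 (C_2 L4425332 (C_2 L4428343 (C_2 L4428363 (C_2 L4428374 (C_2 L4429647 (C_2 L4430953 N_2)))))))))))))) (by decide +kernel)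
theorem L4430955 : W_2 (nat_lit 12) (nat_lit 0x20001000080000000000000000000000000000000) (nat_lit 0x0) (nat_lit 0xb001de002f0037c007c003f000c000000000000000000) := Q_2 (nat_lit 110) (C_2 L18647 (C_2 L118 (C_2 L3975310 (C_2 L18166 N_2)))) (by decide +kernel)
theorem L4430956 : W_2 (nat_lit 18) (nat_lit 0x1000080000000000000000000000000000000) (nat_lit 0x0) (nat_lit 0xa000f4007a01ff807f807fe03af00f7c0ffc02bf014c000000000000000000) := Q_2 (nat_lit 161) (C_2 L3982774 (C_2 L4430955 (C_2 L3974252 (C_2 L3982776 (C_2 L3982830 (C_2 L3982829 (C_2 L3982845 (C_2 L3982775 (C_2 L3982854 (C_2 L3974223 N_2)))))))))) (by decide +kernel)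
theorem L4430957 : W_2 (nat_lit 12) (nat_lit 0x1000080004000000000000000000000000000) (nat_lit 0x0) (nat_lit 0x400070003e002f0077803bc01dc000c000000000000000000) := Q_2 (nat_lit 161) (C_2 L3982759 (C_2 L18622 (C_2 L18624 (C_2 L3975632 N_2)))) (by decide +kernel)
theorem L4430958 : W_2 (nat_lit 15) (nat_lit 0x1000080000000000000000000000000000000) (nat_lit 0x0) (nat_lit 0xa000700078007e002f0077803fe01fe00ff801c000a0000000000) := Q_2 (nat_lit 110) (C_2 L3975581 (C_2 L3975648 (C_2 L3974301 (C_2 L20654 (C_2 L18612 (C_2 L3975611 (C_2 L4430957 (C_2 L20422 N_2)))))))) (by decide +kernel)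
theorem L4430959 : W_2 (nat_lit 6) (nat_lit 0x20001800080004000000000000000000000000000) (nat_lit 0x0) (nat_lit 0x30001e00200017003a000500000000000000000000000) := Q_2 (nat_lit 126) (C_2 L61542 (C_2 L3974595 (C_2 L18073 N_2))) (by decide +kernel)
theorem L4430960 : W_2 (nat_lit 7) (nat_lit 0x20001000080004000000000000000000000000000) (nat_lit 0x0) (nat_lit 0xb001de002e0017003a000500000000000000000000000) := Q_2 (nat_lit 143) (C_2 L3975653 (C_2 L8905 (C_2 L4430959 N_2))) (by decide +kernel)
theorem L4430961 : W_2 (nat_lit 16) (nat_lit 0x1000080004000000000000000000000000000) (nat_lit 0x0) (nat_lit 0x60003007bc03fe03af80f7c0fbc03df000d000000000000000000) := Q_2 (nat_lit 161) (C_2 L3974540 (C_2 L19282 (C_2 L3982755 (C_2 L3975310 (C_2 L3975632 (C_2 L3975554 (C_2 L3975645 (C_2 L3982717 (C_2 L4430960 N_2))))))))) (by decide +kernel)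
theorem L4430962 : W_2 (nat_lit 17) (nat_lit 0x1000080000000000000000000000000000000) (nat_lit 0x0) (nat_lit 0xe0007007bc03fe03af80f7c0ffc03ff00ff001c000a0000000000) := Q_2 (nat_lit 110) (C_2 L3974306 (C_2 L3975649 (C_2 L3975648 (C_2 L3974550 (C_2 L4430961 (C_2 L3256693 (C_2 L20422 N_2))))))) (by decide +kernel)
theorem L4430963 : W_2 (nat_lit 8) (nat_lit 0x20001000080000000000000000000000000000000) (nat_lit 0x0) (nat_lit 0xb001de002e0017003e000700038000400000000000000) := Q_2 (nat_lit 110) (C_2 L3974236 (C_2 L4430960 (C_2 L18647 (C_2 L18627 (C_2 L18187 N_2))))) (by decide +kernel)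
theorem L4430964 : W_2 (nat_lit 18) (nat_lit 0x1000080000000000000000000000000000000) (nat_lit 0x0) (nat_lit 0x2000f4007a01ff807f807fe00ae00f700fe000700038001400000000000000) := Q_2 (nat_lit 161) (C_2 L3982774 (C_2 L4430963 (C_2 L3974251 (C_2 L3974222 (C_2 L3982829 (C_2 L3982830 (C_2 L3982775 (C_2 L3974221 N_2)))))))) (by decide +kernel)
theorem L4430965 : W_2 (nat_lit 14) (nat_lit 0x20001000080000000000000000000000000000000) (nat_lit 0x0) (nat_lit 0x60003007bc03de03af0077c03d8006c0020000000000000000000) := Q_2 (nat_lit 110) (C_2 L18187 (C_2 L18179 (C_2 L3982717 (C_2 L18166 N_2)))) (by decide +kernel)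
theorem L4430966 : W_2 (nat_lit 18) (nat_lit 0x1000080000000000000000000000000000000) (nat_lit 0x0) (nat_lit 0xa000f4007e01ff807fc07fe03af00f7c0ffc02ec0160000000000000000000) := Q_2 (nat_lit 161) (C_2 L3982774 (C_2 L4430965 (C_2 L3974252 (C_2 L3982776 (C_2 L3982829 (C_2 L3982830 (C_2 L3982845 (C_2 L3982775 (C_2 L3982854 (C_2 L3974224 N_2)))))))))) (by decide +kernel)
theorem L4430967 : W_2 (nat_lit 16) (nat_lit 0x20001000080000000000000000000000000000000) (nat_lit 0x0) (nat_lit 0x60003007bc03de03af80f7c0ffc03df000d000000000000000000) := Q_2 (nat_lit 110) (C_2 L3974540 (C_2 L19282 (C_2 L4430960 (C_2 L3975310 (C_2 L3975632 (C_2 L3975554 (C_2 L3975645 (C_2 L3982755 (C_2 L3982717 N_2))))))))) (by decide +kernel)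
theorem L4430968 : W_2 (nat_lit 18) (nat_lit 0x1000080000000000000000000000000000000) (nat_lit 0x0) (nat_lit 0xa000f4007e01ff807fc07fe03af80f7c0ffc03df014d000000000000000000) := Q_2 (nat_lit 161) (C_2 L3982774 (C_2 L4430967 (C_2 L3974252 (C_2 L3982776 (C_2 L3982829 (C_2 L3982830 (C_2 L3982845 (C_2 L3982775 (C_2 L3982854 (C_2 L3974224 N_2)))))))))) (by decide +kernel)
theorem L4430969 : W_2 (nat_lit 14) (nat_lit 0x1000080004000000000000000000000000000) (nat_lit 0x0) (nat_lit 0x60013007fc03fe03af00f7c0fb8005c0000000000000000000000) := Q_2 (nat_lit 161) (C_2 L3982759 (C_2 L4430960 (C_2 L3974257 (C_2 L3982755 (C_2 L3982717 N_2))))) (by decide +kernel)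
theorem L4430970 : W_2 (nat_lit 17) (nat_lit 0x1000080000000000000000000000000000000) (nat_lit 0x0) (nat_lit 0x60013007fc03fe03af80f7c0ffc03ff00ff001c000a0000000000) := Q_2 (nat_lit 110) (C_2 L3975581 (C_2 L4430961 (C_2 L3975648 (C_2 L3974329 (C_2 L3974550 (C_2 L3974306 (C_2 L3975649 (C_2 L3256693 (C_2 L4430969 N_2))))))))) (by decide +kernel)
theorem L4430971 : W_2 (nat_lit 20) (nat_lit 0x1000000000000000000000000000000000000) (nat_lit 0x0) (nat_lit 0xa001fc01ff03ffc0ffe07ffc7afc1fff1fff07ff07ffc0ffc07fe01fe00160) := Q_2 (nat_lit 127) (C_2 L3974220 (C_2 L19284 (C_2 L3974254 (C_2 L3974542 (C_2 L3975313 (C_2 L3975556 (C_2 L3975635 (C_2 L3975647 (C_2 L3982719 (C_2 L3982757 (C_2 L3982761 (C_2 L4430954 (C_2 L4430956 (C_2 L4430958 (C_2 L4430962 (C_2 L4430964 (C_2 L4430966 (C_2 L4430968 (C_2 L4430970 N_2))))))))))))))))))) (by decide +kernel)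
theorem root : Crest.Agent.Helper32.Snaky.Wins (nat_lit 17) (nat_lit 20) (nat_lit 0x1000000000000000000000000000000000000) (nat_lit 0x0) (nat_lit 0xa001fc01ff03ffc0ffe07ffc7afc1fff1fff07ff07ffc0ffc07fe01fe00160) := L4430971
end Crest.Agent.Helper32.Snaky.S2_0
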