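import Crest.Agent.Helper32.Snaky.Rules2
set_option autoImplicit false
set_option maxRecDepth 100000
set_option linter.all false
set_option Elab.async false
namespace Crest.Agent.Helper32.Snaky.S2_0
@[reducible] def W_1 (d M Bz Z : Nat) : Prop := Crest.Agent.Helper32.Snaky.Wins (nat_lit 17) d M Bz Z
theorem D_1 {d M Bz Z : Nat} (m t1 t2 o1 x1 y1 o2 x2 y2 : Nat) (h : Crest.Agent.Helper32.Snaky.chkDoubleC (nat_lit 17) d M Bz Z m t1 t2 o1 x1 y1 o2 x2 y2 = true) : W_1 d M Bz Z := Crest.Agent.Helper32.Snaky.doubleC m t1 t2 o1 x1 y1 o2 x2 y2 h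
theorem T_1 {d M Bz Z cd cM cBz cZ : Nat} (m t o x y : Nat) (child : W_1 cd cM cBz cZ) (h : Crest.Agent.Helper32.Snaky.chkThreatC (nat_lit 17) d M Bz Z cd cM cBz cZ m t o x y = true) : W_1 d M Bz Z := Crest.Agent.Helper32.Snaky.threatC m t o x y child h
theorem Q_1 {d M Bz Z : Nat} (m : Nat) {l : List Crest.Agent.Helper32.Snaky.Spec} (kids : Crest.Agent.Helper32.Snaky.AllWins (nat_lit 17) l) (h : Crest.Agent.Helper32.Snaky.chkQuiet d M Bz Z m l = true) : W_1 d M Bz Z := Crest.Agent.Helper32.Snaky.quiet m kids h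
theorem C_1 {cd cM cBz cZ : Nat} {l : List Crest.Agent.Helper32.Snaky.Spec} (h : W_1 cd cM cBz cZ) (hl : Crest.Agent.Helper32.Snaky.AllWins (nat_lit 17) l) : Crest.Agent.Helper32.Snaky.AllWins (nat_lit 17) ((cd, cM, cBz, cZ) :: l) := Crest.Agent.Helper32.Snaky.AllWins.cons h hl
theorem N_1 : Crest.Agent.Helper32.Snaky.AllWins (nat_lit 17) [] := Crest.Agent.Helper32.Snaky.AllWins.nil
theorem L6 : W_1 (nat_lit 2) (nat_lit 0x50001000080004000200020001000000000000000) (nat_lit 0x0) (nat_lit 0xa00020000000000000000000000000000000000000000) := D_1 (nat_lit 161) (nat_lit 179) (nat_lit 177) (nat_lit 7) (nat_lit 8) (nat_lit 6) (nat_lit 5) (nat_lit 8) (nat_lit 6) (by decide +kernel)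
theorem L7 : W_1 (nat_lit 3) (nat_lit 0x40001000080004000200020001000000000000000) (nat_lit 0x0) (nat_lit 0xa00030000800000000000000000000000000000000000) := T_1 (nat_lit 160) (nat_lit 143) (nat_lit 5) (nat_lit 8) (nat_lit 5) L6 (by decide +kernel)
theorem L8 : W_1 (nat_lit 4) (nat_lit 0x1000080004000200020001000000000000000) (nat_lit 0x0) (nat_lit 0xa00070002800000000000000000000000000000000000) := T_1 (nat_lit 162) (nat_lit 145) (nat_lit 7) (nat_lit 8) (nat_lit 5) L7 (by decide +kernel)
theorem L9 : W_1 (nat_lit 5) (nat_lit 0x1000080004000200020000000000000000000) (nat_lit 0x0) (nat_lit 0xa00070002800000000000000010001000000000000000) := T_1 (nat_lit 60) (nat_lit 76) (nat_lit 6) (nat_lit 8) (nat_lit 7) L8 (by decide +kernel)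
theorem L10 : W_1 (nat_lit 6) (nat_lit 0x1000080004000200000000000000000000000) (nat_lit 0x0) (nat_lit 0xa00070002800000000000400030001000000000000000) := T_1 (nat_lit 77) (nat_lit 94) (nat_lit 6) (nat_lit 8) (nat_lit 8) L9 (by decide +kernel)
theorem L11 : W_1 (nat_lit 2) (nat_lit 0x3000080004000200010000000000000000000) (nat_lit 0x0) (nat_lit 0x10000800040000000000000000000000000000000) := D_1 (nat_lit 143) (nat_lit 160) (nat_lit 126) (nat_lit 5) (nat_lit 8) (nat_lit 5) (nat_lit 5) (nat_lit 8) (nat_lit 4) (by decide +kernel)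
theorem L12 : W_1 (nat_lit 3) (nat_lit 0x3000080004000200000000000000000000000) (nat_lit 0x0) (nat_lit 0x10000800140000000000010000000000000000000) := T_1 (nat_lit 76) (nat_lit 128) (nat_lit 7) (nat_lit 8) (nat_lit 4) L11 (by decide +kernel)
theorem L13 : W_1 (nat_lit 4) (nat_lit 0x1000080004000200000000000000000000000) (nat_lit 0x0) (nat_lit 0x50002800140000000000010000000000000000000) := T_1 (nat_lit 145) (nat_lit 162) (nat_lit 7) (nat_lit 8) (nat_lit 5) L12 (by decide +kernel)
theorem L48 : W_1 (nat_lit 2) (nat_lit 0x40001800080004000600008000000000000000000) (nat_lit 0x0) (nat_lit 0x800020000000000008000000000000000000000000000) := D_1 (nat_lit 161) (nat_lit 111) (nat_lit 179) (nat_lit 6) (nat_lit 8) (nat_lit 9) (nat_lit 7) (nat_lit 8) (nat_lit 6) (by decide +kernel)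
theorem L49 : W_1 (nat_lit 3) (nat_lit 0x1800080004000600008000000000000000000) (nat_lit 0x0) (nat_lit 0x800060002000000008000000000000000000000000000) := T_1 (nat_lit 162) (nat_lit 145) (nat_lit 7) (nat_lit 8) (nat_lit 5) L48 (by decide +kernel)
theorem L50 : W_1 (nat_lit 4) (nat_lit 0x1800080004000200008000000000000000000) (nat_lit 0x0) (nat_lit 0x800060002000000008000400020000000000000000000) := T_1 (nat_lit 94) (nat_lit 77) (nat_lit 6) (nat_lit 8) (nat_lit 8) L49 (by decide +kernel)
theorem L51 : W_1 (nat_lit 5) (nat_lit 0x1000080004000200008000000000000000000) (nat_lit 0x0) (nat_lit 0x800070002800000008000400020000000000000000000) := T_1 (nat_lit 143) (nat_lit 160) (nat_lit 5) (nat_lit 8) (nat_lit 5) L50 (by decide +kernel)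
theorem L52 : W_1 (nat_lit 6) (nat_lit 0x1000080004000200000000000000000000000) (nat_lit 0x0) (nat_lit 0x800070002800000008000500028000000000000000000) := T_1 (nat_lit 75) (nat_lit 92) (nat_lit 4) (nat_lit 8) (nat_lit 8) L51 (by decide +kernel)
theorem L59 : W_1 (nat_lit 2) (nat_lit 0xa00020001000080004000400000000000000000000000) (nat_lit 0x0) (nat_lit 0x14000400000000000000000000000000000000000000000000) := D_1 (nat_lit 178) (nat_lit 196) (nat_lit 194) (nat_lit 7) (nat_lit 8) (nat_lit 7) (nat_lit 5) (nat_lit 8) (nat_lit 7) (by decide +kernel)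
theorem L60 : W_1 (nat_lit 3) (nat_lit 0x800020001000080004000400000000000000000000000) (nat_lit 0x0) (nat_lit 0x14000600010000000000000000000000000000000000000000) := T_1 (nat_lit 177) (nat_lit 160) (nat_lit 5) (nat_lit 8) (nat_lit 6) L59 (by decide +kernel)
theorem L61 : W_1 (nat_lit 4) (nat_lit 0x20001000080004000400000000000000000000000) (nat_lit 0x0) (nat_lit 0x14000e00050000000000000000000000000000000000000000) := T_1 (nat_lit 179) (nat_lit 162) (nat_lit 7) (nat_lit 8) (nat_lit 6) L60 (by decide +kernel)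
theorem L62 : W_1 (nat_lit 5) (nat_lit 0x20001000080004000000000000000000000000000) (nat_lit 0x0) (nat_lit 0x14000e00050000000000008000400000000000000000000000) := T_1 (nat_lit 94) (nat_lit 111) (nat_lit 6) (nat_lit 8) (nat_lit 9) L61 (by decide +kernel)
theorem L67 : W_1 (nat_lit 2) (nat_lit 0x80002000100008000c000100000000000000000000000) (nat_lit 0x0) (nat_lit 0x10000400000000000100000000000000000000000000000000) := D_1 (nat_lit 178) (nat_lit 196) (nat_lit 128) (nat_lit 7) (nat_lit 8) (nat_lit 7) (nat_lit 6) (nat_lit 8) (nat_lit 10) (by decide +kernel)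
theorem L68 : W_1 (nat_lit 3) (nat_lit 0x800020001000080004000100000000000000000000000) (nat_lit 0x0) (nat_lit 0x10000400000000000100008000400000000000000000000000) := T_1 (nat_lit 111) (nat_lit 94) (nat_lit 6) (nat_lit 8) (nat_lit 9) L67 (by decide +kernel)
theorem L69 : W_1 (nat_lit 4) (nat_lit 0x20001000080004000100000000000000000000000) (nat_lit 0x0) (nat_lit 0x10000c00040000000100008000400000000000000000000000) := T_1 (nat_lit 179) (nat_lit 162) (nat_lit 7) (nat_lit 8) (nat_lit 6) L68 (by decide +kernel)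
theorem L70 : W_1 (nat_lit 5) (nat_lit 0x20001000080004000000000000000000000000000) (nat_lit 0x0) (nat_lit 0x10000c0004000000010000a000500000000000000000000000) := T_1 (nat_lit 92) (nat_lit 109) (nat_lit 4) (nat_lit 8) (nat_lit 9) L69 (by decide +kernel)
theorem L71 : W_1 (nat_lit 2) (nat_lit 0x3000100008000e000000000000000000000000000) (nat_lit 0x0) (nat_lit 0x400000000000140000000000000000000000000000000) := D_1 (nat_lit 178) (nat_lit 126) (nat_lit 128) (nat_lit 4) (nat_lit 8) (nat_lit 10) (nat_lit 6) (nat_lit 8) (nat_lit 10) (by decide +kernel)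
theorem L72 : W_1 (nat_lit 3) (nat_lit 0x30001000080006000000000000000000000000000) (nat_lit 0x0) (nat_lit 0x400000000000140008000400000000000000000000000) := T_1 (nat_lit 111) (nat_lit 94) (nat_lit 6) (nat_lit 8) (nat_lit 9) L71 (by decide +kernel)
theorem L73 : W_1 (nat_lit 4) (nat_lit 0x30001000080004000000000000000000000000000) (nat_lit 0x0) (nat_lit 0x40000000000014000a000500000000000000000000000) := T_1 (nat_lit 109) (nat_lit 92) (nat_lit 4) (nat_lit 8) (nat_lit 9) L72 (by decide +kernel)
theorem L74 : W_1 (nat_lit 5) (nat_lit 0x20001000080004000000000000000000000000000) (nat_lit 0x0) (nat_lit 0x60001000000014000a000500000000000000000000000) := T_1 (nat_lit 160) (nat_lit 177) (nat_lit 5) (nat_lit 8) (nat_lit 6) L73 (by decide +kernel)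
theorem L99 : W_1 (nat_lit 2) (nat_lit 0xc00020001000080004000000000000000000000000000) (nat_lit 0x0) (nat_lit 0x4000200010000000000000000000000000000000000000000) := D_1 (nat_lit 177) (nat_lit 194) (nat_lit 160) (nat_lit 5) (nat_lit 8) (nat_lit 7) (nat_lit 5) (nat_lit 8) (nat_lit 6) (by decide +kernel)
theorem L100 : W_1 (nat_lit 3) (nat_lit 0xc00020001000080000000000000000000000000000000) (nat_lit 0x0) (nat_lit 0x4000200050000000000004000000000000000000000000000) := T_1 (nat_lit 110) (nat_lit 162) (nat_lit 7) (nat_lit 8) (nat_lit 6) L99 (by decide +kernel)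
theorem L101 : W_1 (nat_lit 4) (nat_lit 0x400020001000080000000000000000000000000000000) (nat_lit 0x0) (nat_lit 0x14000a00050000000000004000000000000000000000000000) := T_1 (nat_lit 179) (nat_lit 196) (nat_lit 7) (nat_lit 8) (nat_lit 7) L100 (by decide +kernel)
theorem L107 : W_1 (nat_lit 2) (nat_lit 0x600020001000080004000000000000000000000000000) (nat_lit 0x0) (nat_lit 0x40002000100000000000000000000000) := D_1 (nat_lit 109) (nat_lit 92) (nat_lit 126) (nat_lit 4) (nat_lit 8) (nat_lit 9) (nat_lit 4) (nat_lit 8) (nat_lit 10) (by decide +kernel)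
theorem L108 : W_1 (nat_lit 3) (nat_lit 0x600020001000080000000000000000000000000000000) (nat_lit 0x0) (nat_lit 0x10000000040006000100000000000000000000000) := T_1 (nat_lit 110) (nat_lit 160) (nat_lit 5) (nat_lit 8) (nat_lit 6) L107 (by decide +kernel)
theorem L109 : W_1 (nat_lit 4) (nat_lit 0x400020001000080000000000000000000000000000000) (nat_lit 0x0) (nat_lit 0x4000200010000000040006000100000000000000000000000) := T_1 (nat_lit 177) (nat_lit 194) (nat_lit 5) (nat_lit 8) (nat_lit 7) L108 (by decide +kernel)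
theorem L116 : W_1 (nat_lit 2) (nat_lit 0x20001000080004000300000000000000000000000) (nat_lit 0x0) (nat_lit 0x200010000800000000000000000000000000000000000) := D_1 (nat_lit 160) (nat_lit 177) (nat_lit 143) (nat_lit 5) (nat_lit 8) (nat_lit 6) (nat_lit 5) (nat_lit 8) (nat_lit 5) (by decide +kernel)
theorem L117 : W_1 (nat_lit 3) (nat_lit 0x20001000080004000100000000000000000000000) (nat_lit 0x0) (nat_lit 0x200010000800000000000200008000000000000000000) := T_1 (nat_lit 93) (nat_lit 75) (nat_lit 4) (nat_lit 8) (nat_lit 8) L116 (by decide +kernel)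
theorem L118 : W_1 (nat_lit 4) (nat_lit 0x20001000080004000000000000000000000000000) (nat_lit 0x0) (nat_lit 0x200010000800000002000300008000000000000000000) := T_1 (nat_lit 92) (nat_lit 109) (nat_lit 4) (nat_lit 8) (nat_lit 9) L117 (by decide +kernel)
theorem L121 : W_1 (nat_lit 2) (nat_lit 0x1c00180000000000000000000000000000000) (nat_lit 0x0) (nat_lit 0x640000000000000000000000000000000) := D_1 (nat_lit 129) (nat_lit 130) (nat_lit 126) (nat_lit 1) (nat_lit 11) (nat_lit 7) (nat_lit 1) (nat_lit 10) (nat_lit 7) (by decide +kernel)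
theorem L178 : W_1 (nat_lit 2) (nat_lit 0x1000080004000200018000000000000000000) (nat_lit 0x0) (nat_lit 0x400020001000000000000000) := D_1 (nat_lit 77) (nat_lit 94) (nat_lit 60) (nat_lit 6) (nat_lit 8) (nat_lit 8) (nat_lit 6) (nat_lit 8) (nat_lit 7) (by decide +kernel)
theorem L179 : W_1 (nat_lit 3) (nat_lit 0x1000080004000200008000000000000000000) (nat_lit 0x0) (nat_lit 0x400030001400000000000000) := T_1 (nat_lit 76) (nat_lit 58) (nat_lit 4) (nat_lit 8) (nat_lit 7) L178 (by decide +kernel)
theorem L180 : W_1 (nat_lit 4) (nat_lit 0x1000080004000200000000000000000000000) (nat_lit 0x0) (nat_lit 0x500038001400000000000000) := T_1 (nat_lit 75) (nat_lit 92) (nat_lit 4) (nat_lit 8) (nat_lit 8) L179 (by decide +kernel)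
theorem L276 : W_1 (nat_lit 2) (nat_lit 0x60001000080004000200000000000000000000000) (nat_lit 0x0) (nat_lit 0x8000400020000000000000000000) := D_1 (nat_lit 94) (nat_lit 77) (nat_lit 111) (nat_lit 6) (nat_lit 8) (nat_lit 8) (nat_lit 6) (nat_lit 8) (nat_lit 9) (by decide +kernel)
theorem L277 : W_1 (nat_lit 3) (nat_lit 0x60001000080004000000000000000000000000000) (nat_lit 0x0) (nat_lit 0x2000000008000600020000000000000000000) := T_1 (nat_lit 93) (nat_lit 145) (nat_lit 7) (nat_lit 8) (nat_lit 5) L276 (by decide +kernel)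
theorem L298 : W_1 (nat_lit 2) (nat_lit 0x30001000080004000300000000000000000000000) (nat_lit 0x0) (nat_lit 0x800040002000000000000000000000000000000000000) := D_1 (nat_lit 162) (nat_lit 179) (nat_lit 145) (nat_lit 7) (nat_lit 8) (nat_lit 6) (nat_lit 7) (nat_lit 8) (nat_lit 5) (by decide +kernel)
theorem L299 : W_1 (nat_lit 3) (nat_lit 0x30001000080004000100000000000000000000000) (nat_lit 0x0) (nat_lit 0x800040002000000000000200008000000000000000000) := T_1 (nat_lit 93) (nat_lit 75) (nat_lit 4) (nat_lit 8) (nat_lit 8) L298 (by decide +kernel)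
theorem L300 : W_1 (nat_lit 4) (nat_lit 0x30001000080004000000000000000000000000000) (nat_lit 0x0) (nat_lit 0x800040002000000002000300008000000000000000000) := T_1 (nat_lit 92) (nat_lit 109) (nat_lit 4) (nat_lit 8) (nat_lit 9) L299 (by decide +kernel)
theorem L362 : W_1 (nat_lit 2) (nat_lit 0xc001e000c0002000000000000000000000000000) (nat_lit 0x0) (nat_lit 0x2000100010000000000000000000000000000000000000000) := D_1 (nat_lit 176) (nat_lit 193) (nat_lit 160) (nat_lit 6) (nat_lit 6) (nat_lit 11) (nat_lit 5) (nat_lit 7) (nat_lit 6) (by decide +kernel)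
theorem L363 : W_1 (nat_lit 3) (nat_lit 0xc001e000c0000000000000000000000000000000) (nat_lit 0x0) (nat_lit 0x2000100010000000000002000100000000000000000000000) := T_1 (nat_lit 109) (nat_lit 92) (nat_lit 5) (nat_lit 7) (nat_lit 5) L362 (by decide +kernel)
theorem L364 : W_1 (nat_lit 4) (nat_lit 0x4001e000c0000000000000000000000000000000) (nat_lit 0x0) (nat_lit 0x2000100018002000000002000100000000000000000000000) := T_1 (nat_lit 159) (nat_lit 145) (nat_lit 1) (nat_lit 9) (nat_lit 8) L363 (by decide +kernel)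
theorem L365 : W_1 (nat_lit 5) (nat_lit 0x1e000c0000000000000000000000000000000) (nat_lit 0x0) (nat_lit 0x200010001e002000000002000100000000000000000000000) := T_1 (nat_lit 158) (nat_lit 157) (nat_lit 1) (nat_lit 8) (nat_lit 8) L364 (by decide +kernel)
theorem L366 : W_1 (nat_lit 6) (nat_lit 0x1e00080000000000000000000000000000000) (nat_lit 0x0) (nat_lit 0x200010001e002100040002000100000000000000000000000) := T_1 (nat_lit 126) (nat_lit 140) (nat_lit 2) (nat_lit 4) (nat_lit 8) L365 (by decide +kernel)
theorem L371 : W_1 (nat_lit 2) (nat_lit 0x4001e00090000000000000000000000000000000) (nat_lit 0x0) (nat_lit 0x8002000020000000000000000000000000000000) := D_1 (nat_lit 145) (nat_lit 159) (nat_lit 125) (nat_lit 1) (nat_lit 9) (nat_lit 8) (nat_lit 0) (nat_lit 9) (nat_lit 8) (by decide +kernel)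
theorem L372 : W_1 (nat_lit 3) (nat_lit 0x4001e00080000000000000000000000000000000) (nat_lit 0x0) (nat_lit 0x8002000038000000000000000000000000000000) := T_1 (nat_lit 124) (nat_lit 123) (nat_lit 0) (nat_lit 8) (nat_lit 8) L371 (by decide +kernel)
theorem L373 : W_1 (nat_lit 4) (nat_lit 0x1e00080000000000000000000000000000000) (nat_lit 0x0) (nat_lit 0xe002000038000000000000000000000000000000) := T_1 (nat_lit 158) (nat_lit 157) (nat_lit 1) (nat_lit 8) (nat_lit 8) L372 (by decide +kernel)
theorem L591 : W_1 (nat_lit 2) (nat_lit 0x3000080004000200010000000000000000000) (nat_lit 0x0) (nat_lit 0x400020001000000000000000) := D_1 (nat_lit 77) (nat_lit 60) (nat_lit 94) (nat_lit 6) (nat_lit 8) (nat_lit 7) (nat_lit 6) (nat_lit 8) (nat_lit 8) (by decide +kernel)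
theorem L592 : W_1 (nat_lit 3) (nat_lit 0x3000080004000200000000000000000000000) (nat_lit 0x0) (nat_lit 0x100000000400030001000000000000000) := T_1 (nat_lit 76) (nat_lit 128) (nat_lit 7) (nat_lit 8) (nat_lit 4) L591 (by decide +kernel)
theorem L751 : W_1 (nat_lit 2) (nat_lit 0x60001000380006000000000000000000000000000) (nat_lit 0x0) (nat_lit 0x40001800000000000000000000000000) := D_1 (nat_lit 108) (nat_lit 126) (nat_lit 107) (nat_lit 0) (nat_lit 10) (nat_lit 7) (nat_lit 3) (nat_lit 5) (nat_lit 6) (by decide +kernel)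
theorem L752 : W_1 (nat_lit 3) (nat_lit 0x60001000180006000000000000000000000000000) (nat_lit 0x0) (nat_lit 0x640001800000000000000000000000000) := T_1 (nat_lit 129) (nat_lit 130) (nat_lit 0) (nat_lit 11) (nat_lit 7) L751 (by decide +kernel)
theorem L753 : W_1 (nat_lit 4) (nat_lit 0x20001000180006000000000000000000000000000) (nat_lit 0x0) (nat_lit 0x800040000000640001800000000000000000000000000) := T_1 (nat_lit 162) (nat_lit 179) (nat_lit 7) (nat_lit 8) (nat_lit 6) L752 (by decide +kernel)
theorem L754 : W_1 (nat_lit 5) (nat_lit 0x20001000180004000000000000000000000000000) (nat_lit 0x0) (nat_lit 0x800040000000640003800100000000000000000000000) := T_1 (nat_lit 109) (nat_lit 92) (nat_lit 4) (nat_lit 8) (nat_lit 9) L753 (by decide +kernel)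
theorem L1047 : W_1 (nat_lit 2) (nat_lit 0x1800058003c001a0000000000000000000000000000000) (nat_lit 0x0) (nat_lit 0x4000200000000000000001000000000000000000000000000) := D_1 (nat_lit 177) (nat_lit 194) (nat_lit 108) (nat_lit 6) (nat_lit 7) (nat_lit 11) (nat_lit 7) (nat_lit 6) (nat_lit 6) (by decide +kernel)
theorem L1048 : W_1 (nat_lit 3) (nat_lit 0x1800048003c001a0000000000000000000000000000000) (nat_lit 0x0) (nat_lit 0x4000200030000000000001000000000000000000000000000) := T_1 (nat_lit 160) (nat_lit 161) (nat_lit 3) (nat_lit 6) (nat_lit 9) L1047 (by decide +kernel)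
theorem L1049 : W_1 (nat_lit 4) (nat_lit 0x1800040003c001a0000000000000000000000000000000) (nat_lit 0x0) (nat_lit 0x400020003c000000000001000000000000000000000000000) := T_1 (nat_lit 159) (nat_lit 158) (nat_lit 1) (nat_lit 9) (nat_lit 8) L1048 (by decide +kernel)
theorem L1050 : W_1 (nat_lit 5) (nat_lit 0x800040003c001a0000000000000000000000000000000) (nat_lit 0x0) (nat_lit 0x2400120003c000000000001000000000000000000000000000) := T_1 (nat_lit 180) (nat_lit 197) (nat_lit 7) (nat_lit 9) (nat_lit 7) L1049 (by decide +kernel)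
theorem L1051 : W_1 (nat_lit 6) (nat_lit 0x800040003c00180000000000000000000000000000000) (nat_lit 0x0) (nat_lit 0x2400120003c000000030001000000000000000000000000000) := T_1 (nat_lit 125) (nat_lit 124) (nat_lit 0) (nat_lit 9) (nat_lit 8) L1050 (by decide +kernel)
theorem L1052 : W_1 (nat_lit 7) (nat_lit 0x40003c00180000000000000000000000000000000) (nat_lit 0x0) (nat_lit 0x34001a0003c000000030001000000000000000000000000000) := T_1 (nat_lit 179) (nat_lit 196) (nat_lit 4) (nat_lit 9) (nat_lit 11) L1051 (by decide +kernel)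
theorem L1053 : W_1 (nat_lit 8) (nat_lit 0x40003c00080000000000000000000000000000000) (nat_lit 0x0) (nat_lit 0x34001a0003c000000330001000000000000000000000000000) := T_1 (nat_lit 128) (nat_lit 129) (nat_lit 2) (nat_lit 6) (nat_lit 8) L1052 (by decide +kernel)
theorem L1054 : W_1 (nat_lit 9) (nat_lit 0x3c00080000000000000000000000000000000) (nat_lit 0x0) (nat_lit 0x34001a000fc000000330001000000000000000000000000000) := T_1 (nat_lit 162) (nat_lit 163) (nat_lit 3) (nat_lit 6) (nat_lit 8) L1053 (by decide +kernel)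
theorem L1076 : W_1 (nat_lit 2) (nat_lit 0x1c00180000000000000000000000000000000) (nat_lit 0x0) (nat_lit 0x2000600000000000000000000000000000000) := D_1 (nat_lit 129) (nat_lit 145) (nat_lit 130) (nat_lit 2) (nat_lit 6) (nat_lit 8) (nat_lit 1) (nat_lit 11) (nat_lit 7) (by decide +kernel)
theorem L1078 : W_1 (nat_lit 2) (nat_lit 0x1c000b0000000000000000000000000000000) (nat_lit 0x0) (nat_lit 0x4c000000000000000000000000000000) := D_1 (nat_lit 123) (nat_lit 122) (nat_lit 126) (nat_lit 3) (nat_lit 3) (nat_lit 7) (nat_lit 3) (nat_lit 4) (nat_lit 7) (by decide +kernel)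
theorem L1079 : W_1 (nat_lit 3) (nat_lit 0x1c000a0000000000000000000000000000000) (nat_lit 0x0) (nat_lit 0x200005c000000000000000000000000000000) := T_1 (nat_lit 124) (nat_lit 145) (nat_lit 0) (nat_lit 9) (nat_lit 8) L1078 (by decide +kernel)
theorem L1094 : W_1 (nat_lit 4) (nat_lit 0x800048003c001a0000000000000000000000000000000) (nat_lit 0x0) (nat_lit 0x24001200030000000000001000000000000000000000000000) := T_1 (nat_lit 180) (nat_lit 197) (nat_lit 7) (nat_lit 9) (nat_lit 7) L1048 (by decide +kernel)
theorem L1095 : W_1 (nat_lit 5) (nat_lit 0x48003c001a0000000000000000000000000000000) (nat_lit 0x0) (nat_lit 0x34001a00030000000000001000000000000000000000000000) := T_1 (nat_lit 179) (nat_lit 196) (nat_lit 4) (nat_lit 9) (nat_lit 11) L1094 (by decide +kernel)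
theorem L1100 : W_1 (nat_lit 2) (nat_lit 0xc001c00080000000000000000000000000000000) (nat_lit 0x0) (nat_lit 0x13000000000000000000000000000000000000000) := D_1 (nat_lit 157) (nat_lit 156) (nat_lit 160) (nat_lit 2) (nat_lit 3) (nat_lit 9) (nat_lit 2) (nat_lit 4) (nat_lit 9) (by decide +kernel)
theorem L1101 : W_1 (nat_lit 3) (nat_lit 0x8001c00080000000000000000000000000000000) (nat_lit 0x0) (nat_lit 0x17002000000000000000000000000000000000000) := T_1 (nat_lit 158) (nat_lit 145) (nat_lit 1) (nat_lit 9) (nat_lit 8) L1100 (by decide +kernel)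
theorem L1150 : W_1 (nat_lit 2) (nat_lit 0x18003c0002000000000000000000000000000) (nat_lit 0x0) (nat_lit 0x20000000000000000100008000000000000000000) := D_1 (nat_lit 92) (nat_lit 75) (nat_lit 161) (nat_lit 7) (nat_lit 7) (nat_lit 4) (nat_lit 7) (nat_lit 7) (nat_lit 5) (by decide +kernel)
theorem L1163 : W_1 (nat_lit 2) (nat_lit 0x3000100018000c0002000000000000000000000000000) (nat_lit 0x0) (nat_lit 0x20000000000000000100008000000000000000000) := D_1 (nat_lit 92) (nat_lit 75) (nat_lit 161) (nat_lit 7) (nat_lit 7) (nat_lit 4) (nat_lit 7) (nat_lit 7) (nat_lit 5) (by decide +kernel)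
theorem L1164 : W_1 (nat_lit 3) (nat_lit 0x3000100018000c0000000000000000000000000000000) (nat_lit 0x0) (nat_lit 0x28000000000002000100008000000000000000000) := T_1 (nat_lit 109) (nat_lit 159) (nat_lit 5) (nat_lit 7) (nat_lit 6) L1163 (by decide +kernel)
theorem L1165 : W_1 (nat_lit 4) (nat_lit 0x2000100018000c0000000000000000000000000000000) (nat_lit 0x0) (nat_lit 0x2000100028000000000002000100008000000000000000000) := T_1 (nat_lit 176) (nat_lit 193) (nat_lit 5) (nat_lit 7) (nat_lit 7) L1164 (by decide +kernel)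
theorem L1172 : W_1 (nat_lit 2) (nat_lit 0x3000100018000e0000000000000000000000000000000) (nat_lit 0x0) (nat_lit 0x2000018000000000000000000000000000000) := D_1 (nat_lit 124) (nat_lit 145) (nat_lit 123) (nat_lit 3) (nat_lit 5) (nat_lit 7) (nat_lit 3) (nat_lit 4) (nat_lit 7) (by decide +kernel)
theorem L1173 : W_1 (nat_lit 3) (nat_lit 0x3000100018000c0000000000000000000000000000000) (nat_lit 0x0) (nat_lit 0x2000038001000000000000000000000000000) := T_1 (nat_lit 125) (nat_lit 108) (nat_lit 4) (nat_lit 7) (nat_lit 10) L1172 (by decide +kernel)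
theorem L1174 : W_1 (nat_lit 4) (nat_lit 0x2000100018000c0000000000000000000000000000000) (nat_lit 0x0) (nat_lit 0x2000100000002000038001000000000000000000000000000) := T_1 (nat_lit 176) (nat_lit 193) (nat_lit 5) (nat_lit 7) (nat_lit 7) L1173 (by decide +kernel)
theorem L1215 : W_1 (nat_lit 2) (nat_lit 0x18000e0000000000000000000000000000000) (nat_lit 0x0) (nat_lit 0x2000018000000000000000000000000000000) := D_1 (nat_lit 124) (nat_lit 123) (nat_lit 145) (nat_lit 3) (nat_lit 4) (nat_lit 7) (nat_lit 3) (nat_lit 5) (nat_lit 7) (by decide +kernel)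
theorem L1216 : W_1 (nat_lit 2) (nat_lit 0x18000c0002000000000000000000000000000) (nat_lit 0x0) (nat_lit 0x20000000000000000100008000000000000000000) := D_1 (nat_lit 92) (nat_lit 75) (nat_lit 161) (nat_lit 7) (nat_lit 7) (nat_lit 4) (nat_lit 7) (nat_lit 7) (nat_lit 5) (by decide +kernel)
theorem L1262 : W_1 (nat_lit 5) (nat_lit 0x2000000018000c0000000000000000000000000000000) (nat_lit 0x0) (nat_lit 0x6000100010002000038001000000000000000000000000000) := T_1 (nat_lit 160) (nat_lit 194) (nat_lit 6) (nat_lit 7) (nat_lit 11) L1174 (by decide +kernel)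
theorem L1263 : W_1 (nat_lit 5) (nat_lit 0x2000000018000c0000000000000000000000000000000) (nat_lit 0x0) (nat_lit 0x6000100038000000000002000100008000000000000000000) := T_1 (nat_lit 160) (nat_lit 194) (nat_lit 6) (nat_lit 7) (nat_lit 11) L1165 (by decide +kernel)
theorem L1319 : W_1 (nat_lit 2) (nat_lit 0x1e00088000000000000000000000000000000) (nat_lit 0x0) (nat_lit 0x100044000000000000000000000000000000) := D_1 (nat_lit 140) (nat_lit 122) (nat_lit 126) (nat_lit 0) (nat_lit 7) (nat_lit 8) (nat_lit 2) (nat_lit 4) (nat_lit 8) (by decide +kernel)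
theorem L1320 : W_1 (nat_lit 3) (nat_lit 0x1e00080000000000000000000000000000000) (nat_lit 0x0) (nat_lit 0x10005c000000000000000000000000000000) := T_1 (nat_lit 123) (nat_lit 124) (nat_lit 0) (nat_lit 8) (nat_lit 8) L1319 (by decide +kernel)
theorem L1321 : W_1 (nat_lit 7) (nat_lit 0x1c00080000000000000000000000000000000) (nat_lit 0x0) (nat_lit 0x200010001e00230007c002000100000000000000000000000) := Q_1 (nat_lit 141) (C_1 L373 (C_1 L366 (C_1 L1320 N_1))) (by decide +kernel)
theorem L1322 : W_1 (nat_lit 3) (nat_lit 0x1c00080000000000000000000000000000000) (nat_lit 0x0) (nat_lit 0x2200700000000000000000000000000000000) := T_1 (nat_lit 128) (nat_lit 141) (nat_lit 2) (nat_lit 5) (nat_lit 8) L1076 (by decide +kernel)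
theorem L1358 : W_1 (nat_lit 2) (nat_lit 0x400020001800180000000000000000000000000000000) (nat_lit 0x0) (nat_lit 0x8000000000000000040002000000000000000000000000000) := D_1 (nat_lit 126) (nat_lit 109) (nat_lit 195) (nat_lit 4) (nat_lit 8) (nat_lit 10) (nat_lit 4) (nat_lit 8) (nat_lit 11) (by decide +kernel)
theorem L1382 : W_1 (nat_lit 2) (nat_lit 0x600020001800380000000000000000000000000000000) (nat_lit 0x0) (nat_lit 0x400040002000000000000000000000000000) := D_1 (nat_lit 126) (nat_lit 142) (nat_lit 109) (nat_lit 1) (nat_lit 10) (nat_lit 7) (nat_lit 4) (nat_lit 8) (nat_lit 10) (by decide +kernel)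
theorem L1383 : W_1 (nat_lit 3) (nat_lit 0x600020001800180000000000000000000000000000000) (nat_lit 0x0) (nat_lit 0x400640002000000000000000000000000000) := T_1 (nat_lit 129) (nat_lit 130) (nat_lit 1) (nat_lit 11) (nat_lit 7) L1382 (by decide +kernel)
theorem L1384 : W_1 (nat_lit 4) (nat_lit 0x400020001800180000000000000000000000000000000) (nat_lit 0x0) (nat_lit 0x4000200000000400640002000000000000000000000000000) := T_1 (nat_lit 177) (nat_lit 194) (nat_lit 5) (nat_lit 8) (nat_lit 7) L1383 (by decide +kernel)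
theorem L1385 : W_1 (nat_lit 5) (nat_lit 0x400020001800080000000000000000000000000000000) (nat_lit 0x0) (nat_lit 0x400020000000040074000a000000000000000000000000000) := T_1 (nat_lit 128) (nat_lit 111) (nat_lit 6) (nat_lit 8) (nat_lit 10) L1384 (by decide +kernel)
theorem L1410 : W_1 (nat_lit 2) (nat_lit 0x200018000c0000000000000000000000000000000) (nat_lit 0x0) (nat_lit 0x400000000000000002000100000000000000000000000) := D_1 (nat_lit 109) (nat_lit 178) (nat_lit 92) (nat_lit 4) (nat_lit 8) (nat_lit 10) (nat_lit 7) (nat_lit 7) (nat_lit 5) (by decide +kernel)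
theorem L1435 : W_1 (nat_lit 3) (nat_lit 0x4001c00080000000000000000000000000000000) (nat_lit 0x0) (nat_lit 0x1b002000000000000000000000000000000000000) := T_1 (nat_lit 159) (nat_lit 145) (nat_lit 1) (nat_lit 9) (nat_lit 8) L1100 (by decide +kernel)
theorem L1451 : W_1 (nat_lit 2) (nat_lit 0x18003c001a000500000000000000000000000) (nat_lit 0x0) (nat_lit 0x280004000000000000000000) := D_1 (nat_lit 91) (nat_lit 74) (nat_lit 93) (nat_lit 4) (nat_lit 7) (nat_lit 8) (nat_lit 3) (nat_lit 6) (nat_lit 5) (by decide +kernel)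
theorem L1452 : W_1 (nat_lit 3) (nat_lit 0x18003c001a000100000000000000000000000) (nat_lit 0x0) (nat_lit 0x680024000000000000000000) := T_1 (nat_lit 94) (nat_lit 77) (nat_lit 5) (nat_lit 9) (nat_lit 4) L1451 (by decide +kernel)
theorem L1453 : W_1 (nat_lit 4) (nat_lit 0x18003c001a000000000000000000000000000) (nat_lit 0x0) (nat_lit 0x78002c000000000000000000) := T_1 (nat_lit 92) (nat_lit 75) (nat_lit 7) (nat_lit 7) (nat_lit 4) L1452 (by decide +kernel)
theorem L1466 : W_1 (nat_lit 2) (nat_lit 0x3000100018000c0002000080000000000000000000000) (nat_lit 0x0) (nat_lit 0x10000c000000000000000000) := D_1 (nat_lit 92) (nat_lit 74) (nat_lit 75) (nat_lit 4) (nat_lit 7) (nat_lit 8) (nat_lit 7) (nat_lit 7) (nat_lit 4) (by decide +kernel)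
theorem L1467 : W_1 (nat_lit 3) (nat_lit 0x3000100018000c0002000000000000000000000000000) (nat_lit 0x0) (nat_lit 0x100018000c000000000000000000) := T_1 (nat_lit 91) (nat_lit 108) (nat_lit 4) (nat_lit 7) (nat_lit 9) L1466 (by decide +kernel)
theorem L1468 : W_1 (nat_lit 4) (nat_lit 0x3000100018000c0000000000000000000000000000000) (nat_lit 0x0) (nat_lit 0x800000000000300018000c000000000000000000) := T_1 (nat_lit 109) (nat_lit 159) (nat_lit 5) (nat_lit 7) (nat_lit 6) L1467 (by decide +kernel)
theorem L1469 : W_1 (nat_lit 5) (nat_lit 0x2000100018000c0000000000000000000000000000000) (nat_lit 0x0) (nat_lit 0x200010000800000000000300018000c000000000000000000) := T_1 (nat_lit 176) (nat_lit 193) (nat_lit 5) (nat_lit 7) (nat_lit 7) L1468 (by decide +kernel)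
theorem L1494 : W_1 (nat_lit 2) (nat_lit 0x1c000c0002000100000000000000000000000) (nat_lit 0x0) (nat_lit 0x200300000000000000000000000000000000) := D_1 (nat_lit 128) (nat_lit 141) (nat_lit 129) (nat_lit 2) (nat_lit 5) (nat_lit 8) (nat_lit 1) (nat_lit 10) (nat_lit 7) (by decide +kernel)
theorem L1495 : W_1 (nat_lit 3) (nat_lit 0x18000c0002000100000000000000000000000) (nat_lit 0x0) (nat_lit 0x8000600300000000000000000000000000000000) := T_1 (nat_lit 142) (nat_lit 159) (nat_lit 5) (nat_lit 7) (nat_lit 5) L1494 (by decide +kernel)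
theorem L1496 : W_1 (nat_lit 4) (nat_lit 0x18000c0002000000000000000000000000000) (nat_lit 0x0) (nat_lit 0x8000600300000000100008000000000000000000) := T_1 (nat_lit 92) (nat_lit 75) (nat_lit 7) (nat_lit 7) (nat_lit 4) L1495 (by decide +kernel)
theorem L1513 : W_1 (nat_lit 2) (nat_lit 0x4003e00080004000200008000000000000000000) (nat_lit 0x0) (nat_lit 0x38000000000000000000000000000000) := D_1 (nat_lit 124) (nat_lit 123) (nat_lit 125) (nat_lit 0) (nat_lit 8) (nat_lit 8) (nat_lit 0) (nat_lit 9) (nat_lit 8) (by decide +kernel)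
theorem L1514 : W_1 (nat_lit 3) (nat_lit 0x4003c00080004000200008000000000000000000) (nat_lit 0x0) (nat_lit 0x2000200038000000000000000000000000000000) := T_1 (nat_lit 141) (nat_lit 157) (nat_lit 1) (nat_lit 8) (nat_lit 8) L1513 (by decide +kernel)
theorem L1515 : W_1 (nat_lit 4) (nat_lit 0x3c00080004000200008000000000000000000) (nat_lit 0x0) (nat_lit 0xe000200038000000000000000000000000000000) := T_1 (nat_lit 158) (nat_lit 159) (nat_lit 1) (nat_lit 9) (nat_lit 8) L1514 (by decide +kernel)
theorem L1516 : W_1 (nat_lit 5) (nat_lit 0x1c00080004000200008000000000000000000) (nat_lit 0x0) (nat_lit 0x4e002200038000000000000000000000000000000) := T_1 (nat_lit 145) (nat_lit 162) (nat_lit 7) (nat_lit 8) (nat_lit 5) L1515 (by decide +kernel)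
theorem L1517 : W_1 (nat_lit 6) (nat_lit 0x1c00080004000200000000000000000000000) (nat_lit 0x0) (nat_lit 0x4e002200038000000100008000000000000000000) := T_1 (nat_lit 75) (nat_lit 92) (nat_lit 4) (nat_lit 8) (nat_lit 8) L1516 (by decide +kernel)
theorem L1551 : W_1 (nat_lit 6) (nat_lit 0x2000000018000c0000000000000000000000000000000) (nat_lit 0x0) (nat_lit 0x600010001800000000000300018000c000000000000000000) := T_1 (nat_lit 160) (nat_lit 194) (nat_lit 6) (nat_lit 7) (nat_lit 11) L1469 (by decide +kernel)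
theorem L1827 : W_1 (nat_lit 2) (nat_lit 0x30001000380006000000000000000000000000000) (nat_lit 0x0) (nat_lit 0x9800000000000000000000000000) := D_1 (nat_lit 108) (nat_lit 107) (nat_lit 111) (nat_lit 3) (nat_lit 5) (nat_lit 6) (nat_lit 3) (nat_lit 6) (nat_lit 6) (by decide +kernel)
theorem L1828 : W_1 (nat_lit 3) (nat_lit 0x30001000180006000000000000000000000000000) (nat_lit 0x0) (nat_lit 0x600009800000000000000000000000000) := T_1 (nat_lit 129) (nat_lit 130) (nat_lit 0) (nat_lit 11) (nat_lit 7) L1827 (by decide +kernel)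
theorem L1829 : W_1 (nat_lit 4) (nat_lit 0x20001000180006000000000000000000000000000) (nat_lit 0x0) (nat_lit 0x200010000000600009800000000000000000000000000) := T_1 (nat_lit 160) (nat_lit 177) (nat_lit 5) (nat_lit 8) (nat_lit 6) L1828 (by decide +kernel)
theorem L1830 : W_1 (nat_lit 5) (nat_lit 0x20001000180004000000000000000000000000000) (nat_lit 0x0) (nat_lit 0x20001000000060000b800100000000000000000000000) := T_1 (nat_lit 109) (nat_lit 92) (nat_lit 4) (nat_lit 8) (nat_lit 9) L1829 (by decide +kernel)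
theorem L1955 : W_1 (nat_lit 2) (nat_lit 0x1c00180004000200000000000000000000000) (nat_lit 0x0) (nat_lit 0x640000000000000000000000000000000) := D_1 (nat_lit 129) (nat_lit 130) (nat_lit 126) (nat_lit 1) (nat_lit 11) (nat_lit 7) (nat_lit 1) (nat_lit 10) (nat_lit 7) (by decide +kernel)
theorem L1956 : W_1 (nat_lit 3) (nat_lit 0x1800180004000200000000000000000000000) (nat_lit 0x0) (nat_lit 0x600640000000000000000000000000000000) := T_1 (nat_lit 142) (nat_lit 141) (nat_lit 2) (nat_lit 5) (nat_lit 8) L1955 (by decide +kernel)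
theorem L1957 : W_1 (nat_lit 4) (nat_lit 0x1000180004000200000000000000000000000) (nat_lit 0x0) (nat_lit 0x10000e00640000000000000000000000000000000) := T_1 (nat_lit 143) (nat_lit 160) (nat_lit 5) (nat_lit 8) (nat_lit 5) L1956 (by decide +kernel)
theorem L2287 : W_1 (nat_lit 2) (nat_lit 0x1c001e0001000000000000000000000000000) (nat_lit 0x0) (nat_lit 0x10000000000000000080004000000000000000000) := D_1 (nat_lit 91) (nat_lit 160) (nat_lit 74) (nat_lit 7) (nat_lit 6) (nat_lit 5) (nat_lit 7) (nat_lit 6) (nat_lit 4) (by decide +kernel)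
theorem L2515 : W_1 (nat_lit 2) (nat_lit 0x1000080006000e00008000000000000000000) (nat_lit 0x0) (nat_lit 0x9800000000000000000000000000) := D_1 (nat_lit 108) (nat_lit 107) (nat_lit 111) (nat_lit 2) (nat_lit 5) (nat_lit 6) (nat_lit 2) (nat_lit 6) (nat_lit 6) (by decide +kernel)
theorem L2516 : W_1 (nat_lit 3) (nat_lit 0x1000080006000600008000000000000000000) (nat_lit 0x0) (nat_lit 0x9801800000000000000000000000) := T_1 (nat_lit 95) (nat_lit 96) (nat_lit 1) (nat_lit 11) (nat_lit 5) L2515 (by decide +kernel)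
theorem L2517 : W_1 (nat_lit 4) (nat_lit 0x1000080006000600000000000000000000000) (nat_lit 0x0) (nat_lit 0x9801900008000000000000000000) := T_1 (nat_lit 75) (nat_lit 92) (nat_lit 4) (nat_lit 8) (nat_lit 8) L2516 (by decide +kernel)
theorem L2518 : W_1 (nat_lit 5) (nat_lit 0x1000080006000200000000000000000000000) (nat_lit 0x0) (nat_lit 0x9801d00028000000000000000000) := T_1 (nat_lit 94) (nat_lit 77) (nat_lit 6) (nat_lit 8) (nat_lit 8) L2517 (by decide +kernel)
theorem L2596 : W_1 (nat_lit 3) (nat_lit 0x1c00080004000200000000000000000000000) (nat_lit 0x0) (nat_lit 0x200740000000000000000000000000000000) := T_1 (nat_lit 128) (nat_lit 141) (nat_lit 2) (nat_lit 5) (nat_lit 8) L1955 (by decide +kernel)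
theorem L2632 : W_1 (nat_lit 2) (nat_lit 0x7000100018000c0002000000000000000000000000000) (nat_lit 0x0) (nat_lit 0x20001000080000000000000000000000) := D_1 (nat_lit 108) (nat_lit 91) (nat_lit 125) (nat_lit 4) (nat_lit 7) (nat_lit 9) (nat_lit 4) (nat_lit 7) (nat_lit 10) (by decide +kernel)
theorem L2633 : W_1 (nat_lit 3) (nat_lit 0x7000100018000c0000000000000000000000000000000) (nat_lit 0x0) (nat_lit 0x8000000020003000080000000000000000000000) := T_1 (nat_lit 109) (nat_lit 159) (nat_lit 5) (nat_lit 7) (nat_lit 6) L2632 (by decide +kernel)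
theorem L2634 : W_1 (nat_lit 4) (nat_lit 0x6000100018000c0000000000000000000000000000000) (nat_lit 0x0) (nat_lit 0x2000100008000000020003000080000000000000000000000) := T_1 (nat_lit 176) (nat_lit 193) (nat_lit 5) (nat_lit 7) (nat_lit 7) L2633 (by decide +kernel)
theorem L2635 : W_1 (nat_lit 5) (nat_lit 0x600010001800080000000000000000000000000000000) (nat_lit 0x0) (nat_lit 0xa000100008000000060003000080000000000000000000000) := T_1 (nat_lit 126) (nat_lit 195) (nat_lit 7) (nat_lit 7) (nat_lit 7) L2634 (by decide +kernel)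
theorem L3149 : W_1 (nat_lit 2) (nat_lit 0x700060001000080000000000000000000000000000000) (nat_lit 0x0) (nat_lit 0x10000800080000000000000000000000000000000000000000) := D_1 (nat_lit 179) (nat_lit 196) (nat_lit 163) (nat_lit 7) (nat_lit 8) (nat_lit 7) (nat_lit 2) (nat_lit 6) (nat_lit 10) (by decide +kernel)
theorem L3150 : W_1 (nat_lit 3) (nat_lit 0x600060001000080000000000000000000000000000000) (nat_lit 0x0) (nat_lit 0x10000980080000000000000000000000000000000000000000) := T_1 (nat_lit 176) (nat_lit 175) (nat_lit 2) (nat_lit 5) (nat_lit 10) L3149 (by decide +kernel)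
theorem L3151 : W_1 (nat_lit 4) (nat_lit 0x400060001000080000000000000000000000000000000) (nat_lit 0x0) (nat_lit 0x14000b80080000000000000000000000000000000000000000) := T_1 (nat_lit 177) (nat_lit 194) (nat_lit 5) (nat_lit 8) (nat_lit 7) L3150 (by decide +kernel)
theorem L3220 : W_1 (nat_lit 2) (nat_lit 0x1c00030001000080000000000000000000000000000000) (nat_lit 0x0) (nat_lit 0x20000c000000000000000000000000000000000000000) := D_1 (nat_lit 159) (nat_lit 177) (nat_lit 158) (nat_lit 0) (nat_lit 10) (nat_lit 10) (nat_lit 3) (nat_lit 5) (nat_lit 9) (by decide +kernel)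
theorem L3221 : W_1 (nat_lit 3) (nat_lit 0x1c00020001000080000000000000000000000000000000) (nat_lit 0x0) (nat_lit 0x220001c000000000000000000000000000000000000000) := T_1 (nat_lit 160) (nat_lit 181) (nat_lit 0) (nat_lit 11) (nat_lit 10) L3220 (by decide +kernel)
theorem L3223 : W_1 (nat_lit 2) (nat_lit 0x1c00030001000080002000000000000000000000000000) (nat_lit 0x0) (nat_lit 0x4c000000000000000000000000000000000000000) := D_1 (nat_lit 159) (nat_lit 158) (nat_lit 162) (nat_lit 3) (nat_lit 5) (nat_lit 9) (nat_lit 3) (nat_lit 6) (nat_lit 9) (by decide +kernel)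
theorem L3224 : W_1 (nat_lit 3) (nat_lit 0x1c00020001000080002000000000000000000000000000) (nat_lit 0x0) (nat_lit 0x200005c000000000000000000000000000000000000000) := T_1 (nat_lit 160) (nat_lit 181) (nat_lit 0) (nat_lit 11) (nat_lit 10) L3223 (by decide +kernel)
theorem L3858 : W_1 (nat_lit 2) (nat_lit 0x1003f00068001000080008000000000000000000000000000) (nat_lit 0x0) (nat_lit 0xe0000000000000000000000000000000000000000000000000) := D_1 (nat_lit 198) (nat_lit 197) (nat_lit 199) (nat_lit 3) (nat_lit 7) (nat_lit 10) (nat_lit 3) (nat_lit 8) (nat_lit 10) (by decide +kernel)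
theorem L3859 : W_1 (nat_lit 3) (nat_lit 0x1001f00068001000080008000000000000000000000000000) (nat_lit 0x0) (nat_lit 0xe0006000000000000000000000000000000000000000000000) := T_1 (nat_lit 181) (nat_lit 182) (nat_lit 0) (nat_lit 12) (nat_lit 10) L3858 (by decide +kernel)
theorem L3860 : W_1 (nat_lit 4) (nat_lit 0x1000f00068001000080008000000000000000000000000000) (nat_lit 0x0) (nat_lit 0xe0007000010000000000000000000000000000000000000000) := T_1 (nat_lit 180) (nat_lit 160) (nat_lit 3) (nat_lit 6) (nat_lit 9) L3859 (by decide +kernel)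
theorem L3861 : W_1 (nat_lit 5) (nat_lit 0x1000f00060001000080008000000000000000000000000000) (nat_lit 0x0) (nat_lit 0xe000700001c000000000000000000000000000000000000000) := T_1 (nat_lit 159) (nat_lit 158) (nat_lit 0) (nat_lit 9) (nat_lit 10) L3860 (by decide +kernel)
theorem L3862 : W_1 (nat_lit 6) (nat_lit 0xf00060001000080008000000000000000000000000000) (nat_lit 0x0) (nat_lit 0xe300700001c000000000000000000000000000000000000000) := T_1 (nat_lit 192) (nat_lit 193) (nat_lit 1) (nat_lit 9) (nat_lit 10) L3861 (by decide +kernel)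
theorem L3863 : W_1 (nat_lit 7) (nat_lit 0xe00060001000080008000000000000000000000000000) (nat_lit 0x0) (nat_lit 0xe300718001c000000000000000000000000000000000000000) := T_1 (nat_lit 176) (nat_lit 175) (nat_lit 2) (nat_lit 5) (nat_lit 10) L3862 (by decide +kernel)
theorem L3864 : W_1 (nat_lit 8) (nat_lit 0xc00060001000080008000000000000000000000000000) (nat_lit 0x0) (nat_lit 0xe700738001c000000000000000000000000000000000000000) := T_1 (nat_lit 177) (nat_lit 194) (nat_lit 5) (nat_lit 8) (nat_lit 7) L3863 (by decide +kernel)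
theorem L3865 : W_1 (nat_lit 9) (nat_lit 0xc00060001000080000000000000000000000000000000) (nat_lit 0x0) (nat_lit 0xe700738001c000000100008000000000000000000000000000) := T_1 (nat_lit 111) (nat_lit 128) (nat_lit 6) (nat_lit 8) (nat_lit 10) L3864 (by decide +kernel)
theorem L3866 : W_1 (nat_lit 10) (nat_lit 0x400060001000080000000000000000000000000000000) (nat_lit 0x0) (nat_lit 0xf7007b8001c000000100008000000000000000000000000000) := T_1 (nat_lit 179) (nat_lit 196) (nat_lit 7) (nat_lit 8) (nat_lit 7) L3865 (by decide +kernel)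
theorem L5716 : W_1 (nat_lit 2) (nat_lit 0x1c000c0000000000000000000000000000000) (nat_lit 0x0) (nat_lit 0x200300000000000000000000000000000000) := D_1 (nat_lit 128) (nat_lit 129) (nat_lit 141) (nat_lit 1) (nat_lit 10) (nat_lit 7) (nat_lit 2) (nat_lit 5) (nat_lit 8) (by decide +kernel)
theorem L5841 : W_1 (nat_lit 2) (nat_lit 0x7000180018000c0000000000000000000000000000000) (nat_lit 0x0) (nat_lit 0x800006000000000000000000000000000000000000000) := D_1 (nat_lit 158) (nat_lit 157) (nat_lit 179) (nat_lit 3) (nat_lit 4) (nat_lit 9) (nat_lit 0) (nat_lit 9) (nat_lit 10) (by decide +kernel)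
theorem L5842 : W_1 (nat_lit 3) (nat_lit 0x7000100018000c0000000000000000000000000000000) (nat_lit 0x0) (nat_lit 0x80000e000000000002000000000000000000000000000) := T_1 (nat_lit 159) (nat_lit 109) (nat_lit 5) (nat_lit 7) (nat_lit 6) L5841 (by decide +kernel)
theorem L5843 : W_1 (nat_lit 4) (nat_lit 0x6000100018000c0000000000000000000000000000000) (nat_lit 0x0) (nat_lit 0x200090000e000000000002000000000000000000000000000) := T_1 (nat_lit 176) (nat_lit 193) (nat_lit 5) (nat_lit 7) (nat_lit 7) L5842 (by decide +kernel)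
theorem L6292 : W_1 (nat_lit 3) (nat_lit 0x18003c0000000000000000000000000000000) (nat_lit 0x0) (nat_lit 0x20000000000003000100008000000000000000000) := T_1 (nat_lit 109) (nat_lit 108) (nat_lit 0) (nat_lit 10) (nat_lit 7) L1150 (by decide +kernel)
theorem L6293 : W_1 (nat_lit 4) (nat_lit 0x18001c0000000000000000000000000000000) (nat_lit 0x0) (nat_lit 0x20000000600003000100008000000000000000000) := T_1 (nat_lit 129) (nat_lit 130) (nat_lit 1) (nat_lit 11) (nat_lit 7) L6292 (by decide +kernel)
theorem L6671 : W_1 (nat_lit 2) (nat_lit 0x14001e000b0000000000000000000000000000000) (nat_lit 0x0) (nat_lit 0x80000000000000001000080000000000000000000000) := D_1 (nat_lit 108) (nat_lit 91) (nat_lit 175) (nat_lit 7) (nat_lit 6) (nat_lit 5) (nat_lit 6) (nat_lit 5) (nat_lit 10) (by decide +kernel)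
theorem L7792 : W_1 (nat_lit 2) (nat_lit 0x2000100008000e000000000000000000000000000) (nat_lit 0x0) (nat_lit 0x400000000000140000000000000000000000000000000) := D_1 (nat_lit 178) (nat_lit 126) (nat_lit 128) (nat_lit 4) (nat_lit 8) (nat_lit 10) (nat_lit 6) (nat_lit 8) (nat_lit 10) (by decide +kernel)
theorem L8299 : W_1 (nat_lit 2) (nat_lit 0x40002000100008000c000000000000000000000000000) (nat_lit 0x0) (nat_lit 0x10000800040000000000000000000000000000000000000000) := D_1 (nat_lit 179) (nat_lit 162) (nat_lit 196) (nat_lit 7) (nat_lit 8) (nat_lit 6) (nat_lit 7) (nat_lit 8) (nat_lit 7) (by decide +kernel)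
theorem L8300 : W_1 (nat_lit 3) (nat_lit 0x2000100008000c000000000000000000000000000) (nat_lit 0x0) (nat_lit 0x10000c00040000000100000000000000000000000000000000) := T_1 (nat_lit 178) (nat_lit 128) (nat_lit 6) (nat_lit 8) (nat_lit 10) L8299 (by decide +kernel)
theorem L8311 : W_1 (nat_lit 2) (nat_lit 0x1400040002000100008000c000100008000000000000000000) (nat_lit 0x0) (nat_lit 0x280008000000000000000000000000000000000000000000000000) := D_1 (nat_lit 195) (nat_lit 211) (nat_lit 213) (nat_lit 5) (nat_lit 8) (nat_lit 8) (nat_lit 7) (nat_lit 8) (nat_lit 8) (by decide +kernel)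
theorem L8312 : W_1 (nat_lit 3) (nat_lit 0x400040002000100008000c000100008000000000000000000) (nat_lit 0x0) (nat_lit 0x280018000800000000000000000000000000000000000000000000) := T_1 (nat_lit 196) (nat_lit 179) (nat_lit 7) (nat_lit 8) (nat_lit 7) L8311 (by decide +kernel)
theorem L8313 : W_1 (nat_lit 4) (nat_lit 0x40002000100008000c000100008000000000000000000) (nat_lit 0x0) (nat_lit 0x28001c000a00000000000000000000000000000000000000000000) := T_1 (nat_lit 194) (nat_lit 177) (nat_lit 5) (nat_lit 8) (nat_lit 7) L8312 (by decide +kernel)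
theorem L8314 : W_1 (nat_lit 5) (nat_lit 0x2000100008000c000100008000000000000000000) (nat_lit 0x0) (nat_lit 0x28001c000e00000000000100000000000000000000000000000000) := T_1 (nat_lit 178) (nat_lit 128) (nat_lit 6) (nat_lit 8) (nat_lit 10) L8313 (by decide +kernel)
theorem L8361 : W_1 (nat_lit 2) (nat_lit 0x20002000100008000c000000000000000000000000000) (nat_lit 0x0) (nat_lit 0x4000400000000000100000000000000000000000000000000) := D_1 (nat_lit 178) (nat_lit 194) (nat_lit 128) (nat_lit 5) (nat_lit 8) (nat_lit 7) (nat_lit 6) (nat_lit 8) (nat_lit 10) (by decide +kernel)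
theorem L8873 : W_1 (nat_lit 2) (nat_lit 0x1800080004000200010000000000000000000) (nat_lit 0x0) (nat_lit 0x400020001000000000000000) := D_1 (nat_lit 77) (nat_lit 94) (nat_lit 60) (nat_lit 6) (nat_lit 8) (nat_lit 8) (nat_lit 6) (nat_lit 8) (nat_lit 7) (by decide +kernel)
theorem L8874 : W_1 (nat_lit 3) (nat_lit 0x1800080004000200000000000000000000000) (nat_lit 0x0) (nat_lit 0x40000000400030001000000000000000) := T_1 (nat_lit 76) (nat_lit 126) (nat_lit 5) (nat_lit 8) (nat_lit 4) L8873 (by decide +kernel)
theorem L8903 : W_1 (nat_lit 2) (nat_lit 0x70001800080004000000000000000000000000000) (nat_lit 0x0) (nat_lit 0x80000600000000000000000000000000000000000) := D_1 (nat_lit 142) (nat_lit 141) (nat_lit 163) (nat_lit 3) (nat_lit 5) (nat_lit 8) (nat_lit 0) (nat_lit 10) (nat_lit 9) (by decide +kernel)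
theorem L8904 : W_1 (nat_lit 3) (nat_lit 0x30001800080004000000000000000000000000000) (nat_lit 0x0) (nat_lit 0x8000c0000600000000000000000000000000000000000) := T_1 (nat_lit 162) (nat_lit 179) (nat_lit 7) (nat_lit 8) (nat_lit 6) L8903 (by decide +kernel)
theorem L8905 : W_1 (nat_lit 4) (nat_lit 0x20001800080004000000000000000000000000000) (nat_lit 0x0) (nat_lit 0xa000d0000600000000000000000000000000000000000) := T_1 (nat_lit 160) (nat_lit 177) (nat_lit 5) (nat_lit 8) (nat_lit 6) L8904 (by decide +kernel)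
theorem L8924 : W_1 (nat_lit 2) (nat_lit 0x60001c00080004000100000000000000000000000) (nat_lit 0x0) (nat_lit 0x180002000000000000000000000000000000000000) := D_1 (nat_lit 163) (nat_lit 164) (nat_lit 145) (nat_lit 0) (nat_lit 11) (nat_lit 9) (nat_lit 3) (nat_lit 6) (nat_lit 8) (by decide +kernel)
theorem L8925 : W_1 (nat_lit 3) (nat_lit 0x60001800080004000100000000000000000000000) (nat_lit 0x0) (nat_lit 0x180002600000000000000000000000000000000000) := T_1 (nat_lit 142) (nat_lit 141) (nat_lit 3) (nat_lit 5) (nat_lit 8) L8924 (by decide +kernel)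
theorem L8926 : W_1 (nat_lit 4) (nat_lit 0x20001800080004000100000000000000000000000) (nat_lit 0x0) (nat_lit 0x8001c0002600000000000000000000000000000000000) := T_1 (nat_lit 162) (nat_lit 179) (nat_lit 7) (nat_lit 8) (nat_lit 6) L8925 (by decide +kernel)
theorem L8927 : W_1 (nat_lit 5) (nat_lit 0x20001800080004000000000000000000000000000) (nat_lit 0x0) (nat_lit 0x8001c0002600000002000100000000000000000000000) := T_1 (nat_lit 92) (nat_lit 109) (nat_lit 4) (nat_lit 8) (nat_lit 9) L8926 (by decide +kernel)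
theorem L8928 : W_1 (nat_lit 2) (nat_lit 0x380018000c0006000080000000000000000000000) (nat_lit 0x0) (nat_lit 0x6002000000000000000000000000000000000000) := D_1 (nat_lit 158) (nat_lit 145) (nat_lit 157) (nat_lit 2) (nat_lit 5) (nat_lit 9) (nat_lit 2) (nat_lit 4) (nat_lit 9) (by decide +kernel)
theorem L8929 : W_1 (nat_lit 3) (nat_lit 0x300018000c0006000080000000000000000000000) (nat_lit 0x0) (nat_lit 0x10000e002000000000000000000000000000000000000) := T_1 (nat_lit 159) (nat_lit 176) (nat_lit 5) (nat_lit 7) (nat_lit 6) L8928 (by decide +kernel)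
theorem L8930 : W_1 (nat_lit 4) (nat_lit 0x300018000c0006000000000000000000000000000) (nat_lit 0x0) (nat_lit 0x10000e002000000001000080000000000000000000000) := T_1 (nat_lit 91) (nat_lit 108) (nat_lit 4) (nat_lit 7) (nat_lit 9) L8929 (by decide +kernel)
theorem L10860 : W_1 (nat_lit 2) (nat_lit 0x20001e000c0000000000000000000000000000000) (nat_lit 0x0) (nat_lit 0x400000000000000002000100000000000000000000000) := D_1 (nat_lit 109) (nat_lit 178) (nat_lit 92) (nat_lit 4) (nat_lit 8) (nat_lit 10) (nat_lit 7) (nat_lit 7) (nat_lit 5) (by decide +kernel)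
theorem L10861 : W_1 (nat_lit 3) (nat_lit 0x20001e00080000000000000000000000000000000) (nat_lit 0x0) (nat_lit 0x400000000100040002000100000000000000000000000) := T_1 (nat_lit 126) (nat_lit 140) (nat_lit 2) (nat_lit 4) (nat_lit 8) L10860 (by decide +kernel)
theorem L10863 : W_1 (nat_lit 2) (nat_lit 0x2001f00080000000000000000000000000000000) (nat_lit 0x0) (nat_lit 0x70000000000000000000000000000000000000000) := D_1 (nat_lit 161) (nat_lit 162) (nat_lit 160) (nat_lit 3) (nat_lit 5) (nat_lit 8) (nat_lit 3) (nat_lit 4) (nat_lit 8) (by decide +kernel)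
theorem L10864 : W_1 (nat_lit 3) (nat_lit 0x2001e00080000000000000000000000000000000) (nat_lit 0x0) (nat_lit 0x71000100000000000000000000000000000000000) := T_1 (nat_lit 140) (nat_lit 156) (nat_lit 1) (nat_lit 7) (nat_lit 8) L10863 (by decide +kernel)
theorem L10865 : W_1 (nat_lit 4) (nat_lit 0x1e00080000000000000000000000000000000) (nat_lit 0x0) (nat_lit 0x77000100000000000000000000000000000000000) := T_1 (nat_lit 157) (nat_lit 158) (nat_lit 1) (nat_lit 8) (nat_lit 8) L10864 (by decide +kernel)
theorem L10866 : W_1 (nat_lit 4) (nat_lit 0x1e00080000000000000000000000000000000) (nat_lit 0x0) (nat_lit 0x400060000100040002000100000000000000000000000) := T_1 (nat_lit 161) (nat_lit 162) (nat_lit 3) (nat_lit 5) (nat_lit 8) L10861 (by decide +kernel)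
theorem L10867 : W_1 (nat_lit 2) (nat_lit 0x44001e00080000000000000000000000000000000) (nat_lit 0x0) (nat_lit 0x88002000000000000000000000000000000000000) := D_1 (nat_lit 145) (nat_lit 163) (nat_lit 159) (nat_lit 3) (nat_lit 6) (nat_lit 8) (nat_lit 1) (nat_lit 9) (nat_lit 8) (by decide +kernel)
theorem L10868 : W_1 (nat_lit 3) (nat_lit 0x40001e00080000000000000000000000000000000) (nat_lit 0x0) (nat_lit 0x8e002000000000000000000000000000000000000) := T_1 (nat_lit 158) (nat_lit 157) (nat_lit 1) (nat_lit 8) (nat_lit 8) L10867 (by decide +kernel)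
theorem L10869 : W_1 (nat_lit 4) (nat_lit 0x1e00080000000000000000000000000000000) (nat_lit 0x0) (nat_lit 0xee002000000000000000000000000000000000000) := T_1 (nat_lit 162) (nat_lit 161) (nat_lit 3) (nat_lit 5) (nat_lit 8) L10868 (by decide +kernel)
theorem L10870 : W_1 (nat_lit 7) (nat_lit 0x1c00080000000000000000000000000000000) (nat_lit 0x0) (nat_lit 0x20005000ff002300040002000100000000000000000000000) := Q_1 (nat_lit 141) (C_1 L366 (C_1 L10865 (C_1 L10866 (C_1 L10869 N_1)))) (by decide +kernel)
theorem L12725 : W_1 (nat_lit 2) (nat_lit 0xc00020001000080004000000000000000000000000000) (nat_lit 0x0) (nat_lit 0x100008000400000000000000000000000) := D_1 (nat_lit 111) (nat_lit 94) (nat_lit 128) (nat_lit 6) (nat_lit 8) (nat_lit 9) (nat_lit 6) (nat_lit 8) (nat_lit 10) (by decide +kernel)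
theorem L12726 : W_1 (nat_lit 3) (nat_lit 0xc00020001000080000000000000000000000000000000) (nat_lit 0x0) (nat_lit 0x4000000010000c000400000000000000000000000) := T_1 (nat_lit 110) (nat_lit 162) (nat_lit 7) (nat_lit 8) (nat_lit 6) L12725 (by decide +kernel)
theorem L18068 : W_1 (nat_lit 5) (nat_lit 0x200018000c0006000000000000000000000000000) (nat_lit 0x0) (nat_lit 0x30001e002000000001000080000000000000000000000) := T_1 (nat_lit 160) (nat_lit 177) (nat_lit 6) (nat_lit 7) (nat_lit 10) L8930 (by decide +kernel)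
theorem L18069 : W_1 (nat_lit 6) (nat_lit 0x200018000c0004000000000000000000000000000) (nat_lit 0x0) (nat_lit 0x30001e002000000003000180000000000000000000000) := T_1 (nat_lit 109) (nat_lit 92) (nat_lit 7) (nat_lit 7) (nat_lit 5) L18068 (by decide +kernel)
theorem L18070 : W_1 (nat_lit 2) (nat_lit 0x300018000e000c000000000000000000000000000) (nat_lit 0x0) (nat_lit 0x100030000000000000000000000000000) := D_1 (nat_lit 112) (nat_lit 113) (nat_lit 128) (nat_lit 1) (nat_lit 11) (nat_lit 6) (nat_lit 2) (nat_lit 6) (nat_lit 7) (by decide +kernel)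
theorem L18071 : W_1 (nat_lit 3) (nat_lit 0x300018000c000c000000000000000000000000000) (nat_lit 0x0) (nat_lit 0x130030000000000000000000000000000) := T_1 (nat_lit 125) (nat_lit 124) (nat_lit 2) (nat_lit 5) (nat_lit 7) L18070 (by decide +kernel)
theorem L18072 : W_1 (nat_lit 4) (nat_lit 0x300018000c0004000000000000000000000000000) (nat_lit 0x0) (nat_lit 0x130038000400000000000000000000000) := T_1 (nat_lit 111) (nat_lit 94) (nat_lit 6) (nat_lit 8) (nat_lit 9) L18071 (by decide +kernel)
theorem L18073 : W_1 (nat_lit 5) (nat_lit 0x200018000c0004000000000000000000000000000) (nat_lit 0x0) (nat_lit 0x200010000000130038000400000000000000000000000) := T_1 (nat_lit 160) (nat_lit 177) (nat_lit 6) (nat_lit 7) (nat_lit 10) L18072 (by decide +kernel)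
theorem L18098 : W_1 (nat_lit 2) (nat_lit 0x3000380006000200000000000000000000000) (nat_lit 0x0) (nat_lit 0x40001800000000000000000000000000) := D_1 (nat_lit 108) (nat_lit 126) (nat_lit 107) (nat_lit 0) (nat_lit 10) (nat_lit 7) (nat_lit 3) (nat_lit 5) (nat_lit 6) (by decide +kernel)
theorem L18099 : W_1 (nat_lit 3) (nat_lit 0x3000180006000200000000000000000000000) (nat_lit 0x0) (nat_lit 0x640001800000000000000000000000000) := T_1 (nat_lit 129) (nat_lit 130) (nat_lit 0) (nat_lit 11) (nat_lit 7) L18098 (by decide +kernel)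
theorem L18100 : W_1 (nat_lit 4) (nat_lit 0x1000180006000200000000000000000000000) (nat_lit 0x0) (nat_lit 0x40002000640001800000000000000000000000000) := T_1 (nat_lit 145) (nat_lit 162) (nat_lit 7) (nat_lit 8) (nat_lit 5) L18099 (by decide +kernel)
theorem L18103 : W_1 (nat_lit 2) (nat_lit 0x1000380006000200000000000000000000000) (nat_lit 0x0) (nat_lit 0x9800000000000000000000000000) := D_1 (nat_lit 108) (nat_lit 107) (nat_lit 111) (nat_lit 3) (nat_lit 5) (nat_lit 6) (nat_lit 3) (nat_lit 6) (nat_lit 6) (by decide +kernel)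
theorem L18104 : W_1 (nat_lit 3) (nat_lit 0x1000180006000200000000000000000000000) (nat_lit 0x0) (nat_lit 0x600009800000000000000000000000000) := T_1 (nat_lit 129) (nat_lit 130) (nat_lit 0) (nat_lit 11) (nat_lit 7) L18103 (by decide +kernel)
theorem L18133 : W_1 (nat_lit 2) (nat_lit 0x50001000080004000200008000400000000000000) (nat_lit 0x0) (nat_lit 0xa00020000000000000000000000000000000000000000) := D_1 (nat_lit 161) (nat_lit 177) (nat_lit 179) (nat_lit 5) (nat_lit 8) (nat_lit 6) (nat_lit 7) (nat_lit 8) (nat_lit 6) (by decide +kernel)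
theorem L18134 : W_1 (nat_lit 3) (nat_lit 0x10001000080004000200008000400000000000000) (nat_lit 0x0) (nat_lit 0xa00060002000000000000000000000000000000000000) := T_1 (nat_lit 162) (nat_lit 145) (nat_lit 7) (nat_lit 8) (nat_lit 5) L18133 (by decide +kernel)
theorem L18135 : W_1 (nat_lit 4) (nat_lit 0x1000080004000200008000400000000000000) (nat_lit 0x0) (nat_lit 0xa00070002800000000000000000000000000000000000) := T_1 (nat_lit 160) (nat_lit 143) (nat_lit 5) (nat_lit 8) (nat_lit 5) L18134 (by decide +kernel)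
theorem L18136 : W_1 (nat_lit 5) (nat_lit 0x1000080004000200008000000000000000000) (nat_lit 0x0) (nat_lit 0xa00070002800000000000000010000400000000000000) := T_1 (nat_lit 58) (nat_lit 76) (nat_lit 4) (nat_lit 8) (nat_lit 7) L18135 (by decide +kernel)
theorem L18137 : W_1 (nat_lit 6) (nat_lit 0x1000080004000200000000000000000000000) (nat_lit 0x0) (nat_lit 0xa00070002800000000000100018000400000000000000) := T_1 (nat_lit 75) (nat_lit 92) (nat_lit 4) (nat_lit 8) (nat_lit 8) L18136 (by decide +kernel)
theorem L18138 : W_1 (nat_lit 7) (nat_lit 0x1000080004000000000000000000000000000) (nat_lit 0x0) (nat_lit 0xa00070002800000008000700038001400000000000000) := Q_1 (nat_lit 93) (C_1 L180 (C_1 L18137 (C_1 L10 (C_1 L52 N_1)))) (by decide +kernel)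
theorem L18139 : W_1 (nat_lit 2) (nat_lit 0x1000080004000200018000000000000000000) (nat_lit 0x0) (nat_lit 0x10000800040000000000000000000000000000000) := D_1 (nat_lit 143) (nat_lit 160) (nat_lit 126) (nat_lit 5) (nat_lit 8) (nat_lit 5) (nat_lit 5) (nat_lit 8) (nat_lit 4) (by decide +kernel)
theorem L18140 : W_1 (nat_lit 3) (nat_lit 0x1000080004000200008000000000000000000) (nat_lit 0x0) (nat_lit 0x10000800040000000000010000400000000000000) := T_1 (nat_lit 76) (nat_lit 58) (nat_lit 4) (nat_lit 8) (nat_lit 7) L18139 (by decide +kernel)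
theorem L18141 : W_1 (nat_lit 4) (nat_lit 0x1000080004000200000000000000000000000) (nat_lit 0x0) (nat_lit 0x10000800040000000100018000400000000000000) := T_1 (nat_lit 75) (nat_lit 92) (nat_lit 4) (nat_lit 8) (nat_lit 8) L18140 (by decide +kernel)
theorem L18142 : W_1 (nat_lit 4) (nat_lit 0x1000080004000200000000000000000000000) (nat_lit 0x0) (nat_lit 0x10000800040000000400030001000000000000000) := T_1 (nat_lit 143) (nat_lit 160) (nat_lit 5) (nat_lit 8) (nat_lit 5) L8874 (by decide +kernel)
theorem L18143 : W_1 (nat_lit 2) (nat_lit 0x10001000080004000300020000000000000000000) (nat_lit 0x0) (nat_lit 0x200020000000000002000000000000000000000000000) := D_1 (nat_lit 161) (nat_lit 109) (nat_lit 177) (nat_lit 4) (nat_lit 8) (nat_lit 9) (nat_lit 5) (nat_lit 8) (nat_lit 6) (by decide +kernel)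
theorem L18144 : W_1 (nat_lit 3) (nat_lit 0x1000080004000300020000000000000000000) (nat_lit 0x0) (nat_lit 0x200030000800000002000000000000000000000000000) := T_1 (nat_lit 160) (nat_lit 143) (nat_lit 5) (nat_lit 8) (nat_lit 5) L18143 (by decide +kernel)
theorem L18145 : W_1 (nat_lit 4) (nat_lit 0x1000080004000200020000000000000000000) (nat_lit 0x0) (nat_lit 0x200030000800000002000100008000000000000000000) := T_1 (nat_lit 92) (nat_lit 75) (nat_lit 4) (nat_lit 8) (nat_lit 8) L18144 (by decide +kernel)
theorem L18146 : W_1 (nat_lit 5) (nat_lit 0x1000080004000200000000000000000000000) (nat_lit 0x0) (nat_lit 0x200030000800000002000500028000000000000000000) := T_1 (nat_lit 77) (nat_lit 94) (nat_lit 6) (nat_lit 8) (nat_lit 8) L18145 (by decide +kernel)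
theorem L18147 : W_1 (nat_lit 6) (nat_lit 0x1000080004000000000000000000000000000) (nat_lit 0x0) (nat_lit 0x200030000800040002000700038001400000000000000) := Q_1 (nat_lit 93) (C_1 L180 (C_1 L18141 (C_1 L18142 (C_1 L18146 N_1)))) (by decide +kernel)
theorem L18148 : W_1 (nat_lit 2) (nat_lit 0x1000080004000200018000000000000000000) (nat_lit 0x0) (nat_lit 0x40002000100000000000000000000000000000000) := D_1 (nat_lit 145) (nat_lit 162) (nat_lit 128) (nat_lit 7) (nat_lit 8) (nat_lit 5) (nat_lit 7) (nat_lit 8) (nat_lit 4) (by decide +kernel)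
theorem L18149 : W_1 (nat_lit 3) (nat_lit 0x1000080004000200008000000000000000000) (nat_lit 0x0) (nat_lit 0x40002000100000000000010000400000000000000) := T_1 (nat_lit 76) (nat_lit 58) (nat_lit 4) (nat_lit 8) (nat_lit 7) L18148 (by decide +kernel)
theorem L18150 : W_1 (nat_lit 4) (nat_lit 0x1000080004000200000000000000000000000) (nat_lit 0x0) (nat_lit 0x40002000100000000100018000400000000000000) := T_1 (nat_lit 75) (nat_lit 92) (nat_lit 4) (nat_lit 8) (nat_lit 8) L18149 (by decide +kernel)
theorem L18151 : W_1 (nat_lit 4) (nat_lit 0x1000080004000200000000000000000000000) (nat_lit 0x0) (nat_lit 0x40002000100000000400030001000000000000000) := T_1 (nat_lit 145) (nat_lit 162) (nat_lit 7) (nat_lit 8) (nat_lit 5) L592 (by decide +kernel)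
theorem L18152 : W_1 (nat_lit 2) (nat_lit 0x40001000080004000300020000000000000000000) (nat_lit 0x0) (nat_lit 0x800020000000000002000000000000000000000000000) := D_1 (nat_lit 161) (nat_lit 109) (nat_lit 179) (nat_lit 4) (nat_lit 8) (nat_lit 9) (nat_lit 7) (nat_lit 8) (nat_lit 6) (by decide +kernel)
theorem L18153 : W_1 (nat_lit 3) (nat_lit 0x1000080004000300020000000000000000000) (nat_lit 0x0) (nat_lit 0x800060002000000002000000000000000000000000000) := T_1 (nat_lit 162) (nat_lit 145) (nat_lit 7) (nat_lit 8) (nat_lit 5) L18152 (by decide +kernel)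
theorem L18154 : W_1 (nat_lit 4) (nat_lit 0x1000080004000200020000000000000000000) (nat_lit 0x0) (nat_lit 0x800060002000000002000100008000000000000000000) := T_1 (nat_lit 92) (nat_lit 75) (nat_lit 4) (nat_lit 8) (nat_lit 8) L18153 (by decide +kernel)
theorem L18155 : W_1 (nat_lit 5) (nat_lit 0x1000080004000200000000000000000000000) (nat_lit 0x0) (nat_lit 0x800060002000000002000500028000000000000000000) := T_1 (nat_lit 77) (nat_lit 94) (nat_lit 6) (nat_lit 8) (nat_lit 8) L18154 (by decide +kernel)
theorem L18156 : W_1 (nat_lit 6) (nat_lit 0x1000080004000000000000000000000000000) (nat_lit 0x0) (nat_lit 0x800060002000100002000700038001400000000000000) := Q_1 (nat_lit 93) (C_1 L180 (C_1 L18150 (C_1 L18151 (C_1 L18155 N_1)))) (by decide +kernel)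
theorem L18157 : W_1 (nat_lit 2) (nat_lit 0x4000c00020001000180004000100008000000000000000000) (nat_lit 0x0) (nat_lit 0x80008000000000002000000000000000000000000000000000000) := D_1 (nat_lit 195) (nat_lit 145) (nat_lit 211) (nat_lit 6) (nat_lit 8) (nat_lit 11) (nat_lit 5) (nat_lit 8) (nat_lit 8) (by decide +kernel)
theorem L18158 : W_1 (nat_lit 3) (nat_lit 0xc00020001000180004000100008000000000000000000) (nat_lit 0x0) (nat_lit 0x8000c000200000002000000000000000000000000000000000000) := T_1 (nat_lit 194) (nat_lit 177) (nat_lit 5) (nat_lit 8) (nat_lit 7) L18157 (by decide +kernel)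
theorem L18159 : W_1 (nat_lit 4) (nat_lit 0xc00020001000080004000100008000000000000000000) (nat_lit 0x0) (nat_lit 0x8000c000200000002000100008000000000000000000000000000) := T_1 (nat_lit 128) (nat_lit 111) (nat_lit 6) (nat_lit 8) (nat_lit 10) L18158 (by decide +kernel)
theorem L18160 : W_1 (nat_lit 5) (nat_lit 0x800020001000080004000100008000000000000000000) (nat_lit 0x0) (nat_lit 0x8001c000600000002000100008000000000000000000000000000) := T_1 (nat_lit 178) (nat_lit 196) (nat_lit 7) (nat_lit 8) (nat_lit 7) L18159 (by decide +kernel)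
theorem L18161 : W_1 (nat_lit 6) (nat_lit 0x20001000080004000100008000000000000000000) (nat_lit 0x0) (nat_lit 0x8001c000e00040002000100008000000000000000000000000000) := T_1 (nat_lit 179) (nat_lit 162) (nat_lit 7) (nat_lit 8) (nat_lit 6) L18160 (by decide +kernel)
theorem L18162 : W_1 (nat_lit 7) (nat_lit 0x20001000080004000100000000000000000000000) (nat_lit 0x0) (nat_lit 0x8001c000e00040002000100008000200008000000000000000000) := T_1 (nat_lit 75) (nat_lit 93) (nat_lit 4) (nat_lit 8) (nat_lit 8) L18161 (by decide +kernel)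
theorem L18163 : W_1 (nat_lit 8) (nat_lit 0x20001000080004000000000000000000000000000) (nat_lit 0x0) (nat_lit 0x8001c000e0004000200010000a000300008000000000000000000) := T_1 (nat_lit 92) (nat_lit 109) (nat_lit 4) (nat_lit 8) (nat_lit 9) L18162 (by decide +kernel)
theorem L18164 : W_1 (nat_lit 2) (nat_lit 0x60001000080004000200000000000000000000000) (nat_lit 0x0) (nat_lit 0x200010000800000000000000000000000000000000000) := D_1 (nat_lit 160) (nat_lit 143) (nat_lit 177) (nat_lit 5) (nat_lit 8) (nat_lit 5) (nat_lit 5) (nat_lit 8) (nat_lit 6) (by decide +kernel)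
theorem L18165 : W_1 (nat_lit 3) (nat_lit 0x60001000080004000000000000000000000000000) (nat_lit 0x0) (nat_lit 0x200010002800000000000200000000000000000000000) := T_1 (nat_lit 93) (nat_lit 145) (nat_lit 7) (nat_lit 8) (nat_lit 5) L18164 (by decide +kernel)
theorem L18166 : W_1 (nat_lit 4) (nat_lit 0x20001000080004000000000000000000000000000) (nat_lit 0x0) (nat_lit 0xa00050002800000000000200000000000000000000000) := T_1 (nat_lit 162) (nat_lit 179) (nat_lit 7) (nat_lit 8) (nat_lit 6) L18165 (by decide +kernel)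
theorem L18177 : W_1 (nat_lit 2) (nat_lit 0x30001000080004000200000000000000000000000) (nat_lit 0x0) (nat_lit 0x8000400020000000000000000000) := D_1 (nat_lit 94) (nat_lit 111) (nat_lit 77) (nat_lit 6) (nat_lit 8) (nat_lit 9) (nat_lit 6) (nat_lit 8) (nat_lit 8) (by decide +kernel)
theorem L18178 : W_1 (nat_lit 3) (nat_lit 0x30001000080004000000000000000000000000000) (nat_lit 0x0) (nat_lit 0x800000008000600020000000000000000000) := T_1 (nat_lit 93) (nat_lit 143) (nat_lit 5) (nat_lit 8) (nat_lit 5) L18177 (by decide +kernel)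
theorem L18179 : W_1 (nat_lit 4) (nat_lit 0x20001000080004000000000000000000000000000) (nat_lit 0x0) (nat_lit 0x200010000800000008000600020000000000000000000) := T_1 (nat_lit 160) (nat_lit 177) (nat_lit 5) (nat_lit 8) (nat_lit 6) L18178 (by decide +kernel)
theorem L18180 : W_1 (nat_lit 2) (nat_lit 0x4000c000200010000c0004000400020000000000000000000) (nat_lit 0x0) (nat_lit 0x80008000000000000800000000000000000000000000000000000) := D_1 (nat_lit 195) (nat_lit 211) (nat_lit 143) (nat_lit 5) (nat_lit 8) (nat_lit 8) (nat_lit 4) (nat_lit 8) (nat_lit 11) (by decide +kernel)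
theorem L18181 : W_1 (nat_lit 3) (nat_lit 0x4000c00020001000080004000400020000000000000000000) (nat_lit 0x0) (nat_lit 0x80008000000000000800040002000000000000000000000000000) := T_1 (nat_lit 126) (nat_lit 109) (nat_lit 4) (nat_lit 8) (nat_lit 10) L18180 (by decide +kernel)
theorem L18182 : W_1 (nat_lit 4) (nat_lit 0xc00020001000080004000400020000000000000000000) (nat_lit 0x0) (nat_lit 0x8000c000200000000800040002000000000000000000000000000) := T_1 (nat_lit 194) (nat_lit 177) (nat_lit 5) (nat_lit 8) (nat_lit 7) L18181 (by decide +kernel)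
theorem L18183 : W_1 (nat_lit 5) (nat_lit 0x800020001000080004000400020000000000000000000) (nat_lit 0x0) (nat_lit 0x8001c000600000000800040002000000000000000000000000000) := T_1 (nat_lit 178) (nat_lit 196) (nat_lit 7) (nat_lit 8) (nat_lit 7) L18182 (by decide +kernel)
theorem L18184 : W_1 (nat_lit 6) (nat_lit 0x20001000080004000400020000000000000000000) (nat_lit 0x0) (nat_lit 0x8001c000e00040000800040002000000000000000000000000000) := T_1 (nat_lit 179) (nat_lit 162) (nat_lit 7) (nat_lit 8) (nat_lit 6) L18183 (by decide +kernel)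
theorem L18185 : W_1 (nat_lit 7) (nat_lit 0x20001000080004000400000000000000000000000) (nat_lit 0x0) (nat_lit 0x8001c000e00040000800040002000200020000000000000000000) := T_1 (nat_lit 77) (nat_lit 93) (nat_lit 6) (nat_lit 8) (nat_lit 8) L18184 (by decide +kernel)
theorem L18186 : W_1 (nat_lit 8) (nat_lit 0x20001000080004000000000000000000000000000) (nat_lit 0x0) (nat_lit 0x8001c000e0004000080004000a000600020000000000000000000) := T_1 (nat_lit 94) (nat_lit 111) (nat_lit 6) (nat_lit 8) (nat_lit 9) L18185 (by decide +kernel)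
theorem L18187 : W_1 (nat_lit 4) (nat_lit 0x20001000080004000000000000000000000000000) (nat_lit 0x0) (nat_lit 0x800040002000000008000600020000000000000000000) := T_1 (nat_lit 162) (nat_lit 179) (nat_lit 7) (nat_lit 8) (nat_lit 6) L277 (by decide +kernel)
theorem L18188 : W_1 (nat_lit 9) (nat_lit 0x1000080004000000000000000000000000000) (nat_lit 0x0) (nat_lit 0x8001c000e0007000280004000a000600020000000000000000000) := Q_1 (nat_lit 161) (C_1 L62 (C_1 L18166 (C_1 L18179 (C_1 L18186 (C_1 L18187 N_1))))) (by decide +kernel)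
theorem L18583 : W_1 (nat_lit 2) (nat_lit 0x100008000c000380000000000000000000000) (nat_lit 0x0) (nat_lit 0x32000000000000000000000000000) := D_1 (nat_lit 112) (nat_lit 113) (nat_lit 109) (nat_lit 0) (nat_lit 11) (nat_lit 6) (nat_lit 0) (nat_lit 10) (nat_lit 6) (by decide +kernel)
theorem L18584 : W_1 (nat_lit 3) (nat_lit 0x100008000c000300000000000000000000000) (nat_lit 0x0) (nat_lit 0x320000c0000000000000000000000) := T_1 (nat_lit 91) (nat_lit 90) (nat_lit 3) (nat_lit 5) (nat_lit 5) L18583 (by decide +kernel)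
theorem L18585 : W_1 (nat_lit 2) (nat_lit 0x10000800044003e0020000000000000000000) (nat_lit 0x0) (nat_lit 0x3800000000000000000) := D_1 (nat_lit 72) (nat_lit 71) (nat_lit 73) (nat_lit 0) (nat_lit 7) (nat_lit 5) (nat_lit 0) (nat_lit 8) (nat_lit 5) (by decide +kernel)
theorem L18586 : W_1 (nat_lit 3) (nat_lit 0x10000800044003c0020000000000000000000) (nat_lit 0x0) (nat_lit 0x200020003800000000000000000) := T_1 (nat_lit 89) (nat_lit 105) (nat_lit 1) (nat_lit 7) (nat_lit 5) L18585 (by decide +kernel)
theorem L18587 : W_1 (nat_lit 4) (nat_lit 0x10000800040003c0020000000000000000000) (nat_lit 0x0) (nat_lit 0xe00020003800000000000000000) := T_1 (nat_lit 106) (nat_lit 107) (nat_lit 1) (nat_lit 8) (nat_lit 5) L18586 (by decide +kernel)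
theorem L18588 : W_1 (nat_lit 5) (nat_lit 0x1000080004000380020000000000000000000) (nat_lit 0x0) (nat_lit 0x8e00060003800000000000000000) := T_1 (nat_lit 90) (nat_lit 111) (nat_lit 3) (nat_lit 5) (nat_lit 5) L18587 (by decide +kernel)
theorem L18589 : W_1 (nat_lit 6) (nat_lit 0x1000080004000380000000000000000000000) (nat_lit 0x0) (nat_lit 0x8e00460023800000000000000000) := T_1 (nat_lit 77) (nat_lit 94) (nat_lit 6) (nat_lit 8) (nat_lit 8) L18588 (by decide +kernel)
theorem L18590 : W_1 (nat_lit 2) (nat_lit 0x30000800048007c0000000000000000000000) (nat_lit 0x0) (nat_lit 0x7000000000000000000) := D_1 (nat_lit 73) (nat_lit 72) (nat_lit 74) (nat_lit 0) (nat_lit 8) (nat_lit 5) (nat_lit 0) (nat_lit 9) (nat_lit 5) (by decide +kernel)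
theorem L18591 : W_1 (nat_lit 3) (nat_lit 0x3000080004800780000000000000000000000) (nat_lit 0x0) (nat_lit 0x400040007000000000000000000) := T_1 (nat_lit 90) (nat_lit 106) (nat_lit 1) (nat_lit 8) (nat_lit 5) L18590 (by decide +kernel)
theorem L18592 : W_1 (nat_lit 4) (nat_lit 0x3000080004000780000000000000000000000) (nat_lit 0x0) (nat_lit 0x1c00040007000000000000000000) := T_1 (nat_lit 107) (nat_lit 108) (nat_lit 1) (nat_lit 9) (nat_lit 5) L18591 (by decide +kernel)
theorem L18593 : W_1 (nat_lit 5) (nat_lit 0x3000080004000380000000000000000000000) (nat_lit 0x0) (nat_lit 0x1c00440027000000000000000000) := T_1 (nat_lit 94) (nat_lit 77) (nat_lit 6) (nat_lit 8) (nat_lit 8) L18592 (by decide +kernel)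
theorem L18594 : W_1 (nat_lit 6) (nat_lit 0x1000080004000380000000000000000000000) (nat_lit 0x0) (nat_lit 0x40002000000001c00440027000000000000000000) := T_1 (nat_lit 145) (nat_lit 162) (nat_lit 7) (nat_lit 8) (nat_lit 5) L18593 (by decide +kernel)
theorem L18595 : W_1 (nat_lit 2) (nat_lit 0x10000800040003e0000000000000000000000) (nat_lit 0x0) (nat_lit 0xe00000000000000000000000000) := D_1 (nat_lit 106) (nat_lit 105) (nat_lit 107) (nat_lit 1) (nat_lit 7) (nat_lit 5) (nat_lit 1) (nat_lit 8) (nat_lit 5) (by decide +kernel)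
theorem L18596 : W_1 (nat_lit 3) (nat_lit 0x10000800040003c0000000000000000000000) (nat_lit 0x0) (nat_lit 0x2e00020000000000000000000000) := T_1 (nat_lit 89) (nat_lit 109) (nat_lit 3) (nat_lit 4) (nat_lit 5) L18595 (by decide +kernel)
theorem L18597 : W_1 (nat_lit 4) (nat_lit 0x1000080004000380000000000000000000000) (nat_lit 0x0) (nat_lit 0xae00060000000000000000000000) := T_1 (nat_lit 90) (nat_lit 111) (nat_lit 3) (nat_lit 5) (nat_lit 5) L18596 (by decide +kernel)
theorem L18598 : W_1 (nat_lit 2) (nat_lit 0x30000800040003e0020000000000000000000) (nat_lit 0x0) (nat_lit 0x3800000000000000000) := D_1 (nat_lit 72) (nat_lit 73) (nat_lit 71) (nat_lit 0) (nat_lit 8) (nat_lit 5) (nat_lit 0) (nat_lit 7) (nat_lit 5) (by decide +kernel)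
theorem L18599 : W_1 (nat_lit 3) (nat_lit 0x30000800040003c0020000000000000000000) (nat_lit 0x0) (nat_lit 0x2000020003800000000000000000) := T_1 (nat_lit 89) (nat_lit 109) (nat_lit 3) (nat_lit 4) (nat_lit 5) L18598 (by decide +kernel)
theorem L18600 : W_1 (nat_lit 4) (nat_lit 0x3000080004000380020000000000000000000) (nat_lit 0x0) (nat_lit 0xa000060003800000000000000000) := T_1 (nat_lit 90) (nat_lit 111) (nat_lit 3) (nat_lit 5) (nat_lit 5) L18599 (by decide +kernel)
theorem L18601 : W_1 (nat_lit 5) (nat_lit 0x3000080004000380000000000000000000000) (nat_lit 0x0) (nat_lit 0xa000460023800000000000000000) := T_1 (nat_lit 77) (nat_lit 94) (nat_lit 6) (nat_lit 8) (nat_lit 8) L18600 (by decide +kernel)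
theorem L18602 : W_1 (nat_lit 6) (nat_lit 0x1000080004000380000000000000000000000) (nat_lit 0x0) (nat_lit 0x4000200000000a000460023800000000000000000) := T_1 (nat_lit 145) (nat_lit 162) (nat_lit 7) (nat_lit 8) (nat_lit 5) L18601 (by decide +kernel)
theorem L18603 : W_1 (nat_lit 2) (nat_lit 0x300008000d000f80002000000000000000000) (nat_lit 0x0) (nat_lit 0x1000000000000c0000000000000000000) := D_1 (nat_lit 78) (nat_lit 79) (nat_lit 128) (nat_lit 2) (nat_lit 7) (nat_lit 5) (nat_lit 6) (nat_lit 9) (nat_lit 8) (by decide +kernel)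
theorem L18604 : W_1 (nat_lit 3) (nat_lit 0x300008000d000780002000000000000000000) (nat_lit 0x0) (nat_lit 0x1000020008000c0000000000000000000) := T_1 (nat_lit 95) (nat_lit 109) (nat_lit 2) (nat_lit 6) (nat_lit 6) L18603 (by decide +kernel)
theorem L18605 : W_1 (nat_lit 4) (nat_lit 0x300008000d000780000000000000000000000) (nat_lit 0x0) (nat_lit 0x1000020008000c6000000000000000000) := T_1 (nat_lit 73) (nat_lit 74) (nat_lit 0) (nat_lit 9) (nat_lit 5) L18604 (by decide +kernel)
theorem L18606 : W_1 (nat_lit 5) (nat_lit 0x300008000c000780000000000000000000000) (nat_lit 0x0) (nat_lit 0x1000038008000c6000000000000000000) := T_1 (nat_lit 108) (nat_lit 107) (nat_lit 1) (nat_lit 9) (nat_lit 5) L18605 (by decide +kernel)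
theorem L18607 : W_1 (nat_lit 6) (nat_lit 0x3000080004000780000000000000000000000) (nat_lit 0x0) (nat_lit 0x10001b8008000c6000000000000000000) := T_1 (nat_lit 111) (nat_lit 112) (nat_lit 3) (nat_lit 6) (nat_lit 5) L18606 (by decide +kernel)
theorem L18608 : W_1 (nat_lit 7) (nat_lit 0x3000080004000380000000000000000000000) (nat_lit 0x0) (nat_lit 0x10001b800c000e6000000000000000000) := T_1 (nat_lit 94) (nat_lit 77) (nat_lit 6) (nat_lit 8) (nat_lit 8) L18607 (by decide +kernel)
theorem L18609 : W_1 (nat_lit 8) (nat_lit 0x1000080004000380000000000000000000000) (nat_lit 0x0) (nat_lit 0x4000200010001b800c000e6000000000000000000) := T_1 (nat_lit 145) (nat_lit 162) (nat_lit 7) (nat_lit 8) (nat_lit 5) L18608 (by decide +kernel)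
theorem L18610 : W_1 (nat_lit 9) (nat_lit 0x1000080004000300000000000000000000000) (nat_lit 0x0) (nat_lit 0x4000200010001be00ce00e7800000000000000000) := Q_1 (nat_lit 91) (C_1 L18589 (C_1 L18594 (C_1 L18597 (C_1 L18602 (C_1 L18609 N_1))))) (by decide +kernel)
theorem L18611 : W_1 (nat_lit 10) (nat_lit 0x1000080004000200000000000000000000000) (nat_lit 0x0) (nat_lit 0x4000200010001be00de00ef800000000000000000) := T_1 (nat_lit 92) (nat_lit 75) (nat_lit 4) (nat_lit 8) (nat_lit 8) L18610 (by decide +kernel)
theorem L18612 : W_1 (nat_lit 11) (nat_lit 0x1000080004000000000000000000000000000) (nat_lit 0x0) (nat_lit 0x4000200010001be00fe00ff801400000000000000) := Q_1 (nat_lit 93) (C_1 L18151 (C_1 L180 (C_1 L18150 (C_1 L18611 N_1)))) (by decide +kernel)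
theorem L18613 : W_1 (nat_lit 6) (nat_lit 0x20001000080004000100008000000000000000000) (nat_lit 0x0) (nat_lit 0x28001c000e00000000000100008000400000000000000000000000) := T_1 (nat_lit 111) (nat_lit 94) (nat_lit 6) (nat_lit 8) (nat_lit 9) L8314 (by decide +kernel)
theorem L18614 : W_1 (nat_lit 7) (nat_lit 0x20001000080004000100000000000000000000000) (nat_lit 0x0) (nat_lit 0x28001c000e00000000000100008000600008000000000000000000) := T_1 (nat_lit 75) (nat_lit 93) (nat_lit 4) (nat_lit 8) (nat_lit 8) L18613 (by decide +kernel)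
theorem L18615 : W_1 (nat_lit 8) (nat_lit 0x20001000080004000000000000000000000000000) (nat_lit 0x0) (nat_lit 0x28001c000e0000000000010000a000700008000000000000000000) := T_1 (nat_lit 92) (nat_lit 109) (nat_lit 4) (nat_lit 8) (nat_lit 9) L18614 (by decide +kernel)
theorem L18616 : W_1 (nat_lit 2) (nat_lit 0x30001000080004000300000000000000000000000) (nat_lit 0x0) (nat_lit 0x8000400020000000000000000000) := D_1 (nat_lit 94) (nat_lit 111) (nat_lit 77) (nat_lit 6) (nat_lit 8) (nat_lit 9) (nat_lit 6) (nat_lit 8) (nat_lit 8) (by decide +kernel)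
theorem L18617 : W_1 (nat_lit 3) (nat_lit 0x30001000080004000100000000000000000000000) (nat_lit 0x0) (nat_lit 0x8000600028000000000000000000) := T_1 (nat_lit 93) (nat_lit 75) (nat_lit 4) (nat_lit 8) (nat_lit 8) L18616 (by decide +kernel)
theorem L18618 : W_1 (nat_lit 4) (nat_lit 0x30001000080004000000000000000000000000000) (nat_lit 0x0) (nat_lit 0xa000700028000000000000000000) := T_1 (nat_lit 92) (nat_lit 109) (nat_lit 4) (nat_lit 8) (nat_lit 9) L18617 (by decide +kernel)
theorem L18619 : W_1 (nat_lit 5) (nat_lit 0x20001000080004000000000000000000000000000) (nat_lit 0x0) (nat_lit 0x20001000000000000a000700028000000000000000000) := T_1 (nat_lit 160) (nat_lit 177) (nat_lit 5) (nat_lit 8) (nat_lit 6) L18618 (by decide +kernel)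
theorem L18620 : W_1 (nat_lit 2) (nat_lit 0x200020001000080006000000000000000000000000000) (nat_lit 0x0) (nat_lit 0x4000400000000000040000000000000000000000000000000) := D_1 (nat_lit 178) (nat_lit 194) (nat_lit 126) (nat_lit 5) (nat_lit 8) (nat_lit 7) (nat_lit 4) (nat_lit 8) (nat_lit 10) (by decide +kernel)
theorem L18621 : W_1 (nat_lit 3) (nat_lit 0x200020001000080004000000000000000000000000000) (nat_lit 0x0) (nat_lit 0x4000400000000000040002000100000000000000000000000) := T_1 (nat_lit 109) (nat_lit 92) (nat_lit 4) (nat_lit 8) (nat_lit 9) L18620 (by decide +kernel)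
theorem L18622 : W_1 (nat_lit 4) (nat_lit 0x20001000080004000000000000000000000000000) (nat_lit 0x0) (nat_lit 0x4000600010000000040002000100000000000000000000000) := T_1 (nat_lit 177) (nat_lit 160) (nat_lit 5) (nat_lit 8) (nat_lit 6) L18621 (by decide +kernel)
theorem L18623 : W_1 (nat_lit 3) (nat_lit 0x200020001000080004000000000000000000000000000) (nat_lit 0x0) (nat_lit 0x4000400000000000100008000400000000000000000000000) := T_1 (nat_lit 111) (nat_lit 94) (nat_lit 6) (nat_lit 8) (nat_lit 9) L8361 (by decide +kernel)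
theorem L18624 : W_1 (nat_lit 4) (nat_lit 0x20001000080004000000000000000000000000000) (nat_lit 0x0) (nat_lit 0x4000600010000000100008000400000000000000000000000) := T_1 (nat_lit 177) (nat_lit 160) (nat_lit 5) (nat_lit 8) (nat_lit 6) L18623 (by decide +kernel)
theorem L18625 : W_1 (nat_lit 2) (nat_lit 0x20001000080004000300000000000000000000000) (nat_lit 0x0) (nat_lit 0x8000400020000000000000000000) := D_1 (nat_lit 94) (nat_lit 111) (nat_lit 77) (nat_lit 6) (nat_lit 8) (nat_lit 9) (nat_lit 6) (nat_lit 8) (nat_lit 8) (by decide +kernel)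
theorem L18626 : W_1 (nat_lit 3) (nat_lit 0x20001000080004000100000000000000000000000) (nat_lit 0x0) (nat_lit 0x8000600028000000000000000000) := T_1 (nat_lit 93) (nat_lit 75) (nat_lit 4) (nat_lit 8) (nat_lit 8) L18625 (by decide +kernel)
theorem L18627 : W_1 (nat_lit 4) (nat_lit 0x20001000080004000000000000000000000000000) (nat_lit 0x0) (nat_lit 0xa000700028000000000000000000) := T_1 (nat_lit 92) (nat_lit 109) (nat_lit 4) (nat_lit 8) (nat_lit 9) L18626 (by decide +kernel)
theorem L18628 : W_1 (nat_lit 9) (nat_lit 0x1000080004000000000000000000000000000) (nat_lit 0x0) (nat_lit 0x28001c000e0003000000014000a000700028000000000000000000) := Q_1 (nat_lit 161) (C_1 L74 (C_1 L18615 (C_1 L18619 (C_1 L18622 (C_1 L18624 (C_1 L18627 N_1)))))) (by decide +kernel)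
theorem L18629 : W_1 (nat_lit 5) (nat_lit 0x1000080004000000000000000000000000000) (nat_lit 0x0) (nat_lit 0x4000e0007000200004000a000700028000000000000000000) := Q_1 (nat_lit 161) (C_1 L18627 (C_1 L18622 (C_1 L18187 N_1))) (by decide +kernel)
theorem L18630 : W_1 (nat_lit 2) (nat_lit 0x8000600020003000080004000600008000000000000000000) (nat_lit 0x0) (nat_lit 0x200010000800000000000000000000000000000000000000000000) := D_1 (nat_lit 196) (nat_lit 179) (nat_lit 213) (nat_lit 7) (nat_lit 8) (nat_lit 7) (nat_lit 7) (nat_lit 8) (nat_lit 8) (by decide +kernel)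
theorem L18631 : W_1 (nat_lit 3) (nat_lit 0x600020003000080004000600008000000000000000000) (nat_lit 0x0) (nat_lit 0x200018000800000000000100000000000000000000000000000000) := T_1 (nat_lit 195) (nat_lit 128) (nat_lit 6) (nat_lit 8) (nat_lit 11) L18630 (by decide +kernel)
theorem L18632 : W_1 (nat_lit 4) (nat_lit 0x200020003000080004000600008000000000000000000) (nat_lit 0x0) (nat_lit 0x20001c000c00000000000100000000000000000000000000000000) := T_1 (nat_lit 178) (nat_lit 194) (nat_lit 5) (nat_lit 8) (nat_lit 7) L18631 (by decide +kernel)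
theorem L18633 : W_1 (nat_lit 5) (nat_lit 0x20003000080004000600008000000000000000000) (nat_lit 0x0) (nat_lit 0x20001c000e00010000000100000000000000000000000000000000) := T_1 (nat_lit 177) (nat_lit 160) (nat_lit 5) (nat_lit 8) (nat_lit 6) L18632 (by decide +kernel)
theorem L18634 : W_1 (nat_lit 6) (nat_lit 0x3000080004000600008000000000000000000) (nat_lit 0x0) (nat_lit 0x20001c000e00030000000100008000000000000000000000000000) := T_1 (nat_lit 161) (nat_lit 111) (nat_lit 6) (nat_lit 8) (nat_lit 9) L18633 (by decide +kernel)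
theorem L18635 : W_1 (nat_lit 7) (nat_lit 0x1000080004000600008000000000000000000) (nat_lit 0x0) (nat_lit 0x20001c000e00070002000100008000000000000000000000000000) := T_1 (nat_lit 145) (nat_lit 162) (nat_lit 7) (nat_lit 8) (nat_lit 5) L18634 (by decide +kernel)
theorem L18636 : W_1 (nat_lit 8) (nat_lit 0x1000080004000200008000000000000000000) (nat_lit 0x0) (nat_lit 0x20001c000e00070002000100008000400020000000000000000000) := T_1 (nat_lit 94) (nat_lit 77) (nat_lit 6) (nat_lit 8) (nat_lit 8) L18635 (by decide +kernel)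
theorem L18637 : W_1 (nat_lit 9) (nat_lit 0x1000080004000200000000000000000000000) (nat_lit 0x0) (nat_lit 0x20001c000e00070002000100008000500028000000000000000000) := T_1 (nat_lit 75) (nat_lit 92) (nat_lit 4) (nat_lit 8) (nat_lit 8) L18636 (by decide +kernel)
theorem L18638 : W_1 (nat_lit 10) (nat_lit 0x1000080004000000000000000000000000000) (nat_lit 0x0) (nat_lit 0x20001c000e00070002000100008000700038001400000000000000) := Q_1 (nat_lit 93) (C_1 L18151 (C_1 L180 (C_1 L18150 (C_1 L18637 N_1)))) (by decide +kernel)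
theorem L18639 : W_1 (nat_lit 2) (nat_lit 0x600060003000080004000000000000000000000000000) (nat_lit 0x0) (nat_lit 0x8000000000000000100008000000000000000000000000000) := D_1 (nat_lit 128) (nat_lit 111) (nat_lit 195) (nat_lit 6) (nat_lit 8) (nat_lit 10) (nat_lit 6) (nat_lit 8) (nat_lit 11) (by decide +kernel)
theorem L18640 : W_1 (nat_lit 3) (nat_lit 0x200060003000080004000000000000000000000000000) (nat_lit 0x0) (nat_lit 0xc000400000000000100008000000000000000000000000000) := T_1 (nat_lit 178) (nat_lit 194) (nat_lit 5) (nat_lit 8) (nat_lit 7) L18639 (by decide +kernel)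
theorem L18641 : W_1 (nat_lit 4) (nat_lit 0x60003000080004000000000000000000000000000) (nat_lit 0x0) (nat_lit 0xc000600010000000100008000000000000000000000000000) := T_1 (nat_lit 177) (nat_lit 160) (nat_lit 5) (nat_lit 8) (nat_lit 6) L18640 (by decide +kernel)
theorem L18642 : W_1 (nat_lit 5) (nat_lit 0x60001000080004000000000000000000000000000) (nat_lit 0x0) (nat_lit 0xc000600010002000100008000200000000000000000000000) := T_1 (nat_lit 145) (nat_lit 93) (nat_lit 7) (nat_lit 8) (nat_lit 5) L18641 (by decide +kernel)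
theorem L18643 : W_1 (nat_lit 6) (nat_lit 0x20001000080004000000000000000000000000000) (nat_lit 0x0) (nat_lit 0xc000e00050002000100008000200000000000000000000000) := T_1 (nat_lit 162) (nat_lit 179) (nat_lit 7) (nat_lit 8) (nat_lit 6) L18642 (by decide +kernel)
theorem L18644 : W_1 (nat_lit 5) (nat_lit 0x20001000080004000000000000000000000000000) (nat_lit 0x0) (nat_lit 0xa00050002000000002000300008000000000000000000) := T_1 (nat_lit 160) (nat_lit 177) (nat_lit 5) (nat_lit 8) (nat_lit 6) L300 (by decide +kernel)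
theorem L18645 : W_1 (nat_lit 2) (nat_lit 0x20001000080004000300000000000000000000000) (nat_lit 0x0) (nat_lit 0x800040002000000000000000000000000000000000000) := D_1 (nat_lit 162) (nat_lit 179) (nat_lit 145) (nat_lit 7) (nat_lit 8) (nat_lit 6) (nat_lit 7) (nat_lit 8) (nat_lit 5) (by decide +kernel)
theorem L18646 : W_1 (nat_lit 3) (nat_lit 0x20001000080004000100000000000000000000000) (nat_lit 0x0) (nat_lit 0x800040002000000000000200008000000000000000000) := T_1 (nat_lit 93) (nat_lit 75) (nat_lit 4) (nat_lit 8) (nat_lit 8) L18645 (by decide +kernel)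
theorem L18647 : W_1 (nat_lit 4) (nat_lit 0x20001000080004000000000000000000000000000) (nat_lit 0x0) (nat_lit 0x800040002000000002000300008000000000000000000) := T_1 (nat_lit 92) (nat_lit 109) (nat_lit 4) (nat_lit 8) (nat_lit 9) L18646 (by decide +kernel)
theorem L18648 : W_1 (nat_lit 9) (nat_lit 0x1000080004000000000000000000000000000) (nat_lit 0x0) (nat_lit 0x8001c000e0007000200014000a000300008000000000000000000) := Q_1 (nat_lit 161) (C_1 L18622 (C_1 L18163 (C_1 L18643 (C_1 L18644 (C_1 L18647 N_1))))) (by decide +kernel)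
theorem L18649 : W_1 (nat_lit 2) (nat_lit 0x600060003000080004000000000000000000000000000) (nat_lit 0x0) (nat_lit 0x100008000000000000000100000000000000000000000000000000) := D_1 (nat_lit 195) (nat_lit 128) (nat_lit 212) (nat_lit 6) (nat_lit 8) (nat_lit 11) (nat_lit 6) (nat_lit 8) (nat_lit 12) (by decide +kernel)
theorem L18650 : W_1 (nat_lit 3) (nat_lit 0x200060003000080004000000000000000000000000000) (nat_lit 0x0) (nat_lit 0x10000c000400000000000100000000000000000000000000000000) := T_1 (nat_lit 178) (nat_lit 194) (nat_lit 5) (nat_lit 8) (nat_lit 7) L18649 (by decide +kernel)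
theorem L18651 : W_1 (nat_lit 4) (nat_lit 0x200060001000080004000000000000000000000000000) (nat_lit 0x0) (nat_lit 0x10000c000400000002000100000000200000000000000000000000) := T_1 (nat_lit 145) (nat_lit 93) (nat_lit 7) (nat_lit 8) (nat_lit 5) L18650 (by decide +kernel)
theorem L18652 : W_1 (nat_lit 5) (nat_lit 0x200020001000080004000000000000000000000000000) (nat_lit 0x0) (nat_lit 0x10000c000c00040002000100000000200000000000000000000000) := T_1 (nat_lit 162) (nat_lit 179) (nat_lit 7) (nat_lit 8) (nat_lit 6) L18651 (by decide +kernel)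
theorem L18653 : W_1 (nat_lit 6) (nat_lit 0x20001000080004000000000000000000000000000) (nat_lit 0x0) (nat_lit 0x10000c000e00050002000100000000200000000000000000000000) := T_1 (nat_lit 177) (nat_lit 160) (nat_lit 5) (nat_lit 8) (nat_lit 6) L18652 (by decide +kernel)
theorem L18654 : W_1 (nat_lit 7) (nat_lit 0x1000080004000000000000000000000000000) (nat_lit 0x0) (nat_lit 0x10000c000e00070002000100008000600020000000000000000000) := Q_1 (nat_lit 161) (C_1 L18643 (C_1 L18624 (C_1 L18187 (C_1 L18653 N_1)))) (by decide +kernel)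
theorem L18740 : W_1 (nat_lit 2) (nat_lit 0x200010000d0004000000000000000000000000000) (nat_lit 0x0) (nat_lit 0x2000020008000000000000000000000000000) := D_1 (nat_lit 125) (nat_lit 145) (nat_lit 111) (nat_lit 3) (nat_lit 5) (nat_lit 7) (nat_lit 2) (nat_lit 5) (nat_lit 7) (by decide +kernel)
theorem L18748 : W_1 (nat_lit 2) (nat_lit 0x200010000c001c000000000000000000000000000) (nat_lit 0x0) (nat_lit 0x20002000100000000000000000000000) := D_1 (nat_lit 109) (nat_lit 125) (nat_lit 92) (nat_lit 1) (nat_lit 10) (nat_lit 6) (nat_lit 4) (nat_lit 8) (nat_lit 9) (by decide +kernel)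
theorem L18749 : W_1 (nat_lit 3) (nat_lit 0x200010000c000c000000000000000000000000000) (nat_lit 0x0) (nat_lit 0x20032000100000000000000000000000) := T_1 (nat_lit 112) (nat_lit 113) (nat_lit 1) (nat_lit 11) (nat_lit 6) L18748 (by decide +kernel)
theorem L18986 : W_1 (nat_lit 2) (nat_lit 0x20001000080007c00000000000000000000000000) (nat_lit 0x0) (nat_lit 0x1c000000000000000000000000000000) := D_1 (nat_lit 123) (nat_lit 122) (nat_lit 124) (nat_lit 1) (nat_lit 7) (nat_lit 6) (nat_lit 1) (nat_lit 8) (nat_lit 6) (by decide +kernel)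
theorem L18987 : W_1 (nat_lit 3) (nat_lit 0x20001000080007800000000000000000000000000) (nat_lit 0x0) (nat_lit 0x5c000400000000000000000000000000) := T_1 (nat_lit 106) (nat_lit 126) (nat_lit 3) (nat_lit 4) (nat_lit 6) L18986 (by decide +kernel)
theorem L18988 : W_1 (nat_lit 4) (nat_lit 0x20001000080007000000000000000000000000000) (nat_lit 0x0) (nat_lit 0x15c000c00000000000000000000000000) := T_1 (nat_lit 107) (nat_lit 128) (nat_lit 3) (nat_lit 5) (nat_lit 6) L18987 (by decide +kernel)
theorem L18995 : W_1 (nat_lit 2) (nat_lit 0x7000100009000f800000000000000000000000000) (nat_lit 0x0) (nat_lit 0xe0000000000000000000000) := D_1 (nat_lit 90) (nat_lit 89) (nat_lit 91) (nat_lit 0) (nat_lit 8) (nat_lit 6) (nat_lit 0) (nat_lit 9) (nat_lit 6) (by decide +kernel)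
theorem L18996 : W_1 (nat_lit 3) (nat_lit 0x7000100009000f000000000000000000000000000) (nat_lit 0x0) (nat_lit 0x80008000e0000000000000000000000) := T_1 (nat_lit 107) (nat_lit 123) (nat_lit 1) (nat_lit 8) (nat_lit 6) L18995 (by decide +kernel)
theorem L18997 : W_1 (nat_lit 4) (nat_lit 0x7000100008000f000000000000000000000000000) (nat_lit 0x0) (nat_lit 0x380008000e0000000000000000000000) := T_1 (nat_lit 124) (nat_lit 125) (nat_lit 1) (nat_lit 9) (nat_lit 6) L18996 (by decide +kernel)
theorem L18998 : W_1 (nat_lit 5) (nat_lit 0x70001000080007000000000000000000000000000) (nat_lit 0x0) (nat_lit 0x380088004e0000000000000000000000) := T_1 (nat_lit 111) (nat_lit 94) (nat_lit 6) (nat_lit 8) (nat_lit 9) L18997 (by decide +kernel)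
theorem L18999 : W_1 (nat_lit 6) (nat_lit 0x60001000080007000000000000000000000000000) (nat_lit 0x0) (nat_lit 0x2000100000000380088004e0000000000000000000000) := T_1 (nat_lit 160) (nat_lit 177) (nat_lit 5) (nat_lit 8) (nat_lit 6) L18998 (by decide +kernel)
theorem L19000 : W_1 (nat_lit 7) (nat_lit 0x20001000080007000000000000000000000000000) (nat_lit 0x0) (nat_lit 0xa000500000000380088004e0000000000000000000000) := T_1 (nat_lit 162) (nat_lit 179) (nat_lit 7) (nat_lit 8) (nat_lit 6) L18999 (by decide +kernel)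
theorem L19001 : W_1 (nat_lit 2) (nat_lit 0x20001000080007c00400000000000000000000000) (nat_lit 0x0) (nat_lit 0x70000000000000000000000) := D_1 (nat_lit 89) (nat_lit 90) (nat_lit 88) (nat_lit 0) (nat_lit 8) (nat_lit 6) (nat_lit 0) (nat_lit 7) (nat_lit 6) (by decide +kernel)
theorem L19002 : W_1 (nat_lit 3) (nat_lit 0x20001000080007800400000000000000000000000) (nat_lit 0x0) (nat_lit 0x40000400070000000000000000000000) := T_1 (nat_lit 106) (nat_lit 126) (nat_lit 3) (nat_lit 4) (nat_lit 6) L19001 (by decide +kernel)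
theorem L19003 : W_1 (nat_lit 4) (nat_lit 0x20001000080007000400000000000000000000000) (nat_lit 0x0) (nat_lit 0x140000c00070000000000000000000000) := T_1 (nat_lit 107) (nat_lit 128) (nat_lit 3) (nat_lit 5) (nat_lit 6) L19002 (by decide +kernel)
theorem L19004 : W_1 (nat_lit 5) (nat_lit 0x20001000080007000000000000000000000000000) (nat_lit 0x0) (nat_lit 0x140008c00470000000000000000000000) := T_1 (nat_lit 94) (nat_lit 111) (nat_lit 6) (nat_lit 8) (nat_lit 9) L19003 (by decide +kernel)
theorem L19005 : W_1 (nat_lit 2) (nat_lit 0x7000100029001f001040000000000000000000000) (nat_lit 0x0) (nat_lit 0x40020002000000000000000000000000) := D_1 (nat_lit 113) (nat_lit 126) (nat_lit 97) (nat_lit 1) (nat_lit 11) (nat_lit 6) (nat_lit 2) (nat_lit 8) (nat_lit 6) (by decide +kernel)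
theorem L19006 : W_1 (nat_lit 3) (nat_lit 0x7000100029001f000040000000000000000000000) (nat_lit 0x0) (nat_lit 0x40020003800000000000000000000000) := T_1 (nat_lit 96) (nat_lit 95) (nat_lit 2) (nat_lit 7) (nat_lit 6) L19005 (by decide +kernel)
theorem L19007 : W_1 (nat_lit 4) (nat_lit 0x7000100029000f000040000000000000000000000) (nat_lit 0x0) (nat_lit 0x440030003800000000000000000000000) := T_1 (nat_lit 112) (nat_lit 130) (nat_lit 3) (nat_lit 7) (nat_lit 6) L19006 (by decide +kernel)
theorem L19008 : W_1 (nat_lit 5) (nat_lit 0x7000100009000f000040000000000000000000000) (nat_lit 0x0) (nat_lit 0x740030003800000000000000000000000) := T_1 (nat_lit 129) (nat_lit 128) (nat_lit 3) (nat_lit 6) (nat_lit 6) L19007 (by decide +kernel)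
theorem L19009 : W_1 (nat_lit 6) (nat_lit 0x7000100009000f000000000000000000000000000) (nat_lit 0x0) (nat_lit 0x7400300038c0000000000000000000000) := T_1 (nat_lit 90) (nat_lit 91) (nat_lit 0) (nat_lit 9) (nat_lit 6) L19008 (by decide +kernel)
theorem L19010 : W_1 (nat_lit 7) (nat_lit 0x7000100008000f000000000000000000000000000) (nat_lit 0x0) (nat_lit 0x7700300038c0000000000000000000000) := T_1 (nat_lit 124) (nat_lit 125) (nat_lit 1) (nat_lit 9) (nat_lit 6) L19009 (by decide +kernel)
theorem L19011 : W_1 (nat_lit 8) (nat_lit 0x6000100008000f000000000000000000000000000) (nat_lit 0x0) (nat_lit 0x2000100000007700300038c0000000000000000000000) := T_1 (nat_lit 160) (nat_lit 177) (nat_lit 5) (nat_lit 8) (nat_lit 6) L19010 (by decide +kernel)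
theorem L19012 : W_1 (nat_lit 9) (nat_lit 0x60001000080007000000000000000000000000000) (nat_lit 0x0) (nat_lit 0x200010000000770038003cc0000000000000000000000) := T_1 (nat_lit 111) (nat_lit 94) (nat_lit 6) (nat_lit 8) (nat_lit 9) L19011 (by decide +kernel)
theorem L19013 : W_1 (nat_lit 10) (nat_lit 0x20001000080007000000000000000000000000000) (nat_lit 0x0) (nat_lit 0xa00050000000770038003cc0000000000000000000000) := T_1 (nat_lit 162) (nat_lit 179) (nat_lit 7) (nat_lit 8) (nat_lit 6) L19012 (by decide +kernel)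
theorem L19281 : W_1 (nat_lit 11) (nat_lit 0x20001000080006000000000000000000000000000) (nat_lit 0x0) (nat_lit 0xa0005000000077c039c03cf0000000000000000000000) := Q_1 (nat_lit 108) (C_1 L19004 (C_1 L19013 (C_1 L19000 (C_1 L18988 N_1)))) (by decide +kernel)
theorem L19282 : W_1 (nat_lit 12) (nat_lit 0x20001000080004000000000000000000000000000) (nat_lit 0x0) (nat_lit 0xa0005000000077c03bc03df0000000000000000000000) := T_1 (nat_lit 109) (nat_lit 92) (nat_lit 4) (nat_lit 8) (nat_lit 9) L19281 (by decide +kernel)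
theorem L19283 : W_1 (nat_lit 13) (nat_lit 0x1000080004000000000000000000000000000) (nat_lit 0x0) (nat_lit 0x14000e0007000000077c03bc03df0000000000000000000000) := Q_1 (nat_lit 161) (C_1 L18624 (C_1 L18622 (C_1 L70 (C_1 L19282 N_1)))) (by decide +kernel)
theorem L19284 : W_1 (nat_lit 14) (nat_lit 0x1000080000000000000000000000000000000) (nat_lit 0x0) (nat_lit 0x38001c000e0007000200077c03fe03ff00ff801400000000000000) := Q_1 (nat_lit 110) (C_1 L18612 (C_1 L18628 (C_1 L18629 (C_1 L18156 (C_1 L18638 (C_1 L18648 (C_1 L18654 (C_1 L19283 N_1)))))))) (by decide +kernel)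
theorem L19285 : W_1 (nat_lit 2) (nat_lit 0x1800080006000e00000000000000000000000) (nat_lit 0x0) (nat_lit 0x1000100008000000000000000000) := D_1 (nat_lit 92) (nat_lit 108) (nat_lit 75) (nat_lit 1) (nat_lit 10) (nat_lit 5) (nat_lit 4) (nat_lit 8) (nat_lit 8) (by decide +kernel)
theorem L19286 : W_1 (nat_lit 3) (nat_lit 0x1800080006000600000000000000000000000) (nat_lit 0x0) (nat_lit 0x1001900008000000000000000000) := T_1 (nat_lit 95) (nat_lit 96) (nat_lit 1) (nat_lit 11) (nat_lit 5) L19285 (by decide +kernel)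
theorem L19287 : W_1 (nat_lit 4) (nat_lit 0x1000080006000600000000000000000000000) (nat_lit 0x0) (nat_lit 0x10000800000001001900008000000000000000000) := T_1 (nat_lit 143) (nat_lit 160) (nat_lit 5) (nat_lit 8) (nat_lit 5) L19286 (by decide +kernel)
theorem L19288 : W_1 (nat_lit 5) (nat_lit 0x1000080006000200000000000000000000000) (nat_lit 0x0) (nat_lit 0x10000800000001001d00028000000000000000000) := T_1 (nat_lit 94) (nat_lit 77) (nat_lit 6) (nat_lit 8) (nat_lit 8) L19287 (by decide +kernel)
theorem L19310 : W_1 (nat_lit 2) (nat_lit 0x1c00180006000200000000000000000000000) (nat_lit 0x0) (nat_lit 0x640000000000000000000000000000000) := D_1 (nat_lit 129) (nat_lit 130) (nat_lit 126) (nat_lit 1) (nat_lit 11) (nat_lit 7) (nat_lit 1) (nat_lit 10) (nat_lit 7) (by decide +kernel)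
theorem L19311 : W_1 (nat_lit 3) (nat_lit 0x1800180006000200000000000000000000000) (nat_lit 0x0) (nat_lit 0x600640000000000000000000000000000000) := T_1 (nat_lit 142) (nat_lit 141) (nat_lit 2) (nat_lit 5) (nat_lit 8) L19310 (by decide +kernel)
theorem L19312 : W_1 (nat_lit 4) (nat_lit 0x1000180006000200000000000000000000000) (nat_lit 0x0) (nat_lit 0x10000e00640000000000000000000000000000000) := T_1 (nat_lit 143) (nat_lit 160) (nat_lit 5) (nat_lit 8) (nat_lit 5) L19311 (by decide +kernel)
theorem L19313 : W_1 (nat_lit 2) (nat_lit 0x1c001c0006800380000000000000000000000) (nat_lit 0x0) (nat_lit 0x8400040000000000000000000000) := D_1 (nat_lit 90) (nat_lit 111) (nat_lit 106) (nat_lit 3) (nat_lit 5) (nat_lit 5) (nat_lit 1) (nat_lit 8) (nat_lit 5) (by decide +kernel)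
theorem L19314 : W_1 (nat_lit 3) (nat_lit 0x1c001c0006800300000000000000000000000) (nat_lit 0x0) (nat_lit 0x84000c0004000000000000000000) := T_1 (nat_lit 91) (nat_lit 74) (nat_lit 4) (nat_lit 7) (nat_lit 8) L19313 (by decide +kernel)
theorem L19315 : W_1 (nat_lit 4) (nat_lit 0x1c00180006800300000000000000000000000) (nat_lit 0x0) (nat_lit 0x80000000400084000c0004000000000000000000) := T_1 (nat_lit 126) (nat_lit 159) (nat_lit 5) (nat_lit 7) (nat_lit 5) L19314 (by decide +kernel)
theorem L19316 : W_1 (nat_lit 5) (nat_lit 0x1800180006800300000000000000000000000) (nat_lit 0x0) (nat_lit 0x80006000400084000c0004000000000000000000) := T_1 (nat_lit 142) (nat_lit 141) (nat_lit 2) (nat_lit 5) (nat_lit 8) L19315 (by decide +kernel)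
theorem L19317 : W_1 (nat_lit 6) (nat_lit 0x1000180006800300000000000000000000000) (nat_lit 0x0) (nat_lit 0x18000e000400084000c0004000000000000000000) := T_1 (nat_lit 143) (nat_lit 160) (nat_lit 5) (nat_lit 8) (nat_lit 5) L19316 (by decide +kernel)
theorem L19318 : W_1 (nat_lit 7) (nat_lit 0x1000180006800200000000000000000000000) (nat_lit 0x0) (nat_lit 0x18000e000400084001c000c000000000000000000) := T_1 (nat_lit 92) (nat_lit 75) (nat_lit 4) (nat_lit 8) (nat_lit 8) L19317 (by decide +kernel)
theorem L19319 : W_1 (nat_lit 8) (nat_lit 0x1000180006000200000000000000000000000) (nat_lit 0x0) (nat_lit 0x18000e00040009c001c000c000000000000000000) := T_1 (nat_lit 107) (nat_lit 108) (nat_lit 3) (nat_lit 5) (nat_lit 6) L19318 (by decide +kernel)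
theorem L19321 : W_1 (nat_lit 2) (nat_lit 0x1800080007000600000000000000000000000) (nat_lit 0x0) (nat_lit 0x8001800000000000000000000000) := D_1 (nat_lit 95) (nat_lit 96) (nat_lit 111) (nat_lit 1) (nat_lit 11) (nat_lit 5) (nat_lit 2) (nat_lit 6) (nat_lit 6) (by decide +kernel)
theorem L19322 : W_1 (nat_lit 3) (nat_lit 0x1800080006000600000000000000000000000) (nat_lit 0x0) (nat_lit 0x9801800000000000000000000000) := T_1 (nat_lit 108) (nat_lit 107) (nat_lit 2) (nat_lit 5) (nat_lit 6) L19321 (by decide +kernel)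
theorem L19323 : W_1 (nat_lit 4) (nat_lit 0x1800080006000200000000000000000000000) (nat_lit 0x0) (nat_lit 0x9801c00020000000000000000000) := T_1 (nat_lit 94) (nat_lit 77) (nat_lit 6) (nat_lit 8) (nat_lit 8) L19322 (by decide +kernel)
theorem L19324 : W_1 (nat_lit 5) (nat_lit 0x1000080006000200000000000000000000000) (nat_lit 0x0) (nat_lit 0x10000800000009801c00020000000000000000000) := T_1 (nat_lit 143) (nat_lit 160) (nat_lit 5) (nat_lit 8) (nat_lit 5) L19323 (by decide +kernel)
theorem L19325 : W_1 (nat_lit 2) (nat_lit 0x1800080016000f80000000000000000000000) (nat_lit 0x0) (nat_lit 0x40000000000006000000000000000000) := D_1 (nat_lit 74) (nat_lit 126) (nat_lit 73) (nat_lit 4) (nat_lit 7) (nat_lit 8) (nat_lit 0) (nat_lit 9) (nat_lit 5) (by decide +kernel)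
theorem L19326 : W_1 (nat_lit 3) (nat_lit 0x1800080016000f00000000000000000000000) (nat_lit 0x0) (nat_lit 0x40008000080006000000000000000000) := T_1 (nat_lit 91) (nat_lit 111) (nat_lit 3) (nat_lit 6) (nat_lit 5) L19325 (by decide +kernel)
theorem L19327 : W_1 (nat_lit 4) (nat_lit 0x1800080006000f00000000000000000000000) (nat_lit 0x0) (nat_lit 0x40038000080006000000000000000000) := T_1 (nat_lit 112) (nat_lit 113) (nat_lit 3) (nat_lit 7) (nat_lit 5) L19326 (by decide +kernel)
theorem L19328 : W_1 (nat_lit 5) (nat_lit 0x1000080006000f00000000000000000000000) (nat_lit 0x0) (nat_lit 0x10000800040038000080006000000000000000000) := T_1 (nat_lit 143) (nat_lit 160) (nat_lit 5) (nat_lit 8) (nat_lit 5) L19327 (by decide +kernel)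
theorem L19329 : W_1 (nat_lit 6) (nat_lit 0x1000080006000700000000000000000000000) (nat_lit 0x0) (nat_lit 0x10000800040038001880006000000000000000000) := T_1 (nat_lit 95) (nat_lit 96) (nat_lit 1) (nat_lit 11) (nat_lit 5) L19328 (by decide +kernel)
theorem L19330 : W_1 (nat_lit 7) (nat_lit 0x1000080006000600000000000000000000000) (nat_lit 0x0) (nat_lit 0x1000080004003800198000e000000000000000000) := T_1 (nat_lit 92) (nat_lit 75) (nat_lit 4) (nat_lit 8) (nat_lit 8) L19329 (by decide +kernel)
theorem L19331 : W_1 (nat_lit 8) (nat_lit 0x1000080006000200000000000000000000000) (nat_lit 0x0) (nat_lit 0x10000800040038001d8002e000000000000000000) := T_1 (nat_lit 94) (nat_lit 77) (nat_lit 6) (nat_lit 8) (nat_lit 8) L19330 (by decide +kernel)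
theorem L19985 : W_1 (nat_lit 2) (nat_lit 0x3800080014800f80082000000000000000000) (nat_lit 0x0) (nat_lit 0x2001000100000000000000000000) := D_1 (nat_lit 96) (nat_lit 109) (nat_lit 80) (nat_lit 1) (nat_lit 11) (nat_lit 5) (nat_lit 2) (nat_lit 8) (nat_lit 5) (by decide +kernel)
theorem L19986 : W_1 (nat_lit 3) (nat_lit 0x3800080014800f80002000000000000000000) (nat_lit 0x0) (nat_lit 0x20010001c0000000000000000000) := T_1 (nat_lit 79) (nat_lit 78) (nat_lit 2) (nat_lit 7) (nat_lit 5) L19985 (by decide +kernel)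
theorem L19987 : W_1 (nat_lit 4) (nat_lit 0x3800080014800780002000000000000000000) (nat_lit 0x0) (nat_lit 0x220018001c0000000000000000000) := T_1 (nat_lit 95) (nat_lit 113) (nat_lit 3) (nat_lit 7) (nat_lit 5) L19986 (by decide +kernel)
theorem L19988 : W_1 (nat_lit 5) (nat_lit 0x1800080014800780002000000000000000000) (nat_lit 0x0) (nat_lit 0x400020000000220018001c0000000000000000000) := T_1 (nat_lit 145) (nat_lit 162) (nat_lit 7) (nat_lit 8) (nat_lit 5) L19987 (by decide +kernel)
theorem L19989 : W_1 (nat_lit 6) (nat_lit 0x1800080004800780002000000000000000000) (nat_lit 0x0) (nat_lit 0x4000200000003a0018001c0000000000000000000) := T_1 (nat_lit 112) (nat_lit 111) (nat_lit 3) (nat_lit 6) (nat_lit 5) L19988 (by decide +kernel)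
theorem L19990 : W_1 (nat_lit 7) (nat_lit 0x1800080004800780000000000000000000000) (nat_lit 0x0) (nat_lit 0x4000200000003a0018001c6000000000000000000) := T_1 (nat_lit 73) (nat_lit 74) (nat_lit 0) (nat_lit 9) (nat_lit 5) L19989 (by decide +kernel)
theorem L19991 : W_1 (nat_lit 8) (nat_lit 0x1800080004000780000000000000000000000) (nat_lit 0x0) (nat_lit 0x4000200000003b8018001c6000000000000000000) := T_1 (nat_lit 107) (nat_lit 108) (nat_lit 1) (nat_lit 9) (nat_lit 5) L19990 (by decide +kernel)
theorem L19992 : W_1 (nat_lit 9) (nat_lit 0x1000080004000780000000000000000000000) (nat_lit 0x0) (nat_lit 0x5000280000003b8018001c6000000000000000000) := T_1 (nat_lit 143) (nat_lit 160) (nat_lit 5) (nat_lit 8) (nat_lit 5) L19991 (by decide +kernel)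
theorem L19993 : W_1 (nat_lit 10) (nat_lit 0x1000080004000380000000000000000000000) (nat_lit 0x0) (nat_lit 0x5000280000003b801c001e6000000000000000000) := T_1 (nat_lit 94) (nat_lit 77) (nat_lit 6) (nat_lit 8) (nat_lit 8) L19992 (by decide +kernel)
theorem L19994 : W_1 (nat_lit 11) (nat_lit 0x1000080004000300000000000000000000000) (nat_lit 0x0) (nat_lit 0x5000280000003be01ce01e7800000000000000000) := Q_1 (nat_lit 91) (C_1 L18594 (C_1 L18602 (C_1 L18597 (C_1 L19993 N_1)))) (by decide +kernel)
theorem L19995 : W_1 (nat_lit 12) (nat_lit 0x1000080004000200000000000000000000000) (nat_lit 0x0) (nat_lit 0x5000280000003be01de01ef800000000000000000) := T_1 (nat_lit 92) (nat_lit 75) (nat_lit 4) (nat_lit 8) (nat_lit 8) L19994 (by decide +kernel)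
theorem L19996 : W_1 (nat_lit 13) (nat_lit 0x1000080004000000000000000000000000000) (nat_lit 0x0) (nat_lit 0x5000280004003be01fe01ff801400000000000000) := Q_1 (nat_lit 93) (C_1 L180 (C_1 L18142 (C_1 L18141 (C_1 L19995 N_1)))) (by decide +kernel)
theorem L20356 : W_1 (nat_lit 2) (nat_lit 0x100008000c000700000000000000000000000) (nat_lit 0x0) (nat_lit 0x30000080000000000000000000000) := D_1 (nat_lit 112) (nat_lit 113) (nat_lit 91) (nat_lit 0) (nat_lit 11) (nat_lit 6) (nat_lit 3) (nat_lit 6) (nat_lit 5) (by decide +kernel)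
theorem L20357 : W_1 (nat_lit 3) (nat_lit 0x100008000c000300000000000000000000000) (nat_lit 0x0) (nat_lit 0x30000480020000000000000000000) := T_1 (nat_lit 94) (nat_lit 77) (nat_lit 6) (nat_lit 8) (nat_lit 8) L20356 (by decide +kernel)
theorem L20358 : W_1 (nat_lit 2) (nat_lit 0x38000800044003e0000000000000000000000) (nat_lit 0x0) (nat_lit 0x3800000000000000000) := D_1 (nat_lit 72) (nat_lit 71) (nat_lit 73) (nat_lit 0) (nat_lit 7) (nat_lit 5) (nat_lit 0) (nat_lit 8) (nat_lit 5) (by decide +kernel)
theorem L20359 : W_1 (nat_lit 3) (nat_lit 0x38000800044003c0000000000000000000000) (nat_lit 0x0) (nat_lit 0x200020003800000000000000000) := T_1 (nat_lit 89) (nat_lit 105) (nat_lit 1) (nat_lit 7) (nat_lit 5) L20358 (by decide +kernel)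
theorem L20360 : W_1 (nat_lit 4) (nat_lit 0x38000800040003c0000000000000000000000) (nat_lit 0x0) (nat_lit 0xe00020003800000000000000000) := T_1 (nat_lit 106) (nat_lit 107) (nat_lit 1) (nat_lit 8) (nat_lit 5) L20359 (by decide +kernel)
theorem L20361 : W_1 (nat_lit 5) (nat_lit 0x3800080004000380000000000000000000000) (nat_lit 0x0) (nat_lit 0x8e00060003800000000000000000) := T_1 (nat_lit 90) (nat_lit 111) (nat_lit 3) (nat_lit 5) (nat_lit 5) L20360 (by decide +kernel)
theorem L20362 : W_1 (nat_lit 6) (nat_lit 0x1800080004000380000000000000000000000) (nat_lit 0x0) (nat_lit 0x40002000000008e00060003800000000000000000) := T_1 (nat_lit 145) (nat_lit 162) (nat_lit 7) (nat_lit 8) (nat_lit 5) L20361 (by decide +kernel)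
theorem L20363 : W_1 (nat_lit 7) (nat_lit 0x1000080004000380000000000000000000000) (nat_lit 0x0) (nat_lit 0x50002800000008e00060003800000000000000000) := T_1 (nat_lit 143) (nat_lit 160) (nat_lit 5) (nat_lit 8) (nat_lit 5) L20362 (by decide +kernel)
theorem L20364 : W_1 (nat_lit 2) (nat_lit 0x10000800040003c0002000000000000000000) (nat_lit 0x0) (nat_lit 0x400024000000000000000000) := D_1 (nat_lit 94) (nat_lit 77) (nat_lit 74) (nat_lit 6) (nat_lit 8) (nat_lit 8) (nat_lit 0) (nat_lit 9) (nat_lit 5) (by decide +kernel)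
theorem L20365 : W_1 (nat_lit 3) (nat_lit 0x10000800040003c0000000000000000000000) (nat_lit 0x0) (nat_lit 0x400027000000000000000000) := T_1 (nat_lit 73) (nat_lit 72) (nat_lit 0) (nat_lit 8) (nat_lit 5) L20364 (by decide +kernel)
theorem L20366 : W_1 (nat_lit 4) (nat_lit 0x1000080004000380000000000000000000000) (nat_lit 0x0) (nat_lit 0x8000440027000000000000000000) := T_1 (nat_lit 90) (nat_lit 111) (nat_lit 3) (nat_lit 5) (nat_lit 5) L20365 (by decide +kernel)
theorem L20367 : W_1 (nat_lit 2) (nat_lit 0x38000a000d000780004000000000000000000) (nat_lit 0x0) (nat_lit 0x600010000000000000000000000000000000) := D_1 (nat_lit 124) (nat_lit 141) (nat_lit 142) (nat_lit 5) (nat_lit 6) (nat_lit 4) (nat_lit 0) (nat_lit 9) (nat_lit 8) (by decide +kernel)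
theorem L20368 : W_1 (nat_lit 3) (nat_lit 0x380008000d000780004000000000000000000) (nat_lit 0x0) (nat_lit 0x600070000000000000000000000000000000) := T_1 (nat_lit 125) (nat_lit 126) (nat_lit 7) (nat_lit 6) (nat_lit 4) L20367 (by decide +kernel)
theorem L20369 : W_1 (nat_lit 4) (nat_lit 0x3800080005000780004000000000000000000) (nat_lit 0x0) (nat_lit 0x600070018000000000000000000000000000) := T_1 (nat_lit 111) (nat_lit 112) (nat_lit 3) (nat_lit 6) (nat_lit 5) L20368 (by decide +kernel)
theorem L20370 : W_1 (nat_lit 5) (nat_lit 0x3800080005000780000000000000000000000) (nat_lit 0x0) (nat_lit 0x600070018000000006000000000000000000) := T_1 (nat_lit 74) (nat_lit 73) (nat_lit 0) (nat_lit 9) (nat_lit 5) L20369 (by decide +kernel)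
theorem L20371 : W_1 (nat_lit 6) (nat_lit 0x3800080004000780000000000000000000000) (nat_lit 0x0) (nat_lit 0x600070019800000006000000000000000000) := T_1 (nat_lit 108) (nat_lit 107) (nat_lit 1) (nat_lit 9) (nat_lit 5) L20370 (by decide +kernel)
theorem L20372 : W_1 (nat_lit 7) (nat_lit 0x1800080004000780000000000000000000000) (nat_lit 0x0) (nat_lit 0x40002600070019800000006000000000000000000) := T_1 (nat_lit 145) (nat_lit 162) (nat_lit 7) (nat_lit 8) (nat_lit 5) L20371 (by decide +kernel)
theorem L20373 : W_1 (nat_lit 8) (nat_lit 0x1800080004000380000000000000000000000) (nat_lit 0x0) (nat_lit 0x40002600070019800400026000000000000000000) := T_1 (nat_lit 94) (nat_lit 77) (nat_lit 6) (nat_lit 8) (nat_lit 8) L20372 (by decide +kernel)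
theorem L20374 : W_1 (nat_lit 9) (nat_lit 0x1000080004000380000000000000000000000) (nat_lit 0x0) (nat_lit 0x50002e00070019800400026000000000000000000) := T_1 (nat_lit 143) (nat_lit 160) (nat_lit 5) (nat_lit 8) (nat_lit 5) L20373 (by decide +kernel)
theorem L20375 : W_1 (nat_lit 2) (nat_lit 0x30000800048003c0000000000000000000000) (nat_lit 0x0) (nat_lit 0x1000400020000000000000000000) := D_1 (nat_lit 94) (nat_lit 77) (nat_lit 108) (nat_lit 6) (nat_lit 8) (nat_lit 8) (nat_lit 1) (nat_lit 9) (nat_lit 5) (by decide +kernel)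
theorem L20376 : W_1 (nat_lit 3) (nat_lit 0x30000800040003c0000000000000000000000) (nat_lit 0x0) (nat_lit 0x1c00400020000000000000000000) := T_1 (nat_lit 107) (nat_lit 106) (nat_lit 1) (nat_lit 8) (nat_lit 5) L20375 (by decide +kernel)
theorem L20377 : W_1 (nat_lit 4) (nat_lit 0x3000080004000380000000000000000000000) (nat_lit 0x0) (nat_lit 0x9c00440020000000000000000000) := T_1 (nat_lit 90) (nat_lit 111) (nat_lit 3) (nat_lit 5) (nat_lit 5) L20376 (by decide +kernel)
theorem L20378 : W_1 (nat_lit 5) (nat_lit 0x1000080004000380000000000000000000000) (nat_lit 0x0) (nat_lit 0x40002000000009c00440020000000000000000000) := T_1 (nat_lit 145) (nat_lit 162) (nat_lit 7) (nat_lit 8) (nat_lit 5) L20377 (by decide +kernel)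
theorem L20379 : W_1 (nat_lit 10) (nat_lit 0x1000080004000300000000000000000000000) (nat_lit 0x0) (nat_lit 0x50002e00070019e004e0027800000000000000000) := Q_1 (nat_lit 91) (C_1 L20363 (C_1 L18594 (C_1 L18589 (C_1 L20366 (C_1 L20374 (C_1 L20378 N_1)))))) (by decide +kernel)
theorem L20380 : W_1 (nat_lit 11) (nat_lit 0x1000080004000200000000000000000000000) (nat_lit 0x0) (nat_lit 0x50002e00070019e005e002f800000000000000000) := T_1 (nat_lit 92) (nat_lit 75) (nat_lit 4) (nat_lit 8) (nat_lit 8) L20379 (by decide +kernel)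
theorem L20381 : W_1 (nat_lit 12) (nat_lit 0x1000080004000000000000000000000000000) (nat_lit 0x0) (nat_lit 0x50002e00170019e007e003f801400000000000000) := Q_1 (nat_lit 93) (C_1 L18151 (C_1 L18142 (C_1 L18150 (C_1 L20380 N_1)))) (by decide +kernel)
theorem L20382 : W_1 (nat_lit 2) (nat_lit 0x3000380006000e00000000000000000000000) (nat_lit 0x0) (nat_lit 0x18000000040000000000000000000) := D_1 (nat_lit 78) (nat_lit 112) (nat_lit 111) (nat_lit 5) (nat_lit 10) (nat_lit 4) (nat_lit 6) (nat_lit 9) (nat_lit 8) (by decide +kernel)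
theorem L20383 : W_1 (nat_lit 3) (nat_lit 0x3000380006000600000000000000000000000) (nat_lit 0x0) (nat_lit 0x18001800040000000000000000000) := T_1 (nat_lit 95) (nat_lit 96) (nat_lit 1) (nat_lit 11) (nat_lit 5) L20382 (by decide +kernel)
theorem L20384 : W_1 (nat_lit 4) (nat_lit 0x3000380006000200000000000000000000000) (nat_lit 0x0) (nat_lit 0x18001c00060000000000000000000) := T_1 (nat_lit 94) (nat_lit 77) (nat_lit 6) (nat_lit 8) (nat_lit 8) L20383 (by decide +kernel)
theorem L20385 : W_1 (nat_lit 5) (nat_lit 0x3000180006000200000000000000000000000) (nat_lit 0x0) (nat_lit 0x600018001c00060000000000000000000) := T_1 (nat_lit 129) (nat_lit 130) (nat_lit 0) (nat_lit 11) (nat_lit 7) L20384 (by decide +kernel)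
theorem L20386 : W_1 (nat_lit 6) (nat_lit 0x1000180006000200000000000000000000000) (nat_lit 0x0) (nat_lit 0x40002000600018001c00060000000000000000000) := T_1 (nat_lit 145) (nat_lit 162) (nat_lit 7) (nat_lit 8) (nat_lit 5) L20385 (by decide +kernel)
theorem L20387 : W_1 (nat_lit 2) (nat_lit 0x3000180006000e00000000000000000000000) (nat_lit 0x0) (nat_lit 0x9800000000000000000000000000) := D_1 (nat_lit 108) (nat_lit 107) (nat_lit 111) (nat_lit 3) (nat_lit 5) (nat_lit 6) (nat_lit 2) (nat_lit 6) (nat_lit 6) (by decide +kernel)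
theorem L20388 : W_1 (nat_lit 3) (nat_lit 0x3000180006000600000000000000000000000) (nat_lit 0x0) (nat_lit 0x9801800000000000000000000000) := T_1 (nat_lit 95) (nat_lit 96) (nat_lit 1) (nat_lit 11) (nat_lit 5) L20387 (by decide +kernel)
theorem L20389 : W_1 (nat_lit 4) (nat_lit 0x1000180006000600000000000000000000000) (nat_lit 0x0) (nat_lit 0x40002000000009801800000000000000000000000) := T_1 (nat_lit 145) (nat_lit 162) (nat_lit 7) (nat_lit 8) (nat_lit 5) L20388 (by decide +kernel)
theorem L20390 : W_1 (nat_lit 5) (nat_lit 0x1000180006000200000000000000000000000) (nat_lit 0x0) (nat_lit 0x40002000000009801c00020000000000000000000) := T_1 (nat_lit 94) (nat_lit 77) (nat_lit 6) (nat_lit 8) (nat_lit 8) L20389 (by decide +kernel)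
theorem L20391 : W_1 (nat_lit 7) (nat_lit 0x1000180004000200000000000000000000000) (nat_lit 0x0) (nat_lit 0x4000200064001b801c00060000000000000000000) := Q_1 (nat_lit 109) (C_1 L18104 (C_1 L18100 (C_1 L20386 (C_1 L20390 N_1)))) (by decide +kernel)
theorem L20392 : W_1 (nat_lit 2) (nat_lit 0x3800180004000200000000000000000000000) (nat_lit 0x0) (nat_lit 0x400600000000000000000000000000000000) := D_1 (nat_lit 129) (nat_lit 142) (nat_lit 130) (nat_lit 2) (nat_lit 6) (nat_lit 8) (nat_lit 1) (nat_lit 11) (nat_lit 7) (by decide +kernel)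
theorem L20393 : W_1 (nat_lit 3) (nat_lit 0x3000180004000200000000000000000000000) (nat_lit 0x0) (nat_lit 0x10000c00600000000000000000000000000000000) := T_1 (nat_lit 143) (nat_lit 160) (nat_lit 5) (nat_lit 8) (nat_lit 5) L20392 (by decide +kernel)
theorem L20394 : W_1 (nat_lit 4) (nat_lit 0x1000180004000200000000000000000000000) (nat_lit 0x0) (nat_lit 0x50002c00600000000000000000000000000000000) := T_1 (nat_lit 145) (nat_lit 162) (nat_lit 7) (nat_lit 8) (nat_lit 5) L20393 (by decide +kernel)
theorem L20395 : W_1 (nat_lit 2) (nat_lit 0x1a00180007000600000000000000000000000) (nat_lit 0x0) (nat_lit 0x8001800000000000000000000000) := D_1 (nat_lit 95) (nat_lit 111) (nat_lit 96) (nat_lit 2) (nat_lit 6) (nat_lit 6) (nat_lit 1) (nat_lit 11) (nat_lit 5) (by decide +kernel)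
theorem L20396 : W_1 (nat_lit 3) (nat_lit 0x1a00180007000200000000000000000000000) (nat_lit 0x0) (nat_lit 0x8001c00020000000000000000000) := T_1 (nat_lit 94) (nat_lit 77) (nat_lit 6) (nat_lit 8) (nat_lit 8) L20395 (by decide +kernel)
theorem L20397 : W_1 (nat_lit 4) (nat_lit 0x1a00180006000200000000000000000000000) (nat_lit 0x0) (nat_lit 0x9801c00020000000000000000000) := T_1 (nat_lit 108) (nat_lit 107) (nat_lit 3) (nat_lit 5) (nat_lit 6) L20396 (by decide +kernel)
theorem L20398 : W_1 (nat_lit 5) (nat_lit 0x1800180006000200000000000000000000000) (nat_lit 0x0) (nat_lit 0x600000009801c00020000000000000000000) := T_1 (nat_lit 141) (nat_lit 142) (nat_lit 2) (nat_lit 5) (nat_lit 8) L20397 (by decide +kernel)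
theorem L20399 : W_1 (nat_lit 6) (nat_lit 0x1000180006000200000000000000000000000) (nat_lit 0x0) (nat_lit 0x10000e00000009801c00020000000000000000000) := T_1 (nat_lit 143) (nat_lit 160) (nat_lit 5) (nat_lit 8) (nat_lit 5) L20398 (by decide +kernel)
theorem L20400 : W_1 (nat_lit 2) (nat_lit 0x5000100008003c001a0006800200000000000000000000000) (nat_lit 0x0) (nat_lit 0xa0002000000000000000000000000000000000000000000000000) := D_1 (nat_lit 193) (nat_lit 209) (nat_lit 211) (nat_lit 5) (nat_lit 6) (nat_lit 8) (nat_lit 7) (nat_lit 6) (nat_lit 8) (by decide +kernel)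
theorem L20401 : W_1 (nat_lit 3) (nat_lit 0x1000100008003c001a0006800200000000000000000000000) (nat_lit 0x0) (nat_lit 0xa0006000200000000000000000000000000000000000000000000) := T_1 (nat_lit 194) (nat_lit 177) (nat_lit 7) (nat_lit 6) (nat_lit 7) L20400 (by decide +kernel)
theorem L20402 : W_1 (nat_lit 4) (nat_lit 0x100008003c001a0006800200000000000000000000000) (nat_lit 0x0) (nat_lit 0xa0007000280000000000000000000000000000000000000000000) := T_1 (nat_lit 192) (nat_lit 175) (nat_lit 5) (nat_lit 6) (nat_lit 7) L20401 (by decide +kernel)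
theorem L20403 : W_1 (nat_lit 5) (nat_lit 0x8003c001a0006800200000000000000000000000) (nat_lit 0x0) (nat_lit 0xa0007000380000000000040000000000000000000000000000000) := T_1 (nat_lit 176) (nat_lit 126) (nat_lit 6) (nat_lit 6) (nat_lit 10) L20402 (by decide +kernel)
theorem L20404 : W_1 (nat_lit 6) (nat_lit 0x3c001a0006800200000000000000000000000) (nat_lit 0x0) (nat_lit 0xa000700038000c000000040000000000000000000000000000000) := T_1 (nat_lit 159) (nat_lit 158) (nat_lit 1) (nat_lit 9) (nat_lit 8) L20403 (by decide +kernel)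
theorem L20405 : W_1 (nat_lit 7) (nat_lit 0x3c00180006800200000000000000000000000) (nat_lit 0x0) (nat_lit 0xa000700038000c000000070000000000000000000000000000000) := T_1 (nat_lit 125) (nat_lit 124) (nat_lit 0) (nat_lit 9) (nat_lit 8) L20404 (by decide +kernel)
theorem L20406 : W_1 (nat_lit 8) (nat_lit 0x3c00180006000200000000000000000000000) (nat_lit 0x0) (nat_lit 0xa000700038000c000000070001800000000000000000000000000) := T_1 (nat_lit 107) (nat_lit 108) (nat_lit 3) (nat_lit 5) (nat_lit 6) L20405 (by decide +kernel)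
theorem L20407 : W_1 (nat_lit 9) (nat_lit 0x3800180006000200000000000000000000000) (nat_lit 0x0) (nat_lit 0xa000700038000c000600070001800000000000000000000000000) := T_1 (nat_lit 142) (nat_lit 141) (nat_lit 2) (nat_lit 5) (nat_lit 8) L20406 (by decide +kernel)
theorem L20408 : W_1 (nat_lit 10) (nat_lit 0x3000180006000200000000000000000000000) (nat_lit 0x0) (nat_lit 0xa000700038001c000e00070001800000000000000000000000000) := T_1 (nat_lit 143) (nat_lit 160) (nat_lit 5) (nat_lit 8) (nat_lit 5) L20407 (by decide +kernel)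
theorem L20409 : W_1 (nat_lit 11) (nat_lit 0x1000180006000200000000000000000000000) (nat_lit 0x0) (nat_lit 0xa000700038005c002e00070001800000000000000000000000000) := T_1 (nat_lit 145) (nat_lit 162) (nat_lit 7) (nat_lit 8) (nat_lit 5) L20408 (by decide +kernel)
theorem L20410 : W_1 (nat_lit 2) (nat_lit 0x5000100008003c001a0006000200020000000000000000000) (nat_lit 0x0) (nat_lit 0xa0002000000000000000000000000000000000000000000000000) := D_1 (nat_lit 193) (nat_lit 209) (nat_lit 211) (nat_lit 5) (nat_lit 6) (nat_lit 8) (nat_lit 7) (nat_lit 6) (nat_lit 8) (by decide +kernel)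
theorem L20411 : W_1 (nat_lit 3) (nat_lit 0x1000100008003c001a0006000200020000000000000000000) (nat_lit 0x0) (nat_lit 0xa0006000200000000000000000000000000000000000000000000) := T_1 (nat_lit 194) (nat_lit 177) (nat_lit 7) (nat_lit 6) (nat_lit 7) L20410 (by decide +kernel)
theorem L20412 : W_1 (nat_lit 4) (nat_lit 0x100008003c001a0006000200020000000000000000000) (nat_lit 0x0) (nat_lit 0xa0007000280000000000000000000000000000000000000000000) := T_1 (nat_lit 192) (nat_lit 175) (nat_lit 5) (nat_lit 6) (nat_lit 7) L20411 (by decide +kernel)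
theorem L20413 : W_1 (nat_lit 5) (nat_lit 0x8003c001a0006000200020000000000000000000) (nat_lit 0x0) (nat_lit 0xa0007000380000000000040000000000000000000000000000000) := T_1 (nat_lit 176) (nat_lit 126) (nat_lit 6) (nat_lit 6) (nat_lit 10) L20412 (by decide +kernel)
theorem L20414 : W_1 (nat_lit 6) (nat_lit 0x8003c001a0006000200000000000000000000000) (nat_lit 0x0) (nat_lit 0xa0007000380000000000040000000400020000000000000000000) := T_1 (nat_lit 77) (nat_lit 94) (nat_lit 6) (nat_lit 8) (nat_lit 8) L20413 (by decide +kernel)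
theorem L20415 : W_1 (nat_lit 7) (nat_lit 0x8003c00180006000200000000000000000000000) (nat_lit 0x0) (nat_lit 0xa0007000380000000000070000000400020000000000000000000) := T_1 (nat_lit 125) (nat_lit 124) (nat_lit 0) (nat_lit 9) (nat_lit 8) L20414 (by decide +kernel)
theorem L20416 : W_1 (nat_lit 8) (nat_lit 0x3c00180006000200000000000000000000000) (nat_lit 0x0) (nat_lit 0xa000700038000c000000070000000400020000000000000000000) := T_1 (nat_lit 159) (nat_lit 158) (nat_lit 1) (nat_lit 9) (nat_lit 8) L20415 (by decide +kernel)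
theorem L20417 : W_1 (nat_lit 9) (nat_lit 0x1c00180006000200000000000000000000000) (nat_lit 0x0) (nat_lit 0xa000700038004c002000070000000400020000000000000000000) := T_1 (nat_lit 145) (nat_lit 162) (nat_lit 7) (nat_lit 8) (nat_lit 5) L20416 (by decide +kernel)
theorem L20418 : W_1 (nat_lit 10) (nat_lit 0x1800180006000200000000000000000000000) (nat_lit 0x0) (nat_lit 0xa000700038004c002600070000000400020000000000000000000) := T_1 (nat_lit 142) (nat_lit 141) (nat_lit 2) (nat_lit 5) (nat_lit 8) L20417 (by decide +kernel)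
theorem L20419 : W_1 (nat_lit 11) (nat_lit 0x1000180006000200000000000000000000000) (nat_lit 0x0) (nat_lit 0xa000700038005c002e00070000000400020000000000000000000) := T_1 (nat_lit 143) (nat_lit 160) (nat_lit 5) (nat_lit 8) (nat_lit 5) L20418 (by decide +kernel)
theorem L20420 : W_1 (nat_lit 12) (nat_lit 0x1000180004000200000000000000000000000) (nat_lit 0x0) (nat_lit 0xa000700038005c002e0007000b801c00020000000000000000000) := Q_1 (nat_lit 109) (C_1 L20399 (C_1 L20409 (C_1 L20390 (C_1 L20419 N_1)))) (by decide +kernel)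
theorem L20421 : W_1 (nat_lit 13) (nat_lit 0x1000080004000200000000000000000000000) (nat_lit 0x0) (nat_lit 0xa000700038005c002e0077001b801c00060000000000000000000) := Q_1 (nat_lit 128) (C_1 L20391 (C_1 L20394 (C_1 L1957 (C_1 L20420 N_1)))) (by decide +kernel)
theorem L20422 : W_1 (nat_lit 14) (nat_lit 0x1000080004000000000000000000000000000) (nat_lit 0x0) (nat_lit 0xa000700038005c002e0077001b801e00070001000000000000000) := Q_1 (nat_lit 93) (C_1 L18151 (C_1 L18142 (C_1 L13 (C_1 L20421 N_1)))) (by decide +kernel)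
theorem L20423 : W_1 (nat_lit 9) (nat_lit 0x1000080006000200000000000000000000000) (nat_lit 0x0) (nat_lit 0x18000e00740009c001c000c000000000000000000) := Q_1 (nat_lit 128) (C_1 L19312 (C_1 L18104 (C_1 L19319 N_1))) (by decide +kernel)
theorem L20424 : W_1 (nat_lit 10) (nat_lit 0x1000080004000200000000000000000000000) (nat_lit 0x0) (nat_lit 0x18000e0074003bc01dc002e000000000000000000) := Q_1 (nat_lit 109) (C_1 L19324 (C_1 L2518 (C_1 L19331 (C_1 L19288 (C_1 L20423 N_1))))) (by decide +kernel)
theorem L20425 : W_1 (nat_lit 11) (nat_lit 0x1000080004000000000000000000000000000) (nat_lit 0x0) (nat_lit 0x18000e0074003bc01fc003e001400000000000000) := Q_1 (nat_lit 93) (C_1 L180 (C_1 L18142 (C_1 L18141 (C_1 L20424 N_1)))) (by decide +kernel)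
theorem L20646 : W_1 (nat_lit 2) (nat_lit 0x8003c001a0004000300000000000000000000000) (nat_lit 0x0) (nat_lit 0x40003000000000000000000000000000) := D_1 (nat_lit 109) (nat_lit 126) (nat_lit 108) (nat_lit 5) (nat_lit 7) (nat_lit 5) (nat_lit 6) (nat_lit 6) (nat_lit 9) (by decide +kernel)
theorem L20647 : W_1 (nat_lit 3) (nat_lit 0x8003c001a0004000200000000000000000000000) (nat_lit 0x0) (nat_lit 0x40003000100008000000000000000000) := T_1 (nat_lit 92) (nat_lit 75) (nat_lit 4) (nat_lit 8) (nat_lit 8) L20646 (by decide +kernel)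
theorem L20648 : W_1 (nat_lit 4) (nat_lit 0x8003c00180004000200000000000000000000000) (nat_lit 0x0) (nat_lit 0x70003000100008000000000000000000) := T_1 (nat_lit 125) (nat_lit 124) (nat_lit 0) (nat_lit 9) (nat_lit 8) L20647 (by decide +kernel)
theorem L20649 : W_1 (nat_lit 5) (nat_lit 0x3c00180004000200000000000000000000000) (nat_lit 0x0) (nat_lit 0xc000000070003000100008000000000000000000) := T_1 (nat_lit 159) (nat_lit 158) (nat_lit 1) (nat_lit 9) (nat_lit 8) L20648 (by decide +kernel)
theorem L20650 : W_1 (nat_lit 6) (nat_lit 0x3c00080004000200000000000000000000000) (nat_lit 0x0) (nat_lit 0xc000000370003000100008000000000000000000) := T_1 (nat_lit 128) (nat_lit 129) (nat_lit 2) (nat_lit 6) (nat_lit 8) L20649 (by decide +kernel)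
theorem L20651 : W_1 (nat_lit 7) (nat_lit 0x1c00080004000200000000000000000000000) (nat_lit 0x0) (nat_lit 0x4c002000370003000100008000000000000000000) := T_1 (nat_lit 145) (nat_lit 162) (nat_lit 7) (nat_lit 8) (nat_lit 5) L20650 (by decide +kernel)
theorem L20652 : W_1 (nat_lit 8) (nat_lit 0x1800080004000200000000000000000000000) (nat_lit 0x0) (nat_lit 0x4e002600778003000100008000000000000000000) := Q_1 (nat_lit 142) (C_1 L2596 (C_1 L1517 (C_1 L20651 N_1))) (by decide +kernel)
theorem L20653 : W_1 (nat_lit 9) (nat_lit 0x1000080004000200000000000000000000000) (nat_lit 0x0) (nat_lit 0x5e002e00778003000100008000000000000000000) := T_1 (nat_lit 143) (nat_lit 160) (nat_lit 5) (nat_lit 8) (nat_lit 5) L20652 (by decide +kernel)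
theorem L20654 : W_1 (nat_lit 10) (nat_lit 0x1000080004000000000000000000000000000) (nat_lit 0x0) (nat_lit 0x5e002e00778003000300018000400000000000000) := Q_1 (nat_lit 93) (C_1 L18150 (C_1 L18141 (C_1 L13 (C_1 L20653 N_1)))) (by decide +kernel)
theorem L21381 : W_1 (nat_lit 2) (nat_lit 0xe00018001800080000000000000000000000000000000) (nat_lit 0x0) (nat_lit 0x100006000000000000000000000000000000000000000) := D_1 (nat_lit 158) (nat_lit 176) (nat_lit 157) (nat_lit 0) (nat_lit 9) (nat_lit 10) (nat_lit 3) (nat_lit 4) (nat_lit 9) (by decide +kernel)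
theorem L21450 : W_1 (nat_lit 2) (nat_lit 0x18003e0000000000000000000000000000000) (nat_lit 0x0) (nat_lit 0x38000000000000000000000000000) := D_1 (nat_lit 112) (nat_lit 111) (nat_lit 113) (nat_lit 2) (nat_lit 6) (nat_lit 7) (nat_lit 2) (nat_lit 7) (nat_lit 7) (by decide +kernel)
theorem L21451 : W_1 (nat_lit 3) (nat_lit 0x18001e0000000000000000000000000000000) (nat_lit 0x0) (nat_lit 0x600038000000000000000000000000000) := T_1 (nat_lit 129) (nat_lit 130) (nat_lit 1) (nat_lit 11) (nat_lit 7) L21450 (by decide +kernel)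
theorem L21452 : W_1 (nat_lit 2) (nat_lit 0x18000e0001800000000000000000000000000) (nat_lit 0x0) (nat_lit 0x2600000000000000000000000000) := D_1 (nat_lit 106) (nat_lit 105) (nat_lit 109) (nat_lit 3) (nat_lit 3) (nat_lit 6) (nat_lit 3) (nat_lit 4) (nat_lit 6) (by decide +kernel)
theorem L21453 : W_1 (nat_lit 3) (nat_lit 0x18000e0001000000000000000000000000000) (nat_lit 0x0) (nat_lit 0x100002e00000000000000000000000000) := T_1 (nat_lit 107) (nat_lit 128) (nat_lit 0) (nat_lit 9) (nat_lit 7) L21452 (by decide +kernel)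
theorem L21461 : W_1 (nat_lit 2) (nat_lit 0x18001e0000000000000000000000000000000) (nat_lit 0x0) (nat_lit 0x2000018000000000000000000000000000000) := D_1 (nat_lit 124) (nat_lit 123) (nat_lit 145) (nat_lit 3) (nat_lit 4) (nat_lit 7) (nat_lit 3) (nat_lit 5) (nat_lit 7) (by decide +kernel)
theorem L21464 : W_1 (nat_lit 2) (nat_lit 0x18001e0008000000020000000000000000000) (nat_lit 0x0) (nat_lit 0x2000018000000000000000000000000000000) := D_1 (nat_lit 124) (nat_lit 123) (nat_lit 145) (nat_lit 3) (nat_lit 4) (nat_lit 7) (nat_lit 3) (nat_lit 5) (nat_lit 7) (by decide +kernel)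
theorem L21465 : W_1 (nat_lit 3) (nat_lit 0x18001c0008000000020000000000000000000) (nat_lit 0x0) (nat_lit 0x2000038010000000000000000000000000000) := T_1 (nat_lit 125) (nat_lit 112) (nat_lit 2) (nat_lit 6) (nat_lit 7) L21464 (by decide +kernel)
theorem L21466 : W_1 (nat_lit 4) (nat_lit 0x18001c0008000000000000000000000000000) (nat_lit 0x0) (nat_lit 0x2000038010000400020000000000000000000) := T_1 (nat_lit 77) (nat_lit 94) (nat_lit 5) (nat_lit 9) (nat_lit 4) L21465 (by decide +kernel)
theorem L21484 : W_1 (nat_lit 2) (nat_lit 0x18000c0003800000008000000000000000000) (nat_lit 0x0) (nat_lit 0x320000000000000000000000000000000) := D_1 (nat_lit 128) (nat_lit 129) (nat_lit 125) (nat_lit 0) (nat_lit 10) (nat_lit 7) (nat_lit 0) (nat_lit 9) (nat_lit 7) (by decide +kernel)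
theorem L21485 : W_1 (nat_lit 3) (nat_lit 0x18000c0003000000008000000000000000000) (nat_lit 0x0) (nat_lit 0x320000c00000000000000000000000000) := T_1 (nat_lit 107) (nat_lit 106) (nat_lit 3) (nat_lit 4) (nat_lit 6) L21484 (by decide +kernel)
theorem L21486 : W_1 (nat_lit 4) (nat_lit 0x18000c0003000000000000000000000000000) (nat_lit 0x0) (nat_lit 0x320000c00100008000000000000000000) := T_1 (nat_lit 75) (nat_lit 92) (nat_lit 7) (nat_lit 7) (nat_lit 4) L21485 (by decide +kernel)
theorem L21489 : W_1 (nat_lit 2) (nat_lit 0x18001c0002000000000000000000000000000) (nat_lit 0x0) (nat_lit 0x600001000000000000000000000000000) := D_1 (nat_lit 129) (nat_lit 108) (nat_lit 130) (nat_lit 0) (nat_lit 10) (nat_lit 7) (nat_lit 1) (nat_lit 11) (nat_lit 7) (by decide +kernel)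
theorem L21512 : W_1 (nat_lit 2) (nat_lit 0x18000c0003800000000000000000000000000) (nat_lit 0x0) (nat_lit 0x320000000000000000000000000000000) := D_1 (nat_lit 128) (nat_lit 129) (nat_lit 125) (nat_lit 0) (nat_lit 10) (nat_lit 7) (nat_lit 0) (nat_lit 9) (nat_lit 7) (by decide +kernel)
theorem L21528 : W_1 (nat_lit 2) (nat_lit 0x18000c0003000380000000000000000000000) (nat_lit 0x0) (nat_lit 0x800c00000000000000000000000) := D_1 (nat_lit 94) (nat_lit 95) (nat_lit 107) (nat_lit 1) (nat_lit 10) (nat_lit 5) (nat_lit 1) (nat_lit 9) (nat_lit 5) (by decide +kernel)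
theorem L21529 : W_1 (nat_lit 3) (nat_lit 0x18000c0003000300000000000000000000000) (nat_lit 0x0) (nat_lit 0x800c80004000000000000000000) := T_1 (nat_lit 91) (nat_lit 74) (nat_lit 4) (nat_lit 7) (nat_lit 8) L21528 (by decide +kernel)
theorem L21530 : W_1 (nat_lit 4) (nat_lit 0x18000c0003000100000000000000000000000) (nat_lit 0x0) (nat_lit 0x800e80014000000000000000000) := T_1 (nat_lit 93) (nat_lit 76) (nat_lit 6) (nat_lit 7) (nat_lit 8) L21529 (by decide +kernel)
theorem L21581 : W_1 (nat_lit 5) (nat_lit 0x18003c000a000000000000000000000000000) (nat_lit 0x0) (nat_lit 0x3000078002c000000000000000000) := T_1 (nat_lit 112) (nat_lit 113) (nat_lit 2) (nat_lit 7) (nat_lit 7) L1453 (by decide +kernel)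
theorem L21582 : W_1 (nat_lit 6) (nat_lit 0x18003c0008000000000000000000000000000) (nat_lit 0x0) (nat_lit 0x3300078002c000000000000000000) := T_1 (nat_lit 109) (nat_lit 108) (nat_lit 0) (nat_lit 10) (nat_lit 7) L21581 (by decide +kernel)
theorem L21583 : W_1 (nat_lit 7) (nat_lit 0x18001c0008000000000000000000000000000) (nat_lit 0x0) (nat_lit 0x60003300078002c000000000000000000) := T_1 (nat_lit 129) (nat_lit 130) (nat_lit 1) (nat_lit 11) (nat_lit 7) L21582 (by decide +kernel)
theorem L21584 : W_1 (nat_lit 2) (nat_lit 0x18003c0008000000000000000000000000000) (nat_lit 0x0) (nat_lit 0x20030000000000000000000000000000) := D_1 (nat_lit 112) (nat_lit 125) (nat_lit 113) (nat_lit 2) (nat_lit 6) (nat_lit 7) (nat_lit 2) (nat_lit 7) (nat_lit 7) (by decide +kernel)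
theorem L21585 : W_1 (nat_lit 3) (nat_lit 0x18001c0008000000000000000000000000000) (nat_lit 0x0) (nat_lit 0x620030000000000000000000000000000) := T_1 (nat_lit 129) (nat_lit 130) (nat_lit 1) (nat_lit 11) (nat_lit 7) L21584 (by decide +kernel)
theorem L21586 : W_1 (nat_lit 2) (nat_lit 0x18003e0009000000000000000000000000000) (nat_lit 0x0) (nat_lit 0x2000018000000000000000000000000000000) := D_1 (nat_lit 124) (nat_lit 123) (nat_lit 145) (nat_lit 3) (nat_lit 4) (nat_lit 7) (nat_lit 3) (nat_lit 5) (nat_lit 7) (by decide +kernel)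
theorem L21587 : W_1 (nat_lit 3) (nat_lit 0x18003c0009000000000000000000000000000) (nat_lit 0x0) (nat_lit 0x2000038000800000000000000000000000000) := T_1 (nat_lit 125) (nat_lit 107) (nat_lit 0) (nat_lit 9) (nat_lit 7) L21586 (by decide +kernel)
theorem L21588 : W_1 (nat_lit 4) (nat_lit 0x18003c0008000000000000000000000000000) (nat_lit 0x0) (nat_lit 0x2000038003800000000000000000000000000) := T_1 (nat_lit 108) (nat_lit 109) (nat_lit 0) (nat_lit 10) (nat_lit 7) L21587 (by decide +kernel)
theorem L21589 : W_1 (nat_lit 5) (nat_lit 0x18001c0008000000000000000000000000000) (nat_lit 0x0) (nat_lit 0x2000638003800000000000000000000000000) := T_1 (nat_lit 129) (nat_lit 130) (nat_lit 1) (nat_lit 11) (nat_lit 7) L21588 (by decide +kernel)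
theorem L21842 : W_1 (nat_lit 3) (nat_lit 0xe00010001800080000000000000000000000000000000) (nat_lit 0x0) (nat_lit 0x110000e000000000000000000000000000000000000000) := T_1 (nat_lit 159) (nat_lit 180) (nat_lit 0) (nat_lit 10) (nat_lit 10) L21381 (by decide +kernel)
theorem L21847 : W_1 (nat_lit 2) (nat_lit 0x4003e00000001800080000000000000000000000000000000) (nat_lit 0x0) (nat_lit 0xe0000000000000000000000000000000000000000000000000) := D_1 (nat_lit 198) (nat_lit 197) (nat_lit 199) (nat_lit 3) (nat_lit 7) (nat_lit 10) (nat_lit 3) (nat_lit 8) (nat_lit 10) (by decide +kernel)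
theorem L21848 : W_1 (nat_lit 3) (nat_lit 0x4001e00000001800080000000000000000000000000000000) (nat_lit 0x0) (nat_lit 0xe8002000000000000000000000000000000000000000000000) := T_1 (nat_lit 181) (nat_lit 195) (nat_lit 1) (nat_lit 11) (nat_lit 10) L21847 (by decide +kernel)
theorem L22288 : W_1 (nat_lit 3) (nat_lit 0x1800180000000000000000000000000000000) (nat_lit 0x0) (nat_lit 0x2600600000000000000000000000000000000) := T_1 (nat_lit 142) (nat_lit 141) (nat_lit 2) (nat_lit 5) (nat_lit 8) L1076 (by decide +kernel)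
theorem L22688 : W_1 (nat_lit 2) (nat_lit 0x800040003a00180008000c00000000000000000000000) (nat_lit 0x0) (nat_lit 0x20001000080000000000000000000000000000000000000000) := D_1 (nat_lit 180) (nat_lit 163) (nat_lit 197) (nat_lit 7) (nat_lit 9) (nat_lit 6) (nat_lit 7) (nat_lit 9) (nat_lit 7) (by decide +kernel)
theorem L22689 : W_1 (nat_lit 3) (nat_lit 0x40003a00180008000c00000000000000000000000) (nat_lit 0x0) (nat_lit 0x30001800080000000000000000000000000000000000000000) := T_1 (nat_lit 179) (nat_lit 196) (nat_lit 4) (nat_lit 9) (nat_lit 11) L22688 (by decide +kernel)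
theorem L22690 : W_1 (nat_lit 4) (nat_lit 0x3a00180008000c00000000000000000000000) (nat_lit 0x0) (nat_lit 0x300018000c0000000000010000000000000000000000000000) := T_1 (nat_lit 162) (nat_lit 112) (nat_lit 6) (nat_lit 9) (nat_lit 9) L22689 (by decide +kernel)
theorem L22691 : W_1 (nat_lit 5) (nat_lit 0x3a00180008000400000000000000000000000) (nat_lit 0x0) (nat_lit 0x300018000c0000000000010000800040000000000000000000) := T_1 (nat_lit 95) (nat_lit 78) (nat_lit 6) (nat_lit 9) (nat_lit 8) L22690 (by decide +kernel)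
theorem L22949 : W_1 (nat_lit 2) (nat_lit 0x1a001e0001000080000000000000000000000) (nat_lit 0x0) (nat_lit 0x200010000000000002000000000000000000000000000) := D_1 (nat_lit 160) (nat_lit 177) (nat_lit 109) (nat_lit 4) (nat_lit 7) (nat_lit 10) (nat_lit 4) (nat_lit 7) (nat_lit 9) (by decide +kernel)
theorem L22950 : W_1 (nat_lit 3) (nat_lit 0x1a001e0001000000000000000000000000000) (nat_lit 0x0) (nat_lit 0x200010000000000002000080004000000000000000000) := T_1 (nat_lit 91) (nat_lit 74) (nat_lit 7) (nat_lit 6) (nat_lit 4) L22949 (by decide +kernel)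
theorem L22968 : W_1 (nat_lit 3) (nat_lit 0x18001e0001000000000000000000000000000) (nat_lit 0x0) (nat_lit 0x10000600000000000080004000000000000000000) := T_1 (nat_lit 142) (nat_lit 141) (nat_lit 2) (nat_lit 5) (nat_lit 8) L2287 (by decide +kernel)
theorem L22969 : W_1 (nat_lit 4) (nat_lit 0x18001e0000000000000000000000000000000) (nat_lit 0x0) (nat_lit 0x10000600000001800080004000000000000000000) := T_1 (nat_lit 108) (nat_lit 107) (nat_lit 0) (nat_lit 9) (nat_lit 7) L22968 (by decide +kernel)
theorem L23415 : W_1 (nat_lit 11) (nat_lit 0x1000080000000200000000000000000000000) (nat_lit 0x0) (nat_lit 0x4000200010001fe00de00ff801400000000000000) := Q_1 (nat_lit 110) (C_1 L18611 (C_1 L180 (C_1 L18150 (C_1 L18151 N_1)))) (by decide +kernel)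
theorem L23416 : W_1 (nat_lit 13) (nat_lit 0x1000080000000200000000000000000000000) (nat_lit 0x0) (nat_lit 0x50002e0007003fe01de01ff801400000000000000) := Q_1 (nat_lit 110) (C_1 L19995 (C_1 L20380 (C_1 L180 (C_1 L18141 (C_1 L18142 N_1))))) (by decide +kernel)
theorem L23590 : W_1 (nat_lit 2) (nat_lit 0x1000080020000f00086000000000000000000) (nat_lit 0x0) (nat_lit 0x40001000100000000000000000000) := D_1 (nat_lit 96) (nat_lit 114) (nat_lit 80) (nat_lit 3) (nat_lit 8) (nat_lit 5) (nat_lit 2) (nat_lit 8) (nat_lit 5) (by decide +kernel)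
theorem L23591 : W_1 (nat_lit 3) (nat_lit 0x1000080020000f00006000000000000000000) (nat_lit 0x0) (nat_lit 0x400010001c0000000000000000000) := T_1 (nat_lit 79) (nat_lit 78) (nat_lit 2) (nat_lit 7) (nat_lit 5) L23590 (by decide +kernel)
theorem L23592 : W_1 (nat_lit 4) (nat_lit 0x1000080000000f00006000000000000000000) (nat_lit 0x0) (nat_lit 0x700010001c0000000000000000000) := T_1 (nat_lit 113) (nat_lit 112) (nat_lit 3) (nat_lit 7) (nat_lit 5) L23591 (by decide +kernel)
theorem L23593 : W_1 (nat_lit 5) (nat_lit 0x1000080000000f00004000000000000000000) (nat_lit 0x0) (nat_lit 0x700010801c2000000000000000000) := T_1 (nat_lit 73) (nat_lit 91) (nat_lit 0) (nat_lit 9) (nat_lit 5) L23592 (by decide +kernel)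
theorem L23594 : W_1 (nat_lit 6) (nat_lit 0x1000080000000f00000000000000000000000) (nat_lit 0x0) (nat_lit 0x700010801ce000000000000000000) := T_1 (nat_lit 74) (nat_lit 75) (nat_lit 0) (nat_lit 10) (nat_lit 5) L23593 (by decide +kernel)
theorem L23595 : W_1 (nat_lit 2) (nat_lit 0x1000080000000f80004000000000000000000) (nat_lit 0x0) (nat_lit 0xe0000000000000000000) := D_1 (nat_lit 78) (nat_lit 79) (nat_lit 77) (nat_lit 2) (nat_lit 7) (nat_lit 5) (nat_lit 2) (nat_lit 6) (nat_lit 5) (by decide +kernel)
theorem L23596 : W_1 (nat_lit 3) (nat_lit 0x1000080000000f00004000000000000000000) (nat_lit 0x0) (nat_lit 0x800e2000000000000000000) := T_1 (nat_lit 91) (nat_lit 73) (nat_lit 0) (nat_lit 9) (nat_lit 5) L23595 (by decide +kernel)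
theorem L23597 : W_1 (nat_lit 4) (nat_lit 0x1000080000000f00000000000000000000000) (nat_lit 0x0) (nat_lit 0x800ee000000000000000000) := T_1 (nat_lit 74) (nat_lit 75) (nat_lit 0) (nat_lit 10) (nat_lit 5) L23596 (by decide +kernel)
theorem L23598 : W_1 (nat_lit 2) (nat_lit 0x1000080020000f00048000000000000000000) (nat_lit 0x0) (nat_lit 0x40001000010000000000000000000) := D_1 (nat_lit 96) (nat_lit 114) (nat_lit 76) (nat_lit 3) (nat_lit 8) (nat_lit 5) (nat_lit 0) (nat_lit 11) (nat_lit 5) (by decide +kernel)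
theorem L23599 : W_1 (nat_lit 3) (nat_lit 0x1000080020000f00040000000000000000000) (nat_lit 0x0) (nat_lit 0x4000100001c000000000000000000) := T_1 (nat_lit 75) (nat_lit 74) (nat_lit 0) (nat_lit 10) (nat_lit 5) L23598 (by decide +kernel)
theorem L23600 : W_1 (nat_lit 4) (nat_lit 0x1000080000000f00040000000000000000000) (nat_lit 0x0) (nat_lit 0x7000100001c000000000000000000) := T_1 (nat_lit 113) (nat_lit 112) (nat_lit 3) (nat_lit 7) (nat_lit 5) L23599 (by decide +kernel)
theorem L23601 : W_1 (nat_lit 5) (nat_lit 0x1000080000000f00000000000000000000000) (nat_lit 0x0) (nat_lit 0x700010000dc000000000000000000) := T_1 (nat_lit 78) (nat_lit 79) (nat_lit 2) (nat_lit 7) (nat_lit 5) L23600 (by decide +kernel)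
theorem L23602 : W_1 (nat_lit 2) (nat_lit 0x1000080010000f80000000000000000000000) (nat_lit 0x0) (nat_lit 0xe0000000000000000000) := D_1 (nat_lit 78) (nat_lit 77) (nat_lit 79) (nat_lit 2) (nat_lit 6) (nat_lit 5) (nat_lit 2) (nat_lit 7) (nat_lit 5) (by decide +kernel)
theorem L23603 : W_1 (nat_lit 3) (nat_lit 0x1000080010000f00000000000000000000000) (nat_lit 0x0) (nat_lit 0x80000800e0000000000000000000) := T_1 (nat_lit 91) (nat_lit 111) (nat_lit 3) (nat_lit 6) (nat_lit 5) L23602 (by decide +kernel)
theorem L23604 : W_1 (nat_lit 4) (nat_lit 0x1000080000000f00000000000000000000000) (nat_lit 0x0) (nat_lit 0x380000800e0000000000000000000) := T_1 (nat_lit 112) (nat_lit 113) (nat_lit 3) (nat_lit 7) (nat_lit 5) L23603 (by decide +kernel)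
theorem L23605 : W_1 (nat_lit 2) (nat_lit 0x1000080000000f80004000000000000000000) (nat_lit 0x0) (nat_lit 0x38000000000000000000000000000) := D_1 (nat_lit 112) (nat_lit 113) (nat_lit 111) (nat_lit 3) (nat_lit 7) (nat_lit 5) (nat_lit 3) (nat_lit 6) (nat_lit 5) (by decide +kernel)
theorem L23606 : W_1 (nat_lit 3) (nat_lit 0x1000080000000f00004000000000000000000) (nat_lit 0x0) (nat_lit 0x38000080002000000000000000000) := T_1 (nat_lit 91) (nat_lit 73) (nat_lit 0) (nat_lit 9) (nat_lit 5) L23605 (by decide +kernel)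
theorem L23607 : W_1 (nat_lit 4) (nat_lit 0x1000080000000f00000000000000000000000) (nat_lit 0x0) (nat_lit 0x3800008000e000000000000000000) := T_1 (nat_lit 74) (nat_lit 75) (nat_lit 0) (nat_lit 10) (nat_lit 5) L23606 (by decide +kernel)
theorem L23608 : W_1 (nat_lit 7) (nat_lit 0x1000080000000700000000000000000000000) (nat_lit 0x0) (nat_lit 0x780018801fe000000000000000000) := Q_1 (nat_lit 95) (C_1 L23594 (C_1 L23597 (C_1 L23601 (C_1 L23604 (C_1 L23607 N_1))))) (by decide +kernel)
theorem L23609 : W_1 (nat_lit 2) (nat_lit 0x1000080010000f00060000000000000000000) (nat_lit 0x0) (nat_lit 0x200000000000000001000080000000000) := D_1 (nat_lit 60) (nat_lit 129) (nat_lit 43) (nat_lit 4) (nat_lit 10) (nat_lit 7) (nat_lit 7) (nat_lit 9) (nat_lit 2) (by decide +kernel)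
theorem L23610 : W_1 (nat_lit 3) (nat_lit 0x1000080010000f00040000000000000000000) (nat_lit 0x0) (nat_lit 0x200000000080020001000080000000000) := T_1 (nat_lit 77) (nat_lit 91) (nat_lit 2) (nat_lit 6) (nat_lit 5) L23609 (by decide +kernel)
theorem L23611 : W_1 (nat_lit 4) (nat_lit 0x1000080010000f00000000000000000000000) (nat_lit 0x0) (nat_lit 0x2000000000800e0001000080000000000) := T_1 (nat_lit 78) (nat_lit 79) (nat_lit 2) (nat_lit 7) (nat_lit 5) L23610 (by decide +kernel)
theorem L23612 : W_1 (nat_lit 5) (nat_lit 0x1000080000000f00000000000000000000000) (nat_lit 0x0) (nat_lit 0x2000300000800e0001000080000000000) := T_1 (nat_lit 112) (nat_lit 113) (nat_lit 3) (nat_lit 7) (nat_lit 5) L23611 (by decide +kernel)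
theorem L23613 : W_1 (nat_lit 2) (nat_lit 0x1000080001000f80000000000000000000000) (nat_lit 0x0) (nat_lit 0xe000000000000000000) := D_1 (nat_lit 74) (nat_lit 73) (nat_lit 75) (nat_lit 0) (nat_lit 9) (nat_lit 5) (nat_lit 0) (nat_lit 10) (nat_lit 5) (by decide +kernel)
theorem L23614 : W_1 (nat_lit 3) (nat_lit 0x1000080001000f00000000000000000000000) (nat_lit 0x0) (nat_lit 0x80008000e000000000000000000) := T_1 (nat_lit 91) (nat_lit 107) (nat_lit 1) (nat_lit 9) (nat_lit 5) L23613 (by decide +kernel)
theorem L23615 : W_1 (nat_lit 4) (nat_lit 0x1000080000000f00000000000000000000000) (nat_lit 0x0) (nat_lit 0x380008000e000000000000000000) := T_1 (nat_lit 108) (nat_lit 109) (nat_lit 1) (nat_lit 10) (nat_lit 5) L23614 (by decide +kernel)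
theorem L23631 : W_1 (nat_lit 2) (nat_lit 0x10000800008007c0000000000000000000000) (nat_lit 0x0) (nat_lit 0x7000000000000000000) := D_1 (nat_lit 73) (nat_lit 72) (nat_lit 74) (nat_lit 0) (nat_lit 8) (nat_lit 5) (nat_lit 0) (nat_lit 9) (nat_lit 5) (by decide +kernel)
theorem L23632 : W_1 (nat_lit 3) (nat_lit 0x1000080000800780000000000000000000000) (nat_lit 0x0) (nat_lit 0x400040007000000000000000000) := T_1 (nat_lit 90) (nat_lit 106) (nat_lit 1) (nat_lit 8) (nat_lit 5) L23631 (by decide +kernel)
theorem L23633 : W_1 (nat_lit 4) (nat_lit 0x1000080000000780000000000000000000000) (nat_lit 0x0) (nat_lit 0x1c00040007000000000000000000) := T_1 (nat_lit 107) (nat_lit 108) (nat_lit 1) (nat_lit 9) (nat_lit 5) L23632 (by decide +kernel)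
theorem L23634 : W_1 (nat_lit 2) (nat_lit 0x1000080008000780000000000000000000000) (nat_lit 0x0) (nat_lit 0x100000000000060000000000000000000) := D_1 (nat_lit 77) (nat_lit 78) (nat_lit 128) (nat_lit 2) (nat_lit 6) (nat_lit 5) (nat_lit 5) (nat_lit 9) (nat_lit 4) (by decide +kernel)
theorem L23635 : W_1 (nat_lit 3) (nat_lit 0x1000080000000780000000000000000000000) (nat_lit 0x0) (nat_lit 0x100018000000060000000000000000000) := T_1 (nat_lit 111) (nat_lit 112) (nat_lit 3) (nat_lit 6) (nat_lit 5) L23634 (by decide +kernel)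
theorem L23637 : W_1 (nat_lit 2) (nat_lit 0x10000800000007c0002000000000000000000) (nat_lit 0x0) (nat_lit 0x70000000000000000000) := D_1 (nat_lit 77) (nat_lit 78) (nat_lit 76) (nat_lit 2) (nat_lit 6) (nat_lit 5) (nat_lit 2) (nat_lit 5) (nat_lit 5) (by decide +kernel)
theorem L23638 : W_1 (nat_lit 3) (nat_lit 0x1000080000000780002000000000000000000) (nat_lit 0x0) (nat_lit 0x40071000000000000000000) := T_1 (nat_lit 90) (nat_lit 72) (nat_lit 0) (nat_lit 8) (nat_lit 5) L23637 (by decide +kernel)
theorem L23639 : W_1 (nat_lit 4) (nat_lit 0x1000080000000780000000000000000000000) (nat_lit 0x0) (nat_lit 0x40077000000000000000000) := T_1 (nat_lit 73) (nat_lit 74) (nat_lit 0) (nat_lit 9) (nat_lit 5) L23638 (by decide +kernel)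
theorem L23640 : W_1 (nat_lit 2) (nat_lit 0x1000080009000f80020000000000000000000) (nat_lit 0x0) (nat_lit 0xe000000000000000000) := D_1 (nat_lit 74) (nat_lit 75) (nat_lit 73) (nat_lit 0) (nat_lit 10) (nat_lit 5) (nat_lit 0) (nat_lit 9) (nat_lit 5) (by decide +kernel)
theorem L23641 : W_1 (nat_lit 3) (nat_lit 0x1000080009000780020000000000000000000) (nat_lit 0x0) (nat_lit 0x200080000e000000000000000000) := T_1 (nat_lit 95) (nat_lit 109) (nat_lit 1) (nat_lit 10) (nat_lit 5) L23640 (by decide +kernel)
theorem L23642 : W_1 (nat_lit 4) (nat_lit 0x1000080001000780020000000000000000000) (nat_lit 0x0) (nat_lit 0x10000a00080000e000000000000000000) := T_1 (nat_lit 111) (nat_lit 128) (nat_lit 5) (nat_lit 9) (nat_lit 4) L23641 (by decide +kernel)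
theorem L23643 : W_1 (nat_lit 5) (nat_lit 0x1000080000000780020000000000000000000) (nat_lit 0x0) (nat_lit 0x10000b80080000e000000000000000000) := T_1 (nat_lit 108) (nat_lit 107) (nat_lit 1) (nat_lit 9) (nat_lit 5) L23642 (by decide +kernel)
theorem L23644 : W_1 (nat_lit 6) (nat_lit 0x1000080000000780000000000000000000000) (nat_lit 0x0) (nat_lit 0x10000b80080006e000000000000000000) := T_1 (nat_lit 77) (nat_lit 78) (nat_lit 2) (nat_lit 6) (nat_lit 5) L23643 (by decide +kernel)
theorem L23645 : W_1 (nat_lit 2) (nat_lit 0x1000080009000f80030000000040000000000) (nat_lit 0x0) (nat_lit 0x3000008000000000000000000) := D_1 (nat_lit 96) (nat_lit 97) (nat_lit 75) (nat_lit 0) (nat_lit 12) (nat_lit 5) (nat_lit 0) (nat_lit 11) (nat_lit 5) (by decide +kernel)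
theorem L23646 : W_1 (nat_lit 3) (nat_lit 0x1000080009000780030000000040000000000) (nat_lit 0x0) (nat_lit 0x2003800008000000000000000000) := T_1 (nat_lit 95) (nat_lit 109) (nat_lit 1) (nat_lit 10) (nat_lit 5) L23645 (by decide +kernel)
theorem L23647 : W_1 (nat_lit 4) (nat_lit 0x1000080008000780030000000040000000000) (nat_lit 0x0) (nat_lit 0x3803800008000000000000000000) := T_1 (nat_lit 108) (nat_lit 107) (nat_lit 1) (nat_lit 9) (nat_lit 5) L23646 (by decide +kernel)
theorem L23648 : W_1 (nat_lit 5) (nat_lit 0x1000080008000780030000000000000000000) (nat_lit 0x0) (nat_lit 0x3803800008000800040000000000) := T_1 (nat_lit 42) (nat_lit 59) (nat_lit 7) (nat_lit 8) (nat_lit 2) L23647 (by decide +kernel)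
theorem L23649 : W_1 (nat_lit 6) (nat_lit 0x1000080000000780030000000000000000000) (nat_lit 0x0) (nat_lit 0x10000b803800008000800040000000000) := T_1 (nat_lit 111) (nat_lit 128) (nat_lit 5) (nat_lit 9) (nat_lit 4) L23648 (by decide +kernel)
theorem L23650 : W_1 (nat_lit 7) (nat_lit 0x1000080000000780020000000000000000000) (nat_lit 0x0) (nat_lit 0x10000b803840018000800040000000000) := T_1 (nat_lit 76) (nat_lit 90) (nat_lit 2) (nat_lit 5) (nat_lit 5) L23649 (by decide +kernel)
theorem L23651 : W_1 (nat_lit 8) (nat_lit 0x1000080000000780000000000000000000000) (nat_lit 0x0) (nat_lit 0x10000b803840078000800040000000000) := T_1 (nat_lit 77) (nat_lit 78) (nat_lit 2) (nat_lit 6) (nat_lit 5) L23650 (by decide +kernel)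
theorem L23652 : W_1 (nat_lit 9) (nat_lit 0x1000080000000700000000000000000000000) (nat_lit 0x0) (nat_lit 0x10000bc038c007f000800040000000000) := Q_1 (nat_lit 91) (C_1 L23633 (C_1 L23639 (C_1 L23644 (C_1 L23651 N_1)))) (by decide +kernel)
theorem L23657 : W_1 (nat_lit 2) (nat_lit 0x1000080041003f00248000000000000000000) (nat_lit 0x0) (nat_lit 0x4000420000000000000000000) := D_1 (nat_lit 98) (nat_lit 77) (nat_lit 82) (nat_lit 0) (nat_lit 13) (nat_lit 5) (nat_lit 2) (nat_lit 10) (nat_lit 5) (by decide +kernel)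
theorem L23658 : W_1 (nat_lit 3) (nat_lit 0x1000080041003f00048000000000000000000) (nat_lit 0x0) (nat_lit 0x4000720000000000000000000) := T_1 (nat_lit 81) (nat_lit 80) (nat_lit 2) (nat_lit 9) (nat_lit 5) L23657 (by decide +kernel)
theorem L23659 : W_1 (nat_lit 4) (nat_lit 0x1000080041001f00048000000000000000000) (nat_lit 0x0) (nat_lit 0x80006000720000000000000000000) := T_1 (nat_lit 97) (nat_lit 115) (nat_lit 3) (nat_lit 9) (nat_lit 5) L23658 (by decide +kernel)
theorem L23660 : W_1 (nat_lit 5) (nat_lit 0x1000080001001f00048000000000000000000) (nat_lit 0x0) (nat_lit 0xe0006000720000000000000000000) := T_1 (nat_lit 114) (nat_lit 113) (nat_lit 3) (nat_lit 8) (nat_lit 5) L23659 (by decide +kernel)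
theorem L23661 : W_1 (nat_lit 6) (nat_lit 0x1000080000001f00048000000000000000000) (nat_lit 0x0) (nat_lit 0xe3006000720000000000000000000) := T_1 (nat_lit 108) (nat_lit 109) (nat_lit 1) (nat_lit 10) (nat_lit 5) L23660 (by decide +kernel)
theorem L23662 : W_1 (nat_lit 7) (nat_lit 0x1000080000000f00048000000000000000000) (nat_lit 0x0) (nat_lit 0xe3007000730000000000000000000) := T_1 (nat_lit 96) (nat_lit 76) (nat_lit 0) (nat_lit 11) (nat_lit 5) L23661 (by decide +kernel)
theorem L23663 : W_1 (nat_lit 8) (nat_lit 0x1000080000000f00008000000000000000000) (nat_lit 0x0) (nat_lit 0xe30070007f0000000000000000000) := T_1 (nat_lit 78) (nat_lit 79) (nat_lit 2) (nat_lit 7) (nat_lit 5) L23662 (by decide +kernel)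
theorem L23664 : W_1 (nat_lit 9) (nat_lit 0x1000080000000f00000000000000000000000) (nat_lit 0x0) (nat_lit 0xe30070007fc000000000000000000) := T_1 (nat_lit 75) (nat_lit 74) (nat_lit 0) (nat_lit 10) (nat_lit 5) L23663 (by decide +kernel)
theorem L23665 : W_1 (nat_lit 2) (nat_lit 0x1000080020000f00080000000000000000000) (nat_lit 0x0) (nat_lit 0x40001000100000000000000000000) := D_1 (nat_lit 96) (nat_lit 114) (nat_lit 80) (nat_lit 3) (nat_lit 8) (nat_lit 5) (nat_lit 2) (nat_lit 8) (nat_lit 5) (by decide +kernel)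
theorem L23666 : W_1 (nat_lit 3) (nat_lit 0x1000080020000f00000000000000000000000) (nat_lit 0x0) (nat_lit 0x400010001c0000000000000000000) := T_1 (nat_lit 79) (nat_lit 78) (nat_lit 2) (nat_lit 7) (nat_lit 5) L23665 (by decide +kernel)
theorem L23667 : W_1 (nat_lit 4) (nat_lit 0x1000080000000f00000000000000000000000) (nat_lit 0x0) (nat_lit 0x700010001c0000000000000000000) := T_1 (nat_lit 113) (nat_lit 112) (nat_lit 3) (nat_lit 7) (nat_lit 5) L23666 (by decide +kernel)
theorem L23668 : W_1 (nat_lit 2) (nat_lit 0x100008000000070000c000000000000000000) (nat_lit 0x0) (nat_lit 0x13000000000000000000) := D_1 (nat_lit 73) (nat_lit 72) (nat_lit 76) (nat_lit 3) (nat_lit 4) (nat_lit 4) (nat_lit 3) (nat_lit 5) (nat_lit 4) (by decide +kernel)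
theorem L23715 : W_1 (nat_lit 2) (nat_lit 0x100008000000030007c000200000000000000) (nat_lit 0x0) (nat_lit 0x7000000000000000) := D_1 (nat_lit 61) (nat_lit 62) (nat_lit 60) (nat_lit 2) (nat_lit 7) (nat_lit 4) (nat_lit 2) (nat_lit 6) (nat_lit 4) (by decide +kernel)
theorem L23716 : W_1 (nat_lit 3) (nat_lit 0x1000080000000300078000200000000000000) (nat_lit 0x0) (nat_lit 0x4007100000000000000) := T_1 (nat_lit 74) (nat_lit 56) (nat_lit 0) (nat_lit 9) (nat_lit 4) L23715 (by decide +kernel)
theorem L23717 : W_1 (nat_lit 4) (nat_lit 0x1000080000000300078000000000000000000) (nat_lit 0x0) (nat_lit 0x4007700000000000000) := T_1 (nat_lit 57) (nat_lit 58) (nat_lit 0) (nat_lit 10) (nat_lit 4) L23716 (by decide +kernel)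
theorem L23746 : W_1 (nat_lit 2) (nat_lit 0x1000080000000700060000000000000000000) (nat_lit 0x0) (nat_lit 0x190000000000000000000) := D_1 (nat_lit 79) (nat_lit 80) (nat_lit 76) (nat_lit 1) (nat_lit 12) (nat_lit 4) (nat_lit 1) (nat_lit 11) (nat_lit 4) (by decide +kernel)
theorem L23747 : W_1 (nat_lit 3) (nat_lit 0x1000080000000700020000000000000000000) (nat_lit 0x0) (nat_lit 0x801d0000000000000000000) := T_1 (nat_lit 78) (nat_lit 91) (nat_lit 2) (nat_lit 6) (nat_lit 5) L23746 (by decide +kernel)
theorem L23748 : W_1 (nat_lit 2) (nat_lit 0x1000080000000700060000000000000000000) (nat_lit 0x0) (nat_lit 0x800180000000000000000000) := D_1 (nat_lit 79) (nat_lit 80) (nat_lit 95) (nat_lit 1) (nat_lit 12) (nat_lit 4) (nat_lit 2) (nat_lit 7) (nat_lit 5) (by decide +kernel)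
theorem L23749 : W_1 (nat_lit 3) (nat_lit 0x1000080000000700020000000000000000000) (nat_lit 0x0) (nat_lit 0x8801c0000000000000000000) := T_1 (nat_lit 78) (nat_lit 91) (nat_lit 2) (nat_lit 6) (nat_lit 5) L23748 (by decide +kernel)
theorem L23822 : W_1 (nat_lit 2) (nat_lit 0x100008000800078003c001000040000000000) (nat_lit 0x0) (nat_lit 0x80006000000) := D_1 (nat_lit 43) (nat_lit 25) (nat_lit 26) (nat_lit 4) (nat_lit 9) (nat_lit 5) (nat_lit 5) (nat_lit 9) (nat_lit 1) (by decide +kernel)
theorem L23823 : W_1 (nat_lit 3) (nat_lit 0x100008000800078003c000000040000000000) (nat_lit 0x0) (nat_lit 0x3000080006000000) := T_1 (nat_lit 60) (nat_lit 61) (nat_lit 2) (nat_lit 6) (nat_lit 4) L23822 (by decide +kernel)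
theorem L23933 : W_1 (nat_lit 2) (nat_lit 0x1c000c0002000300000000000000000000000) (nat_lit 0x0) (nat_lit 0x300100000000000000000000000000000000) := D_1 (nat_lit 141) (nat_lit 128) (nat_lit 140) (nat_lit 2) (nat_lit 5) (nat_lit 8) (nat_lit 2) (nat_lit 4) (nat_lit 8) (by decide +kernel)
theorem L23934 : W_1 (nat_lit 3) (nat_lit 0x18000c0002000300000000000000000000000) (nat_lit 0x0) (nat_lit 0x8000700100000000000000000000000000000000) := T_1 (nat_lit 142) (nat_lit 159) (nat_lit 5) (nat_lit 7) (nat_lit 5) L23933 (by decide +kernel)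
theorem L23935 : W_1 (nat_lit 4) (nat_lit 0x10000c0002000300000000000000000000000) (nat_lit 0x0) (nat_lit 0x8000f00100000000000010000000000000000000) := T_1 (nat_lit 143) (nat_lit 76) (nat_lit 6) (nat_lit 7) (nat_lit 8) L23934 (by decide +kernel)
theorem L23936 : W_1 (nat_lit 5) (nat_lit 0x10000c0000000300000000000000000000000) (nat_lit 0x0) (nat_lit 0x8000f00100002000000018000000000000000000) := T_1 (nat_lit 109) (nat_lit 75) (nat_lit 7) (nat_lit 7) (nat_lit 4) L23935 (by decide +kernel)
theorem L23942 : W_1 (nat_lit 2) (nat_lit 0x11000f8000000300000000000000000000000) (nat_lit 0x0) (nat_lit 0xe00000000000000000000000000) := D_1 (nat_lit 106) (nat_lit 105) (nat_lit 107) (nat_lit 0) (nat_lit 7) (nat_lit 7) (nat_lit 0) (nat_lit 8) (nat_lit 7) (by decide +kernel)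
theorem L23943 : W_1 (nat_lit 3) (nat_lit 0x11000f0000000300000000000000000000000) (nat_lit 0x0) (nat_lit 0x80008000e00000000000000000000000000) := T_1 (nat_lit 123) (nat_lit 139) (nat_lit 1) (nat_lit 7) (nat_lit 7) L23942 (by decide +kernel)
theorem L23944 : W_1 (nat_lit 4) (nat_lit 0x10000f0000000300000000000000000000000) (nat_lit 0x0) (nat_lit 0x380008000e00000000000000000000000000) := T_1 (nat_lit 140) (nat_lit 141) (nat_lit 1) (nat_lit 8) (nat_lit 7) L23943 (by decide +kernel)
theorem L23945 : W_1 (nat_lit 5) (nat_lit 0x10000e0000000300000000000000000000000) (nat_lit 0x0) (nat_lit 0x2380018000e00000000000000000000000000) := T_1 (nat_lit 124) (nat_lit 145) (nat_lit 3) (nat_lit 5) (nat_lit 7) L23944 (by decide +kernel)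
theorem L24223 : W_1 (nat_lit 2) (nat_lit 0x1000080002000300008000400060000000000) (nat_lit 0x0) (nat_lit 0x200010000800000) := D_1 (nat_lit 40) (nat_lit 57) (nat_lit 23) (nat_lit 4) (nat_lit 7) (nat_lit 6) (nat_lit 4) (nat_lit 7) (nat_lit 5) (by decide +kernel)
theorem L24224 : W_1 (nat_lit 3) (nat_lit 0x1000080002000300008000400040000000000) (nat_lit 0x0) (nat_lit 0x200030002800000) := T_1 (nat_lit 41) (nat_lit 25) (nat_lit 6) (nat_lit 7) (nat_lit 5) L24223 (by decide +kernel)
theorem L24225 : W_1 (nat_lit 4) (nat_lit 0x1000080002000300008000400000000000000) (nat_lit 0x0) (nat_lit 0xa00070002800000) := T_1 (nat_lit 42) (nat_lit 59) (nat_lit 6) (nat_lit 7) (nat_lit 6) L24224 (by decide +kernel)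
theorem L24226 : W_1 (nat_lit 5) (nat_lit 0x1000080000000300008000400000000000000) (nat_lit 0x0) (nat_lit 0x40002000000000000a00070002800000) := T_1 (nat_lit 109) (nat_lit 126) (nat_lit 7) (nat_lit 7) (nat_lit 4) L24225 (by decide +kernel)
theorem L24434 : W_1 (nat_lit 2) (nat_lit 0x10000800008007c0000000000000000000000) (nat_lit 0x0) (nat_lit 0x70000000000000000000) := D_1 (nat_lit 77) (nat_lit 78) (nat_lit 76) (nat_lit 2) (nat_lit 6) (nat_lit 5) (nat_lit 2) (nat_lit 5) (nat_lit 5) (by decide +kernel)
theorem L24435 : W_1 (nat_lit 3) (nat_lit 0x1000080000800780000000000000000000000) (nat_lit 0x0) (nat_lit 0x400040070000000000000000000) := T_1 (nat_lit 90) (nat_lit 106) (nat_lit 1) (nat_lit 8) (nat_lit 5) L24434 (by decide +kernel)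
theorem L24436 : W_1 (nat_lit 4) (nat_lit 0x1000080000000780000000000000000000000) (nat_lit 0x0) (nat_lit 0x1c00040070000000000000000000) := T_1 (nat_lit 107) (nat_lit 108) (nat_lit 1) (nat_lit 9) (nat_lit 5) L24435 (by decide +kernel)
theorem L24484 : W_1 (nat_lit 2) (nat_lit 0x8001c001e0009000180022000000000000000000) (nat_lit 0x0) (nat_lit 0x80004002000000000000000000000000000000000000) := D_1 (nat_lit 158) (nat_lit 145) (nat_lit 175) (nat_lit 1) (nat_lit 9) (nat_lit 8) (nat_lit 5) (nat_lit 6) (nat_lit 6) (by decide +kernel)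
theorem L24485 : W_1 (nat_lit 3) (nat_lit 0x1c001e0009000180022000000000000000000) (nat_lit 0x0) (nat_lit 0x8000c002000000002000000000000000000000000000) := T_1 (nat_lit 159) (nat_lit 109) (nat_lit 6) (nat_lit 6) (nat_lit 9) L24484 (by decide +kernel)
theorem L24486 : W_1 (nat_lit 4) (nat_lit 0x1c001e0009000180020000000000000000000) (nat_lit 0x0) (nat_lit 0x8000c002000000002000040002000000000000000000) := T_1 (nat_lit 73) (nat_lit 90) (nat_lit 4) (nat_lit 6) (nat_lit 8) L24485 (by decide +kernel)
theorem L24487 : W_1 (nat_lit 5) (nat_lit 0x1c001e0009000080020000000000000000000) (nat_lit 0x0) (nat_lit 0x8000c00200000000200014000a000000000000000000) := T_1 (nat_lit 92) (nat_lit 75) (nat_lit 6) (nat_lit 6) (nat_lit 8) L24486 (by decide +kernel)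
theorem L24488 : W_1 (nat_lit 6) (nat_lit 0x1c001e0009000000020000000000000000000) (nat_lit 0x0) (nat_lit 0x8000c0020000000020001c000e000000000000000000) := T_1 (nat_lit 91) (nat_lit 74) (nat_lit 7) (nat_lit 6) (nat_lit 4) L24487 (by decide +kernel)
theorem L24489 : W_1 (nat_lit 7) (nat_lit 0x1c001e0008000000020000000000000000000) (nat_lit 0x0) (nat_lit 0x8000c0020000000038001c000e000000000000000000) := T_1 (nat_lit 108) (nat_lit 107) (nat_lit 0) (nat_lit 9) (nat_lit 7) L24488 (by decide +kernel)
theorem L24490 : W_1 (nat_lit 8) (nat_lit 0x1c001e0008000000000000000000000000000) (nat_lit 0x0) (nat_lit 0x8000c0020000000038005c002e000000000000000000) := T_1 (nat_lit 77) (nat_lit 94) (nat_lit 5) (nat_lit 9) (nat_lit 4) L24489 (by decide +kernel)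
theorem L24845 : W_1 (nat_lit 2) (nat_lit 0x10001c0003000700060000000000000000000) (nat_lit 0x0) (nat_lit 0x190000000000000000000) := D_1 (nat_lit 79) (nat_lit 80) (nat_lit 76) (nat_lit 1) (nat_lit 12) (nat_lit 4) (nat_lit 1) (nat_lit 11) (nat_lit 4) (by decide +kernel)
theorem L24846 : W_1 (nat_lit 3) (nat_lit 0x10001c0003000700020000000000000000000) (nat_lit 0x0) (nat_lit 0x801d0000000000000000000) := T_1 (nat_lit 78) (nat_lit 91) (nat_lit 2) (nat_lit 6) (nat_lit 5) L24845 (by decide +kernel)
theorem L26283 : W_1 (nat_lit 2) (nat_lit 0x30000d0004000200030000800000000000000) (nat_lit 0x0) (nat_lit 0x8000400020000000000) := D_1 (nat_lit 58) (nat_lit 41) (nat_lit 75) (nat_lit 4) (nat_lit 8) (nat_lit 6) (nat_lit 4) (nat_lit 8) (nat_lit 7) (by decide +kernel)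
theorem L26284 : W_1 (nat_lit 3) (nat_lit 0x30000d0004000200030000000000000000000) (nat_lit 0x0) (nat_lit 0x2000000008000c00020000000000) := T_1 (nat_lit 59) (nat_lit 109) (nat_lit 5) (nat_lit 8) (nat_lit 3) L26283 (by decide +kernel)
theorem L28225 : W_1 (nat_lit 5) (nat_lit 0x1000080000000300038000000000000000000) (nat_lit 0x0) (nat_lit 0xc4007700000000000000) := T_1 (nat_lit 78) (nat_lit 79) (nat_lit 1) (nat_lit 11) (nat_lit 4) L23717 (by decide +kernel)
theorem L28229 : W_1 (nat_lit 2) (nat_lit 0x1000080000000380018000000000000000000) (nat_lit 0x0) (nat_lit 0x60020000000000000000000) := D_1 (nat_lit 90) (nat_lit 77) (nat_lit 89) (nat_lit 2) (nat_lit 5) (nat_lit 5) (nat_lit 2) (nat_lit 4) (nat_lit 5) (by decide +kernel)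
theorem L28280 : W_1 (nat_lit 3) (nat_lit 0x100008000000030000c000000000000000000) (nat_lit 0x0) (nat_lit 0xc00013000000000000000000) := T_1 (nat_lit 94) (nat_lit 95) (nat_lit 0) (nat_lit 10) (nat_lit 5) L23668 (by decide +kernel)
theorem L29155 : W_1 (nat_lit 2) (nat_lit 0x100008000200030001e000000000000000000) (nat_lit 0x0) (nat_lit 0x1800040000000000) := D_1 (nat_lit 59) (nat_lit 42) (nat_lit 60) (nat_lit 5) (nat_lit 8) (nat_lit 2) (nat_lit 2) (nat_lit 5) (nat_lit 4) (by decide +kernel)
theorem L29446 : W_1 (nat_lit 2) (nat_lit 0x100008000300030000c000c00020000000000) (nat_lit 0x0) (nat_lit 0x200010000800000) := D_1 (nat_lit 40) (nat_lit 23) (nat_lit 57) (nat_lit 4) (nat_lit 7) (nat_lit 5) (nat_lit 4) (nat_lit 7) (nat_lit 6) (by decide +kernel)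
theorem L29447 : W_1 (nat_lit 3) (nat_lit 0x100008000300030000c000c00000000000000) (nat_lit 0x0) (nat_lit 0x80000000200030000800000) := T_1 (nat_lit 41) (nat_lit 91) (nat_lit 5) (nat_lit 7) (nat_lit 2) L29446 (by decide +kernel)
theorem L29448 : W_1 (nat_lit 4) (nat_lit 0x100008000200030000c000c00000000000000) (nat_lit 0x0) (nat_lit 0x20001000080000000200030000800000) := T_1 (nat_lit 108) (nat_lit 125) (nat_lit 5) (nat_lit 7) (nat_lit 3) L29447 (by decide +kernel)
theorem L29449 : W_1 (nat_lit 5) (nat_lit 0x100008000200030000c000800000000000000) (nat_lit 0x0) (nat_lit 0x20001000080000000600070000800000) := T_1 (nat_lit 58) (nat_lit 42) (nat_lit 6) (nat_lit 7) (nat_lit 6) L29448 (by decide +kernel)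
theorem L29450 : W_1 (nat_lit 6) (nat_lit 0x100008000000030000c000800000000000000) (nat_lit 0x0) (nat_lit 0x60003000080000000600070000800000) := T_1 (nat_lit 109) (nat_lit 126) (nat_lit 7) (nat_lit 7) (nat_lit 4) L29449 (by decide +kernel)
theorem L29544 : W_1 (nat_lit 2) (nat_lit 0x100008000000070000c000000000000000000) (nat_lit 0x0) (nat_lit 0x80003000000000000000000) := D_1 (nat_lit 73) (nat_lit 91) (nat_lit 72) (nat_lit 0) (nat_lit 9) (nat_lit 5) (nat_lit 3) (nat_lit 4) (nat_lit 4) (by decide +kernel)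
theorem L29545 : W_1 (nat_lit 3) (nat_lit 0x1000080000000700008000000000000000000) (nat_lit 0x0) (nat_lit 0x880007000000000000000000) := T_1 (nat_lit 74) (nat_lit 95) (nat_lit 0) (nat_lit 10) (nat_lit 5) L29544 (by decide +kernel)
theorem L30933 : W_1 (nat_lit 4) (nat_lit 0x30000c0004000200030000000000000000000) (nat_lit 0x0) (nat_lit 0x30002000000008000c00020000000000) := T_1 (nat_lit 124) (nat_lit 125) (nat_lit 3) (nat_lit 5) (nat_lit 7) L26284 (by decide +kernel)
theorem L30936 : W_1 (nat_lit 2) (nat_lit 0x10000c0004000200030000800000000000000) (nat_lit 0x0) (nat_lit 0x8000400020000000000) := D_1 (nat_lit 58) (nat_lit 41) (nat_lit 75) (nat_lit 4) (nat_lit 8) (nat_lit 6) (nat_lit 4) (nat_lit 8) (nat_lit 7) (by decide +kernel)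
theorem L30937 : W_1 (nat_lit 3) (nat_lit 0x10000c0004000200030000000000000000000) (nat_lit 0x0) (nat_lit 0x2000000008000c00020000000000) := T_1 (nat_lit 59) (nat_lit 109) (nat_lit 5) (nat_lit 8) (nat_lit 3) L30936 (by decide +kernel)
theorem L31982 : W_1 (nat_lit 5) (nat_lit 0x1000080000000700000000000000000000000) (nat_lit 0x0) (nat_lit 0x738018801ce000000000000000000) := Q_1 (nat_lit 95) (C_1 L23667 (C_1 L23615 N_1)) (by decide +kernel)
theorem L31983 : W_1 (nat_lit 2) (nat_lit 0x1000080000000f00008000000000000000000) (nat_lit 0x0) (nat_lit 0x40003000000000000000000000000000) := D_1 (nat_lit 109) (nat_lit 108) (nat_lit 126) (nat_lit 1) (nat_lit 10) (nat_lit 5) (nat_lit 7) (nat_lit 7) (nat_lit 4) (by decide +kernel)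
theorem L31984 : W_1 (nat_lit 3) (nat_lit 0x1000080000000f00000000000000000000000) (nat_lit 0x0) (nat_lit 0x4000300000000c000000000000000000) := T_1 (nat_lit 75) (nat_lit 74) (nat_lit 0) (nat_lit 10) (nat_lit 5) L31983 (by decide +kernel)
theorem L31985 : W_1 (nat_lit 10) (nat_lit 0x1000080000000700000000000000000000000) (nat_lit 0x0) (nat_lit 0x400f30078007fc000000000000000000) := Q_1 (nat_lit 95) (C_1 L23667 (C_1 L23664 (C_1 L31984 N_1))) (by decide +kernel)
theorem L31986 : W_1 (nat_lit 5) (nat_lit 0x1000080000000700000000000000000000000) (nat_lit 0x0) (nat_lit 0x100019c000c0077000000000000000000) := Q_1 (nat_lit 91) (C_1 L23639 (C_1 L24436 (C_1 L23635 (C_1 L23633 N_1)))) (by decide +kernel)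
theorem L31987 : W_1 (nat_lit 2) (nat_lit 0x1000080001000f80000000000000000000000) (nat_lit 0x0) (nat_lit 0xe0000000000000000000) := D_1 (nat_lit 78) (nat_lit 79) (nat_lit 77) (nat_lit 2) (nat_lit 7) (nat_lit 5) (nat_lit 2) (nat_lit 6) (nat_lit 5) (by decide +kernel)
theorem L31988 : W_1 (nat_lit 3) (nat_lit 0x1000080001000f00000000000000000000000) (nat_lit 0x0) (nat_lit 0x8000800e0000000000000000000) := T_1 (nat_lit 91) (nat_lit 107) (nat_lit 1) (nat_lit 9) (nat_lit 5) L31987 (by decide +kernel)
theorem L31989 : W_1 (nat_lit 4) (nat_lit 0x1000080000000f00000000000000000000000) (nat_lit 0x0) (nat_lit 0x38000800e0000000000000000000) := T_1 (nat_lit 108) (nat_lit 109) (nat_lit 1) (nat_lit 10) (nat_lit 5) L31988 (by decide +kernel)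
theorem L31990 : W_1 (nat_lit 2) (nat_lit 0x1000080010000f80000000000000000000000) (nat_lit 0x0) (nat_lit 0x3800000000000000000000000000) := D_1 (nat_lit 108) (nat_lit 107) (nat_lit 109) (nat_lit 1) (nat_lit 9) (nat_lit 5) (nat_lit 1) (nat_lit 10) (nat_lit 5) (by decide +kernel)
theorem L31991 : W_1 (nat_lit 3) (nat_lit 0x1000080010000f00000000000000000000000) (nat_lit 0x0) (nat_lit 0xb800080000000000000000000000) := T_1 (nat_lit 91) (nat_lit 111) (nat_lit 3) (nat_lit 6) (nat_lit 5) L31990 (by decide +kernel)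
theorem L31992 : W_1 (nat_lit 4) (nat_lit 0x1000080000000f00000000000000000000000) (nat_lit 0x0) (nat_lit 0x3b800080000000000000000000000) := T_1 (nat_lit 112) (nat_lit 113) (nat_lit 3) (nat_lit 7) (nat_lit 5) L31991 (by decide +kernel)
theorem L31993 : W_1 (nat_lit 5) (nat_lit 0x1000080000000700000000000000000000000) (nat_lit 0x0) (nat_lit 0x7b8018801e0000000000000000000) := Q_1 (nat_lit 95) (C_1 L23667 (C_1 L31989 (C_1 L31992 N_1))) (by decide +kernel)
theorem L31994 : W_1 (nat_lit 2) (nat_lit 0x10000800080007c0002000000000000000000) (nat_lit 0x0) (nat_lit 0x100000000000030000000000000000000) := D_1 (nat_lit 77) (nat_lit 76) (nat_lit 128) (nat_lit 2) (nat_lit 5) (nat_lit 5) (nat_lit 5) (nat_lit 9) (nat_lit 4) (by decide +kernel)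
theorem L31995 : W_1 (nat_lit 3) (nat_lit 0x10000800000007c0002000000000000000000) (nat_lit 0x0) (nat_lit 0x100018000000030000000000000000000) := T_1 (nat_lit 111) (nat_lit 112) (nat_lit 3) (nat_lit 6) (nat_lit 5) L31994 (by decide +kernel)
theorem L31996 : W_1 (nat_lit 4) (nat_lit 0x1000080000000780002000000000000000000) (nat_lit 0x0) (nat_lit 0x100018000040031000000000000000000) := T_1 (nat_lit 90) (nat_lit 72) (nat_lit 0) (nat_lit 8) (nat_lit 5) L31995 (by decide +kernel)
theorem L31997 : W_1 (nat_lit 5) (nat_lit 0x1000080000000780000000000000000000000) (nat_lit 0x0) (nat_lit 0x100018000040037000000000000000000) := T_1 (nat_lit 73) (nat_lit 74) (nat_lit 0) (nat_lit 9) (nat_lit 5) L31996 (by decide +kernel)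
theorem L32009 : W_1 (nat_lit 2) (nat_lit 0x10000800088007c0000000000000000000000) (nat_lit 0x0) (nat_lit 0x100000000000030000000000000000000) := D_1 (nat_lit 77) (nat_lit 128) (nat_lit 76) (nat_lit 5) (nat_lit 9) (nat_lit 4) (nat_lit 2) (nat_lit 5) (nat_lit 5) (by decide +kernel)
theorem L32010 : W_1 (nat_lit 3) (nat_lit 0x1000080008800780000000000000000000000) (nat_lit 0x0) (nat_lit 0x100000400040030000000000000000000) := T_1 (nat_lit 90) (nat_lit 106) (nat_lit 1) (nat_lit 8) (nat_lit 5) L32009 (by decide +kernel)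
theorem L32011 : W_1 (nat_lit 4) (nat_lit 0x1000080008000780000000000000000000000) (nat_lit 0x0) (nat_lit 0x100001c00040030000000000000000000) := T_1 (nat_lit 107) (nat_lit 108) (nat_lit 1) (nat_lit 9) (nat_lit 5) L32010 (by decide +kernel)
theorem L32012 : W_1 (nat_lit 5) (nat_lit 0x1000080000000780000000000000000000000) (nat_lit 0x0) (nat_lit 0x100019c00040030000000000000000000) := T_1 (nat_lit 111) (nat_lit 112) (nat_lit 3) (nat_lit 6) (nat_lit 5) L32011 (by decide +kernel)
theorem L32024 : W_1 (nat_lit 2) (nat_lit 0x1000080003000300008000400020000000000) (nat_lit 0x0) (nat_lit 0x200010000800000) := D_1 (nat_lit 40) (nat_lit 23) (nat_lit 57) (nat_lit 4) (nat_lit 7) (nat_lit 5) (nat_lit 4) (nat_lit 7) (nat_lit 6) (by decide +kernel)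
theorem L32025 : W_1 (nat_lit 3) (nat_lit 0x1000080003000300008000400000000000000) (nat_lit 0x0) (nat_lit 0x80000000200030000800000) := T_1 (nat_lit 41) (nat_lit 91) (nat_lit 5) (nat_lit 7) (nat_lit 2) L32024 (by decide +kernel)
theorem L32026 : W_1 (nat_lit 4) (nat_lit 0x1000080003000300008000000000000000000) (nat_lit 0x0) (nat_lit 0x20000000080000000600030000800000) := T_1 (nat_lit 58) (nat_lit 125) (nat_lit 5) (nat_lit 7) (nat_lit 3) L32025 (by decide +kernel)
theorem L32027 : W_1 (nat_lit 5) (nat_lit 0x1000080003000300000000000000000000000) (nat_lit 0x0) (nat_lit 0x60000000080008000600030000800000) := T_1 (nat_lit 75) (nat_lit 126) (nat_lit 7) (nat_lit 7) (nat_lit 4) L32026 (by decide +kernel)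
theorem L32028 : W_1 (nat_lit 2) (nat_lit 0x1000080003000700000000000000000000000) (nat_lit 0x0) (nat_lit 0xc00080000000000000000000000) := D_1 (nat_lit 107) (nat_lit 91) (nat_lit 106) (nat_lit 1) (nat_lit 9) (nat_lit 5) (nat_lit 2) (nat_lit 4) (nat_lit 6) (by decide +kernel)
theorem L32029 : W_1 (nat_lit 3) (nat_lit 0x1000080003000300000000000000000000000) (nat_lit 0x0) (nat_lit 0xc00c80000000000000000000000) := T_1 (nat_lit 94) (nat_lit 95) (nat_lit 1) (nat_lit 10) (nat_lit 5) L32028 (by decide +kernel)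
theorem L32030 : W_1 (nat_lit 2) (nat_lit 0x1000080003400300008000400030000000000) (nat_lit 0x0) (nat_lit 0x800040002000000) := D_1 (nat_lit 42) (nat_lit 59) (nat_lit 25) (nat_lit 6) (nat_lit 7) (nat_lit 6) (nat_lit 6) (nat_lit 7) (nat_lit 5) (by decide +kernel)
theorem L32031 : W_1 (nat_lit 3) (nat_lit 0x1000080003400300008000400010000000000) (nat_lit 0x0) (nat_lit 0x800060002800000) := T_1 (nat_lit 41) (nat_lit 23) (nat_lit 4) (nat_lit 7) (nat_lit 5) L32030 (by decide +kernel)
theorem L32032 : W_1 (nat_lit 4) (nat_lit 0x1000080003400300008000400000000000000) (nat_lit 0x0) (nat_lit 0xa00070002800000) := T_1 (nat_lit 40) (nat_lit 57) (nat_lit 4) (nat_lit 7) (nat_lit 6) L32031 (by decide +kernel)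
theorem L32033 : W_1 (nat_lit 5) (nat_lit 0x1000080003400300008000000000000000000) (nat_lit 0x0) (nat_lit 0x20000000000000000e00070002800000) := T_1 (nat_lit 58) (nat_lit 125) (nat_lit 5) (nat_lit 7) (nat_lit 3) L32032 (by decide +kernel)
theorem L32034 : W_1 (nat_lit 6) (nat_lit 0x1000080003400300000000000000000000000) (nat_lit 0x0) (nat_lit 0x60000000000008000e00070002800000) := T_1 (nat_lit 75) (nat_lit 126) (nat_lit 7) (nat_lit 7) (nat_lit 4) L32033 (by decide +kernel)
theorem L32035 : W_1 (nat_lit 7) (nat_lit 0x1000080003000300000000000000000000000) (nat_lit 0x0) (nat_lit 0x60000c00000008000e00070002800000) := T_1 (nat_lit 106) (nat_lit 107) (nat_lit 2) (nat_lit 4) (nat_lit 6) L32034 (by decide +kernel)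
theorem L32036 : W_1 (nat_lit 8) (nat_lit 0x1000080002000300000000000000000000000) (nat_lit 0x0) (nat_lit 0x60001c00c80008000e00070002800000) := Q_1 (nat_lit 108) (C_1 L32027 (C_1 L32029 (C_1 L32035 N_1))) (by decide +kernel)
theorem L32066 : W_1 (nat_lit 2) (nat_lit 0x1000080010000780004000000000000000000) (nat_lit 0x0) (nat_lit 0x20000800008000000000000000000) := D_1 (nat_lit 95) (nat_lit 75) (nat_lit 113) (nat_lit 0) (nat_lit 10) (nat_lit 5) (nat_lit 3) (nat_lit 7) (nat_lit 5) (by decide +kernel)
theorem L32067 : W_1 (nat_lit 3) (nat_lit 0x1000080000000780004000000000000000000) (nat_lit 0x0) (nat_lit 0x38000800008000000000000000000) := T_1 (nat_lit 112) (nat_lit 111) (nat_lit 3) (nat_lit 6) (nat_lit 5) L32066 (by decide +kernel)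
theorem L32068 : W_1 (nat_lit 4) (nat_lit 0x1000080000000780000000000000000000000) (nat_lit 0x0) (nat_lit 0x3800080000e000000000000000000) := T_1 (nat_lit 74) (nat_lit 73) (nat_lit 0) (nat_lit 9) (nat_lit 5) L32067 (by decide +kernel)
theorem L32069 : W_1 (nat_lit 2) (nat_lit 0x100008000b000780008000000000000000000) (nat_lit 0x0) (nat_lit 0x400020000000000000000400000000000000) := D_1 (nat_lit 125) (nat_lit 142) (nat_lit 58) (nat_lit 6) (nat_lit 6) (nat_lit 8) (nat_lit 5) (nat_lit 7) (nat_lit 3) (by decide +kernel)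
theorem L32070 : W_1 (nat_lit 3) (nat_lit 0x100008000b000780000000000000000000000) (nat_lit 0x0) (nat_lit 0x400060000000000008000400000000000000) := T_1 (nat_lit 75) (nat_lit 126) (nat_lit 7) (nat_lit 7) (nat_lit 4) L32069 (by decide +kernel)
theorem L32071 : W_1 (nat_lit 4) (nat_lit 0x1000080009000780000000000000000000000) (nat_lit 0x0) (nat_lit 0x400060002000800008000400000000000000) := T_1 (nat_lit 109) (nat_lit 95) (nat_lit 1) (nat_lit 10) (nat_lit 5) L32070 (by decide +kernel)
theorem L32072 : W_1 (nat_lit 5) (nat_lit 0x1000080008000780000000000000000000000) (nat_lit 0x0) (nat_lit 0x400060003800800008000400000000000000) := T_1 (nat_lit 108) (nat_lit 107) (nat_lit 1) (nat_lit 9) (nat_lit 5) L32071 (by decide +kernel)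
theorem L32073 : W_1 (nat_lit 6) (nat_lit 0x1000080000000780000000000000000000000) (nat_lit 0x0) (nat_lit 0x40006001b800800008000400000000000000) := T_1 (nat_lit 111) (nat_lit 112) (nat_lit 3) (nat_lit 6) (nat_lit 5) L32072 (by decide +kernel)
theorem L32166 : W_1 (nat_lit 2) (nat_lit 0x1000080018000f00020000000000000000000) (nat_lit 0x0) (nat_lit 0x200000000000000001000080000000000) := D_1 (nat_lit 60) (nat_lit 129) (nat_lit 43) (nat_lit 7) (nat_lit 9) (nat_lit 3) (nat_lit 7) (nat_lit 9) (nat_lit 2) (by decide +kernel)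
theorem L32167 : W_1 (nat_lit 3) (nat_lit 0x1000080008000f00020000000000000000000) (nat_lit 0x0) (nat_lit 0x200030000000000001000080000000000) := T_1 (nat_lit 112) (nat_lit 113) (nat_lit 3) (nat_lit 7) (nat_lit 5) L32166 (by decide +kernel)
theorem L32168 : W_1 (nat_lit 4) (nat_lit 0x1000080000000f00020000000000000000000) (nat_lit 0x0) (nat_lit 0x300038000000000001000080000000000) := T_1 (nat_lit 111) (nat_lit 128) (nat_lit 5) (nat_lit 9) (nat_lit 4) L32167 (by decide +kernel)
theorem L32184 : W_1 (nat_lit 2) (nat_lit 0x1c000c0003000380000000000000000000000) (nat_lit 0x0) (nat_lit 0xc00400000000000000000000000) := D_1 (nat_lit 107) (nat_lit 106) (nat_lit 94) (nat_lit 3) (nat_lit 4) (nat_lit 6) (nat_lit 1) (nat_lit 9) (nat_lit 5) (by decide +kernel)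
theorem L32185 : W_1 (nat_lit 3) (nat_lit 0x1c000c0002000380000000000000000000000) (nat_lit 0x0) (nat_lit 0x10000000000001c00400000000000000000000000) := T_1 (nat_lit 108) (nat_lit 160) (nat_lit 4) (nat_lit 7) (nat_lit 9) L32184 (by decide +kernel)
theorem L32186 : W_1 (nat_lit 4) (nat_lit 0x1c000c0002000180000000000000000000000) (nat_lit 0x0) (nat_lit 0x10000000000001c00600010000000000000000000) := T_1 (nat_lit 93) (nat_lit 76) (nat_lit 6) (nat_lit 7) (nat_lit 8) L32185 (by decide +kernel)
theorem L32187 : W_1 (nat_lit 5) (nat_lit 0x1c000c0002000100000000000000000000000) (nat_lit 0x0) (nat_lit 0x10000000000001c00680014000000000000000000) := T_1 (nat_lit 91) (nat_lit 74) (nat_lit 4) (nat_lit 7) (nat_lit 8) L32186 (by decide +kernel)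
theorem L32227 : W_1 (nat_lit 3) (nat_lit 0x18000c0002000380000000000000000000000) (nat_lit 0x0) (nat_lit 0x10000000000001800c00000000000000000000000) := T_1 (nat_lit 108) (nat_lit 160) (nat_lit 4) (nat_lit 7) (nat_lit 9) L21528 (by decide +kernel)
theorem L32228 : W_1 (nat_lit 4) (nat_lit 0x18000c0002000180000000000000000000000) (nat_lit 0x0) (nat_lit 0x10000000000001800e00010000000000000000000) := T_1 (nat_lit 93) (nat_lit 76) (nat_lit 6) (nat_lit 7) (nat_lit 8) L32227 (by decide +kernel)
theorem L32229 : W_1 (nat_lit 5) (nat_lit 0x18000c0002000100000000000000000000000) (nat_lit 0x0) (nat_lit 0x10000000000001800e80014000000000000000000) := T_1 (nat_lit 91) (nat_lit 74) (nat_lit 4) (nat_lit 7) (nat_lit 8) L32228 (by decide +kernel)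
theorem L32323 : W_1 (nat_lit 3) (nat_lit 0x100008000000030000c000000000000000000) (nat_lit 0x0) (nat_lit 0xc80003000000000000000000) := T_1 (nat_lit 94) (nat_lit 95) (nat_lit 0) (nat_lit 10) (nat_lit 5) L29544 (by decide +kernel)
theorem L33238 : W_1 (nat_lit 6) (nat_lit 0x18000c0002000000000000000000000000000) (nat_lit 0x0) (nat_lit 0x10000000000001800f8001c000000000000000000) := T_1 (nat_lit 92) (nat_lit 75) (nat_lit 7) (nat_lit 7) (nat_lit 4) L32229 (by decide +kernel)
theorem L33243 : W_1 (nat_lit 2) (nat_lit 0x2000100018000c0002000000000000000000000000000) (nat_lit 0x0) (nat_lit 0x2000100008000000000000000000000000000000000000000) := D_1 (nat_lit 176) (nat_lit 193) (nat_lit 159) (nat_lit 5) (nat_lit 7) (nat_lit 7) (nat_lit 5) (nat_lit 7) (nat_lit 6) (by decide +kernel)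
theorem L33244 : W_1 (nat_lit 3) (nat_lit 0x100018000c0002000000000000000000000000000) (nat_lit 0x0) (nat_lit 0x6000300008000000000000000000000000000000000000000) := T_1 (nat_lit 177) (nat_lit 194) (nat_lit 6) (nat_lit 7) (nat_lit 11) L33243 (by decide +kernel)
theorem L33245 : W_1 (nat_lit 2) (nat_lit 0x2000100018000c0002000000000000000000000000000) (nat_lit 0x0) (nat_lit 0x20001000080000000000000000000000) := D_1 (nat_lit 108) (nat_lit 91) (nat_lit 125) (nat_lit 4) (nat_lit 7) (nat_lit 9) (nat_lit 4) (nat_lit 7) (nat_lit 10) (by decide +kernel)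
theorem L33246 : W_1 (nat_lit 3) (nat_lit 0x100018000c0002000000000000000000000000000) (nat_lit 0x0) (nat_lit 0x4000200000000000020001000080000000000000000000000) := T_1 (nat_lit 177) (nat_lit 194) (nat_lit 6) (nat_lit 7) (nat_lit 11) L33245 (by decide +kernel)
theorem L33256 : W_1 (nat_lit 2) (nat_lit 0x1c000c0002000000000000000000000000000) (nat_lit 0x0) (nat_lit 0x8000000000000000100008000000000000000000) := D_1 (nat_lit 92) (nat_lit 75) (nat_lit 159) (nat_lit 7) (nat_lit 7) (nat_lit 4) (nat_lit 5) (nat_lit 7) (nat_lit 5) (by decide +kernel)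
theorem L33670 : W_1 (nat_lit 2) (nat_lit 0xe00030001800080002000000000000000000000000000) (nat_lit 0x0) (nat_lit 0x100000c000000000000000000000000000000000000000) := D_1 (nat_lit 159) (nat_lit 158) (nat_lit 180) (nat_lit 3) (nat_lit 5) (nat_lit 9) (nat_lit 0) (nat_lit 10) (nat_lit 10) (by decide +kernel)
theorem L33671 : W_1 (nat_lit 3) (nat_lit 0x600030001800080002000000000000000000000000000) (nat_lit 0x0) (nat_lit 0x1000180000c000000000000000000000000000000000000000) := T_1 (nat_lit 179) (nat_lit 196) (nat_lit 7) (nat_lit 8) (nat_lit 7) L33670 (by decide +kernel)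
theorem L33672 : W_1 (nat_lit 4) (nat_lit 0x400030001800080002000000000000000000000000000) (nat_lit 0x0) (nat_lit 0x14001a0000c000000000000000000000000000000000000000) := T_1 (nat_lit 177) (nat_lit 194) (nat_lit 6) (nat_lit 7) (nat_lit 11) L33671 (by decide +kernel)
theorem L33673 : W_1 (nat_lit 5) (nat_lit 0x400030001800080000000000000000000000000000000) (nat_lit 0x0) (nat_lit 0x14001a0000c000000040002000000000000000000000000000) := T_1 (nat_lit 109) (nat_lit 126) (nat_lit 7) (nat_lit 7) (nat_lit 6) L33672 (by decide +kernel)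
theorem L33674 : W_1 (nat_lit 2) (nat_lit 0x20001e000b4001800080000000000000000000000000000000) (nat_lit 0x0) (nat_lit 0x100040000400000000000000000000000000000000000) := D_1 (nat_lit 162) (nat_lit 176) (nat_lit 142) (nat_lit 2) (nat_lit 6) (nat_lit 10) (nat_lit 0) (nat_lit 10) (nat_lit 9) (by decide +kernel)
theorem L33675 : W_1 (nat_lit 3) (nat_lit 0x20001e00034001800080000000000000000000000000000000) (nat_lit 0x0) (nat_lit 0x1001c0000400000000000000000000000000000000000) := T_1 (nat_lit 163) (nat_lit 164) (nat_lit 2) (nat_lit 7) (nat_lit 10) L33674 (by decide +kernel)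
theorem L33676 : W_1 (nat_lit 4) (nat_lit 0x1e00034001800080000000000000000000000000000000) (nat_lit 0x0) (nat_lit 0x600001001c0000400000000000000000000000000000000000) := T_1 (nat_lit 197) (nat_lit 198) (nat_lit 3) (nat_lit 7) (nat_lit 10) L33675 (by decide +kernel)
theorem L33677 : W_1 (nat_lit 5) (nat_lit 0x1c00034001800080000000000000000000000000000000) (nat_lit 0x0) (nat_lit 0x640003001c0000400000000000000000000000000000000000) := T_1 (nat_lit 177) (nat_lit 194) (nat_lit 6) (nat_lit 7) (nat_lit 11) L33676 (by decide +kernel)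
theorem L33678 : W_1 (nat_lit 6) (nat_lit 0xc00034001800080000000000000000000000000000000) (nat_lit 0x0) (nat_lit 0x640033001c0000400000000000000000000000000000000000) := T_1 (nat_lit 180) (nat_lit 181) (nat_lit 0) (nat_lit 11) (nat_lit 10) L33677 (by decide +kernel)
theorem L33679 : W_1 (nat_lit 7) (nat_lit 0xc00030001800080000000000000000000000000000000) (nat_lit 0x0) (nat_lit 0x640033001cc000400000000000000000000000000000000000) := T_1 (nat_lit 158) (nat_lit 159) (nat_lit 3) (nat_lit 5) (nat_lit 9) L33678 (by decide +kernel)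
theorem L33680 : W_1 (nat_lit 8) (nat_lit 0x400030001800080000000000000000000000000000000) (nat_lit 0x0) (nat_lit 0x74003b001cc000400000000000000000000000000000000000) := T_1 (nat_lit 179) (nat_lit 196) (nat_lit 7) (nat_lit 8) (nat_lit 7) L33679 (by decide +kernel)
theorem L33681 : W_1 (nat_lit 2) (nat_lit 0x1e000b0001800080002000000000000000000000000000) (nat_lit 0x0) (nat_lit 0x100040000400000000000000000000000000000000000) := D_1 (nat_lit 162) (nat_lit 176) (nat_lit 142) (nat_lit 2) (nat_lit 6) (nat_lit 10) (nat_lit 0) (nat_lit 10) (nat_lit 9) (by decide +kernel)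
theorem L33682 : W_1 (nat_lit 3) (nat_lit 0x1e00030001800080002000000000000000000000000000) (nat_lit 0x0) (nat_lit 0x1001c0000400000000000000000000000000000000000) := T_1 (nat_lit 163) (nat_lit 164) (nat_lit 2) (nat_lit 7) (nat_lit 10) L33681 (by decide +kernel)
theorem L33683 : W_1 (nat_lit 4) (nat_lit 0xe00030001800080002000000000000000000000000000) (nat_lit 0x0) (nat_lit 0x31001c0000400000000000000000000000000000000000) := T_1 (nat_lit 180) (nat_lit 181) (nat_lit 0) (nat_lit 11) (nat_lit 10) L33682 (by decide +kernel)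
theorem L33684 : W_1 (nat_lit 5) (nat_lit 0x600030001800080002000000000000000000000000000) (nat_lit 0x0) (nat_lit 0x100039001c0000400000000000000000000000000000000000) := T_1 (nat_lit 179) (nat_lit 196) (nat_lit 7) (nat_lit 8) (nat_lit 7) L33683 (by decide +kernel)
theorem L33685 : W_1 (nat_lit 6) (nat_lit 0x600030001800080000000000000000000000000000000) (nat_lit 0x0) (nat_lit 0x100039001c0000400040002000000000000000000000000000) := T_1 (nat_lit 109) (nat_lit 126) (nat_lit 7) (nat_lit 7) (nat_lit 6) L33684 (by decide +kernel)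
theorem L33686 : W_1 (nat_lit 7) (nat_lit 0x400030001800080000000000000000000000000000000) (nat_lit 0x0) (nat_lit 0x14003b001c0000400040002000000000000000000000000000) := T_1 (nat_lit 177) (nat_lit 194) (nat_lit 6) (nat_lit 7) (nat_lit 11) L33685 (by decide +kernel)
theorem L33687 : W_1 (nat_lit 2) (nat_lit 0x7000300018000c0001000000000000000000000000000) (nat_lit 0x0) (nat_lit 0x800c0000000000000000000000000000000000000000) := D_1 (nat_lit 162) (nat_lit 175) (nat_lit 163) (nat_lit 2) (nat_lit 5) (nat_lit 10) (nat_lit 1) (nat_lit 10) (nat_lit 9) (by decide +kernel)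
theorem L33688 : W_1 (nat_lit 3) (nat_lit 0x6000300018000c0001000000000000000000000000000) (nat_lit 0x0) (nat_lit 0x20001800c0000000000000000000000000000000000000000) := T_1 (nat_lit 176) (nat_lit 193) (nat_lit 5) (nat_lit 7) (nat_lit 7) L33687 (by decide +kernel)
theorem L33689 : W_1 (nat_lit 4) (nat_lit 0x6000300018000c0000000000000000000000000000000) (nat_lit 0x0) (nat_lit 0x20001800c0000000020001000000000000000000000000000) := T_1 (nat_lit 108) (nat_lit 125) (nat_lit 4) (nat_lit 7) (nat_lit 10) L33688 (by decide +kernel)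
theorem L33690 : W_1 (nat_lit 5) (nat_lit 0x600030001800080000000000000000000000000000000) (nat_lit 0x0) (nat_lit 0x20001800c0000000060003000000000000000000000000000) := T_1 (nat_lit 126) (nat_lit 109) (nat_lit 7) (nat_lit 7) (nat_lit 6) L33689 (by decide +kernel)
theorem L33691 : W_1 (nat_lit 6) (nat_lit 0x400030001800080000000000000000000000000000000) (nat_lit 0x0) (nat_lit 0x60003800c0000000060003000000000000000000000000000) := T_1 (nat_lit 177) (nat_lit 194) (nat_lit 6) (nat_lit 7) (nat_lit 11) L33690 (by decide +kernel)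
theorem L33692 : W_1 (nat_lit 2) (nat_lit 0xc00038001800080002000000000000000000000000000) (nat_lit 0x0) (nat_lit 0x3000040000000000000000000000000000000000000000) := D_1 (nat_lit 180) (nat_lit 181) (nat_lit 162) (nat_lit 0) (nat_lit 11) (nat_lit 10) (nat_lit 3) (nat_lit 6) (nat_lit 9) (by decide +kernel)
theorem L33693 : W_1 (nat_lit 3) (nat_lit 0xc00030001800080002000000000000000000000000000) (nat_lit 0x0) (nat_lit 0x300004c000000000000000000000000000000000000000) := T_1 (nat_lit 159) (nat_lit 158) (nat_lit 3) (nat_lit 5) (nat_lit 9) L33692 (by decide +kernel)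
theorem L33694 : W_1 (nat_lit 4) (nat_lit 0x400030001800080002000000000000000000000000000) (nat_lit 0x0) (nat_lit 0x1000380004c000000000000000000000000000000000000000) := T_1 (nat_lit 179) (nat_lit 196) (nat_lit 7) (nat_lit 8) (nat_lit 7) L33693 (by decide +kernel)
theorem L33695 : W_1 (nat_lit 5) (nat_lit 0x400030001800080000000000000000000000000000000) (nat_lit 0x0) (nat_lit 0x1000380004c000000040002000000000000000000000000000) := T_1 (nat_lit 109) (nat_lit 126) (nat_lit 7) (nat_lit 7) (nat_lit 6) L33694 (by decide +kernel)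
theorem L33696 : W_1 (nat_lit 9) (nat_lit 0x400020001800080000000000000000000000000000000) (nat_lit 0x0) (nat_lit 0x76003b801dc000400060003000000000000000000000000000) := Q_1 (nat_lit 160) (C_1 L33673 (C_1 L33680 (C_1 L33686 (C_1 L33691 (C_1 L33695 N_1))))) (by decide +kernel)
theorem L33764 : W_1 (nat_lit 2) (nat_lit 0x40002000100008000c000000000000000000000000000) (nat_lit 0x0) (nat_lit 0x4000200010000000000000000000000000000000000000000) := D_1 (nat_lit 177) (nat_lit 194) (nat_lit 160) (nat_lit 5) (nat_lit 8) (nat_lit 7) (nat_lit 5) (nat_lit 8) (nat_lit 6) (by decide +kernel)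
theorem L33765 : W_1 (nat_lit 3) (nat_lit 0x400020001000080008000000000000000000000000000) (nat_lit 0x0) (nat_lit 0x4000200010000000000004000400000000000000000000000) := T_1 (nat_lit 110) (nat_lit 94) (nat_lit 6) (nat_lit 8) (nat_lit 9) L33764 (by decide +kernel)
theorem L33766 : W_1 (nat_lit 4) (nat_lit 0x400020001000080000000000000000000000000000000) (nat_lit 0x0) (nat_lit 0x400020001000000010000c000400000000000000000000000) := T_1 (nat_lit 111) (nat_lit 128) (nat_lit 6) (nat_lit 8) (nat_lit 10) L33765 (by decide +kernel)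
theorem L33784 : W_1 (nat_lit 4) (nat_lit 0x400020001000080000000000000000000000000000000) (nat_lit 0x0) (nat_lit 0x1000080004000000010000c000400000000000000000000000) := T_1 (nat_lit 179) (nat_lit 196) (nat_lit 7) (nat_lit 8) (nat_lit 7) L12726 (by decide +kernel)
theorem L33785 : W_1 (nat_lit 2) (nat_lit 0x400020001000080006000000000000000000000000000) (nat_lit 0x0) (nat_lit 0x10000800040000000000000000000000000000000000000000) := D_1 (nat_lit 179) (nat_lit 196) (nat_lit 162) (nat_lit 7) (nat_lit 8) (nat_lit 7) (nat_lit 7) (nat_lit 8) (nat_lit 6) (by decide +kernel)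
theorem L33786 : W_1 (nat_lit 3) (nat_lit 0x400020001000080002000000000000000000000000000) (nat_lit 0x0) (nat_lit 0x10000800040000000000004000100000000000000000000000) := T_1 (nat_lit 110) (nat_lit 92) (nat_lit 4) (nat_lit 8) (nat_lit 9) L33785 (by decide +kernel)
theorem L33787 : W_1 (nat_lit 4) (nat_lit 0x400020001000080000000000000000000000000000000) (nat_lit 0x0) (nat_lit 0x10000800040000000040006000100000000000000000000000) := T_1 (nat_lit 109) (nat_lit 126) (nat_lit 4) (nat_lit 8) (nat_lit 10) L33786 (by decide +kernel)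
theorem L33794 : W_1 (nat_lit 2) (nat_lit 0x18000400020001000080002000000000000000000000000000) (nat_lit 0x0) (nat_lit 0x80004000200000000000000000000000000000000000000000000) := D_1 (nat_lit 194) (nat_lit 211) (nat_lit 177) (nat_lit 5) (nat_lit 8) (nat_lit 8) (nat_lit 5) (nat_lit 8) (nat_lit 7) (by decide +kernel)
theorem L33795 : W_1 (nat_lit 3) (nat_lit 0x10000400020001000080002000000000000000000000000000) (nat_lit 0x0) (nat_lit 0x28000c000200000000000000000000000000000000000000000000) := T_1 (nat_lit 195) (nat_lit 213) (nat_lit 7) (nat_lit 8) (nat_lit 8) L33794 (by decide +kernel)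
theorem L33796 : W_1 (nat_lit 4) (nat_lit 0x10000400020001000080000000000000000000000000000000) (nat_lit 0x0) (nat_lit 0x28000c000200000000000040002000000000000000000000000000) := T_1 (nat_lit 109) (nat_lit 126) (nat_lit 4) (nat_lit 8) (nat_lit 10) L33795 (by decide +kernel)
theorem L33797 : W_1 (nat_lit 5) (nat_lit 0x400020001000080000000000000000000000000000000) (nat_lit 0x0) (nat_lit 0x28001c000a00000000000040002000000000000000000000000000) := T_1 (nat_lit 196) (nat_lit 179) (nat_lit 7) (nat_lit 8) (nat_lit 7) L33796 (by decide +kernel)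
theorem L33920 : W_1 (nat_lit 2) (nat_lit 0x6000300018000e0000000000000000000000000000000) (nat_lit 0x0) (nat_lit 0x2000018000000000000000000000000000000) := D_1 (nat_lit 124) (nat_lit 145) (nat_lit 123) (nat_lit 3) (nat_lit 5) (nat_lit 7) (nat_lit 3) (nat_lit 4) (nat_lit 7) (by decide +kernel)
theorem L33921 : W_1 (nat_lit 3) (nat_lit 0x6000300018000c0000000000000000000000000000000) (nat_lit 0x0) (nat_lit 0x2000038001000000000000000000000000000) := T_1 (nat_lit 125) (nat_lit 108) (nat_lit 4) (nat_lit 7) (nat_lit 10) L33920 (by decide +kernel)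
theorem L33949 : W_1 (nat_lit 2) (nat_lit 0xc00060001c00080000000000000000000000000000000) (nat_lit 0x0) (nat_lit 0x190000000000000000000000000000000000000000) := D_1 (nat_lit 163) (nat_lit 164) (nat_lit 160) (nat_lit 0) (nat_lit 11) (nat_lit 9) (nat_lit 0) (nat_lit 10) (nat_lit 9) (by decide +kernel)
theorem L33950 : W_1 (nat_lit 3) (nat_lit 0xc00060001800080000000000000000000000000000000) (nat_lit 0x0) (nat_lit 0x190000600000000000000000000000000000000000) := T_1 (nat_lit 142) (nat_lit 141) (nat_lit 3) (nat_lit 5) (nat_lit 8) L33949 (by decide +kernel)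
theorem L33951 : W_1 (nat_lit 4) (nat_lit 0x400060001800080000000000000000000000000000000) (nat_lit 0x0) (nat_lit 0x10000800190000600000000000000000000000000000000000) := T_1 (nat_lit 179) (nat_lit 196) (nat_lit 7) (nat_lit 8) (nat_lit 7) L33950 (by decide +kernel)
theorem L33978 : W_1 (nat_lit 2) (nat_lit 0x400060001c00080002000000000000000000000000000) (nat_lit 0x0) (nat_lit 0x190000000000000000000000000000000000000000) := D_1 (nat_lit 163) (nat_lit 164) (nat_lit 160) (nat_lit 0) (nat_lit 11) (nat_lit 9) (nat_lit 0) (nat_lit 10) (nat_lit 9) (by decide +kernel)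
theorem L33979 : W_1 (nat_lit 3) (nat_lit 0x400060001400080002000000000000000000000000000) (nat_lit 0x0) (nat_lit 0x190000a00000000000000000000000000000000000) := T_1 (nat_lit 143) (nat_lit 141) (nat_lit 3) (nat_lit 5) (nat_lit 8) L33978 (by decide +kernel)
theorem L33980 : W_1 (nat_lit 4) (nat_lit 0x400060001400080000000000000000000000000000000) (nat_lit 0x0) (nat_lit 0x190000a00040002000000000000000000000000000) := T_1 (nat_lit 109) (nat_lit 126) (nat_lit 4) (nat_lit 8) (nat_lit 10) L33979 (by decide +kernel)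
theorem L34012 : W_1 (nat_lit 2) (nat_lit 0xc00038001800080000000000000000000000000000000) (nat_lit 0x0) (nat_lit 0x3000040000000000000000000000000000000000000000) := D_1 (nat_lit 180) (nat_lit 181) (nat_lit 162) (nat_lit 0) (nat_lit 11) (nat_lit 10) (nat_lit 3) (nat_lit 6) (nat_lit 9) (by decide +kernel)
theorem L34013 : W_1 (nat_lit 3) (nat_lit 0xc00030001800080000000000000000000000000000000) (nat_lit 0x0) (nat_lit 0x300004c000000000000000000000000000000000000000) := T_1 (nat_lit 159) (nat_lit 158) (nat_lit 3) (nat_lit 5) (nat_lit 9) L34012 (by decide +kernel)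
theorem L34014 : W_1 (nat_lit 4) (nat_lit 0x400030001800080000000000000000000000000000000) (nat_lit 0x0) (nat_lit 0x1000380004c000000000000000000000000000000000000000) := T_1 (nat_lit 179) (nat_lit 196) (nat_lit 7) (nat_lit 8) (nat_lit 7) L34013 (by decide +kernel)
theorem L34322 : W_1 (nat_lit 2) (nat_lit 0x20001e000e0001000080000000000000000000000000000000) (nat_lit 0x0) (nat_lit 0x8000400000000000000002000000000000000000000000000000000000) := D_1 (nat_lit 214) (nat_lit 145) (nat_lit 231) (nat_lit 4) (nat_lit 10) (nat_lit 12) (nat_lit 4) (nat_lit 10) (nat_lit 13) (by decide +kernel)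
theorem L34323 : W_1 (nat_lit 3) (nat_lit 0x20001e000a0001000080000000000000000000000000000000) (nat_lit 0x0) (nat_lit 0x8000400000000100040002000000000000000000000000000000000000) := T_1 (nat_lit 162) (nat_lit 176) (nat_lit 2) (nat_lit 6) (nat_lit 10) L34322 (by decide +kernel)
theorem L34324 : W_1 (nat_lit 4) (nat_lit 0x20001e00020001000080000000000000000000000000000000) (nat_lit 0x0) (nat_lit 0x80004000000001001c0002000000000000000000000000000000000000) := T_1 (nat_lit 163) (nat_lit 164) (nat_lit 2) (nat_lit 7) (nat_lit 10) L34323 (by decide +kernel)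
theorem L34325 : W_1 (nat_lit 5) (nat_lit 0x1e00020001000080000000000000000000000000000000) (nat_lit 0x0) (nat_lit 0x80004000600001001c0002000000000000000000000000000000000000) := T_1 (nat_lit 197) (nat_lit 198) (nat_lit 3) (nat_lit 7) (nat_lit 10) L34324 (by decide +kernel)
theorem L34326 : W_1 (nat_lit 6) (nat_lit 0x1c00020001000080000000000000000000000000000000) (nat_lit 0x0) (nat_lit 0x80004000640003001c0002000000000000000000000000000000000000) := T_1 (nat_lit 177) (nat_lit 194) (nat_lit 5) (nat_lit 8) (nat_lit 7) L34325 (by decide +kernel)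
theorem L34327 : W_1 (nat_lit 4) (nat_lit 0x1c00020001000080000000000000000000000000000000) (nat_lit 0x0) (nat_lit 0x200005c000000040002000000000000000000000000000) := T_1 (nat_lit 109) (nat_lit 126) (nat_lit 4) (nat_lit 8) (nat_lit 10) L3224 (by decide +kernel)
theorem L34328 : W_1 (nat_lit 7) (nat_lit 0xc00020001000080000000000000000000000000000000) (nat_lit 0x0) (nat_lit 0x80004000640033001dc002000040002000000000000000000000000000) := Q_1 (nat_lit 180) (C_1 L3221 (C_1 L34326 (C_1 L34327 N_1))) (by decide +kernel)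
theorem L34329 : W_1 (nat_lit 8) (nat_lit 0x400020001000080000000000000000000000000000000) (nat_lit 0x0) (nat_lit 0x8000400074003b001dc002000040002000000000000000000000000000) := T_1 (nat_lit 179) (nat_lit 196) (nat_lit 7) (nat_lit 8) (nat_lit 7) L34328 (by decide +kernel)
theorem L34784 : W_1 (nat_lit 2) (nat_lit 0x10000400020001000180000000000000000000000000000000) (nat_lit 0x0) (nat_lit 0x200008000000000002000000000000000000000000000000000000) := D_1 (nat_lit 195) (nat_lit 213) (nat_lit 145) (nat_lit 7) (nat_lit 8) (nat_lit 8) (nat_lit 6) (nat_lit 8) (nat_lit 11) (by decide +kernel)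
theorem L34785 : W_1 (nat_lit 3) (nat_lit 0x10000400020001000080000000000000000000000000000000) (nat_lit 0x0) (nat_lit 0x200008000000000002000100008000000000000000000000000000) := T_1 (nat_lit 128) (nat_lit 111) (nat_lit 6) (nat_lit 8) (nat_lit 10) L34784 (by decide +kernel)
theorem L34786 : W_1 (nat_lit 4) (nat_lit 0x400020001000080000000000000000000000000000000) (nat_lit 0x0) (nat_lit 0x200018000800000002000100008000000000000000000000000000) := T_1 (nat_lit 196) (nat_lit 179) (nat_lit 7) (nat_lit 8) (nat_lit 7) L34785 (by decide +kernel)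
theorem L34793 : W_1 (nat_lit 2) (nat_lit 0x1c00060003a00380000000000000000000000000000000) (nat_lit 0x0) (nat_lit 0x2000018000000000000000000000000000000000000000) := D_1 (nat_lit 160) (nat_lit 159) (nat_lit 181) (nat_lit 3) (nat_lit 6) (nat_lit 9) (nat_lit 0) (nat_lit 11) (nat_lit 10) (by decide +kernel)
theorem L34794 : W_1 (nat_lit 3) (nat_lit 0xc00060003a00380000000000000000000000000000000) (nat_lit 0x0) (nat_lit 0x20003000018000000000000000000000000000000000000000) := T_1 (nat_lit 180) (nat_lit 197) (nat_lit 7) (nat_lit 9) (nat_lit 7) L34793 (by decide +kernel)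
theorem L34795 : W_1 (nat_lit 4) (nat_lit 0xc00060001a00380000000000000000000000000000000) (nat_lit 0x0) (nat_lit 0x20003000018002000000010000000000000000000000000000) := T_1 (nat_lit 145) (nat_lit 112) (nat_lit 6) (nat_lit 9) (nat_lit 10) L34794 (by decide +kernel)
theorem L34796 : W_1 (nat_lit 5) (nat_lit 0xc00060001a00180000000000000000000000000000000) (nat_lit 0x0) (nat_lit 0x20003000018002000600010000000000000000000000000000) := T_1 (nat_lit 129) (nat_lit 130) (nat_lit 1) (nat_lit 11) (nat_lit 7) L34795 (by decide +kernel)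
theorem L34797 : W_1 (nat_lit 6) (nat_lit 0x400060001a00180000000000000000000000000000000) (nat_lit 0x0) (nat_lit 0x30003800018002000600010000000000000000000000000000) := T_1 (nat_lit 179) (nat_lit 196) (nat_lit 7) (nat_lit 8) (nat_lit 7) L34796 (by decide +kernel)
theorem L34798 : W_1 (nat_lit 7) (nat_lit 0x400060001a00080000000000000000000000000000000) (nat_lit 0x0) (nat_lit 0x30003800018002000700018000000000000000000000000000) := T_1 (nat_lit 128) (nat_lit 111) (nat_lit 6) (nat_lit 8) (nat_lit 10) L34797 (by decide +kernel)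
theorem L34799 : W_1 (nat_lit 8) (nat_lit 0x400060001800080000000000000000000000000000000) (nat_lit 0x0) (nat_lit 0x30003800018002600700018000000000000000000000000000) := T_1 (nat_lit 141) (nat_lit 142) (nat_lit 3) (nat_lit 5) (nat_lit 8) L34798 (by decide +kernel)
theorem L34800 : W_1 (nat_lit 2) (nat_lit 0x1d000e0003800380000000000000000000000000000000) (nat_lit 0x0) (nat_lit 0x2000018000000000000000000000000000000000000000) := D_1 (nat_lit 160) (nat_lit 181) (nat_lit 159) (nat_lit 3) (nat_lit 7) (nat_lit 9) (nat_lit 3) (nat_lit 6) (nat_lit 9) (by decide +kernel)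
theorem L34801 : W_1 (nat_lit 3) (nat_lit 0xd000e0003800380000000000000000000000000000000) (nat_lit 0x0) (nat_lit 0x20003000018000000000000000000000000000000000000000) := T_1 (nat_lit 180) (nat_lit 197) (nat_lit 7) (nat_lit 9) (nat_lit 7) L34800 (by decide +kernel)
theorem L34802 : W_1 (nat_lit 4) (nat_lit 0xd000e0001800380000000000000000000000000000000) (nat_lit 0x0) (nat_lit 0x20003000018002000000010000000000000000000000000000) := T_1 (nat_lit 145) (nat_lit 112) (nat_lit 6) (nat_lit 9) (nat_lit 10) L34801 (by decide +kernel)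
theorem L34803 : W_1 (nat_lit 5) (nat_lit 0xd000e0001800180000000000000000000000000000000) (nat_lit 0x0) (nat_lit 0x20003000018002000600010000000000000000000000000000) := T_1 (nat_lit 129) (nat_lit 130) (nat_lit 1) (nat_lit 11) (nat_lit 7) L34802 (by decide +kernel)
theorem L34804 : W_1 (nat_lit 6) (nat_lit 0xc000e0001800180000000000000000000000000000000) (nat_lit 0x0) (nat_lit 0x20003300018002000600010000000000000000000000000000) := T_1 (nat_lit 176) (nat_lit 177) (nat_lit 2) (nat_lit 6) (nat_lit 10) L34803 (by decide +kernel)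
theorem L34805 : W_1 (nat_lit 7) (nat_lit 0xc000e0001800080000000000000000000000000000000) (nat_lit 0x0) (nat_lit 0x20003300018002000700018000000000000000000000000000) := T_1 (nat_lit 128) (nat_lit 111) (nat_lit 6) (nat_lit 8) (nat_lit 10) L34804 (by decide +kernel)
theorem L34806 : W_1 (nat_lit 8) (nat_lit 0xc00060001800080000000000000000000000000000000) (nat_lit 0x0) (nat_lit 0x20003300198002000700018000000000000000000000000000) := T_1 (nat_lit 163) (nat_lit 164) (nat_lit 0) (nat_lit 11) (nat_lit 9) L34805 (by decide +kernel)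
theorem L34807 : W_1 (nat_lit 9) (nat_lit 0x400060001800080000000000000000000000000000000) (nat_lit 0x0) (nat_lit 0x30003b00198002000700018000000000000000000000000000) := T_1 (nat_lit 179) (nat_lit 196) (nat_lit 7) (nat_lit 8) (nat_lit 7) L34806 (by decide +kernel)
theorem L34808 : W_1 (nat_lit 2) (nat_lit 0x4000e0001800080000000000000000000000000000000) (nat_lit 0x0) (nat_lit 0x2600000000000000000000000000000000000) := D_1 (nat_lit 142) (nat_lit 141) (nat_lit 145) (nat_lit 3) (nat_lit 5) (nat_lit 8) (nat_lit 3) (nat_lit 6) (nat_lit 8) (by decide +kernel)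
theorem L34809 : W_1 (nat_lit 3) (nat_lit 0x400060001800080000000000000000000000000000000) (nat_lit 0x0) (nat_lit 0x180002600000000000000000000000000000000000) := T_1 (nat_lit 163) (nat_lit 164) (nat_lit 0) (nat_lit 11) (nat_lit 9) L34808 (by decide +kernel)
theorem L34810 : W_1 (nat_lit 10) (nat_lit 0x400060001000080000000000000000000000000000000) (nat_lit 0x0) (nat_lit 0x30003b00198002e00700018000000000000000000000000000) := Q_1 (nat_lit 143) (C_1 L33951 (C_1 L34799 (C_1 L34807 (C_1 L34809 N_1)))) (by decide +kernel)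
theorem L34811 : W_1 (nat_lit 2) (nat_lit 0x700060001000080000000000000000000000000000000) (nat_lit 0x0) (nat_lit 0x190000000000000000000000000000000000000000) := D_1 (nat_lit 163) (nat_lit 164) (nat_lit 160) (nat_lit 1) (nat_lit 11) (nat_lit 9) (nat_lit 1) (nat_lit 10) (nat_lit 9) (by decide +kernel)
theorem L34812 : W_1 (nat_lit 3) (nat_lit 0x600060001000080000000000000000000000000000000) (nat_lit 0x0) (nat_lit 0x180190000000000000000000000000000000000000000) := T_1 (nat_lit 176) (nat_lit 175) (nat_lit 2) (nat_lit 5) (nat_lit 10) L34811 (by decide +kernel)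
theorem L34813 : W_1 (nat_lit 4) (nat_lit 0x400060001000080000000000000000000000000000000) (nat_lit 0x0) (nat_lit 0x4000380190000000000000000000000000000000000000000) := T_1 (nat_lit 177) (nat_lit 194) (nat_lit 5) (nat_lit 8) (nat_lit 7) L34812 (by decide +kernel)
theorem L34814 : W_1 (nat_lit 2) (nat_lit 0x1c000e0003800380000000000000000000000000000000) (nat_lit 0x0) (nat_lit 0x2000018000000000000000000000000000000000000000) := D_1 (nat_lit 160) (nat_lit 181) (nat_lit 159) (nat_lit 3) (nat_lit 7) (nat_lit 9) (nat_lit 3) (nat_lit 6) (nat_lit 9) (by decide +kernel)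
theorem L34815 : W_1 (nat_lit 3) (nat_lit 0xc000e0003800380000000000000000000000000000000) (nat_lit 0x0) (nat_lit 0x20003000018000000000000000000000000000000000000000) := T_1 (nat_lit 180) (nat_lit 197) (nat_lit 7) (nat_lit 9) (nat_lit 7) L34814 (by decide +kernel)
theorem L34816 : W_1 (nat_lit 4) (nat_lit 0xc000e0001800380000000000000000000000000000000) (nat_lit 0x0) (nat_lit 0x20003000018002000000010000000000000000000000000000) := T_1 (nat_lit 145) (nat_lit 112) (nat_lit 6) (nat_lit 9) (nat_lit 10) L34815 (by decide +kernel)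
theorem L34817 : W_1 (nat_lit 5) (nat_lit 0xc000e0001800180000000000000000000000000000000) (nat_lit 0x0) (nat_lit 0x20003000018002000600010000000000000000000000000000) := T_1 (nat_lit 129) (nat_lit 130) (nat_lit 1) (nat_lit 11) (nat_lit 7) L34816 (by decide +kernel)
theorem L34818 : W_1 (nat_lit 6) (nat_lit 0x4000e0001800180000000000000000000000000000000) (nat_lit 0x0) (nat_lit 0x30003800018002000600010000000000000000000000000000) := T_1 (nat_lit 179) (nat_lit 196) (nat_lit 7) (nat_lit 8) (nat_lit 7) L34817 (by decide +kernel)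
theorem L34819 : W_1 (nat_lit 7) (nat_lit 0x4000e0001800080000000000000000000000000000000) (nat_lit 0x0) (nat_lit 0x30003800018002000700018000000000000000000000000000) := T_1 (nat_lit 128) (nat_lit 111) (nat_lit 6) (nat_lit 8) (nat_lit 10) L34818 (by decide +kernel)
theorem L34820 : W_1 (nat_lit 8) (nat_lit 0x400060001800080000000000000000000000000000000) (nat_lit 0x0) (nat_lit 0x30003800198002000700018000000000000000000000000000) := T_1 (nat_lit 163) (nat_lit 164) (nat_lit 0) (nat_lit 11) (nat_lit 9) L34819 (by decide +kernel)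
theorem L34821 : W_1 (nat_lit 9) (nat_lit 0x400060001000080000000000000000000000000000000) (nat_lit 0x0) (nat_lit 0x30003800198002e00700018000000000000000000000000000) := Q_1 (nat_lit 143) (C_1 L34809 (C_1 L34799 (C_1 L34820 (C_1 L33951 N_1)))) (by decide +kernel)
theorem L34822 : W_1 (nat_lit 11) (nat_lit 0x400020001000080000000000000000000000000000000) (nat_lit 0x0) (nat_lit 0xf7007b801dc002e00700018000000000000000000000000000) := Q_1 (nat_lit 162) (C_1 L34810 (C_1 L34813 (C_1 L3151 (C_1 L34821 (C_1 L3866 N_1))))) (by decide +kernel)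
theorem L34915 : W_1 (nat_lit 2) (nat_lit 0xe00030001800080000000000000000000000000000000) (nat_lit 0x0) (nat_lit 0x100000c000000000000000000000000000000000000000) := D_1 (nat_lit 159) (nat_lit 158) (nat_lit 180) (nat_lit 3) (nat_lit 5) (nat_lit 9) (nat_lit 0) (nat_lit 10) (nat_lit 10) (by decide +kernel)
theorem L34916 : W_1 (nat_lit 3) (nat_lit 0x600030001800080000000000000000000000000000000) (nat_lit 0x0) (nat_lit 0x1000180000c000000000000000000000000000000000000000) := T_1 (nat_lit 179) (nat_lit 196) (nat_lit 7) (nat_lit 8) (nat_lit 7) L34915 (by decide +kernel)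
theorem L34917 : W_1 (nat_lit 4) (nat_lit 0x400030001800080000000000000000000000000000000) (nat_lit 0x0) (nat_lit 0x14001a0000c000000000000000000000000000000000000000) := T_1 (nat_lit 177) (nat_lit 194) (nat_lit 6) (nat_lit 7) (nat_lit 11) L34916 (by decide +kernel)
theorem L35181 : W_1 (nat_lit 2) (nat_lit 0x40003c00020001000080002000000000000000000000000000) (nat_lit 0x0) (nat_lit 0x24000200000000000000000000000000000000000000000000) := D_1 (nat_lit 177) (nat_lit 197) (nat_lit 194) (nat_lit 3) (nat_lit 7) (nat_lit 10) (nat_lit 5) (nat_lit 8) (nat_lit 7) (by decide +kernel)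
theorem L35182 : W_1 (nat_lit 3) (nat_lit 0x3c00020001000080002000000000000000000000000000) (nat_lit 0x0) (nat_lit 0xe4000200000000000000000000000000000000000000000000) := T_1 (nat_lit 198) (nat_lit 199) (nat_lit 3) (nat_lit 8) (nat_lit 10) L35181 (by decide +kernel)
theorem L35183 : W_1 (nat_lit 4) (nat_lit 0x3c00020001000080000000000000000000000000000000) (nat_lit 0x0) (nat_lit 0xe4000200000000000040002000000000000000000000000000) := T_1 (nat_lit 109) (nat_lit 126) (nat_lit 4) (nat_lit 8) (nat_lit 10) L35182 (by decide +kernel)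
theorem L35184 : W_1 (nat_lit 5) (nat_lit 0x1c00020001000080000000000000000000000000000000) (nat_lit 0x0) (nat_lit 0xe4002200010000000040002000000000000000000000000000) := T_1 (nat_lit 181) (nat_lit 160) (nat_lit 0) (nat_lit 11) (nat_lit 10) L35183 (by decide +kernel)
theorem L35259 : W_1 (nat_lit 2) (nat_lit 0x400020003e00120001000f80002000000000000000000000000000) (nat_lit 0x0) (nat_lit 0xe0000000000000000000000000000) := D_1 (nat_lit 114) (nat_lit 113) (nat_lit 115) (nat_lit 2) (nat_lit 8) (nat_lit 7) (nat_lit 2) (nat_lit 9) (nat_lit 7) (by decide +kernel)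
theorem L35260 : W_1 (nat_lit 3) (nat_lit 0x400020003e00120001000780002000000000000000000000000000) (nat_lit 0x0) (nat_lit 0x20008000e0000000000000000000000000000) := T_1 (nat_lit 131) (nat_lit 145) (nat_lit 1) (nat_lit 12) (nat_lit 7) L35259 (by decide +kernel)
theorem L35261 : W_1 (nat_lit 4) (nat_lit 0x400020003e00120001000580002000000000000000000000000000) (nat_lit 0x0) (nat_lit 0x2800a000e0000000000000000000000000000) := T_1 (nat_lit 129) (nat_lit 143) (nat_lit 1) (nat_lit 11) (nat_lit 7) L35260 (by decide +kernel)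
theorem L35262 : W_1 (nat_lit 5) (nat_lit 0x400020003e00120001000180002000000000000000000000000000) (nat_lit 0x0) (nat_lit 0xa800e000e0000000000000000000000000000) := T_1 (nat_lit 130) (nat_lit 147) (nat_lit 5) (nat_lit 11) (nat_lit 7) L35261 (by decide +kernel)
theorem L35263 : W_1 (nat_lit 6) (nat_lit 0x20003e00120001000180002000000000000000000000000000) (nat_lit 0x0) (nat_lit 0x800040000000000000000a800e000e0000000000000000000000000000) := T_1 (nat_lit 214) (nat_lit 231) (nat_lit 6) (nat_lit 10) (nat_lit 13) L35262 (by decide +kernel)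
theorem L35264 : W_1 (nat_lit 7) (nat_lit 0x20003e00120001000180000000000000000000000000000000) (nat_lit 0x0) (nat_lit 0x800040000000000000000a800e400e2000000000000000000000000000) := T_1 (nat_lit 109) (nat_lit 126) (nat_lit 4) (nat_lit 8) (nat_lit 10) L35263 (by decide +kernel)
theorem L35265 : W_1 (nat_lit 8) (nat_lit 0x20001e00120001000180000000000000000000000000000000) (nat_lit 0x0) (nat_lit 0x800040000000200020000a800e400e2000000000000000000000000000) := T_1 (nat_lit 181) (nat_lit 165) (nat_lit 2) (nat_lit 8) (nat_lit 10) L35264 (by decide +kernel)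
theorem L35266 : W_1 (nat_lit 9) (nat_lit 0x20001e00120001000080000000000000000000000000000000) (nat_lit 0x0) (nat_lit 0x800040000000200020000a800f400ea000000000000000000000000000) := T_1 (nat_lit 128) (nat_lit 111) (nat_lit 6) (nat_lit 8) (nat_lit 10) L35265 (by decide +kernel)
theorem L35267 : W_1 (nat_lit 10) (nat_lit 0x20001e00020001000080000000000000000000000000000000) (nat_lit 0x0) (nat_lit 0x800040000000200038000a800f400ea000000000000000000000000000) := T_1 (nat_lit 164) (nat_lit 163) (nat_lit 2) (nat_lit 7) (nat_lit 10) L35266 (by decide +kernel)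
theorem L35268 : W_1 (nat_lit 11) (nat_lit 0x1e00020001000080000000000000000000000000000000) (nat_lit 0x0) (nat_lit 0x800040006000200038000a800f400ea000000000000000000000000000) := T_1 (nat_lit 197) (nat_lit 198) (nat_lit 3) (nat_lit 7) (nat_lit 10) L35267 (by decide +kernel)
theorem L35269 : W_1 (nat_lit 12) (nat_lit 0x1c00020001000080000000000000000000000000000000) (nat_lit 0x0) (nat_lit 0x800040006400220038000a800f400ea000000000000000000000000000) := T_1 (nat_lit 177) (nat_lit 194) (nat_lit 5) (nat_lit 8) (nat_lit 7) L35268 (by decide +kernel)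
theorem L35270 : W_1 (nat_lit 2) (nat_lit 0x80003c0022000100008000a000000000000000000000000000) (nat_lit 0x0) (nat_lit 0x100004000400000000000000000000000000000000000000000) := D_1 (nat_lit 182) (nat_lit 200) (nat_lit 166) (nat_lit 3) (nat_lit 9) (nat_lit 10) (nat_lit 2) (nat_lit 9) (nat_lit 10) (by decide +kernel)
theorem L35271 : W_1 (nat_lit 3) (nat_lit 0x80003c0002000100008000a000000000000000000000000000) (nat_lit 0x0) (nat_lit 0x100004000700000000000000000000000000000000000000000) := T_1 (nat_lit 165) (nat_lit 164) (nat_lit 2) (nat_lit 8) (nat_lit 10) L35270 (by decide +kernel)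
theorem L35272 : W_1 (nat_lit 4) (nat_lit 0x3c0002000100008000a000000000000000000000000000) (nat_lit 0x0) (nat_lit 0x1c0004000700000000000000000000000000000000000000000) := T_1 (nat_lit 199) (nat_lit 198) (nat_lit 3) (nat_lit 8) (nat_lit 10) L35271 (by decide +kernel)
theorem L35273 : W_1 (nat_lit 5) (nat_lit 0x3c00020001000080008000000000000000000000000000) (nat_lit 0x0) (nat_lit 0x1c0004000700000000040002000000000000000000000000000) := T_1 (nat_lit 109) (nat_lit 126) (nat_lit 4) (nat_lit 8) (nat_lit 10) L35272 (by decide +kernel)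
theorem L35274 : W_1 (nat_lit 6) (nat_lit 0x1c00020001000080008000000000000000000000000000) (nat_lit 0x0) (nat_lit 0x1c0006000710000000040002000000000000000000000000000) := T_1 (nat_lit 181) (nat_lit 160) (nat_lit 0) (nat_lit 11) (nat_lit 10) L35273 (by decide +kernel)
theorem L35275 : W_1 (nat_lit 7) (nat_lit 0x1c00020001000080000000000000000000000000000000) (nat_lit 0x0) (nat_lit 0x1c000600071000000014000a000000000000000000000000000) := T_1 (nat_lit 111) (nat_lit 128) (nat_lit 6) (nat_lit 8) (nat_lit 10) L35274 (by decide +kernel)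
theorem L35276 : W_1 (nat_lit 2) (nat_lit 0x20021001f800a8001c00180002000000000000000000000000000) (nat_lit 0x0) (nat_lit 0x2000600000000000000000000000000000000) := D_1 (nat_lit 129) (nat_lit 130) (nat_lit 145) (nat_lit 1) (nat_lit 11) (nat_lit 7) (nat_lit 2) (nat_lit 6) (nat_lit 8) (by decide +kernel)
theorem L35277 : W_1 (nat_lit 3) (nat_lit 0x20021001f800a8001400180002000000000000000000000000000) (nat_lit 0x0) (nat_lit 0x2a00600000000000000000000000000000000) := T_1 (nat_lit 143) (nat_lit 141) (nat_lit 2) (nat_lit 5) (nat_lit 8) L35276 (by decide +kernel)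
theorem L35278 : W_1 (nat_lit 4) (nat_lit 0x21001f800a8001400180002000000000000000000000000000) (nat_lit 0x0) (nat_lit 0x400020000000000000002a00600000000000000000000000000000000) := T_1 (nat_lit 209) (nat_lit 226) (nat_lit 6) (nat_lit 5) (nat_lit 13) L35277 (by decide +kernel)
theorem L35279 : W_1 (nat_lit 5) (nat_lit 0x21001f800a8001000180002000000000000000000000000000) (nat_lit 0x0) (nat_lit 0x400020000000000000002e00620000000000000000000000000000000) := T_1 (nat_lit 142) (nat_lit 125) (nat_lit 5) (nat_lit 6) (nat_lit 7) L35278 (by decide +kernel)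
theorem L35280 : W_1 (nat_lit 6) (nat_lit 0x21001f000a8001000180002000000000000000000000000000) (nat_lit 0x0) (nat_lit 0x400020000800080000002e00620000000000000000000000000000000) := T_1 (nat_lit 175) (nat_lit 191) (nat_lit 1) (nat_lit 8) (nat_lit 10) L35279 (by decide +kernel)
theorem L35281 : W_1 (nat_lit 7) (nat_lit 0x20001f000a8001000180002000000000000000000000000000) (nat_lit 0x0) (nat_lit 0x400020003800080000002e00620000000000000000000000000000000) := T_1 (nat_lit 192) (nat_lit 193) (nat_lit 1) (nat_lit 9) (nat_lit 10) L35280 (by decide +kernel)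
theorem L35282 : W_1 (nat_lit 8) (nat_lit 0x20001e000a8001000180002000000000000000000000000000) (nat_lit 0x0) (nat_lit 0x400020003800180004002e00620000000000000000000000000000000) := T_1 (nat_lit 176) (nat_lit 158) (nat_lit 0) (nat_lit 9) (nat_lit 10) L35281 (by decide +kernel)
theorem L35283 : W_1 (nat_lit 9) (nat_lit 0x20001e000a0001000180002000000000000000000000000000) (nat_lit 0x0) (nat_lit 0x40002000380018001c002e00620000000000000000000000000000000) := T_1 (nat_lit 159) (nat_lit 160) (nat_lit 0) (nat_lit 10) (nat_lit 10) L35282 (by decide +kernel)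
theorem L35284 : W_1 (nat_lit 10) (nat_lit 0x20001e00020001000180002000000000000000000000000000) (nat_lit 0x0) (nat_lit 0x40002000380018019c002e00620000000000000000000000000000000) := T_1 (nat_lit 163) (nat_lit 164) (nat_lit 2) (nat_lit 7) (nat_lit 10) L35283 (by decide +kernel)
theorem L35285 : W_1 (nat_lit 11) (nat_lit 0x1e00020001000180002000000000000000000000000000) (nat_lit 0x0) (nat_lit 0x40002006380018019c002e00620000000000000000000000000000000) := T_1 (nat_lit 197) (nat_lit 198) (nat_lit 3) (nat_lit 7) (nat_lit 10) L35284 (by decide +kernel)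
theorem L35286 : W_1 (nat_lit 12) (nat_lit 0x1c00020001000180002000000000000000000000000000) (nat_lit 0x0) (nat_lit 0x40002006780038019c002e00620000000000000000000000000000000) := T_1 (nat_lit 177) (nat_lit 194) (nat_lit 5) (nat_lit 8) (nat_lit 7) L35285 (by decide +kernel)
theorem L35287 : W_1 (nat_lit 13) (nat_lit 0x1c00020001000080002000000000000000000000000000) (nat_lit 0x0) (nat_lit 0x40002006780038019c002e00720008000000000000000000000000000) := T_1 (nat_lit 128) (nat_lit 111) (nat_lit 6) (nat_lit 8) (nat_lit 10) L35286 (by decide +kernel)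
theorem L35288 : W_1 (nat_lit 14) (nat_lit 0x1c00020001000080000000000000000000000000000000) (nat_lit 0x0) (nat_lit 0x40002006780038019c002e0076000a000000000000000000000000000) := T_1 (nat_lit 109) (nat_lit 126) (nat_lit 4) (nat_lit 8) (nat_lit 10) L35287 (by decide +kernel)
theorem L35289 : W_1 (nat_lit 15) (nat_lit 0xc00020001000080000000000000000000000000000000) (nat_lit 0x0) (nat_lit 0x84004201e780738079c00ae00f600ea000000000000000000000000000) := Q_1 (nat_lit 180) (C_1 L35184 (C_1 L3221 (C_1 L35269 (C_1 L35275 (C_1 L35288 N_1))))) (by decide +kernel)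
theorem L35290 : W_1 (nat_lit 16) (nat_lit 0x400020001000080000000000000000000000000000000) (nat_lit 0x0) (nat_lit 0x84004201f7807b8079c00ae00f600ea000000000000000000000000000) := T_1 (nat_lit 179) (nat_lit 196) (nat_lit 7) (nat_lit 8) (nat_lit 7) L35289 (by decide +kernel)
theorem L35292 : W_1 (nat_lit 2) (nat_lit 0x16800f0001800080008000000000000000000000000000) (nat_lit 0x0) (nat_lit 0x10000800008000000000000000000000000000000000000000) := D_1 (nat_lit 179) (nat_lit 159) (nat_lit 196) (nat_lit 3) (nat_lit 6) (nat_lit 9) (nat_lit 7) (nat_lit 8) (nat_lit 7) (by decide +kernel)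
theorem L35293 : W_1 (nat_lit 3) (nat_lit 0x6800f0001800080008000000000000000000000000000) (nat_lit 0x0) (nat_lit 0x10003800008000000000000000000000000000000000000000) := T_1 (nat_lit 180) (nat_lit 181) (nat_lit 3) (nat_lit 7) (nat_lit 9) L35292 (by decide +kernel)
theorem L35294 : W_1 (nat_lit 4) (nat_lit 0x6800f0001800080000000000000000000000000000000) (nat_lit 0x0) (nat_lit 0x10003800008000000100008000000000000000000000000000) := T_1 (nat_lit 111) (nat_lit 128) (nat_lit 6) (nat_lit 8) (nat_lit 10) L35293 (by decide +kernel)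
theorem L35295 : W_1 (nat_lit 5) (nat_lit 0x6800e0001800080000000000000000000000000000000) (nat_lit 0x0) (nat_lit 0x10003800018000400100008000000000000000000000000000) := T_1 (nat_lit 160) (nat_lit 142) (nat_lit 0) (nat_lit 10) (nat_lit 9) L35294 (by decide +kernel)
theorem L35296 : W_1 (nat_lit 6) (nat_lit 0x680060001800080000000000000000000000000000000) (nat_lit 0x0) (nat_lit 0x10003800198000400100008000000000000000000000000000) := T_1 (nat_lit 163) (nat_lit 164) (nat_lit 1) (nat_lit 11) (nat_lit 9) L35295 (by decide +kernel)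
theorem L35297 : W_1 (nat_lit 7) (nat_lit 0x600060001800080000000000000000000000000000000) (nat_lit 0x0) (nat_lit 0x10003980198000400100008000000000000000000000000000) := T_1 (nat_lit 175) (nat_lit 176) (nat_lit 2) (nat_lit 5) (nat_lit 10) L35296 (by decide +kernel)
theorem L35298 : W_1 (nat_lit 8) (nat_lit 0x400060001800080000000000000000000000000000000) (nat_lit 0x0) (nat_lit 0x14003b80198000400100008000000000000000000000000000) := T_1 (nat_lit 177) (nat_lit 194) (nat_lit 5) (nat_lit 8) (nat_lit 7) L35297 (by decide +kernel)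
theorem L35299 : W_1 (nat_lit 2) (nat_lit 0xe00060001800080000000000000000000000000000000) (nat_lit 0x0) (nat_lit 0x100180000000000000000000000000000000000000000) := D_1 (nat_lit 163) (nat_lit 176) (nat_lit 164) (nat_lit 2) (nat_lit 6) (nat_lit 10) (nat_lit 1) (nat_lit 11) (nat_lit 9) (by decide +kernel)
theorem L35300 : W_1 (nat_lit 3) (nat_lit 0xc00060001800080000000000000000000000000000000) (nat_lit 0x0) (nat_lit 0x4000300180000000000000000000000000000000000000000) := T_1 (nat_lit 177) (nat_lit 194) (nat_lit 5) (nat_lit 8) (nat_lit 7) L35299 (by decide +kernel)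
theorem L35301 : W_1 (nat_lit 4) (nat_lit 0x400060001800080000000000000000000000000000000) (nat_lit 0x0) (nat_lit 0x14000b00180000000000000000000000000000000000000000) := T_1 (nat_lit 179) (nat_lit 196) (nat_lit 7) (nat_lit 8) (nat_lit 7) L35300 (by decide +kernel)
theorem L35302 : W_1 (nat_lit 2) (nat_lit 0x6800e0001800080000000000000000000000000000000) (nat_lit 0x0) (nat_lit 0x10000600000000000000000000000000000000000) := D_1 (nat_lit 142) (nat_lit 141) (nat_lit 160) (nat_lit 3) (nat_lit 5) (nat_lit 8) (nat_lit 0) (nat_lit 10) (nat_lit 9) (by decide +kernel)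
theorem L35303 : W_1 (nat_lit 3) (nat_lit 0x680060001800080000000000000000000000000000000) (nat_lit 0x0) (nat_lit 0x190000600000000000000000000000000000000000) := T_1 (nat_lit 163) (nat_lit 164) (nat_lit 1) (nat_lit 11) (nat_lit 9) L35302 (by decide +kernel)
theorem L35304 : W_1 (nat_lit 4) (nat_lit 0x600060001800080000000000000000000000000000000) (nat_lit 0x0) (nat_lit 0x180190000600000000000000000000000000000000000) := T_1 (nat_lit 175) (nat_lit 176) (nat_lit 2) (nat_lit 5) (nat_lit 10) L35303 (by decide +kernel)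
theorem L35305 : W_1 (nat_lit 5) (nat_lit 0x400060001800080000000000000000000000000000000) (nat_lit 0x0) (nat_lit 0x4000380190000600000000000000000000000000000000000) := T_1 (nat_lit 177) (nat_lit 194) (nat_lit 5) (nat_lit 8) (nat_lit 7) L35304 (by decide +kernel)
theorem L35306 : W_1 (nat_lit 2) (nat_lit 0x1003f00068001a00080008000000000000000000000000000) (nat_lit 0x0) (nat_lit 0xe0000000000000000000000000000000000000000000000000) := D_1 (nat_lit 198) (nat_lit 197) (nat_lit 199) (nat_lit 3) (nat_lit 7) (nat_lit 10) (nat_lit 3) (nat_lit 8) (nat_lit 10) (by decide +kernel)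
theorem L35307 : W_1 (nat_lit 3) (nat_lit 0x1001f00068001a00080008000000000000000000000000000) (nat_lit 0x0) (nat_lit 0xe0006000000000000000000000000000000000000000000000) := T_1 (nat_lit 181) (nat_lit 182) (nat_lit 0) (nat_lit 12) (nat_lit 10) L35306 (by decide +kernel)
theorem L35308 : W_1 (nat_lit 4) (nat_lit 0x1000f00068001a00080008000000000000000000000000000) (nat_lit 0x0) (nat_lit 0xe0007000010000000000000000000000000000000000000000) := T_1 (nat_lit 180) (nat_lit 160) (nat_lit 3) (nat_lit 6) (nat_lit 9) L35307 (by decide +kernel)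
theorem L35309 : W_1 (nat_lit 5) (nat_lit 0x1000f00068001a00080000000000000000000000000000000) (nat_lit 0x0) (nat_lit 0xe0007000010000000100008000000000000000000000000000) := T_1 (nat_lit 111) (nat_lit 128) (nat_lit 6) (nat_lit 8) (nat_lit 10) L35308 (by decide +kernel)
theorem L35310 : W_1 (nat_lit 6) (nat_lit 0x1000f00060001a00080000000000000000000000000000000) (nat_lit 0x0) (nat_lit 0xe000700001c000000100008000000000000000000000000000) := T_1 (nat_lit 159) (nat_lit 158) (nat_lit 0) (nat_lit 9) (nat_lit 10) L35309 (by decide +kernel)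
theorem L35311 : W_1 (nat_lit 7) (nat_lit 0xf00060001a00080000000000000000000000000000000) (nat_lit 0x0) (nat_lit 0xe300700001c000000100008000000000000000000000000000) := T_1 (nat_lit 192) (nat_lit 193) (nat_lit 1) (nat_lit 9) (nat_lit 10) L35310 (by decide +kernel)
theorem L35312 : W_1 (nat_lit 8) (nat_lit 0x700060001a00080000000000000000000000000000000) (nat_lit 0x0) (nat_lit 0xf300780001c000000100008000000000000000000000000000) := T_1 (nat_lit 179) (nat_lit 196) (nat_lit 7) (nat_lit 8) (nat_lit 7) L35311 (by decide +kernel)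
theorem L35313 : W_1 (nat_lit 9) (nat_lit 0x600060001a00080000000000000000000000000000000) (nat_lit 0x0) (nat_lit 0xf300798001c000000100008000000000000000000000000000) := T_1 (nat_lit 176) (nat_lit 175) (nat_lit 2) (nat_lit 5) (nat_lit 10) L35312 (by decide +kernel)
theorem L35314 : W_1 (nat_lit 10) (nat_lit 0x400060001a00080000000000000000000000000000000) (nat_lit 0x0) (nat_lit 0xf7007b8001c000000100008000000000000000000000000000) := T_1 (nat_lit 177) (nat_lit 194) (nat_lit 5) (nat_lit 8) (nat_lit 7) L35313 (by decide +kernel)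
theorem L35315 : W_1 (nat_lit 11) (nat_lit 0x400060001800080000000000000000000000000000000) (nat_lit 0x0) (nat_lit 0xf7007b8001c000600100008000000000000000000000000000) := T_1 (nat_lit 141) (nat_lit 142) (nat_lit 3) (nat_lit 5) (nat_lit 8) L35314 (by decide +kernel)
theorem L35316 : W_1 (nat_lit 12) (nat_lit 0x400020001800080000000000000000000000000000000) (nat_lit 0x0) (nat_lit 0xf7007b801dc000600100008000000000000000000000000000) := Q_1 (nat_lit 162) (C_1 L35298 (C_1 L33951 (C_1 L35301 (C_1 L35305 (C_1 L35315 N_1))))) (by decide +kernel)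
theorem L35317 : W_1 (nat_lit 7) (nat_lit 0x400020001800080000000000000000000000000000000) (nat_lit 0x0) (nat_lit 0x16003b800dc000000060003000000000000000000000000000) := Q_1 (nat_lit 160) (C_1 L34917 (C_1 L33691 (C_1 L34014 N_1))) (by decide +kernel)
theorem L35318 : W_1 (nat_lit 2) (nat_lit 0x4000200018001c0000000000000000000000000000000) (nat_lit 0x0) (nat_lit 0x400600000000000000000000000000000000) := D_1 (nat_lit 129) (nat_lit 130) (nat_lit 142) (nat_lit 1) (nat_lit 11) (nat_lit 7) (nat_lit 1) (nat_lit 10) (nat_lit 7) (by decide +kernel)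
theorem L35319 : W_1 (nat_lit 3) (nat_lit 0x400020001800180000000000000000000000000000000) (nat_lit 0x0) (nat_lit 0x400640002000000000000000000000000000) := T_1 (nat_lit 126) (nat_lit 109) (nat_lit 4) (nat_lit 8) (nat_lit 10) L35318 (by decide +kernel)
theorem L35320 : W_1 (nat_lit 4) (nat_lit 0x400020001800080000000000000000000000000000000) (nat_lit 0x0) (nat_lit 0x40074000a000000000000000000000000000) := T_1 (nat_lit 128) (nat_lit 111) (nat_lit 6) (nat_lit 8) (nat_lit 10) L35319 (by decide +kernel)
theorem L35321 : W_1 (nat_lit 13) (nat_lit 0x400020001000080000000000000000000000000000000) (nat_lit 0x0) (nat_lit 0xf7007b801dc000e0076000b000000000000000000000000000) := Q_1 (nat_lit 143) (C_1 L33696 (C_1 L1385 (C_1 L35316 (C_1 L35317 (C_1 L35320 N_1))))) (by decide +kernel)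
theorem L35352 : W_1 (nat_lit 2) (nat_lit 0x6800e0001400080000000000000000000000000000000) (nat_lit 0x0) (nat_lit 0x2a00000000000000000000000000000000000) := D_1 (nat_lit 143) (nat_lit 145) (nat_lit 141) (nat_lit 3) (nat_lit 6) (nat_lit 8) (nat_lit 3) (nat_lit 5) (nat_lit 8) (by decide +kernel)
theorem L35353 : W_1 (nat_lit 3) (nat_lit 0x680060001400080000000000000000000000000000000) (nat_lit 0x0) (nat_lit 0x180002a00000000000000000000000000000000000) := T_1 (nat_lit 163) (nat_lit 164) (nat_lit 1) (nat_lit 11) (nat_lit 9) L35352 (by decide +kernel)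
theorem L35354 : W_1 (nat_lit 4) (nat_lit 0x600060001400080000000000000000000000000000000) (nat_lit 0x0) (nat_lit 0x180180002a00000000000000000000000000000000000) := T_1 (nat_lit 175) (nat_lit 176) (nat_lit 2) (nat_lit 5) (nat_lit 10) L35353 (by decide +kernel)
theorem L35355 : W_1 (nat_lit 5) (nat_lit 0x400060001400080000000000000000000000000000000) (nat_lit 0x0) (nat_lit 0x4000380180002a00000000000000000000000000000000000) := T_1 (nat_lit 177) (nat_lit 194) (nat_lit 5) (nat_lit 8) (nat_lit 7) L35354 (by decide +kernel)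
theorem L35356 : W_1 (nat_lit 2) (nat_lit 0x400060001600180000000000000000000000000000000) (nat_lit 0x0) (nat_lit 0x60002000000000000000000000000000) := D_1 (nat_lit 126) (nat_lit 109) (nat_lit 125) (nat_lit 4) (nat_lit 8) (nat_lit 10) (nat_lit 1) (nat_lit 9) (nat_lit 7) (by decide +kernel)
theorem L35357 : W_1 (nat_lit 3) (nat_lit 0x400060001600080000000000000000000000000000000) (nat_lit 0x0) (nat_lit 0x16000a000000000000000000000000000) := T_1 (nat_lit 128) (nat_lit 111) (nat_lit 6) (nat_lit 8) (nat_lit 10) L35356 (by decide +kernel)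
theorem L35358 : W_1 (nat_lit 4) (nat_lit 0x400060001400080000000000000000000000000000000) (nat_lit 0x0) (nat_lit 0xa0016000a000000000000000000000000000) := T_1 (nat_lit 141) (nat_lit 143) (nat_lit 3) (nat_lit 5) (nat_lit 8) L35357 (by decide +kernel)
theorem L35359 : W_1 (nat_lit 2) (nat_lit 0x6800e00014001e0000800000000000000000000000000) (nat_lit 0x0) (nat_lit 0x2000010000400000000000000000000000000) := D_1 (nat_lit 124) (nat_lit 106) (nat_lit 145) (nat_lit 0) (nat_lit 8) (nat_lit 7) (nat_lit 3) (nat_lit 5) (nat_lit 7) (by decide +kernel)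
theorem L35360 : W_1 (nat_lit 3) (nat_lit 0x6800e00014001e0000000000000000000000000000000) (nat_lit 0x0) (nat_lit 0x2000010001c00000000000000000000000000) := T_1 (nat_lit 107) (nat_lit 108) (nat_lit 0) (nat_lit 9) (nat_lit 7) L35359 (by decide +kernel)
theorem L35361 : W_1 (nat_lit 4) (nat_lit 0x6800e00014001c0000000000000000000000000000000) (nat_lit 0x0) (nat_lit 0x2200030001c00000000000000000000000000) := T_1 (nat_lit 125) (nat_lit 141) (nat_lit 1) (nat_lit 9) (nat_lit 7) L35360 (by decide +kernel)
theorem L35362 : W_1 (nat_lit 5) (nat_lit 0x6800e0001400180000000000000000000000000000000) (nat_lit 0x0) (nat_lit 0x2200070003c00000000000000000000000000) := T_1 (nat_lit 126) (nat_lit 109) (nat_lit 4) (nat_lit 8) (nat_lit 10) L35361 (by decide +kernel)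
theorem L35363 : W_1 (nat_lit 6) (nat_lit 0x6800e0001400080000000000000000000000000000000) (nat_lit 0x0) (nat_lit 0x220017000bc00000000000000000000000000) := T_1 (nat_lit 128) (nat_lit 111) (nat_lit 6) (nat_lit 8) (nat_lit 10) L35362 (by decide +kernel)
theorem L35364 : W_1 (nat_lit 7) (nat_lit 0x680060001400080000000000000000000000000000000) (nat_lit 0x0) (nat_lit 0x18000220017000bc00000000000000000000000000) := T_1 (nat_lit 163) (nat_lit 164) (nat_lit 1) (nat_lit 11) (nat_lit 9) L35363 (by decide +kernel)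
theorem L35365 : W_1 (nat_lit 8) (nat_lit 0x600060001400080000000000000000000000000000000) (nat_lit 0x0) (nat_lit 0x18018000220017000bc00000000000000000000000000) := T_1 (nat_lit 175) (nat_lit 176) (nat_lit 2) (nat_lit 5) (nat_lit 10) L35364 (by decide +kernel)
theorem L35366 : W_1 (nat_lit 9) (nat_lit 0x400060001400080000000000000000000000000000000) (nat_lit 0x0) (nat_lit 0x400038018000220017000bc00000000000000000000000000) := T_1 (nat_lit 177) (nat_lit 194) (nat_lit 5) (nat_lit 8) (nat_lit 7) L35365 (by decide +kernel)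
theorem L35367 : W_1 (nat_lit 2) (nat_lit 0x6800e0001c000c0000000000000000000000000000000) (nat_lit 0x0) (nat_lit 0x300008000000000000000000000000000) := D_1 (nat_lit 128) (nat_lit 129) (nat_lit 111) (nat_lit 1) (nat_lit 10) (nat_lit 7) (nat_lit 6) (nat_lit 8) (nat_lit 10) (by decide +kernel)
theorem L35368 : W_1 (nat_lit 3) (nat_lit 0x6800e00014000c0000000000000000000000000000000) (nat_lit 0x0) (nat_lit 0x2800300008000000000000000000000000000) := T_1 (nat_lit 143) (nat_lit 145) (nat_lit 3) (nat_lit 6) (nat_lit 8) L35367 (by decide +kernel)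
theorem L35369 : W_1 (nat_lit 4) (nat_lit 0x6800600014000c0000000000000000000000000000000) (nat_lit 0x0) (nat_lit 0x180002800300008000000000000000000000000000) := T_1 (nat_lit 163) (nat_lit 164) (nat_lit 1) (nat_lit 11) (nat_lit 9) L35368 (by decide +kernel)
theorem L35370 : W_1 (nat_lit 5) (nat_lit 0x6000600014000c0000000000000000000000000000000) (nat_lit 0x0) (nat_lit 0x180180002800300008000000000000000000000000000) := T_1 (nat_lit 175) (nat_lit 176) (nat_lit 2) (nat_lit 5) (nat_lit 10) L35369 (by decide +kernel)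
theorem L35371 : W_1 (nat_lit 6) (nat_lit 0x4000600014000c0000000000000000000000000000000) (nat_lit 0x0) (nat_lit 0x4000380180002800300008000000000000000000000000000) := T_1 (nat_lit 177) (nat_lit 194) (nat_lit 5) (nat_lit 8) (nat_lit 7) L35370 (by decide +kernel)
theorem L35372 : W_1 (nat_lit 7) (nat_lit 0x400060001400080000000000000000000000000000000) (nat_lit 0x0) (nat_lit 0x400038018000280034000a000000000000000000000000000) := T_1 (nat_lit 126) (nat_lit 109) (nat_lit 4) (nat_lit 8) (nat_lit 10) L35371 (by decide +kernel)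
theorem L35373 : W_1 (nat_lit 10) (nat_lit 0x400060001000080000000000000000000000000000000) (nat_lit 0x0) (nat_lit 0x4000380180002e0037000bc00000000000000000000000000) := Q_1 (nat_lit 142) (C_1 L35355 (C_1 L35358 (C_1 L35366 (C_1 L35372 N_1)))) (by decide +kernel)
theorem L35374 : W_1 (nat_lit 2) (nat_lit 0xc00060001a003c0000000000000000000000000000000) (nat_lit 0x0) (nat_lit 0x2000000030000000000000000000000000000) := D_1 (nat_lit 112) (nat_lit 145) (nat_lit 113) (nat_lit 6) (nat_lit 9) (nat_lit 10) (nat_lit 2) (nat_lit 7) (nat_lit 7) (by decide +kernel)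
theorem L35375 : W_1 (nat_lit 3) (nat_lit 0x400060001a003c0000000000000000000000000000000) (nat_lit 0x0) (nat_lit 0x10000800000002000000030000000000000000000000000000) := T_1 (nat_lit 179) (nat_lit 196) (nat_lit 7) (nat_lit 8) (nat_lit 7) L35374 (by decide +kernel)
theorem L35376 : W_1 (nat_lit 4) (nat_lit 0x400060001a001c0000000000000000000000000000000) (nat_lit 0x0) (nat_lit 0x10000800000002000600030000000000000000000000000000) := T_1 (nat_lit 129) (nat_lit 130) (nat_lit 1) (nat_lit 11) (nat_lit 7) L35375 (by decide +kernel)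
theorem L35377 : W_1 (nat_lit 5) (nat_lit 0x400060001a00180000000000000000000000000000000) (nat_lit 0x0) (nat_lit 0x10000800000002000640032000000000000000000000000000) := T_1 (nat_lit 126) (nat_lit 109) (nat_lit 4) (nat_lit 8) (nat_lit 10) L35376 (by decide +kernel)
theorem L35378 : W_1 (nat_lit 6) (nat_lit 0x400060001a00080000000000000000000000000000000) (nat_lit 0x0) (nat_lit 0x1000080000000200074003a000000000000000000000000000) := T_1 (nat_lit 128) (nat_lit 111) (nat_lit 6) (nat_lit 8) (nat_lit 10) L35377 (by decide +kernel)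
theorem L35379 : W_1 (nat_lit 7) (nat_lit 0x400060001800080000000000000000000000000000000) (nat_lit 0x0) (nat_lit 0x1000080000000260074003a000000000000000000000000000) := T_1 (nat_lit 141) (nat_lit 142) (nat_lit 3) (nat_lit 5) (nat_lit 8) L35378 (by decide +kernel)
theorem L35380 : W_1 (nat_lit 2) (nat_lit 0x1c00160003800380002000000000000000000000000000) (nat_lit 0x0) (nat_lit 0x6000200000000000000000000000000000000000000000) := D_1 (nat_lit 181) (nat_lit 165) (nat_lit 182) (nat_lit 2) (nat_lit 8) (nat_lit 10) (nat_lit 0) (nat_lit 12) (nat_lit 10) (by decide +kernel)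
theorem L35381 : W_1 (nat_lit 3) (nat_lit 0xc00160003800380002000000000000000000000000000) (nat_lit 0x0) (nat_lit 0x20007000200000000000000000000000000000000000000000) := T_1 (nat_lit 180) (nat_lit 197) (nat_lit 7) (nat_lit 9) (nat_lit 7) L35380 (by decide +kernel)
theorem L35382 : W_1 (nat_lit 4) (nat_lit 0xc00160001800380002000000000000000000000000000) (nat_lit 0x0) (nat_lit 0x20007000200002000000010000000000000000000000000000) := T_1 (nat_lit 145) (nat_lit 112) (nat_lit 6) (nat_lit 9) (nat_lit 10) L35381 (by decide +kernel)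
theorem L35383 : W_1 (nat_lit 5) (nat_lit 0xc00160001800180002000000000000000000000000000) (nat_lit 0x0) (nat_lit 0x20007000200002000600010000000000000000000000000000) := T_1 (nat_lit 129) (nat_lit 130) (nat_lit 1) (nat_lit 11) (nat_lit 7) L35382 (by decide +kernel)
theorem L35384 : W_1 (nat_lit 6) (nat_lit 0x400160001800180002000000000000000000000000000) (nat_lit 0x0) (nat_lit 0x30007800200002000600010000000000000000000000000000) := T_1 (nat_lit 179) (nat_lit 196) (nat_lit 7) (nat_lit 8) (nat_lit 7) L35383 (by decide +kernel)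
theorem L35385 : W_1 (nat_lit 7) (nat_lit 0x400160001800080002000000000000000000000000000) (nat_lit 0x0) (nat_lit 0x30007800200002000700018000000000000000000000000000) := T_1 (nat_lit 128) (nat_lit 111) (nat_lit 6) (nat_lit 8) (nat_lit 10) L35384 (by decide +kernel)
theorem L35386 : W_1 (nat_lit 8) (nat_lit 0x400060001800080002000000000000000000000000000) (nat_lit 0x0) (nat_lit 0x30007800380002000700018000000000000000000000000000) := T_1 (nat_lit 164) (nat_lit 163) (nat_lit 0) (nat_lit 11) (nat_lit 9) L35385 (by decide +kernel)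
theorem L35387 : W_1 (nat_lit 9) (nat_lit 0x400060001800080000000000000000000000000000000) (nat_lit 0x0) (nat_lit 0x3000780038000200074001a000000000000000000000000000) := T_1 (nat_lit 109) (nat_lit 126) (nat_lit 4) (nat_lit 8) (nat_lit 10) L35386 (by decide +kernel)
theorem L35388 : W_1 (nat_lit 2) (nat_lit 0xc00060001c000c0000000000000000000000000000000) (nat_lit 0x0) (nat_lit 0x300008000000000000000000000000000) := D_1 (nat_lit 128) (nat_lit 111) (nat_lit 129) (nat_lit 6) (nat_lit 8) (nat_lit 10) (nat_lit 1) (nat_lit 10) (nat_lit 7) (by decide +kernel)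
theorem L35389 : W_1 (nat_lit 3) (nat_lit 0xc00060001c00080000000000000000000000000000000) (nat_lit 0x0) (nat_lit 0x34000a000000000000000000000000000) := T_1 (nat_lit 126) (nat_lit 109) (nat_lit 4) (nat_lit 8) (nat_lit 10) L35388 (by decide +kernel)
theorem L35390 : W_1 (nat_lit 4) (nat_lit 0xc00060001800080000000000000000000000000000000) (nat_lit 0x0) (nat_lit 0x60034000a000000000000000000000000000) := T_1 (nat_lit 142) (nat_lit 141) (nat_lit 3) (nat_lit 5) (nat_lit 8) L35389 (by decide +kernel)
theorem L35391 : W_1 (nat_lit 5) (nat_lit 0x400060001800080000000000000000000000000000000) (nat_lit 0x0) (nat_lit 0x1000080000000060034000a000000000000000000000000000) := T_1 (nat_lit 179) (nat_lit 196) (nat_lit 7) (nat_lit 8) (nat_lit 7) L35390 (by decide +kernel)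
theorem L35392 : W_1 (nat_lit 10) (nat_lit 0x400060001000080000000000000000000000000000000) (nat_lit 0x0) (nat_lit 0x30007800380002e0074003a000000000000000000000000000) := Q_1 (nat_lit 143) (C_1 L34809 (C_1 L35379 (C_1 L35387 (C_1 L35391 N_1)))) (by decide +kernel)
theorem L35393 : W_1 (nat_lit 2) (nat_lit 0x2000f000680014000d0008000000000000000000000000000) (nat_lit 0x0) (nat_lit 0x2000020000800000000000000000000000000) := D_1 (nat_lit 125) (nat_lit 107) (nat_lit 145) (nat_lit 4) (nat_lit 6) (nat_lit 10) (nat_lit 3) (nat_lit 5) (nat_lit 7) (by decide +kernel)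
theorem L35394 : W_1 (nat_lit 3) (nat_lit 0x2000f000680014000c0008000000000000000000000000000) (nat_lit 0x0) (nat_lit 0x2200030000800000000000000000000000000) := T_1 (nat_lit 124) (nat_lit 141) (nat_lit 4) (nat_lit 6) (nat_lit 11) L35393 (by decide +kernel)
theorem L35395 : W_1 (nat_lit 4) (nat_lit 0x2000f000680010000c0008000000000000000000000000000) (nat_lit 0x0) (nat_lit 0x2e00030000800000000000000000000000000) := T_1 (nat_lit 142) (nat_lit 143) (nat_lit 6) (nat_lit 6) (nat_lit 11) L35394 (by decide +kernel)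
theorem L35396 : W_1 (nat_lit 5) (nat_lit 0x2000f000600010000c0008000000000000000000000000000) (nat_lit 0x0) (nat_lit 0xc002e00030000800000000000000000000000000) := T_1 (nat_lit 159) (nat_lit 158) (nat_lit 0) (nat_lit 9) (nat_lit 10) L35395 (by decide +kernel)
theorem L35397 : W_1 (nat_lit 6) (nat_lit 0xf000600010000c0008000000000000000000000000000) (nat_lit 0x0) (nat_lit 0x300000000c002e00030000800000000000000000000000000) := T_1 (nat_lit 193) (nat_lit 192) (nat_lit 1) (nat_lit 9) (nat_lit 10) L35396 (by decide +kernel)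
theorem L35398 : W_1 (nat_lit 7) (nat_lit 0xf000600010000c0000000000000000000000000000000) (nat_lit 0x0) (nat_lit 0x300000000c002e00130008800000000000000000000000000) := T_1 (nat_lit 111) (nat_lit 128) (nat_lit 6) (nat_lit 8) (nat_lit 10) L35397 (by decide +kernel)
theorem L35399 : W_1 (nat_lit 8) (nat_lit 0xf00060001000080000000000000000000000000000000) (nat_lit 0x0) (nat_lit 0x300000000c002e0017000a800000000000000000000000000) := T_1 (nat_lit 126) (nat_lit 109) (nat_lit 4) (nat_lit 8) (nat_lit 10) L35398 (by decide +kernel)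
theorem L35400 : W_1 (nat_lit 9) (nat_lit 0xe00060001000080000000000000000000000000000000) (nat_lit 0x0) (nat_lit 0x300018000c002e0017000a800000000000000000000000000) := T_1 (nat_lit 176) (nat_lit 175) (nat_lit 2) (nat_lit 5) (nat_lit 10) L35399 (by decide +kernel)
theorem L35401 : W_1 (nat_lit 10) (nat_lit 0xc00060001000080000000000000000000000000000000) (nat_lit 0x0) (nat_lit 0x700038000c002e0017000a800000000000000000000000000) := T_1 (nat_lit 177) (nat_lit 194) (nat_lit 5) (nat_lit 8) (nat_lit 7) L35400 (by decide +kernel)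
theorem L35402 : W_1 (nat_lit 11) (nat_lit 0x400060001000080000000000000000000000000000000) (nat_lit 0x0) (nat_lit 0x17000b8000c002e0017000a800000000000000000000000000) := T_1 (nat_lit 179) (nat_lit 196) (nat_lit 7) (nat_lit 8) (nat_lit 7) L35401 (by decide +kernel)
theorem L35403 : W_1 (nat_lit 12) (nat_lit 0x400020001000080000000000000000000000000000000) (nat_lit 0x0) (nat_lit 0x37007b803cc002e0077003bc00000000000000000000000000) := Q_1 (nat_lit 162) (C_1 L3151 (C_1 L35373 (C_1 L35392 (C_1 L35402 N_1)))) (by decide +kernel)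
theorem L35424 : W_1 (nat_lit 2) (nat_lit 0x700060001800080000000000000000000000000000000) (nat_lit 0x0) (nat_lit 0x190000000000000000000000000000000000000000) := D_1 (nat_lit 163) (nat_lit 164) (nat_lit 160) (nat_lit 1) (nat_lit 11) (nat_lit 9) (nat_lit 1) (nat_lit 10) (nat_lit 9) (by decide +kernel)
theorem L35425 : W_1 (nat_lit 3) (nat_lit 0x600060001800080000000000000000000000000000000) (nat_lit 0x0) (nat_lit 0x180190000000000000000000000000000000000000000) := T_1 (nat_lit 176) (nat_lit 175) (nat_lit 2) (nat_lit 5) (nat_lit 10) L35424 (by decide +kernel)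
theorem L35427 : W_1 (nat_lit 2) (nat_lit 0x700070001a000e0000000000000000000000000000000) (nat_lit 0x0) (nat_lit 0x2100010000000000000000000000000000000) := D_1 (nat_lit 124) (nat_lit 145) (nat_lit 140) (nat_lit 3) (nat_lit 5) (nat_lit 7) (nat_lit 1) (nat_lit 8) (nat_lit 7) (by decide +kernel)
theorem L35428 : W_1 (nat_lit 3) (nat_lit 0x700070001a000c0000000000000000000000000000000) (nat_lit 0x0) (nat_lit 0x2100030001000000000000000000000000000) := T_1 (nat_lit 125) (nat_lit 108) (nat_lit 4) (nat_lit 7) (nat_lit 10) L35427 (by decide +kernel)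
theorem L35429 : W_1 (nat_lit 4) (nat_lit 0x700060001a000c0000000000000000000000000000000) (nat_lit 0x0) (nat_lit 0x2000000010002100030001000000000000000000000000000) := T_1 (nat_lit 160) (nat_lit 193) (nat_lit 5) (nat_lit 7) (nat_lit 7) L35428 (by decide +kernel)
theorem L35430 : W_1 (nat_lit 5) (nat_lit 0x600060001a000c0000000000000000000000000000000) (nat_lit 0x0) (nat_lit 0x2000180010002100030001000000000000000000000000000) := T_1 (nat_lit 176) (nat_lit 175) (nat_lit 2) (nat_lit 5) (nat_lit 10) L35429 (by decide +kernel)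
theorem L35431 : W_1 (nat_lit 6) (nat_lit 0x400060001a000c0000000000000000000000000000000) (nat_lit 0x0) (nat_lit 0x6000380010002100030001000000000000000000000000000) := T_1 (nat_lit 177) (nat_lit 194) (nat_lit 5) (nat_lit 8) (nat_lit 7) L35430 (by decide +kernel)
theorem L35432 : W_1 (nat_lit 7) (nat_lit 0x400060001a00080000000000000000000000000000000) (nat_lit 0x0) (nat_lit 0x6000380010002100070003000000000000000000000000000) := T_1 (nat_lit 126) (nat_lit 109) (nat_lit 4) (nat_lit 8) (nat_lit 10) L35431 (by decide +kernel)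
theorem L35433 : W_1 (nat_lit 8) (nat_lit 0x400060001800080000000000000000000000000000000) (nat_lit 0x0) (nat_lit 0x6000380010002700070003000000000000000000000000000) := T_1 (nat_lit 141) (nat_lit 142) (nat_lit 3) (nat_lit 5) (nat_lit 8) L35432 (by decide +kernel)
theorem L35489 : W_1 (nat_lit 2) (nat_lit 0x4000600014001e0000800000000000000000000000000) (nat_lit 0x0) (nat_lit 0x2000010000400000000000000000000000000) := D_1 (nat_lit 124) (nat_lit 106) (nat_lit 145) (nat_lit 0) (nat_lit 8) (nat_lit 7) (nat_lit 3) (nat_lit 5) (nat_lit 7) (by decide +kernel)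
theorem L35490 : W_1 (nat_lit 3) (nat_lit 0x4000600014001e0000000000000000000000000000000) (nat_lit 0x0) (nat_lit 0x2000010001c00000000000000000000000000) := T_1 (nat_lit 107) (nat_lit 108) (nat_lit 0) (nat_lit 9) (nat_lit 7) L35489 (by decide +kernel)
theorem L35491 : W_1 (nat_lit 4) (nat_lit 0x4000600014001c0000000000000000000000000000000) (nat_lit 0x0) (nat_lit 0x2200030001c00000000000000000000000000) := T_1 (nat_lit 125) (nat_lit 141) (nat_lit 1) (nat_lit 9) (nat_lit 7) L35490 (by decide +kernel)
theorem L35492 : W_1 (nat_lit 5) (nat_lit 0x400060001400180000000000000000000000000000000) (nat_lit 0x0) (nat_lit 0x2200070003c00000000000000000000000000) := T_1 (nat_lit 126) (nat_lit 109) (nat_lit 4) (nat_lit 8) (nat_lit 10) L35491 (by decide +kernel)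
theorem L35493 : W_1 (nat_lit 6) (nat_lit 0x400060001400080000000000000000000000000000000) (nat_lit 0x0) (nat_lit 0x220017000bc00000000000000000000000000) := T_1 (nat_lit 128) (nat_lit 111) (nat_lit 6) (nat_lit 8) (nat_lit 10) L35492 (by decide +kernel)
theorem L35494 : W_1 (nat_lit 2) (nat_lit 0x400060001c00080000000000000000000000000000000) (nat_lit 0x0) (nat_lit 0x90002000000000000000000000000000000000000) := D_1 (nat_lit 163) (nat_lit 145) (nat_lit 160) (nat_lit 3) (nat_lit 6) (nat_lit 8) (nat_lit 0) (nat_lit 10) (nat_lit 9) (by decide +kernel)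
theorem L35495 : W_1 (nat_lit 3) (nat_lit 0x400060001400080000000000000000000000000000000) (nat_lit 0x0) (nat_lit 0x90002a00000000000000000000000000000000000) := T_1 (nat_lit 143) (nat_lit 141) (nat_lit 3) (nat_lit 5) (nat_lit 8) L35494 (by decide +kernel)
theorem L35496 : W_1 (nat_lit 2) (nat_lit 0x400060001400fc0020000000000000000000000000000) (nat_lit 0x0) (nat_lit 0x38000000000000000000000000000000000000) := D_1 (nat_lit 148) (nat_lit 147) (nat_lit 149) (nat_lit 3) (nat_lit 8) (nat_lit 7) (nat_lit 3) (nat_lit 9) (nat_lit 7) (by decide +kernel)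
theorem L35497 : W_1 (nat_lit 3) (nat_lit 0x4000600014007c0020000000000000000000000000000) (nat_lit 0x0) (nat_lit 0x3a000800000000000000000000000000000000) := T_1 (nat_lit 131) (nat_lit 145) (nat_lit 1) (nat_lit 12) (nat_lit 7) L35496 (by decide +kernel)
theorem L35498 : W_1 (nat_lit 4) (nat_lit 0x4000600014003c0020000000000000000000000000000) (nat_lit 0x0) (nat_lit 0x3a000c00040000000000000000000000000000) := T_1 (nat_lit 130) (nat_lit 114) (nat_lit 2) (nat_lit 8) (nat_lit 7) L35497 (by decide +kernel)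
theorem L35499 : W_1 (nat_lit 5) (nat_lit 0x4000600014003c0000000000000000000000000000000) (nat_lit 0x0) (nat_lit 0x3a000c00070000000000000000000000000000) := T_1 (nat_lit 113) (nat_lit 112) (nat_lit 2) (nat_lit 7) (nat_lit 7) L35498 (by decide +kernel)
theorem L35500 : W_1 (nat_lit 6) (nat_lit 0x4000600014001c0000000000000000000000000000000) (nat_lit 0x0) (nat_lit 0x3a800e00070000000000000000000000000000) := T_1 (nat_lit 129) (nat_lit 143) (nat_lit 1) (nat_lit 10) (nat_lit 7) L35499 (by decide +kernel)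
theorem L35501 : W_1 (nat_lit 7) (nat_lit 0x400060001400180000000000000000000000000000000) (nat_lit 0x0) (nat_lit 0x3a800e40072000000000000000000000000000) := T_1 (nat_lit 126) (nat_lit 109) (nat_lit 4) (nat_lit 8) (nat_lit 10) L35500 (by decide +kernel)
theorem L35502 : W_1 (nat_lit 8) (nat_lit 0x400060001400080000000000000000000000000000000) (nat_lit 0x0) (nat_lit 0x3a800f4007a000000000000000000000000000) := T_1 (nat_lit 128) (nat_lit 111) (nat_lit 6) (nat_lit 8) (nat_lit 10) L35501 (by decide +kernel)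
theorem L35503 : W_1 (nat_lit 9) (nat_lit 0x400060001000080000000000000000000000000000000) (nat_lit 0x0) (nat_lit 0x19003ae00f7007bc00000000000000000000000000) := Q_1 (nat_lit 142) (C_1 L35358 (C_1 L33980 (C_1 L35493 (C_1 L35495 (C_1 L35502 N_1))))) (by decide +kernel)
theorem L35504 : W_1 (nat_lit 2) (nat_lit 0x7000700018000e0008000000000000000000000000000) (nat_lit 0x0) (nat_lit 0x2000018000000000000000000000000000000) := D_1 (nat_lit 124) (nat_lit 145) (nat_lit 123) (nat_lit 3) (nat_lit 5) (nat_lit 7) (nat_lit 3) (nat_lit 4) (nat_lit 7) (by decide +kernel)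
theorem L35505 : W_1 (nat_lit 3) (nat_lit 0x7000700018000c0008000000000000000000000000000) (nat_lit 0x0) (nat_lit 0x2000038001000000000000000000000000000) := T_1 (nat_lit 125) (nat_lit 108) (nat_lit 4) (nat_lit 7) (nat_lit 10) L35504 (by decide +kernel)
theorem L35506 : W_1 (nat_lit 4) (nat_lit 0x7000600018000c0008000000000000000000000000000) (nat_lit 0x0) (nat_lit 0x2000000010002000038001000000000000000000000000000) := T_1 (nat_lit 160) (nat_lit 193) (nat_lit 5) (nat_lit 7) (nat_lit 7) L35505 (by decide +kernel)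
theorem L35507 : W_1 (nat_lit 5) (nat_lit 0x7000600018000c0000000000000000000000000000000) (nat_lit 0x0) (nat_lit 0x2000000010002000138009000000000000000000000000000) := T_1 (nat_lit 111) (nat_lit 128) (nat_lit 6) (nat_lit 8) (nat_lit 10) L35506 (by decide +kernel)
theorem L35508 : W_1 (nat_lit 6) (nat_lit 0x6000600018000c0000000000000000000000000000000) (nat_lit 0x0) (nat_lit 0x2000180010002000138009000000000000000000000000000) := T_1 (nat_lit 176) (nat_lit 175) (nat_lit 2) (nat_lit 5) (nat_lit 10) L35507 (by decide +kernel)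
theorem L35509 : W_1 (nat_lit 7) (nat_lit 0x4000600018000c0000000000000000000000000000000) (nat_lit 0x0) (nat_lit 0x6000380010002000138009000000000000000000000000000) := T_1 (nat_lit 177) (nat_lit 194) (nat_lit 5) (nat_lit 8) (nat_lit 7) L35508 (by decide +kernel)
theorem L35510 : W_1 (nat_lit 8) (nat_lit 0x400060001800080000000000000000000000000000000) (nat_lit 0x0) (nat_lit 0x600038001000200017800b000000000000000000000000000) := T_1 (nat_lit 126) (nat_lit 109) (nat_lit 4) (nat_lit 8) (nat_lit 10) L35509 (by decide +kernel)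
theorem L35511 : W_1 (nat_lit 2) (nat_lit 0x400060001c00180002000000000000000000000000000) (nat_lit 0x0) (nat_lit 0x2000600000000000000000000000000000000) := D_1 (nat_lit 129) (nat_lit 145) (nat_lit 130) (nat_lit 2) (nat_lit 6) (nat_lit 8) (nat_lit 1) (nat_lit 11) (nat_lit 7) (by decide +kernel)
theorem L35512 : W_1 (nat_lit 3) (nat_lit 0x400060001c00080002000000000000000000000000000) (nat_lit 0x0) (nat_lit 0x2000700008000000000000000000000000000) := T_1 (nat_lit 128) (nat_lit 111) (nat_lit 6) (nat_lit 8) (nat_lit 10) L35511 (by decide +kernel)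
theorem L35513 : W_1 (nat_lit 4) (nat_lit 0x400060001c00080000000000000000000000000000000) (nat_lit 0x0) (nat_lit 0x200074000a000000000000000000000000000) := T_1 (nat_lit 109) (nat_lit 126) (nat_lit 4) (nat_lit 8) (nat_lit 10) L35512 (by decide +kernel)
theorem L35514 : W_1 (nat_lit 5) (nat_lit 0x400060001800080000000000000000000000000000000) (nat_lit 0x0) (nat_lit 0x260074000a000000000000000000000000000) := T_1 (nat_lit 142) (nat_lit 141) (nat_lit 3) (nat_lit 5) (nat_lit 8) L35513 (by decide +kernel)
theorem L35515 : W_1 (nat_lit 2) (nat_lit 0x680060001c00180000000000000000000000000000000) (nat_lit 0x0) (nat_lit 0x2000600000000000000000000000000000000) := D_1 (nat_lit 129) (nat_lit 145) (nat_lit 130) (nat_lit 2) (nat_lit 6) (nat_lit 8) (nat_lit 1) (nat_lit 11) (nat_lit 7) (by decide +kernel)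
theorem L35516 : W_1 (nat_lit 3) (nat_lit 0x680060001c00080000000000000000000000000000000) (nat_lit 0x0) (nat_lit 0x2000700008000000000000000000000000000) := T_1 (nat_lit 128) (nat_lit 111) (nat_lit 6) (nat_lit 8) (nat_lit 10) L35515 (by decide +kernel)
theorem L35517 : W_1 (nat_lit 4) (nat_lit 0x680060001800080000000000000000000000000000000) (nat_lit 0x0) (nat_lit 0x2600700008000000000000000000000000000) := T_1 (nat_lit 142) (nat_lit 141) (nat_lit 3) (nat_lit 5) (nat_lit 8) L35516 (by decide +kernel)
theorem L35518 : W_1 (nat_lit 5) (nat_lit 0x600060001800080000000000000000000000000000000) (nat_lit 0x0) (nat_lit 0x180000002600700008000000000000000000000000000) := T_1 (nat_lit 175) (nat_lit 176) (nat_lit 2) (nat_lit 5) (nat_lit 10) L35517 (by decide +kernel)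
theorem L35519 : W_1 (nat_lit 6) (nat_lit 0x400060001800080000000000000000000000000000000) (nat_lit 0x0) (nat_lit 0x4000380000002600700008000000000000000000000000000) := T_1 (nat_lit 177) (nat_lit 194) (nat_lit 5) (nat_lit 8) (nat_lit 7) L35518 (by decide +kernel)
theorem L35520 : W_1 (nat_lit 2) (nat_lit 0x700070001a000e0008000000000000000000000000000) (nat_lit 0x0) (nat_lit 0x100018000000000000000000000000000000) := D_1 (nat_lit 124) (nat_lit 123) (nat_lit 140) (nat_lit 3) (nat_lit 4) (nat_lit 7) (nat_lit 1) (nat_lit 8) (nat_lit 7) (by decide +kernel)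
theorem L35521 : W_1 (nat_lit 3) (nat_lit 0x700070001a000c0008000000000000000000000000000) (nat_lit 0x0) (nat_lit 0x100038001000000000000000000000000000) := T_1 (nat_lit 125) (nat_lit 108) (nat_lit 4) (nat_lit 7) (nat_lit 10) L35520 (by decide +kernel)
theorem L35522 : W_1 (nat_lit 4) (nat_lit 0x700060001a000c0008000000000000000000000000000) (nat_lit 0x0) (nat_lit 0x2000000010000100038001000000000000000000000000000) := T_1 (nat_lit 160) (nat_lit 193) (nat_lit 5) (nat_lit 7) (nat_lit 7) L35521 (by decide +kernel)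
theorem L35523 : W_1 (nat_lit 5) (nat_lit 0x7000600018000c0008000000000000000000000000000) (nat_lit 0x0) (nat_lit 0x2000000010000700038001000000000000000000000000000) := T_1 (nat_lit 141) (nat_lit 142) (nat_lit 3) (nat_lit 5) (nat_lit 8) L35522 (by decide +kernel)
theorem L35524 : W_1 (nat_lit 6) (nat_lit 0x6000600018000c0008000000000000000000000000000) (nat_lit 0x0) (nat_lit 0x2000180010000700038001000000000000000000000000000) := T_1 (nat_lit 176) (nat_lit 175) (nat_lit 2) (nat_lit 5) (nat_lit 10) L35523 (by decide +kernel)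
theorem L35525 : W_1 (nat_lit 7) (nat_lit 0x4000600018000c0008000000000000000000000000000) (nat_lit 0x0) (nat_lit 0x6000380010000700038001000000000000000000000000000) := T_1 (nat_lit 177) (nat_lit 194) (nat_lit 5) (nat_lit 8) (nat_lit 7) L35524 (by decide +kernel)
theorem L35526 : W_1 (nat_lit 8) (nat_lit 0x400060001800080008000000000000000000000000000) (nat_lit 0x0) (nat_lit 0x6000380010000700078003000000000000000000000000000) := T_1 (nat_lit 126) (nat_lit 109) (nat_lit 4) (nat_lit 8) (nat_lit 10) L35525 (by decide +kernel)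
theorem L35527 : W_1 (nat_lit 9) (nat_lit 0x400060001800080000000000000000000000000000000) (nat_lit 0x0) (nat_lit 0x600038001000070017800b000000000000000000000000000) := T_1 (nat_lit 111) (nat_lit 128) (nat_lit 6) (nat_lit 8) (nat_lit 10) L35526 (by decide +kernel)
theorem L35528 : W_1 (nat_lit 10) (nat_lit 0x400060001000080000000000000000000000000000000) (nat_lit 0x0) (nat_lit 0x6000380010002f0077800b000000000000000000000000000) := Q_1 (nat_lit 143) (C_1 L35510 (C_1 L35514 (C_1 L35433 (C_1 L35519 (C_1 L35527 N_1))))) (by decide +kernel)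
theorem L35529 : W_1 (nat_lit 11) (nat_lit 0x400020001000080000000000000000000000000000000) (nat_lit 0x0) (nat_lit 0x60003801d003af00f7807bc00000000000000000000000000) := Q_1 (nat_lit 162) (C_1 L34813 (C_1 L35373 (C_1 L35503 (C_1 L35528 N_1)))) (by decide +kernel)
theorem L35855 : W_1 (nat_lit 2) (nat_lit 0xc0002000b000780032000000000000000000000000000) (nat_lit 0x0) (nat_lit 0x100000000000000000800040000000000000000000) := D_1 (nat_lit 95) (nat_lit 78) (nat_lit 164) (nat_lit 7) (nat_lit 10) (nat_lit 4) (nat_lit 4) (nat_lit 11) (nat_lit 9) (by decide +kernel)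
theorem L35856 : W_1 (nat_lit 3) (nat_lit 0xc0002000b000780022000000000000000000000000000) (nat_lit 0x0) (nat_lit 0x140000000000010000800040000000000000000000) := T_1 (nat_lit 112) (nat_lit 162) (nat_lit 6) (nat_lit 9) (nat_lit 10) L35855 (by decide +kernel)
theorem L35857 : W_1 (nat_lit 4) (nat_lit 0xc00020009000780022000000000000000000000000000) (nat_lit 0x0) (nat_lit 0x140002000800010000800040000000000000000000) := T_1 (nat_lit 145) (nat_lit 131) (nat_lit 1) (nat_lit 12) (nat_lit 7) L35856 (by decide +kernel)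
theorem L35858 : W_1 (nat_lit 5) (nat_lit 0xc00020009000780002000000000000000000000000000) (nat_lit 0x0) (nat_lit 0x140002000800070000800040000000000000000000) := T_1 (nat_lit 113) (nat_lit 114) (nat_lit 2) (nat_lit 8) (nat_lit 7) L35857 (by decide +kernel)
theorem L35859 : W_1 (nat_lit 6) (nat_lit 0xc00020001000780002000000000000000000000000000) (nat_lit 0x0) (nat_lit 0x14001a000800070000800040000000000000000000) := T_1 (nat_lit 147) (nat_lit 148) (nat_lit 3) (nat_lit 8) (nat_lit 7) L35858 (by decide +kernel)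
theorem L35860 : W_1 (nat_lit 7) (nat_lit 0x400020001000780002000000000000000000000000000) (nat_lit 0x0) (nat_lit 0x1000080014001a000800070000800040000000000000000000) := T_1 (nat_lit 179) (nat_lit 196) (nat_lit 7) (nat_lit 8) (nat_lit 7) L35859 (by decide +kernel)
theorem L35861 : W_1 (nat_lit 8) (nat_lit 0x400020001000380002000000000000000000000000000) (nat_lit 0x0) (nat_lit 0x1000080014001a800c00070000800040000000000000000000) := T_1 (nat_lit 130) (nat_lit 143) (nat_lit 1) (nat_lit 11) (nat_lit 7) L35860 (by decide +kernel)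
theorem L35862 : W_1 (nat_lit 9) (nat_lit 0x400020001000380000000000000000000000000000000) (nat_lit 0x0) (nat_lit 0x1000080014001a800c40072000800040000000000000000000) := T_1 (nat_lit 109) (nat_lit 126) (nat_lit 4) (nat_lit 8) (nat_lit 10) L35861 (by decide +kernel)
theorem L35863 : W_1 (nat_lit 2) (nat_lit 0xc0002000b000780030000000000000000000000000000) (nat_lit 0x0) (nat_lit 0x100000000000000000800040000000000000000000) := D_1 (nat_lit 95) (nat_lit 78) (nat_lit 164) (nat_lit 7) (nat_lit 10) (nat_lit 4) (nat_lit 4) (nat_lit 11) (nat_lit 9) (by decide +kernel)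
theorem L35864 : W_1 (nat_lit 3) (nat_lit 0xc0002000b000780020000000000000000000000000000) (nat_lit 0x0) (nat_lit 0x140000000000010000800040000000000000000000) := T_1 (nat_lit 112) (nat_lit 162) (nat_lit 6) (nat_lit 9) (nat_lit 10) L35863 (by decide +kernel)
theorem L35865 : W_1 (nat_lit 4) (nat_lit 0xc00020009000780020000000000000000000000000000) (nat_lit 0x0) (nat_lit 0x140002000800010000800040000000000000000000) := T_1 (nat_lit 145) (nat_lit 131) (nat_lit 1) (nat_lit 12) (nat_lit 7) L35864 (by decide +kernel)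
theorem L35866 : W_1 (nat_lit 5) (nat_lit 0xc00020009000780000000000000000000000000000000) (nat_lit 0x0) (nat_lit 0x140002000800070000800040000000000000000000) := T_1 (nat_lit 113) (nat_lit 114) (nat_lit 2) (nat_lit 8) (nat_lit 7) L35865 (by decide +kernel)
theorem L35867 : W_1 (nat_lit 6) (nat_lit 0xc00020001000780000000000000000000000000000000) (nat_lit 0x0) (nat_lit 0x14001a000800070000800040000000000000000000) := T_1 (nat_lit 147) (nat_lit 148) (nat_lit 3) (nat_lit 8) (nat_lit 7) L35866 (by decide +kernel)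
theorem L35868 : W_1 (nat_lit 7) (nat_lit 0x400020001000780000000000000000000000000000000) (nat_lit 0x0) (nat_lit 0x1000080014001a000800070000800040000000000000000000) := T_1 (nat_lit 179) (nat_lit 196) (nat_lit 7) (nat_lit 8) (nat_lit 7) L35867 (by decide +kernel)
theorem L35869 : W_1 (nat_lit 8) (nat_lit 0x400020001000380000000000000000000000000000000) (nat_lit 0x0) (nat_lit 0x1000080014001a800c00070000800040000000000000000000) := T_1 (nat_lit 130) (nat_lit 143) (nat_lit 1) (nat_lit 11) (nat_lit 7) L35868 (by decide +kernel)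
theorem L35870 : W_1 (nat_lit 2) (nat_lit 0xc00020001000fc0020000000000000000000000000000) (nat_lit 0x0) (nat_lit 0x38000000000000000000000000000000000000) := D_1 (nat_lit 148) (nat_lit 147) (nat_lit 149) (nat_lit 3) (nat_lit 8) (nat_lit 7) (nat_lit 3) (nat_lit 9) (nat_lit 7) (by decide +kernel)
theorem L35871 : W_1 (nat_lit 3) (nat_lit 0xc000200010007c0020000000000000000000000000000) (nat_lit 0x0) (nat_lit 0x3a000800000000000000000000000000000000) := T_1 (nat_lit 131) (nat_lit 145) (nat_lit 1) (nat_lit 12) (nat_lit 7) L35870 (by decide +kernel)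
theorem L35872 : W_1 (nat_lit 4) (nat_lit 0xc000200010003c0020000000000000000000000000000) (nat_lit 0x0) (nat_lit 0x3a000c00040000000000000000000000000000) := T_1 (nat_lit 130) (nat_lit 114) (nat_lit 2) (nat_lit 8) (nat_lit 7) L35871 (by decide +kernel)
theorem L35873 : W_1 (nat_lit 5) (nat_lit 0xc000200010003c0000000000000000000000000000000) (nat_lit 0x0) (nat_lit 0x3a000c00070000000000000000000000000000) := T_1 (nat_lit 113) (nat_lit 112) (nat_lit 2) (nat_lit 7) (nat_lit 7) L35872 (by decide +kernel)
theorem L35874 : W_1 (nat_lit 6) (nat_lit 0x4000200010003c0000000000000000000000000000000) (nat_lit 0x0) (nat_lit 0x1000080000003a000c00070000000000000000000000000000) := T_1 (nat_lit 179) (nat_lit 196) (nat_lit 7) (nat_lit 8) (nat_lit 7) L35873 (by decide +kernel)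
theorem L35875 : W_1 (nat_lit 7) (nat_lit 0x400020001000380000000000000000000000000000000) (nat_lit 0x0) (nat_lit 0x1000080000003a000c40072000000000000000000000000000) := T_1 (nat_lit 126) (nat_lit 109) (nat_lit 4) (nat_lit 8) (nat_lit 10) L35874 (by decide +kernel)
theorem L35876 : W_1 (nat_lit 2) (nat_lit 0x7c00020009000f80042000000100000000000000000000) (nat_lit 0x0) (nat_lit 0x1c0000000000000000000000000000000000000000000000000) := D_1 (nat_lit 199) (nat_lit 198) (nat_lit 200) (nat_lit 3) (nat_lit 8) (nat_lit 10) (nat_lit 3) (nat_lit 9) (nat_lit 10) (by decide +kernel)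
theorem L35877 : W_1 (nat_lit 3) (nat_lit 0x3c00020009000f80042000000100000000000000000000) (nat_lit 0x0) (nat_lit 0x1c0004000040000000000000000000000000000000000000000) := T_1 (nat_lit 182) (nat_lit 162) (nat_lit 0) (nat_lit 12) (nat_lit 10) L35876 (by decide +kernel)
theorem L35878 : W_1 (nat_lit 4) (nat_lit 0x2c00020009000f80042000000100000000000000000000) (nat_lit 0x0) (nat_lit 0x1c0005000050000000000000000000000000000000000000000) := T_1 (nat_lit 180) (nat_lit 160) (nat_lit 0) (nat_lit 11) (nat_lit 10) L35877 (by decide +kernel)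
theorem L35879 : W_1 (nat_lit 5) (nat_lit 0xc00020009000f80042000000100000000000000000000) (nat_lit 0x0) (nat_lit 0x1c0007000150000000000000000000000000000000000000000) := T_1 (nat_lit 181) (nat_lit 164) (nat_lit 6) (nat_lit 11) (nat_lit 10) L35878 (by decide +kernel)
theorem L35880 : W_1 (nat_lit 6) (nat_lit 0xc00020009000f80042000000000000000000000000000) (nat_lit 0x0) (nat_lit 0x1c0007000150000000000000002000100000000000000000000) := T_1 (nat_lit 80) (nat_lit 97) (nat_lit 5) (nat_lit 12) (nat_lit 4) L35879 (by decide +kernel)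
theorem L35881 : W_1 (nat_lit 7) (nat_lit 0xc00020009000780042000000000000000000000000000) (nat_lit 0x0) (nat_lit 0x1c0007000150000000800080002000100000000000000000000) := T_1 (nat_lit 131) (nat_lit 115) (nat_lit 2) (nat_lit 9) (nat_lit 7) L35880 (by decide +kernel)
theorem L35882 : W_1 (nat_lit 8) (nat_lit 0xc00020009000780002000000000000000000000000000) (nat_lit 0x0) (nat_lit 0x1c00070001500000008000e0002000100000000000000000000) := T_1 (nat_lit 114) (nat_lit 113) (nat_lit 2) (nat_lit 8) (nat_lit 7) L35881 (by decide +kernel)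
theorem L35883 : W_1 (nat_lit 9) (nat_lit 0xc00020001000780002000000000000000000000000000) (nat_lit 0x0) (nat_lit 0x1c00070001500180008000e0002000100000000000000000000) := T_1 (nat_lit 147) (nat_lit 148) (nat_lit 3) (nat_lit 8) (nat_lit 7) L35882 (by decide +kernel)
theorem L35884 : W_1 (nat_lit 10) (nat_lit 0xc00020001000780000000000000000000000000000000) (nat_lit 0x0) (nat_lit 0x1c00070001500180008400e2002000100000000000000000000) := T_1 (nat_lit 109) (nat_lit 126) (nat_lit 4) (nat_lit 8) (nat_lit 10) L35883 (by decide +kernel)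
theorem L35885 : W_1 (nat_lit 11) (nat_lit 0xc00020001000380000000000000000000000000000000) (nat_lit 0x0) (nat_lit 0x1c0007000150018800c400e2002000100000000000000000000) := T_1 (nat_lit 130) (nat_lit 143) (nat_lit 1) (nat_lit 11) (nat_lit 7) L35884 (by decide +kernel)
theorem L35886 : W_1 (nat_lit 12) (nat_lit 0x400020001000380000000000000000000000000000000) (nat_lit 0x0) (nat_lit 0x1d0007800150018800c400e2002000100000000000000000000) := T_1 (nat_lit 179) (nat_lit 196) (nat_lit 7) (nat_lit 8) (nat_lit 7) L35885 (by decide +kernel)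
theorem L35887 : W_1 (nat_lit 2) (nat_lit 0x400020009000780042000000000000000000000000000) (nat_lit 0x0) (nat_lit 0x2000800080000000000000000000000000000) := D_1 (nat_lit 131) (nat_lit 145) (nat_lit 115) (nat_lit 1) (nat_lit 12) (nat_lit 7) (nat_lit 2) (nat_lit 9) (nat_lit 7) (by decide +kernel)
theorem L35888 : W_1 (nat_lit 3) (nat_lit 0x400020009000780002000000000000000000000000000) (nat_lit 0x0) (nat_lit 0x20008000e0000000000000000000000000000) := T_1 (nat_lit 114) (nat_lit 113) (nat_lit 2) (nat_lit 8) (nat_lit 7) L35887 (by decide +kernel)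
theorem L35889 : W_1 (nat_lit 4) (nat_lit 0x400020001000780002000000000000000000000000000) (nat_lit 0x0) (nat_lit 0x1a0008000e0000000000000000000000000000) := T_1 (nat_lit 147) (nat_lit 148) (nat_lit 3) (nat_lit 8) (nat_lit 7) L35888 (by decide +kernel)
theorem L35890 : W_1 (nat_lit 5) (nat_lit 0x400020001000780000000000000000000000000000000) (nat_lit 0x0) (nat_lit 0x1a0008400e2000000000000000000000000000) := T_1 (nat_lit 109) (nat_lit 126) (nat_lit 4) (nat_lit 8) (nat_lit 10) L35889 (by decide +kernel)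
theorem L35891 : W_1 (nat_lit 6) (nat_lit 0x400020001000380000000000000000000000000000000) (nat_lit 0x0) (nat_lit 0x1a800c400e2000000000000000000000000000) := T_1 (nat_lit 130) (nat_lit 143) (nat_lit 1) (nat_lit 11) (nat_lit 7) L35890 (by decide +kernel)
theorem L35892 : W_1 (nat_lit 2) (nat_lit 0xc000200014003e0010000000000000000000000000000) (nat_lit 0x0) (nat_lit 0x40002000010000000000000000000000000000000) := D_1 (nat_lit 145) (nat_lit 162) (nat_lit 124) (nat_lit 6) (nat_lit 9) (nat_lit 10) (nat_lit 3) (nat_lit 5) (nat_lit 7) (by decide +kernel)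
theorem L35893 : W_1 (nat_lit 3) (nat_lit 0xc000200014003c0010000000000000000000000000000) (nat_lit 0x0) (nat_lit 0x40002200030000000000000000000000000000000) := T_1 (nat_lit 125) (nat_lit 141) (nat_lit 1) (nat_lit 9) (nat_lit 7) L35892 (by decide +kernel)
theorem L35894 : W_1 (nat_lit 4) (nat_lit 0xc000200010003c0010000000000000000000000000000) (nat_lit 0x0) (nat_lit 0x40002e00030000000000000000000000000000000) := T_1 (nat_lit 142) (nat_lit 143) (nat_lit 1) (nat_lit 10) (nat_lit 7) L35893 (by decide +kernel)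
theorem L35895 : W_1 (nat_lit 5) (nat_lit 0xc000200010003c0000000000000000000000000000000) (nat_lit 0x0) (nat_lit 0x40002e00030030000000000000000000000000000) := T_1 (nat_lit 112) (nat_lit 113) (nat_lit 2) (nat_lit 7) (nat_lit 7) L35894 (by decide +kernel)
theorem L35896 : W_1 (nat_lit 6) (nat_lit 0xc00020001000380000000000000000000000000000000) (nat_lit 0x0) (nat_lit 0x40002e00070032000000000000000000000000000) := T_1 (nat_lit 126) (nat_lit 109) (nat_lit 4) (nat_lit 8) (nat_lit 10) L35895 (by decide +kernel)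
theorem L35897 : W_1 (nat_lit 7) (nat_lit 0x400020001000380000000000000000000000000000000) (nat_lit 0x0) (nat_lit 0x10000800040002e00070032000000000000000000000000000) := T_1 (nat_lit 179) (nat_lit 196) (nat_lit 7) (nat_lit 8) (nat_lit 7) L35896 (by decide +kernel)
theorem L35898 : W_1 (nat_lit 7) (nat_lit 0xc00020009000f80002000000000000000000000000000) (nat_lit 0x0) (nat_lit 0x1c00070001500000000000c0002000100000000000000000000) := T_1 (nat_lit 114) (nat_lit 115) (nat_lit 2) (nat_lit 9) (nat_lit 7) L35880 (by decide +kernel)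
theorem L35899 : W_1 (nat_lit 8) (nat_lit 0xc00020009000780002000000000000000000000000000) (nat_lit 0x0) (nat_lit 0x1c00070001500020008000c0002000100000000000000000000) := T_1 (nat_lit 131) (nat_lit 145) (nat_lit 1) (nat_lit 12) (nat_lit 7) L35898 (by decide +kernel)
theorem L35900 : W_1 (nat_lit 9) (nat_lit 0xc00020001000780002000000000000000000000000000) (nat_lit 0x0) (nat_lit 0x1c000700015001a0008000c0002000100000000000000000000) := T_1 (nat_lit 147) (nat_lit 148) (nat_lit 3) (nat_lit 8) (nat_lit 7) L35899 (by decide +kernel)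
theorem L35901 : W_1 (nat_lit 10) (nat_lit 0x400020001000780002000000000000000000000000000) (nat_lit 0x0) (nat_lit 0x1d000780015001a0008000c0002000100000000000000000000) := T_1 (nat_lit 179) (nat_lit 196) (nat_lit 7) (nat_lit 8) (nat_lit 7) L35900 (by decide +kernel)
theorem L35902 : W_1 (nat_lit 11) (nat_lit 0x400020001000380002000000000000000000000000000) (nat_lit 0x0) (nat_lit 0x1d000780015001a800c000c0002000100000000000000000000) := T_1 (nat_lit 130) (nat_lit 143) (nat_lit 1) (nat_lit 11) (nat_lit 7) L35901 (by decide +kernel)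
theorem L35903 : W_1 (nat_lit 12) (nat_lit 0x400020001000380000000000000000000000000000000) (nat_lit 0x0) (nat_lit 0x1d000780015001a800c400c2002000100000000000000000000) := T_1 (nat_lit 109) (nat_lit 126) (nat_lit 4) (nat_lit 8) (nat_lit 10) L35902 (by decide +kernel)
theorem L35904 : W_1 (nat_lit 13) (nat_lit 0x400020001000180000000000000000000000000000000) (nat_lit 0x0) (nat_lit 0x1d000780015003ae00e700f2002800140000000000000000000) := Q_1 (nat_lit 129) (C_1 L35862 (C_1 L35869 (C_1 L35875 (C_1 L35886 (C_1 L35891 (C_1 L35897 (C_1 L35903 N_1))))))) (by decide +kernel)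
theorem L35905 : W_1 (nat_lit 14) (nat_lit 0x400020001000080000000000000000000000000000000) (nat_lit 0x0) (nat_lit 0x1d000780015003ae00f700fa002800140000000000000000000) := T_1 (nat_lit 128) (nat_lit 111) (nat_lit 6) (nat_lit 8) (nat_lit 10) L35904 (by decide +kernel)
theorem L35938 : W_1 (nat_lit 2) (nat_lit 0xc000400020001000080008000000000000000000000000000) (nat_lit 0x0) (nat_lit 0x200010000800000000000000000000000000000000000000000000) := D_1 (nat_lit 196) (nat_lit 179) (nat_lit 213) (nat_lit 7) (nat_lit 8) (nat_lit 7) (nat_lit 7) (nat_lit 8) (nat_lit 8) (by decide +kernel)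
theorem L35939 : W_1 (nat_lit 3) (nat_lit 0x4000400020001000080008000000000000000000000000000) (nat_lit 0x0) (nat_lit 0x280018000800000000000000000000000000000000000000000000) := T_1 (nat_lit 195) (nat_lit 211) (nat_lit 5) (nat_lit 8) (nat_lit 8) L35938 (by decide +kernel)
theorem L35940 : W_1 (nat_lit 4) (nat_lit 0x4000400020001000080000000000000000000000000000000) (nat_lit 0x0) (nat_lit 0x280018000800000000000100008000000000000000000000000000) := T_1 (nat_lit 111) (nat_lit 128) (nat_lit 6) (nat_lit 8) (nat_lit 10) L35939 (by decide +kernel)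
theorem L35941 : W_1 (nat_lit 5) (nat_lit 0x400020001000080000000000000000000000000000000) (nat_lit 0x0) (nat_lit 0x28001c000a00000000000100008000000000000000000000000000) := T_1 (nat_lit 194) (nat_lit 177) (nat_lit 5) (nat_lit 8) (nat_lit 7) L35940 (by decide +kernel)
theorem L56827 : W_1 (nat_lit 2) (nat_lit 0x1f00080000000000000000000000000000000) (nat_lit 0x0) (nat_lit 0x7000000000000000000000000000000000000000) := D_1 (nat_lit 157) (nat_lit 158) (nat_lit 156) (nat_lit 1) (nat_lit 8) (nat_lit 8) (nat_lit 1) (nat_lit 7) (nat_lit 8) (by decide +kernel)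
theorem L56828 : W_1 (nat_lit 3) (nat_lit 0x1e00080000000000000000000000000000000) (nat_lit 0x0) (nat_lit 0x7000100040000000000000000000000000000000) := T_1 (nat_lit 140) (nat_lit 126) (nat_lit 2) (nat_lit 4) (nat_lit 8) L56827 (by decide +kernel)
theorem L56882 : W_1 (nat_lit 2) (nat_lit 0x10000000000003c00080000000000000000000000000000000) (nat_lit 0x0) (nat_lit 0x8000c0000000000000000000000000000000000000000) := D_1 (nat_lit 162) (nat_lit 163) (nat_lit 179) (nat_lit 3) (nat_lit 6) (nat_lit 8) (nat_lit 4) (nat_lit 9) (nat_lit 11) (by decide +kernel)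
theorem L57654 : W_1 (nat_lit 2) (nat_lit 0x8003c000c0002000000000000000000000000000) (nat_lit 0x0) (nat_lit 0x2000100010000000000000000000000000000000000000000) := D_1 (nat_lit 176) (nat_lit 193) (nat_lit 160) (nat_lit 6) (nat_lit 6) (nat_lit 11) (nat_lit 5) (nat_lit 7) (nat_lit 6) (by decide +kernel)
theorem L57655 : W_1 (nat_lit 3) (nat_lit 0x8003c000c0000000000000000000000000000000) (nat_lit 0x0) (nat_lit 0x2000100010000000000002000100000000000000000000000) := T_1 (nat_lit 109) (nat_lit 92) (nat_lit 5) (nat_lit 7) (nat_lit 5) L57654 (by decide +kernel)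
theorem L57656 : W_1 (nat_lit 4) (nat_lit 0x3c000c0000000000000000000000000000000) (nat_lit 0x0) (nat_lit 0x200010001c000000000002000100000000000000000000000) := T_1 (nat_lit 159) (nat_lit 158) (nat_lit 1) (nat_lit 9) (nat_lit 8) L57655 (by decide +kernel)
theorem L57918 : W_1 (nat_lit 2) (nat_lit 0x1001f80080000000000000000000000000000000) (nat_lit 0x0) (nat_lit 0xe000000000000000000000000000000) := D_1 (nat_lit 122) (nat_lit 121) (nat_lit 123) (nat_lit 0) (nat_lit 6) (nat_lit 8) (nat_lit 0) (nat_lit 7) (nat_lit 8) (by decide +kernel)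
theorem L57919 : W_1 (nat_lit 3) (nat_lit 0x1001f00080000000000000000000000000000000) (nat_lit 0x0) (nat_lit 0x80008000e000000000000000000000000000000) := T_1 (nat_lit 139) (nat_lit 155) (nat_lit 1) (nat_lit 6) (nat_lit 8) L57918 (by decide +kernel)
theorem L57920 : W_1 (nat_lit 4) (nat_lit 0x1f00080000000000000000000000000000000) (nat_lit 0x0) (nat_lit 0x380008000e000000000000000000000000000000) := T_1 (nat_lit 156) (nat_lit 157) (nat_lit 1) (nat_lit 7) (nat_lit 8) L57919 (by decide +kernel)
theorem L57921 : W_1 (nat_lit 5) (nat_lit 0x1e00080000000000000000000000000000000) (nat_lit 0x0) (nat_lit 0x380018004e000000000000000000000000000000) := T_1 (nat_lit 140) (nat_lit 126) (nat_lit 2) (nat_lit 4) (nat_lit 8) L57920 (by decide +kernel)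
theorem L57923 : W_1 (nat_lit 2) (nat_lit 0x801fc0084000000000000000000000000000000) (nat_lit 0x0) (nat_lit 0x1c000000000000000000000000000000000000000) := D_1 (nat_lit 159) (nat_lit 160) (nat_lit 158) (nat_lit 3) (nat_lit 3) (nat_lit 8) (nat_lit 3) (nat_lit 2) (nat_lit 8) (by decide +kernel)
theorem L57924 : W_1 (nat_lit 3) (nat_lit 0x801f80084000000000000000000000000000000) (nat_lit 0x0) (nat_lit 0x1c400040000000000000000000000000000000000) := T_1 (nat_lit 138) (nat_lit 154) (nat_lit 1) (nat_lit 5) (nat_lit 8) L57923 (by decide +kernel)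
theorem L57925 : W_1 (nat_lit 4) (nat_lit 0x1f80084000000000000000000000000000000) (nat_lit 0x0) (nat_lit 0x1dc00040000000000000000000000000000000000) := T_1 (nat_lit 155) (nat_lit 156) (nat_lit 1) (nat_lit 6) (nat_lit 8) L57924 (by decide +kernel)
theorem L57926 : W_1 (nat_lit 5) (nat_lit 0x1f00084000000000000000000000000000000) (nat_lit 0x0) (nat_lit 0x1dc000c0002000000000000000000000000000000) := T_1 (nat_lit 139) (nat_lit 121) (nat_lit 0) (nat_lit 6) (nat_lit 8) L57925 (by decide +kernel)
theorem L57927 : W_1 (nat_lit 6) (nat_lit 0x1f00080000000000000000000000000000000) (nat_lit 0x0) (nat_lit 0x1dc000c000e000000000000000000000000000000) := T_1 (nat_lit 122) (nat_lit 123) (nat_lit 0) (nat_lit 7) (nat_lit 8) L57926 (by decide +kernel)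
theorem L57928 : W_1 (nat_lit 7) (nat_lit 0x1e00080000000000000000000000000000000) (nat_lit 0x0) (nat_lit 0x1dc001c004e000000000000000000000000000000) := T_1 (nat_lit 140) (nat_lit 126) (nat_lit 2) (nat_lit 4) (nat_lit 8) L57927 (by decide +kernel)
theorem L58366 : W_1 (nat_lit 2) (nat_lit 0x1e000f0000800000000000000000000000000) (nat_lit 0x0) (nat_lit 0x100008000000000000000040000000000000000000000) := D_1 (nat_lit 159) (nat_lit 176) (nat_lit 90) (nat_lit 4) (nat_lit 6) (nat_lit 10) (nat_lit 7) (nat_lit 5) (nat_lit 5) (by decide +kernel)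
theorem L58367 : W_1 (nat_lit 3) (nat_lit 0x1e000f0000000000000000000000000000000) (nat_lit 0x0) (nat_lit 0x100008000000000000c00040000000000000000000000) := T_1 (nat_lit 107) (nat_lit 106) (nat_lit 0) (nat_lit 8) (nat_lit 7) L58366 (by decide +kernel)
theorem L58566 : W_1 (nat_lit 3) (nat_lit 0x1c001e0000000000000000000000000000000) (nat_lit 0x0) (nat_lit 0x10000000000001800080004000000000000000000) := T_1 (nat_lit 108) (nat_lit 107) (nat_lit 0) (nat_lit 9) (nat_lit 7) L2287 (by decide +kernel)
theorem L58580 : W_1 (nat_lit 4) (nat_lit 0x1e000e0000000000000000000000000000000) (nat_lit 0x0) (nat_lit 0x100008000000018000c00040000000000000000000000) := T_1 (nat_lit 124) (nat_lit 123) (nat_lit 3) (nat_lit 4) (nat_lit 7) L58367 (by decide +kernel)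
theorem L58757 : W_1 (nat_lit 2) (nat_lit 0x200010001c000a0000000000000000000000000000000) (nat_lit 0x0) (nat_lit 0x40001000080000000000000000000000) := D_1 (nat_lit 108) (nat_lit 126) (nat_lit 91) (nat_lit 4) (nat_lit 7) (nat_lit 10) (nat_lit 7) (nat_lit 6) (nat_lit 5) (by decide +kernel)
theorem L58758 : W_1 (nat_lit 3) (nat_lit 0x10001c000a0000000000000000000000000000000) (nat_lit 0x0) (nat_lit 0x4000200000000000040001000080000000000000000000000) := T_1 (nat_lit 177) (nat_lit 194) (nat_lit 6) (nat_lit 7) (nat_lit 11) L58757 (by decide +kernel)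
theorem L58759 : W_1 (nat_lit 2) (nat_lit 0x200010001c000a0000000000000000000000000000000) (nat_lit 0x0) (nat_lit 0x8000000000001000080000000000000000000000) := D_1 (nat_lit 108) (nat_lit 91) (nat_lit 159) (nat_lit 7) (nat_lit 6) (nat_lit 5) (nat_lit 7) (nat_lit 6) (nat_lit 6) (by decide +kernel)
theorem L58760 : W_1 (nat_lit 3) (nat_lit 0x10001c000a0000000000000000000000000000000) (nat_lit 0x0) (nat_lit 0x4000200008000000000001000080000000000000000000000) := T_1 (nat_lit 177) (nat_lit 194) (nat_lit 6) (nat_lit 7) (nat_lit 11) L58759 (by decide +kernel)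
theorem L58943 : W_1 (nat_lit 2) (nat_lit 0x1c001b0000000000000000000000000000000) (nat_lit 0x0) (nat_lit 0x4c000000000000000000000000000000) := D_1 (nat_lit 123) (nat_lit 122) (nat_lit 126) (nat_lit 3) (nat_lit 3) (nat_lit 7) (nat_lit 3) (nat_lit 4) (nat_lit 7) (by decide +kernel)
theorem L58944 : W_1 (nat_lit 3) (nat_lit 0x1c001a0000000000000000000000000000000) (nat_lit 0x0) (nat_lit 0x200005c000000000000000000000000000000) := T_1 (nat_lit 124) (nat_lit 145) (nat_lit 0) (nat_lit 9) (nat_lit 8) L58943 (by decide +kernel)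
theorem L58949 : W_1 (nat_lit 2) (nat_lit 0x200010003c000a0000000000000000000000000000000) (nat_lit 0x0) (nat_lit 0x40001000080000000000000000000000) := D_1 (nat_lit 108) (nat_lit 126) (nat_lit 91) (nat_lit 4) (nat_lit 7) (nat_lit 10) (nat_lit 7) (nat_lit 6) (nat_lit 5) (by decide +kernel)
theorem L58950 : W_1 (nat_lit 3) (nat_lit 0x10003c000a0000000000000000000000000000000) (nat_lit 0x0) (nat_lit 0x4000200000000000040001000080000000000000000000000) := T_1 (nat_lit 177) (nat_lit 194) (nat_lit 6) (nat_lit 7) (nat_lit 11) L58949 (by decide +kernel)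
theorem L58951 : W_1 (nat_lit 4) (nat_lit 0x10003c00080000000000000000000000000000000) (nat_lit 0x0) (nat_lit 0x4000200000000000070001000080000000000000000000000) := T_1 (nat_lit 125) (nat_lit 124) (nat_lit 0) (nat_lit 9) (nat_lit 8) L58950 (by decide +kernel)
theorem L58958 : W_1 (nat_lit 2) (nat_lit 0x200010003c000a0000000000000000000000000000000) (nat_lit 0x0) (nat_lit 0x8000000000001000080000000000000000000000) := D_1 (nat_lit 108) (nat_lit 91) (nat_lit 159) (nat_lit 7) (nat_lit 6) (nat_lit 5) (nat_lit 7) (nat_lit 6) (nat_lit 6) (by decide +kernel)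
theorem L58959 : W_1 (nat_lit 3) (nat_lit 0x200000003c000a0000000000000000000000000000000) (nat_lit 0x0) (nat_lit 0x4000000018000000000001000080000000000000000000000) := T_1 (nat_lit 160) (nat_lit 194) (nat_lit 6) (nat_lit 7) (nat_lit 11) L58958 (by decide +kernel)
theorem L58960 : W_1 (nat_lit 4) (nat_lit 0x200000003c00080000000000000000000000000000000) (nat_lit 0x0) (nat_lit 0x4000000018000000030001000080000000000000000000000) := T_1 (nat_lit 125) (nat_lit 124) (nat_lit 0) (nat_lit 9) (nat_lit 8) L58959 (by decide +kernel)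
theorem L58971 : W_1 (nat_lit 6) (nat_lit 0x1c000c0002000000000000000000000000000) (nat_lit 0x0) (nat_lit 0x10000000000001c0078001c000000000000000000) := T_1 (nat_lit 92) (nat_lit 75) (nat_lit 7) (nat_lit 7) (nat_lit 4) L32187 (by decide +kernel)
theorem L60243 : W_1 (nat_lit 2) (nat_lit 0x3c001e0008800000000000000000000000000) (nat_lit 0x0) (nat_lit 0x20000000000000000400020000000000000000000) := D_1 (nat_lit 94) (nat_lit 77) (nat_lit 161) (nat_lit 5) (nat_lit 9) (nat_lit 4) (nat_lit 5) (nat_lit 9) (nat_lit 5) (by decide +kernel)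
theorem L60244 : W_1 (nat_lit 3) (nat_lit 0x3c001e0000800000000000000000000000000) (nat_lit 0x0) (nat_lit 0x20000000000018000400020000000000000000000) := T_1 (nat_lit 111) (nat_lit 112) (nat_lit 2) (nat_lit 6) (nat_lit 7) L60243 (by decide +kernel)
theorem L60245 : W_1 (nat_lit 4) (nat_lit 0x3c001e0000000000000000000000000000000) (nat_lit 0x0) (nat_lit 0x20000000000019800400020000000000000000000) := T_1 (nat_lit 107) (nat_lit 108) (nat_lit 0) (nat_lit 9) (nat_lit 7) L60244 (by decide +kernel)
theorem L60246 : W_1 (nat_lit 5) (nat_lit 0x3c000e0000000000000000000000000000000) (nat_lit 0x0) (nat_lit 0x20000000300019800400020000000000000000000) := T_1 (nat_lit 128) (nat_lit 129) (nat_lit 2) (nat_lit 6) (nat_lit 8) L60245 (by decide +kernel)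
theorem L60247 : W_1 (nat_lit 6) (nat_lit 0x3c000c0000000000000000000000000000000) (nat_lit 0x0) (nat_lit 0x20000000330019800400020000000000000000000) := T_1 (nat_lit 125) (nat_lit 124) (nat_lit 3) (nat_lit 5) (nat_lit 7) L60246 (by decide +kernel)
theorem L60403 : W_1 (nat_lit 2) (nat_lit 0x8001c000f0000800000000000000000000000000) (nat_lit 0x0) (nat_lit 0x1000040002000000000000000000) := D_1 (nat_lit 90) (nat_lit 108) (nat_lit 73) (nat_lit 4) (nat_lit 6) (nat_lit 9) (nat_lit 7) (nat_lit 5) (nat_lit 4) (by decide +kernel)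
theorem L60404 : W_1 (nat_lit 3) (nat_lit 0x1c000f0000800000000000000000000000000) (nat_lit 0x0) (nat_lit 0x100008000000000001000040002000000000000000000) := T_1 (nat_lit 159) (nat_lit 176) (nat_lit 4) (nat_lit 6) (nat_lit 10) L60403 (by decide +kernel)
theorem L60405 : W_1 (nat_lit 4) (nat_lit 0x1c000f0000000000000000000000000000000) (nat_lit 0x0) (nat_lit 0x100008000000000001c00040002000000000000000000) := T_1 (nat_lit 107) (nat_lit 106) (nat_lit 0) (nat_lit 8) (nat_lit 7) L60404 (by decide +kernel)
theorem L60406 : W_1 (nat_lit 5) (nat_lit 0x1c000e0000000000000000000000000000000) (nat_lit 0x0) (nat_lit 0x100008000000018001c00040002000000000000000000) := T_1 (nat_lit 124) (nat_lit 123) (nat_lit 3) (nat_lit 4) (nat_lit 7) L60405 (by decide +kernel)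
theorem L60443 : W_1 (nat_lit 2) (nat_lit 0x10801fc0080000000000000000000000000000000) (nat_lit 0x0) (nat_lit 0x7000000000000000000000000000000) := D_1 (nat_lit 121) (nat_lit 120) (nat_lit 122) (nat_lit 0) (nat_lit 5) (nat_lit 8) (nat_lit 0) (nat_lit 6) (nat_lit 8) (by decide +kernel)
theorem L60444 : W_1 (nat_lit 3) (nat_lit 0x10801f80080000000000000000000000000000000) (nat_lit 0x0) (nat_lit 0x400040007000000000000000000000000000000) := T_1 (nat_lit 138) (nat_lit 154) (nat_lit 1) (nat_lit 5) (nat_lit 8) L60443 (by decide +kernel)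
theorem L60445 : W_1 (nat_lit 4) (nat_lit 0x10001f80080000000000000000000000000000000) (nat_lit 0x0) (nat_lit 0x1c00040007000000000000000000000000000000) := T_1 (nat_lit 155) (nat_lit 156) (nat_lit 1) (nat_lit 6) (nat_lit 8) L60444 (by decide +kernel)
theorem L60446 : W_1 (nat_lit 5) (nat_lit 0x10001f00080000000000000000000000000000000) (nat_lit 0x0) (nat_lit 0x9c000c0007000000000000000000000000000000) := T_1 (nat_lit 139) (nat_lit 159) (nat_lit 3) (nat_lit 3) (nat_lit 8) L60445 (by decide +kernel)
theorem L60447 : W_1 (nat_lit 6) (nat_lit 0x1f00080000000000000000000000000000000) (nat_lit 0x0) (nat_lit 0x39c000c0007000000000000000000000000000000) := T_1 (nat_lit 160) (nat_lit 161) (nat_lit 3) (nat_lit 4) (nat_lit 8) L60446 (by decide +kernel)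
theorem L60448 : W_1 (nat_lit 7) (nat_lit 0x1e00080000000000000000000000000000000) (nat_lit 0x0) (nat_lit 0x39c001c0047000000000000000000000000000000) := T_1 (nat_lit 140) (nat_lit 126) (nat_lit 2) (nat_lit 4) (nat_lit 8) L60447 (by decide +kernel)
theorem L60505 : W_1 (nat_lit 2) (nat_lit 0x3c0014001e000b0000000000000000000000000000000) (nat_lit 0x0) (nat_lit 0x20008000000000000800000000000000000000000000) := D_1 (nat_lit 159) (nat_lit 107) (nat_lit 173) (nat_lit 7) (nat_lit 5) (nat_lit 6) (nat_lit 2) (nat_lit 3) (nat_lit 10) (by decide +kernel)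
theorem L60506 : W_1 (nat_lit 3) (nat_lit 0x2c0014001e000b0000000000000000000000000000000) (nat_lit 0x0) (nat_lit 0x2000120008000000000000800000000000000000000000000) := T_1 (nat_lit 176) (nat_lit 193) (nat_lit 7) (nat_lit 5) (nat_lit 7) L60505 (by decide +kernel)
theorem L60507 : W_1 (nat_lit 4) (nat_lit 0x280014001e000b0000000000000000000000000000000) (nat_lit 0x0) (nat_lit 0x2800160008000000000000800000000000000000000000000) := T_1 (nat_lit 174) (nat_lit 191) (nat_lit 5) (nat_lit 5) (nat_lit 7) L60506 (by decide +kernel)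
theorem L60508 : W_1 (nat_lit 5) (nat_lit 0x200014001e000b0000000000000000000000000000000) (nat_lit 0x0) (nat_lit 0x38001e0008000000000000800000000000000000000000000) := T_1 (nat_lit 175) (nat_lit 192) (nat_lit 6) (nat_lit 5) (nat_lit 11) L60507 (by decide +kernel)
theorem L60773 : W_1 (nat_lit 2) (nat_lit 0xa00058003c00080000000000000000000000000000000) (nat_lit 0x0) (nat_lit 0x1400020000000000000000000000000000000000000000) := D_1 (nat_lit 180) (nat_lit 178) (nat_lit 161) (nat_lit 0) (nat_lit 10) (nat_lit 10) (nat_lit 3) (nat_lit 6) (nat_lit 9) (by decide +kernel)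
theorem L60774 : W_1 (nat_lit 3) (nat_lit 0xa00050003c00080000000000000000000000000000000) (nat_lit 0x0) (nat_lit 0x140002c000000000000000000000000000000000000000) := T_1 (nat_lit 159) (nat_lit 158) (nat_lit 1) (nat_lit 9) (nat_lit 8) L60773 (by decide +kernel)
theorem L60982 : W_1 (nat_lit 2) (nat_lit 0x80004001e000e0000000000000000000000000000000) (nat_lit 0x0) (nat_lit 0x8000000000001000080000000000000000000000) := D_1 (nat_lit 108) (nat_lit 159) (nat_lit 91) (nat_lit 5) (nat_lit 6) (nat_lit 6) (nat_lit 5) (nat_lit 6) (nat_lit 5) (by decide +kernel)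
theorem L60983 : W_1 (nat_lit 3) (nat_lit 0x4001e000e0000000000000000000000000000000) (nat_lit 0x0) (nat_lit 0x1000080008000000000001000080000000000000000000000) := T_1 (nat_lit 175) (nat_lit 192) (nat_lit 6) (nat_lit 5) (nat_lit 11) L60982 (by decide +kernel)
theorem L61168 : W_1 (nat_lit 2) (nat_lit 0x20003c00180000000000000000000000000000000) (nat_lit 0x0) (nat_lit 0x400000000000000008000400000000000000000000000) := D_1 (nat_lit 111) (nat_lit 94) (nat_lit 178) (nat_lit 5) (nat_lit 9) (nat_lit 5) (nat_lit 6) (nat_lit 8) (nat_lit 10) (by decide +kernel)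
theorem L61169 : W_1 (nat_lit 3) (nat_lit 0x20003c00080000000000000000000000000000000) (nat_lit 0x0) (nat_lit 0x400000000000300008000400000000000000000000000) := T_1 (nat_lit 128) (nat_lit 129) (nat_lit 2) (nat_lit 6) (nat_lit 8) L61168 (by decide +kernel)
theorem L61284 : W_1 (nat_lit 2) (nat_lit 0x3c00180008000000000000000000000000000) (nat_lit 0x0) (nat_lit 0x20000000000000000400020000000000000000000) := D_1 (nat_lit 94) (nat_lit 77) (nat_lit 161) (nat_lit 5) (nat_lit 9) (nat_lit 4) (nat_lit 5) (nat_lit 9) (nat_lit 5) (by decide +kernel)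
theorem L61540 : W_1 (nat_lit 2) (nat_lit 0x200018000c000e000000000000000000000000000) (nat_lit 0x0) (nat_lit 0x30010000000000000000000000000000) := D_1 (nat_lit 125) (nat_lit 124) (nat_lit 112) (nat_lit 2) (nat_lit 5) (nat_lit 7) (nat_lit 1) (nat_lit 10) (nat_lit 6) (by decide +kernel)
theorem L61541 : W_1 (nat_lit 3) (nat_lit 0x200018000c0006000000000000000000000000000) (nat_lit 0x0) (nat_lit 0x30018000400000000000000000000000) := T_1 (nat_lit 111) (nat_lit 94) (nat_lit 6) (nat_lit 8) (nat_lit 9) L61540 (by decide +kernel)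
theorem L61542 : W_1 (nat_lit 4) (nat_lit 0x200018000c0004000000000000000000000000000) (nat_lit 0x0) (nat_lit 0x3001a000500000000000000000000000) := T_1 (nat_lit 109) (nat_lit 92) (nat_lit 7) (nat_lit 7) (nat_lit 5) L61541 (by decide +kernel)
theorem L61543 : W_1 (nat_lit 2) (nat_lit 0x120001800080004000000000000000000000000000) (nat_lit 0x0) (nat_lit 0x8000c0000000000000000000000000000000000000000) := D_1 (nat_lit 162) (nat_lit 179) (nat_lit 163) (nat_lit 7) (nat_lit 8) (nat_lit 6) (nat_lit 0) (nat_lit 11) (nat_lit 9) (by decide +kernel)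
theorem L61858 : W_1 (nat_lit 2) (nat_lit 0x380018000c0002000000000000000000000000000) (nat_lit 0x0) (nat_lit 0x6002000000000000000000000000000000000000) := D_1 (nat_lit 158) (nat_lit 145) (nat_lit 157) (nat_lit 2) (nat_lit 5) (nat_lit 9) (nat_lit 2) (nat_lit 4) (nat_lit 9) (by decide +kernel)
theorem L61859 : W_1 (nat_lit 3) (nat_lit 0x300018000c0002000000000000000000000000000) (nat_lit 0x0) (nat_lit 0x10000e002000000000000000000000000000000000000) := T_1 (nat_lit 159) (nat_lit 176) (nat_lit 5) (nat_lit 7) (nat_lit 6) L61858 (by decide +kernel)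
theorem L61860 : W_1 (nat_lit 4) (nat_lit 0x100018000c0002000000000000000000000000000) (nat_lit 0x0) (nat_lit 0x50002e002000000000000000000000000000000000000) := T_1 (nat_lit 161) (nat_lit 178) (nat_lit 7) (nat_lit 7) (nat_lit 6) L61859 (by decide +kernel)
theorem L62050 : W_1 (nat_lit 4) (nat_lit 0x300018000c0000000000000000000000000000000) (nat_lit 0x0) (nat_lit 0x10000e002000000002000100000000000000000000000) := T_1 (nat_lit 109) (nat_lit 92) (nat_lit 7) (nat_lit 7) (nat_lit 5) L61859 (by decide +kernel)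
theorem L62051 : W_1 (nat_lit 2) (nat_lit 0x3400700018000e0000000000000000000000000000000) (nat_lit 0x0) (nat_lit 0x2000018000000000000000000000000000000) := D_1 (nat_lit 124) (nat_lit 145) (nat_lit 123) (nat_lit 3) (nat_lit 5) (nat_lit 7) (nat_lit 3) (nat_lit 4) (nat_lit 7) (by decide +kernel)
theorem L62052 : W_1 (nat_lit 3) (nat_lit 0x3400700018000c0000000000000000000000000000000) (nat_lit 0x0) (nat_lit 0x2000038001000000000000000000000000000) := T_1 (nat_lit 125) (nat_lit 108) (nat_lit 4) (nat_lit 7) (nat_lit 10) L62051 (by decide +kernel)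
theorem L62053 : W_1 (nat_lit 4) (nat_lit 0x3400300018000c0000000000000000000000000000000) (nat_lit 0x0) (nat_lit 0xc0002000038001000000000000000000000000000) := T_1 (nat_lit 162) (nat_lit 163) (nat_lit 1) (nat_lit 10) (nat_lit 9) L62052 (by decide +kernel)
theorem L62054 : W_1 (nat_lit 5) (nat_lit 0x3000300018000c0000000000000000000000000000000) (nat_lit 0x0) (nat_lit 0xc00c0002000038001000000000000000000000000000) := T_1 (nat_lit 174) (nat_lit 175) (nat_lit 2) (nat_lit 4) (nat_lit 10) L62053 (by decide +kernel)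
theorem L62055 : W_1 (nat_lit 6) (nat_lit 0x2000300018000c0000000000000000000000000000000) (nat_lit 0x0) (nat_lit 0x20001c00c0002000038001000000000000000000000000000) := T_1 (nat_lit 176) (nat_lit 193) (nat_lit 5) (nat_lit 7) (nat_lit 7) L62054 (by decide +kernel)
theorem L62056 : W_1 (nat_lit 7) (nat_lit 0x300018000c0000000000000000000000000000000) (nat_lit 0x0) (nat_lit 0x60003c00c0002000038001000000000000000000000000000) := T_1 (nat_lit 177) (nat_lit 194) (nat_lit 6) (nat_lit 7) (nat_lit 11) L62055 (by decide +kernel)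
theorem L62057 : W_1 (nat_lit 2) (nat_lit 0x2000300018000c0001000000000000000000000000000) (nat_lit 0x0) (nat_lit 0x2000180000000000000000000000) := D_1 (nat_lit 109) (nat_lit 91) (nat_lit 92) (nat_lit 4) (nat_lit 7) (nat_lit 9) (nat_lit 7) (nat_lit 7) (nat_lit 5) (by decide +kernel)
theorem L62058 : W_1 (nat_lit 3) (nat_lit 0x2000300018000c0000000000000000000000000000000) (nat_lit 0x0) (nat_lit 0x20003000180000000000000000000000) := T_1 (nat_lit 108) (nat_lit 125) (nat_lit 4) (nat_lit 7) (nat_lit 10) L62057 (by decide +kernel)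
theorem L62059 : W_1 (nat_lit 4) (nat_lit 0x300018000c0000000000000000000000000000000) (nat_lit 0x0) (nat_lit 0x4000200000000000020003000180000000000000000000000) := T_1 (nat_lit 177) (nat_lit 194) (nat_lit 6) (nat_lit 7) (nat_lit 11) L62058 (by decide +kernel)
theorem L62131 : W_1 (nat_lit 2) (nat_lit 0xe000600018003c0010000000000000000000000000000) (nat_lit 0x0) (nat_lit 0x100180000000000000000000000000000000000000000) := D_1 (nat_lit 163) (nat_lit 176) (nat_lit 164) (nat_lit 2) (nat_lit 6) (nat_lit 10) (nat_lit 1) (nat_lit 11) (nat_lit 9) (by decide +kernel)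
theorem L62132 : W_1 (nat_lit 3) (nat_lit 0xe000200018003c0010000000000000000000000000000) (nat_lit 0x0) (nat_lit 0x1001c0002000000000000000000000000000000000000) := T_1 (nat_lit 162) (nat_lit 145) (nat_lit 6) (nat_lit 9) (nat_lit 10) L62131 (by decide +kernel)
theorem L62133 : W_1 (nat_lit 4) (nat_lit 0xe000200018003c0000000000000000000000000000000) (nat_lit 0x0) (nat_lit 0x1001c0002000000030000000000000000000000000000) := T_1 (nat_lit 112) (nat_lit 113) (nat_lit 2) (nat_lit 7) (nat_lit 7) L62132 (by decide +kernel)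
theorem L62134 : W_1 (nat_lit 5) (nat_lit 0xe000200018001c0000000000000000000000000000000) (nat_lit 0x0) (nat_lit 0x1001c0002000600030000000000000000000000000000) := T_1 (nat_lit 129) (nat_lit 130) (nat_lit 1) (nat_lit 11) (nat_lit 7) L62133 (by decide +kernel)
theorem L62135 : W_1 (nat_lit 6) (nat_lit 0xe000200018000c0000000000000000000000000000000) (nat_lit 0x0) (nat_lit 0x1001c0002000700038000000000000000000000000000) := T_1 (nat_lit 128) (nat_lit 111) (nat_lit 6) (nat_lit 8) (nat_lit 10) L62134 (by decide +kernel)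
theorem L62136 : W_1 (nat_lit 7) (nat_lit 0xc000200018000c0000000000000000000000000000000) (nat_lit 0x0) (nat_lit 0x40003001c0002000700038000000000000000000000000000) := T_1 (nat_lit 177) (nat_lit 194) (nat_lit 5) (nat_lit 8) (nat_lit 7) L62135 (by decide +kernel)
theorem L62137 : W_1 (nat_lit 8) (nat_lit 0x4000200018000c0000000000000000000000000000000) (nat_lit 0x0) (nat_lit 0x14000b001c0002000700038000000000000000000000000000) := T_1 (nat_lit 179) (nat_lit 196) (nat_lit 7) (nat_lit 8) (nat_lit 7) L62136 (by decide +kernel)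
theorem L62148 : W_1 (nat_lit 2) (nat_lit 0xe000380038001c000000000000000000000000000) (nat_lit 0x0) (nat_lit 0x40060000000000000000000000000000) := D_1 (nat_lit 113) (nat_lit 126) (nat_lit 114) (nat_lit 2) (nat_lit 7) (nat_lit 7) (nat_lit 1) (nat_lit 12) (nat_lit 6) (by decide +kernel)
theorem L62149 : W_1 (nat_lit 3) (nat_lit 0xe000380038000c000000000000000000000000000) (nat_lit 0x0) (nat_lit 0x40070000800000000000000000000000) := T_1 (nat_lit 112) (nat_lit 95) (nat_lit 6) (nat_lit 9) (nat_lit 9) L62148 (by decide +kernel)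
theorem L62150 : W_1 (nat_lit 4) (nat_lit 0xe000180038000c000000000000000000000000000) (nat_lit 0x0) (nat_lit 0x1000000002000040070000800000000000000000000000) := T_1 (nat_lit 145) (nat_lit 180) (nat_lit 7) (nat_lit 9) (nat_lit 6) L62149 (by decide +kernel)
theorem L62151 : W_1 (nat_lit 5) (nat_lit 0xe000180018000c000000000000000000000000000) (nat_lit 0x0) (nat_lit 0x1000000002000640070000800000000000000000000000) := T_1 (nat_lit 129) (nat_lit 130) (nat_lit 1) (nat_lit 11) (nat_lit 7) L62150 (by decide +kernel)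
theorem L62152 : W_1 (nat_lit 6) (nat_lit 0x6000180018000c000000000000000000000000000) (nat_lit 0x0) (nat_lit 0x1000180002000640070000800000000000000000000000) := T_1 (nat_lit 163) (nat_lit 164) (nat_lit 0) (nat_lit 11) (nat_lit 9) L62151 (by decide +kernel)
theorem L62153 : W_1 (nat_lit 7) (nat_lit 0x2000180018000c000000000000000000000000000) (nat_lit 0x0) (nat_lit 0x18001c0002000640070000800000000000000000000000) := T_1 (nat_lit 162) (nat_lit 179) (nat_lit 7) (nat_lit 8) (nat_lit 6) L62152 (by decide +kernel)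
theorem L62154 : W_1 (nat_lit 8) (nat_lit 0x20001800180004000000000000000000000000000) (nat_lit 0x0) (nat_lit 0x18001c0002000640078000c00000000000000000000000) := T_1 (nat_lit 111) (nat_lit 94) (nat_lit 6) (nat_lit 8) (nat_lit 9) L62153 (by decide +kernel)
theorem L62170 : W_1 (nat_lit 2) (nat_lit 0x4000400020001800180000000000000000000000000000000) (nat_lit 0x0) (nat_lit 0x80008000000000002000000000000000000000000000000000000) := D_1 (nat_lit 195) (nat_lit 145) (nat_lit 211) (nat_lit 6) (nat_lit 8) (nat_lit 11) (nat_lit 5) (nat_lit 8) (nat_lit 8) (by decide +kernel)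
theorem L62171 : W_1 (nat_lit 3) (nat_lit 0x400020001800180000000000000000000000000000000) (nat_lit 0x0) (nat_lit 0x8000c000200000002000000000000000000000000000000000000) := T_1 (nat_lit 194) (nat_lit 177) (nat_lit 5) (nat_lit 8) (nat_lit 7) L62170 (by decide +kernel)
theorem L62186 : W_1 (nat_lit 2) (nat_lit 0x200018003c0018000000000000000000000000000) (nat_lit 0x0) (nat_lit 0x2000000000000400020000000000000000000) := D_1 (nat_lit 94) (nat_lit 77) (nat_lit 145) (nat_lit 5) (nat_lit 9) (nat_lit 4) (nat_lit 5) (nat_lit 9) (nat_lit 5) (by decide +kernel)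
theorem L62187 : W_1 (nat_lit 3) (nat_lit 0x200018003c0010000000000000000000000000000) (nat_lit 0x0) (nat_lit 0x2000020008000400020000000000000000000) := T_1 (nat_lit 111) (nat_lit 125) (nat_lit 2) (nat_lit 6) (nat_lit 7) L62186 (by decide +kernel)
theorem L62188 : W_1 (nat_lit 4) (nat_lit 0x200018003c0000000000000000000000000000000) (nat_lit 0x0) (nat_lit 0x2000020038000400020000000000000000000) := T_1 (nat_lit 112) (nat_lit 113) (nat_lit 2) (nat_lit 7) (nat_lit 7) L62187 (by decide +kernel)
theorem L62189 : W_1 (nat_lit 5) (nat_lit 0x200018001c0000000000000000000000000000000) (nat_lit 0x0) (nat_lit 0x2000620038000400020000000000000000000) := T_1 (nat_lit 129) (nat_lit 130) (nat_lit 1) (nat_lit 11) (nat_lit 7) L62188 (by decide +kernel)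
theorem L62195 : W_1 (nat_lit 2) (nat_lit 0x200018000c0003800000000000000000000000000) (nat_lit 0x0) (nat_lit 0x320000000000000000000000000000000) := D_1 (nat_lit 128) (nat_lit 129) (nat_lit 125) (nat_lit 0) (nat_lit 10) (nat_lit 7) (nat_lit 0) (nat_lit 9) (nat_lit 7) (by decide +kernel)
theorem L62196 : W_1 (nat_lit 3) (nat_lit 0x200018000c0003000000000000000000000000000) (nat_lit 0x0) (nat_lit 0x320000c00000000000000000000000000) := T_1 (nat_lit 107) (nat_lit 106) (nat_lit 3) (nat_lit 4) (nat_lit 6) L62195 (by decide +kernel)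
theorem L62237 : W_1 (nat_lit 4) (nat_lit 0x18000c0003000000000000000000000000000) (nat_lit 0x0) (nat_lit 0x400020000000320000c00000000000000000000000000) := T_1 (nat_lit 161) (nat_lit 178) (nat_lit 4) (nat_lit 8) (nat_lit 10) L62196 (by decide +kernel)
theorem L62238 : W_1 (nat_lit 2) (nat_lit 0x18000c0003000080000000000000000000000) (nat_lit 0x0) (nat_lit 0x20000000000004000200000000000000) := D_1 (nat_lit 74) (nat_lit 57) (nat_lit 125) (nat_lit 7) (nat_lit 6) (nat_lit 3) (nat_lit 7) (nat_lit 6) (nat_lit 4) (by decide +kernel)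
theorem L62239 : W_1 (nat_lit 3) (nat_lit 0x18000c0003000000000000000000000000000) (nat_lit 0x0) (nat_lit 0x10000000020000000080004000200000000000000) := T_1 (nat_lit 91) (nat_lit 160) (nat_lit 4) (nat_lit 7) (nat_lit 9) L62238 (by decide +kernel)
theorem L62240 : W_1 (nat_lit 2) (nat_lit 0x380018001c0003400000000000000000000000000) (nat_lit 0x0) (nat_lit 0x6002000000000000000000000000000000000000) := D_1 (nat_lit 158) (nat_lit 145) (nat_lit 157) (nat_lit 2) (nat_lit 5) (nat_lit 9) (nat_lit 2) (nat_lit 4) (nat_lit 9) (by decide +kernel)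
theorem L62241 : W_1 (nat_lit 3) (nat_lit 0x300018001c0003400000000000000000000000000) (nat_lit 0x0) (nat_lit 0x10000e002000000000000000000000000000000000000) := T_1 (nat_lit 159) (nat_lit 176) (nat_lit 5) (nat_lit 7) (nat_lit 6) L62240 (by decide +kernel)
theorem L62242 : W_1 (nat_lit 4) (nat_lit 0x100018001c0003400000000000000000000000000) (nat_lit 0x0) (nat_lit 0x50002e002000000000000000000000000000000000000) := T_1 (nat_lit 161) (nat_lit 178) (nat_lit 7) (nat_lit 7) (nat_lit 6) L62241 (by decide +kernel)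
theorem L62243 : W_1 (nat_lit 5) (nat_lit 0x18001c0003400000000000000000000000000) (nat_lit 0x0) (nat_lit 0x50003e002000000000000080000000000000000000000) := T_1 (nat_lit 160) (nat_lit 91) (nat_lit 4) (nat_lit 7) (nat_lit 9) L62242 (by decide +kernel)
theorem L62244 : W_1 (nat_lit 6) (nat_lit 0x18000c0003400000000000000000000000000) (nat_lit 0x0) (nat_lit 0x50003e002000300000000080000000000000000000000) := T_1 (nat_lit 128) (nat_lit 129) (nat_lit 0) (nat_lit 10) (nat_lit 7) L62243 (by decide +kernel)
theorem L62245 : W_1 (nat_lit 7) (nat_lit 0x18000c0003000000000000000000000000000) (nat_lit 0x0) (nat_lit 0x50003e002000300000c00080000000000000000000000) := T_1 (nat_lit 106) (nat_lit 107) (nat_lit 3) (nat_lit 4) (nat_lit 6) L62244 (by decide +kernel)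
theorem L62246 : W_1 (nat_lit 8) (nat_lit 0x18000c0002000000000000000000000000000) (nat_lit 0x0) (nat_lit 0x50003e002000320001c00080004000200000000000000) := Q_1 (nat_lit 108) (C_1 L62237 (C_1 L62239 (C_1 L62245 N_1))) (by decide +kernel)
theorem L62247 : W_1 (nat_lit 9) (nat_lit 0x18000c0000000000000000000000000000000) (nat_lit 0x0) (nat_lit 0x50003e002000320003c00f8001c000200000000000000) := Q_1 (nat_lit 109) (C_1 L33238 (C_1 L1216 (C_1 L62246 N_1))) (by decide +kernel)
theorem L62248 : W_1 (nat_lit 8) (nat_lit 0x200018000c0000000000000000000000000000000) (nat_lit 0x0) (nat_lit 0x60003c00de002000038003000180000000000000000000000) := Q_1 (nat_lit 160) (C_1 L62059 (C_1 L62050 (C_1 L62056 N_1))) (by decide +kernel)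
theorem L62249 : W_1 (nat_lit 9) (nat_lit 0x200018000c0000000000000000000000000000000) (nat_lit 0x0) (nat_lit 0x1c000f001c0002000700038000000000000000000000000000) := T_1 (nat_lit 178) (nat_lit 195) (nat_lit 4) (nat_lit 8) (nat_lit 11) L62137 (by decide +kernel)
theorem L62250 : W_1 (nat_lit 10) (nat_lit 0x18000c0000000000000000000000000000000) (nat_lit 0x0) (nat_lit 0x1e000fc01fe00200073803b000180000000000000000000000) := Q_1 (nat_lit 161) (C_1 L62248 (C_1 L1410 (C_1 L62249 N_1))) (by decide +kernel)
theorem L62260 : W_1 (nat_lit 5) (nat_lit 0x18000c0003000000000000000000000000000) (nat_lit 0x0) (nat_lit 0x800f8001c000000000000000000) := T_1 (nat_lit 92) (nat_lit 75) (nat_lit 7) (nat_lit 7) (nat_lit 4) L21530 (by decide +kernel)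
theorem L62261 : W_1 (nat_lit 3) (nat_lit 0x18000c0003000000000000000000000000000) (nat_lit 0x0) (nat_lit 0x320000c00000000000000000000000000) := T_1 (nat_lit 107) (nat_lit 106) (nat_lit 3) (nat_lit 4) (nat_lit 6) L21512 (by decide +kernel)
theorem L62262 : W_1 (nat_lit 2) (nat_lit 0x18001e000b000700004000000000000000000) (nat_lit 0x0) (nat_lit 0x2000018000000000000000000000000000000) := D_1 (nat_lit 124) (nat_lit 123) (nat_lit 145) (nat_lit 3) (nat_lit 4) (nat_lit 7) (nat_lit 3) (nat_lit 5) (nat_lit 7) (by decide +kernel)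
theorem L62263 : W_1 (nat_lit 3) (nat_lit 0x18001c000b000700004000000000000000000) (nat_lit 0x0) (nat_lit 0x2000038010000000000000000000000000000) := T_1 (nat_lit 125) (nat_lit 112) (nat_lit 2) (nat_lit 6) (nat_lit 7) L62262 (by decide +kernel)
theorem L62264 : W_1 (nat_lit 4) (nat_lit 0x18001c0003000700004000000000000000000) (nat_lit 0x0) (nat_lit 0x2000038018000000020000000000000000000) := T_1 (nat_lit 111) (nat_lit 77) (nat_lit 5) (nat_lit 9) (nat_lit 4) L62263 (by decide +kernel)
theorem L62265 : W_1 (nat_lit 5) (nat_lit 0x18001c0003000300004000000000000000000) (nat_lit 0x0) (nat_lit 0x2000038018000c00020000000000000000000) := T_1 (nat_lit 94) (nat_lit 95) (nat_lit 1) (nat_lit 10) (nat_lit 5) L62264 (by decide +kernel)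
theorem L62266 : W_1 (nat_lit 6) (nat_lit 0x18001c0003000300000000000000000000000) (nat_lit 0x0) (nat_lit 0x2000038018000c80024000000000000000000) := T_1 (nat_lit 74) (nat_lit 91) (nat_lit 4) (nat_lit 7) (nat_lit 8) L62265 (by decide +kernel)
theorem L62267 : W_1 (nat_lit 7) (nat_lit 0x18001c0003000100000000000000000000000) (nat_lit 0x0) (nat_lit 0x2000038018000e80034000000000000000000) := T_1 (nat_lit 93) (nat_lit 76) (nat_lit 6) (nat_lit 7) (nat_lit 8) L62266 (by decide +kernel)
theorem L62268 : W_1 (nat_lit 8) (nat_lit 0x18001c0003000000000000000000000000000) (nat_lit 0x0) (nat_lit 0x2000038018000f8003c000000000000000000) := T_1 (nat_lit 92) (nat_lit 75) (nat_lit 7) (nat_lit 7) (nat_lit 4) L62267 (by decide +kernel)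
theorem L62269 : W_1 (nat_lit 9) (nat_lit 0x18000c0003000000000000000000000000000) (nat_lit 0x0) (nat_lit 0x2000338018000f8003c000000000000000000) := T_1 (nat_lit 128) (nat_lit 129) (nat_lit 0) (nat_lit 10) (nat_lit 7) L62268 (by decide +kernel)
theorem L62270 : W_1 (nat_lit 10) (nat_lit 0x18000c0002000000000000000000000000000) (nat_lit 0x0) (nat_lit 0x2000338019c00f8003c000000000000000000) := Q_1 (nat_lit 108) (C_1 L21486 (C_1 L62260 (C_1 L62261 (C_1 L62269 N_1)))) (by decide +kernel)
theorem L62271 : W_1 (nat_lit 2) (nat_lit 0x200018003c001a000000000000000000000000000) (nat_lit 0x0) (nat_lit 0x2000000000000400020000000000000000000) := D_1 (nat_lit 94) (nat_lit 77) (nat_lit 145) (nat_lit 5) (nat_lit 9) (nat_lit 4) (nat_lit 5) (nat_lit 9) (nat_lit 5) (by decide +kernel)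
theorem L62272 : W_1 (nat_lit 3) (nat_lit 0x200018003c0012000000000000000000000000000) (nat_lit 0x0) (nat_lit 0x2000020008000400020000000000000000000) := T_1 (nat_lit 111) (nat_lit 125) (nat_lit 2) (nat_lit 6) (nat_lit 7) L62271 (by decide +kernel)
theorem L62273 : W_1 (nat_lit 4) (nat_lit 0x200018003c0002000000000000000000000000000) (nat_lit 0x0) (nat_lit 0x2000020038000400020000000000000000000) := T_1 (nat_lit 112) (nat_lit 113) (nat_lit 2) (nat_lit 7) (nat_lit 7) L62272 (by decide +kernel)
theorem L62274 : W_1 (nat_lit 5) (nat_lit 0x200018001c0002000000000000000000000000000) (nat_lit 0x0) (nat_lit 0x2000620038000400020000000000000000000) := T_1 (nat_lit 129) (nat_lit 130) (nat_lit 1) (nat_lit 11) (nat_lit 7) L62273 (by decide +kernel)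
theorem L62275 : W_1 (nat_lit 6) (nat_lit 0x18001c0002000000000000000000000000000) (nat_lit 0x0) (nat_lit 0x400020002000620038000400020000000000000000000) := T_1 (nat_lit 161) (nat_lit 178) (nat_lit 4) (nat_lit 8) (nat_lit 10) L62274 (by decide +kernel)
theorem L62286 : W_1 (nat_lit 2) (nat_lit 0x18001e0008800400000000000000000000000) (nat_lit 0x0) (nat_lit 0x400020002000000000000000000000000000000000000) := D_1 (nat_lit 161) (nat_lit 178) (nat_lit 145) (nat_lit 6) (nat_lit 8) (nat_lit 10) (nat_lit 5) (nat_lit 9) (nat_lit 5) (by decide +kernel)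
theorem L62287 : W_1 (nat_lit 3) (nat_lit 0x18001e0008800000000000000000000000000) (nat_lit 0x0) (nat_lit 0x400020002000000000000400020000000000000000000) := T_1 (nat_lit 94) (nat_lit 77) (nat_lit 5) (nat_lit 9) (nat_lit 4) L62286 (by decide +kernel)
theorem L62288 : W_1 (nat_lit 4) (nat_lit 0x18001e0000800000000000000000000000000) (nat_lit 0x0) (nat_lit 0x400020002000000018000400020000000000000000000) := T_1 (nat_lit 111) (nat_lit 112) (nat_lit 2) (nat_lit 6) (nat_lit 7) L62287 (by decide +kernel)
theorem L62289 : W_1 (nat_lit 5) (nat_lit 0x18001e0000000000000000000000000000000) (nat_lit 0x0) (nat_lit 0x400020002000000019800400020000000000000000000) := T_1 (nat_lit 107) (nat_lit 108) (nat_lit 0) (nat_lit 9) (nat_lit 7) L62288 (by decide +kernel)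
theorem L62292 : W_1 (nat_lit 2) (nat_lit 0x2000100018000c0003400000000000000000000000000) (nat_lit 0x0) (nat_lit 0x2000100008000000000000000000000000000000000000000) := D_1 (nat_lit 176) (nat_lit 193) (nat_lit 159) (nat_lit 5) (nat_lit 7) (nat_lit 7) (nat_lit 5) (nat_lit 7) (nat_lit 6) (by decide +kernel)
theorem L62293 : W_1 (nat_lit 3) (nat_lit 0x100018000c0003400000000000000000000000000) (nat_lit 0x0) (nat_lit 0x6000300008000000000000000000000000000000000000000) := T_1 (nat_lit 177) (nat_lit 194) (nat_lit 6) (nat_lit 7) (nat_lit 11) L62292 (by decide +kernel)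
theorem L62294 : W_1 (nat_lit 4) (nat_lit 0x100018000c0003000000000000000000000000000) (nat_lit 0x0) (nat_lit 0x6000300008000000000000c00000000000000000000000000) := T_1 (nat_lit 106) (nat_lit 107) (nat_lit 3) (nat_lit 4) (nat_lit 6) L62293 (by decide +kernel)
theorem L62295 : W_1 (nat_lit 5) (nat_lit 0x18000c0003000000000000000000000000000) (nat_lit 0x0) (nat_lit 0x6000300018000000000000c00080000000000000000000000) := T_1 (nat_lit 160) (nat_lit 91) (nat_lit 4) (nat_lit 7) (nat_lit 9) L62294 (by decide +kernel)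
theorem L62296 : W_1 (nat_lit 6) (nat_lit 0x18000c0002000000000000000000000000000) (nat_lit 0x0) (nat_lit 0x6000300018000000320001c00080004000200000000000000) := Q_1 (nat_lit 108) (C_1 L62239 (C_1 L62295 (C_1 L62261 N_1))) (by decide +kernel)
theorem L62298 : W_1 (nat_lit 2) (nat_lit 0x2000100018000c0002000000000000000000000000000) (nat_lit 0x0) (nat_lit 0x8000400020000000000000000000000000000000000000000) := D_1 (nat_lit 178) (nat_lit 161) (nat_lit 195) (nat_lit 7) (nat_lit 7) (nat_lit 6) (nat_lit 7) (nat_lit 7) (nat_lit 7) (by decide +kernel)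
theorem L62299 : W_1 (nat_lit 3) (nat_lit 0x100018000c0002000000000000000000000000000) (nat_lit 0x0) (nat_lit 0xc000600020000000000000000000000000000000000000000) := T_1 (nat_lit 177) (nat_lit 194) (nat_lit 6) (nat_lit 7) (nat_lit 11) L62298 (by decide +kernel)
theorem L62300 : W_1 (nat_lit 5) (nat_lit 0x18000c0002000000000000000000000000000) (nat_lit 0x0) (nat_lit 0xe00070003e002000000000000000000000000000000000000) := Q_1 (nat_lit 160) (C_1 L61860 (C_1 L33244 (C_1 L62299 N_1))) (by decide +kernel)
theorem L62301 : W_1 (nat_lit 7) (nat_lit 0x18000c0000000000000000000000000000000) (nat_lit 0x0) (nat_lit 0xe00070003e002000000003800f8001c000000000000000000) := Q_1 (nat_lit 109) (C_1 L62300 (C_1 L33238 (C_1 L1216 N_1))) (by decide +kernel)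
theorem L62302 : W_1 (nat_lit 7) (nat_lit 0x18000c0000000000000000000000000000000) (nat_lit 0x0) (nat_lit 0x6000300038000000320003c00f8001c000200000000000000) := Q_1 (nat_lit 109) (C_1 L62296 (C_1 L33238 (C_1 L1216 N_1))) (by decide +kernel)
theorem L62326 : W_1 (nat_lit 2) (nat_lit 0x6000000018000c0000000000000000000000000000000) (nat_lit 0x0) (nat_lit 0x8000000030000000000000000000000000000000000000000) := D_1 (nat_lit 195) (nat_lit 160) (nat_lit 161) (nat_lit 7) (nat_lit 7) (nat_lit 7) (nat_lit 4) (nat_lit 8) (nat_lit 11) (by decide +kernel)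
theorem L62358 : W_1 (nat_lit 6) (nat_lit 0x6000200018001c0000000000000000000000000000000) (nat_lit 0x0) (nat_lit 0x100009001c0002000600030000000000000000000000000000) := T_1 (nat_lit 179) (nat_lit 196) (nat_lit 7) (nat_lit 8) (nat_lit 7) L62134 (by decide +kernel)
theorem L62359 : W_1 (nat_lit 7) (nat_lit 0x6000200018000c0000000000000000000000000000000) (nat_lit 0x0) (nat_lit 0x100009001c0002000700038000000000000000000000000000) := T_1 (nat_lit 128) (nat_lit 111) (nat_lit 6) (nat_lit 8) (nat_lit 10) L62358 (by decide +kernel)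
theorem L62361 : W_1 (nat_lit 2) (nat_lit 0x2000000018000e0000000000000000000000000000000) (nat_lit 0x0) (nat_lit 0x2000018000000000000000000000000000000) := D_1 (nat_lit 124) (nat_lit 123) (nat_lit 145) (nat_lit 3) (nat_lit 4) (nat_lit 7) (nat_lit 3) (nat_lit 5) (nat_lit 7) (by decide +kernel)
theorem L62472 : W_1 (nat_lit 2) (nat_lit 0x20001800380008000000000000000000000000000) (nat_lit 0x0) (nat_lit 0x2000000000000400020000000000000000000) := D_1 (nat_lit 94) (nat_lit 145) (nat_lit 77) (nat_lit 5) (nat_lit 9) (nat_lit 5) (nat_lit 5) (nat_lit 9) (nat_lit 4) (by decide +kernel)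
theorem L62473 : W_1 (nat_lit 3) (nat_lit 0x1800380008000000000000000000000000000) (nat_lit 0x0) (nat_lit 0x400020002000000000000400020000000000000000000) := T_1 (nat_lit 161) (nat_lit 178) (nat_lit 6) (nat_lit 8) (nat_lit 10) L62472 (by decide +kernel)
theorem L62474 : W_1 (nat_lit 4) (nat_lit 0x1800180008000000000000000000000000000) (nat_lit 0x0) (nat_lit 0x400020002000600000000400020000000000000000000) := T_1 (nat_lit 129) (nat_lit 130) (nat_lit 1) (nat_lit 11) (nat_lit 7) L62473 (by decide +kernel)
theorem L62482 : W_1 (nat_lit 2) (nat_lit 0x200018003e0010800000000000000000000000000) (nat_lit 0x0) (nat_lit 0x18000400000000000000000000000000) := D_1 (nat_lit 124) (nat_lit 106) (nat_lit 123) (nat_lit 0) (nat_lit 8) (nat_lit 7) (nat_lit 3) (nat_lit 4) (nat_lit 7) (by decide +kernel)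
theorem L62483 : W_1 (nat_lit 3) (nat_lit 0x200018003e0010000000000000000000000000000) (nat_lit 0x0) (nat_lit 0x18001c00000000000000000000000000) := T_1 (nat_lit 107) (nat_lit 108) (nat_lit 0) (nat_lit 9) (nat_lit 7) L62482 (by decide +kernel)
theorem L62484 : W_1 (nat_lit 4) (nat_lit 0x200018003c0010000000000000000000000000000) (nat_lit 0x0) (nat_lit 0x38009c00000000000000000000000000) := T_1 (nat_lit 125) (nat_lit 111) (nat_lit 2) (nat_lit 6) (nat_lit 7) L62483 (by decide +kernel)
theorem L62485 : W_1 (nat_lit 5) (nat_lit 0x200018003c0000000000000000000000000000000) (nat_lit 0x0) (nat_lit 0x38039c00000000000000000000000000) := T_1 (nat_lit 112) (nat_lit 113) (nat_lit 2) (nat_lit 7) (nat_lit 7) L62484 (by decide +kernel)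
theorem L62486 : W_1 (nat_lit 6) (nat_lit 0x200018001c0000000000000000000000000000000) (nat_lit 0x0) (nat_lit 0x638039c00000000000000000000000000) := T_1 (nat_lit 129) (nat_lit 130) (nat_lit 1) (nat_lit 11) (nat_lit 7) L62485 (by decide +kernel)
theorem L62492 : W_1 (nat_lit 4) (nat_lit 0x400000001800180000000000000000000000000000000) (nat_lit 0x0) (nat_lit 0x8000c000200020002000000008000000000000000000000000000) := T_1 (nat_lit 161) (nat_lit 111) (nat_lit 6) (nat_lit 8) (nat_lit 10) L62171 (by decide +kernel)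
theorem L62494 : W_1 (nat_lit 2) (nat_lit 0x400020001800180000000000000000000000000000000) (nat_lit 0x0) (nat_lit 0x8000000000002000040000000000000000000000000000000) := D_1 (nat_lit 195) (nat_lit 126) (nat_lit 145) (nat_lit 4) (nat_lit 8) (nat_lit 11) (nat_lit 6) (nat_lit 8) (nat_lit 11) (by decide +kernel)
theorem L62596 : W_1 (nat_lit 2) (nat_lit 0x3000300018000e0000000000000000000000000000000) (nat_lit 0x0) (nat_lit 0x2000018000000000000000000000000000000) := D_1 (nat_lit 124) (nat_lit 145) (nat_lit 123) (nat_lit 3) (nat_lit 5) (nat_lit 7) (nat_lit 3) (nat_lit 4) (nat_lit 7) (by decide +kernel)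
theorem L62597 : W_1 (nat_lit 3) (nat_lit 0x3000300018000c0000000000000000000000000000000) (nat_lit 0x0) (nat_lit 0x2000038001000000000000000000000000000) := T_1 (nat_lit 125) (nat_lit 108) (nat_lit 4) (nat_lit 7) (nat_lit 10) L62596 (by decide +kernel)
theorem L62603 : W_1 (nat_lit 2) (nat_lit 0x7000100018000e0000000000000000000000000000000) (nat_lit 0x0) (nat_lit 0x2000018000000000000000000000000000000) := D_1 (nat_lit 124) (nat_lit 145) (nat_lit 123) (nat_lit 3) (nat_lit 5) (nat_lit 7) (nat_lit 3) (nat_lit 4) (nat_lit 7) (by decide +kernel)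
theorem L62604 : W_1 (nat_lit 3) (nat_lit 0x7000100018000c0000000000000000000000000000000) (nat_lit 0x0) (nat_lit 0x2000038001000000000000000000000000000) := T_1 (nat_lit 125) (nat_lit 108) (nat_lit 4) (nat_lit 7) (nat_lit 10) L62603 (by decide +kernel)
theorem L62605 : W_1 (nat_lit 4) (nat_lit 0x6000100018000c0000000000000000000000000000000) (nat_lit 0x0) (nat_lit 0x2000100000002000038001000000000000000000000000000) := T_1 (nat_lit 176) (nat_lit 193) (nat_lit 5) (nat_lit 7) (nat_lit 7) L62604 (by decide +kernel)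
theorem L62606 : W_1 (nat_lit 5) (nat_lit 0x600010001800080000000000000000000000000000000) (nat_lit 0x0) (nat_lit 0xa000100000002000078001000000000000000000000000000) := T_1 (nat_lit 126) (nat_lit 195) (nat_lit 7) (nat_lit 7) (nat_lit 7) L62605 (by decide +kernel)
theorem L62803 : W_1 (nat_lit 4) (nat_lit 0xc00060003800380000000000000000000000000000000) (nat_lit 0x0) (nat_lit 0x20003000198000000000000000000000000000000000000000) := T_1 (nat_lit 163) (nat_lit 164) (nat_lit 0) (nat_lit 11) (nat_lit 9) L34815 (by decide +kernel)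
theorem L62804 : W_1 (nat_lit 5) (nat_lit 0xc00020003800380000000000000000000000000000000) (nat_lit 0x0) (nat_lit 0x200030001d8000000000010000000000000000000000000000) := T_1 (nat_lit 162) (nat_lit 112) (nat_lit 6) (nat_lit 9) (nat_lit 10) L62803 (by decide +kernel)
theorem L62805 : W_1 (nat_lit 6) (nat_lit 0x400020003800380000000000000000000000000000000) (nat_lit 0x0) (nat_lit 0x300038001d8000000000010000000000000000000000000000) := T_1 (nat_lit 179) (nat_lit 196) (nat_lit 7) (nat_lit 8) (nat_lit 7) L62804 (by decide +kernel)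
theorem L62806 : W_1 (nat_lit 7) (nat_lit 0x400020001800380000000000000000000000000000000) (nat_lit 0x0) (nat_lit 0x380038001d8002000000010000000000000000000000000000) := T_1 (nat_lit 145) (nat_lit 195) (nat_lit 6) (nat_lit 8) (nat_lit 11) L62805 (by decide +kernel)
theorem L62807 : W_1 (nat_lit 8) (nat_lit 0x400000001800380000000000000000000000000000000) (nat_lit 0x0) (nat_lit 0x380038001f8002000000018000000000000000000000000000) := T_1 (nat_lit 161) (nat_lit 111) (nat_lit 6) (nat_lit 8) (nat_lit 10) L62806 (by decide +kernel)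
theorem L62808 : W_1 (nat_lit 9) (nat_lit 0x400000001800180000000000000000000000000000000) (nat_lit 0x0) (nat_lit 0x380038001f8002000600018000000000000000000000000000) := T_1 (nat_lit 129) (nat_lit 130) (nat_lit 1) (nat_lit 11) (nat_lit 7) L62807 (by decide +kernel)
theorem L62836 : W_1 (nat_lit 6) (nat_lit 0x600000001800080000000000000000000000000000000) (nat_lit 0x0) (nat_lit 0xe000100010002000078001000000000000000000000000000) := T_1 (nat_lit 160) (nat_lit 194) (nat_lit 6) (nat_lit 7) (nat_lit 11) L62606 (by decide +kernel)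
theorem L62837 : W_1 (nat_lit 2) (nat_lit 0x600000001800080000000000000000000000000000000) (nat_lit 0x0) (nat_lit 0x4000000030000000000000000000000000000000000000000) := D_1 (nat_lit 194) (nat_lit 160) (nat_lit 161) (nat_lit 6) (nat_lit 7) (nat_lit 11) (nat_lit 5) (nat_lit 8) (nat_lit 7) (by decide +kernel)
theorem L62840 : W_1 (nat_lit 2) (nat_lit 0x8000600020001800080000000000000000000000000000000) (nat_lit 0x0) (nat_lit 0x200010000800000000000000000000000000000000000000000000) := D_1 (nat_lit 196) (nat_lit 179) (nat_lit 213) (nat_lit 7) (nat_lit 8) (nat_lit 7) (nat_lit 7) (nat_lit 8) (nat_lit 8) (by decide +kernel)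
theorem L62841 : W_1 (nat_lit 3) (nat_lit 0x600020001800080000000000000000000000000000000) (nat_lit 0x0) (nat_lit 0x200018000800000000000040000000000000000000000000000000) := T_1 (nat_lit 195) (nat_lit 126) (nat_lit 4) (nat_lit 8) (nat_lit 11) L62840 (by decide +kernel)
theorem L62845 : W_1 (nat_lit 2) (nat_lit 0x100008000600020001800080008000000000000000000000000000) (nat_lit 0x0) (nat_lit 0x4000200010000000000000000000000000000000000000000000000000) := D_1 (nat_lit 213) (nat_lit 196) (nat_lit 230) (nat_lit 7) (nat_lit 8) (nat_lit 8) (nat_lit 7) (nat_lit 8) (nat_lit 9) (by decide +kernel)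
theorem L62846 : W_1 (nat_lit 3) (nat_lit 0x8000600020001800080008000000000000000000000000000) (nat_lit 0x0) (nat_lit 0x4000300010000000010000000000000000000000000000000000000000) := T_1 (nat_lit 212) (nat_lit 160) (nat_lit 4) (nat_lit 8) (nat_lit 12) L62845 (by decide +kernel)
theorem L62847 : W_1 (nat_lit 4) (nat_lit 0x600020001800080008000000000000000000000000000) (nat_lit 0x0) (nat_lit 0x4000300018000000010000000040000000000000000000000000000000) := T_1 (nat_lit 195) (nat_lit 126) (nat_lit 4) (nat_lit 8) (nat_lit 11) L62846 (by decide +kernel)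
theorem L62848 : W_1 (nat_lit 5) (nat_lit 0x600020001800080000000000000000000000000000000) (nat_lit 0x0) (nat_lit 0x4000300018000000010000000140008000000000000000000000000000) := T_1 (nat_lit 111) (nat_lit 128) (nat_lit 6) (nat_lit 8) (nat_lit 10) L62847 (by decide +kernel)
theorem L62863 : W_1 (nat_lit 8) (nat_lit 0x6000000018000c0000000000000000000000000000000) (nat_lit 0x0) (nat_lit 0x180009001e0002000700038000000000000000000000000000) := T_1 (nat_lit 161) (nat_lit 195) (nat_lit 4) (nat_lit 8) (nat_lit 11) L62359 (by decide +kernel)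
theorem L63013 : W_1 (nat_lit 2) (nat_lit 0x1e80160003800380000000000000000000000000000000) (nat_lit 0x0) (nat_lit 0x6000200000000000000000000000000000000000000000) := D_1 (nat_lit 181) (nat_lit 165) (nat_lit 182) (nat_lit 2) (nat_lit 8) (nat_lit 10) (nat_lit 0) (nat_lit 12) (nat_lit 10) (by decide +kernel)
theorem L63014 : W_1 (nat_lit 3) (nat_lit 0xe80160003800380000000000000000000000000000000) (nat_lit 0x0) (nat_lit 0x20007000200000000000000000000000000000000000000000) := T_1 (nat_lit 180) (nat_lit 197) (nat_lit 7) (nat_lit 9) (nat_lit 7) L63013 (by decide +kernel)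
theorem L63015 : W_1 (nat_lit 4) (nat_lit 0xe80160001800380000000000000000000000000000000) (nat_lit 0x0) (nat_lit 0x20007000200002000000010000000000000000000000000000) := T_1 (nat_lit 145) (nat_lit 112) (nat_lit 6) (nat_lit 9) (nat_lit 10) L63014 (by decide +kernel)
theorem L63016 : W_1 (nat_lit 5) (nat_lit 0xe80160001800180000000000000000000000000000000) (nat_lit 0x0) (nat_lit 0x20007000200002000600010000000000000000000000000000) := T_1 (nat_lit 129) (nat_lit 130) (nat_lit 1) (nat_lit 11) (nat_lit 7) L63015 (by decide +kernel)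
theorem L63017 : W_1 (nat_lit 6) (nat_lit 0xe80060001800180000000000000000000000000000000) (nat_lit 0x0) (nat_lit 0x20007000380002000600010000000000000000000000000000) := T_1 (nat_lit 164) (nat_lit 163) (nat_lit 1) (nat_lit 11) (nat_lit 9) L63016 (by decide +kernel)
theorem L63018 : W_1 (nat_lit 7) (nat_lit 0xe80060001800080000000000000000000000000000000) (nat_lit 0x0) (nat_lit 0x20007000380002000700018000000000000000000000000000) := T_1 (nat_lit 128) (nat_lit 111) (nat_lit 6) (nat_lit 8) (nat_lit 10) L63017 (by decide +kernel)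
theorem L63019 : W_1 (nat_lit 8) (nat_lit 0x680060001800080000000000000000000000000000000) (nat_lit 0x0) (nat_lit 0x30007800380002000700018000000000000000000000000000) := T_1 (nat_lit 179) (nat_lit 196) (nat_lit 7) (nat_lit 8) (nat_lit 7) L63018 (by decide +kernel)
theorem L63020 : W_1 (nat_lit 9) (nat_lit 0x600060001800080000000000000000000000000000000) (nat_lit 0x0) (nat_lit 0x30007980380002000700018000000000000000000000000000) := T_1 (nat_lit 175) (nat_lit 176) (nat_lit 2) (nat_lit 5) (nat_lit 10) L63019 (by decide +kernel)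
theorem L63392 : W_1 (nat_lit 2) (nat_lit 0x6000e00000001800080000000000000000000000000000000) (nat_lit 0x0) (nat_lit 0x1800100000000000000000000000000000000000000000000) := D_1 (nat_lit 192) (nat_lit 176) (nat_lit 191) (nat_lit 1) (nat_lit 9) (nat_lit 10) (nat_lit 2) (nat_lit 4) (nat_lit 11) (by decide +kernel)
theorem L63486 : W_1 (nat_lit 8) (nat_lit 0x600020001800080000000000000000000000000000000) (nat_lit 0x0) (nat_lit 0x100009001c000200074003a000000000000000000000000000) := T_1 (nat_lit 126) (nat_lit 109) (nat_lit 4) (nat_lit 8) (nat_lit 10) L62359 (by decide +kernel)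
theorem L67177 : W_1 (nat_lit 2) (nat_lit 0x1003f00068001800080008000000000000000000000000000) (nat_lit 0x0) (nat_lit 0xe0000000000000000000000000000000000000000000000000) := D_1 (nat_lit 198) (nat_lit 197) (nat_lit 199) (nat_lit 3) (nat_lit 7) (nat_lit 10) (nat_lit 3) (nat_lit 8) (nat_lit 10) (by decide +kernel)
theorem L67178 : W_1 (nat_lit 3) (nat_lit 0x1001f00068001800080008000000000000000000000000000) (nat_lit 0x0) (nat_lit 0xe0006000000000000000000000000000000000000000000000) := T_1 (nat_lit 181) (nat_lit 182) (nat_lit 0) (nat_lit 12) (nat_lit 10) L67177 (by decide +kernel)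
theorem L67179 : W_1 (nat_lit 4) (nat_lit 0x1000f00068001800080008000000000000000000000000000) (nat_lit 0x0) (nat_lit 0xe0007000010000000000000000000000000000000000000000) := T_1 (nat_lit 180) (nat_lit 160) (nat_lit 3) (nat_lit 6) (nat_lit 9) L67178 (by decide +kernel)
theorem L67180 : W_1 (nat_lit 5) (nat_lit 0x1000f00060001800080008000000000000000000000000000) (nat_lit 0x0) (nat_lit 0xe000700001c000000000000000000000000000000000000000) := T_1 (nat_lit 159) (nat_lit 158) (nat_lit 0) (nat_lit 9) (nat_lit 10) L67179 (by decide +kernel)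
theorem L67181 : W_1 (nat_lit 6) (nat_lit 0xf00060001800080008000000000000000000000000000) (nat_lit 0x0) (nat_lit 0xe300700001c000000000000000000000000000000000000000) := T_1 (nat_lit 192) (nat_lit 193) (nat_lit 1) (nat_lit 9) (nat_lit 10) L67180 (by decide +kernel)
theorem L67182 : W_1 (nat_lit 7) (nat_lit 0x700060001800080008000000000000000000000000000) (nat_lit 0x0) (nat_lit 0xf300780001c000000000000000000000000000000000000000) := T_1 (nat_lit 179) (nat_lit 196) (nat_lit 7) (nat_lit 8) (nat_lit 7) L67181 (by decide +kernel)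
theorem L67183 : W_1 (nat_lit 8) (nat_lit 0x600060001800080008000000000000000000000000000) (nat_lit 0x0) (nat_lit 0xf300798001c000000000000000000000000000000000000000) := T_1 (nat_lit 176) (nat_lit 175) (nat_lit 2) (nat_lit 5) (nat_lit 10) L67182 (by decide +kernel)
theorem L67718 : W_1 (nat_lit 2) (nat_lit 0x10000600020001800180000000000000000000000000000000) (nat_lit 0x0) (nat_lit 0x200008000000000002000000000000000000000000000000000000) := D_1 (nat_lit 195) (nat_lit 145) (nat_lit 213) (nat_lit 6) (nat_lit 8) (nat_lit 11) (nat_lit 7) (nat_lit 8) (nat_lit 8) (by decide +kernel)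
theorem L67719 : W_1 (nat_lit 3) (nat_lit 0x600020001800180000000000000000000000000000000) (nat_lit 0x0) (nat_lit 0x200018000800000002000000000000000000000000000000000000) := T_1 (nat_lit 196) (nat_lit 179) (nat_lit 7) (nat_lit 8) (nat_lit 7) L67718 (by decide +kernel)
theorem L67720 : W_1 (nat_lit 4) (nat_lit 0x600020001800080000000000000000000000000000000) (nat_lit 0x0) (nat_lit 0x200018000800000002000100008000000000000000000000000000) := T_1 (nat_lit 128) (nat_lit 111) (nat_lit 6) (nat_lit 8) (nat_lit 10) L67719 (by decide +kernel)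
theorem L67799 : W_1 (nat_lit 3) (nat_lit 0x4000e00000001800080000000000000000000000000000000) (nat_lit 0x0) (nat_lit 0x3801100000000000000000000000000000000000000000000) := T_1 (nat_lit 193) (nat_lit 180) (nat_lit 1) (nat_lit 10) (nat_lit 10) L63392 (by decide +kernel)
theorem L67896 : W_1 (nat_lit 2) (nat_lit 0x1e000e0003800380000000000000000000000000000000) (nat_lit 0x0) (nat_lit 0x2000018000000000000000000000000000000000000000) := D_1 (nat_lit 160) (nat_lit 181) (nat_lit 159) (nat_lit 3) (nat_lit 7) (nat_lit 9) (nat_lit 3) (nat_lit 6) (nat_lit 9) (by decide +kernel)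
theorem L67897 : W_1 (nat_lit 3) (nat_lit 0xe000e0003800380000000000000000000000000000000) (nat_lit 0x0) (nat_lit 0x20003000018000000000000000000000000000000000000000) := T_1 (nat_lit 180) (nat_lit 197) (nat_lit 7) (nat_lit 9) (nat_lit 7) L67896 (by decide +kernel)
theorem L68452 : W_1 (nat_lit 2) (nat_lit 0x6000100018000e0000000000000000000000000000000) (nat_lit 0x0) (nat_lit 0x2000018000000000000000000000000000000) := D_1 (nat_lit 124) (nat_lit 123) (nat_lit 145) (nat_lit 3) (nat_lit 4) (nat_lit 7) (nat_lit 3) (nat_lit 5) (nat_lit 7) (by decide +kernel)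
theorem L69084 : W_1 (nat_lit 2) (nat_lit 0x300018000c0007000000000000000000000000000) (nat_lit 0x0) (nat_lit 0x100000c00000000000000000000000000) := D_1 (nat_lit 107) (nat_lit 128) (nat_lit 106) (nat_lit 3) (nat_lit 5) (nat_lit 6) (nat_lit 3) (nat_lit 4) (nat_lit 6) (by decide +kernel)
theorem L69085 : W_1 (nat_lit 3) (nat_lit 0x300018000c0006000000000000000000000000000) (nat_lit 0x0) (nat_lit 0x100001c00080000000000000000000000) := T_1 (nat_lit 108) (nat_lit 91) (nat_lit 4) (nat_lit 7) (nat_lit 9) L69084 (by decide +kernel)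
theorem L70158 : W_1 (nat_lit 2) (nat_lit 0x200000001a000f0001800000000000000000000000000) (nat_lit 0x0) (nat_lit 0x4000000000000000080004000000000000000000) := D_1 (nat_lit 91) (nat_lit 74) (nat_lit 158) (nat_lit 7) (nat_lit 6) (nat_lit 4) (nat_lit 6) (nat_lit 5) (nat_lit 9) (by decide +kernel)
theorem L70159 : W_1 (nat_lit 3) (nat_lit 0x200000001a000f0000800000000000000000000000000) (nat_lit 0x0) (nat_lit 0x4000000100001000080004000000000000000000) := T_1 (nat_lit 108) (nat_lit 128) (nat_lit 0) (nat_lit 9) (nat_lit 7) L70158 (by decide +kernel)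
theorem L70160 : W_1 (nat_lit 4) (nat_lit 0x200000001a000f0000000000000000000000000000000) (nat_lit 0x0) (nat_lit 0x4000000100001c00080004000000000000000000) := T_1 (nat_lit 107) (nat_lit 106) (nat_lit 0) (nat_lit 8) (nat_lit 7) L70159 (by decide +kernel)
theorem L70161 : W_1 (nat_lit 5) (nat_lit 0x2000000018000f0000000000000000000000000000000) (nat_lit 0x0) (nat_lit 0x4000300100001c00080004000000000000000000) := T_1 (nat_lit 141) (nat_lit 140) (nat_lit 1) (nat_lit 8) (nat_lit 7) L70160 (by decide +kernel)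
theorem L70162 : W_1 (nat_lit 6) (nat_lit 0x2000000018000e0000000000000000000000000000000) (nat_lit 0x0) (nat_lit 0x4000300118001c00080004000000000000000000) := T_1 (nat_lit 124) (nat_lit 123) (nat_lit 3) (nat_lit 4) (nat_lit 7) L70161 (by decide +kernel)
theorem L74221 : W_1 (nat_lit 8) (nat_lit 0x1800180008000000000000000000000000000) (nat_lit 0x0) (nat_lit 0x200067803380078002c000000000000000000) := Q_1 (nat_lit 126) (C_1 L21589 (C_1 L21583 (C_1 L21585 (C_1 L21466 N_1)))) (by decide +kernel)
theorem L74222 : W_1 (nat_lit 2) (nat_lit 0x200018001e0008800100020000000000000000000) (nat_lit 0x0) (nat_lit 0x18000400000000000000000000000000) := D_1 (nat_lit 124) (nat_lit 106) (nat_lit 123) (nat_lit 0) (nat_lit 8) (nat_lit 7) (nat_lit 3) (nat_lit 4) (nat_lit 7) (by decide +kernel)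
theorem L74223 : W_1 (nat_lit 3) (nat_lit 0x200018001e0008000100020000000000000000000) (nat_lit 0x0) (nat_lit 0x18001c00000000000000000000000000) := T_1 (nat_lit 107) (nat_lit 108) (nat_lit 0) (nat_lit 9) (nat_lit 7) L74222 (by decide +kernel)
theorem L74224 : W_1 (nat_lit 4) (nat_lit 0x200018001c0008000100020000000000000000000) (nat_lit 0x0) (nat_lit 0x38011c00000000000000000000000000) := T_1 (nat_lit 125) (nat_lit 112) (nat_lit 2) (nat_lit 6) (nat_lit 7) L74223 (by decide +kernel)
theorem L74225 : W_1 (nat_lit 5) (nat_lit 0x200018001c0008000000020000000000000000000) (nat_lit 0x0) (nat_lit 0x38013c00100000000000000000000000) := T_1 (nat_lit 92) (nat_lit 109) (nat_lit 7) (nat_lit 7) (nat_lit 5) L74224 (by decide +kernel)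
theorem L74226 : W_1 (nat_lit 6) (nat_lit 0x18001c0008000000020000000000000000000) (nat_lit 0x0) (nat_lit 0x400020000000038013c00100000000000000000000000) := T_1 (nat_lit 161) (nat_lit 178) (nat_lit 6) (nat_lit 8) (nat_lit 10) L74225 (by decide +kernel)
theorem L74227 : W_1 (nat_lit 7) (nat_lit 0x18001c0008000000000000000000000000000) (nat_lit 0x0) (nat_lit 0x400020000000038013c00500020000000000000000000) := T_1 (nat_lit 77) (nat_lit 94) (nat_lit 5) (nat_lit 9) (nat_lit 4) L74226 (by decide +kernel)
theorem L74228 : W_1 (nat_lit 2) (nat_lit 0x18003c000a000000000000000000000000000) (nat_lit 0x0) (nat_lit 0x400020000000000000000100000000000000000000000) := D_1 (nat_lit 161) (nat_lit 178) (nat_lit 92) (nat_lit 6) (nat_lit 8) (nat_lit 10) (nat_lit 7) (nat_lit 7) (nat_lit 5) (by decide +kernel)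
theorem L74229 : W_1 (nat_lit 3) (nat_lit 0x18003c0008000000000000000000000000000) (nat_lit 0x0) (nat_lit 0x400020000000000003000100000000000000000000000) := T_1 (nat_lit 109) (nat_lit 108) (nat_lit 0) (nat_lit 10) (nat_lit 7) L74228 (by decide +kernel)
theorem L74230 : W_1 (nat_lit 4) (nat_lit 0x18001c0008000000000000000000000000000) (nat_lit 0x0) (nat_lit 0x400020000000600003000100000000000000000000000) := T_1 (nat_lit 129) (nat_lit 130) (nat_lit 1) (nat_lit 11) (nat_lit 7) L74229 (by decide +kernel)
theorem L74231 : W_1 (nat_lit 8) (nat_lit 0x1800180008000000000000000000000000000) (nat_lit 0x0) (nat_lit 0x400020000000678033c0078002c000000000000000000) := Q_1 (nat_lit 126) (C_1 L21585 (C_1 L21583 (C_1 L74227 (C_1 L74230 N_1)))) (by decide +kernel)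
theorem L74232 : W_1 (nat_lit 2) (nat_lit 0x200018001e0008000100000000000000000000000) (nat_lit 0x0) (nat_lit 0x2000018000000000000000000000000000000) := D_1 (nat_lit 124) (nat_lit 123) (nat_lit 145) (nat_lit 3) (nat_lit 4) (nat_lit 7) (nat_lit 3) (nat_lit 5) (nat_lit 7) (by decide +kernel)
theorem L74233 : W_1 (nat_lit 3) (nat_lit 0x200018001c0008000100000000000000000000000) (nat_lit 0x0) (nat_lit 0x2000038010000000000000000000000000000) := T_1 (nat_lit 125) (nat_lit 112) (nat_lit 2) (nat_lit 6) (nat_lit 7) L74232 (by decide +kernel)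
theorem L74234 : W_1 (nat_lit 4) (nat_lit 0x200018001c0008000000000000000000000000000) (nat_lit 0x0) (nat_lit 0x2000038012000100000000000000000000000) := T_1 (nat_lit 92) (nat_lit 109) (nat_lit 7) (nat_lit 7) (nat_lit 5) L74233 (by decide +kernel)
theorem L74235 : W_1 (nat_lit 5) (nat_lit 0x18001c0008000000000000000000000000000) (nat_lit 0x0) (nat_lit 0x400020002000038012000100000000000000000000000) := T_1 (nat_lit 161) (nat_lit 178) (nat_lit 6) (nat_lit 8) (nat_lit 10) L74234 (by decide +kernel)
theorem L74236 : W_1 (nat_lit 6) (nat_lit 0x1800180008000000000000000000000000000) (nat_lit 0x0) (nat_lit 0x400020002000678033800100000000000000000000000) := Q_1 (nat_lit 126) (C_1 L74230 (C_1 L21589 (C_1 L21585 (C_1 L74235 N_1)))) (by decide +kernel)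
theorem L74237 : W_1 (nat_lit 2) (nat_lit 0x1800180008000400000000000000000000000) (nat_lit 0x0) (nat_lit 0x400020002000000000000000000000000000000000000) := D_1 (nat_lit 161) (nat_lit 178) (nat_lit 145) (nat_lit 6) (nat_lit 8) (nat_lit 10) (nat_lit 5) (nat_lit 9) (nat_lit 5) (by decide +kernel)
theorem L74238 : W_1 (nat_lit 3) (nat_lit 0x1800180008000000000000000000000000000) (nat_lit 0x0) (nat_lit 0x400020002000000000000400020000000000000000000) := T_1 (nat_lit 94) (nat_lit 77) (nat_lit 5) (nat_lit 9) (nat_lit 4) L74237 (by decide +kernel)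
theorem L74239 : W_1 (nat_lit 9) (nat_lit 0x1800180000000000000000000000000000000) (nat_lit 0x0) (nat_lit 0x40002000200067803bc0078002c000000000000000000) := Q_1 (nat_lit 111) (C_1 L74221 (C_1 L62474 (C_1 L74231 (C_1 L74236 (C_1 L74238 N_1))))) (by decide +kernel)
theorem L74345 : W_1 (nat_lit 5) (nat_lit 0x6000200018003c0000000000000000000000000000000) (nat_lit 0x0) (nat_lit 0x100009001c0002000000030000000000000000000000000000) := T_1 (nat_lit 179) (nat_lit 196) (nat_lit 7) (nat_lit 8) (nat_lit 7) L62133 (by decide +kernel)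
theorem L74346 : W_1 (nat_lit 6) (nat_lit 0x600020001800380000000000000000000000000000000) (nat_lit 0x0) (nat_lit 0x100009001c0002000040032000000000000000000000000000) := T_1 (nat_lit 126) (nat_lit 109) (nat_lit 4) (nat_lit 8) (nat_lit 10) L74345 (by decide +kernel)
theorem L74347 : W_1 (nat_lit 7) (nat_lit 0x400020001800380000000000000000000000000000000) (nat_lit 0x0) (nat_lit 0x14000b001c0002000040032000000000000000000000000000) := T_1 (nat_lit 177) (nat_lit 194) (nat_lit 5) (nat_lit 8) (nat_lit 7) L74346 (by decide +kernel)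
theorem L74348 : W_1 (nat_lit 8) (nat_lit 0x400020001800180000000000000000000000000000000) (nat_lit 0x0) (nat_lit 0x14000b001c0002000640032000000000000000000000000000) := T_1 (nat_lit 129) (nat_lit 130) (nat_lit 1) (nat_lit 11) (nat_lit 7) L74347 (by decide +kernel)
theorem L74349 : W_1 (nat_lit 9) (nat_lit 0x400000001800180000000000000000000000000000000) (nat_lit 0x0) (nat_lit 0x8001c000b001e0002000640032000000000000000000000000000) := Q_1 (nat_lit 161) (C_1 L62171 (C_1 L62494 (C_1 L1358 (C_1 L74348 N_1)))) (by decide +kernel)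
theorem L233788 : W_1 (nat_lit 2) (nat_lit 0xe000d0001800080000000000000000000000000000000) (nat_lit 0x0) (nat_lit 0x1000300000000000000000000000000000000000000000) := D_1 (nat_lit 164) (nat_lit 165) (nat_lit 180) (nat_lit 1) (nat_lit 12) (nat_lit 9) (nat_lit 2) (nat_lit 7) (nat_lit 10) (by decide +kernel)
theorem L233789 : W_1 (nat_lit 3) (nat_lit 0xe00050001800080000000000000000000000000000000) (nat_lit 0x0) (nat_lit 0x1100380000000000000000000000000000000000000000) := T_1 (nat_lit 163) (nat_lit 176) (nat_lit 2) (nat_lit 6) (nat_lit 10) L233788 (by decide +kernel)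
theorem L234777 : W_1 (nat_lit 2) (nat_lit 0x18000e0001000080000000000000000000000) (nat_lit 0x0) (nat_lit 0x200010000000000002000000000000000000000000000) := D_1 (nat_lit 160) (nat_lit 177) (nat_lit 109) (nat_lit 4) (nat_lit 7) (nat_lit 10) (nat_lit 4) (nat_lit 7) (nat_lit 9) (by decide +kernel)
theorem L234778 : W_1 (nat_lit 3) (nat_lit 0x18000e0001000000000000000000000000000) (nat_lit 0x0) (nat_lit 0x200010000000000002000080004000000000000000000) := T_1 (nat_lit 91) (nat_lit 74) (nat_lit 7) (nat_lit 6) (nat_lit 4) L234777 (by decide +kernel)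
theorem L234779 : W_1 (nat_lit 2) (nat_lit 0x18001e0011000000004000000000000000000) (nat_lit 0x0) (nat_lit 0x600020000000000000000000000000000) := D_1 (nat_lit 129) (nat_lit 130) (nat_lit 113) (nat_lit 1) (nat_lit 11) (nat_lit 7) (nat_lit 2) (nat_lit 7) (nat_lit 7) (by decide +kernel)
theorem L234780 : W_1 (nat_lit 3) (nat_lit 0x18001e0001000000004000000000000000000) (nat_lit 0x0) (nat_lit 0x600038000000000000000000000000000) := T_1 (nat_lit 112) (nat_lit 111) (nat_lit 2) (nat_lit 6) (nat_lit 7) L234779 (by decide +kernel)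
theorem L234781 : W_1 (nat_lit 4) (nat_lit 0x18001e0001000000000000000000000000000) (nat_lit 0x0) (nat_lit 0x600038000080004000000000000000000) := T_1 (nat_lit 74) (nat_lit 91) (nat_lit 7) (nat_lit 6) (nat_lit 4) L234780 (by decide +kernel)
theorem L234782 : W_1 (nat_lit 5) (nat_lit 0x18000e0001000000000000000000000000000) (nat_lit 0x0) (nat_lit 0x700038800080004000000000000000000) := T_1 (nat_lit 128) (nat_lit 107) (nat_lit 0) (nat_lit 9) (nat_lit 7) L234781 (by decide +kernel)
theorem L234783 : W_1 (nat_lit 6) (nat_lit 0x18000e0000000000000000000000000000000) (nat_lit 0x0) (nat_lit 0x20001000000070003be00080004000000000000000000) := Q_1 (nat_lit 108) (C_1 L234778 (C_1 L21453 (C_1 L234782 N_1))) (by decide +kernel)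
theorem L235755 : W_1 (nat_lit 2) (nat_lit 0x4003e00000001800380000000000000000000000000000000) (nat_lit 0x0) (nat_lit 0xe0000000000000000000000000000000000000000000000000) := D_1 (nat_lit 198) (nat_lit 197) (nat_lit 199) (nat_lit 3) (nat_lit 7) (nat_lit 10) (nat_lit 3) (nat_lit 8) (nat_lit 10) (by decide +kernel)
theorem L235756 : W_1 (nat_lit 3) (nat_lit 0x4001e00000001800380000000000000000000000000000000) (nat_lit 0x0) (nat_lit 0xe8002000000000000000000000000000000000000000000000) := T_1 (nat_lit 181) (nat_lit 195) (nat_lit 1) (nat_lit 11) (nat_lit 10) L235755 (by decide +kernel)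
theorem L236259 : W_1 (nat_lit 2) (nat_lit 0x2001f00000001800080000000000000000000000000000000) (nat_lit 0x0) (nat_lit 0x70000000000000000000000000000000000000000000000000) := D_1 (nat_lit 197) (nat_lit 196) (nat_lit 198) (nat_lit 3) (nat_lit 6) (nat_lit 10) (nat_lit 3) (nat_lit 7) (nat_lit 10) (by decide +kernel)
theorem L236266 : W_1 (nat_lit 2) (nat_lit 0xf00040001800080000000000000000000000000000000) (nat_lit 0x0) (nat_lit 0x30000000000002000000000000000000000000000000000000) := D_1 (nat_lit 196) (nat_lit 197) (nat_lit 145) (nat_lit 3) (nat_lit 6) (nat_lit 10) (nat_lit 4) (nat_lit 9) (nat_lit 11) (by decide +kernel)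
theorem L236267 : W_1 (nat_lit 3) (nat_lit 0xf00000001800080000000000000000000000000000000) (nat_lit 0x0) (nat_lit 0x300000000c0002000000000000000000000000000000000000) := T_1 (nat_lit 162) (nat_lit 163) (nat_lit 2) (nat_lit 6) (nat_lit 10) L236266 (by decide +kernel)
theorem L236514 : W_1 (nat_lit 2) (nat_lit 0x11000f00010001800080000000000000000000000000000000) (nat_lit 0x0) (nat_lit 0xc0002000000000000000000000000000000000000) := D_1 (nat_lit 162) (nat_lit 163) (nat_lit 145) (nat_lit 2) (nat_lit 6) (nat_lit 10) (nat_lit 4) (nat_lit 9) (nat_lit 11) (by decide +kernel)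
theorem L236515 : W_1 (nat_lit 3) (nat_lit 0x1000f00010001800080000000000000000000000000000000) (nat_lit 0x0) (nat_lit 0x300000000c0002000000000000000000000000000000000000) := T_1 (nat_lit 196) (nat_lit 197) (nat_lit 3) (nat_lit 6) (nat_lit 10) L236514 (by decide +kernel)
theorem L236560 : W_1 (nat_lit 2) (nat_lit 0x42001e00100001800080000000000000000000000000000000) (nat_lit 0x0) (nat_lit 0x80002000200000000000000000000000000000000000000000) := D_1 (nat_lit 181) (nat_lit 165) (nat_lit 199) (nat_lit 2) (nat_lit 8) (nat_lit 10) (nat_lit 3) (nat_lit 8) (nat_lit 10) (by decide +kernel)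
theorem L236561 : W_1 (nat_lit 3) (nat_lit 0x2001e00100001800080000000000000000000000000000000) (nat_lit 0x0) (nat_lit 0xe0002000200000000000000000000000000000000000000000) := T_1 (nat_lit 198) (nat_lit 197) (nat_lit 3) (nat_lit 7) (nat_lit 10) L236560 (by decide +kernel)
theorem L236562 : W_1 (nat_lit 4) (nat_lit 0x2001e00000001800080000000000000000000000000000000) (nat_lit 0x0) (nat_lit 0xe0002000380000000000000000000000000000000000000000) := T_1 (nat_lit 164) (nat_lit 163) (nat_lit 2) (nat_lit 7) (nat_lit 10) L236561 (by decide +kernel)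
theorem L236637 : W_1 (nat_lit 2) (nat_lit 0xf80004001800080000000000000000000000000000000) (nat_lit 0x0) (nat_lit 0x3800000000000000000000000000000000000000000000000) := D_1 (nat_lit 192) (nat_lit 193) (nat_lit 191) (nat_lit 1) (nat_lit 9) (nat_lit 10) (nat_lit 1) (nat_lit 8) (nat_lit 10) (by decide +kernel)
theorem L236638 : W_1 (nat_lit 3) (nat_lit 0xf00004001800080000000000000000000000000000000) (nat_lit 0x0) (nat_lit 0x3800080002000000000000000000000000000000000000000) := T_1 (nat_lit 175) (nat_lit 157) (nat_lit 0) (nat_lit 8) (nat_lit 10) L236637 (by decide +kernel)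
theorem L236639 : W_1 (nat_lit 4) (nat_lit 0xf00000001800080000000000000000000000000000000) (nat_lit 0x0) (nat_lit 0x380008000e000000000000000000000000000000000000000) := T_1 (nat_lit 158) (nat_lit 159) (nat_lit 0) (nat_lit 9) (nat_lit 10) L236638 (by decide +kernel)
theorem L236641 : W_1 (nat_lit 4) (nat_lit 0xe00000001800080000000000000000000000000000000) (nat_lit 0x0) (nat_lit 0x7801100010000000000000000000000000000000000000000) := T_1 (nat_lit 194) (nat_lit 160) (nat_lit 6) (nat_lit 7) (nat_lit 11) L67799 (by decide +kernel)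
theorem L236642 : W_1 (nat_lit 2) (nat_lit 0x40001e00110001800080000000000000000000000000000000) (nat_lit 0x0) (nat_lit 0x80002000200000000000000000000000000000000000000000) := D_1 (nat_lit 181) (nat_lit 165) (nat_lit 199) (nat_lit 2) (nat_lit 8) (nat_lit 10) (nat_lit 3) (nat_lit 8) (nat_lit 10) (by decide +kernel)
theorem L236643 : W_1 (nat_lit 3) (nat_lit 0x1e00110001800080000000000000000000000000000000) (nat_lit 0x0) (nat_lit 0xe0002000200000000000000000000000000000000000000000) := T_1 (nat_lit 198) (nat_lit 197) (nat_lit 3) (nat_lit 7) (nat_lit 10) L236642 (by decide +kernel)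
theorem L236644 : W_1 (nat_lit 4) (nat_lit 0x1e00010001800080000000000000000000000000000000) (nat_lit 0x0) (nat_lit 0xe0002000380000000000000000000000000000000000000000) := T_1 (nat_lit 164) (nat_lit 163) (nat_lit 2) (nat_lit 7) (nat_lit 10) L236643 (by decide +kernel)
theorem L236645 : W_1 (nat_lit 5) (nat_lit 0xe00010001800080000000000000000000000000000000) (nat_lit 0x0) (nat_lit 0xe0003000388000000000000000000000000000000000000000) := T_1 (nat_lit 180) (nat_lit 159) (nat_lit 0) (nat_lit 10) (nat_lit 10) L236644 (by decide +kernel)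
theorem L236646 : W_1 (nat_lit 6) (nat_lit 0xe00000001800080000000000000000000000000000000) (nat_lit 0x0) (nat_lit 0xe4003000398000000000000000000000000000000000000000) := T_1 (nat_lit 160) (nat_lit 194) (nat_lit 6) (nat_lit 7) (nat_lit 11) L236645 (by decide +kernel)
theorem L236648 : W_1 (nat_lit 5) (nat_lit 0x1e00000001800080000000000000000000000000000000) (nat_lit 0x0) (nat_lit 0xe6002000380000000000000000000000000000000000000000) := T_1 (nat_lit 193) (nat_lit 194) (nat_lit 1) (nat_lit 10) (nat_lit 10) L236562 (by decide +kernel)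
theorem L236652 : W_1 (nat_lit 3) (nat_lit 0x2001e00000001800080000000000000000000000000000000) (nat_lit 0x0) (nat_lit 0x71000100000000000000000000000000000000000000000000) := T_1 (nat_lit 176) (nat_lit 192) (nat_lit 1) (nat_lit 9) (nat_lit 10) L236259 (by decide +kernel)
theorem L236653 : W_1 (nat_lit 4) (nat_lit 0x1e00000001800080000000000000000000000000000000) (nat_lit 0x0) (nat_lit 0x77000100000000000000000000000000000000000000000000) := T_1 (nat_lit 193) (nat_lit 194) (nat_lit 1) (nat_lit 10) (nat_lit 10) L236652 (by decide +kernel)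
theorem L236663 : W_1 (nat_lit 2) (nat_lit 0xf80004001800080000000000000000000000000000000) (nat_lit 0x0) (nat_lit 0x38000000000000000000000000000000000000000000000000) := D_1 (nat_lit 196) (nat_lit 197) (nat_lit 195) (nat_lit 3) (nat_lit 6) (nat_lit 10) (nat_lit 3) (nat_lit 5) (nat_lit 10) (by decide +kernel)
theorem L236664 : W_1 (nat_lit 3) (nat_lit 0xf00004001800080000000000000000000000000000000) (nat_lit 0x0) (nat_lit 0x38000080002000000000000000000000000000000000000000) := T_1 (nat_lit 175) (nat_lit 157) (nat_lit 0) (nat_lit 8) (nat_lit 10) L236663 (by decide +kernel)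
theorem L236665 : W_1 (nat_lit 4) (nat_lit 0xf00000001800080000000000000000000000000000000) (nat_lit 0x0) (nat_lit 0x3800008000e000000000000000000000000000000000000000) := T_1 (nat_lit 158) (nat_lit 159) (nat_lit 0) (nat_lit 9) (nat_lit 10) L236664 (by decide +kernel)
theorem L236675 : W_1 (nat_lit 2) (nat_lit 0x20001e000c0001800080000000000000000000000000000000) (nat_lit 0x0) (nat_lit 0x400000000000000002000100000000000000000000000000000000) := D_1 (nat_lit 145) (nat_lit 214) (nat_lit 128) (nat_lit 4) (nat_lit 10) (nat_lit 12) (nat_lit 7) (nat_lit 9) (nat_lit 7) (by decide +kernel)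
theorem L236676 : W_1 (nat_lit 3) (nat_lit 0x20001e00080001800080000000000000000000000000000000) (nat_lit 0x0) (nat_lit 0x400000000100040002000100000000000000000000000000000000) := T_1 (nat_lit 162) (nat_lit 176) (nat_lit 2) (nat_lit 6) (nat_lit 10) L236675 (by decide +kernel)
theorem L236677 : W_1 (nat_lit 4) (nat_lit 0x20001e00000001800080000000000000000000000000000000) (nat_lit 0x0) (nat_lit 0x4000000001001c0002000100000000000000000000000000000000) := T_1 (nat_lit 163) (nat_lit 164) (nat_lit 2) (nat_lit 7) (nat_lit 10) L236676 (by decide +kernel)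
theorem L236678 : W_1 (nat_lit 5) (nat_lit 0x1e00000001800080000000000000000000000000000000) (nat_lit 0x0) (nat_lit 0x4000600001001c0002000100000000000000000000000000000000) := T_1 (nat_lit 197) (nat_lit 198) (nat_lit 3) (nat_lit 7) (nat_lit 10) L236677 (by decide +kernel)
theorem L236679 : W_1 (nat_lit 4) (nat_lit 0x1e00000001800080000000000000000000000000000000) (nat_lit 0x0) (nat_lit 0xee002000000000000000000000000000000000000000000000) := T_1 (nat_lit 194) (nat_lit 193) (nat_lit 1) (nat_lit 10) (nat_lit 10) L21848 (by decide +kernel)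
theorem L236680 : W_1 (nat_lit 2) (nat_lit 0x4007e000c0001800080000000000000000000000000000000) (nat_lit 0x0) (nat_lit 0x1c0000000000000000000000000000000000000000000000000) := D_1 (nat_lit 199) (nat_lit 198) (nat_lit 200) (nat_lit 3) (nat_lit 8) (nat_lit 10) (nat_lit 3) (nat_lit 9) (nat_lit 10) (by decide +kernel)
theorem L236681 : W_1 (nat_lit 3) (nat_lit 0x4003e000c0001800080000000000000000000000000000000) (nat_lit 0x0) (nat_lit 0x1c000c000000000000000000000000000000000000000000000) := T_1 (nat_lit 182) (nat_lit 183) (nat_lit 0) (nat_lit 13) (nat_lit 10) L236680 (by decide +kernel)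
theorem L236682 : W_1 (nat_lit 4) (nat_lit 0x4001e000c0001800080000000000000000000000000000000) (nat_lit 0x0) (nat_lit 0x1c800e000000000000000000000000000000000000000000000) := T_1 (nat_lit 181) (nat_lit 195) (nat_lit 1) (nat_lit 11) (nat_lit 10) L236681 (by decide +kernel)
theorem L236683 : W_1 (nat_lit 5) (nat_lit 0x1e000c0001800080000000000000000000000000000000) (nat_lit 0x0) (nat_lit 0x1ce00e000000000000000000000000000000000000000000000) := T_1 (nat_lit 194) (nat_lit 193) (nat_lit 1) (nat_lit 10) (nat_lit 10) L236682 (by decide +kernel)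
theorem L236684 : W_1 (nat_lit 6) (nat_lit 0x1e00080001800080000000000000000000000000000000) (nat_lit 0x0) (nat_lit 0x1ce00e100040000000000000000000000000000000000000000) := T_1 (nat_lit 162) (nat_lit 176) (nat_lit 2) (nat_lit 6) (nat_lit 10) L236683 (by decide +kernel)
theorem L236685 : W_1 (nat_lit 7) (nat_lit 0x1e00000001800080000000000000000000000000000000) (nat_lit 0x0) (nat_lit 0x1ce00e1001c0000000000000000000000000000000000000000) := T_1 (nat_lit 163) (nat_lit 164) (nat_lit 2) (nat_lit 7) (nat_lit 10) L236684 (by decide +kernel)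
theorem L236686 : W_1 (nat_lit 2) (nat_lit 0x2001f00000001800080000000000000000000000000000000) (nat_lit 0x0) (nat_lit 0x1c0000000000000000000000000000000000000000) := D_1 (nat_lit 163) (nat_lit 164) (nat_lit 162) (nat_lit 2) (nat_lit 7) (nat_lit 10) (nat_lit 2) (nat_lit 6) (nat_lit 10) (by decide +kernel)
theorem L236687 : W_1 (nat_lit 3) (nat_lit 0x2001e00000001800080000000000000000000000000000000) (nat_lit 0x0) (nat_lit 0x10001001c0000000000000000000000000000000000000000) := T_1 (nat_lit 176) (nat_lit 192) (nat_lit 1) (nat_lit 9) (nat_lit 10) L236686 (by decide +kernel)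
theorem L236688 : W_1 (nat_lit 4) (nat_lit 0x1e00000001800080000000000000000000000000000000) (nat_lit 0x0) (nat_lit 0x70001001c0000000000000000000000000000000000000000) := T_1 (nat_lit 193) (nat_lit 194) (nat_lit 1) (nat_lit 10) (nat_lit 10) L236687 (by decide +kernel)
theorem L236689 : W_1 (nat_lit 8) (nat_lit 0xe00000001800080000000000000000000000000000000) (nat_lit 0x0) (nat_lit 0x4001ef00f1003c0002000100000000000000000000000000000000) := Q_1 (nat_lit 180) (C_1 L236648 (C_1 L236678 (C_1 L236679 (C_1 L236685 (C_1 L236688 N_1))))) (by decide +kernel)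
theorem L236695 : W_1 (nat_lit 2) (nat_lit 0x40001e00100001800080000000000000000000000000000000) (nat_lit 0x0) (nat_lit 0x80002000200000000000000000000000000000000000000000) := D_1 (nat_lit 181) (nat_lit 199) (nat_lit 165) (nat_lit 3) (nat_lit 8) (nat_lit 10) (nat_lit 2) (nat_lit 8) (nat_lit 10) (by decide +kernel)
theorem L236696 : W_1 (nat_lit 3) (nat_lit 0x40001e00000001800080000000000000000000000000000000) (nat_lit 0x0) (nat_lit 0x80002000380000000000000000000000000000000000000000) := T_1 (nat_lit 164) (nat_lit 163) (nat_lit 2) (nat_lit 7) (nat_lit 10) L236695 (by decide +kernel)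
theorem L236697 : W_1 (nat_lit 4) (nat_lit 0x1e00000001800080000000000000000000000000000000) (nat_lit 0x0) (nat_lit 0xe0002000380000000000000000000000000000000000000000) := T_1 (nat_lit 198) (nat_lit 197) (nat_lit 3) (nat_lit 7) (nat_lit 10) L236696 (by decide +kernel)
theorem L236707 : W_1 (nat_lit 2) (nat_lit 0x4001e00100001800080000000000000000000000000000000) (nat_lit 0x0) (nat_lit 0x8002000200000000000000000000000000000000000000000) := D_1 (nat_lit 181) (nat_lit 195) (nat_lit 165) (nat_lit 1) (nat_lit 11) (nat_lit 10) (nat_lit 2) (nat_lit 8) (nat_lit 10) (by decide +kernel)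
theorem L236708 : W_1 (nat_lit 3) (nat_lit 0x4001e00000001800080000000000000000000000000000000) (nat_lit 0x0) (nat_lit 0x8002000380000000000000000000000000000000000000000) := T_1 (nat_lit 164) (nat_lit 163) (nat_lit 2) (nat_lit 7) (nat_lit 10) L236707 (by decide +kernel)
theorem L236709 : W_1 (nat_lit 4) (nat_lit 0x1e00000001800080000000000000000000000000000000) (nat_lit 0x0) (nat_lit 0xe002000380000000000000000000000000000000000000000) := T_1 (nat_lit 194) (nat_lit 193) (nat_lit 1) (nat_lit 10) (nat_lit 10) L236708 (by decide +kernel)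
theorem L236748 : W_1 (nat_lit 2) (nat_lit 0x2000f00080001800080000000000000000000000000000000) (nat_lit 0x0) (nat_lit 0x4001000100000000000000000000000000000000000000000) := D_1 (nat_lit 180) (nat_lit 194) (nat_lit 164) (nat_lit 1) (nat_lit 10) (nat_lit 10) (nat_lit 2) (nat_lit 7) (nat_lit 10) (by decide +kernel)
theorem L236749 : W_1 (nat_lit 3) (nat_lit 0x2000f00000001800080000000000000000000000000000000) (nat_lit 0x0) (nat_lit 0x40010001c0000000000000000000000000000000000000000) := T_1 (nat_lit 163) (nat_lit 162) (nat_lit 2) (nat_lit 6) (nat_lit 10) L236748 (by decide +kernel)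
theorem L236750 : W_1 (nat_lit 4) (nat_lit 0xf00000001800080000000000000000000000000000000) (nat_lit 0x0) (nat_lit 0x70010001c0000000000000000000000000000000000000000) := T_1 (nat_lit 193) (nat_lit 192) (nat_lit 1) (nat_lit 9) (nat_lit 10) L236749 (by decide +kernel)
theorem L242525 : W_1 (nat_lit 2) (nat_lit 0x8000400038001c0008000c00000000000000000000000) (nat_lit 0x0) (nat_lit 0x20001000080000000000000000000000000000000000000000) := D_1 (nat_lit 180) (nat_lit 163) (nat_lit 197) (nat_lit 7) (nat_lit 9) (nat_lit 6) (nat_lit 7) (nat_lit 9) (nat_lit 7) (by decide +kernel)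
theorem L242526 : W_1 (nat_lit 3) (nat_lit 0x400038001c0008000c00000000000000000000000) (nat_lit 0x0) (nat_lit 0x30001800080000000000000000000000000000000000000000) := T_1 (nat_lit 179) (nat_lit 196) (nat_lit 4) (nat_lit 9) (nat_lit 11) L242525 (by decide +kernel)
theorem L242527 : W_1 (nat_lit 4) (nat_lit 0x38001c0008000c00000000000000000000000) (nat_lit 0x0) (nat_lit 0x300018000c0000000000010000000000000000000000000000) := T_1 (nat_lit 162) (nat_lit 112) (nat_lit 6) (nat_lit 9) (nat_lit 9) L242526 (by decide +kernel)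
theorem L242528 : W_1 (nat_lit 5) (nat_lit 0x38001c0008000400000000000000000000000) (nat_lit 0x0) (nat_lit 0x300018000c0000000000010000800040000000000000000000) := T_1 (nat_lit 95) (nat_lit 78) (nat_lit 6) (nat_lit 9) (nat_lit 8) L242527 (by decide +kernel)
theorem L242529 : W_1 (nat_lit 6) (nat_lit 0x38001c0008000000000000000000000000000) (nat_lit 0x0) (nat_lit 0x300018000c0000000000010000c00060000000000000000000) := T_1 (nat_lit 94) (nat_lit 77) (nat_lit 5) (nat_lit 9) (nat_lit 4) L242528 (by decide +kernel)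
theorem L243409 : W_1 (nat_lit 2) (nat_lit 0x8003c001c000a000000020000000000000000000) (nat_lit 0x0) (nat_lit 0x2000100010000000000000000000000000000000000000000) := D_1 (nat_lit 176) (nat_lit 193) (nat_lit 160) (nat_lit 6) (nat_lit 6) (nat_lit 11) (nat_lit 5) (nat_lit 7) (nat_lit 6) (by decide +kernel)
theorem L243410 : W_1 (nat_lit 3) (nat_lit 0x8003c001c0008000000020000000000000000000) (nat_lit 0x0) (nat_lit 0x2000100010000000000002000100000000000000000000000) := T_1 (nat_lit 109) (nat_lit 92) (nat_lit 5) (nat_lit 7) (nat_lit 5) L243409 (by decide +kernel)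
theorem L243411 : W_1 (nat_lit 4) (nat_lit 0x3c001c0008000000020000000000000000000) (nat_lit 0x0) (nat_lit 0x200010001c000000000002000100000000000000000000000) := T_1 (nat_lit 159) (nat_lit 158) (nat_lit 1) (nat_lit 9) (nat_lit 8) L243410 (by decide +kernel)
theorem L243412 : W_1 (nat_lit 5) (nat_lit 0x38001c0008000000020000000000000000000) (nat_lit 0x0) (nat_lit 0x200010001c000600000002000100000000000000000000000) := T_1 (nat_lit 142) (nat_lit 141) (nat_lit 2) (nat_lit 5) (nat_lit 8) L243411 (by decide +kernel)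
theorem L243413 : W_1 (nat_lit 6) (nat_lit 0x38001c0008000000000000000000000000000) (nat_lit 0x0) (nat_lit 0x200010001c000600000002000500020000000000000000000) := T_1 (nat_lit 77) (nat_lit 94) (nat_lit 5) (nat_lit 9) (nat_lit 4) L243412 (by decide +kernel)
theorem L243414 : W_1 (nat_lit 2) (nat_lit 0x100048003c001c0008000800000000000000000000000) (nat_lit 0x0) (nat_lit 0x10000000000002000100000000000000000000000) := D_1 (nat_lit 109) (nat_lit 160) (nat_lit 92) (nat_lit 5) (nat_lit 7) (nat_lit 6) (nat_lit 5) (nat_lit 7) (nat_lit 5) (by decide +kernel)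
theorem L243415 : W_1 (nat_lit 3) (nat_lit 0x48003c001c0008000800000000000000000000000) (nat_lit 0x0) (nat_lit 0x2000100010000000000002000100000000000000000000000) := T_1 (nat_lit 176) (nat_lit 193) (nat_lit 6) (nat_lit 6) (nat_lit 11) L243414 (by decide +kernel)
theorem L243416 : W_1 (nat_lit 4) (nat_lit 0x48003c001c0008000000000000000000000000000) (nat_lit 0x0) (nat_lit 0x2000100010000000000012000900000000000000000000000) := T_1 (nat_lit 95) (nat_lit 112) (nat_lit 6) (nat_lit 9) (nat_lit 9) L243415 (by decide +kernel)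
theorem L243417 : W_1 (nat_lit 5) (nat_lit 0x40003c001c0008000000000000000000000000000) (nat_lit 0x0) (nat_lit 0x200010001c000000000012000900000000000000000000000) := T_1 (nat_lit 159) (nat_lit 158) (nat_lit 1) (nat_lit 9) (nat_lit 8) L243416 (by decide +kernel)
theorem L243418 : W_1 (nat_lit 6) (nat_lit 0x3c001c0008000000000000000000000000000) (nat_lit 0x0) (nat_lit 0x20001000dc000000000012000900000000000000000000000) := T_1 (nat_lit 162) (nat_lit 163) (nat_lit 3) (nat_lit 6) (nat_lit 8) L243417 (by decide +kernel)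
theorem L243419 : W_1 (nat_lit 7) (nat_lit 0x38001c0008000000000000000000000000000) (nat_lit 0x0) (nat_lit 0x20001000dc000600000012000900000000000000000000000) := T_1 (nat_lit 142) (nat_lit 141) (nat_lit 2) (nat_lit 5) (nat_lit 8) L243418 (by decide +kernel)
theorem L243420 : W_1 (nat_lit 8) (nat_lit 0x18001c0008000000000000000000000000000) (nat_lit 0x0) (nat_lit 0x320019000dc002600000012000d00060000000000000000000) := Q_1 (nat_lit 145) (C_1 L242529 (C_1 L243413 (C_1 L243419 N_1))) (by decide +kernel)
theorem L247273 : W_1 (nat_lit 4) (nat_lit 0x1a001e0000000000000000000000000000000) (nat_lit 0x0) (nat_lit 0x200010000000000003800080004000000000000000000) := T_1 (nat_lit 108) (nat_lit 107) (nat_lit 0) (nat_lit 9) (nat_lit 7) L22950 (by decide +kernel)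
theorem L248998 : W_1 (nat_lit 2) (nat_lit 0x1a001e0000000000000000000000000000000) (nat_lit 0x0) (nat_lit 0x100018000000000000000000000000000000) := D_1 (nat_lit 124) (nat_lit 140) (nat_lit 123) (nat_lit 1) (nat_lit 8) (nat_lit 7) (nat_lit 3) (nat_lit 4) (nat_lit 7) (by decide +kernel)
theorem L249025 : W_1 (nat_lit 5) (nat_lit 0x1a001a0000000000000000000000000000000) (nat_lit 0x0) (nat_lit 0x200010000100058003800080004000000000000000000) := Q_1 (nat_lit 126) (C_1 L248998 (C_1 L247273 N_1)) (by decide +kernel)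
theorem L249026 : W_1 (nat_lit 2) (nat_lit 0x10001a001e0009000000020000000000000000000) (nat_lit 0x0) (nat_lit 0x2000080004000000000000000000) := D_1 (nat_lit 91) (nat_lit 109) (nat_lit 74) (nat_lit 4) (nat_lit 7) (nat_lit 9) (nat_lit 7) (nat_lit 6) (nat_lit 4) (by decide +kernel)
theorem L249027 : W_1 (nat_lit 3) (nat_lit 0x1a001e0009000000020000000000000000000) (nat_lit 0x0) (nat_lit 0x200010000000000002000080004000000000000000000) := T_1 (nat_lit 160) (nat_lit 177) (nat_lit 4) (nat_lit 7) (nat_lit 10) L249026 (by decide +kernel)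
theorem L249028 : W_1 (nat_lit 4) (nat_lit 0x1a001e0008000000020000000000000000000) (nat_lit 0x0) (nat_lit 0x200010000000000003800080004000000000000000000) := T_1 (nat_lit 108) (nat_lit 107) (nat_lit 0) (nat_lit 9) (nat_lit 7) L249027 (by decide +kernel)
theorem L249029 : W_1 (nat_lit 5) (nat_lit 0x1a001c0008000000020000000000000000000) (nat_lit 0x0) (nat_lit 0x200010000000020013800080004000000000000000000) := T_1 (nat_lit 125) (nat_lit 112) (nat_lit 2) (nat_lit 6) (nat_lit 7) L249028 (by decide +kernel)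
theorem L254595 : W_1 (nat_lit 2) (nat_lit 0x800008003c001a00010000c0000000000000000000000) (nat_lit 0x0) (nat_lit 0x2000100008000000000000000000) := D_1 (nat_lit 92) (nat_lit 109) (nat_lit 75) (nat_lit 6) (nat_lit 6) (nat_lit 9) (nat_lit 6) (nat_lit 6) (nat_lit 8) (by decide +kernel)
theorem L254596 : W_1 (nat_lit 3) (nat_lit 0x800008003c001a0001000040000000000000000000000) (nat_lit 0x0) (nat_lit 0x200018000a000000000000000000) := T_1 (nat_lit 91) (nat_lit 73) (nat_lit 4) (nat_lit 6) (nat_lit 8) L254595 (by decide +kernel)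
theorem L254597 : W_1 (nat_lit 4) (nat_lit 0x800008003c001a0001000000000000000000000000000) (nat_lit 0x0) (nat_lit 0x28001c000a000000000000000000) := T_1 (nat_lit 90) (nat_lit 107) (nat_lit 4) (nat_lit 6) (nat_lit 9) L254596 (by decide +kernel)
theorem L255137 : W_1 (nat_lit 2) (nat_lit 0x1a00180018000700000000000000000000000) (nat_lit 0x0) (nat_lit 0x60000800000000000000000000000) := D_1 (nat_lit 113) (nat_lit 114) (nat_lit 95) (nat_lit 1) (nat_lit 12) (nat_lit 6) (nat_lit 3) (nat_lit 7) (nat_lit 5) (by decide +kernel)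
theorem L255138 : W_1 (nat_lit 3) (nat_lit 0x1a00180008000700000000000000000000000) (nat_lit 0x0) (nat_lit 0x70000880000000000000000000000) := T_1 (nat_lit 112) (nat_lit 91) (nat_lit 3) (nat_lit 6) (nat_lit 5) L255137 (by decide +kernel)
theorem L255139 : W_1 (nat_lit 4) (nat_lit 0x1800180008000700000000000000000000000) (nat_lit 0x0) (nat_lit 0x600000070000880000000000000000000000) := T_1 (nat_lit 141) (nat_lit 142) (nat_lit 2) (nat_lit 5) (nat_lit 8) L255138 (by decide +kernel)
theorem L255539 : W_1 (nat_lit 2) (nat_lit 0x1000180010000f80000000000000000000000) (nat_lit 0x0) (nat_lit 0x3800000000000000000000000000) := D_1 (nat_lit 108) (nat_lit 107) (nat_lit 109) (nat_lit 1) (nat_lit 9) (nat_lit 5) (nat_lit 1) (nat_lit 10) (nat_lit 5) (by decide +kernel)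
theorem L255540 : W_1 (nat_lit 3) (nat_lit 0x1000180010000f00000000000000000000000) (nat_lit 0x0) (nat_lit 0xb800080000000000000000000000) := T_1 (nat_lit 91) (nat_lit 111) (nat_lit 3) (nat_lit 6) (nat_lit 5) L255539 (by decide +kernel)
theorem L255541 : W_1 (nat_lit 4) (nat_lit 0x1000180000000f00000000000000000000000) (nat_lit 0x0) (nat_lit 0x3b800080000000000000000000000) := T_1 (nat_lit 112) (nat_lit 113) (nat_lit 3) (nat_lit 7) (nat_lit 5) L255540 (by decide +kernel)
theorem L255675 : W_1 (nat_lit 2) (nat_lit 0x10001800000007c0002000000000000000000) (nat_lit 0x0) (nat_lit 0x1c00000000000000000000000000) := D_1 (nat_lit 107) (nat_lit 108) (nat_lit 106) (nat_lit 1) (nat_lit 9) (nat_lit 5) (nat_lit 1) (nat_lit 8) (nat_lit 5) (by decide +kernel)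
theorem L255676 : W_1 (nat_lit 3) (nat_lit 0x1000180000000780002000000000000000000) (nat_lit 0x0) (nat_lit 0x1c00040001000000000000000000) := T_1 (nat_lit 90) (nat_lit 72) (nat_lit 0) (nat_lit 8) (nat_lit 5) L255675 (by decide +kernel)
theorem L255677 : W_1 (nat_lit 4) (nat_lit 0x1000180000000780000000000000000000000) (nat_lit 0x0) (nat_lit 0x1c00040007000000000000000000) := T_1 (nat_lit 73) (nat_lit 74) (nat_lit 0) (nat_lit 9) (nat_lit 5) L255676 (by decide +kernel)
theorem L255679 : W_1 (nat_lit 2) (nat_lit 0x1000380010000f00044000000000000000000) (nat_lit 0x0) (nat_lit 0x8800400000000000000000000000000000000) := D_1 (nat_lit 130) (nat_lit 143) (nat_lit 147) (nat_lit 1) (nat_lit 11) (nat_lit 7) (nat_lit 7) (nat_lit 10) (nat_lit 4) (by decide +kernel)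
theorem L255680 : W_1 (nat_lit 3) (nat_lit 0x1000180010000f00044000000000000000000) (nat_lit 0x0) (nat_lit 0xa800600000000000000000000000000000000) := T_1 (nat_lit 129) (nat_lit 145) (nat_lit 5) (nat_lit 10) (nat_lit 4) L255679 (by decide +kernel)
theorem L255681 : W_1 (nat_lit 4) (nat_lit 0x1000180010000f00004000000000000000000) (nat_lit 0x0) (nat_lit 0xa8006000000000000c0000000000000000000) := T_1 (nat_lit 78) (nat_lit 79) (nat_lit 2) (nat_lit 7) (nat_lit 5) L255680 (by decide +kernel)
theorem L255682 : W_1 (nat_lit 5) (nat_lit 0x1000180000000f00004000000000000000000) (nat_lit 0x0) (nat_lit 0xa8006000300000000c0000000000000000000) := T_1 (nat_lit 112) (nat_lit 113) (nat_lit 3) (nat_lit 7) (nat_lit 5) L255681 (by decide +kernel)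
theorem L255683 : W_1 (nat_lit 6) (nat_lit 0x1000180000000f00000000000000000000000) (nat_lit 0x0) (nat_lit 0xa8006000300000000cc000000000000000000) := T_1 (nat_lit 74) (nat_lit 75) (nat_lit 0) (nat_lit 10) (nat_lit 5) L255682 (by decide +kernel)
theorem L255758 : W_1 (nat_lit 2) (nat_lit 0x1800380000000700000000000000000000000) (nat_lit 0x0) (nat_lit 0x2600000000000000000000000000000000000) := D_1 (nat_lit 142) (nat_lit 141) (nat_lit 145) (nat_lit 2) (nat_lit 5) (nat_lit 8) (nat_lit 2) (nat_lit 6) (nat_lit 8) (by decide +kernel)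
theorem L255759 : W_1 (nat_lit 3) (nat_lit 0x1800180000000700000000000000000000000) (nat_lit 0x0) (nat_lit 0x2600600000000000000000000000000000000) := T_1 (nat_lit 129) (nat_lit 130) (nat_lit 1) (nat_lit 11) (nat_lit 7) L255758 (by decide +kernel)
theorem L256835 : W_1 (nat_lit 2) (nat_lit 0x1000180010000f00040000000000000000000) (nat_lit 0x0) (nat_lit 0x8000000020002000000000000000) := D_1 (nat_lit 111) (nat_lit 77) (nat_lit 61) (nat_lit 5) (nat_lit 9) (nat_lit 4) (nat_lit 5) (nat_lit 10) (nat_lit 3) (by decide +kernel)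
theorem L256836 : W_1 (nat_lit 3) (nat_lit 0x1000180010000f00000000000000000000000) (nat_lit 0x0) (nat_lit 0x80000000e0002000000000000000) := T_1 (nat_lit 78) (nat_lit 79) (nat_lit 2) (nat_lit 7) (nat_lit 5) L256835 (by decide +kernel)
theorem L256837 : W_1 (nat_lit 4) (nat_lit 0x1000180000000f00000000000000000000000) (nat_lit 0x0) (nat_lit 0x380000000e0002000000000000000) := T_1 (nat_lit 112) (nat_lit 113) (nat_lit 3) (nat_lit 7) (nat_lit 5) L256836 (by decide +kernel)
theorem L257021 : W_1 (nat_lit 2) (nat_lit 0x1000080010000f00064000000000000000000) (nat_lit 0x0) (nat_lit 0x200000000000000001000080000000000) := D_1 (nat_lit 60) (nat_lit 129) (nat_lit 43) (nat_lit 4) (nat_lit 10) (nat_lit 7) (nat_lit 7) (nat_lit 9) (nat_lit 2) (by decide +kernel)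
theorem L257022 : W_1 (nat_lit 3) (nat_lit 0x1000080010000f00024000000000000000000) (nat_lit 0x0) (nat_lit 0x2000000000000c0001000080000000000) := T_1 (nat_lit 78) (nat_lit 79) (nat_lit 2) (nat_lit 7) (nat_lit 5) L257021 (by decide +kernel)
theorem L257023 : W_1 (nat_lit 4) (nat_lit 0x1000080000000f00024000000000000000000) (nat_lit 0x0) (nat_lit 0x2000300000000c0001000080000000000) := T_1 (nat_lit 112) (nat_lit 113) (nat_lit 3) (nat_lit 7) (nat_lit 5) L257022 (by decide +kernel)
theorem L257024 : W_1 (nat_lit 5) (nat_lit 0x1000080000000f00020000000000000000000) (nat_lit 0x0) (nat_lit 0x2000300000000cc001000080000000000) := T_1 (nat_lit 74) (nat_lit 75) (nat_lit 0) (nat_lit 10) (nat_lit 5) L257023 (by decide +kernel)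
theorem L257025 : W_1 (nat_lit 2) (nat_lit 0x1000080009000f00078002400040000000000) (nat_lit 0x0) (nat_lit 0x20003000000) := D_1 (nat_lit 41) (nat_lit 25) (nat_lit 24) (nat_lit 6) (nat_lit 7) (nat_lit 5) (nat_lit 7) (nat_lit 7) (nat_lit 1) (by decide +kernel)
theorem L257026 : W_1 (nat_lit 3) (nat_lit 0x1000080009000f00078002400000000000000) (nat_lit 0x0) (nat_lit 0x800060003000000) := T_1 (nat_lit 42) (nat_lit 59) (nat_lit 7) (nat_lit 8) (nat_lit 2) L257025 (by decide +kernel)
theorem L257027 : W_1 (nat_lit 4) (nat_lit 0x1000080009000f00078002000000000000000) (nat_lit 0x0) (nat_lit 0xe00060003000000) := T_1 (nat_lit 58) (nat_lit 57) (nat_lit 0) (nat_lit 10) (nat_lit 4) L257026 (by decide +kernel)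
theorem L257028 : W_1 (nat_lit 5) (nat_lit 0x1000080009000f00068002000000000000000) (nat_lit 0x0) (nat_lit 0x10004e00060003000000) := T_1 (nat_lit 76) (nat_lit 62) (nat_lit 2) (nat_lit 7) (nat_lit 4) L257027 (by decide +kernel)
theorem L257029 : W_1 (nat_lit 6) (nat_lit 0x1000080008000f00068002000000000000000) (nat_lit 0x0) (nat_lit 0x3000000010004e00060003000000) := T_1 (nat_lit 108) (nat_lit 109) (nat_lit 1) (nat_lit 10) (nat_lit 5) L257028 (by decide +kernel)
theorem L257030 : W_1 (nat_lit 7) (nat_lit 0x1000080008000f00068000000000000000000) (nat_lit 0x0) (nat_lit 0x3000000010006e00160003000000) := T_1 (nat_lit 61) (nat_lit 44) (nat_lit 5) (nat_lit 10) (nat_lit 2) L257029 (by decide +kernel)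
theorem L257031 : W_1 (nat_lit 8) (nat_lit 0x1000080000000f00068000000000000000000) (nat_lit 0x0) (nat_lit 0x10000b000000010006e00160003000000) := T_1 (nat_lit 111) (nat_lit 128) (nat_lit 5) (nat_lit 9) (nat_lit 4) L257030 (by decide +kernel)
theorem L257032 : W_1 (nat_lit 9) (nat_lit 0x1000080000000f00060000000000000000000) (nat_lit 0x0) (nat_lit 0x10000b00000001c006e00160003000000) := T_1 (nat_lit 75) (nat_lit 74) (nat_lit 0) (nat_lit 10) (nat_lit 5) L257031 (by decide +kernel)
theorem L257033 : W_1 (nat_lit 10) (nat_lit 0x1000080000000f00020000000000000000000) (nat_lit 0x0) (nat_lit 0x10000b0000000dc006e00160003000000) := T_1 (nat_lit 78) (nat_lit 79) (nat_lit 2) (nat_lit 7) (nat_lit 5) L257032 (by decide +kernel)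
theorem L257034 : W_1 (nat_lit 11) (nat_lit 0x1000080000000f00000000000000000000000) (nat_lit 0x0) (nat_lit 0x30003b0000000fc007e001e0003000000) := Q_1 (nat_lit 77) (C_1 L32168 (C_1 L257024 (C_1 L257033 N_1))) (by decide +kernel)
theorem L257035 : W_1 (nat_lit 2) (nat_lit 0x1000080000000f00088000000000000000000) (nat_lit 0x0) (nat_lit 0x1000110000000000000000000) := D_1 (nat_lit 96) (nat_lit 80) (nat_lit 76) (nat_lit 2) (nat_lit 8) (nat_lit 5) (nat_lit 0) (nat_lit 11) (nat_lit 5) (by decide +kernel)
theorem L257036 : W_1 (nat_lit 3) (nat_lit 0x1000080000000f00080000000000000000000) (nat_lit 0x0) (nat_lit 0x100011c000000000000000000) := T_1 (nat_lit 75) (nat_lit 74) (nat_lit 0) (nat_lit 10) (nat_lit 5) L257035 (by decide +kernel)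
theorem L257037 : W_1 (nat_lit 4) (nat_lit 0x1000080000000f00000000000000000000000) (nat_lit 0x0) (nat_lit 0x10001dc000000000000000000) := T_1 (nat_lit 79) (nat_lit 78) (nat_lit 2) (nat_lit 7) (nat_lit 5) L257036 (by decide +kernel)
theorem L257038 : W_1 (nat_lit 2) (nat_lit 0x1000080011007f00108000000000000000000) (nat_lit 0x0) (nat_lit 0x1c0000000000000000000000000000) := D_1 (nat_lit 115) (nat_lit 114) (nat_lit 116) (nat_lit 3) (nat_lit 9) (nat_lit 5) (nat_lit 3) (nat_lit 10) (nat_lit 5) (by decide +kernel)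
theorem L257039 : W_1 (nat_lit 3) (nat_lit 0x1000080011003f00108000000000000000000) (nat_lit 0x0) (nat_lit 0x1c8004000000000000000000000000) := T_1 (nat_lit 98) (nat_lit 111) (nat_lit 1) (nat_lit 13) (nat_lit 5) L257038 (by decide +kernel)
theorem L257040 : W_1 (nat_lit 4) (nat_lit 0x1000080011001f00108000000000000000000) (nat_lit 0x0) (nat_lit 0x1c8006000200000000000000000000) := T_1 (nat_lit 97) (nat_lit 81) (nat_lit 2) (nat_lit 9) (nat_lit 5) L257039 (by decide +kernel)
theorem L257041 : W_1 (nat_lit 5) (nat_lit 0x1000080011001f00008000000000000000000) (nat_lit 0x0) (nat_lit 0x1c8006000380000000000000000000) := T_1 (nat_lit 80) (nat_lit 79) (nat_lit 2) (nat_lit 8) (nat_lit 5) L257040 (by decide +kernel)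
theorem L257042 : W_1 (nat_lit 6) (nat_lit 0x1000080011000f00008000000000000000000) (nat_lit 0x0) (nat_lit 0x1c8007000390000000000000000000) := T_1 (nat_lit 96) (nat_lit 76) (nat_lit 0) (nat_lit 11) (nat_lit 5) L257041 (by decide +kernel)
theorem L257043 : W_1 (nat_lit 7) (nat_lit 0x1000080010000f00008000000000000000000) (nat_lit 0x0) (nat_lit 0x1cb007000390000000000000000000) := T_1 (nat_lit 108) (nat_lit 109) (nat_lit 1) (nat_lit 10) (nat_lit 5) L257042 (by decide +kernel)
theorem L257044 : W_1 (nat_lit 8) (nat_lit 0x1000080010000f00000000000000000000000) (nat_lit 0x0) (nat_lit 0x1cb00700039c000000000000000000) := T_1 (nat_lit 75) (nat_lit 74) (nat_lit 0) (nat_lit 10) (nat_lit 5) L257043 (by decide +kernel)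
theorem L257045 : W_1 (nat_lit 9) (nat_lit 0x1000080000000f00000000000000000000000) (nat_lit 0x0) (nat_lit 0x1fb00700039c000000000000000000) := T_1 (nat_lit 112) (nat_lit 113) (nat_lit 3) (nat_lit 7) (nat_lit 5) L257044 (by decide +kernel)
theorem L257046 : W_1 (nat_lit 2) (nat_lit 0x1000080020000f00008000000000000000000) (nat_lit 0x0) (nat_lit 0x40001000010000000000000000000) := D_1 (nat_lit 96) (nat_lit 76) (nat_lit 114) (nat_lit 0) (nat_lit 11) (nat_lit 5) (nat_lit 3) (nat_lit 8) (nat_lit 5) (by decide +kernel)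
theorem L257047 : W_1 (nat_lit 3) (nat_lit 0x1000080000000f00008000000000000000000) (nat_lit 0x0) (nat_lit 0x70001000010000000000000000000) := T_1 (nat_lit 113) (nat_lit 112) (nat_lit 3) (nat_lit 7) (nat_lit 5) L257046 (by decide +kernel)
theorem L257048 : W_1 (nat_lit 4) (nat_lit 0x1000080000000f00000000000000000000000) (nat_lit 0x0) (nat_lit 0x7000100001c000000000000000000) := T_1 (nat_lit 75) (nat_lit 74) (nat_lit 0) (nat_lit 10) (nat_lit 5) L257047 (by decide +kernel)
theorem L257049 : W_1 (nat_lit 12) (nat_lit 0x1000080000000700000000000000000000000) (nat_lit 0x0) (nat_lit 0x3001fb0078007fc007e001e0003000000) := Q_1 (nat_lit 95) (C_1 L257034 (C_1 L23667 (C_1 L23664 (C_1 L257037 (C_1 L257045 (C_1 L257048 N_1)))))) (by decide +kernel)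
theorem L257050 : W_1 (nat_lit 6) (nat_lit 0x1000080000000700000000000000000000000) (nat_lit 0x0) (nat_lit 0x100039c008c003f000000000000000000) := Q_1 (nat_lit 91) (C_1 L32068 (C_1 L23633 (C_1 L32012 N_1))) (by decide +kernel)
theorem L257052 : W_1 (nat_lit 11) (nat_lit 0x1000080000000300000000000000000000000) (nat_lit 0x0) (nat_lit 0x1400fbc07cc07ff000800040000000000) := Q_1 (nat_lit 94) (C_1 L31985 (C_1 L257050 (C_1 L23608 (C_1 L23652 (C_1 L31993 (C_1 L31986 (C_1 L31982 N_1))))))) (by decide +kernel)
theorem L257073 : W_1 (nat_lit 2) (nat_lit 0x100008000000032001e0009000e0000000000) (nat_lit 0x0) (nat_lit 0x600010000000000) := D_1 (nat_lit 57) (nat_lit 58) (nat_lit 40) (nat_lit 2) (nat_lit 5) (nat_lit 3) (nat_lit 1) (nat_lit 9) (nat_lit 2) (by decide +kernel)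
theorem L257074 : W_1 (nat_lit 3) (nat_lit 0x100008000000032001e0009000c0000000000) (nat_lit 0x0) (nat_lit 0x600030001000000) := T_1 (nat_lit 41) (nat_lit 24) (nat_lit 4) (nat_lit 8) (nat_lit 5) L257073 (by decide +kernel)
theorem L257075 : W_1 (nat_lit 4) (nat_lit 0x100008000000032001e000900040000000000) (nat_lit 0x0) (nat_lit 0x6000b0005000000) := T_1 (nat_lit 43) (nat_lit 26) (nat_lit 6) (nat_lit 8) (nat_lit 5) L257074 (by decide +kernel)
theorem L257076 : W_1 (nat_lit 5) (nat_lit 0x100008000000032001e000800040000000000) (nat_lit 0x0) (nat_lit 0x7800b0005000000) := T_1 (nat_lit 56) (nat_lit 55) (nat_lit 0) (nat_lit 8) (nat_lit 4) L257075 (by decide +kernel)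
theorem L257077 : W_1 (nat_lit 6) (nat_lit 0x100008000000032001e000800000000000000) (nat_lit 0x0) (nat_lit 0x7800f0007000000) := T_1 (nat_lit 42) (nat_lit 25) (nat_lit 5) (nat_lit 8) (nat_lit 1) L257076 (by decide +kernel)
theorem L257078 : W_1 (nat_lit 7) (nat_lit 0x100008000000030001e000800000000000000) (nat_lit 0x0) (nat_lit 0x600000007800f0007000000) := T_1 (nat_lit 89) (nat_lit 90) (nat_lit 1) (nat_lit 8) (nat_lit 4) L257077 (by decide +kernel)
theorem L257079 : W_1 (nat_lit 8) (nat_lit 0x100008000000030001e000000000000000000) (nat_lit 0x0) (nat_lit 0x60000001f800f0007000000) := T_1 (nat_lit 59) (nat_lit 60) (nat_lit 2) (nat_lit 5) (nat_lit 4) L257078 (by decide +kernel)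
theorem L257080 : W_1 (nat_lit 9) (nat_lit 0x100008000000030001c000000000000000000) (nat_lit 0x0) (nat_lit 0x60003001f800f0007000000) := T_1 (nat_lit 73) (nat_lit 72) (nat_lit 3) (nat_lit 4) (nat_lit 4) L257079 (by decide +kernel)
theorem L257081 : W_1 (nat_lit 2) (nat_lit 0x100008000000032003e000100000000000000) (nat_lit 0x0) (nat_lit 0x800c0000000000000000000) := D_1 (nat_lit 78) (nat_lit 91) (nat_lit 79) (nat_lit 1) (nat_lit 10) (nat_lit 4) (nat_lit 1) (nat_lit 11) (nat_lit 4) (by decide +kernel)
theorem L257082 : W_1 (nat_lit 3) (nat_lit 0x100008000000032001e000100000000000000) (nat_lit 0x0) (nat_lit 0x800e0000200000000000000) := T_1 (nat_lit 77) (nat_lit 57) (nat_lit 0) (nat_lit 9) (nat_lit 4) L257081 (by decide +kernel)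
theorem L257083 : W_1 (nat_lit 4) (nat_lit 0x100008000000032001e000000000000000000) (nat_lit 0x0) (nat_lit 0x800e0000380000000000000) := T_1 (nat_lit 56) (nat_lit 55) (nat_lit 0) (nat_lit 8) (nat_lit 4) L257082 (by decide +kernel)
theorem L257084 : W_1 (nat_lit 5) (nat_lit 0x100008000000030001e000000000000000000) (nat_lit 0x0) (nat_lit 0xe00e0000380000000000000) := T_1 (nat_lit 89) (nat_lit 90) (nat_lit 1) (nat_lit 8) (nat_lit 4) L257083 (by decide +kernel)
theorem L257085 : W_1 (nat_lit 6) (nat_lit 0x100008000000030001c000000000000000000) (nat_lit 0x0) (nat_lit 0xe00e3000380000000000000) := T_1 (nat_lit 73) (nat_lit 72) (nat_lit 3) (nat_lit 4) (nat_lit 4) L257084 (by decide +kernel)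
theorem L257086 : W_1 (nat_lit 2) (nat_lit 0x1000080009000780038000400040000000000) (nat_lit 0x0) (nat_lit 0x400020000000000004000000000000000000) := D_1 (nat_lit 125) (nat_lit 142) (nat_lit 74) (nat_lit 6) (nat_lit 6) (nat_lit 8) (nat_lit 6) (nat_lit 6) (nat_lit 7) (by decide +kernel)
theorem L257087 : W_1 (nat_lit 3) (nat_lit 0x1000080009000780038000000040000000000) (nat_lit 0x0) (nat_lit 0x400020000000000004000400020000000000) := T_1 (nat_lit 58) (nat_lit 41) (nat_lit 5) (nat_lit 7) (nat_lit 2) L257086 (by decide +kernel)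
theorem L257088 : W_1 (nat_lit 4) (nat_lit 0x1000080008000780038000000040000000000) (nat_lit 0x0) (nat_lit 0x400020001800000004000400020000000000) := T_1 (nat_lit 108) (nat_lit 107) (nat_lit 1) (nat_lit 9) (nat_lit 5) L257087 (by decide +kernel)
theorem L257089 : W_1 (nat_lit 5) (nat_lit 0x1000080008000780038000000000000000000) (nat_lit 0x0) (nat_lit 0x400020001800000004000c00060000000000) := T_1 (nat_lit 42) (nat_lit 59) (nat_lit 7) (nat_lit 8) (nat_lit 2) L257088 (by decide +kernel)
theorem L257093 : W_1 (nat_lit 2) (nat_lit 0x10000800008007c0008000000000000000000) (nat_lit 0x0) (nat_lit 0x7000000000000000000) := D_1 (nat_lit 73) (nat_lit 72) (nat_lit 74) (nat_lit 0) (nat_lit 8) (nat_lit 5) (nat_lit 0) (nat_lit 9) (nat_lit 5) (by decide +kernel)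
theorem L257094 : W_1 (nat_lit 3) (nat_lit 0x1000080000800780008000000000000000000) (nat_lit 0x0) (nat_lit 0x400040007000000000000000000) := T_1 (nat_lit 90) (nat_lit 106) (nat_lit 1) (nat_lit 8) (nat_lit 5) L257093 (by decide +kernel)
theorem L257095 : W_1 (nat_lit 4) (nat_lit 0x1000080000000780008000000000000000000) (nat_lit 0x0) (nat_lit 0x1c00040007000000000000000000) := T_1 (nat_lit 107) (nat_lit 108) (nat_lit 1) (nat_lit 9) (nat_lit 5) L257094 (by decide +kernel)
theorem L257099 : W_1 (nat_lit 2) (nat_lit 0x100008000900078000c000000000000000000) (nat_lit 0x0) (nat_lit 0x400020000000000000000400000000000000) := D_1 (nat_lit 125) (nat_lit 142) (nat_lit 58) (nat_lit 6) (nat_lit 6) (nat_lit 8) (nat_lit 6) (nat_lit 6) (nat_lit 7) (by decide +kernel)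
theorem L257100 : W_1 (nat_lit 3) (nat_lit 0x1000080009000780008000000000000000000) (nat_lit 0x0) (nat_lit 0x400020000000000006000400000000000000) := T_1 (nat_lit 74) (nat_lit 73) (nat_lit 0) (nat_lit 9) (nat_lit 5) L257099 (by decide +kernel)
theorem L257101 : W_1 (nat_lit 4) (nat_lit 0x1000080008000780008000000000000000000) (nat_lit 0x0) (nat_lit 0x400020001800000006000400000000000000) := T_1 (nat_lit 108) (nat_lit 107) (nat_lit 1) (nat_lit 9) (nat_lit 5) L257100 (by decide +kernel)
theorem L257102 : W_1 (nat_lit 5) (nat_lit 0x1000080000000780008000000000000000000) (nat_lit 0x0) (nat_lit 0x400020019800000006000400000000000000) := T_1 (nat_lit 111) (nat_lit 112) (nat_lit 3) (nat_lit 6) (nat_lit 5) L257101 (by decide +kernel)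
theorem L257107 : W_1 (nat_lit 2) (nat_lit 0x10000800084007e0028000000000000000000) (nat_lit 0x0) (nat_lit 0x3800000000000000000) := D_1 (nat_lit 72) (nat_lit 71) (nat_lit 73) (nat_lit 0) (nat_lit 7) (nat_lit 5) (nat_lit 0) (nat_lit 8) (nat_lit 5) (by decide +kernel)
theorem L257108 : W_1 (nat_lit 3) (nat_lit 0x10000800084007c0028000000000000000000) (nat_lit 0x0) (nat_lit 0x200020003800000000000000000) := T_1 (nat_lit 89) (nat_lit 105) (nat_lit 1) (nat_lit 7) (nat_lit 5) L257107 (by decide +kernel)
theorem L257109 : W_1 (nat_lit 4) (nat_lit 0x10000800080007c0028000000000000000000) (nat_lit 0x0) (nat_lit 0xe00020003800000000000000000) := T_1 (nat_lit 106) (nat_lit 107) (nat_lit 1) (nat_lit 8) (nat_lit 5) L257108 (by decide +kernel)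
theorem L257110 : W_1 (nat_lit 5) (nat_lit 0x1000080008000780028000000000000000000) (nat_lit 0x0) (nat_lit 0xe00060013800000000000000000) := T_1 (nat_lit 90) (nat_lit 76) (nat_lit 2) (nat_lit 5) (nat_lit 5) L257109 (by decide +kernel)
theorem L257128 : W_1 (nat_lit 4) (nat_lit 0x1000080000000700008000000000000000000) (nat_lit 0x0) (nat_lit 0x70001800014000000000000000000) := T_1 (nat_lit 95) (nat_lit 74) (nat_lit 0) (nat_lit 10) (nat_lit 5) L257047 (by decide +kernel)
theorem L257130 : W_1 (nat_lit 2) (nat_lit 0x100008000200030000c000200000000000000) (nat_lit 0x0) (nat_lit 0x80000000000010000800000) := D_1 (nat_lit 40) (nat_lit 91) (nat_lit 23) (nat_lit 7) (nat_lit 6) (nat_lit 2) (nat_lit 7) (nat_lit 6) (nat_lit 1) (by decide +kernel)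
theorem L257131 : W_1 (nat_lit 3) (nat_lit 0x100008000000030000c000200000000000000) (nat_lit 0x0) (nat_lit 0x40002000080000000000010000800000) := T_1 (nat_lit 109) (nat_lit 126) (nat_lit 7) (nat_lit 7) (nat_lit 4) L257130 (by decide +kernel)
theorem L257148 : W_1 (nat_lit 2) (nat_lit 0x100008000000030000e001800000000000000) (nat_lit 0x0) (nat_lit 0x2600000000000000) := D_1 (nat_lit 58) (nat_lit 61) (nat_lit 57) (nat_lit 1) (nat_lit 10) (nat_lit 3) (nat_lit 1) (nat_lit 9) (nat_lit 3) (by decide +kernel)
theorem L257149 : W_1 (nat_lit 3) (nat_lit 0x100008000000030000e000800000000000000) (nat_lit 0x0) (nat_lit 0x10003600000000000000) := T_1 (nat_lit 60) (nat_lit 76) (nat_lit 2) (nat_lit 5) (nat_lit 4) L257148 (by decide +kernel)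
theorem L257150 : W_1 (nat_lit 4) (nat_lit 0x100008000000030000c000800000000000000) (nat_lit 0x0) (nat_lit 0x13003600000000000000) := T_1 (nat_lit 73) (nat_lit 72) (nat_lit 3) (nat_lit 4) (nat_lit 4) L257149 (by decide +kernel)
theorem L257151 : W_1 (nat_lit 2) (nat_lit 0x100008000200030001c000800000000000000) (nat_lit 0x0) (nat_lit 0x3001000000000000000) := D_1 (nat_lit 73) (nat_lit 72) (nat_lit 60) (nat_lit 3) (nat_lit 4) (nat_lit 4) (nat_lit 2) (nat_lit 5) (nat_lit 4) (by decide +kernel)
theorem L257152 : W_1 (nat_lit 3) (nat_lit 0x100008000200030000c000800000000000000) (nat_lit 0x0) (nat_lit 0x13001000040000000000) := T_1 (nat_lit 76) (nat_lit 42) (nat_lit 5) (nat_lit 8) (nat_lit 2) L257151 (by decide +kernel)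
theorem L257153 : W_1 (nat_lit 4) (nat_lit 0x100008000000030000c000800000000000000) (nat_lit 0x0) (nat_lit 0x40002000000013001000040000000000) := T_1 (nat_lit 109) (nat_lit 126) (nat_lit 7) (nat_lit 7) (nat_lit 4) L257152 (by decide +kernel)
theorem L257154 : W_1 (nat_lit 7) (nat_lit 0x100008000000030000c000000000000000000) (nat_lit 0x0) (nat_lit 0x60003000080013003e00070000800000) := Q_1 (nat_lit 59) (C_1 L257150 (C_1 L29450 (C_1 L257153 N_1))) (by decide +kernel)
theorem L257155 : W_1 (nat_lit 2) (nat_lit 0x10000800008007c000c000000000000000000) (nat_lit 0x0) (nat_lit 0x20030000000000000000000) := D_1 (nat_lit 76) (nat_lit 77) (nat_lit 89) (nat_lit 2) (nat_lit 5) (nat_lit 5) (nat_lit 2) (nat_lit 4) (nat_lit 5) (by decide +kernel)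
theorem L257156 : W_1 (nat_lit 3) (nat_lit 0x100008000080078000c000000000000000000) (nat_lit 0x0) (nat_lit 0x400060030000000000000000000) := T_1 (nat_lit 90) (nat_lit 106) (nat_lit 1) (nat_lit 8) (nat_lit 5) L257155 (by decide +kernel)
theorem L257157 : W_1 (nat_lit 4) (nat_lit 0x100008000000078000c000000000000000000) (nat_lit 0x0) (nat_lit 0x1c00060030000000000000000000) := T_1 (nat_lit 107) (nat_lit 108) (nat_lit 1) (nat_lit 9) (nat_lit 5) L257156 (by decide +kernel)
theorem L257158 : W_1 (nat_lit 5) (nat_lit 0x100008000000038000c000000000000000000) (nat_lit 0x0) (nat_lit 0x1c00c60030000000000000000000) := T_1 (nat_lit 94) (nat_lit 95) (nat_lit 0) (nat_lit 10) (nat_lit 5) L257157 (by decide +kernel)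
theorem L257167 : W_1 (nat_lit 2) (nat_lit 0x100008000000070006c000000000000000000) (nat_lit 0x0) (nat_lit 0x190000000000000000000) := D_1 (nat_lit 79) (nat_lit 80) (nat_lit 76) (nat_lit 1) (nat_lit 12) (nat_lit 4) (nat_lit 1) (nat_lit 11) (nat_lit 4) (by decide +kernel)
theorem L257168 : W_1 (nat_lit 3) (nat_lit 0x100008000000070002c000000000000000000) (nat_lit 0x0) (nat_lit 0x801d0000000000000000000) := T_1 (nat_lit 78) (nat_lit 91) (nat_lit 2) (nat_lit 6) (nat_lit 5) L257167 (by decide +kernel)
theorem L257169 : W_1 (nat_lit 4) (nat_lit 0x100008000000030002c000000000000000000) (nat_lit 0x0) (nat_lit 0xc801d0000000000000000000) := T_1 (nat_lit 94) (nat_lit 95) (nat_lit 0) (nat_lit 10) (nat_lit 5) L257168 (by decide +kernel)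
theorem L257170 : W_1 (nat_lit 2) (nat_lit 0x100008000300030000c000400020000000000) (nat_lit 0x0) (nat_lit 0x200010000800000) := D_1 (nat_lit 40) (nat_lit 57) (nat_lit 23) (nat_lit 4) (nat_lit 7) (nat_lit 6) (nat_lit 4) (nat_lit 7) (nat_lit 5) (by decide +kernel)
theorem L257171 : W_1 (nat_lit 3) (nat_lit 0x100008000300030000c000400000000000000) (nat_lit 0x0) (nat_lit 0x80000000200030000800000) := T_1 (nat_lit 41) (nat_lit 91) (nat_lit 5) (nat_lit 7) (nat_lit 2) L257170 (by decide +kernel)
theorem L257172 : W_1 (nat_lit 4) (nat_lit 0x100008000300030000c000000000000000000) (nat_lit 0x0) (nat_lit 0x20000000080000000600030000800000) := T_1 (nat_lit 58) (nat_lit 125) (nat_lit 5) (nat_lit 7) (nat_lit 3) L257171 (by decide +kernel)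
theorem L257173 : W_1 (nat_lit 5) (nat_lit 0x100008000100030000c000000000000000000) (nat_lit 0x0) (nat_lit 0x60002000080000000600030000800000) := T_1 (nat_lit 109) (nat_lit 126) (nat_lit 7) (nat_lit 7) (nat_lit 4) L257172 (by decide +kernel)
theorem L257174 : W_1 (nat_lit 2) (nat_lit 0x100008000100078000c000000000000000000) (nat_lit 0x0) (nat_lit 0x20000000000000000400020000000000) := D_1 (nat_lit 58) (nat_lit 41) (nat_lit 125) (nat_lit 5) (nat_lit 7) (nat_lit 2) (nat_lit 6) (nat_lit 6) (nat_lit 7) (by decide +kernel)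
theorem L257175 : W_1 (nat_lit 3) (nat_lit 0x100008000100070000c000000000000000000) (nat_lit 0x0) (nat_lit 0x20000800080000000400020000000000) := T_1 (nat_lit 91) (nat_lit 107) (nat_lit 1) (nat_lit 9) (nat_lit 5) L257174 (by decide +kernel)
theorem L257176 : W_1 (nat_lit 4) (nat_lit 0x100008000100030000c000000000000000000) (nat_lit 0x0) (nat_lit 0x20000800c80000000400020000000000) := T_1 (nat_lit 94) (nat_lit 95) (nat_lit 0) (nat_lit 10) (nat_lit 5) L257175 (by decide +kernel)
theorem L257177 : W_1 (nat_lit 2) (nat_lit 0x100008000300070000c000000000000000000) (nat_lit 0x0) (nat_lit 0xc00080000000000000000000000) := D_1 (nat_lit 107) (nat_lit 106) (nat_lit 91) (nat_lit 2) (nat_lit 4) (nat_lit 6) (nat_lit 1) (nat_lit 9) (nat_lit 5) (by decide +kernel)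
theorem L257178 : W_1 (nat_lit 3) (nat_lit 0x100008000100070000c000000000000000000) (nat_lit 0x0) (nat_lit 0x40002c00080000000000000000000000) := T_1 (nat_lit 109) (nat_lit 126) (nat_lit 7) (nat_lit 7) (nat_lit 4) L257177 (by decide +kernel)
theorem L257179 : W_1 (nat_lit 4) (nat_lit 0x100008000100030000c000000000000000000) (nat_lit 0x0) (nat_lit 0x40002c00c80000000000000000000000) := T_1 (nat_lit 94) (nat_lit 95) (nat_lit 0) (nat_lit 10) (nat_lit 5) L257178 (by decide +kernel)
theorem L257180 : W_1 (nat_lit 2) (nat_lit 0x100008000300070000c000400030000000000) (nat_lit 0x0) (nat_lit 0x800040002000000) := D_1 (nat_lit 42) (nat_lit 59) (nat_lit 25) (nat_lit 6) (nat_lit 7) (nat_lit 6) (nat_lit 6) (nat_lit 7) (nat_lit 5) (by decide +kernel)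
theorem L257181 : W_1 (nat_lit 3) (nat_lit 0x100008000300070000c000400010000000000) (nat_lit 0x0) (nat_lit 0x800060002800000) := T_1 (nat_lit 41) (nat_lit 23) (nat_lit 4) (nat_lit 7) (nat_lit 5) L257180 (by decide +kernel)
theorem L257182 : W_1 (nat_lit 4) (nat_lit 0x100008000300070000c000400000000000000) (nat_lit 0x0) (nat_lit 0xa00070002800000) := T_1 (nat_lit 40) (nat_lit 57) (nat_lit 4) (nat_lit 7) (nat_lit 6) L257181 (by decide +kernel)
theorem L257183 : W_1 (nat_lit 5) (nat_lit 0x100008000300070000c000000000000000000) (nat_lit 0x0) (nat_lit 0x20000000000000000e00070002800000) := T_1 (nat_lit 58) (nat_lit 125) (nat_lit 5) (nat_lit 7) (nat_lit 3) L257182 (by decide +kernel)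
theorem L257184 : W_1 (nat_lit 6) (nat_lit 0x100008000100070000c000000000000000000) (nat_lit 0x0) (nat_lit 0x60002000000000000e00070002800000) := T_1 (nat_lit 109) (nat_lit 126) (nat_lit 7) (nat_lit 7) (nat_lit 4) L257183 (by decide +kernel)
theorem L257185 : W_1 (nat_lit 7) (nat_lit 0x100008000100030000c000000000000000000) (nat_lit 0x0) (nat_lit 0x60002000c00000000e00070002800000) := T_1 (nat_lit 94) (nat_lit 95) (nat_lit 0) (nat_lit 10) (nat_lit 5) L257184 (by decide +kernel)
theorem L257186 : W_1 (nat_lit 8) (nat_lit 0x100008000000030000c000000000000000000) (nat_lit 0x0) (nat_lit 0x60003c00c80000000e00070002800000) := Q_1 (nat_lit 108) (C_1 L257173 (C_1 L257176 (C_1 L257179 (C_1 L257185 N_1)))) (by decide +kernel)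
theorem L257187 : W_1 (nat_lit 9) (nat_lit 0x1000080000000300008000000000000000000) (nat_lit 0x0) (nat_lit 0x60003c00c80017003e00070002800000) := Q_1 (nat_lit 74) (C_1 L257154 (C_1 L32323 (C_1 L28280 (C_1 L257186 N_1)))) (by decide +kernel)
theorem L257192 : W_1 (nat_lit 2) (nat_lit 0x100008000200030000c000800000000000000) (nat_lit 0x0) (nat_lit 0x10000400040000000000) := D_1 (nat_lit 42) (nat_lit 76) (nat_lit 58) (nat_lit 5) (nat_lit 8) (nat_lit 2) (nat_lit 6) (nat_lit 7) (nat_lit 6) (by decide +kernel)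
theorem L257193 : W_1 (nat_lit 3) (nat_lit 0x100008000000030000c000800000000000000) (nat_lit 0x0) (nat_lit 0x40002000000010000400040000000000) := T_1 (nat_lit 109) (nat_lit 126) (nat_lit 7) (nat_lit 7) (nat_lit 4) L257192 (by decide +kernel)
theorem L257217 : W_1 (nat_lit 2) (nat_lit 0x1000080000000700018000800040001000000) (nat_lit 0x0) (nat_lit 0x1800004000000000000000000) := D_1 (nat_lit 95) (nat_lit 96) (nat_lit 74) (nat_lit 0) (nat_lit 11) (nat_lit 5) (nat_lit 0) (nat_lit 10) (nat_lit 5) (by decide +kernel)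
theorem L257218 : W_1 (nat_lit 3) (nat_lit 0x1000080000000300018000800040001000000) (nat_lit 0x0) (nat_lit 0x8001c00004000000000000000000) := T_1 (nat_lit 94) (nat_lit 111) (nat_lit 7) (nat_lit 8) (nat_lit 2) L257217 (by decide +kernel)
theorem L257219 : W_1 (nat_lit 4) (nat_lit 0x1000080000000300018000800040000000000) (nat_lit 0x0) (nat_lit 0x8001c00004000000020001000000) := T_1 (nat_lit 24) (nat_lit 41) (nat_lit 4) (nat_lit 8) (nat_lit 5) L257218 (by decide +kernel)
theorem L257220 : W_1 (nat_lit 5) (nat_lit 0x1000080000000300018000800000000000000) (nat_lit 0x0) (nat_lit 0x8001c00004000000060003000000) := T_1 (nat_lit 42) (nat_lit 25) (nat_lit 5) (nat_lit 8) (nat_lit 1) L257219 (by decide +kernel)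
theorem L257221 : W_1 (nat_lit 2) (nat_lit 0x1000080000000700018000000000000000000) (nat_lit 0x0) (nat_lit 0x1800004000000000000000000) := D_1 (nat_lit 95) (nat_lit 74) (nat_lit 96) (nat_lit 0) (nat_lit 10) (nat_lit 5) (nat_lit 0) (nat_lit 11) (nat_lit 5) (by decide +kernel)
theorem L257225 : W_1 (nat_lit 2) (nat_lit 0x1000080002000300018000400040000000000) (nat_lit 0x0) (nat_lit 0x20003000000) := D_1 (nat_lit 41) (nat_lit 25) (nat_lit 24) (nat_lit 6) (nat_lit 7) (nat_lit 5) (nat_lit 7) (nat_lit 7) (nat_lit 1) (by decide +kernel)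
theorem L257226 : W_1 (nat_lit 3) (nat_lit 0x1000080002000300018000400000000000000) (nat_lit 0x0) (nat_lit 0x800060003000000) := T_1 (nat_lit 42) (nat_lit 59) (nat_lit 6) (nat_lit 7) (nat_lit 6) L257225 (by decide +kernel)
theorem L257227 : W_1 (nat_lit 4) (nat_lit 0x1000080000000300018000400000000000000) (nat_lit 0x0) (nat_lit 0x40002000000000000800060003000000) := T_1 (nat_lit 109) (nat_lit 126) (nat_lit 7) (nat_lit 7) (nat_lit 4) L257226 (by decide +kernel)
theorem L257228 : W_1 (nat_lit 2) (nat_lit 0x1000080002000300018000700000001000000) (nat_lit 0x0) (nat_lit 0x64000000000000000000) := D_1 (nat_lit 77) (nat_lit 78) (nat_lit 74) (nat_lit 0) (nat_lit 10) (nat_lit 4) (nat_lit 0) (nat_lit 9) (nat_lit 4) (by decide +kernel)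
theorem L257229 : W_1 (nat_lit 3) (nat_lit 0x1000080002000300018000600000001000000) (nat_lit 0x0) (nat_lit 0x64000180000000000000) := T_1 (nat_lit 56) (nat_lit 55) (nat_lit 3) (nat_lit 4) (nat_lit 3) L257228 (by decide +kernel)
theorem L257230 : W_1 (nat_lit 4) (nat_lit 0x1000080002000300018000400000001000000) (nat_lit 0x0) (nat_lit 0x64000380010000000000) := T_1 (nat_lit 57) (nat_lit 40) (nat_lit 4) (nat_lit 7) (nat_lit 6) L257229 (by decide +kernel)
theorem L257231 : W_1 (nat_lit 5) (nat_lit 0x1000080000000300018000400000001000000) (nat_lit 0x0) (nat_lit 0x40002000000064000380010000000000) := T_1 (nat_lit 109) (nat_lit 126) (nat_lit 7) (nat_lit 7) (nat_lit 4) L257230 (by decide +kernel)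
theorem L257232 : W_1 (nat_lit 6) (nat_lit 0x1000080000000300018000400000000000000) (nat_lit 0x0) (nat_lit 0x40002000000064000380030001000000) := T_1 (nat_lit 24) (nat_lit 41) (nat_lit 7) (nat_lit 7) (nat_lit 1) L257231 (by decide +kernel)
theorem L257233 : W_1 (nat_lit 2) (nat_lit 0x1000080000000380018000400020002000000) (nat_lit 0x0) (nat_lit 0x40060000000000000000000) := D_1 (nat_lit 77) (nat_lit 90) (nat_lit 78) (nat_lit 2) (nat_lit 5) (nat_lit 5) (nat_lit 1) (nat_lit 10) (nat_lit 4) (by decide +kernel)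
theorem L257234 : W_1 (nat_lit 3) (nat_lit 0x1000080000000300018000400020002000000) (nat_lit 0x0) (nat_lit 0x10000c0060000000000000000000) := T_1 (nat_lit 91) (nat_lit 108) (nat_lit 5) (nat_lit 7) (nat_lit 2) L257233 (by decide +kernel)
theorem L257235 : W_1 (nat_lit 4) (nat_lit 0x1000080000000300018000400020000000000) (nat_lit 0x0) (nat_lit 0x10000c0060000000040002000000) := T_1 (nat_lit 25) (nat_lit 42) (nat_lit 6) (nat_lit 7) (nat_lit 5) L257234 (by decide +kernel)
theorem L257236 : W_1 (nat_lit 5) (nat_lit 0x1000080000000300018000400000000000000) (nat_lit 0x0) (nat_lit 0x10000c0060000000060003000000) := T_1 (nat_lit 41) (nat_lit 24) (nat_lit 7) (nat_lit 7) (nat_lit 1) L257235 (by decide +kernel)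
theorem L257237 : W_1 (nat_lit 2) (nat_lit 0x1000080002000300018000700040000000000) (nat_lit 0x0) (nat_lit 0x64000000000000000000) := D_1 (nat_lit 77) (nat_lit 78) (nat_lit 74) (nat_lit 0) (nat_lit 10) (nat_lit 4) (nat_lit 0) (nat_lit 9) (nat_lit 4) (by decide +kernel)
theorem L257238 : W_1 (nat_lit 3) (nat_lit 0x1000080002000300018000600040000000000) (nat_lit 0x0) (nat_lit 0x64000180000000000000) := T_1 (nat_lit 56) (nat_lit 55) (nat_lit 3) (nat_lit 4) (nat_lit 3) L257237 (by decide +kernel)
theorem L257239 : W_1 (nat_lit 4) (nat_lit 0x1000080002000300018000400040000000000) (nat_lit 0x0) (nat_lit 0x64000380010000000000) := T_1 (nat_lit 57) (nat_lit 40) (nat_lit 4) (nat_lit 7) (nat_lit 6) L257238 (by decide +kernel)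
theorem L257240 : W_1 (nat_lit 5) (nat_lit 0x1000080002000300018000400000000000000) (nat_lit 0x0) (nat_lit 0x64000b80050000000000) := T_1 (nat_lit 42) (nat_lit 59) (nat_lit 6) (nat_lit 7) (nat_lit 6) L257239 (by decide +kernel)
theorem L257241 : W_1 (nat_lit 6) (nat_lit 0x1000080000000300018000400000000000000) (nat_lit 0x0) (nat_lit 0x40002000000064000b80050000000000) := T_1 (nat_lit 109) (nat_lit 126) (nat_lit 7) (nat_lit 7) (nat_lit 4) L257240 (by decide +kernel)
theorem L257242 : W_1 (nat_lit 7) (nat_lit 0x1000080000000300018000000000000000000) (nat_lit 0x0) (nat_lit 0x400030000c0064000f80070003000000) := Q_1 (nat_lit 58) (C_1 L257227 (C_1 L257232 (C_1 L257236 (C_1 L257241 N_1)))) (by decide +kernel)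
theorem L257256 : W_1 (nat_lit 2) (nat_lit 0x100008000200030000c000200000000000000) (nat_lit 0x0) (nat_lit 0x400010000800000) := D_1 (nat_lit 40) (nat_lit 23) (nat_lit 58) (nat_lit 7) (nat_lit 6) (nat_lit 1) (nat_lit 4) (nat_lit 7) (nat_lit 6) (by decide +kernel)
theorem L257257 : W_1 (nat_lit 3) (nat_lit 0x100008000000030000c000200000000000000) (nat_lit 0x0) (nat_lit 0x40002000000000000400010000800000) := T_1 (nat_lit 109) (nat_lit 126) (nat_lit 7) (nat_lit 7) (nat_lit 4) L257256 (by decide +kernel)
theorem L257320 : W_1 (nat_lit 2) (nat_lit 0x10000800000003c0008000000000000000000) (nat_lit 0x0) (nat_lit 0x20030000000000000000000) := D_1 (nat_lit 76) (nat_lit 77) (nat_lit 89) (nat_lit 2) (nat_lit 5) (nat_lit 5) (nat_lit 2) (nat_lit 4) (nat_lit 5) (by decide +kernel)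
theorem L257359 : W_1 (nat_lit 2) (nat_lit 0x10000800000003e0009000000000000000000) (nat_lit 0x0) (nat_lit 0xe00000000000000000000000000) := D_1 (nat_lit 106) (nat_lit 107) (nat_lit 105) (nat_lit 1) (nat_lit 8) (nat_lit 5) (nat_lit 1) (nat_lit 7) (nat_lit 5) (by decide +kernel)
theorem L257360 : W_1 (nat_lit 3) (nat_lit 0x10000800000003c0009000000000000000000) (nat_lit 0x0) (nat_lit 0xe00020000800000000000000000) := T_1 (nat_lit 89) (nat_lit 71) (nat_lit 0) (nat_lit 7) (nat_lit 5) L257359 (by decide +kernel)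
theorem L257361 : W_1 (nat_lit 4) (nat_lit 0x10000800000003c0008000000000000000000) (nat_lit 0x0) (nat_lit 0xe00020003800000000000000000) := T_1 (nat_lit 72) (nat_lit 73) (nat_lit 0) (nat_lit 8) (nat_lit 5) L257360 (by decide +kernel)
theorem L257416 : W_1 (nat_lit 2) (nat_lit 0x100008000a00078003c001200040000000000) (nat_lit 0x0) (nat_lit 0x80006000000) := D_1 (nat_lit 43) (nat_lit 25) (nat_lit 26) (nat_lit 4) (nat_lit 9) (nat_lit 5) (nat_lit 5) (nat_lit 9) (nat_lit 1) (by decide +kernel)
theorem L257417 : W_1 (nat_lit 3) (nat_lit 0x100008000a00078003c001200000000000000) (nat_lit 0x0) (nat_lit 0x8000c0006000000) := T_1 (nat_lit 42) (nat_lit 59) (nat_lit 7) (nat_lit 8) (nat_lit 2) L257416 (by decide +kernel)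
theorem L257418 : W_1 (nat_lit 4) (nat_lit 0x100008000a00078003c000200000000000000) (nat_lit 0x0) (nat_lit 0x38000c0006000000) := T_1 (nat_lit 60) (nat_lit 61) (nat_lit 2) (nat_lit 6) (nat_lit 4) L257417 (by decide +kernel)
theorem L257419 : W_1 (nat_lit 5) (nat_lit 0x100008000a00078002c000200000000000000) (nat_lit 0x0) (nat_lit 0x100039000c0006000000) := T_1 (nat_lit 76) (nat_lit 56) (nat_lit 0) (nat_lit 9) (nat_lit 4) L257418 (by decide +kernel)
theorem L257420 : W_1 (nat_lit 6) (nat_lit 0x100008000200078002c000200000000000000) (nat_lit 0x0) (nat_lit 0x180000000100039000c0006000000) := T_1 (nat_lit 111) (nat_lit 112) (nat_lit 3) (nat_lit 6) (nat_lit 5) L257419 (by decide +kernel)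
theorem L257421 : W_1 (nat_lit 7) (nat_lit 0x100008000200078002c000000000000000000) (nat_lit 0x0) (nat_lit 0x18000000010003b000d0006000000) := T_1 (nat_lit 57) (nat_lit 40) (nat_lit 7) (nat_lit 6) (nat_lit 2) L257420 (by decide +kernel)
theorem L257422 : W_1 (nat_lit 8) (nat_lit 0x100008000200078000c000000000000000000) (nat_lit 0x0) (nat_lit 0x18000000070003b000d0006000000) := T_1 (nat_lit 77) (nat_lit 78) (nat_lit 2) (nat_lit 6) (nat_lit 5) L257421 (by decide +kernel)
theorem L257423 : W_1 (nat_lit 9) (nat_lit 0x1000080002000780008000000000000000000) (nat_lit 0x0) (nat_lit 0x18000000076003b000d0006000000) := T_1 (nat_lit 74) (nat_lit 73) (nat_lit 0) (nat_lit 9) (nat_lit 5) L257422 (by decide +kernel)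
theorem L257424 : W_1 (nat_lit 10) (nat_lit 0x1000080000000780008000000000000000000) (nat_lit 0x0) (nat_lit 0x4001a000000076003b000d0006000000) := T_1 (nat_lit 109) (nat_lit 126) (nat_lit 7) (nat_lit 7) (nat_lit 4) L257423 (by decide +kernel)
theorem L257434 : W_1 (nat_lit 2) (nat_lit 0x10000800000003c0009000000000000000000) (nat_lit 0x0) (nat_lit 0x20010800000000000000000) := D_1 (nat_lit 89) (nat_lit 71) (nat_lit 76) (nat_lit 0) (nat_lit 7) (nat_lit 5) (nat_lit 2) (nat_lit 4) (nat_lit 5) (by decide +kernel)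
theorem L257435 : W_1 (nat_lit 3) (nat_lit 0x10000800000003c0008000000000000000000) (nat_lit 0x0) (nat_lit 0x20013800000000000000000) := T_1 (nat_lit 72) (nat_lit 73) (nat_lit 0) (nat_lit 8) (nat_lit 5) L257434 (by decide +kernel)
theorem L257445 : W_1 (nat_lit 2) (nat_lit 0x1000080000000300038000000000000000000) (nat_lit 0x0) (nat_lit 0x800c0000000000000000000) := D_1 (nat_lit 78) (nat_lit 91) (nat_lit 79) (nat_lit 1) (nat_lit 10) (nat_lit 4) (nat_lit 1) (nat_lit 11) (nat_lit 4) (by decide +kernel)
theorem L257446 : W_1 (nat_lit 2) (nat_lit 0x1000080002000300078000400040000000000) (nat_lit 0x0) (nat_lit 0x20003000000) := D_1 (nat_lit 41) (nat_lit 24) (nat_lit 25) (nat_lit 7) (nat_lit 7) (nat_lit 1) (nat_lit 6) (nat_lit 7) (nat_lit 5) (by decide +kernel)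
theorem L257447 : W_1 (nat_lit 3) (nat_lit 0x1000080002000300078000000040000000000) (nat_lit 0x0) (nat_lit 0x600020003000000) := T_1 (nat_lit 58) (nat_lit 57) (nat_lit 0) (nat_lit 10) (nat_lit 4) L257446 (by decide +kernel)
theorem L257448 : W_1 (nat_lit 4) (nat_lit 0x1000080002000300038000000040000000000) (nat_lit 0x0) (nat_lit 0xc0000600020003000000) := T_1 (nat_lit 78) (nat_lit 79) (nat_lit 1) (nat_lit 11) (nat_lit 4) L257447 (by decide +kernel)
theorem L257449 : W_1 (nat_lit 5) (nat_lit 0x1000080002000300038000000000000000000) (nat_lit 0x0) (nat_lit 0xc0000e00060003000000) := T_1 (nat_lit 42) (nat_lit 59) (nat_lit 5) (nat_lit 8) (nat_lit 2) L257448 (by decide +kernel)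
theorem L257450 : W_1 (nat_lit 6) (nat_lit 0x1000080000000300038000000000000000000) (nat_lit 0x0) (nat_lit 0x400020000000c0000e00060003000000) := T_1 (nat_lit 109) (nat_lit 126) (nat_lit 7) (nat_lit 7) (nat_lit 4) L257449 (by decide +kernel)
theorem L257451 : W_1 (nat_lit 2) (nat_lit 0x1000080003400300018000e00000000000000) (nat_lit 0x0) (nat_lit 0x20000180000000000000) := D_1 (nat_lit 56) (nat_lit 77) (nat_lit 55) (nat_lit 3) (nat_lit 5) (nat_lit 3) (nat_lit 3) (nat_lit 4) (nat_lit 3) (by decide +kernel)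
theorem L257452 : W_1 (nat_lit 3) (nat_lit 0x1000080003400300018000c00000000000000) (nat_lit 0x0) (nat_lit 0x20000380010000000000) := T_1 (nat_lit 57) (nat_lit 40) (nat_lit 4) (nat_lit 7) (nat_lit 6) L257451 (by decide +kernel)
theorem L257453 : W_1 (nat_lit 4) (nat_lit 0x1000080003000300018000c00000000000000) (nat_lit 0x0) (nat_lit 0xc00000020000380010000000000) := T_1 (nat_lit 106) (nat_lit 107) (nat_lit 2) (nat_lit 4) (nat_lit 6) L257452 (by decide +kernel)
theorem L257454 : W_1 (nat_lit 5) (nat_lit 0x1000080002000300018000c00000000000000) (nat_lit 0x0) (nat_lit 0x20001c00000020000380010000000000) := T_1 (nat_lit 108) (nat_lit 125) (nat_lit 5) (nat_lit 7) (nat_lit 3) L257453 (by decide +kernel)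
theorem L257455 : W_1 (nat_lit 6) (nat_lit 0x1000080002000300018000400000000000000) (nat_lit 0x0) (nat_lit 0x20001c00000020000b80050000000000) := T_1 (nat_lit 59) (nat_lit 42) (nat_lit 6) (nat_lit 7) (nat_lit 6) L257454 (by decide +kernel)
theorem L257456 : W_1 (nat_lit 7) (nat_lit 0x1000080000000300018000400000000000000) (nat_lit 0x0) (nat_lit 0x60003c00000020000b80050000000000) := T_1 (nat_lit 109) (nat_lit 126) (nat_lit 7) (nat_lit 7) (nat_lit 4) L257455 (by decide +kernel)
theorem L257457 : W_1 (nat_lit 2) (nat_lit 0x1000080003000300018000400000000000000) (nat_lit 0x0) (nat_lit 0x80000000000020001000000) := D_1 (nat_lit 41) (nat_lit 91) (nat_lit 24) (nat_lit 5) (nat_lit 7) (nat_lit 2) (nat_lit 7) (nat_lit 7) (nat_lit 1) (by decide +kernel)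
theorem L257458 : W_1 (nat_lit 3) (nat_lit 0x1000080002000300018000400000000000000) (nat_lit 0x0) (nat_lit 0x20001000080000000000020001000000) := T_1 (nat_lit 108) (nat_lit 125) (nat_lit 5) (nat_lit 7) (nat_lit 3) L257457 (by decide +kernel)
theorem L257459 : W_1 (nat_lit 4) (nat_lit 0x1000080000000300018000400000000000000) (nat_lit 0x0) (nat_lit 0x60003000080000000000020001000000) := T_1 (nat_lit 109) (nat_lit 126) (nat_lit 7) (nat_lit 7) (nat_lit 4) L257458 (by decide +kernel)
theorem L257460 : W_1 (nat_lit 8) (nat_lit 0x1000080000000300018000000000000000000) (nat_lit 0x0) (nat_lit 0x60003c000c0060000f80070003000000) := Q_1 (nat_lit 58) (C_1 L257227 (C_1 L257236 (C_1 L257456 (C_1 L257459 N_1)))) (by decide +kernel)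
theorem L257471 : W_1 (nat_lit 2) (nat_lit 0x1000080000000300008000400020000800000) (nat_lit 0x0) (nat_lit 0x10000000000001000040) := D_1 (nat_lit 24) (nat_lit 6) (nat_lit 76) (nat_lit 4) (nat_lit 7) (nat_lit 4) (nat_lit 7) (nat_lit 7) (nat_lit 1) (by decide +kernel)
theorem L257472 : W_1 (nat_lit 3) (nat_lit 0x1000080000000300008000400020000000000) (nat_lit 0x0) (nat_lit 0x10000000010001800040) := T_1 (nat_lit 23) (nat_lit 40) (nat_lit 4) (nat_lit 7) (nat_lit 5) L257471 (by decide +kernel)
theorem L257473 : W_1 (nat_lit 2) (nat_lit 0x1000080000000300008000400020003000000) (nat_lit 0x0) (nat_lit 0x10000800040) := D_1 (nat_lit 23) (nat_lit 40) (nat_lit 6) (nat_lit 4) (nat_lit 7) (nat_lit 5) (nat_lit 4) (nat_lit 7) (nat_lit 4) (by decide +kernel)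
theorem L257474 : W_1 (nat_lit 3) (nat_lit 0x1000080000000300008000400020002000000) (nat_lit 0x0) (nat_lit 0x10001800140) := T_1 (nat_lit 24) (nat_lit 8) (nat_lit 6) (nat_lit 7) (nat_lit 4) L257473 (by decide +kernel)
theorem L257475 : W_1 (nat_lit 4) (nat_lit 0x1000080000000300008000400020000000000) (nat_lit 0x0) (nat_lit 0x50003800140) := T_1 (nat_lit 25) (nat_lit 42) (nat_lit 6) (nat_lit 7) (nat_lit 5) L257474 (by decide +kernel)
theorem L257476 : W_1 (nat_lit 2) (nat_lit 0x1000080000000300008000400020001000000) (nat_lit 0x0) (nat_lit 0x40002000100) := D_1 (nat_lit 25) (nat_lit 8) (nat_lit 42) (nat_lit 6) (nat_lit 7) (nat_lit 4) (nat_lit 6) (nat_lit 7) (nat_lit 5) (by decide +kernel)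
theorem L257477 : W_1 (nat_lit 3) (nat_lit 0x1000080000000300008000400020000000000) (nat_lit 0x0) (nat_lit 0x10000000040003000100) := T_1 (nat_lit 24) (nat_lit 76) (nat_lit 7) (nat_lit 7) (nat_lit 1) L257476 (by decide +kernel)
theorem L257521 : W_1 (nat_lit 2) (nat_lit 0x1000080002000300008000400030000000000) (nat_lit 0x0) (nat_lit 0x20001000080000000000000000000000) := D_1 (nat_lit 108) (nat_lit 125) (nat_lit 91) (nat_lit 5) (nat_lit 7) (nat_lit 3) (nat_lit 5) (nat_lit 7) (nat_lit 2) (by decide +kernel)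
theorem L257522 : W_1 (nat_lit 3) (nat_lit 0x1000080002000300008000400010000000000) (nat_lit 0x0) (nat_lit 0x20001000080000000000020000800000) := T_1 (nat_lit 41) (nat_lit 23) (nat_lit 4) (nat_lit 7) (nat_lit 5) L257521 (by decide +kernel)
theorem L257523 : W_1 (nat_lit 4) (nat_lit 0x1000080002000300008000400000000000000) (nat_lit 0x0) (nat_lit 0x20001000080000000200030000800000) := T_1 (nat_lit 40) (nat_lit 57) (nat_lit 4) (nat_lit 7) (nat_lit 6) L257522 (by decide +kernel)
theorem L257546 : W_1 (nat_lit 2) (nat_lit 0x1000080012000f00060000000000000000000) (nat_lit 0x0) (nat_lit 0x200000000000000001000080000000000) := D_1 (nat_lit 60) (nat_lit 129) (nat_lit 43) (nat_lit 4) (nat_lit 10) (nat_lit 7) (nat_lit 7) (nat_lit 9) (nat_lit 2) (by decide +kernel)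
theorem L257574 : W_1 (nat_lit 2) (nat_lit 0x10000800020007c0020000000000000000000) (nat_lit 0x0) (nat_lit 0x1c00000000000000000000000000) := D_1 (nat_lit 107) (nat_lit 108) (nat_lit 106) (nat_lit 1) (nat_lit 9) (nat_lit 5) (nat_lit 1) (nat_lit 8) (nat_lit 5) (by decide +kernel)
theorem L257575 : W_1 (nat_lit 3) (nat_lit 0x1000080002000780020000000000000000000) (nat_lit 0x0) (nat_lit 0x1c00040010000000000000000000) := T_1 (nat_lit 90) (nat_lit 76) (nat_lit 2) (nat_lit 5) (nat_lit 5) L257574 (by decide +kernel)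
theorem L257576 : W_1 (nat_lit 4) (nat_lit 0x1000080002000780000000000000000000000) (nat_lit 0x0) (nat_lit 0x1c00040070000000000000000000) := T_1 (nat_lit 77) (nat_lit 78) (nat_lit 2) (nat_lit 6) (nat_lit 5) L257575 (by decide +kernel)
theorem L257581 : W_1 (nat_lit 2) (nat_lit 0x4001e000f0002000300004000000000000000000) (nat_lit 0x0) (nat_lit 0x1000080000000000000001000000000000000000000000000) := D_1 (nat_lit 175) (nat_lit 108) (nat_lit 192) (nat_lit 6) (nat_lit 5) (nat_lit 10) (nat_lit 6) (nat_lit 5) (nat_lit 11) (by decide +kernel)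
theorem L257582 : W_1 (nat_lit 3) (nat_lit 0x4001e000d0002000300004000000000000000000) (nat_lit 0x0) (nat_lit 0x1000080000002000020001000000000000000000000000000) := T_1 (nat_lit 125) (nat_lit 145) (nat_lit 3) (nat_lit 5) (nat_lit 7) L257581 (by decide +kernel)
theorem L257583 : W_1 (nat_lit 4) (nat_lit 0x1e000d0002000300004000000000000000000) (nat_lit 0x0) (nat_lit 0x1000080006002000020001000000000000000000000000000) := T_1 (nat_lit 158) (nat_lit 157) (nat_lit 1) (nat_lit 8) (nat_lit 8) L257582 (by decide +kernel)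
theorem L257584 : W_1 (nat_lit 5) (nat_lit 0x1e000c0002000300004000000000000000000) (nat_lit 0x0) (nat_lit 0x1000080006002000038001000000000000000000000000000) := T_1 (nat_lit 124) (nat_lit 123) (nat_lit 0) (nat_lit 8) (nat_lit 8) L257583 (by decide +kernel)
theorem L257585 : W_1 (nat_lit 6) (nat_lit 0x1e000c0002000300000000000000000000000) (nat_lit 0x0) (nat_lit 0x1000080006002000038001000080004000000000000000000) := T_1 (nat_lit 74) (nat_lit 91) (nat_lit 4) (nat_lit 7) (nat_lit 8) L257584 (by decide +kernel)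
theorem L257586 : W_1 (nat_lit 7) (nat_lit 0x1c000c0002000300000000000000000000000) (nat_lit 0x0) (nat_lit 0x1000080006002300038001000080004000000000000000000) := T_1 (nat_lit 141) (nat_lit 140) (nat_lit 2) (nat_lit 4) (nat_lit 8) L257585 (by decide +kernel)
theorem L257587 : W_1 (nat_lit 8) (nat_lit 0x18000c0002000300000000000000000000000) (nat_lit 0x0) (nat_lit 0x100008000e002700038001000080004000000000000000000) := T_1 (nat_lit 142) (nat_lit 159) (nat_lit 5) (nat_lit 7) (nat_lit 5) L257586 (by decide +kernel)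
theorem L257712 : W_1 (nat_lit 2) (nat_lit 0x1000080022000f00080000000000000000000) (nat_lit 0x0) (nat_lit 0x40001000100000000000000000000) := D_1 (nat_lit 96) (nat_lit 80) (nat_lit 114) (nat_lit 2) (nat_lit 8) (nat_lit 5) (nat_lit 3) (nat_lit 8) (nat_lit 5) (by decide +kernel)
theorem L257713 : W_1 (nat_lit 3) (nat_lit 0x1000080002000f00080000000000000000000) (nat_lit 0x0) (nat_lit 0x70001000100000000000000000000) := T_1 (nat_lit 113) (nat_lit 112) (nat_lit 3) (nat_lit 7) (nat_lit 5) L257712 (by decide +kernel)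
theorem L257714 : W_1 (nat_lit 4) (nat_lit 0x1000080002000f00000000000000000000000) (nat_lit 0x0) (nat_lit 0x700010001c0000000000000000000) := T_1 (nat_lit 79) (nat_lit 78) (nat_lit 2) (nat_lit 7) (nat_lit 5) L257713 (by decide +kernel)
theorem L257803 : W_1 (nat_lit 2) (nat_lit 0x1000080002000300008000400030002000000) (nat_lit 0x0) (nat_lit 0x10000000000001000100) := D_1 (nat_lit 24) (nat_lit 8) (nat_lit 76) (nat_lit 6) (nat_lit 7) (nat_lit 4) (nat_lit 7) (nat_lit 7) (nat_lit 1) (by decide +kernel)
theorem L257804 : W_1 (nat_lit 3) (nat_lit 0x1000080002000300008000400030000000000) (nat_lit 0x0) (nat_lit 0x10000000040003000100) := T_1 (nat_lit 25) (nat_lit 42) (nat_lit 6) (nat_lit 7) (nat_lit 5) L257803 (by decide +kernel)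
theorem L257805 : W_1 (nat_lit 4) (nat_lit 0x1000080002000300008000400010000000000) (nat_lit 0x0) (nat_lit 0x10000000060003800100) := T_1 (nat_lit 41) (nat_lit 23) (nat_lit 4) (nat_lit 7) (nat_lit 5) L257804 (by decide +kernel)
theorem L257806 : W_1 (nat_lit 5) (nat_lit 0x1000080002000300008000400000000000000) (nat_lit 0x0) (nat_lit 0x10000200070003800100) := T_1 (nat_lit 40) (nat_lit 57) (nat_lit 4) (nat_lit 7) (nat_lit 6) L257805 (by decide +kernel)
theorem L257812 : W_1 (nat_lit 2) (nat_lit 0x11000f8002000300000000000000000000000) (nat_lit 0x0) (nat_lit 0xe00000000000000000000000000) := D_1 (nat_lit 106) (nat_lit 105) (nat_lit 107) (nat_lit 0) (nat_lit 7) (nat_lit 7) (nat_lit 0) (nat_lit 8) (nat_lit 7) (by decide +kernel)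
theorem L257813 : W_1 (nat_lit 3) (nat_lit 0x11000f0002000300000000000000000000000) (nat_lit 0x0) (nat_lit 0x80008000e00000000000000000000000000) := T_1 (nat_lit 123) (nat_lit 139) (nat_lit 1) (nat_lit 7) (nat_lit 7) L257812 (by decide +kernel)
theorem L257814 : W_1 (nat_lit 4) (nat_lit 0x10000f0002000300000000000000000000000) (nat_lit 0x0) (nat_lit 0x380008000e00000000000000000000000000) := T_1 (nat_lit 140) (nat_lit 141) (nat_lit 1) (nat_lit 8) (nat_lit 7) L257813 (by decide +kernel)
theorem L257815 : W_1 (nat_lit 5) (nat_lit 0x10000d0002000300000000000000000000000) (nat_lit 0x0) (nat_lit 0x2380028000e00000000000000000000000000) := T_1 (nat_lit 125) (nat_lit 145) (nat_lit 3) (nat_lit 5) (nat_lit 7) L257814 (by decide +kernel)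
theorem L257816 : W_1 (nat_lit 2) (nat_lit 0x1c000d0002000300000000000000000000000) (nat_lit 0x0) (nat_lit 0x300008000000000000000000000000000000) := D_1 (nat_lit 141) (nat_lit 140) (nat_lit 123) (nat_lit 2) (nat_lit 4) (nat_lit 8) (nat_lit 0) (nat_lit 8) (nat_lit 8) (by decide +kernel)
theorem L257817 : W_1 (nat_lit 3) (nat_lit 0x18000d0002000300000000000000000000000) (nat_lit 0x0) (nat_lit 0x8000700008000000000000000000000000000000) := T_1 (nat_lit 142) (nat_lit 159) (nat_lit 5) (nat_lit 7) (nat_lit 5) L257816 (by decide +kernel)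
theorem L257818 : W_1 (nat_lit 4) (nat_lit 0x10000d0002000300000000000000000000000) (nat_lit 0x0) (nat_lit 0x8000f00008000000000010000000000000000000) := T_1 (nat_lit 143) (nat_lit 76) (nat_lit 6) (nat_lit 7) (nat_lit 8) L257817 (by decide +kernel)
theorem L257819 : W_1 (nat_lit 2) (nat_lit 0x18000d0002000300000000000000000000000) (nat_lit 0x0) (nat_lit 0x2000028000000000000000000000000000000) := D_1 (nat_lit 125) (nat_lit 145) (nat_lit 123) (nat_lit 3) (nat_lit 5) (nat_lit 7) (nat_lit 3) (nat_lit 4) (nat_lit 7) (by decide +kernel)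
theorem L257820 : W_1 (nat_lit 3) (nat_lit 0x10000d0002000300000000000000000000000) (nat_lit 0x0) (nat_lit 0x2800028000000000010000000000000000000) := T_1 (nat_lit 143) (nat_lit 76) (nat_lit 6) (nat_lit 7) (nat_lit 8) L257819 (by decide +kernel)
theorem L257821 : W_1 (nat_lit 2) (nat_lit 0x8001a000f0002800300000000000000000000000) (nat_lit 0x0) (nat_lit 0x100014000000000000000000000000000000000000000) := D_1 (nat_lit 176) (nat_lit 158) (nat_lit 160) (nat_lit 7) (nat_lit 5) (nat_lit 6) (nat_lit 5) (nat_lit 7) (nat_lit 6) (by decide +kernel)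
theorem L257822 : W_1 (nat_lit 3) (nat_lit 0x1a000f0002800300000000000000000000000) (nat_lit 0x0) (nat_lit 0x10001c000400000000000000000000000000000000000) := T_1 (nat_lit 159) (nat_lit 142) (nat_lit 5) (nat_lit 7) (nat_lit 5) L257821 (by decide +kernel)
theorem L257823 : W_1 (nat_lit 4) (nat_lit 0x12000f0002800300000000000000000000000) (nat_lit 0x0) (nat_lit 0x10001c000c00000000000000010000000000000000000) := T_1 (nat_lit 143) (nat_lit 76) (nat_lit 6) (nat_lit 7) (nat_lit 8) L257822 (by decide +kernel)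
theorem L257824 : W_1 (nat_lit 5) (nat_lit 0x12000f0002000300000000000000000000000) (nat_lit 0x0) (nat_lit 0x10001c000c00000000c00000010000000000000000000) := T_1 (nat_lit 107) (nat_lit 106) (nat_lit 0) (nat_lit 8) (nat_lit 7) L257823 (by decide +kernel)
theorem L257825 : W_1 (nat_lit 6) (nat_lit 0x10000f0002000300000000000000000000000) (nat_lit 0x0) (nat_lit 0x10001c000f00000000c00000010000000000000000000) := T_1 (nat_lit 141) (nat_lit 140) (nat_lit 1) (nat_lit 8) (nat_lit 7) L257824 (by decide +kernel)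
theorem L257826 : W_1 (nat_lit 7) (nat_lit 0x10000d0002000300000000000000000000000) (nat_lit 0x0) (nat_lit 0x10001c002f00020000c00000010000000000000000000) := T_1 (nat_lit 125) (nat_lit 145) (nat_lit 3) (nat_lit 5) (nat_lit 7) L257825 (by decide +kernel)
theorem L257827 : W_1 (nat_lit 8) (nat_lit 0x10000c0002000300000000000000000000000) (nat_lit 0x0) (nat_lit 0x10001c002f80038000e00000010000000000000000000) := Q_1 (nat_lit 124) (C_1 L257815 (C_1 L257818 (C_1 L257820 (C_1 L257826 N_1)))) (by decide +kernel)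
theorem L257828 : W_1 (nat_lit 9) (nat_lit 0x1000080002000300000000000000000000000) (nat_lit 0x0) (nat_lit 0x10001c002f80078000e00000018000000000000000000) := T_1 (nat_lit 126) (nat_lit 75) (nat_lit 7) (nat_lit 7) (nat_lit 4) L257827 (by decide +kernel)
theorem L257987 : W_1 (nat_lit 2) (nat_lit 0x10000e0001000380008000000000000000000) (nat_lit 0x0) (nat_lit 0x4000400020000000000) := D_1 (nat_lit 58) (nat_lit 74) (nat_lit 41) (nat_lit 6) (nat_lit 6) (nat_lit 7) (nat_lit 5) (nat_lit 7) (nat_lit 2) (by decide +kernel)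
theorem L257995 : W_1 (nat_lit 2) (nat_lit 0x10000e0001c00380008000000000000000000) (nat_lit 0x0) (nat_lit 0x4000400020000000000) := D_1 (nat_lit 58) (nat_lit 74) (nat_lit 41) (nat_lit 6) (nat_lit 6) (nat_lit 7) (nat_lit 5) (nat_lit 7) (nat_lit 2) (by decide +kernel)
theorem L257996 : W_1 (nat_lit 3) (nat_lit 0x10000e0001c00380000000000000000000000) (nat_lit 0x0) (nat_lit 0x40000000000000000c000400020000000000) := T_1 (nat_lit 75) (nat_lit 142) (nat_lit 6) (nat_lit 6) (nat_lit 8) L257995 (by decide +kernel)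
theorem L258030 : W_1 (nat_lit 2) (nat_lit 0x10000a0001000380008000000000000000000) (nat_lit 0x0) (nat_lit 0x2000000000000400020000000000) := D_1 (nat_lit 58) (nat_lit 109) (nat_lit 41) (nat_lit 5) (nat_lit 7) (nat_lit 3) (nat_lit 5) (nat_lit 7) (nat_lit 2) (by decide +kernel)
theorem L258031 : W_1 (nat_lit 3) (nat_lit 0x1000080001000380008000000000000000000) (nat_lit 0x0) (nat_lit 0x400020002000000000000400020000000000) := T_1 (nat_lit 125) (nat_lit 142) (nat_lit 6) (nat_lit 6) (nat_lit 8) L258030 (by decide +kernel)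
theorem L258122 : W_1 (nat_lit 2) (nat_lit 0x100008000300078002a000000000000000000) (nat_lit 0x0) (nat_lit 0x400020000000000000000400000000000000) := D_1 (nat_lit 125) (nat_lit 142) (nat_lit 58) (nat_lit 6) (nat_lit 6) (nat_lit 8) (nat_lit 5) (nat_lit 7) (nat_lit 3) (by decide +kernel)
theorem L258123 : W_1 (nat_lit 3) (nat_lit 0x1000080003000780022000000000000000000) (nat_lit 0x0) (nat_lit 0x400060000000000008000400000000000000) := T_1 (nat_lit 75) (nat_lit 126) (nat_lit 7) (nat_lit 7) (nat_lit 4) L258122 (by decide +kernel)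
theorem L258124 : W_1 (nat_lit 4) (nat_lit 0x1000080001000780022000000000000000000) (nat_lit 0x0) (nat_lit 0x400060002000800008000400000000000000) := T_1 (nat_lit 109) (nat_lit 95) (nat_lit 1) (nat_lit 10) (nat_lit 5) L258123 (by decide +kernel)
theorem L258125 : W_1 (nat_lit 5) (nat_lit 0x1000080000000780022000000000000000000) (nat_lit 0x0) (nat_lit 0x400060003800800008000400000000000000) := T_1 (nat_lit 108) (nat_lit 107) (nat_lit 1) (nat_lit 9) (nat_lit 5) L258124 (by decide +kernel)
theorem L258126 : W_1 (nat_lit 6) (nat_lit 0x1000080000000780002000000000000000000) (nat_lit 0x0) (nat_lit 0x400060003800800068000400000000000000) := T_1 (nat_lit 77) (nat_lit 78) (nat_lit 2) (nat_lit 6) (nat_lit 5) L258125 (by decide +kernel)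
theorem L258127 : W_1 (nat_lit 7) (nat_lit 0x1000080000000780000000000000000000000) (nat_lit 0x0) (nat_lit 0x40006000380080006e000400000000000000) := T_1 (nat_lit 73) (nat_lit 74) (nat_lit 0) (nat_lit 9) (nat_lit 5) L258126 (by decide +kernel)
theorem L258128 : W_1 (nat_lit 8) (nat_lit 0x1000080000000700000000000000000000000) (nat_lit 0x0) (nat_lit 0x400060003c008c007f000400000000000000) := Q_1 (nat_lit 91) (C_1 L24436 (C_1 L258127 (C_1 L23639 (C_1 L23633 N_1)))) (by decide +kernel)
theorem L258129 : W_1 (nat_lit 2) (nat_lit 0x100008000280078003c001200040000000000) (nat_lit 0x0) (nat_lit 0x80006000000) := D_1 (nat_lit 43) (nat_lit 25) (nat_lit 26) (nat_lit 4) (nat_lit 9) (nat_lit 5) (nat_lit 5) (nat_lit 9) (nat_lit 1) (by decide +kernel)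
theorem L258130 : W_1 (nat_lit 3) (nat_lit 0x100008000280078003c001200000000000000) (nat_lit 0x0) (nat_lit 0x8000c0006000000) := T_1 (nat_lit 42) (nat_lit 59) (nat_lit 5) (nat_lit 8) (nat_lit 2) L258129 (by decide +kernel)
theorem L258131 : W_1 (nat_lit 4) (nat_lit 0x100008000280078003c000200000000000000) (nat_lit 0x0) (nat_lit 0x38000c0006000000) := T_1 (nat_lit 60) (nat_lit 61) (nat_lit 2) (nat_lit 6) (nat_lit 4) L258130 (by decide +kernel)
theorem L258132 : W_1 (nat_lit 5) (nat_lit 0x100008000280078002c000200000000000000) (nat_lit 0x0) (nat_lit 0x100039000c0006000000) := T_1 (nat_lit 76) (nat_lit 56) (nat_lit 0) (nat_lit 9) (nat_lit 4) L258131 (by decide +kernel)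
theorem L258133 : W_1 (nat_lit 6) (nat_lit 0x100008000280078002c000000000000000000) (nat_lit 0x0) (nat_lit 0x10003b000d0006000000) := T_1 (nat_lit 57) (nat_lit 40) (nat_lit 7) (nat_lit 6) (nat_lit 2) L258132 (by decide +kernel)
theorem L258134 : W_1 (nat_lit 7) (nat_lit 0x1000080002800780028000000000000000000) (nat_lit 0x0) (nat_lit 0x16003b000d0006000000) := T_1 (nat_lit 74) (nat_lit 73) (nat_lit 0) (nat_lit 9) (nat_lit 5) L258133 (by decide +kernel)
theorem L258135 : W_1 (nat_lit 8) (nat_lit 0x1000080002000780028000000000000000000) (nat_lit 0x0) (nat_lit 0x1800000016003b000d0006000000) := T_1 (nat_lit 107) (nat_lit 108) (nat_lit 1) (nat_lit 9) (nat_lit 5) L258134 (by decide +kernel)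
theorem L258136 : W_1 (nat_lit 9) (nat_lit 0x1000080000000780028000000000000000000) (nat_lit 0x0) (nat_lit 0x40003800000016003b000d0006000000) := T_1 (nat_lit 109) (nat_lit 126) (nat_lit 7) (nat_lit 7) (nat_lit 4) L258135 (by decide +kernel)
theorem L258137 : W_1 (nat_lit 10) (nat_lit 0x1000080000000780008000000000000000000) (nat_lit 0x0) (nat_lit 0x40003800000076003b000d0006000000) := T_1 (nat_lit 77) (nat_lit 78) (nat_lit 2) (nat_lit 6) (nat_lit 5) L258136 (by decide +kernel)
theorem L258138 : W_1 (nat_lit 2) (nat_lit 0x100008000b000780028000000000000000000) (nat_lit 0x0) (nat_lit 0x400020000000000000000400000000000000) := D_1 (nat_lit 125) (nat_lit 142) (nat_lit 58) (nat_lit 6) (nat_lit 6) (nat_lit 8) (nat_lit 5) (nat_lit 7) (nat_lit 3) (by decide +kernel)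
theorem L258139 : W_1 (nat_lit 3) (nat_lit 0x100008000a000780028000000000000000000) (nat_lit 0x0) (nat_lit 0x400020001800000000000400000000000000) := T_1 (nat_lit 108) (nat_lit 107) (nat_lit 1) (nat_lit 9) (nat_lit 5) L258138 (by decide +kernel)
theorem L258140 : W_1 (nat_lit 4) (nat_lit 0x1000080008000780028000000000000000000) (nat_lit 0x0) (nat_lit 0x400060003800000000000400000000000000) := T_1 (nat_lit 109) (nat_lit 126) (nat_lit 7) (nat_lit 7) (nat_lit 4) L258139 (by decide +kernel)
theorem L258141 : W_1 (nat_lit 5) (nat_lit 0x1000080008000780008000000000000000000) (nat_lit 0x0) (nat_lit 0x400060003800000060000400000000000000) := T_1 (nat_lit 77) (nat_lit 78) (nat_lit 2) (nat_lit 6) (nat_lit 5) L258140 (by decide +kernel)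
theorem L258142 : W_1 (nat_lit 6) (nat_lit 0x1000080000000780008000000000000000000) (nat_lit 0x0) (nat_lit 0x40006001b800000060000400000000000000) := T_1 (nat_lit 111) (nat_lit 112) (nat_lit 3) (nat_lit 6) (nat_lit 5) L258141 (by decide +kernel)
theorem L258143 : W_1 (nat_lit 11) (nat_lit 0x1000080000000780000000000000000000000) (nat_lit 0x0) (nat_lit 0x40006001b80000007e003f000d0006000000) := Q_1 (nat_lit 75) (C_1 L257102 (C_1 L257424 (C_1 L258137 (C_1 L258142 N_1)))) (by decide +kernel)
theorem L258144 : W_1 (nat_lit 12) (nat_lit 0x1000080000000700000000000000000000000) (nat_lit 0x0) (nat_lit 0x40006001bc000c007f003f000d0006000000) := Q_1 (nat_lit 91) (C_1 L24436 (C_1 L258143 (C_1 L23639 (C_1 L23633 N_1)))) (by decide +kernel)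
theorem L258145 : W_1 (nat_lit 7) (nat_lit 0x1000080000000700000000000000000000000) (nat_lit 0x0) (nat_lit 0x40006003bc008c000f000400000000000000) := Q_1 (nat_lit 91) (C_1 L23633 (C_1 L32073 (C_1 L32068 N_1))) (by decide +kernel)
theorem L258146 : W_1 (nat_lit 13) (nat_lit 0x1000080000000300000000000000000000000) (nat_lit 0x0) (nat_lit 0x4000600fbc07cc07ff003f000d0006000000) := Q_1 (nat_lit 94) (C_1 L31993 (C_1 L31985 (C_1 L23608 (C_1 L258128 (C_1 L258144 (C_1 L31982 (C_1 L258145 N_1))))))) (by decide +kernel)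
theorem L258147 : W_1 (nat_lit 2) (nat_lit 0x1000080000000300018000800000000000000) (nat_lit 0x0) (nat_lit 0x2000000000000000040002000000) := D_1 (nat_lit 42) (nat_lit 109) (nat_lit 25) (nat_lit 5) (nat_lit 8) (nat_lit 2) (nat_lit 5) (nat_lit 8) (nat_lit 1) (by decide +kernel)
theorem L258156 : W_1 (nat_lit 2) (nat_lit 0x1000080000000380018000000000000000000) (nat_lit 0x0) (nat_lit 0x40060000000000000000000) := D_1 (nat_lit 77) (nat_lit 78) (nat_lit 90) (nat_lit 1) (nat_lit 10) (nat_lit 4) (nat_lit 2) (nat_lit 5) (nat_lit 5) (by decide +kernel)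
theorem L258189 : W_1 (nat_lit 2) (nat_lit 0x10001c0003000300000000000000000000000) (nat_lit 0x0) (nat_lit 0x20000c00000000000000000000000000) := D_1 (nat_lit 107) (nat_lit 125) (nat_lit 106) (nat_lit 0) (nat_lit 9) (nat_lit 7) (nat_lit 3) (nat_lit 4) (nat_lit 6) (by decide +kernel)
theorem L258190 : W_1 (nat_lit 3) (nat_lit 0x10000c0003000300000000000000000000000) (nat_lit 0x0) (nat_lit 0x320000c00000000000000000000000000) := T_1 (nat_lit 128) (nat_lit 129) (nat_lit 0) (nat_lit 10) (nat_lit 7) L258189 (by decide +kernel)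
theorem L258191 : W_1 (nat_lit 2) (nat_lit 0x18001c0003000300000000000000000000000) (nat_lit 0x0) (nat_lit 0x8000600000000000000000000000000000000000) := D_1 (nat_lit 142) (nat_lit 159) (nat_lit 141) (nat_lit 5) (nat_lit 7) (nat_lit 5) (nat_lit 2) (nat_lit 5) (nat_lit 8) (by decide +kernel)
theorem L258192 : W_1 (nat_lit 3) (nat_lit 0x10001c0003000300000000000000000000000) (nat_lit 0x0) (nat_lit 0x8000e00000000000000010000000000000000000) := T_1 (nat_lit 143) (nat_lit 76) (nat_lit 6) (nat_lit 7) (nat_lit 8) L258191 (by decide +kernel)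
theorem L258193 : W_1 (nat_lit 4) (nat_lit 0x10000c0003000300000000000000000000000) (nat_lit 0x0) (nat_lit 0x8000e00300000000000010000000000000000000) := T_1 (nat_lit 128) (nat_lit 129) (nat_lit 0) (nat_lit 10) (nat_lit 7) L258192 (by decide +kernel)
theorem L258195 : W_1 (nat_lit 2) (nat_lit 0x4001e000d0003400700000000000000000000000) (nat_lit 0x0) (nat_lit 0x80000002000020000000000000000000000000000000) := D_1 (nat_lit 125) (nat_lit 145) (nat_lit 175) (nat_lit 3) (nat_lit 5) (nat_lit 7) (nat_lit 6) (nat_lit 5) (nat_lit 10) (by decide +kernel)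
theorem L258196 : W_1 (nat_lit 3) (nat_lit 0x4001e000c0003400700000000000000000000000) (nat_lit 0x0) (nat_lit 0x80000002000038000000000000000000000000000000) := T_1 (nat_lit 124) (nat_lit 123) (nat_lit 0) (nat_lit 8) (nat_lit 8) L258195 (by decide +kernel)
theorem L258197 : W_1 (nat_lit 4) (nat_lit 0x1e000c0003400700000000000000000000000) (nat_lit 0x0) (nat_lit 0x80006002000038000000000000000000000000000000) := T_1 (nat_lit 158) (nat_lit 157) (nat_lit 1) (nat_lit 8) (nat_lit 8) L258196 (by decide +kernel)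
theorem L258198 : W_1 (nat_lit 5) (nat_lit 0x1c000c0003400700000000000000000000000) (nat_lit 0x0) (nat_lit 0x80006002300038000000000000000000000000000000) := T_1 (nat_lit 141) (nat_lit 140) (nat_lit 2) (nat_lit 4) (nat_lit 8) L258197 (by decide +kernel)
theorem L258199 : W_1 (nat_lit 6) (nat_lit 0x18000c0003400700000000000000000000000) (nat_lit 0x0) (nat_lit 0x8000e002700038000000000000000000000000000000) := T_1 (nat_lit 142) (nat_lit 159) (nat_lit 5) (nat_lit 7) (nat_lit 5) L258198 (by decide +kernel)
theorem L258200 : W_1 (nat_lit 7) (nat_lit 0x18000c0003400300000000000000000000000) (nat_lit 0x0) (nat_lit 0x8000e002700038000000c00000000000000000000000) := T_1 (nat_lit 94) (nat_lit 95) (nat_lit 1) (nat_lit 10) (nat_lit 5) L258199 (by decide +kernel)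
theorem L258201 : W_1 (nat_lit 8) (nat_lit 0x10000c0003400300000000000000000000000) (nat_lit 0x0) (nat_lit 0x8000e002f00038000000c00010000000000000000000) := T_1 (nat_lit 143) (nat_lit 76) (nat_lit 6) (nat_lit 7) (nat_lit 8) L258200 (by decide +kernel)
theorem L258202 : W_1 (nat_lit 9) (nat_lit 0x10000c0003000300000000000000000000000) (nat_lit 0x0) (nat_lit 0x8000e002f00038000c00c00010000000000000000000) := T_1 (nat_lit 106) (nat_lit 107) (nat_lit 3) (nat_lit 4) (nat_lit 6) L258201 (by decide +kernel)
theorem L258203 : W_1 (nat_lit 10) (nat_lit 0x1000080003000300000000000000000000000) (nat_lit 0x0) (nat_lit 0x8000e002f00378000c00c00010000000000000000000) := Q_1 (nat_lit 126) (C_1 L258193 (C_1 L258202 (C_1 L258190 N_1))) (by decide +kernel)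
theorem L258249 : W_1 (nat_lit 2) (nat_lit 0x11000f8002200300000000000000000000000) (nat_lit 0x0) (nat_lit 0x4001100000000000000000000000000) := D_1 (nat_lit 122) (nat_lit 104) (nat_lit 108) (nat_lit 0) (nat_lit 6) (nat_lit 7) (nat_lit 2) (nat_lit 3) (nat_lit 7) (by decide +kernel)
theorem L258250 : W_1 (nat_lit 3) (nat_lit 0x11000f8002000300000000000000000000000) (nat_lit 0x0) (nat_lit 0x4001700000000000000000000000000) := T_1 (nat_lit 105) (nat_lit 106) (nat_lit 0) (nat_lit 7) (nat_lit 7) L258249 (by decide +kernel)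
theorem L258251 : W_1 (nat_lit 4) (nat_lit 0x11000f0002000300000000000000000000000) (nat_lit 0x0) (nat_lit 0x8000c001700000000000000000000000000) := T_1 (nat_lit 123) (nat_lit 139) (nat_lit 1) (nat_lit 7) (nat_lit 7) L258250 (by decide +kernel)
theorem L258252 : W_1 (nat_lit 5) (nat_lit 0x10000f0002000300000000000000000000000) (nat_lit 0x0) (nat_lit 0x38000c001700000000000000000000000000) := T_1 (nat_lit 140) (nat_lit 141) (nat_lit 1) (nat_lit 8) (nat_lit 7) L258251 (by decide +kernel)
theorem L258253 : W_1 (nat_lit 6) (nat_lit 0x10000e0002000300000000000000000000000) (nat_lit 0x0) (nat_lit 0x238001c001700000000000000000000000000) := T_1 (nat_lit 124) (nat_lit 145) (nat_lit 3) (nat_lit 5) (nat_lit 7) L258252 (by decide +kernel)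
theorem L258280 : W_1 (nat_lit 2) (nat_lit 0x1000080002000700060000000000000000000) (nat_lit 0x0) (nat_lit 0x190000000000000000000) := D_1 (nat_lit 79) (nat_lit 80) (nat_lit 76) (nat_lit 1) (nat_lit 12) (nat_lit 4) (nat_lit 1) (nat_lit 11) (nat_lit 4) (by decide +kernel)
theorem L258285 : W_1 (nat_lit 3) (nat_lit 0x1000080002000700020000000000000000000) (nat_lit 0x0) (nat_lit 0x801d0000000000000000000) := T_1 (nat_lit 78) (nat_lit 91) (nat_lit 2) (nat_lit 6) (nat_lit 5) L258280 (by decide +kernel)
theorem L258393 : W_1 (nat_lit 4) (nat_lit 0x18000c0000000300000000000000000000000) (nat_lit 0x0) (nat_lit 0x8000700100002000000010000000000000000000) := T_1 (nat_lit 109) (nat_lit 76) (nat_lit 6) (nat_lit 7) (nat_lit 8) L23934 (by decide +kernel)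
theorem L258432 : W_1 (nat_lit 2) (nat_lit 0x10000f8000000300000000000000000000000) (nat_lit 0x0) (nat_lit 0xe00000000000000000000000000) := D_1 (nat_lit 106) (nat_lit 107) (nat_lit 105) (nat_lit 0) (nat_lit 8) (nat_lit 7) (nat_lit 0) (nat_lit 7) (nat_lit 7) (by decide +kernel)
theorem L258433 : W_1 (nat_lit 3) (nat_lit 0x10000f0000000300000000000000000000000) (nat_lit 0x0) (nat_lit 0x800008000e00000000000000000000000000) := T_1 (nat_lit 123) (nat_lit 143) (nat_lit 3) (nat_lit 4) (nat_lit 7) L258432 (by decide +kernel)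
theorem L258434 : W_1 (nat_lit 4) (nat_lit 0x10000e0000000300000000000000000000000) (nat_lit 0x0) (nat_lit 0x2800018000e00000000000000000000000000) := T_1 (nat_lit 124) (nat_lit 145) (nat_lit 3) (nat_lit 5) (nat_lit 7) L258433 (by decide +kernel)
theorem L258474 : W_1 (nat_lit 2) (nat_lit 0x10000f8000000300000000000000000000000) (nat_lit 0x0) (nat_lit 0x380000000000000000000000000000000000) := D_1 (nat_lit 140) (nat_lit 139) (nat_lit 141) (nat_lit 1) (nat_lit 7) (nat_lit 7) (nat_lit 1) (nat_lit 8) (nat_lit 7) (by decide +kernel)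
theorem L258475 : W_1 (nat_lit 3) (nat_lit 0x10000f0000000300000000000000000000000) (nat_lit 0x0) (nat_lit 0xb80008000000000000000000000000000000) := T_1 (nat_lit 123) (nat_lit 143) (nat_lit 3) (nat_lit 4) (nat_lit 7) L258474 (by decide +kernel)
theorem L258476 : W_1 (nat_lit 4) (nat_lit 0x10000e0000000300000000000000000000000) (nat_lit 0x0) (nat_lit 0x2b80018000000000000000000000000000000) := T_1 (nat_lit 124) (nat_lit 145) (nat_lit 3) (nat_lit 5) (nat_lit 7) L258475 (by decide +kernel)
theorem L258478 : W_1 (nat_lit 9) (nat_lit 0x10000c0000000300000000000000000000000) (nat_lit 0x0) (nat_lit 0x10001c002f80038002e00000018000000000000000000) := T_1 (nat_lit 109) (nat_lit 75) (nat_lit 7) (nat_lit 7) (nat_lit 4) L257827 (by decide +kernel)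
theorem L258479 : W_1 (nat_lit 3) (nat_lit 0x10000e0001000300008000000000000000000) (nat_lit 0x0) (nat_lit 0x400000000000080004000400020000000000) := T_1 (nat_lit 91) (nat_lit 142) (nat_lit 6) (nat_lit 6) (nat_lit 8) L257987 (by decide +kernel)
theorem L258480 : W_1 (nat_lit 4) (nat_lit 0x10000e0001000300000000000000000000000) (nat_lit 0x0) (nat_lit 0x40000000200008000c000400020000000000) := T_1 (nat_lit 75) (nat_lit 109) (nat_lit 7) (nat_lit 7) (nat_lit 4) L258479 (by decide +kernel)
theorem L258487 : W_1 (nat_lit 7) (nat_lit 0x10000e0000000300000000000000000000000) (nat_lit 0x0) (nat_lit 0x238001c003700000008000000000000000000) := T_1 (nat_lit 109) (nat_lit 75) (nat_lit 7) (nat_lit 7) (nat_lit 4) L258253 (by decide +kernel)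
theorem L258488 : W_1 (nat_lit 2) (nat_lit 0x11000f8003000300000000000000000000000) (nat_lit 0x0) (nat_lit 0x300000800000000000000000000000000) := D_1 (nat_lit 128) (nat_lit 107) (nat_lit 129) (nat_lit 0) (nat_lit 9) (nat_lit 7) (nat_lit 0) (nat_lit 10) (nat_lit 7) (by decide +kernel)
theorem L258489 : W_1 (nat_lit 3) (nat_lit 0x11000f8002000300000000000000000000000) (nat_lit 0x0) (nat_lit 0x304001800000000000000000000000000) := T_1 (nat_lit 108) (nat_lit 122) (nat_lit 2) (nat_lit 3) (nat_lit 7) L258488 (by decide +kernel)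
theorem L258490 : W_1 (nat_lit 4) (nat_lit 0x11000f8000000300000000000000000000000) (nat_lit 0x0) (nat_lit 0x304003800000008000000000000000000) := T_1 (nat_lit 109) (nat_lit 75) (nat_lit 7) (nat_lit 7) (nat_lit 4) L258489 (by decide +kernel)
theorem L258491 : W_1 (nat_lit 5) (nat_lit 0x11000f0000000300000000000000000000000) (nat_lit 0x0) (nat_lit 0x8030c003800000008000000000000000000) := T_1 (nat_lit 123) (nat_lit 139) (nat_lit 1) (nat_lit 7) (nat_lit 7) L258490 (by decide +kernel)
theorem L258492 : W_1 (nat_lit 6) (nat_lit 0x10000f0000000300000000000000000000000) (nat_lit 0x0) (nat_lit 0x38030c003800000008000000000000000000) := T_1 (nat_lit 140) (nat_lit 141) (nat_lit 1) (nat_lit 8) (nat_lit 7) L258491 (by decide +kernel)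
theorem L258493 : W_1 (nat_lit 7) (nat_lit 0x10000e0000000300000000000000000000000) (nat_lit 0x0) (nat_lit 0x238031c003800000008000000000000000000) := T_1 (nat_lit 124) (nat_lit 145) (nat_lit 3) (nat_lit 5) (nat_lit 7) L258492 (by decide +kernel)
theorem L258565 : W_1 (nat_lit 2) (nat_lit 0x10000f8000000700000000000000000000000) (nat_lit 0x0) (nat_lit 0x380000000000000000000000000000000000) := D_1 (nat_lit 140) (nat_lit 139) (nat_lit 141) (nat_lit 1) (nat_lit 7) (nat_lit 7) (nat_lit 1) (nat_lit 8) (nat_lit 7) (by decide +kernel)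
theorem L258566 : W_1 (nat_lit 3) (nat_lit 0x10000f0000000700000000000000000000000) (nat_lit 0x0) (nat_lit 0xb80008000000000000000000000000000000) := T_1 (nat_lit 123) (nat_lit 143) (nat_lit 3) (nat_lit 4) (nat_lit 7) L258565 (by decide +kernel)
theorem L258567 : W_1 (nat_lit 4) (nat_lit 0x10000e0000000700000000000000000000000) (nat_lit 0x0) (nat_lit 0x2b80018000000000000000000000000000000) := T_1 (nat_lit 124) (nat_lit 145) (nat_lit 3) (nat_lit 5) (nat_lit 7) L258566 (by decide +kernel)
theorem L258607 : W_1 (nat_lit 2) (nat_lit 0x18001c0000000300000000000000000000000) (nat_lit 0x0) (nat_lit 0x600200000000000000000000000000000000) := D_1 (nat_lit 142) (nat_lit 129) (nat_lit 141) (nat_lit 1) (nat_lit 10) (nat_lit 7) (nat_lit 2) (nat_lit 5) (nat_lit 8) (by decide +kernel)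
theorem L258742 : W_1 (nat_lit 2) (nat_lit 0x100008000100078002c000000000000000000) (nat_lit 0x0) (nat_lit 0x20000000000000000400020000000000) := D_1 (nat_lit 58) (nat_lit 41) (nat_lit 125) (nat_lit 5) (nat_lit 7) (nat_lit 2) (nat_lit 6) (nat_lit 6) (nat_lit 7) (by decide +kernel)
theorem L258743 : W_1 (nat_lit 3) (nat_lit 0x100008000000078002c000000000000000000) (nat_lit 0x0) (nat_lit 0x20001800000000000400020000000000) := T_1 (nat_lit 108) (nat_lit 107) (nat_lit 1) (nat_lit 9) (nat_lit 5) L258742 (by decide +kernel)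
theorem L258744 : W_1 (nat_lit 4) (nat_lit 0x1000080000000780024000000000000000000) (nat_lit 0x0) (nat_lit 0x20001800800008000400020000000000) := T_1 (nat_lit 75) (nat_lit 95) (nat_lit 0) (nat_lit 10) (nat_lit 5) L258743 (by decide +kernel)
theorem L258745 : W_1 (nat_lit 5) (nat_lit 0x1000080000000780004000000000000000000) (nat_lit 0x0) (nat_lit 0x20001800800068000400020000000000) := T_1 (nat_lit 77) (nat_lit 78) (nat_lit 2) (nat_lit 6) (nat_lit 5) L258744 (by decide +kernel)
theorem L258746 : W_1 (nat_lit 6) (nat_lit 0x1000080000000780000000000000000000000) (nat_lit 0x0) (nat_lit 0x2000180080006e000400020000000000) := T_1 (nat_lit 74) (nat_lit 73) (nat_lit 0) (nat_lit 9) (nat_lit 5) L258745 (by decide +kernel)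
theorem L258747 : W_1 (nat_lit 7) (nat_lit 0x1000080000000700000000000000000000000) (nat_lit 0x0) (nat_lit 0x20001c008c007f000400020000000000) := Q_1 (nat_lit 91) (C_1 L24436 (C_1 L258746 (C_1 L23639 (C_1 L23633 N_1)))) (by decide +kernel)
theorem L258748 : W_1 (nat_lit 6) (nat_lit 0x1000080000000700000000000000000000000) (nat_lit 0x0) (nat_lit 0x2000700018801fc001000080000000000) := Q_1 (nat_lit 95) (C_1 L23667 (C_1 L257048 (C_1 L257037 (C_1 L23612 N_1)))) (by decide +kernel)
theorem L258749 : W_1 (nat_lit 2) (nat_lit 0x100008000300078002c000340000000000000) (nat_lit 0x0) (nat_lit 0x20000000000000000400020000000000) := D_1 (nat_lit 58) (nat_lit 41) (nat_lit 125) (nat_lit 6) (nat_lit 6) (nat_lit 6) (nat_lit 6) (nat_lit 6) (nat_lit 7) (by decide +kernel)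
theorem L258750 : W_1 (nat_lit 3) (nat_lit 0x100008000200078002c000340000000000000) (nat_lit 0x0) (nat_lit 0x20001000000000000400028000000000) := T_1 (nat_lit 108) (nat_lit 39) (nat_lit 4) (nat_lit 6) (nat_lit 6) L258749 (by decide +kernel)
theorem L258751 : W_1 (nat_lit 4) (nat_lit 0x100008000200078002c000300000000000000) (nat_lit 0x0) (nat_lit 0x200010000000000004c0028000000000) := T_1 (nat_lit 54) (nat_lit 55) (nat_lit 3) (nat_lit 3) (nat_lit 3) L258750 (by decide +kernel)
theorem L258752 : W_1 (nat_lit 5) (nat_lit 0x100008000200078002c000200000000000000) (nat_lit 0x0) (nat_lit 0x200010000000100005c0028000000000) := T_1 (nat_lit 56) (nat_lit 76) (nat_lit 0) (nat_lit 9) (nat_lit 4) L258751 (by decide +kernel)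
theorem L258753 : W_1 (nat_lit 6) (nat_lit 0x100008000200078002c000000000000000000) (nat_lit 0x0) (nat_lit 0x200010000000100007c0038000000000) := T_1 (nat_lit 57) (nat_lit 40) (nat_lit 7) (nat_lit 6) (nat_lit 2) L258752 (by decide +kernel)
theorem L258754 : W_1 (nat_lit 7) (nat_lit 0x1000080002000780028000000000000000000) (nat_lit 0x0) (nat_lit 0x200010000000160007c0038000000000) := T_1 (nat_lit 74) (nat_lit 73) (nat_lit 0) (nat_lit 9) (nat_lit 5) L258753 (by decide +kernel)
theorem L258755 : W_1 (nat_lit 8) (nat_lit 0x1000080002000780008000000000000000000) (nat_lit 0x0) (nat_lit 0x200010000000760007c0038000000000) := T_1 (nat_lit 77) (nat_lit 78) (nat_lit 2) (nat_lit 6) (nat_lit 5) L258754 (by decide +kernel)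
theorem L258756 : W_1 (nat_lit 9) (nat_lit 0x1000080000000780008000000000000000000) (nat_lit 0x0) (nat_lit 0x600030000000760007c0038000000000) := T_1 (nat_lit 109) (nat_lit 126) (nat_lit 7) (nat_lit 7) (nat_lit 4) L258755 (by decide +kernel)
theorem L258757 : W_1 (nat_lit 3) (nat_lit 0x100008000000078000c000000000000000000) (nat_lit 0x0) (nat_lit 0x20001800000000000400020000000000) := T_1 (nat_lit 108) (nat_lit 107) (nat_lit 1) (nat_lit 9) (nat_lit 5) L257174 (by decide +kernel)
theorem L258758 : W_1 (nat_lit 4) (nat_lit 0x1000080000000780008000000000000000000) (nat_lit 0x0) (nat_lit 0x20001800000006000400020000000000) := T_1 (nat_lit 74) (nat_lit 73) (nat_lit 0) (nat_lit 9) (nat_lit 5) L258757 (by decide +kernel)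
theorem L258759 : W_1 (nat_lit 2) (nat_lit 0x100008000200078003c001200040000000000) (nat_lit 0x0) (nat_lit 0x80006000000) := D_1 (nat_lit 43) (nat_lit 25) (nat_lit 26) (nat_lit 4) (nat_lit 9) (nat_lit 5) (nat_lit 5) (nat_lit 9) (nat_lit 1) (by decide +kernel)
theorem L258760 : W_1 (nat_lit 3) (nat_lit 0x100008000200078003c001200000000000000) (nat_lit 0x0) (nat_lit 0x8000c0006000000) := T_1 (nat_lit 42) (nat_lit 59) (nat_lit 5) (nat_lit 8) (nat_lit 2) L258759 (by decide +kernel)
theorem L258761 : W_1 (nat_lit 4) (nat_lit 0x100008000200078003c000200000000000000) (nat_lit 0x0) (nat_lit 0x38000c0006000000) := T_1 (nat_lit 60) (nat_lit 61) (nat_lit 2) (nat_lit 6) (nat_lit 4) L258760 (by decide +kernel)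
theorem L258762 : W_1 (nat_lit 5) (nat_lit 0x100008000200078002c000200000000000000) (nat_lit 0x0) (nat_lit 0x100039000c0006000000) := T_1 (nat_lit 76) (nat_lit 56) (nat_lit 0) (nat_lit 9) (nat_lit 4) L258761 (by decide +kernel)
theorem L258763 : W_1 (nat_lit 6) (nat_lit 0x100008000200078002c000000000000000000) (nat_lit 0x0) (nat_lit 0x10003b000d0006000000) := T_1 (nat_lit 57) (nat_lit 40) (nat_lit 7) (nat_lit 6) (nat_lit 2) L258762 (by decide +kernel)
theorem L258764 : W_1 (nat_lit 7) (nat_lit 0x100008000000078002c000000000000000000) (nat_lit 0x0) (nat_lit 0x40002000000010003b000d0006000000) := T_1 (nat_lit 109) (nat_lit 126) (nat_lit 7) (nat_lit 7) (nat_lit 4) L258763 (by decide +kernel)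
theorem L258765 : W_1 (nat_lit 8) (nat_lit 0x1000080000000780028000000000000000000) (nat_lit 0x0) (nat_lit 0x40002000000016003b000d0006000000) := T_1 (nat_lit 74) (nat_lit 73) (nat_lit 0) (nat_lit 9) (nat_lit 5) L258764 (by decide +kernel)
theorem L258766 : W_1 (nat_lit 9) (nat_lit 0x1000080000000780008000000000000000000) (nat_lit 0x0) (nat_lit 0x40002000000076003b000d0006000000) := T_1 (nat_lit 77) (nat_lit 78) (nat_lit 2) (nat_lit 6) (nat_lit 5) L258765 (by decide +kernel)
theorem L258767 : W_1 (nat_lit 2) (nat_lit 0x1000080003000780028000000000000000000) (nat_lit 0x0) (nat_lit 0x400020000000000000000400000000000000) := D_1 (nat_lit 125) (nat_lit 142) (nat_lit 58) (nat_lit 6) (nat_lit 6) (nat_lit 8) (nat_lit 5) (nat_lit 7) (nat_lit 3) (by decide +kernel)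
theorem L258768 : W_1 (nat_lit 3) (nat_lit 0x1000080002000780028000000000000000000) (nat_lit 0x0) (nat_lit 0x400020001800000000000400000000000000) := T_1 (nat_lit 108) (nat_lit 107) (nat_lit 1) (nat_lit 9) (nat_lit 5) L258767 (by decide +kernel)
theorem L258769 : W_1 (nat_lit 4) (nat_lit 0x1000080002000780008000000000000000000) (nat_lit 0x0) (nat_lit 0x400020001800000060000400000000000000) := T_1 (nat_lit 77) (nat_lit 78) (nat_lit 2) (nat_lit 6) (nat_lit 5) L258768 (by decide +kernel)
theorem L258770 : W_1 (nat_lit 5) (nat_lit 0x1000080000000780008000000000000000000) (nat_lit 0x0) (nat_lit 0x400060003800000060000400000000000000) := T_1 (nat_lit 109) (nat_lit 126) (nat_lit 7) (nat_lit 7) (nat_lit 4) L258769 (by decide +kernel)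
theorem L258771 : W_1 (nat_lit 11) (nat_lit 0x1000080000000780000000000000000000000) (nat_lit 0x0) (nat_lit 0x40006000380000007e003fc00f8006000000) := Q_1 (nat_lit 75) (C_1 L258756 (C_1 L258758 (C_1 L258137 (C_1 L258766 (C_1 L258770 N_1))))) (by decide +kernel)
theorem L258772 : W_1 (nat_lit 12) (nat_lit 0x1000080000000700000000000000000000000) (nat_lit 0x0) (nat_lit 0x400060003c000c007f003fc00f8006000000) := Q_1 (nat_lit 91) (C_1 L24436 (C_1 L258771 (C_1 L23639 (C_1 L23633 N_1)))) (by decide +kernel)
theorem L258773 : W_1 (nat_lit 2) (nat_lit 0x1000080021001f80122000000000000000000) (nat_lit 0x0) (nat_lit 0x2000210000000000000000000) := D_1 (nat_lit 97) (nat_lit 76) (nat_lit 81) (nat_lit 0) (nat_lit 12) (nat_lit 5) (nat_lit 2) (nat_lit 9) (nat_lit 5) (by decide +kernel)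
theorem L258774 : W_1 (nat_lit 3) (nat_lit 0x1000080021001f80022000000000000000000) (nat_lit 0x0) (nat_lit 0x2000390000000000000000000) := T_1 (nat_lit 80) (nat_lit 79) (nat_lit 2) (nat_lit 8) (nat_lit 5) L258773 (by decide +kernel)
theorem L258775 : W_1 (nat_lit 4) (nat_lit 0x1000080021000f80022000000000000000000) (nat_lit 0x0) (nat_lit 0x40003000390000000000000000000) := T_1 (nat_lit 96) (nat_lit 114) (nat_lit 3) (nat_lit 8) (nat_lit 5) L258774 (by decide +kernel)
theorem L258776 : W_1 (nat_lit 5) (nat_lit 0x1000080001000f80022000000000000000000) (nat_lit 0x0) (nat_lit 0x70003000390000000000000000000) := T_1 (nat_lit 113) (nat_lit 112) (nat_lit 3) (nat_lit 7) (nat_lit 5) L258775 (by decide +kernel)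
theorem L258777 : W_1 (nat_lit 6) (nat_lit 0x1000080001000780022000000000000000000) (nat_lit 0x0) (nat_lit 0x72003800390000000000000000000) := T_1 (nat_lit 95) (nat_lit 109) (nat_lit 1) (nat_lit 10) (nat_lit 5) L258776 (by decide +kernel)
theorem L258778 : W_1 (nat_lit 7) (nat_lit 0x1000080000000780022000000000000000000) (nat_lit 0x0) (nat_lit 0x73803800390000000000000000000) := T_1 (nat_lit 108) (nat_lit 107) (nat_lit 1) (nat_lit 9) (nat_lit 5) L258777 (by decide +kernel)
theorem L258779 : W_1 (nat_lit 8) (nat_lit 0x1000080000000780002000000000000000000) (nat_lit 0x0) (nat_lit 0x738038003f0000000000000000000) := T_1 (nat_lit 77) (nat_lit 78) (nat_lit 2) (nat_lit 6) (nat_lit 5) L258778 (by decide +kernel)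
theorem L258780 : W_1 (nat_lit 9) (nat_lit 0x1000080000000780000000000000000000000) (nat_lit 0x0) (nat_lit 0x738038003f6000000000000000000) := T_1 (nat_lit 73) (nat_lit 74) (nat_lit 0) (nat_lit 9) (nat_lit 5) L258779 (by decide +kernel)
theorem L258781 : W_1 (nat_lit 10) (nat_lit 0x1000080000000700000000000000000000000) (nat_lit 0x0) (nat_lit 0x73c038c03f7000000000000000000) := Q_1 (nat_lit 91) (C_1 L258780 (C_1 L24436 (C_1 L23639 (C_1 L23633 N_1)))) (by decide +kernel)
theorem L258782 : W_1 (nat_lit 2) (nat_lit 0x1c000c0012000f00000000000000000000000) (nat_lit 0x0) (nat_lit 0x200300000000000000000000000000000000) := D_1 (nat_lit 128) (nat_lit 141) (nat_lit 129) (nat_lit 2) (nat_lit 5) (nat_lit 8) (nat_lit 1) (nat_lit 10) (nat_lit 7) (by decide +kernel)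
theorem L258783 : W_1 (nat_lit 3) (nat_lit 0x18000c0012000f00000000000000000000000) (nat_lit 0x0) (nat_lit 0x8000600300000000000000000000000000000000) := T_1 (nat_lit 142) (nat_lit 159) (nat_lit 5) (nat_lit 7) (nat_lit 5) L258782 (by decide +kernel)
theorem L258784 : W_1 (nat_lit 4) (nat_lit 0x10000c0012000f00000000000000000000000) (nat_lit 0x0) (nat_lit 0x8000e00300000000000010000000000000000000) := T_1 (nat_lit 143) (nat_lit 76) (nat_lit 6) (nat_lit 7) (nat_lit 8) L258783 (by decide +kernel)
theorem L258785 : W_1 (nat_lit 5) (nat_lit 0x1000080012000f00000000000000000000000) (nat_lit 0x0) (nat_lit 0x8000e00340000000000018000000000000000000) := T_1 (nat_lit 126) (nat_lit 75) (nat_lit 7) (nat_lit 7) (nat_lit 4) L258784 (by decide +kernel)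
theorem L258786 : W_1 (nat_lit 6) (nat_lit 0x1000080010000f00000000000000000000000) (nat_lit 0x0) (nat_lit 0x8000e00340003000000018000000000000000000) := T_1 (nat_lit 109) (nat_lit 108) (nat_lit 1) (nat_lit 10) (nat_lit 5) L258785 (by decide +kernel)
theorem L258787 : W_1 (nat_lit 7) (nat_lit 0x1000080000000f00000000000000000000000) (nat_lit 0x0) (nat_lit 0x8000e00340033000000018000000000000000000) := T_1 (nat_lit 112) (nat_lit 113) (nat_lit 3) (nat_lit 7) (nat_lit 5) L258786 (by decide +kernel)
theorem L258788 : W_1 (nat_lit 8) (nat_lit 0x1000080000000700000000000000000000000) (nat_lit 0x0) (nat_lit 0x8000e003400738018801f8000000000000000000) := Q_1 (nat_lit 95) (C_1 L31989 (C_1 L23667 (C_1 L258787 N_1))) (by decide +kernel)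
theorem L258834 : W_1 (nat_lit 2) (nat_lit 0x10000800028007c0008000000000000000000) (nat_lit 0x0) (nat_lit 0x20030000000000000000000) := D_1 (nat_lit 76) (nat_lit 89) (nat_lit 77) (nat_lit 2) (nat_lit 4) (nat_lit 5) (nat_lit 2) (nat_lit 5) (nat_lit 5) (by decide +kernel)
theorem L258835 : W_1 (nat_lit 3) (nat_lit 0x1000080002800780008000000000000000000) (nat_lit 0x0) (nat_lit 0x400060030000000000000000000) := T_1 (nat_lit 90) (nat_lit 106) (nat_lit 1) (nat_lit 8) (nat_lit 5) L258834 (by decide +kernel)
theorem L258836 : W_1 (nat_lit 4) (nat_lit 0x1000080002000780008000000000000000000) (nat_lit 0x0) (nat_lit 0x1c00060030000000000000000000) := T_1 (nat_lit 107) (nat_lit 108) (nat_lit 1) (nat_lit 9) (nat_lit 5) L258835 (by decide +kernel)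
theorem L258837 : W_1 (nat_lit 5) (nat_lit 0x1000080000000780008000000000000000000) (nat_lit 0x0) (nat_lit 0x40003c00060030000000000000000000) := T_1 (nat_lit 109) (nat_lit 126) (nat_lit 7) (nat_lit 7) (nat_lit 4) L258836 (by decide +kernel)
theorem L258838 : W_1 (nat_lit 2) (nat_lit 0x10000800000007c000a000000000000000000) (nat_lit 0x0) (nat_lit 0x20030000000000000000000) := D_1 (nat_lit 76) (nat_lit 89) (nat_lit 77) (nat_lit 2) (nat_lit 4) (nat_lit 5) (nat_lit 2) (nat_lit 5) (nat_lit 5) (by decide +kernel)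
theorem L258839 : W_1 (nat_lit 3) (nat_lit 0x100008000000078000a000000000000000000) (nat_lit 0x0) (nat_lit 0x60031000000000000000000) := T_1 (nat_lit 90) (nat_lit 72) (nat_lit 0) (nat_lit 8) (nat_lit 5) L258838 (by decide +kernel)
theorem L258840 : W_1 (nat_lit 4) (nat_lit 0x1000080000000780008000000000000000000) (nat_lit 0x0) (nat_lit 0x60037000000000000000000) := T_1 (nat_lit 73) (nat_lit 74) (nat_lit 0) (nat_lit 9) (nat_lit 5) L258839 (by decide +kernel)
theorem L258841 : W_1 (nat_lit 6) (nat_lit 0x1000080000000700008000000000000000000) (nat_lit 0x0) (nat_lit 0x60003c000e0037000400020000000000) := Q_1 (nat_lit 91) (C_1 L258837 (C_1 L258840 (C_1 L258758 N_1))) (by decide +kernel)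
theorem L258842 : W_1 (nat_lit 2) (nat_lit 0x1000080002001f00008000000000000000000) (nat_lit 0x0) (nat_lit 0x70000000000000000000000000000) := D_1 (nat_lit 113) (nat_lit 112) (nat_lit 114) (nat_lit 3) (nat_lit 7) (nat_lit 5) (nat_lit 3) (nat_lit 8) (nat_lit 5) (by decide +kernel)
theorem L258843 : W_1 (nat_lit 3) (nat_lit 0x1000080002000f00008000000000000000000) (nat_lit 0x0) (nat_lit 0x70001000010000000000000000000) := T_1 (nat_lit 96) (nat_lit 76) (nat_lit 0) (nat_lit 11) (nat_lit 5) L258842 (by decide +kernel)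
theorem L258844 : W_1 (nat_lit 4) (nat_lit 0x1000080002000700008000000000000000000) (nat_lit 0x0) (nat_lit 0x71001800010000000000000000000) := T_1 (nat_lit 95) (nat_lit 108) (nat_lit 1) (nat_lit 10) (nat_lit 5) L258843 (by decide +kernel)
theorem L258845 : W_1 (nat_lit 5) (nat_lit 0x1000080000000700008000000000000000000) (nat_lit 0x0) (nat_lit 0x40073001800010000000000000000000) := T_1 (nat_lit 109) (nat_lit 126) (nat_lit 7) (nat_lit 7) (nat_lit 4) L258844 (by decide +kernel)
theorem L258846 : W_1 (nat_lit 7) (nat_lit 0x1000080000000700000000000000000000000) (nat_lit 0x0) (nat_lit 0x60073c018e003f000400020000000000) := Q_1 (nat_lit 75) (C_1 L257128 (C_1 L29545 (C_1 L258841 (C_1 L258845 N_1)))) (by decide +kernel)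
theorem L258847 : W_1 (nat_lit 13) (nat_lit 0x1000080000000300000000000000000000000) (nat_lit 0x0) (nat_lit 0x8000e003600f3c07ce07ff003fc00f8006000000) := Q_1 (nat_lit 94) (C_1 L258747 (C_1 L31985 (C_1 L258748 (C_1 L31982 (C_1 L258772 (C_1 L258781 (C_1 L258788 (C_1 L258846 N_1)))))))) (by decide +kernel)
theorem L258848 : W_1 (nat_lit 2) (nat_lit 0x1000180000000f00040000000000000000000) (nat_lit 0x0) (nat_lit 0x2000000008000000020000000000000000000) := D_1 (nat_lit 111) (nat_lit 77) (nat_lit 145) (nat_lit 5) (nat_lit 9) (nat_lit 4) (nat_lit 6) (nat_lit 9) (nat_lit 8) (by decide +kernel)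
theorem L258849 : W_1 (nat_lit 3) (nat_lit 0x1000180000000f00000000000000000000000) (nat_lit 0x0) (nat_lit 0x20000000080000000e0000000000000000000) := T_1 (nat_lit 78) (nat_lit 79) (nat_lit 2) (nat_lit 7) (nat_lit 5) L258848 (by decide +kernel)
theorem L258850 : W_1 (nat_lit 2) (nat_lit 0x1000180018000f00000000000000000000000) (nat_lit 0x0) (nat_lit 0x40002000000000000000010000000000000000000) := D_1 (nat_lit 145) (nat_lit 76) (nat_lit 162) (nat_lit 4) (nat_lit 9) (nat_lit 8) (nat_lit 6) (nat_lit 9) (nat_lit 9) (by decide +kernel)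
theorem L258851 : W_1 (nat_lit 3) (nat_lit 0x1000180008000f00000000000000000000000) (nat_lit 0x0) (nat_lit 0x40002000000030000000010000000000000000000) := T_1 (nat_lit 112) (nat_lit 113) (nat_lit 3) (nat_lit 7) (nat_lit 5) L258850 (by decide +kernel)
theorem L258852 : W_1 (nat_lit 4) (nat_lit 0x1000180000000f00000000000000000000000) (nat_lit 0x0) (nat_lit 0x40002000000038000000030000000000000000000) := T_1 (nat_lit 111) (nat_lit 77) (nat_lit 5) (nat_lit 9) (nat_lit 4) L258851 (by decide +kernel)
theorem L258853 : W_1 (nat_lit 7) (nat_lit 0x1000080000000f00000000000000000000000) (nat_lit 0x0) (nat_lit 0x4000a8007000380000000fc002000000000000000) := Q_1 (nat_lit 128) (C_1 L256837 (C_1 L255683 (C_1 L258849 (C_1 L258852 N_1)))) (by decide +kernel)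
theorem L258854 : W_1 (nat_lit 8) (nat_lit 0x1000080000000700000000000000000000000) (nat_lit 0x0) (nat_lit 0x4000a8007000780018001fc002000000000000000) := Q_1 (nat_lit 95) (C_1 L23667 (C_1 L257048 (C_1 L257037 (C_1 L258853 N_1)))) (by decide +kernel)
theorem L258855 : W_1 (nat_lit 7) (nat_lit 0x1000080000000700000000000000000000000) (nat_lit 0x0) (nat_lit 0x12003980088006e000400020000000000) := Q_1 (nat_lit 91) (C_1 L23635 (C_1 L258746 (C_1 L32068 N_1))) (by decide +kernel)
theorem L258856 : W_1 (nat_lit 5) (nat_lit 0x1000080000000700000000000000000000000) (nat_lit 0x0) (nat_lit 0x780018801de000000000000000000) := Q_1 (nat_lit 95) (C_1 L23667 (C_1 L257048 (C_1 L257037 (C_1 L23607 N_1)))) (by decide +kernel)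
theorem L258858 : W_1 (nat_lit 2) (nat_lit 0x10000800000007e0001000000000000000000) (nat_lit 0x0) (nat_lit 0xe00000000000000000000000000) := D_1 (nat_lit 106) (nat_lit 107) (nat_lit 105) (nat_lit 1) (nat_lit 8) (nat_lit 5) (nat_lit 1) (nat_lit 7) (nat_lit 5) (by decide +kernel)
theorem L258859 : W_1 (nat_lit 3) (nat_lit 0x10000800000007c0001000000000000000000) (nat_lit 0x0) (nat_lit 0xe00020000800000000000000000) := T_1 (nat_lit 89) (nat_lit 71) (nat_lit 0) (nat_lit 7) (nat_lit 5) L258858 (by decide +kernel)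
theorem L258860 : W_1 (nat_lit 4) (nat_lit 0x10000800000007c0000000000000000000000) (nat_lit 0x0) (nat_lit 0xe00020003800000000000000000) := T_1 (nat_lit 72) (nat_lit 73) (nat_lit 0) (nat_lit 8) (nat_lit 5) L258859 (by decide +kernel)
theorem L258878 : W_1 (nat_lit 2) (nat_lit 0x1000380010000f80040000000000000000000) (nat_lit 0x0) (nat_lit 0x8800400000000000000000000000000000000) := D_1 (nat_lit 130) (nat_lit 143) (nat_lit 147) (nat_lit 1) (nat_lit 11) (nat_lit 7) (nat_lit 7) (nat_lit 10) (nat_lit 4) (by decide +kernel)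
theorem L258879 : W_1 (nat_lit 3) (nat_lit 0x1000180010000f80040000000000000000000) (nat_lit 0x0) (nat_lit 0xa800600000000000000000000000000000000) := T_1 (nat_lit 129) (nat_lit 145) (nat_lit 5) (nat_lit 10) (nat_lit 4) L258878 (by decide +kernel)
theorem L258880 : W_1 (nat_lit 4) (nat_lit 0x1000180010000f80000000000000000000000) (nat_lit 0x0) (nat_lit 0xa8006000000000000c0000000000000000000) := T_1 (nat_lit 78) (nat_lit 79) (nat_lit 2) (nat_lit 7) (nat_lit 5) L258879 (by decide +kernel)
theorem L258881 : W_1 (nat_lit 5) (nat_lit 0x1000180010000780000000000000000000000) (nat_lit 0x0) (nat_lit 0xa8006000200008000c0000000000000000000) := T_1 (nat_lit 95) (nat_lit 113) (nat_lit 3) (nat_lit 7) (nat_lit 5) L258880 (by decide +kernel)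
theorem L258882 : W_1 (nat_lit 6) (nat_lit 0x1000180000000780000000000000000000000) (nat_lit 0x0) (nat_lit 0xa8006000380008000c0000000000000000000) := T_1 (nat_lit 112) (nat_lit 111) (nat_lit 3) (nat_lit 6) (nat_lit 5) L258881 (by decide +kernel)
theorem L258901 : W_1 (nat_lit 3) (nat_lit 0x1000080000000f00060000000000000000000) (nat_lit 0x0) (nat_lit 0x200030000000000001000080000000000) := T_1 (nat_lit 112) (nat_lit 113) (nat_lit 3) (nat_lit 7) (nat_lit 5) L23609 (by decide +kernel)
theorem L258902 : W_1 (nat_lit 4) (nat_lit 0x1000080000000f00020000000000000000000) (nat_lit 0x0) (nat_lit 0x2000300000000c0001000080000000000) := T_1 (nat_lit 78) (nat_lit 79) (nat_lit 2) (nat_lit 7) (nat_lit 5) L258901 (by decide +kernel)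
theorem L258903 : W_1 (nat_lit 2) (nat_lit 0x1000080008001f000a0000000000000000000) (nat_lit 0x0) (nat_lit 0x2000018000000000000000000) := D_1 (nat_lit 76) (nat_lit 97) (nat_lit 75) (nat_lit 0) (nat_lit 12) (nat_lit 5) (nat_lit 0) (nat_lit 11) (nat_lit 5) (by decide +kernel)
theorem L258904 : W_1 (nat_lit 3) (nat_lit 0x1000080008000f000a0000000000000000000) (nat_lit 0x0) (nat_lit 0x3000118000000000000000000) := T_1 (nat_lit 96) (nat_lit 80) (nat_lit 2) (nat_lit 8) (nat_lit 5) L258903 (by decide +kernel)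
theorem L258905 : W_1 (nat_lit 4) (nat_lit 0x1000080008000f00020000000000000000000) (nat_lit 0x0) (nat_lit 0x30001d8000000000000000000) := T_1 (nat_lit 79) (nat_lit 78) (nat_lit 2) (nat_lit 7) (nat_lit 5) L258904 (by decide +kernel)
theorem L258906 : W_1 (nat_lit 5) (nat_lit 0x1000080000000f00020000000000000000000) (nat_lit 0x0) (nat_lit 0x1000080030001d8000000000000000000) := T_1 (nat_lit 111) (nat_lit 128) (nat_lit 5) (nat_lit 9) (nat_lit 4) L258905 (by decide +kernel)
theorem L258907 : W_1 (nat_lit 6) (nat_lit 0x1000080000000700020000000000000000000) (nat_lit 0x0) (nat_lit 0x3000380038001d8001000080000000000) := Q_1 (nat_lit 95) (C_1 L32168 (C_1 L258902 (C_1 L258906 N_1))) (by decide +kernel)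
theorem L258908 : W_1 (nat_lit 2) (nat_lit 0x10000800080007c0020000000000000000000) (nat_lit 0x0) (nat_lit 0x1c00000000000000000000000000) := D_1 (nat_lit 107) (nat_lit 108) (nat_lit 106) (nat_lit 1) (nat_lit 9) (nat_lit 5) (nat_lit 1) (nat_lit 8) (nat_lit 5) (by decide +kernel)
theorem L258909 : W_1 (nat_lit 3) (nat_lit 0x1000080008000780020000000000000000000) (nat_lit 0x0) (nat_lit 0x1c00040010000000000000000000) := T_1 (nat_lit 90) (nat_lit 76) (nat_lit 2) (nat_lit 5) (nat_lit 5) L258908 (by decide +kernel)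
theorem L258910 : W_1 (nat_lit 4) (nat_lit 0x1000080008000700020000000000000000000) (nat_lit 0x0) (nat_lit 0x11c000c0010000000000000000000) := T_1 (nat_lit 91) (nat_lit 112) (nat_lit 3) (nat_lit 6) (nat_lit 5) L258909 (by decide +kernel)
theorem L258911 : W_1 (nat_lit 5) (nat_lit 0x1000080000000700020000000000000000000) (nat_lit 0x0) (nat_lit 0x100019c000c0010000000000000000000) := T_1 (nat_lit 111) (nat_lit 128) (nat_lit 5) (nat_lit 9) (nat_lit 4) L258910 (by decide +kernel)
theorem L258912 : W_1 (nat_lit 7) (nat_lit 0x1000080000000700000000000000000000000) (nat_lit 0x0) (nat_lit 0x300039c038c01f8001000080000000000) := Q_1 (nat_lit 77) (C_1 L23749 (C_1 L258907 (C_1 L23747 (C_1 L258911 N_1)))) (by decide +kernel)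
theorem L258913 : W_1 (nat_lit 9) (nat_lit 0x1000080000000300000000000000000000000) (nat_lit 0x0) (nat_lit 0x4000a800720079c03cc01ff0034000a0000000000) := Q_1 (nat_lit 94) (C_1 L258748 (C_1 L258854 (C_1 L258747 (C_1 L258855 (C_1 L31986 (C_1 L258856 (C_1 L258912 (C_1 L257050 N_1)))))))) (by decide +kernel)
theorem L258914 : W_1 (nat_lit 3) (nat_lit 0x100008000000030001e000000000000000000) (nat_lit 0x0) (nat_lit 0x40002000000000001800040000000000) := T_1 (nat_lit 109) (nat_lit 126) (nat_lit 7) (nat_lit 7) (nat_lit 4) L29155 (by decide +kernel)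
theorem L258915 : W_1 (nat_lit 4) (nat_lit 0x100008000000030001c000000000000000000) (nat_lit 0x0) (nat_lit 0x40002000000003001800040000000000) := T_1 (nat_lit 73) (nat_lit 72) (nat_lit 3) (nat_lit 4) (nat_lit 4) L258914 (by decide +kernel)
theorem L258916 : W_1 (nat_lit 2) (nat_lit 0x100008000200030000e000c00000000000000) (nat_lit 0x0) (nat_lit 0x1200010000000000) := D_1 (nat_lit 57) (nat_lit 40) (nat_lit 60) (nat_lit 4) (nat_lit 7) (nat_lit 6) (nat_lit 1) (nat_lit 9) (nat_lit 3) (by decide +kernel)
theorem L258917 : W_1 (nat_lit 3) (nat_lit 0x100008000200030000e000800000000000000) (nat_lit 0x0) (nat_lit 0x1600050000000000) := T_1 (nat_lit 58) (nat_lit 42) (nat_lit 6) (nat_lit 7) (nat_lit 6) L258916 (by decide +kernel)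
theorem L258918 : W_1 (nat_lit 4) (nat_lit 0x100008000000030000e000800000000000000) (nat_lit 0x0) (nat_lit 0x40002000000000001600050000000000) := T_1 (nat_lit 109) (nat_lit 126) (nat_lit 7) (nat_lit 7) (nat_lit 4) L258917 (by decide +kernel)
theorem L258919 : W_1 (nat_lit 5) (nat_lit 0x100008000000030000c000800000000000000) (nat_lit 0x0) (nat_lit 0x40002000000003001600050000000000) := T_1 (nat_lit 73) (nat_lit 72) (nat_lit 3) (nat_lit 4) (nat_lit 4) L258918 (by decide +kernel)
theorem L258920 : W_1 (nat_lit 6) (nat_lit 0x100008000000030000c000000000000000000) (nat_lit 0x0) (nat_lit 0x40002000000013003e00050000000000) := Q_1 (nat_lit 59) (C_1 L257193 (C_1 L257150 (C_1 L258919 (C_1 L257153 N_1)))) (by decide +kernel)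
theorem L258937 : W_1 (nat_lit 2) (nat_lit 0x1000080002000700008000400060000000000) (nat_lit 0x0) (nat_lit 0x200010000800000) := D_1 (nat_lit 40) (nat_lit 57) (nat_lit 23) (nat_lit 4) (nat_lit 7) (nat_lit 6) (nat_lit 4) (nat_lit 7) (nat_lit 5) (by decide +kernel)
theorem L258938 : W_1 (nat_lit 3) (nat_lit 0x1000080002000700008000400040000000000) (nat_lit 0x0) (nat_lit 0x200030002800000) := T_1 (nat_lit 41) (nat_lit 25) (nat_lit 6) (nat_lit 7) (nat_lit 5) L258937 (by decide +kernel)
theorem L258939 : W_1 (nat_lit 4) (nat_lit 0x1000080002000700008000400000000000000) (nat_lit 0x0) (nat_lit 0xa00070002800000) := T_1 (nat_lit 42) (nat_lit 59) (nat_lit 6) (nat_lit 7) (nat_lit 6) L258938 (by decide +kernel)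
theorem L258940 : W_1 (nat_lit 5) (nat_lit 0x1000080000000700008000400000000000000) (nat_lit 0x0) (nat_lit 0x40002000000000000a00070002800000) := T_1 (nat_lit 109) (nat_lit 126) (nat_lit 7) (nat_lit 7) (nat_lit 4) L258939 (by decide +kernel)
theorem L258960 : W_1 (nat_lit 2) (nat_lit 0x1000080000000780044000000000000000000) (nat_lit 0x0) (nat_lit 0x800088000000000000000000) := D_1 (nat_lit 95) (nat_lit 75) (nat_lit 79) (nat_lit 0) (nat_lit 10) (nat_lit 5) (nat_lit 2) (nat_lit 7) (nat_lit 5) (by decide +kernel)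
theorem L258961 : W_1 (nat_lit 3) (nat_lit 0x1000080000000780004000000000000000000) (nat_lit 0x0) (nat_lit 0x8000e8000000000000000000) := T_1 (nat_lit 78) (nat_lit 77) (nat_lit 2) (nat_lit 6) (nat_lit 5) L258960 (by decide +kernel)
theorem L258962 : W_1 (nat_lit 4) (nat_lit 0x1000080000000780000000000000000000000) (nat_lit 0x0) (nat_lit 0x8000ee000000000000000000) := T_1 (nat_lit 74) (nat_lit 73) (nat_lit 0) (nat_lit 9) (nat_lit 5) L258961 (by decide +kernel)
theorem L258968 : W_1 (nat_lit 2) (nat_lit 0x10000800000007c0000000000000000000000) (nat_lit 0x0) (nat_lit 0x7000000000000000000) := D_1 (nat_lit 73) (nat_lit 74) (nat_lit 72) (nat_lit 0) (nat_lit 9) (nat_lit 5) (nat_lit 0) (nat_lit 8) (nat_lit 5) (by decide +kernel)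
theorem L258969 : W_1 (nat_lit 2) (nat_lit 0x10000800004007f0000800000000000000000) (nat_lit 0x0) (nat_lit 0x1c000000000000000000) := D_1 (nat_lit 75) (nat_lit 76) (nat_lit 74) (nat_lit 2) (nat_lit 4) (nat_lit 5) (nat_lit 2) (nat_lit 3) (nat_lit 5) (by decide +kernel)
theorem L258970 : W_1 (nat_lit 3) (nat_lit 0x10000800004007e0000800000000000000000) (nat_lit 0x0) (nat_lit 0x1001c400000000000000000) := T_1 (nat_lit 88) (nat_lit 70) (nat_lit 0) (nat_lit 6) (nat_lit 5) L258969 (by decide +kernel)
theorem L258971 : W_1 (nat_lit 4) (nat_lit 0x10000800004007e0000000000000000000000) (nat_lit 0x0) (nat_lit 0x1001dc00000000000000000) := T_1 (nat_lit 71) (nat_lit 72) (nat_lit 0) (nat_lit 7) (nat_lit 5) L258970 (by decide +kernel)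
theorem L258972 : W_1 (nat_lit 5) (nat_lit 0x10000800004007c0000000000000000000000) (nat_lit 0x0) (nat_lit 0x20003001dc00000000000000000) := T_1 (nat_lit 89) (nat_lit 105) (nat_lit 1) (nat_lit 7) (nat_lit 5) L258971 (by decide +kernel)
theorem L258973 : W_1 (nat_lit 6) (nat_lit 0x10000800000007c0000000000000000000000) (nat_lit 0x0) (nat_lit 0xe0003001dc00000000000000000) := T_1 (nat_lit 106) (nat_lit 107) (nat_lit 1) (nat_lit 8) (nat_lit 5) L258972 (by decide +kernel)
theorem L258974 : W_1 (nat_lit 2) (nat_lit 0x10000800004007e0004000000000000000000) (nat_lit 0x0) (nat_lit 0x800018000000000000000000) := D_1 (nat_lit 75) (nat_lit 76) (nat_lit 95) (nat_lit 2) (nat_lit 4) (nat_lit 5) (nat_lit 0) (nat_lit 10) (nat_lit 5) (by decide +kernel)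
theorem L258975 : W_1 (nat_lit 3) (nat_lit 0x10000800004007e0000000000000000000000) (nat_lit 0x0) (nat_lit 0x80001e000000000000000000) := T_1 (nat_lit 74) (nat_lit 73) (nat_lit 0) (nat_lit 9) (nat_lit 5) L258974 (by decide +kernel)
theorem L258976 : W_1 (nat_lit 4) (nat_lit 0x10000800004007c0000000000000000000000) (nat_lit 0x0) (nat_lit 0x20082001e000000000000000000) := T_1 (nat_lit 89) (nat_lit 105) (nat_lit 1) (nat_lit 7) (nat_lit 5) L258975 (by decide +kernel)
theorem L258977 : W_1 (nat_lit 5) (nat_lit 0x10000800000007c0000000000000000000000) (nat_lit 0x0) (nat_lit 0xe0082001e000000000000000000) := T_1 (nat_lit 106) (nat_lit 107) (nat_lit 1) (nat_lit 8) (nat_lit 5) L258976 (by decide +kernel)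
theorem L258978 : W_1 (nat_lit 7) (nat_lit 0x1000080000000780000000000000000000000) (nat_lit 0x0) (nat_lit 0xe0087001fc00000000000000000) := Q_1 (nat_lit 90) (C_1 L258860 (C_1 L258968 (C_1 L258973 (C_1 L258977 N_1)))) (by decide +kernel)
theorem L258979 : W_1 (nat_lit 2) (nat_lit 0x10000800080007e0021000000000000000000) (nat_lit 0x0) (nat_lit 0xe00000000000000000000000000) := D_1 (nat_lit 106) (nat_lit 107) (nat_lit 105) (nat_lit 1) (nat_lit 8) (nat_lit 5) (nat_lit 1) (nat_lit 7) (nat_lit 5) (by decide +kernel)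
theorem L258980 : W_1 (nat_lit 3) (nat_lit 0x10000800080007c0021000000000000000000) (nat_lit 0x0) (nat_lit 0xe00020000800000000000000000) := T_1 (nat_lit 89) (nat_lit 71) (nat_lit 0) (nat_lit 7) (nat_lit 5) L258979 (by decide +kernel)
theorem L258981 : W_1 (nat_lit 4) (nat_lit 0x10000800080007c0020000000000000000000) (nat_lit 0x0) (nat_lit 0xe00020003800000000000000000) := T_1 (nat_lit 72) (nat_lit 73) (nat_lit 0) (nat_lit 8) (nat_lit 5) L258980 (by decide +kernel)
theorem L258982 : W_1 (nat_lit 5) (nat_lit 0x10000800000007c0020000000000000000000) (nat_lit 0x0) (nat_lit 0x100008e00020003800000000000000000) := T_1 (nat_lit 111) (nat_lit 128) (nat_lit 5) (nat_lit 9) (nat_lit 4) L258981 (by decide +kernel)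
theorem L258983 : W_1 (nat_lit 6) (nat_lit 0x1000080000000780020000000000000000000) (nat_lit 0x0) (nat_lit 0x100008e00060013800000000000000000) := T_1 (nat_lit 90) (nat_lit 76) (nat_lit 2) (nat_lit 5) (nat_lit 5) L258982 (by decide +kernel)
theorem L258984 : W_1 (nat_lit 7) (nat_lit 0x1000080000000780000000000000000000000) (nat_lit 0x0) (nat_lit 0x100008e00060073800000000000000000) := T_1 (nat_lit 77) (nat_lit 78) (nat_lit 2) (nat_lit 6) (nat_lit 5) L258983 (by decide +kernel)
theorem L258993 : W_1 (nat_lit 2) (nat_lit 0x1000080000000f80000000000000000000000) (nat_lit 0x0) (nat_lit 0xe0000000000000000000) := D_1 (nat_lit 78) (nat_lit 77) (nat_lit 79) (nat_lit 2) (nat_lit 6) (nat_lit 5) (nat_lit 2) (nat_lit 7) (nat_lit 5) (by decide +kernel)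
theorem L258994 : W_1 (nat_lit 2) (nat_lit 0x1000080000000f80088000000000000000000) (nat_lit 0x0) (nat_lit 0x1000110000000000000000000) := D_1 (nat_lit 96) (nat_lit 76) (nat_lit 80) (nat_lit 0) (nat_lit 11) (nat_lit 5) (nat_lit 2) (nat_lit 8) (nat_lit 5) (by decide +kernel)
theorem L258995 : W_1 (nat_lit 3) (nat_lit 0x1000080000000f80008000000000000000000) (nat_lit 0x0) (nat_lit 0x10001d0000000000000000000) := T_1 (nat_lit 79) (nat_lit 78) (nat_lit 2) (nat_lit 7) (nat_lit 5) L258994 (by decide +kernel)
theorem L258996 : W_1 (nat_lit 4) (nat_lit 0x1000080000000f80000000000000000000000) (nat_lit 0x0) (nat_lit 0x10001dc000000000000000000) := T_1 (nat_lit 75) (nat_lit 74) (nat_lit 0) (nat_lit 10) (nat_lit 5) L258995 (by decide +kernel)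
theorem L258997 : W_1 (nat_lit 2) (nat_lit 0x1000080000000f80018000000000000000000) (nat_lit 0x0) (nat_lit 0x60020000000000000000000) := D_1 (nat_lit 90) (nat_lit 89) (nat_lit 77) (nat_lit 2) (nat_lit 4) (nat_lit 5) (nat_lit 2) (nat_lit 5) (nat_lit 5) (by decide +kernel)
theorem L258998 : W_1 (nat_lit 3) (nat_lit 0x1000080000000f80008000000000000000000) (nat_lit 0x0) (nat_lit 0x1060030000000000000000000) := T_1 (nat_lit 76) (nat_lit 96) (nat_lit 0) (nat_lit 11) (nat_lit 5) L258997 (by decide +kernel)
theorem L258999 : W_1 (nat_lit 4) (nat_lit 0x1000080000000f80000000000000000000000) (nat_lit 0x0) (nat_lit 0x106003c000000000000000000) := T_1 (nat_lit 75) (nat_lit 74) (nat_lit 0) (nat_lit 10) (nat_lit 5) L258998 (by decide +kernel)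
theorem L259000 : W_1 (nat_lit 5) (nat_lit 0x1000080000000780000000000000000000000) (nat_lit 0x0) (nat_lit 0x18601fc000000000000000000) := Q_1 (nat_lit 95) (C_1 L258993 (C_1 L258996 (C_1 L258999 N_1))) (by decide +kernel)
theorem L259001 : W_1 (nat_lit 8) (nat_lit 0x1000080000000700000000000000000000000) (nat_lit 0x0) (nat_lit 0x100008e018f01ffc00000000000000000) := Q_1 (nat_lit 91) (C_1 L23639 (C_1 L258962 (C_1 L258978 (C_1 L258984 (C_1 L259000 N_1))))) (by decide +kernel)
theorem L259002 : W_1 (nat_lit 5) (nat_lit 0x1000080000000700000000000000000000000) (nat_lit 0x0) (nat_lit 0x780018801ee000000000000000000) := Q_1 (nat_lit 95) (C_1 L23667 (C_1 L23597 (C_1 L23607 N_1))) (by decide +kernel)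
theorem L259003 : W_1 (nat_lit 2) (nat_lit 0x10000800004007e0004000000000000000000) (nat_lit 0x0) (nat_lit 0x10018000000000000000000) := D_1 (nat_lit 75) (nat_lit 88) (nat_lit 76) (nat_lit 2) (nat_lit 3) (nat_lit 5) (nat_lit 2) (nat_lit 4) (nat_lit 5) (by decide +kernel)
theorem L259004 : W_1 (nat_lit 3) (nat_lit 0x10000800004007c0004000000000000000000) (nat_lit 0x0) (nat_lit 0x200030018000000000000000000) := T_1 (nat_lit 89) (nat_lit 105) (nat_lit 1) (nat_lit 7) (nat_lit 5) L259003 (by decide +kernel)
theorem L259005 : W_1 (nat_lit 4) (nat_lit 0x10000800000007c0004000000000000000000) (nat_lit 0x0) (nat_lit 0xe00030018000000000000000000) := T_1 (nat_lit 106) (nat_lit 107) (nat_lit 1) (nat_lit 8) (nat_lit 5) L259004 (by decide +kernel)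
theorem L259006 : W_1 (nat_lit 5) (nat_lit 0x10000800000007c0000000000000000000000) (nat_lit 0x0) (nat_lit 0xe0003001e000000000000000000) := T_1 (nat_lit 74) (nat_lit 73) (nat_lit 0) (nat_lit 9) (nat_lit 5) L259005 (by decide +kernel)
theorem L259007 : W_1 (nat_lit 7) (nat_lit 0x1000080000000780000000000000000000000) (nat_lit 0x0) (nat_lit 0xe0007001fc00000000000000000) := Q_1 (nat_lit 90) (C_1 L258860 (C_1 L258973 (C_1 L258968 (C_1 L259006 N_1)))) (by decide +kernel)
theorem L259008 : W_1 (nat_lit 8) (nat_lit 0x1000080000000700000000000000000000000) (nat_lit 0x0) (nat_lit 0x100018e000f007fc00000000000000000) := Q_1 (nat_lit 91) (C_1 L258984 (C_1 L23639 (C_1 L23635 (C_1 L259007 N_1)))) (by decide +kernel)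
theorem L259010 : W_1 (nat_lit 2) (nat_lit 0x1000080008003f000a0000000000000000000) (nat_lit 0x0) (nat_lit 0xe0000000000000000000000000000) := D_1 (nat_lit 114) (nat_lit 113) (nat_lit 115) (nat_lit 3) (nat_lit 8) (nat_lit 5) (nat_lit 3) (nat_lit 9) (nat_lit 5) (by decide +kernel)
theorem L259011 : W_1 (nat_lit 3) (nat_lit 0x1000080008001f000a0000000000000000000) (nat_lit 0x0) (nat_lit 0xe0002000010000000000000000000) := T_1 (nat_lit 97) (nat_lit 76) (nat_lit 0) (nat_lit 12) (nat_lit 5) L259010 (by decide +kernel)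
theorem L259012 : W_1 (nat_lit 4) (nat_lit 0x1000080008000f000a0000000000000000000) (nat_lit 0x0) (nat_lit 0xe0003000110000000000000000000) := T_1 (nat_lit 96) (nat_lit 80) (nat_lit 2) (nat_lit 8) (nat_lit 5) L259011 (by decide +kernel)
theorem L259013 : W_1 (nat_lit 5) (nat_lit 0x1000080008000f00020000000000000000000) (nat_lit 0x0) (nat_lit 0xe00030001d0000000000000000000) := T_1 (nat_lit 79) (nat_lit 78) (nat_lit 2) (nat_lit 7) (nat_lit 5) L259012 (by decide +kernel)
theorem L259014 : W_1 (nat_lit 6) (nat_lit 0x1000080000000f00020000000000000000000) (nat_lit 0x0) (nat_lit 0x1000e80030001d0000000000000000000) := T_1 (nat_lit 111) (nat_lit 128) (nat_lit 5) (nat_lit 9) (nat_lit 4) L259013 (by decide +kernel)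
theorem L259015 : W_1 (nat_lit 2) (nat_lit 0x1000080008007f000a0000000000000000000) (nat_lit 0x0) (nat_lit 0x1c0000000000000000000000000000) := D_1 (nat_lit 115) (nat_lit 114) (nat_lit 116) (nat_lit 3) (nat_lit 9) (nat_lit 5) (nat_lit 3) (nat_lit 10) (nat_lit 5) (by decide +kernel)
theorem L259016 : W_1 (nat_lit 3) (nat_lit 0x1000080008003f000a0000000000000000000) (nat_lit 0x0) (nat_lit 0x1d0004000000000000000000000000) := T_1 (nat_lit 98) (nat_lit 112) (nat_lit 1) (nat_lit 13) (nat_lit 5) L259015 (by decide +kernel)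
theorem L259017 : W_1 (nat_lit 4) (nat_lit 0x1000080008001f000a0000000000000000000) (nat_lit 0x0) (nat_lit 0x1d0006000010000000000000000000) := T_1 (nat_lit 97) (nat_lit 76) (nat_lit 0) (nat_lit 12) (nat_lit 5) L259016 (by decide +kernel)
theorem L259018 : W_1 (nat_lit 5) (nat_lit 0x1000080008000f000a0000000000000000000) (nat_lit 0x0) (nat_lit 0x1d0007000110000000000000000000) := T_1 (nat_lit 96) (nat_lit 80) (nat_lit 2) (nat_lit 8) (nat_lit 5) L259017 (by decide +kernel)
theorem L259019 : W_1 (nat_lit 6) (nat_lit 0x1000080000000f000a0000000000000000000) (nat_lit 0x0) (nat_lit 0x1001d8007000110000000000000000000) := T_1 (nat_lit 111) (nat_lit 128) (nat_lit 5) (nat_lit 9) (nat_lit 4) L259018 (by decide +kernel)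
theorem L259020 : W_1 (nat_lit 7) (nat_lit 0x1000080000000f00020000000000000000000) (nat_lit 0x0) (nat_lit 0x1001d80070001d0000000000000000000) := T_1 (nat_lit 79) (nat_lit 78) (nat_lit 2) (nat_lit 7) (nat_lit 5) L259019 (by decide +kernel)
theorem L259021 : W_1 (nat_lit 8) (nat_lit 0x1000080000000700020000000000000000000) (nat_lit 0x0) (nat_lit 0x3001f80078001d0001000080000000000) := Q_1 (nat_lit 95) (C_1 L32168 (C_1 L258902 (C_1 L259014 (C_1 L259020 N_1)))) (by decide +kernel)
theorem L259022 : W_1 (nat_lit 5) (nat_lit 0x1000080008000780020000000000000000000) (nat_lit 0x0) (nat_lit 0xe00060013800000000000000000) := T_1 (nat_lit 90) (nat_lit 76) (nat_lit 2) (nat_lit 5) (nat_lit 5) L258981 (by decide +kernel)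
theorem L259023 : W_1 (nat_lit 6) (nat_lit 0x1000080008000700020000000000000000000) (nat_lit 0x0) (nat_lit 0x10e000e0013800000000000000000) := T_1 (nat_lit 91) (nat_lit 112) (nat_lit 3) (nat_lit 6) (nat_lit 5) L259022 (by decide +kernel)
theorem L259024 : W_1 (nat_lit 7) (nat_lit 0x1000080000000700020000000000000000000) (nat_lit 0x0) (nat_lit 0x100018e000e0013800000000000000000) := T_1 (nat_lit 111) (nat_lit 128) (nat_lit 5) (nat_lit 9) (nat_lit 4) L259023 (by decide +kernel)
theorem L259025 : W_1 (nat_lit 9) (nat_lit 0x1000080000000700000000000000000000000) (nat_lit 0x0) (nat_lit 0x3001f8e078e01f3801000080000000000) := Q_1 (nat_lit 77) (C_1 L259021 (C_1 L23749 (C_1 L23747 (C_1 L259024 N_1)))) (by decide +kernel)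
theorem L259033 : W_1 (nat_lit 2) (nat_lit 0x100008000a4007e0028800000000000000000) (nat_lit 0x0) (nat_lit 0x10004400000000000000000) := D_1 (nat_lit 88) (nat_lit 70) (nat_lit 74) (nat_lit 0) (nat_lit 6) (nat_lit 5) (nat_lit 2) (nat_lit 3) (nat_lit 5) (by decide +kernel)
theorem L259034 : W_1 (nat_lit 3) (nat_lit 0x100008000a4007e0028000000000000000000) (nat_lit 0x0) (nat_lit 0x10005c00000000000000000) := T_1 (nat_lit 71) (nat_lit 72) (nat_lit 0) (nat_lit 7) (nat_lit 5) L259033 (by decide +kernel)
theorem L259035 : W_1 (nat_lit 4) (nat_lit 0x100008000a4007c0028000000000000000000) (nat_lit 0x0) (nat_lit 0x200030005c00000000000000000) := T_1 (nat_lit 89) (nat_lit 105) (nat_lit 1) (nat_lit 7) (nat_lit 5) L259034 (by decide +kernel)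
theorem L259036 : W_1 (nat_lit 5) (nat_lit 0x100008000a0007c0028000000000000000000) (nat_lit 0x0) (nat_lit 0xe00030005c00000000000000000) := T_1 (nat_lit 106) (nat_lit 107) (nat_lit 1) (nat_lit 8) (nat_lit 5) L259035 (by decide +kernel)
theorem L259041 : W_1 (nat_lit 2) (nat_lit 0x100008003a000700028001000180000000000) (nat_lit 0x0) (nat_lit 0x800040002000000) := D_1 (nat_lit 42) (nat_lit 59) (nat_lit 25) (nat_lit 4) (nat_lit 9) (nat_lit 6) (nat_lit 4) (nat_lit 9) (nat_lit 5) (by decide +kernel)
theorem L259042 : W_1 (nat_lit 3) (nat_lit 0x100008003a000700028001000100000000000) (nat_lit 0x0) (nat_lit 0x8000c000a000000) := T_1 (nat_lit 43) (nat_lit 27) (nat_lit 6) (nat_lit 9) (nat_lit 5) L259041 (by decide +kernel)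
theorem L259043 : W_1 (nat_lit 4) (nat_lit 0x100008003a000700028001000000000000000) (nat_lit 0x0) (nat_lit 0x28001c000a000000) := T_1 (nat_lit 44) (nat_lit 61) (nat_lit 6) (nat_lit 9) (nat_lit 6) L259042 (by decide +kernel)
theorem L259044 : W_1 (nat_lit 5) (nat_lit 0x100008003a000700028000000000000000000) (nat_lit 0x0) (nat_lit 0x2000000000000000038001c000a000000) := T_1 (nat_lit 60) (nat_lit 129) (nat_lit 7) (nat_lit 9) (nat_lit 3) L259043 (by decide +kernel)
theorem L259045 : W_1 (nat_lit 6) (nat_lit 0x100008001a000700028000000000000000000) (nat_lit 0x0) (nat_lit 0x2000600000000000038001c000a000000) := T_1 (nat_lit 113) (nat_lit 114) (nat_lit 0) (nat_lit 12) (nat_lit 6) L259044 (by decide +kernel)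
theorem L259046 : W_1 (nat_lit 7) (nat_lit 0x100008000a000700028000000000000000000) (nat_lit 0x0) (nat_lit 0x2000700000800000038001c000a000000) := T_1 (nat_lit 112) (nat_lit 91) (nat_lit 3) (nat_lit 6) (nat_lit 5) L259045 (by decide +kernel)
theorem L259047 : W_1 (nat_lit 8) (nat_lit 0x100008000a000700008000000000000000000) (nat_lit 0x0) (nat_lit 0x3000700000800200038001c000a000000) := T_1 (nat_lit 77) (nat_lit 128) (nat_lit 5) (nat_lit 9) (nat_lit 4) L259046 (by decide +kernel)
theorem L259048 : W_1 (nat_lit 9) (nat_lit 0x1000080008000700008000000000000000000) (nat_lit 0x0) (nat_lit 0x3400720000800200038001c000a000000) := T_1 (nat_lit 109) (nat_lit 126) (nat_lit 7) (nat_lit 7) (nat_lit 4) L259047 (by decide +kernel)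
theorem L259049 : W_1 (nat_lit 2) (nat_lit 0x10000800080007c000a000000000000000000) (nat_lit 0x0) (nat_lit 0x20030000000000000000000) := D_1 (nat_lit 76) (nat_lit 89) (nat_lit 77) (nat_lit 2) (nat_lit 4) (nat_lit 5) (nat_lit 2) (nat_lit 5) (nat_lit 5) (by decide +kernel)
theorem L259050 : W_1 (nat_lit 3) (nat_lit 0x100008000800078000a000000000000000000) (nat_lit 0x0) (nat_lit 0x60031000000000000000000) := T_1 (nat_lit 90) (nat_lit 72) (nat_lit 0) (nat_lit 8) (nat_lit 5) L259049 (by decide +kernel)
theorem L259051 : W_1 (nat_lit 4) (nat_lit 0x1000080008000780008000000000000000000) (nat_lit 0x0) (nat_lit 0x60037000000000000000000) := T_1 (nat_lit 73) (nat_lit 74) (nat_lit 0) (nat_lit 9) (nat_lit 5) L259050 (by decide +kernel)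
theorem L259052 : W_1 (nat_lit 5) (nat_lit 0x1000080008000700008000000000000000000) (nat_lit 0x0) (nat_lit 0x100000e0037000000000000000000) := T_1 (nat_lit 91) (nat_lit 112) (nat_lit 3) (nat_lit 6) (nat_lit 5) L259051 (by decide +kernel)
theorem L259053 : W_1 (nat_lit 2) (nat_lit 0x10001c001800070001a000000040000000000) (nat_lit 0x0) (nat_lit 0x200060000000000000000000000000000) := D_1 (nat_lit 113) (nat_lit 114) (nat_lit 129) (nat_lit 1) (nat_lit 12) (nat_lit 6) (nat_lit 2) (nat_lit 7) (nat_lit 7) (by decide +kernel)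
theorem L259054 : W_1 (nat_lit 3) (nat_lit 0x10001c000800070001a000000040000000000) (nat_lit 0x0) (nat_lit 0x220070000000000000000000000000000) := T_1 (nat_lit 112) (nat_lit 125) (nat_lit 2) (nat_lit 6) (nat_lit 7) L259053 (by decide +kernel)
theorem L259055 : W_1 (nat_lit 4) (nat_lit 0x10001c000800070001a000000000000000000) (nat_lit 0x0) (nat_lit 0x220070000000000000800040000000000) := T_1 (nat_lit 42) (nat_lit 59) (nat_lit 7) (nat_lit 8) (nat_lit 2) L259054 (by decide +kernel)
theorem L259056 : W_1 (nat_lit 5) (nat_lit 0x10001c0008000700018000000000000000000) (nat_lit 0x0) (nat_lit 0x220070000000006000800040000000000) := T_1 (nat_lit 73) (nat_lit 74) (nat_lit 3) (nat_lit 5) (nat_lit 4) L259055 (by decide +kernel)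
theorem L259057 : W_1 (nat_lit 6) (nat_lit 0x10001c0008000700008000000000000000000) (nat_lit 0x0) (nat_lit 0x2000220070000000016000800040000000000) := T_1 (nat_lit 76) (nat_lit 145) (nat_lit 4) (nat_lit 9) (nat_lit 8) L259056 (by decide +kernel)
theorem L259058 : W_1 (nat_lit 7) (nat_lit 0x10000c0008000700008000000000000000000) (nat_lit 0x0) (nat_lit 0x2000320070000000036000800040000000000) := T_1 (nat_lit 128) (nat_lit 77) (nat_lit 5) (nat_lit 9) (nat_lit 4) L259057 (by decide +kernel)
theorem L259059 : W_1 (nat_lit 8) (nat_lit 0x1000080008000700008000000000000000000) (nat_lit 0x0) (nat_lit 0x2000360072000000036000800040000000000) := T_1 (nat_lit 126) (nat_lit 109) (nat_lit 7) (nat_lit 7) (nat_lit 4) L259058 (by decide +kernel)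
theorem L259060 : W_1 (nat_lit 2) (nat_lit 0x1b00048003c001e0008000700008000000000000000000) (nat_lit 0x0) (nat_lit 0x8000400010000000000000000000000000000000000000000) := D_1 (nat_lit 178) (nat_lit 160) (nat_lit 195) (nat_lit 0) (nat_lit 10) (nat_lit 10) (nat_lit 5) (nat_lit 9) (nat_lit 7) (by decide +kernel)
theorem L259061 : W_1 (nat_lit 3) (nat_lit 0xb00048003c001e0008000700008000000000000000000) (nat_lit 0x0) (nat_lit 0x28001400010000000000000000000000000000000000000000) := T_1 (nat_lit 180) (nat_lit 197) (nat_lit 7) (nat_lit 9) (nat_lit 7) L259060 (by decide +kernel)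
theorem L259062 : W_1 (nat_lit 4) (nat_lit 0x900048003c001e0008000700008000000000000000000) (nat_lit 0x0) (nat_lit 0x2c001600010000000000000000000000000000000000000000) := T_1 (nat_lit 177) (nat_lit 194) (nat_lit 7) (nat_lit 6) (nat_lit 7) L259061 (by decide +kernel)
theorem L259063 : W_1 (nat_lit 5) (nat_lit 0x100048003c001e0008000700008000000000000000000) (nat_lit 0x0) (nat_lit 0x3c001e00010000000000000000000000000000000000000000) := T_1 (nat_lit 179) (nat_lit 196) (nat_lit 4) (nat_lit 9) (nat_lit 11) L259062 (by decide +kernel)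
theorem L259064 : W_1 (nat_lit 6) (nat_lit 0x48003c001e0008000700008000000000000000000) (nat_lit 0x0) (nat_lit 0x3e001f00010000000000000000000000000000000000000000) := T_1 (nat_lit 176) (nat_lit 193) (nat_lit 6) (nat_lit 6) (nat_lit 11) L259063 (by decide +kernel)
theorem L259065 : W_1 (nat_lit 7) (nat_lit 0x8003c001e0008000700008000000000000000000) (nat_lit 0x0) (nat_lit 0x3e001f000d0000000000000000000000000000000000000000) := T_1 (nat_lit 162) (nat_lit 163) (nat_lit 3) (nat_lit 6) (nat_lit 8) L259064 (by decide +kernel)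
theorem L259066 : W_1 (nat_lit 8) (nat_lit 0x3c001e0008000700008000000000000000000) (nat_lit 0x0) (nat_lit 0x3e001f000dc000000000000000000000000000000000000000) := T_1 (nat_lit 159) (nat_lit 158) (nat_lit 1) (nat_lit 9) (nat_lit 8) L259065 (by decide +kernel)
theorem L259067 : W_1 (nat_lit 9) (nat_lit 0x34001e0008000700008000000000000000000) (nat_lit 0x0) (nat_lit 0x3e001f000dc000800200000000000000000000000000000000) := T_1 (nat_lit 143) (nat_lit 129) (nat_lit 2) (nat_lit 6) (nat_lit 8) L259066 (by decide +kernel)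
theorem L259068 : W_1 (nat_lit 10) (nat_lit 0x30001e0008000700008000000000000000000) (nat_lit 0x0) (nat_lit 0x3e001f000dc000e00200000000000000000000000000000000) := T_1 (nat_lit 142) (nat_lit 141) (nat_lit 1) (nat_lit 9) (nat_lit 7) L259067 (by decide +kernel)
theorem L259069 : W_1 (nat_lit 11) (nat_lit 0x30001c0008000700008000000000000000000) (nat_lit 0x0) (nat_lit 0x3e001f000dc000e00230000000000000000000000000000000) := T_1 (nat_lit 125) (nat_lit 124) (nat_lit 3) (nat_lit 5) (nat_lit 7) L259068 (by decide +kernel)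
theorem L259070 : W_1 (nat_lit 12) (nat_lit 0x10001c0008000700008000000000000000000) (nat_lit 0x0) (nat_lit 0x3e001f000dc002e00230000000000010000000000000000000) := T_1 (nat_lit 145) (nat_lit 76) (nat_lit 4) (nat_lit 9) (nat_lit 8) L259069 (by decide +kernel)
theorem L259071 : W_1 (nat_lit 13) (nat_lit 0x1000180008000700008000000000000000000) (nat_lit 0x0) (nat_lit 0x3e001f000dc002e00270002000000010000000000000000000) := T_1 (nat_lit 126) (nat_lit 109) (nat_lit 7) (nat_lit 7) (nat_lit 4) L259070 (by decide +kernel)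
theorem L259072 : W_1 (nat_lit 14) (nat_lit 0x1000080008000700008000000000000000000) (nat_lit 0x0) (nat_lit 0x3e001f000dc002e00370002000000030000000000000000000) := T_1 (nat_lit 128) (nat_lit 77) (nat_lit 5) (nat_lit 9) (nat_lit 4) L259071 (by decide +kernel)
theorem L259073 : W_1 (nat_lit 2) (nat_lit 0x100008000a4007c000a000000000000000000) (nat_lit 0x0) (nat_lit 0x200020010000000000000000000) := D_1 (nat_lit 89) (nat_lit 105) (nat_lit 76) (nat_lit 1) (nat_lit 7) (nat_lit 5) (nat_lit 2) (nat_lit 4) (nat_lit 5) (by decide +kernel)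
theorem L259074 : W_1 (nat_lit 3) (nat_lit 0x100008000a0007c000a000000000000000000) (nat_lit 0x0) (nat_lit 0xe00020010000000000000000000) := T_1 (nat_lit 106) (nat_lit 107) (nat_lit 1) (nat_lit 8) (nat_lit 5) L259073 (by decide +kernel)
theorem L259075 : W_1 (nat_lit 4) (nat_lit 0x100008000a00078000a000000000000000000) (nat_lit 0x0) (nat_lit 0xe00060011000000000000000000) := T_1 (nat_lit 90) (nat_lit 72) (nat_lit 0) (nat_lit 8) (nat_lit 5) L259074 (by decide +kernel)
theorem L259076 : W_1 (nat_lit 5) (nat_lit 0x100008000a000780008000000000000000000) (nat_lit 0x0) (nat_lit 0xe00060017000000000000000000) := T_1 (nat_lit 73) (nat_lit 74) (nat_lit 0) (nat_lit 9) (nat_lit 5) L259075 (by decide +kernel)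
theorem L259077 : W_1 (nat_lit 6) (nat_lit 0x100008000a000700008000000000000000000) (nat_lit 0x0) (nat_lit 0x10e000e0017000000000000000000) := T_1 (nat_lit 91) (nat_lit 112) (nat_lit 3) (nat_lit 6) (nat_lit 5) L259076 (by decide +kernel)
theorem L259078 : W_1 (nat_lit 7) (nat_lit 0x1000080008000700008000000000000000000) (nat_lit 0x0) (nat_lit 0x40012e000e0017000000000000000000) := T_1 (nat_lit 109) (nat_lit 126) (nat_lit 7) (nat_lit 7) (nat_lit 4) L259077 (by decide +kernel)
theorem L259079 : W_1 (nat_lit 15) (nat_lit 0x1000080000000700008000000000000000000) (nat_lit 0x0) (nat_lit 0x3e001f000dc002e0037007ae000e00370038001c000a000000) := Q_1 (nat_lit 111) (C_1 L259048 (C_1 L259052 (C_1 L259059 (C_1 L259072 (C_1 L259078 N_1))))) (by decide +kernel)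
theorem L259086 : W_1 (nat_lit 2) (nat_lit 0x100008001a000700008000000000000000000) (nat_lit 0x0) (nat_lit 0x60000800000000000000000000000) := D_1 (nat_lit 113) (nat_lit 114) (nat_lit 95) (nat_lit 0) (nat_lit 12) (nat_lit 6) (nat_lit 3) (nat_lit 7) (nat_lit 5) (by decide +kernel)
theorem L259087 : W_1 (nat_lit 3) (nat_lit 0x100008000a000700008000000000000000000) (nat_lit 0x0) (nat_lit 0x70000880000000000000000000000) := T_1 (nat_lit 112) (nat_lit 91) (nat_lit 3) (nat_lit 6) (nat_lit 5) L259086 (by decide +kernel)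
theorem L259088 : W_1 (nat_lit 4) (nat_lit 0x1000080008000700008000000000000000000) (nat_lit 0x0) (nat_lit 0x40072000880000000000000000000000) := T_1 (nat_lit 109) (nat_lit 126) (nat_lit 7) (nat_lit 7) (nat_lit 4) L259087 (by decide +kernel)
theorem L259089 : W_1 (nat_lit 6) (nat_lit 0x1000080008000780008000000000000000000) (nat_lit 0x0) (nat_lit 0x100000e00060033800000000000000000) := T_1 (nat_lit 77) (nat_lit 128) (nat_lit 5) (nat_lit 9) (nat_lit 4) L257110 (by decide +kernel)
theorem L259090 : W_1 (nat_lit 7) (nat_lit 0x1000080008000700008000000000000000000) (nat_lit 0x0) (nat_lit 0x100010e000e0033800000000000000000) := T_1 (nat_lit 91) (nat_lit 112) (nat_lit 3) (nat_lit 6) (nat_lit 5) L259089 (by decide +kernel)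
theorem L259091 : W_1 (nat_lit 15) (nat_lit 0x1000080000000700008000000000000000000) (nat_lit 0x0) (nat_lit 0x3e001f000dc002e0037007ae008e00338038001c000a000000) := Q_1 (nat_lit 111) (C_1 L259048 (C_1 L259072 (C_1 L259088 (C_1 L259090 N_1)))) (by decide +kernel)
theorem L259092 : W_1 (nat_lit 16) (nat_lit 0x1000080000000700000000000000000000000) (nat_lit 0x0) (nat_lit 0x3e001f000dc002e0037007ae018e003f8038001c000a000000) := Q_1 (nat_lit 75) (C_1 L257128 (C_1 L29545 (C_1 L259079 (C_1 L259091 N_1)))) (by decide +kernel)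
theorem L259093 : W_1 (nat_lit 17) (nat_lit 0x1000080000000300000000000000000000000) (nat_lit 0x0) (nat_lit 0x3e001f000dc00ae007701fae07cf01ffc038001c000a000000) := Q_1 (nat_lit 94) (C_1 L258856 (C_1 L258748 (C_1 L258854 (C_1 L259001 (C_1 L259002 (C_1 L259008 (C_1 L259025 (C_1 L259092 N_1)))))))) (by decide +kernel)
theorem L259101 : W_1 (nat_lit 4) (nat_lit 0x10000e0001c00300000000000000000000000) (nat_lit 0x0) (nat_lit 0x4000000000000c000c000400020000000000) := T_1 (nat_lit 91) (nat_lit 90) (nat_lit 1) (nat_lit 8) (nat_lit 5) L257996 (by decide +kernel)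
theorem L259102 : W_1 (nat_lit 5) (nat_lit 0x10000e0001800300000000000000000000000) (nat_lit 0x0) (nat_lit 0x4000000006000c000c000400020000000000) := T_1 (nat_lit 106) (nat_lit 105) (nat_lit 3) (nat_lit 3) (nat_lit 6) L259101 (by decide +kernel)
theorem L259103 : W_1 (nat_lit 6) (nat_lit 0x10000e0001000300000000000000000000000) (nat_lit 0x0) (nat_lit 0x400100000e000c000c000400020000000000) := T_1 (nat_lit 107) (nat_lit 128) (nat_lit 0) (nat_lit 9) (nat_lit 7) L259102 (by decide +kernel)
theorem L259242 : W_1 (nat_lit 2) (nat_lit 0x18003e0010800300000000000000000000000) (nat_lit 0x0) (nat_lit 0x18000400000000000000000000000000) := D_1 (nat_lit 124) (nat_lit 106) (nat_lit 123) (nat_lit 0) (nat_lit 8) (nat_lit 7) (nat_lit 3) (nat_lit 4) (nat_lit 7) (by decide +kernel)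
theorem L259243 : W_1 (nat_lit 3) (nat_lit 0x18003e0010000300000000000000000000000) (nat_lit 0x0) (nat_lit 0x18001c00000000000000000000000000) := T_1 (nat_lit 107) (nat_lit 108) (nat_lit 0) (nat_lit 9) (nat_lit 7) L259242 (by decide +kernel)
theorem L259244 : W_1 (nat_lit 4) (nat_lit 0x18003c0010000300000000000000000000000) (nat_lit 0x0) (nat_lit 0x38009c00000000000000000000000000) := T_1 (nat_lit 125) (nat_lit 111) (nat_lit 2) (nat_lit 6) (nat_lit 7) L259243 (by decide +kernel)
theorem L259245 : W_1 (nat_lit 5) (nat_lit 0x18003c0000000300000000000000000000000) (nat_lit 0x0) (nat_lit 0x38039c00000000000000000000000000) := T_1 (nat_lit 112) (nat_lit 113) (nat_lit 2) (nat_lit 7) (nat_lit 7) L259244 (by decide +kernel)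
theorem L259246 : W_1 (nat_lit 6) (nat_lit 0x18001c0000000300000000000000000000000) (nat_lit 0x0) (nat_lit 0x638039c00000000000000000000000000) := T_1 (nat_lit 129) (nat_lit 130) (nat_lit 1) (nat_lit 11) (nat_lit 7) L259245 (by decide +kernel)
theorem L259287 : W_1 (nat_lit 2) (nat_lit 0x1000080000000b00078003000000000000000) (nat_lit 0x0) (nat_lit 0x10000000000000000080004000000) := D_1 (nat_lit 43) (nat_lit 26) (nat_lit 112) (nat_lit 7) (nat_lit 9) (nat_lit 1) (nat_lit 4) (nat_lit 10) (nat_lit 6) (by decide +kernel)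
theorem L259288 : W_1 (nat_lit 3) (nat_lit 0x1000080000000300078003000000000000000) (nat_lit 0x0) (nat_lit 0x10001800000000000080004000000) := T_1 (nat_lit 95) (nat_lit 96) (nat_lit 3) (nat_lit 7) (nat_lit 4) L259287 (by decide +kernel)
theorem L259289 : W_1 (nat_lit 4) (nat_lit 0x1000080000000300078002000000000000000) (nat_lit 0x0) (nat_lit 0x10001800004001000080004000000) := T_1 (nat_lit 60) (nat_lit 74) (nat_lit 2) (nat_lit 6) (nat_lit 4) L259288 (by decide +kernel)
theorem L259290 : W_1 (nat_lit 5) (nat_lit 0x1000080000000300078000000000000000000) (nat_lit 0x0) (nat_lit 0x10001800004007000080004000000) := T_1 (nat_lit 61) (nat_lit 62) (nat_lit 2) (nat_lit 7) (nat_lit 4) L259289 (by decide +kernel)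
theorem L259291 : W_1 (nat_lit 6) (nat_lit 0x1000080000000300038000000000000000000) (nat_lit 0x0) (nat_lit 0x100018000c4007000080004000000) := T_1 (nat_lit 78) (nat_lit 79) (nat_lit 1) (nat_lit 11) (nat_lit 4) L259290 (by decide +kernel)
theorem L259294 : W_1 (nat_lit 2) (nat_lit 0x100008000000030001e000b00040000000000) (nat_lit 0x0) (nat_lit 0x400080004000000) := D_1 (nat_lit 43) (nat_lit 26) (nat_lit 58) (nat_lit 6) (nat_lit 8) (nat_lit 5) (nat_lit 2) (nat_lit 5) (nat_lit 3) (by decide +kernel)
theorem L259295 : W_1 (nat_lit 3) (nat_lit 0x100008000000030001e000900040000000000) (nat_lit 0x0) (nat_lit 0x20000600080004000000) := T_1 (nat_lit 57) (nat_lit 77) (nat_lit 0) (nat_lit 9) (nat_lit 4) L259294 (by decide +kernel)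
theorem L259296 : W_1 (nat_lit 4) (nat_lit 0x100008000000030001e000900000000000000) (nat_lit 0x0) (nat_lit 0x200006000c0006000000) := T_1 (nat_lit 42) (nat_lit 25) (nat_lit 5) (nat_lit 8) (nat_lit 1) L259295 (by decide +kernel)
theorem L259297 : W_1 (nat_lit 5) (nat_lit 0x100008000000030001e000800000000000000) (nat_lit 0x0) (nat_lit 0x200007800c0006000000) := T_1 (nat_lit 56) (nat_lit 55) (nat_lit 0) (nat_lit 8) (nat_lit 4) L259296 (by decide +kernel)
theorem L259298 : W_1 (nat_lit 6) (nat_lit 0x100008000000030001e000000000000000000) (nat_lit 0x0) (nat_lit 0x20001f800c0006000000) := T_1 (nat_lit 59) (nat_lit 60) (nat_lit 2) (nat_lit 5) (nat_lit 4) L259297 (by decide +kernel)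
theorem L259299 : W_1 (nat_lit 7) (nat_lit 0x100008000000030001c000000000000000000) (nat_lit 0x0) (nat_lit 0x23001f800c0006000000) := T_1 (nat_lit 73) (nat_lit 72) (nat_lit 3) (nat_lit 4) (nat_lit 4) L259298 (by decide +kernel)
theorem L259300 : W_1 (nat_lit 2) (nat_lit 0x100008000000032001e000b000c0000000000) (nat_lit 0x0) (nat_lit 0x30001000000) := D_1 (nat_lit 41) (nat_lit 24) (nat_lit 40) (nat_lit 4) (nat_lit 8) (nat_lit 5) (nat_lit 1) (nat_lit 9) (nat_lit 2) (by decide +kernel)
theorem L259301 : W_1 (nat_lit 3) (nat_lit 0x100008000000032001e0009000c0000000000) (nat_lit 0x0) (nat_lit 0x20000200030001000000) := T_1 (nat_lit 57) (nat_lit 77) (nat_lit 0) (nat_lit 9) (nat_lit 4) L259300 (by decide +kernel)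
theorem L259302 : W_1 (nat_lit 4) (nat_lit 0x100008000000032001e000900040000000000) (nat_lit 0x0) (nat_lit 0x200002000b0005000000) := T_1 (nat_lit 43) (nat_lit 26) (nat_lit 6) (nat_lit 8) (nat_lit 5) L259301 (by decide +kernel)
theorem L259303 : W_1 (nat_lit 5) (nat_lit 0x100008000000032001e000800040000000000) (nat_lit 0x0) (nat_lit 0x200003800b0005000000) := T_1 (nat_lit 56) (nat_lit 55) (nat_lit 0) (nat_lit 8) (nat_lit 4) L259302 (by decide +kernel)
theorem L259304 : W_1 (nat_lit 6) (nat_lit 0x100008000000032001e000800000000000000) (nat_lit 0x0) (nat_lit 0x200003800f0007000000) := T_1 (nat_lit 42) (nat_lit 25) (nat_lit 5) (nat_lit 8) (nat_lit 1) L259303 (by decide +kernel)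
theorem L259305 : W_1 (nat_lit 7) (nat_lit 0x100008000000030001e000800000000000000) (nat_lit 0x0) (nat_lit 0x600200003800f0007000000) := T_1 (nat_lit 89) (nat_lit 90) (nat_lit 1) (nat_lit 8) (nat_lit 4) L259304 (by decide +kernel)
theorem L259306 : W_1 (nat_lit 8) (nat_lit 0x100008000000030001e000000000000000000) (nat_lit 0x0) (nat_lit 0x60020001b800f0007000000) := T_1 (nat_lit 59) (nat_lit 60) (nat_lit 2) (nat_lit 5) (nat_lit 4) L259305 (by decide +kernel)
theorem L259307 : W_1 (nat_lit 9) (nat_lit 0x100008000000030001c000000000000000000) (nat_lit 0x0) (nat_lit 0x60023001b800f0007000000) := T_1 (nat_lit 73) (nat_lit 72) (nat_lit 3) (nat_lit 4) (nat_lit 4) L259306 (by decide +kernel)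
theorem L259411 : W_1 (nat_lit 2) (nat_lit 0x16800e00010003c0000000000000000000000) (nat_lit 0x0) (nat_lit 0x8000000000000c00000000000000000000000000) := D_1 (nat_lit 107) (nat_lit 159) (nat_lit 106) (nat_lit 4) (nat_lit 6) (nat_lit 9) (nat_lit 1) (nat_lit 8) (nat_lit 5) (by decide +kernel)
theorem L259412 : W_1 (nat_lit 3) (nat_lit 0x16800e0001000380000000000000000000000) (nat_lit 0x0) (nat_lit 0x8000000000000c00040002000000000000000000) := T_1 (nat_lit 90) (nat_lit 73) (nat_lit 4) (nat_lit 6) (nat_lit 8) L259411 (by decide +kernel)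
theorem L259413 : W_1 (nat_lit 4) (nat_lit 0x16000e0001000380000000000000000000000) (nat_lit 0x0) (nat_lit 0x8000180000000c00040002000000000000000000) := T_1 (nat_lit 139) (nat_lit 140) (nat_lit 2) (nat_lit 3) (nat_lit 8) L259412 (by decide +kernel)
theorem L259478 : W_1 (nat_lit 2) (nat_lit 0x10000e0000c00300000000000000000000000) (nat_lit 0x0) (nat_lit 0x100001200000000000000000000000000) := D_1 (nat_lit 108) (nat_lit 128) (nat_lit 105) (nat_lit 0) (nat_lit 9) (nat_lit 7) (nat_lit 3) (nat_lit 3) (nat_lit 6) (by decide +kernel)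
theorem L259535 : W_1 (nat_lit 6) (nat_lit 0x10000e0000800300000000000000000000000) (nat_lit 0x0) (nat_lit 0x4001000016000c000c000400020000000000) := T_1 (nat_lit 108) (nat_lit 128) (nat_lit 0) (nat_lit 9) (nat_lit 7) L259102 (by decide +kernel)
theorem L260266 : W_1 (nat_lit 2) (nat_lit 0x1000380010000f00040000000000000000000) (nat_lit 0x0) (nat_lit 0x8800400000000000000000000000000000000) := D_1 (nat_lit 130) (nat_lit 143) (nat_lit 147) (nat_lit 1) (nat_lit 11) (nat_lit 7) (nat_lit 7) (nat_lit 10) (nat_lit 4) (by decide +kernel)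
theorem L260267 : W_1 (nat_lit 3) (nat_lit 0x1000180010000f00040000000000000000000) (nat_lit 0x0) (nat_lit 0xa800600000000000000000000000000000000) := T_1 (nat_lit 129) (nat_lit 145) (nat_lit 5) (nat_lit 10) (nat_lit 4) L260266 (by decide +kernel)
theorem L260268 : W_1 (nat_lit 4) (nat_lit 0x1000180010000f00000000000000000000000) (nat_lit 0x0) (nat_lit 0xa8006000000000000c0000000000000000000) := T_1 (nat_lit 78) (nat_lit 79) (nat_lit 2) (nat_lit 7) (nat_lit 5) L260267 (by decide +kernel)
theorem L260269 : W_1 (nat_lit 5) (nat_lit 0x1000180000000f00000000000000000000000) (nat_lit 0x0) (nat_lit 0xa8006000300000000c0000000000000000000) := T_1 (nat_lit 112) (nat_lit 113) (nat_lit 3) (nat_lit 7) (nat_lit 5) L260268 (by decide +kernel)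
theorem L261938 : W_1 (nat_lit 2) (nat_lit 0x10000e0001000380006000400020000000000) (nat_lit 0x0) (nat_lit 0x40001800000000000000000) := D_1 (nat_lit 72) (nat_lit 90) (nat_lit 71) (nat_lit 0) (nat_lit 8) (nat_lit 5) (nat_lit 3) (nat_lit 3) (nat_lit 4) (by decide +kernel)
theorem L262052 : W_1 (nat_lit 2) (nat_lit 0x11000f8000000700000000000000000000000) (nat_lit 0x0) (nat_lit 0xe00000000000000000000000000) := D_1 (nat_lit 106) (nat_lit 105) (nat_lit 107) (nat_lit 0) (nat_lit 7) (nat_lit 7) (nat_lit 0) (nat_lit 8) (nat_lit 7) (by decide +kernel)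
theorem L262053 : W_1 (nat_lit 3) (nat_lit 0x11000f0000000700000000000000000000000) (nat_lit 0x0) (nat_lit 0x80008000e00000000000000000000000000) := T_1 (nat_lit 123) (nat_lit 139) (nat_lit 1) (nat_lit 7) (nat_lit 7) L262052 (by decide +kernel)
theorem L262054 : W_1 (nat_lit 4) (nat_lit 0x10000f0000000700000000000000000000000) (nat_lit 0x0) (nat_lit 0x380008000e00000000000000000000000000) := T_1 (nat_lit 140) (nat_lit 141) (nat_lit 1) (nat_lit 8) (nat_lit 7) L262053 (by decide +kernel)
theorem L262055 : W_1 (nat_lit 5) (nat_lit 0x10000e0000000700000000000000000000000) (nat_lit 0x0) (nat_lit 0x2380018000e00000000000000000000000000) := T_1 (nat_lit 124) (nat_lit 145) (nat_lit 3) (nat_lit 5) (nat_lit 7) L262054 (by decide +kernel)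
theorem L262651 : W_1 (nat_lit 2) (nat_lit 0x1c000c0002000700000000000000000000000) (nat_lit 0x0) (nat_lit 0x300100000000000000000000000000000000) := D_1 (nat_lit 141) (nat_lit 128) (nat_lit 140) (nat_lit 2) (nat_lit 5) (nat_lit 8) (nat_lit 2) (nat_lit 4) (nat_lit 8) (by decide +kernel)
theorem L262652 : W_1 (nat_lit 3) (nat_lit 0x18000c0002000700000000000000000000000) (nat_lit 0x0) (nat_lit 0x8000700100000000000000000000000000000000) := T_1 (nat_lit 142) (nat_lit 159) (nat_lit 5) (nat_lit 7) (nat_lit 5) L262651 (by decide +kernel)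
theorem L262653 : W_1 (nat_lit 4) (nat_lit 0x10000c0002000700000000000000000000000) (nat_lit 0x0) (nat_lit 0x8000f00100000000000010000000000000000000) := T_1 (nat_lit 143) (nat_lit 76) (nat_lit 6) (nat_lit 7) (nat_lit 8) L262652 (by decide +kernel)
theorem L262654 : W_1 (nat_lit 5) (nat_lit 0x10000c0000000700000000000000000000000) (nat_lit 0x0) (nat_lit 0x8000f00100002000000018000000000000000000) := T_1 (nat_lit 109) (nat_lit 75) (nat_lit 7) (nat_lit 7) (nat_lit 4) L262653 (by decide +kernel)
theorem L266660 : W_1 (nat_lit 2) (nat_lit 0x10800f8002400300000000000000000000000) (nat_lit 0x0) (nat_lit 0x40004001000000000000000000000000000) := D_1 (nat_lit 122) (nat_lit 138) (nat_lit 108) (nat_lit 1) (nat_lit 6) (nat_lit 7) (nat_lit 2) (nat_lit 3) (nat_lit 7) (by decide +kernel)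
theorem L266661 : W_1 (nat_lit 3) (nat_lit 0x10000f8002400300000000000000000000000) (nat_lit 0x0) (nat_lit 0x1c0004001000000000000000000000000000) := T_1 (nat_lit 139) (nat_lit 140) (nat_lit 1) (nat_lit 7) (nat_lit 7) L266660 (by decide +kernel)
theorem L266662 : W_1 (nat_lit 4) (nat_lit 0x10000f0002400300000000000000000000000) (nat_lit 0x0) (nat_lit 0x1c000c001200000000000000000000000000) := T_1 (nat_lit 123) (nat_lit 105) (nat_lit 0) (nat_lit 7) (nat_lit 7) L266661 (by decide +kernel)
theorem L266663 : W_1 (nat_lit 5) (nat_lit 0x10000f0002000300000000000000000000000) (nat_lit 0x0) (nat_lit 0x1c000c001e00000000000000000000000000) := T_1 (nat_lit 106) (nat_lit 107) (nat_lit 0) (nat_lit 8) (nat_lit 7) L266662 (by decide +kernel)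
theorem L266664 : W_1 (nat_lit 6) (nat_lit 0x10000f0000000300000000000000000000000) (nat_lit 0x0) (nat_lit 0x1c000c003e00000008000000000000000000) := T_1 (nat_lit 109) (nat_lit 75) (nat_lit 7) (nat_lit 7) (nat_lit 4) L266663 (by decide +kernel)
theorem L266683 : W_1 (nat_lit 2) (nat_lit 0x10000e0000c00300000000000000000000000) (nat_lit 0x0) (nat_lit 0x3200000000000000000000000000) := D_1 (nat_lit 108) (nat_lit 109) (nat_lit 105) (nat_lit 3) (nat_lit 4) (nat_lit 6) (nat_lit 3) (nat_lit 3) (nat_lit 6) (by decide +kernel)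
theorem L266684 : W_1 (nat_lit 3) (nat_lit 0x10000e0000800300000000000000000000000) (nat_lit 0x0) (nat_lit 0x10003600000000000000000000000000) := T_1 (nat_lit 106) (nat_lit 124) (nat_lit 0) (nat_lit 8) (nat_lit 7) L266683 (by decide +kernel)
theorem L267256 : W_1 (nat_lit 2) (nat_lit 0x10000e0001800300000000000000000000000) (nat_lit 0x0) (nat_lit 0x2600000000000000000000000000) := D_1 (nat_lit 106) (nat_lit 109) (nat_lit 105) (nat_lit 3) (nat_lit 4) (nat_lit 6) (nat_lit 3) (nat_lit 3) (nat_lit 6) (by decide +kernel)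
theorem L267257 : W_1 (nat_lit 3) (nat_lit 0x10000e0001000300000000000000000000000) (nat_lit 0x0) (nat_lit 0x100002e00000000000000000000000000) := T_1 (nat_lit 107) (nat_lit 128) (nat_lit 0) (nat_lit 9) (nat_lit 7) L267256 (by decide +kernel)
theorem L269145 : W_1 (nat_lit 2) (nat_lit 0x1000080003400700018000400010000000000) (nat_lit 0x0) (nat_lit 0x20001800000) := D_1 (nat_lit 41) (nat_lit 23) (nat_lit 24) (nat_lit 4) (nat_lit 7) (nat_lit 5) (nat_lit 7) (nat_lit 7) (nat_lit 1) (by decide +kernel)
theorem L269146 : W_1 (nat_lit 3) (nat_lit 0x1000080003400700018000400000000000000) (nat_lit 0x0) (nat_lit 0x200030001800000) := T_1 (nat_lit 40) (nat_lit 57) (nat_lit 4) (nat_lit 7) (nat_lit 6) L269145 (by decide +kernel)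
theorem L271002 : W_1 (nat_lit 2) (nat_lit 0x10000a000100038000c000000000000000000) (nat_lit 0x0) (nat_lit 0x800040002000000000000000000000000000) := D_1 (nat_lit 126) (nat_lit 143) (nat_lit 109) (nat_lit 7) (nat_lit 6) (nat_lit 4) (nat_lit 7) (nat_lit 7) (nat_lit 4) (by decide +kernel)
theorem L271021 : W_1 (nat_lit 2) (nat_lit 0x1000080000000f80048000000000000000000) (nat_lit 0x0) (nat_lit 0x38000000000000000000000000000) := D_1 (nat_lit 112) (nat_lit 113) (nat_lit 111) (nat_lit 3) (nat_lit 7) (nat_lit 5) (nat_lit 3) (nat_lit 6) (nat_lit 5) (by decide +kernel)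
theorem L271022 : W_1 (nat_lit 3) (nat_lit 0x1000080000000f00048000000000000000000) (nat_lit 0x0) (nat_lit 0x38000080020000000000000000000) := T_1 (nat_lit 91) (nat_lit 77) (nat_lit 2) (nat_lit 6) (nat_lit 5) L271021 (by decide +kernel)
theorem L271023 : W_1 (nat_lit 4) (nat_lit 0x1000080000000f00008000000000000000000) (nat_lit 0x0) (nat_lit 0x380000800e0000000000000000000) := T_1 (nat_lit 78) (nat_lit 79) (nat_lit 2) (nat_lit 7) (nat_lit 5) L271022 (by decide +kernel)
theorem L273025 : W_1 (nat_lit 2) (nat_lit 0x10800fc000000300000000000000000000000) (nat_lit 0x0) (nat_lit 0x700000000000000000000000000) := D_1 (nat_lit 105) (nat_lit 104) (nat_lit 106) (nat_lit 0) (nat_lit 6) (nat_lit 7) (nat_lit 0) (nat_lit 7) (nat_lit 7) (by decide +kernel)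
theorem L273026 : W_1 (nat_lit 3) (nat_lit 0x10800f8000000300000000000000000000000) (nat_lit 0x0) (nat_lit 0x40004000700000000000000000000000000) := T_1 (nat_lit 122) (nat_lit 138) (nat_lit 1) (nat_lit 6) (nat_lit 7) L273025 (by decide +kernel)
theorem L273027 : W_1 (nat_lit 4) (nat_lit 0x10000f8000000300000000000000000000000) (nat_lit 0x0) (nat_lit 0x1c0004000700000000000000000000000000) := T_1 (nat_lit 139) (nat_lit 140) (nat_lit 1) (nat_lit 7) (nat_lit 7) L273026 (by decide +kernel)
theorem L273028 : W_1 (nat_lit 5) (nat_lit 0x10000f0000000300000000000000000000000) (nat_lit 0x0) (nat_lit 0x9c000c000700000000000000000000000000) := T_1 (nat_lit 123) (nat_lit 143) (nat_lit 3) (nat_lit 4) (nat_lit 7) L273027 (by decide +kernel)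
theorem L278185 : W_1 (nat_lit 2) (nat_lit 0x1000080001000380008000400000000000000) (nat_lit 0x0) (nat_lit 0x60002000000000000000000000000000) := D_1 (nat_lit 109) (nat_lit 126) (nat_lit 125) (nat_lit 7) (nat_lit 7) (nat_lit 4) (nat_lit 5) (nat_lit 7) (nat_lit 3) (by decide +kernel)
theorem L278186 : W_1 (nat_lit 3) (nat_lit 0x1000080001000380008000000000000000000) (nat_lit 0x0) (nat_lit 0x60002000000000000400020000000000) := T_1 (nat_lit 58) (nat_lit 41) (nat_lit 5) (nat_lit 7) (nat_lit 2) L278185 (by decide +kernel)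
theorem L287383 : W_1 (nat_lit 2) (nat_lit 0x16000f0000800300000000000000000000000) (nat_lit 0x0) (nat_lit 0x100008000000000000000040000000000000000000000) := D_1 (nat_lit 159) (nat_lit 176) (nat_lit 90) (nat_lit 4) (nat_lit 6) (nat_lit 10) (nat_lit 7) (nat_lit 5) (nat_lit 5) (by decide +kernel)
theorem L287384 : W_1 (nat_lit 3) (nat_lit 0x12000f0000800300000000000000000000000) (nat_lit 0x0) (nat_lit 0x100008000400100000000040000000000000000000000) := T_1 (nat_lit 142) (nat_lit 128) (nat_lit 1) (nat_lit 9) (nat_lit 7) L287383 (by decide +kernel)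
theorem L287385 : W_1 (nat_lit 4) (nat_lit 0x10000f0000800300000000000000000000000) (nat_lit 0x0) (nat_lit 0x100008000700100000000040000000000000000000000) := T_1 (nat_lit 141) (nat_lit 140) (nat_lit 1) (nat_lit 8) (nat_lit 7) L287384 (by decide +kernel)
theorem L287386 : W_1 (nat_lit 5) (nat_lit 0x10000e0000800300000000000000000000000) (nat_lit 0x0) (nat_lit 0x100008000700110000400040000000000000000000000) := T_1 (nat_lit 124) (nat_lit 106) (nat_lit 0) (nat_lit 8) (nat_lit 7) L287385 (by decide +kernel)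
theorem L287387 : W_1 (nat_lit 3) (nat_lit 0x10000e0000800300000000000000000000000) (nat_lit 0x0) (nat_lit 0x110001600000000000000000000000000) := T_1 (nat_lit 106) (nat_lit 124) (nat_lit 0) (nat_lit 8) (nat_lit 7) L259478 (by decide +kernel)
theorem L287388 : W_1 (nat_lit 2) (nat_lit 0x10000e0001800380008000000000000000000) (nat_lit 0x0) (nat_lit 0x4000400020000000000) := D_1 (nat_lit 58) (nat_lit 74) (nat_lit 41) (nat_lit 6) (nat_lit 6) (nat_lit 7) (nat_lit 5) (nat_lit 7) (nat_lit 2) (by decide +kernel)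
theorem L326867 : W_1 (nat_lit 4) (nat_lit 0x1e000e0000000000000000000000000000000) (nat_lit 0x0) (nat_lit 0x100008000e000000000001000080000000000000000000000) := T_1 (nat_lit 158) (nat_lit 157) (nat_lit 1) (nat_lit 8) (nat_lit 8) L60983 (by decide +kernel)
theorem L326868 : W_1 (nat_lit 5) (nat_lit 0x1c000e0000000000000000000000000000000) (nat_lit 0x0) (nat_lit 0x100008000e000300000001000080000000000000000000000) := T_1 (nat_lit 141) (nat_lit 140) (nat_lit 2) (nat_lit 4) (nat_lit 8) L326867 (by decide +kernel)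
theorem L326982 : W_1 (nat_lit 2) (nat_lit 0x100018001e0001000000000000000000000000000) (nat_lit 0x0) (nat_lit 0x2000080004000000000000000000) := D_1 (nat_lit 91) (nat_lit 109) (nat_lit 74) (nat_lit 4) (nat_lit 7) (nat_lit 9) (nat_lit 7) (nat_lit 6) (nat_lit 4) (by decide +kernel)
theorem L326983 : W_1 (nat_lit 3) (nat_lit 0x18001e0001000000000000000000000000000) (nat_lit 0x0) (nat_lit 0x200010000000000002000080004000000000000000000) := T_1 (nat_lit 160) (nat_lit 177) (nat_lit 4) (nat_lit 7) (nat_lit 10) L326982 (by decide +kernel)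
theorem L326984 : W_1 (nat_lit 4) (nat_lit 0x18001e0000000000000000000000000000000) (nat_lit 0x0) (nat_lit 0x200010000000000003800080004000000000000000000) := T_1 (nat_lit 108) (nat_lit 107) (nat_lit 0) (nat_lit 9) (nat_lit 7) L326983 (by decide +kernel)
theorem L327251 : W_1 (nat_lit 2) (nat_lit 0x8001c000a0000000000000000000000000000000) (nat_lit 0x0) (nat_lit 0x4002000010000000000000000000000000000000) := D_1 (nat_lit 145) (nat_lit 124) (nat_lit 158) (nat_lit 0) (nat_lit 9) (nat_lit 8) (nat_lit 1) (nat_lit 9) (nat_lit 8) (by decide +kernel)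
theorem L327253 : W_1 (nat_lit 2) (nat_lit 0x8001c000a0001000000000000000000000000000) (nat_lit 0x0) (nat_lit 0x200010000000000000000080000000000000000000000) := D_1 (nat_lit 160) (nat_lit 91) (nat_lit 177) (nat_lit 7) (nat_lit 6) (nat_lit 5) (nat_lit 7) (nat_lit 6) (nat_lit 6) (by decide +kernel)
theorem L327254 : W_1 (nat_lit 2) (nat_lit 0x8001c000a00010000c0000000000000000000000) (nat_lit 0x0) (nat_lit 0x2000100008000000000000000000) := D_1 (nat_lit 92) (nat_lit 109) (nat_lit 75) (nat_lit 6) (nat_lit 6) (nat_lit 9) (nat_lit 6) (nat_lit 6) (nat_lit 8) (by decide +kernel)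
theorem L327255 : W_1 (nat_lit 3) (nat_lit 0x8001c000a0001000040000000000000000000000) (nat_lit 0x0) (nat_lit 0x200018000a000000000000000000) := T_1 (nat_lit 91) (nat_lit 73) (nat_lit 4) (nat_lit 6) (nat_lit 8) L327254 (by decide +kernel)
theorem L327256 : W_1 (nat_lit 4) (nat_lit 0x8001c000a0001000000000000000000000000000) (nat_lit 0x0) (nat_lit 0x28001c000a000000000000000000) := T_1 (nat_lit 90) (nat_lit 107) (nat_lit 4) (nat_lit 6) (nat_lit 9) L327255 (by decide +kernel)
theorem L327257 : W_1 (nat_lit 2) (nat_lit 0x18001c000a0001000100000000000000000000000) (nat_lit 0x0) (nat_lit 0x80006000000000000000000000000000000000000000) := D_1 (nat_lit 158) (nat_lit 175) (nat_lit 157) (nat_lit 5) (nat_lit 6) (nat_lit 6) (nat_lit 2) (nat_lit 4) (nat_lit 9) (by decide +kernel)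
theorem L327258 : W_1 (nat_lit 3) (nat_lit 0x8001c000a0001000100000000000000000000000) (nat_lit 0x0) (nat_lit 0x280016000000000000000000000000000000000000000) := T_1 (nat_lit 160) (nat_lit 177) (nat_lit 7) (nat_lit 6) (nat_lit 6) L327257 (by decide +kernel)
theorem L327259 : W_1 (nat_lit 4) (nat_lit 0x8001c000a0001000000000000000000000000000) (nat_lit 0x0) (nat_lit 0x280016000000000002000100000000000000000000000) := T_1 (nat_lit 92) (nat_lit 109) (nat_lit 6) (nat_lit 6) (nat_lit 9) L327258 (by decide +kernel)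
theorem L327260 : W_1 (nat_lit 5) (nat_lit 0x8001c000a0000000000000000000000000000000) (nat_lit 0x0) (nat_lit 0x2800160000000000038001c000a000000000000000000) := Q_1 (nat_lit 108) (C_1 L327253 (C_1 L327256 (C_1 L327259 N_1))) (by decide +kernel)
theorem L327261 : W_1 (nat_lit 2) (nat_lit 0x8001c000b4000800000000000000000000000000) (nat_lit 0x0) (nat_lit 0x1000040002000000000000000000) := D_1 (nat_lit 90) (nat_lit 108) (nat_lit 73) (nat_lit 4) (nat_lit 6) (nat_lit 9) (nat_lit 7) (nat_lit 5) (nat_lit 4) (by decide +kernel)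
theorem L327262 : W_1 (nat_lit 3) (nat_lit 0x8001c000b4000000000000000000000000000000) (nat_lit 0x0) (nat_lit 0x100000000000000001800040002000000000000000000) := T_1 (nat_lit 107) (nat_lit 176) (nat_lit 4) (nat_lit 6) (nat_lit 10) L327261 (by decide +kernel)
theorem L327263 : W_1 (nat_lit 4) (nat_lit 0x8001c000b0000000000000000000000000000000) (nat_lit 0x0) (nat_lit 0x10000000000000c001800040002000000000000000000) := T_1 (nat_lit 122) (nat_lit 123) (nat_lit 3) (nat_lit 3) (nat_lit 7) L327262 (by decide +kernel)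
theorem L327264 : W_1 (nat_lit 5) (nat_lit 0x8001c000a0000000000000000000000000000000) (nat_lit 0x0) (nat_lit 0x10000000200001c001800040002000000000000000000) := T_1 (nat_lit 124) (nat_lit 145) (nat_lit 0) (nat_lit 9) (nat_lit 8) L327263 (by decide +kernel)
theorem L327265 : W_1 (nat_lit 6) (nat_lit 0x1c000a0000000000000000000000000000000) (nat_lit 0x0) (nat_lit 0x38001e00200001c0038001c000a000000000000000000) := Q_1 (nat_lit 159) (C_1 L327251 (C_1 L327260 (C_1 L327264 N_1))) (by decide +kernel)
theorem L327327 : W_1 (nat_lit 2) (nat_lit 0x200010001e000a0000000000000000000000000000000) (nat_lit 0x0) (nat_lit 0x8000000000001000080000000000000000000000) := D_1 (nat_lit 108) (nat_lit 91) (nat_lit 159) (nat_lit 7) (nat_lit 6) (nat_lit 5) (nat_lit 7) (nat_lit 6) (nat_lit 6) (by decide +kernel)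
theorem L327380 : W_1 (nat_lit 2) (nat_lit 0x18001c000a0000000000000000000000000000000) (nat_lit 0x0) (nat_lit 0x6002000000000000000000000000000000000000) := D_1 (nat_lit 158) (nat_lit 145) (nat_lit 157) (nat_lit 1) (nat_lit 9) (nat_lit 8) (nat_lit 2) (nat_lit 4) (nat_lit 9) (by decide +kernel)
theorem L327535 : W_1 (nat_lit 2) (nat_lit 0x1e00048003c001a0000000000000000000000000000000) (nat_lit 0x0) (nat_lit 0x6000100000000000000000000000000000000000000000000) := D_1 (nat_lit 194) (nat_lit 193) (nat_lit 176) (nat_lit 1) (nat_lit 10) (nat_lit 10) (nat_lit 7) (nat_lit 6) (nat_lit 7) (by decide +kernel)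
theorem L327536 : W_1 (nat_lit 3) (nat_lit 0x1c00048003c001a0000000000000000000000000000000) (nat_lit 0x0) (nat_lit 0x6000300010000000000000000000000000000000000000000) := T_1 (nat_lit 177) (nat_lit 160) (nat_lit 0) (nat_lit 10) (nat_lit 10) L327535 (by decide +kernel)
theorem L327537 : W_1 (nat_lit 4) (nat_lit 0x1800048003c001a0000000000000000000000000000000) (nat_lit 0x0) (nat_lit 0xe000700010000000000000000000000000000000000000000) := T_1 (nat_lit 178) (nat_lit 195) (nat_lit 5) (nat_lit 9) (nat_lit 7) L327536 (by decide +kernel)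
theorem L327538 : W_1 (nat_lit 5) (nat_lit 0x800048003c001a0000000000000000000000000000000) (nat_lit 0x0) (nat_lit 0x2e001700010000000000000000000000000000000000000000) := T_1 (nat_lit 180) (nat_lit 197) (nat_lit 7) (nat_lit 9) (nat_lit 7) L327537 (by decide +kernel)
theorem L328992 : W_1 (nat_lit 2) (nat_lit 0x4001c000b0000000000000000000000000000000) (nat_lit 0x0) (nat_lit 0x20000c000000000000000000000000000000) := D_1 (nat_lit 123) (nat_lit 141) (nat_lit 122) (nat_lit 0) (nat_lit 8) (nat_lit 8) (nat_lit 3) (nat_lit 3) (nat_lit 7) (by decide +kernel)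
theorem L330139 : W_1 (nat_lit 6) (nat_lit 0x48003c001a0000000000000000000000000000000) (nat_lit 0x0) (nat_lit 0x3e001f00010000000000000000000000000000000000000000) := T_1 (nat_lit 179) (nat_lit 196) (nat_lit 4) (nat_lit 9) (nat_lit 11) L327538 (by decide +kernel)
theorem L330140 : W_1 (nat_lit 7) (nat_lit 0x8003c001a0000000000000000000000000000000) (nat_lit 0x0) (nat_lit 0x3e001f000d0000000000000000000000000000000000000000) := T_1 (nat_lit 162) (nat_lit 163) (nat_lit 3) (nat_lit 6) (nat_lit 8) L330139 (by decide +kernel)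
theorem L330141 : W_1 (nat_lit 8) (nat_lit 0x3c001a0000000000000000000000000000000) (nat_lit 0x0) (nat_lit 0x3e001f000dc000000000000000000000000000000000000000) := T_1 (nat_lit 159) (nat_lit 158) (nat_lit 1) (nat_lit 9) (nat_lit 8) L330140 (by decide +kernel)
theorem L330190 : W_1 (nat_lit 2) (nat_lit 0x2000300010001c000a0000000000000000000000000000000) (nat_lit 0x0) (nat_lit 0x800040000000000008000000000000000000000000000000000000000) := D_1 (nat_lit 210) (nat_lit 227) (nat_lit 159) (nat_lit 6) (nat_lit 6) (nat_lit 13) (nat_lit 6) (nat_lit 6) (nat_lit 12) (by decide +kernel)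
theorem L330191 : W_1 (nat_lit 3) (nat_lit 0x300010001c000a0000000000000000000000000000000) (nat_lit 0x0) (nat_lit 0x800040002000000008000000040000000000000000000000000000000) := T_1 (nat_lit 193) (nat_lit 126) (nat_lit 5) (nat_lit 7) (nat_lit 7) L330190 (by decide +kernel)
theorem L330192 : W_1 (nat_lit 4) (nat_lit 0x100010001c000a0000000000000000000000000000000) (nat_lit 0x0) (nat_lit 0x800040006000200008000000040000000000000000000000000000000) := T_1 (nat_lit 177) (nat_lit 194) (nat_lit 6) (nat_lit 7) (nat_lit 11) L330191 (by decide +kernel)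
theorem L330548 : W_1 (nat_lit 2) (nat_lit 0x2000000018001e0010000000000000000000000000000) (nat_lit 0x0) (nat_lit 0x600020000000000000000000000000000) := D_1 (nat_lit 129) (nat_lit 130) (nat_lit 113) (nat_lit 1) (nat_lit 11) (nat_lit 7) (nat_lit 2) (nat_lit 7) (nat_lit 7) (by decide +kernel)
theorem L330549 : W_1 (nat_lit 3) (nat_lit 0x2000000018001e0000000000000000000000000000000) (nat_lit 0x0) (nat_lit 0x600038000000000000000000000000000) := T_1 (nat_lit 112) (nat_lit 111) (nat_lit 2) (nat_lit 6) (nat_lit 7) L330548 (by decide +kernel)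
theorem L330646 : W_1 (nat_lit 5) (nat_lit 0x1c000e0000000000000000000000000000000) (nat_lit 0x0) (nat_lit 0x100008000300018000c00040000000000000000000000) := T_1 (nat_lit 141) (nat_lit 140) (nat_lit 2) (nat_lit 4) (nat_lit 8) L58580 (by decide +kernel)
theorem L339245 : W_1 (nat_lit 2) (nat_lit 0x1000080010000f00068000400000000000000) (nat_lit 0x0) (nat_lit 0x200000000000000001000080000000000) := D_1 (nat_lit 60) (nat_lit 129) (nat_lit 43) (nat_lit 4) (nat_lit 10) (nat_lit 7) (nat_lit 7) (nat_lit 9) (nat_lit 2) (by decide +kernel)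
theorem L339246 : W_1 (nat_lit 3) (nat_lit 0x1000080000000f00068000400000000000000) (nat_lit 0x0) (nat_lit 0x200030000000000001000080000000000) := T_1 (nat_lit 112) (nat_lit 113) (nat_lit 3) (nat_lit 7) (nat_lit 5) L339245 (by decide +kernel)
theorem L339247 : W_1 (nat_lit 4) (nat_lit 0x1000080000000f00048000400000000000000) (nat_lit 0x0) (nat_lit 0x200030000080020001000080000000000) := T_1 (nat_lit 77) (nat_lit 91) (nat_lit 2) (nat_lit 6) (nat_lit 5) L339246 (by decide +kernel)
theorem L339248 : W_1 (nat_lit 5) (nat_lit 0x1000080000000f00008000400000000000000) (nat_lit 0x0) (nat_lit 0x2000300000800e0001000080000000000) := T_1 (nat_lit 78) (nat_lit 79) (nat_lit 2) (nat_lit 7) (nat_lit 5) L339247 (by decide +kernel)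
theorem L339298 : W_1 (nat_lit 2) (nat_lit 0x100008000000032003e001000000000000000) (nat_lit 0x0) (nat_lit 0x800c0000000000000000000) := D_1 (nat_lit 78) (nat_lit 79) (nat_lit 91) (nat_lit 1) (nat_lit 11) (nat_lit 4) (nat_lit 1) (nat_lit 10) (nat_lit 4) (by decide +kernel)
theorem L339299 : W_1 (nat_lit 3) (nat_lit 0x100008000000032001e001000000000000000) (nat_lit 0x0) (nat_lit 0x800e0002000000000000000) := T_1 (nat_lit 77) (nat_lit 61) (nat_lit 2) (nat_lit 6) (nat_lit 4) L339298 (by decide +kernel)
theorem L339300 : W_1 (nat_lit 4) (nat_lit 0x100008000000032001e000000000000000000) (nat_lit 0x0) (nat_lit 0x800e0003800000000000000) := T_1 (nat_lit 60) (nat_lit 59) (nat_lit 2) (nat_lit 5) (nat_lit 4) L339299 (by decide +kernel)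
theorem L339301 : W_1 (nat_lit 5) (nat_lit 0x100008000000030001e000000000000000000) (nat_lit 0x0) (nat_lit 0xe00e0003800000000000000) := T_1 (nat_lit 89) (nat_lit 90) (nat_lit 1) (nat_lit 8) (nat_lit 4) L339300 (by decide +kernel)
theorem L339868 : W_1 (nat_lit 4) (nat_lit 0x100008000000038000c000000000000000000) (nat_lit 0x0) (nat_lit 0x20001800c00000000400020000000000) := T_1 (nat_lit 94) (nat_lit 95) (nat_lit 0) (nat_lit 10) (nat_lit 5) L258757 (by decide +kernel)
theorem L340032 : W_1 (nat_lit 2) (nat_lit 0x100008000200030001e000300000000000000) (nat_lit 0x0) (nat_lit 0x400010000800000) := D_1 (nat_lit 40) (nat_lit 58) (nat_lit 23) (nat_lit 4) (nat_lit 7) (nat_lit 6) (nat_lit 7) (nat_lit 6) (nat_lit 1) (by decide +kernel)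
theorem L340033 : W_1 (nat_lit 3) (nat_lit 0x100008000200030001e000100000000000000) (nat_lit 0x0) (nat_lit 0x20000600010000800000) := T_1 (nat_lit 57) (nat_lit 77) (nat_lit 0) (nat_lit 9) (nat_lit 4) L340032 (by decide +kernel)
theorem L340034 : W_1 (nat_lit 4) (nat_lit 0x100008000200030001e000000000000000000) (nat_lit 0x0) (nat_lit 0x20000780010000800000) := T_1 (nat_lit 56) (nat_lit 55) (nat_lit 0) (nat_lit 8) (nat_lit 4) L340033 (by decide +kernel)
theorem L340035 : W_1 (nat_lit 5) (nat_lit 0x100008000000030001e000000000000000000) (nat_lit 0x0) (nat_lit 0x40002000000020000780010000800000) := T_1 (nat_lit 109) (nat_lit 126) (nat_lit 7) (nat_lit 7) (nat_lit 4) L340034 (by decide +kernel)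
theorem L340071 : W_1 (nat_lit 2) (nat_lit 0x100008000200070000c000000000000000000) (nat_lit 0x0) (nat_lit 0x80012000000000000000000) := D_1 (nat_lit 73) (nat_lit 91) (nat_lit 76) (nat_lit 0) (nat_lit 9) (nat_lit 5) (nat_lit 3) (nat_lit 5) (nat_lit 4) (by decide +kernel)
theorem L340072 : W_1 (nat_lit 3) (nat_lit 0x100008000200030000c000000000000000000) (nat_lit 0x0) (nat_lit 0xc80012000000000000000000) := T_1 (nat_lit 94) (nat_lit 95) (nat_lit 0) (nat_lit 10) (nat_lit 5) L340071 (by decide +kernel)
theorem L340073 : W_1 (nat_lit 4) (nat_lit 0x100008000000030000c000000000000000000) (nat_lit 0x0) (nat_lit 0x40002000c80012000000000000000000) := T_1 (nat_lit 109) (nat_lit 126) (nat_lit 7) (nat_lit 7) (nat_lit 4) L340072 (by decide +kernel)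
theorem L340074 : W_1 (nat_lit 6) (nat_lit 0x100008000000030001c000000000000000000) (nat_lit 0x0) (nat_lit 0x40002000000023000780010000800000) := T_1 (nat_lit 73) (nat_lit 72) (nat_lit 3) (nat_lit 4) (nat_lit 4) L340035 (by decide +kernel)
theorem L340088 : W_1 (nat_lit 4) (nat_lit 0x100008000200030000c000400000000000000) (nat_lit 0x0) (nat_lit 0x20001000080000000200030000800000) := T_1 (nat_lit 108) (nat_lit 125) (nat_lit 5) (nat_lit 7) (nat_lit 3) L257171 (by decide +kernel)
theorem L340107 : W_1 (nat_lit 2) (nat_lit 0x100008000000030001c000000000000000000) (nat_lit 0x0) (nat_lit 0xc00002000000000000000000) := D_1 (nat_lit 94) (nat_lit 95) (nat_lit 73) (nat_lit 0) (nat_lit 10) (nat_lit 5) (nat_lit 3) (nat_lit 5) (nat_lit 4) (by decide +kernel)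
theorem L340788 : W_1 (nat_lit 2) (nat_lit 0x10000800024003c001e000900000000000000) (nat_lit 0x0) (nat_lit 0x20001000000000000000008000000000) := D_1 (nat_lit 108) (nat_lit 125) (nat_lit 39) (nat_lit 4) (nat_lit 6) (nat_lit 7) (nat_lit 7) (nat_lit 5) (nat_lit 2) (by decide +kernel)
theorem L340789 : W_1 (nat_lit 3) (nat_lit 0x10000800024003c001e000800000000000000) (nat_lit 0x0) (nat_lit 0x20001000000000000180008000000000) := T_1 (nat_lit 56) (nat_lit 55) (nat_lit 0) (nat_lit 8) (nat_lit 4) L340788 (by decide +kernel)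
theorem L340790 : W_1 (nat_lit 4) (nat_lit 0x10000800024003c001a000800000000000000) (nat_lit 0x0) (nat_lit 0x20001000000004001180008000000000) := T_1 (nat_lit 74) (nat_lit 60) (nat_lit 2) (nat_lit 5) (nat_lit 4) L340789 (by decide +kernel)
theorem L340791 : W_1 (nat_lit 5) (nat_lit 0x10000800020003c001a000800000000000000) (nat_lit 0x0) (nat_lit 0x20001c00000004001180008000000000) := T_1 (nat_lit 106) (nat_lit 107) (nat_lit 1) (nat_lit 8) (nat_lit 5) L340790 (by decide +kernel)
theorem L340792 : W_1 (nat_lit 6) (nat_lit 0x10000800020003c0018000800000000000000) (nat_lit 0x0) (nat_lit 0x20001c00000007001180008000000000) := T_1 (nat_lit 73) (nat_lit 72) (nat_lit 0) (nat_lit 8) (nat_lit 5) L340791 (by decide +kernel)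
theorem L340793 : W_1 (nat_lit 7) (nat_lit 0x10000800020003c0018000000000000000000) (nat_lit 0x0) (nat_lit 0x20001c00000007001980048000000000) := T_1 (nat_lit 59) (nat_lit 42) (nat_lit 5) (nat_lit 8) (nat_lit 2) L340792 (by decide +kernel)
theorem L340794 : W_1 (nat_lit 8) (nat_lit 0x10000800000003c0018000000000000000000) (nat_lit 0x0) (nat_lit 0x60003c00000007001980048000000000) := T_1 (nat_lit 109) (nat_lit 126) (nat_lit 7) (nat_lit 7) (nat_lit 4) L340793 (by decide +kernel)
theorem L340795 : W_1 (nat_lit 9) (nat_lit 0x1000080000000380018000000000000000000) (nat_lit 0x0) (nat_lit 0x60003c00060007001980048000000000) := T_1 (nat_lit 90) (nat_lit 89) (nat_lit 2) (nat_lit 4) (nat_lit 5) L340794 (by decide +kernel)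
theorem L341029 : W_1 (nat_lit 2) (nat_lit 0x10000800004003c001e00090001c000000000) (nat_lit 0x0) (nat_lit 0x600020000000000) := D_1 (nat_lit 58) (nat_lit 41) (nat_lit 57) (nat_lit 3) (nat_lit 4) (nat_lit 2) (nat_lit 0) (nat_lit 8) (nat_lit 3) (by decide +kernel)
theorem L341030 : W_1 (nat_lit 3) (nat_lit 0x10000800004003c001e000900018000000000) (nat_lit 0x0) (nat_lit 0x600024000200000) := T_1 (nat_lit 38) (nat_lit 21) (nat_lit 4) (nat_lit 5) (nat_lit 5) L341029 (by decide +kernel)
theorem L341031 : W_1 (nat_lit 4) (nat_lit 0x10000800004003c001e000900008000000000) (nat_lit 0x0) (nat_lit 0x600034000a00000) := T_1 (nat_lit 40) (nat_lit 23) (nat_lit 6) (nat_lit 5) (nat_lit 5) L341030 (by decide +kernel)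
theorem L341032 : W_1 (nat_lit 5) (nat_lit 0x10000800004003c001e000900000000000000) (nat_lit 0x0) (nat_lit 0x60003c000e00000) := T_1 (nat_lit 39) (nat_lit 22) (nat_lit 7) (nat_lit 5) (nat_lit 1) L341031 (by decide +kernel)
theorem L341033 : W_1 (nat_lit 6) (nat_lit 0x10000800004003c001e000100000000000000) (nat_lit 0x0) (nat_lit 0x1e0003c000e00000) := T_1 (nat_lit 59) (nat_lit 60) (nat_lit 2) (nat_lit 5) (nat_lit 4) L341032 (by decide +kernel)
theorem L341034 : W_1 (nat_lit 7) (nat_lit 0x10000800004003c001e000000000000000000) (nat_lit 0x0) (nat_lit 0x1f8003c000e00000) := T_1 (nat_lit 56) (nat_lit 55) (nat_lit 0) (nat_lit 8) (nat_lit 4) L341033 (by decide +kernel)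
theorem L341834 : W_1 (nat_lit 2) (nat_lit 0x1000080008000780008000000000000000000) (nat_lit 0x0) (nat_lit 0x100000000000060000000000000000000) := D_1 (nat_lit 77) (nat_lit 78) (nat_lit 128) (nat_lit 2) (nat_lit 6) (nat_lit 5) (nat_lit 5) (nat_lit 9) (nat_lit 4) (by decide +kernel)
theorem L341835 : W_1 (nat_lit 3) (nat_lit 0x1000080000000780008000000000000000000) (nat_lit 0x0) (nat_lit 0x100018000000060000000000000000000) := T_1 (nat_lit 111) (nat_lit 112) (nat_lit 3) (nat_lit 6) (nat_lit 5) L341834 (by decide +kernel)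
theorem L341862 : W_1 (nat_lit 2) (nat_lit 0x10000800004007e0028000000000000000000) (nat_lit 0x0) (nat_lit 0x3800000000000000000) := D_1 (nat_lit 72) (nat_lit 71) (nat_lit 73) (nat_lit 0) (nat_lit 7) (nat_lit 5) (nat_lit 0) (nat_lit 8) (nat_lit 5) (by decide +kernel)
theorem L341863 : W_1 (nat_lit 3) (nat_lit 0x10000800004007c0028000000000000000000) (nat_lit 0x0) (nat_lit 0x200020003800000000000000000) := T_1 (nat_lit 89) (nat_lit 105) (nat_lit 1) (nat_lit 7) (nat_lit 5) L341862 (by decide +kernel)
theorem L341864 : W_1 (nat_lit 4) (nat_lit 0x10000800000007c0028000000000000000000) (nat_lit 0x0) (nat_lit 0xe00020003800000000000000000) := T_1 (nat_lit 106) (nat_lit 107) (nat_lit 1) (nat_lit 8) (nat_lit 5) L341863 (by decide +kernel)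
theorem L341867 : W_1 (nat_lit 2) (nat_lit 0x100008000000078003c001200038004000000) (nat_lit 0x0) (nat_lit 0x800040002000000) := D_1 (nat_lit 42) (nat_lit 59) (nat_lit 25) (nat_lit 3) (nat_lit 5) (nat_lit 2) (nat_lit 2) (nat_lit 5) (nat_lit 2) (by decide +kernel)
theorem L341868 : W_1 (nat_lit 3) (nat_lit 0x100008000000078003c001200030004000000) (nat_lit 0x0) (nat_lit 0x800048002400000) := T_1 (nat_lit 39) (nat_lit 22) (nat_lit 4) (nat_lit 6) (nat_lit 5) L341867 (by decide +kernel)
theorem L341869 : W_1 (nat_lit 4) (nat_lit 0x100008000000078003c001200010004000000) (nat_lit 0x0) (nat_lit 0x800068003400000) := T_1 (nat_lit 41) (nat_lit 24) (nat_lit 6) (nat_lit 6) (nat_lit 5) L341868 (by decide +kernel)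
theorem L341870 : W_1 (nat_lit 5) (nat_lit 0x100008000000078003c001200000004000000) (nat_lit 0x0) (nat_lit 0x800078003c00000) := T_1 (nat_lit 40) (nat_lit 23) (nat_lit 7) (nat_lit 6) (nat_lit 1) L341869 (by decide +kernel)
theorem L341871 : W_1 (nat_lit 6) (nat_lit 0x100008000000078003c001200000000000000) (nat_lit 0x0) (nat_lit 0x8000f8007c00000) := T_1 (nat_lit 26) (nat_lit 43) (nat_lit 5) (nat_lit 9) (nat_lit 1) L341870 (by decide +kernel)
theorem L341872 : W_1 (nat_lit 7) (nat_lit 0x100008000000078003c001000000000000000) (nat_lit 0x0) (nat_lit 0xb000f8007c00000) := T_1 (nat_lit 57) (nat_lit 56) (nat_lit 0) (nat_lit 9) (nat_lit 4) L341871 (by decide +kernel)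
theorem L341873 : W_1 (nat_lit 8) (nat_lit 0x100008000000078003c000000000000000000) (nat_lit 0x0) (nat_lit 0x3b000f8007c00000) := T_1 (nat_lit 60) (nat_lit 61) (nat_lit 2) (nat_lit 6) (nat_lit 4) L341872 (by decide +kernel)
theorem L341874 : W_1 (nat_lit 9) (nat_lit 0x100008000000078002c000000000000000000) (nat_lit 0x0) (nat_lit 0x40010003b000f8007c00000) := T_1 (nat_lit 76) (nat_lit 90) (nat_lit 2) (nat_lit 5) (nat_lit 5) L341873 (by decide +kernel)
theorem L341875 : W_1 (nat_lit 10) (nat_lit 0x100008000000078000c000000000000000000) (nat_lit 0x0) (nat_lit 0x40070003b000f8007c00000) := T_1 (nat_lit 77) (nat_lit 78) (nat_lit 2) (nat_lit 6) (nat_lit 5) L341874 (by decide +kernel)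
theorem L343860 : W_1 (nat_lit 5) (nat_lit 0x1000080000000700008000000000000000000) (nat_lit 0x0) (nat_lit 0x380008800e4000000000000000000) := T_1 (nat_lit 95) (nat_lit 74) (nat_lit 0) (nat_lit 10) (nat_lit 5) L271023 (by decide +kernel)
theorem L343861 : W_1 (nat_lit 2) (nat_lit 0x1000080022000f00088000000000000000000) (nat_lit 0x0) (nat_lit 0x40001000100000000000000000000) := D_1 (nat_lit 96) (nat_lit 80) (nat_lit 114) (nat_lit 2) (nat_lit 8) (nat_lit 5) (nat_lit 3) (nat_lit 8) (nat_lit 5) (by decide +kernel)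
theorem L343862 : W_1 (nat_lit 3) (nat_lit 0x1000080002000f00088000000000000000000) (nat_lit 0x0) (nat_lit 0x70001000100000000000000000000) := T_1 (nat_lit 113) (nat_lit 112) (nat_lit 3) (nat_lit 7) (nat_lit 5) L343861 (by decide +kernel)
theorem L343863 : W_1 (nat_lit 4) (nat_lit 0x1000080002000f00008000000000000000000) (nat_lit 0x0) (nat_lit 0x700010001c0000000000000000000) := T_1 (nat_lit 79) (nat_lit 78) (nat_lit 2) (nat_lit 7) (nat_lit 5) L343862 (by decide +kernel)
theorem L344304 : W_1 (nat_lit 2) (nat_lit 0x1000080020000f00088000400000000000000) (nat_lit 0x0) (nat_lit 0x40001000100000000000000000000) := D_1 (nat_lit 96) (nat_lit 80) (nat_lit 114) (nat_lit 2) (nat_lit 8) (nat_lit 5) (nat_lit 3) (nat_lit 8) (nat_lit 5) (by decide +kernel)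
theorem L344305 : W_1 (nat_lit 3) (nat_lit 0x1000080000000f00088000400000000000000) (nat_lit 0x0) (nat_lit 0x70001000100000000000000000000) := T_1 (nat_lit 113) (nat_lit 112) (nat_lit 3) (nat_lit 7) (nat_lit 5) L344304 (by decide +kernel)
theorem L344306 : W_1 (nat_lit 4) (nat_lit 0x1000080000000f00008000400000000000000) (nat_lit 0x0) (nat_lit 0x700010001c0000000000000000000) := T_1 (nat_lit 79) (nat_lit 78) (nat_lit 2) (nat_lit 7) (nat_lit 5) L344305 (by decide +kernel)
theorem L345861 : W_1 (nat_lit 2) (nat_lit 0x100008000000038003c001200038004000000) (nat_lit 0x0) (nat_lit 0x800040002000000) := D_1 (nat_lit 42) (nat_lit 59) (nat_lit 25) (nat_lit 3) (nat_lit 5) (nat_lit 2) (nat_lit 2) (nat_lit 5) (nat_lit 2) (by decide +kernel)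
theorem L345862 : W_1 (nat_lit 3) (nat_lit 0x100008000000038003c001200030004000000) (nat_lit 0x0) (nat_lit 0x800048002400000) := T_1 (nat_lit 39) (nat_lit 22) (nat_lit 4) (nat_lit 6) (nat_lit 5) L345861 (by decide +kernel)
theorem L345863 : W_1 (nat_lit 4) (nat_lit 0x100008000000038003c001200010004000000) (nat_lit 0x0) (nat_lit 0x800068003400000) := T_1 (nat_lit 41) (nat_lit 24) (nat_lit 6) (nat_lit 6) (nat_lit 5) L345862 (by decide +kernel)
theorem L345864 : W_1 (nat_lit 5) (nat_lit 0x100008000000038003c001200000004000000) (nat_lit 0x0) (nat_lit 0x800078003c00000) := T_1 (nat_lit 40) (nat_lit 23) (nat_lit 7) (nat_lit 6) (nat_lit 1) L345863 (by decide +kernel)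
theorem L345865 : W_1 (nat_lit 6) (nat_lit 0x100008000000038003c001200000000000000) (nat_lit 0x0) (nat_lit 0x8000f8007c00000) := T_1 (nat_lit 26) (nat_lit 43) (nat_lit 5) (nat_lit 9) (nat_lit 1) L345864 (by decide +kernel)
theorem L345866 : W_1 (nat_lit 7) (nat_lit 0x100008000000038003c001000000000000000) (nat_lit 0x0) (nat_lit 0xb000f8007c00000) := T_1 (nat_lit 57) (nat_lit 56) (nat_lit 0) (nat_lit 9) (nat_lit 4) L345865 (by decide +kernel)
theorem L345867 : W_1 (nat_lit 8) (nat_lit 0x100008000000038003c000000000000000000) (nat_lit 0x0) (nat_lit 0x3b000f8007c00000) := T_1 (nat_lit 60) (nat_lit 61) (nat_lit 2) (nat_lit 6) (nat_lit 4) L345866 (by decide +kernel)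
theorem L345868 : W_1 (nat_lit 9) (nat_lit 0x100008000000030003c000000000000000000) (nat_lit 0x0) (nat_lit 0xc0000003b000f8007c00000) := T_1 (nat_lit 91) (nat_lit 90) (nat_lit 2) (nat_lit 5) (nat_lit 5) L345867 (by decide +kernel)
theorem L345948 : W_1 (nat_lit 2) (nat_lit 0x1000080002000300018000700000001000000) (nat_lit 0x0) (nat_lit 0x60000800000000000000) := D_1 (nat_lit 77) (nat_lit 78) (nat_lit 59) (nat_lit 0) (nat_lit 10) (nat_lit 4) (nat_lit 3) (nat_lit 5) (nat_lit 3) (by decide +kernel)
theorem L345949 : W_1 (nat_lit 3) (nat_lit 0x1000080002000300018000600000001000000) (nat_lit 0x0) (nat_lit 0x60000980000000000000) := T_1 (nat_lit 56) (nat_lit 55) (nat_lit 3) (nat_lit 4) (nat_lit 3) L345948 (by decide +kernel)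
theorem L345950 : W_1 (nat_lit 4) (nat_lit 0x1000080002000300018000400000001000000) (nat_lit 0x0) (nat_lit 0x60000b80010000000000) := T_1 (nat_lit 57) (nat_lit 40) (nat_lit 4) (nat_lit 7) (nat_lit 6) L345949 (by decide +kernel)
theorem L345951 : W_1 (nat_lit 5) (nat_lit 0x1000080000000300018000400000001000000) (nat_lit 0x0) (nat_lit 0x40002000000060000b80010000000000) := T_1 (nat_lit 109) (nat_lit 126) (nat_lit 7) (nat_lit 7) (nat_lit 4) L345950 (by decide +kernel)
theorem L345952 : W_1 (nat_lit 6) (nat_lit 0x1000080000000300018000400000000000000) (nat_lit 0x0) (nat_lit 0x40002000000060000b80030001000000) := T_1 (nat_lit 24) (nat_lit 41) (nat_lit 7) (nat_lit 7) (nat_lit 1) L345951 (by decide +kernel)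
theorem L346092 : W_1 (nat_lit 2) (nat_lit 0x10000800020007000780030000c0000000000) (nat_lit 0x0) (nat_lit 0x8000000000000000100008000000) := D_1 (nat_lit 44) (nat_lit 27) (nat_lit 111) (nat_lit 6) (nat_lit 9) (nat_lit 5) (nat_lit 6) (nat_lit 9) (nat_lit 6) (by decide +kernel)
theorem L346093 : W_1 (nat_lit 3) (nat_lit 0x10000800020003000780030000c0000000000) (nat_lit 0x0) (nat_lit 0x800040000000000010000a000000) := T_1 (nat_lit 94) (nat_lit 25) (nat_lit 4) (nat_lit 9) (nat_lit 5) L346092 (by decide +kernel)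
theorem L346094 : W_1 (nat_lit 4) (nat_lit 0x1000080002000300078003000040000000000) (nat_lit 0x0) (nat_lit 0x800040000000000018000e000000) := T_1 (nat_lit 43) (nat_lit 26) (nat_lit 5) (nat_lit 9) (nat_lit 1) L346093 (by decide +kernel)
theorem L346095 : W_1 (nat_lit 5) (nat_lit 0x1000080002000300078002000040000000000) (nat_lit 0x0) (nat_lit 0x800040000400100018000e000000) := T_1 (nat_lit 60) (nat_lit 74) (nat_lit 2) (nat_lit 6) (nat_lit 4) L346094 (by decide +kernel)
theorem L346096 : W_1 (nat_lit 6) (nat_lit 0x1000080002000300078000000040000000000) (nat_lit 0x0) (nat_lit 0x800040000400700018000e000000) := T_1 (nat_lit 61) (nat_lit 62) (nat_lit 2) (nat_lit 7) (nat_lit 4) L346095 (by decide +kernel)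
theorem L346097 : W_1 (nat_lit 7) (nat_lit 0x1000080002000300078000000000000000000) (nat_lit 0x0) (nat_lit 0x80004000040078001c000e000000) := T_1 (nat_lit 42) (nat_lit 59) (nat_lit 5) (nat_lit 8) (nat_lit 2) L346096 (by decide +kernel)
theorem L346098 : W_1 (nat_lit 8) (nat_lit 0x1000080000000300078000000000000000000) (nat_lit 0x0) (nat_lit 0x4000a0004000040078001c000e000000) := T_1 (nat_lit 109) (nat_lit 126) (nat_lit 7) (nat_lit 7) (nat_lit 4) L346097 (by decide +kernel)
theorem L346099 : W_1 (nat_lit 9) (nat_lit 0x1000080000000300038000000000000000000) (nat_lit 0x0) (nat_lit 0x4000a0004000c40078001c000e000000) := T_1 (nat_lit 78) (nat_lit 79) (nat_lit 1) (nat_lit 11) (nat_lit 4) L346098 (by decide +kernel)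
theorem L354605 : W_1 (nat_lit 2) (nat_lit 0x100008000000078002c000000000000000000) (nat_lit 0x0) (nat_lit 0x100018000000000000000000000000000) := D_1 (nat_lit 111) (nat_lit 112) (nat_lit 128) (nat_lit 3) (nat_lit 6) (nat_lit 5) (nat_lit 5) (nat_lit 9) (nat_lit 4) (by decide +kernel)
theorem L402597 : W_1 (nat_lit 2) (nat_lit 0x380018001c000300020000000000000000000) (nat_lit 0x0) (nat_lit 0x400600000000000000000000000000000000) := D_1 (nat_lit 129) (nat_lit 142) (nat_lit 130) (nat_lit 2) (nat_lit 6) (nat_lit 8) (nat_lit 1) (nat_lit 11) (nat_lit 7) (by decide +kernel)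
theorem L402598 : W_1 (nat_lit 3) (nat_lit 0x300018001c000300020000000000000000000) (nat_lit 0x0) (nat_lit 0x10000c00600000000000000000000000000000000) := T_1 (nat_lit 143) (nat_lit 160) (nat_lit 5) (nat_lit 8) (nat_lit 5) L402597 (by decide +kernel)
theorem L402599 : W_1 (nat_lit 4) (nat_lit 0x300018000c000300020000000000000000000) (nat_lit 0x0) (nat_lit 0x10000c00600030000000000000000000000000000) := T_1 (nat_lit 112) (nat_lit 113) (nat_lit 0) (nat_lit 11) (nat_lit 6) L402598 (by decide +kernel)
theorem L402600 : W_1 (nat_lit 5) (nat_lit 0x100018000c000300020000000000000000000) (nat_lit 0x0) (nat_lit 0x50002c00600030000000000000000000000000000) := T_1 (nat_lit 145) (nat_lit 162) (nat_lit 7) (nat_lit 8) (nat_lit 5) L402599 (by decide +kernel)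
theorem L402601 : W_1 (nat_lit 6) (nat_lit 0x100018000c000300000000000000000000000) (nat_lit 0x0) (nat_lit 0x50002c00600030000400020000000000000000000) := T_1 (nat_lit 77) (nat_lit 94) (nat_lit 6) (nat_lit 8) (nat_lit 8) L402600 (by decide +kernel)
theorem L402602 : W_1 (nat_lit 2) (nat_lit 0x30001a001c000f00000000000000000000000) (nat_lit 0x0) (nat_lit 0x2003000000000000000000000000) := D_1 (nat_lit 96) (nat_lit 109) (nat_lit 97) (nat_lit 2) (nat_lit 7) (nat_lit 6) (nat_lit 1) (nat_lit 12) (nat_lit 5) (by decide +kernel)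
theorem L402603 : W_1 (nat_lit 3) (nat_lit 0x30001a001c000700000000000000000000000) (nat_lit 0x0) (nat_lit 0x2003800040000000000000000000) := T_1 (nat_lit 95) (nat_lit 78) (nat_lit 6) (nat_lit 9) (nat_lit 8) L402602 (by decide +kernel)
theorem L402604 : W_1 (nat_lit 4) (nat_lit 0x300018001c000700000000000000000000000) (nat_lit 0x0) (nat_lit 0x60002003800040000000000000000000) := T_1 (nat_lit 125) (nat_lit 126) (nat_lit 2) (nat_lit 6) (nat_lit 7) L402603 (by decide +kernel)
theorem L402605 : W_1 (nat_lit 5) (nat_lit 0x100018001c000700000000000000000000000) (nat_lit 0x0) (nat_lit 0x40002000060002003800040000000000000000000) := T_1 (nat_lit 145) (nat_lit 162) (nat_lit 7) (nat_lit 8) (nat_lit 5) L402604 (by decide +kernel)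
theorem L402606 : W_1 (nat_lit 6) (nat_lit 0x100018001c000300000000000000000000000) (nat_lit 0x0) (nat_lit 0x40002000060002003c00060000000000000000000) := T_1 (nat_lit 94) (nat_lit 77) (nat_lit 6) (nat_lit 8) (nat_lit 8) L402605 (by decide +kernel)
theorem L402607 : W_1 (nat_lit 7) (nat_lit 0x100018000c000300000000000000000000000) (nat_lit 0x0) (nat_lit 0x40002000060032003c00060000000000000000000) := T_1 (nat_lit 112) (nat_lit 113) (nat_lit 0) (nat_lit 11) (nat_lit 6) L402606 (by decide +kernel)
theorem L402608 : W_1 (nat_lit 2) (nat_lit 0x1c0018000c000300000000000000000000000) (nat_lit 0x0) (nat_lit 0x640000000000000000000000000000000) := D_1 (nat_lit 129) (nat_lit 130) (nat_lit 126) (nat_lit 1) (nat_lit 11) (nat_lit 7) (nat_lit 1) (nat_lit 10) (nat_lit 7) (by decide +kernel)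
theorem L402609 : W_1 (nat_lit 3) (nat_lit 0x180018000c000300000000000000000000000) (nat_lit 0x0) (nat_lit 0x600640000000000000000000000000000000) := T_1 (nat_lit 142) (nat_lit 141) (nat_lit 2) (nat_lit 5) (nat_lit 8) L402608 (by decide +kernel)
theorem L402610 : W_1 (nat_lit 4) (nat_lit 0x100018000c000300000000000000000000000) (nat_lit 0x0) (nat_lit 0x10000e00640000000000000000000000000000000) := T_1 (nat_lit 143) (nat_lit 160) (nat_lit 5) (nat_lit 8) (nat_lit 5) L402609 (by decide +kernel)
theorem L402611 : W_1 (nat_lit 8) (nat_lit 0x100008000c000300000000000000000000000) (nat_lit 0x0) (nat_lit 0x50002e00760032003c00060000000000000000000) := Q_1 (nat_lit 128) (C_1 L402601 (C_1 L402607 (C_1 L402610 N_1))) (by decide +kernel)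
theorem L402612 : W_1 (nat_lit 2) (nat_lit 0x380008000e000f80004000000000000000000) (nat_lit 0x0) (nat_lit 0x1000000000000c0000000000000000000) := D_1 (nat_lit 78) (nat_lit 128) (nat_lit 79) (nat_lit 6) (nat_lit 9) (nat_lit 8) (nat_lit 2) (nat_lit 7) (nat_lit 5) (by decide +kernel)
theorem L402613 : W_1 (nat_lit 3) (nat_lit 0x380008000e000780004000000000000000000) (nat_lit 0x0) (nat_lit 0x1000000018000c0000000000000000000) := T_1 (nat_lit 95) (nat_lit 96) (nat_lit 1) (nat_lit 11) (nat_lit 5) L402612 (by decide +kernel)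
theorem L402614 : W_1 (nat_lit 4) (nat_lit 0x380008000c000780004000000000000000000) (nat_lit 0x0) (nat_lit 0x1400020018000c0000000000000000000) := T_1 (nat_lit 109) (nat_lit 126) (nat_lit 4) (nat_lit 7) (nat_lit 8) L402613 (by decide +kernel)
theorem L402615 : W_1 (nat_lit 5) (nat_lit 0x300008000c000780004000000000000000000) (nat_lit 0x0) (nat_lit 0x100008001400020018000c0000000000000000000) := T_1 (nat_lit 143) (nat_lit 160) (nat_lit 5) (nat_lit 8) (nat_lit 5) L402614 (by decide +kernel)
theorem L402616 : W_1 (nat_lit 6) (nat_lit 0x300008000c000780000000000000000000000) (nat_lit 0x0) (nat_lit 0x100008001400020018000c6000000000000000000) := T_1 (nat_lit 74) (nat_lit 73) (nat_lit 0) (nat_lit 9) (nat_lit 5) L402615 (by decide +kernel)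
theorem L402617 : W_1 (nat_lit 7) (nat_lit 0x100008000c000780000000000000000000000) (nat_lit 0x0) (nat_lit 0x500028001400020018000c6000000000000000000) := T_1 (nat_lit 145) (nat_lit 162) (nat_lit 7) (nat_lit 8) (nat_lit 5) L402616 (by decide +kernel)
theorem L402618 : W_1 (nat_lit 8) (nat_lit 0x100008000c000380000000000000000000000) (nat_lit 0x0) (nat_lit 0x50002800140002001c000e6000000000000000000) := T_1 (nat_lit 94) (nat_lit 77) (nat_lit 6) (nat_lit 8) (nat_lit 8) L402617 (by decide +kernel)
theorem L402619 : W_1 (nat_lit 9) (nat_lit 0x100008000c000300000000000000000000000) (nat_lit 0x0) (nat_lit 0x50002800140002001cc00e6000000000000000000) := T_1 (nat_lit 91) (nat_lit 90) (nat_lit 3) (nat_lit 5) (nat_lit 5) L402618 (by decide +kernel)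
theorem L402620 : W_1 (nat_lit 10) (nat_lit 0x1000080004000300000000000000000000000) (nat_lit 0x0) (nat_lit 0x50002e0076003a003cc00e6000000000000000000) := Q_1 (nat_lit 111) (C_1 L20357 (C_1 L18584 (C_1 L402611 (C_1 L402619 N_1)))) (by decide +kernel)
theorem L404486 : W_1 (nat_lit 5) (nat_lit 0x10000f0000000300000000000000000000000) (nat_lit 0x0) (nat_lit 0x100008000700100000c00040000000000000000000000) := T_1 (nat_lit 107) (nat_lit 106) (nat_lit 0) (nat_lit 8) (nat_lit 7) L287385 (by decide +kernel)
theorem L404487 : W_1 (nat_lit 6) (nat_lit 0x10000e0000000300000000000000000000000) (nat_lit 0x0) (nat_lit 0x100008000fc011c000f00040000000000000000000000) := Q_1 (nat_lit 124) (C_1 L273028 (C_1 L23944 (C_1 L404486 (C_1 L258433 (C_1 L258475 N_1))))) (by decide +kernel)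
theorem L415049 : W_1 (nat_lit 2) (nat_lit 0x100008000000030000c000200010000000000) (nat_lit 0x0) (nat_lit 0x2000080000000400000000000000) := D_1 (nat_lit 109) (nat_lit 58) (nat_lit 91) (nat_lit 4) (nat_lit 7) (nat_lit 6) (nat_lit 7) (nat_lit 6) (nat_lit 2) (by decide +kernel)
theorem L415050 : W_1 (nat_lit 3) (nat_lit 0x100008000000030000c000200000000000000) (nat_lit 0x0) (nat_lit 0x2000080000000400010000800000) := T_1 (nat_lit 40) (nat_lit 23) (nat_lit 7) (nat_lit 6) (nat_lit 1) L415049 (by decide +kernel)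
theorem L428068 : W_1 (nat_lit 2) (nat_lit 0x8001c001c0002000000000000000000000000000) (nat_lit 0x0) (nat_lit 0x100010000000020000000000000000000000000000000) := D_1 (nat_lit 176) (nat_lit 160) (nat_lit 125) (nat_lit 5) (nat_lit 7) (nat_lit 6) (nat_lit 6) (nat_lit 6) (nat_lit 10) (by decide +kernel)
theorem L428069 : W_1 (nat_lit 3) (nat_lit 0x1c001c0002000000000000000000000000000) (nat_lit 0x0) (nat_lit 0x100018000000020000000100000000000000000000000) := T_1 (nat_lit 159) (nat_lit 92) (nat_lit 5) (nat_lit 7) (nat_lit 5) L428068 (by decide +kernel)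
theorem L428070 : W_1 (nat_lit 4) (nat_lit 0x1c000c0002000000000000000000000000000) (nat_lit 0x0) (nat_lit 0x100018000000320000000100000000000000000000000) := T_1 (nat_lit 128) (nat_lit 129) (nat_lit 1) (nat_lit 10) (nat_lit 7) L428069 (by decide +kernel)
theorem L428155 : W_1 (nat_lit 2) (nat_lit 0x18001e0002000000000000000000000000000) (nat_lit 0x0) (nat_lit 0x2000018000000000000000000000000000000) := D_1 (nat_lit 124) (nat_lit 123) (nat_lit 145) (nat_lit 3) (nat_lit 4) (nat_lit 7) (nat_lit 3) (nat_lit 5) (nat_lit 7) (by decide +kernel)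
theorem L429970 : W_1 (nat_lit 2) (nat_lit 0x1000180003000700000000000000000000000) (nat_lit 0x0) (nat_lit 0xc00080000000000000000000000) := D_1 (nat_lit 107) (nat_lit 91) (nat_lit 106) (nat_lit 1) (nat_lit 9) (nat_lit 5) (nat_lit 2) (nat_lit 4) (nat_lit 6) (by decide +kernel)
theorem L668074 : W_1 (nat_lit 6) (nat_lit 0xc00060001800180000000000000000000000000000000) (nat_lit 0x0) (nat_lit 0x20003000198002000600010000000000000000000000000000) := T_1 (nat_lit 163) (nat_lit 164) (nat_lit 0) (nat_lit 11) (nat_lit 9) L34817 (by decide +kernel)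
theorem L668075 : W_1 (nat_lit 7) (nat_lit 0x400060001800180000000000000000000000000000000) (nat_lit 0x0) (nat_lit 0x30003800198002000600010000000000000000000000000000) := T_1 (nat_lit 179) (nat_lit 196) (nat_lit 7) (nat_lit 8) (nat_lit 7) L668074 (by decide +kernel)
theorem L668112 : W_1 (nat_lit 2) (nat_lit 0x200018001e0008000100000000000000000000000) (nat_lit 0x0) (nat_lit 0x2000000000000400020000000000000000000) := D_1 (nat_lit 94) (nat_lit 77) (nat_lit 145) (nat_lit 5) (nat_lit 9) (nat_lit 4) (nat_lit 5) (nat_lit 9) (nat_lit 5) (by decide +kernel)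
theorem L668113 : W_1 (nat_lit 3) (nat_lit 0x200018001e0000000100000000000000000000000) (nat_lit 0x0) (nat_lit 0x2000000018000400020000000000000000000) := T_1 (nat_lit 111) (nat_lit 112) (nat_lit 2) (nat_lit 6) (nat_lit 7) L668112 (by decide +kernel)
theorem L668114 : W_1 (nat_lit 4) (nat_lit 0x200018001e0000000000000000000000000000000) (nat_lit 0x0) (nat_lit 0x200000001a000500020000000000000000000) := T_1 (nat_lit 92) (nat_lit 109) (nat_lit 7) (nat_lit 7) (nat_lit 5) L668113 (by decide +kernel)
theorem L668121 : W_1 (nat_lit 2) (nat_lit 0x200018001e0000000000000000000000000000000) (nat_lit 0x0) (nat_lit 0x2000018000000000000000000000000000000) := D_1 (nat_lit 124) (nat_lit 123) (nat_lit 145) (nat_lit 3) (nat_lit 4) (nat_lit 7) (nat_lit 3) (nat_lit 5) (nat_lit 7) (by decide +kernel)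
theorem L668221 : W_1 (nat_lit 2) (nat_lit 0x200018001c0008000000000000000000000000000) (nat_lit 0x0) (nat_lit 0x2000000000000400020000000000000000000) := D_1 (nat_lit 94) (nat_lit 77) (nat_lit 145) (nat_lit 5) (nat_lit 9) (nat_lit 4) (nat_lit 5) (nat_lit 9) (nat_lit 5) (by decide +kernel)
theorem L668789 : W_1 (nat_lit 2) (nat_lit 0x200018001c0038000500000000000000000000000) (nat_lit 0x0) (nat_lit 0xa80000000000000000000000) := D_1 (nat_lit 93) (nat_lit 95) (nat_lit 91) (nat_lit 3) (nat_lit 7) (nat_lit 5) (nat_lit 3) (nat_lit 6) (nat_lit 5) (by decide +kernel)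
theorem L668790 : W_1 (nat_lit 3) (nat_lit 0x200018001c0038000100000000000000000000000) (nat_lit 0x0) (nat_lit 0xe80020000000000000000000) := T_1 (nat_lit 94) (nat_lit 77) (nat_lit 5) (nat_lit 9) (nat_lit 4) L668789 (by decide +kernel)
theorem L668791 : W_1 (nat_lit 4) (nat_lit 0x200018001c0038000000000000000000000000000) (nat_lit 0x0) (nat_lit 0x2000f80020000000000000000000) := T_1 (nat_lit 92) (nat_lit 109) (nat_lit 7) (nat_lit 7) (nat_lit 5) L668790 (by decide +kernel)
theorem L668792 : W_1 (nat_lit 5) (nat_lit 0x200018001c0018000000000000000000000000000) (nat_lit 0x0) (nat_lit 0x62000f80020000000000000000000) := T_1 (nat_lit 113) (nat_lit 114) (nat_lit 1) (nat_lit 12) (nat_lit 6) L668791 (by decide +kernel)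
theorem L668793 : W_1 (nat_lit 6) (nat_lit 0x200018001c0008000000000000000000000000000) (nat_lit 0x0) (nat_lit 0x20072000f80020000000000000000000) := T_1 (nat_lit 112) (nat_lit 125) (nat_lit 2) (nat_lit 6) (nat_lit 7) L668792 (by decide +kernel)
theorem L669103 : W_1 (nat_lit 2) (nat_lit 0x2000000018001e0011000000004000000000000000000) (nat_lit 0x0) (nat_lit 0x600020000000000000000000000000000) := D_1 (nat_lit 129) (nat_lit 130) (nat_lit 113) (nat_lit 1) (nat_lit 11) (nat_lit 7) (nat_lit 2) (nat_lit 7) (nat_lit 7) (by decide +kernel)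
theorem L669104 : W_1 (nat_lit 3) (nat_lit 0x2000000018001e0001000000004000000000000000000) (nat_lit 0x0) (nat_lit 0x600038000000000000000000000000000) := T_1 (nat_lit 112) (nat_lit 111) (nat_lit 2) (nat_lit 6) (nat_lit 7) L669103 (by decide +kernel)
theorem L669105 : W_1 (nat_lit 4) (nat_lit 0x2000000018001e0001000000000000000000000000000) (nat_lit 0x0) (nat_lit 0x600038000080004000000000000000000) := T_1 (nat_lit 74) (nat_lit 91) (nat_lit 7) (nat_lit 6) (nat_lit 4) L669104 (by decide +kernel)
theorem L669106 : W_1 (nat_lit 5) (nat_lit 0x2000000018000e0001000000000000000000000000000) (nat_lit 0x0) (nat_lit 0x700038800080004000000000000000000) := T_1 (nat_lit 128) (nat_lit 107) (nat_lit 0) (nat_lit 9) (nat_lit 7) L669105 (by decide +kernel)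
theorem L670364 : W_1 (nat_lit 2) (nat_lit 0x700060001800380000000000000000000000000000000) (nat_lit 0x0) (nat_lit 0x190000000000000000000000000000000000000000) := D_1 (nat_lit 163) (nat_lit 164) (nat_lit 160) (nat_lit 1) (nat_lit 11) (nat_lit 9) (nat_lit 1) (nat_lit 10) (nat_lit 9) (by decide +kernel)
theorem L670365 : W_1 (nat_lit 3) (nat_lit 0x600060001800380000000000000000000000000000000) (nat_lit 0x0) (nat_lit 0x180190000000000000000000000000000000000000000) := T_1 (nat_lit 176) (nat_lit 175) (nat_lit 2) (nat_lit 5) (nat_lit 10) L670364 (by decide +kernel)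
theorem L670366 : W_1 (nat_lit 4) (nat_lit 0x400060001800380000000000000000000000000000000) (nat_lit 0x0) (nat_lit 0x4000380190000000000000000000000000000000000000000) := T_1 (nat_lit 177) (nat_lit 194) (nat_lit 5) (nat_lit 8) (nat_lit 7) L670365 (by decide +kernel)
theorem L670367 : W_1 (nat_lit 5) (nat_lit 0x400060001800180000000000000000000000000000000) (nat_lit 0x0) (nat_lit 0x4000380190000000600000000000000000000000000000000) := T_1 (nat_lit 129) (nat_lit 130) (nat_lit 1) (nat_lit 11) (nat_lit 7) L670366 (by decide +kernel)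
theorem L670368 : W_1 (nat_lit 2) (nat_lit 0xc000e0001800180000000000000000000000000000000) (nat_lit 0x0) (nat_lit 0x4000300000000000000000000000000000000000000000000) := D_1 (nat_lit 177) (nat_lit 176) (nat_lit 194) (nat_lit 2) (nat_lit 6) (nat_lit 10) (nat_lit 5) (nat_lit 8) (nat_lit 7) (by decide +kernel)
theorem L670369 : W_1 (nat_lit 3) (nat_lit 0x4000e0001800180000000000000000000000000000000) (nat_lit 0x0) (nat_lit 0x14000b00000000000000000000000000000000000000000000) := T_1 (nat_lit 179) (nat_lit 196) (nat_lit 7) (nat_lit 8) (nat_lit 7) L670368 (by decide +kernel)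
theorem L670370 : W_1 (nat_lit 4) (nat_lit 0x400060001800180000000000000000000000000000000) (nat_lit 0x0) (nat_lit 0x14000b00180000000000000000000000000000000000000000) := T_1 (nat_lit 163) (nat_lit 164) (nat_lit 0) (nat_lit 11) (nat_lit 9) L670369 (by decide +kernel)
theorem L670371 : W_1 (nat_lit 2) (nat_lit 0x1003f00068001800380070000000000000000000000000000) (nat_lit 0x0) (nat_lit 0xe0000000000000000000000000000000000000000000000000) := D_1 (nat_lit 198) (nat_lit 197) (nat_lit 199) (nat_lit 3) (nat_lit 7) (nat_lit 10) (nat_lit 3) (nat_lit 8) (nat_lit 10) (by decide +kernel)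
theorem L670372 : W_1 (nat_lit 3) (nat_lit 0x1001f00068001800380070000000000000000000000000000) (nat_lit 0x0) (nat_lit 0xe0006000000000000000000000000000000000000000000000) := T_1 (nat_lit 181) (nat_lit 182) (nat_lit 0) (nat_lit 12) (nat_lit 10) L670371 (by decide +kernel)
theorem L670373 : W_1 (nat_lit 4) (nat_lit 0x1000f00068001800380070000000000000000000000000000) (nat_lit 0x0) (nat_lit 0xe0007000010000000000000000000000000000000000000000) := T_1 (nat_lit 180) (nat_lit 160) (nat_lit 3) (nat_lit 6) (nat_lit 9) L670372 (by decide +kernel)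
theorem L670374 : W_1 (nat_lit 5) (nat_lit 0x1000f00060001800380070000000000000000000000000000) (nat_lit 0x0) (nat_lit 0xe000700001c000000000000000000000000000000000000000) := T_1 (nat_lit 159) (nat_lit 158) (nat_lit 0) (nat_lit 9) (nat_lit 10) L670373 (by decide +kernel)
theorem L670375 : W_1 (nat_lit 6) (nat_lit 0xf00060001800380070000000000000000000000000000) (nat_lit 0x0) (nat_lit 0xe300700001c000000000000000000000000000000000000000) := T_1 (nat_lit 192) (nat_lit 193) (nat_lit 1) (nat_lit 9) (nat_lit 10) L670374 (by decide +kernel)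
theorem L670376 : W_1 (nat_lit 7) (nat_lit 0xe00060001800380070000000000000000000000000000) (nat_lit 0x0) (nat_lit 0xe300718001c000000000000000000000000000000000000000) := T_1 (nat_lit 176) (nat_lit 175) (nat_lit 2) (nat_lit 5) (nat_lit 10) L670375 (by decide +kernel)
theorem L670377 : W_1 (nat_lit 8) (nat_lit 0xc00060001800380070000000000000000000000000000) (nat_lit 0x0) (nat_lit 0xe700738001c000000000000000000000000000000000000000) := T_1 (nat_lit 177) (nat_lit 194) (nat_lit 5) (nat_lit 8) (nat_lit 7) L670376 (by decide +kernel)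
theorem L670378 : W_1 (nat_lit 9) (nat_lit 0xc00060001800380030000000000000000000000000000) (nat_lit 0x0) (nat_lit 0xe700738001c0000000000c0000000000000000000000000000) := T_1 (nat_lit 114) (nat_lit 115) (nat_lit 1) (nat_lit 13) (nat_lit 6) L670377 (by decide +kernel)
theorem L670379 : W_1 (nat_lit 10) (nat_lit 0xc00060001800380010000000000000000000000000000) (nat_lit 0x0) (nat_lit 0xe700738001c0000000400e0000000000000000000000000000) := T_1 (nat_lit 113) (nat_lit 126) (nat_lit 2) (nat_lit 7) (nat_lit 7) L670378 (by decide +kernel)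
theorem L670380 : W_1 (nat_lit 11) (nat_lit 0xc00060001800380000000000000000000000000000000) (nat_lit 0x0) (nat_lit 0xe700738001c0020000400f0000000000000000000000000000) := T_1 (nat_lit 112) (nat_lit 145) (nat_lit 6) (nat_lit 9) (nat_lit 10) L670379 (by decide +kernel)
theorem L670381 : W_1 (nat_lit 12) (nat_lit 0x400060001800380000000000000000000000000000000) (nat_lit 0x0) (nat_lit 0xf7007b8001c0020000400f0000000000000000000000000000) := T_1 (nat_lit 179) (nat_lit 196) (nat_lit 7) (nat_lit 8) (nat_lit 7) L670380 (by decide +kernel)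
theorem L670382 : W_1 (nat_lit 13) (nat_lit 0x400060001800180000000000000000000000000000000) (nat_lit 0x0) (nat_lit 0xf7007b8001c0020006400f0000000000000000000000000000) := T_1 (nat_lit 129) (nat_lit 130) (nat_lit 1) (nat_lit 11) (nat_lit 7) L670381 (by decide +kernel)
theorem L670383 : W_1 (nat_lit 14) (nat_lit 0x400020001800180000000000000000000000000000000) (nat_lit 0x0) (nat_lit 0xf7007b801dc0020006400f0000000000000000000000000000) := Q_1 (nat_lit 162) (C_1 L670367 (C_1 L670370 (C_1 L668075 (C_1 L670382 N_1)))) (by decide +kernel)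
theorem L670385 : W_1 (nat_lit 15) (nat_lit 0x400000001800180000000000000000000000000000000) (nat_lit 0x0) (nat_lit 0xf7007b801fc0020006400f8000000000000000000000000000) := T_1 (nat_lit 161) (nat_lit 111) (nat_lit 6) (nat_lit 8) (nat_lit 10) L670383 (by decide +kernel)
theorem L672989 : W_1 (nat_lit 4) (nat_lit 0xe000e0001800380000000000000000000000000000000) (nat_lit 0x0) (nat_lit 0x20003000018002000000010000000000000000000000000000) := T_1 (nat_lit 145) (nat_lit 112) (nat_lit 6) (nat_lit 9) (nat_lit 10) L67897 (by decide +kernel)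
theorem L672990 : W_1 (nat_lit 5) (nat_lit 0xe000e0001800180000000000000000000000000000000) (nat_lit 0x0) (nat_lit 0x20003000018002000600010000000000000000000000000000) := T_1 (nat_lit 129) (nat_lit 130) (nat_lit 1) (nat_lit 11) (nat_lit 7) L672989 (by decide +kernel)
theorem L672991 : W_1 (nat_lit 6) (nat_lit 0xe000e0001800080000000000000000000000000000000) (nat_lit 0x0) (nat_lit 0x20003000018002000700018000000000000000000000000000) := T_1 (nat_lit 128) (nat_lit 111) (nat_lit 6) (nat_lit 8) (nat_lit 10) L672990 (by decide +kernel)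
theorem L672992 : W_1 (nat_lit 7) (nat_lit 0xe00060001800080000000000000000000000000000000) (nat_lit 0x0) (nat_lit 0x20003000198002000700018000000000000000000000000000) := T_1 (nat_lit 163) (nat_lit 164) (nat_lit 1) (nat_lit 11) (nat_lit 9) L672991 (by decide +kernel)
theorem L672993 : W_1 (nat_lit 8) (nat_lit 0x600060001800080000000000000000000000000000000) (nat_lit 0x0) (nat_lit 0x30003800198002000700018000000000000000000000000000) := T_1 (nat_lit 179) (nat_lit 196) (nat_lit 7) (nat_lit 8) (nat_lit 7) L672992 (by decide +kernel)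
theorem L672994 : W_1 (nat_lit 9) (nat_lit 0x600060001800080000000000000000000000000000000) (nat_lit 0x0) (nat_lit 0xf300798001c000000100008000000000000000000000000000) := T_1 (nat_lit 111) (nat_lit 128) (nat_lit 6) (nat_lit 8) (nat_lit 10) L67183 (by decide +kernel)
theorem L672995 : W_1 (nat_lit 10) (nat_lit 0x600020001800080000000000000000000000000000000) (nat_lit 0x0) (nat_lit 0xf30079803dc002000700018000000000000000000000000000) := Q_1 (nat_lit 162) (C_1 L35425 (C_1 L63020 (C_1 L672993 (C_1 L672994 N_1)))) (by decide +kernel)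
theorem L672996 : W_1 (nat_lit 2) (nat_lit 0x8000600020001800080000000000000000000000000000000) (nat_lit 0x0) (nat_lit 0x2000100008000000000000000000000000000) := D_1 (nat_lit 128) (nat_lit 111) (nat_lit 145) (nat_lit 6) (nat_lit 8) (nat_lit 10) (nat_lit 6) (nat_lit 8) (nat_lit 11) (by decide +kernel)
theorem L672997 : W_1 (nat_lit 3) (nat_lit 0x600020001800080000000000000000000000000000000) (nat_lit 0x0) (nat_lit 0x8000000000002000140008000000000000000000000000000) := T_1 (nat_lit 195) (nat_lit 126) (nat_lit 4) (nat_lit 8) (nat_lit 11) L672996 (by decide +kernel)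
theorem L673000 : W_1 (nat_lit 4) (nat_lit 0x600000001800080000000000000000000000000000000) (nat_lit 0x0) (nat_lit 0x20001c000800020000000040000000000000000000000000000000) := T_1 (nat_lit 161) (nat_lit 194) (nat_lit 5) (nat_lit 8) (nat_lit 7) L62841 (by decide +kernel)
theorem L673001 : W_1 (nat_lit 3) (nat_lit 0x600060001800080000000000000000000000000000000) (nat_lit 0x0) (nat_lit 0x10000900180000000000000000000000000000000000000000) := T_1 (nat_lit 179) (nat_lit 196) (nat_lit 7) (nat_lit 8) (nat_lit 7) L35299 (by decide +kernel)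
theorem L673002 : W_1 (nat_lit 2) (nat_lit 0x180006000e0001800080000000000000000000000000000000) (nat_lit 0x0) (nat_lit 0x100000000000010002000000000000000000000000000000000000) := D_1 (nat_lit 212) (nat_lit 145) (nat_lit 160) (nat_lit 6) (nat_lit 8) (nat_lit 12) (nat_lit 4) (nat_lit 8) (nat_lit 12) (by decide +kernel)
theorem L673003 : W_1 (nat_lit 3) (nat_lit 0x100006000e0001800080000000000000000000000000000000) (nat_lit 0x0) (nat_lit 0x300008000000010002000000000000000000000000000000000000) := T_1 (nat_lit 195) (nat_lit 213) (nat_lit 7) (nat_lit 8) (nat_lit 8) L673002 (by decide +kernel)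
theorem L673004 : W_1 (nat_lit 4) (nat_lit 0x10000600060001800080000000000000000000000000000000) (nat_lit 0x0) (nat_lit 0x300008000000190002000000000000000000000000000000000000) := T_1 (nat_lit 163) (nat_lit 164) (nat_lit 1) (nat_lit 11) (nat_lit 9) L673003 (by decide +kernel)
theorem L673005 : W_1 (nat_lit 5) (nat_lit 0x600060001800080000000000000000000000000000000) (nat_lit 0x0) (nat_lit 0x300018000800190002000000000000000000000000000000000000) := T_1 (nat_lit 196) (nat_lit 179) (nat_lit 7) (nat_lit 8) (nat_lit 7) L673004 (by decide +kernel)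
theorem L673006 : W_1 (nat_lit 2) (nat_lit 0x1003f00068001800080000000000000000000000000000000) (nat_lit 0x0) (nat_lit 0xe0000000000000000000000000000000000000000000000000) := D_1 (nat_lit 198) (nat_lit 197) (nat_lit 199) (nat_lit 3) (nat_lit 7) (nat_lit 10) (nat_lit 3) (nat_lit 8) (nat_lit 10) (by decide +kernel)
theorem L673007 : W_1 (nat_lit 3) (nat_lit 0x1001f00068001800080000000000000000000000000000000) (nat_lit 0x0) (nat_lit 0xe0006000000000000000000000000000000000000000000000) := T_1 (nat_lit 181) (nat_lit 182) (nat_lit 0) (nat_lit 12) (nat_lit 10) L673006 (by decide +kernel)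
theorem L673008 : W_1 (nat_lit 4) (nat_lit 0x1000f00068001800080000000000000000000000000000000) (nat_lit 0x0) (nat_lit 0xe0007000010000000000000000000000000000000000000000) := T_1 (nat_lit 180) (nat_lit 160) (nat_lit 3) (nat_lit 6) (nat_lit 9) L673007 (by decide +kernel)
theorem L673009 : W_1 (nat_lit 5) (nat_lit 0x1000f00060001800080000000000000000000000000000000) (nat_lit 0x0) (nat_lit 0xe000700001c000000000000000000000000000000000000000) := T_1 (nat_lit 159) (nat_lit 158) (nat_lit 0) (nat_lit 9) (nat_lit 10) L673008 (by decide +kernel)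
theorem L673010 : W_1 (nat_lit 6) (nat_lit 0xf00060001800080000000000000000000000000000000) (nat_lit 0x0) (nat_lit 0xe300700001c000000000000000000000000000000000000000) := T_1 (nat_lit 192) (nat_lit 193) (nat_lit 1) (nat_lit 9) (nat_lit 10) L673009 (by decide +kernel)
theorem L673011 : W_1 (nat_lit 7) (nat_lit 0xe00060001800080000000000000000000000000000000) (nat_lit 0x0) (nat_lit 0xe300718001c000000000000000000000000000000000000000) := T_1 (nat_lit 176) (nat_lit 175) (nat_lit 2) (nat_lit 5) (nat_lit 10) L673010 (by decide +kernel)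
theorem L673012 : W_1 (nat_lit 8) (nat_lit 0x600060001800080000000000000000000000000000000) (nat_lit 0x0) (nat_lit 0xf300798001c000000000000000000000000000000000000000) := T_1 (nat_lit 179) (nat_lit 196) (nat_lit 7) (nat_lit 8) (nat_lit 7) L673011 (by decide +kernel)
theorem L673013 : W_1 (nat_lit 9) (nat_lit 0x600020001800080000000000000000000000000000000) (nat_lit 0x0) (nat_lit 0x3000fb0079801dc002000000000000000000000000000000000000) := Q_1 (nat_lit 162) (C_1 L35425 (C_1 L673001 (C_1 L673005 (C_1 L673012 N_1)))) (by decide +kernel)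
theorem L673014 : W_1 (nat_lit 2) (nat_lit 0x600020001800080000000000000000000000000000000) (nat_lit 0x0) (nat_lit 0x8000000000000000040002000000000000000000000000000) := D_1 (nat_lit 126) (nat_lit 195) (nat_lit 109) (nat_lit 4) (nat_lit 8) (nat_lit 11) (nat_lit 4) (nat_lit 8) (nat_lit 10) (by decide +kernel)
theorem L673015 : W_1 (nat_lit 6) (nat_lit 0x600020001800080000000000000000000000000000000) (nat_lit 0x0) (nat_lit 0x120019800dc000000060003000000000000000000000000000) := Q_1 (nat_lit 160) (C_1 L34916 (C_1 L33690 N_1)) (by decide +kernel)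
theorem L673016 : W_1 (nat_lit 10) (nat_lit 0x600000001800080000000000000000000000000000000) (nat_lit 0x0) (nat_lit 0x3000fb0079801fc002000060003000000000000000000000000000) := Q_1 (nat_lit 161) (C_1 L62841 (C_1 L673013 (C_1 L673014 (C_1 L673015 N_1)))) (by decide +kernel)
theorem L673017 : W_1 (nat_lit 11) (nat_lit 0x200000001800080000000000000000000000000000000) (nat_lit 0x0) (nat_lit 0x3000ff007d801fc002000078003000000000000000000000000000) := Q_1 (nat_lit 178) (C_1 L62836 (C_1 L62837 (C_1 L673000 (C_1 L673016 N_1)))) (by decide +kernel)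
theorem L673018 : W_1 (nat_lit 4) (nat_lit 0x600030001800080000000000000000000000000000000) (nat_lit 0x0) (nat_lit 0x2000078003000000000000000000000000000) := T_1 (nat_lit 126) (nat_lit 109) (nat_lit 7) (nat_lit 7) (nat_lit 6) L33921 (by decide +kernel)
theorem L673019 : W_1 (nat_lit 5) (nat_lit 0x600020001800080000000000000000000000000000000) (nat_lit 0x0) (nat_lit 0x1000180001c002000078003000000000000000000000000000) := Q_1 (nat_lit 160) (C_1 L34916 (C_1 L673018 N_1)) (by decide +kernel)
theorem L673020 : W_1 (nat_lit 6) (nat_lit 0x600000001800080000000000000000000000000000000) (nat_lit 0x0) (nat_lit 0x20001800180003c00200017800b000000000000000000000000000) := Q_1 (nat_lit 161) (C_1 L672997 (C_1 L673014 (C_1 L67720 (C_1 L673019 N_1)))) (by decide +kernel)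
theorem L673021 : W_1 (nat_lit 7) (nat_lit 0x200000001800080000000000000000000000000000000) (nat_lit 0x0) (nat_lit 0x20001e001d0003c00200017800b000000000000000000000000000) := Q_1 (nat_lit 178) (C_1 L62836 (C_1 L673000 (C_1 L62837 (C_1 L673020 N_1)))) (by decide +kernel)
theorem L673076 : W_1 (nat_lit 3) (nat_lit 0x200020001800080000000000000000000000000000000) (nat_lit 0x0) (nat_lit 0xc000400000000000040002000000000000000000000000000) := T_1 (nat_lit 178) (nat_lit 194) (nat_lit 5) (nat_lit 8) (nat_lit 7) L673014 (by decide +kernel)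
theorem L673078 : W_1 (nat_lit 2) (nat_lit 0x2000200018000e0000000000000000000000000000000) (nat_lit 0x0) (nat_lit 0x2000018000000000000000000000000000000) := D_1 (nat_lit 124) (nat_lit 123) (nat_lit 145) (nat_lit 3) (nat_lit 4) (nat_lit 7) (nat_lit 3) (nat_lit 5) (nat_lit 7) (by decide +kernel)
theorem L673130 : W_1 (nat_lit 2) (nat_lit 0x2000000038001e0009000e00004000000000000000000) (nat_lit 0x0) (nat_lit 0x2000100008000000000000000000) := D_1 (nat_lit 92) (nat_lit 109) (nat_lit 75) (nat_lit 1) (nat_lit 10) (nat_lit 5) (nat_lit 0) (nat_lit 10) (nat_lit 5) (by decide +kernel)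
theorem L673131 : W_1 (nat_lit 3) (nat_lit 0x2000000038001e0009000600004000000000000000000) (nat_lit 0x0) (nat_lit 0x2000900048000000000000000000) := T_1 (nat_lit 95) (nat_lit 78) (nat_lit 6) (nat_lit 9) (nat_lit 8) L673130 (by decide +kernel)
theorem L673132 : W_1 (nat_lit 4) (nat_lit 0x2000000038001e0009000400004000000000000000000) (nat_lit 0x0) (nat_lit 0x2000b00058000000000000000000) := T_1 (nat_lit 93) (nat_lit 76) (nat_lit 4) (nat_lit 9) (nat_lit 8) L673131 (by decide +kernel)
theorem L673133 : W_1 (nat_lit 5) (nat_lit 0x2000000018001e0009000400004000000000000000000) (nat_lit 0x0) (nat_lit 0x20002000000002000b00058000000000000000000) := T_1 (nat_lit 145) (nat_lit 161) (nat_lit 5) (nat_lit 9) (nat_lit 5) L673132 (by decide +kernel)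
theorem L673134 : W_1 (nat_lit 6) (nat_lit 0x2000000018001e0009000000004000000000000000000) (nat_lit 0x0) (nat_lit 0x20002000000002000f00078000000000000000000) := T_1 (nat_lit 94) (nat_lit 77) (nat_lit 5) (nat_lit 9) (nat_lit 4) L673133 (by decide +kernel)
theorem L673135 : W_1 (nat_lit 7) (nat_lit 0x2000000018001e0009000000000000000000000000000) (nat_lit 0x0) (nat_lit 0x20002000000002000f8007c000000000000000000) := T_1 (nat_lit 74) (nat_lit 91) (nat_lit 7) (nat_lit 6) (nat_lit 4) L673134 (by decide +kernel)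
theorem L673136 : W_1 (nat_lit 8) (nat_lit 0x2000000018001e0001000000000000000000000000000) (nat_lit 0x0) (nat_lit 0x2000200000001a000f8007c000000000000000000) := T_1 (nat_lit 111) (nat_lit 112) (nat_lit 2) (nat_lit 6) (nat_lit 7) L673135 (by decide +kernel)
theorem L673137 : W_1 (nat_lit 9) (nat_lit 0x2000000018001e0000000000000000000000000000000) (nat_lit 0x0) (nat_lit 0x2000200000001b800f8007c000000000000000000) := T_1 (nat_lit 108) (nat_lit 107) (nat_lit 0) (nat_lit 9) (nat_lit 7) L673136 (by decide +kernel)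
theorem L673615 : W_1 (nat_lit 2) (nat_lit 0x2000000018000c0002000000000000000000000000000) (nat_lit 0x0) (nat_lit 0x20000000000000000100008000000000000000000) := D_1 (nat_lit 92) (nat_lit 75) (nat_lit 161) (nat_lit 7) (nat_lit 7) (nat_lit 4) (nat_lit 7) (nat_lit 7) (nat_lit 5) (by decide +kernel)
theorem L674968 : W_1 (nat_lit 2) (nat_lit 0x44001e00100001800380000000000000000000000000000000) (nat_lit 0x0) (nat_lit 0x80002000200000000000000000000000000000000000000000) := D_1 (nat_lit 181) (nat_lit 165) (nat_lit 199) (nat_lit 2) (nat_lit 8) (nat_lit 10) (nat_lit 3) (nat_lit 8) (nat_lit 10) (by decide +kernel)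
theorem L674969 : W_1 (nat_lit 3) (nat_lit 0x4001e00100001800380000000000000000000000000000000) (nat_lit 0x0) (nat_lit 0xe0002000200000000000000000000000000000000000000000) := T_1 (nat_lit 198) (nat_lit 197) (nat_lit 3) (nat_lit 7) (nat_lit 10) L674968 (by decide +kernel)
theorem L674970 : W_1 (nat_lit 4) (nat_lit 0x4001e00000001800380000000000000000000000000000000) (nat_lit 0x0) (nat_lit 0xe0002000380000000000000000000000000000000000000000) := T_1 (nat_lit 164) (nat_lit 163) (nat_lit 2) (nat_lit 7) (nat_lit 10) L674969 (by decide +kernel)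
theorem L674971 : W_1 (nat_lit 5) (nat_lit 0x4000e00000001800380000000000000000000000000000000) (nat_lit 0x0) (nat_lit 0xe2003000380000000000000000000000000000000000000000) := T_1 (nat_lit 180) (nat_lit 193) (nat_lit 1) (nat_lit 10) (nat_lit 10) L674970 (by decide +kernel)
theorem L677361 : W_1 (nat_lit 2) (nat_lit 0x200018001f0002000000000000000000000000000) (nat_lit 0x0) (nat_lit 0x1c00000000000000000000000000) := D_1 (nat_lit 107) (nat_lit 108) (nat_lit 106) (nat_lit 0) (nat_lit 9) (nat_lit 7) (nat_lit 0) (nat_lit 8) (nat_lit 7) (by decide +kernel)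
theorem L677362 : W_1 (nat_lit 3) (nat_lit 0x200018001e0002000000000000000000000000000) (nat_lit 0x0) (nat_lit 0x18001c00000000000000000000000000) := T_1 (nat_lit 124) (nat_lit 123) (nat_lit 3) (nat_lit 4) (nat_lit 7) L677361 (by decide +kernel)
theorem L677363 : W_1 (nat_lit 4) (nat_lit 0x18001e0002000000000000000000000000000) (nat_lit 0x0) (nat_lit 0x400020000000018001c00000000000000000000000000) := T_1 (nat_lit 161) (nat_lit 178) (nat_lit 4) (nat_lit 8) (nat_lit 10) L677362 (by decide +kernel)
theorem L677364 : W_1 (nat_lit 2) (nat_lit 0x200018001e000a000000000000000000000000000) (nat_lit 0x0) (nat_lit 0x2000000000000400020000000000000000000) := D_1 (nat_lit 94) (nat_lit 145) (nat_lit 77) (nat_lit 5) (nat_lit 9) (nat_lit 5) (nat_lit 5) (nat_lit 9) (nat_lit 4) (by decide +kernel)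
theorem L677365 : W_1 (nat_lit 3) (nat_lit 0x18001e000a000000000000000000000000000) (nat_lit 0x0) (nat_lit 0x400020002000000000000400020000000000000000000) := T_1 (nat_lit 161) (nat_lit 178) (nat_lit 6) (nat_lit 8) (nat_lit 10) L677364 (by decide +kernel)
theorem L677366 : W_1 (nat_lit 4) (nat_lit 0x18001e0002000000000000000000000000000) (nat_lit 0x0) (nat_lit 0x400020002000000018000400020000000000000000000) := T_1 (nat_lit 111) (nat_lit 112) (nat_lit 2) (nat_lit 6) (nat_lit 7) L677365 (by decide +kernel)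
theorem L677367 : W_1 (nat_lit 5) (nat_lit 0x18001c0002000000000000000000000000000) (nat_lit 0x0) (nat_lit 0x400020002000038019c00400020000000000000000000) := Q_1 (nat_lit 125) (C_1 L428155 (C_1 L677363 (C_1 L677366 N_1))) (by decide +kernel)
theorem L677368 : W_1 (nat_lit 7) (nat_lit 0x18000c0002000000000000000000000000000) (nat_lit 0x0) (nat_lit 0x400020002000738039c00400020000000000000000000) := Q_1 (nat_lit 128) (C_1 L677367 (C_1 L21489 (C_1 L62275 N_1))) (by decide +kernel)
theorem L681374 : W_1 (nat_lit 2) (nat_lit 0xf000180038000c000000000000000000000000000) (nat_lit 0x0) (nat_lit 0x3000000002000000000000000000000000000000000000) := D_1 (nat_lit 180) (nat_lit 181) (nat_lit 145) (nat_lit 3) (nat_lit 7) (nat_lit 9) (nat_lit 7) (nat_lit 9) (nat_lit 6) (by decide +kernel)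
theorem L682064 : W_1 (nat_lit 2) (nat_lit 0x3800300018000c0000000000000000000000000000000) (nat_lit 0x0) (nat_lit 0xc8000000000000000000000000000000000000000) := D_1 (nat_lit 162) (nat_lit 163) (nat_lit 159) (nat_lit 1) (nat_lit 10) (nat_lit 9) (nat_lit 1) (nat_lit 9) (nat_lit 9) (by decide +kernel)
theorem L682065 : W_1 (nat_lit 3) (nat_lit 0x3000300018000c0000000000000000000000000000000) (nat_lit 0x0) (nat_lit 0xc00c8000000000000000000000000000000000000000) := T_1 (nat_lit 175) (nat_lit 174) (nat_lit 2) (nat_lit 4) (nat_lit 10) L682064 (by decide +kernel)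
theorem L682066 : W_1 (nat_lit 4) (nat_lit 0x2000300018000c0000000000000000000000000000000) (nat_lit 0x0) (nat_lit 0x20001c00c8000000000000000000000000000000000000000) := T_1 (nat_lit 176) (nat_lit 193) (nat_lit 5) (nat_lit 7) (nat_lit 7) L682065 (by decide +kernel)
theorem L682067 : W_1 (nat_lit 5) (nat_lit 0x2000200018000c0000000000000000000000000000000) (nat_lit 0x0) (nat_lit 0x60001c00d8000000000000000000000000000000000000000) := T_1 (nat_lit 160) (nat_lit 194) (nat_lit 6) (nat_lit 7) (nat_lit 11) L682066 (by decide +kernel)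
theorem L682068 : W_1 (nat_lit 4) (nat_lit 0x2000300018000c0000000000000000000000000000000) (nat_lit 0x0) (nat_lit 0x2000100000002000038001000000000000000000000000000) := T_1 (nat_lit 176) (nat_lit 193) (nat_lit 5) (nat_lit 7) (nat_lit 7) L62597 (by decide +kernel)
theorem L682069 : W_1 (nat_lit 5) (nat_lit 0x2000200018000c0000000000000000000000000000000) (nat_lit 0x0) (nat_lit 0x6000100010002000038001000000000000000000000000000) := T_1 (nat_lit 160) (nat_lit 194) (nat_lit 6) (nat_lit 7) (nat_lit 11) L682068 (by decide +kernel)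
theorem L749531 : W_1 (nat_lit 2) (nat_lit 0x2000000018001e0001000000000000000000000000000) (nat_lit 0x0) (nat_lit 0x600002000000000000000000000000000) := D_1 (nat_lit 129) (nat_lit 130) (nat_lit 109) (nat_lit 1) (nat_lit 11) (nat_lit 7) (nat_lit 0) (nat_lit 10) (nat_lit 7) (by decide +kernel)
theorem L749532 : W_1 (nat_lit 3) (nat_lit 0x2000000018001e0000000000000000000000000000000) (nat_lit 0x0) (nat_lit 0x600003800000000000000000000000000) := T_1 (nat_lit 108) (nat_lit 107) (nat_lit 0) (nat_lit 9) (nat_lit 7) L749531 (by decide +kernel)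
theorem L749533 : W_1 (nat_lit 2) (nat_lit 0x2000000018000e0001800000000000000000000000000) (nat_lit 0x0) (nat_lit 0x2600000000000000000000000000) := D_1 (nat_lit 106) (nat_lit 105) (nat_lit 109) (nat_lit 3) (nat_lit 3) (nat_lit 6) (nat_lit 3) (nat_lit 4) (nat_lit 6) (by decide +kernel)
theorem L749534 : W_1 (nat_lit 3) (nat_lit 0x2000000018000e0001000000000000000000000000000) (nat_lit 0x0) (nat_lit 0x100002e00000000000000000000000000) := T_1 (nat_lit 107) (nat_lit 128) (nat_lit 0) (nat_lit 9) (nat_lit 7) L749533 (by decide +kernel)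
theorem L819573 : W_1 (nat_lit 2) (nat_lit 0x200018001f0000000100000000000000000000000) (nat_lit 0x0) (nat_lit 0x1c00000000000000000000000000) := D_1 (nat_lit 107) (nat_lit 106) (nat_lit 108) (nat_lit 0) (nat_lit 8) (nat_lit 7) (nat_lit 0) (nat_lit 9) (nat_lit 7) (by decide +kernel)
theorem L823971 : W_1 (nat_lit 2) (nat_lit 0x18001c000a000000000000000000000000000) (nat_lit 0x0) (nat_lit 0x20000000000000000100008000000000000000000) := D_1 (nat_lit 92) (nat_lit 161) (nat_lit 75) (nat_lit 7) (nat_lit 7) (nat_lit 5) (nat_lit 7) (nat_lit 7) (nat_lit 4) (by decide +kernel)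
theorem L825274 : W_1 (nat_lit 2) (nat_lit 0x10000f00000001800380000000000000000000000000000000) (nat_lit 0x0) (nat_lit 0xc0002000000000000000000000000000000000000) := D_1 (nat_lit 162) (nat_lit 163) (nat_lit 145) (nat_lit 2) (nat_lit 6) (nat_lit 10) (nat_lit 4) (nat_lit 9) (nat_lit 11) (by decide +kernel)
theorem L825278 : W_1 (nat_lit 2) (nat_lit 0x5000100008000600020001800380000000000000000000000000000000) (nat_lit 0x0) (nat_lit 0xa0002000000000000000000000000000000000000000000000000000000000) := D_1 (nat_lit 229) (nat_lit 247) (nat_lit 245) (nat_lit 7) (nat_lit 8) (nat_lit 10) (nat_lit 5) (nat_lit 8) (nat_lit 10) (by decide +kernel)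
theorem L825279 : W_1 (nat_lit 3) (nat_lit 0x4000100008000600020001800380000000000000000000000000000000) (nat_lit 0x0) (nat_lit 0xa0003000080000000000000000000000000000000000000000000000000000) := T_1 (nat_lit 228) (nat_lit 211) (nat_lit 5) (nat_lit 8) (nat_lit 9) L825278 (by decide +kernel)
theorem L825280 : W_1 (nat_lit 4) (nat_lit 0x100008000600020001800380000000000000000000000000000000) (nat_lit 0x0) (nat_lit 0xa0007000280000000000000000000000000000000000000000000000000000) := T_1 (nat_lit 230) (nat_lit 213) (nat_lit 7) (nat_lit 8) (nat_lit 9) L825279 (by decide +kernel)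
theorem L825281 : W_1 (nat_lit 5) (nat_lit 0x8000600020001800380000000000000000000000000000000) (nat_lit 0x0) (nat_lit 0xa0007000380000000000010000000000000000000000000000000000000000) := T_1 (nat_lit 212) (nat_lit 160) (nat_lit 4) (nat_lit 8) (nat_lit 12) L825280 (by decide +kernel)
theorem L825282 : W_1 (nat_lit 6) (nat_lit 0x600020001800380000000000000000000000000000000) (nat_lit 0x0) (nat_lit 0xa0007000380008000000010002000000000000000000000000000000000000) := T_1 (nat_lit 195) (nat_lit 145) (nat_lit 6) (nat_lit 8) (nat_lit 11) L825281 (by decide +kernel)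
theorem L825283 : W_1 (nat_lit 7) (nat_lit 0x600020001800180000000000000000000000000000000) (nat_lit 0x0) (nat_lit 0xa0007000380008000000010002000600000000000000000000000000000000) := T_1 (nat_lit 129) (nat_lit 130) (nat_lit 1) (nat_lit 11) (nat_lit 7) L825282 (by decide +kernel)
theorem L825444 : W_1 (nat_lit 2) (nat_lit 0xe00018001800180000000000000000000000000000000) (nat_lit 0x0) (nat_lit 0x100006000000000000000000000000000000000000000) := D_1 (nat_lit 158) (nat_lit 176) (nat_lit 157) (nat_lit 0) (nat_lit 9) (nat_lit 10) (nat_lit 3) (nat_lit 4) (nat_lit 9) (by decide +kernel)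
theorem L825445 : W_1 (nat_lit 3) (nat_lit 0xe00010001800180000000000000000000000000000000) (nat_lit 0x0) (nat_lit 0x110000e000000000000000000000000000000000000000) := T_1 (nat_lit 159) (nat_lit 180) (nat_lit 0) (nat_lit 10) (nat_lit 10) L825444 (by decide +kernel)
theorem L825446 : W_1 (nat_lit 4) (nat_lit 0xe00000001800180000000000000000000000000000000) (nat_lit 0x0) (nat_lit 0x400110001e000000000000000000000000000000000000000) := T_1 (nat_lit 160) (nat_lit 194) (nat_lit 6) (nat_lit 7) (nat_lit 11) L825445 (by decide +kernel)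
theorem L825566 : W_1 (nat_lit 2) (nat_lit 0x10000c000400020001800380000000000000000000000000000000) (nat_lit 0x0) (nat_lit 0x4000200010000000000000000000000000000000000000000000000000) := D_1 (nat_lit 213) (nat_lit 196) (nat_lit 230) (nat_lit 7) (nat_lit 8) (nat_lit 8) (nat_lit 7) (nat_lit 8) (nat_lit 9) (by decide +kernel)
theorem L825567 : W_1 (nat_lit 3) (nat_lit 0xc000400020001800380000000000000000000000000000000) (nat_lit 0x0) (nat_lit 0x4000300010000000010000000000000000000000000000000000000000) := T_1 (nat_lit 212) (nat_lit 160) (nat_lit 4) (nat_lit 8) (nat_lit 12) L825566 (by decide +kernel)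
theorem L825568 : W_1 (nat_lit 4) (nat_lit 0x4000400020001800380000000000000000000000000000000) (nat_lit 0x0) (nat_lit 0x4000380018000000010000000000000000000000000000000000000000) := T_1 (nat_lit 195) (nat_lit 211) (nat_lit 5) (nat_lit 8) (nat_lit 8) L825567 (by decide +kernel)
theorem L825569 : W_1 (nat_lit 5) (nat_lit 0x4000400020001800180000000000000000000000000000000) (nat_lit 0x0) (nat_lit 0x4000380018000000010000000600000000000000000000000000000000) := T_1 (nat_lit 129) (nat_lit 130) (nat_lit 1) (nat_lit 11) (nat_lit 7) L825568 (by decide +kernel)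
theorem L825570 : W_1 (nat_lit 6) (nat_lit 0x400020001800180000000000000000000000000000000) (nat_lit 0x0) (nat_lit 0x400038001c000200010000000600000000000000000000000000000000) := T_1 (nat_lit 194) (nat_lit 177) (nat_lit 5) (nat_lit 8) (nat_lit 7) L825569 (by decide +kernel)
theorem L1104085 : W_1 (nat_lit 2) (nat_lit 0xc001e00090000000000000000000000000000000) (nat_lit 0x0) (nat_lit 0x2000100000000000000000800000000000000000000000000) := D_1 (nat_lit 176) (nat_lit 193) (nat_lit 107) (nat_lit 4) (nat_lit 6) (nat_lit 11) (nat_lit 7) (nat_lit 5) (nat_lit 6) (by decide +kernel)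
theorem L1105077 : W_1 (nat_lit 2) (nat_lit 0x28001c000c0000000000000000000000000000000) (nat_lit 0x0) (nat_lit 0x8000400000000000000002000000000000000000000000000) := D_1 (nat_lit 178) (nat_lit 195) (nat_lit 109) (nat_lit 4) (nat_lit 8) (nat_lit 11) (nat_lit 4) (nat_lit 8) (nat_lit 10) (by decide +kernel)
theorem L1105357 : W_1 (nat_lit 2) (nat_lit 0x400028001c000c0000000000000000000000000000000) (nat_lit 0x0) (nat_lit 0x300008000000000000000000000000000) := D_1 (nat_lit 128) (nat_lit 129) (nat_lit 111) (nat_lit 1) (nat_lit 10) (nat_lit 7) (nat_lit 6) (nat_lit 8) (nat_lit 10) (by decide +kernel)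
theorem L1105358 : W_1 (nat_lit 3) (nat_lit 0x28001c000c0000000000000000000000000000000) (nat_lit 0x0) (nat_lit 0x8000400000000000300008000000000000000000000000000) := T_1 (nat_lit 178) (nat_lit 195) (nat_lit 4) (nat_lit 8) (nat_lit 11) L1105357 (by decide +kernel)
theorem L1105414 : W_1 (nat_lit 2) (nat_lit 0xc00028001c000c0000000000000000000000000000000) (nat_lit 0x0) (nat_lit 0x300008000000000000000000000000000) := D_1 (nat_lit 128) (nat_lit 129) (nat_lit 111) (nat_lit 1) (nat_lit 10) (nat_lit 7) (nat_lit 6) (nat_lit 8) (nat_lit 10) (by decide +kernel)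
theorem L1106872 : W_1 (nat_lit 2) (nat_lit 0x18001c000a0001000000000000000000000000000) (nat_lit 0x0) (nat_lit 0x80006000000000000000000000000000000000000000) := D_1 (nat_lit 158) (nat_lit 157) (nat_lit 175) (nat_lit 2) (nat_lit 4) (nat_lit 9) (nat_lit 5) (nat_lit 6) (nat_lit 6) (by decide +kernel)
theorem L1106873 : W_1 (nat_lit 3) (nat_lit 0x18001c000a0000000000000000000000000000000) (nat_lit 0x0) (nat_lit 0x80006000000000001000080000000000000000000000) := T_1 (nat_lit 108) (nat_lit 91) (nat_lit 7) (nat_lit 6) (nat_lit 5) L1106872 (by decide +kernel)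
theorem L1107154 : W_1 (nat_lit 2) (nat_lit 0x200010001a001c00080000000000000000000000000000000) (nat_lit 0x0) (nat_lit 0x80004000200000000000000000000000000000000000000000000) := D_1 (nat_lit 194) (nat_lit 177) (nat_lit 211) (nat_lit 6) (nat_lit 7) (nat_lit 11) (nat_lit 7) (nat_lit 6) (nat_lit 8) (by decide +kernel)
theorem L1107155 : W_1 (nat_lit 3) (nat_lit 0x10001a001c00080000000000000000000000000000000) (nat_lit 0x0) (nat_lit 0xc0006000200000000000000000000000000000000000000000000) := T_1 (nat_lit 193) (nat_lit 210) (nat_lit 6) (nat_lit 6) (nat_lit 12) L1107154 (by decide +kernel)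
theorem L1107156 : W_1 (nat_lit 4) (nat_lit 0x100018001c00080000000000000000000000000000000) (nat_lit 0x0) (nat_lit 0xc0006000200006000000000000000000000000000000000000000) := T_1 (nat_lit 157) (nat_lit 158) (nat_lit 2) (nat_lit 4) (nat_lit 9) L1107155 (by decide +kernel)
theorem L1107169 : W_1 (nat_lit 2) (nat_lit 0x38001a001c000a0000000000000000000000000000000) (nat_lit 0x0) (nat_lit 0x60001000000000000000000000000000000000000000) := D_1 (nat_lit 174) (nat_lit 173) (nat_lit 156) (nat_lit 2) (nat_lit 3) (nat_lit 10) (nat_lit 0) (nat_lit 7) (nat_lit 10) (by decide +kernel)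
theorem L1107170 : W_1 (nat_lit 3) (nat_lit 0x30001a001c000a0000000000000000000000000000000) (nat_lit 0x0) (nat_lit 0x10000e0001000000000000000000000000000000000000000) := T_1 (nat_lit 175) (nat_lit 192) (nat_lit 5) (nat_lit 6) (nat_lit 7) L1107169 (by decide +kernel)
theorem L1109386 : W_1 (nat_lit 2) (nat_lit 0xc000400028001c00080000000000000000000000000000000) (nat_lit 0x0) (nat_lit 0x200010000800000000000000000000000000000000000000000000) := D_1 (nat_lit 196) (nat_lit 213) (nat_lit 179) (nat_lit 7) (nat_lit 8) (nat_lit 8) (nat_lit 7) (nat_lit 8) (nat_lit 7) (by decide +kernel)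
theorem L1109425 : W_1 (nat_lit 3) (nat_lit 0x4000400028001c00080000000000000000000000000000000) (nat_lit 0x0) (nat_lit 0x280018000800000000000000000000000000000000000000000000) := T_1 (nat_lit 195) (nat_lit 211) (nat_lit 5) (nat_lit 8) (nat_lit 8) L1109386 (by decide +kernel)
theorem L1109644 : W_1 (nat_lit 2) (nat_lit 0xa0002000100008001c00080000000000000000000000000000000) (nat_lit 0x0) (nat_lit 0x1400040000000000000000000000000000000000000000000000000000) := D_1 (nat_lit 210) (nat_lit 226) (nat_lit 228) (nat_lit 5) (nat_lit 6) (nat_lit 9) (nat_lit 7) (nat_lit 6) (nat_lit 9) (by decide +kernel)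
theorem L1109645 : W_1 (nat_lit 3) (nat_lit 0x20002000100008001c00080000000000000000000000000000000) (nat_lit 0x0) (nat_lit 0x14000c0004000000000000000000000000000000000000000000000000) := T_1 (nat_lit 211) (nat_lit 194) (nat_lit 7) (nat_lit 6) (nat_lit 8) L1109644 (by decide +kernel)
theorem L1109646 : W_1 (nat_lit 4) (nat_lit 0x2000100008001c00080000000000000000000000000000000) (nat_lit 0x0) (nat_lit 0x14000e0005000000000000000000000000000000000000000000000000) := T_1 (nat_lit 209) (nat_lit 192) (nat_lit 5) (nat_lit 6) (nat_lit 8) L1109645 (by decide +kernel)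
theorem L1112109 : W_1 (nat_lit 2) (nat_lit 0x1c001c0003000000000000000000000000000) (nat_lit 0x0) (nat_lit 0x20000c00000000000000000000000000) := D_1 (nat_lit 107) (nat_lit 125) (nat_lit 106) (nat_lit 0) (nat_lit 9) (nat_lit 7) (nat_lit 3) (nat_lit 4) (nat_lit 6) (by decide +kernel)
theorem L1112110 : W_1 (nat_lit 3) (nat_lit 0x1c000c0003000000000000000000000000000) (nat_lit 0x0) (nat_lit 0x320000c00000000000000000000000000) := T_1 (nat_lit 128) (nat_lit 129) (nat_lit 1) (nat_lit 10) (nat_lit 7) L1112109 (by decide +kernel)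
theorem L1120061 : W_1 (nat_lit 2) (nat_lit 0x20001c00180004000000000000000000000000000) (nat_lit 0x0) (nat_lit 0x640000000000000000000000000000000) := D_1 (nat_lit 129) (nat_lit 130) (nat_lit 126) (nat_lit 1) (nat_lit 11) (nat_lit 7) (nat_lit 1) (nat_lit 10) (nat_lit 7) (by decide +kernel)
theorem L1124747 : W_1 (nat_lit 4) (nat_lit 0x400028001c00080000000000000000000000000000000) (nat_lit 0x0) (nat_lit 0x28001c000a00000000000000000000000000000000000000000000) := T_1 (nat_lit 194) (nat_lit 177) (nat_lit 5) (nat_lit 8) (nat_lit 7) L1109425 (by decide +kernel)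
theorem L1133099 : W_1 (nat_lit 2) (nat_lit 0xc00040003c00180008000400000000000000000000000) (nat_lit 0x0) (nat_lit 0x10000800040000000000000000000) := D_1 (nat_lit 95) (nat_lit 112) (nat_lit 78) (nat_lit 6) (nat_lit 9) (nat_lit 9) (nat_lit 6) (nat_lit 9) (nat_lit 8) (by decide +kernel)
theorem L1133100 : W_1 (nat_lit 3) (nat_lit 0xc00040003c00180008000000000000000000000000000) (nat_lit 0x0) (nat_lit 0x10000c00060000000000000000000) := T_1 (nat_lit 94) (nat_lit 77) (nat_lit 5) (nat_lit 9) (nat_lit 4) L1133099 (by decide +kernel)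
theorem L1133101 : W_1 (nat_lit 4) (nat_lit 0xc00040003c00180000000000000000000000000000000) (nat_lit 0x0) (nat_lit 0x20000000000018000c00060000000000000000000) := T_1 (nat_lit 111) (nat_lit 161) (nat_lit 6) (nat_lit 8) (nat_lit 10) L1133100 (by decide +kernel)
theorem L1133102 : W_1 (nat_lit 5) (nat_lit 0x800040003c00180000000000000000000000000000000) (nat_lit 0x0) (nat_lit 0x8000400020000000000018000c00060000000000000000000) := T_1 (nat_lit 178) (nat_lit 195) (nat_lit 5) (nat_lit 9) (nat_lit 7) L1133101 (by decide +kernel)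
theorem L1133103 : W_1 (nat_lit 6) (nat_lit 0x40003c00180000000000000000000000000000000) (nat_lit 0x0) (nat_lit 0x18000c00020000000000018000c00060000000000000000000) := T_1 (nat_lit 179) (nat_lit 196) (nat_lit 4) (nat_lit 9) (nat_lit 11) L1133102 (by decide +kernel)
theorem L1133104 : W_1 (nat_lit 7) (nat_lit 0x40003c00080000000000000000000000000000000) (nat_lit 0x0) (nat_lit 0x18000c00020000000300018000c00060000000000000000000) := T_1 (nat_lit 128) (nat_lit 129) (nat_lit 2) (nat_lit 6) (nat_lit 8) L1133103 (by decide +kernel)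
theorem L1133105 : W_1 (nat_lit 8) (nat_lit 0x3c00080000000000000000000000000000000) (nat_lit 0x0) (nat_lit 0x18000c000e0000000300018000c00060000000000000000000) := T_1 (nat_lit 162) (nat_lit 163) (nat_lit 3) (nat_lit 6) (nat_lit 8) L1133104 (by decide +kernel)
theorem L1133395 : W_1 (nat_lit 2) (nat_lit 0x2000f00060003c00080000000000000000000000000000000) (nat_lit 0x0) (nat_lit 0x10000000040002000000000000000000000000000) := D_1 (nat_lit 126) (nat_lit 109) (nat_lit 160) (nat_lit 4) (nat_lit 8) (nat_lit 10) (nat_lit 5) (nat_lit 7) (nat_lit 7) (by decide +kernel)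
theorem L1133396 : W_1 (nat_lit 3) (nat_lit 0xf00060003c00080000000000000000000000000000000) (nat_lit 0x0) (nat_lit 0x3000000010000000040002000000000000000000000000000) := T_1 (nat_lit 193) (nat_lit 192) (nat_lit 1) (nat_lit 9) (nat_lit 10) L1133395 (by decide +kernel)
theorem L1133397 : W_1 (nat_lit 4) (nat_lit 0x700060003c00080000000000000000000000000000000) (nat_lit 0x0) (nat_lit 0x13000800010000000040002000000000000000000000000000) := T_1 (nat_lit 179) (nat_lit 196) (nat_lit 7) (nat_lit 8) (nat_lit 7) L1133396 (by decide +kernel)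
theorem L1133398 : W_1 (nat_lit 5) (nat_lit 0x600060003c00080000000000000000000000000000000) (nat_lit 0x0) (nat_lit 0x13000980010000000040002000000000000000000000000000) := T_1 (nat_lit 176) (nat_lit 175) (nat_lit 2) (nat_lit 5) (nat_lit 10) L1133397 (by decide +kernel)
theorem L1133399 : W_1 (nat_lit 6) (nat_lit 0x600020003c00080000000000000000000000000000000) (nat_lit 0x0) (nat_lit 0x130009800d0000000040002000000000000000000000000000) := T_1 (nat_lit 162) (nat_lit 163) (nat_lit 3) (nat_lit 6) (nat_lit 8) L1133398 (by decide +kernel)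
theorem L1133400 : W_1 (nat_lit 7) (nat_lit 0x400020003c00080000000000000000000000000000000) (nat_lit 0x0) (nat_lit 0x17000b800d0000000040002000000000000000000000000000) := T_1 (nat_lit 177) (nat_lit 194) (nat_lit 5) (nat_lit 8) (nat_lit 7) L1133399 (by decide +kernel)
theorem L1133491 : W_1 (nat_lit 2) (nat_lit 0x400020003c00080000000000000000000000000000000) (nat_lit 0x0) (nat_lit 0x8000000000000000040002000000000000000000000000000) := D_1 (nat_lit 126) (nat_lit 195) (nat_lit 109) (nat_lit 4) (nat_lit 8) (nat_lit 11) (nat_lit 4) (nat_lit 8) (nat_lit 10) (by decide +kernel)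
theorem L1133689 : W_1 (nat_lit 2) (nat_lit 0x400000003c000c0000000000000000000000000000000) (nat_lit 0x0) (nat_lit 0x8000000020000000000002000000000000000000000000000) := D_1 (nat_lit 161) (nat_lit 109) (nat_lit 195) (nat_lit 4) (nat_lit 8) (nat_lit 10) (nat_lit 4) (nat_lit 8) (nat_lit 11) (by decide +kernel)
theorem L1134046 : W_1 (nat_lit 2) (nat_lit 0x8000400024003c00080000000000000000000000000000000) (nat_lit 0x0) (nat_lit 0x200010000800000000000000000000000000000000000000000000) := D_1 (nat_lit 196) (nat_lit 179) (nat_lit 213) (nat_lit 7) (nat_lit 8) (nat_lit 7) (nat_lit 7) (nat_lit 8) (nat_lit 8) (by decide +kernel)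
theorem L1134047 : W_1 (nat_lit 3) (nat_lit 0x400024003c00080000000000000000000000000000000) (nat_lit 0x0) (nat_lit 0x200018000800000000000040000000000000000000000000000000) := T_1 (nat_lit 195) (nat_lit 126) (nat_lit 4) (nat_lit 8) (nat_lit 11) L1134046 (by decide +kernel)
theorem L1134048 : W_1 (nat_lit 4) (nat_lit 0x400020003c00080000000000000000000000000000000) (nat_lit 0x0) (nat_lit 0x20001800080000c000000040000000000000000000000000000000) := T_1 (nat_lit 158) (nat_lit 159) (nat_lit 1) (nat_lit 9) (nat_lit 8) L1134047 (by decide +kernel)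
theorem L1134063 : W_1 (nat_lit 2) (nat_lit 0x80018000400024003c00080000000000000000000000000000000) (nat_lit 0x0) (nat_lit 0x1000100000000000010000000000000000000000000000000000000000) := D_1 (nat_lit 212) (nat_lit 160) (nat_lit 228) (nat_lit 4) (nat_lit 8) (nat_lit 12) (nat_lit 5) (nat_lit 8) (nat_lit 9) (by decide +kernel)
theorem L1134064 : W_1 (nat_lit 3) (nat_lit 0x18000400024003c00080000000000000000000000000000000) (nat_lit 0x0) (nat_lit 0x1000180004000000010000000000000000000000000000000000000000) := T_1 (nat_lit 211) (nat_lit 194) (nat_lit 5) (nat_lit 8) (nat_lit 8) L1134063 (by decide +kernel)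
theorem L1134065 : W_1 (nat_lit 4) (nat_lit 0x10000400024003c00080000000000000000000000000000000) (nat_lit 0x0) (nat_lit 0x100038000c000000010000000000000000000000000000000000000000) := T_1 (nat_lit 195) (nat_lit 213) (nat_lit 7) (nat_lit 8) (nat_lit 8) L1134064 (by decide +kernel)
theorem L1134066 : W_1 (nat_lit 5) (nat_lit 0x10000400020003c00080000000000000000000000000000000) (nat_lit 0x0) (nat_lit 0x100038000c00000001c000000000000000000000000000000000000000) := T_1 (nat_lit 158) (nat_lit 159) (nat_lit 1) (nat_lit 9) (nat_lit 8) L1134065 (by decide +kernel)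
theorem L1134067 : W_1 (nat_lit 6) (nat_lit 0x400020003c00080000000000000000000000000000000) (nat_lit 0x0) (nat_lit 0x100038001c00080001c000000000000000000000000000000000000000) := T_1 (nat_lit 196) (nat_lit 179) (nat_lit 7) (nat_lit 8) (nat_lit 7) L1134066 (by decide +kernel)
theorem L1134077 : W_1 (nat_lit 2) (nat_lit 0x14000400020003c00080000000000000000000000000000000) (nat_lit 0x0) (nat_lit 0x280008000000000000000000000000000000000000000000000000) := D_1 (nat_lit 195) (nat_lit 213) (nat_lit 211) (nat_lit 7) (nat_lit 8) (nat_lit 8) (nat_lit 5) (nat_lit 8) (nat_lit 8) (by decide +kernel)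
theorem L1134078 : W_1 (nat_lit 3) (nat_lit 0x10000400020003c00080000000000000000000000000000000) (nat_lit 0x0) (nat_lit 0x28000c000200000000000000000000000000000000000000000000) := T_1 (nat_lit 194) (nat_lit 177) (nat_lit 5) (nat_lit 8) (nat_lit 7) L1134077 (by decide +kernel)
theorem L1134444 : W_1 (nat_lit 2) (nat_lit 0x4003e00040003c00080000000000000000000000000000000) (nat_lit 0x0) (nat_lit 0xe0000000000000000000000000000000000000000000000000) := D_1 (nat_lit 198) (nat_lit 197) (nat_lit 199) (nat_lit 3) (nat_lit 7) (nat_lit 10) (nat_lit 3) (nat_lit 8) (nat_lit 10) (by decide +kernel)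
theorem L1134445 : W_1 (nat_lit 3) (nat_lit 0x4001e00040003c00080000000000000000000000000000000) (nat_lit 0x0) (nat_lit 0xe8002000000000000000000000000000000000000000000000) := T_1 (nat_lit 181) (nat_lit 195) (nat_lit 1) (nat_lit 11) (nat_lit 10) L1134444 (by decide +kernel)
theorem L1134446 : W_1 (nat_lit 4) (nat_lit 0x4000e00040003c00080000000000000000000000000000000) (nat_lit 0x0) (nat_lit 0xea003000000000000000000000000000000000000000000000) := T_1 (nat_lit 180) (nat_lit 193) (nat_lit 1) (nat_lit 10) (nat_lit 10) L1134445 (by decide +kernel)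
theorem L1134447 : W_1 (nat_lit 5) (nat_lit 0x4000600040003c00080000000000000000000000000000000) (nat_lit 0x0) (nat_lit 0xfa003800000000000000000000000000000000000000000000) := T_1 (nat_lit 179) (nat_lit 196) (nat_lit 4) (nat_lit 9) (nat_lit 11) L1134446 (by decide +kernel)
theorem L1134448 : W_1 (nat_lit 6) (nat_lit 0x4000200040003c00080000000000000000000000000000000) (nat_lit 0x0) (nat_lit 0xfa003c00020000000000000000000000000000000000000000) := T_1 (nat_lit 178) (nat_lit 161) (nat_lit 5) (nat_lit 8) (nat_lit 7) L1134447 (by decide +kernel)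
theorem L1134449 : W_1 (nat_lit 7) (nat_lit 0x4000200000003c00080000000000000000000000000000000) (nat_lit 0x0) (nat_lit 0xfa003c000e0000000000000000000000000000000000000000) := T_1 (nat_lit 162) (nat_lit 163) (nat_lit 3) (nat_lit 6) (nat_lit 8) L1134448 (by decide +kernel)
theorem L1134450 : W_1 (nat_lit 8) (nat_lit 0x200000003c00080000000000000000000000000000000) (nat_lit 0x0) (nat_lit 0xfe003c000f0000000000000000000000000000000000000000) := T_1 (nat_lit 194) (nat_lit 160) (nat_lit 6) (nat_lit 7) (nat_lit 11) L1134449 (by decide +kernel)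
theorem L1134936 : W_1 (nat_lit 2) (nat_lit 0x600000003c00080000000000000000000000000000000) (nat_lit 0x0) (nat_lit 0x4000000030000000000000000000000000000000000000000) := D_1 (nat_lit 194) (nat_lit 161) (nat_lit 160) (nat_lit 5) (nat_lit 8) (nat_lit 7) (nat_lit 6) (nat_lit 7) (nat_lit 11) (by decide +kernel)
theorem L1136558 : W_1 (nat_lit 2) (nat_lit 0x100008001c000c0000000000000000000000000000000) (nat_lit 0x0) (nat_lit 0x10000000000002000100000000000000000000000) := D_1 (nat_lit 109) (nat_lit 160) (nat_lit 92) (nat_lit 5) (nat_lit 7) (nat_lit 6) (nat_lit 5) (nat_lit 7) (nat_lit 5) (by decide +kernel)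
theorem L1137979 : W_1 (nat_lit 2) (nat_lit 0x3800300018001c00080000000000000000000000000000000) (nat_lit 0x0) (nat_lit 0xc80000000000000000000000000000000000000000000) := D_1 (nat_lit 178) (nat_lit 179) (nat_lit 175) (nat_lit 1) (nat_lit 9) (nat_lit 10) (nat_lit 1) (nat_lit 8) (nat_lit 10) (by decide +kernel)
theorem L1137980 : W_1 (nat_lit 3) (nat_lit 0x3000300018001c00080000000000000000000000000000000) (nat_lit 0x0) (nat_lit 0xc00c80000000000000000000000000000000000000000000) := T_1 (nat_lit 191) (nat_lit 190) (nat_lit 2) (nat_lit 3) (nat_lit 11) L1137979 (by decide +kernel)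
theorem L1137981 : W_1 (nat_lit 4) (nat_lit 0x2000300018001c00080000000000000000000000000000000) (nat_lit 0x0) (nat_lit 0x20001c00c80000000000000000000000000000000000000000000) := T_1 (nat_lit 192) (nat_lit 209) (nat_lit 5) (nat_lit 6) (nat_lit 8) L1137980 (by decide +kernel)
theorem L1137982 : W_1 (nat_lit 5) (nat_lit 0x300018001c00080000000000000000000000000000000) (nat_lit 0x0) (nat_lit 0x60003c00c80000000000000000000000000000000000000000000) := T_1 (nat_lit 193) (nat_lit 210) (nat_lit 6) (nat_lit 6) (nat_lit 12) L1137981 (by decide +kernel)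
theorem L1137983 : W_1 (nat_lit 6) (nat_lit 0x100018001c00080000000000000000000000000000000) (nat_lit 0x0) (nat_lit 0x60007c00e80000000000000000000000000000000000000000000) := T_1 (nat_lit 177) (nat_lit 194) (nat_lit 6) (nat_lit 7) (nat_lit 11) L1137982 (by decide +kernel)
theorem L1139010 : W_1 (nat_lit 2) (nat_lit 0x200020003c00080000000000000000000000000000000) (nat_lit 0x0) (nat_lit 0x4000400010000000000000000000000000000000000000000) := D_1 (nat_lit 194) (nat_lit 160) (nat_lit 178) (nat_lit 6) (nat_lit 7) (nat_lit 11) (nat_lit 5) (nat_lit 8) (nat_lit 7) (by decide +kernel)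
theorem L1139110 : W_1 (nat_lit 2) (nat_lit 0x400000003c00180000000000000000000000000000000) (nat_lit 0x0) (nat_lit 0x8000000020000000000008000000000000000000000000000) := D_1 (nat_lit 161) (nat_lit 111) (nat_lit 195) (nat_lit 6) (nat_lit 8) (nat_lit 10) (nat_lit 6) (nat_lit 8) (nat_lit 11) (by decide +kernel)
theorem L1139111 : W_1 (nat_lit 3) (nat_lit 0x400000003c00080000000000000000000000000000000) (nat_lit 0x0) (nat_lit 0x8000000020000000300008000000000000000000000000000) := T_1 (nat_lit 128) (nat_lit 129) (nat_lit 2) (nat_lit 6) (nat_lit 8) L1139110 (by decide +kernel)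
theorem L1139811 : W_1 (nat_lit 4) (nat_lit 0x400020003c00080000000000000000000000000000000) (nat_lit 0x0) (nat_lit 0x28001c000a00000000000000000000000000000000000000000000) := T_1 (nat_lit 196) (nat_lit 179) (nat_lit 7) (nat_lit 8) (nat_lit 7) L1134078 (by decide +kernel)
theorem L1143266 : W_1 (nat_lit 2) (nat_lit 0xc00040003c001a0008000400000000000000000000000) (nat_lit 0x0) (nat_lit 0x10000800040000000000000000000) := D_1 (nat_lit 95) (nat_lit 112) (nat_lit 78) (nat_lit 6) (nat_lit 9) (nat_lit 9) (nat_lit 6) (nat_lit 9) (nat_lit 8) (by decide +kernel)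
theorem L1143267 : W_1 (nat_lit 3) (nat_lit 0xc00040003c001a0008000000000000000000000000000) (nat_lit 0x0) (nat_lit 0x10000c00060000000000000000000) := T_1 (nat_lit 94) (nat_lit 77) (nat_lit 5) (nat_lit 9) (nat_lit 4) L1143266 (by decide +kernel)
theorem L1143268 : W_1 (nat_lit 4) (nat_lit 0xc00040003c001a0000000000000000000000000000000) (nat_lit 0x0) (nat_lit 0x20000000000018000c00060000000000000000000) := T_1 (nat_lit 111) (nat_lit 161) (nat_lit 6) (nat_lit 8) (nat_lit 10) L1143267 (by decide +kernel)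
theorem L1143269 : W_1 (nat_lit 5) (nat_lit 0x800040003c001a0000000000000000000000000000000) (nat_lit 0x0) (nat_lit 0x8000400020000000000018000c00060000000000000000000) := T_1 (nat_lit 178) (nat_lit 195) (nat_lit 5) (nat_lit 9) (nat_lit 7) L1143268 (by decide +kernel)
theorem L1143270 : W_1 (nat_lit 6) (nat_lit 0x40003c001a0000000000000000000000000000000) (nat_lit 0x0) (nat_lit 0x18000c00020000000000018000c00060000000000000000000) := T_1 (nat_lit 179) (nat_lit 196) (nat_lit 4) (nat_lit 9) (nat_lit 11) L1143269 (by decide +kernel)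
theorem L1143271 : W_1 (nat_lit 7) (nat_lit 0x3c001a0000000000000000000000000000000) (nat_lit 0x0) (nat_lit 0x18000c000e0000000000018000c00060000000000000000000) := T_1 (nat_lit 162) (nat_lit 163) (nat_lit 3) (nat_lit 6) (nat_lit 8) L1143270 (by decide +kernel)
theorem L1143945 : W_1 (nat_lit 2) (nat_lit 0x20001c001e0009000100000000000000000000000) (nat_lit 0x0) (nat_lit 0x8000c000000000000000000) := D_1 (nat_lit 91) (nat_lit 75) (nat_lit 74) (nat_lit 6) (nat_lit 6) (nat_lit 8) (nat_lit 7) (nat_lit 6) (nat_lit 4) (by decide +kernel)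
theorem L1143946 : W_1 (nat_lit 3) (nat_lit 0x20001c001e0009000000000000000000000000000) (nat_lit 0x0) (nat_lit 0x200018000c000000000000000000) := T_1 (nat_lit 92) (nat_lit 109) (nat_lit 7) (nat_lit 7) (nat_lit 5) L1143945 (by decide +kernel)
theorem L1143947 : W_1 (nat_lit 4) (nat_lit 0x1c001e0009000000000000000000000000000) (nat_lit 0x0) (nat_lit 0x40002000000000000200018000c000000000000000000) := T_1 (nat_lit 161) (nat_lit 178) (nat_lit 6) (nat_lit 8) (nat_lit 10) L1143946 (by decide +kernel)
theorem L1143948 : W_1 (nat_lit 5) (nat_lit 0x1c001e0008000000000000000000000000000) (nat_lit 0x0) (nat_lit 0x40002000000000000380018000c000000000000000000) := T_1 (nat_lit 108) (nat_lit 107) (nat_lit 0) (nat_lit 9) (nat_lit 7) L1143947 (by decide +kernel)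
theorem L1143949 : W_1 (nat_lit 6) (nat_lit 0x1c001e0000000000000000000000000000000) (nat_lit 0x0) (nat_lit 0x40002000000000001b80018000c000000000000000000) := T_1 (nat_lit 111) (nat_lit 112) (nat_lit 2) (nat_lit 6) (nat_lit 7) L1143948 (by decide +kernel)
theorem L1143950 : W_1 (nat_lit 2) (nat_lit 0x1c001e0008000400000000000000000000000) (nat_lit 0x0) (nat_lit 0x400020002000000000000000000000000000000000000) := D_1 (nat_lit 161) (nat_lit 178) (nat_lit 145) (nat_lit 6) (nat_lit 8) (nat_lit 10) (nat_lit 5) (nat_lit 9) (nat_lit 5) (by decide +kernel)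
theorem L1143951 : W_1 (nat_lit 3) (nat_lit 0x1c001e0008000000000000000000000000000) (nat_lit 0x0) (nat_lit 0x400020002000000000000400020000000000000000000) := T_1 (nat_lit 94) (nat_lit 77) (nat_lit 5) (nat_lit 9) (nat_lit 4) L1143950 (by decide +kernel)
theorem L1143952 : W_1 (nat_lit 4) (nat_lit 0x1c001e0000000000000000000000000000000) (nat_lit 0x0) (nat_lit 0x400020002000000018000400020000000000000000000) := T_1 (nat_lit 111) (nat_lit 112) (nat_lit 2) (nat_lit 6) (nat_lit 7) L1143951 (by decide +kernel)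
theorem L1144426 : W_1 (nat_lit 2) (nat_lit 0x700030001c000e0000000000000000000000000000000) (nat_lit 0x0) (nat_lit 0x800c0000000000000000000000000000000000000000) := D_1 (nat_lit 162) (nat_lit 175) (nat_lit 163) (nat_lit 2) (nat_lit 5) (nat_lit 10) (nat_lit 1) (nat_lit 10) (nat_lit 9) (by decide +kernel)
theorem L1144427 : W_1 (nat_lit 3) (nat_lit 0x700010001c000e0000000000000000000000000000000) (nat_lit 0x0) (nat_lit 0x800e0000000000002000000000000000000000000000) := T_1 (nat_lit 161) (nat_lit 109) (nat_lit 7) (nat_lit 7) (nat_lit 6) L1144426 (by decide +kernel)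
theorem L1144428 : W_1 (nat_lit 4) (nat_lit 0x300010001c000e0000000000000000000000000000000) (nat_lit 0x0) (nat_lit 0x80004800e0000000000002000000000000000000000000000) := T_1 (nat_lit 178) (nat_lit 195) (nat_lit 7) (nat_lit 7) (nat_lit 7) L1144427 (by decide +kernel)
theorem L1144491 : W_1 (nat_lit 5) (nat_lit 0x1c001a0000000000000000000000000000000) (nat_lit 0x0) (nat_lit 0x400030002000040019800480024000000000000000000) := Q_1 (nat_lit 126) (C_1 L58566 (C_1 L1143952 N_1)) (by decide +kernel)
theorem L1144498 : W_1 (nat_lit 2) (nat_lit 0x1c001a000100008000c000000000000000000) (nat_lit 0x0) (nat_lit 0x40002000100000000000000) := D_1 (nat_lit 73) (nat_lit 90) (nat_lit 56) (nat_lit 4) (nat_lit 6) (nat_lit 8) (nat_lit 4) (nat_lit 6) (nat_lit 7) (by decide +kernel)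
theorem L1144499 : W_1 (nat_lit 3) (nat_lit 0x1c001a0001000080008000000000000000000) (nat_lit 0x0) (nat_lit 0x40006000500000000000000) := T_1 (nat_lit 74) (nat_lit 58) (nat_lit 6) (nat_lit 6) (nat_lit 7) L1144498 (by decide +kernel)
theorem L1144500 : W_1 (nat_lit 4) (nat_lit 0x1c001a0001000080000000000000000000000) (nat_lit 0x0) (nat_lit 0x14000e000500000000000000) := T_1 (nat_lit 75) (nat_lit 92) (nat_lit 6) (nat_lit 6) (nat_lit 8) L1144499 (by decide +kernel)
theorem L1144501 : W_1 (nat_lit 5) (nat_lit 0x1c001a0001000000000000000000000000000) (nat_lit 0x0) (nat_lit 0x100000000000000001c000e000500000000000000) := T_1 (nat_lit 91) (nat_lit 160) (nat_lit 7) (nat_lit 6) (nat_lit 5) L1144500 (by decide +kernel)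
theorem L1197167 : W_1 (nat_lit 2) (nat_lit 0x100008007c0014000e000c000000000000000000000000000) (nat_lit 0x0) (nat_lit 0x100030000000000000000000000000000) := D_1 (nat_lit 112) (nat_lit 113) (nat_lit 128) (nat_lit 1) (nat_lit 11) (nat_lit 6) (nat_lit 2) (nat_lit 6) (nat_lit 7) (by decide +kernel)
theorem L1197168 : W_1 (nat_lit 3) (nat_lit 0x100008007c0014000a000c000000000000000000000000000) (nat_lit 0x0) (nat_lit 0x150030000000000000000000000000000) := T_1 (nat_lit 126) (nat_lit 124) (nat_lit 2) (nat_lit 5) (nat_lit 7) L1197167 (by decide +kernel)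
theorem L1197169 : W_1 (nat_lit 4) (nat_lit 0x8007c0014000a000c000000000000000000000000000) (nat_lit 0x0) (nat_lit 0x20001000000000000000150030000000000000000000000000000) := T_1 (nat_lit 192) (nat_lit 209) (nat_lit 6) (nat_lit 5) (nat_lit 12) L1197168 (by decide +kernel)
theorem L1197170 : W_1 (nat_lit 5) (nat_lit 0x8007c00140008000c000000000000000000000000000) (nat_lit 0x0) (nat_lit 0x20001000000000000000170031000000000000000000000000000) := T_1 (nat_lit 125) (nat_lit 108) (nat_lit 5) (nat_lit 6) (nat_lit 6) L1197169 (by decide +kernel)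
theorem L1197171 : W_1 (nat_lit 6) (nat_lit 0x8007800140008000c000000000000000000000000000) (nat_lit 0x0) (nat_lit 0x20001000040004000000170031000000000000000000000000000) := T_1 (nat_lit 158) (nat_lit 174) (nat_lit 1) (nat_lit 8) (nat_lit 9) L1197170 (by decide +kernel)
theorem L1197172 : W_1 (nat_lit 7) (nat_lit 0x7800140008000c000000000000000000000000000) (nat_lit 0x0) (nat_lit 0x200010001c0004000000170031000000000000000000000000000) := T_1 (nat_lit 175) (nat_lit 176) (nat_lit 1) (nat_lit 9) (nat_lit 9) L1197171 (by decide +kernel)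
theorem L1197173 : W_1 (nat_lit 8) (nat_lit 0x7000140008000c000000000000000000000000000) (nat_lit 0x0) (nat_lit 0x200010001c000c000200170031000000000000000000000000000) := T_1 (nat_lit 159) (nat_lit 141) (nat_lit 0) (nat_lit 9) (nat_lit 9) L1197172 (by decide +kernel)
theorem L1197174 : W_1 (nat_lit 9) (nat_lit 0x6000140008000c000000000000000000000000000) (nat_lit 0x0) (nat_lit 0x200010003c001c000200170031000000000000000000000000000) := T_1 (nat_lit 160) (nat_lit 177) (nat_lit 5) (nat_lit 8) (nat_lit 6) L1197173 (by decide +kernel)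
theorem L1197175 : W_1 (nat_lit 10) (nat_lit 0x60001400080004000000000000000000000000000) (nat_lit 0x0) (nat_lit 0x200010003c001c000200170039000400000000000000000000000) := T_1 (nat_lit 111) (nat_lit 94) (nat_lit 6) (nat_lit 8) (nat_lit 9) L1197174 (by decide +kernel)
theorem L1197176 : W_1 (nat_lit 11) (nat_lit 0x20001400080004000000000000000000000000000) (nat_lit 0x0) (nat_lit 0x20001000bc005c000200170039000400000000000000000000000) := T_1 (nat_lit 162) (nat_lit 179) (nat_lit 7) (nat_lit 8) (nat_lit 6) L1197175 (by decide +kernel)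
theorem L1400064 : W_1 (nat_lit 2) (nat_lit 0xc000200018001c0000000000000000000000000000000) (nat_lit 0x0) (nat_lit 0x600200000000000000000000000000000000) := D_1 (nat_lit 142) (nat_lit 141) (nat_lit 129) (nat_lit 2) (nat_lit 5) (nat_lit 8) (nat_lit 1) (nat_lit 10) (nat_lit 7) (by decide +kernel)
theorem L1400065 : W_1 (nat_lit 3) (nat_lit 0xc000200010001c0000000000000000000000000000000) (nat_lit 0x0) (nat_lit 0x8000000000000e00200000000000000000000000000000000) := T_1 (nat_lit 143) (nat_lit 195) (nat_lit 4) (nat_lit 8) (nat_lit 11) L1400064 (by decide +kernel)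
theorem L1400066 : W_1 (nat_lit 4) (nat_lit 0xc000200010000c0000000000000000000000000000000) (nat_lit 0x0) (nat_lit 0x8000000000000e00300008000000000000000000000000000) := T_1 (nat_lit 128) (nat_lit 111) (nat_lit 6) (nat_lit 8) (nat_lit 10) L1400065 (by decide +kernel)
theorem L1400067 : W_1 (nat_lit 5) (nat_lit 0xc00020001000080000000000000000000000000000000) (nat_lit 0x0) (nat_lit 0x8000000000000e0034000a000000000000000000000000000) := T_1 (nat_lit 126) (nat_lit 109) (nat_lit 4) (nat_lit 8) (nat_lit 10) L1400066 (by decide +kernel)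
theorem L1400068 : W_1 (nat_lit 6) (nat_lit 0x400020001000080000000000000000000000000000000) (nat_lit 0x0) (nat_lit 0x18000800000000e0034000a000000000000000000000000000) := T_1 (nat_lit 179) (nat_lit 196) (nat_lit 7) (nat_lit 8) (nat_lit 7) L1400067 (by decide +kernel)
theorem L1400070 : W_1 (nat_lit 2) (nat_lit 0x40004000200010000c0008000000000000000000000000000) (nat_lit 0x0) (nat_lit 0x80008000000000000800000000000000000000000000000000000) := D_1 (nat_lit 195) (nat_lit 143) (nat_lit 211) (nat_lit 4) (nat_lit 8) (nat_lit 11) (nat_lit 5) (nat_lit 8) (nat_lit 8) (by decide +kernel)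
theorem L1400071 : W_1 (nat_lit 3) (nat_lit 0x4000200010000c0008000000000000000000000000000) (nat_lit 0x0) (nat_lit 0x8000c000200000000800000000000000000000000000000000000) := T_1 (nat_lit 194) (nat_lit 177) (nat_lit 5) (nat_lit 8) (nat_lit 7) L1400070 (by decide +kernel)
theorem L1400072 : W_1 (nat_lit 4) (nat_lit 0x400020001000080008000000000000000000000000000) (nat_lit 0x0) (nat_lit 0x8000c000200000000800040002000000000000000000000000000) := T_1 (nat_lit 126) (nat_lit 109) (nat_lit 4) (nat_lit 8) (nat_lit 10) L1400071 (by decide +kernel)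
theorem L1400073 : W_1 (nat_lit 5) (nat_lit 0x400020001000080000000000000000000000000000000) (nat_lit 0x0) (nat_lit 0x8000c00020000000080014000a000000000000000000000000000) := T_1 (nat_lit 111) (nat_lit 128) (nat_lit 6) (nat_lit 8) (nat_lit 10) L1400072 (by decide +kernel)
theorem L1403695 : W_1 (nat_lit 2) (nat_lit 0x400008003c000e0000000000000000000000000000000) (nat_lit 0x0) (nat_lit 0x100000000000000002000100000000000000000000000) := D_1 (nat_lit 109) (nat_lit 92) (nat_lit 176) (nat_lit 5) (nat_lit 7) (nat_lit 5) (nat_lit 6) (nat_lit 6) (nat_lit 10) (by decide +kernel)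
theorem L1403696 : W_1 (nat_lit 3) (nat_lit 0x400000003c000e0000000000000000000000000000000) (nat_lit 0x0) (nat_lit 0x10000c000000000002000100000000000000000000000) := T_1 (nat_lit 159) (nat_lit 158) (nat_lit 1) (nat_lit 9) (nat_lit 8) L1403695 (by decide +kernel)
theorem L1403697 : W_1 (nat_lit 4) (nat_lit 0x400000003c000c0000000000000000000000000000000) (nat_lit 0x0) (nat_lit 0x10000c000000030002000100000000000000000000000) := T_1 (nat_lit 125) (nat_lit 124) (nat_lit 3) (nat_lit 5) (nat_lit 7) L1403696 (by decide +kernel)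
theorem L1404493 : W_1 (nat_lit 2) (nat_lit 0x22000f00000001800080000000000000000000000000000000) (nat_lit 0x0) (nat_lit 0x44001000000000000000000000000000000000000000000000) := D_1 (nat_lit 180) (nat_lit 198) (nat_lit 194) (nat_lit 3) (nat_lit 7) (nat_lit 10) (nat_lit 1) (nat_lit 10) (nat_lit 10) (by decide +kernel)
theorem L1404494 : W_1 (nat_lit 3) (nat_lit 0x20000f00000001800080000000000000000000000000000000) (nat_lit 0x0) (nat_lit 0x47001000000000000000000000000000000000000000000000) := T_1 (nat_lit 193) (nat_lit 192) (nat_lit 1) (nat_lit 9) (nat_lit 10) L1404493 (by decide +kernel)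
theorem L1404495 : W_1 (nat_lit 4) (nat_lit 0xf00000001800080000000000000000000000000000000) (nat_lit 0x0) (nat_lit 0x77001000000000000000000000000000000000000000000000) := T_1 (nat_lit 197) (nat_lit 196) (nat_lit 3) (nat_lit 6) (nat_lit 10) L1404494 (by decide +kernel)
theorem L1404511 : W_1 (nat_lit 5) (nat_lit 0xe00000001800080000000000000000000000000000000) (nat_lit 0x0) (nat_lit 0xf70031003c0000000000000000000000000000000000000000) := Q_1 (nat_lit 180) (C_1 L236697 (C_1 L236653 (C_1 L236688 N_1))) (by decide +kernel)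
theorem L1412690 : W_1 (nat_lit 2) (nat_lit 0x400000003c001a0001800000000000000000000000000) (nat_lit 0x0) (nat_lit 0xc000000000000000040000000000000000000000) := D_1 (nat_lit 159) (nat_lit 158) (nat_lit 90) (nat_lit 1) (nat_lit 9) (nat_lit 8) (nat_lit 4) (nat_lit 6) (nat_lit 9) (by decide +kernel)
theorem L1412691 : W_1 (nat_lit 3) (nat_lit 0x400000003c001a0001000000000000000000000000000) (nat_lit 0x0) (nat_lit 0xc000000040000800040000000000000000000000) := T_1 (nat_lit 107) (nat_lit 126) (nat_lit 0) (nat_lit 9) (nat_lit 7) L1412690 (by decide +kernel)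
theorem L1412692 : W_1 (nat_lit 4) (nat_lit 0x400000003c000a0001000000000000000000000000000) (nat_lit 0x0) (nat_lit 0xc000000340000800040000000000000000000000) := T_1 (nat_lit 128) (nat_lit 129) (nat_lit 2) (nat_lit 6) (nat_lit 8) L1412691 (by decide +kernel)
theorem L1413782 : W_1 (nat_lit 2) (nat_lit 0x70000c001c00080000000000000000000000000000000) (nat_lit 0x0) (nat_lit 0x80003000000000000000000000000000000000000000) := D_1 (nat_lit 157) (nat_lit 175) (nat_lit 156) (nat_lit 0) (nat_lit 8) (nat_lit 10) (nat_lit 3) (nat_lit 3) (nat_lit 9) (by decide +kernel)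
theorem L1414886 : W_1 (nat_lit 2) (nat_lit 0x30000e00000001800080000000000000000000000000000000) (nat_lit 0x0) (nat_lit 0xc0001000000000000000000000000000000000000000000000) := D_1 (nat_lit 198) (nat_lit 199) (nat_lit 180) (nat_lit 0) (nat_lit 12) (nat_lit 11) (nat_lit 3) (nat_lit 7) (nat_lit 10) (by decide +kernel)
theorem L1414887 : W_1 (nat_lit 3) (nat_lit 0x10000e00000001800080000000000000000000000000000000) (nat_lit 0x0) (nat_lit 0xe0001100000000000000000000000000000000000000000000) := T_1 (nat_lit 197) (nat_lit 176) (nat_lit 3) (nat_lit 6) (nat_lit 10) L1414886 (by decide +kernel)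
theorem L1452022 : W_1 (nat_lit 6) (nat_lit 0xe00000001800380000000000000000000000000000000) (nat_lit 0x0) (nat_lit 0xe6003000390000000000000000000000000000000000000000) := T_1 (nat_lit 194) (nat_lit 160) (nat_lit 6) (nat_lit 7) (nat_lit 11) L674971 (by decide +kernel)
theorem L1452023 : W_1 (nat_lit 7) (nat_lit 0xe00000001800180000000000000000000000000000000) (nat_lit 0x0) (nat_lit 0xe6003000390000000600000000000000000000000000000000) := T_1 (nat_lit 129) (nat_lit 130) (nat_lit 1) (nat_lit 11) (nat_lit 7) L1452022 (by decide +kernel)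
theorem L1472428 : W_1 (nat_lit 2) (nat_lit 0x400008003c000c0000000000000000000000000000000) (nat_lit 0x0) (nat_lit 0x20000000000002000100000000000000000000000) := D_1 (nat_lit 109) (nat_lit 161) (nat_lit 92) (nat_lit 4) (nat_lit 8) (nat_lit 10) (nat_lit 5) (nat_lit 7) (nat_lit 5) (by decide +kernel)
theorem L1472429 : W_1 (nat_lit 3) (nat_lit 0x400000003c000c0000000000000000000000000000000) (nat_lit 0x0) (nat_lit 0x2c000000000002000100000000000000000000000) := T_1 (nat_lit 159) (nat_lit 158) (nat_lit 1) (nat_lit 9) (nat_lit 8) L1472428 (by decide +kernel)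
theorem L1473413 : W_1 (nat_lit 2) (nat_lit 0x20000f00080001800080000000000000000000000000000000) (nat_lit 0x0) (nat_lit 0x40001000100000000000000000000000000000000000000000) := D_1 (nat_lit 180) (nat_lit 198) (nat_lit 164) (nat_lit 3) (nat_lit 7) (nat_lit 10) (nat_lit 2) (nat_lit 7) (nat_lit 10) (by decide +kernel)
theorem L1473414 : W_1 (nat_lit 3) (nat_lit 0x20000f00000001800080000000000000000000000000000000) (nat_lit 0x0) (nat_lit 0x400010001c0000000000000000000000000000000000000000) := T_1 (nat_lit 163) (nat_lit 162) (nat_lit 2) (nat_lit 6) (nat_lit 10) L1473413 (by decide +kernel)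
theorem L1473415 : W_1 (nat_lit 4) (nat_lit 0xf00000001800080000000000000000000000000000000) (nat_lit 0x0) (nat_lit 0x700010001c0000000000000000000000000000000000000000) := T_1 (nat_lit 197) (nat_lit 196) (nat_lit 3) (nat_lit 6) (nat_lit 10) L1473414 (by decide +kernel)
theorem L1474411 : W_1 (nat_lit 2) (nat_lit 0x4000600008003c00080000000000000000000000000000000) (nat_lit 0x0) (nat_lit 0x100000000000030000000000000000000000000000000) := D_1 (nat_lit 125) (nat_lit 124) (nat_lit 176) (nat_lit 0) (nat_lit 9) (nat_lit 8) (nat_lit 7) (nat_lit 6) (nat_lit 7) (by decide +kernel)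
theorem L1474412 : W_1 (nat_lit 3) (nat_lit 0x600008003c00080000000000000000000000000000000) (nat_lit 0x0) (nat_lit 0x4000100020000000030000000000000000000000000000000) := T_1 (nat_lit 194) (nat_lit 161) (nat_lit 5) (nat_lit 8) (nat_lit 7) L1474411 (by decide +kernel)
theorem L1474413 : W_1 (nat_lit 4) (nat_lit 0x600000003c00080000000000000000000000000000000) (nat_lit 0x0) (nat_lit 0x400010002c000000030000000000000000000000000000000) := T_1 (nat_lit 159) (nat_lit 158) (nat_lit 1) (nat_lit 9) (nat_lit 8) L1474412 (by decide +kernel)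
theorem L1474651 : W_1 (nat_lit 2) (nat_lit 0x600008003c000a0001000180000000000000000000000) (nat_lit 0x0) (nat_lit 0x800040002000000000000000000) := D_1 (nat_lit 90) (nat_lit 107) (nat_lit 73) (nat_lit 4) (nat_lit 6) (nat_lit 9) (nat_lit 4) (nat_lit 6) (nat_lit 8) (by decide +kernel)
theorem L1474652 : W_1 (nat_lit 3) (nat_lit 0x600008003c000a0001000100000000000000000000000) (nat_lit 0x0) (nat_lit 0x8000c000a000000000000000000) := T_1 (nat_lit 91) (nat_lit 75) (nat_lit 6) (nat_lit 6) (nat_lit 8) L1474651 (by decide +kernel)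
theorem L1474653 : W_1 (nat_lit 4) (nat_lit 0x600008003c000a0001000000000000000000000000000) (nat_lit 0x0) (nat_lit 0x28001c000a000000000000000000) := T_1 (nat_lit 92) (nat_lit 109) (nat_lit 6) (nat_lit 6) (nat_lit 9) L1474652 (by decide +kernel)
theorem L1474654 : W_1 (nat_lit 5) (nat_lit 0x600008003c000a0000000000000000000000000000000) (nat_lit 0x0) (nat_lit 0x100000000000038001c000a000000000000000000) := T_1 (nat_lit 108) (nat_lit 160) (nat_lit 7) (nat_lit 6) (nat_lit 6) L1474653 (by decide +kernel)
theorem L1474655 : W_1 (nat_lit 6) (nat_lit 0x600008003c00080000000000000000000000000000000) (nat_lit 0x0) (nat_lit 0x100000000300038001c000a000000000000000000) := T_1 (nat_lit 125) (nat_lit 124) (nat_lit 0) (nat_lit 9) (nat_lit 8) L1474654 (by decide +kernel)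
theorem L1474656 : W_1 (nat_lit 7) (nat_lit 0x600000003c00080000000000000000000000000000000) (nat_lit 0x0) (nat_lit 0x1c0000000300038001c000a000000000000000000) := T_1 (nat_lit 159) (nat_lit 158) (nat_lit 1) (nat_lit 9) (nat_lit 8) L1474655 (by decide +kernel)
theorem L1474657 : W_1 (nat_lit 8) (nat_lit 0x400000003c00080000000000000000000000000000000) (nat_lit 0x0) (nat_lit 0x400030003c0000000300038001c000a000000000000000000) := Q_1 (nat_lit 177) (C_1 L1134936 (C_1 L1474413 (C_1 L1474656 N_1))) (by decide +kernel)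
theorem L1475169 : W_1 (nat_lit 2) (nat_lit 0x400008003c001e0008000000020000000000000000000) (nat_lit 0x0) (nat_lit 0x2000100000000000000002000000000000000000000000000) := D_1 (nat_lit 176) (nat_lit 109) (nat_lit 193) (nat_lit 6) (nat_lit 6) (nat_lit 10) (nat_lit 6) (nat_lit 6) (nat_lit 11) (by decide +kernel)
theorem L1475170 : W_1 (nat_lit 3) (nat_lit 0x400000003c001e0008000000020000000000000000000) (nat_lit 0x0) (nat_lit 0x200010000c000000000002000000000000000000000000000) := T_1 (nat_lit 159) (nat_lit 158) (nat_lit 1) (nat_lit 9) (nat_lit 8) L1475169 (by decide +kernel)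
theorem L1475171 : W_1 (nat_lit 4) (nat_lit 0x400000003c001a0008000000020000000000000000000) (nat_lit 0x0) (nat_lit 0x200010000c000000040012000000000000000000000000000) := T_1 (nat_lit 126) (nat_lit 112) (nat_lit 2) (nat_lit 6) (nat_lit 7) L1475170 (by decide +kernel)
theorem L1475172 : W_1 (nat_lit 5) (nat_lit 0x400000003c001a0008000000000000000000000000000) (nat_lit 0x0) (nat_lit 0x200010000c000000040012000400020000000000000000000) := T_1 (nat_lit 77) (nat_lit 94) (nat_lit 5) (nat_lit 9) (nat_lit 4) L1475171 (by decide +kernel)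
theorem L1475173 : W_1 (nat_lit 6) (nat_lit 0x400000003c001a0000000000000000000000000000000) (nat_lit 0x0) (nat_lit 0x200010002c00000004001a000400020000000000000000000) := T_1 (nat_lit 111) (nat_lit 161) (nat_lit 6) (nat_lit 8) (nat_lit 10) L1475172 (by decide +kernel)
theorem L1475174 : W_1 (nat_lit 7) (nat_lit 0x400000003c000a0000000000000000000000000000000) (nat_lit 0x0) (nat_lit 0x200010002c00000034001a000400020000000000000000000) := T_1 (nat_lit 128) (nat_lit 129) (nat_lit 2) (nat_lit 6) (nat_lit 8) L1475173 (by decide +kernel)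
theorem L1475175 : W_1 (nat_lit 8) (nat_lit 0x400000003c00080000000000000000000000000000000) (nat_lit 0x0) (nat_lit 0x200010002c00000037001a000400020000000000000000000) := T_1 (nat_lit 125) (nat_lit 124) (nat_lit 0) (nat_lit 9) (nat_lit 8) L1475174 (by decide +kernel)
theorem L1475429 : W_1 (nat_lit 5) (nat_lit 0xe00000001800080000000000000000000000000000000) (nat_lit 0x0) (nat_lit 0x338001800ce002000000000000000000000000000000000000) := Q_1 (nat_lit 176) (C_1 L236639 (C_1 L236267 N_1)) (by decide +kernel)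
theorem L1477091 : W_1 (nat_lit 3) (nat_lit 0x6000100018000c0000000000000000000000000000000) (nat_lit 0x0) (nat_lit 0x2000038001000000000000000000000000000) := T_1 (nat_lit 125) (nat_lit 108) (nat_lit 4) (nat_lit 7) (nat_lit 10) L68452 (by decide +kernel)
theorem L1477383 : W_1 (nat_lit 9) (nat_lit 0x600000001800080000000000000000000000000000000) (nat_lit 0x0) (nat_lit 0x140009001e000200074003a000000000000000000000000000) := T_1 (nat_lit 161) (nat_lit 194) (nat_lit 5) (nat_lit 8) (nat_lit 7) L63486 (by decide +kernel)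
theorem L1517460 : W_1 (nat_lit 2) (nat_lit 0x6000100018000c0002000000000000000000000000000) (nat_lit 0x0) (nat_lit 0x20001000080000000000000000000000) := D_1 (nat_lit 108) (nat_lit 125) (nat_lit 91) (nat_lit 4) (nat_lit 7) (nat_lit 10) (nat_lit 4) (nat_lit 7) (nat_lit 9) (by decide +kernel)
theorem L1519512 : W_1 (nat_lit 2) (nat_lit 0x1e000c0003800180000000000000000000000000000000) (nat_lit 0x0) (nat_lit 0x600010000000000000000000000000000) := D_1 (nat_lit 129) (nat_lit 112) (nat_lit 130) (nat_lit 6) (nat_lit 9) (nat_lit 10) (nat_lit 1) (nat_lit 11) (nat_lit 7) (by decide +kernel)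
theorem L1519513 : W_1 (nat_lit 3) (nat_lit 0x1e000c0003800080000000000000000000000000000000) (nat_lit 0x0) (nat_lit 0x700018000000000000000000000000000) := T_1 (nat_lit 128) (nat_lit 111) (nat_lit 7) (nat_lit 9) (nat_lit 6) L1519512 (by decide +kernel)
theorem L1546350 : W_1 (nat_lit 2) (nat_lit 0x7000100018001c0002000080000000000000000000000) (nat_lit 0x0) (nat_lit 0x10000c000000000000000000) := D_1 (nat_lit 92) (nat_lit 74) (nat_lit 75) (nat_lit 4) (nat_lit 7) (nat_lit 8) (nat_lit 7) (nat_lit 7) (nat_lit 4) (by decide +kernel)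
theorem L1546351 : W_1 (nat_lit 3) (nat_lit 0x7000100018001c0002000000000000000000000000000) (nat_lit 0x0) (nat_lit 0x100018000c000000000000000000) := T_1 (nat_lit 91) (nat_lit 108) (nat_lit 4) (nat_lit 7) (nat_lit 9) L1546350 (by decide +kernel)
theorem L1546352 : W_1 (nat_lit 4) (nat_lit 0x7000100018001c0000000000000000000000000000000) (nat_lit 0x0) (nat_lit 0x800000000000300018000c000000000000000000) := T_1 (nat_lit 109) (nat_lit 159) (nat_lit 5) (nat_lit 7) (nat_lit 6) L1546351 (by decide +kernel)
theorem L1546353 : W_1 (nat_lit 5) (nat_lit 0x6000100018001c0000000000000000000000000000000) (nat_lit 0x0) (nat_lit 0x200010000800000000000300018000c000000000000000000) := T_1 (nat_lit 176) (nat_lit 193) (nat_lit 5) (nat_lit 7) (nat_lit 7) L1546352 (by decide +kernel)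
theorem L2427110 : W_1 (nat_lit 2) (nat_lit 0xa80078001c00080000000000000000000000000000000) (nat_lit 0x0) (nat_lit 0x200010000000000002000000000000000000000000000000000000) := D_1 (nat_lit 196) (nat_lit 145) (nat_lit 213) (nat_lit 4) (nat_lit 9) (nat_lit 11) (nat_lit 4) (nat_lit 9) (nat_lit 12) (by decide +kernel)
theorem L2427111 : W_1 (nat_lit 3) (nat_lit 0x280078001c00080000000000000000000000000000000) (nat_lit 0x0) (nat_lit 0x200010001800000002000000000000000000000000000000000000) := T_1 (nat_lit 179) (nat_lit 180) (nat_lit 3) (nat_lit 6) (nat_lit 9) L2427110 (by decide +kernel)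
theorem L2427112 : W_1 (nat_lit 4) (nat_lit 0x200078001c00080000000000000000000000000000000) (nat_lit 0x0) (nat_lit 0x200010001980000002000000000000000000000000000000000000) := T_1 (nat_lit 175) (nat_lit 176) (nat_lit 1) (nat_lit 9) (nat_lit 9) L2427111 (by decide +kernel)
theorem L2427113 : W_1 (nat_lit 5) (nat_lit 0x78001c00080000000000000000000000000000000) (nat_lit 0x0) (nat_lit 0x200014001b80000002000000000000000000000000000000000000) := T_1 (nat_lit 177) (nat_lit 194) (nat_lit 6) (nat_lit 7) (nat_lit 11) L2427112 (by decide +kernel)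
theorem L2428311 : W_1 (nat_lit 2) (nat_lit 0x3800300018000c0001000000000000000000000000000) (nat_lit 0x0) (nat_lit 0x4000c0000000000000000000000000000000000000000) := D_1 (nat_lit 162) (nat_lit 163) (nat_lit 178) (nat_lit 1) (nat_lit 10) (nat_lit 9) (nat_lit 2) (nat_lit 5) (nat_lit 10) (by decide +kernel)
theorem L2428312 : W_1 (nat_lit 3) (nat_lit 0x3000300018000c0001000000000000000000000000000) (nat_lit 0x0) (nat_lit 0x4c00c0000000000000000000000000000000000000000) := T_1 (nat_lit 175) (nat_lit 174) (nat_lit 2) (nat_lit 4) (nat_lit 10) L2428311 (by decide +kernel)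
theorem L2428313 : W_1 (nat_lit 4) (nat_lit 0x2000300018000c0001000000000000000000000000000) (nat_lit 0x0) (nat_lit 0x20005c00c0000000000000000000000000000000000000000) := T_1 (nat_lit 176) (nat_lit 193) (nat_lit 5) (nat_lit 7) (nat_lit 7) L2428312 (by decide +kernel)
theorem L2430629 : W_1 (nat_lit 5) (nat_lit 0x2000300018000c0000000000000000000000000000000) (nat_lit 0x0) (nat_lit 0x20005c00c0000000020001000000000000000000000000000) := T_1 (nat_lit 108) (nat_lit 125) (nat_lit 4) (nat_lit 7) (nat_lit 10) L2428313 (by decide +kernel)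
theorem L2430811 : W_1 (nat_lit 2) (nat_lit 0x28003c001e00080000000000000000000000000000000) (nat_lit 0x0) (nat_lit 0x1000000000000000020001000000000000000000000000000) := D_1 (nat_lit 125) (nat_lit 108) (nat_lit 192) (nat_lit 7) (nat_lit 6) (nat_lit 6) (nat_lit 6) (nat_lit 5) (nat_lit 11) (by decide +kernel)
theorem L2430812 : W_1 (nat_lit 3) (nat_lit 0x20003c001e00080000000000000000000000000000000) (nat_lit 0x0) (nat_lit 0x10000c0000000000020001000000000000000000000000000) := T_1 (nat_lit 175) (nat_lit 174) (nat_lit 1) (nat_lit 8) (nat_lit 9) L2430811 (by decide +kernel)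
theorem L2430857 : W_1 (nat_lit 6) (nat_lit 0x600010001800180000000000000000000000000000000) (nat_lit 0x0) (nat_lit 0xa00010000800000004000300018000c000000000000000000) := T_1 (nat_lit 126) (nat_lit 195) (nat_lit 7) (nat_lit 7) (nat_lit 7) L1546353 (by decide +kernel)
theorem L2431666 : W_1 (nat_lit 2) (nat_lit 0x7000180018001e00080000000000000000000000000000000) (nat_lit 0x0) (nat_lit 0x8000060000000000000000000000000000000000000000000) := D_1 (nat_lit 174) (nat_lit 173) (nat_lit 195) (nat_lit 3) (nat_lit 3) (nat_lit 10) (nat_lit 0) (nat_lit 8) (nat_lit 11) (by decide +kernel)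
theorem L2431667 : W_1 (nat_lit 3) (nat_lit 0x3000180018001e00080000000000000000000000000000000) (nat_lit 0x0) (nat_lit 0x8000c000060000000000000000000000000000000000000000000) := T_1 (nat_lit 194) (nat_lit 211) (nat_lit 7) (nat_lit 6) (nat_lit 8) L2431666 (by decide +kernel)
theorem L2431668 : W_1 (nat_lit 4) (nat_lit 0x3000100018001e00080000000000000000000000000000000) (nat_lit 0x0) (nat_lit 0x8000c0000e0000000000020000000000000000000000000000000) := T_1 (nat_lit 175) (nat_lit 125) (nat_lit 5) (nat_lit 6) (nat_lit 7) L2431667 (by decide +kernel)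
theorem L2431669 : W_1 (nat_lit 5) (nat_lit 0x2000100018001e00080000000000000000000000000000000) (nat_lit 0x0) (nat_lit 0xa000d0000e0000000000020000000000000000000000000000000) := T_1 (nat_lit 192) (nat_lit 209) (nat_lit 5) (nat_lit 6) (nat_lit 8) L2431668 (by decide +kernel)
theorem L2431670 : W_1 (nat_lit 6) (nat_lit 0x100018001e00080000000000000000000000000000000) (nat_lit 0x0) (nat_lit 0xe000f0000e0000000000020000000000000000000000000000000) := T_1 (nat_lit 193) (nat_lit 210) (nat_lit 6) (nat_lit 6) (nat_lit 12) L2431669 (by decide +kernel)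
theorem L2433533 : W_1 (nat_lit 2) (nat_lit 0x800068003c001e00088000000000000000000000000000000) (nat_lit 0x0) (nat_lit 0x200010000100000000000000000000000000000000000000000000) := D_1 (nat_lit 196) (nat_lit 176) (nat_lit 213) (nat_lit 3) (nat_lit 5) (nat_lit 10) (nat_lit 7) (nat_lit 8) (nat_lit 8) (by decide +kernel)
theorem L2433534 : W_1 (nat_lit 3) (nat_lit 0x68003c001e00088000000000000000000000000000000) (nat_lit 0x0) (nat_lit 0x300018000100000000000000000000000000000000000000000000) := T_1 (nat_lit 195) (nat_lit 212) (nat_lit 4) (nat_lit 8) (nat_lit 12) L2433533 (by decide +kernel)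
theorem L2433535 : W_1 (nat_lit 4) (nat_lit 0x28003c001e00088000000000000000000000000000000) (nat_lit 0x0) (nat_lit 0x300018000d00000000000000000000000000000000000000000000) := T_1 (nat_lit 178) (nat_lit 179) (nat_lit 3) (nat_lit 5) (nat_lit 9) L2433534 (by decide +kernel)
theorem L2433536 : W_1 (nat_lit 5) (nat_lit 0x20003c001e00088000000000000000000000000000000) (nat_lit 0x0) (nat_lit 0x300018000dc0000000000000000000000000000000000000000000) := T_1 (nat_lit 175) (nat_lit 174) (nat_lit 1) (nat_lit 8) (nat_lit 9) L2433535 (by decide +kernel)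
theorem L2433537 : W_1 (nat_lit 6) (nat_lit 0x20001c001e00088000000000000000000000000000000) (nat_lit 0x0) (nat_lit 0x300018000dc0060000000000000000000000000000000000000000) := T_1 (nat_lit 161) (nat_lit 162) (nat_lit 3) (nat_lit 5) (nat_lit 8) L2433536 (by decide +kernel)
theorem L2433538 : W_1 (nat_lit 7) (nat_lit 0x20001c001e00080000000000000000000000000000000) (nat_lit 0x0) (nat_lit 0x300018000dc0060000000018000000000000000000000000000000) := T_1 (nat_lit 123) (nat_lit 124) (nat_lit 0) (nat_lit 8) (nat_lit 8) L2433537 (by decide +kernel)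
theorem L2433539 : W_1 (nat_lit 8) (nat_lit 0x200018001e00080000000000000000000000000000000) (nat_lit 0x0) (nat_lit 0x300018000dc0066000000018000000000000000000000000000000) := T_1 (nat_lit 158) (nat_lit 157) (nat_lit 2) (nat_lit 4) (nat_lit 9) L2433538 (by decide +kernel)
theorem L2433540 : W_1 (nat_lit 9) (nat_lit 0x18001e00080000000000000000000000000000000) (nat_lit 0x0) (nat_lit 0x30001c000fc0066000000018000000000000000000000000000000) := T_1 (nat_lit 177) (nat_lit 194) (nat_lit 6) (nat_lit 7) (nat_lit 11) L2433539 (by decide +kernel)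
theorem L2433541 : W_1 (nat_lit 4) (nat_lit 0x3c001e00080000000000000000000000000000000) (nat_lit 0x0) (nat_lit 0x50002c0000000000020001000000000000000000000000000) := T_1 (nat_lit 177) (nat_lit 194) (nat_lit 6) (nat_lit 7) (nat_lit 11) L2430812 (by decide +kernel)
theorem L2433542 : W_1 (nat_lit 5) (nat_lit 0x1c001e00080000000000000000000000000000000) (nat_lit 0x0) (nat_lit 0x50002c0060000000020001000000000000000000000000000) := T_1 (nat_lit 161) (nat_lit 162) (nat_lit 3) (nat_lit 5) (nat_lit 8) L2433541 (by decide +kernel)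
theorem L2433543 : W_1 (nat_lit 6) (nat_lit 0x18001e00080000000000000000000000000000000) (nat_lit 0x0) (nat_lit 0x50002c0066000000020001000000000000000000000000000) := T_1 (nat_lit 158) (nat_lit 157) (nat_lit 2) (nat_lit 4) (nat_lit 9) L2433542 (by decide +kernel)
theorem L2433648 : W_1 (nat_lit 3) (nat_lit 0x10001e000b0000000000000000000000000000000) (nat_lit 0x0) (nat_lit 0x80006000000000001000080000000000000000000000) := T_1 (nat_lit 158) (nat_lit 157) (nat_lit 1) (nat_lit 8) (nat_lit 8) L6671 (by decide +kernel)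
theorem L2433649 : W_1 (nat_lit 4) (nat_lit 0x10001e000a0000000000000000000000000000000) (nat_lit 0x0) (nat_lit 0x80006000000018001000080000000000000000000000) := T_1 (nat_lit 124) (nat_lit 123) (nat_lit 0) (nat_lit 8) (nat_lit 8) L2433648 (by decide +kernel)
theorem L2433657 : W_1 (nat_lit 3) (nat_lit 0x10001e000a0000000000000000000000000000000) (nat_lit 0x0) (nat_lit 0x4000200008000000000001000080000000000000000000000) := T_1 (nat_lit 177) (nat_lit 194) (nat_lit 6) (nat_lit 7) (nat_lit 11) L327327 (by decide +kernel)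
theorem L2433665 : W_1 (nat_lit 2) (nat_lit 0x200014001e000a0001000000000000000000000000000) (nat_lit 0x0) (nat_lit 0x1000080000000000010000000000000000000000000000000) := D_1 (nat_lit 175) (nat_lit 124) (nat_lit 192) (nat_lit 6) (nat_lit 5) (nat_lit 10) (nat_lit 6) (nat_lit 5) (nat_lit 11) (by decide +kernel)
theorem L2433666 : W_1 (nat_lit 3) (nat_lit 0x200010001e000a0001000000000000000000000000000) (nat_lit 0x0) (nat_lit 0x1000080006000000010000000000000000000000000000000) := T_1 (nat_lit 158) (nat_lit 157) (nat_lit 1) (nat_lit 8) (nat_lit 8) L2433665 (by decide +kernel)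
theorem L2433667 : W_1 (nat_lit 4) (nat_lit 0x10001e000a0001000000000000000000000000000) (nat_lit 0x0) (nat_lit 0x5000280006000000010000000000000000000000000000000) := T_1 (nat_lit 177) (nat_lit 194) (nat_lit 6) (nat_lit 7) (nat_lit 11) L2433666 (by decide +kernel)
theorem L2433668 : W_1 (nat_lit 5) (nat_lit 0x10001e000a0000000000000000000000000000000) (nat_lit 0x0) (nat_lit 0x5000280006000000010001000080000000000000000000000) := T_1 (nat_lit 108) (nat_lit 91) (nat_lit 7) (nat_lit 6) (nat_lit 5) L2433667 (by decide +kernel)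
theorem L2436496 : W_1 (nat_lit 2) (nat_lit 0x380028003c001e00088000000000000000000000000000000) (nat_lit 0x0) (nat_lit 0x400100000000000040000000000000000000000000000000) := D_1 (nat_lit 176) (nat_lit 126) (nat_lit 190) (nat_lit 6) (nat_lit 6) (nat_lit 11) (nat_lit 2) (nat_lit 3) (nat_lit 11) (by decide +kernel)
theorem L2436497 : W_1 (nat_lit 3) (nat_lit 0x180028003c001e00088000000000000000000000000000000) (nat_lit 0x0) (nat_lit 0x40002400100000000000040000000000000000000000000000000) := T_1 (nat_lit 193) (nat_lit 210) (nat_lit 7) (nat_lit 5) (nat_lit 8) L2436496 (by decide +kernel)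
theorem L2436498 : W_1 (nat_lit 4) (nat_lit 0x100028003c001e00088000000000000000000000000000000) (nat_lit 0x0) (nat_lit 0x50002c00100000000000040000000000000000000000000000000) := T_1 (nat_lit 191) (nat_lit 208) (nat_lit 5) (nat_lit 5) (nat_lit 8) L2436497 (by decide +kernel)
theorem L2436499 : W_1 (nat_lit 5) (nat_lit 0x28003c001e00088000000000000000000000000000000) (nat_lit 0x0) (nat_lit 0x70003c00100000000000040000000000000000000000000000000) := T_1 (nat_lit 192) (nat_lit 209) (nat_lit 6) (nat_lit 5) (nat_lit 12) L2436498 (by decide +kernel)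
theorem L2436500 : W_1 (nat_lit 6) (nat_lit 0x20003c001e00088000000000000000000000000000000) (nat_lit 0x0) (nat_lit 0x70003c001c0000000000040000000000000000000000000000000) := T_1 (nat_lit 175) (nat_lit 174) (nat_lit 1) (nat_lit 8) (nat_lit 9) L2436499 (by decide +kernel)
theorem L2436501 : W_1 (nat_lit 7) (nat_lit 0x20001c001e00088000000000000000000000000000000) (nat_lit 0x0) (nat_lit 0x70003c001c0060000000040000000000000000000000000000000) := T_1 (nat_lit 161) (nat_lit 162) (nat_lit 3) (nat_lit 5) (nat_lit 8) L2436500 (by decide +kernel)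
theorem L2436502 : W_1 (nat_lit 8) (nat_lit 0x20001c001e00080000000000000000000000000000000) (nat_lit 0x0) (nat_lit 0x70003c001c0060000000058000000000000000000000000000000) := T_1 (nat_lit 123) (nat_lit 124) (nat_lit 0) (nat_lit 8) (nat_lit 8) L2436501 (by decide +kernel)
theorem L2436503 : W_1 (nat_lit 9) (nat_lit 0x1c001e00080000000000000000000000000000000) (nat_lit 0x0) (nat_lit 0x70007c003c0060000000058000000000000000000000000000000) := T_1 (nat_lit 177) (nat_lit 194) (nat_lit 6) (nat_lit 7) (nat_lit 11) L2436502 (by decide +kernel)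
theorem L2436504 : W_1 (nat_lit 10) (nat_lit 0x18001e00080000000000000000000000000000000) (nat_lit 0x0) (nat_lit 0x70007c003c0066000000058000000000000000000000000000000) := T_1 (nat_lit 158) (nat_lit 157) (nat_lit 2) (nat_lit 4) (nat_lit 9) L2436503 (by decide +kernel)
theorem L2436540 : W_1 (nat_lit 2) (nat_lit 0x48003c001e000a8000000000000000000000000000000) (nat_lit 0x0) (nat_lit 0x8000000000000000040002000000000000000000000000000) := D_1 (nat_lit 126) (nat_lit 109) (nat_lit 195) (nat_lit 7) (nat_lit 7) (nat_lit 6) (nat_lit 4) (nat_lit 8) (nat_lit 11) (by decide +kernel)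
theorem L2436541 : W_1 (nat_lit 3) (nat_lit 0x8003c001e000a8000000000000000000000000000000) (nat_lit 0x0) (nat_lit 0x8000c00000000000040002000000000000000000000000000) := T_1 (nat_lit 178) (nat_lit 179) (nat_lit 3) (nat_lit 5) (nat_lit 9) L2436540 (by decide +kernel)
theorem L2436542 : W_1 (nat_lit 4) (nat_lit 0x8003c001e000a0000000000000000000000000000000) (nat_lit 0x0) (nat_lit 0x8000c00000000000058002000000000000000000000000000) := T_1 (nat_lit 123) (nat_lit 124) (nat_lit 0) (nat_lit 8) (nat_lit 8) L2436541 (by decide +kernel)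
theorem L2436543 : W_1 (nat_lit 5) (nat_lit 0x80034001e000a0000000000000000000000000000000) (nat_lit 0x0) (nat_lit 0x8000c40008000000058002000000000000000000000000000) := T_1 (nat_lit 159) (nat_lit 174) (nat_lit 1) (nat_lit 8) (nat_lit 9) L2436542 (by decide +kernel)
theorem L2436544 : W_1 (nat_lit 6) (nat_lit 0x34001e000a0000000000000000000000000000000) (nat_lit 0x0) (nat_lit 0x9000cc0008000000058002000000000000000000000000000) := T_1 (nat_lit 175) (nat_lit 192) (nat_lit 6) (nat_lit 5) (nat_lit 11) L2436543 (by decide +kernel)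
theorem L2436545 : W_1 (nat_lit 7) (nat_lit 0x14001e000a0000000000000000000000000000000) (nat_lit 0x0) (nat_lit 0x9000cc0068000000058002000000000000000000000000000) := T_1 (nat_lit 161) (nat_lit 162) (nat_lit 3) (nat_lit 5) (nat_lit 8) L2436544 (by decide +kernel)
theorem L2436546 : W_1 (nat_lit 8) (nat_lit 0x10001e000a0000000000000000000000000000000) (nat_lit 0x0) (nat_lit 0x9000cc006e000000058002000000000000000000000000000) := T_1 (nat_lit 158) (nat_lit 157) (nat_lit 1) (nat_lit 8) (nat_lit 8) L2436545 (by decide +kernel)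
theorem L2436547 : W_1 (nat_lit 9) (nat_lit 0x10001e00080000000000000000000000000000000) (nat_lit 0x0) (nat_lit 0xd000ec006e000000078003000080000000000000000000000) := Q_1 (nat_lit 125) (C_1 L2433668 (C_1 L2436546 (C_1 L2433657 N_1))) (by decide +kernel)
theorem L2439213 : W_1 (nat_lit 2) (nat_lit 0x30001000080004000200000000000000000000000) (nat_lit 0x0) (nat_lit 0x800040002000000000000000000000000000000000000) := D_1 (nat_lit 162) (nat_lit 179) (nat_lit 145) (nat_lit 7) (nat_lit 8) (nat_lit 6) (nat_lit 7) (nat_lit 8) (nat_lit 5) (by decide +kernel)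
theorem L2454360 : W_1 (nat_lit 2) (nat_lit 0x30001c00180004000400000000000000000000000) (nat_lit 0x0) (nat_lit 0x8000c0000000000000000000000000000000000000000) := D_1 (nat_lit 162) (nat_lit 179) (nat_lit 163) (nat_lit 7) (nat_lit 8) (nat_lit 6) (nat_lit 0) (nat_lit 10) (nat_lit 9) (by decide +kernel)
theorem L2454361 : W_1 (nat_lit 3) (nat_lit 0x30001800180004000400000000000000000000000) (nat_lit 0x0) (nat_lit 0x8000c0000600000000000000000000000000000000000) := T_1 (nat_lit 142) (nat_lit 141) (nat_lit 2) (nat_lit 5) (nat_lit 8) L2454360 (by decide +kernel)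
theorem L2454362 : W_1 (nat_lit 4) (nat_lit 0x30001800180004000000000000000000000000000) (nat_lit 0x0) (nat_lit 0x8000c0000600000008000400000000000000000000000) := T_1 (nat_lit 94) (nat_lit 111) (nat_lit 6) (nat_lit 8) (nat_lit 9) L2454361 (by decide +kernel)
theorem L2454564 : W_1 (nat_lit 2) (nat_lit 0x30001e000e0000000000000000000000000000000) (nat_lit 0x0) (nat_lit 0x400000000000000002000100000000000000000000000) := D_1 (nat_lit 109) (nat_lit 178) (nat_lit 92) (nat_lit 7) (nat_lit 7) (nat_lit 6) (nat_lit 7) (nat_lit 7) (nat_lit 5) (by decide +kernel)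
theorem L2454565 : W_1 (nat_lit 3) (nat_lit 0x10001e000e0000000000000000000000000000000) (nat_lit 0x0) (nat_lit 0x400060000000000002000100000000000000000000000) := T_1 (nat_lit 161) (nat_lit 162) (nat_lit 3) (nat_lit 5) (nat_lit 8) L2454564 (by decide +kernel)
theorem L2454734 : W_1 (nat_lit 2) (nat_lit 0x380034001e000e8000000000000000000000000000000) (nat_lit 0x0) (nat_lit 0x8000400000000000000002000000000000000000000000000) := D_1 (nat_lit 178) (nat_lit 195) (nat_lit 109) (nat_lit 7) (nat_lit 7) (nat_lit 7) (nat_lit 7) (nat_lit 7) (nat_lit 6) (by decide +kernel)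
theorem L2454735 : W_1 (nat_lit 3) (nat_lit 0x380034001e000a8000000000000000000000000000000) (nat_lit 0x0) (nat_lit 0xa000400000000000040002000000000000000000000000000) := T_1 (nat_lit 126) (nat_lit 193) (nat_lit 5) (nat_lit 7) (nat_lit 7) L2454734 (by decide +kernel)
theorem L2454736 : W_1 (nat_lit 4) (nat_lit 0x280034001e000a8000000000000000000000000000000) (nat_lit 0x0) (nat_lit 0xa000540000000000040002000000000000000000000000000) := T_1 (nat_lit 176) (nat_lit 174) (nat_lit 2) (nat_lit 4) (nat_lit 10) L2454735 (by decide +kernel)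
theorem L2454737 : W_1 (nat_lit 5) (nat_lit 0x80034001e000a8000000000000000000000000000000) (nat_lit 0x0) (nat_lit 0xe000740000000000040002000000000000000000000000000) := T_1 (nat_lit 177) (nat_lit 194) (nat_lit 6) (nat_lit 7) (nat_lit 11) L2454736 (by decide +kernel)
theorem L2454738 : W_1 (nat_lit 6) (nat_lit 0x80014001e000a8000000000000000000000000000000) (nat_lit 0x0) (nat_lit 0xe000740060000000040002000000000000000000000000000) := T_1 (nat_lit 161) (nat_lit 162) (nat_lit 3) (nat_lit 5) (nat_lit 8) L2454737 (by decide +kernel)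
theorem L2454739 : W_1 (nat_lit 7) (nat_lit 0x14001e000a8000000000000000000000000000000) (nat_lit 0x0) (nat_lit 0xf0007c0060000000040002000000000000000000000000000) := T_1 (nat_lit 175) (nat_lit 192) (nat_lit 6) (nat_lit 5) (nat_lit 11) L2454738 (by decide +kernel)
theorem L2454740 : W_1 (nat_lit 8) (nat_lit 0x14001e000a0000000000000000000000000000000) (nat_lit 0x0) (nat_lit 0xf0007c0060000000058002000000000000000000000000000) := T_1 (nat_lit 123) (nat_lit 124) (nat_lit 0) (nat_lit 8) (nat_lit 8) L2454739 (by decide +kernel)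
theorem L2454741 : W_1 (nat_lit 9) (nat_lit 0x10001e000a0000000000000000000000000000000) (nat_lit 0x0) (nat_lit 0xf0007c0066000000058002000000000000000000000000000) := T_1 (nat_lit 158) (nat_lit 157) (nat_lit 1) (nat_lit 8) (nat_lit 8) L2454740 (by decide +kernel)
theorem L2454742 : W_1 (nat_lit 2) (nat_lit 0x200010001e000a0000000000000000000000000000000) (nat_lit 0x0) (nat_lit 0x40001000080000000000000000000000) := D_1 (nat_lit 108) (nat_lit 91) (nat_lit 126) (nat_lit 7) (nat_lit 6) (nat_lit 5) (nat_lit 4) (nat_lit 7) (nat_lit 10) (by decide +kernel)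
theorem L2454743 : W_1 (nat_lit 3) (nat_lit 0x10001e000a0000000000000000000000000000000) (nat_lit 0x0) (nat_lit 0x4000200000000000040001000080000000000000000000000) := T_1 (nat_lit 177) (nat_lit 194) (nat_lit 6) (nat_lit 7) (nat_lit 11) L2454742 (by decide +kernel)
theorem L2454744 : W_1 (nat_lit 10) (nat_lit 0x10001e00080000000000000000000000000000000) (nat_lit 0x0) (nat_lit 0xf0007c0066000000078003000080000000000000000000000) := Q_1 (nat_lit 125) (C_1 L2433668 (C_1 L2433649 (C_1 L2454741 (C_1 L2454743 N_1)))) (by decide +kernel)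
theorem L2467099 : W_1 (nat_lit 2) (nat_lit 0x30001000080004000200000000000000000000000) (nat_lit 0x0) (nat_lit 0x2000100008000000000000000000) := D_1 (nat_lit 92) (nat_lit 75) (nat_lit 109) (nat_lit 4) (nat_lit 8) (nat_lit 8) (nat_lit 4) (nat_lit 8) (nat_lit 9) (by decide +kernel)
theorem L2522824 : W_1 (nat_lit 2) (nat_lit 0x10001a001e0009000000000000000000000000000) (nat_lit 0x0) (nat_lit 0x2000080004000000000000000000) := D_1 (nat_lit 91) (nat_lit 109) (nat_lit 74) (nat_lit 4) (nat_lit 7) (nat_lit 9) (nat_lit 7) (nat_lit 6) (nat_lit 4) (by decide +kernel)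
theorem L2524796 : W_1 (nat_lit 2) (nat_lit 0x300010000e000c000000000000000000000000000) (nat_lit 0x0) (nat_lit 0x100030000000000000000000000000000) := D_1 (nat_lit 112) (nat_lit 113) (nat_lit 128) (nat_lit 1) (nat_lit 11) (nat_lit 6) (nat_lit 2) (nat_lit 6) (nat_lit 7) (by decide +kernel)
theorem L2533387 : W_1 (nat_lit 3) (nat_lit 0x10001000080004000200000000000000000000000) (nat_lit 0x0) (nat_lit 0x200020000000000002000100008000000000000000000) := T_1 (nat_lit 161) (nat_lit 177) (nat_lit 5) (nat_lit 8) (nat_lit 6) L2467099 (by decide +kernel)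
theorem L2533389 : W_1 (nat_lit 2) (nat_lit 0x10001000080004000600000000000000000000000) (nat_lit 0x0) (nat_lit 0x200020000000000008000000000000000000000000000) := D_1 (nat_lit 161) (nat_lit 177) (nat_lit 111) (nat_lit 5) (nat_lit 8) (nat_lit 6) (nat_lit 6) (nat_lit 8) (nat_lit 9) (by decide +kernel)
theorem L2533399 : W_1 (nat_lit 3) (nat_lit 0x10001000080004000200000000000000000000000) (nat_lit 0x0) (nat_lit 0xa00060002000000000000000000000000000000000000) := T_1 (nat_lit 161) (nat_lit 177) (nat_lit 5) (nat_lit 8) (nat_lit 6) L2439213 (by decide +kernel)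
theorem L3256692 : W_1 (nat_lit 11) (nat_lit 0x1000080004000200000000000000000000000) (nat_lit 0x0) (nat_lit 0x50002e0076003a003dc00ee000000000000000000) := T_1 (nat_lit 92) (nat_lit 75) (nat_lit 4) (nat_lit 8) (nat_lit 8) L402620 (by decide +kernel)
theorem L3256693 : W_1 (nat_lit 12) (nat_lit 0x1000080004000000000000000000000000000) (nat_lit 0x0) (nat_lit 0x50002e0076003a003fc00fe001400000000000000) := Q_1 (nat_lit 93) (C_1 L18151 (C_1 L18142 (C_1 L18150 (C_1 L3256692 N_1)))) (by decide +kernel)
theorem L3411876 : W_1 (nat_lit 4) (nat_lit 0x300018001c000a0000000000000000000000000000000) (nat_lit 0x0) (nat_lit 0x10000e0007000000000000000000000000000000000000000) := T_1 (nat_lit 157) (nat_lit 158) (nat_lit 2) (nat_lit 4) (nat_lit 9) L1107170 (by decide +kernel)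
theorem L3433317 : W_1 (nat_lit 2) (nat_lit 0x200010001e000b0001000000000000000000000000000) (nat_lit 0x0) (nat_lit 0x80006000000000000000000000000000000000000000) := D_1 (nat_lit 158) (nat_lit 157) (nat_lit 175) (nat_lit 1) (nat_lit 8) (nat_lit 8) (nat_lit 6) (nat_lit 5) (nat_lit 10) (by decide +kernel)
theorem L3433318 : W_1 (nat_lit 3) (nat_lit 0x200010001e000b0000000000000000000000000000000) (nat_lit 0x0) (nat_lit 0x80006000000000001000080000000000000000000000) := T_1 (nat_lit 108) (nat_lit 91) (nat_lit 7) (nat_lit 6) (nat_lit 5) L3433317 (by decide +kernel)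
theorem L3433319 : W_1 (nat_lit 4) (nat_lit 0x200010001e000a0000000000000000000000000000000) (nat_lit 0x0) (nat_lit 0x80006000000018001000080000000000000000000000) := T_1 (nat_lit 124) (nat_lit 123) (nat_lit 0) (nat_lit 8) (nat_lit 8) L3433318 (by decide +kernel)
theorem L3433320 : W_1 (nat_lit 6) (nat_lit 0x200014001e000a0000000000000000000000000000000) (nat_lit 0x0) (nat_lit 0x38001e0008000000018000800000000000000000000000000) := T_1 (nat_lit 124) (nat_lit 123) (nat_lit 0) (nat_lit 8) (nat_lit 8) L60508 (by decide +kernel)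
theorem L3433321 : W_1 (nat_lit 7) (nat_lit 0x200010001e000a0000000000000000000000000000000) (nat_lit 0x0) (nat_lit 0x38001e000e000000018000800000000000000000000000000) := T_1 (nat_lit 158) (nat_lit 157) (nat_lit 1) (nat_lit 8) (nat_lit 8) L3433320 (by decide +kernel)
theorem L3433322 : W_1 (nat_lit 8) (nat_lit 0x200010001e00080000000000000000000000000000000) (nat_lit 0x0) (nat_lit 0x38001e000e000000038001800080000000000000000000000) := Q_1 (nat_lit 125) (C_1 L327327 (C_1 L3433319 (C_1 L3433321 N_1))) (by decide +kernel)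
theorem L3434457 : W_1 (nat_lit 2) (nat_lit 0x1a00380004000200018000800000000000000) (nat_lit 0x0) (nat_lit 0x20001000080000000000) := D_1 (nat_lit 60) (nat_lit 43) (nat_lit 77) (nat_lit 6) (nat_lit 8) (nat_lit 6) (nat_lit 6) (nat_lit 8) (nat_lit 7) (by decide +kernel)
theorem L3434458 : W_1 (nat_lit 3) (nat_lit 0x1a00380004000200018000000000000000000) (nat_lit 0x0) (nat_lit 0x8000000020001800080000000000) := T_1 (nat_lit 59) (nat_lit 111) (nat_lit 7) (nat_lit 8) (nat_lit 3) L3434457 (by decide +kernel)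
theorem L3445211 : W_1 (nat_lit 2) (nat_lit 0x10000f80040001800180000000000000000000000000000000) (nat_lit 0x0) (nat_lit 0x3800000000000000000000000000000000000000000000000) := D_1 (nat_lit 192) (nat_lit 191) (nat_lit 193) (nat_lit 1) (nat_lit 8) (nat_lit 10) (nat_lit 1) (nat_lit 9) (nat_lit 10) (by decide +kernel)
theorem L3445212 : W_1 (nat_lit 3) (nat_lit 0x10000f00040001800180000000000000000000000000000000) (nat_lit 0x0) (nat_lit 0xb800080000000000000000000000000000000000000000000) := T_1 (nat_lit 175) (nat_lit 195) (nat_lit 3) (nat_lit 5) (nat_lit 10) L3445211 (by decide +kernel)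
theorem L3445213 : W_1 (nat_lit 4) (nat_lit 0xf00040001800180000000000000000000000000000000) (nat_lit 0x0) (nat_lit 0x3b800080000000000000000000000000000000000000000000) := T_1 (nat_lit 196) (nat_lit 197) (nat_lit 3) (nat_lit 6) (nat_lit 10) L3445212 (by decide +kernel)
theorem L3445214 : W_1 (nat_lit 5) (nat_lit 0xf00000001800180000000000000000000000000000000) (nat_lit 0x0) (nat_lit 0x3b8000800c0000000000000000000000000000000000000000) := T_1 (nat_lit 162) (nat_lit 163) (nat_lit 2) (nat_lit 6) (nat_lit 10) L3445213 (by decide +kernel)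
theorem L3445215 : W_1 (nat_lit 2) (nat_lit 0x1000f80000001800180000000000000000000000000000000) (nat_lit 0x0) (nat_lit 0xe000000000000000000000000000000000000000) := D_1 (nat_lit 158) (nat_lit 157) (nat_lit 159) (nat_lit 0) (nat_lit 8) (nat_lit 10) (nat_lit 0) (nat_lit 9) (nat_lit 10) (by decide +kernel)
theorem L3445216 : W_1 (nat_lit 3) (nat_lit 0x1000f00000001800180000000000000000000000000000000) (nat_lit 0x0) (nat_lit 0x80008000e000000000000000000000000000000000000000) := T_1 (nat_lit 175) (nat_lit 191) (nat_lit 1) (nat_lit 8) (nat_lit 10) L3445215 (by decide +kernel)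
theorem L3445217 : W_1 (nat_lit 4) (nat_lit 0xf00000001800180000000000000000000000000000000) (nat_lit 0x0) (nat_lit 0x380008000e000000000000000000000000000000000000000) := T_1 (nat_lit 192) (nat_lit 193) (nat_lit 1) (nat_lit 9) (nat_lit 10) L3445216 (by decide +kernel)
theorem L3445218 : W_1 (nat_lit 2) (nat_lit 0x10000f80040001800180000000000000000000000000000000) (nat_lit 0x0) (nat_lit 0xe000000000000000000000000000000000000000) := D_1 (nat_lit 158) (nat_lit 159) (nat_lit 157) (nat_lit 0) (nat_lit 9) (nat_lit 10) (nat_lit 0) (nat_lit 8) (nat_lit 10) (by decide +kernel)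
theorem L3445219 : W_1 (nat_lit 3) (nat_lit 0x10000f00040001800180000000000000000000000000000000) (nat_lit 0x0) (nat_lit 0x800008000e000000000000000000000000000000000000000) := T_1 (nat_lit 175) (nat_lit 195) (nat_lit 3) (nat_lit 5) (nat_lit 10) L3445218 (by decide +kernel)
theorem L3445220 : W_1 (nat_lit 4) (nat_lit 0xf00040001800180000000000000000000000000000000) (nat_lit 0x0) (nat_lit 0x3800008000e000000000000000000000000000000000000000) := T_1 (nat_lit 196) (nat_lit 197) (nat_lit 3) (nat_lit 6) (nat_lit 10) L3445219 (by decide +kernel)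
theorem L3445221 : W_1 (nat_lit 5) (nat_lit 0xf00000001800180000000000000000000000000000000) (nat_lit 0x0) (nat_lit 0x380000800ce000000000000000000000000000000000000000) := T_1 (nat_lit 162) (nat_lit 163) (nat_lit 2) (nat_lit 6) (nat_lit 10) L3445220 (by decide +kernel)
theorem L3445222 : W_1 (nat_lit 2) (nat_lit 0x21000f00084001800180000000000000000000000000000000) (nat_lit 0x0) (nat_lit 0x40001000100000000000000000000000000000000000000000) := D_1 (nat_lit 180) (nat_lit 164) (nat_lit 198) (nat_lit 2) (nat_lit 7) (nat_lit 10) (nat_lit 3) (nat_lit 7) (nat_lit 10) (by decide +kernel)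
theorem L3445223 : W_1 (nat_lit 3) (nat_lit 0x1000f00084001800180000000000000000000000000000000) (nat_lit 0x0) (nat_lit 0x70001000100000000000000000000000000000000000000000) := T_1 (nat_lit 197) (nat_lit 196) (nat_lit 3) (nat_lit 6) (nat_lit 10) L3445222 (by decide +kernel)
theorem L3445224 : W_1 (nat_lit 4) (nat_lit 0x1000f00004001800180000000000000000000000000000000) (nat_lit 0x0) (nat_lit 0x700010001c0000000000000000000000000000000000000000) := T_1 (nat_lit 163) (nat_lit 162) (nat_lit 2) (nat_lit 6) (nat_lit 10) L3445223 (by decide +kernel)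
theorem L3445225 : W_1 (nat_lit 5) (nat_lit 0xf00004001800180000000000000000000000000000000) (nat_lit 0x0) (nat_lit 0x730010001c0000000000000000000000000000000000000000) := T_1 (nat_lit 192) (nat_lit 193) (nat_lit 1) (nat_lit 9) (nat_lit 10) L3445224 (by decide +kernel)
theorem L3445226 : W_1 (nat_lit 6) (nat_lit 0xf00000001800180000000000000000000000000000000) (nat_lit 0x0) (nat_lit 0x730010001cc000000000000000000000000000000000000000) := T_1 (nat_lit 158) (nat_lit 159) (nat_lit 0) (nat_lit 9) (nat_lit 10) L3445225 (by decide +kernel)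
theorem L3445386 : W_1 (nat_lit 2) (nat_lit 0x12000f00050001800380000000000000000000000000000000) (nat_lit 0x0) (nat_lit 0x800040000000000008000000000000000000000000000000000000000) := D_1 (nat_lit 210) (nat_lit 227) (nat_lit 159) (nat_lit 6) (nat_lit 6) (nat_lit 13) (nat_lit 6) (nat_lit 6) (nat_lit 12) (by decide +kernel)
theorem L3445387 : W_1 (nat_lit 3) (nat_lit 0x12000f00040001800380000000000000000000000000000000) (nat_lit 0x0) (nat_lit 0x800040004000000018000000000000000000000000000000000000000) := T_1 (nat_lit 160) (nat_lit 194) (nat_lit 6) (nat_lit 7) (nat_lit 11) L3445386 (by decide +kernel)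
theorem L3445388 : W_1 (nat_lit 4) (nat_lit 0x2000f00040001800380000000000000000000000000000000) (nat_lit 0x0) (nat_lit 0x800040034000000018000000000000000000000000000000000000000) := T_1 (nat_lit 196) (nat_lit 197) (nat_lit 3) (nat_lit 6) (nat_lit 10) L3445387 (by decide +kernel)
theorem L3445389 : W_1 (nat_lit 5) (nat_lit 0x2000f00000001800380000000000000000000000000000000) (nat_lit 0x0) (nat_lit 0x8000400340000000d8000000000000000000000000000000000000000) := T_1 (nat_lit 162) (nat_lit 163) (nat_lit 2) (nat_lit 6) (nat_lit 10) L3445388 (by decide +kernel)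
theorem L3445390 : W_1 (nat_lit 6) (nat_lit 0x2000f00000001800180000000000000000000000000000000) (nat_lit 0x0) (nat_lit 0x8000400340000000d8000000600000000000000000000000000000000) := T_1 (nat_lit 129) (nat_lit 130) (nat_lit 1) (nat_lit 11) (nat_lit 7) L3445389 (by decide +kernel)
theorem L3445391 : W_1 (nat_lit 7) (nat_lit 0xf00000001800180000000000000000000000000000000) (nat_lit 0x0) (nat_lit 0x8000400370000000d8000000600000000000000000000000000000000) := T_1 (nat_lit 193) (nat_lit 192) (nat_lit 1) (nat_lit 9) (nat_lit 10) L3445390 (by decide +kernel)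
theorem L3445394 : W_1 (nat_lit 2) (nat_lit 0x1000f80000001800380000000000000000000000000000000) (nat_lit 0x0) (nat_lit 0x38000000000000000000000000000000000000000000000000) := D_1 (nat_lit 196) (nat_lit 197) (nat_lit 195) (nat_lit 3) (nat_lit 6) (nat_lit 10) (nat_lit 3) (nat_lit 5) (nat_lit 10) (by decide +kernel)
theorem L3445395 : W_1 (nat_lit 3) (nat_lit 0x1000f00000001800380000000000000000000000000000000) (nat_lit 0x0) (nat_lit 0x38800080000000000000000000000000000000000000000000) := T_1 (nat_lit 175) (nat_lit 191) (nat_lit 1) (nat_lit 8) (nat_lit 10) L3445394 (by decide +kernel)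
theorem L3445396 : W_1 (nat_lit 4) (nat_lit 0xf00000001800380000000000000000000000000000000) (nat_lit 0x0) (nat_lit 0x3b800080000000000000000000000000000000000000000000) := T_1 (nat_lit 192) (nat_lit 193) (nat_lit 1) (nat_lit 9) (nat_lit 10) L3445395 (by decide +kernel)
theorem L3445397 : W_1 (nat_lit 5) (nat_lit 0xf00000001800180000000000000000000000000000000) (nat_lit 0x0) (nat_lit 0x3b800080000000000600000000000000000000000000000000) := T_1 (nat_lit 129) (nat_lit 130) (nat_lit 1) (nat_lit 11) (nat_lit 7) L3445396 (by decide +kernel)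
theorem L3445605 : W_1 (nat_lit 7) (nat_lit 0xe00000001800180000000000000000000000000000000) (nat_lit 0x0) (nat_lit 0x7b8011801ce000000600000000000000000000000000000000) := Q_1 (nat_lit 176) (C_1 L3445397 (C_1 L3445226 (C_1 L3445217 (C_1 L3445221 N_1)))) (by decide +kernel)
theorem L3445714 : W_1 (nat_lit 2) (nat_lit 0x1f00084001800380000000000000000000000000000000) (nat_lit 0x0) (nat_lit 0x70000000000000000000000000000000000000000000000000) := D_1 (nat_lit 197) (nat_lit 196) (nat_lit 198) (nat_lit 3) (nat_lit 6) (nat_lit 10) (nat_lit 3) (nat_lit 7) (nat_lit 10) (by decide +kernel)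
theorem L3445715 : W_1 (nat_lit 3) (nat_lit 0xf00084001800380000000000000000000000000000000) (nat_lit 0x0) (nat_lit 0x70001000100000000000000000000000000000000000000000) := T_1 (nat_lit 180) (nat_lit 164) (nat_lit 2) (nat_lit 7) (nat_lit 10) L3445714 (by decide +kernel)
theorem L3445716 : W_1 (nat_lit 4) (nat_lit 0xf00080001800380000000000000000000000000000000) (nat_lit 0x0) (nat_lit 0x7000100010c000000000000000000000000000000000000000) := T_1 (nat_lit 158) (nat_lit 159) (nat_lit 0) (nat_lit 9) (nat_lit 10) L3445715 (by decide +kernel)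
theorem L3445717 : W_1 (nat_lit 5) (nat_lit 0xf00000001800380000000000000000000000000000000) (nat_lit 0x0) (nat_lit 0x700010001cc000000000000000000000000000000000000000) := T_1 (nat_lit 163) (nat_lit 162) (nat_lit 2) (nat_lit 6) (nat_lit 10) L3445716 (by decide +kernel)
theorem L3445718 : W_1 (nat_lit 6) (nat_lit 0xf00000001800180000000000000000000000000000000) (nat_lit 0x0) (nat_lit 0x700010001cc000000600000000000000000000000000000000) := T_1 (nat_lit 129) (nat_lit 130) (nat_lit 1) (nat_lit 11) (nat_lit 7) L3445717 (by decide +kernel)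
theorem L3445735 : W_1 (nat_lit 2) (nat_lit 0x10000f80000001800180000000000000000000000000000000) (nat_lit 0x0) (nat_lit 0xe000000000000000000000000000000000000000) := D_1 (nat_lit 158) (nat_lit 157) (nat_lit 159) (nat_lit 0) (nat_lit 8) (nat_lit 10) (nat_lit 0) (nat_lit 9) (nat_lit 10) (by decide +kernel)
theorem L3445736 : W_1 (nat_lit 3) (nat_lit 0x10000f00000001800180000000000000000000000000000000) (nat_lit 0x0) (nat_lit 0x800008000e000000000000000000000000000000000000000) := T_1 (nat_lit 175) (nat_lit 195) (nat_lit 3) (nat_lit 5) (nat_lit 10) L3445735 (by decide +kernel)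
theorem L3445737 : W_1 (nat_lit 4) (nat_lit 0xf00000001800180000000000000000000000000000000) (nat_lit 0x0) (nat_lit 0x3800008000e000000000000000000000000000000000000000) := T_1 (nat_lit 196) (nat_lit 197) (nat_lit 3) (nat_lit 6) (nat_lit 10) L3445736 (by decide +kernel)
theorem L3455021 : W_1 (nat_lit 2) (nat_lit 0x1c001a0001800040000000000000000000000) (nat_lit 0x0) (nat_lit 0x80002000100000000000000) := D_1 (nat_lit 73) (nat_lit 91) (nat_lit 56) (nat_lit 4) (nat_lit 6) (nat_lit 8) (nat_lit 7) (nat_lit 5) (nat_lit 3) (by decide +kernel)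
theorem L3455022 : W_1 (nat_lit 3) (nat_lit 0x1c001a0001800000000000000000000000000) (nat_lit 0x0) (nat_lit 0x80000000000000000c0002000100000000000000) := T_1 (nat_lit 90) (nat_lit 159) (nat_lit 4) (nat_lit 6) (nat_lit 9) L3455021 (by decide +kernel)
theorem L3455027 : W_1 (nat_lit 2) (nat_lit 0x1c001a0001800040000000000000000000000) (nat_lit 0x0) (nat_lit 0x10000000000002000100000000000000) := D_1 (nat_lit 73) (nat_lit 56) (nat_lit 124) (nat_lit 7) (nat_lit 5) (nat_lit 3) (nat_lit 7) (nat_lit 5) (nat_lit 4) (by decide +kernel)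
theorem L3455028 : W_1 (nat_lit 3) (nat_lit 0x1c001a0001800000000000000000000000000) (nat_lit 0x0) (nat_lit 0x8000000010000000040002000100000000000000) := T_1 (nat_lit 90) (nat_lit 159) (nat_lit 4) (nat_lit 6) (nat_lit 9) L3455027 (by decide +kernel)
theorem L3455029 : W_1 (nat_lit 2) (nat_lit 0x1c001a000180008000c000200000000000000) (nat_lit 0x0) (nat_lit 0x2000100008000000000) := D_1 (nat_lit 56) (nat_lit 39) (nat_lit 73) (nat_lit 4) (nat_lit 6) (nat_lit 6) (nat_lit 4) (nat_lit 6) (nat_lit 7) (by decide +kernel)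
theorem L3455030 : W_1 (nat_lit 3) (nat_lit 0x1c001a000180008000c000000000000000000) (nat_lit 0x0) (nat_lit 0x10000000000002000300008000000000) := T_1 (nat_lit 57) (nat_lit 124) (nat_lit 5) (nat_lit 6) (nat_lit 3) L3455029 (by decide +kernel)
theorem L3455031 : W_1 (nat_lit 4) (nat_lit 0x1c001a0001800080008000000000000000000) (nat_lit 0x0) (nat_lit 0x10000000000006000700008000000000) := T_1 (nat_lit 74) (nat_lit 58) (nat_lit 6) (nat_lit 6) (nat_lit 7) L3455030 (by decide +kernel)
theorem L3455032 : W_1 (nat_lit 5) (nat_lit 0x1c001a0001800080000000000000000000000) (nat_lit 0x0) (nat_lit 0x1000000010000e000700008000000000) := T_1 (nat_lit 75) (nat_lit 92) (nat_lit 6) (nat_lit 6) (nat_lit 8) L3455031 (by decide +kernel)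
theorem L3455033 : W_1 (nat_lit 6) (nat_lit 0x1c001a0001800000000000000000000000000) (nat_lit 0x0) (nat_lit 0x1000000001000000018000e000700008000000000) := T_1 (nat_lit 91) (nat_lit 160) (nat_lit 7) (nat_lit 6) (nat_lit 5) L3455032 (by decide +kernel)
theorem L3455323 : W_1 (nat_lit 2) (nat_lit 0x1c000c0003400080000000000000000000000) (nat_lit 0x0) (nat_lit 0x20000000000004000200000000000000) := D_1 (nat_lit 74) (nat_lit 57) (nat_lit 125) (nat_lit 7) (nat_lit 6) (nat_lit 3) (nat_lit 7) (nat_lit 6) (nat_lit 4) (by decide +kernel)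
theorem L3455324 : W_1 (nat_lit 3) (nat_lit 0x1c000c0003400000000000000000000000000) (nat_lit 0x0) (nat_lit 0x10000000020000000080004000200000000000000) := T_1 (nat_lit 91) (nat_lit 160) (nat_lit 4) (nat_lit 7) (nat_lit 9) L3455323 (by decide +kernel)
theorem L3455325 : W_1 (nat_lit 4) (nat_lit 0x1c000c0003000000000000000000000000000) (nat_lit 0x0) (nat_lit 0x10000000020000c00080004000200000000000000) := T_1 (nat_lit 106) (nat_lit 107) (nat_lit 3) (nat_lit 4) (nat_lit 6) L3455324 (by decide +kernel)
theorem L3455326 : W_1 (nat_lit 2) (nat_lit 0x200010001c000c0003400000000000000000000000000) (nat_lit 0x0) (nat_lit 0x2000100008000000000000000000000000000000000000000) := D_1 (nat_lit 176) (nat_lit 193) (nat_lit 159) (nat_lit 5) (nat_lit 7) (nat_lit 7) (nat_lit 5) (nat_lit 7) (nat_lit 6) (by decide +kernel)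
theorem L3455327 : W_1 (nat_lit 3) (nat_lit 0x10001c000c0003400000000000000000000000000) (nat_lit 0x0) (nat_lit 0x6000300008000000000000000000000000000000000000000) := T_1 (nat_lit 177) (nat_lit 194) (nat_lit 6) (nat_lit 7) (nat_lit 11) L3455326 (by decide +kernel)
theorem L3455328 : W_1 (nat_lit 4) (nat_lit 0x10001c000c0003000000000000000000000000000) (nat_lit 0x0) (nat_lit 0x6000300008000000000000c00000000000000000000000000) := T_1 (nat_lit 106) (nat_lit 107) (nat_lit 3) (nat_lit 4) (nat_lit 6) L3455327 (by decide +kernel)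
theorem L3455329 : W_1 (nat_lit 5) (nat_lit 0x1c000c0003000000000000000000000000000) (nat_lit 0x0) (nat_lit 0x6000300018000000000000c00080000000000000000000000) := T_1 (nat_lit 160) (nat_lit 91) (nat_lit 4) (nat_lit 7) (nat_lit 9) L3455328 (by decide +kernel)
theorem L3455330 : W_1 (nat_lit 2) (nat_lit 0x1c000c0003000080000000000000000000000) (nat_lit 0x0) (nat_lit 0x20000000000004000200000000000000) := D_1 (nat_lit 74) (nat_lit 57) (nat_lit 125) (nat_lit 7) (nat_lit 6) (nat_lit 3) (nat_lit 7) (nat_lit 6) (nat_lit 4) (by decide +kernel)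
theorem L3455331 : W_1 (nat_lit 3) (nat_lit 0x1c000c0003000000000000000000000000000) (nat_lit 0x0) (nat_lit 0x10000000020000000080004000200000000000000) := T_1 (nat_lit 91) (nat_lit 160) (nat_lit 4) (nat_lit 7) (nat_lit 9) L3455330 (by decide +kernel)
theorem L3455332 : W_1 (nat_lit 6) (nat_lit 0x1c000c0002000000000000000000000000000) (nat_lit 0x0) (nat_lit 0x6000300018000000320001c00080004000200000000000000) := Q_1 (nat_lit 108) (C_1 L3455325 (C_1 L3455329 (C_1 L1112110 (C_1 L3455331 N_1)))) (by decide +kernel)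
theorem L3455333 : W_1 (nat_lit 7) (nat_lit 0x1c000c0000000000000000000000000000000) (nat_lit 0x0) (nat_lit 0x6000300018000000320003c0078001c000200000000000000) := Q_1 (nat_lit 109) (C_1 L428070 (C_1 L58971 (C_1 L33256 (C_1 L3455332 N_1)))) (by decide +kernel)
theorem L3455334 : W_1 (nat_lit 2) (nat_lit 0x2001e000f00018003c0001000000000000000000) (nat_lit 0x0) (nat_lit 0x2000000030000000000000000000) := D_1 (nat_lit 76) (nat_lit 77) (nat_lit 109) (nat_lit 2) (nat_lit 5) (nat_lit 5) (nat_lit 6) (nat_lit 7) (nat_lit 8) (by decide +kernel)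
theorem L3455335 : W_1 (nat_lit 3) (nat_lit 0x2001e000f00018001c0001000000000000000000) (nat_lit 0x0) (nat_lit 0x2000600030000000000000000000) := T_1 (nat_lit 93) (nat_lit 94) (nat_lit 1) (nat_lit 9) (nat_lit 5) L3455334 (by decide +kernel)
theorem L3455336 : W_1 (nat_lit 4) (nat_lit 0x2001e000f00018000c0001000000000000000000) (nat_lit 0x0) (nat_lit 0x2000700038000000000000000000) := T_1 (nat_lit 92) (nat_lit 75) (nat_lit 6) (nat_lit 6) (nat_lit 8) L3455335 (by decide +kernel)
theorem L3455337 : W_1 (nat_lit 5) (nat_lit 0x2001e000f00008000c0001000000000000000000) (nat_lit 0x0) (nat_lit 0x10000000000003000700038000000000000000000) := T_1 (nat_lit 108) (nat_lit 160) (nat_lit 7) (nat_lit 6) (nat_lit 5) L3455336 (by decide +kernel)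
theorem L3455338 : W_1 (nat_lit 6) (nat_lit 0x2001e000f00008000c0000000000000000000000) (nat_lit 0x0) (nat_lit 0x10000000000003000720039000000000000000000) := T_1 (nat_lit 72) (nat_lit 89) (nat_lit 4) (nat_lit 5) (nat_lit 8) L3455337 (by decide +kernel)
theorem L3455339 : W_1 (nat_lit 7) (nat_lit 0x2001e000f0000800040000000000000000000000) (nat_lit 0x0) (nat_lit 0x100000000000030007a003d000000000000000000) := T_1 (nat_lit 91) (nat_lit 74) (nat_lit 6) (nat_lit 5) (nat_lit 8) L3455338 (by decide +kernel)
theorem L3455340 : W_1 (nat_lit 8) (nat_lit 0x2001e000f0000800000000000000000000000000) (nat_lit 0x0) (nat_lit 0x100000000000030007e003f000000000000000000) := T_1 (nat_lit 90) (nat_lit 73) (nat_lit 7) (nat_lit 5) (nat_lit 4) L3455339 (by decide +kernel)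
theorem L3455341 : W_1 (nat_lit 9) (nat_lit 0x2001e000f0000000000000000000000000000000) (nat_lit 0x0) (nat_lit 0x10000000000003c007e003f000000000000000000) := T_1 (nat_lit 107) (nat_lit 106) (nat_lit 0) (nat_lit 8) (nat_lit 7) L3455340 (by decide +kernel)
theorem L3455342 : W_1 (nat_lit 10) (nat_lit 0x1e000f0000000000000000000000000000000) (nat_lit 0x0) (nat_lit 0x16000000000003c007e003f000000000000000000) := T_1 (nat_lit 157) (nat_lit 158) (nat_lit 1) (nat_lit 8) (nat_lit 8) L3455341 (by decide +kernel)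
theorem L3455343 : W_1 (nat_lit 11) (nat_lit 0x1e000e0000000000000000000000000000000) (nat_lit 0x0) (nat_lit 0x16000000018003c007e003f000000000000000000) := T_1 (nat_lit 124) (nat_lit 123) (nat_lit 3) (nat_lit 4) (nat_lit 7) L3455342 (by decide +kernel)
theorem L3455344 : W_1 (nat_lit 12) (nat_lit 0x1c000e0000000000000000000000000000000) (nat_lit 0x0) (nat_lit 0x16000300018003c007e003f000000000000000000) := T_1 (nat_lit 141) (nat_lit 140) (nat_lit 2) (nat_lit 4) (nat_lit 8) L3455343 (by decide +kernel)
theorem L3455345 : W_1 (nat_lit 13) (nat_lit 0x1c000c0000000000000000000000000000000) (nat_lit 0x0) (nat_lit 0x100018001e000300038003c007e003f000000000000000000) := Q_1 (nat_lit 125) (C_1 L330646 (C_1 L3455344 (C_1 L60406 (C_1 L326868 N_1)))) (by decide +kernel)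
theorem L3455346 : W_1 (nat_lit 14) (nat_lit 0x18000c0000000000000000000000000000000) (nat_lit 0x0) (nat_lit 0x700038001e000700338003c007e003f000200000000000000) := Q_1 (nat_lit 142) (C_1 L3455333 (C_1 L3455345 (C_1 L5716 N_1))) (by decide +kernel)
theorem L3457652 : W_1 (nat_lit 2) (nat_lit 0x1c001c0002000000000000000000000000000) (nat_lit 0x0) (nat_lit 0x8000000000000000100008000000000000000000) := D_1 (nat_lit 92) (nat_lit 159) (nat_lit 75) (nat_lit 5) (nat_lit 7) (nat_lit 5) (nat_lit 7) (nat_lit 7) (nat_lit 4) (by decide +kernel)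
theorem L3458324 : W_1 (nat_lit 2) (nat_lit 0x180018001c000a000000020000000000000000000) (nat_lit 0x0) (nat_lit 0x400000000000100008000000000000000000) := D_1 (nat_lit 92) (nat_lit 142) (nat_lit 75) (nat_lit 5) (nat_lit 7) (nat_lit 5) (nat_lit 7) (nat_lit 7) (nat_lit 4) (by decide +kernel)
theorem L3458325 : W_1 (nat_lit 3) (nat_lit 0x100018001c000a000000020000000000000000000) (nat_lit 0x0) (nat_lit 0x100008000400000000000100008000000000000000000) := T_1 (nat_lit 159) (nat_lit 176) (nat_lit 5) (nat_lit 7) (nat_lit 6) L3458324 (by decide +kernel)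
theorem L3458326 : W_1 (nat_lit 4) (nat_lit 0x100018001c000a000000000000000000000000000) (nat_lit 0x0) (nat_lit 0x100008000400000000000500028000000000000000000) := T_1 (nat_lit 77) (nat_lit 94) (nat_lit 5) (nat_lit 9) (nat_lit 4) L3458325 (by decide +kernel)
theorem L3460579 : W_1 (nat_lit 2) (nat_lit 0x18001c0000000000000000000000000000000) (nat_lit 0x0) (nat_lit 0x400600000000000000000000000000000000) := D_1 (nat_lit 129) (nat_lit 142) (nat_lit 130) (nat_lit 1) (nat_lit 10) (nat_lit 7) (nat_lit 1) (nat_lit 11) (nat_lit 7) (by decide +kernel)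
theorem L3460713 : W_1 (nat_lit 3) (nat_lit 0x18001e0000000000000000000000000000000) (nat_lit 0x0) (nat_lit 0x700018000000000000000000000000000000) := T_1 (nat_lit 141) (nat_lit 142) (nat_lit 2) (nat_lit 5) (nat_lit 8) L248998 (by decide +kernel)
theorem L3461497 : W_1 (nat_lit 2) (nat_lit 0x700018001a001c0008000000000000000000000000000) (nat_lit 0x0) (nat_lit 0x800006000000000000000000000000000000000000000) := D_1 (nat_lit 158) (nat_lit 157) (nat_lit 179) (nat_lit 3) (nat_lit 4) (nat_lit 9) (nat_lit 0) (nat_lit 9) (nat_lit 10) (by decide +kernel)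
theorem L3461498 : W_1 (nat_lit 3) (nat_lit 0x300018001a001c0008000000000000000000000000000) (nat_lit 0x0) (nat_lit 0x8000c00006000000000000000000000000000000000000000) := T_1 (nat_lit 178) (nat_lit 195) (nat_lit 7) (nat_lit 7) (nat_lit 7) L3461497 (by decide +kernel)
theorem L3461499 : W_1 (nat_lit 4) (nat_lit 0x300010001a001c0008000000000000000000000000000) (nat_lit 0x0) (nat_lit 0x8000c0000e000000000002000000000000000000000000000) := T_1 (nat_lit 159) (nat_lit 109) (nat_lit 5) (nat_lit 7) (nat_lit 6) L3461498 (by decide +kernel)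
theorem L3461500 : W_1 (nat_lit 5) (nat_lit 0x200010001a001c0008000000000000000000000000000) (nat_lit 0x0) (nat_lit 0xa000d0000e000000000002000000000000000000000000000) := T_1 (nat_lit 176) (nat_lit 193) (nat_lit 5) (nat_lit 7) (nat_lit 7) L3461499 (by decide +kernel)
theorem L3461557 : W_1 (nat_lit 2) (nat_lit 0x18001c000a000100000000000000000000000) (nat_lit 0x0) (nat_lit 0x8000600000000000000000000000000000000000) := D_1 (nat_lit 142) (nat_lit 141) (nat_lit 159) (nat_lit 2) (nat_lit 5) (nat_lit 8) (nat_lit 5) (nat_lit 7) (nat_lit 5) (by decide +kernel)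
theorem L3461558 : W_1 (nat_lit 3) (nat_lit 0x18001c000a000000000000000000000000000) (nat_lit 0x0) (nat_lit 0x8000600000000000100008000000000000000000) := T_1 (nat_lit 92) (nat_lit 75) (nat_lit 7) (nat_lit 7) (nat_lit 4) L3461557 (by decide +kernel)
theorem L3461647 : W_1 (nat_lit 2) (nat_lit 0x7000180018001c0008000000020000000000000000000) (nat_lit 0x0) (nat_lit 0x800006000000000000000000000000000000000000000) := D_1 (nat_lit 158) (nat_lit 157) (nat_lit 179) (nat_lit 3) (nat_lit 4) (nat_lit 9) (nat_lit 0) (nat_lit 9) (nat_lit 10) (by decide +kernel)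
theorem L3461648 : W_1 (nat_lit 3) (nat_lit 0x3000180018001c0008000000020000000000000000000) (nat_lit 0x0) (nat_lit 0x8000c00006000000000000000000000000000000000000000) := T_1 (nat_lit 178) (nat_lit 195) (nat_lit 7) (nat_lit 7) (nat_lit 7) L3461647 (by decide +kernel)
theorem L3461649 : W_1 (nat_lit 4) (nat_lit 0x2000180018001c0008000000020000000000000000000) (nat_lit 0x0) (nat_lit 0xa000d00006000000000000000000000000000000000000000) := T_1 (nat_lit 176) (nat_lit 193) (nat_lit 5) (nat_lit 7) (nat_lit 7) L3461648 (by decide +kernel)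
theorem L3461650 : W_1 (nat_lit 5) (nat_lit 0x180018001c0008000000020000000000000000000) (nat_lit 0x0) (nat_lit 0xe000f00006000000000000000000000000000000000000000) := T_1 (nat_lit 177) (nat_lit 194) (nat_lit 6) (nat_lit 7) (nat_lit 11) L3461649 (by decide +kernel)
theorem L3461651 : W_1 (nat_lit 6) (nat_lit 0x180018001c0008000000000000000000000000000) (nat_lit 0x0) (nat_lit 0xe000f00006000000000000000400020000000000000000000) := T_1 (nat_lit 77) (nat_lit 94) (nat_lit 5) (nat_lit 9) (nat_lit 4) L3461650 (by decide +kernel)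
theorem L3462004 : W_1 (nat_lit 3) (nat_lit 0x18001c0002000000000000000000000000000) (nat_lit 0x0) (nat_lit 0x8000600000000000100008000000000000000000) := T_1 (nat_lit 142) (nat_lit 141) (nat_lit 2) (nat_lit 5) (nat_lit 8) L3457652 (by decide +kernel)
theorem L3472078 : W_1 (nat_lit 2) (nat_lit 0xf00050001800080000000000000000000000000000000) (nat_lit 0x0) (nat_lit 0x30000000000002000000000000000000000000000000000000) := D_1 (nat_lit 196) (nat_lit 197) (nat_lit 145) (nat_lit 3) (nat_lit 6) (nat_lit 10) (nat_lit 4) (nat_lit 9) (nat_lit 11) (by decide +kernel)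
theorem L3473384 : W_1 (nat_lit 2) (nat_lit 0x1800380000000000000000000000000000000) (nat_lit 0x0) (nat_lit 0x600040000000000000000000000000000000) := D_1 (nat_lit 142) (nat_lit 126) (nat_lit 141) (nat_lit 1) (nat_lit 10) (nat_lit 7) (nat_lit 2) (nat_lit 5) (nat_lit 8) (by decide +kernel)
theorem L3473385 : W_1 (nat_lit 3) (nat_lit 0x1800180000000000000000000000000000000) (nat_lit 0x0) (nat_lit 0x600640000000000000000000000000000000) := T_1 (nat_lit 129) (nat_lit 130) (nat_lit 1) (nat_lit 11) (nat_lit 7) L3473384 (by decide +kernel)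
theorem L3477310 : W_1 (nat_lit 2) (nat_lit 0x2000100018001c000a000000000000000000000000000) (nat_lit 0x0) (nat_lit 0x2000100008000000000000000000000000000000000000000) := D_1 (nat_lit 176) (nat_lit 193) (nat_lit 159) (nat_lit 5) (nat_lit 7) (nat_lit 7) (nat_lit 5) (nat_lit 7) (nat_lit 6) (by decide +kernel)
theorem L3477311 : W_1 (nat_lit 3) (nat_lit 0x100018001c000a000000000000000000000000000) (nat_lit 0x0) (nat_lit 0x6000300008000000000000000000000000000000000000000) := T_1 (nat_lit 177) (nat_lit 194) (nat_lit 6) (nat_lit 7) (nat_lit 11) L3477310 (by decide +kernel)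
theorem L3482862 : W_1 (nat_lit 2) (nat_lit 0x12007f00104001800380000000000000000000000000000000) (nat_lit 0x0) (nat_lit 0x1c0000000000000000000000000000000000000000000000000) := D_1 (nat_lit 199) (nat_lit 198) (nat_lit 200) (nat_lit 3) (nat_lit 8) (nat_lit 10) (nat_lit 3) (nat_lit 9) (nat_lit 10) (by decide +kernel)
theorem L3482863 : W_1 (nat_lit 3) (nat_lit 0x12003f00104001800380000000000000000000000000000000) (nat_lit 0x0) (nat_lit 0x1c8004000000000000000000000000000000000000000000000) := T_1 (nat_lit 182) (nat_lit 195) (nat_lit 1) (nat_lit 12) (nat_lit 10) L3482862 (by decide +kernel)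
theorem L3482864 : W_1 (nat_lit 4) (nat_lit 0x12001f00104001800380000000000000000000000000000000) (nat_lit 0x0) (nat_lit 0x1c8006000200000000000000000000000000000000000000000) := T_1 (nat_lit 181) (nat_lit 165) (nat_lit 2) (nat_lit 8) (nat_lit 10) L3482863 (by decide +kernel)
theorem L3482865 : W_1 (nat_lit 5) (nat_lit 0x12001f00004001800380000000000000000000000000000000) (nat_lit 0x0) (nat_lit 0x1c8006000380000000000000000000000000000000000000000) := T_1 (nat_lit 164) (nat_lit 163) (nat_lit 2) (nat_lit 7) (nat_lit 10) L3482864 (by decide +kernel)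
theorem L3482866 : W_1 (nat_lit 6) (nat_lit 0x12000f00004001800380000000000000000000000000000000) (nat_lit 0x0) (nat_lit 0x1cc007000380000000000000000000000000000000000000000) := T_1 (nat_lit 180) (nat_lit 194) (nat_lit 1) (nat_lit 10) (nat_lit 10) L3482865 (by decide +kernel)
theorem L3482867 : W_1 (nat_lit 7) (nat_lit 0x2000f00004001800380000000000000000000000000000000) (nat_lit 0x0) (nat_lit 0x1fc007000380000000000000000000000000000000000000000) := T_1 (nat_lit 196) (nat_lit 197) (nat_lit 3) (nat_lit 6) (nat_lit 10) L3482866 (by decide +kernel)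
theorem L3482868 : W_1 (nat_lit 8) (nat_lit 0xf00004001800380000000000000000000000000000000) (nat_lit 0x0) (nat_lit 0x1ff007000380000000000000000000000000000000000000000) := T_1 (nat_lit 193) (nat_lit 192) (nat_lit 1) (nat_lit 9) (nat_lit 10) L3482867 (by decide +kernel)
theorem L3482869 : W_1 (nat_lit 9) (nat_lit 0xf00000001800380000000000000000000000000000000) (nat_lit 0x0) (nat_lit 0x1ff00700038c000000000000000000000000000000000000000) := T_1 (nat_lit 158) (nat_lit 159) (nat_lit 0) (nat_lit 9) (nat_lit 10) L3482868 (by decide +kernel)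
theorem L3482870 : W_1 (nat_lit 10) (nat_lit 0xf00000001800180000000000000000000000000000000) (nat_lit 0x0) (nat_lit 0x1ff00700038c000000600000000000000000000000000000000) := T_1 (nat_lit 129) (nat_lit 130) (nat_lit 1) (nat_lit 11) (nat_lit 7) L3482869 (by decide +kernel)
theorem L3482871 : W_1 (nat_lit 11) (nat_lit 0xe00000001800180000000000000000000000000000000) (nat_lit 0x0) (nat_lit 0x1ff80718038e000000600000000000000000000000000000000) := Q_1 (nat_lit 176) (C_1 L3445737 (C_1 L3445397 (C_1 L3445217 (C_1 L3482870 N_1)))) (by decide +kernel)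
theorem L3482872 : W_1 (nat_lit 2) (nat_lit 0x20001f00000001800380000000000000000000000000000000) (nat_lit 0x0) (nat_lit 0xc0002000000000000000000000000000000000000) := D_1 (nat_lit 162) (nat_lit 163) (nat_lit 145) (nat_lit 2) (nat_lit 6) (nat_lit 10) (nat_lit 7) (nat_lit 9) (nat_lit 7) (by decide +kernel)
theorem L3482873 : W_1 (nat_lit 3) (nat_lit 0x20001e00000001800380000000000000000000000000000000) (nat_lit 0x0) (nat_lit 0x100001000c0002000000000000000000000000000000000000) := T_1 (nat_lit 176) (nat_lit 196) (nat_lit 3) (nat_lit 6) (nat_lit 10) L3482872 (by decide +kernel)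
theorem L3482874 : W_1 (nat_lit 4) (nat_lit 0x1e00000001800380000000000000000000000000000000) (nat_lit 0x0) (nat_lit 0x700001000c0002000000000000000000000000000000000000) := T_1 (nat_lit 197) (nat_lit 198) (nat_lit 3) (nat_lit 7) (nat_lit 10) L3482873 (by decide +kernel)
theorem L3482875 : W_1 (nat_lit 5) (nat_lit 0x1e00000001800180000000000000000000000000000000) (nat_lit 0x0) (nat_lit 0x700001000c0002000600000000000000000000000000000000) := T_1 (nat_lit 129) (nat_lit 130) (nat_lit 1) (nat_lit 11) (nat_lit 7) L3482874 (by decide +kernel)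
theorem L3482876 : W_1 (nat_lit 2) (nat_lit 0x20001f00000001800180000000000000000000000000000000) (nat_lit 0x0) (nat_lit 0x1c0000000000000000000000000000000000000000) := D_1 (nat_lit 163) (nat_lit 162) (nat_lit 164) (nat_lit 2) (nat_lit 6) (nat_lit 10) (nat_lit 2) (nat_lit 7) (nat_lit 10) (by decide +kernel)
theorem L3482877 : W_1 (nat_lit 3) (nat_lit 0x20001e00000001800180000000000000000000000000000000) (nat_lit 0x0) (nat_lit 0x100001001c0000000000000000000000000000000000000000) := T_1 (nat_lit 176) (nat_lit 196) (nat_lit 3) (nat_lit 6) (nat_lit 10) L3482876 (by decide +kernel)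
theorem L3482878 : W_1 (nat_lit 4) (nat_lit 0x1e00000001800180000000000000000000000000000000) (nat_lit 0x0) (nat_lit 0x700001001c0000000000000000000000000000000000000000) := T_1 (nat_lit 197) (nat_lit 198) (nat_lit 3) (nat_lit 7) (nat_lit 10) L3482877 (by decide +kernel)
theorem L3482879 : W_1 (nat_lit 2) (nat_lit 0x20001f00000001800380000000000000000000000000000000) (nat_lit 0x0) (nat_lit 0x7000000000000000000000000000000000000000000000000) := D_1 (nat_lit 193) (nat_lit 192) (nat_lit 194) (nat_lit 1) (nat_lit 9) (nat_lit 10) (nat_lit 1) (nat_lit 10) (nat_lit 10) (by decide +kernel)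
theorem L3482880 : W_1 (nat_lit 3) (nat_lit 0x20001e00000001800380000000000000000000000000000000) (nat_lit 0x0) (nat_lit 0x17000100000000000000000000000000000000000000000000) := T_1 (nat_lit 176) (nat_lit 196) (nat_lit 3) (nat_lit 6) (nat_lit 10) L3482879 (by decide +kernel)
theorem L3482881 : W_1 (nat_lit 4) (nat_lit 0x1e00000001800380000000000000000000000000000000) (nat_lit 0x0) (nat_lit 0x77000100000000000000000000000000000000000000000000) := T_1 (nat_lit 197) (nat_lit 198) (nat_lit 3) (nat_lit 7) (nat_lit 10) L3482880 (by decide +kernel)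
theorem L3482882 : W_1 (nat_lit 5) (nat_lit 0x1e00000001800180000000000000000000000000000000) (nat_lit 0x0) (nat_lit 0x77000100000000000600000000000000000000000000000000) := T_1 (nat_lit 129) (nat_lit 130) (nat_lit 1) (nat_lit 11) (nat_lit 7) L3482881 (by decide +kernel)
theorem L3482883 : W_1 (nat_lit 2) (nat_lit 0x40002c001e000c0001800380000000000000000000000000000000) (nat_lit 0x0) (nat_lit 0x10000800010000000000000000000000000000000000000000000000000) := D_1 (nat_lit 215) (nat_lit 196) (nat_lit 232) (nat_lit 3) (nat_lit 7) (nat_lit 11) (nat_lit 7) (nat_lit 10) (nat_lit 9) (by decide +kernel)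
theorem L3482884 : W_1 (nat_lit 3) (nat_lit 0x2c001e000c0001800380000000000000000000000000000000) (nat_lit 0x0) (nat_lit 0x18000c00010000000000000000000000000000000000000000000000000) := T_1 (nat_lit 214) (nat_lit 231) (nat_lit 4) (nat_lit 10) (nat_lit 13) L3482883 (by decide +kernel)
theorem L3482885 : W_1 (nat_lit 4) (nat_lit 0x24001e000c0001800380000000000000000000000000000000) (nat_lit 0x0) (nat_lit 0x18000c00018002000000000000000000000000000000000000000000000) := T_1 (nat_lit 195) (nat_lit 181) (nat_lit 1) (nat_lit 11) (nat_lit 10) L3482884 (by decide +kernel)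
theorem L3482886 : W_1 (nat_lit 5) (nat_lit 0x24001e00080001800380000000000000000000000000000000) (nat_lit 0x0) (nat_lit 0x18000c00018002000040002000000000000000000000000000000000000) := T_1 (nat_lit 162) (nat_lit 145) (nat_lit 7) (nat_lit 9) (nat_lit 7) L3482885 (by decide +kernel)
theorem L3482887 : W_1 (nat_lit 6) (nat_lit 0x20001e00080001800380000000000000000000000000000000) (nat_lit 0x0) (nat_lit 0x18000c0001e002000040002000000000000000000000000000000000000) := T_1 (nat_lit 194) (nat_lit 193) (nat_lit 1) (nat_lit 10) (nat_lit 10) L3482886 (by decide +kernel)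
theorem L3482888 : W_1 (nat_lit 7) (nat_lit 0x1e00080001800380000000000000000000000000000000) (nat_lit 0x0) (nat_lit 0x18000c0007e002000040002000000000000000000000000000000000000) := T_1 (nat_lit 197) (nat_lit 198) (nat_lit 3) (nat_lit 7) (nat_lit 10) L3482887 (by decide +kernel)
theorem L3482889 : W_1 (nat_lit 8) (nat_lit 0x1e00080001800180000000000000000000000000000000) (nat_lit 0x0) (nat_lit 0x18000c0007e002000040002000600000000000000000000000000000000) := T_1 (nat_lit 129) (nat_lit 130) (nat_lit 1) (nat_lit 11) (nat_lit 7) L3482888 (by decide +kernel)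
theorem L3482890 : W_1 (nat_lit 9) (nat_lit 0x1e00000001800180000000000000000000000000000000) (nat_lit 0x0) (nat_lit 0x18000c0007e0020001c0002000600000000000000000000000000000000) := T_1 (nat_lit 163) (nat_lit 164) (nat_lit 2) (nat_lit 7) (nat_lit 10) L3482889 (by decide +kernel)
theorem L3482891 : W_1 (nat_lit 2) (nat_lit 0x2001f00000001800180000000000000000000000000000000) (nat_lit 0x0) (nat_lit 0x1c0000000000000000000000000000000000000000) := D_1 (nat_lit 163) (nat_lit 164) (nat_lit 162) (nat_lit 2) (nat_lit 7) (nat_lit 10) (nat_lit 2) (nat_lit 6) (nat_lit 10) (by decide +kernel)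
theorem L3482892 : W_1 (nat_lit 3) (nat_lit 0x2001e00000001800180000000000000000000000000000000) (nat_lit 0x0) (nat_lit 0x10001001c0000000000000000000000000000000000000000) := T_1 (nat_lit 176) (nat_lit 192) (nat_lit 1) (nat_lit 9) (nat_lit 10) L3482891 (by decide +kernel)
theorem L3482893 : W_1 (nat_lit 4) (nat_lit 0x1e00000001800180000000000000000000000000000000) (nat_lit 0x0) (nat_lit 0x70001001c0000000000000000000000000000000000000000) := T_1 (nat_lit 193) (nat_lit 194) (nat_lit 1) (nat_lit 10) (nat_lit 10) L3482892 (by decide +kernel)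
theorem L3482894 : W_1 (nat_lit 10) (nat_lit 0xe00000001800180000000000000000000000000000000) (nat_lit 0x0) (nat_lit 0x18000c0007f0031001c0002000600000000000000000000000000000000) := Q_1 (nat_lit 180) (C_1 L3482875 (C_1 L3482878 (C_1 L3482882 (C_1 L3482890 (C_1 L3482893 N_1))))) (by decide +kernel)
theorem L3482895 : W_1 (nat_lit 2) (nat_lit 0x24001e00100001800380000000000000000000000000000000) (nat_lit 0x0) (nat_lit 0x8002000200000000000000000000000000000000000000000) := D_1 (nat_lit 181) (nat_lit 165) (nat_lit 195) (nat_lit 2) (nat_lit 8) (nat_lit 10) (nat_lit 1) (nat_lit 11) (nat_lit 10) (by decide +kernel)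
theorem L3482896 : W_1 (nat_lit 3) (nat_lit 0x20001e00100001800380000000000000000000000000000000) (nat_lit 0x0) (nat_lit 0xe002000200000000000000000000000000000000000000000) := T_1 (nat_lit 194) (nat_lit 193) (nat_lit 1) (nat_lit 10) (nat_lit 10) L3482895 (by decide +kernel)
theorem L3482897 : W_1 (nat_lit 4) (nat_lit 0x20001e00000001800380000000000000000000000000000000) (nat_lit 0x0) (nat_lit 0xe002000380000000000000000000000000000000000000000) := T_1 (nat_lit 164) (nat_lit 163) (nat_lit 2) (nat_lit 7) (nat_lit 10) L3482896 (by decide +kernel)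
theorem L3482898 : W_1 (nat_lit 5) (nat_lit 0x1e00000001800380000000000000000000000000000000) (nat_lit 0x0) (nat_lit 0x6e002000380000000000000000000000000000000000000000) := T_1 (nat_lit 197) (nat_lit 198) (nat_lit 3) (nat_lit 7) (nat_lit 10) L3482897 (by decide +kernel)
theorem L3482899 : W_1 (nat_lit 6) (nat_lit 0x1e00000001800180000000000000000000000000000000) (nat_lit 0x0) (nat_lit 0x6e002000380000000600000000000000000000000000000000) := T_1 (nat_lit 129) (nat_lit 130) (nat_lit 1) (nat_lit 11) (nat_lit 7) L3482898 (by decide +kernel)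
theorem L3482900 : W_1 (nat_lit 2) (nat_lit 0x3e00100001800380000000000000000000000000000000) (nat_lit 0x0) (nat_lit 0xe0000000000000000000000000000000000000000000000000) := D_1 (nat_lit 198) (nat_lit 197) (nat_lit 199) (nat_lit 3) (nat_lit 7) (nat_lit 10) (nat_lit 3) (nat_lit 8) (nat_lit 10) (by decide +kernel)
theorem L3482901 : W_1 (nat_lit 3) (nat_lit 0x1e00100001800380000000000000000000000000000000) (nat_lit 0x0) (nat_lit 0xe0002000200000000000000000000000000000000000000000) := T_1 (nat_lit 181) (nat_lit 165) (nat_lit 2) (nat_lit 8) (nat_lit 10) L3482900 (by decide +kernel)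
theorem L3482902 : W_1 (nat_lit 4) (nat_lit 0x1e00100001800180000000000000000000000000000000) (nat_lit 0x0) (nat_lit 0xe0002000200000000600000000000000000000000000000000) := T_1 (nat_lit 129) (nat_lit 130) (nat_lit 1) (nat_lit 11) (nat_lit 7) L3482901 (by decide +kernel)
theorem L3482903 : W_1 (nat_lit 5) (nat_lit 0x1e00000001800180000000000000000000000000000000) (nat_lit 0x0) (nat_lit 0xe0002000380000000600000000000000000000000000000000) := T_1 (nat_lit 164) (nat_lit 163) (nat_lit 2) (nat_lit 7) (nat_lit 10) L3482902 (by decide +kernel)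
theorem L3482904 : W_1 (nat_lit 2) (nat_lit 0x2400fe00200003800380000000000000000000000000000000) (nat_lit 0x0) (nat_lit 0x380000000000000000000000000000000000000000000000000) := D_1 (nat_lit 200) (nat_lit 199) (nat_lit 201) (nat_lit 3) (nat_lit 9) (nat_lit 10) (nat_lit 3) (nat_lit 10) (nat_lit 10) (by decide +kernel)
theorem L3482905 : W_1 (nat_lit 3) (nat_lit 0x24007e00200003800380000000000000000000000000000000) (nat_lit 0x0) (nat_lit 0x390008000000000000000000000000000000000000000000000) := T_1 (nat_lit 183) (nat_lit 196) (nat_lit 1) (nat_lit 13) (nat_lit 10) L3482904 (by decide +kernel)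
theorem L3482906 : W_1 (nat_lit 4) (nat_lit 0x24003e00200003800380000000000000000000000000000000) (nat_lit 0x0) (nat_lit 0x39000c000400000000000000000000000000000000000000000) := T_1 (nat_lit 182) (nat_lit 166) (nat_lit 2) (nat_lit 9) (nat_lit 10) L3482905 (by decide +kernel)
theorem L3482907 : W_1 (nat_lit 5) (nat_lit 0x24003e00000003800380000000000000000000000000000000) (nat_lit 0x0) (nat_lit 0x39000c000700000000000000000000000000000000000000000) := T_1 (nat_lit 165) (nat_lit 164) (nat_lit 2) (nat_lit 8) (nat_lit 10) L3482906 (by decide +kernel)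
theorem L3482908 : W_1 (nat_lit 6) (nat_lit 0x24001e00000003800380000000000000000000000000000000) (nat_lit 0x0) (nat_lit 0x39800e000700000000000000000000000000000000000000000) := T_1 (nat_lit 181) (nat_lit 195) (nat_lit 1) (nat_lit 11) (nat_lit 10) L3482907 (by decide +kernel)
theorem L3482909 : W_1 (nat_lit 7) (nat_lit 0x20001e00000003800380000000000000000000000000000000) (nat_lit 0x0) (nat_lit 0x39e00e000700000000000000000000000000000000000000000) := T_1 (nat_lit 194) (nat_lit 193) (nat_lit 1) (nat_lit 10) (nat_lit 10) L3482908 (by decide +kernel)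
theorem L3482910 : W_1 (nat_lit 8) (nat_lit 0x20001e00000001800380000000000000000000000000000000) (nat_lit 0x0) (nat_lit 0x39e00e000740002000000000000000000000000000000000000) := T_1 (nat_lit 145) (nat_lit 162) (nat_lit 7) (nat_lit 9) (nat_lit 7) L3482909 (by decide +kernel)
theorem L3482911 : W_1 (nat_lit 9) (nat_lit 0x20001e00000001800180000000000000000000000000000000) (nat_lit 0x0) (nat_lit 0x39e00e000740002000600000000000000000000000000000000) := T_1 (nat_lit 129) (nat_lit 130) (nat_lit 1) (nat_lit 11) (nat_lit 7) L3482910 (by decide +kernel)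
theorem L3482912 : W_1 (nat_lit 10) (nat_lit 0x1e00000001800180000000000000000000000000000000) (nat_lit 0x0) (nat_lit 0x3fe00e000740002000600000000000000000000000000000000) := T_1 (nat_lit 197) (nat_lit 198) (nat_lit 3) (nat_lit 7) (nat_lit 10) L3482911 (by decide +kernel)
theorem L3482913 : W_1 (nat_lit 2) (nat_lit 0x42001e00100001800180000000000000000000000000000000) (nat_lit 0x0) (nat_lit 0x80002000200000000000000000000000000000000000000000) := D_1 (nat_lit 181) (nat_lit 165) (nat_lit 199) (nat_lit 2) (nat_lit 8) (nat_lit 10) (nat_lit 3) (nat_lit 8) (nat_lit 10) (by decide +kernel)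
theorem L3482914 : W_1 (nat_lit 3) (nat_lit 0x2001e00100001800180000000000000000000000000000000) (nat_lit 0x0) (nat_lit 0xe0002000200000000000000000000000000000000000000000) := T_1 (nat_lit 198) (nat_lit 197) (nat_lit 3) (nat_lit 7) (nat_lit 10) L3482913 (by decide +kernel)
theorem L3482915 : W_1 (nat_lit 4) (nat_lit 0x2001e00000001800180000000000000000000000000000000) (nat_lit 0x0) (nat_lit 0xe0002000380000000000000000000000000000000000000000) := T_1 (nat_lit 164) (nat_lit 163) (nat_lit 2) (nat_lit 7) (nat_lit 10) L3482914 (by decide +kernel)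
theorem L3482916 : W_1 (nat_lit 5) (nat_lit 0x1e00000001800180000000000000000000000000000000) (nat_lit 0x0) (nat_lit 0xe6002000380000000000000000000000000000000000000000) := T_1 (nat_lit 193) (nat_lit 194) (nat_lit 1) (nat_lit 10) (nat_lit 10) L3482915 (by decide +kernel)
theorem L3482917 : W_1 (nat_lit 2) (nat_lit 0x84007e002c0001800380000000000000000000000000000000) (nat_lit 0x0) (nat_lit 0x10000000000002000000010000000000000000000000000000) := D_1 (nat_lit 145) (nat_lit 196) (nat_lit 112) (nat_lit 4) (nat_lit 9) (nat_lit 11) (nat_lit 6) (nat_lit 9) (nat_lit 10) (by decide +kernel)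
theorem L3482918 : W_1 (nat_lit 3) (nat_lit 0x84007e00280001800380000000000000000000000000000000) (nat_lit 0x0) (nat_lit 0x10008000040002000000010000000000000000000000000000) := T_1 (nat_lit 162) (nat_lit 183) (nat_lit 0) (nat_lit 13) (nat_lit 10) L3482917 (by decide +kernel)
theorem L3482919 : W_1 (nat_lit 4) (nat_lit 0x84007e00080001800380000000000000000000000000000000) (nat_lit 0x0) (nat_lit 0x10008000640002000000010000000000000000000000000000) := T_1 (nat_lit 165) (nat_lit 166) (nat_lit 2) (nat_lit 9) (nat_lit 10) L3482918 (by decide +kernel)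
theorem L3482920 : W_1 (nat_lit 5) (nat_lit 0x84003e00080001800380000000000000000000000000000000) (nat_lit 0x0) (nat_lit 0x11000c000640002000000010000000000000000000000000000) := T_1 (nat_lit 182) (nat_lit 200) (nat_lit 3) (nat_lit 9) (nat_lit 10) L3482919 (by decide +kernel)
theorem L3482921 : W_1 (nat_lit 6) (nat_lit 0x4003e00080001800380000000000000000000000000000000) (nat_lit 0x0) (nat_lit 0x1d000c000640002000000010000000000000000000000000000) := T_1 (nat_lit 199) (nat_lit 198) (nat_lit 3) (nat_lit 8) (nat_lit 10) L3482920 (by decide +kernel)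
theorem L3482922 : W_1 (nat_lit 7) (nat_lit 0x4001e00080001800380000000000000000000000000000000) (nat_lit 0x0) (nat_lit 0x1d800e000640002000000010000000000000000000000000000) := T_1 (nat_lit 181) (nat_lit 195) (nat_lit 1) (nat_lit 11) (nat_lit 10) L3482921 (by decide +kernel)
theorem L3482923 : W_1 (nat_lit 8) (nat_lit 0x4001e00080001800180000000000000000000000000000000) (nat_lit 0x0) (nat_lit 0x1d800e000640002000600010000000000000000000000000000) := T_1 (nat_lit 129) (nat_lit 130) (nat_lit 1) (nat_lit 11) (nat_lit 7) L3482922 (by decide +kernel)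
theorem L3482924 : W_1 (nat_lit 9) (nat_lit 0x1e00080001800180000000000000000000000000000000) (nat_lit 0x0) (nat_lit 0x1de00e000640002000600010000000000000000000000000000) := T_1 (nat_lit 194) (nat_lit 193) (nat_lit 1) (nat_lit 10) (nat_lit 10) L3482923 (by decide +kernel)
theorem L3482925 : W_1 (nat_lit 10) (nat_lit 0x1e00000001800180000000000000000000000000000000) (nat_lit 0x0) (nat_lit 0x1de00e0007c0002000600010000000000000000000000000000) := T_1 (nat_lit 163) (nat_lit 164) (nat_lit 2) (nat_lit 7) (nat_lit 10) L3482924 (by decide +kernel)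
theorem L3482926 : W_1 (nat_lit 2) (nat_lit 0x50002c001e00040001800380000000000000000000000000000000) (nat_lit 0x0) (nat_lit 0xa00010000000000000000000000000000000000000000000000000) := D_1 (nat_lit 215) (nat_lit 196) (nat_lit 213) (nat_lit 3) (nat_lit 7) (nat_lit 11) (nat_lit 0) (nat_lit 11) (nat_lit 12) (by decide +kernel)
theorem L3482927 : W_1 (nat_lit 3) (nat_lit 0x10002c001e00040001800380000000000000000000000000000000) (nat_lit 0x0) (nat_lit 0x8000e00010000000000000000000000000000000000000000000000000) := T_1 (nat_lit 214) (nat_lit 231) (nat_lit 4) (nat_lit 10) (nat_lit 13) L3482926 (by decide +kernel)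
theorem L3482928 : W_1 (nat_lit 4) (nat_lit 0x2c001e00040001800380000000000000000000000000000000) (nat_lit 0x0) (nat_lit 0xa000f00010000000000000000000000000000000000000000000000000) := T_1 (nat_lit 212) (nat_lit 229) (nat_lit 6) (nat_lit 8) (nat_lit 13) L3482927 (by decide +kernel)
theorem L3482929 : W_1 (nat_lit 5) (nat_lit 0x2c001e00040001800180000000000000000000000000000000) (nat_lit 0x0) (nat_lit 0xa000f00010000000000000000600000000000000000000000000000000) := T_1 (nat_lit 129) (nat_lit 130) (nat_lit 1) (nat_lit 11) (nat_lit 7) L3482928 (by decide +kernel)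
theorem L3482930 : W_1 (nat_lit 6) (nat_lit 0x2c001e00000001800180000000000000000000000000000000) (nat_lit 0x0) (nat_lit 0xa000f00010000000040002000600000000000000000000000000000000) := T_1 (nat_lit 162) (nat_lit 145) (nat_lit 7) (nat_lit 9) (nat_lit 7) L3482929 (by decide +kernel)
theorem L3482931 : W_1 (nat_lit 7) (nat_lit 0x24001e00000001800180000000000000000000000000000000) (nat_lit 0x0) (nat_lit 0xa000f00018002000040002000600000000000000000000000000000000) := T_1 (nat_lit 195) (nat_lit 181) (nat_lit 1) (nat_lit 11) (nat_lit 10) L3482930 (by decide +kernel)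
theorem L3482932 : W_1 (nat_lit 8) (nat_lit 0x4001e00000001800180000000000000000000000000000000) (nat_lit 0x0) (nat_lit 0xa000f00078002000040002000600000000000000000000000000000000) := T_1 (nat_lit 197) (nat_lit 198) (nat_lit 3) (nat_lit 7) (nat_lit 10) L3482931 (by decide +kernel)
theorem L3482933 : W_1 (nat_lit 9) (nat_lit 0x1e00000001800180000000000000000000000000000000) (nat_lit 0x0) (nat_lit 0xa000f0007e002000040002000600000000000000000000000000000000) := T_1 (nat_lit 194) (nat_lit 193) (nat_lit 1) (nat_lit 10) (nat_lit 10) L3482932 (by decide +kernel)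
theorem L3482934 : W_1 (nat_lit 2) (nat_lit 0xe00024001e000c0001800380000000000000000000000000000000) (nat_lit 0x0) (nat_lit 0x100018000000000000000000000000000000000000000000000000) := D_1 (nat_lit 195) (nat_lit 196) (nat_lit 212) (nat_lit 3) (nat_lit 7) (nat_lit 11) (nat_lit 0) (nat_lit 11) (nat_lit 12) (by decide +kernel)
theorem L3482935 : W_1 (nat_lit 3) (nat_lit 0x600024001e000c0001800380000000000000000000000000000000) (nat_lit 0x0) (nat_lit 0x10000900018000000000000000000000000000000000000000000000000) := T_1 (nat_lit 215) (nat_lit 232) (nat_lit 7) (nat_lit 10) (nat_lit 9) L3482934 (by decide +kernel)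
theorem L3482936 : W_1 (nat_lit 4) (nat_lit 0x400024001e000c0001800380000000000000000000000000000000) (nat_lit 0x0) (nat_lit 0x14000b00018000000000000000000000000000000000000000000000000) := T_1 (nat_lit 213) (nat_lit 230) (nat_lit 5) (nat_lit 10) (nat_lit 9) L3482935 (by decide +kernel)
theorem L3482937 : W_1 (nat_lit 5) (nat_lit 0x24001e000c0001800380000000000000000000000000000000) (nat_lit 0x0) (nat_lit 0x1c000f00018000000000000000000000000000000000000000000000000) := T_1 (nat_lit 214) (nat_lit 231) (nat_lit 4) (nat_lit 10) (nat_lit 13) L3482936 (by decide +kernel)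
theorem L3482938 : W_1 (nat_lit 6) (nat_lit 0x24001e00080001800380000000000000000000000000000000) (nat_lit 0x0) (nat_lit 0x1c000f00018000000040002000000000000000000000000000000000000) := T_1 (nat_lit 162) (nat_lit 145) (nat_lit 7) (nat_lit 9) (nat_lit 7) L3482937 (by decide +kernel)
theorem L3482939 : W_1 (nat_lit 7) (nat_lit 0x20001e00080001800380000000000000000000000000000000) (nat_lit 0x0) (nat_lit 0x1c000f0001e000000040002000000000000000000000000000000000000) := T_1 (nat_lit 194) (nat_lit 193) (nat_lit 1) (nat_lit 10) (nat_lit 10) L3482938 (by decide +kernel)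
theorem L3482940 : W_1 (nat_lit 8) (nat_lit 0x1e00080001800380000000000000000000000000000000) (nat_lit 0x0) (nat_lit 0x1c000f0007e000000040002000000000000000000000000000000000000) := T_1 (nat_lit 197) (nat_lit 198) (nat_lit 3) (nat_lit 7) (nat_lit 10) L3482939 (by decide +kernel)
theorem L3482941 : W_1 (nat_lit 9) (nat_lit 0x1e00000001800380000000000000000000000000000000) (nat_lit 0x0) (nat_lit 0x1c000f0007e0000001c0002000000000000000000000000000000000000) := T_1 (nat_lit 163) (nat_lit 164) (nat_lit 2) (nat_lit 7) (nat_lit 10) L3482940 (by decide +kernel)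
theorem L3482942 : W_1 (nat_lit 10) (nat_lit 0x1e00000001800180000000000000000000000000000000) (nat_lit 0x0) (nat_lit 0x1c000f0007e0000001c0002000600000000000000000000000000000000) := T_1 (nat_lit 129) (nat_lit 130) (nat_lit 1) (nat_lit 11) (nat_lit 7) L3482941 (by decide +kernel)
theorem L3482943 : W_1 (nat_lit 2) (nat_lit 0x4001e00100001800380000000000000000000000000000000) (nat_lit 0x0) (nat_lit 0x8002000200000000000000000000000000000000000000000) := D_1 (nat_lit 181) (nat_lit 165) (nat_lit 195) (nat_lit 2) (nat_lit 8) (nat_lit 10) (nat_lit 1) (nat_lit 11) (nat_lit 10) (by decide +kernel)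
theorem L3482944 : W_1 (nat_lit 3) (nat_lit 0x1e00100001800380000000000000000000000000000000) (nat_lit 0x0) (nat_lit 0xe002000200000000000000000000000000000000000000000) := T_1 (nat_lit 194) (nat_lit 193) (nat_lit 1) (nat_lit 10) (nat_lit 10) L3482943 (by decide +kernel)
theorem L3482945 : W_1 (nat_lit 4) (nat_lit 0x1e00000001800380000000000000000000000000000000) (nat_lit 0x0) (nat_lit 0xe002000380000000000000000000000000000000000000000) := T_1 (nat_lit 164) (nat_lit 163) (nat_lit 2) (nat_lit 7) (nat_lit 10) L3482944 (by decide +kernel)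
theorem L3482946 : W_1 (nat_lit 5) (nat_lit 0x1e00000001800180000000000000000000000000000000) (nat_lit 0x0) (nat_lit 0xe002000380000000600000000000000000000000000000000) := T_1 (nat_lit 129) (nat_lit 130) (nat_lit 1) (nat_lit 11) (nat_lit 7) L3482945 (by decide +kernel)
theorem L3482947 : W_1 (nat_lit 11) (nat_lit 0xe00000001800180000000000000000000000000000000) (nat_lit 0x0) (nat_lit 0x1e000f003fe00f0007c0002000600010000000000000000000000000000) := Q_1 (nat_lit 180) (C_1 L3482890 (C_1 L3482899 (C_1 L3482903 (C_1 L3482912 (C_1 L3482916 (C_1 L3482925 (C_1 L3482933 (C_1 L3482942 (C_1 L3482946 N_1))))))))) (by decide +kernel)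
theorem L3482948 : W_1 (nat_lit 3) (nat_lit 0xf00000001800380000000000000000000000000000000) (nat_lit 0x0) (nat_lit 0x300000000c0002000000000000000000000000000000000000) := T_1 (nat_lit 196) (nat_lit 197) (nat_lit 3) (nat_lit 6) (nat_lit 10) L825274 (by decide +kernel)
theorem L3482949 : W_1 (nat_lit 4) (nat_lit 0xf00000001800180000000000000000000000000000000) (nat_lit 0x0) (nat_lit 0x300000000c0002000600000000000000000000000000000000) := T_1 (nat_lit 129) (nat_lit 130) (nat_lit 1) (nat_lit 11) (nat_lit 7) L3482948 (by decide +kernel)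
theorem L3482950 : W_1 (nat_lit 7) (nat_lit 0xe00000001800180000000000000000000000000000000) (nat_lit 0x0) (nat_lit 0x738011801ce002000600000000000000000000000000000000) := Q_1 (nat_lit 176) (C_1 L3445718 (C_1 L3445217 (C_1 L3482949 N_1))) (by decide +kernel)
theorem L3482951 : W_1 (nat_lit 4) (nat_lit 0x1e00000001800380000000000000000000000000000000) (nat_lit 0x0) (nat_lit 0xee002000000000000000000000000000000000000000000000) := T_1 (nat_lit 194) (nat_lit 193) (nat_lit 1) (nat_lit 10) (nat_lit 10) L235756 (by decide +kernel)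
theorem L3482952 : W_1 (nat_lit 5) (nat_lit 0x1e00000001800180000000000000000000000000000000) (nat_lit 0x0) (nat_lit 0xee002000000000000600000000000000000000000000000000) := T_1 (nat_lit 129) (nat_lit 130) (nat_lit 1) (nat_lit 11) (nat_lit 7) L3482951 (by decide +kernel)
theorem L3482953 : W_1 (nat_lit 6) (nat_lit 0xe00000001800180000000000000000000000000000000) (nat_lit 0x0) (nat_lit 0xef0031003c0000000600000000000000000000000000000000) := Q_1 (nat_lit 180) (C_1 L3482946 (C_1 L3482916 (C_1 L3482903 (C_1 L3482952 (C_1 L3482893 N_1))))) (by decide +kernel)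
theorem L3482954 : W_1 (nat_lit 2) (nat_lit 0x22000f00004001800380000000000000000000000000000000) (nat_lit 0x0) (nat_lit 0x44001000000000000000000000000000000000000000000000) := D_1 (nat_lit 180) (nat_lit 194) (nat_lit 198) (nat_lit 1) (nat_lit 10) (nat_lit 10) (nat_lit 3) (nat_lit 7) (nat_lit 10) (by decide +kernel)
theorem L3482955 : W_1 (nat_lit 3) (nat_lit 0x2000f00004001800380000000000000000000000000000000) (nat_lit 0x0) (nat_lit 0x74001000000000000000000000000000000000000000000000) := T_1 (nat_lit 197) (nat_lit 196) (nat_lit 3) (nat_lit 6) (nat_lit 10) L3482954 (by decide +kernel)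
theorem L3482956 : W_1 (nat_lit 4) (nat_lit 0xf00004001800380000000000000000000000000000000) (nat_lit 0x0) (nat_lit 0x77001000000000000000000000000000000000000000000000) := T_1 (nat_lit 193) (nat_lit 192) (nat_lit 1) (nat_lit 9) (nat_lit 10) L3482955 (by decide +kernel)
theorem L3482957 : W_1 (nat_lit 5) (nat_lit 0xf00000001800380000000000000000000000000000000) (nat_lit 0x0) (nat_lit 0x7700100000c000000000000000000000000000000000000000) := T_1 (nat_lit 158) (nat_lit 159) (nat_lit 0) (nat_lit 9) (nat_lit 10) L3482956 (by decide +kernel)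
theorem L3482958 : W_1 (nat_lit 6) (nat_lit 0xf00000001800180000000000000000000000000000000) (nat_lit 0x0) (nat_lit 0x7700100000c000000600000000000000000000000000000000) := T_1 (nat_lit 129) (nat_lit 130) (nat_lit 1) (nat_lit 11) (nat_lit 7) L3482957 (by decide +kernel)
theorem L3482959 : W_1 (nat_lit 7) (nat_lit 0xe00000001800180000000000000000000000000000000) (nat_lit 0x0) (nat_lit 0x7f80118000e000000600000000000000000000000000000000) := Q_1 (nat_lit 176) (C_1 L3445737 (C_1 L3445397 (C_1 L3445217 (C_1 L3482958 N_1)))) (by decide +kernel)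
theorem L3482960 : W_1 (nat_lit 2) (nat_lit 0xe00040001800180000000000000000000000000000000) (nat_lit 0x0) (nat_lit 0x18000000000002000000000000000000000000000000000000) := D_1 (nat_lit 145) (nat_lit 196) (nat_lit 195) (nat_lit 4) (nat_lit 9) (nat_lit 11) (nat_lit 5) (nat_lit 9) (nat_lit 7) (by decide +kernel)
theorem L3482961 : W_1 (nat_lit 2) (nat_lit 0xe000c0001800380000000000000000000000000000000) (nat_lit 0x0) (nat_lit 0x1000300000000000000000000000000000000000000000) := D_1 (nat_lit 164) (nat_lit 165) (nat_lit 180) (nat_lit 1) (nat_lit 12) (nat_lit 9) (nat_lit 2) (nat_lit 7) (nat_lit 10) (by decide +kernel)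
theorem L3482962 : W_1 (nat_lit 3) (nat_lit 0xe00040001800380000000000000000000000000000000) (nat_lit 0x0) (nat_lit 0x1100380000000000000000000000000000000000000000) := T_1 (nat_lit 163) (nat_lit 176) (nat_lit 2) (nat_lit 6) (nat_lit 10) L3482961 (by decide +kernel)
theorem L3482963 : W_1 (nat_lit 4) (nat_lit 0xe00040001800180000000000000000000000000000000) (nat_lit 0x0) (nat_lit 0x1100380000000600000000000000000000000000000000) := T_1 (nat_lit 129) (nat_lit 130) (nat_lit 1) (nat_lit 11) (nat_lit 7) L3482962 (by decide +kernel)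
theorem L3482964 : W_1 (nat_lit 5) (nat_lit 0xe00000001800180000000000000000000000000000000) (nat_lit 0x0) (nat_lit 0x180011003c0002000600000000000000000000000000000000) := Q_1 (nat_lit 162) (C_1 L3482960 (C_1 L3482963 N_1)) (by decide +kernel)
theorem L3482965 : W_1 (nat_lit 7) (nat_lit 0xe00000001800180000000000000000000000000000000) (nat_lit 0x0) (nat_lit 0x7b8011801ce000000000000000000000000000000000000000) := Q_1 (nat_lit 176) (C_1 L3445737 (C_1 L3445214 (C_1 L3445226 (C_1 L3445217 N_1)))) (by decide +kernel)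
theorem L3482966 : W_1 (nat_lit 5) (nat_lit 0xe00000001800180000000000000000000000000000000) (nat_lit 0x0) (nat_lit 0x3b8001800ce002000600000000000000000000000000000000) := Q_1 (nat_lit 176) (C_1 L3482949 (C_1 L3445737 (C_1 L3445217 N_1))) (by decide +kernel)
theorem L3482967 : W_1 (nat_lit 12) (nat_lit 0x600000001800180000000000000000000000000000000) (nat_lit 0x0) (nat_lit 0x1e000f003ff80f9807ce002000600010000000000000000000000000000) := Q_1 (nat_lit 179) (C_1 L3445605 (C_1 L3482871 (C_1 L3482894 (C_1 L3482947 (C_1 L3482950 (C_1 L3482953 (C_1 L3482959 (C_1 L3482964 (C_1 L3482965 (C_1 L3482966 N_1)))))))))) (by decide +kernel)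
theorem L3482970 : W_1 (nat_lit 2) (nat_lit 0x6000100018003c0012000780040000000000000000000) (nat_lit 0x0) (nat_lit 0x2000000000000800080000000000000000000) := D_1 (nat_lit 95) (nat_lit 79) (nat_lit 145) (nat_lit 2) (nat_lit 7) (nat_lit 5) (nat_lit 5) (nat_lit 10) (nat_lit 4) (by decide +kernel)
theorem L3482971 : W_1 (nat_lit 3) (nat_lit 0x6000100018003c0012000780000000000000000000000) (nat_lit 0x0) (nat_lit 0x20000000000008000e0000000000000000000) := T_1 (nat_lit 78) (nat_lit 77) (nat_lit 2) (nat_lit 6) (nat_lit 5) L3482970 (by decide +kernel)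
theorem L3482972 : W_1 (nat_lit 4) (nat_lit 0x6000100018003c0012000380000000000000000000000) (nat_lit 0x0) (nat_lit 0x2000000008000c000e0000000000000000000) := T_1 (nat_lit 94) (nat_lit 111) (nat_lit 3) (nat_lit 6) (nat_lit 5) L3482971 (by decide +kernel)
theorem L3482973 : W_1 (nat_lit 5) (nat_lit 0x6000100018003c0012000300000000000000000000000) (nat_lit 0x0) (nat_lit 0x2000000008000c800e4000000000000000000) := T_1 (nat_lit 91) (nat_lit 74) (nat_lit 4) (nat_lit 7) (nat_lit 8) L3482972 (by decide +kernel)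
theorem L3482974 : W_1 (nat_lit 6) (nat_lit 0x6000100018003c0012000100000000000000000000000) (nat_lit 0x0) (nat_lit 0x2000000008000e800f4000000000000000000) := T_1 (nat_lit 93) (nat_lit 76) (nat_lit 6) (nat_lit 7) (nat_lit 8) L3482973 (by decide +kernel)
theorem L3482975 : W_1 (nat_lit 7) (nat_lit 0x6000100018003c0012000000000000000000000000000) (nat_lit 0x0) (nat_lit 0x2000000008000f800fc000000000000000000) := T_1 (nat_lit 92) (nat_lit 75) (nat_lit 7) (nat_lit 7) (nat_lit 4) L3482974 (by decide +kernel)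
theorem L3482976 : W_1 (nat_lit 8) (nat_lit 0x6000100018003c0010000000000000000000000000000) (nat_lit 0x0) (nat_lit 0x200000000b000f800fc000000000000000000) := T_1 (nat_lit 109) (nat_lit 108) (nat_lit 0) (nat_lit 10) (nat_lit 7) L3482975 (by decide +kernel)
theorem L3482977 : W_1 (nat_lit 9) (nat_lit 0x6000100018003c0000000000000000000000000000000) (nat_lit 0x0) (nat_lit 0x200000003b000f800fc000000000000000000) := T_1 (nat_lit 112) (nat_lit 113) (nat_lit 2) (nat_lit 7) (nat_lit 7) L3482976 (by decide +kernel)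
theorem L3482978 : W_1 (nat_lit 10) (nat_lit 0x600010001800380000000000000000000000000000000) (nat_lit 0x0) (nat_lit 0x800000000000200004003b000f800fc000000000000000000) := T_1 (nat_lit 126) (nat_lit 195) (nat_lit 7) (nat_lit 7) (nat_lit 7) L3482977 (by decide +kernel)
theorem L3482979 : W_1 (nat_lit 11) (nat_lit 0x600010001800180000000000000000000000000000000) (nat_lit 0x0) (nat_lit 0x800000000000200064003b000f800fc000000000000000000) := T_1 (nat_lit 129) (nat_lit 130) (nat_lit 1) (nat_lit 11) (nat_lit 7) L3482978 (by decide +kernel)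
theorem L3482980 : W_1 (nat_lit 12) (nat_lit 0x600000001800180000000000000000000000000000000) (nat_lit 0x0) (nat_lit 0xc00000001000200064003b000f800fc000000000000000000) := T_1 (nat_lit 160) (nat_lit 194) (nat_lit 6) (nat_lit 7) (nat_lit 11) L3482979 (by decide +kernel)
theorem L3482981 : W_1 (nat_lit 8) (nat_lit 0xe00000001800180000000000000000000000000000000) (nat_lit 0x0) (nat_lit 0x8000400378001800de002000600000000000000000000000000000000) := Q_1 (nat_lit 176) (C_1 L3482949 (C_1 L3445391 (C_1 L3445217 N_1))) (by decide +kernel)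
theorem L3482982 : W_1 (nat_lit 9) (nat_lit 0x600000001800180000000000000000000000000000000) (nat_lit 0x0) (nat_lit 0x8000400f78039803de002000600000000000000000000000000000000) := Q_1 (nat_lit 179) (C_1 L3482950 (C_1 L1452023 (C_1 L825446 (C_1 L3482981 N_1)))) (by decide +kernel)
theorem L3482983 : W_1 (nat_lit 2) (nat_lit 0x2000f000040018003c0012000780040000000000000000000) (nat_lit 0x0) (nat_lit 0x2000000000000800080000000000000000000) := D_1 (nat_lit 95) (nat_lit 79) (nat_lit 145) (nat_lit 2) (nat_lit 7) (nat_lit 5) (nat_lit 5) (nat_lit 10) (nat_lit 4) (by decide +kernel)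
theorem L3482984 : W_1 (nat_lit 3) (nat_lit 0x2000f000040018003c0012000780000000000000000000000) (nat_lit 0x0) (nat_lit 0x20000000000008000e0000000000000000000) := T_1 (nat_lit 78) (nat_lit 77) (nat_lit 2) (nat_lit 6) (nat_lit 5) L3482983 (by decide +kernel)
theorem L3482985 : W_1 (nat_lit 4) (nat_lit 0x2000f000040018003c0012000380000000000000000000000) (nat_lit 0x0) (nat_lit 0x2000000008000c000e0000000000000000000) := T_1 (nat_lit 94) (nat_lit 111) (nat_lit 3) (nat_lit 6) (nat_lit 5) L3482984 (by decide +kernel)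
theorem L3482986 : W_1 (nat_lit 5) (nat_lit 0x2000f000040018003c0012000300000000000000000000000) (nat_lit 0x0) (nat_lit 0x2000000008000c800e4000000000000000000) := T_1 (nat_lit 91) (nat_lit 74) (nat_lit 4) (nat_lit 7) (nat_lit 8) L3482985 (by decide +kernel)
theorem L3482987 : W_1 (nat_lit 6) (nat_lit 0x2000f000040018003c0012000100000000000000000000000) (nat_lit 0x0) (nat_lit 0x2000000008000e800f4000000000000000000) := T_1 (nat_lit 93) (nat_lit 76) (nat_lit 6) (nat_lit 7) (nat_lit 8) L3482986 (by decide +kernel)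
theorem L3482988 : W_1 (nat_lit 7) (nat_lit 0x2000f000040018003c0012000000000000000000000000000) (nat_lit 0x0) (nat_lit 0x2000000008000f800fc000000000000000000) := T_1 (nat_lit 92) (nat_lit 75) (nat_lit 7) (nat_lit 7) (nat_lit 4) L3482987 (by decide +kernel)
theorem L3482989 : W_1 (nat_lit 8) (nat_lit 0x2000f000040018003c0010000000000000000000000000000) (nat_lit 0x0) (nat_lit 0x200000000b000f800fc000000000000000000) := T_1 (nat_lit 109) (nat_lit 108) (nat_lit 0) (nat_lit 10) (nat_lit 7) L3482988 (by decide +kernel)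
theorem L3482990 : W_1 (nat_lit 9) (nat_lit 0x2000f000040018003c0000000000000000000000000000000) (nat_lit 0x0) (nat_lit 0x200000003b000f800fc000000000000000000) := T_1 (nat_lit 112) (nat_lit 113) (nat_lit 2) (nat_lit 7) (nat_lit 7) L3482989 (by decide +kernel)
theorem L3482991 : W_1 (nat_lit 10) (nat_lit 0x2000f00004001800380000000000000000000000000000000) (nat_lit 0x0) (nat_lit 0x1000200004003b000f800fc000000000000000000) := T_1 (nat_lit 126) (nat_lit 160) (nat_lit 5) (nat_lit 7) (nat_lit 7) L3482990 (by decide +kernel)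
theorem L3482992 : W_1 (nat_lit 11) (nat_lit 0xf00004001800380000000000000000000000000000000) (nat_lit 0x0) (nat_lit 0x300000001000200004003b000f800fc000000000000000000) := T_1 (nat_lit 193) (nat_lit 192) (nat_lit 1) (nat_lit 9) (nat_lit 10) L3482991 (by decide +kernel)
theorem L3482993 : W_1 (nat_lit 12) (nat_lit 0xf00000001800380000000000000000000000000000000) (nat_lit 0x0) (nat_lit 0x300000001c00200004003b000f800fc000000000000000000) := T_1 (nat_lit 158) (nat_lit 159) (nat_lit 0) (nat_lit 9) (nat_lit 10) L3482992 (by decide +kernel)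
theorem L3482994 : W_1 (nat_lit 13) (nat_lit 0xf00000001800180000000000000000000000000000000) (nat_lit 0x0) (nat_lit 0x300000001c00200064003b000f800fc000000000000000000) := T_1 (nat_lit 129) (nat_lit 130) (nat_lit 1) (nat_lit 11) (nat_lit 7) L3482993 (by decide +kernel)
theorem L3482995 : W_1 (nat_lit 14) (nat_lit 0xe00000001800180000000000000000000000000000000) (nat_lit 0x0) (nat_lit 0x3b80018001e00200064003b000f800fc000000000000000000) := Q_1 (nat_lit 176) (C_1 L3445737 (C_1 L3445397 (C_1 L3445217 (C_1 L3482994 N_1)))) (by decide +kernel)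
theorem L3482996 : W_1 (nat_lit 2) (nat_lit 0x20001e000100038003c0012000380040000000000000000000) (nat_lit 0x0) (nat_lit 0x8000400020000000000000000000) := D_1 (nat_lit 94) (nat_lit 111) (nat_lit 77) (nat_lit 3) (nat_lit 6) (nat_lit 5) (nat_lit 2) (nat_lit 6) (nat_lit 5) (by decide +kernel)
theorem L3482997 : W_1 (nat_lit 3) (nat_lit 0x20001e000100038003c0012000300040000000000000000000) (nat_lit 0x0) (nat_lit 0x8000480024000000000000000000) := T_1 (nat_lit 91) (nat_lit 74) (nat_lit 4) (nat_lit 7) (nat_lit 8) L3482996 (by decide +kernel)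
theorem L3482998 : W_1 (nat_lit 4) (nat_lit 0x20001e000100038003c0012000100040000000000000000000) (nat_lit 0x0) (nat_lit 0x8000680034000000000000000000) := T_1 (nat_lit 93) (nat_lit 76) (nat_lit 6) (nat_lit 7) (nat_lit 8) L3482997 (by decide +kernel)
theorem L3482999 : W_1 (nat_lit 5) (nat_lit 0x20001e000100038003c0012000000040000000000000000000) (nat_lit 0x0) (nat_lit 0x800078003c000000000000000000) := T_1 (nat_lit 92) (nat_lit 75) (nat_lit 7) (nat_lit 7) (nat_lit 4) L3482998 (by decide +kernel)
theorem L3483000 : W_1 (nat_lit 6) (nat_lit 0x20001e000100038003c0012000000000000000000000000000) (nat_lit 0x0) (nat_lit 0x8000f8007c000000000000000000) := T_1 (nat_lit 78) (nat_lit 95) (nat_lit 5) (nat_lit 10) (nat_lit 4) L3482999 (by decide +kernel)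
theorem L3483001 : W_1 (nat_lit 7) (nat_lit 0x20001e000100038003c0010000000000000000000000000000) (nat_lit 0x0) (nat_lit 0xb000f8007c000000000000000000) := T_1 (nat_lit 109) (nat_lit 108) (nat_lit 0) (nat_lit 10) (nat_lit 7) L3483000 (by decide +kernel)
theorem L3483002 : W_1 (nat_lit 8) (nat_lit 0x20001e000100038003c0000000000000000000000000000000) (nat_lit 0x0) (nat_lit 0x3b000f8007c000000000000000000) := T_1 (nat_lit 112) (nat_lit 113) (nat_lit 2) (nat_lit 7) (nat_lit 7) L3483001 (by decide +kernel)
theorem L3483003 : W_1 (nat_lit 9) (nat_lit 0x20001e00010003800380000000000000000000000000000000) (nat_lit 0x0) (nat_lit 0x800000000000000004003b000f8007c000000000000000000) := T_1 (nat_lit 126) (nat_lit 195) (nat_lit 7) (nat_lit 7) (nat_lit 7) L3483002 (by decide +kernel)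
theorem L3483004 : W_1 (nat_lit 10) (nat_lit 0x20001e00010001800380000000000000000000000000000000) (nat_lit 0x0) (nat_lit 0x800000004000200004003b000f8007c000000000000000000) := T_1 (nat_lit 145) (nat_lit 162) (nat_lit 7) (nat_lit 9) (nat_lit 7) L3483003 (by decide +kernel)
theorem L3483005 : W_1 (nat_lit 11) (nat_lit 0x20001e00000001800380000000000000000000000000000000) (nat_lit 0x0) (nat_lit 0x800000005800200004003b000f8007c000000000000000000) := T_1 (nat_lit 160) (nat_lit 159) (nat_lit 0) (nat_lit 10) (nat_lit 10) L3483004 (by decide +kernel)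
theorem L3483006 : W_1 (nat_lit 12) (nat_lit 0x1e00000001800380000000000000000000000000000000) (nat_lit 0x0) (nat_lit 0x6800000005800200004003b000f8007c000000000000000000) := T_1 (nat_lit 197) (nat_lit 198) (nat_lit 3) (nat_lit 7) (nat_lit 10) L3483005 (by decide +kernel)
theorem L3483007 : W_1 (nat_lit 13) (nat_lit 0x1e00000001800180000000000000000000000000000000) (nat_lit 0x0) (nat_lit 0x6800000005800200064003b000f8007c000000000000000000) := T_1 (nat_lit 129) (nat_lit 130) (nat_lit 1) (nat_lit 11) (nat_lit 7) L3483006 (by decide +kernel)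
theorem L3483008 : W_1 (nat_lit 2) (nat_lit 0x40001e00108001800180000000000000000000000000000000) (nat_lit 0x0) (nat_lit 0x80002000200000000000000000000000000000000000000000) := D_1 (nat_lit 181) (nat_lit 165) (nat_lit 199) (nat_lit 2) (nat_lit 8) (nat_lit 10) (nat_lit 3) (nat_lit 8) (nat_lit 10) (by decide +kernel)
theorem L3483009 : W_1 (nat_lit 3) (nat_lit 0x1e00108001800180000000000000000000000000000000) (nat_lit 0x0) (nat_lit 0xe0002000200000000000000000000000000000000000000000) := T_1 (nat_lit 198) (nat_lit 197) (nat_lit 3) (nat_lit 7) (nat_lit 10) L3483008 (by decide +kernel)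
theorem L3483010 : W_1 (nat_lit 4) (nat_lit 0x1e00008001800180000000000000000000000000000000) (nat_lit 0x0) (nat_lit 0xe0002000380000000000000000000000000000000000000000) := T_1 (nat_lit 164) (nat_lit 163) (nat_lit 2) (nat_lit 7) (nat_lit 10) L3483009 (by decide +kernel)
theorem L3483011 : W_1 (nat_lit 5) (nat_lit 0x1e00000001800180000000000000000000000000000000) (nat_lit 0x0) (nat_lit 0xe0002000398000000000000000000000000000000000000000) := T_1 (nat_lit 159) (nat_lit 160) (nat_lit 0) (nat_lit 10) (nat_lit 10) L3483010 (by decide +kernel)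
theorem L3483012 : W_1 (nat_lit 2) (nat_lit 0x1e000900038003c0012000380040000000000000000000) (nat_lit 0x0) (nat_lit 0x8000400020000000000000000000) := D_1 (nat_lit 94) (nat_lit 111) (nat_lit 77) (nat_lit 3) (nat_lit 6) (nat_lit 5) (nat_lit 2) (nat_lit 6) (nat_lit 5) (by decide +kernel)
theorem L3483013 : W_1 (nat_lit 3) (nat_lit 0x1e000900038003c0012000300040000000000000000000) (nat_lit 0x0) (nat_lit 0x8000480024000000000000000000) := T_1 (nat_lit 91) (nat_lit 74) (nat_lit 4) (nat_lit 7) (nat_lit 8) L3483012 (by decide +kernel)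
theorem L3483014 : W_1 (nat_lit 4) (nat_lit 0x1e000900038003c0012000100040000000000000000000) (nat_lit 0x0) (nat_lit 0x8000680034000000000000000000) := T_1 (nat_lit 93) (nat_lit 76) (nat_lit 6) (nat_lit 7) (nat_lit 8) L3483013 (by decide +kernel)
theorem L3483015 : W_1 (nat_lit 5) (nat_lit 0x1e000900038003c0012000000040000000000000000000) (nat_lit 0x0) (nat_lit 0x800078003c000000000000000000) := T_1 (nat_lit 92) (nat_lit 75) (nat_lit 7) (nat_lit 7) (nat_lit 4) L3483014 (by decide +kernel)
theorem L3483016 : W_1 (nat_lit 6) (nat_lit 0x1e000900038003c0012000000000000000000000000000) (nat_lit 0x0) (nat_lit 0x8000f8007c000000000000000000) := T_1 (nat_lit 78) (nat_lit 95) (nat_lit 5) (nat_lit 10) (nat_lit 4) L3483015 (by decide +kernel)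
theorem L3483017 : W_1 (nat_lit 7) (nat_lit 0x1e000900018003c0012000000000000000000000000000) (nat_lit 0x0) (nat_lit 0x40002000000008000f8007c000000000000000000) := T_1 (nat_lit 145) (nat_lit 162) (nat_lit 6) (nat_lit 9) (nat_lit 10) L3483016 (by decide +kernel)
theorem L3483018 : W_1 (nat_lit 8) (nat_lit 0x1e000900018003c0010000000000000000000000000000) (nat_lit 0x0) (nat_lit 0x4000200000000b000f8007c000000000000000000) := T_1 (nat_lit 109) (nat_lit 108) (nat_lit 0) (nat_lit 10) (nat_lit 7) L3483017 (by decide +kernel)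
theorem L3483019 : W_1 (nat_lit 9) (nat_lit 0x1e000900018003c0000000000000000000000000000000) (nat_lit 0x0) (nat_lit 0x4000200000003b000f8007c000000000000000000) := T_1 (nat_lit 112) (nat_lit 113) (nat_lit 2) (nat_lit 7) (nat_lit 7) L3483018 (by decide +kernel)
theorem L3483020 : W_1 (nat_lit 10) (nat_lit 0x1e00090001800380000000000000000000000000000000) (nat_lit 0x0) (nat_lit 0x800000004000200004003b000f8007c000000000000000000) := T_1 (nat_lit 126) (nat_lit 195) (nat_lit 7) (nat_lit 7) (nat_lit 7) L3483019 (by decide +kernel)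
theorem L3483021 : W_1 (nat_lit 11) (nat_lit 0x1e00090001800180000000000000000000000000000000) (nat_lit 0x0) (nat_lit 0x800000004000200064003b000f8007c000000000000000000) := T_1 (nat_lit 129) (nat_lit 130) (nat_lit 1) (nat_lit 11) (nat_lit 7) L3483020 (by decide +kernel)
theorem L3483022 : W_1 (nat_lit 12) (nat_lit 0x1e00080001800180000000000000000000000000000000) (nat_lit 0x0) (nat_lit 0x800000005800200064003b000f8007c000000000000000000) := T_1 (nat_lit 160) (nat_lit 159) (nat_lit 0) (nat_lit 10) (nat_lit 10) L3483021 (by decide +kernel)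
theorem L3483023 : W_1 (nat_lit 13) (nat_lit 0x1e00000001800180000000000000000000000000000000) (nat_lit 0x0) (nat_lit 0x80000001d800200064003b000f8007c000000000000000000) := T_1 (nat_lit 163) (nat_lit 164) (nat_lit 2) (nat_lit 7) (nat_lit 10) L3483022 (by decide +kernel)
theorem L3483024 : W_1 (nat_lit 14) (nat_lit 0xe00000001800180000000000000000000000000000000) (nat_lit 0x0) (nat_lit 0xe80030003d800200064003b000f8007c000000000000000000) := Q_1 (nat_lit 180) (C_1 L3482903 (C_1 L3483007 (C_1 L3483011 (C_1 L3483023 N_1)))) (by decide +kernel)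
theorem L3483025 : W_1 (nat_lit 15) (nat_lit 0x600000001800180000000000000000000000000000000) (nat_lit 0x0) (nat_lit 0xfb8039803de00200064003b000f800fc000000000000000000) := Q_1 (nat_lit 179) (C_1 L3482966 (C_1 L3482965 (C_1 L3482995 (C_1 L3482964 (C_1 L3483024 (C_1 L3482950 N_1)))))) (by decide +kernel)
theorem L3483026 : W_1 (nat_lit 7) (nat_lit 0x600000001800180000000000000000000000000000000) (nat_lit 0x0) (nat_lit 0xe00010001800000004000300018000c000000000000000000) := T_1 (nat_lit 160) (nat_lit 194) (nat_lit 6) (nat_lit 7) (nat_lit 11) L2430857 (by decide +kernel)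
theorem L3484841 : W_1 (nat_lit 2) (nat_lit 0x10800fc0000001800180000000000000000000000000000000) (nat_lit 0x0) (nat_lit 0x7000000000000000000000000000000000000000) := D_1 (nat_lit 157) (nat_lit 156) (nat_lit 158) (nat_lit 0) (nat_lit 7) (nat_lit 10) (nat_lit 0) (nat_lit 8) (nat_lit 10) (by decide +kernel)
theorem L3484842 : W_1 (nat_lit 3) (nat_lit 0x10800f80000001800180000000000000000000000000000000) (nat_lit 0x0) (nat_lit 0x400040007000000000000000000000000000000000000000) := T_1 (nat_lit 174) (nat_lit 190) (nat_lit 1) (nat_lit 7) (nat_lit 10) L3484841 (by decide +kernel)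
theorem L3484843 : W_1 (nat_lit 4) (nat_lit 0x10000f80000001800180000000000000000000000000000000) (nat_lit 0x0) (nat_lit 0x1c00040007000000000000000000000000000000000000000) := T_1 (nat_lit 191) (nat_lit 192) (nat_lit 1) (nat_lit 8) (nat_lit 10) L3484842 (by decide +kernel)
theorem L3484844 : W_1 (nat_lit 5) (nat_lit 0x10000f00000001800180000000000000000000000000000000) (nat_lit 0x0) (nat_lit 0x9c000c0007000000000000000000000000000000000000000) := T_1 (nat_lit 175) (nat_lit 195) (nat_lit 3) (nat_lit 5) (nat_lit 10) L3484843 (by decide +kernel)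
theorem L3484845 : W_1 (nat_lit 6) (nat_lit 0xf00000001800180000000000000000000000000000000) (nat_lit 0x0) (nat_lit 0x39c000c0007000000000000000000000000000000000000000) := T_1 (nat_lit 196) (nat_lit 197) (nat_lit 3) (nat_lit 6) (nat_lit 10) L3484844 (by decide +kernel)
theorem L3487325 : W_1 (nat_lit 2) (nat_lit 0x18001c000a000700000000000000000000000) (nat_lit 0x0) (nat_lit 0x10000080004000000000000000000) := D_1 (nat_lit 91) (nat_lit 74) (nat_lit 112) (nat_lit 4) (nat_lit 7) (nat_lit 8) (nat_lit 3) (nat_lit 6) (nat_lit 5) (by decide +kernel)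
theorem L3487326 : W_1 (nat_lit 3) (nat_lit 0x18001c000a000500000000000000000000000) (nat_lit 0x0) (nat_lit 0x10000280014000000000000000000) := T_1 (nat_lit 93) (nat_lit 76) (nat_lit 6) (nat_lit 7) (nat_lit 8) L3487325 (by decide +kernel)
theorem L3487327 : W_1 (nat_lit 4) (nat_lit 0x18001c000a000400000000000000000000000) (nat_lit 0x0) (nat_lit 0x1000038001c000000000000000000) := T_1 (nat_lit 92) (nat_lit 75) (nat_lit 7) (nat_lit 7) (nat_lit 4) L3487326 (by decide +kernel)
theorem L3487328 : W_1 (nat_lit 5) (nat_lit 0x18001c000a000000000000000000000000000) (nat_lit 0x0) (nat_lit 0x1000078003c000000000000000000) := T_1 (nat_lit 94) (nat_lit 77) (nat_lit 5) (nat_lit 9) (nat_lit 4) L3487327 (by decide +kernel)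
theorem L3489140 : W_1 (nat_lit 2) (nat_lit 0x1800180010000f00040000000000000000000) (nat_lit 0x0) (nat_lit 0x2000000008000080000000000000000000000) := D_1 (nat_lit 111) (nat_lit 91) (nat_lit 145) (nat_lit 3) (nat_lit 6) (nat_lit 5) (nat_lit 6) (nat_lit 9) (nat_lit 8) (by decide +kernel)
theorem L3489150 : W_1 (nat_lit 2) (nat_lit 0x18001c0002000f00000000000000000000000) (nat_lit 0x0) (nat_lit 0x8000600000000000000000000000000000000000) := D_1 (nat_lit 142) (nat_lit 141) (nat_lit 159) (nat_lit 2) (nat_lit 5) (nat_lit 8) (nat_lit 5) (nat_lit 7) (nat_lit 5) (by decide +kernel)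
theorem L3489151 : W_1 (nat_lit 3) (nat_lit 0x1800180002000f00000000000000000000000) (nat_lit 0x0) (nat_lit 0x8000600040000000000010000000000000000000) := T_1 (nat_lit 126) (nat_lit 76) (nat_lit 6) (nat_lit 7) (nat_lit 8) L3489150 (by decide +kernel)
theorem L3489185 : W_1 (nat_lit 2) (nat_lit 0x2001c00048003c001c0008800780000000000000000000000) (nat_lit 0x0) (nat_lit 0x4000200010000000000000000000000000000000000000000) := D_1 (nat_lit 177) (nat_lit 194) (nat_lit 160) (nat_lit 1) (nat_lit 10) (nat_lit 10) (nat_lit 0) (nat_lit 10) (nat_lit 10) (by decide +kernel)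
theorem L3489186 : W_1 (nat_lit 3) (nat_lit 0x2001800048003c001c0008800780000000000000000000000) (nat_lit 0x0) (nat_lit 0xc000600010000000000000000000000000000000000000000) := T_1 (nat_lit 178) (nat_lit 195) (nat_lit 5) (nat_lit 9) (nat_lit 7) L3489185 (by decide +kernel)
theorem L3489187 : W_1 (nat_lit 4) (nat_lit 0x2000800048003c001c0008800780000000000000000000000) (nat_lit 0x0) (nat_lit 0x2c001600010000000000000000000000000000000000000000) := T_1 (nat_lit 180) (nat_lit 197) (nat_lit 7) (nat_lit 9) (nat_lit 7) L3489186 (by decide +kernel)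
theorem L3489188 : W_1 (nat_lit 5) (nat_lit 0x800048003c001c0008800780000000000000000000000) (nat_lit 0x0) (nat_lit 0x2e001700010000000000000000000000000000000000000000) := T_1 (nat_lit 193) (nat_lit 176) (nat_lit 6) (nat_lit 6) (nat_lit 11) L3489187 (by decide +kernel)
theorem L3489189 : W_1 (nat_lit 6) (nat_lit 0x48003c001c0008800780000000000000000000000) (nat_lit 0x0) (nat_lit 0x3e001f00010000000000000000000000000000000000000000) := T_1 (nat_lit 179) (nat_lit 196) (nat_lit 4) (nat_lit 9) (nat_lit 11) L3489188 (by decide +kernel)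
theorem L3489190 : W_1 (nat_lit 7) (nat_lit 0x48003c00180008800780000000000000000000000) (nat_lit 0x0) (nat_lit 0x3e001f00010000000040002000000000000000000000000000) := T_1 (nat_lit 126) (nat_lit 109) (nat_lit 5) (nat_lit 7) (nat_lit 5) L3489189 (by decide +kernel)
theorem L3489191 : W_1 (nat_lit 8) (nat_lit 0x8003c00180008800780000000000000000000000) (nat_lit 0x0) (nat_lit 0x3e001f000d0000000040002000000000000000000000000000) := T_1 (nat_lit 162) (nat_lit 163) (nat_lit 3) (nat_lit 6) (nat_lit 8) L3489190 (by decide +kernel)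
theorem L3489192 : W_1 (nat_lit 9) (nat_lit 0x3c00180008800780000000000000000000000) (nat_lit 0x0) (nat_lit 0x3e001f000dc000000040002000000000000000000000000000) := T_1 (nat_lit 159) (nat_lit 158) (nat_lit 1) (nat_lit 9) (nat_lit 8) L3489191 (by decide +kernel)
theorem L3489193 : W_1 (nat_lit 10) (nat_lit 0x3800180008800780000000000000000000000) (nat_lit 0x0) (nat_lit 0x3e001f000dc000600040002000000000000000000000000000) := T_1 (nat_lit 142) (nat_lit 141) (nat_lit 2) (nat_lit 5) (nat_lit 8) L3489192 (by decide +kernel)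
theorem L3489194 : W_1 (nat_lit 11) (nat_lit 0x1800180008800780000000000000000000000) (nat_lit 0x0) (nat_lit 0x3e001f000dc002600040002000000010000000000000000000) := T_1 (nat_lit 145) (nat_lit 76) (nat_lit 4) (nat_lit 9) (nat_lit 8) L3489193 (by decide +kernel)
theorem L3489195 : W_1 (nat_lit 12) (nat_lit 0x1800180008000780000000000000000000000) (nat_lit 0x0) (nat_lit 0x3e001f000dc002600040003800000010000000000000000000) := T_1 (nat_lit 107) (nat_lit 108) (nat_lit 1) (nat_lit 9) (nat_lit 5) L3489194 (by decide +kernel)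
theorem L3489196 : W_1 (nat_lit 13) (nat_lit 0x1800180000000780000000000000000000000) (nat_lit 0x0) (nat_lit 0x3e001f000dc00260004001b800000010000000000000000000) := T_1 (nat_lit 111) (nat_lit 112) (nat_lit 3) (nat_lit 6) (nat_lit 5) L3489195 (by decide +kernel)
theorem L3490887 : W_1 (nat_lit 2) (nat_lit 0x2001f00080000000000000000000000000000000) (nat_lit 0x0) (nat_lit 0x1c000000000000000000000000000000) := D_1 (nat_lit 123) (nat_lit 122) (nat_lit 124) (nat_lit 0) (nat_lit 7) (nat_lit 8) (nat_lit 0) (nat_lit 8) (nat_lit 8) (by decide +kernel)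
theorem L3490888 : W_1 (nat_lit 3) (nat_lit 0x2001e00080000000000000000000000000000000) (nat_lit 0x0) (nat_lit 0x100010001c000000000000000000000000000000) := T_1 (nat_lit 140) (nat_lit 156) (nat_lit 1) (nat_lit 7) (nat_lit 8) L3490887 (by decide +kernel)
theorem L3490889 : W_1 (nat_lit 4) (nat_lit 0x1e00080000000000000000000000000000000) (nat_lit 0x0) (nat_lit 0x700010001c000000000000000000000000000000) := T_1 (nat_lit 157) (nat_lit 158) (nat_lit 1) (nat_lit 8) (nat_lit 8) L3490888 (by decide +kernel)
theorem L3490890 : W_1 (nat_lit 5) (nat_lit 0x1c00080000000000000000000000000000000) (nat_lit 0x0) (nat_lit 0x700030011c000000000000000000000000000000) := T_1 (nat_lit 141) (nat_lit 128) (nat_lit 2) (nat_lit 5) (nat_lit 8) L3490889 (by decide +kernel)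
theorem L3491874 : W_1 (nat_lit 2) (nat_lit 0x800000003c00080000000000000000000000000000000) (nat_lit 0x0) (nat_lit 0x100000000c0000000000000000000000000000000000000000) := D_1 (nat_lit 162) (nat_lit 196) (nat_lit 163) (nat_lit 4) (nat_lit 9) (nat_lit 11) (nat_lit 3) (nat_lit 6) (nat_lit 8) (by decide +kernel)
theorem L3492584 : W_1 (nat_lit 2) (nat_lit 0x4001f80084000000000000000000000000000000) (nat_lit 0x0) (nat_lit 0x8002040000000000000000000000000000000000) := D_1 (nat_lit 159) (nat_lit 145) (nat_lit 138) (nat_lit 1) (nat_lit 9) (nat_lit 8) (nat_lit 3) (nat_lit 2) (nat_lit 8) (by decide +kernel)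
theorem L3492585 : W_1 (nat_lit 3) (nat_lit 0x4001f00084000000000000000000000000000000) (nat_lit 0x0) (nat_lit 0x80020c0002000000000000000000000000000000) := T_1 (nat_lit 139) (nat_lit 121) (nat_lit 0) (nat_lit 6) (nat_lit 8) L3492584 (by decide +kernel)
theorem L3492586 : W_1 (nat_lit 4) (nat_lit 0x4001f00080000000000000000000000000000000) (nat_lit 0x0) (nat_lit 0x80020c000e000000000000000000000000000000) := T_1 (nat_lit 122) (nat_lit 123) (nat_lit 0) (nat_lit 7) (nat_lit 8) L3492585 (by decide +kernel)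
theorem L3492587 : W_1 (nat_lit 5) (nat_lit 0x1f00080000000000000000000000000000000) (nat_lit 0x0) (nat_lit 0xe0020c000e000000000000000000000000000000) := T_1 (nat_lit 158) (nat_lit 157) (nat_lit 1) (nat_lit 8) (nat_lit 8) L3492586 (by decide +kernel)
theorem L3492588 : W_1 (nat_lit 7) (nat_lit 0x1e00080000000000000000000000000000000) (nat_lit 0x0) (nat_lit 0x1fc021c000e000000000000000000000000000000) := Q_1 (nat_lit 140) (C_1 L57920 (C_1 L57927 (C_1 L56827 (C_1 L3492587 N_1)))) (by decide +kernel)
theorem L3493818 : W_1 (nat_lit 2) (nat_lit 0x40001e00090000000000000000000000000000000) (nat_lit 0x0) (nat_lit 0x80002000020000000000000000000000000000000) := D_1 (nat_lit 145) (nat_lit 163) (nat_lit 125) (nat_lit 3) (nat_lit 6) (nat_lit 8) (nat_lit 0) (nat_lit 9) (nat_lit 8) (by decide +kernel)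
theorem L3493819 : W_1 (nat_lit 3) (nat_lit 0x40001e00080000000000000000000000000000000) (nat_lit 0x0) (nat_lit 0x80002000038000000000000000000000000000000) := T_1 (nat_lit 124) (nat_lit 123) (nat_lit 0) (nat_lit 8) (nat_lit 8) L3493818 (by decide +kernel)
theorem L3494542 : W_1 (nat_lit 2) (nat_lit 0x6001c00080000000000000000000000000000000) (nat_lit 0x0) (nat_lit 0x19000000000000000000000000000000000000000) := D_1 (nat_lit 159) (nat_lit 156) (nat_lit 160) (nat_lit 2) (nat_lit 3) (nat_lit 9) (nat_lit 2) (nat_lit 4) (nat_lit 9) (by decide +kernel)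
theorem L3494543 : W_1 (nat_lit 3) (nat_lit 0x4001c00080000000000000000000000000000000) (nat_lit 0x0) (nat_lit 0x1b000200000000000000000000000000000000000) := T_1 (nat_lit 157) (nat_lit 141) (nat_lit 1) (nat_lit 8) (nat_lit 8) L3494542 (by decide +kernel)
theorem L3494544 : W_1 (nat_lit 4) (nat_lit 0x4001c00080000000000000000000000000000000) (nat_lit 0x0) (nat_lit 0xa002200038000000000000000000000000000000) := T_1 (nat_lit 141) (nat_lit 157) (nat_lit 1) (nat_lit 8) (nat_lit 8) L372 (by decide +kernel)
theorem L3494545 : W_1 (nat_lit 2) (nat_lit 0x4001e000b0000000000000000000000000000000) (nat_lit 0x0) (nat_lit 0x80000000000000001000080000000000000000000000) := D_1 (nat_lit 108) (nat_lit 91) (nat_lit 175) (nat_lit 5) (nat_lit 6) (nat_lit 5) (nat_lit 6) (nat_lit 5) (nat_lit 10) (by decide +kernel)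
theorem L3494546 : W_1 (nat_lit 3) (nat_lit 0x4001e00090000000000000000000000000000000) (nat_lit 0x0) (nat_lit 0x80000002000020001000080000000000000000000000) := T_1 (nat_lit 125) (nat_lit 145) (nat_lit 0) (nat_lit 9) (nat_lit 8) L3494545 (by decide +kernel)
theorem L3494547 : W_1 (nat_lit 4) (nat_lit 0x4001e00080000000000000000000000000000000) (nat_lit 0x0) (nat_lit 0x80000002000038001000080000000000000000000000) := T_1 (nat_lit 124) (nat_lit 123) (nat_lit 0) (nat_lit 8) (nat_lit 8) L3494546 (by decide +kernel)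
theorem L3494548 : W_1 (nat_lit 5) (nat_lit 0x4001c00080000000000000000000000000000000) (nat_lit 0x0) (nat_lit 0x80002002200038001000080000000000000000000000) := T_1 (nat_lit 141) (nat_lit 157) (nat_lit 1) (nat_lit 8) (nat_lit 8) L3494547 (by decide +kernel)
theorem L3494549 : W_1 (nat_lit 2) (nat_lit 0x4001c00090000000000000000000000000000000) (nat_lit 0x0) (nat_lit 0x8002000020000000000000000000000000000000) := D_1 (nat_lit 145) (nat_lit 159) (nat_lit 125) (nat_lit 1) (nat_lit 9) (nat_lit 8) (nat_lit 0) (nat_lit 9) (nat_lit 8) (by decide +kernel)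
theorem L3494562 : W_1 (nat_lit 2) (nat_lit 0xc001c000b4001000000000000000000000000000) (nat_lit 0x0) (nat_lit 0x100000000000000000800040000000000000000000000) := D_1 (nat_lit 107) (nat_lit 176) (nat_lit 90) (nat_lit 4) (nat_lit 6) (nat_lit 10) (nat_lit 4) (nat_lit 6) (nat_lit 9) (by decide +kernel)
theorem L3494563 : W_1 (nat_lit 3) (nat_lit 0x4001c000b4001000000000000000000000000000) (nat_lit 0x0) (nat_lit 0x180008000000000000800040000000000000000000000) := T_1 (nat_lit 159) (nat_lit 175) (nat_lit 5) (nat_lit 6) (nat_lit 6) L3494562 (by decide +kernel)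
theorem L3494564 : W_1 (nat_lit 4) (nat_lit 0x4001c000b0001000000000000000000000000000) (nat_lit 0x0) (nat_lit 0x18000800000000c000800040000000000000000000000) := T_1 (nat_lit 122) (nat_lit 123) (nat_lit 3) (nat_lit 3) (nat_lit 7) L3494563 (by decide +kernel)
theorem L3494565 : W_1 (nat_lit 2) (nat_lit 0x4001c000b000100008000c000000000000000000) (nat_lit 0x0) (nat_lit 0x40002000100000000000000) := D_1 (nat_lit 73) (nat_lit 90) (nat_lit 56) (nat_lit 4) (nat_lit 6) (nat_lit 8) (nat_lit 4) (nat_lit 6) (nat_lit 7) (by decide +kernel)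
theorem L3494566 : W_1 (nat_lit 3) (nat_lit 0x4001c000b0001000080008000000000000000000) (nat_lit 0x0) (nat_lit 0x40006000500000000000000) := T_1 (nat_lit 74) (nat_lit 58) (nat_lit 6) (nat_lit 6) (nat_lit 7) L3494565 (by decide +kernel)
theorem L3494567 : W_1 (nat_lit 4) (nat_lit 0x4001c000b0001000080000000000000000000000) (nat_lit 0x0) (nat_lit 0x14000e000500000000000000) := T_1 (nat_lit 75) (nat_lit 92) (nat_lit 6) (nat_lit 6) (nat_lit 8) L3494566 (by decide +kernel)
theorem L3494568 : W_1 (nat_lit 5) (nat_lit 0x4001c000b0001000000000000000000000000000) (nat_lit 0x0) (nat_lit 0x100000000000000001c000e000500000000000000) := T_1 (nat_lit 91) (nat_lit 160) (nat_lit 7) (nat_lit 6) (nat_lit 5) L3494567 (by decide +kernel)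
theorem L3494569 : W_1 (nat_lit 2) (nat_lit 0xc001c000b4001000000000000000000000000000) (nat_lit 0x0) (nat_lit 0x200010000000000000000080000000000000000000000) := D_1 (nat_lit 160) (nat_lit 91) (nat_lit 177) (nat_lit 7) (nat_lit 6) (nat_lit 5) (nat_lit 7) (nat_lit 6) (nat_lit 6) (by decide +kernel)
theorem L3494570 : W_1 (nat_lit 3) (nat_lit 0x4001c000b4001000000000000000000000000000) (nat_lit 0x0) (nat_lit 0x280018000000000000000080000000000000000000000) := T_1 (nat_lit 159) (nat_lit 175) (nat_lit 5) (nat_lit 6) (nat_lit 6) L3494569 (by decide +kernel)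
theorem L3494571 : W_1 (nat_lit 4) (nat_lit 0x4001c000b0001000000000000000000000000000) (nat_lit 0x0) (nat_lit 0x28001800000000c000000080000000000000000000000) := T_1 (nat_lit 122) (nat_lit 123) (nat_lit 3) (nat_lit 3) (nat_lit 7) L3494570 (by decide +kernel)
theorem L3494572 : W_1 (nat_lit 6) (nat_lit 0x4001c000b0000000000000000000000000000000) (nat_lit 0x0) (nat_lit 0x38001800000000c0018001c000e000500000000000000) := Q_1 (nat_lit 108) (C_1 L3494564 (C_1 L3494568 (C_1 L3494571 N_1))) (by decide +kernel)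
theorem L3494573 : W_1 (nat_lit 2) (nat_lit 0x4001c000b0001000000000000000000000000000) (nat_lit 0x0) (nat_lit 0x80000000200000000000080000000000000000000000) := D_1 (nat_lit 141) (nat_lit 91) (nat_lit 175) (nat_lit 5) (nat_lit 6) (nat_lit 5) (nat_lit 6) (nat_lit 5) (nat_lit 10) (by decide +kernel)
theorem L3494574 : W_1 (nat_lit 2) (nat_lit 0x4001c000b0001000000000000000000000000000) (nat_lit 0x0) (nat_lit 0x80008000200000000000000000000000000000000000) := D_1 (nat_lit 175) (nat_lit 141) (nat_lit 159) (nat_lit 6) (nat_lit 5) (nat_lit 10) (nat_lit 5) (nat_lit 6) (nat_lit 6) (by decide +kernel)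
theorem L3494575 : W_1 (nat_lit 6) (nat_lit 0x4001c000b0000000000000000000000000000000) (nat_lit 0x0) (nat_lit 0x800180002000000010001c000e000500000000000000) := Q_1 (nat_lit 108) (C_1 L3494573 (C_1 L3494568 (C_1 L3494574 N_1))) (by decide +kernel)
theorem L3494576 : W_1 (nat_lit 7) (nat_lit 0x4001c00090000000000000000000000000000000) (nat_lit 0x0) (nat_lit 0x38001800020002c0018001c000e000500000000000000) := Q_1 (nat_lit 125) (C_1 L328992 (C_1 L3494572 (C_1 L3494575 N_1))) (by decide +kernel)
theorem L3494577 : W_1 (nat_lit 3) (nat_lit 0x4001e00090000000000000000000000000000000) (nat_lit 0x0) (nat_lit 0x2000100008002000000000800000000000000000000000000) := T_1 (nat_lit 159) (nat_lit 145) (nat_lit 1) (nat_lit 9) (nat_lit 8) L1104085 (by decide +kernel)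
theorem L3494578 : W_1 (nat_lit 4) (nat_lit 0x4001c00090000000000000000000000000000000) (nat_lit 0x0) (nat_lit 0x2000100008002200008000800000000000000000000000000) := T_1 (nat_lit 141) (nat_lit 123) (nat_lit 0) (nat_lit 8) (nat_lit 8) L3494577 (by decide +kernel)
theorem L3494579 : W_1 (nat_lit 3) (nat_lit 0x4001c00090000000000000000000000000000000) (nat_lit 0x0) (nat_lit 0x220002c000000000000000000000000000000) := T_1 (nat_lit 125) (nat_lit 145) (nat_lit 0) (nat_lit 9) (nat_lit 8) L328992 (by decide +kernel)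
theorem L3494580 : W_1 (nat_lit 8) (nat_lit 0x4001c00080000000000000000000000000000000) (nat_lit 0x0) (nat_lit 0x200038001800220003c0018001c000e000500000000000000) := Q_1 (nat_lit 124) (C_1 L3494549 (C_1 L3494576 (C_1 L3494578 (C_1 L3494579 N_1)))) (by decide +kernel)
theorem L3494581 : W_1 (nat_lit 9) (nat_lit 0x1c00080000000000000000000000000000000) (nat_lit 0x0) (nat_lit 0x200038001f00220003c0018001c000e000500000000000000) := Q_1 (nat_lit 158) (C_1 L1435 (C_1 L3494543 (C_1 L3494544 (C_1 L3494548 (C_1 L3494580 N_1))))) (by decide +kernel)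
theorem L3494632 : W_1 (nat_lit 6) (nat_lit 0x800048003c000a0000000000000000000000000000000) (nat_lit 0x0) (nat_lit 0x2e001700010000000300000000000000000000000000000000) := T_1 (nat_lit 128) (nat_lit 129) (nat_lit 2) (nat_lit 6) (nat_lit 8) L327538 (by decide +kernel)
theorem L3494633 : W_1 (nat_lit 7) (nat_lit 0x48003c000a0000000000000000000000000000000) (nat_lit 0x0) (nat_lit 0x3e001f00010000000300000000000000000000000000000000) := T_1 (nat_lit 179) (nat_lit 196) (nat_lit 4) (nat_lit 9) (nat_lit 11) L3494632 (by decide +kernel)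
theorem L3494634 : W_1 (nat_lit 8) (nat_lit 0x48003c00080000000000000000000000000000000) (nat_lit 0x0) (nat_lit 0x3e001f00010000000330000000000000000000000000000000) := T_1 (nat_lit 125) (nat_lit 124) (nat_lit 0) (nat_lit 9) (nat_lit 8) L3494633 (by decide +kernel)
theorem L3494635 : W_1 (nat_lit 9) (nat_lit 0x8003c00080000000000000000000000000000000) (nat_lit 0x0) (nat_lit 0x3e001f000d0000000330000000000000000000000000000000) := T_1 (nat_lit 162) (nat_lit 163) (nat_lit 3) (nat_lit 6) (nat_lit 8) L3494634 (by decide +kernel)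
theorem L3494636 : W_1 (nat_lit 10) (nat_lit 0x3c00080000000000000000000000000000000) (nat_lit 0x0) (nat_lit 0x3e001f000dc000000330000000000000000000000000000000) := T_1 (nat_lit 159) (nat_lit 158) (nat_lit 1) (nat_lit 9) (nat_lit 8) L3494635 (by decide +kernel)
theorem L3494705 : W_1 (nat_lit 2) (nat_lit 0x3c001e0001000000000000000000000000000) (nat_lit 0x0) (nat_lit 0x10000000000000000080004000000000000000000) := D_1 (nat_lit 91) (nat_lit 74) (nat_lit 160) (nat_lit 7) (nat_lit 6) (nat_lit 4) (nat_lit 7) (nat_lit 6) (nat_lit 5) (by decide +kernel)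
theorem L3494706 : W_1 (nat_lit 3) (nat_lit 0x3c001e0000000000000000000000000000000) (nat_lit 0x0) (nat_lit 0x10000000000001800080004000000000000000000) := T_1 (nat_lit 108) (nat_lit 107) (nat_lit 0) (nat_lit 9) (nat_lit 7) L3494705 (by decide +kernel)
theorem L3494707 : W_1 (nat_lit 4) (nat_lit 0x3c000e0000000000000000000000000000000) (nat_lit 0x0) (nat_lit 0x10000000300001800080004000000000000000000) := T_1 (nat_lit 128) (nat_lit 129) (nat_lit 2) (nat_lit 6) (nat_lit 8) L3494706 (by decide +kernel)
theorem L3494708 : W_1 (nat_lit 5) (nat_lit 0x3c000c0000000000000000000000000000000) (nat_lit 0x0) (nat_lit 0x10000000330001800080004000000000000000000) := T_1 (nat_lit 125) (nat_lit 124) (nat_lit 3) (nat_lit 5) (nat_lit 7) L3494707 (by decide +kernel)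
theorem L3506104 : W_1 (nat_lit 4) (nat_lit 0xf00010001800080000000000000000000000000000000) (nat_lit 0x0) (nat_lit 0x330000000c0002000000000000000000000000000000000000) := T_1 (nat_lit 192) (nat_lit 193) (nat_lit 1) (nat_lit 9) (nat_lit 10) L236515 (by decide +kernel)
theorem L3506105 : W_1 (nat_lit 2) (nat_lit 0xe00050003800180000000000000000000000000000000) (nat_lit 0x0) (nat_lit 0x600010000000000000000000000000000) := D_1 (nat_lit 129) (nat_lit 130) (nat_lit 112) (nat_lit 1) (nat_lit 11) (nat_lit 7) (nat_lit 6) (nat_lit 9) (nat_lit 10) (by decide +kernel)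
theorem L3506106 : W_1 (nat_lit 3) (nat_lit 0xe00050003800080000000000000000000000000000000) (nat_lit 0x0) (nat_lit 0x8000000000000000700010000000000000000000000000000) := T_1 (nat_lit 128) (nat_lit 195) (nat_lit 5) (nat_lit 9) (nat_lit 7) L3506105 (by decide +kernel)
theorem L3506107 : W_1 (nat_lit 4) (nat_lit 0xe00050001800080000000000000000000000000000000) (nat_lit 0x0) (nat_lit 0x18000000000002000700010000000000000000000000000000) := T_1 (nat_lit 145) (nat_lit 196) (nat_lit 4) (nat_lit 9) (nat_lit 11) L3506106 (by decide +kernel)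
theorem L3506108 : W_1 (nat_lit 5) (nat_lit 0xe00010001800080000000000000000000000000000000) (nat_lit 0x0) (nat_lit 0x180011003c0002000700010000000000000000000000000000) := Q_1 (nat_lit 162) (C_1 L3506107 (C_1 L233789 N_1)) (by decide +kernel)
theorem L3506257 : W_1 (nat_lit 2) (nat_lit 0x18001e0000800300000000000000000000000) (nat_lit 0x0) (nat_lit 0x18000400000000000000000000000000) := D_1 (nat_lit 124) (nat_lit 106) (nat_lit 123) (nat_lit 0) (nat_lit 8) (nat_lit 7) (nat_lit 3) (nat_lit 4) (nat_lit 7) (by decide +kernel)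
theorem L3506258 : W_1 (nat_lit 3) (nat_lit 0x18001e0000000300000000000000000000000) (nat_lit 0x0) (nat_lit 0x18001c00000000000000000000000000) := T_1 (nat_lit 107) (nat_lit 108) (nat_lit 0) (nat_lit 9) (nat_lit 7) L3506257 (by decide +kernel)
theorem L3506332 : W_1 (nat_lit 2) (nat_lit 0x38003c0009000780000000000000000000000) (nat_lit 0x0) (nat_lit 0x30000000000004000000000000000000) := D_1 (nat_lit 125) (nat_lit 124) (nat_lit 74) (nat_lit 3) (nat_lit 5) (nat_lit 7) (nat_lit 7) (nat_lit 6) (nat_lit 4) (by decide +kernel)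
theorem L3506333 : W_1 (nat_lit 3) (nat_lit 0x3800380009000780000000000000000000000) (nat_lit 0x0) (nat_lit 0x70002000000004000000000000000000) := T_1 (nat_lit 126) (nat_lit 109) (nat_lit 0) (nat_lit 10) (nat_lit 7) L3506332 (by decide +kernel)
theorem L3506334 : W_1 (nat_lit 4) (nat_lit 0x3800380008000780000000000000000000000) (nat_lit 0x0) (nat_lit 0x70003800000004000000000000000000) := T_1 (nat_lit 108) (nat_lit 107) (nat_lit 1) (nat_lit 9) (nat_lit 5) L3506333 (by decide +kernel)
theorem L3506335 : W_1 (nat_lit 5) (nat_lit 0x1800380008000780000000000000000000000) (nat_lit 0x0) (nat_lit 0x2000070003800000014000000000000000000) := T_1 (nat_lit 145) (nat_lit 76) (nat_lit 4) (nat_lit 9) (nat_lit 8) L3506334 (by decide +kernel)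
theorem L3506336 : W_1 (nat_lit 6) (nat_lit 0x1800180008000780000000000000000000000) (nat_lit 0x0) (nat_lit 0x2000670003800000014000000000000000000) := T_1 (nat_lit 129) (nat_lit 130) (nat_lit 1) (nat_lit 11) (nat_lit 7) L3506335 (by decide +kernel)
theorem L3506337 : W_1 (nat_lit 7) (nat_lit 0x1800180000000780000000000000000000000) (nat_lit 0x0) (nat_lit 0x200067001b800000014000000000000000000) := T_1 (nat_lit 111) (nat_lit 112) (nat_lit 3) (nat_lit 6) (nat_lit 5) L3506336 (by decide +kernel)
theorem L3508886 : W_1 (nat_lit 2) (nat_lit 0x18000c0000000780000000000000000000000) (nat_lit 0x0) (nat_lit 0x2000000014000000000000000000) := D_1 (nat_lit 109) (nat_lit 76) (nat_lit 74) (nat_lit 6) (nat_lit 7) (nat_lit 8) (nat_lit 4) (nat_lit 7) (nat_lit 8) (by decide +kernel)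
theorem L3537839 : W_1 (nat_lit 2) (nat_lit 0x4003e00000001800180000000000000000000000000000000) (nat_lit 0x0) (nat_lit 0xe0000000000000000000000000000000000000000000000000) := D_1 (nat_lit 198) (nat_lit 197) (nat_lit 199) (nat_lit 3) (nat_lit 7) (nat_lit 10) (nat_lit 3) (nat_lit 8) (nat_lit 10) (by decide +kernel)
theorem L3537840 : W_1 (nat_lit 3) (nat_lit 0x4001e00000001800180000000000000000000000000000000) (nat_lit 0x0) (nat_lit 0xe8002000000000000000000000000000000000000000000000) := T_1 (nat_lit 181) (nat_lit 195) (nat_lit 1) (nat_lit 11) (nat_lit 10) L3537839 (by decide +kernel)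
theorem L3537841 : W_1 (nat_lit 4) (nat_lit 0x4000e00000001800180000000000000000000000000000000) (nat_lit 0x0) (nat_lit 0xea003000000000000000000000000000000000000000000000) := T_1 (nat_lit 180) (nat_lit 193) (nat_lit 1) (nat_lit 10) (nat_lit 10) L3537840 (by decide +kernel)
theorem L3543002 : W_1 (nat_lit 2) (nat_lit 0x18003e0010800000000000000000000000000) (nat_lit 0x0) (nat_lit 0x18000400000000000000000000000000) := D_1 (nat_lit 124) (nat_lit 106) (nat_lit 123) (nat_lit 0) (nat_lit 8) (nat_lit 7) (nat_lit 3) (nat_lit 4) (nat_lit 7) (by decide +kernel)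
theorem L3543003 : W_1 (nat_lit 3) (nat_lit 0x18003e0010000000000000000000000000000) (nat_lit 0x0) (nat_lit 0x18001c00000000000000000000000000) := T_1 (nat_lit 107) (nat_lit 108) (nat_lit 0) (nat_lit 9) (nat_lit 7) L3543002 (by decide +kernel)
theorem L3543004 : W_1 (nat_lit 4) (nat_lit 0x18003c0010000000000000000000000000000) (nat_lit 0x0) (nat_lit 0x38009c00000000000000000000000000) := T_1 (nat_lit 125) (nat_lit 111) (nat_lit 2) (nat_lit 6) (nat_lit 7) L3543003 (by decide +kernel)
theorem L3543005 : W_1 (nat_lit 5) (nat_lit 0x18003c0000000000000000000000000000000) (nat_lit 0x0) (nat_lit 0x38039c00000000000000000000000000) := T_1 (nat_lit 112) (nat_lit 113) (nat_lit 2) (nat_lit 7) (nat_lit 7) L3543004 (by decide +kernel)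
theorem L3544203 : W_1 (nat_lit 2) (nat_lit 0x1001f00008001800380000000000000000000000000000000) (nat_lit 0x0) (nat_lit 0x70000000000000000000000000000000000000000000000000) := D_1 (nat_lit 197) (nat_lit 196) (nat_lit 198) (nat_lit 3) (nat_lit 6) (nat_lit 10) (nat_lit 3) (nat_lit 7) (nat_lit 10) (by decide +kernel)
theorem L3544204 : W_1 (nat_lit 3) (nat_lit 0x1000f00008001800380000000000000000000000000000000) (nat_lit 0x0) (nat_lit 0x70001000010000000000000000000000000000000000000000) := T_1 (nat_lit 180) (nat_lit 160) (nat_lit 0) (nat_lit 10) (nat_lit 10) L3544203 (by decide +kernel)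
theorem L3544205 : W_1 (nat_lit 4) (nat_lit 0xf00008001800380000000000000000000000000000000) (nat_lit 0x0) (nat_lit 0x73001000010000000000000000000000000000000000000000) := T_1 (nat_lit 192) (nat_lit 193) (nat_lit 1) (nat_lit 9) (nat_lit 10) L3544204 (by decide +kernel)
theorem L3544206 : W_1 (nat_lit 5) (nat_lit 0xf00000001800380000000000000000000000000000000) (nat_lit 0x0) (nat_lit 0x7300100001c000000000000000000000000000000000000000) := T_1 (nat_lit 159) (nat_lit 158) (nat_lit 0) (nat_lit 9) (nat_lit 10) L3544205 (by decide +kernel)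
theorem L3544207 : W_1 (nat_lit 6) (nat_lit 0xf00000001800180000000000000000000000000000000) (nat_lit 0x0) (nat_lit 0x7300100001c000000600000000000000000000000000000000) := T_1 (nat_lit 129) (nat_lit 130) (nat_lit 1) (nat_lit 11) (nat_lit 7) L3544206 (by decide +kernel)
theorem L3544208 : W_1 (nat_lit 7) (nat_lit 0xe00000001800180000000000000000000000000000000) (nat_lit 0x0) (nat_lit 0x7bc011c001f000000600000000000000000000000000000000) := Q_1 (nat_lit 176) (C_1 L3484845 (C_1 L3445217 (C_1 L3445397 (C_1 L3544207 (C_1 L3445737 N_1))))) (by decide +kernel)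
theorem L3544209 : W_1 (nat_lit 2) (nat_lit 0x10000f00018001800380000000000000000000000000000000) (nat_lit 0x0) (nat_lit 0x40003000000000000000000000000000000000000000000000000) := D_1 (nat_lit 193) (nat_lit 192) (nat_lit 210) (nat_lit 1) (nat_lit 9) (nat_lit 10) (nat_lit 6) (nat_lit 6) (nat_lit 12) (by decide +kernel)
theorem L3544210 : W_1 (nat_lit 3) (nat_lit 0x10000f00008001800380000000000000000000000000000000) (nat_lit 0x0) (nat_lit 0x40007000000010000000000000000000000000000000000000000) := T_1 (nat_lit 160) (nat_lit 194) (nat_lit 6) (nat_lit 7) (nat_lit 11) L3544209 (by decide +kernel)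
theorem L3544211 : W_1 (nat_lit 4) (nat_lit 0x10000f00008001800180000000000000000000000000000000) (nat_lit 0x0) (nat_lit 0x40007000000010000000600000000000000000000000000000000) := T_1 (nat_lit 129) (nat_lit 130) (nat_lit 1) (nat_lit 11) (nat_lit 7) L3544210 (by decide +kernel)
theorem L3544212 : W_1 (nat_lit 5) (nat_lit 0x10000f00000001800180000000000000000000000000000000) (nat_lit 0x0) (nat_lit 0x4000700000001c000000600000000000000000000000000000000) := T_1 (nat_lit 159) (nat_lit 158) (nat_lit 0) (nat_lit 9) (nat_lit 10) L3544211 (by decide +kernel)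
theorem L3544213 : W_1 (nat_lit 6) (nat_lit 0xf00000001800180000000000000000000000000000000) (nat_lit 0x0) (nat_lit 0x4003700000001c000000600000000000000000000000000000000) := T_1 (nat_lit 196) (nat_lit 197) (nat_lit 3) (nat_lit 6) (nat_lit 10) L3544212 (by decide +kernel)
theorem L3544214 : W_1 (nat_lit 7) (nat_lit 0xe00000001800180000000000000000000000000000000) (nat_lit 0x0) (nat_lit 0x4003fc001c001f000000600000000000000000000000000000000) := Q_1 (nat_lit 176) (C_1 L3484845 (C_1 L3445217 (C_1 L3445397 (C_1 L3544213 (C_1 L3445737 N_1))))) (by decide +kernel)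
theorem L3544253 : W_1 (nat_lit 8) (nat_lit 0x600000001800180000000000000000000000000000000) (nat_lit 0x0) (nat_lit 0x400ffc039c039f000000600000000000000000000000000000000) := Q_1 (nat_lit 179) (C_1 L3482959 (C_1 L3544214 (C_1 L1452023 (C_1 L3544208 (C_1 L825446 N_1))))) (by decide +kernel)
theorem L3544254 : W_1 (nat_lit 5) (nat_lit 0xe00000001800180000000000000000000000000000000) (nat_lit 0x0) (nat_lit 0xee003000010000000000000000000000000000000000000000) := T_1 (nat_lit 194) (nat_lit 160) (nat_lit 6) (nat_lit 7) (nat_lit 11) L3537841 (by decide +kernel)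
theorem L3544255 : W_1 (nat_lit 2) (nat_lit 0x1000f80053003800180000000000000000000000000000000) (nat_lit 0x0) (nat_lit 0x600010000000000000000000000000000) := D_1 (nat_lit 129) (nat_lit 130) (nat_lit 112) (nat_lit 1) (nat_lit 11) (nat_lit 7) (nat_lit 6) (nat_lit 9) (nat_lit 10) (by decide +kernel)
theorem L3544256 : W_1 (nat_lit 3) (nat_lit 0x1000f80053001800180000000000000000000000000000000) (nat_lit 0x0) (nat_lit 0x8000000000002000600010000000000000000000000000000) := T_1 (nat_lit 145) (nat_lit 195) (nat_lit 5) (nat_lit 9) (nat_lit 7) L3544255 (by decide +kernel)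
theorem L3544257 : W_1 (nat_lit 4) (nat_lit 0x1000f80052001800180000000000000000000000000000000) (nat_lit 0x0) (nat_lit 0x8000040001002000600010000000000000000000000000000) := T_1 (nat_lit 156) (nat_lit 174) (nat_lit 0) (nat_lit 7) (nat_lit 10) L3544256 (by decide +kernel)
theorem L3544258 : W_1 (nat_lit 5) (nat_lit 0x1000f80050001800180000000000000000000000000000000) (nat_lit 0x0) (nat_lit 0x8000040007002000600010000000000000000000000000000) := T_1 (nat_lit 157) (nat_lit 158) (nat_lit 0) (nat_lit 8) (nat_lit 10) L3544257 (by decide +kernel)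
theorem L3544259 : W_1 (nat_lit 6) (nat_lit 0x1000f00050001800180000000000000000000000000000000) (nat_lit 0x0) (nat_lit 0x88000c0007002000600010000000000000000000000000000) := T_1 (nat_lit 175) (nat_lit 191) (nat_lit 1) (nat_lit 8) (nat_lit 10) L3544258 (by decide +kernel)
theorem L3544260 : W_1 (nat_lit 7) (nat_lit 0xf00050001800180000000000000000000000000000000) (nat_lit 0x0) (nat_lit 0xb8000c0007002000600010000000000000000000000000000) := T_1 (nat_lit 192) (nat_lit 193) (nat_lit 1) (nat_lit 9) (nat_lit 10) L3544259 (by decide +kernel)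
theorem L3544261 : W_1 (nat_lit 8) (nat_lit 0xf00010001800180000000000000000000000000000000) (nat_lit 0x0) (nat_lit 0xb8000c00c7002000600010000000000000000000000000000) := T_1 (nat_lit 162) (nat_lit 163) (nat_lit 2) (nat_lit 6) (nat_lit 10) L3544260 (by decide +kernel)
theorem L3544262 : W_1 (nat_lit 9) (nat_lit 0xf00000001800180000000000000000000000000000000) (nat_lit 0x0) (nat_lit 0xf8000c00d7002000600010000000000000000000000000000) := T_1 (nat_lit 160) (nat_lit 194) (nat_lit 6) (nat_lit 7) (nat_lit 11) L3544261 (by decide +kernel)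
theorem L3544263 : W_1 (nat_lit 10) (nat_lit 0xe00000001800180000000000000000000000000000000) (nat_lit 0x0) (nat_lit 0x3fc001c00d7002000600010000000000000000000000000000) := Q_1 (nat_lit 176) (C_1 L3484845 (C_1 L3482949 (C_1 L3544262 N_1))) (by decide +kernel)
theorem L3544264 : W_1 (nat_lit 11) (nat_lit 0x600000001800180000000000000000000000000000000) (nat_lit 0x0) (nat_lit 0xffc039c03d7002000600010000000000000000000000000000) := Q_1 (nat_lit 179) (C_1 L3482964 (C_1 L3482953 (C_1 L1452023 (C_1 L3544254 (C_1 L3544263 N_1))))) (by decide +kernel)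
theorem L3551717 : W_1 (nat_lit 2) (nat_lit 0xe00024001e000c0001800080000000000000000000000000000000) (nat_lit 0x0) (nat_lit 0x100018000000000000000000000000000000000000000000000000) := D_1 (nat_lit 195) (nat_lit 196) (nat_lit 212) (nat_lit 3) (nat_lit 7) (nat_lit 11) (nat_lit 0) (nat_lit 11) (nat_lit 12) (by decide +kernel)
theorem L3551718 : W_1 (nat_lit 3) (nat_lit 0x600024001e000c0001800080000000000000000000000000000000) (nat_lit 0x0) (nat_lit 0x10000900018000000000000000000000000000000000000000000000000) := T_1 (nat_lit 215) (nat_lit 232) (nat_lit 7) (nat_lit 10) (nat_lit 9) L3551717 (by decide +kernel)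
theorem L3551719 : W_1 (nat_lit 4) (nat_lit 0x400024001e000c0001800080000000000000000000000000000000) (nat_lit 0x0) (nat_lit 0x14000b00018000000000000000000000000000000000000000000000000) := T_1 (nat_lit 213) (nat_lit 230) (nat_lit 5) (nat_lit 10) (nat_lit 9) L3551718 (by decide +kernel)
theorem L3551720 : W_1 (nat_lit 5) (nat_lit 0x24001e000c0001800080000000000000000000000000000000) (nat_lit 0x0) (nat_lit 0x1c000f00018000000000000000000000000000000000000000000000000) := T_1 (nat_lit 214) (nat_lit 231) (nat_lit 4) (nat_lit 10) (nat_lit 13) L3551719 (by decide +kernel)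
theorem L3551721 : W_1 (nat_lit 6) (nat_lit 0x20001e000c0001800080000000000000000000000000000000) (nat_lit 0x0) (nat_lit 0x1c000f0001e000000000000000000000000000000000000000000000000) := T_1 (nat_lit 194) (nat_lit 193) (nat_lit 1) (nat_lit 10) (nat_lit 10) L3551720 (by decide +kernel)
theorem L3551722 : W_1 (nat_lit 7) (nat_lit 0x1e000c0001800080000000000000000000000000000000) (nat_lit 0x0) (nat_lit 0x1c000f0007e000000000000000000000000000000000000000000000000) := T_1 (nat_lit 197) (nat_lit 198) (nat_lit 3) (nat_lit 7) (nat_lit 10) L3551721 (by decide +kernel)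
theorem L3551723 : W_1 (nat_lit 8) (nat_lit 0x1e00040001800080000000000000000000000000000000) (nat_lit 0x0) (nat_lit 0x1c000f0007e000000180000000000000000000000000000000000000000) := T_1 (nat_lit 163) (nat_lit 164) (nat_lit 2) (nat_lit 7) (nat_lit 10) L3551722 (by decide +kernel)
theorem L3551724 : W_1 (nat_lit 2) (nat_lit 0x20001e00040001800080000000000000000000000000000000) (nat_lit 0x0) (nat_lit 0x10000000000002000100000000000000000000000000000000) := D_1 (nat_lit 145) (nat_lit 196) (nat_lit 128) (nat_lit 4) (nat_lit 9) (nat_lit 11) (nat_lit 7) (nat_lit 9) (nat_lit 7) (by decide +kernel)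
theorem L3551725 : W_1 (nat_lit 3) (nat_lit 0x1e00040001800080000000000000000000000000000000) (nat_lit 0x0) (nat_lit 0x70000000000002000100000000000000000000000000000000) := T_1 (nat_lit 197) (nat_lit 198) (nat_lit 3) (nat_lit 7) (nat_lit 10) L3551724 (by decide +kernel)
theorem L3551726 : W_1 (nat_lit 3) (nat_lit 0x1e000c0001800080000000000000000000000000000000) (nat_lit 0x0) (nat_lit 0x400060000000000002000100000000000000000000000000000000) := T_1 (nat_lit 197) (nat_lit 198) (nat_lit 3) (nat_lit 7) (nat_lit 10) L236675 (by decide +kernel)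
theorem L3551727 : W_1 (nat_lit 4) (nat_lit 0x1e00040001800080000000000000000000000000000000) (nat_lit 0x0) (nat_lit 0x400060000000180002000100000000000000000000000000000000) := T_1 (nat_lit 163) (nat_lit 164) (nat_lit 2) (nat_lit 7) (nat_lit 10) L3551726 (by decide +kernel)
theorem L3551730 : W_1 (nat_lit 5) (nat_lit 0xe00000001800080000000000000000000000000000000) (nat_lit 0x0) (nat_lit 0x7f80118000e000000000000000000000000000000000000000) := Q_1 (nat_lit 176) (C_1 L1404495 (C_1 L236665 (C_1 L236639 N_1))) (by decide +kernel)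
theorem L3551732 : W_1 (nat_lit 5) (nat_lit 0xe00000001800080000000000000000000000000000000) (nat_lit 0x0) (nat_lit 0x7b8011801ce000000000000000000000000000000000000000) := Q_1 (nat_lit 176) (C_1 L1473415 (C_1 L236665 (C_1 L236639 N_1))) (by decide +kernel)
theorem L3712597 : W_1 (nat_lit 2) (nat_lit 0x100018001c000a000080000000000000000000000) (nat_lit 0x0) (nat_lit 0x10000c000000000000000000) := D_1 (nat_lit 92) (nat_lit 74) (nat_lit 75) (nat_lit 4) (nat_lit 7) (nat_lit 8) (nat_lit 7) (nat_lit 7) (nat_lit 4) (by decide +kernel)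
theorem L3712598 : W_1 (nat_lit 3) (nat_lit 0x100018001c000a000000000000000000000000000) (nat_lit 0x0) (nat_lit 0x100018000c000000000000000000) := T_1 (nat_lit 91) (nat_lit 108) (nat_lit 4) (nat_lit 7) (nat_lit 9) L3712597 (by decide +kernel)
theorem L3712599 : W_1 (nat_lit 2) (nat_lit 0x1c0018001c000a000080020000000000000000000) (nat_lit 0x0) (nat_lit 0x2600000000000000000000000000000000000) := D_1 (nat_lit 142) (nat_lit 141) (nat_lit 145) (nat_lit 2) (nat_lit 5) (nat_lit 8) (nat_lit 1) (nat_lit 9) (nat_lit 8) (by decide +kernel)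
theorem L3712600 : W_1 (nat_lit 3) (nat_lit 0x180018001c000a000080020000000000000000000) (nat_lit 0x0) (nat_lit 0x6002600000000000000000000000000000000000) := T_1 (nat_lit 158) (nat_lit 157) (nat_lit 2) (nat_lit 4) (nat_lit 9) L3712599 (by decide +kernel)
theorem L3712601 : W_1 (nat_lit 4) (nat_lit 0x100018001c000a000080020000000000000000000) (nat_lit 0x0) (nat_lit 0x10000e002600000000000000000000000000000000000) := T_1 (nat_lit 159) (nat_lit 176) (nat_lit 5) (nat_lit 7) (nat_lit 6) L3712600 (by decide +kernel)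
theorem L3712602 : W_1 (nat_lit 5) (nat_lit 0x100018001c000a000000020000000000000000000) (nat_lit 0x0) (nat_lit 0x10000e002600000001000080000000000000000000000) := T_1 (nat_lit 91) (nat_lit 108) (nat_lit 4) (nat_lit 7) (nat_lit 9) L3712601 (by decide +kernel)
theorem L3712603 : W_1 (nat_lit 6) (nat_lit 0x100018001c000a000000000000000000000000000) (nat_lit 0x0) (nat_lit 0x10000e002600000001000480020000000000000000000) := T_1 (nat_lit 77) (nat_lit 94) (nat_lit 5) (nat_lit 9) (nat_lit 4) L3712602 (by decide +kernel)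
theorem L3712613 : W_1 (nat_lit 2) (nat_lit 0x1c0018001c0008000000020000000000000000000) (nat_lit 0x0) (nat_lit 0x2600000000000000000000000000000000000) := D_1 (nat_lit 142) (nat_lit 141) (nat_lit 145) (nat_lit 2) (nat_lit 5) (nat_lit 8) (nat_lit 1) (nat_lit 9) (nat_lit 8) (by decide +kernel)
theorem L3712614 : W_1 (nat_lit 3) (nat_lit 0x180018001c0008000000020000000000000000000) (nat_lit 0x0) (nat_lit 0x6002600000000000000000000000000000000000) := T_1 (nat_lit 158) (nat_lit 157) (nat_lit 2) (nat_lit 4) (nat_lit 9) L3712613 (by decide +kernel)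
theorem L3712615 : W_1 (nat_lit 4) (nat_lit 0x180018001c0008000000000000000000000000000) (nat_lit 0x0) (nat_lit 0x6002600000000000400020000000000000000000) := T_1 (nat_lit 77) (nat_lit 94) (nat_lit 5) (nat_lit 9) (nat_lit 4) L3712614 (by decide +kernel)
theorem L3749315 : W_1 (nat_lit 4) (nat_lit 0x1a00180004000200018000000000000000000) (nat_lit 0x0) (nat_lit 0x600008000000020001800080000000000) := T_1 (nat_lit 129) (nat_lit 130) (nat_lit 1) (nat_lit 11) (nat_lit 7) L3434458 (by decide +kernel)
theorem L3749316 : W_1 (nat_lit 5) (nat_lit 0x1800180004000200018000000000000000000) (nat_lit 0x0) (nat_lit 0x600600008000000020001800080000000000) := T_1 (nat_lit 141) (nat_lit 142) (nat_lit 2) (nat_lit 5) (nat_lit 8) L3749315 (by decide +kernel)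
theorem L3838617 : W_1 (nat_lit 2) (nat_lit 0x3800180008000f00000000000000000000000) (nat_lit 0x0) (nat_lit 0x40000000000030000000000000000000000000000) := D_1 (nat_lit 112) (nat_lit 113) (nat_lit 162) (nat_lit 3) (nat_lit 7) (nat_lit 5) (nat_lit 6) (nat_lit 9) (nat_lit 9) (by decide +kernel)
theorem L3838618 : W_1 (nat_lit 3) (nat_lit 0x3800180008000700000000000000000000000) (nat_lit 0x0) (nat_lit 0x40000000000030000800040000000000000000000) := T_1 (nat_lit 95) (nat_lit 78) (nat_lit 6) (nat_lit 9) (nat_lit 8) L3838617 (by decide +kernel)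
theorem L3838619 : W_1 (nat_lit 4) (nat_lit 0x1800180008000700000000000000000000000) (nat_lit 0x0) (nat_lit 0x40002000000030000800050000000000000000000) := T_1 (nat_lit 145) (nat_lit 76) (nat_lit 4) (nat_lit 9) (nat_lit 8) L3838618 (by decide +kernel)
theorem L3861970 : W_1 (nat_lit 2) (nat_lit 0x1400180001000f80002000000000000000000) (nat_lit 0x0) (nat_lit 0x20000000040001000000000000000000) := D_1 (nat_lit 90) (nat_lit 72) (nat_lit 125) (nat_lit 0) (nat_lit 8) (nat_lit 5) (nat_lit 4) (nat_lit 6) (nat_lit 8) (by decide +kernel)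
theorem L3861971 : W_1 (nat_lit 3) (nat_lit 0x1400180001000f80000000000000000000000) (nat_lit 0x0) (nat_lit 0x20000000040007000000000000000000) := T_1 (nat_lit 73) (nat_lit 74) (nat_lit 0) (nat_lit 9) (nat_lit 5) L3861970 (by decide +kernel)
theorem L3861972 : W_1 (nat_lit 4) (nat_lit 0x1400180001000f00000000000000000000000) (nat_lit 0x0) (nat_lit 0x200008000c0007000000000000000000) := T_1 (nat_lit 91) (nat_lit 107) (nat_lit 1) (nat_lit 9) (nat_lit 5) L3861971 (by decide +kernel)
theorem L3861973 : W_1 (nat_lit 5) (nat_lit 0x1400180000000f00000000000000000000000) (nat_lit 0x0) (nat_lit 0x200038000c0007000000000000000000) := T_1 (nat_lit 108) (nat_lit 109) (nat_lit 1) (nat_lit 10) (nat_lit 5) L3861972 (by decide +kernel)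
theorem L3928843 : W_1 (nat_lit 11) (nat_lit 0x1000080000000200000000000000000000000) (nat_lit 0x0) (nat_lit 0x18000e0074003fc01dc003e001400000000000000) := Q_1 (nat_lit 110) (C_1 L18142 (C_1 L20424 (C_1 L180 (C_1 L18141 N_1)))) (by decide +kernel)
theorem L3928844 : W_1 (nat_lit 10) (nat_lit 0x1000080000000200000000000000000000000) (nat_lit 0x0) (nat_lit 0x5e002e00778007000500038001000000000000000) := Q_1 (nat_lit 110) (C_1 L20653 (C_1 L18142 (C_1 L18151 N_1))) (by decide +kernel)
theorem L3928845 : W_1 (nat_lit 12) (nat_lit 0x1000080000000200000000000000000000000) (nat_lit 0x0) (nat_lit 0x50002e0017001de005e003f801400000000000000) := Q_1 (nat_lit 110) (C_1 L18151 (C_1 L20380 (C_1 L18142 (C_1 L18150 N_1)))) (by decide +kernel)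
theorem L3929267 : W_1 (nat_lit 2) (nat_lit 0x1a001800088007c0001000000000000000000) (nat_lit 0x0) (nat_lit 0x10000000020000800000000000000000) := D_1 (nat_lit 89) (nat_lit 71) (nat_lit 124) (nat_lit 0) (nat_lit 7) (nat_lit 5) (nat_lit 4) (nat_lit 5) (nat_lit 8) (by decide +kernel)
theorem L3929268 : W_1 (nat_lit 3) (nat_lit 0x1a001800088007c0000000000000000000000) (nat_lit 0x0) (nat_lit 0x10000000020003800000000000000000) := T_1 (nat_lit 72) (nat_lit 73) (nat_lit 0) (nat_lit 8) (nat_lit 5) L3929267 (by decide +kernel)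
theorem L3929269 : W_1 (nat_lit 4) (nat_lit 0x1a00180008800780000000000000000000000) (nat_lit 0x0) (nat_lit 0x10000400060003800000000000000000) := T_1 (nat_lit 90) (nat_lit 106) (nat_lit 1) (nat_lit 8) (nat_lit 5) L3929268 (by decide +kernel)
theorem L3929270 : W_1 (nat_lit 5) (nat_lit 0x1a00180008000780000000000000000000000) (nat_lit 0x0) (nat_lit 0x10001c00060003800000000000000000) := T_1 (nat_lit 107) (nat_lit 108) (nat_lit 1) (nat_lit 9) (nat_lit 5) L3929269 (by decide +kernel)
theorem L3929271 : W_1 (nat_lit 6) (nat_lit 0x1800180008000780000000000000000000000) (nat_lit 0x0) (nat_lit 0x600010001c00060003800000000000000000) := T_1 (nat_lit 141) (nat_lit 142) (nat_lit 2) (nat_lit 5) (nat_lit 8) L3929270 (by decide +kernel)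
theorem L3929272 : W_1 (nat_lit 7) (nat_lit 0x1800180000000780000000000000000000000) (nat_lit 0x0) (nat_lit 0x600010019c00060003800000000000000000) := T_1 (nat_lit 111) (nat_lit 112) (nat_lit 3) (nat_lit 6) (nat_lit 5) L3929271 (by decide +kernel)
theorem L3929513 : W_1 (nat_lit 2) (nat_lit 0x1a001e0000000300000000000000000000000) (nat_lit 0x0) (nat_lit 0x100018000000000000000000000000000000) := D_1 (nat_lit 124) (nat_lit 140) (nat_lit 123) (nat_lit 1) (nat_lit 8) (nat_lit 7) (nat_lit 3) (nat_lit 4) (nat_lit 7) (by decide +kernel)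
theorem L3929514 : W_1 (nat_lit 3) (nat_lit 0x18001e0000000300000000000000000000000) (nat_lit 0x0) (nat_lit 0x700018000000000000000000000000000000) := T_1 (nat_lit 141) (nat_lit 142) (nat_lit 2) (nat_lit 5) (nat_lit 8) L3929513 (by decide +kernel)
theorem L3929515 : W_1 (nat_lit 2) (nat_lit 0x1c001e0001000300000000000000000000000) (nat_lit 0x0) (nat_lit 0x200010000000000000000080000000000000000000000) := D_1 (nat_lit 160) (nat_lit 177) (nat_lit 91) (nat_lit 4) (nat_lit 7) (nat_lit 10) (nat_lit 7) (nat_lit 6) (nat_lit 5) (by decide +kernel)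
theorem L3929516 : W_1 (nat_lit 3) (nat_lit 0x1c001e0000000300000000000000000000000) (nat_lit 0x0) (nat_lit 0x200010000000000001800080000000000000000000000) := T_1 (nat_lit 108) (nat_lit 107) (nat_lit 0) (nat_lit 9) (nat_lit 7) L3929515 (by decide +kernel)
theorem L3929517 : W_1 (nat_lit 4) (nat_lit 0x18001e0000000300000000000000000000000) (nat_lit 0x0) (nat_lit 0x200010000600000001800080000000000000000000000) := T_1 (nat_lit 142) (nat_lit 141) (nat_lit 2) (nat_lit 5) (nat_lit 8) L3929516 (by decide +kernel)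
theorem L3929518 : W_1 (nat_lit 5) (nat_lit 0x18001c0000000300000000000000000000000) (nat_lit 0x0) (nat_lit 0x200010000700038001c00080000000000000000000000) := Q_1 (nat_lit 125) (C_1 L3506258 (C_1 L3929514 (C_1 L3929517 N_1))) (by decide +kernel)
theorem L3931238 : W_1 (nat_lit 2) (nat_lit 0x1c00180000000700000000000000000000000) (nat_lit 0x0) (nat_lit 0x640000000000000000000000000000000) := D_1 (nat_lit 129) (nat_lit 126) (nat_lit 130) (nat_lit 1) (nat_lit 10) (nat_lit 7) (nat_lit 1) (nat_lit 11) (nat_lit 7) (by decide +kernel)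
theorem L3933719 : W_1 (nat_lit 7) (nat_lit 0x18000c0000000300000000000000000000000) (nat_lit 0x0) (nat_lit 0x200010000700738039c00080000000000000000000000) := Q_1 (nat_lit 128) (C_1 L259246 (C_1 L3929518 (C_1 L258607 N_1))) (by decide +kernel)
theorem L3934148 : W_1 (nat_lit 2) (nat_lit 0x1c00180000000f00040000000000000000000) (nat_lit 0x0) (nat_lit 0x640000000000000000000000000000000) := D_1 (nat_lit 129) (nat_lit 130) (nat_lit 126) (nat_lit 1) (nat_lit 11) (nat_lit 7) (nat_lit 1) (nat_lit 10) (nat_lit 7) (by decide +kernel)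
theorem L3934149 : W_1 (nat_lit 3) (nat_lit 0x1800180000000f00040000000000000000000) (nat_lit 0x0) (nat_lit 0x600640000000000000000000000000000000) := T_1 (nat_lit 142) (nat_lit 141) (nat_lit 2) (nat_lit 5) (nat_lit 8) L3934148 (by decide +kernel)
theorem L3934150 : W_1 (nat_lit 4) (nat_lit 0x1800180000000f00000000000000000000000) (nat_lit 0x0) (nat_lit 0x6006400000000000c0000000000000000000) := T_1 (nat_lit 78) (nat_lit 79) (nat_lit 2) (nat_lit 7) (nat_lit 5) L3934149 (by decide +kernel)
theorem L3948054 : W_1 (nat_lit 2) (nat_lit 0x1000380030000780003000000000000000000) (nat_lit 0x0) (nat_lit 0x4000c0000000000000000000000000000) := D_1 (nat_lit 114) (nat_lit 115) (nat_lit 130) (nat_lit 1) (nat_lit 13) (nat_lit 6) (nat_lit 2) (nat_lit 8) (nat_lit 7) (by decide +kernel)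
theorem L3948069 : W_1 (nat_lit 2) (nat_lit 0x10003800308007c0001800000000000000000) (nat_lit 0x0) (nat_lit 0x4000c0000000000000000000000000000) := D_1 (nat_lit 114) (nat_lit 115) (nat_lit 130) (nat_lit 1) (nat_lit 13) (nat_lit 6) (nat_lit 2) (nat_lit 8) (nat_lit 7) (by decide +kernel)
theorem L3949475 : W_1 (nat_lit 3) (nat_lit 0x1800180000000700000000000000000000000) (nat_lit 0x0) (nat_lit 0x600640000000000000000000000000000000) := T_1 (nat_lit 142) (nat_lit 141) (nat_lit 2) (nat_lit 5) (nat_lit 8) L3931238 (by decide +kernel)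
theorem L3949620 : W_1 (nat_lit 2) (nat_lit 0x2001c00048003c001c0008000700000000000000000000000) (nat_lit 0x0) (nat_lit 0x4000200010000000000000000000000000000000000000000) := D_1 (nat_lit 177) (nat_lit 194) (nat_lit 160) (nat_lit 1) (nat_lit 10) (nat_lit 10) (nat_lit 0) (nat_lit 10) (nat_lit 10) (by decide +kernel)
theorem L3949621 : W_1 (nat_lit 3) (nat_lit 0x2001800048003c001c0008000700000000000000000000000) (nat_lit 0x0) (nat_lit 0xc000600010000000000000000000000000000000000000000) := T_1 (nat_lit 178) (nat_lit 195) (nat_lit 5) (nat_lit 9) (nat_lit 7) L3949620 (by decide +kernel)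
theorem L3949622 : W_1 (nat_lit 4) (nat_lit 0x1800048003c001c0008000700000000000000000000000) (nat_lit 0x0) (nat_lit 0xe000700010000000000000000000000000000000000000000) := T_1 (nat_lit 193) (nat_lit 176) (nat_lit 6) (nat_lit 6) (nat_lit 11) L3949621 (by decide +kernel)
theorem L3949623 : W_1 (nat_lit 5) (nat_lit 0x800048003c001c0008000700000000000000000000000) (nat_lit 0x0) (nat_lit 0x2e001700010000000000000000000000000000000000000000) := T_1 (nat_lit 180) (nat_lit 197) (nat_lit 7) (nat_lit 9) (nat_lit 7) L3949622 (by decide +kernel)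
theorem L3949624 : W_1 (nat_lit 6) (nat_lit 0x800048003c00180008000700000000000000000000000) (nat_lit 0x0) (nat_lit 0x2e001700010000000040002000000000000000000000000000) := T_1 (nat_lit 126) (nat_lit 109) (nat_lit 5) (nat_lit 7) (nat_lit 5) L3949623 (by decide +kernel)
theorem L3949625 : W_1 (nat_lit 7) (nat_lit 0x48003c00180008000700000000000000000000000) (nat_lit 0x0) (nat_lit 0x3e001f00010000000040002000000000000000000000000000) := T_1 (nat_lit 179) (nat_lit 196) (nat_lit 4) (nat_lit 9) (nat_lit 11) L3949624 (by decide +kernel)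
theorem L3949626 : W_1 (nat_lit 8) (nat_lit 0x40003c00180008000700000000000000000000000) (nat_lit 0x0) (nat_lit 0x3e001f0001c000000040002000000000000000000000000000) := T_1 (nat_lit 159) (nat_lit 158) (nat_lit 1) (nat_lit 9) (nat_lit 8) L3949625 (by decide +kernel)
theorem L3949627 : W_1 (nat_lit 9) (nat_lit 0x3c00180008000700000000000000000000000) (nat_lit 0x0) (nat_lit 0x3e001f000dc000000040002000000000000000000000000000) := T_1 (nat_lit 162) (nat_lit 163) (nat_lit 3) (nat_lit 6) (nat_lit 8) L3949626 (by decide +kernel)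
theorem L3949628 : W_1 (nat_lit 10) (nat_lit 0x1c00180008000700000000000000000000000) (nat_lit 0x0) (nat_lit 0x3e001f000dc002000040002000000010000000000000000000) := T_1 (nat_lit 145) (nat_lit 76) (nat_lit 4) (nat_lit 9) (nat_lit 8) L3949627 (by decide +kernel)
theorem L3949715 : W_1 (nat_lit 2) (nat_lit 0x1000fc0022000700020000000000000000000) (nat_lit 0x0) (nat_lit 0x38000000000000000000000000000000000000) := D_1 (nat_lit 148) (nat_lit 147) (nat_lit 149) (nat_lit 3) (nat_lit 8) (nat_lit 7) (nat_lit 3) (nat_lit 9) (nat_lit 7) (by decide +kernel)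
theorem L3949716 : W_1 (nat_lit 3) (nat_lit 0x10007c0022000700020000000000000000000) (nat_lit 0x0) (nat_lit 0x3a000800000000000000000000000000000000) := T_1 (nat_lit 131) (nat_lit 145) (nat_lit 1) (nat_lit 12) (nat_lit 7) L3949715 (by decide +kernel)
theorem L3949717 : W_1 (nat_lit 4) (nat_lit 0x10003c0022000700020000000000000000000) (nat_lit 0x0) (nat_lit 0x3a000c00040000000000000000000000000000) := T_1 (nat_lit 130) (nat_lit 114) (nat_lit 2) (nat_lit 8) (nat_lit 7) L3949716 (by decide +kernel)
theorem L3949718 : W_1 (nat_lit 5) (nat_lit 0x10003c0002000700020000000000000000000) (nat_lit 0x0) (nat_lit 0x3a000c00070000000000000000000000000000) := T_1 (nat_lit 113) (nat_lit 112) (nat_lit 2) (nat_lit 7) (nat_lit 7) L3949717 (by decide +kernel)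
theorem L3949719 : W_1 (nat_lit 6) (nat_lit 0x10001c0002000700020000000000000000000) (nat_lit 0x0) (nat_lit 0x3a000e00071000000000000000000000000000) := T_1 (nat_lit 129) (nat_lit 108) (nat_lit 0) (nat_lit 10) (nat_lit 7) L3949718 (by decide +kernel)
theorem L3949721 : W_1 (nat_lit 7) (nat_lit 0x10001c0000000700020000000000000000000) (nat_lit 0x0) (nat_lit 0x3a000e00073000000008000000000000000000) := T_1 (nat_lit 109) (nat_lit 75) (nat_lit 7) (nat_lit 7) (nat_lit 4) L3949719 (by decide +kernel)
theorem L3952022 : W_1 (nat_lit 2) (nat_lit 0x1c00180002000f00000000000000000000000) (nat_lit 0x0) (nat_lit 0x8000000040000000000010000000000000000000) := D_1 (nat_lit 126) (nat_lit 159) (nat_lit 76) (nat_lit 5) (nat_lit 7) (nat_lit 5) (nat_lit 6) (nat_lit 7) (nat_lit 8) (by decide +kernel)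
theorem L3952023 : W_1 (nat_lit 3) (nat_lit 0x1c00180000000f00000000000000000000000) (nat_lit 0x0) (nat_lit 0x8000000040003000000010000000000000000000) := T_1 (nat_lit 109) (nat_lit 108) (nat_lit 1) (nat_lit 10) (nat_lit 5) L3952022 (by decide +kernel)
theorem L3952024 : W_1 (nat_lit 4) (nat_lit 0x1400180000000f00000000000000000000000) (nat_lit 0x0) (nat_lit 0x8000a00040003000000010000000000000000000) := T_1 (nat_lit 143) (nat_lit 141) (nat_lit 2) (nat_lit 5) (nat_lit 8) L3952023 (by decide +kernel)
theorem L3958800 : W_1 (nat_lit 2) (nat_lit 0x1000180021000f80083000000000000000000) (nat_lit 0x0) (nat_lit 0x40001000100000000000000000000) := D_1 (nat_lit 96) (nat_lit 114) (nat_lit 80) (nat_lit 3) (nat_lit 8) (nat_lit 5) (nat_lit 2) (nat_lit 8) (nat_lit 5) (by decide +kernel)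
theorem L3958801 : W_1 (nat_lit 3) (nat_lit 0x1000180021000f80003000000000000000000) (nat_lit 0x0) (nat_lit 0x400010001c0000000000000000000) := T_1 (nat_lit 79) (nat_lit 78) (nat_lit 2) (nat_lit 7) (nat_lit 5) L3958800 (by decide +kernel)
theorem L3962689 : W_1 (nat_lit 5) (nat_lit 0x14000e0001000380000000000000000000000) (nat_lit 0x0) (nat_lit 0xc000380000000c00040002000000000000000000) := T_1 (nat_lit 141) (nat_lit 158) (nat_lit 5) (nat_lit 6) (nat_lit 5) L259413 (by decide +kernel)
theorem L3962698 : W_1 (nat_lit 2) (nat_lit 0x16000e0001000300000000000000000000000) (nat_lit 0x0) (nat_lit 0x4000000000000000080008000000000000000000) := D_1 (nat_lit 91) (nat_lit 75) (nat_lit 158) (nat_lit 6) (nat_lit 6) (nat_lit 8) (nat_lit 5) (nat_lit 6) (nat_lit 5) (by decide +kernel)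
theorem L3962699 : W_1 (nat_lit 3) (nat_lit 0x14000e0001000300000000000000000000000) (nat_lit 0x0) (nat_lit 0x4000200100000000080008000000000000000000) := T_1 (nat_lit 141) (nat_lit 128) (nat_lit 1) (nat_lit 9) (nat_lit 7) L3962698 (by decide +kernel)
theorem L3962701 : W_1 (nat_lit 2) (nat_lit 0x14000e0001000380000000000000000000000) (nat_lit 0x0) (nat_lit 0x10000800000000000000004000000000000000000) := D_1 (nat_lit 143) (nat_lit 74) (nat_lit 160) (nat_lit 7) (nat_lit 6) (nat_lit 4) (nat_lit 7) (nat_lit 6) (nat_lit 5) (by decide +kernel)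
theorem L3962702 : W_1 (nat_lit 3) (nat_lit 0x14000e0001000300000000000000000000000) (nat_lit 0x0) (nat_lit 0x1000080000000000008000c000000000000000000) := T_1 (nat_lit 91) (nat_lit 75) (nat_lit 6) (nat_lit 6) (nat_lit 8) L3962701 (by decide +kernel)
theorem L3962705 : W_1 (nat_lit 3) (nat_lit 0x10000e0001000380000000000000000000000) (nat_lit 0x0) (nat_lit 0x40000000000000000c000400020000000000) := T_1 (nat_lit 75) (nat_lit 142) (nat_lit 6) (nat_lit 6) (nat_lit 8) L257987 (by decide +kernel)
theorem L3962706 : W_1 (nat_lit 3) (nat_lit 0x10000e0001000380004000400020000000000) (nat_lit 0x0) (nat_lit 0x40003800100000000000000) := T_1 (nat_lit 73) (nat_lit 56) (nat_lit 4) (nat_lit 6) (nat_lit 7) L261938 (by decide +kernel)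
theorem L3962707 : W_1 (nat_lit 4) (nat_lit 0x10000e0001000380004000400000000000000) (nat_lit 0x0) (nat_lit 0x40003800300020000000000) := T_1 (nat_lit 41) (nat_lit 57) (nat_lit 6) (nat_lit 6) (nat_lit 6) L3962706 (by decide +kernel)
theorem L3962708 : W_1 (nat_lit 5) (nat_lit 0x10000e0001000380004000000000000000000) (nat_lit 0x0) (nat_lit 0x4000b800700020000000000) := T_1 (nat_lit 58) (nat_lit 75) (nat_lit 6) (nat_lit 6) (nat_lit 7) L3962707 (by decide +kernel)
theorem L3962709 : W_1 (nat_lit 6) (nat_lit 0x10000e0001000380000000000000000000000) (nat_lit 0x0) (nat_lit 0x80000000000004000f800700020000000000) := T_1 (nat_lit 74) (nat_lit 143) (nat_lit 7) (nat_lit 6) (nat_lit 4) L3962708 (by decide +kernel)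
theorem L3962710 : W_1 (nat_lit 2) (nat_lit 0x10000e0001000380006000000000000000000) (nat_lit 0x0) (nat_lit 0x40001800000000000000000) := D_1 (nat_lit 72) (nat_lit 71) (nat_lit 90) (nat_lit 3) (nat_lit 3) (nat_lit 4) (nat_lit 0) (nat_lit 8) (nat_lit 5) (by decide +kernel)
theorem L3962711 : W_1 (nat_lit 3) (nat_lit 0x10000e0001000380004000000000000000000) (nat_lit 0x0) (nat_lit 0x40003800100000000000000) := T_1 (nat_lit 73) (nat_lit 56) (nat_lit 4) (nat_lit 6) (nat_lit 7) L3962710 (by decide +kernel)
theorem L3962712 : W_1 (nat_lit 4) (nat_lit 0x10000e0001000380000000000000000000000) (nat_lit 0x0) (nat_lit 0x800000000000040007800100000000000000) := T_1 (nat_lit 74) (nat_lit 143) (nat_lit 7) (nat_lit 6) (nat_lit 4) L3962711 (by decide +kernel)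
theorem L3962713 : W_1 (nat_lit 6) (nat_lit 0x10000e0001000380000000000000000000000) (nat_lit 0x0) (nat_lit 0xc000780000000c0004000a000000000000000000) := T_1 (nat_lit 142) (nat_lit 75) (nat_lit 6) (nat_lit 6) (nat_lit 8) L3962689 (by decide +kernel)
theorem L3962714 : W_1 (nat_lit 7) (nat_lit 0x10000e0001000300000000000000000000000) (nat_lit 0x0) (nat_lit 0xc000f80000000c000c000f800700020000000000) := Q_1 (nat_lit 91) (C_1 L3962705 (C_1 L3962709 (C_1 L3962712 (C_1 L3962713 N_1)))) (by decide +kernel)
theorem L3962715 : W_1 (nat_lit 2) (nat_lit 0x10000e0001c00380004000600000000000000) (nat_lit 0x0) (nat_lit 0x2000100008000000000) := D_1 (nat_lit 56) (nat_lit 73) (nat_lit 39) (nat_lit 4) (nat_lit 6) (nat_lit 7) (nat_lit 4) (nat_lit 6) (nat_lit 6) (by decide +kernel)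
theorem L3962716 : W_1 (nat_lit 3) (nat_lit 0x10000e0001c00380004000400000000000000) (nat_lit 0x0) (nat_lit 0x2000300028000000000) := T_1 (nat_lit 57) (nat_lit 41) (nat_lit 6) (nat_lit 6) (nat_lit 6) L3962715 (by decide +kernel)
theorem L3962717 : W_1 (nat_lit 4) (nat_lit 0x10000e0001c00380004000000000000000000) (nat_lit 0x0) (nat_lit 0xa000700028000000000) := T_1 (nat_lit 58) (nat_lit 75) (nat_lit 6) (nat_lit 6) (nat_lit 7) L3962716 (by decide +kernel)
theorem L3962718 : W_1 (nat_lit 5) (nat_lit 0x10000e0001c00380000000000000000000000) (nat_lit 0x0) (nat_lit 0x80000000000000000e000700028000000000) := T_1 (nat_lit 74) (nat_lit 143) (nat_lit 7) (nat_lit 6) (nat_lit 4) L3962717 (by decide +kernel)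
theorem L3962719 : W_1 (nat_lit 6) (nat_lit 0x10000e0001c00300000000000000000000000) (nat_lit 0x0) (nat_lit 0x8000000000000c000e000700028000000000) := T_1 (nat_lit 91) (nat_lit 90) (nat_lit 1) (nat_lit 8) (nat_lit 5) L3962718 (by decide +kernel)
theorem L3962720 : W_1 (nat_lit 7) (nat_lit 0x10000e0001800300000000000000000000000) (nat_lit 0x0) (nat_lit 0x8000000006000c000e000700028000000000) := T_1 (nat_lit 106) (nat_lit 105) (nat_lit 3) (nat_lit 3) (nat_lit 6) L3962719 (by decide +kernel)
theorem L3962721 : W_1 (nat_lit 8) (nat_lit 0x10000e0001000300000000000000000000000) (nat_lit 0x0) (nat_lit 0x800100000e000c000e000700028000000000) := T_1 (nat_lit 107) (nat_lit 128) (nat_lit 0) (nat_lit 9) (nat_lit 7) L3962720 (by decide +kernel)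
theorem L3962722 : W_1 (nat_lit 2) (nat_lit 0x1200fe0011000300000000000000000000000) (nat_lit 0x0) (nat_lit 0x38000000000000000000000000000000000000) := D_1 (nat_lit 148) (nat_lit 147) (nat_lit 149) (nat_lit 3) (nat_lit 8) (nat_lit 7) (nat_lit 3) (nat_lit 9) (nat_lit 7) (by decide +kernel)
theorem L3962723 : W_1 (nat_lit 3) (nat_lit 0x12007e0011000300000000000000000000000) (nat_lit 0x0) (nat_lit 0x3a000800000000000000000000000000000000) := T_1 (nat_lit 131) (nat_lit 145) (nat_lit 1) (nat_lit 12) (nat_lit 7) L3962722 (by decide +kernel)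
theorem L3962724 : W_1 (nat_lit 4) (nat_lit 0x12003e0011000300000000000000000000000) (nat_lit 0x0) (nat_lit 0x3a800c00000000000000000000000000000000) := T_1 (nat_lit 130) (nat_lit 143) (nat_lit 1) (nat_lit 11) (nat_lit 7) L3962723 (by decide +kernel)
theorem L3962725 : W_1 (nat_lit 5) (nat_lit 0x12001e0011000300000000000000000000000) (nat_lit 0x0) (nat_lit 0x3a800e00020000000000000000000000000000) := T_1 (nat_lit 129) (nat_lit 113) (nat_lit 2) (nat_lit 7) (nat_lit 7) L3962724 (by decide +kernel)
theorem L3962726 : W_1 (nat_lit 6) (nat_lit 0x12001e0001000300000000000000000000000) (nat_lit 0x0) (nat_lit 0x3a800e00038000000000000000000000000000) := T_1 (nat_lit 112) (nat_lit 111) (nat_lit 2) (nat_lit 6) (nat_lit 7) L3962725 (by decide +kernel)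
theorem L3962727 : W_1 (nat_lit 7) (nat_lit 0x10001e0001000300000000000000000000000) (nat_lit 0x0) (nat_lit 0x3ae00e00038000000000000000000000000000) := T_1 (nat_lit 141) (nat_lit 142) (nat_lit 1) (nat_lit 9) (nat_lit 7) L3962726 (by decide +kernel)
theorem L3962728 : W_1 (nat_lit 8) (nat_lit 0x10000e0001000300000000000000000000000) (nat_lit 0x0) (nat_lit 0x3ae00f00038800000000000000000000000000) := T_1 (nat_lit 128) (nat_lit 107) (nat_lit 0) (nat_lit 9) (nat_lit 7) L3962727 (by decide +kernel)
theorem L3962729 : W_1 (nat_lit 2) (nat_lit 0x14003e0001000300000000000000000000000) (nat_lit 0x0) (nat_lit 0x38000000000000000000000000000) := D_1 (nat_lit 112) (nat_lit 111) (nat_lit 113) (nat_lit 2) (nat_lit 6) (nat_lit 7) (nat_lit 2) (nat_lit 7) (nat_lit 7) (by decide +kernel)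
theorem L3962730 : W_1 (nat_lit 3) (nat_lit 0x14001e0001000300000000000000000000000) (nat_lit 0x0) (nat_lit 0x800200038000000000000000000000000000) := T_1 (nat_lit 129) (nat_lit 143) (nat_lit 1) (nat_lit 10) (nat_lit 7) L3962729 (by decide +kernel)
theorem L3962731 : W_1 (nat_lit 4) (nat_lit 0x14000e0001000300000000000000000000000) (nat_lit 0x0) (nat_lit 0xa00300038000000000000000000000000000) := T_1 (nat_lit 128) (nat_lit 141) (nat_lit 1) (nat_lit 9) (nat_lit 7) L3962730 (by decide +kernel)
theorem L3962732 : W_1 (nat_lit 5) (nat_lit 0x10000e0001000300000000000000000000000) (nat_lit 0x0) (nat_lit 0x14000e0030003800008000c000000000000000000) := Q_1 (nat_lit 142) (C_1 L3962699 (C_1 L3962702 (C_1 L3962731 N_1))) (by decide +kernel)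
theorem L3962733 : W_1 (nat_lit 9) (nat_lit 0x10000e0000000300000000000000000000000) (nat_lit 0x0) (nat_lit 0x1c03af80f00039e000c000f800700028000000000) := Q_1 (nat_lit 108) (C_1 L3962714 (C_1 L259103 (C_1 L3962721 (C_1 L3962728 (C_1 L3962732 N_1))))) (by decide +kernel)
theorem L3962734 : W_1 (nat_lit 10) (nat_lit 0x10000c0000000300000000000000000000000) (nat_lit 0x0) (nat_lit 0x10001c03afc0f3c039f000c000f800700028000000000) := Q_1 (nat_lit 125) (C_1 L404487 (C_1 L258476 (C_1 L23945 (C_1 L258434 (C_1 L3962733 N_1))))) (by decide +kernel)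
theorem L3962735 : W_1 (nat_lit 2) (nat_lit 0x18000c0003800380000000000000000000000) (nat_lit 0x0) (nat_lit 0x320000000000000000000000000000000) := D_1 (nat_lit 128) (nat_lit 129) (nat_lit 125) (nat_lit 0) (nat_lit 10) (nat_lit 7) (nat_lit 0) (nat_lit 9) (nat_lit 7) (by decide +kernel)
theorem L3962736 : W_1 (nat_lit 3) (nat_lit 0x18000c0003000380000000000000000000000) (nat_lit 0x0) (nat_lit 0x320000c00000000000000000000000000) := T_1 (nat_lit 107) (nat_lit 106) (nat_lit 3) (nat_lit 4) (nat_lit 6) L3962735 (by decide +kernel)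
theorem L3962737 : W_1 (nat_lit 4) (nat_lit 0x18000c0002000380000000000000000000000) (nat_lit 0x0) (nat_lit 0x10000000320001c00000000000000000000000000) := T_1 (nat_lit 108) (nat_lit 160) (nat_lit 4) (nat_lit 7) (nat_lit 9) L3962736 (by decide +kernel)
theorem L3962738 : W_1 (nat_lit 5) (nat_lit 0x18000c0002000300000000000000000000000) (nat_lit 0x0) (nat_lit 0x10000000320001c00080004000000000000000000) := T_1 (nat_lit 91) (nat_lit 74) (nat_lit 4) (nat_lit 7) (nat_lit 8) L3962737 (by decide +kernel)
theorem L3962739 : W_1 (nat_lit 6) (nat_lit 0x10000c0002000300000000000000000000000) (nat_lit 0x0) (nat_lit 0x10000800320001c00080014000000000000000000) := T_1 (nat_lit 143) (nat_lit 76) (nat_lit 6) (nat_lit 7) (nat_lit 8) L3962738 (by decide +kernel)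
theorem L3962740 : W_1 (nat_lit 7) (nat_lit 0x10000c0000000300000000000000000000000) (nat_lit 0x0) (nat_lit 0x10000800320003c0008001c000000000000000000) := T_1 (nat_lit 109) (nat_lit 75) (nat_lit 7) (nat_lit 7) (nat_lit 4) L3962739 (by decide +kernel)
theorem L3962741 : W_1 (nat_lit 3) (nat_lit 0x10000e0001800300008000000000000000000) (nat_lit 0x0) (nat_lit 0x400000000000080004000400020000000000) := T_1 (nat_lit 91) (nat_lit 142) (nat_lit 6) (nat_lit 6) (nat_lit 8) L287388 (by decide +kernel)
theorem L3962742 : W_1 (nat_lit 4) (nat_lit 0x10000e0000800300008000000000000000000) (nat_lit 0x0) (nat_lit 0x400100001000080004000400020000000000) := T_1 (nat_lit 108) (nat_lit 128) (nat_lit 0) (nat_lit 9) (nat_lit 7) L3962741 (by decide +kernel)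
theorem L3962743 : W_1 (nat_lit 5) (nat_lit 0x10000e0000800300000000000000000000000) (nat_lit 0x0) (nat_lit 0x40010000300008000c000400020000000000) := T_1 (nat_lit 75) (nat_lit 109) (nat_lit 7) (nat_lit 7) (nat_lit 4) L3962742 (by decide +kernel)
theorem L3962744 : W_1 (nat_lit 7) (nat_lit 0x10000e0000000300000000000000000000000) (nat_lit 0x0) (nat_lit 0x100008000700110003e000c000c000400020000000000) := Q_1 (nat_lit 107) (C_1 L266684 (C_1 L287387 (C_1 L287386 (C_1 L259535 (C_1 L3962743 N_1))))) (by decide +kernel)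
theorem L3962745 : W_1 (nat_lit 7) (nat_lit 0x10000e0000000300000000000000000000000) (nat_lit 0x0) (nat_lit 0x21c001c003e00000008000000000000000000) := T_1 (nat_lit 124) (nat_lit 145) (nat_lit 3) (nat_lit 5) (nat_lit 7) L266664 (by decide +kernel)
theorem L3962754 : W_1 (nat_lit 7) (nat_lit 0x10000e0000000300000000000000000000000) (nat_lit 0x0) (nat_lit 0x400100003e000c000c000400020000000000) := Q_1 (nat_lit 108) (C_1 L259103 (C_1 L267257 (C_1 L258480 N_1))) (by decide +kernel)
theorem L3962755 : W_1 (nat_lit 8) (nat_lit 0x10000c0000000300000000000000000000000) (nat_lit 0x0) (nat_lit 0x1000080027c033c003f000c000c000400020000000000) := Q_1 (nat_lit 125) (C_1 L258493 (C_1 L258487 (C_1 L3962744 (C_1 L23945 (C_1 L3962745 (C_1 L3962754 N_1)))))) (by decide +kernel)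
theorem L3962756 : W_1 (nat_lit 9) (nat_lit 0x18000c0000000300000000000000000000000) (nat_lit 0x0) (nat_lit 0x100008000e002700038003000080014000000000000000000) := T_1 (nat_lit 109) (nat_lit 76) (nat_lit 6) (nat_lit 7) (nat_lit 8) L257587 (by decide +kernel)
theorem L3962757 : W_1 (nat_lit 6) (nat_lit 0x18000c0000000300000000000000000000000) (nat_lit 0x0) (nat_lit 0x10000000320003c00080014000000000000000000) := T_1 (nat_lit 109) (nat_lit 76) (nat_lit 6) (nat_lit 7) (nat_lit 8) L3962738 (by decide +kernel)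
theorem L3962758 : W_1 (nat_lit 10) (nat_lit 0x10000c0000000300000000000000000000000) (nat_lit 0x0) (nat_lit 0x100028001e002f0073803bc00080014000000000000000000) := Q_1 (nat_lit 143) (C_1 L258393 (C_1 L3933719 (C_1 L3962756 (C_1 L3962757 N_1)))) (by decide +kernel)
theorem L3962759 : W_1 (nat_lit 11) (nat_lit 0x1000080000000300000000000000000000000) (nat_lit 0x0) (nat_lit 0x100038001e03afc0f7c03bf000c001f800700028000000000) := Q_1 (nat_lit 126) (C_1 L3962734 (C_1 L258478 (C_1 L23936 (C_1 L3962740 (C_1 L3962755 (C_1 L3962758 N_1)))))) (by decide +kernel)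
theorem L3962760 : W_1 (nat_lit 2) (nat_lit 0x10000800000003c000c000000000000000000) (nat_lit 0x0) (nat_lit 0x20030000000000000000000) := D_1 (nat_lit 76) (nat_lit 77) (nat_lit 89) (nat_lit 2) (nat_lit 5) (nat_lit 5) (nat_lit 2) (nat_lit 4) (nat_lit 5) (by decide +kernel)
theorem L3962761 : W_1 (nat_lit 2) (nat_lit 0x10000800000003c000d000000000000000000) (nat_lit 0x0) (nat_lit 0x30000800000000000000000) := D_1 (nat_lit 89) (nat_lit 71) (nat_lit 88) (nat_lit 0) (nat_lit 7) (nat_lit 5) (nat_lit 2) (nat_lit 3) (nat_lit 5) (by decide +kernel)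
theorem L3962762 : W_1 (nat_lit 3) (nat_lit 0x10000800000003c000c000000000000000000) (nat_lit 0x0) (nat_lit 0x30003800000000000000000) := T_1 (nat_lit 72) (nat_lit 73) (nat_lit 3) (nat_lit 4) (nat_lit 4) L3962761 (by decide +kernel)
theorem L3962763 : W_1 (nat_lit 8) (nat_lit 0x10000800004003c001c000000000000000000) (nat_lit 0x0) (nat_lit 0x3001f8003c000e00000) := T_1 (nat_lit 73) (nat_lit 72) (nat_lit 3) (nat_lit 4) (nat_lit 4) L341034 (by decide +kernel)
theorem L3962764 : W_1 (nat_lit 9) (nat_lit 0x10000800004003c000c000000000000000000) (nat_lit 0x0) (nat_lit 0x33001f8003c000e00000) := T_1 (nat_lit 76) (nat_lit 77) (nat_lit 2) (nat_lit 5) (nat_lit 5) L3962763 (by decide +kernel)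
theorem L3962765 : W_1 (nat_lit 10) (nat_lit 0x10000800000003c000c000000000000000000) (nat_lit 0x0) (nat_lit 0xc00000033001f8003c000e00000) := T_1 (nat_lit 106) (nat_lit 107) (nat_lit 1) (nat_lit 8) (nat_lit 5) L3962764 (by decide +kernel)
theorem L3962766 : W_1 (nat_lit 11) (nat_lit 0x100008000000038000c000000000000000000) (nat_lit 0x0) (nat_lit 0xc00070033801f8003c000e00000) := Q_1 (nat_lit 90) (C_1 L3962760 (C_1 L3962762 (C_1 L3962765 N_1))) (by decide +kernel)
theorem L3962767 : W_1 (nat_lit 2) (nat_lit 0x100008000100038000c000000000000000000) (nat_lit 0x0) (nat_lit 0x20000000000000000400020000000000) := D_1 (nat_lit 58) (nat_lit 41) (nat_lit 125) (nat_lit 5) (nat_lit 7) (nat_lit 2) (nat_lit 6) (nat_lit 6) (nat_lit 7) (by decide +kernel)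
theorem L3962768 : W_1 (nat_lit 2) (nat_lit 0x100008000000038000c000400000000000000) (nat_lit 0x0) (nat_lit 0x1000000000000000020001000000) := D_1 (nat_lit 41) (nat_lit 24) (nat_lit 108) (nat_lit 5) (nat_lit 7) (nat_lit 1) (nat_lit 5) (nat_lit 7) (nat_lit 2) (by decide +kernel)
theorem L3962769 : W_1 (nat_lit 2) (nat_lit 0x10000800004003c000c000000000000000000) (nat_lit 0x0) (nat_lit 0x200030000000000000000000000) := D_1 (nat_lit 89) (nat_lit 105) (nat_lit 88) (nat_lit 1) (nat_lit 7) (nat_lit 5) (nat_lit 2) (nat_lit 3) (nat_lit 5) (by decide +kernel)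
theorem L3962770 : W_1 (nat_lit 3) (nat_lit 0x10000800000003c000c000000000000000000) (nat_lit 0x0) (nat_lit 0xe00030000000000000000000000) := T_1 (nat_lit 106) (nat_lit 107) (nat_lit 1) (nat_lit 8) (nat_lit 5) L3962769 (by decide +kernel)
theorem L3962771 : W_1 (nat_lit 2) (nat_lit 0x10000800008003c000d000200000000000000) (nat_lit 0x0) (nat_lit 0x200010001000000000000000000000000000) := D_1 (nat_lit 124) (nat_lit 141) (nat_lit 108) (nat_lit 6) (nat_lit 5) (nat_lit 8) (nat_lit 5) (nat_lit 6) (nat_lit 3) (by decide +kernel)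
theorem L3962772 : W_1 (nat_lit 3) (nat_lit 0x10000800008003c000d000000000000000000) (nat_lit 0x0) (nat_lit 0x200010001000000000000200010000000000) := T_1 (nat_lit 57) (nat_lit 40) (nat_lit 5) (nat_lit 6) (nat_lit 2) L3962771 (by decide +kernel)
theorem L3962773 : W_1 (nat_lit 4) (nat_lit 0x10000800000003c000d000000000000000000) (nat_lit 0x0) (nat_lit 0x200010001c00000000000200010000000000) := T_1 (nat_lit 107) (nat_lit 106) (nat_lit 1) (nat_lit 8) (nat_lit 5) L3962772 (by decide +kernel)
theorem L3962774 : W_1 (nat_lit 5) (nat_lit 0x10000800000003c000c000000000000000000) (nat_lit 0x0) (nat_lit 0x200010001c00000003000200010000000000) := T_1 (nat_lit 72) (nat_lit 73) (nat_lit 3) (nat_lit 4) (nat_lit 4) L3962773 (by decide +kernel)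
theorem L3962775 : W_1 (nat_lit 6) (nat_lit 0x100008000000038000c000000000000000000) (nat_lit 0x0) (nat_lit 0x200010001e00070003800200010000000000) := Q_1 (nat_lit 90) (C_1 L3962762 (C_1 L3962770 (C_1 L3962774 N_1))) (by decide +kernel)
theorem L3962776 : W_1 (nat_lit 2) (nat_lit 0x100008000000038001c000000000000000000) (nat_lit 0x0) (nat_lit 0x40060000000000000000000) := D_1 (nat_lit 77) (nat_lit 90) (nat_lit 78) (nat_lit 2) (nat_lit 5) (nat_lit 5) (nat_lit 1) (nat_lit 10) (nat_lit 4) (by decide +kernel)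
theorem L3962777 : W_1 (nat_lit 2) (nat_lit 0x10000b000100038003d001200030004400000) (nat_lit 0x0) (nat_lit 0x2800040000000000000000000000000000000) := D_1 (nat_lit 126) (nat_lit 145) (nat_lit 143) (nat_lit 3) (nat_lit 5) (nat_lit 7) (nat_lit 7) (nat_lit 6) (nat_lit 4) (by decide +kernel)
theorem L3962778 : W_1 (nat_lit 3) (nat_lit 0x10000a000100038003d001200030004400000) (nat_lit 0x0) (nat_lit 0x2a00050000000000000000000000000000000) := T_1 (nat_lit 124) (nat_lit 141) (nat_lit 5) (nat_lit 6) (nat_lit 4) L3962777 (by decide +kernel)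
theorem L3962779 : W_1 (nat_lit 4) (nat_lit 0x100008000100038003d001200030004400000) (nat_lit 0x0) (nat_lit 0x2e00070000000000000000000000000000000) := T_1 (nat_lit 125) (nat_lit 142) (nat_lit 6) (nat_lit 6) (nat_lit 8) L3962778 (by decide +kernel)
theorem L3962780 : W_1 (nat_lit 5) (nat_lit 0x100008000000038003d001200030004400000) (nat_lit 0x0) (nat_lit 0x2e00070001000000000000400000000000000) := T_1 (nat_lit 108) (nat_lit 58) (nat_lit 6) (nat_lit 6) (nat_lit 6) L3962779 (by decide +kernel)
theorem L3962781 : W_1 (nat_lit 6) (nat_lit 0x100008000000038003d001200010004400000) (nat_lit 0x0) (nat_lit 0x2e00070001000000000000400020001000000) := T_1 (nat_lit 41) (nat_lit 24) (nat_lit 6) (nat_lit 6) (nat_lit 5) L3962780 (by decide +kernel)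
theorem L3962782 : W_1 (nat_lit 7) (nat_lit 0x100008000000038003d001200010004000000) (nat_lit 0x0) (nat_lit 0x2e00070001000000000000400028001400000) := T_1 (nat_lit 22) (nat_lit 39) (nat_lit 4) (nat_lit 6) (nat_lit 5) L3962781 (by decide +kernel)
theorem L3962783 : W_1 (nat_lit 8) (nat_lit 0x100008000000038003d001200010000000000) (nat_lit 0x0) (nat_lit 0x2e000700010000000000004000a8005400000) := T_1 (nat_lit 26) (nat_lit 43) (nat_lit 5) (nat_lit 9) (nat_lit 1) L3962782 (by decide +kernel)
theorem L3962784 : W_1 (nat_lit 9) (nat_lit 0x100008000000038003d001200000000000000) (nat_lit 0x0) (nat_lit 0x2e000700010000000000004000b8005c00000) := T_1 (nat_lit 40) (nat_lit 23) (nat_lit 7) (nat_lit 6) (nat_lit 1) L3962783 (by decide +kernel)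
theorem L3962785 : W_1 (nat_lit 10) (nat_lit 0x100008000000038003d000200000000000000) (nat_lit 0x0) (nat_lit 0x2e000700010000000000034000b8005c00000) := T_1 (nat_lit 60) (nat_lit 61) (nat_lit 2) (nat_lit 6) (nat_lit 4) L3962784 (by decide +kernel)
theorem L3962786 : W_1 (nat_lit 11) (nat_lit 0x100008000000038003d000000000000000000) (nat_lit 0x0) (nat_lit 0x2e000700010000000000037000b8005c00000) := T_1 (nat_lit 57) (nat_lit 56) (nat_lit 0) (nat_lit 9) (nat_lit 4) L3962785 (by decide +kernel)
theorem L3962787 : W_1 (nat_lit 12) (nat_lit 0x100008000000038001d000000000000000000) (nat_lit 0x0) (nat_lit 0x2e000700010000000600037000b8005c00000) := T_1 (nat_lit 77) (nat_lit 78) (nat_lit 1) (nat_lit 10) (nat_lit 4) L3962786 (by decide +kernel)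
theorem L3962788 : W_1 (nat_lit 13) (nat_lit 0x100008000000038001c000000000000000000) (nat_lit 0x0) (nat_lit 0x2e000700010000000630037000b8005c00000) := T_1 (nat_lit 72) (nat_lit 73) (nat_lit 3) (nat_lit 4) (nat_lit 4) L3962787 (by decide +kernel)
theorem L3962789 : W_1 (nat_lit 2) (nat_lit 0x10000800000003a001e000c80078004000000) (nat_lit 0x0) (nat_lit 0x200000000600000) := D_1 (nat_lit 22) (nat_lit 57) (nat_lit 21) (nat_lit 4) (nat_lit 6) (nat_lit 5) (nat_lit 0) (nat_lit 8) (nat_lit 2) (by decide +kernel)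
theorem L3962790 : W_1 (nat_lit 3) (nat_lit 0x10000800000003a001e000c80070004000000) (nat_lit 0x0) (nat_lit 0x20000c000600000) := T_1 (nat_lit 39) (nat_lit 38) (nat_lit 3) (nat_lit 4) (nat_lit 2) L3962789 (by decide +kernel)
theorem L3962791 : W_1 (nat_lit 4) (nat_lit 0x10000800000003a001e000c80060004000000) (nat_lit 0x0) (nat_lit 0x20001c000e00000) := T_1 (nat_lit 40) (nat_lit 23) (nat_lit 4) (nat_lit 7) (nat_lit 5) L3962790 (by decide +kernel)
theorem L3962792 : W_1 (nat_lit 5) (nat_lit 0x10000800000003a001e000880060004000000) (nat_lit 0x0) (nat_lit 0x100000000000060001c000e00000) := T_1 (nat_lit 58) (nat_lit 108) (nat_lit 5) (nat_lit 7) (nat_lit 2) L3962791 (by decide +kernel)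
theorem L3962793 : W_1 (nat_lit 6) (nat_lit 0x10000800000003a001e000880060000000000) (nat_lit 0x0) (nat_lit 0x100000000000060009c004e00000) := T_1 (nat_lit 26) (nat_lit 43) (nat_lit 6) (nat_lit 8) (nat_lit 5) L3962792 (by decide +kernel)
theorem L3962794 : W_1 (nat_lit 7) (nat_lit 0x10000800000003a001e000880040000000000) (nat_lit 0x0) (nat_lit 0x10000000000006000bc005e00000) := T_1 (nat_lit 41) (nat_lit 24) (nat_lit 4) (nat_lit 8) (nat_lit 5) L3962793 (by decide +kernel)
theorem L3962795 : W_1 (nat_lit 8) (nat_lit 0x10000800000003a001e000880000000000000) (nat_lit 0x0) (nat_lit 0x10000000000006000fc007e00000) := T_1 (nat_lit 42) (nat_lit 25) (nat_lit 5) (nat_lit 8) (nat_lit 1) L3962794 (by decide +kernel)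
theorem L3962796 : W_1 (nat_lit 9) (nat_lit 0x10000800000003a001e000800000000000000) (nat_lit 0x0) (nat_lit 0x10000000000007800fc007e00000) := T_1 (nat_lit 55) (nat_lit 56) (nat_lit 0) (nat_lit 8) (nat_lit 4) L3962795 (by decide +kernel)
theorem L3962797 : W_1 (nat_lit 10) (nat_lit 0x10000800000003a001e000000000000000000) (nat_lit 0x0) (nat_lit 0x1000000000001f800fc007e00000) := T_1 (nat_lit 59) (nat_lit 60) (nat_lit 2) (nat_lit 5) (nat_lit 4) L3962796 (by decide +kernel)
theorem L3962798 : W_1 (nat_lit 11) (nat_lit 0x10000800000003a001c000000000000000000) (nat_lit 0x0) (nat_lit 0x1000000003001f800fc007e00000) := T_1 (nat_lit 73) (nat_lit 72) (nat_lit 3) (nat_lit 4) (nat_lit 4) L3962797 (by decide +kernel)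
theorem L3962799 : W_1 (nat_lit 12) (nat_lit 0x100008000000038001c000000000000000000) (nat_lit 0x0) (nat_lit 0x1000060003001f800fc007e00000) := T_1 (nat_lit 89) (nat_lit 90) (nat_lit 2) (nat_lit 4) (nat_lit 5) L3962798 (by decide +kernel)
theorem L3962800 : W_1 (nat_lit 14) (nat_lit 0x100008000000038000c000000000000000000) (nat_lit 0x0) (nat_lit 0x2e00070001000060073003f800fc007e00000) := Q_1 (nat_lit 76) (C_1 L3962776 (C_1 L3962788 (C_1 L3962799 N_1))) (by decide +kernel)
theorem L3962802 : W_1 (nat_lit 2) (nat_lit 0x100008000000038003d001200038004000000) (nat_lit 0x0) (nat_lit 0xc00040000000000) := D_1 (nat_lit 59) (nat_lit 58) (nat_lit 42) (nat_lit 0) (nat_lit 9) (nat_lit 3) (nat_lit 3) (nat_lit 5) (nat_lit 2) (by decide +kernel)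
theorem L3962803 : W_1 (nat_lit 3) (nat_lit 0x100008000000038003d001200018004000000) (nat_lit 0x0) (nat_lit 0xc00060001000000) := T_1 (nat_lit 41) (nat_lit 24) (nat_lit 6) (nat_lit 6) (nat_lit 5) L3962802 (by decide +kernel)
theorem L3962804 : W_1 (nat_lit 4) (nat_lit 0x100008000000038003d001200010004000000) (nat_lit 0x0) (nat_lit 0xc00068001400000) := T_1 (nat_lit 39) (nat_lit 22) (nat_lit 4) (nat_lit 6) (nat_lit 5) L3962803 (by decide +kernel)
theorem L3962805 : W_1 (nat_lit 5) (nat_lit 0x100008000000038003d001200010000000000) (nat_lit 0x0) (nat_lit 0xc000e8005400000) := T_1 (nat_lit 26) (nat_lit 43) (nat_lit 5) (nat_lit 9) (nat_lit 1) L3962804 (by decide +kernel)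
theorem L3962806 : W_1 (nat_lit 6) (nat_lit 0x100008000000038003d001200000000000000) (nat_lit 0x0) (nat_lit 0xc000f8005c00000) := T_1 (nat_lit 40) (nat_lit 23) (nat_lit 7) (nat_lit 6) (nat_lit 1) L3962805 (by decide +kernel)
theorem L3962807 : W_1 (nat_lit 7) (nat_lit 0x100008000000038003d000200000000000000) (nat_lit 0x0) (nat_lit 0x3c000f8005c00000) := T_1 (nat_lit 60) (nat_lit 61) (nat_lit 2) (nat_lit 6) (nat_lit 4) L3962806 (by decide +kernel)
theorem L3962808 : W_1 (nat_lit 8) (nat_lit 0x100008000000038003d000000000000000000) (nat_lit 0x0) (nat_lit 0x3f000f8005c00000) := T_1 (nat_lit 57) (nat_lit 56) (nat_lit 0) (nat_lit 9) (nat_lit 4) L3962807 (by decide +kernel)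
theorem L3962809 : W_1 (nat_lit 9) (nat_lit 0x100008000000038001d000000000000000000) (nat_lit 0x0) (nat_lit 0x60003f000f8005c00000) := T_1 (nat_lit 77) (nat_lit 78) (nat_lit 1) (nat_lit 10) (nat_lit 4) L3962808 (by decide +kernel)
theorem L3962810 : W_1 (nat_lit 10) (nat_lit 0x100008000000038001c000000000000000000) (nat_lit 0x0) (nat_lit 0x63003f000f8005c00000) := T_1 (nat_lit 72) (nat_lit 73) (nat_lit 3) (nat_lit 4) (nat_lit 4) L3962809 (by decide +kernel)
theorem L3962811 : W_1 (nat_lit 2) (nat_lit 0x100008000000038001e000c80078004000000) (nat_lit 0x0) (nat_lit 0x200000000600000) := D_1 (nat_lit 22) (nat_lit 57) (nat_lit 21) (nat_lit 4) (nat_lit 6) (nat_lit 5) (nat_lit 0) (nat_lit 8) (nat_lit 2) (by decide +kernel)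
theorem L3962812 : W_1 (nat_lit 3) (nat_lit 0x100008000000038001e000c80070004000000) (nat_lit 0x0) (nat_lit 0x20000c000600000) := T_1 (nat_lit 39) (nat_lit 38) (nat_lit 3) (nat_lit 4) (nat_lit 2) L3962811 (by decide +kernel)
theorem L3962813 : W_1 (nat_lit 4) (nat_lit 0x100008000000038001e000c80060004000000) (nat_lit 0x0) (nat_lit 0x20001c000e00000) := T_1 (nat_lit 40) (nat_lit 23) (nat_lit 4) (nat_lit 7) (nat_lit 5) L3962812 (by decide +kernel)
theorem L3962814 : W_1 (nat_lit 5) (nat_lit 0x100008000000038001e000880060004000000) (nat_lit 0x0) (nat_lit 0x100000000000060001c000e00000) := T_1 (nat_lit 58) (nat_lit 108) (nat_lit 5) (nat_lit 7) (nat_lit 2) L3962813 (by decide +kernel)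
theorem L3962815 : W_1 (nat_lit 6) (nat_lit 0x100008000000038001e000880060000000000) (nat_lit 0x0) (nat_lit 0x100000000000060009c004e00000) := T_1 (nat_lit 26) (nat_lit 43) (nat_lit 6) (nat_lit 8) (nat_lit 5) L3962814 (by decide +kernel)
theorem L3962816 : W_1 (nat_lit 7) (nat_lit 0x100008000000038001e000880040000000000) (nat_lit 0x0) (nat_lit 0x10000000000006000bc005e00000) := T_1 (nat_lit 41) (nat_lit 24) (nat_lit 4) (nat_lit 8) (nat_lit 5) L3962815 (by decide +kernel)
theorem L3962817 : W_1 (nat_lit 8) (nat_lit 0x100008000000038001e000880000000000000) (nat_lit 0x0) (nat_lit 0x10000000000006000fc007e00000) := T_1 (nat_lit 42) (nat_lit 25) (nat_lit 5) (nat_lit 8) (nat_lit 1) L3962816 (by decide +kernel)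
theorem L3962818 : W_1 (nat_lit 9) (nat_lit 0x100008000000038001e000800000000000000) (nat_lit 0x0) (nat_lit 0x10000000000007800fc007e00000) := T_1 (nat_lit 55) (nat_lit 56) (nat_lit 0) (nat_lit 8) (nat_lit 4) L3962817 (by decide +kernel)
theorem L3962819 : W_1 (nat_lit 10) (nat_lit 0x100008000000038001e000000000000000000) (nat_lit 0x0) (nat_lit 0x1000000000001f800fc007e00000) := T_1 (nat_lit 59) (nat_lit 60) (nat_lit 2) (nat_lit 5) (nat_lit 4) L3962818 (by decide +kernel)
theorem L3962820 : W_1 (nat_lit 11) (nat_lit 0x100008000000038001c000000000000000000) (nat_lit 0x0) (nat_lit 0x1000000003001f800fc007e00000) := T_1 (nat_lit 73) (nat_lit 72) (nat_lit 3) (nat_lit 4) (nat_lit 4) L3962819 (by decide +kernel)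
theorem L3962821 : W_1 (nat_lit 2) (nat_lit 0x100008000000038003d001200038004000000) (nat_lit 0x0) (nat_lit 0x800040002000000) := D_1 (nat_lit 42) (nat_lit 59) (nat_lit 25) (nat_lit 3) (nat_lit 5) (nat_lit 2) (nat_lit 2) (nat_lit 5) (nat_lit 2) (by decide +kernel)
theorem L3962822 : W_1 (nat_lit 3) (nat_lit 0x100008000000038003d001200018004000000) (nat_lit 0x0) (nat_lit 0x800060003000000) := T_1 (nat_lit 41) (nat_lit 24) (nat_lit 6) (nat_lit 6) (nat_lit 5) L3962821 (by decide +kernel)
theorem L3962823 : W_1 (nat_lit 4) (nat_lit 0x100008000000038003d001200010004000000) (nat_lit 0x0) (nat_lit 0x800068003400000) := T_1 (nat_lit 39) (nat_lit 22) (nat_lit 4) (nat_lit 6) (nat_lit 5) L3962822 (by decide +kernel)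
theorem L3962824 : W_1 (nat_lit 5) (nat_lit 0x100008000000038003d001200010000000000) (nat_lit 0x0) (nat_lit 0x8000e8007400000) := T_1 (nat_lit 26) (nat_lit 43) (nat_lit 5) (nat_lit 9) (nat_lit 1) L3962823 (by decide +kernel)
theorem L3962825 : W_1 (nat_lit 6) (nat_lit 0x100008000000038003d001200000000000000) (nat_lit 0x0) (nat_lit 0x8000f8007c00000) := T_1 (nat_lit 40) (nat_lit 23) (nat_lit 7) (nat_lit 6) (nat_lit 1) L3962824 (by decide +kernel)
theorem L3962826 : W_1 (nat_lit 7) (nat_lit 0x100008000000038003d000200000000000000) (nat_lit 0x0) (nat_lit 0x38000f8007c00000) := T_1 (nat_lit 60) (nat_lit 61) (nat_lit 2) (nat_lit 6) (nat_lit 4) L3962825 (by decide +kernel)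
theorem L3962827 : W_1 (nat_lit 8) (nat_lit 0x100008000000038003d000000000000000000) (nat_lit 0x0) (nat_lit 0x3b000f8007c00000) := T_1 (nat_lit 57) (nat_lit 56) (nat_lit 0) (nat_lit 9) (nat_lit 4) L3962826 (by decide +kernel)
theorem L3962828 : W_1 (nat_lit 9) (nat_lit 0x100008000000038001d000000000000000000) (nat_lit 0x0) (nat_lit 0x60003b000f8007c00000) := T_1 (nat_lit 77) (nat_lit 78) (nat_lit 1) (nat_lit 10) (nat_lit 4) L3962827 (by decide +kernel)
theorem L3962829 : W_1 (nat_lit 10) (nat_lit 0x100008000000038001c000000000000000000) (nat_lit 0x0) (nat_lit 0x63003b000f8007c00000) := T_1 (nat_lit 72) (nat_lit 73) (nat_lit 3) (nat_lit 4) (nat_lit 4) L3962828 (by decide +kernel)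
theorem L3962830 : W_1 (nat_lit 9) (nat_lit 0x100008000000038001c000000000000000000) (nat_lit 0x0) (nat_lit 0x60003b000f8007c00000) := T_1 (nat_lit 77) (nat_lit 78) (nat_lit 1) (nat_lit 10) (nat_lit 4) L345867 (by decide +kernel)
theorem L3962831 : W_1 (nat_lit 2) (nat_lit 0x100008000000038003c000100000000000000) (nat_lit 0x0) (nat_lit 0x3000080000000000000) := D_1 (nat_lit 73) (nat_lit 55) (nat_lit 72) (nat_lit 0) (nat_lit 8) (nat_lit 4) (nat_lit 3) (nat_lit 4) (nat_lit 4) (by decide +kernel)
theorem L3962832 : W_1 (nat_lit 3) (nat_lit 0x100008000000038003c000000000000000000) (nat_lit 0x0) (nat_lit 0x3000380000000000000) := T_1 (nat_lit 56) (nat_lit 57) (nat_lit 0) (nat_lit 9) (nat_lit 4) L3962831 (by decide +kernel)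
theorem L3962833 : W_1 (nat_lit 4) (nat_lit 0x100008000000038001c000000000000000000) (nat_lit 0x0) (nat_lit 0x63000380000000000000) := T_1 (nat_lit 77) (nat_lit 78) (nat_lit 1) (nat_lit 10) (nat_lit 4) L3962832 (by decide +kernel)
theorem L3962834 : W_1 (nat_lit 2) (nat_lit 0x100008000000038003e000000000000000000) (nat_lit 0x0) (nat_lit 0x3800000000000000) := D_1 (nat_lit 60) (nat_lit 61) (nat_lit 59) (nat_lit 2) (nat_lit 6) (nat_lit 4) (nat_lit 2) (nat_lit 5) (nat_lit 4) (by decide +kernel)
theorem L3962835 : W_1 (nat_lit 3) (nat_lit 0x100008000000038003c000000000000000000) (nat_lit 0x0) (nat_lit 0x3003800000000000000) := T_1 (nat_lit 73) (nat_lit 72) (nat_lit 3) (nat_lit 4) (nat_lit 4) L3962834 (by decide +kernel)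
theorem L3962836 : W_1 (nat_lit 4) (nat_lit 0x100008000000038001c000000000000000000) (nat_lit 0x0) (nat_lit 0x63003800000000000000) := T_1 (nat_lit 77) (nat_lit 78) (nat_lit 1) (nat_lit 10) (nat_lit 4) L3962835 (by decide +kernel)
theorem L3962837 : W_1 (nat_lit 14) (nat_lit 0x100008000000038000c000000000000000000) (nat_lit 0x0) (nat_lit 0x2e00070001000000073003f800fc007e00000) := Q_1 (nat_lit 76) (C_1 L3962810 (C_1 L3962820 (C_1 L3962829 (C_1 L3962830 (C_1 L3962788 (C_1 L3962833 (C_1 L3962836 N_1))))))) (by decide +kernel)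
theorem L3962838 : W_1 (nat_lit 2) (nat_lit 0x10000800008003c001c000200000000000000) (nat_lit 0x0) (nat_lit 0x200010001000000000000000000000000000) := D_1 (nat_lit 124) (nat_lit 141) (nat_lit 108) (nat_lit 6) (nat_lit 5) (nat_lit 8) (nat_lit 5) (nat_lit 6) (nat_lit 3) (by decide +kernel)
theorem L3962839 : W_1 (nat_lit 3) (nat_lit 0x10000800008003c001c000000000000000000) (nat_lit 0x0) (nat_lit 0x200010001000000000000200010000000000) := T_1 (nat_lit 57) (nat_lit 40) (nat_lit 5) (nat_lit 6) (nat_lit 2) L3962838 (by decide +kernel)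
theorem L3962840 : W_1 (nat_lit 4) (nat_lit 0x10000800000003c001c000000000000000000) (nat_lit 0x0) (nat_lit 0x200010001c00000000000200010000000000) := T_1 (nat_lit 107) (nat_lit 106) (nat_lit 1) (nat_lit 8) (nat_lit 5) L3962839 (by decide +kernel)
theorem L3962841 : W_1 (nat_lit 5) (nat_lit 0x10000800000003c000c000000000000000000) (nat_lit 0x0) (nat_lit 0x200010001c00000030000200010000000000) := T_1 (nat_lit 76) (nat_lit 77) (nat_lit 2) (nat_lit 5) (nat_lit 5) L3962840 (by decide +kernel)
theorem L3962842 : W_1 (nat_lit 6) (nat_lit 0x100008000000038000c000000000000000000) (nat_lit 0x0) (nat_lit 0x200010001e00070030000200010000000000) := Q_1 (nat_lit 90) (C_1 L3962770 (C_1 L3962760 (C_1 L3962841 N_1))) (by decide +kernel)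
theorem L3962843 : W_1 (nat_lit 2) (nat_lit 0x10000b00014003c001e000880060004000000) (nat_lit 0x0) (nat_lit 0x2800040000000000000000000000000000000) := D_1 (nat_lit 126) (nat_lit 145) (nat_lit 143) (nat_lit 3) (nat_lit 5) (nat_lit 7) (nat_lit 7) (nat_lit 6) (nat_lit 4) (by decide +kernel)
theorem L3962844 : W_1 (nat_lit 3) (nat_lit 0x10000a00014003c001e000880060004000000) (nat_lit 0x0) (nat_lit 0x2a00050000000000000000000000000000000) := T_1 (nat_lit 124) (nat_lit 141) (nat_lit 5) (nat_lit 6) (nat_lit 4) L3962843 (by decide +kernel)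
theorem L3962845 : W_1 (nat_lit 4) (nat_lit 0x10000800014003c001e000880060004000000) (nat_lit 0x0) (nat_lit 0x2e00070000000000000000000000000000000) := T_1 (nat_lit 125) (nat_lit 142) (nat_lit 6) (nat_lit 6) (nat_lit 8) L3962844 (by decide +kernel)
theorem L3962846 : W_1 (nat_lit 5) (nat_lit 0x10000800004003c001e000880060004000000) (nat_lit 0x0) (nat_lit 0x2e00070001000000000000400000000000000) := T_1 (nat_lit 108) (nat_lit 58) (nat_lit 5) (nat_lit 7) (nat_lit 2) L3962845 (by decide +kernel)
theorem L3962847 : W_1 (nat_lit 6) (nat_lit 0x10000800004003c001e000880060000000000) (nat_lit 0x0) (nat_lit 0x2e00070001000000000000400080004000000) := T_1 (nat_lit 26) (nat_lit 43) (nat_lit 6) (nat_lit 8) (nat_lit 5) L3962846 (by decide +kernel)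
theorem L3962848 : W_1 (nat_lit 7) (nat_lit 0x10000800004003c001e000880040000000000) (nat_lit 0x0) (nat_lit 0x2e000700010000000000004000a0005000000) := T_1 (nat_lit 41) (nat_lit 24) (nat_lit 4) (nat_lit 8) (nat_lit 5) L3962847 (by decide +kernel)
theorem L3962849 : W_1 (nat_lit 8) (nat_lit 0x10000800004003c001e000880000000000000) (nat_lit 0x0) (nat_lit 0x2e000700010000000000004000e0007000000) := T_1 (nat_lit 42) (nat_lit 25) (nat_lit 5) (nat_lit 8) (nat_lit 1) L3962848 (by decide +kernel)
theorem L3962850 : W_1 (nat_lit 9) (nat_lit 0x10000800004003c001e000080000000000000) (nat_lit 0x0) (nat_lit 0x2e00070001000000000001c000e0007000000) := T_1 (nat_lit 59) (nat_lit 60) (nat_lit 2) (nat_lit 5) (nat_lit 4) L3962849 (by decide +kernel)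
theorem L3962851 : W_1 (nat_lit 10) (nat_lit 0x10000800000003c001e000080000000000000) (nat_lit 0x0) (nat_lit 0x2e00070001c00000000001c000e0007000000) := T_1 (nat_lit 106) (nat_lit 107) (nat_lit 1) (nat_lit 8) (nat_lit 5) L3962850 (by decide +kernel)
theorem L3962852 : W_1 (nat_lit 11) (nat_lit 0x10000800000003c001e000000000000000000) (nat_lit 0x0) (nat_lit 0x2e00070001c00000000001d800e0007000000) := T_1 (nat_lit 55) (nat_lit 56) (nat_lit 0) (nat_lit 8) (nat_lit 4) L3962851 (by decide +kernel)
theorem L3962853 : W_1 (nat_lit 12) (nat_lit 0x10000800000003c000e000000000000000000) (nat_lit 0x0) (nat_lit 0x2e00070001c00000030001d800e0007000000) := T_1 (nat_lit 76) (nat_lit 77) (nat_lit 2) (nat_lit 5) (nat_lit 5) L3962852 (by decide +kernel)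
theorem L3962854 : W_1 (nat_lit 13) (nat_lit 0x10000800000003c000c000000000000000000) (nat_lit 0x0) (nat_lit 0x2e00070001c00000033001d800e0007000000) := T_1 (nat_lit 73) (nat_lit 72) (nat_lit 3) (nat_lit 4) (nat_lit 4) L3962853 (by decide +kernel)
theorem L3962855 : W_1 (nat_lit 14) (nat_lit 0x100008000000038000c000000000000000000) (nat_lit 0x0) (nat_lit 0x2e00070001e00070033801d800e0007000000) := Q_1 (nat_lit 90) (C_1 L3962770 (C_1 L3962762 (C_1 L3962854 N_1))) (by decide +kernel)
theorem L3962856 : W_1 (nat_lit 15) (nat_lit 0x100008000000030000c000000000000000000) (nat_lit 0x0) (nat_lit 0x2e00070001e000f0073803f800fc007e00000) := Q_1 (nat_lit 91) (C_1 L3962766 (C_1 L3962775 (C_1 L3962800 (C_1 L3962837 (C_1 L3962842 (C_1 L3962855 N_1)))))) (by decide +kernel)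
theorem L3962857 : W_1 (nat_lit 11) (nat_lit 0x100008000000038000c000000000000000000) (nat_lit 0x0) (nat_lit 0xc40070003b000f8007c00000) := T_1 (nat_lit 94) (nat_lit 95) (nat_lit 0) (nat_lit 10) (nat_lit 5) L341875 (by decide +kernel)
theorem L3962858 : W_1 (nat_lit 12) (nat_lit 0x100008000000030000c000000000000000000) (nat_lit 0x0) (nat_lit 0x200030001e00cf0070003f000f8007c00000) := Q_1 (nat_lit 91) (C_1 L3962857 (C_1 L3962842 (C_1 L339868 N_1))) (by decide +kernel)
theorem L3962859 : W_1 (nat_lit 16) (nat_lit 0x1000080000000300008000000000000000000) (nat_lit 0x0) (nat_lit 0x2e00070001e00cf0077803f800fc007e00000) := Q_1 (nat_lit 74) (C_1 L32323 (C_1 L3962856 (C_1 L28280 (C_1 L3962858 N_1)))) (by decide +kernel)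
theorem L3962860 : W_1 (nat_lit 2) (nat_lit 0x100008000000070007c000000000000000000) (nat_lit 0x0) (nat_lit 0x700000000000000) := D_1 (nat_lit 57) (nat_lit 58) (nat_lit 56) (nat_lit 0) (nat_lit 10) (nat_lit 4) (nat_lit 0) (nat_lit 9) (nat_lit 4) (by decide +kernel)
theorem L3962861 : W_1 (nat_lit 3) (nat_lit 0x100008000000070003c000000000000000000) (nat_lit 0x0) (nat_lit 0xc0000700000000000000) := T_1 (nat_lit 78) (nat_lit 79) (nat_lit 1) (nat_lit 11) (nat_lit 4) L3962860 (by decide +kernel)
theorem L3962862 : W_1 (nat_lit 4) (nat_lit 0x100008000000030003c000000000000000000) (nat_lit 0x0) (nat_lit 0xc000c0000700000000000000) := T_1 (nat_lit 94) (nat_lit 95) (nat_lit 3) (nat_lit 6) (nat_lit 4) L3962861 (by decide +kernel)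
theorem L3962863 : W_1 (nat_lit 2) (nat_lit 0x100008000000030003c000000000000000000) (nat_lit 0x0) (nat_lit 0x800c0000000000000000000) := D_1 (nat_lit 78) (nat_lit 79) (nat_lit 91) (nat_lit 1) (nat_lit 11) (nat_lit 4) (nat_lit 1) (nat_lit 10) (nat_lit 4) (by decide +kernel)
theorem L3962865 : W_1 (nat_lit 2) (nat_lit 0x100008000200030007c001000040000000000) (nat_lit 0x0) (nat_lit 0x700000000000000) := D_1 (nat_lit 57) (nat_lit 58) (nat_lit 56) (nat_lit 0) (nat_lit 10) (nat_lit 4) (nat_lit 0) (nat_lit 9) (nat_lit 4) (by decide +kernel)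
theorem L3962866 : W_1 (nat_lit 3) (nat_lit 0x100008000200030003c001000040000000000) (nat_lit 0x0) (nat_lit 0xc0000700000000000000) := T_1 (nat_lit 78) (nat_lit 79) (nat_lit 1) (nat_lit 11) (nat_lit 4) L3962865 (by decide +kernel)
theorem L3962867 : W_1 (nat_lit 4) (nat_lit 0x100008000200030003c000000040000000000) (nat_lit 0x0) (nat_lit 0xc0003700000000000000) := T_1 (nat_lit 60) (nat_lit 61) (nat_lit 2) (nat_lit 6) (nat_lit 4) L3962866 (by decide +kernel)
theorem L3962868 : W_1 (nat_lit 5) (nat_lit 0x100008000200030003c000000000000000000) (nat_lit 0x0) (nat_lit 0xc0003f00040000000000) := T_1 (nat_lit 42) (nat_lit 59) (nat_lit 5) (nat_lit 8) (nat_lit 2) L3962867 (by decide +kernel)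
theorem L3962869 : W_1 (nat_lit 6) (nat_lit 0x100008000000030003c000000000000000000) (nat_lit 0x0) (nat_lit 0x400020000000c0003f00040000000000) := T_1 (nat_lit 109) (nat_lit 126) (nat_lit 7) (nat_lit 7) (nat_lit 4) L3962868 (by decide +kernel)
theorem L3962871 : W_1 (nat_lit 2) (nat_lit 0x100008000800070003c001000040000000000) (nat_lit 0x0) (nat_lit 0x80006000000) := D_1 (nat_lit 43) (nat_lit 25) (nat_lit 26) (nat_lit 4) (nat_lit 9) (nat_lit 5) (nat_lit 5) (nat_lit 9) (nat_lit 1) (by decide +kernel)
theorem L3962872 : W_1 (nat_lit 3) (nat_lit 0x100008000800070003c000000040000000000) (nat_lit 0x0) (nat_lit 0x3000080006000000) := T_1 (nat_lit 60) (nat_lit 61) (nat_lit 2) (nat_lit 6) (nat_lit 4) L3962871 (by decide +kernel)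
theorem L3962873 : W_1 (nat_lit 4) (nat_lit 0x100008000800070003c000000000000000000) (nat_lit 0x0) (nat_lit 0x38000c0006000000) := T_1 (nat_lit 42) (nat_lit 59) (nat_lit 7) (nat_lit 8) (nat_lit 2) L3962872 (by decide +kernel)
theorem L3962874 : W_1 (nat_lit 5) (nat_lit 0x100008000000070003c000000000000000000) (nat_lit 0x0) (nat_lit 0x1000080000000000038000c0006000000) := T_1 (nat_lit 111) (nat_lit 128) (nat_lit 5) (nat_lit 9) (nat_lit 4) L3962873 (by decide +kernel)
theorem L3962875 : W_1 (nat_lit 6) (nat_lit 0x100008000000030003c000000000000000000) (nat_lit 0x0) (nat_lit 0x100008000c000000038000c0006000000) := T_1 (nat_lit 94) (nat_lit 95) (nat_lit 3) (nat_lit 6) (nat_lit 4) L3962874 (by decide +kernel)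
theorem L3962876 : W_1 (nat_lit 7) (nat_lit 0x100008000000030001c000000000000000000) (nat_lit 0x0) (nat_lit 0x14000a000c000e0003f000c0006000000) := Q_1 (nat_lit 77) (C_1 L3962869 (C_1 L3962862 (C_1 L3962875 N_1))) (by decide +kernel)
theorem L3962920 : W_1 (nat_lit 2) (nat_lit 0x100008000200070001c000400020000000000) (nat_lit 0x0) (nat_lit 0x800040002000000) := D_1 (nat_lit 42) (nat_lit 59) (nat_lit 25) (nat_lit 6) (nat_lit 7) (nat_lit 6) (nat_lit 6) (nat_lit 7) (nat_lit 5) (by decide +kernel)
theorem L3962921 : W_1 (nat_lit 3) (nat_lit 0x100008000000070001c000400020000000000) (nat_lit 0x0) (nat_lit 0x40002000000000000800040002000000) := T_1 (nat_lit 109) (nat_lit 126) (nat_lit 7) (nat_lit 7) (nat_lit 4) L3962920 (by decide +kernel)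
theorem L3962979 : W_1 (nat_lit 2) (nat_lit 0x100008000200030003c000200000000000000) (nat_lit 0x0) (nat_lit 0x80040000400000000000000) := D_1 (nat_lit 78) (nat_lit 58) (nat_lit 91) (nat_lit 0) (nat_lit 10) (nat_lit 4) (nat_lit 1) (nat_lit 10) (nat_lit 4) (by decide +kernel)
theorem L3962980 : W_1 (nat_lit 3) (nat_lit 0x100008000200030002c000200000000000000) (nat_lit 0x0) (nat_lit 0x80050000500000000000000) := T_1 (nat_lit 76) (nat_lit 56) (nat_lit 0) (nat_lit 9) (nat_lit 4) L3962979 (by decide +kernel)
theorem L3962981 : W_1 (nat_lit 4) (nat_lit 0x100008000000030002c000200000000000000) (nat_lit 0x0) (nat_lit 0x40002000080050000500000000000000) := T_1 (nat_lit 109) (nat_lit 126) (nat_lit 7) (nat_lit 7) (nat_lit 4) L3962980 (by decide +kernel)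
theorem L3962988 : W_1 (nat_lit 2) (nat_lit 0x100008000a00070003c000200000000000000) (nat_lit 0x0) (nat_lit 0xc0000400000000000000) := D_1 (nat_lit 78) (nat_lit 58) (nat_lit 79) (nat_lit 0) (nat_lit 10) (nat_lit 4) (nat_lit 1) (nat_lit 11) (nat_lit 4) (by decide +kernel)
theorem L3962989 : W_1 (nat_lit 3) (nat_lit 0x100008000a00070002c000200000000000000) (nat_lit 0x0) (nat_lit 0xd0000500000000000000) := T_1 (nat_lit 76) (nat_lit 56) (nat_lit 0) (nat_lit 9) (nat_lit 4) L3962988 (by decide +kernel)
theorem L3962990 : W_1 (nat_lit 4) (nat_lit 0x100008000200070002c000200000000000000) (nat_lit 0x0) (nat_lit 0x1000080000000d0000500000000000000) := T_1 (nat_lit 111) (nat_lit 128) (nat_lit 5) (nat_lit 9) (nat_lit 4) L3962989 (by decide +kernel)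
theorem L3962991 : W_1 (nat_lit 5) (nat_lit 0x100008000000070002c000200000000000000) (nat_lit 0x0) (nat_lit 0x14000a0000000d0000500000000000000) := T_1 (nat_lit 109) (nat_lit 126) (nat_lit 7) (nat_lit 7) (nat_lit 4) L3962990 (by decide +kernel)
theorem L3962992 : W_1 (nat_lit 6) (nat_lit 0x100008000000030002c000200000000000000) (nat_lit 0x0) (nat_lit 0x14000a000c000d0000500000000000000) := T_1 (nat_lit 94) (nat_lit 95) (nat_lit 0) (nat_lit 10) (nat_lit 5) L3962991 (by decide +kernel)
theorem L3963038 : W_1 (nat_lit 2) (nat_lit 0x10000800028007c000c000000010000000000) (nat_lit 0x0) (nat_lit 0x30010000000000000000000) := D_1 (nat_lit 89) (nat_lit 88) (nat_lit 76) (nat_lit 2) (nat_lit 3) (nat_lit 5) (nat_lit 2) (nat_lit 4) (nat_lit 5) (by decide +kernel)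
theorem L3963039 : W_1 (nat_lit 3) (nat_lit 0x100008000280078000c000000010000000000) (nat_lit 0x0) (nat_lit 0x400070010000000000000000000) := T_1 (nat_lit 90) (nat_lit 106) (nat_lit 1) (nat_lit 8) (nat_lit 5) L3963038 (by decide +kernel)
theorem L3963040 : W_1 (nat_lit 4) (nat_lit 0x100008000200078000c000000010000000000) (nat_lit 0x0) (nat_lit 0x1c00070010000000000000000000) := T_1 (nat_lit 107) (nat_lit 108) (nat_lit 1) (nat_lit 9) (nat_lit 5) L3963039 (by decide +kernel)
theorem L3963041 : W_1 (nat_lit 5) (nat_lit 0x100008000200078000c000000000000000000) (nat_lit 0x0) (nat_lit 0x1c00070010000200010000000000) := T_1 (nat_lit 40) (nat_lit 57) (nat_lit 7) (nat_lit 6) (nat_lit 2) L3963040 (by decide +kernel)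
theorem L3963042 : W_1 (nat_lit 6) (nat_lit 0x100008000000078000c000000000000000000) (nat_lit 0x0) (nat_lit 0x40003c00070010000200010000000000) := T_1 (nat_lit 109) (nat_lit 126) (nat_lit 7) (nat_lit 7) (nat_lit 4) L3963041 (by decide +kernel)
theorem L3963043 : W_1 (nat_lit 7) (nat_lit 0x100008000000038000c000000000000000000) (nat_lit 0x0) (nat_lit 0x40003c00c70010000200010000000000) := T_1 (nat_lit 94) (nat_lit 95) (nat_lit 0) (nat_lit 10) (nat_lit 5) L3963042 (by decide +kernel)
theorem L3963046 : W_1 (nat_lit 2) (nat_lit 0x100008000300038000c000200020000000000) (nat_lit 0x0) (nat_lit 0x10000c00000000000000000000000000) := D_1 (nat_lit 107) (nat_lit 106) (nat_lit 124) (nat_lit 2) (nat_lit 4) (nat_lit 6) (nat_lit 5) (nat_lit 6) (nat_lit 3) (by decide +kernel)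
theorem L3963047 : W_1 (nat_lit 3) (nat_lit 0x100008000300038000c000000020000000000) (nat_lit 0x0) (nat_lit 0x10000c00000000000200010000000000) := T_1 (nat_lit 57) (nat_lit 40) (nat_lit 7) (nat_lit 6) (nat_lit 2) L3963046 (by decide +kernel)
theorem L3963048 : W_1 (nat_lit 4) (nat_lit 0x100008000100038000c000000020000000000) (nat_lit 0x0) (nat_lit 0x50002c00000000000200010000000000) := T_1 (nat_lit 109) (nat_lit 126) (nat_lit 7) (nat_lit 7) (nat_lit 4) L3963047 (by decide +kernel)
theorem L3963049 : W_1 (nat_lit 5) (nat_lit 0x100008000100038000c000000000000000000) (nat_lit 0x0) (nat_lit 0x50002c00000000000600030000000000) := T_1 (nat_lit 41) (nat_lit 58) (nat_lit 5) (nat_lit 7) (nat_lit 2) L3963048 (by decide +kernel)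
theorem L3963104 : W_1 (nat_lit 2) (nat_lit 0x100008000000078002c000200010000000000) (nat_lit 0x0) (nat_lit 0x1800040000000000000000000000) := D_1 (nat_lit 107) (nat_lit 108) (nat_lit 90) (nat_lit 1) (nat_lit 9) (nat_lit 5) (nat_lit 5) (nat_lit 6) (nat_lit 2) (by decide +kernel)
theorem L3963105 : W_1 (nat_lit 3) (nat_lit 0x100008000000070002c000200010000000000) (nat_lit 0x0) (nat_lit 0x18000c0040000000000000000000) := T_1 (nat_lit 91) (nat_lit 78) (nat_lit 2) (nat_lit 6) (nat_lit 5) L3963104 (by decide +kernel)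
theorem L3963106 : W_1 (nat_lit 4) (nat_lit 0x100008000000030002c000200010000000000) (nat_lit 0x0) (nat_lit 0x1800cc0040000000000000000000) := T_1 (nat_lit 94) (nat_lit 95) (nat_lit 0) (nat_lit 10) (nat_lit 5) L3963105 (by decide +kernel)
theorem L3963107 : W_1 (nat_lit 5) (nat_lit 0x100008000000030002c000200000000000000) (nat_lit 0x0) (nat_lit 0x1800cc0040000000010000800000) := T_1 (nat_lit 40) (nat_lit 23) (nat_lit 7) (nat_lit 6) (nat_lit 1) L3963106 (by decide +kernel)
theorem L3963118 : W_1 (nat_lit 2) (nat_lit 0x100008000200070002c000400060000000000) (nat_lit 0x0) (nat_lit 0x1000080040000000000000000000) := D_1 (nat_lit 91) (nat_lit 78) (nat_lit 108) (nat_lit 2) (nat_lit 6) (nat_lit 5) (nat_lit 5) (nat_lit 7) (nat_lit 2) (by decide +kernel)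
theorem L3963119 : W_1 (nat_lit 3) (nat_lit 0x100008000200070002c000400040000000000) (nat_lit 0x0) (nat_lit 0x1000080040000000020002000000) := T_1 (nat_lit 41) (nat_lit 25) (nat_lit 6) (nat_lit 7) (nat_lit 5) L3963118 (by decide +kernel)
theorem L3963120 : W_1 (nat_lit 4) (nat_lit 0x100008000200070002c000400000000000000) (nat_lit 0x0) (nat_lit 0x1000080040000800060002000000) := T_1 (nat_lit 42) (nat_lit 59) (nat_lit 6) (nat_lit 7) (nat_lit 6) L3963119 (by decide +kernel)
theorem L3963121 : W_1 (nat_lit 5) (nat_lit 0x100008000000070002c000400000000000000) (nat_lit 0x0) (nat_lit 0x40003000080040000800060002000000) := T_1 (nat_lit 109) (nat_lit 126) (nat_lit 7) (nat_lit 7) (nat_lit 4) L3963120 (by decide +kernel)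
theorem L3963122 : W_1 (nat_lit 6) (nat_lit 0x100008000000030002c000400000000000000) (nat_lit 0x0) (nat_lit 0x40003000c80040000800060002000000) := T_1 (nat_lit 94) (nat_lit 95) (nat_lit 0) (nat_lit 10) (nat_lit 5) L3963121 (by decide +kernel)
theorem L3963123 : W_1 (nat_lit 2) (nat_lit 0x100008000200030002c000400060000000000) (nat_lit 0x0) (nat_lit 0x200010000800000) := D_1 (nat_lit 40) (nat_lit 57) (nat_lit 23) (nat_lit 4) (nat_lit 7) (nat_lit 6) (nat_lit 4) (nat_lit 7) (nat_lit 5) (by decide +kernel)
theorem L3963124 : W_1 (nat_lit 3) (nat_lit 0x100008000200030002c000400040000000000) (nat_lit 0x0) (nat_lit 0x200030002800000) := T_1 (nat_lit 41) (nat_lit 25) (nat_lit 6) (nat_lit 7) (nat_lit 5) L3963123 (by decide +kernel)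
theorem L3963125 : W_1 (nat_lit 4) (nat_lit 0x100008000200030002c000400000000000000) (nat_lit 0x0) (nat_lit 0xa00070002800000) := T_1 (nat_lit 42) (nat_lit 59) (nat_lit 6) (nat_lit 7) (nat_lit 6) L3963124 (by decide +kernel)
theorem L3963126 : W_1 (nat_lit 5) (nat_lit 0x100008000000030002c000400000000000000) (nat_lit 0x0) (nat_lit 0x40002000000000000a00070002800000) := T_1 (nat_lit 109) (nat_lit 126) (nat_lit 7) (nat_lit 7) (nat_lit 4) L3963125 (by decide +kernel)
theorem L3963127 : W_1 (nat_lit 2) (nat_lit 0x100008000000078002c000400000000000000) (nat_lit 0x0) (nat_lit 0x1800000000000000020000000000) := D_1 (nat_lit 108) (nat_lit 107) (nat_lit 41) (nat_lit 1) (nat_lit 9) (nat_lit 5) (nat_lit 5) (nat_lit 7) (nat_lit 2) (by decide +kernel)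
theorem L3963128 : W_1 (nat_lit 3) (nat_lit 0x100008000000070002c000400000000000000) (nat_lit 0x0) (nat_lit 0x1800080040000000020000000000) := T_1 (nat_lit 91) (nat_lit 78) (nat_lit 2) (nat_lit 6) (nat_lit 5) L3963127 (by decide +kernel)
theorem L3963129 : W_1 (nat_lit 4) (nat_lit 0x100008000000030002c000400000000000000) (nat_lit 0x0) (nat_lit 0x1800c80040000000020000000000) := T_1 (nat_lit 94) (nat_lit 95) (nat_lit 0) (nat_lit 10) (nat_lit 5) L3963128 (by decide +kernel)
theorem L3963130 : W_1 (nat_lit 2) (nat_lit 0x100008000200070002c000e00000000000000) (nat_lit 0x0) (nat_lit 0x40003000000000000000) := D_1 (nat_lit 60) (nat_lit 61) (nat_lit 78) (nat_lit 1) (nat_lit 10) (nat_lit 3) (nat_lit 3) (nat_lit 6) (nat_lit 3) (by decide +kernel)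
theorem L3963131 : W_1 (nat_lit 3) (nat_lit 0x100008000200070002c000c00000000000000) (nat_lit 0x0) (nat_lit 0x40003200010000000000) := T_1 (nat_lit 57) (nat_lit 40) (nat_lit 4) (nat_lit 7) (nat_lit 6) L3963130 (by decide +kernel)
theorem L3963132 : W_1 (nat_lit 4) (nat_lit 0x100008000200070002c000400000000000000) (nat_lit 0x0) (nat_lit 0x40003a00050000000000) := T_1 (nat_lit 59) (nat_lit 42) (nat_lit 6) (nat_lit 7) (nat_lit 6) L3963131 (by decide +kernel)
theorem L3963133 : W_1 (nat_lit 5) (nat_lit 0x100008000000070002c000400000000000000) (nat_lit 0x0) (nat_lit 0x40002000000040003a00050000000000) := T_1 (nat_lit 109) (nat_lit 126) (nat_lit 7) (nat_lit 7) (nat_lit 4) L3963132 (by decide +kernel)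
theorem L3963134 : W_1 (nat_lit 6) (nat_lit 0x100008000000030002c000400000000000000) (nat_lit 0x0) (nat_lit 0x40002000c00040003a00050000000000) := T_1 (nat_lit 94) (nat_lit 95) (nat_lit 0) (nat_lit 10) (nat_lit 5) L3963133 (by decide +kernel)
theorem L3963135 : W_1 (nat_lit 7) (nat_lit 0x100008000000030002c000000000000000000) (nat_lit 0x0) (nat_lit 0x40003800c80040003e00070002800000) := Q_1 (nat_lit 58) (C_1 L3963122 (C_1 L3963126 (C_1 L3963129 (C_1 L3963134 N_1)))) (by decide +kernel)
theorem L3963136 : W_1 (nat_lit 10) (nat_lit 0x100008000000030002c000000000000000000) (nat_lit 0x0) (nat_lit 0x400020000c00d0003f000f8007c00000) := Q_1 (nat_lit 76) (C_1 L3962863 (C_1 L3962869 (C_1 L345868 N_1))) (by decide +kernel)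
theorem L3963137 : W_1 (nat_lit 7) (nat_lit 0x100008000000030002c000000000000000000) (nat_lit 0x0) (nat_lit 0x14000a000c000d0003f000c0006000000) := Q_1 (nat_lit 76) (C_1 L3962875 (C_1 L3962869 (C_1 L3962862 N_1))) (by decide +kernel)
theorem L3963138 : W_1 (nat_lit 2) (nat_lit 0x100008000a00074003c001200000004000000) (nat_lit 0x0) (nat_lit 0x400010000800000) := D_1 (nat_lit 40) (nat_lit 58) (nat_lit 23) (nat_lit 4) (nat_lit 7) (nat_lit 6) (nat_lit 7) (nat_lit 6) (nat_lit 1) (by decide +kernel)
theorem L3963139 : W_1 (nat_lit 3) (nat_lit 0x100008000a00074003c001000000004000000) (nat_lit 0x0) (nat_lit 0x700010000800000) := T_1 (nat_lit 57) (nat_lit 56) (nat_lit 0) (nat_lit 9) (nat_lit 4) L3963138 (by decide +kernel)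
theorem L3963140 : W_1 (nat_lit 4) (nat_lit 0x100008000a00074003c001000000000000000) (nat_lit 0x0) (nat_lit 0x700090004800000) := T_1 (nat_lit 26) (nat_lit 43) (nat_lit 5) (nat_lit 9) (nat_lit 1) L3963139 (by decide +kernel)
theorem L3963141 : W_1 (nat_lit 5) (nat_lit 0x100008000a00070003c001000000000000000) (nat_lit 0x0) (nat_lit 0xc0000000700090004800000) := T_1 (nat_lit 90) (nat_lit 91) (nat_lit 2) (nat_lit 5) (nat_lit 5) L3963140 (by decide +kernel)
theorem L3963142 : W_1 (nat_lit 6) (nat_lit 0x100008000a00070003c000000000000000000) (nat_lit 0x0) (nat_lit 0xc0000003700090004800000) := T_1 (nat_lit 60) (nat_lit 61) (nat_lit 2) (nat_lit 6) (nat_lit 4) L3963141 (by decide +kernel)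
theorem L3963143 : W_1 (nat_lit 7) (nat_lit 0x100008000200070003c000000000000000000) (nat_lit 0x0) (nat_lit 0x1000080000c0000003700090004800000) := T_1 (nat_lit 111) (nat_lit 128) (nat_lit 5) (nat_lit 9) (nat_lit 4) L3963142 (by decide +kernel)
theorem L3963144 : W_1 (nat_lit 8) (nat_lit 0x100008000200030003c000000000000000000) (nat_lit 0x0) (nat_lit 0x100008000cc0000003700090004800000) := T_1 (nat_lit 94) (nat_lit 95) (nat_lit 3) (nat_lit 6) (nat_lit 4) L3963143 (by decide +kernel)
theorem L3963145 : W_1 (nat_lit 9) (nat_lit 0x100008000000030003c000000000000000000) (nat_lit 0x0) (nat_lit 0x14000a000cc0000003700090004800000) := T_1 (nat_lit 109) (nat_lit 126) (nat_lit 7) (nat_lit 7) (nat_lit 4) L3963144 (by decide +kernel)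
theorem L3963146 : W_1 (nat_lit 2) (nat_lit 0x100008000a00070003c000200040000000000) (nat_lit 0x0) (nat_lit 0x400010000800000) := D_1 (nat_lit 40) (nat_lit 58) (nat_lit 23) (nat_lit 4) (nat_lit 7) (nat_lit 6) (nat_lit 7) (nat_lit 6) (nat_lit 1) (by decide +kernel)
theorem L3963147 : W_1 (nat_lit 3) (nat_lit 0x100008000800070003c000200040000000000) (nat_lit 0x0) (nat_lit 0x40002000000000000400010000800000) := T_1 (nat_lit 109) (nat_lit 126) (nat_lit 7) (nat_lit 7) (nat_lit 4) L3963146 (by decide +kernel)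
theorem L3963148 : W_1 (nat_lit 4) (nat_lit 0x100008000800070003c000200000000000000) (nat_lit 0x0) (nat_lit 0x40002000000000000c00050000800000) := T_1 (nat_lit 42) (nat_lit 59) (nat_lit 7) (nat_lit 8) (nat_lit 2) L3963147 (by decide +kernel)
theorem L3963149 : W_1 (nat_lit 5) (nat_lit 0x100008000000070003c000200000000000000) (nat_lit 0x0) (nat_lit 0x14000a000000000000c00050000800000) := T_1 (nat_lit 111) (nat_lit 128) (nat_lit 5) (nat_lit 9) (nat_lit 4) L3963148 (by decide +kernel)
theorem L3963150 : W_1 (nat_lit 6) (nat_lit 0x100008000000030003c000200000000000000) (nat_lit 0x0) (nat_lit 0x14000a000c00000000c00050000800000) := T_1 (nat_lit 94) (nat_lit 95) (nat_lit 3) (nat_lit 6) (nat_lit 4) L3963149 (by decide +kernel)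
theorem L3963151 : W_1 (nat_lit 7) (nat_lit 0x100008000000030003c000000000000000000) (nat_lit 0x0) (nat_lit 0x14000a000c00000000f00050000800000) := T_1 (nat_lit 57) (nat_lit 56) (nat_lit 0) (nat_lit 9) (nat_lit 4) L3963150 (by decide +kernel)
theorem L3963152 : W_1 (nat_lit 10) (nat_lit 0x100008000000030002c000000000000000000) (nat_lit 0x0) (nat_lit 0x14000a000cc0010003f000f8007c00000) := Q_1 (nat_lit 76) (C_1 L3962875 (C_1 L345868 (C_1 L3963145 (C_1 L3963151 N_1)))) (by decide +kernel)
theorem L3963153 : W_1 (nat_lit 11) (nat_lit 0x100008000000030000c000000000000000000) (nat_lit 0x0) (nat_lit 0x14000b800cc01f0003f000f8007c00000) := Q_1 (nat_lit 77) (C_1 L3963135 (C_1 L257169 (C_1 L3963136 (C_1 L3963137 (C_1 L3963152 N_1))))) (by decide +kernel)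
theorem L3963154 : W_1 (nat_lit 12) (nat_lit 0x1000080000000300008000000000000000000) (nat_lit 0x0) (nat_lit 0x14000b800cc01f7003f000f8007c00000) := Q_1 (nat_lit 74) (C_1 L340073 (C_1 L32323 (C_1 L258920 (C_1 L3963153 N_1)))) (by decide +kernel)
theorem L3963155 : W_1 (nat_lit 2) (nat_lit 0x10000900018003c001d000000000000000000) (nat_lit 0x0) (nat_lit 0x20000000000000000400020000000000) := D_1 (nat_lit 58) (nat_lit 41) (nat_lit 125) (nat_lit 5) (nat_lit 7) (nat_lit 2) (nat_lit 6) (nat_lit 6) (nat_lit 7) (by decide +kernel)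
theorem L3963156 : W_1 (nat_lit 3) (nat_lit 0x10000900008003c001d000000000000000000) (nat_lit 0x0) (nat_lit 0x20001000000000000600020000000000) := T_1 (nat_lit 108) (nat_lit 57) (nat_lit 5) (nat_lit 6) (nat_lit 3) L3963155 (by decide +kernel)
theorem L3963157 : W_1 (nat_lit 4) (nat_lit 0x10000800008003c001d000000000000000000) (nat_lit 0x0) (nat_lit 0x200030001000000000000600020000000000) := T_1 (nat_lit 124) (nat_lit 141) (nat_lit 6) (nat_lit 5) (nat_lit 8) L3963156 (by decide +kernel)
theorem L3963158 : W_1 (nat_lit 5) (nat_lit 0x10000800000003c001d000000000000000000) (nat_lit 0x0) (nat_lit 0x200030001c00000000000600020000000000) := T_1 (nat_lit 107) (nat_lit 106) (nat_lit 1) (nat_lit 8) (nat_lit 5) L3963157 (by decide +kernel)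
theorem L3963159 : W_1 (nat_lit 6) (nat_lit 0x10000800000003c000d000000000000000000) (nat_lit 0x0) (nat_lit 0x200030001c00000030000600020000000000) := T_1 (nat_lit 76) (nat_lit 77) (nat_lit 2) (nat_lit 5) (nat_lit 5) L3963158 (by decide +kernel)
theorem L3963160 : W_1 (nat_lit 7) (nat_lit 0x10000800000003c000c000000000000000000) (nat_lit 0x0) (nat_lit 0x200030001c00000033000600020000000000) := T_1 (nat_lit 72) (nat_lit 73) (nat_lit 3) (nat_lit 4) (nat_lit 4) L3963159 (by decide +kernel)
theorem L3963161 : W_1 (nat_lit 8) (nat_lit 0x100008000000038000c000000000000000000) (nat_lit 0x0) (nat_lit 0x200030001e00070033800600020000000000) := Q_1 (nat_lit 90) (C_1 L3962770 (C_1 L3962762 (C_1 L3963160 N_1))) (by decide +kernel)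
theorem L3963162 : W_1 (nat_lit 12) (nat_lit 0x100008000000038000c000000000000000000) (nat_lit 0x0) (nat_lit 0x1000000073003f800fc007e00000) := Q_1 (nat_lit 76) (C_1 L3962836 (C_1 L3962820 (C_1 L3962830 (C_1 L3962833 N_1)))) (by decide +kernel)
theorem L3963163 : W_1 (nat_lit 2) (nat_lit 0x10000800004003c001e000880000000000000) (nat_lit 0x0) (nat_lit 0x2000000000000000040002000000) := D_1 (nat_lit 42) (nat_lit 25) (nat_lit 109) (nat_lit 5) (nat_lit 8) (nat_lit 1) (nat_lit 5) (nat_lit 8) (nat_lit 2) (by decide +kernel)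
theorem L3963164 : W_1 (nat_lit 3) (nat_lit 0x10000800004003c001e000080000000000000) (nat_lit 0x0) (nat_lit 0x2000000000001800040002000000) := T_1 (nat_lit 59) (nat_lit 60) (nat_lit 2) (nat_lit 5) (nat_lit 4) L3963163 (by decide +kernel)
theorem L3963165 : W_1 (nat_lit 4) (nat_lit 0x10000800000003c001e000080000000000000) (nat_lit 0x0) (nat_lit 0x2c00000000001800040002000000) := T_1 (nat_lit 106) (nat_lit 107) (nat_lit 1) (nat_lit 8) (nat_lit 5) L3963164 (by decide +kernel)
theorem L3963166 : W_1 (nat_lit 5) (nat_lit 0x10000800000003c001e000000000000000000) (nat_lit 0x0) (nat_lit 0x2c00000000001980040002000000) := T_1 (nat_lit 55) (nat_lit 56) (nat_lit 0) (nat_lit 8) (nat_lit 4) L3963165 (by decide +kernel)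
theorem L3963167 : W_1 (nat_lit 6) (nat_lit 0x10000800000003c000e000000000000000000) (nat_lit 0x0) (nat_lit 0x2c00000030001980040002000000) := T_1 (nat_lit 76) (nat_lit 77) (nat_lit 2) (nat_lit 5) (nat_lit 5) L3963166 (by decide +kernel)
theorem L3963168 : W_1 (nat_lit 7) (nat_lit 0x10000800000003c000c000000000000000000) (nat_lit 0x0) (nat_lit 0x2c00000033001980040002000000) := T_1 (nat_lit 73) (nat_lit 72) (nat_lit 3) (nat_lit 4) (nat_lit 4) L3963167 (by decide +kernel)
theorem L3963169 : W_1 (nat_lit 8) (nat_lit 0x100008000000038000c000000000000000000) (nat_lit 0x0) (nat_lit 0x2e00070033801980040002000000) := Q_1 (nat_lit 90) (C_1 L3962770 (C_1 L3962762 (C_1 L3963168 N_1))) (by decide +kernel)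
theorem L3963170 : W_1 (nat_lit 13) (nat_lit 0x100008000000030000c000000000000000000) (nat_lit 0x0) (nat_lit 0x200030003e000f0073803f800fc007e00000) := Q_1 (nat_lit 91) (C_1 L3962775 (C_1 L3963161 (C_1 L3962766 (C_1 L3963162 (C_1 L3962842 (C_1 L3963169 N_1)))))) (by decide +kernel)
theorem L3963171 : W_1 (nat_lit 14) (nat_lit 0x1000080000000300008000000000000000000) (nat_lit 0x0) (nat_lit 0x200030003e00cf0077803f800fc007e00000) := Q_1 (nat_lit 74) (C_1 L3962858 (C_1 L32323 (C_1 L3963170 (C_1 L28280 N_1)))) (by decide +kernel)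
theorem L3963172 : W_1 (nat_lit 2) (nat_lit 0x100008000000034003c000000000000000000) (nat_lit 0x0) (nat_lit 0x20003000000000000000000) := D_1 (nat_lit 73) (nat_lit 72) (nat_lit 89) (nat_lit 3) (nat_lit 4) (nat_lit 4) (nat_lit 1) (nat_lit 8) (nat_lit 4) (by decide +kernel)
theorem L3963173 : W_1 (nat_lit 3) (nat_lit 0x100008000000030003c000000000000000000) (nat_lit 0x0) (nat_lit 0xe0003000000000000000000) := T_1 (nat_lit 90) (nat_lit 91) (nat_lit 2) (nat_lit 5) (nat_lit 5) L3963172 (by decide +kernel)
theorem L3963174 : W_1 (nat_lit 2) (nat_lit 0x100008000000030003c001000000000000000) (nat_lit 0x0) (nat_lit 0x3000800000000000000) := D_1 (nat_lit 73) (nat_lit 59) (nat_lit 72) (nat_lit 2) (nat_lit 5) (nat_lit 4) (nat_lit 3) (nat_lit 4) (nat_lit 4) (by decide +kernel)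
theorem L3963175 : W_1 (nat_lit 3) (nat_lit 0x100008000000030003c000000000000000000) (nat_lit 0x0) (nat_lit 0x3003800000000000000) := T_1 (nat_lit 60) (nat_lit 61) (nat_lit 2) (nat_lit 6) (nat_lit 4) L3963174 (by decide +kernel)
theorem L3963176 : W_1 (nat_lit 10) (nat_lit 0x1000080000000300038000000000000000000) (nat_lit 0x0) (nat_lit 0xe0007003b000f8007c00000) := Q_1 (nat_lit 74) (C_1 L3963173 (C_1 L3963175 (C_1 L345868 N_1))) (by decide +kernel)
theorem L3963177 : W_1 (nat_lit 11) (nat_lit 0x1000080000000300018000000000000000000) (nat_lit 0x0) (nat_lit 0xe00e7007f000f8007c00000) := Q_1 (nat_lit 77) (C_1 L257445 (C_1 L28225 (C_1 L3963176 N_1))) (by decide +kernel)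
theorem L3963178 : W_1 (nat_lit 2) (nat_lit 0x1000080000000300018000c00070004000000) (nat_lit 0x0) (nat_lit 0x100000c000000000) := D_1 (nat_lit 39) (nat_lit 60) (nat_lit 38) (nat_lit 3) (nat_lit 5) (nat_lit 2) (nat_lit 3) (nat_lit 4) (nat_lit 2) (by decide +kernel)
theorem L3963179 : W_1 (nat_lit 3) (nat_lit 0x1000080000000300018000c00060004000000) (nat_lit 0x0) (nat_lit 0x100001c000800000) := T_1 (nat_lit 40) (nat_lit 23) (nat_lit 4) (nat_lit 7) (nat_lit 5) L3963178 (by decide +kernel)
theorem L3963180 : W_1 (nat_lit 4) (nat_lit 0x1000080000000300018000c00060000000000) (nat_lit 0x0) (nat_lit 0x100009c004800000) := T_1 (nat_lit 26) (nat_lit 43) (nat_lit 6) (nat_lit 8) (nat_lit 5) L3963179 (by decide +kernel)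
theorem L3963181 : W_1 (nat_lit 5) (nat_lit 0x1000080000000300018000c00040000000000) (nat_lit 0x0) (nat_lit 0x10000bc005800000) := T_1 (nat_lit 41) (nat_lit 24) (nat_lit 7) (nat_lit 7) (nat_lit 1) L3963180 (by decide +kernel)
theorem L3963182 : W_1 (nat_lit 6) (nat_lit 0x1000080000000300018000c00000000000000) (nat_lit 0x0) (nat_lit 0x10000fc007800000) := T_1 (nat_lit 42) (nat_lit 25) (nat_lit 5) (nat_lit 8) (nat_lit 1) L3963181 (by decide +kernel)
theorem L3963183 : W_1 (nat_lit 2) (nat_lit 0x1000080000000300018000e000c0000000000) (nat_lit 0x0) (nat_lit 0x1000300000000000) := D_1 (nat_lit 44) (nat_lit 45) (nat_lit 60) (nat_lit 1) (nat_lit 11) (nat_lit 2) (nat_lit 2) (nat_lit 6) (nat_lit 3) (by decide +kernel)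
theorem L3963184 : W_1 (nat_lit 3) (nat_lit 0x1000080000000300018000c000c0000000000) (nat_lit 0x0) (nat_lit 0x1300300000000000) := T_1 (nat_lit 57) (nat_lit 56) (nat_lit 2) (nat_lit 5) (nat_lit 3) L3963183 (by decide +kernel)
theorem L3963185 : W_1 (nat_lit 4) (nat_lit 0x1000080000000300018000c00040000000000) (nat_lit 0x0) (nat_lit 0x1300380004000000) := T_1 (nat_lit 43) (nat_lit 26) (nat_lit 6) (nat_lit 8) (nat_lit 5) L3963184 (by decide +kernel)
theorem L3963186 : W_1 (nat_lit 5) (nat_lit 0x1000080000000300018000c00000000000000) (nat_lit 0x0) (nat_lit 0x13003c0006000000) := T_1 (nat_lit 42) (nat_lit 25) (nat_lit 5) (nat_lit 8) (nat_lit 1) L3963185 (by decide +kernel)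
theorem L3963187 : W_1 (nat_lit 2) (nat_lit 0x100008000000034001a000f00078004200000) (nat_lit 0x0) (nat_lit 0x400020004000000000000000000) := D_1 (nat_lit 89) (nat_lit 106) (nat_lit 74) (nat_lit 5) (nat_lit 5) (nat_lit 2) (nat_lit 1) (nat_lit 8) (nat_lit 4) (by decide +kernel)
theorem L3963188 : W_1 (nat_lit 3) (nat_lit 0x100008000000030001a000f00078004200000) (nat_lit 0x0) (nat_lit 0xc00060004000000000000000000) := T_1 (nat_lit 90) (nat_lit 107) (nat_lit 6) (nat_lit 5) (nat_lit 6) L3963187 (by decide +kernel)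
theorem L3963189 : W_1 (nat_lit 4) (nat_lit 0x1000080000000300018000f00078004200000) (nat_lit 0x0) (nat_lit 0xc00060007000000000000000000) := T_1 (nat_lit 73) (nat_lit 72) (nat_lit 1) (nat_lit 8) (nat_lit 3) L3963188 (by decide +kernel)
theorem L3963190 : W_1 (nat_lit 5) (nat_lit 0x1000080000000300018000d00078004200000) (nat_lit 0x0) (nat_lit 0xc00060027000200000000000000) := T_1 (nat_lit 57) (nat_lit 77) (nat_lit 3) (nat_lit 5) (nat_lit 3) L3963189 (by decide +kernel)
theorem L3963191 : W_1 (nat_lit 6) (nat_lit 0x1000080000000300018000d00078004000000) (nat_lit 0x0) (nat_lit 0xc00060027000200000000600000) := T_1 (nat_lit 21) (nat_lit 22) (nat_lit 0) (nat_lit 8) (nat_lit 2) L3963190 (by decide +kernel)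
theorem L3963192 : W_1 (nat_lit 7) (nat_lit 0x1000080000000300018000c00078004000000) (nat_lit 0x0) (nat_lit 0xc00060027000380000000600000) := T_1 (nat_lit 56) (nat_lit 55) (nat_lit 1) (nat_lit 8) (nat_lit 2) L3963191 (by decide +kernel)
theorem L3963193 : W_1 (nat_lit 8) (nat_lit 0x1000080000000300018000c00070004000000) (nat_lit 0x0) (nat_lit 0xc0006002700038000c000600000) := T_1 (nat_lit 39) (nat_lit 38) (nat_lit 3) (nat_lit 4) (nat_lit 2) L3963192 (by decide +kernel)
theorem L3963194 : W_1 (nat_lit 9) (nat_lit 0x1000080000000300018000c00060004000000) (nat_lit 0x0) (nat_lit 0xc0006002700038001c000e00000) := T_1 (nat_lit 40) (nat_lit 23) (nat_lit 4) (nat_lit 7) (nat_lit 5) L3963193 (by decide +kernel)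
theorem L3963195 : W_1 (nat_lit 10) (nat_lit 0x1000080000000300018000c00060000000000) (nat_lit 0x0) (nat_lit 0xc0006002700038009c004e00000) := T_1 (nat_lit 26) (nat_lit 43) (nat_lit 6) (nat_lit 8) (nat_lit 5) L3963194 (by decide +kernel)
theorem L3963196 : W_1 (nat_lit 11) (nat_lit 0x1000080000000300018000c00040000000000) (nat_lit 0x0) (nat_lit 0xc000600270003800bc005e00000) := T_1 (nat_lit 41) (nat_lit 24) (nat_lit 7) (nat_lit 7) (nat_lit 1) L3963195 (by decide +kernel)
theorem L3963197 : W_1 (nat_lit 12) (nat_lit 0x1000080000000300018000c00000000000000) (nat_lit 0x0) (nat_lit 0xc000600270003800fc007e00000) := T_1 (nat_lit 42) (nat_lit 25) (nat_lit 5) (nat_lit 8) (nat_lit 1) L3963196 (by decide +kernel)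
theorem L3963198 : W_1 (nat_lit 2) (nat_lit 0x1000080000000300018000c00038000000000) (nat_lit 0x0) (nat_lit 0x3200000000000000) := D_1 (nat_lit 60) (nat_lit 61) (nat_lit 57) (nat_lit 0) (nat_lit 10) (nat_lit 3) (nat_lit 0) (nat_lit 9) (nat_lit 3) (by decide +kernel)
theorem L3963199 : W_1 (nat_lit 3) (nat_lit 0x1000080000000300018000c00030000000000) (nat_lit 0x0) (nat_lit 0x320000c000000000) := T_1 (nat_lit 39) (nat_lit 38) (nat_lit 3) (nat_lit 4) (nat_lit 2) L3963198 (by decide +kernel)
theorem L3963200 : W_1 (nat_lit 4) (nat_lit 0x1000080000000300018000c00020000000000) (nat_lit 0x0) (nat_lit 0x320001c000800000) := T_1 (nat_lit 40) (nat_lit 23) (nat_lit 4) (nat_lit 7) (nat_lit 5) L3963199 (by decide +kernel)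
theorem L3963201 : W_1 (nat_lit 5) (nat_lit 0x1000080000000300018000c00000000000000) (nat_lit 0x0) (nat_lit 0x320003c001800000) := T_1 (nat_lit 41) (nat_lit 24) (nat_lit 7) (nat_lit 7) (nat_lit 1) L3963200 (by decide +kernel)
theorem L3963216 : W_1 (nat_lit 2) (nat_lit 0x1000080002000300018000e00000000000000) (nat_lit 0x0) (nat_lit 0x20000180000000000000) := D_1 (nat_lit 56) (nat_lit 77) (nat_lit 55) (nat_lit 3) (nat_lit 5) (nat_lit 3) (nat_lit 3) (nat_lit 4) (nat_lit 3) (by decide +kernel)
theorem L3963224 : W_1 (nat_lit 13) (nat_lit 0x1000080000000300018000400000000000000) (nat_lit 0x0) (nat_lit 0xc00060027003b803fc007e00000) := Q_1 (nat_lit 59) (C_1 L3963201 (C_1 L3963186 (C_1 L3963197 (C_1 L3963182 N_1)))) (by decide +kernel)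
theorem L3963225 : W_1 (nat_lit 14) (nat_lit 0x1000080000000300018000000000000000000) (nat_lit 0x0) (nat_lit 0x60003c00060067003f803fc007e00000) := Q_1 (nat_lit 58) (C_1 L345952 (C_1 L3963224 (C_1 L257227 (C_1 L257232 (C_1 L257456 N_1))))) (by decide +kernel)
theorem L3963226 : W_1 (nat_lit 6) (nat_lit 0x1000080000000300018000c00000000000000) (nat_lit 0x0) (nat_lit 0x60003c00000020000380010000000000) := T_1 (nat_lit 109) (nat_lit 126) (nat_lit 7) (nat_lit 7) (nat_lit 4) L257454 (by decide +kernel)
theorem L3963227 : W_1 (nat_lit 2) (nat_lit 0x1000080003000300018000c00000000000000) (nat_lit 0x0) (nat_lit 0x80000000000020001000000) := D_1 (nat_lit 41) (nat_lit 91) (nat_lit 24) (nat_lit 5) (nat_lit 7) (nat_lit 2) (nat_lit 7) (nat_lit 7) (nat_lit 1) (by decide +kernel)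
theorem L3963228 : W_1 (nat_lit 3) (nat_lit 0x1000080002000300018000c00000000000000) (nat_lit 0x0) (nat_lit 0x20001000080000000000020001000000) := T_1 (nat_lit 108) (nat_lit 125) (nat_lit 5) (nat_lit 7) (nat_lit 3) L3963227 (by decide +kernel)
theorem L3963229 : W_1 (nat_lit 4) (nat_lit 0x1000080000000300018000c00000000000000) (nat_lit 0x0) (nat_lit 0x60003000080000000000020001000000) := T_1 (nat_lit 109) (nat_lit 126) (nat_lit 7) (nat_lit 7) (nat_lit 4) L3963228 (by decide +kernel)
theorem L3963230 : W_1 (nat_lit 7) (nat_lit 0x1000080000000300018000800000000000000) (nat_lit 0x0) (nat_lit 0x60003c0008002000378003c001800000) := Q_1 (nat_lit 58) (C_1 L3963201 (C_1 L3963226 (C_1 L3963229 N_1))) (by decide +kernel)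
theorem L3963231 : W_1 (nat_lit 2) (nat_lit 0x1000080000000380038000d00070004000000) (nat_lit 0x0) (nat_lit 0x8000c000000000) := D_1 (nat_lit 39) (nat_lit 38) (nat_lit 55) (nat_lit 3) (nat_lit 4) (nat_lit 2) (nat_lit 1) (nat_lit 8) (nat_lit 2) (by decide +kernel)
theorem L3963232 : W_1 (nat_lit 3) (nat_lit 0x1000080000000380038000d00060004000000) (nat_lit 0x0) (nat_lit 0x8001c000800000) := T_1 (nat_lit 40) (nat_lit 23) (nat_lit 4) (nat_lit 7) (nat_lit 5) L3963231 (by decide +kernel)
theorem L3963233 : W_1 (nat_lit 4) (nat_lit 0x1000080000000380038000c00060004000000) (nat_lit 0x0) (nat_lit 0x38001c000800000) := T_1 (nat_lit 56) (nat_lit 57) (nat_lit 3) (nat_lit 5) (nat_lit 3) L3963232 (by decide +kernel)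
theorem L3963234 : W_1 (nat_lit 5) (nat_lit 0x1000080000000380018000c00060004000000) (nat_lit 0x0) (nat_lit 0x6000038001c000800000) := T_1 (nat_lit 77) (nat_lit 78) (nat_lit 1) (nat_lit 10) (nat_lit 4) L3963233 (by decide +kernel)
theorem L3963235 : W_1 (nat_lit 6) (nat_lit 0x1000080000000300018000c00060004000000) (nat_lit 0x0) (nat_lit 0x100008006000038001c000800000) := T_1 (nat_lit 91) (nat_lit 108) (nat_lit 5) (nat_lit 7) (nat_lit 2) L3963234 (by decide +kernel)
theorem L3963236 : W_1 (nat_lit 7) (nat_lit 0x1000080000000300018000c00060000000000) (nat_lit 0x0) (nat_lit 0x100008006000038009c004800000) := T_1 (nat_lit 26) (nat_lit 43) (nat_lit 6) (nat_lit 8) (nat_lit 5) L3963235 (by decide +kernel)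
theorem L3963237 : W_1 (nat_lit 8) (nat_lit 0x1000080000000300018000c00040000000000) (nat_lit 0x0) (nat_lit 0x10000800600003800bc005800000) := T_1 (nat_lit 41) (nat_lit 24) (nat_lit 7) (nat_lit 7) (nat_lit 1) L3963236 (by decide +kernel)
theorem L3963238 : W_1 (nat_lit 9) (nat_lit 0x1000080000000300018000c00000000000000) (nat_lit 0x0) (nat_lit 0x10000800600003800fc007800000) := T_1 (nat_lit 42) (nat_lit 25) (nat_lit 5) (nat_lit 8) (nat_lit 1) L3963237 (by decide +kernel)
theorem L3963239 : W_1 (nat_lit 10) (nat_lit 0x1000080000000300018000800000000000000) (nat_lit 0x0) (nat_lit 0x10000800600037803fc007800000) := Q_1 (nat_lit 58) (C_1 L3963201 (C_1 L3963186 (C_1 L3963238 (C_1 L3963182 N_1)))) (by decide +kernel)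
theorem L3963240 : W_1 (nat_lit 11) (nat_lit 0x1000080000000300018000000000000000000) (nat_lit 0x0) (nat_lit 0x60003c00080060003f803fc007800000) := Q_1 (nat_lit 59) (C_1 L3963230 (C_1 L258147 (C_1 L3963239 N_1))) (by decide +kernel)
theorem L3963241 : W_1 (nat_lit 2) (nat_lit 0x100008000340030001a001f00104000000000) (nat_lit 0x0) (nat_lit 0x6000200000000000) := D_1 (nat_lit 61) (nat_lit 62) (nat_lit 45) (nat_lit 1) (nat_lit 11) (nat_lit 3) (nat_lit 2) (nat_lit 7) (nat_lit 3) (by decide +kernel)
theorem L3963242 : W_1 (nat_lit 3) (nat_lit 0x100008000340030001a001f00004000000000) (nat_lit 0x0) (nat_lit 0x6000380000000000) := T_1 (nat_lit 44) (nat_lit 43) (nat_lit 2) (nat_lit 6) (nat_lit 3) L3963241 (by decide +kernel)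
theorem L3963243 : W_1 (nat_lit 4) (nat_lit 0x100008000340030001a000f00004000000000) (nat_lit 0x0) (nat_lit 0x4007000380000000000) := T_1 (nat_lit 60) (nat_lit 74) (nat_lit 2) (nat_lit 5) (nat_lit 4) L3963242 (by decide +kernel)
theorem L3963244 : W_1 (nat_lit 5) (nat_lit 0x100008000340030001a000f00000000000000) (nat_lit 0x0) (nat_lit 0x400700038c000000000) := T_1 (nat_lit 38) (nat_lit 39) (nat_lit 0) (nat_lit 8) (nat_lit 3) L3963243 (by decide +kernel)
theorem L3963245 : W_1 (nat_lit 6) (nat_lit 0x1000080003400300018000f00000000000000) (nat_lit 0x0) (nat_lit 0x700700038c000000000) := T_1 (nat_lit 73) (nat_lit 72) (nat_lit 1) (nat_lit 8) (nat_lit 3) L3963244 (by decide +kernel)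
theorem L3963246 : W_1 (nat_lit 7) (nat_lit 0x1000080003400300018000e00000000000000) (nat_lit 0x0) (nat_lit 0x700718038c000000000) := T_1 (nat_lit 56) (nat_lit 55) (nat_lit 3) (nat_lit 4) (nat_lit 3) L3963245 (by decide +kernel)
theorem L3963247 : W_1 (nat_lit 8) (nat_lit 0x1000080003400300018000c00000000000000) (nat_lit 0x0) (nat_lit 0x700738039c000000000) := T_1 (nat_lit 57) (nat_lit 40) (nat_lit 4) (nat_lit 7) (nat_lit 6) L3963246 (by decide +kernel)
theorem L3963248 : W_1 (nat_lit 9) (nat_lit 0x1000080003000300018000c00000000000000) (nat_lit 0x0) (nat_lit 0xc0000000700738039c000000000) := T_1 (nat_lit 106) (nat_lit 107) (nat_lit 2) (nat_lit 4) (nat_lit 6) L3963247 (by decide +kernel)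
theorem L3963249 : W_1 (nat_lit 10) (nat_lit 0x1000080002000300018000c00000000000000) (nat_lit 0x0) (nat_lit 0x20001c0000000700738039c000000000) := T_1 (nat_lit 108) (nat_lit 125) (nat_lit 5) (nat_lit 7) (nat_lit 3) L3963248 (by decide +kernel)
theorem L3963250 : W_1 (nat_lit 11) (nat_lit 0x1000080000000300018000c00000000000000) (nat_lit 0x0) (nat_lit 0x60003c0000000700738039c000000000) := T_1 (nat_lit 109) (nat_lit 126) (nat_lit 7) (nat_lit 7) (nat_lit 4) L3963249 (by decide +kernel)
theorem L3963251 : W_1 (nat_lit 12) (nat_lit 0x1000080000000300018000800000000000000) (nat_lit 0x0) (nat_lit 0x60003c000800070077803bc001800000) := Q_1 (nat_lit 58) (C_1 L3963229 (C_1 L3963201 (C_1 L3963250 N_1))) (by decide +kernel)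
theorem L3963252 : W_1 (nat_lit 2) (nat_lit 0x10000800008003c001a000c00034002000000) (nat_lit 0x0) (nat_lit 0x380000000000000) := D_1 (nat_lit 56) (nat_lit 55) (nat_lit 57) (nat_lit 4) (nat_lit 5) (nat_lit 6) (nat_lit 6) (nat_lit 5) (nat_lit 6) (by decide +kernel)
theorem L3963253 : W_1 (nat_lit 3) (nat_lit 0x10000800000003c001a000c00034002000000) (nat_lit 0x0) (nat_lit 0xc00000000000380000000000000) := T_1 (nat_lit 107) (nat_lit 106) (nat_lit 1) (nat_lit 8) (nat_lit 5) L3963252 (by decide +kernel)
theorem L3963254 : W_1 (nat_lit 4) (nat_lit 0x10000800000003c001a000c00030002000000) (nat_lit 0x0) (nat_lit 0xc0000000000038000c000000000) := T_1 (nat_lit 38) (nat_lit 39) (nat_lit 3) (nat_lit 4) (nat_lit 2) L3963253 (by decide +kernel)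
theorem L3963255 : W_1 (nat_lit 5) (nat_lit 0x10000800000003c0018000c00030002000000) (nat_lit 0x0) (nat_lit 0xc0000000300038000c000000000) := T_1 (nat_lit 73) (nat_lit 72) (nat_lit 0) (nat_lit 8) (nat_lit 5) L3963254 (by decide +kernel)
theorem L3963256 : W_1 (nat_lit 6) (nat_lit 0x10000800000003c0018000c00020002000000) (nat_lit 0x0) (nat_lit 0xc0000000300038001c000800000) := T_1 (nat_lit 40) (nat_lit 23) (nat_lit 4) (nat_lit 7) (nat_lit 5) L3963255 (by decide +kernel)
theorem L3963257 : W_1 (nat_lit 7) (nat_lit 0x1000080000000380018000c00020002000000) (nat_lit 0x0) (nat_lit 0xc0006000300038001c000800000) := T_1 (nat_lit 90) (nat_lit 89) (nat_lit 2) (nat_lit 4) (nat_lit 5) L3963256 (by decide +kernel)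
theorem L3963258 : W_1 (nat_lit 8) (nat_lit 0x1000080000000300018000c00020002000000) (nat_lit 0x0) (nat_lit 0x1c000e000300038001c000800000) := T_1 (nat_lit 91) (nat_lit 108) (nat_lit 5) (nat_lit 7) (nat_lit 2) L3963257 (by decide +kernel)
theorem L3963259 : W_1 (nat_lit 9) (nat_lit 0x1000080000000300018000c00000002000000) (nat_lit 0x0) (nat_lit 0x1c000e000300038003c001800000) := T_1 (nat_lit 41) (nat_lit 24) (nat_lit 7) (nat_lit 7) (nat_lit 1) L3963258 (by decide +kernel)
theorem L3963260 : W_1 (nat_lit 10) (nat_lit 0x1000080000000300018000c00000000000000) (nat_lit 0x0) (nat_lit 0x1c000e000300038007c003800000) := T_1 (nat_lit 25) (nat_lit 42) (nat_lit 5) (nat_lit 8) (nat_lit 1) L3963259 (by decide +kernel)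
theorem L3963261 : W_1 (nat_lit 11) (nat_lit 0x1000080000000300018000800000000000000) (nat_lit 0x0) (nat_lit 0x1c000e00030037803fc007800000) := Q_1 (nat_lit 58) (C_1 L3963201 (C_1 L3963186 (C_1 L3963260 (C_1 L3963182 N_1)))) (by decide +kernel)
theorem L3963262 : W_1 (nat_lit 13) (nat_lit 0x1000080000000300018000000000000000000) (nat_lit 0x0) (nat_lit 0x60003c000e0007007f803fc007800000) := Q_1 (nat_lit 59) (C_1 L3963251 (C_1 L258147 (C_1 L3963261 N_1))) (by decide +kernel)
theorem L3963263 : W_1 (nat_lit 2) (nat_lit 0x1000080002000b0007e002000040000000000) (nat_lit 0x0) (nat_lit 0x380000000000000) := D_1 (nat_lit 56) (nat_lit 57) (nat_lit 55) (nat_lit 0) (nat_lit 9) (nat_lit 4) (nat_lit 0) (nat_lit 8) (nat_lit 4) (by decide +kernel)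
theorem L3963264 : W_1 (nat_lit 3) (nat_lit 0x1000080002000b0007c002000040000000000) (nat_lit 0x0) (nat_lit 0x3000380000000000000) := T_1 (nat_lit 73) (nat_lit 72) (nat_lit 3) (nat_lit 4) (nat_lit 4) L3963263 (by decide +kernel)
theorem L3963265 : W_1 (nat_lit 4) (nat_lit 0x100008000200030007c002000040000000000) (nat_lit 0x0) (nat_lit 0x1800003000380000000000000) := T_1 (nat_lit 95) (nat_lit 96) (nat_lit 3) (nat_lit 7) (nat_lit 4) L3963264 (by decide +kernel)
theorem L3963266 : W_1 (nat_lit 5) (nat_lit 0x1000080002000300078002000040000000000) (nat_lit 0x0) (nat_lit 0x1800007001380000000000000) := T_1 (nat_lit 74) (nat_lit 60) (nat_lit 2) (nat_lit 6) (nat_lit 4) L3963265 (by decide +kernel)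
theorem L3963267 : W_1 (nat_lit 6) (nat_lit 0x1000080002000300078000000040000000000) (nat_lit 0x0) (nat_lit 0x1800007007380000000000000) := T_1 (nat_lit 61) (nat_lit 62) (nat_lit 2) (nat_lit 7) (nat_lit 4) L3963266 (by decide +kernel)
theorem L3963268 : W_1 (nat_lit 7) (nat_lit 0x1000080002000300038000000040000000000) (nat_lit 0x0) (nat_lit 0x18000c7007380000000000000) := T_1 (nat_lit 78) (nat_lit 79) (nat_lit 1) (nat_lit 11) (nat_lit 4) L3963267 (by decide +kernel)
theorem L3963269 : W_1 (nat_lit 8) (nat_lit 0x1000080002000300038000000000000000000) (nat_lit 0x0) (nat_lit 0x18000c7007b80040000000000) := T_1 (nat_lit 42) (nat_lit 59) (nat_lit 5) (nat_lit 8) (nat_lit 2) L3963268 (by decide +kernel)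
theorem L3963270 : W_1 (nat_lit 9) (nat_lit 0x1000080000000300038000000000000000000) (nat_lit 0x0) (nat_lit 0x400020018000c7007b80040000000000) := T_1 (nat_lit 109) (nat_lit 126) (nat_lit 7) (nat_lit 7) (nat_lit 4) L3963269 (by decide +kernel)
theorem L3963271 : W_1 (nat_lit 11) (nat_lit 0x1000080000000300018000000000000000000) (nat_lit 0x0) (nat_lit 0x400020018e00e7007b800f8007c00000) := Q_1 (nat_lit 77) (C_1 L257445 (C_1 L3963176 (C_1 L3963270 N_1))) (by decide +kernel)
theorem L3963272 : W_1 (nat_lit 2) (nat_lit 0x100008000200038001c000200000000000000) (nat_lit 0x0) (nat_lit 0x60000100000000000000) := D_1 (nat_lit 77) (nat_lit 78) (nat_lit 56) (nat_lit 1) (nat_lit 10) (nat_lit 4) (nat_lit 0) (nat_lit 9) (nat_lit 4) (by decide +kernel)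
theorem L3963273 : W_1 (nat_lit 3) (nat_lit 0x100008000200038001c000000000000000000) (nat_lit 0x0) (nat_lit 0x60000300010000000000) := T_1 (nat_lit 57) (nat_lit 40) (nat_lit 7) (nat_lit 6) (nat_lit 2) L3963272 (by decide +kernel)
theorem L3963274 : W_1 (nat_lit 4) (nat_lit 0x100008000000038001c000000000000000000) (nat_lit 0x0) (nat_lit 0x40002000000060000300010000000000) := T_1 (nat_lit 109) (nat_lit 126) (nat_lit 7) (nat_lit 7) (nat_lit 4) L3963273 (by decide +kernel)
theorem L3963275 : W_1 (nat_lit 2) (nat_lit 0x100008000200038001e000300000000000000) (nat_lit 0x0) (nat_lit 0x1000000000000000008000400000) := D_1 (nat_lit 39) (nat_lit 22) (nat_lit 108) (nat_lit 7) (nat_lit 5) (nat_lit 1) (nat_lit 4) (nat_lit 6) (nat_lit 6) (by decide +kernel)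
theorem L3963276 : W_1 (nat_lit 3) (nat_lit 0x100008000200038001e000200000000000000) (nat_lit 0x0) (nat_lit 0x1000000000000180008000400000) := T_1 (nat_lit 56) (nat_lit 55) (nat_lit 0) (nat_lit 8) (nat_lit 4) L3963275 (by decide +kernel)
theorem L3963277 : W_1 (nat_lit 4) (nat_lit 0x100008000200038001c000200000000000000) (nat_lit 0x0) (nat_lit 0x1000000003000180008000400000) := T_1 (nat_lit 73) (nat_lit 72) (nat_lit 3) (nat_lit 4) (nat_lit 4) L3963276 (by decide +kernel)
theorem L3963278 : W_1 (nat_lit 5) (nat_lit 0x100008000200038001c000000000000000000) (nat_lit 0x0) (nat_lit 0x1000000003000380018000400000) := T_1 (nat_lit 57) (nat_lit 40) (nat_lit 7) (nat_lit 6) (nat_lit 2) L3963277 (by decide +kernel)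
theorem L3963279 : W_1 (nat_lit 6) (nat_lit 0x100008000000038001c000000000000000000) (nat_lit 0x0) (nat_lit 0x40003000000003000380018000400000) := T_1 (nat_lit 109) (nat_lit 126) (nat_lit 7) (nat_lit 7) (nat_lit 4) L3963278 (by decide +kernel)
theorem L3963291 : W_1 (nat_lit 2) (nat_lit 0x1000080000000380018000400000000000000) (nat_lit 0x0) (nat_lit 0x1000000000000000020001000000) := D_1 (nat_lit 41) (nat_lit 108) (nat_lit 24) (nat_lit 5) (nat_lit 7) (nat_lit 2) (nat_lit 7) (nat_lit 7) (nat_lit 1) (by decide +kernel)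
theorem L3963292 : W_1 (nat_lit 2) (nat_lit 0x1000080002000380018000400010000000000) (nat_lit 0x0) (nat_lit 0x20001800000) := D_1 (nat_lit 41) (nat_lit 23) (nat_lit 24) (nat_lit 4) (nat_lit 7) (nat_lit 5) (nat_lit 7) (nat_lit 7) (nat_lit 1) (by decide +kernel)
theorem L3963293 : W_1 (nat_lit 3) (nat_lit 0x1000080002000380018000400000000000000) (nat_lit 0x0) (nat_lit 0x200030001800000) := T_1 (nat_lit 40) (nat_lit 57) (nat_lit 4) (nat_lit 7) (nat_lit 6) L3963292 (by decide +kernel)
theorem L3963294 : W_1 (nat_lit 4) (nat_lit 0x1000080000000380018000400000000000000) (nat_lit 0x0) (nat_lit 0x40002000000000000200030001800000) := T_1 (nat_lit 109) (nat_lit 126) (nat_lit 7) (nat_lit 7) (nat_lit 4) L3963293 (by decide +kernel)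
theorem L3963295 : W_1 (nat_lit 2) (nat_lit 0x1000080003400380038000600000000000000) (nat_lit 0x0) (nat_lit 0x4000180000000000000) := D_1 (nat_lit 56) (nat_lit 74) (nat_lit 55) (nat_lit 0) (nat_lit 9) (nat_lit 4) (nat_lit 3) (nat_lit 4) (nat_lit 3) (by decide +kernel)
theorem L3963296 : W_1 (nat_lit 3) (nat_lit 0x1000080003400380018000600000000000000) (nat_lit 0x0) (nat_lit 0x64000180000000000000) := T_1 (nat_lit 77) (nat_lit 78) (nat_lit 1) (nat_lit 10) (nat_lit 4) L3963295 (by decide +kernel)
theorem L3963297 : W_1 (nat_lit 4) (nat_lit 0x1000080003400380018000400000000000000) (nat_lit 0x0) (nat_lit 0x64000380010000000000) := T_1 (nat_lit 57) (nat_lit 40) (nat_lit 4) (nat_lit 7) (nat_lit 6) L3963296 (by decide +kernel)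
theorem L3963298 : W_1 (nat_lit 5) (nat_lit 0x1000080003000380018000400000000000000) (nat_lit 0x0) (nat_lit 0xc00000064000380010000000000) := T_1 (nat_lit 106) (nat_lit 107) (nat_lit 2) (nat_lit 4) (nat_lit 6) L3963297 (by decide +kernel)
theorem L3963299 : W_1 (nat_lit 6) (nat_lit 0x1000080002000380018000400000000000000) (nat_lit 0x0) (nat_lit 0x20001c00000064000380010000000000) := T_1 (nat_lit 108) (nat_lit 125) (nat_lit 5) (nat_lit 7) (nat_lit 3) L3963298 (by decide +kernel)
theorem L3963300 : W_1 (nat_lit 7) (nat_lit 0x1000080000000380018000400000000000000) (nat_lit 0x0) (nat_lit 0x60003c00000064000380010000000000) := T_1 (nat_lit 109) (nat_lit 126) (nat_lit 7) (nat_lit 7) (nat_lit 4) L3963299 (by decide +kernel)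
theorem L3963301 : W_1 (nat_lit 8) (nat_lit 0x1000080000000380018000000000000000000) (nat_lit 0x0) (nat_lit 0x60003c00000064000780030001800000) := Q_1 (nat_lit 58) (C_1 L3963291 (C_1 L3963294 (C_1 L3963300 N_1))) (by decide +kernel)
theorem L3963302 : W_1 (nat_lit 5) (nat_lit 0x100008000000038001c000000000000000000) (nat_lit 0x0) (nat_lit 0x200010001c00060000000200010000000000) := T_1 (nat_lit 90) (nat_lit 89) (nat_lit 2) (nat_lit 4) (nat_lit 5) L3962840 (by decide +kernel)
theorem L3963303 : W_1 (nat_lit 2) (nat_lit 0x10000800008003c001e000080000000000000) (nat_lit 0x0) (nat_lit 0x10000000000000000200010000000000) := D_1 (nat_lit 57) (nat_lit 40) (nat_lit 124) (nat_lit 5) (nat_lit 6) (nat_lit 2) (nat_lit 6) (nat_lit 5) (nat_lit 7) (by decide +kernel)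
theorem L3963304 : W_1 (nat_lit 3) (nat_lit 0x10000800000003c001e000080000000000000) (nat_lit 0x0) (nat_lit 0x10000c00000000000200010000000000) := T_1 (nat_lit 107) (nat_lit 106) (nat_lit 1) (nat_lit 8) (nat_lit 5) L3963303 (by decide +kernel)
theorem L3963305 : W_1 (nat_lit 4) (nat_lit 0x10000800000003c001e000000000000000000) (nat_lit 0x0) (nat_lit 0x10000c00000000000380010000000000) := T_1 (nat_lit 55) (nat_lit 56) (nat_lit 0) (nat_lit 8) (nat_lit 4) L3963304 (by decide +kernel)
theorem L3963306 : W_1 (nat_lit 5) (nat_lit 0x100008000000038001e000000000000000000) (nat_lit 0x0) (nat_lit 0x10000c00060000000380010000000000) := T_1 (nat_lit 90) (nat_lit 89) (nat_lit 2) (nat_lit 4) (nat_lit 5) L3963305 (by decide +kernel)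
theorem L3963307 : W_1 (nat_lit 6) (nat_lit 0x100008000000038001c000000000000000000) (nat_lit 0x0) (nat_lit 0x10000c00060003000380010000000000) := T_1 (nat_lit 73) (nat_lit 72) (nat_lit 3) (nat_lit 4) (nat_lit 4) L3963306 (by decide +kernel)
theorem L3963308 : W_1 (nat_lit 2) (nat_lit 0x10000b80028003c001e000080000000000000) (nat_lit 0x0) (nat_lit 0x4001000000000000400000000000000) := D_1 (nat_lit 108) (nat_lit 58) (nat_lit 122) (nat_lit 6) (nat_lit 6) (nat_lit 7) (nat_lit 2) (nat_lit 3) (nat_lit 7) (by decide +kernel)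
theorem L3963309 : W_1 (nat_lit 3) (nat_lit 0x10000980028003c001e000080000000000000) (nat_lit 0x0) (nat_lit 0x400024001000000000000400000000000000) := T_1 (nat_lit 125) (nat_lit 142) (nat_lit 7) (nat_lit 5) (nat_lit 4) L3963308 (by decide +kernel)
theorem L3963310 : W_1 (nat_lit 4) (nat_lit 0x10000900028003c001e000080000000000000) (nat_lit 0x0) (nat_lit 0x50002c001000000000000400000000000000) := T_1 (nat_lit 123) (nat_lit 140) (nat_lit 5) (nat_lit 5) (nat_lit 4) L3963309 (by decide +kernel)
theorem L3963311 : W_1 (nat_lit 5) (nat_lit 0x10000800028003c001e000080000000000000) (nat_lit 0x0) (nat_lit 0x70003c001000000000000400000000000000) := T_1 (nat_lit 124) (nat_lit 141) (nat_lit 6) (nat_lit 5) (nat_lit 8) L3963310 (by decide +kernel)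
theorem L3963312 : W_1 (nat_lit 6) (nat_lit 0x10000800020003c001e000080000000000000) (nat_lit 0x0) (nat_lit 0x70003c001c00000000000400000000000000) := T_1 (nat_lit 107) (nat_lit 106) (nat_lit 1) (nat_lit 8) (nat_lit 5) L3963311 (by decide +kernel)
theorem L3963313 : W_1 (nat_lit 7) (nat_lit 0x10000800020003c001e000000000000000000) (nat_lit 0x0) (nat_lit 0x70003c001c00000000000580000000000000) := T_1 (nat_lit 55) (nat_lit 56) (nat_lit 0) (nat_lit 8) (nat_lit 4) L3963312 (by decide +kernel)
theorem L3963314 : W_1 (nat_lit 8) (nat_lit 0x100008000200038001e000000000000000000) (nat_lit 0x0) (nat_lit 0x70003c001c00060000000580000000000000) := T_1 (nat_lit 90) (nat_lit 89) (nat_lit 2) (nat_lit 4) (nat_lit 5) L3963313 (by decide +kernel)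
theorem L3963315 : W_1 (nat_lit 9) (nat_lit 0x100008000200038001c000000000000000000) (nat_lit 0x0) (nat_lit 0x70003c001c00060003000580000000000000) := T_1 (nat_lit 73) (nat_lit 72) (nat_lit 3) (nat_lit 4) (nat_lit 4) L3963314 (by decide +kernel)
theorem L3963316 : W_1 (nat_lit 10) (nat_lit 0x100008000000038001c000000000000000000) (nat_lit 0x0) (nat_lit 0x70007c003c00060003000580000000000000) := T_1 (nat_lit 109) (nat_lit 126) (nat_lit 7) (nat_lit 7) (nat_lit 4) L3963315 (by decide +kernel)
theorem L3963317 : W_1 (nat_lit 11) (nat_lit 0x1000080000000380018000000000000000000) (nat_lit 0x0) (nat_lit 0x70007c003c00060007000780018000400000) := Q_1 (nat_lit 74) (C_1 L3963302 (C_1 L3963279 (C_1 L3963307 (C_1 L3963316 N_1)))) (by decide +kernel)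
theorem L3963318 : W_1 (nat_lit 12) (nat_lit 0x1000080000000300018000000000000000000) (nat_lit 0x0) (nat_lit 0x70007c003c000e0067000780038001c00000) := Q_1 (nat_lit 91) (C_1 L258156 (C_1 L3963301 (C_1 L3963317 N_1))) (by decide +kernel)
theorem L3963319 : W_1 (nat_lit 2) (nat_lit 0x100008000200034003c001200040004000000) (nat_lit 0x0) (nat_lit 0x400010000800000) := D_1 (nat_lit 40) (nat_lit 58) (nat_lit 23) (nat_lit 4) (nat_lit 7) (nat_lit 6) (nat_lit 7) (nat_lit 6) (nat_lit 1) (by decide +kernel)
theorem L3963320 : W_1 (nat_lit 3) (nat_lit 0x100008000200034003c001000040004000000) (nat_lit 0x0) (nat_lit 0x700010000800000) := T_1 (nat_lit 57) (nat_lit 56) (nat_lit 0) (nat_lit 9) (nat_lit 4) L3963319 (by decide +kernel)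
theorem L3963321 : W_1 (nat_lit 4) (nat_lit 0x100008000200034003c001000040000000000) (nat_lit 0x0) (nat_lit 0x700090004800000) := T_1 (nat_lit 26) (nat_lit 43) (nat_lit 5) (nat_lit 9) (nat_lit 1) L3963320 (by decide +kernel)
theorem L3963322 : W_1 (nat_lit 5) (nat_lit 0x100008000200030003c001000040000000000) (nat_lit 0x0) (nat_lit 0xc0000000700090004800000) := T_1 (nat_lit 90) (nat_lit 91) (nat_lit 2) (nat_lit 5) (nat_lit 5) L3963321 (by decide +kernel)
theorem L3963323 : W_1 (nat_lit 6) (nat_lit 0x100008000200030003c000000040000000000) (nat_lit 0x0) (nat_lit 0xc0000003700090004800000) := T_1 (nat_lit 60) (nat_lit 61) (nat_lit 2) (nat_lit 6) (nat_lit 4) L3963322 (by decide +kernel)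
theorem L3963324 : W_1 (nat_lit 7) (nat_lit 0x100008000200030003c000000000000000000) (nat_lit 0x0) (nat_lit 0xc0000003f000d0004800000) := T_1 (nat_lit 42) (nat_lit 59) (nat_lit 5) (nat_lit 8) (nat_lit 2) L3963323 (by decide +kernel)
theorem L3963325 : W_1 (nat_lit 8) (nat_lit 0x100008000000030003c000000000000000000) (nat_lit 0x0) (nat_lit 0x400020000c0000003f000d0004800000) := T_1 (nat_lit 109) (nat_lit 126) (nat_lit 7) (nat_lit 7) (nat_lit 4) L3963324 (by decide +kernel)
theorem L3963326 : W_1 (nat_lit 9) (nat_lit 0x1000080000000300038000000000000000000) (nat_lit 0x0) (nat_lit 0x400020000e0007003f000d0004800000) := Q_1 (nat_lit 74) (C_1 L3963175 (C_1 L3963325 (C_1 L3963173 N_1))) (by decide +kernel)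
theorem L3963327 : W_1 (nat_lit 10) (nat_lit 0x1000080000000300018000000000000000000) (nat_lit 0x0) (nat_lit 0x400020018e00e7007f800d0004800000) := Q_1 (nat_lit 77) (C_1 L257445 (C_1 L3963270 (C_1 L3963326 N_1))) (by decide +kernel)
theorem L3963336 : W_1 (nat_lit 2) (nat_lit 0x1000080002000380038000400020000000000) (nat_lit 0x0) (nat_lit 0x800040002000000) := D_1 (nat_lit 42) (nat_lit 59) (nat_lit 25) (nat_lit 6) (nat_lit 7) (nat_lit 6) (nat_lit 6) (nat_lit 7) (nat_lit 5) (by decide +kernel)
theorem L3963337 : W_1 (nat_lit 3) (nat_lit 0x1000080000000380038000400020000000000) (nat_lit 0x0) (nat_lit 0x40002000000000000800040002000000) := T_1 (nat_lit 109) (nat_lit 126) (nat_lit 7) (nat_lit 7) (nat_lit 4) L3963336 (by decide +kernel)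
theorem L3963338 : W_1 (nat_lit 4) (nat_lit 0x1000080000000380038000400000000000000) (nat_lit 0x0) (nat_lit 0x40002000000000000800060003000000) := T_1 (nat_lit 41) (nat_lit 24) (nat_lit 7) (nat_lit 7) (nat_lit 1) L3963337 (by decide +kernel)
theorem L3963339 : W_1 (nat_lit 5) (nat_lit 0x1000080000000380018000400000000000000) (nat_lit 0x0) (nat_lit 0x40002000000060000800060003000000) := T_1 (nat_lit 77) (nat_lit 78) (nat_lit 1) (nat_lit 10) (nat_lit 4) L3963338 (by decide +kernel)
theorem L3963340 : W_1 (nat_lit 2) (nat_lit 0x1000080003000380018000000000000000000) (nat_lit 0x0) (nat_lit 0x400020000000000000000400000000000000) := D_1 (nat_lit 125) (nat_lit 58) (nat_lit 142) (nat_lit 5) (nat_lit 7) (nat_lit 3) (nat_lit 6) (nat_lit 6) (nat_lit 8) (by decide +kernel)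
theorem L3963341 : W_1 (nat_lit 3) (nat_lit 0x1000080001000380018000000000000000000) (nat_lit 0x0) (nat_lit 0x400060002000000000000400000000000000) := T_1 (nat_lit 109) (nat_lit 126) (nat_lit 7) (nat_lit 7) (nat_lit 4) L3963340 (by decide +kernel)
theorem L3963349 : W_1 (nat_lit 2) (nat_lit 0x100008000200038001c000800000000000000) (nat_lit 0x0) (nat_lit 0x3001000000000000000) := D_1 (nat_lit 73) (nat_lit 72) (nat_lit 60) (nat_lit 3) (nat_lit 4) (nat_lit 4) (nat_lit 2) (nat_lit 5) (nat_lit 4) (by decide +kernel)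
theorem L3963350 : W_1 (nat_lit 3) (nat_lit 0x100008000200038001c000000000000000000) (nat_lit 0x0) (nat_lit 0x3001800040000000000) := T_1 (nat_lit 59) (nat_lit 42) (nat_lit 5) (nat_lit 8) (nat_lit 2) L3963349 (by decide +kernel)
theorem L3963351 : W_1 (nat_lit 4) (nat_lit 0x100008000000038001c000000000000000000) (nat_lit 0x0) (nat_lit 0x40002000000003001800040000000000) := T_1 (nat_lit 109) (nat_lit 126) (nat_lit 7) (nat_lit 7) (nat_lit 4) L3963350 (by decide +kernel)
theorem L3963352 : W_1 (nat_lit 2) (nat_lit 0x10000a0001000380038000000000000000000) (nat_lit 0x0) (nat_lit 0x4000400020000000000) := D_1 (nat_lit 58) (nat_lit 74) (nat_lit 41) (nat_lit 6) (nat_lit 6) (nat_lit 7) (nat_lit 5) (nat_lit 7) (nat_lit 2) (by decide +kernel)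
theorem L3963353 : W_1 (nat_lit 3) (nat_lit 0x10000a0000000380038000000000000000000) (nat_lit 0x0) (nat_lit 0x400000001000000004000400020000000000) := T_1 (nat_lit 108) (nat_lit 142) (nat_lit 6) (nat_lit 6) (nat_lit 8) L3963352 (by decide +kernel)
theorem L3963354 : W_1 (nat_lit 4) (nat_lit 0x10000a0000000380018000000000000000000) (nat_lit 0x0) (nat_lit 0x400000001000000064000400020000000000) := T_1 (nat_lit 77) (nat_lit 78) (nat_lit 1) (nat_lit 10) (nat_lit 4) L3963353 (by decide +kernel)
theorem L3963355 : W_1 (nat_lit 2) (nat_lit 0x10000f8000000380038000000000000000000) (nat_lit 0x0) (nat_lit 0x380000000000000000000000000000000000) := D_1 (nat_lit 140) (nat_lit 139) (nat_lit 141) (nat_lit 1) (nat_lit 7) (nat_lit 7) (nat_lit 1) (nat_lit 8) (nat_lit 7) (by decide +kernel)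
theorem L3963356 : W_1 (nat_lit 3) (nat_lit 0x10000f0000000380038000000000000000000) (nat_lit 0x0) (nat_lit 0xb80008000000000000000000000000000000) := T_1 (nat_lit 123) (nat_lit 143) (nat_lit 3) (nat_lit 4) (nat_lit 7) L3963355 (by decide +kernel)
theorem L3963357 : W_1 (nat_lit 4) (nat_lit 0x10000e0000000380038000000000000000000) (nat_lit 0x0) (nat_lit 0x2b80018000000000000000000000000000000) := T_1 (nat_lit 124) (nat_lit 145) (nat_lit 3) (nat_lit 5) (nat_lit 7) L3963356 (by decide +kernel)
theorem L3963358 : W_1 (nat_lit 5) (nat_lit 0x10000e0000000380018000000000000000000) (nat_lit 0x0) (nat_lit 0x2b80018000000000060000000000000000000) := T_1 (nat_lit 77) (nat_lit 78) (nat_lit 1) (nat_lit 10) (nat_lit 4) L3963357 (by decide +kernel)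
theorem L3963359 : W_1 (nat_lit 6) (nat_lit 0x10000a0000000380018000000000000000000) (nat_lit 0x0) (nat_lit 0x2b80058002000000060000000000000000000) := T_1 (nat_lit 126) (nat_lit 109) (nat_lit 7) (nat_lit 7) (nat_lit 4) L3963358 (by decide +kernel)
theorem L3963360 : W_1 (nat_lit 2) (nat_lit 0x10000a0001000380018000000000000000000) (nat_lit 0x0) (nat_lit 0x4000400020000000000) := D_1 (nat_lit 58) (nat_lit 74) (nat_lit 41) (nat_lit 6) (nat_lit 6) (nat_lit 7) (nat_lit 5) (nat_lit 7) (nat_lit 2) (by decide +kernel)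
theorem L3963361 : W_1 (nat_lit 3) (nat_lit 0x10000a0000000380018000000000000000000) (nat_lit 0x0) (nat_lit 0x400000001000000004000400020000000000) := T_1 (nat_lit 108) (nat_lit 142) (nat_lit 6) (nat_lit 6) (nat_lit 8) L3963360 (by decide +kernel)
theorem L3963362 : W_1 (nat_lit 7) (nat_lit 0x1000080000000380018000000000000000000) (nat_lit 0x0) (nat_lit 0x2f80078003000000064000400020000000000) := Q_1 (nat_lit 125) (C_1 L3963354 (C_1 L3963359 (C_1 L3963361 N_1))) (by decide +kernel)
theorem L3963363 : W_1 (nat_lit 10) (nat_lit 0x1000080000000300018000000000000000000) (nat_lit 0x0) (nat_lit 0x2f80078003c000e0067001d80068000000000) := Q_1 (nat_lit 91) (C_1 L258156 (C_1 L340795 (C_1 L3963362 N_1))) (by decide +kernel)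
theorem L3963364 : W_1 (nat_lit 2) (nat_lit 0x10000800028003c001e000800000000000000) (nat_lit 0x0) (nat_lit 0x10000000000000000200010000000000) := D_1 (nat_lit 57) (nat_lit 40) (nat_lit 124) (nat_lit 7) (nat_lit 6) (nat_lit 2) (nat_lit 6) (nat_lit 5) (nat_lit 7) (by decide +kernel)
theorem L3963365 : W_1 (nat_lit 3) (nat_lit 0x10000800028003c001a000800000000000000) (nat_lit 0x0) (nat_lit 0x10000000000004001200010000000000) := T_1 (nat_lit 74) (nat_lit 60) (nat_lit 2) (nat_lit 5) (nat_lit 4) L3963364 (by decide +kernel)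
theorem L3963366 : W_1 (nat_lit 4) (nat_lit 0x10000800028003c0018000800000000000000) (nat_lit 0x0) (nat_lit 0x10000000000007001200010000000000) := T_1 (nat_lit 73) (nat_lit 72) (nat_lit 0) (nat_lit 8) (nat_lit 5) L3963365 (by decide +kernel)
theorem L3963367 : W_1 (nat_lit 5) (nat_lit 0x10000800020003c0018000800000000000000) (nat_lit 0x0) (nat_lit 0x10000c00000007001200010000000000) := T_1 (nat_lit 107) (nat_lit 106) (nat_lit 1) (nat_lit 8) (nat_lit 5) L3963366 (by decide +kernel)
theorem L3963368 : W_1 (nat_lit 6) (nat_lit 0x1000080002000380018000800000000000000) (nat_lit 0x0) (nat_lit 0x10000c00060007001200010000000000) := T_1 (nat_lit 90) (nat_lit 89) (nat_lit 2) (nat_lit 4) (nat_lit 5) L3963367 (by decide +kernel)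
theorem L3963369 : W_1 (nat_lit 7) (nat_lit 0x1000080002000380018000000000000000000) (nat_lit 0x0) (nat_lit 0x10000c00060007001a00050000000000) := T_1 (nat_lit 59) (nat_lit 42) (nat_lit 5) (nat_lit 8) (nat_lit 2) L3963368 (by decide +kernel)
theorem L3963370 : W_1 (nat_lit 8) (nat_lit 0x1000080000000380018000000000000000000) (nat_lit 0x0) (nat_lit 0x50002c00060007001a00050000000000) := T_1 (nat_lit 109) (nat_lit 126) (nat_lit 7) (nat_lit 7) (nat_lit 4) L3963369 (by decide +kernel)
theorem L3963371 : W_1 (nat_lit 9) (nat_lit 0x1000080000000300018000000000000000000) (nat_lit 0x0) (nat_lit 0x2f80078003c000e0067001e00070000000000) := Q_1 (nat_lit 91) (C_1 L3963362 (C_1 L258156 (C_1 L3963370 N_1))) (by decide +kernel)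
theorem L3963372 : W_1 (nat_lit 15) (nat_lit 0x1000080000000300008000000000000000000) (nat_lit 0x0) (nat_lit 0x2f8007c003c018e00f7007f803fc007e00000) := Q_1 (nat_lit 76) (C_1 L257460 (C_1 L257242 (C_1 L3963177 (C_1 L3963225 (C_1 L3963240 (C_1 L3963262 (C_1 L3963271 (C_1 L3963318 (C_1 L3963327 (C_1 L3963363 (C_1 L3963371 N_1))))))))))) (by decide +kernel)
theorem L3963383 : W_1 (nat_lit 2) (nat_lit 0x100008000000070003c000200000000000000) (nat_lit 0x0) (nat_lit 0xc0040000000000000000000) := D_1 (nat_lit 91) (nat_lit 90) (nat_lit 78) (nat_lit 2) (nat_lit 5) (nat_lit 5) (nat_lit 2) (nat_lit 6) (nat_lit 5) (by decide +kernel)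
theorem L3963386 : W_1 (nat_lit 2) (nat_lit 0x100008000000030003c000200000000800000) (nat_lit 0x0) (nat_lit 0x80040000400000000000000) := D_1 (nat_lit 78) (nat_lit 58) (nat_lit 91) (nat_lit 0) (nat_lit 10) (nat_lit 4) (nat_lit 1) (nat_lit 10) (nat_lit 4) (by decide +kernel)
theorem L3963387 : W_1 (nat_lit 3) (nat_lit 0x100008000000030002c000200000000800000) (nat_lit 0x0) (nat_lit 0x80050000500000000000000) := T_1 (nat_lit 76) (nat_lit 56) (nat_lit 0) (nat_lit 9) (nat_lit 4) L3963386 (by decide +kernel)
theorem L3963388 : W_1 (nat_lit 4) (nat_lit 0x100008000000030002c000200000000000000) (nat_lit 0x0) (nat_lit 0x80050000500010000800000) := T_1 (nat_lit 23) (nat_lit 40) (nat_lit 7) (nat_lit 6) (nat_lit 1) L3963387 (by decide +kernel)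
theorem L3963389 : W_1 (nat_lit 2) (nat_lit 0x100008000800070003c000200000000800000) (nat_lit 0x0) (nat_lit 0xc0000400000000000000) := D_1 (nat_lit 78) (nat_lit 58) (nat_lit 79) (nat_lit 0) (nat_lit 10) (nat_lit 4) (nat_lit 1) (nat_lit 11) (nat_lit 4) (by decide +kernel)
theorem L3963390 : W_1 (nat_lit 3) (nat_lit 0x100008000800070002c000200000000800000) (nat_lit 0x0) (nat_lit 0xd0000500000000000000) := T_1 (nat_lit 76) (nat_lit 56) (nat_lit 0) (nat_lit 9) (nat_lit 4) L3963389 (by decide +kernel)
theorem L3963391 : W_1 (nat_lit 4) (nat_lit 0x100008000000070002c000200000000800000) (nat_lit 0x0) (nat_lit 0x1000080000000d0000500000000000000) := T_1 (nat_lit 111) (nat_lit 128) (nat_lit 5) (nat_lit 9) (nat_lit 4) L3963390 (by decide +kernel)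
theorem L3963392 : W_1 (nat_lit 5) (nat_lit 0x100008000000070002c000200000000000000) (nat_lit 0x0) (nat_lit 0x1000080000000d0000500010000800000) := T_1 (nat_lit 23) (nat_lit 40) (nat_lit 7) (nat_lit 6) (nat_lit 1) L3963391 (by decide +kernel)
theorem L3963393 : W_1 (nat_lit 6) (nat_lit 0x100008000000030002c000200000000000000) (nat_lit 0x0) (nat_lit 0x100008000c000d0000500010000800000) := T_1 (nat_lit 94) (nat_lit 95) (nat_lit 0) (nat_lit 10) (nat_lit 5) L3963392 (by decide +kernel)
theorem L3963406 : W_1 (nat_lit 2) (nat_lit 0x100008000800074003c001200040000800000) (nat_lit 0x0) (nat_lit 0x80006000000) := D_1 (nat_lit 43) (nat_lit 25) (nat_lit 26) (nat_lit 4) (nat_lit 9) (nat_lit 5) (nat_lit 5) (nat_lit 9) (nat_lit 1) (by decide +kernel)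
theorem L3963407 : W_1 (nat_lit 3) (nat_lit 0x100008000800074003c001200000000800000) (nat_lit 0x0) (nat_lit 0x8000c0006000000) := T_1 (nat_lit 42) (nat_lit 59) (nat_lit 7) (nat_lit 8) (nat_lit 2) L3963406 (by decide +kernel)
theorem L3963408 : W_1 (nat_lit 4) (nat_lit 0x100008000000074003c001200000000800000) (nat_lit 0x0) (nat_lit 0x1000080000000000008000c0006000000) := T_1 (nat_lit 111) (nat_lit 128) (nat_lit 5) (nat_lit 9) (nat_lit 4) L3963407 (by decide +kernel)
theorem L3963409 : W_1 (nat_lit 5) (nat_lit 0x100008000000074003c000200000000800000) (nat_lit 0x0) (nat_lit 0x1000080000000000038000c0006000000) := T_1 (nat_lit 60) (nat_lit 61) (nat_lit 2) (nat_lit 6) (nat_lit 4) L3963408 (by decide +kernel)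
theorem L3963410 : W_1 (nat_lit 6) (nat_lit 0x100008000000070003c000200000000800000) (nat_lit 0x0) (nat_lit 0x1000080000c00000038000c0006000000) := T_1 (nat_lit 90) (nat_lit 91) (nat_lit 2) (nat_lit 5) (nat_lit 5) L3963409 (by decide +kernel)
theorem L3963411 : W_1 (nat_lit 7) (nat_lit 0x100008000000070003c000200000000000000) (nat_lit 0x0) (nat_lit 0x1000080000c00000038000d0006800000) := T_1 (nat_lit 23) (nat_lit 40) (nat_lit 7) (nat_lit 6) (nat_lit 1) L3963410 (by decide +kernel)
theorem L3963412 : W_1 (nat_lit 8) (nat_lit 0x100008000000070002c000200000000000000) (nat_lit 0x0) (nat_lit 0x1000080000c00100039000d0006800000) := T_1 (nat_lit 76) (nat_lit 56) (nat_lit 0) (nat_lit 9) (nat_lit 4) L3963411 (by decide +kernel)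
theorem L3963413 : W_1 (nat_lit 9) (nat_lit 0x100008000000030002c000200000000000000) (nat_lit 0x0) (nat_lit 0x100008000cc00100039000d0006800000) := T_1 (nat_lit 94) (nat_lit 95) (nat_lit 0) (nat_lit 10) (nat_lit 5) L3963412 (by decide +kernel)
theorem L3963419 : W_1 (nat_lit 3) (nat_lit 0x100008000000070002c000200000000000000) (nat_lit 0x0) (nat_lit 0xc0050000100000000000000) := T_1 (nat_lit 76) (nat_lit 56) (nat_lit 0) (nat_lit 9) (nat_lit 4) L3963383 (by decide +kernel)
theorem L3963420 : W_1 (nat_lit 4) (nat_lit 0x100008000000030002c000200000000000000) (nat_lit 0x0) (nat_lit 0xcc0050000100000000000000) := T_1 (nat_lit 94) (nat_lit 95) (nat_lit 0) (nat_lit 10) (nat_lit 5) L3963419 (by decide +kernel)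
theorem L3963434 : W_1 (nat_lit 2) (nat_lit 0x100008000200070002c000400060000000000) (nat_lit 0x0) (nat_lit 0x80040000000000001000000) := D_1 (nat_lit 91) (nat_lit 24) (nat_lit 78) (nat_lit 5) (nat_lit 7) (nat_lit 1) (nat_lit 2) (nat_lit 6) (nat_lit 5) (by decide +kernel)
theorem L3963435 : W_1 (nat_lit 3) (nat_lit 0x100008000200030002c000400060000000000) (nat_lit 0x0) (nat_lit 0xc80040000000000001000000) := T_1 (nat_lit 94) (nat_lit 95) (nat_lit 0) (nat_lit 10) (nat_lit 5) L3963434 (by decide +kernel)
theorem L3963436 : W_1 (nat_lit 4) (nat_lit 0x100008000200030002c000400040000000000) (nat_lit 0x0) (nat_lit 0xc80040000000020003000000) := T_1 (nat_lit 41) (nat_lit 25) (nat_lit 6) (nat_lit 7) (nat_lit 5) L3963435 (by decide +kernel)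
theorem L3963437 : W_1 (nat_lit 5) (nat_lit 0x100008000200030002c000400000000000000) (nat_lit 0x0) (nat_lit 0xc80040000800060003000000) := T_1 (nat_lit 42) (nat_lit 59) (nat_lit 6) (nat_lit 7) (nat_lit 6) L3963436 (by decide +kernel)
theorem L3963438 : W_1 (nat_lit 6) (nat_lit 0x100008000000030002c000400000000000000) (nat_lit 0x0) (nat_lit 0x40002000c80040000800060003000000) := T_1 (nat_lit 109) (nat_lit 126) (nat_lit 7) (nat_lit 7) (nat_lit 4) L3963437 (by decide +kernel)
theorem L3963439 : W_1 (nat_lit 2) (nat_lit 0x100008000800078002c001400160000800000) (nat_lit 0x0) (nat_lit 0x200080008000000) := D_1 (nat_lit 43) (nat_lit 27) (nat_lit 57) (nat_lit 6) (nat_lit 9) (nat_lit 5) (nat_lit 1) (nat_lit 10) (nat_lit 2) (by decide +kernel)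
theorem L3963440 : W_1 (nat_lit 3) (nat_lit 0x100008000800078002c001400060000800000) (nat_lit 0x0) (nat_lit 0x2200180008000000) := T_1 (nat_lit 44) (nat_lit 61) (nat_lit 6) (nat_lit 9) (nat_lit 6) L3963439 (by decide +kernel)
theorem L3963441 : W_1 (nat_lit 4) (nat_lit 0x100008000800078002c000400060000800000) (nat_lit 0x0) (nat_lit 0x3a00180008000000) := T_1 (nat_lit 60) (nat_lit 59) (nat_lit 4) (nat_lit 9) (nat_lit 6) L3963440 (by decide +kernel)
theorem L3963442 : W_1 (nat_lit 5) (nat_lit 0x100008000800078002c000400020000800000) (nat_lit 0x0) (nat_lit 0x3a001c000a000000) := T_1 (nat_lit 42) (nat_lit 25) (nat_lit 6) (nat_lit 7) (nat_lit 5) L3963441 (by decide +kernel)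
theorem L3963443 : W_1 (nat_lit 6) (nat_lit 0x100008000800078002c000400020000000000) (nat_lit 0x0) (nat_lit 0x3a001d000a800000) := T_1 (nat_lit 23) (nat_lit 40) (nat_lit 4) (nat_lit 7) (nat_lit 5) L3963442 (by decide +kernel)
theorem L3963444 : W_1 (nat_lit 7) (nat_lit 0x100008000800078002c000400000000000000) (nat_lit 0x0) (nat_lit 0x3a001f000b800000) := T_1 (nat_lit 41) (nat_lit 24) (nat_lit 5) (nat_lit 7) (nat_lit 1) L3963443 (by decide +kernel)
theorem L3963445 : W_1 (nat_lit 8) (nat_lit 0x100008000000078002c000400000000000000) (nat_lit 0x0) (nat_lit 0x100008000000000003a001f000b800000) := T_1 (nat_lit 111) (nat_lit 128) (nat_lit 5) (nat_lit 9) (nat_lit 4) L3963444 (by decide +kernel)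
theorem L3963446 : W_1 (nat_lit 9) (nat_lit 0x100008000000070002c000400000000000000) (nat_lit 0x0) (nat_lit 0x100008000080040003a001f000b800000) := T_1 (nat_lit 91) (nat_lit 78) (nat_lit 2) (nat_lit 6) (nat_lit 5) L3963445 (by decide +kernel)
theorem L3963447 : W_1 (nat_lit 10) (nat_lit 0x100008000000030002c000400000000000000) (nat_lit 0x0) (nat_lit 0x100008000c80040003a001f000b800000) := T_1 (nat_lit 94) (nat_lit 95) (nat_lit 0) (nat_lit 10) (nat_lit 5) L3963446 (by decide +kernel)
theorem L3963448 : W_1 (nat_lit 2) (nat_lit 0x100008000200070002c000400030000000000) (nat_lit 0x0) (nat_lit 0x80040000000000001000000) := D_1 (nat_lit 91) (nat_lit 78) (nat_lit 24) (nat_lit 2) (nat_lit 6) (nat_lit 5) (nat_lit 5) (nat_lit 7) (nat_lit 1) (by decide +kernel)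
theorem L3963449 : W_1 (nat_lit 3) (nat_lit 0x100008000200070002c000400010000000000) (nat_lit 0x0) (nat_lit 0x80040000000020001800000) := T_1 (nat_lit 41) (nat_lit 23) (nat_lit 4) (nat_lit 7) (nat_lit 5) L3963448 (by decide +kernel)
theorem L3963450 : W_1 (nat_lit 4) (nat_lit 0x100008000200070002c000400000000000000) (nat_lit 0x0) (nat_lit 0x80040000200030001800000) := T_1 (nat_lit 40) (nat_lit 57) (nat_lit 4) (nat_lit 7) (nat_lit 6) L3963449 (by decide +kernel)
theorem L3963451 : W_1 (nat_lit 5) (nat_lit 0x100008000000070002c000400000000000000) (nat_lit 0x0) (nat_lit 0x40002000080040000200030001800000) := T_1 (nat_lit 109) (nat_lit 126) (nat_lit 7) (nat_lit 7) (nat_lit 4) L3963450 (by decide +kernel)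
theorem L3963452 : W_1 (nat_lit 6) (nat_lit 0x100008000000030002c000400000000000000) (nat_lit 0x0) (nat_lit 0x40002000c80040000200030001800000) := T_1 (nat_lit 94) (nat_lit 95) (nat_lit 0) (nat_lit 10) (nat_lit 5) L3963451 (by decide +kernel)
theorem L3963453 : W_1 (nat_lit 11) (nat_lit 0x100008000000030002c000000000000000000) (nat_lit 0x0) (nat_lit 0x14000a000c80040003e001f000b800000) := Q_1 (nat_lit 58) (C_1 L3963126 (C_1 L3963438 (C_1 L3963447 (C_1 L3963452 (C_1 L3963134 N_1))))) (by decide +kernel)
theorem L3963454 : W_1 (nat_lit 12) (nat_lit 0x100008000000030000c000000000000000000) (nat_lit 0x0) (nat_lit 0x14000a000cc01f0003f001f800fc00000) := Q_1 (nat_lit 77) (C_1 L3963137 (C_1 L3963152 (C_1 L3963136 (C_1 L257169 (C_1 L3963453 N_1))))) (by decide +kernel)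
theorem L3963455 : W_1 (nat_lit 13) (nat_lit 0x1000080000000300008000000000000000000) (nat_lit 0x0) (nat_lit 0x14000a000cc01f7003f001f800fc00000) := Q_1 (nat_lit 74) (C_1 L340073 (C_1 L32323 (C_1 L258920 (C_1 L3963454 N_1)))) (by decide +kernel)
theorem L3963615 : W_1 (nat_lit 2) (nat_lit 0x1000080002000300018000c00010000000000) (nat_lit 0x0) (nat_lit 0x20001800000) := D_1 (nat_lit 41) (nat_lit 23) (nat_lit 24) (nat_lit 4) (nat_lit 7) (nat_lit 5) (nat_lit 7) (nat_lit 7) (nat_lit 1) (by decide +kernel)
theorem L3963616 : W_1 (nat_lit 3) (nat_lit 0x1000080002000300018000c00000000000000) (nat_lit 0x0) (nat_lit 0x200030001800000) := T_1 (nat_lit 40) (nat_lit 57) (nat_lit 4) (nat_lit 7) (nat_lit 6) L3963615 (by decide +kernel)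
theorem L3963617 : W_1 (nat_lit 4) (nat_lit 0x1000080000000300018000c00000000000000) (nat_lit 0x0) (nat_lit 0x40002000000000000200030001800000) := T_1 (nat_lit 109) (nat_lit 126) (nat_lit 7) (nat_lit 7) (nat_lit 4) L3963616 (by decide +kernel)
theorem L3963637 : W_1 (nat_lit 8) (nat_lit 0x1000080000000300018000000000000000000) (nat_lit 0x0) (nat_lit 0x14000a000c000e7003f800d0006800000) := Q_1 (nat_lit 74) (C_1 L340107 (C_1 L3962876 (C_1 L340074 N_1))) (by decide +kernel)
theorem L3963638 : W_1 (nat_lit 2) (nat_lit 0x100008000000030007c001000000000000000) (nat_lit 0x0) (nat_lit 0x700000000000000) := D_1 (nat_lit 57) (nat_lit 58) (nat_lit 56) (nat_lit 0) (nat_lit 10) (nat_lit 4) (nat_lit 0) (nat_lit 9) (nat_lit 4) (by decide +kernel)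
theorem L3963639 : W_1 (nat_lit 3) (nat_lit 0x100008000000030003c001000000000000000) (nat_lit 0x0) (nat_lit 0xc0000700000000000000) := T_1 (nat_lit 78) (nat_lit 79) (nat_lit 1) (nat_lit 11) (nat_lit 4) L3963638 (by decide +kernel)
theorem L3963640 : W_1 (nat_lit 4) (nat_lit 0x100008000000030003c000000000000000000) (nat_lit 0x0) (nat_lit 0xc0003700000000000000) := T_1 (nat_lit 60) (nat_lit 61) (nat_lit 2) (nat_lit 6) (nat_lit 4) L3963639 (by decide +kernel)
theorem L3963641 : W_1 (nat_lit 7) (nat_lit 0x100008000000030001c000000000000000000) (nat_lit 0x0) (nat_lit 0x100008000c000e0003f000c0006000000) := Q_1 (nat_lit 77) (C_1 L3962875 (C_1 L3962862 (C_1 L3963640 N_1))) (by decide +kernel)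
theorem L3963642 : W_1 (nat_lit 10) (nat_lit 0x1000080000000300018000000000000000000) (nat_lit 0x0) (nat_lit 0x100008000c600e7003f800f0007000000) := Q_1 (nat_lit 74) (C_1 L340107 (C_1 L259307 (C_1 L3963641 N_1))) (by decide +kernel)
theorem L3963675 : W_1 (nat_lit 2) (nat_lit 0x1000080002000f00078002000040000000000) (nat_lit 0x0) (nat_lit 0x8000000000000000100008000000) := D_1 (nat_lit 44) (nat_lit 27) (nat_lit 111) (nat_lit 5) (nat_lit 10) (nat_lit 1) (nat_lit 5) (nat_lit 10) (nat_lit 2) (by decide +kernel)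
theorem L3963676 : W_1 (nat_lit 3) (nat_lit 0x1000080002000b00078002000040000000000) (nat_lit 0x0) (nat_lit 0x9000400000000000100008000000) := T_1 (nat_lit 94) (nat_lit 108) (nat_lit 1) (nat_lit 10) (nat_lit 5) L3963675 (by decide +kernel)
theorem L3963677 : W_1 (nat_lit 4) (nat_lit 0x1000080002000300078002000040000000000) (nat_lit 0x0) (nat_lit 0x9001c00000000000100008000000) := T_1 (nat_lit 95) (nat_lit 96) (nat_lit 3) (nat_lit 7) (nat_lit 4) L3963676 (by decide +kernel)
theorem L3963678 : W_1 (nat_lit 5) (nat_lit 0x1000080002000300078000000040000000000) (nat_lit 0x0) (nat_lit 0x9001c00000006000100008000000) := T_1 (nat_lit 61) (nat_lit 62) (nat_lit 2) (nat_lit 7) (nat_lit 4) L3963677 (by decide +kernel)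
theorem L3963679 : W_1 (nat_lit 6) (nat_lit 0x1000080002000300038000000040000000000) (nat_lit 0x0) (nat_lit 0x9001c000c0006000100008000000) := T_1 (nat_lit 78) (nat_lit 79) (nat_lit 1) (nat_lit 11) (nat_lit 4) L3963678 (by decide +kernel)
theorem L3963695 : W_1 (nat_lit 4) (nat_lit 0x1000080003400300018000400000000000000) (nat_lit 0x0) (nat_lit 0xc00000000200030001800000) := T_1 (nat_lit 94) (nat_lit 95) (nat_lit 1) (nat_lit 10) (nat_lit 5) L269146 (by decide +kernel)
theorem L3963696 : W_1 (nat_lit 5) (nat_lit 0x1000080003000300018000400000000000000) (nat_lit 0x0) (nat_lit 0xc00c00000000200030001800000) := T_1 (nat_lit 106) (nat_lit 107) (nat_lit 2) (nat_lit 4) (nat_lit 6) L3963695 (by decide +kernel)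
theorem L3963697 : W_1 (nat_lit 6) (nat_lit 0x1000080002000300018000400000000000000) (nat_lit 0x0) (nat_lit 0x20001c00c00000000200030001800000) := T_1 (nat_lit 108) (nat_lit 125) (nat_lit 5) (nat_lit 7) (nat_lit 3) L3963696 (by decide +kernel)
theorem L3963698 : W_1 (nat_lit 7) (nat_lit 0x1000080000000300018000400000000000000) (nat_lit 0x0) (nat_lit 0x60003c00c00000000200030001800000) := T_1 (nat_lit 109) (nat_lit 126) (nat_lit 7) (nat_lit 7) (nat_lit 4) L3963697 (by decide +kernel)
theorem L3963699 : W_1 (nat_lit 2) (nat_lit 0x1000080000000f00058000c001c0001000000) (nat_lit 0x0) (nat_lit 0x20000300000000000000) := D_1 (nat_lit 57) (nat_lit 77) (nat_lit 56) (nat_lit 0) (nat_lit 10) (nat_lit 4) (nat_lit 2) (nat_lit 5) (nat_lit 3) (by decide +kernel)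
theorem L3963700 : W_1 (nat_lit 3) (nat_lit 0x1000080000000f00018000c001c0001000000) (nat_lit 0x0) (nat_lit 0xe0000300000000000000) := T_1 (nat_lit 78) (nat_lit 79) (nat_lit 2) (nat_lit 7) (nat_lit 5) L3963699 (by decide +kernel)
theorem L3963701 : W_1 (nat_lit 4) (nat_lit 0x1000080000000f00018000c000c0001000000) (nat_lit 0x0) (nat_lit 0xe0000300300000000000) := T_1 (nat_lit 44) (nat_lit 45) (nat_lit 1) (nat_lit 11) (nat_lit 2) L3963700 (by decide +kernel)
theorem L3963702 : W_1 (nat_lit 5) (nat_lit 0x1000080000000700018000c000c0001000000) (nat_lit 0x0) (nat_lit 0x18000e0000300300000000000) := T_1 (nat_lit 95) (nat_lit 96) (nat_lit 0) (nat_lit 11) (nat_lit 5) L3963701 (by decide +kernel)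
theorem L3963703 : W_1 (nat_lit 6) (nat_lit 0x1000080000000300018000c000c0001000000) (nat_lit 0x0) (nat_lit 0x8001c000e0000300300000000000) := T_1 (nat_lit 94) (nat_lit 111) (nat_lit 7) (nat_lit 8) (nat_lit 2) L3963702 (by decide +kernel)
theorem L3963704 : W_1 (nat_lit 7) (nat_lit 0x1000080000000300018000c00040001000000) (nat_lit 0x0) (nat_lit 0x8001c000e0000300380004000000) := T_1 (nat_lit 43) (nat_lit 26) (nat_lit 6) (nat_lit 8) (nat_lit 5) L3963703 (by decide +kernel)
theorem L3963705 : W_1 (nat_lit 8) (nat_lit 0x1000080000000300018000c00040000000000) (nat_lit 0x0) (nat_lit 0x8001c000e00003003a0005000000) := T_1 (nat_lit 24) (nat_lit 41) (nat_lit 7) (nat_lit 7) (nat_lit 1) L3963704 (by decide +kernel)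
theorem L3963706 : W_1 (nat_lit 9) (nat_lit 0x1000080000000300018000c00000000000000) (nat_lit 0x0) (nat_lit 0x8001c000e00003003e0007000000) := T_1 (nat_lit 42) (nat_lit 25) (nat_lit 5) (nat_lit 8) (nat_lit 1) L3963705 (by decide +kernel)
theorem L3963707 : W_1 (nat_lit 10) (nat_lit 0x1000080000000300018000400000000000000) (nat_lit 0x0) (nat_lit 0x8001c000e0003b003fc007800000) := Q_1 (nat_lit 59) (C_1 L3963201 (C_1 L3963186 (C_1 L3963706 (C_1 L3963182 N_1)))) (by decide +kernel)
theorem L3963708 : W_1 (nat_lit 11) (nat_lit 0x1000080000000300018000000000000000000) (nat_lit 0x0) (nat_lit 0x6000bc01c000e0003f803fc007800000) := Q_1 (nat_lit 58) (C_1 L3963698 (C_1 L345952 (C_1 L3963707 (C_1 L257456 (C_1 L257227 N_1))))) (by decide +kernel)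
theorem L3963720 : W_1 (nat_lit 4) (nat_lit 0x1000080003000700018000400000000000000) (nat_lit 0x0) (nat_lit 0xc00000000000200030001800000) := T_1 (nat_lit 106) (nat_lit 107) (nat_lit 2) (nat_lit 4) (nat_lit 6) L269146 (by decide +kernel)
theorem L3963721 : W_1 (nat_lit 5) (nat_lit 0x1000080002000700018000400000000000000) (nat_lit 0x0) (nat_lit 0x20001c00000000000200030001800000) := T_1 (nat_lit 108) (nat_lit 125) (nat_lit 5) (nat_lit 7) (nat_lit 3) L3963720 (by decide +kernel)
theorem L3963722 : W_1 (nat_lit 6) (nat_lit 0x1000080000000700018000400000000000000) (nat_lit 0x0) (nat_lit 0x60003c00000000000200030001800000) := T_1 (nat_lit 109) (nat_lit 126) (nat_lit 7) (nat_lit 7) (nat_lit 4) L3963721 (by decide +kernel)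
theorem L3963723 : W_1 (nat_lit 2) (nat_lit 0x100008000200070001a000e00000001000000) (nat_lit 0x0) (nat_lit 0x1000180000000000000) := D_1 (nat_lit 56) (nat_lit 72) (nat_lit 55) (nat_lit 1) (nat_lit 8) (nat_lit 3) (nat_lit 3) (nat_lit 4) (nat_lit 3) (by decide +kernel)
theorem L3963724 : W_1 (nat_lit 3) (nat_lit 0x1000080002000700018000e00000001000000) (nat_lit 0x0) (nat_lit 0x7000180000000000000) := T_1 (nat_lit 73) (nat_lit 74) (nat_lit 3) (nat_lit 5) (nat_lit 4) L3963723 (by decide +kernel)
theorem L3963725 : W_1 (nat_lit 4) (nat_lit 0x1000080002000700018000c00000001000000) (nat_lit 0x0) (nat_lit 0x7000380010000000000) := T_1 (nat_lit 57) (nat_lit 40) (nat_lit 4) (nat_lit 7) (nat_lit 6) L3963724 (by decide +kernel)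
theorem L3963726 : W_1 (nat_lit 5) (nat_lit 0x1000080002000700018000400000001000000) (nat_lit 0x0) (nat_lit 0x7000b80050000000000) := T_1 (nat_lit 59) (nat_lit 42) (nat_lit 6) (nat_lit 7) (nat_lit 6) L3963725 (by decide +kernel)
theorem L3963727 : W_1 (nat_lit 6) (nat_lit 0x1000080000000700018000400000001000000) (nat_lit 0x0) (nat_lit 0x40002000000007000b80050000000000) := T_1 (nat_lit 109) (nat_lit 126) (nat_lit 7) (nat_lit 7) (nat_lit 4) L3963726 (by decide +kernel)
theorem L3963728 : W_1 (nat_lit 7) (nat_lit 0x1000080000000700018000400000000000000) (nat_lit 0x0) (nat_lit 0x40002000000007000b80070001000000) := T_1 (nat_lit 24) (nat_lit 41) (nat_lit 7) (nat_lit 7) (nat_lit 1) L3963727 (by decide +kernel)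
theorem L3963729 : W_1 (nat_lit 2) (nat_lit 0x100008000000070001a000c000e0000800000) (nat_lit 0x0) (nat_lit 0x300100000000000) := D_1 (nat_lit 57) (nat_lit 56) (nat_lit 44) (nat_lit 2) (nat_lit 5) (nat_lit 3) (nat_lit 1) (nat_lit 10) (nat_lit 2) (by decide +kernel)
theorem L3963730 : W_1 (nat_lit 3) (nat_lit 0x100008000000070001a000c00060000800000) (nat_lit 0x0) (nat_lit 0x300180004000000) := T_1 (nat_lit 43) (nat_lit 26) (nat_lit 6) (nat_lit 8) (nat_lit 5) L3963729 (by decide +kernel)
theorem L3963731 : W_1 (nat_lit 4) (nat_lit 0x100008000000070001a000400060000800000) (nat_lit 0x0) (nat_lit 0x8000000000000b00180004000000) := T_1 (nat_lit 59) (nat_lit 111) (nat_lit 7) (nat_lit 8) (nat_lit 2) L3963730 (by decide +kernel)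
theorem L3963732 : W_1 (nat_lit 5) (nat_lit 0x100008000000070001a000400060000000000) (nat_lit 0x0) (nat_lit 0x8000000000000b00190004800000) := T_1 (nat_lit 23) (nat_lit 40) (nat_lit 4) (nat_lit 7) (nat_lit 5) L3963731 (by decide +kernel)
theorem L3963733 : W_1 (nat_lit 6) (nat_lit 0x100008000000070001a000400020000000000) (nat_lit 0x0) (nat_lit 0x8000000000000b001d0006800000) := T_1 (nat_lit 42) (nat_lit 25) (nat_lit 6) (nat_lit 7) (nat_lit 5) L3963732 (by decide +kernel)
theorem L3963734 : W_1 (nat_lit 7) (nat_lit 0x100008000000070001a000400000000000000) (nat_lit 0x0) (nat_lit 0x8000000000000b001f0007800000) := T_1 (nat_lit 41) (nat_lit 24) (nat_lit 7) (nat_lit 7) (nat_lit 1) L3963733 (by decide +kernel)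
theorem L3963735 : W_1 (nat_lit 8) (nat_lit 0x1000080000000700018000400000000000000) (nat_lit 0x0) (nat_lit 0x8000000006000b001f0007800000) := T_1 (nat_lit 73) (nat_lit 74) (nat_lit 3) (nat_lit 5) (nat_lit 4) L3963734 (by decide +kernel)
theorem L3963736 : W_1 (nat_lit 2) (nat_lit 0x100008000340070001a000e00000000000000) (nat_lit 0x0) (nat_lit 0x1000180000000000000) := D_1 (nat_lit 56) (nat_lit 72) (nat_lit 55) (nat_lit 1) (nat_lit 8) (nat_lit 3) (nat_lit 3) (nat_lit 4) (nat_lit 3) (by decide +kernel)
theorem L3963737 : W_1 (nat_lit 3) (nat_lit 0x1000080003400700018000e00000000000000) (nat_lit 0x0) (nat_lit 0x7000180000000000000) := T_1 (nat_lit 73) (nat_lit 74) (nat_lit 3) (nat_lit 5) (nat_lit 4) L3963736 (by decide +kernel)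
theorem L3963738 : W_1 (nat_lit 4) (nat_lit 0x1000080003400700018000c00000000000000) (nat_lit 0x0) (nat_lit 0x7000380010000000000) := T_1 (nat_lit 57) (nat_lit 40) (nat_lit 4) (nat_lit 7) (nat_lit 6) L3963737 (by decide +kernel)
theorem L3963739 : W_1 (nat_lit 5) (nat_lit 0x1000080003000700018000c00000000000000) (nat_lit 0x0) (nat_lit 0xc00000007000380010000000000) := T_1 (nat_lit 106) (nat_lit 107) (nat_lit 2) (nat_lit 4) (nat_lit 6) L3963738 (by decide +kernel)
theorem L3963740 : W_1 (nat_lit 6) (nat_lit 0x1000080002000700018000c00000000000000) (nat_lit 0x0) (nat_lit 0x20001c00000007000380010000000000) := T_1 (nat_lit 108) (nat_lit 125) (nat_lit 5) (nat_lit 7) (nat_lit 3) L3963739 (by decide +kernel)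
theorem L3963741 : W_1 (nat_lit 7) (nat_lit 0x1000080002000700018000400000000000000) (nat_lit 0x0) (nat_lit 0x20001c00000007000b80050000000000) := T_1 (nat_lit 59) (nat_lit 42) (nat_lit 6) (nat_lit 7) (nat_lit 6) L3963740 (by decide +kernel)
theorem L3963742 : W_1 (nat_lit 8) (nat_lit 0x1000080000000700018000400000000000000) (nat_lit 0x0) (nat_lit 0x60003c00000007000b80050000000000) := T_1 (nat_lit 109) (nat_lit 126) (nat_lit 7) (nat_lit 7) (nat_lit 4) L3963741 (by decide +kernel)
theorem L3963743 : W_1 (nat_lit 2) (nat_lit 0x100008000200070001a000400020000000000) (nat_lit 0x0) (nat_lit 0x800040002000000) := D_1 (nat_lit 42) (nat_lit 59) (nat_lit 25) (nat_lit 6) (nat_lit 7) (nat_lit 6) (nat_lit 6) (nat_lit 7) (nat_lit 5) (by decide +kernel)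
theorem L3963744 : W_1 (nat_lit 3) (nat_lit 0x100008000000070001a000400020000000000) (nat_lit 0x0) (nat_lit 0x40002000000000000800040002000000) := T_1 (nat_lit 109) (nat_lit 126) (nat_lit 7) (nat_lit 7) (nat_lit 4) L3963743 (by decide +kernel)
theorem L3963745 : W_1 (nat_lit 4) (nat_lit 0x100008000000070001a000400000000000000) (nat_lit 0x0) (nat_lit 0x40002000000000000800060003000000) := T_1 (nat_lit 41) (nat_lit 24) (nat_lit 7) (nat_lit 7) (nat_lit 1) L3963744 (by decide +kernel)
theorem L3963746 : W_1 (nat_lit 5) (nat_lit 0x1000080000000700018000400000000000000) (nat_lit 0x0) (nat_lit 0x40002000000006000800060003000000) := T_1 (nat_lit 73) (nat_lit 74) (nat_lit 3) (nat_lit 5) (nat_lit 4) L3963745 (by decide +kernel)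
theorem L3963747 : W_1 (nat_lit 9) (nat_lit 0x1000080000000700018000000000000000000) (nat_lit 0x0) (nat_lit 0x6000bc00000007000f801f0007800000) := Q_1 (nat_lit 58) (C_1 L3963722 (C_1 L3963728 (C_1 L3963735 (C_1 L3963742 (C_1 L3963746 N_1))))) (by decide +kernel)
theorem L3963748 : W_1 (nat_lit 2) (nat_lit 0x1000080002000700018000000000000000000) (nat_lit 0x0) (nat_lit 0x1001800000000000000000000000) := D_1 (nat_lit 95) (nat_lit 96) (nat_lit 108) (nat_lit 0) (nat_lit 11) (nat_lit 5) (nat_lit 1) (nat_lit 10) (nat_lit 5) (by decide +kernel)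
theorem L3963749 : W_1 (nat_lit 3) (nat_lit 0x1000080000000700018000000000000000000) (nat_lit 0x0) (nat_lit 0x40003001800000000000000000000000) := T_1 (nat_lit 109) (nat_lit 126) (nat_lit 7) (nat_lit 7) (nat_lit 4) L3963748 (by decide +kernel)
theorem L3963750 : W_1 (nat_lit 10) (nat_lit 0x1000080000000300018000000000000000000) (nat_lit 0x0) (nat_lit 0x6000bc01c00007000f801f0007800000) := Q_1 (nat_lit 94) (C_1 L257221 (C_1 L3963747 (C_1 L3963749 N_1))) (by decide +kernel)
theorem L3963751 : W_1 (nat_lit 2) (nat_lit 0x100008000a00070007c000000000000000000) (nat_lit 0x0) (nat_lit 0x7000000000000000) := D_1 (nat_lit 61) (nat_lit 60) (nat_lit 62) (nat_lit 2) (nat_lit 6) (nat_lit 4) (nat_lit 2) (nat_lit 7) (nat_lit 4) (by decide +kernel)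
theorem L3963752 : W_1 (nat_lit 3) (nat_lit 0x100008000a00070003c000000000000000000) (nat_lit 0x0) (nat_lit 0xc0007000000000000000) := T_1 (nat_lit 78) (nat_lit 79) (nat_lit 1) (nat_lit 11) (nat_lit 4) L3963751 (by decide +kernel)
theorem L3963753 : W_1 (nat_lit 4) (nat_lit 0x100008000200070003c000000000000000000) (nat_lit 0x0) (nat_lit 0x1000080000000c0007000000000000000) := T_1 (nat_lit 111) (nat_lit 128) (nat_lit 5) (nat_lit 9) (nat_lit 4) L3963752 (by decide +kernel)
theorem L3963754 : W_1 (nat_lit 5) (nat_lit 0x100008000200030003c000000000000000000) (nat_lit 0x0) (nat_lit 0x100008000c000c0007000000000000000) := T_1 (nat_lit 94) (nat_lit 95) (nat_lit 3) (nat_lit 6) (nat_lit 4) L3963753 (by decide +kernel)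
theorem L3963755 : W_1 (nat_lit 6) (nat_lit 0x100008000000030003c000000000000000000) (nat_lit 0x0) (nat_lit 0x14000a000c000c0007000000000000000) := T_1 (nat_lit 109) (nat_lit 126) (nat_lit 7) (nat_lit 7) (nat_lit 4) L3963754 (by decide +kernel)
theorem L3963756 : W_1 (nat_lit 2) (nat_lit 0x100008000200070007c000100040000000000) (nat_lit 0x0) (nat_lit 0x7000000000000000) := D_1 (nat_lit 61) (nat_lit 60) (nat_lit 62) (nat_lit 2) (nat_lit 6) (nat_lit 4) (nat_lit 2) (nat_lit 7) (nat_lit 4) (by decide +kernel)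
theorem L3963757 : W_1 (nat_lit 3) (nat_lit 0x100008000200070003c000100040000000000) (nat_lit 0x0) (nat_lit 0xc0007000000000000000) := T_1 (nat_lit 78) (nat_lit 79) (nat_lit 1) (nat_lit 11) (nat_lit 4) L3963756 (by decide +kernel)
theorem L3963758 : W_1 (nat_lit 4) (nat_lit 0x100008000200030003c000100040000000000) (nat_lit 0x0) (nat_lit 0xc000c0007000000000000000) := T_1 (nat_lit 94) (nat_lit 95) (nat_lit 3) (nat_lit 6) (nat_lit 4) L3963757 (by decide +kernel)
theorem L3963759 : W_1 (nat_lit 5) (nat_lit 0x100008000200030003c000100000000000000) (nat_lit 0x0) (nat_lit 0xc000c0007800040000000000) := T_1 (nat_lit 42) (nat_lit 59) (nat_lit 5) (nat_lit 8) (nat_lit 2) L3963758 (by decide +kernel)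
theorem L3963760 : W_1 (nat_lit 6) (nat_lit 0x100008000000030003c000100000000000000) (nat_lit 0x0) (nat_lit 0x40002000c000c0007800040000000000) := T_1 (nat_lit 109) (nat_lit 126) (nat_lit 7) (nat_lit 7) (nat_lit 4) L3963759 (by decide +kernel)
theorem L3963761 : W_1 (nat_lit 7) (nat_lit 0x100008000000030003c000000000000000000) (nat_lit 0x0) (nat_lit 0x40002000c000c0007b00040000000000) := T_1 (nat_lit 56) (nat_lit 57) (nat_lit 0) (nat_lit 9) (nat_lit 4) L3963760 (by decide +kernel)
theorem L3963762 : W_1 (nat_lit 2) (nat_lit 0x100008000000030003c002000000000000000) (nat_lit 0x0) (nat_lit 0xc0004000000000000000) := D_1 (nat_lit 78) (nat_lit 79) (nat_lit 62) (nat_lit 1) (nat_lit 11) (nat_lit 4) (nat_lit 2) (nat_lit 7) (nat_lit 4) (by decide +kernel)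
theorem L3963763 : W_1 (nat_lit 3) (nat_lit 0x100008000000030003c000000000000000000) (nat_lit 0x0) (nat_lit 0xc0007000000000000000) := T_1 (nat_lit 61) (nat_lit 60) (nat_lit 2) (nat_lit 6) (nat_lit 4) L3963762 (by decide +kernel)
theorem L3963764 : W_1 (nat_lit 2) (nat_lit 0x100008000000030007c000000000000000000) (nat_lit 0x0) (nat_lit 0x1c00000000000000000000000) := D_1 (nat_lit 95) (nat_lit 94) (nat_lit 96) (nat_lit 3) (nat_lit 6) (nat_lit 4) (nat_lit 3) (nat_lit 7) (nat_lit 4) (by decide +kernel)
theorem L3963765 : W_1 (nat_lit 3) (nat_lit 0x100008000000030003c000000000000000000) (nat_lit 0x0) (nat_lit 0x1c000c0000000000000000000) := T_1 (nat_lit 78) (nat_lit 79) (nat_lit 1) (nat_lit 11) (nat_lit 4) L3963764 (by decide +kernel)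
theorem L3963766 : W_1 (nat_lit 8) (nat_lit 0x100008000000030001c000000000000000000) (nat_lit 0x0) (nat_lit 0x14000a001c000e0007b000c0006000000) := Q_1 (nat_lit 77) (C_1 L3963755 (C_1 L3963761 (C_1 L3962875 (C_1 L3963763 (C_1 L3963765 N_1))))) (by decide +kernel)
theorem L3963767 : W_1 (nat_lit 10) (nat_lit 0x1000080000000300018000000000000000000) (nat_lit 0x0) (nat_lit 0x14000a001c600e7007b800f0007000000) := Q_1 (nat_lit 74) (C_1 L3963766 (C_1 L340107 (C_1 L259307 N_1))) (by decide +kernel)
theorem L3963768 : W_1 (nat_lit 2) (nat_lit 0x100008000a00070003c000200000000000000) (nat_lit 0x0) (nat_lit 0x400010000800000) := D_1 (nat_lit 40) (nat_lit 58) (nat_lit 23) (nat_lit 4) (nat_lit 7) (nat_lit 6) (nat_lit 7) (nat_lit 6) (nat_lit 1) (by decide +kernel)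
theorem L3963769 : W_1 (nat_lit 3) (nat_lit 0x100008000a00070003c000000000000000000) (nat_lit 0x0) (nat_lit 0x700010000800000) := T_1 (nat_lit 57) (nat_lit 56) (nat_lit 0) (nat_lit 9) (nat_lit 4) L3963768 (by decide +kernel)
theorem L3963770 : W_1 (nat_lit 4) (nat_lit 0x100008000200070003c000000000000000000) (nat_lit 0x0) (nat_lit 0x100008000000000000700010000800000) := T_1 (nat_lit 111) (nat_lit 128) (nat_lit 5) (nat_lit 9) (nat_lit 4) L3963769 (by decide +kernel)
theorem L3963771 : W_1 (nat_lit 5) (nat_lit 0x100008000200030003c000000000000000000) (nat_lit 0x0) (nat_lit 0x100008000c00000000700010000800000) := T_1 (nat_lit 94) (nat_lit 95) (nat_lit 3) (nat_lit 6) (nat_lit 4) L3963770 (by decide +kernel)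
theorem L3963772 : W_1 (nat_lit 6) (nat_lit 0x100008000000030003c000000000000000000) (nat_lit 0x0) (nat_lit 0x14000a000c00000000700010000800000) := T_1 (nat_lit 109) (nat_lit 126) (nat_lit 7) (nat_lit 7) (nat_lit 4) L3963771 (by decide +kernel)
theorem L3963773 : W_1 (nat_lit 7) (nat_lit 0x100008000000030001c000000000000000000) (nat_lit 0x0) (nat_lit 0x14000a001c000e0007700010000800000) := Q_1 (nat_lit 77) (C_1 L3963765 (C_1 L3963763 (C_1 L3963772 N_1))) (by decide +kernel)
theorem L3963774 : W_1 (nat_lit 8) (nat_lit 0x1000080000000300018000000000000000000) (nat_lit 0x0) (nat_lit 0x14000a001c000e7007780010000800000) := Q_1 (nat_lit 74) (C_1 L3963773 (C_1 L340107 (C_1 L340074 N_1))) (by decide +kernel)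
theorem L3963818 : W_1 (nat_lit 2) (nat_lit 0x1000080002000700018000400020000000000) (nat_lit 0x0) (nat_lit 0x800040002000000) := D_1 (nat_lit 42) (nat_lit 59) (nat_lit 25) (nat_lit 6) (nat_lit 7) (nat_lit 6) (nat_lit 6) (nat_lit 7) (nat_lit 5) (by decide +kernel)
theorem L3963819 : W_1 (nat_lit 3) (nat_lit 0x1000080000000700018000400020000000000) (nat_lit 0x0) (nat_lit 0x40002000000000000800040002000000) := T_1 (nat_lit 109) (nat_lit 126) (nat_lit 7) (nat_lit 7) (nat_lit 4) L3963818 (by decide +kernel)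
theorem L3963820 : W_1 (nat_lit 4) (nat_lit 0x1000080000000700018000400000000000000) (nat_lit 0x0) (nat_lit 0x40002000000000000800060003000000) := T_1 (nat_lit 41) (nat_lit 24) (nat_lit 7) (nat_lit 7) (nat_lit 1) L3963819 (by decide +kernel)
theorem L3963856 : W_1 (nat_lit 7) (nat_lit 0x100008000000030001c000000000000000000) (nat_lit 0x0) (nat_lit 0x100008001c000e00078000c0006000000) := Q_1 (nat_lit 77) (C_1 L3963765 (C_1 L3963763 (C_1 L3962875 N_1))) (by decide +kernel)
theorem L3963857 : W_1 (nat_lit 8) (nat_lit 0x1000080000000300018000000000000000000) (nat_lit 0x0) (nat_lit 0x14000a001c000e70078000c0006000000) := Q_1 (nat_lit 74) (C_1 L258915 (C_1 L340107 (C_1 L3963856 N_1))) (by decide +kernel)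
theorem L3963858 : W_1 (nat_lit 15) (nat_lit 0x1000080000000300008000000000000000000) (nat_lit 0x0) (nat_lit 0x16000bc01c600f7007f803fc007e00000) := Q_1 (nat_lit 76) (C_1 L3963225 (C_1 L3963637 (C_1 L3963642 (C_1 L3963708 (C_1 L3963750 (C_1 L3963767 (C_1 L3963774 (C_1 L3963857 N_1)))))))) (by decide +kernel)
theorem L3963947 : W_1 (nat_lit 2) (nat_lit 0x10000800008003c000e000000000000000000) (nat_lit 0x0) (nat_lit 0x10000000000000000200010000000000) := D_1 (nat_lit 57) (nat_lit 40) (nat_lit 124) (nat_lit 5) (nat_lit 6) (nat_lit 2) (nat_lit 6) (nat_lit 5) (nat_lit 7) (by decide +kernel)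
theorem L3963948 : W_1 (nat_lit 3) (nat_lit 0x10000800000003c000e000000000000000000) (nat_lit 0x0) (nat_lit 0x10000c00000000000200010000000000) := T_1 (nat_lit 107) (nat_lit 106) (nat_lit 1) (nat_lit 8) (nat_lit 5) L3963947 (by decide +kernel)
theorem L3963949 : W_1 (nat_lit 4) (nat_lit 0x10000800000003c000c000000000000000000) (nat_lit 0x0) (nat_lit 0x10000c00000003000200010000000000) := T_1 (nat_lit 73) (nat_lit 72) (nat_lit 3) (nat_lit 4) (nat_lit 4) L3963948 (by decide +kernel)
theorem L3963950 : W_1 (nat_lit 5) (nat_lit 0x100008000000038000c000000000000000000) (nat_lit 0x0) (nat_lit 0x10000e00070003800200010000000000) := Q_1 (nat_lit 90) (C_1 L3962770 (C_1 L3962762 (C_1 L3963949 N_1))) (by decide +kernel)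
theorem L3963972 : W_1 (nat_lit 2) (nat_lit 0x100008000300038000c000200000000000000) (nat_lit 0x0) (nat_lit 0x10000c00000000000000000000000000) := D_1 (nat_lit 107) (nat_lit 106) (nat_lit 124) (nat_lit 2) (nat_lit 4) (nat_lit 6) (nat_lit 5) (nat_lit 6) (nat_lit 3) (by decide +kernel)
theorem L3963973 : W_1 (nat_lit 3) (nat_lit 0x100008000300038000c000000000000000000) (nat_lit 0x0) (nat_lit 0x10000c00000000000200010000000000) := T_1 (nat_lit 57) (nat_lit 40) (nat_lit 7) (nat_lit 6) (nat_lit 2) L3963972 (by decide +kernel)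
theorem L3963974 : W_1 (nat_lit 4) (nat_lit 0x100008000100038000c000000000000000000) (nat_lit 0x0) (nat_lit 0x50002c00000000000200010000000000) := T_1 (nat_lit 109) (nat_lit 126) (nat_lit 7) (nat_lit 7) (nat_lit 4) L3963973 (by decide +kernel)
theorem L3963975 : W_1 (nat_lit 6) (nat_lit 0x100008000000038000c000000000000000000) (nat_lit 0x0) (nat_lit 0x70003c00000000000600030000000000) := Q_1 (nat_lit 108) (C_1 L3962767 (C_1 L3963049 (C_1 L3963974 N_1))) (by decide +kernel)
theorem L3963976 : W_1 (nat_lit 2) (nat_lit 0x100008000200038000c000400040000000000) (nat_lit 0x0) (nat_lit 0x20003000000) := D_1 (nat_lit 41) (nat_lit 25) (nat_lit 24) (nat_lit 6) (nat_lit 7) (nat_lit 5) (nat_lit 5) (nat_lit 7) (nat_lit 1) (by decide +kernel)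
theorem L3963977 : W_1 (nat_lit 3) (nat_lit 0x100008000200038000c000400000000000000) (nat_lit 0x0) (nat_lit 0x800060003000000) := T_1 (nat_lit 42) (nat_lit 59) (nat_lit 6) (nat_lit 7) (nat_lit 6) L3963976 (by decide +kernel)
theorem L3963978 : W_1 (nat_lit 4) (nat_lit 0x100008000000038000c000400000000000000) (nat_lit 0x0) (nat_lit 0x40002000000000000800060003000000) := T_1 (nat_lit 109) (nat_lit 126) (nat_lit 7) (nat_lit 7) (nat_lit 4) L3963977 (by decide +kernel)
theorem L3963987 : W_1 (nat_lit 2) (nat_lit 0x1000080002000700008000000000000000000) (nat_lit 0x0) (nat_lit 0x1000800004000000000000000000) := D_1 (nat_lit 95) (nat_lit 108) (nat_lit 74) (nat_lit 1) (nat_lit 10) (nat_lit 5) (nat_lit 0) (nat_lit 10) (nat_lit 5) (by decide +kernel)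
theorem L3963988 : W_1 (nat_lit 3) (nat_lit 0x1000080000000700008000000000000000000) (nat_lit 0x0) (nat_lit 0x40003000800004000000000000000000) := T_1 (nat_lit 109) (nat_lit 126) (nat_lit 7) (nat_lit 7) (nat_lit 4) L3963987 (by decide +kernel)
theorem L3963989 : W_1 (nat_lit 2) (nat_lit 0x10000800000007c0008000000000000000000) (nat_lit 0x0) (nat_lit 0x7000000000000000000) := D_1 (nat_lit 73) (nat_lit 74) (nat_lit 72) (nat_lit 0) (nat_lit 9) (nat_lit 5) (nat_lit 0) (nat_lit 8) (nat_lit 5) (by decide +kernel)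
theorem L3963990 : W_1 (nat_lit 5) (nat_lit 0x10000800000007c0008000000000000000000) (nat_lit 0x0) (nat_lit 0xe00020063800000000000000000) := T_1 (nat_lit 77) (nat_lit 78) (nat_lit 2) (nat_lit 6) (nat_lit 5) L341864 (by decide +kernel)
theorem L3963991 : W_1 (nat_lit 6) (nat_lit 0x10000800020007c0028000000000000000000) (nat_lit 0x0) (nat_lit 0x100008e00030005c00000000000000000) := T_1 (nat_lit 111) (nat_lit 128) (nat_lit 5) (nat_lit 9) (nat_lit 4) L259036 (by decide +kernel)
theorem L3963992 : W_1 (nat_lit 7) (nat_lit 0x10000800000007c0028000000000000000000) (nat_lit 0x0) (nat_lit 0x14000ae00030005c00000000000000000) := T_1 (nat_lit 109) (nat_lit 126) (nat_lit 7) (nat_lit 7) (nat_lit 4) L3963991 (by decide +kernel)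
theorem L3963993 : W_1 (nat_lit 8) (nat_lit 0x10000800000007c0008000000000000000000) (nat_lit 0x0) (nat_lit 0x14000ae00030065c00000000000000000) := T_1 (nat_lit 77) (nat_lit 78) (nat_lit 2) (nat_lit 6) (nat_lit 5) L3963992 (by decide +kernel)
theorem L3963994 : W_1 (nat_lit 2) (nat_lit 0x10000800004007e0008000000000000000000) (nat_lit 0x0) (nat_lit 0x10006000000000000000000) := D_1 (nat_lit 74) (nat_lit 73) (nat_lit 88) (nat_lit 0) (nat_lit 9) (nat_lit 5) (nat_lit 2) (nat_lit 3) (nat_lit 5) (by decide +kernel)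
theorem L3963995 : W_1 (nat_lit 3) (nat_lit 0x10000800004007c0008000000000000000000) (nat_lit 0x0) (nat_lit 0x200030006000000000000000000) := T_1 (nat_lit 89) (nat_lit 105) (nat_lit 1) (nat_lit 7) (nat_lit 5) L3963994 (by decide +kernel)
theorem L3963996 : W_1 (nat_lit 4) (nat_lit 0x10000800000007c0008000000000000000000) (nat_lit 0x0) (nat_lit 0xe00030006000000000000000000) := T_1 (nat_lit 106) (nat_lit 107) (nat_lit 1) (nat_lit 8) (nat_lit 5) L3963995 (by decide +kernel)
theorem L3963997 : W_1 (nat_lit 9) (nat_lit 0x1000080000000780008000000000000000000) (nat_lit 0x0) (nat_lit 0x14000ae00070067c00000000000000000) := Q_1 (nat_lit 90) (C_1 L3963989 (C_1 L3963990 (C_1 L3963993 (C_1 L3963996 N_1)))) (by decide +kernel)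
theorem L3963998 : W_1 (nat_lit 2) (nat_lit 0x100008000000078000b000400060000800040) (nat_lit 0x0) (nat_lit 0x40002000000000000800000000000000) := D_1 (nat_lit 109) (nat_lit 126) (nat_lit 59) (nat_lit 7) (nat_lit 7) (nat_lit 4) (nat_lit 6) (nat_lit 7) (nat_lit 6) (by decide +kernel)
theorem L3963999 : W_1 (nat_lit 3) (nat_lit 0x100008000000078000b000400020000800040) (nat_lit 0x0) (nat_lit 0x40002000000000000800040002000000) := T_1 (nat_lit 42) (nat_lit 25) (nat_lit 6) (nat_lit 7) (nat_lit 5) L3963998 (by decide +kernel)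
theorem L3964000 : W_1 (nat_lit 4) (nat_lit 0x100008000000078000b000400020000800000) (nat_lit 0x0) (nat_lit 0x40002000000000000800040003000040) := T_1 (nat_lit 6) (nat_lit 24) (nat_lit 4) (nat_lit 7) (nat_lit 4) L3963999 (by decide +kernel)
theorem L3964001 : W_1 (nat_lit 5) (nat_lit 0x100008000000078000b000400020000000000) (nat_lit 0x0) (nat_lit 0x40002000000000000800050003800040) := T_1 (nat_lit 23) (nat_lit 40) (nat_lit 4) (nat_lit 7) (nat_lit 5) L3964000 (by decide +kernel)
theorem L3964002 : W_1 (nat_lit 6) (nat_lit 0x100008000000078000b000400000000000000) (nat_lit 0x0) (nat_lit 0x40003000000000000800070003800040) := T_1 (nat_lit 41) (nat_lit 108) (nat_lit 5) (nat_lit 7) (nat_lit 2) L3964001 (by decide +kernel)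
theorem L3964003 : W_1 (nat_lit 7) (nat_lit 0x100008000000078000a000400000000000000) (nat_lit 0x0) (nat_lit 0x40003000040001000800070003800040) := T_1 (nat_lit 72) (nat_lit 90) (nat_lit 0) (nat_lit 8) (nat_lit 5) L3964002 (by decide +kernel)
theorem L3964004 : W_1 (nat_lit 8) (nat_lit 0x1000080000000780008000400000000000000) (nat_lit 0x0) (nat_lit 0x40003000040007000800070003800040) := T_1 (nat_lit 73) (nat_lit 74) (nat_lit 0) (nat_lit 9) (nat_lit 5) L3964003 (by decide +kernel)
theorem L3964005 : W_1 (nat_lit 2) (nat_lit 0x1000080002000780008000400000000000000) (nat_lit 0x0) (nat_lit 0x20001000000000000000020000000000) := D_1 (nat_lit 108) (nat_lit 41) (nat_lit 125) (nat_lit 5) (nat_lit 7) (nat_lit 2) (nat_lit 5) (nat_lit 7) (nat_lit 3) (by decide +kernel)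
theorem L3964006 : W_1 (nat_lit 3) (nat_lit 0x1000080000000780008000400000000000000) (nat_lit 0x0) (nat_lit 0x60003000000000000000020000000000) := T_1 (nat_lit 109) (nat_lit 126) (nat_lit 7) (nat_lit 7) (nat_lit 4) L3964005 (by decide +kernel)
theorem L3964007 : W_1 (nat_lit 2) (nat_lit 0x100008000800078002b001400160000800040) (nat_lit 0x0) (nat_lit 0x200080008000000) := D_1 (nat_lit 43) (nat_lit 27) (nat_lit 57) (nat_lit 6) (nat_lit 9) (nat_lit 5) (nat_lit 1) (nat_lit 10) (nat_lit 2) (by decide +kernel)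
theorem L3964008 : W_1 (nat_lit 3) (nat_lit 0x100008000800078002b001400060000800040) (nat_lit 0x0) (nat_lit 0x2200180008000000) := T_1 (nat_lit 44) (nat_lit 61) (nat_lit 6) (nat_lit 9) (nat_lit 6) L3964007 (by decide +kernel)
theorem L3964009 : W_1 (nat_lit 4) (nat_lit 0x100008000800078002b000400060000800040) (nat_lit 0x0) (nat_lit 0x3a00180008000000) := T_1 (nat_lit 60) (nat_lit 59) (nat_lit 4) (nat_lit 9) (nat_lit 6) L3964008 (by decide +kernel)
theorem L3964010 : W_1 (nat_lit 5) (nat_lit 0x100008000000078002b000400060000800040) (nat_lit 0x0) (nat_lit 0x100008000000000003a00180008000000) := T_1 (nat_lit 111) (nat_lit 128) (nat_lit 5) (nat_lit 9) (nat_lit 4) L3964009 (by decide +kernel)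
theorem L3964011 : W_1 (nat_lit 6) (nat_lit 0x100008000000078000b000400060000800040) (nat_lit 0x0) (nat_lit 0x100008000000060003a00180008000000) := T_1 (nat_lit 77) (nat_lit 78) (nat_lit 2) (nat_lit 6) (nat_lit 5) L3964010 (by decide +kernel)
theorem L3964012 : W_1 (nat_lit 7) (nat_lit 0x100008000000078000b000400020000800040) (nat_lit 0x0) (nat_lit 0x100008000000060003a001c000a000000) := T_1 (nat_lit 42) (nat_lit 25) (nat_lit 6) (nat_lit 7) (nat_lit 5) L3964011 (by decide +kernel)
theorem L3964013 : W_1 (nat_lit 8) (nat_lit 0x100008000000078000b000400020000800000) (nat_lit 0x0) (nat_lit 0x100008000000060003a001c000b000040) := T_1 (nat_lit 6) (nat_lit 24) (nat_lit 4) (nat_lit 7) (nat_lit 4) L3964012 (by decide +kernel)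
theorem L3964014 : W_1 (nat_lit 9) (nat_lit 0x100008000000078000b000400020000000000) (nat_lit 0x0) (nat_lit 0x100008000000060003a001d000b800040) := T_1 (nat_lit 23) (nat_lit 40) (nat_lit 4) (nat_lit 7) (nat_lit 5) L3964013 (by decide +kernel)
theorem L3964015 : W_1 (nat_lit 10) (nat_lit 0x100008000000078000b000400000000000000) (nat_lit 0x0) (nat_lit 0x100009000000060003a001f000b800040) := T_1 (nat_lit 41) (nat_lit 108) (nat_lit 5) (nat_lit 7) (nat_lit 2) L3964014 (by decide +kernel)
theorem L3964016 : W_1 (nat_lit 11) (nat_lit 0x100008000000078000a000400000000000000) (nat_lit 0x0) (nat_lit 0x100009000040061003a001f000b800040) := T_1 (nat_lit 72) (nat_lit 90) (nat_lit 0) (nat_lit 8) (nat_lit 5) L3964015 (by decide +kernel)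
theorem L3964017 : W_1 (nat_lit 12) (nat_lit 0x1000080000000780008000400000000000000) (nat_lit 0x0) (nat_lit 0x100009000040067003a001f000b800040) := T_1 (nat_lit 73) (nat_lit 74) (nat_lit 0) (nat_lit 9) (nat_lit 5) L3964016 (by decide +kernel)
theorem L3964018 : W_1 (nat_lit 2) (nat_lit 0x100008000a00078002b000400060000000000) (nat_lit 0x0) (nat_lit 0x200010000800000) := D_1 (nat_lit 40) (nat_lit 57) (nat_lit 23) (nat_lit 4) (nat_lit 7) (nat_lit 6) (nat_lit 4) (nat_lit 7) (nat_lit 5) (by decide +kernel)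
theorem L3964019 : W_1 (nat_lit 3) (nat_lit 0x100008000a00078002b000400040000000000) (nat_lit 0x0) (nat_lit 0x200030002800000) := T_1 (nat_lit 41) (nat_lit 25) (nat_lit 6) (nat_lit 7) (nat_lit 5) L3964018 (by decide +kernel)
theorem L3964020 : W_1 (nat_lit 4) (nat_lit 0x100008000a00078002b000400000000000000) (nat_lit 0x0) (nat_lit 0xa00070002800000) := T_1 (nat_lit 42) (nat_lit 59) (nat_lit 6) (nat_lit 7) (nat_lit 6) L3964019 (by decide +kernel)
theorem L3964021 : W_1 (nat_lit 5) (nat_lit 0x100008000800078002b000400000000000000) (nat_lit 0x0) (nat_lit 0x40002000000000000a00070002800000) := T_1 (nat_lit 109) (nat_lit 126) (nat_lit 7) (nat_lit 7) (nat_lit 4) L3964020 (by decide +kernel)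
theorem L3964022 : W_1 (nat_lit 6) (nat_lit 0x100008000000078002b000400000000000000) (nat_lit 0x0) (nat_lit 0x14000a000000000000a00070002800000) := T_1 (nat_lit 111) (nat_lit 128) (nat_lit 5) (nat_lit 9) (nat_lit 4) L3964021 (by decide +kernel)
theorem L3964023 : W_1 (nat_lit 7) (nat_lit 0x100008000000078002a000400000000000000) (nat_lit 0x0) (nat_lit 0x14000a000040001000a00070002800000) := T_1 (nat_lit 72) (nat_lit 90) (nat_lit 0) (nat_lit 8) (nat_lit 5) L3964022 (by decide +kernel)
theorem L3964024 : W_1 (nat_lit 8) (nat_lit 0x1000080000000780028000400000000000000) (nat_lit 0x0) (nat_lit 0x14000a000040007000a00070002800000) := T_1 (nat_lit 73) (nat_lit 74) (nat_lit 0) (nat_lit 9) (nat_lit 5) L3964023 (by decide +kernel)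
theorem L3964025 : W_1 (nat_lit 9) (nat_lit 0x1000080000000780008000400000000000000) (nat_lit 0x0) (nat_lit 0x14000a000040067000a00070002800000) := T_1 (nat_lit 77) (nat_lit 78) (nat_lit 2) (nat_lit 6) (nat_lit 5) L3964024 (by decide +kernel)
theorem L3964026 : W_1 (nat_lit 2) (nat_lit 0x100008000b00078002a000e00000000000000) (nat_lit 0x0) (nat_lit 0x40001000100000000000000) := D_1 (nat_lit 72) (nat_lit 90) (nat_lit 56) (nat_lit 0) (nat_lit 8) (nat_lit 5) (nat_lit 1) (nat_lit 8) (nat_lit 3) (by decide +kernel)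
theorem L3964027 : W_1 (nat_lit 3) (nat_lit 0x100008000b000780028000e00000000000000) (nat_lit 0x0) (nat_lit 0x40007000100000000000000) := T_1 (nat_lit 73) (nat_lit 74) (nat_lit 0) (nat_lit 9) (nat_lit 5) L3964026 (by decide +kernel)
theorem L3964028 : W_1 (nat_lit 4) (nat_lit 0x100008000a000780028000e00000000000000) (nat_lit 0x0) (nat_lit 0x20001000040007000100000000000000) := T_1 (nat_lit 108) (nat_lit 125) (nat_lit 5) (nat_lit 7) (nat_lit 3) L3964027 (by decide +kernel)
theorem L3964029 : W_1 (nat_lit 5) (nat_lit 0x1000080002000780028000e00000000000000) (nat_lit 0x0) (nat_lit 0x120009000040007000100000000000000) := T_1 (nat_lit 111) (nat_lit 128) (nat_lit 5) (nat_lit 9) (nat_lit 4) L3964028 (by decide +kernel)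
theorem L3964030 : W_1 (nat_lit 6) (nat_lit 0x1000080002000780028000c00000000000000) (nat_lit 0x0) (nat_lit 0x120009000040007000300010000000000) := T_1 (nat_lit 57) (nat_lit 40) (nat_lit 4) (nat_lit 7) (nat_lit 6) L3964029 (by decide +kernel)
theorem L3964031 : W_1 (nat_lit 7) (nat_lit 0x1000080002000780008000c00000000000000) (nat_lit 0x0) (nat_lit 0x120009000040067000300010000000000) := T_1 (nat_lit 77) (nat_lit 78) (nat_lit 2) (nat_lit 6) (nat_lit 5) L3964030 (by decide +kernel)
theorem L3964032 : W_1 (nat_lit 8) (nat_lit 0x1000080002000780008000400000000000000) (nat_lit 0x0) (nat_lit 0x120009000040067000b00050000000000) := T_1 (nat_lit 59) (nat_lit 42) (nat_lit 6) (nat_lit 7) (nat_lit 6) L3964031 (by decide +kernel)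
theorem L3964033 : W_1 (nat_lit 9) (nat_lit 0x1000080000000780008000400000000000000) (nat_lit 0x0) (nat_lit 0x16000b000040067000b00050000000000) := T_1 (nat_lit 109) (nat_lit 126) (nat_lit 7) (nat_lit 7) (nat_lit 4) L3964032 (by decide +kernel)
theorem L3964034 : W_1 (nat_lit 13) (nat_lit 0x1000080000000780008000000000000000000) (nat_lit 0x0) (nat_lit 0x16000b000040067003f001f000b800040) := Q_1 (nat_lit 58) (C_1 L3964004 (C_1 L3964006 (C_1 L3964017 (C_1 L3964025 (C_1 L3964033 N_1))))) (by decide +kernel)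
theorem L3964035 : W_1 (nat_lit 14) (nat_lit 0x1000080000000700008000000000000000000) (nat_lit 0x0) (nat_lit 0x40016000be000f0067c03f001f000b800040) := Q_1 (nat_lit 91) (C_1 L258758 (C_1 L258770 (C_1 L257095 (C_1 L3963997 (C_1 L3964034 N_1))))) (by decide +kernel)
theorem L3964036 : W_1 (nat_lit 2) (nat_lit 0x1000080003000700008000000000000000000) (nat_lit 0x0) (nat_lit 0xc00080000000000000000000000) := D_1 (nat_lit 107) (nat_lit 91) (nat_lit 106) (nat_lit 1) (nat_lit 9) (nat_lit 5) (nat_lit 2) (nat_lit 4) (nat_lit 6) (by decide +kernel)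
theorem L3964037 : W_1 (nat_lit 3) (nat_lit 0x1000080002000700008000000000000000000) (nat_lit 0x0) (nat_lit 0x1c00880000000000000000000000) := T_1 (nat_lit 108) (nat_lit 95) (nat_lit 1) (nat_lit 10) (nat_lit 5) L3964036 (by decide +kernel)
theorem L3964038 : W_1 (nat_lit 4) (nat_lit 0x1000080000000700008000000000000000000) (nat_lit 0x0) (nat_lit 0x40003c00880000000000000000000000) := T_1 (nat_lit 109) (nat_lit 126) (nat_lit 7) (nat_lit 7) (nat_lit 4) L3964037 (by decide +kernel)
theorem L3964039 : W_1 (nat_lit 15) (nat_lit 0x1000080000000300008000000000000000000) (nat_lit 0x0) (nat_lit 0x40016000be00cf0067c03f001f000b800040) := Q_1 (nat_lit 94) (C_1 L3963988 (C_1 L29545 (C_1 L3964035 (C_1 L3964038 N_1)))) (by decide +kernel)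
theorem L3964040 : W_1 (nat_lit 5) (nat_lit 0x1000080000000380018000000000000000000) (nat_lit 0x0) (nat_lit 0x40002000000067003b00050000000000) := Q_1 (nat_lit 74) (C_1 L3963351 (C_1 L3962836 (C_1 L3963274 N_1))) (by decide +kernel)
theorem L3964041 : W_1 (nat_lit 9) (nat_lit 0x1000080000000300018000000000000000000) (nat_lit 0x0) (nat_lit 0x50002c000e0067003b00050000000000) := Q_1 (nat_lit 91) (C_1 L258156 (C_1 L3963370 (C_1 L3964040 N_1))) (by decide +kernel)
theorem L3964042 : W_1 (nat_lit 15) (nat_lit 0x1000080000000300008000000000000000000) (nat_lit 0x0) (nat_lit 0x2f8007c003c000e00f7007f803fc007e00000) := Q_1 (nat_lit 76) (C_1 L3963225 (C_1 L3963371 (C_1 L3963177 (C_1 L3963240 (C_1 L3963262 (C_1 L3964041 (C_1 L3963318 (C_1 L3963363 N_1)))))))) (by decide +kernel)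
theorem L3964050 : W_1 (nat_lit 2) (nat_lit 0x1000080000000300038000400020000000000) (nat_lit 0x0) (nat_lit 0x10000c0000000000000000000000) := D_1 (nat_lit 91) (nat_lit 90) (nat_lit 108) (nat_lit 2) (nat_lit 5) (nat_lit 5) (nat_lit 5) (nat_lit 7) (nat_lit 2) (by decide +kernel)
theorem L3964051 : W_1 (nat_lit 3) (nat_lit 0x1000080000000300038000400000000000000) (nat_lit 0x0) (nat_lit 0x10000c0000000000020001000000) := T_1 (nat_lit 41) (nat_lit 24) (nat_lit 7) (nat_lit 7) (nat_lit 1) L3964050 (by decide +kernel)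
theorem L3964052 : W_1 (nat_lit 2) (nat_lit 0x1000080002000340038000400040000000000) (nat_lit 0x0) (nat_lit 0x20003000000) := D_1 (nat_lit 41) (nat_lit 25) (nat_lit 24) (nat_lit 6) (nat_lit 7) (nat_lit 5) (nat_lit 7) (nat_lit 7) (nat_lit 1) (by decide +kernel)
theorem L3964053 : W_1 (nat_lit 3) (nat_lit 0x1000080002000340038000400000000000000) (nat_lit 0x0) (nat_lit 0x800060003000000) := T_1 (nat_lit 42) (nat_lit 59) (nat_lit 6) (nat_lit 7) (nat_lit 6) L3964052 (by decide +kernel)
theorem L3964054 : W_1 (nat_lit 4) (nat_lit 0x1000080000000340038000400000000000000) (nat_lit 0x0) (nat_lit 0x40002000000000000800060003000000) := T_1 (nat_lit 109) (nat_lit 126) (nat_lit 7) (nat_lit 7) (nat_lit 4) L3964053 (by decide +kernel)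
theorem L3964055 : W_1 (nat_lit 5) (nat_lit 0x1000080000000300038000400000000000000) (nat_lit 0x0) (nat_lit 0x400020000c0000000800060003000000) := T_1 (nat_lit 90) (nat_lit 91) (nat_lit 2) (nat_lit 5) (nat_lit 5) L3964054 (by decide +kernel)
theorem L3964056 : W_1 (nat_lit 2) (nat_lit 0x1000080002000300038000c00000001000000) (nat_lit 0x0) (nat_lit 0x300010000000000) := D_1 (nat_lit 57) (nat_lit 40) (nat_lit 56) (nat_lit 4) (nat_lit 7) (nat_lit 6) (nat_lit 3) (nat_lit 5) (nat_lit 3) (by decide +kernel)
theorem L3964057 : W_1 (nat_lit 3) (nat_lit 0x1000080002000300038000400000001000000) (nat_lit 0x0) (nat_lit 0xb00050000000000) := T_1 (nat_lit 59) (nat_lit 42) (nat_lit 6) (nat_lit 7) (nat_lit 6) L3964056 (by decide +kernel)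
theorem L3964058 : W_1 (nat_lit 4) (nat_lit 0x1000080000000300038000400000001000000) (nat_lit 0x0) (nat_lit 0x40002000000000000b00050000000000) := T_1 (nat_lit 109) (nat_lit 126) (nat_lit 7) (nat_lit 7) (nat_lit 4) L3964057 (by decide +kernel)
theorem L3964059 : W_1 (nat_lit 5) (nat_lit 0x1000080000000300038000400000000000000) (nat_lit 0x0) (nat_lit 0x40002000000000000b00070001000000) := T_1 (nat_lit 24) (nat_lit 41) (nat_lit 7) (nat_lit 7) (nat_lit 1) L3964058 (by decide +kernel)
theorem L3964060 : W_1 (nat_lit 2) (nat_lit 0x1000080002000300038000c00000000000000) (nat_lit 0x0) (nat_lit 0x300010000000000) := D_1 (nat_lit 57) (nat_lit 40) (nat_lit 56) (nat_lit 4) (nat_lit 7) (nat_lit 6) (nat_lit 3) (nat_lit 5) (nat_lit 3) (by decide +kernel)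
theorem L3964061 : W_1 (nat_lit 3) (nat_lit 0x1000080002000300038000400000000000000) (nat_lit 0x0) (nat_lit 0xb00050000000000) := T_1 (nat_lit 59) (nat_lit 42) (nat_lit 6) (nat_lit 7) (nat_lit 6) L3964060 (by decide +kernel)
theorem L3964062 : W_1 (nat_lit 4) (nat_lit 0x1000080000000300038000400000000000000) (nat_lit 0x0) (nat_lit 0x40002000000000000b00050000000000) := T_1 (nat_lit 109) (nat_lit 126) (nat_lit 7) (nat_lit 7) (nat_lit 4) L3964061 (by decide +kernel)
theorem L3964063 : W_1 (nat_lit 6) (nat_lit 0x1000080000000300038000000000000000000) (nat_lit 0x0) (nat_lit 0x400030000c0000000f00070003000000) := Q_1 (nat_lit 58) (C_1 L3964051 (C_1 L3964055 (C_1 L3964059 (C_1 L3964062 N_1)))) (by decide +kernel)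
theorem L3964064 : W_1 (nat_lit 7) (nat_lit 0x1000080000000300018000000000000000000) (nat_lit 0x0) (nat_lit 0x400030000c00e0000f00070003000000) := Q_1 (nat_lit 77) (C_1 L257445 (C_1 L257450 (C_1 L3964063 N_1))) (by decide +kernel)
theorem L3964065 : W_1 (nat_lit 2) (nat_lit 0x1000080000000b00078002400070000000000) (nat_lit 0x0) (nat_lit 0x1800080000000000) := D_1 (nat_lit 60) (nat_lit 59) (nat_lit 43) (nat_lit 0) (nat_lit 10) (nat_lit 3) (nat_lit 3) (nat_lit 6) (nat_lit 2) (by decide +kernel)
theorem L3964066 : W_1 (nat_lit 3) (nat_lit 0x1000080000000b00078002400030000000000) (nat_lit 0x0) (nat_lit 0x18000c0002000000) := T_1 (nat_lit 42) (nat_lit 25) (nat_lit 6) (nat_lit 7) (nat_lit 5) L3964065 (by decide +kernel)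
theorem L3964067 : W_1 (nat_lit 4) (nat_lit 0x1000080000000b00078002400020000000000) (nat_lit 0x0) (nat_lit 0x18000d0002800000) := T_1 (nat_lit 40) (nat_lit 23) (nat_lit 4) (nat_lit 7) (nat_lit 5) L3964066 (by decide +kernel)
theorem L3964068 : W_1 (nat_lit 5) (nat_lit 0x1000080000000b00078000400020000000000) (nat_lit 0x0) (nat_lit 0x78000d0002800000) := T_1 (nat_lit 61) (nat_lit 62) (nat_lit 2) (nat_lit 7) (nat_lit 4) L3964067 (by decide +kernel)
theorem L3964069 : W_1 (nat_lit 6) (nat_lit 0x1000080000000b00078000400000000000000) (nat_lit 0x0) (nat_lit 0x78000f0003800000) := T_1 (nat_lit 41) (nat_lit 24) (nat_lit 7) (nat_lit 7) (nat_lit 1) L3964068 (by decide +kernel)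
theorem L3964070 : W_1 (nat_lit 7) (nat_lit 0x1000080000000300078000400000000000000) (nat_lit 0x0) (nat_lit 0x18000000078000f0003800000) := T_1 (nat_lit 95) (nat_lit 96) (nat_lit 3) (nat_lit 7) (nat_lit 4) L3964069 (by decide +kernel)
theorem L3964071 : W_1 (nat_lit 8) (nat_lit 0x1000080000000300078000000000000000000) (nat_lit 0x0) (nat_lit 0x1800000007e000f0003800000) := T_1 (nat_lit 58) (nat_lit 57) (nat_lit 0) (nat_lit 10) (nat_lit 4) L3964070 (by decide +kernel)
theorem L3964072 : W_1 (nat_lit 9) (nat_lit 0x1000080000000300038000000000000000000) (nat_lit 0x0) (nat_lit 0x18000c0007e000f0003800000) := T_1 (nat_lit 78) (nat_lit 79) (nat_lit 1) (nat_lit 11) (nat_lit 4) L3964071 (by decide +kernel)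
theorem L3964073 : W_1 (nat_lit 2) (nat_lit 0x1c00180001000f80038000000020000000000) (nat_lit 0x0) (nat_lit 0x640000000000000000000000000000000) := D_1 (nat_lit 129) (nat_lit 130) (nat_lit 126) (nat_lit 1) (nat_lit 11) (nat_lit 7) (nat_lit 1) (nat_lit 10) (nat_lit 7) (by decide +kernel)
theorem L3964074 : W_1 (nat_lit 3) (nat_lit 0x1400180001000f80038000000020000000000) (nat_lit 0x0) (nat_lit 0xa00640000000000000000000000000000000) := T_1 (nat_lit 143) (nat_lit 141) (nat_lit 2) (nat_lit 5) (nat_lit 8) L3964073 (by decide +kernel)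
theorem L3964075 : W_1 (nat_lit 4) (nat_lit 0x1400180001000f80038000000000000000000) (nat_lit 0x0) (nat_lit 0xa00640000000000000000400020000000000) := T_1 (nat_lit 41) (nat_lit 58) (nat_lit 5) (nat_lit 7) (nat_lit 2) L3964074 (by decide +kernel)
theorem L3964076 : W_1 (nat_lit 5) (nat_lit 0x1000180001000f80038000000000000000000) (nat_lit 0x0) (nat_lit 0xe00660000000000000000400020000000000) := T_1 (nat_lit 142) (nat_lit 125) (nat_lit 6) (nat_lit 6) (nat_lit 8) L3964075 (by decide +kernel)
theorem L3964077 : W_1 (nat_lit 6) (nat_lit 0x1000180001000780038000000000000000000) (nat_lit 0x0) (nat_lit 0xe00660000001800000000400020000000000) := T_1 (nat_lit 95) (nat_lit 96) (nat_lit 0) (nat_lit 11) (nat_lit 5) L3964076 (by decide +kernel)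
theorem L3964078 : W_1 (nat_lit 7) (nat_lit 0x1000180000000780038000000000000000000) (nat_lit 0x0) (nat_lit 0xe00660001801800000000400020000000000) := T_1 (nat_lit 108) (nat_lit 107) (nat_lit 1) (nat_lit 9) (nat_lit 5) L3964077 (by decide +kernel)
theorem L3964079 : W_1 (nat_lit 8) (nat_lit 0x1000080000000780038000000000000000000) (nat_lit 0x0) (nat_lit 0xe00760009801800000000400020000000000) := T_1 (nat_lit 128) (nat_lit 111) (nat_lit 5) (nat_lit 9) (nat_lit 4) L3964078 (by decide +kernel)
theorem L3964080 : W_1 (nat_lit 9) (nat_lit 0x1000080000000700038000000000000000000) (nat_lit 0x0) (nat_lit 0xe007600098018c0000000400020000000000) := T_1 (nat_lit 91) (nat_lit 90) (nat_lit 2) (nat_lit 5) (nat_lit 5) L3964079 (by decide +kernel)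
theorem L3964081 : W_1 (nat_lit 2) (nat_lit 0x1000080000000780058000000000000000000) (nat_lit 0x0) (nat_lit 0x1800080000000000000000000) := D_1 (nat_lit 95) (nat_lit 79) (nat_lit 96) (nat_lit 2) (nat_lit 7) (nat_lit 5) (nat_lit 0) (nat_lit 11) (nat_lit 5) (by decide +kernel)
theorem L3964082 : W_1 (nat_lit 3) (nat_lit 0x1000080000000780018000000000000000000) (nat_lit 0x0) (nat_lit 0x18000e0000000000000000000) := T_1 (nat_lit 78) (nat_lit 77) (nat_lit 2) (nat_lit 6) (nat_lit 5) L3964081 (by decide +kernel)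
theorem L3964083 : W_1 (nat_lit 2) (nat_lit 0x1c00180001000780038000000020000000000) (nat_lit 0x0) (nat_lit 0x640000000000000000000000000000000) := D_1 (nat_lit 129) (nat_lit 130) (nat_lit 126) (nat_lit 1) (nat_lit 11) (nat_lit 7) (nat_lit 1) (nat_lit 10) (nat_lit 7) (by decide +kernel)
theorem L3964084 : W_1 (nat_lit 3) (nat_lit 0x1400180001000780038000000020000000000) (nat_lit 0x0) (nat_lit 0xa00640000000000000000000000000000000) := T_1 (nat_lit 143) (nat_lit 141) (nat_lit 2) (nat_lit 5) (nat_lit 8) L3964083 (by decide +kernel)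
theorem L3964085 : W_1 (nat_lit 4) (nat_lit 0x1000180001000780038000000020000000000) (nat_lit 0x0) (nat_lit 0xe00660000000000000000000000000000000) := T_1 (nat_lit 142) (nat_lit 125) (nat_lit 6) (nat_lit 6) (nat_lit 8) L3964084 (by decide +kernel)
theorem L3964086 : W_1 (nat_lit 5) (nat_lit 0x1000180001000780038000000000000000000) (nat_lit 0x0) (nat_lit 0xe00660000000000000000400020000000000) := T_1 (nat_lit 41) (nat_lit 58) (nat_lit 5) (nat_lit 7) (nat_lit 2) L3964085 (by decide +kernel)
theorem L3964087 : W_1 (nat_lit 6) (nat_lit 0x1000180000000780038000000000000000000) (nat_lit 0x0) (nat_lit 0xe00660001800000000000400020000000000) := T_1 (nat_lit 108) (nat_lit 107) (nat_lit 1) (nat_lit 9) (nat_lit 5) L3964086 (by decide +kernel)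
theorem L3964088 : W_1 (nat_lit 7) (nat_lit 0x1000080000000780038000000000000000000) (nat_lit 0x0) (nat_lit 0xe00760009800000000000400020000000000) := T_1 (nat_lit 128) (nat_lit 111) (nat_lit 5) (nat_lit 9) (nat_lit 4) L3964087 (by decide +kernel)
theorem L3964095 : W_1 (nat_lit 2) (nat_lit 0x1000080001000f80018000000000000000000) (nat_lit 0x0) (nat_lit 0xe0000000000000000000) := D_1 (nat_lit 78) (nat_lit 77) (nat_lit 79) (nat_lit 2) (nat_lit 6) (nat_lit 5) (nat_lit 2) (nat_lit 7) (nat_lit 5) (by decide +kernel)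
theorem L3964096 : W_1 (nat_lit 3) (nat_lit 0x1000080001000780018000000000000000000) (nat_lit 0x0) (nat_lit 0x18000e0000000000000000000) := T_1 (nat_lit 95) (nat_lit 96) (nat_lit 0) (nat_lit 11) (nat_lit 5) L3964095 (by decide +kernel)
theorem L3964097 : W_1 (nat_lit 4) (nat_lit 0x1000080001000380018000000000000000000) (nat_lit 0x0) (nat_lit 0x801c000e0000000000000000000) := T_1 (nat_lit 94) (nat_lit 107) (nat_lit 1) (nat_lit 9) (nat_lit 5) L3964096 (by decide +kernel)
theorem L3964156 : W_1 (nat_lit 2) (nat_lit 0x10000f00018003c0019000000020000000000) (nat_lit 0x0) (nat_lit 0x4000300000000000000000000000000000000000) := D_1 (nat_lit 141) (nat_lit 140) (nat_lit 158) (nat_lit 1) (nat_lit 8) (nat_lit 7) (nat_lit 6) (nat_lit 5) (nat_lit 9) (by decide +kernel)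
theorem L3964157 : W_1 (nat_lit 3) (nat_lit 0x10000e00018003c0019000000020000000000) (nat_lit 0x0) (nat_lit 0x4002300010000000000000000000000000000000) := T_1 (nat_lit 124) (nat_lit 145) (nat_lit 3) (nat_lit 5) (nat_lit 7) L3964156 (by decide +kernel)
theorem L3964158 : W_1 (nat_lit 4) (nat_lit 0x10000a00018003c0019000000020000000000) (nat_lit 0x0) (nat_lit 0x4002300150000000000000000000000000000000) := T_1 (nat_lit 126) (nat_lit 128) (nat_lit 0) (nat_lit 9) (nat_lit 7) L3964157 (by decide +kernel)
theorem L3964159 : W_1 (nat_lit 5) (nat_lit 0x10000800018003c0019000000020000000000) (nat_lit 0x0) (nat_lit 0x4002700170000000000000000000000000000000) := T_1 (nat_lit 125) (nat_lit 142) (nat_lit 6) (nat_lit 6) (nat_lit 8) L3964158 (by decide +kernel)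
theorem L3964160 : W_1 (nat_lit 6) (nat_lit 0x10000800018003c0019000000000000000000) (nat_lit 0x0) (nat_lit 0x4002700170000000000000000400020000000000) := T_1 (nat_lit 41) (nat_lit 58) (nat_lit 5) (nat_lit 7) (nat_lit 2) L3964159 (by decide +kernel)
theorem L3964161 : W_1 (nat_lit 7) (nat_lit 0x10000800008003c0019000000000000000000) (nat_lit 0x0) (nat_lit 0x4002700170001000400000000400020000000000) := T_1 (nat_lit 108) (nat_lit 94) (nat_lit 1) (nat_lit 9) (nat_lit 5) L3964160 (by decide +kernel)
theorem L3964162 : W_1 (nat_lit 8) (nat_lit 0x10000800008003c0018000000000000000000) (nat_lit 0x0) (nat_lit 0x4002700170001000400003000400020000000000) := T_1 (nat_lit 72) (nat_lit 73) (nat_lit 0) (nat_lit 8) (nat_lit 5) L3964161 (by decide +kernel)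
theorem L3964163 : W_1 (nat_lit 9) (nat_lit 0x10000800000003c0018000000000000000000) (nat_lit 0x0) (nat_lit 0x4002700170001c00400003000400020000000000) := T_1 (nat_lit 107) (nat_lit 106) (nat_lit 1) (nat_lit 8) (nat_lit 5) L3964162 (by decide +kernel)
theorem L3964180 : W_1 (nat_lit 2) (nat_lit 0x1000080000000f00078002400380001000000) (nat_lit 0x0) (nat_lit 0x1800040000000000) := D_1 (nat_lit 59) (nat_lit 60) (nat_lit 42) (nat_lit 2) (nat_lit 7) (nat_lit 3) (nat_lit 1) (nat_lit 11) (nat_lit 2) (by decide +kernel)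
theorem L3964181 : W_1 (nat_lit 3) (nat_lit 0x1000080000000f00078002400180001000000) (nat_lit 0x0) (nat_lit 0x1800240010000000) := T_1 (nat_lit 45) (nat_lit 28) (nat_lit 6) (nat_lit 10) (nat_lit 5) L3964180 (by decide +kernel)
theorem L3964182 : W_1 (nat_lit 4) (nat_lit 0x1000080000000f00078002400100001000000) (nat_lit 0x0) (nat_lit 0x18002c0014000000) := T_1 (nat_lit 43) (nat_lit 26) (nat_lit 4) (nat_lit 10) (nat_lit 5) L3964181 (by decide +kernel)
theorem L3964183 : W_1 (nat_lit 5) (nat_lit 0x1000080000000f00078002400000001000000) (nat_lit 0x0) (nat_lit 0x18003c001c000000) := T_1 (nat_lit 44) (nat_lit 27) (nat_lit 5) (nat_lit 10) (nat_lit 1) L3964182 (by decide +kernel)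
theorem L3964202 : W_1 (nat_lit 2) (nat_lit 0x1000080008000f00078000000000000000000) (nat_lit 0x0) (nat_lit 0x6000100000000000) := D_1 (nat_lit 61) (nat_lit 62) (nat_lit 44) (nat_lit 2) (nat_lit 7) (nat_lit 4) (nat_lit 5) (nat_lit 10) (nat_lit 2) (by decide +kernel)
theorem L3964214 : W_1 (nat_lit 2) (nat_lit 0x1000080000000700018000c000e0000800000) (nat_lit 0x0) (nat_lit 0x300100000000000) := D_1 (nat_lit 57) (nat_lit 56) (nat_lit 44) (nat_lit 2) (nat_lit 5) (nat_lit 3) (nat_lit 1) (nat_lit 10) (nat_lit 2) (by decide +kernel)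
theorem L3964215 : W_1 (nat_lit 3) (nat_lit 0x1000080000000700018000c00060000800000) (nat_lit 0x0) (nat_lit 0x300180004000000) := T_1 (nat_lit 43) (nat_lit 26) (nat_lit 6) (nat_lit 8) (nat_lit 5) L3964214 (by decide +kernel)
theorem L3964216 : W_1 (nat_lit 4) (nat_lit 0x1000080000000700018000400060000800000) (nat_lit 0x0) (nat_lit 0x8000000000000b00180004000000) := T_1 (nat_lit 59) (nat_lit 111) (nat_lit 7) (nat_lit 8) (nat_lit 2) L3964215 (by decide +kernel)
theorem L3964217 : W_1 (nat_lit 5) (nat_lit 0x1000080000000700018000400060000000000) (nat_lit 0x0) (nat_lit 0x8000000000000b00190004800000) := T_1 (nat_lit 23) (nat_lit 40) (nat_lit 4) (nat_lit 7) (nat_lit 5) L3964216 (by decide +kernel)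
theorem L3964218 : W_1 (nat_lit 6) (nat_lit 0x1000080000000700018000400020000000000) (nat_lit 0x0) (nat_lit 0x8000000000000b001d0006800000) := T_1 (nat_lit 42) (nat_lit 25) (nat_lit 6) (nat_lit 7) (nat_lit 5) L3964217 (by decide +kernel)
theorem L3964219 : W_1 (nat_lit 7) (nat_lit 0x1000080000000700018000400000000000000) (nat_lit 0x0) (nat_lit 0x8000000000000b001f0007800000) := T_1 (nat_lit 41) (nat_lit 24) (nat_lit 7) (nat_lit 7) (nat_lit 1) L3964218 (by decide +kernel)
theorem L3964220 : W_1 (nat_lit 6) (nat_lit 0x1000080000000f00078000400000001000000) (nat_lit 0x0) (nat_lit 0x78003c001c000000) := T_1 (nat_lit 61) (nat_lit 62) (nat_lit 2) (nat_lit 7) (nat_lit 4) L3964183 (by decide +kernel)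
theorem L3964221 : W_1 (nat_lit 7) (nat_lit 0x1000080000000f00058000400000001000000) (nat_lit 0x0) (nat_lit 0x20007a003c001c000000) := T_1 (nat_lit 77) (nat_lit 57) (nat_lit 0) (nat_lit 10) (nat_lit 4) L3964220 (by decide +kernel)
theorem L3964222 : W_1 (nat_lit 8) (nat_lit 0x1000080000000f00018000400000001000000) (nat_lit 0x0) (nat_lit 0xe0007a003c001c000000) := T_1 (nat_lit 78) (nat_lit 79) (nat_lit 2) (nat_lit 7) (nat_lit 5) L3964221 (by decide +kernel)
theorem L3964223 : W_1 (nat_lit 9) (nat_lit 0x1000080000000700018000400000001000000) (nat_lit 0x0) (nat_lit 0x18000e0007a003c001c000000) := T_1 (nat_lit 95) (nat_lit 96) (nat_lit 0) (nat_lit 11) (nat_lit 5) L3964222 (by decide +kernel)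
theorem L3964224 : W_1 (nat_lit 10) (nat_lit 0x1000080000000700018000400000000000000) (nat_lit 0x0) (nat_lit 0x18000e0007a003e001d000000) := T_1 (nat_lit 24) (nat_lit 41) (nat_lit 7) (nat_lit 7) (nat_lit 1) L3964223 (by decide +kernel)
theorem L3964231 : W_1 (nat_lit 2) (nat_lit 0x1000080000000f00078002400000000000000) (nat_lit 0x0) (nat_lit 0x100008000000000000000100000000000) := D_1 (nat_lit 111) (nat_lit 128) (nat_lit 44) (nat_lit 6) (nat_lit 9) (nat_lit 7) (nat_lit 5) (nat_lit 10) (nat_lit 2) (by decide +kernel)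
theorem L3964232 : W_1 (nat_lit 3) (nat_lit 0x1000080000000f00078000400000000000000) (nat_lit 0x0) (nat_lit 0x100008000000000006000100000000000) := T_1 (nat_lit 61) (nat_lit 62) (nat_lit 2) (nat_lit 7) (nat_lit 4) L3964231 (by decide +kernel)
theorem L3964233 : W_1 (nat_lit 4) (nat_lit 0x1000080000000f00058000400000000000000) (nat_lit 0x0) (nat_lit 0x100008000000020006200100000000000) := T_1 (nat_lit 77) (nat_lit 57) (nat_lit 0) (nat_lit 10) (nat_lit 4) L3964232 (by decide +kernel)
theorem L3964234 : W_1 (nat_lit 5) (nat_lit 0x1000080000000f00018000400000000000000) (nat_lit 0x0) (nat_lit 0x1000080000000e0006200100000000000) := T_1 (nat_lit 78) (nat_lit 79) (nat_lit 2) (nat_lit 7) (nat_lit 5) L3964233 (by decide +kernel)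
theorem L3964235 : W_1 (nat_lit 6) (nat_lit 0x1000080000000700018000400000000000000) (nat_lit 0x0) (nat_lit 0x1000080018000e0006200100000000000) := T_1 (nat_lit 95) (nat_lit 96) (nat_lit 0) (nat_lit 11) (nat_lit 5) L3964234 (by decide +kernel)
theorem L3964236 : W_1 (nat_lit 2) (nat_lit 0x1000080000000f00058000c001e0008800000) (nat_lit 0x0) (nat_lit 0x20006000000000000000) := D_1 (nat_lit 61) (nat_lit 62) (nat_lit 77) (nat_lit 3) (nat_lit 7) (nat_lit 2) (nat_lit 5) (nat_lit 10) (nat_lit 1) (by decide +kernel)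
theorem L3964237 : W_1 (nat_lit 3) (nat_lit 0x1000080000000f00058000c001e0000800000) (nat_lit 0x0) (nat_lit 0x20006000000018000000) := T_1 (nat_lit 27) (nat_lit 28) (nat_lit 2) (nat_lit 7) (nat_lit 2) L3964236 (by decide +kernel)
theorem L3964238 : W_1 (nat_lit 4) (nat_lit 0x1000080000000f00058000c000e0000800000) (nat_lit 0x0) (nat_lit 0x20006000300018000000) := T_1 (nat_lit 44) (nat_lit 45) (nat_lit 1) (nat_lit 11) (nat_lit 2) L3964237 (by decide +kernel)
theorem L3964239 : W_1 (nat_lit 5) (nat_lit 0x1000080000000f00058000c00060000800000) (nat_lit 0x0) (nat_lit 0x2000600038001c000000) := T_1 (nat_lit 43) (nat_lit 26) (nat_lit 6) (nat_lit 8) (nat_lit 5) L3964238 (by decide +kernel)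
theorem L3964240 : W_1 (nat_lit 6) (nat_lit 0x1000080000000f00058000400060000800000) (nat_lit 0x0) (nat_lit 0x800000002000680038001c000000) := T_1 (nat_lit 59) (nat_lit 111) (nat_lit 7) (nat_lit 8) (nat_lit 2) L3964239 (by decide +kernel)
theorem L3964241 : W_1 (nat_lit 7) (nat_lit 0x1000080000000f00058000400020000800000) (nat_lit 0x0) (nat_lit 0x80000000200068003c001e000000) := T_1 (nat_lit 42) (nat_lit 25) (nat_lit 6) (nat_lit 7) (nat_lit 5) L3964240 (by decide +kernel)
theorem L3964242 : W_1 (nat_lit 8) (nat_lit 0x1000080000000f00058000400020000000000) (nat_lit 0x0) (nat_lit 0x80000000200068003d001e800000) := T_1 (nat_lit 23) (nat_lit 40) (nat_lit 4) (nat_lit 7) (nat_lit 5) L3964241 (by decide +kernel)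
theorem L3964243 : W_1 (nat_lit 9) (nat_lit 0x1000080000000f00018000400020000000000) (nat_lit 0x0) (nat_lit 0x80000000e00068003d001e800000) := T_1 (nat_lit 78) (nat_lit 79) (nat_lit 2) (nat_lit 7) (nat_lit 5) L3964242 (by decide +kernel)
theorem L3964244 : W_1 (nat_lit 10) (nat_lit 0x1000080000000f00018000400000000000000) (nat_lit 0x0) (nat_lit 0x80000000e00068003f001f800000) := T_1 (nat_lit 41) (nat_lit 24) (nat_lit 7) (nat_lit 7) (nat_lit 1) L3964243 (by decide +kernel)
theorem L3964245 : W_1 (nat_lit 11) (nat_lit 0x1000080000000700018000400000000000000) (nat_lit 0x0) (nat_lit 0x80018000e00068003f001f800000) := T_1 (nat_lit 95) (nat_lit 96) (nat_lit 0) (nat_lit 11) (nat_lit 5) L3964244 (by decide +kernel)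
theorem L3964246 : W_1 (nat_lit 2) (nat_lit 0x1000080000000f00058000700060000800000) (nat_lit 0x0) (nat_lit 0x8000000000000800080000000000) := D_1 (nat_lit 59) (nat_lit 111) (nat_lit 43) (nat_lit 7) (nat_lit 8) (nat_lit 2) (nat_lit 2) (nat_lit 5) (nat_lit 3) (by decide +kernel)
theorem L3964247 : W_1 (nat_lit 3) (nat_lit 0x1000080000000f00058000700020000800000) (nat_lit 0x0) (nat_lit 0x80000000000008000c0002000000) := T_1 (nat_lit 42) (nat_lit 25) (nat_lit 6) (nat_lit 7) (nat_lit 5) L3964246 (by decide +kernel)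
theorem L3964248 : W_1 (nat_lit 4) (nat_lit 0x1000080000000f00058000600020000800000) (nat_lit 0x0) (nat_lit 0x80000000000009800c0002000000) := T_1 (nat_lit 56) (nat_lit 55) (nat_lit 3) (nat_lit 4) (nat_lit 3) L3964247 (by decide +kernel)
theorem L3964249 : W_1 (nat_lit 5) (nat_lit 0x1000080000000f00058000600020000000000) (nat_lit 0x0) (nat_lit 0x80000000000009800d0002800000) := T_1 (nat_lit 23) (nat_lit 40) (nat_lit 4) (nat_lit 7) (nat_lit 5) L3964248 (by decide +kernel)
theorem L3964250 : W_1 (nat_lit 6) (nat_lit 0x1000080000000f00058000400020000000000) (nat_lit 0x0) (nat_lit 0x8000000020000b800d0002800000) := T_1 (nat_lit 57) (nat_lit 77) (nat_lit 0) (nat_lit 10) (nat_lit 4) L3964249 (by decide +kernel)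
theorem L3964251 : W_1 (nat_lit 7) (nat_lit 0x1000080000000f00018000400020000000000) (nat_lit 0x0) (nat_lit 0x80000000e0000b800d0002800000) := T_1 (nat_lit 78) (nat_lit 79) (nat_lit 2) (nat_lit 7) (nat_lit 5) L3964250 (by decide +kernel)
theorem L3964252 : W_1 (nat_lit 8) (nat_lit 0x1000080000000f00018000400000000000000) (nat_lit 0x0) (nat_lit 0x80000000e0000b800f0003800000) := T_1 (nat_lit 41) (nat_lit 24) (nat_lit 7) (nat_lit 7) (nat_lit 1) L3964251 (by decide +kernel)
theorem L3964253 : W_1 (nat_lit 9) (nat_lit 0x1000080000000700018000400000000000000) (nat_lit 0x0) (nat_lit 0x80018000e0000b800f0003800000) := T_1 (nat_lit 95) (nat_lit 96) (nat_lit 0) (nat_lit 11) (nat_lit 5) L3964252 (by decide +kernel)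
theorem L3964255 : W_1 (nat_lit 2) (nat_lit 0x10000800000007c0018000000000000000000) (nat_lit 0x0) (nat_lit 0x1c00000000000000000000000000) := D_1 (nat_lit 107) (nat_lit 108) (nat_lit 106) (nat_lit 1) (nat_lit 9) (nat_lit 5) (nat_lit 1) (nat_lit 8) (nat_lit 5) (by decide +kernel)
theorem L3964256 : W_1 (nat_lit 3) (nat_lit 0x1000080000000780018000000000000000000) (nat_lit 0x0) (nat_lit 0x1c00060000000000000000000000) := T_1 (nat_lit 90) (nat_lit 89) (nat_lit 2) (nat_lit 4) (nat_lit 5) L3964255 (by decide +kernel)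
theorem L3964294 : W_1 (nat_lit 2) (nat_lit 0x10000800008003c001a000500034002000000) (nat_lit 0x0) (nat_lit 0x800008000200000) := D_1 (nat_lit 39) (nat_lit 21) (nat_lit 59) (nat_lit 4) (nat_lit 5) (nat_lit 5) (nat_lit 3) (nat_lit 4) (nat_lit 2) (by decide +kernel)
theorem L3964295 : W_1 (nat_lit 3) (nat_lit 0x10000800008003c001a000500030002000000) (nat_lit 0x0) (nat_lit 0x88000c000200000) := T_1 (nat_lit 38) (nat_lit 55) (nat_lit 4) (nat_lit 5) (nat_lit 6) L3964294 (by decide +kernel)
theorem L3964296 : W_1 (nat_lit 4) (nat_lit 0x10000800008003c001a000400030002000000) (nat_lit 0x0) (nat_lit 0xb8000c000200000) := T_1 (nat_lit 56) (nat_lit 57) (nat_lit 6) (nat_lit 5) (nat_lit 6) L3964295 (by decide +kernel)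
theorem L3964438 : W_1 (nat_lit 3) (nat_lit 0x1000080000000f00078000000000000000000) (nat_lit 0x0) (nat_lit 0x100008000000000006000100000000000) := T_1 (nat_lit 111) (nat_lit 128) (nat_lit 5) (nat_lit 9) (nat_lit 4) L3964202 (by decide +kernel)
theorem L3964439 : W_1 (nat_lit 4) (nat_lit 0x1000080000000f00058000000000000000000) (nat_lit 0x0) (nat_lit 0x100008000080020006000100000000000) := T_1 (nat_lit 77) (nat_lit 91) (nat_lit 2) (nat_lit 6) (nat_lit 5) L3964438 (by decide +kernel)
theorem L3964440 : W_1 (nat_lit 5) (nat_lit 0x1000080000000f00018000000000000000000) (nat_lit 0x0) (nat_lit 0x1000080000800e0006000100000000000) := T_1 (nat_lit 78) (nat_lit 79) (nat_lit 2) (nat_lit 7) (nat_lit 5) L3964439 (by decide +kernel)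
theorem L3964468 : W_1 (nat_lit 10) (nat_lit 0x10000800000003c0008000000000000000000) (nat_lit 0x0) (nat_lit 0x4002700170001c00400033000400020000000000) := T_1 (nat_lit 76) (nat_lit 77) (nat_lit 2) (nat_lit 5) (nat_lit 5) L3964163 (by decide +kernel)
theorem L3964469 : W_1 (nat_lit 11) (nat_lit 0x1000080000000380008000000000000000000) (nat_lit 0x0) (nat_lit 0x4002700170001e00460033800400020000000000) := Q_1 (nat_lit 90) (C_1 L257435 (C_1 L257361 (C_1 L257320 (C_1 L3964468 N_1)))) (by decide +kernel)
theorem L3964470 : W_1 (nat_lit 5) (nat_lit 0x1000080000000380018000000000000000000) (nat_lit 0x0) (nat_lit 0x400060003801c000e0000400000000000000) := Q_1 (nat_lit 108) (C_1 L3964097 (C_1 L3963341 N_1)) (by decide +kernel)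
theorem L3964471 : W_1 (nat_lit 2) (nat_lit 0x10000800038003c0019000000040000000000) (nat_lit 0x0) (nat_lit 0x400020000000000000000400000000000000) := D_1 (nat_lit 125) (nat_lit 142) (nat_lit 58) (nat_lit 6) (nat_lit 6) (nat_lit 8) (nat_lit 5) (nat_lit 7) (nat_lit 3) (by decide +kernel)
theorem L3964472 : W_1 (nat_lit 3) (nat_lit 0x10000800028003c0019000000040000000000) (nat_lit 0x0) (nat_lit 0x400020001000400000000400000000000000) := T_1 (nat_lit 108) (nat_lit 94) (nat_lit 1) (nat_lit 9) (nat_lit 5) L3964471 (by decide +kernel)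
theorem L3964473 : W_1 (nat_lit 4) (nat_lit 0x10000800020003c0019000000040000000000) (nat_lit 0x0) (nat_lit 0x400020001c00400000000400000000000000) := T_1 (nat_lit 107) (nat_lit 106) (nat_lit 1) (nat_lit 8) (nat_lit 5) L3964472 (by decide +kernel)
theorem L3964474 : W_1 (nat_lit 5) (nat_lit 0x10000800020003c0018000000040000000000) (nat_lit 0x0) (nat_lit 0x400020001c00400003000400000000000000) := T_1 (nat_lit 72) (nat_lit 73) (nat_lit 0) (nat_lit 8) (nat_lit 5) L3964473 (by decide +kernel)
theorem L3964475 : W_1 (nat_lit 6) (nat_lit 0x10000800020003c0018000000000000000000) (nat_lit 0x0) (nat_lit 0x400020001c00400003000c00040000000000) := T_1 (nat_lit 42) (nat_lit 59) (nat_lit 5) (nat_lit 8) (nat_lit 2) L3964474 (by decide +kernel)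
theorem L3964476 : W_1 (nat_lit 7) (nat_lit 0x10000800000003c0018000000000000000000) (nat_lit 0x0) (nat_lit 0x400060003c00400003000c00040000000000) := T_1 (nat_lit 109) (nat_lit 126) (nat_lit 7) (nat_lit 7) (nat_lit 4) L3964475 (by decide +kernel)
theorem L3964477 : W_1 (nat_lit 8) (nat_lit 0x1000080000000380018000000000000000000) (nat_lit 0x0) (nat_lit 0x400060003c00460003000c00040000000000) := T_1 (nat_lit 90) (nat_lit 89) (nat_lit 2) (nat_lit 4) (nat_lit 5) L3964476 (by decide +kernel)
theorem L3964478 : W_1 (nat_lit 9) (nat_lit 0x1000080000000380008000000000000000000) (nat_lit 0x0) (nat_lit 0x400060003c01c600f3000c00040000000000) := Q_1 (nat_lit 76) (C_1 L258156 (C_1 L3964470 (C_1 L3964477 N_1))) (by decide +kernel)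
theorem L3964479 : W_1 (nat_lit 2) (nat_lit 0x100008000b000780038000c00000000000000) (nat_lit 0x0) (nat_lit 0x300010000000000) := D_1 (nat_lit 57) (nat_lit 40) (nat_lit 56) (nat_lit 4) (nat_lit 7) (nat_lit 6) (nat_lit 3) (nat_lit 5) (nat_lit 3) (by decide +kernel)
theorem L3964480 : W_1 (nat_lit 3) (nat_lit 0x1000080009000780038000c00000000000000) (nat_lit 0x0) (nat_lit 0x40002000000000000300010000000000) := T_1 (nat_lit 109) (nat_lit 126) (nat_lit 7) (nat_lit 7) (nat_lit 4) L3964479 (by decide +kernel)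
theorem L3964481 : W_1 (nat_lit 4) (nat_lit 0x1000080009000780038000800000000000000) (nat_lit 0x0) (nat_lit 0x40002000000000000700030000000000) := T_1 (nat_lit 58) (nat_lit 41) (nat_lit 5) (nat_lit 7) (nat_lit 2) L3964480 (by decide +kernel)
theorem L3964482 : W_1 (nat_lit 5) (nat_lit 0x1000080009000780038000000000000000000) (nat_lit 0x0) (nat_lit 0x40002000000000000f00070000000000) := T_1 (nat_lit 59) (nat_lit 42) (nat_lit 7) (nat_lit 8) (nat_lit 2) L3964481 (by decide +kernel)
theorem L3964483 : W_1 (nat_lit 6) (nat_lit 0x1000080001000780038000000000000000000) (nat_lit 0x0) (nat_lit 0x14000a000000000000f00070000000000) := T_1 (nat_lit 111) (nat_lit 128) (nat_lit 5) (nat_lit 9) (nat_lit 4) L3964482 (by decide +kernel)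
theorem L3964484 : W_1 (nat_lit 7) (nat_lit 0x1000080000000780038000000000000000000) (nat_lit 0x0) (nat_lit 0x14000b800000000000f00070000000000) := T_1 (nat_lit 108) (nat_lit 107) (nat_lit 1) (nat_lit 9) (nat_lit 5) L3964483 (by decide +kernel)
theorem L3964485 : W_1 (nat_lit 8) (nat_lit 0x1000080000000780018000000000000000000) (nat_lit 0x0) (nat_lit 0x14000b800000060000f00070000000000) := T_1 (nat_lit 77) (nat_lit 78) (nat_lit 2) (nat_lit 6) (nat_lit 5) L3964484 (by decide +kernel)
theorem L3964486 : W_1 (nat_lit 2) (nat_lit 0x1000080002000780018000000000000000000) (nat_lit 0x0) (nat_lit 0x1800800000000000000000000000) := D_1 (nat_lit 108) (nat_lit 107) (nat_lit 95) (nat_lit 1) (nat_lit 9) (nat_lit 5) (nat_lit 1) (nat_lit 10) (nat_lit 5) (by decide +kernel)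
theorem L3964487 : W_1 (nat_lit 3) (nat_lit 0x1000080000000780018000000000000000000) (nat_lit 0x0) (nat_lit 0x40003800800000000000000000000000) := T_1 (nat_lit 109) (nat_lit 126) (nat_lit 7) (nat_lit 7) (nat_lit 4) L3964486 (by decide +kernel)
theorem L3964488 : W_1 (nat_lit 9) (nat_lit 0x1000080000000380018000000000000000000) (nat_lit 0x0) (nat_lit 0x14000b801c000e0000f00070000000000) := Q_1 (nat_lit 94) (C_1 L3964082 (C_1 L3964485 (C_1 L3964487 N_1))) (by decide +kernel)
theorem L3964489 : W_1 (nat_lit 2) (nat_lit 0x10000800038003c001a000500040000000000) (nat_lit 0x0) (nat_lit 0x280004000000000) := D_1 (nat_lit 55) (nat_lit 38) (nat_lit 57) (nat_lit 4) (nat_lit 5) (nat_lit 6) (nat_lit 3) (nat_lit 4) (nat_lit 3) (by decide +kernel)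
theorem L3964490 : W_1 (nat_lit 3) (nat_lit 0x10000800038003c001a000100040000000000) (nat_lit 0x0) (nat_lit 0x680024000000000) := T_1 (nat_lit 58) (nat_lit 41) (nat_lit 5) (nat_lit 7) (nat_lit 2) L3964489 (by decide +kernel)
theorem L3964491 : W_1 (nat_lit 4) (nat_lit 0x10000800038003c001a000000040000000000) (nat_lit 0x0) (nat_lit 0x78002c000000000) := T_1 (nat_lit 56) (nat_lit 39) (nat_lit 7) (nat_lit 5) (nat_lit 2) L3964490 (by decide +kernel)
theorem L3964492 : W_1 (nat_lit 5) (nat_lit 0x10000800028003c001a000000040000000000) (nat_lit 0x0) (nat_lit 0x100040000000078002c000000000) := T_1 (nat_lit 108) (nat_lit 94) (nat_lit 1) (nat_lit 9) (nat_lit 5) L3964491 (by decide +kernel)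
theorem L3964493 : W_1 (nat_lit 6) (nat_lit 0x10000800028003c0018000000040000000000) (nat_lit 0x0) (nat_lit 0x100040000300078002c000000000) := T_1 (nat_lit 73) (nat_lit 72) (nat_lit 0) (nat_lit 8) (nat_lit 5) L3964492 (by decide +kernel)
theorem L3964494 : W_1 (nat_lit 7) (nat_lit 0x10000800020003c0018000000040000000000) (nat_lit 0x0) (nat_lit 0x1c0040000300078002c000000000) := T_1 (nat_lit 107) (nat_lit 106) (nat_lit 1) (nat_lit 8) (nat_lit 5) L3964493 (by decide +kernel)
theorem L3964495 : W_1 (nat_lit 8) (nat_lit 0x1000080002000380018000000040000000000) (nat_lit 0x0) (nat_lit 0x1c0046000300078002c000000000) := T_1 (nat_lit 90) (nat_lit 89) (nat_lit 2) (nat_lit 4) (nat_lit 5) L3964494 (by decide +kernel)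
theorem L3964496 : W_1 (nat_lit 9) (nat_lit 0x1000080002000380018000000000000000000) (nat_lit 0x0) (nat_lit 0x1c00460003000f8006c000000000) := T_1 (nat_lit 42) (nat_lit 59) (nat_lit 5) (nat_lit 8) (nat_lit 2) L3964495 (by decide +kernel)
theorem L3964497 : W_1 (nat_lit 10) (nat_lit 0x1000080000000380018000000000000000000) (nat_lit 0x0) (nat_lit 0x40003c00460003000f8006c000000000) := T_1 (nat_lit 109) (nat_lit 126) (nat_lit 7) (nat_lit 7) (nat_lit 4) L3964496 (by decide +kernel)
theorem L3964498 : W_1 (nat_lit 11) (nat_lit 0x1000080000000380008000000000000000000) (nat_lit 0x0) (nat_lit 0x14000bc01c600f3000f8007c000000000) := Q_1 (nat_lit 76) (C_1 L258156 (C_1 L3964488 (C_1 L3964497 N_1))) (by decide +kernel)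
theorem L3964499 : W_1 (nat_lit 2) (nat_lit 0x10000800018003c0019000400000000000000) (nat_lit 0x0) (nat_lit 0x400020002000000000000000000000000000) := D_1 (nat_lit 125) (nat_lit 142) (nat_lit 109) (nat_lit 6) (nat_lit 6) (nat_lit 8) (nat_lit 5) (nat_lit 7) (nat_lit 3) (by decide +kernel)
theorem L3964500 : W_1 (nat_lit 3) (nat_lit 0x10000800018003c0019000000000000000000) (nat_lit 0x0) (nat_lit 0x400020002000000000000400020000000000) := T_1 (nat_lit 58) (nat_lit 41) (nat_lit 5) (nat_lit 7) (nat_lit 2) L3964499 (by decide +kernel)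
theorem L3964501 : W_1 (nat_lit 4) (nat_lit 0x10000800008003c0019000000000000000000) (nat_lit 0x0) (nat_lit 0x400020003000400000000400020000000000) := T_1 (nat_lit 108) (nat_lit 94) (nat_lit 1) (nat_lit 9) (nat_lit 5) L3964500 (by decide +kernel)
theorem L3964502 : W_1 (nat_lit 5) (nat_lit 0x10000800000003c0019000000000000000000) (nat_lit 0x0) (nat_lit 0x400020003c00400000000400020000000000) := T_1 (nat_lit 107) (nat_lit 106) (nat_lit 1) (nat_lit 8) (nat_lit 5) L3964501 (by decide +kernel)
theorem L3964503 : W_1 (nat_lit 6) (nat_lit 0x10000800000003c0018000000000000000000) (nat_lit 0x0) (nat_lit 0x400020003c00400003000400020000000000) := T_1 (nat_lit 72) (nat_lit 73) (nat_lit 0) (nat_lit 8) (nat_lit 5) L3964502 (by decide +kernel)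
theorem L3964504 : W_1 (nat_lit 7) (nat_lit 0x10000800000003c0008000000000000000000) (nat_lit 0x0) (nat_lit 0x400020003c00400033000400020000000000) := T_1 (nat_lit 76) (nat_lit 77) (nat_lit 2) (nat_lit 5) (nat_lit 5) L3964503 (by decide +kernel)
theorem L3964505 : W_1 (nat_lit 8) (nat_lit 0x1000080000000380008000000000000000000) (nat_lit 0x0) (nat_lit 0x400020003e00460033800400020000000000) := Q_1 (nat_lit 90) (C_1 L257435 (C_1 L257361 (C_1 L257320 (C_1 L3964504 N_1)))) (by decide +kernel)
theorem L3964506 : W_1 (nat_lit 2) (nat_lit 0x10000800030003c0008000000000000000000) (nat_lit 0x0) (nat_lit 0x20000000000000000400020000000000) := D_1 (nat_lit 58) (nat_lit 125) (nat_lit 41) (nat_lit 5) (nat_lit 7) (nat_lit 3) (nat_lit 5) (nat_lit 7) (nat_lit 2) (by decide +kernel)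
theorem L3964507 : W_1 (nat_lit 3) (nat_lit 0x10000800010003c0008000000000000000000) (nat_lit 0x0) (nat_lit 0x60002000000000000400020000000000) := T_1 (nat_lit 109) (nat_lit 126) (nat_lit 7) (nat_lit 7) (nat_lit 4) L3964506 (by decide +kernel)
theorem L3964508 : W_1 (nat_lit 2) (nat_lit 0x10000a00010003c0008000000000000000000) (nat_lit 0x0) (nat_lit 0x40002000000000000400000000000000) := D_1 (nat_lit 109) (nat_lit 58) (nat_lit 126) (nat_lit 5) (nat_lit 7) (nat_lit 3) (nat_lit 7) (nat_lit 7) (nat_lit 4) (by decide +kernel)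
theorem L3964509 : W_1 (nat_lit 3) (nat_lit 0x10000800010003c0008000000000000000000) (nat_lit 0x0) (nat_lit 0x400060002000000000000400000000000000) := T_1 (nat_lit 125) (nat_lit 142) (nat_lit 6) (nat_lit 6) (nat_lit 8) L3964508 (by decide +kernel)
theorem L3964510 : W_1 (nat_lit 2) (nat_lit 0x10000800034003c001a000500000000000000) (nat_lit 0x0) (nat_lit 0x280010000000000) := D_1 (nat_lit 57) (nat_lit 40) (nat_lit 55) (nat_lit 4) (nat_lit 7) (nat_lit 6) (nat_lit 3) (nat_lit 4) (nat_lit 3) (by decide +kernel)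
theorem L3964511 : W_1 (nat_lit 3) (nat_lit 0x10000800034003c000a000500000000000000) (nat_lit 0x0) (nat_lit 0x30000280010000000000) := T_1 (nat_lit 76) (nat_lit 77) (nat_lit 2) (nat_lit 5) (nat_lit 5) L3964510 (by decide +kernel)
theorem L3964512 : W_1 (nat_lit 4) (nat_lit 0x10000800034003c000a000400000000000000) (nat_lit 0x0) (nat_lit 0x30000380018000000000) := T_1 (nat_lit 56) (nat_lit 39) (nat_lit 7) (nat_lit 5) (nat_lit 2) L3964511 (by decide +kernel)
theorem L3964513 : W_1 (nat_lit 5) (nat_lit 0x10000800034003c000a000000000000000000) (nat_lit 0x0) (nat_lit 0x30000780038000000000) := T_1 (nat_lit 58) (nat_lit 41) (nat_lit 5) (nat_lit 7) (nat_lit 2) L3964512 (by decide +kernel)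
theorem L3964514 : W_1 (nat_lit 6) (nat_lit 0x10000800034003c0008000000000000000000) (nat_lit 0x0) (nat_lit 0x33000780038000000000) := T_1 (nat_lit 73) (nat_lit 72) (nat_lit 0) (nat_lit 8) (nat_lit 5) L3964513 (by decide +kernel)
theorem L3964515 : W_1 (nat_lit 7) (nat_lit 0x10000800030003c0008000000000000000000) (nat_lit 0x0) (nat_lit 0xc00000033000780038000000000) := T_1 (nat_lit 106) (nat_lit 107) (nat_lit 2) (nat_lit 4) (nat_lit 6) L3964514 (by decide +kernel)
theorem L3964516 : W_1 (nat_lit 8) (nat_lit 0x10000800010003c0008000000000000000000) (nat_lit 0x0) (nat_lit 0x40002c00000033000780038000000000) := T_1 (nat_lit 109) (nat_lit 126) (nat_lit 7) (nat_lit 7) (nat_lit 4) L3964515 (by decide +kernel)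
theorem L3964517 : W_1 (nat_lit 2) (nat_lit 0x10000a00018003c0018000000000000000000) (nat_lit 0x0) (nat_lit 0x3000100000000000000) := D_1 (nat_lit 73) (nat_lit 72) (nat_lit 56) (nat_lit 0) (nat_lit 8) (nat_lit 5) (nat_lit 7) (nat_lit 5) (nat_lit 3) (by decide +kernel)
theorem L3964518 : W_1 (nat_lit 3) (nat_lit 0x10000a00010003c0018000000000000000000) (nat_lit 0x0) (nat_lit 0xc00000003000100000000000000) := T_1 (nat_lit 107) (nat_lit 106) (nat_lit 1) (nat_lit 8) (nat_lit 5) L3964517 (by decide +kernel)
theorem L3964519 : W_1 (nat_lit 4) (nat_lit 0x10000800010003c0018000000000000000000) (nat_lit 0x0) (nat_lit 0x400020000c00000003000100000000000000) := T_1 (nat_lit 125) (nat_lit 142) (nat_lit 6) (nat_lit 6) (nat_lit 8) L3964518 (by decide +kernel)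
theorem L3964520 : W_1 (nat_lit 5) (nat_lit 0x10000800010003c0008000000000000000000) (nat_lit 0x0) (nat_lit 0x400020000c00000033000100000000000000) := T_1 (nat_lit 76) (nat_lit 77) (nat_lit 2) (nat_lit 5) (nat_lit 5) L3964519 (by decide +kernel)
theorem L3964521 : W_1 (nat_lit 9) (nat_lit 0x10000800000003c0008000000000000000000) (nat_lit 0x0) (nat_lit 0x400060003c00000033000780038000000000) := Q_1 (nat_lit 108) (C_1 L3964507 (C_1 L3964509 (C_1 L3964516 (C_1 L3964520 N_1)))) (by decide +kernel)
theorem L3964522 : W_1 (nat_lit 10) (nat_lit 0x1000080000000380008000000000000000000) (nat_lit 0x0) (nat_lit 0x400060003e00060033800780038000000000) := Q_1 (nat_lit 90) (C_1 L257435 (C_1 L257361 (C_1 L257320 (C_1 L3964521 N_1)))) (by decide +kernel)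
theorem L3964530 : W_1 (nat_lit 2) (nat_lit 0x10000800024003c0008000400060000000000) (nat_lit 0x0) (nat_lit 0x200010000800000) := D_1 (nat_lit 40) (nat_lit 57) (nat_lit 23) (nat_lit 4) (nat_lit 7) (nat_lit 6) (nat_lit 4) (nat_lit 7) (nat_lit 5) (by decide +kernel)
theorem L3964531 : W_1 (nat_lit 3) (nat_lit 0x10000800024003c0008000400040000000000) (nat_lit 0x0) (nat_lit 0x200030002800000) := T_1 (nat_lit 41) (nat_lit 25) (nat_lit 6) (nat_lit 7) (nat_lit 5) L3964530 (by decide +kernel)
theorem L3964532 : W_1 (nat_lit 4) (nat_lit 0x10000800024003c0008000400000000000000) (nat_lit 0x0) (nat_lit 0xa00070002800000) := T_1 (nat_lit 42) (nat_lit 59) (nat_lit 6) (nat_lit 7) (nat_lit 6) L3964531 (by decide +kernel)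
theorem L3964533 : W_1 (nat_lit 5) (nat_lit 0x10000800004003c0008000400000000000000) (nat_lit 0x0) (nat_lit 0x40002000000000000a00070002800000) := T_1 (nat_lit 109) (nat_lit 126) (nat_lit 7) (nat_lit 7) (nat_lit 4) L3964532 (by decide +kernel)
theorem L3964534 : W_1 (nat_lit 6) (nat_lit 0x10000800000003c0008000400000000000000) (nat_lit 0x0) (nat_lit 0x40002c00000000000a00070002800000) := T_1 (nat_lit 106) (nat_lit 107) (nat_lit 1) (nat_lit 8) (nat_lit 5) L3964533 (by decide +kernel)
theorem L3964535 : W_1 (nat_lit 5) (nat_lit 0x10000800008003c001a000400030000000000) (nat_lit 0x0) (nat_lit 0xb8004c002200000) := T_1 (nat_lit 25) (nat_lit 42) (nat_lit 6) (nat_lit 7) (nat_lit 5) L3964296 (by decide +kernel)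
theorem L3964536 : W_1 (nat_lit 6) (nat_lit 0x10000800008003c001a000400020000000000) (nat_lit 0x0) (nat_lit 0xb8005c002a00000) := T_1 (nat_lit 40) (nat_lit 23) (nat_lit 4) (nat_lit 7) (nat_lit 5) L3964535 (by decide +kernel)
theorem L3964537 : W_1 (nat_lit 7) (nat_lit 0x10000800000003c001a000400020000000000) (nat_lit 0x0) (nat_lit 0xc00000000000b8005c002a00000) := T_1 (nat_lit 107) (nat_lit 106) (nat_lit 1) (nat_lit 8) (nat_lit 5) L3964536 (by decide +kernel)
theorem L3964538 : W_1 (nat_lit 8) (nat_lit 0x10000800000003c001a000400000000000000) (nat_lit 0x0) (nat_lit 0xc00000000000b8007c003a00000) := T_1 (nat_lit 41) (nat_lit 24) (nat_lit 7) (nat_lit 7) (nat_lit 1) L3964537 (by decide +kernel)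
theorem L3964539 : W_1 (nat_lit 9) (nat_lit 0x10000800000003c000a000400000000000000) (nat_lit 0x0) (nat_lit 0xc00000030000b8007c003a00000) := T_1 (nat_lit 76) (nat_lit 77) (nat_lit 2) (nat_lit 5) (nat_lit 5) L3964538 (by decide +kernel)
theorem L3964540 : W_1 (nat_lit 10) (nat_lit 0x10000800000003c0008000400000000000000) (nat_lit 0x0) (nat_lit 0xc00000033000b8007c003a00000) := T_1 (nat_lit 73) (nat_lit 72) (nat_lit 0) (nat_lit 8) (nat_lit 5) L3964539 (by decide +kernel)
theorem L3964541 : W_1 (nat_lit 2) (nat_lit 0x10000800020003c0008000400060000000000) (nat_lit 0x0) (nat_lit 0x200010000800000) := D_1 (nat_lit 40) (nat_lit 57) (nat_lit 23) (nat_lit 4) (nat_lit 7) (nat_lit 6) (nat_lit 4) (nat_lit 7) (nat_lit 5) (by decide +kernel)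
theorem L3964542 : W_1 (nat_lit 3) (nat_lit 0x10000800020003c0008000400040000000000) (nat_lit 0x0) (nat_lit 0x200030002800000) := T_1 (nat_lit 41) (nat_lit 25) (nat_lit 6) (nat_lit 7) (nat_lit 5) L3964541 (by decide +kernel)
theorem L3964543 : W_1 (nat_lit 4) (nat_lit 0x10000800020003c0008000400000000000000) (nat_lit 0x0) (nat_lit 0xa00070002800000) := T_1 (nat_lit 42) (nat_lit 59) (nat_lit 6) (nat_lit 7) (nat_lit 6) L3964542 (by decide +kernel)
theorem L3964544 : W_1 (nat_lit 5) (nat_lit 0x10000800000003c0008000400000000000000) (nat_lit 0x0) (nat_lit 0x40002000000000000a00070002800000) := T_1 (nat_lit 109) (nat_lit 126) (nat_lit 7) (nat_lit 7) (nat_lit 4) L3964543 (by decide +kernel)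
theorem L3964545 : W_1 (nat_lit 2) (nat_lit 0x10000800024003c0009000400030000000000) (nat_lit 0x0) (nat_lit 0x30000000000001000000) := D_1 (nat_lit 76) (nat_lit 77) (nat_lit 24) (nat_lit 2) (nat_lit 5) (nat_lit 5) (nat_lit 7) (nat_lit 7) (nat_lit 1) (by decide +kernel)
theorem L3964546 : W_1 (nat_lit 3) (nat_lit 0x10000800024003c0009000400010000000000) (nat_lit 0x0) (nat_lit 0x30000000020001800000) := T_1 (nat_lit 41) (nat_lit 23) (nat_lit 4) (nat_lit 7) (nat_lit 5) L3964545 (by decide +kernel)
theorem L3964547 : W_1 (nat_lit 4) (nat_lit 0x10000800024003c0009000400000000000000) (nat_lit 0x0) (nat_lit 0x30000200030001800000) := T_1 (nat_lit 40) (nat_lit 57) (nat_lit 4) (nat_lit 7) (nat_lit 6) L3964546 (by decide +kernel)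
theorem L3964548 : W_1 (nat_lit 5) (nat_lit 0x10000800004003c0009000400000000000000) (nat_lit 0x0) (nat_lit 0x40002000000030000200030001800000) := T_1 (nat_lit 109) (nat_lit 126) (nat_lit 7) (nat_lit 7) (nat_lit 4) L3964547 (by decide +kernel)
theorem L3964549 : W_1 (nat_lit 6) (nat_lit 0x10000800000003c0009000400000000000000) (nat_lit 0x0) (nat_lit 0x40002c00000030000200030001800000) := T_1 (nat_lit 106) (nat_lit 107) (nat_lit 1) (nat_lit 8) (nat_lit 5) L3964548 (by decide +kernel)
theorem L3964550 : W_1 (nat_lit 7) (nat_lit 0x10000800000003c0008000400000000000000) (nat_lit 0x0) (nat_lit 0x40002c00000033000200030001800000) := T_1 (nat_lit 72) (nat_lit 73) (nat_lit 0) (nat_lit 8) (nat_lit 5) L3964549 (by decide +kernel)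
theorem L3964551 : W_1 (nat_lit 2) (nat_lit 0x10000800020003c0069000c00000000000000) (nat_lit 0x0) (nat_lit 0x1200010000000000) := D_1 (nat_lit 57) (nat_lit 40) (nat_lit 60) (nat_lit 4) (nat_lit 7) (nat_lit 6) (nat_lit 3) (nat_lit 6) (nat_lit 3) (by decide +kernel)
theorem L3964552 : W_1 (nat_lit 3) (nat_lit 0x10000800020003c0029000c00000000000000) (nat_lit 0x0) (nat_lit 0x400040001200010000000000) := T_1 (nat_lit 78) (nat_lit 94) (nat_lit 2) (nat_lit 6) (nat_lit 5) L3964551 (by decide +kernel)
theorem L3964553 : W_1 (nat_lit 4) (nat_lit 0x10000800020003c0028000c00000000000000) (nat_lit 0x0) (nat_lit 0x400043001200010000000000) := T_1 (nat_lit 72) (nat_lit 73) (nat_lit 0) (nat_lit 8) (nat_lit 5) L3964552 (by decide +kernel)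
theorem L3964554 : W_1 (nat_lit 5) (nat_lit 0x10000800020003c0028000400000000000000) (nat_lit 0x0) (nat_lit 0x400043001a00050000000000) := T_1 (nat_lit 59) (nat_lit 42) (nat_lit 6) (nat_lit 7) (nat_lit 6) L3964553 (by decide +kernel)
theorem L3964555 : W_1 (nat_lit 6) (nat_lit 0x10000800000003c0028000400000000000000) (nat_lit 0x0) (nat_lit 0x40002000400043001a00050000000000) := T_1 (nat_lit 109) (nat_lit 126) (nat_lit 7) (nat_lit 7) (nat_lit 4) L3964554 (by decide +kernel)
theorem L3964556 : W_1 (nat_lit 7) (nat_lit 0x10000800000003c0008000400000000000000) (nat_lit 0x0) (nat_lit 0x40002000400073001a00050000000000) := T_1 (nat_lit 77) (nat_lit 76) (nat_lit 2) (nat_lit 5) (nat_lit 5) L3964555 (by decide +kernel)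
theorem L3964557 : W_1 (nat_lit 2) (nat_lit 0x10000800024003c0008000400060000000000) (nat_lit 0x0) (nat_lit 0x30000000000001000000) := D_1 (nat_lit 76) (nat_lit 77) (nat_lit 24) (nat_lit 2) (nat_lit 5) (nat_lit 5) (nat_lit 7) (nat_lit 7) (nat_lit 1) (by decide +kernel)
theorem L3964558 : W_1 (nat_lit 3) (nat_lit 0x10000800024003c0008000400040000000000) (nat_lit 0x0) (nat_lit 0x30000000020003000000) := T_1 (nat_lit 41) (nat_lit 25) (nat_lit 6) (nat_lit 7) (nat_lit 5) L3964557 (by decide +kernel)
theorem L3964559 : W_1 (nat_lit 4) (nat_lit 0x10000800024003c0008000400000000000000) (nat_lit 0x0) (nat_lit 0x30000800060003000000) := T_1 (nat_lit 42) (nat_lit 59) (nat_lit 6) (nat_lit 7) (nat_lit 6) L3964558 (by decide +kernel)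
theorem L3964560 : W_1 (nat_lit 5) (nat_lit 0x10000800004003c0008000400000000000000) (nat_lit 0x0) (nat_lit 0x40002000000030000800060003000000) := T_1 (nat_lit 109) (nat_lit 126) (nat_lit 7) (nat_lit 7) (nat_lit 4) L3964559 (by decide +kernel)
theorem L3964561 : W_1 (nat_lit 6) (nat_lit 0x10000800000003c0008000400000000000000) (nat_lit 0x0) (nat_lit 0x40002c00000030000800060003000000) := T_1 (nat_lit 106) (nat_lit 107) (nat_lit 1) (nat_lit 8) (nat_lit 5) L3964560 (by decide +kernel)
theorem L3964562 : W_1 (nat_lit 11) (nat_lit 0x10000800000003c0008000000000000000000) (nat_lit 0x0) (nat_lit 0x40002c00400073001f8007c003a00000) := Q_1 (nat_lit 58) (C_1 L3964534 (C_1 L3964540 (C_1 L3964544 (C_1 L3964550 (C_1 L3964556 (C_1 L3964561 N_1)))))) (by decide +kernel)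
theorem L3964563 : W_1 (nat_lit 12) (nat_lit 0x1000080000000380008000000000000000000) (nat_lit 0x0) (nat_lit 0x40002e00460073801f8007c003a00000) := Q_1 (nat_lit 90) (C_1 L257435 (C_1 L257361 (C_1 L257320 (C_1 L3964562 N_1)))) (by decide +kernel)
theorem L3964564 : W_1 (nat_lit 2) (nat_lit 0x1000080003000380008000000000000000000) (nat_lit 0x0) (nat_lit 0xc00400000000000000000000000) := D_1 (nat_lit 107) (nat_lit 106) (nat_lit 94) (nat_lit 2) (nat_lit 4) (nat_lit 6) (nat_lit 1) (nat_lit 9) (nat_lit 5) (by decide +kernel)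
theorem L3964565 : W_1 (nat_lit 3) (nat_lit 0x1000080001000380008000000000000000000) (nat_lit 0x0) (nat_lit 0x40002c00400000000000000000000000) := T_1 (nat_lit 109) (nat_lit 126) (nat_lit 7) (nat_lit 7) (nat_lit 4) L3964564 (by decide +kernel)
theorem L3964566 : W_1 (nat_lit 2) (nat_lit 0x10000a0001800380008000000020000000000) (nat_lit 0x0) (nat_lit 0x600040000000000000000000000) := D_1 (nat_lit 106) (nat_lit 90) (nat_lit 105) (nat_lit 1) (nat_lit 8) (nat_lit 5) (nat_lit 2) (nat_lit 3) (nat_lit 6) (by decide +kernel)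
theorem L3964567 : W_1 (nat_lit 3) (nat_lit 0x10000a0001000380008000000020000000000) (nat_lit 0x0) (nat_lit 0xe00440000000000000000000000) := T_1 (nat_lit 107) (nat_lit 94) (nat_lit 1) (nat_lit 9) (nat_lit 5) L3964566 (by decide +kernel)
theorem L3964568 : W_1 (nat_lit 4) (nat_lit 0x1000080001000380008000000020000000000) (nat_lit 0x0) (nat_lit 0x400020000e00440000000000000000000000) := T_1 (nat_lit 125) (nat_lit 142) (nat_lit 6) (nat_lit 6) (nat_lit 8) L3964567 (by decide +kernel)
theorem L3964569 : W_1 (nat_lit 5) (nat_lit 0x1000080001000380008000000000000000000) (nat_lit 0x0) (nat_lit 0x400020000e00440000000400020000000000) := T_1 (nat_lit 41) (nat_lit 58) (nat_lit 5) (nat_lit 7) (nat_lit 2) L3964568 (by decide +kernel)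
theorem L3964570 : W_1 (nat_lit 6) (nat_lit 0x1000080000000380008000000000000000000) (nat_lit 0x0) (nat_lit 0x400060003e00440000000400020000000000) := Q_1 (nat_lit 108) (C_1 L278186 (C_1 L3964565 (C_1 L3964569 N_1))) (by decide +kernel)
theorem L3964571 : W_1 (nat_lit 2) (nat_lit 0x1000080002000380038000c00000000000000) (nat_lit 0x0) (nat_lit 0x300010000000000) := D_1 (nat_lit 57) (nat_lit 40) (nat_lit 56) (nat_lit 4) (nat_lit 7) (nat_lit 6) (nat_lit 3) (nat_lit 5) (nat_lit 3) (by decide +kernel)
theorem L3964572 : W_1 (nat_lit 3) (nat_lit 0x1000080002000380038000400000000000000) (nat_lit 0x0) (nat_lit 0xb00050000000000) := T_1 (nat_lit 59) (nat_lit 42) (nat_lit 6) (nat_lit 7) (nat_lit 6) L3964571 (by decide +kernel)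
theorem L3964573 : W_1 (nat_lit 4) (nat_lit 0x1000080000000380038000400000000000000) (nat_lit 0x0) (nat_lit 0x40002000000000000b00050000000000) := T_1 (nat_lit 109) (nat_lit 126) (nat_lit 7) (nat_lit 7) (nat_lit 4) L3964572 (by decide +kernel)
theorem L3964574 : W_1 (nat_lit 5) (nat_lit 0x1000080000000380018000400000000000000) (nat_lit 0x0) (nat_lit 0x40002000000060000b00050000000000) := T_1 (nat_lit 77) (nat_lit 78) (nat_lit 1) (nat_lit 10) (nat_lit 4) L3964573 (by decide +kernel)
theorem L3964575 : W_1 (nat_lit 6) (nat_lit 0x1000080000000380018000000000000000000) (nat_lit 0x0) (nat_lit 0x40003000000060000f00070003800000) := Q_1 (nat_lit 58) (C_1 L3963294 (C_1 L3963339 (C_1 L3963291 (C_1 L3964574 N_1)))) (by decide +kernel)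
theorem L3964576 : W_1 (nat_lit 2) (nat_lit 0x10000800030007c001a000600040000000000) (nat_lit 0x0) (nat_lit 0x180008000000000) := D_1 (nat_lit 56) (nat_lit 55) (nat_lit 39) (nat_lit 3) (nat_lit 4) (nat_lit 3) (nat_lit 7) (nat_lit 5) (nat_lit 2) (by decide +kernel)
theorem L3964577 : W_1 (nat_lit 3) (nat_lit 0x10000800030007c0018000600040000000000) (nat_lit 0x0) (nat_lit 0x3000180008000000000) := T_1 (nat_lit 73) (nat_lit 72) (nat_lit 0) (nat_lit 8) (nat_lit 5) L3964576 (by decide +kernel)
theorem L3964578 : W_1 (nat_lit 4) (nat_lit 0x10000800030007c0018000400040000000000) (nat_lit 0x0) (nat_lit 0x3000380018000000000) := T_1 (nat_lit 57) (nat_lit 40) (nat_lit 4) (nat_lit 7) (nat_lit 6) L3964577 (by decide +kernel)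
theorem L3964579 : W_1 (nat_lit 5) (nat_lit 0x10000800030003c0018000400040000000000) (nat_lit 0x0) (nat_lit 0xc00003000380018000000000) := T_1 (nat_lit 94) (nat_lit 95) (nat_lit 1) (nat_lit 10) (nat_lit 5) L3964578 (by decide +kernel)
theorem L3964580 : W_1 (nat_lit 6) (nat_lit 0x10000800020003c0018000400040000000000) (nat_lit 0x0) (nat_lit 0x20001000c00003000380018000000000) := T_1 (nat_lit 108) (nat_lit 125) (nat_lit 5) (nat_lit 7) (nat_lit 3) L3964579 (by decide +kernel)
theorem L3964581 : W_1 (nat_lit 7) (nat_lit 0x10000800020003c0018000400000000000000) (nat_lit 0x0) (nat_lit 0x20001000c00003000b80058000000000) := T_1 (nat_lit 42) (nat_lit 59) (nat_lit 6) (nat_lit 7) (nat_lit 6) L3964580 (by decide +kernel)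
theorem L3964582 : W_1 (nat_lit 8) (nat_lit 0x10000800000003c0018000400000000000000) (nat_lit 0x0) (nat_lit 0x60003000c00003000b80058000000000) := T_1 (nat_lit 109) (nat_lit 126) (nat_lit 7) (nat_lit 7) (nat_lit 4) L3964581 (by decide +kernel)
theorem L3964583 : W_1 (nat_lit 9) (nat_lit 0x1000080000000380018000400000000000000) (nat_lit 0x0) (nat_lit 0x60003000c60003000b80058000000000) := T_1 (nat_lit 90) (nat_lit 89) (nat_lit 2) (nat_lit 4) (nat_lit 5) L3964582 (by decide +kernel)
theorem L3964584 : W_1 (nat_lit 10) (nat_lit 0x1000080000000380018000000000000000000) (nat_lit 0x0) (nat_lit 0x60003000c60003000f80078001800000) := Q_1 (nat_lit 58) (C_1 L3963294 (C_1 L3963291 (C_1 L3964583 N_1))) (by decide +kernel)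
theorem L3964585 : W_1 (nat_lit 11) (nat_lit 0x1000080000000380008000000000000000000) (nat_lit 0x0) (nat_lit 0x60003000c60073000f80078003800000) := Q_1 (nat_lit 76) (C_1 L3964575 (C_1 L258156 (C_1 L3964584 N_1))) (by decide +kernel)
theorem L3964586 : W_1 (nat_lit 2) (nat_lit 0x1c00180001000780028000000020000000000) (nat_lit 0x0) (nat_lit 0x640000000000000000000000000000000) := D_1 (nat_lit 129) (nat_lit 130) (nat_lit 126) (nat_lit 1) (nat_lit 11) (nat_lit 7) (nat_lit 1) (nat_lit 10) (nat_lit 7) (by decide +kernel)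
theorem L3964587 : W_1 (nat_lit 3) (nat_lit 0x1400180001000780028000000020000000000) (nat_lit 0x0) (nat_lit 0xa00640000000000000000000000000000000) := T_1 (nat_lit 143) (nat_lit 141) (nat_lit 2) (nat_lit 5) (nat_lit 8) L3964586 (by decide +kernel)
theorem L3964588 : W_1 (nat_lit 4) (nat_lit 0x1000180001000780028000000020000000000) (nat_lit 0x0) (nat_lit 0xe00660000000000000000000000000000000) := T_1 (nat_lit 142) (nat_lit 125) (nat_lit 6) (nat_lit 6) (nat_lit 8) L3964587 (by decide +kernel)
theorem L3964589 : W_1 (nat_lit 5) (nat_lit 0x1000080001000780028000000020000000000) (nat_lit 0x0) (nat_lit 0xe00760008000000000000000000000000000) := T_1 (nat_lit 128) (nat_lit 111) (nat_lit 5) (nat_lit 9) (nat_lit 4) L3964588 (by decide +kernel)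
theorem L3964590 : W_1 (nat_lit 6) (nat_lit 0x1000080001000780008000000020000000000) (nat_lit 0x0) (nat_lit 0xe00760008000000060000000000000000000) := T_1 (nat_lit 77) (nat_lit 78) (nat_lit 2) (nat_lit 6) (nat_lit 5) L3964589 (by decide +kernel)
theorem L3964591 : W_1 (nat_lit 7) (nat_lit 0x1000080001000780008000000000000000000) (nat_lit 0x0) (nat_lit 0xe00760008000000060000400020000000000) := T_1 (nat_lit 41) (nat_lit 58) (nat_lit 5) (nat_lit 7) (nat_lit 2) L3964590 (by decide +kernel)
theorem L3964592 : W_1 (nat_lit 8) (nat_lit 0x1000080001000380008000000000000000000) (nat_lit 0x0) (nat_lit 0xe00760008800400060000400020000000000) := T_1 (nat_lit 94) (nat_lit 107) (nat_lit 1) (nat_lit 9) (nat_lit 5) L3964591 (by decide +kernel)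
theorem L3964593 : W_1 (nat_lit 9) (nat_lit 0x1000080000000380008000000000000000000) (nat_lit 0x0) (nat_lit 0xe0076000bc00400060000400020000000000) := Q_1 (nat_lit 108) (C_1 L278186 (C_1 L3964565 (C_1 L3964592 (C_1 L258031 N_1)))) (by decide +kernel)
theorem L3964594 : W_1 (nat_lit 2) (nat_lit 0x1c001800034007c0029000000000000000000) (nat_lit 0x0) (nat_lit 0x2000600000000000000000000000000000000) := D_1 (nat_lit 129) (nat_lit 130) (nat_lit 145) (nat_lit 1) (nat_lit 11) (nat_lit 7) (nat_lit 2) (nat_lit 6) (nat_lit 8) (by decide +kernel)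
theorem L3964595 : W_1 (nat_lit 3) (nat_lit 0x14001800034007c0029000000000000000000) (nat_lit 0x0) (nat_lit 0x2a00600000000000000000000000000000000) := T_1 (nat_lit 143) (nat_lit 141) (nat_lit 2) (nat_lit 5) (nat_lit 8) L3964594 (by decide +kernel)
theorem L3964596 : W_1 (nat_lit 4) (nat_lit 0x10001800034007c0029000000000000000000) (nat_lit 0x0) (nat_lit 0x2e00620000000000000000000000000000000) := T_1 (nat_lit 142) (nat_lit 125) (nat_lit 6) (nat_lit 6) (nat_lit 8) L3964595 (by decide +kernel)
theorem L3964597 : W_1 (nat_lit 5) (nat_lit 0x10000800034007c0029000000000000000000) (nat_lit 0x0) (nat_lit 0x2e00720008000000000000000000000000000) := T_1 (nat_lit 128) (nat_lit 111) (nat_lit 5) (nat_lit 9) (nat_lit 4) L3964596 (by decide +kernel)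
theorem L3964598 : W_1 (nat_lit 6) (nat_lit 0x10000800024007c0029000000000000000000) (nat_lit 0x0) (nat_lit 0x2e00720009000800000000000000000000000) := T_1 (nat_lit 108) (nat_lit 95) (nat_lit 1) (nat_lit 10) (nat_lit 5) L3964597 (by decide +kernel)
theorem L3964599 : W_1 (nat_lit 7) (nat_lit 0x10000800024003c0029000000000000000000) (nat_lit 0x0) (nat_lit 0x2e00720009000c00040000000000000000000) := T_1 (nat_lit 94) (nat_lit 78) (nat_lit 2) (nat_lit 6) (nat_lit 5) L3964598 (by decide +kernel)
theorem L3964600 : W_1 (nat_lit 8) (nat_lit 0x10000800024003c0009000000000000000000) (nat_lit 0x0) (nat_lit 0x2e00720009000c00070000000000000000000) := T_1 (nat_lit 77) (nat_lit 76) (nat_lit 2) (nat_lit 5) (nat_lit 5) L3964599 (by decide +kernel)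
theorem L3964601 : W_1 (nat_lit 9) (nat_lit 0x10000800020003c0009000000000000000000) (nat_lit 0x0) (nat_lit 0x2e00720009c00c00070000000000000000000) := T_1 (nat_lit 106) (nat_lit 107) (nat_lit 1) (nat_lit 8) (nat_lit 5) L3964600 (by decide +kernel)
theorem L3964602 : W_1 (nat_lit 10) (nat_lit 0x10000800020003c0008000000000000000000) (nat_lit 0x0) (nat_lit 0x2e00720009c00c00073000000000000000000) := T_1 (nat_lit 72) (nat_lit 73) (nat_lit 0) (nat_lit 8) (nat_lit 5) L3964601 (by decide +kernel)
theorem L3964603 : W_1 (nat_lit 11) (nat_lit 0x10000800000003c0008000000000000000000) (nat_lit 0x0) (nat_lit 0x2e0076000bc00c00073000000000000000000) := T_1 (nat_lit 109) (nat_lit 126) (nat_lit 7) (nat_lit 7) (nat_lit 4) L3964602 (by decide +kernel)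
theorem L3964604 : W_1 (nat_lit 12) (nat_lit 0x1000080000000380008000000000000000000) (nat_lit 0x0) (nat_lit 0x2e0076000be00c60073800000000000000000) := Q_1 (nat_lit 90) (C_1 L257435 (C_1 L257361 (C_1 L257320 (C_1 L3964603 N_1)))) (by decide +kernel)
theorem L3964605 : W_1 (nat_lit 13) (nat_lit 0x1000080000000300008000000000000000000) (nat_lit 0x0) (nat_lit 0x4002f0077000be01ce00f3801f8007c003a00000) := Q_1 (nat_lit 91) (C_1 L3964469 (C_1 L3964478 (C_1 L3964498 (C_1 L3964505 (C_1 L3964522 (C_1 L3964563 (C_1 L3964570 (C_1 L3964585 (C_1 L3964593 (C_1 L3964604 N_1)))))))))) (by decide +kernel)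
theorem L3964606 : W_1 (nat_lit 10) (nat_lit 0x100008000000030001c000000000000000000) (nat_lit 0x0) (nat_lit 0xc00e0007b000f8007c00000) := Q_1 (nat_lit 77) (C_1 L3963763 (C_1 L345868 (C_1 L3962863 N_1))) (by decide +kernel)
theorem L3964607 : W_1 (nat_lit 11) (nat_lit 0x100008000000030000c000000000000000000) (nat_lit 0x0) (nat_lit 0x400020000e00f3007b800f8007c00000) := Q_1 (nat_lit 76) (C_1 L258915 (C_1 L259307 (C_1 L3964606 (C_1 L257085 N_1)))) (by decide +kernel)
theorem L3964626 : W_1 (nat_lit 2) (nat_lit 0x1c0018000300078002c000000010000000000) (nat_lit 0x0) (nat_lit 0x2000600000000000000000000000000000000) := D_1 (nat_lit 129) (nat_lit 130) (nat_lit 145) (nat_lit 1) (nat_lit 11) (nat_lit 7) (nat_lit 2) (nat_lit 6) (nat_lit 8) (by decide +kernel)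
theorem L3964627 : W_1 (nat_lit 3) (nat_lit 0x140018000300078002c000000010000000000) (nat_lit 0x0) (nat_lit 0x2a00600000000000000000000000000000000) := T_1 (nat_lit 143) (nat_lit 141) (nat_lit 2) (nat_lit 5) (nat_lit 8) L3964626 (by decide +kernel)
theorem L3964628 : W_1 (nat_lit 4) (nat_lit 0x100018000300078002c000000010000000000) (nat_lit 0x0) (nat_lit 0x2e00620000000000000000000000000000000) := T_1 (nat_lit 142) (nat_lit 125) (nat_lit 6) (nat_lit 6) (nat_lit 8) L3964627 (by decide +kernel)
theorem L3964629 : W_1 (nat_lit 5) (nat_lit 0x100008000300078002c000000010000000000) (nat_lit 0x0) (nat_lit 0x2e00720008000000000000000000000000000) := T_1 (nat_lit 128) (nat_lit 111) (nat_lit 5) (nat_lit 9) (nat_lit 4) L3964628 (by decide +kernel)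
theorem L3964630 : W_1 (nat_lit 6) (nat_lit 0x100008000300078000c000000010000000000) (nat_lit 0x0) (nat_lit 0x2e00720008000000060000000000000000000) := T_1 (nat_lit 77) (nat_lit 78) (nat_lit 2) (nat_lit 6) (nat_lit 5) L3964629 (by decide +kernel)
theorem L3964631 : W_1 (nat_lit 7) (nat_lit 0x100008000200078000c000000010000000000) (nat_lit 0x0) (nat_lit 0x2e00720009800000060000000000000000000) := T_1 (nat_lit 108) (nat_lit 107) (nat_lit 1) (nat_lit 9) (nat_lit 5) L3964630 (by decide +kernel)
theorem L3964632 : W_1 (nat_lit 8) (nat_lit 0x100008000200038000c000000010000000000) (nat_lit 0x0) (nat_lit 0x2e00720009800c00060000000000000000000) := T_1 (nat_lit 94) (nat_lit 95) (nat_lit 0) (nat_lit 10) (nat_lit 5) L3964631 (by decide +kernel)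
theorem L3964633 : W_1 (nat_lit 9) (nat_lit 0x100008000200038000c000000000000000000) (nat_lit 0x0) (nat_lit 0x2e00720009800c00060000200010000000000) := T_1 (nat_lit 40) (nat_lit 57) (nat_lit 7) (nat_lit 6) (nat_lit 2) L3964632 (by decide +kernel)
theorem L3964634 : W_1 (nat_lit 10) (nat_lit 0x100008000000038000c000000000000000000) (nat_lit 0x0) (nat_lit 0x2e0076000b800c00060000200010000000000) := T_1 (nat_lit 109) (nat_lit 126) (nat_lit 7) (nat_lit 7) (nat_lit 4) L3964633 (by decide +kernel)
theorem L3964635 : W_1 (nat_lit 12) (nat_lit 0x100008000000030000c000000000000000000) (nat_lit 0x0) (nat_lit 0x2e0077000be00cf0070003b000f8007c00000) := Q_1 (nat_lit 91) (C_1 L3963043 (C_1 L3964634 (C_1 L3962857 (C_1 L3962842 (C_1 L257158 N_1))))) (by decide +kernel)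
theorem L3964636 : W_1 (nat_lit 13) (nat_lit 0x1000080000000300008000000000000000000) (nat_lit 0x0) (nat_lit 0x2e0077000be00cf00f7007b800f8007c00000) := Q_1 (nat_lit 74) (C_1 L32323 (C_1 L28280 (C_1 L340073 (C_1 L3964607 (C_1 L3964635 N_1))))) (by decide +kernel)
theorem L3964637 : W_1 (nat_lit 2) (nat_lit 0x1000080000000700038000000000000000000) (nat_lit 0x0) (nat_lit 0x1800004000000000000000000) := D_1 (nat_lit 95) (nat_lit 74) (nat_lit 96) (nat_lit 3) (nat_lit 6) (nat_lit 4) (nat_lit 0) (nat_lit 11) (nat_lit 5) (by decide +kernel)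
theorem L3964638 : W_1 (nat_lit 8) (nat_lit 0x1000080000000700038000000000000000000) (nat_lit 0x0) (nat_lit 0xe007600098000c0000000400020000000000) := T_1 (nat_lit 91) (nat_lit 90) (nat_lit 2) (nat_lit 5) (nat_lit 5) L3964088 (by decide +kernel)
theorem L3964639 : W_1 (nat_lit 10) (nat_lit 0x1000080000000300038000000000000000000) (nat_lit 0x0) (nat_lit 0xe00760009801cc0004000400020000000000) := Q_1 (nat_lit 94) (C_1 L3964080 (C_1 L3964637 (C_1 L3964638 N_1))) (by decide +kernel)
theorem L3964640 : W_1 (nat_lit 11) (nat_lit 0x1000080000000300018000000000000000000) (nat_lit 0x0) (nat_lit 0xe00760009801cc00e4007e000f0003800000) := Q_1 (nat_lit 77) (C_1 L3964072 (C_1 L257445 (C_1 L3964639 N_1))) (by decide +kernel)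
theorem L3964641 : W_1 (nat_lit 6) (nat_lit 0x1000080000000780038000000000000000000) (nat_lit 0x0) (nat_lit 0x400120009800000004000c00060000000000) := T_1 (nat_lit 111) (nat_lit 128) (nat_lit 5) (nat_lit 9) (nat_lit 4) L257089 (by decide +kernel)
theorem L3964642 : W_1 (nat_lit 7) (nat_lit 0x1000080000000700038000000000000000000) (nat_lit 0x0) (nat_lit 0x4001200098000c0004000c00060000000000) := T_1 (nat_lit 91) (nat_lit 90) (nat_lit 2) (nat_lit 5) (nat_lit 5) L3964641 (by decide +kernel)
theorem L3964643 : W_1 (nat_lit 2) (nat_lit 0x1000080008000f80038000000040000000000) (nat_lit 0x0) (nat_lit 0x3800000000000000000000000000) := D_1 (nat_lit 108) (nat_lit 109) (nat_lit 107) (nat_lit 1) (nat_lit 10) (nat_lit 5) (nat_lit 1) (nat_lit 9) (nat_lit 5) (by decide +kernel)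
theorem L3964644 : W_1 (nat_lit 3) (nat_lit 0x1000080008000f00038000000040000000000) (nat_lit 0x0) (nat_lit 0x38000c0000000000000000000000) := T_1 (nat_lit 91) (nat_lit 90) (nat_lit 2) (nat_lit 5) (nat_lit 5) L3964643 (by decide +kernel)
theorem L3964645 : W_1 (nat_lit 4) (nat_lit 0x1000080008000700038000000040000000000) (nat_lit 0x0) (nat_lit 0x38018c0000000000000000000000) := T_1 (nat_lit 95) (nat_lit 96) (nat_lit 0) (nat_lit 11) (nat_lit 5) L3964644 (by decide +kernel)
theorem L3964646 : W_1 (nat_lit 5) (nat_lit 0x1000080008000700038000000000000000000) (nat_lit 0x0) (nat_lit 0x38018c0000000800040000000000) := T_1 (nat_lit 42) (nat_lit 59) (nat_lit 7) (nat_lit 8) (nat_lit 2) L3964645 (by decide +kernel)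
theorem L3964647 : W_1 (nat_lit 6) (nat_lit 0x1000080000000700038000000000000000000) (nat_lit 0x0) (nat_lit 0x10000b8018c0000000800040000000000) := T_1 (nat_lit 111) (nat_lit 128) (nat_lit 5) (nat_lit 9) (nat_lit 4) L3964646 (by decide +kernel)
theorem L3964648 : W_1 (nat_lit 8) (nat_lit 0x1000080000000300038000000000000000000) (nat_lit 0x0) (nat_lit 0x40012000b801cc0004000c00060000000000) := Q_1 (nat_lit 94) (C_1 L3964637 (C_1 L3964642 (C_1 L3964647 N_1))) (by decide +kernel)
theorem L3964649 : W_1 (nat_lit 10) (nat_lit 0x1000080000000300018000000000000000000) (nat_lit 0x0) (nat_lit 0x40012000b801cc00e4007e000f0003800000) := Q_1 (nat_lit 77) (C_1 L3964072 (C_1 L257445 (C_1 L3964648 N_1))) (by decide +kernel)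
theorem L3964650 : W_1 (nat_lit 9) (nat_lit 0x1000080000000300038000000000000000000) (nat_lit 0x0) (nat_lit 0x14000a000cc0004003f000d0006800000) := Q_1 (nat_lit 74) (C_1 L3963325 (C_1 L3962875 (C_1 L3963772 N_1))) (by decide +kernel)
theorem L3964651 : W_1 (nat_lit 10) (nat_lit 0x1000080000000300018000000000000000000) (nat_lit 0x0) (nat_lit 0x14000a001cc00e4007f001f000f800000) := Q_1 (nat_lit 77) (C_1 L3964072 (C_1 L346099 (C_1 L257445 (C_1 L3964650 N_1)))) (by decide +kernel)
theorem L3964652 : W_1 (nat_lit 2) (nat_lit 0x1000080003800300018000c00010000000000) (nat_lit 0x0) (nat_lit 0xc80000000000000000000000) := D_1 (nat_lit 94) (nat_lit 95) (nat_lit 91) (nat_lit 1) (nat_lit 10) (nat_lit 5) (nat_lit 1) (nat_lit 9) (nat_lit 5) (by decide +kernel)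
theorem L3964653 : W_1 (nat_lit 3) (nat_lit 0x1000080003000300018000c00010000000000) (nat_lit 0x0) (nat_lit 0xc00c80000000000000000000000) := T_1 (nat_lit 107) (nat_lit 106) (nat_lit 2) (nat_lit 4) (nat_lit 6) L3964652 (by decide +kernel)
theorem L3964654 : W_1 (nat_lit 4) (nat_lit 0x1000080002000300018000c00010000000000) (nat_lit 0x0) (nat_lit 0x20001c00c80000000000000000000000) := T_1 (nat_lit 108) (nat_lit 125) (nat_lit 5) (nat_lit 7) (nat_lit 3) L3964653 (by decide +kernel)
theorem L3964655 : W_1 (nat_lit 5) (nat_lit 0x1000080002000300018000c00000000000000) (nat_lit 0x0) (nat_lit 0x20001c00c80000000200010000000000) := T_1 (nat_lit 40) (nat_lit 57) (nat_lit 4) (nat_lit 7) (nat_lit 6) L3964654 (by decide +kernel)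
theorem L3964656 : W_1 (nat_lit 6) (nat_lit 0x1000080000000300018000c00000000000000) (nat_lit 0x0) (nat_lit 0x60003c00c80000000200010000000000) := T_1 (nat_lit 109) (nat_lit 126) (nat_lit 7) (nat_lit 7) (nat_lit 4) L3964655 (by decide +kernel)
theorem L3964657 : W_1 (nat_lit 7) (nat_lit 0x1000080000000300018000800000000000000) (nat_lit 0x0) (nat_lit 0x60003c00c8000000360003c001800000) := Q_1 (nat_lit 58) (C_1 L3963617 (C_1 L3963201 (C_1 L3964656 (C_1 L3963229 N_1)))) (by decide +kernel)
theorem L3964658 : W_1 (nat_lit 8) (nat_lit 0x1000080000000300018000000000000000000) (nat_lit 0x0) (nat_lit 0x6000bc01c80004003e0007c003800000) := Q_1 (nat_lit 59) (C_1 L258147 (C_1 L257220 (C_1 L3964657 N_1))) (by decide +kernel)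
theorem L3964659 : W_1 (nat_lit 2) (nat_lit 0x10000f0009000780038000000040000000000) (nat_lit 0x0) (nat_lit 0x800008000000000004000000000000000000) := D_1 (nat_lit 143) (nat_lit 123) (nat_lit 74) (nat_lit 3) (nat_lit 4) (nat_lit 7) (nat_lit 7) (nat_lit 6) (nat_lit 4) (by decide +kernel)
theorem L3964660 : W_1 (nat_lit 3) (nat_lit 0x10000e0009000780038000000040000000000) (nat_lit 0x0) (nat_lit 0x2800018000000000004000000000000000000) := T_1 (nat_lit 124) (nat_lit 145) (nat_lit 3) (nat_lit 5) (nat_lit 7) L3964659 (by decide +kernel)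
theorem L3964661 : W_1 (nat_lit 4) (nat_lit 0x10000c0009000780038000000040000000000) (nat_lit 0x0) (nat_lit 0x2c00038000000000004000000000000000000) := T_1 (nat_lit 125) (nat_lit 142) (nat_lit 6) (nat_lit 6) (nat_lit 8) L3964660 (by decide +kernel)
theorem L3964662 : W_1 (nat_lit 5) (nat_lit 0x10000c0008000780038000000040000000000) (nat_lit 0x0) (nat_lit 0x2c00038001800000004000000000000000000) := T_1 (nat_lit 108) (nat_lit 107) (nat_lit 1) (nat_lit 9) (nat_lit 5) L3964661 (by decide +kernel)
theorem L3964663 : W_1 (nat_lit 6) (nat_lit 0x10000c0008000700038000000040000000000) (nat_lit 0x0) (nat_lit 0x2c000380018000c0004000000000000000000) := T_1 (nat_lit 91) (nat_lit 90) (nat_lit 2) (nat_lit 5) (nat_lit 5) L3964662 (by decide +kernel)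
theorem L3964664 : W_1 (nat_lit 7) (nat_lit 0x1000080008000700038000000040000000000) (nat_lit 0x0) (nat_lit 0x2c000780038000c0004000000000000000000) := T_1 (nat_lit 126) (nat_lit 109) (nat_lit 7) (nat_lit 7) (nat_lit 4) L3964663 (by decide +kernel)
theorem L3964665 : W_1 (nat_lit 8) (nat_lit 0x1000080008000700038000000000000000000) (nat_lit 0x0) (nat_lit 0x2c000780038000c0004000800040000000000) := T_1 (nat_lit 42) (nat_lit 59) (nat_lit 7) (nat_lit 8) (nat_lit 2) L3964664 (by decide +kernel)
theorem L3964666 : W_1 (nat_lit 9) (nat_lit 0x1000080000000700038000000000000000000) (nat_lit 0x0) (nat_lit 0x2c0017800b8000c0004000800040000000000) := T_1 (nat_lit 111) (nat_lit 128) (nat_lit 5) (nat_lit 9) (nat_lit 4) L3964665 (by decide +kernel)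
theorem L3964667 : W_1 (nat_lit 10) (nat_lit 0x1000080000000300038000000000000000000) (nat_lit 0x0) (nat_lit 0x2c0017800b801cc0004000800040000000000) := Q_1 (nat_lit 94) (C_1 L3964637 (C_1 L3964647 (C_1 L3964666 N_1))) (by decide +kernel)
theorem L3964668 : W_1 (nat_lit 11) (nat_lit 0x1000080000000300018000000000000000000) (nat_lit 0x0) (nat_lit 0x2c0017800b801cc00e40078001c000e000000) := Q_1 (nat_lit 77) (C_1 L346099 (C_1 L257445 (C_1 L3964667 N_1))) (by decide +kernel)
theorem L3964669 : W_1 (nat_lit 11) (nat_lit 0x1000080000000300018000000000000000000) (nat_lit 0x0) (nat_lit 0xe00760009801cc00e4007700020000000000) := Q_1 (nat_lit 77) (C_1 L257445 (C_1 L3964639 (C_1 L28225 N_1))) (by decide +kernel)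
theorem L3964670 : W_1 (nat_lit 12) (nat_lit 0x1000080000000300008000000000000000000) (nat_lit 0x0) (nat_lit 0x2e0077800bc01cc00f4007f803fc00f800000) := Q_1 (nat_lit 76) (C_1 L3964640 (C_1 L3963708 (C_1 L3964064 (C_1 L3964649 (C_1 L3964651 (C_1 L3964658 (C_1 L3964668 (C_1 L3964669 N_1)))))))) (by decide +kernel)
theorem L3964671 : W_1 (nat_lit 2) (nat_lit 0x10000800000003c001e000100000000000000) (nat_lit 0x0) (nat_lit 0x20001000000000000000008000000000) := D_1 (nat_lit 108) (nat_lit 125) (nat_lit 39) (nat_lit 4) (nat_lit 6) (nat_lit 7) (nat_lit 7) (nat_lit 5) (nat_lit 2) (by decide +kernel)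
theorem L3964672 : W_1 (nat_lit 3) (nat_lit 0x10000800000003c001e000000000000000000) (nat_lit 0x0) (nat_lit 0x20001000000000000180008000000000) := T_1 (nat_lit 56) (nat_lit 55) (nat_lit 0) (nat_lit 8) (nat_lit 4) L3964671 (by decide +kernel)
theorem L3964673 : W_1 (nat_lit 4) (nat_lit 0x10000800000003c000e000000000000000000) (nat_lit 0x0) (nat_lit 0x20001000000030000180008000000000) := T_1 (nat_lit 76) (nat_lit 77) (nat_lit 2) (nat_lit 5) (nat_lit 5) L3964672 (by decide +kernel)
theorem L3964674 : W_1 (nat_lit 5) (nat_lit 0x10000800000003c000c000000000000000000) (nat_lit 0x0) (nat_lit 0x20001000000033000180008000000000) := T_1 (nat_lit 73) (nat_lit 72) (nat_lit 3) (nat_lit 4) (nat_lit 4) L3964673 (by decide +kernel)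
theorem L3964675 : W_1 (nat_lit 6) (nat_lit 0x100008000000038000c000000000000000000) (nat_lit 0x0) (nat_lit 0x20001e00070033800180008000000000) := Q_1 (nat_lit 90) (C_1 L3962770 (C_1 L3962762 (C_1 L3964674 N_1))) (by decide +kernel)
theorem L3964676 : W_1 (nat_lit 6) (nat_lit 0x100008000000038000c000000000000000000) (nat_lit 0x0) (nat_lit 0x20001000070033800180008000000000) := Q_1 (nat_lit 90) (C_1 L3964674 (C_1 L3962762 (C_1 L3962760 N_1))) (by decide +kernel)
theorem L3964677 : W_1 (nat_lit 7) (nat_lit 0x100008000000030000c000000000000000000) (nat_lit 0x0) (nat_lit 0x70003e000f0033800780038000000000) := Q_1 (nat_lit 91) (C_1 L3963975 (C_1 L3963950 (C_1 L3964675 (C_1 L3964676 N_1)))) (by decide +kernel)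
theorem L3964678 : W_1 (nat_lit 2) (nat_lit 0x10000800020007e002c000000010000000000) (nat_lit 0x0) (nat_lit 0xe00000000000000000000000000) := D_1 (nat_lit 106) (nat_lit 107) (nat_lit 105) (nat_lit 1) (nat_lit 8) (nat_lit 5) (nat_lit 1) (nat_lit 7) (nat_lit 5) (by decide +kernel)
theorem L3964679 : W_1 (nat_lit 3) (nat_lit 0x10000800020007c002c000000010000000000) (nat_lit 0x0) (nat_lit 0xe00030000000000000000000000) := T_1 (nat_lit 89) (nat_lit 88) (nat_lit 2) (nat_lit 3) (nat_lit 5) L3964678 (by decide +kernel)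
theorem L3964680 : W_1 (nat_lit 4) (nat_lit 0x100008000200078002c000000010000000000) (nat_lit 0x0) (nat_lit 0xe00070010000000000000000000) := T_1 (nat_lit 90) (nat_lit 76) (nat_lit 2) (nat_lit 5) (nat_lit 5) L3964679 (by decide +kernel)
theorem L3964681 : W_1 (nat_lit 5) (nat_lit 0x100008000200078000c000000010000000000) (nat_lit 0x0) (nat_lit 0xe00070070000000000000000000) := T_1 (nat_lit 77) (nat_lit 78) (nat_lit 2) (nat_lit 6) (nat_lit 5) L3964680 (by decide +kernel)
theorem L3964682 : W_1 (nat_lit 6) (nat_lit 0x100008000200078000c000000000000000000) (nat_lit 0x0) (nat_lit 0xe00070070000200010000000000) := T_1 (nat_lit 40) (nat_lit 57) (nat_lit 7) (nat_lit 6) (nat_lit 2) L3964681 (by decide +kernel)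
theorem L3964683 : W_1 (nat_lit 7) (nat_lit 0x100008000000078000c000000000000000000) (nat_lit 0x0) (nat_lit 0x40002e00070070000200010000000000) := T_1 (nat_lit 109) (nat_lit 126) (nat_lit 7) (nat_lit 7) (nat_lit 4) L3964682 (by decide +kernel)
theorem L3964684 : W_1 (nat_lit 8) (nat_lit 0x100008000000038000c000000000000000000) (nat_lit 0x0) (nat_lit 0x40002e00c70070000200010000000000) := T_1 (nat_lit 94) (nat_lit 95) (nat_lit 0) (nat_lit 10) (nat_lit 5) L3964683 (by decide +kernel)
theorem L3964685 : W_1 (nat_lit 6) (nat_lit 0x100008000200078000c000200000000000000) (nat_lit 0x0) (nat_lit 0x200010000000700005c0028000000000) := T_1 (nat_lit 77) (nat_lit 78) (nat_lit 2) (nat_lit 6) (nat_lit 5) L258752 (by decide +kernel)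
theorem L3964686 : W_1 (nat_lit 7) (nat_lit 0x100008000200078000c000000000000000000) (nat_lit 0x0) (nat_lit 0x200010000000700007c0038000000000) := T_1 (nat_lit 57) (nat_lit 40) (nat_lit 7) (nat_lit 6) (nat_lit 2) L3964685 (by decide +kernel)
theorem L3964687 : W_1 (nat_lit 8) (nat_lit 0x100008000000078000c000000000000000000) (nat_lit 0x0) (nat_lit 0x600030000000700007c0038000000000) := T_1 (nat_lit 109) (nat_lit 126) (nat_lit 7) (nat_lit 7) (nat_lit 4) L3964686 (by decide +kernel)
theorem L3964688 : W_1 (nat_lit 9) (nat_lit 0x100008000000038000c000000000000000000) (nat_lit 0x0) (nat_lit 0x60003000c000700007c0038000000000) := T_1 (nat_lit 94) (nat_lit 95) (nat_lit 0) (nat_lit 10) (nat_lit 5) L3964687 (by decide +kernel)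
theorem L3964689 : W_1 (nat_lit 11) (nat_lit 0x100008000000030000c000000000000000000) (nat_lit 0x0) (nat_lit 0x2e0077000be00cf00700007c0038000000000) := Q_1 (nat_lit 91) (C_1 L3963975 (C_1 L3964634 (C_1 L3963043 (C_1 L3962842 (C_1 L3964684 (C_1 L3964688 (C_1 L339868 N_1))))))) (by decide +kernel)
theorem L3964690 : W_1 (nat_lit 12) (nat_lit 0x1000080000000300008000000000000000000) (nat_lit 0x0) (nat_lit 0x2e0077000be00cf00778007c0038000000000) := Q_1 (nat_lit 74) (C_1 L32323 (C_1 L28280 (C_1 L340073 (C_1 L3964677 (C_1 L3964689 N_1))))) (by decide +kernel)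
theorem L3964712 : W_1 (nat_lit 10) (nat_lit 0x100008000000030000c000200000000000000) (nat_lit 0x0) (nat_lit 0x100009800cc00f0003d000d0006800000) := Q_1 (nat_lit 77) (C_1 L3963393 (C_1 L3963420 (C_1 L3963388 (C_1 L3963107 (C_1 L3963413 N_1))))) (by decide +kernel)
theorem L3964713 : W_1 (nat_lit 2) (nat_lit 0x100008000b00078002c000200000000000000) (nat_lit 0x0) (nat_lit 0x400020000000000000000400000000000000) := D_1 (nat_lit 125) (nat_lit 142) (nat_lit 58) (nat_lit 6) (nat_lit 6) (nat_lit 8) (nat_lit 6) (nat_lit 6) (nat_lit 7) (by decide +kernel)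
theorem L3964714 : W_1 (nat_lit 3) (nat_lit 0x100008000a00078002c000200000000000000) (nat_lit 0x0) (nat_lit 0x400020001800000000000400000000000000) := T_1 (nat_lit 108) (nat_lit 107) (nat_lit 1) (nat_lit 9) (nat_lit 5) L3964713 (by decide +kernel)
theorem L3964715 : W_1 (nat_lit 4) (nat_lit 0x100008000a00070002c000200000000000000) (nat_lit 0x0) (nat_lit 0x400020001800080040000400000000000000) := T_1 (nat_lit 91) (nat_lit 78) (nat_lit 2) (nat_lit 6) (nat_lit 5) L3964714 (by decide +kernel)
theorem L3964716 : W_1 (nat_lit 5) (nat_lit 0x100008000200070002c000200000000000000) (nat_lit 0x0) (nat_lit 0x400120009800080040000400000000000000) := T_1 (nat_lit 111) (nat_lit 128) (nat_lit 5) (nat_lit 9) (nat_lit 4) L3964715 (by decide +kernel)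
theorem L3964717 : W_1 (nat_lit 6) (nat_lit 0x100008000200030002c000200000000000000) (nat_lit 0x0) (nat_lit 0x400120009800c80040000400000000000000) := T_1 (nat_lit 94) (nat_lit 95) (nat_lit 0) (nat_lit 10) (nat_lit 5) L3964716 (by decide +kernel)
theorem L3964718 : W_1 (nat_lit 7) (nat_lit 0x100008000000030002c000200000000000000) (nat_lit 0x0) (nat_lit 0x40016000b800c80040000400000000000000) := T_1 (nat_lit 109) (nat_lit 126) (nat_lit 7) (nat_lit 7) (nat_lit 4) L3964717 (by decide +kernel)
theorem L3964719 : W_1 (nat_lit 2) (nat_lit 0x100008000200070003c001200040000000000) (nat_lit 0x0) (nat_lit 0x80006000000) := D_1 (nat_lit 43) (nat_lit 25) (nat_lit 26) (nat_lit 4) (nat_lit 9) (nat_lit 5) (nat_lit 5) (nat_lit 9) (nat_lit 1) (by decide +kernel)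
theorem L3964720 : W_1 (nat_lit 3) (nat_lit 0x100008000200070003c000200040000000000) (nat_lit 0x0) (nat_lit 0x3000080006000000) := T_1 (nat_lit 60) (nat_lit 61) (nat_lit 2) (nat_lit 6) (nat_lit 4) L3964719 (by decide +kernel)
theorem L3964721 : W_1 (nat_lit 4) (nat_lit 0x100008000200070003c000200000000000000) (nat_lit 0x0) (nat_lit 0x38000c0006000000) := T_1 (nat_lit 42) (nat_lit 59) (nat_lit 5) (nat_lit 8) (nat_lit 2) L3964720 (by decide +kernel)
theorem L3964722 : W_1 (nat_lit 5) (nat_lit 0x100008000000070003c000200000000000000) (nat_lit 0x0) (nat_lit 0x400020000000000038000c0006000000) := T_1 (nat_lit 109) (nat_lit 126) (nat_lit 7) (nat_lit 7) (nat_lit 4) L3964721 (by decide +kernel)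
theorem L3964723 : W_1 (nat_lit 6) (nat_lit 0x100008000000070002c000200000000000000) (nat_lit 0x0) (nat_lit 0x400020000000100039000c0006000000) := T_1 (nat_lit 76) (nat_lit 56) (nat_lit 0) (nat_lit 9) (nat_lit 4) L3964722 (by decide +kernel)
theorem L3964724 : W_1 (nat_lit 7) (nat_lit 0x100008000000030002c000200000000000000) (nat_lit 0x0) (nat_lit 0x40002000c000100039000c0006000000) := T_1 (nat_lit 94) (nat_lit 95) (nat_lit 0) (nat_lit 10) (nat_lit 5) L3964723 (by decide +kernel)
theorem L3964725 : W_1 (nat_lit 8) (nat_lit 0x100008000000030000c000200000000000000) (nat_lit 0x0) (nat_lit 0x40016000b800cc00f0003d000c0006000000) := Q_1 (nat_lit 77) (C_1 L3962981 (C_1 L3963420 (C_1 L3962992 (C_1 L3964718 (C_1 L3964724 N_1))))) (by decide +kernel)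
theorem L3964726 : W_1 (nat_lit 11) (nat_lit 0x100008000000030000c000000000000000000) (nat_lit 0x0) (nat_lit 0x40016000b800cc00f0003f000d0006800000) := Q_1 (nat_lit 57) (C_1 L415050 (C_1 L3964712 (C_1 L257257 (C_1 L257131 (C_1 L3964725 N_1))))) (by decide +kernel)
theorem L3964727 : W_1 (nat_lit 12) (nat_lit 0x1000080000000300008000000000000000000) (nat_lit 0x0) (nat_lit 0x40016000b800cc00f7003f000d0006800000) := Q_1 (nat_lit 74) (C_1 L32323 (C_1 L258920 (C_1 L340073 (C_1 L3964726 N_1)))) (by decide +kernel)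
theorem L3964728 : W_1 (nat_lit 2) (nat_lit 0x100008000000030007c002000000000000000) (nat_lit 0x0) (nat_lit 0x1c00000000000000000000000) := D_1 (nat_lit 95) (nat_lit 96) (nat_lit 94) (nat_lit 3) (nat_lit 7) (nat_lit 4) (nat_lit 3) (nat_lit 6) (nat_lit 4) (by decide +kernel)
theorem L3964729 : W_1 (nat_lit 3) (nat_lit 0x1000080000000300078002000000000000000) (nat_lit 0x0) (nat_lit 0x1c00004001000000000000000) := T_1 (nat_lit 74) (nat_lit 60) (nat_lit 2) (nat_lit 6) (nat_lit 4) L3964728 (by decide +kernel)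
theorem L3964730 : W_1 (nat_lit 4) (nat_lit 0x1000080000000300078000000000000000000) (nat_lit 0x0) (nat_lit 0x1c00004007000000000000000) := T_1 (nat_lit 61) (nat_lit 62) (nat_lit 2) (nat_lit 7) (nat_lit 4) L3964729 (by decide +kernel)
theorem L3964731 : W_1 (nat_lit 5) (nat_lit 0x1000080000000300038000000000000000000) (nat_lit 0x0) (nat_lit 0x1c000c4007000000000000000) := T_1 (nat_lit 78) (nat_lit 79) (nat_lit 1) (nat_lit 11) (nat_lit 4) L3964730 (by decide +kernel)
theorem L3964732 : W_1 (nat_lit 11) (nat_lit 0x1000080000000300018000000000000000000) (nat_lit 0x0) (nat_lit 0xe00760009801cc00e4007400020000000000) := Q_1 (nat_lit 77) (C_1 L257445 (C_1 L3964639 (C_1 L3964731 N_1))) (by decide +kernel)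
theorem L3964733 : W_1 (nat_lit 2) (nat_lit 0x1000080000000780018000000000000000000) (nat_lit 0x0) (nat_lit 0x60020000000000000000000) := D_1 (nat_lit 90) (nat_lit 89) (nat_lit 77) (nat_lit 2) (nat_lit 4) (nat_lit 5) (nat_lit 2) (nat_lit 5) (nat_lit 5) (by decide +kernel)
theorem L3964734 : W_1 (nat_lit 2) (nat_lit 0x100008000900078003a000400040000000000) (nat_lit 0x0) (nat_lit 0x400020002000000000000000000000000000) := D_1 (nat_lit 125) (nat_lit 142) (nat_lit 109) (nat_lit 6) (nat_lit 6) (nat_lit 8) (nat_lit 5) (nat_lit 7) (nat_lit 3) (by decide +kernel)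
theorem L3964735 : W_1 (nat_lit 3) (nat_lit 0x100008000900078003a000000040000000000) (nat_lit 0x0) (nat_lit 0x400020002000000000000400020000000000) := T_1 (nat_lit 58) (nat_lit 41) (nat_lit 5) (nat_lit 7) (nat_lit 2) L3964734 (by decide +kernel)
theorem L3964736 : W_1 (nat_lit 4) (nat_lit 0x100008000800078003a000000040000000000) (nat_lit 0x0) (nat_lit 0x400020003800000000000400020000000000) := T_1 (nat_lit 108) (nat_lit 107) (nat_lit 1) (nat_lit 9) (nat_lit 5) L3964735 (by decide +kernel)
theorem L3964737 : W_1 (nat_lit 5) (nat_lit 0x100008000800078003a000000000000000000) (nat_lit 0x0) (nat_lit 0x400020003800000000000c00060000000000) := T_1 (nat_lit 42) (nat_lit 59) (nat_lit 7) (nat_lit 8) (nat_lit 2) L3964736 (by decide +kernel)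
theorem L3964738 : W_1 (nat_lit 6) (nat_lit 0x100008000000078003a000000000000000000) (nat_lit 0x0) (nat_lit 0x40012000b800000000000c00060000000000) := T_1 (nat_lit 111) (nat_lit 128) (nat_lit 5) (nat_lit 9) (nat_lit 4) L3964737 (by decide +kernel)
theorem L3964739 : W_1 (nat_lit 7) (nat_lit 0x100008000000078001a000000000000000000) (nat_lit 0x0) (nat_lit 0x40012000b800000060000c00060000000000) := T_1 (nat_lit 77) (nat_lit 78) (nat_lit 2) (nat_lit 6) (nat_lit 5) L3964738 (by decide +kernel)
theorem L3964740 : W_1 (nat_lit 8) (nat_lit 0x1000080000000780018000000000000000000) (nat_lit 0x0) (nat_lit 0x40012000b800000066000c00060000000000) := T_1 (nat_lit 73) (nat_lit 74) (nat_lit 3) (nat_lit 5) (nat_lit 4) L3964739 (by decide +kernel)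
theorem L3964741 : W_1 (nat_lit 9) (nat_lit 0x1000080000000700018000000000000000000) (nat_lit 0x0) (nat_lit 0x40012000bc000e0066000c00060000000000) := Q_1 (nat_lit 91) (C_1 L3964256 (C_1 L3964733 (C_1 L3964740 N_1))) (by decide +kernel)
theorem L3964742 : W_1 (nat_lit 6) (nat_lit 0x1000080000000700018000000000000000000) (nat_lit 0x0) (nat_lit 0x1000080018800e0006000100000000000) := T_1 (nat_lit 95) (nat_lit 96) (nat_lit 0) (nat_lit 11) (nat_lit 5) L3964440 (by decide +kernel)
theorem L3964743 : W_1 (nat_lit 10) (nat_lit 0x1000080000000300018000000000000000000) (nat_lit 0x0) (nat_lit 0x40012000bc01ce00e6006c00160000000000) := Q_1 (nat_lit 94) (C_1 L257221 (C_1 L3964741 (C_1 L3964742 N_1))) (by decide +kernel)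
theorem L3964744 : W_1 (nat_lit 7) (nat_lit 0x1000080002000300038000000000000000000) (nat_lit 0x0) (nat_lit 0x9001c000c0006800140008000000) := T_1 (nat_lit 42) (nat_lit 59) (nat_lit 5) (nat_lit 8) (nat_lit 2) L3963679 (by decide +kernel)
theorem L3964745 : W_1 (nat_lit 8) (nat_lit 0x1000080000000300038000000000000000000) (nat_lit 0x0) (nat_lit 0x4000b001c000c0006800140008000000) := T_1 (nat_lit 109) (nat_lit 126) (nat_lit 7) (nat_lit 7) (nat_lit 4) L3964744 (by decide +kernel)
theorem L3964746 : W_1 (nat_lit 2) (nat_lit 0x1000080002000300038000400040000000000) (nat_lit 0x0) (nat_lit 0x20003000000) := D_1 (nat_lit 41) (nat_lit 25) (nat_lit 24) (nat_lit 6) (nat_lit 7) (nat_lit 5) (nat_lit 7) (nat_lit 7) (nat_lit 1) (by decide +kernel)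
theorem L3964747 : W_1 (nat_lit 3) (nat_lit 0x1000080002000300038000400000000000000) (nat_lit 0x0) (nat_lit 0x800060003000000) := T_1 (nat_lit 42) (nat_lit 59) (nat_lit 6) (nat_lit 7) (nat_lit 6) L3964746 (by decide +kernel)
theorem L3964748 : W_1 (nat_lit 4) (nat_lit 0x1000080000000300038000400000000000000) (nat_lit 0x0) (nat_lit 0x40002000000000000800060003000000) := T_1 (nat_lit 109) (nat_lit 126) (nat_lit 7) (nat_lit 7) (nat_lit 4) L3964747 (by decide +kernel)
theorem L3964749 : W_1 (nat_lit 2) (nat_lit 0x1000080003000380038000400040000000000) (nat_lit 0x0) (nat_lit 0xc00400000000000000000000000) := D_1 (nat_lit 107) (nat_lit 106) (nat_lit 94) (nat_lit 2) (nat_lit 4) (nat_lit 6) (nat_lit 1) (nat_lit 9) (nat_lit 5) (by decide +kernel)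
theorem L3964750 : W_1 (nat_lit 3) (nat_lit 0x1000080002000380038000400040000000000) (nat_lit 0x0) (nat_lit 0x20001c00400000000000000000000000) := T_1 (nat_lit 108) (nat_lit 125) (nat_lit 5) (nat_lit 7) (nat_lit 3) L3964749 (by decide +kernel)
theorem L3964751 : W_1 (nat_lit 4) (nat_lit 0x1000080002000380038000400000000000000) (nat_lit 0x0) (nat_lit 0x20001c00400000000800040000000000) := T_1 (nat_lit 42) (nat_lit 59) (nat_lit 6) (nat_lit 7) (nat_lit 6) L3964750 (by decide +kernel)
theorem L3964752 : W_1 (nat_lit 5) (nat_lit 0x1000080000000380038000400000000000000) (nat_lit 0x0) (nat_lit 0x60003c00400000000800040000000000) := T_1 (nat_lit 109) (nat_lit 126) (nat_lit 7) (nat_lit 7) (nat_lit 4) L3964751 (by decide +kernel)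
theorem L3964753 : W_1 (nat_lit 6) (nat_lit 0x1000080000000300038000400000000000000) (nat_lit 0x0) (nat_lit 0x60003c004c0000000800040000000000) := T_1 (nat_lit 91) (nat_lit 90) (nat_lit 2) (nat_lit 5) (nat_lit 5) L3964752 (by decide +kernel)
theorem L3964754 : W_1 (nat_lit 7) (nat_lit 0x1000080000000300038000000000000000000) (nat_lit 0x0) (nat_lit 0x60003c004c0000000c00060003000000) := Q_1 (nat_lit 58) (C_1 L3964055 (C_1 L3964051 (C_1 L3964748 (C_1 L3964753 N_1)))) (by decide +kernel)
theorem L3964755 : W_1 (nat_lit 9) (nat_lit 0x1000080000000300018000000000000000000) (nat_lit 0x0) (nat_lit 0x6000bc01cc00e0006c0016000b000000) := Q_1 (nat_lit 77) (C_1 L257445 (C_1 L3964745 (C_1 L3964754 N_1))) (by decide +kernel)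
theorem L3964768 : W_1 (nat_lit 2) (nat_lit 0x10000800020003c001a000800000000000000) (nat_lit 0x0) (nat_lit 0x400004001000000000000000) := D_1 (nat_lit 74) (nat_lit 94) (nat_lit 60) (nat_lit 3) (nat_lit 5) (nat_lit 4) (nat_lit 2) (nat_lit 5) (nat_lit 4) (by decide +kernel)
theorem L3964769 : W_1 (nat_lit 3) (nat_lit 0x10000800020003c0018000800000000000000) (nat_lit 0x0) (nat_lit 0x400007001000000000000000) := T_1 (nat_lit 73) (nat_lit 72) (nat_lit 0) (nat_lit 8) (nat_lit 5) L3964768 (by decide +kernel)
theorem L3964810 : W_1 (nat_lit 4) (nat_lit 0x100008000000070001c000400000000000000) (nat_lit 0x0) (nat_lit 0x40002000000000000800060003000000) := T_1 (nat_lit 41) (nat_lit 24) (nat_lit 7) (nat_lit 7) (nat_lit 1) L3962921 (by decide +kernel)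
theorem L3964811 : W_1 (nat_lit 5) (nat_lit 0x100008000000030001c000400000000000000) (nat_lit 0x0) (nat_lit 0x40002000c00000000800060003000000) := T_1 (nat_lit 94) (nat_lit 95) (nat_lit 0) (nat_lit 10) (nat_lit 5) L3964810 (by decide +kernel)
theorem L3964812 : W_1 (nat_lit 2) (nat_lit 0x100008000300030001c000400000000000000) (nat_lit 0x0) (nat_lit 0x80000000000020001000000) := D_1 (nat_lit 41) (nat_lit 91) (nat_lit 24) (nat_lit 5) (nat_lit 7) (nat_lit 2) (nat_lit 7) (nat_lit 7) (nat_lit 1) (by decide +kernel)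
theorem L3964813 : W_1 (nat_lit 3) (nat_lit 0x100008000200030001c000400000000000000) (nat_lit 0x0) (nat_lit 0x20001000080000000000020001000000) := T_1 (nat_lit 108) (nat_lit 125) (nat_lit 5) (nat_lit 7) (nat_lit 3) L3964812 (by decide +kernel)
theorem L3964814 : W_1 (nat_lit 4) (nat_lit 0x100008000000030001c000400000000000000) (nat_lit 0x0) (nat_lit 0x60003000080000000000020001000000) := T_1 (nat_lit 109) (nat_lit 126) (nat_lit 7) (nat_lit 7) (nat_lit 4) L3964813 (by decide +kernel)
theorem L3964815 : W_1 (nat_lit 2) (nat_lit 0x10000800000007a001c001c00060004000000) (nat_lit 0x0) (nat_lit 0x18000800000) := D_1 (nat_lit 40) (nat_lit 39) (nat_lit 23) (nat_lit 3) (nat_lit 5) (nat_lit 2) (nat_lit 4) (nat_lit 7) (nat_lit 5) (by decide +kernel)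
theorem L3964816 : W_1 (nat_lit 3) (nat_lit 0x10000800000007a001c000c00060004000000) (nat_lit 0x0) (nat_lit 0x3000018000800000) := T_1 (nat_lit 60) (nat_lit 61) (nat_lit 1) (nat_lit 10) (nat_lit 3) L3964815 (by decide +kernel)
theorem L3964817 : W_1 (nat_lit 4) (nat_lit 0x10000800000007a001c000c00060000000000) (nat_lit 0x0) (nat_lit 0x3000098004800000) := T_1 (nat_lit 26) (nat_lit 43) (nat_lit 6) (nat_lit 8) (nat_lit 5) L3964816 (by decide +kernel)
theorem L3964818 : W_1 (nat_lit 5) (nat_lit 0x10000800000007a001c000400060000000000) (nat_lit 0x0) (nat_lit 0x8000000000003800098004800000) := T_1 (nat_lit 59) (nat_lit 111) (nat_lit 7) (nat_lit 8) (nat_lit 2) L3964817 (by decide +kernel)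
theorem L3964819 : W_1 (nat_lit 6) (nat_lit 0x100008000000078001c000400060000000000) (nat_lit 0x0) (nat_lit 0x8000060000003800098004800000) := T_1 (nat_lit 89) (nat_lit 90) (nat_lit 2) (nat_lit 4) (nat_lit 5) L3964818 (by decide +kernel)
theorem L3964820 : W_1 (nat_lit 7) (nat_lit 0x100008000000070001c000400060000000000) (nat_lit 0x0) (nat_lit 0x90000e0000003800098004800000) := T_1 (nat_lit 91) (nat_lit 108) (nat_lit 5) (nat_lit 7) (nat_lit 2) L3964819 (by decide +kernel)
theorem L3964821 : W_1 (nat_lit 8) (nat_lit 0x100008000000070001c000400020000000000) (nat_lit 0x0) (nat_lit 0x90000e00000038000d8006800000) := T_1 (nat_lit 42) (nat_lit 25) (nat_lit 6) (nat_lit 7) (nat_lit 5) L3964820 (by decide +kernel)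
theorem L3964822 : W_1 (nat_lit 9) (nat_lit 0x100008000000070001c000400000000000000) (nat_lit 0x0) (nat_lit 0x90000e00000038000f8007800000) := T_1 (nat_lit 41) (nat_lit 24) (nat_lit 7) (nat_lit 7) (nat_lit 1) L3964821 (by decide +kernel)
theorem L3964823 : W_1 (nat_lit 10) (nat_lit 0x100008000000030001c000400000000000000) (nat_lit 0x0) (nat_lit 0x9000ce00000038000f8007800000) := T_1 (nat_lit 94) (nat_lit 95) (nat_lit 0) (nat_lit 10) (nat_lit 5) L3964822 (by decide +kernel)
theorem L3964824 : W_1 (nat_lit 2) (nat_lit 0x100008000380030001c000400040000000000) (nat_lit 0x0) (nat_lit 0xc80000000000000000000000) := D_1 (nat_lit 94) (nat_lit 95) (nat_lit 91) (nat_lit 1) (nat_lit 10) (nat_lit 5) (nat_lit 1) (nat_lit 9) (nat_lit 5) (by decide +kernel)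
theorem L3964825 : W_1 (nat_lit 3) (nat_lit 0x100008000300030001c000400040000000000) (nat_lit 0x0) (nat_lit 0xc00c80000000000000000000000) := T_1 (nat_lit 107) (nat_lit 106) (nat_lit 2) (nat_lit 4) (nat_lit 6) L3964824 (by decide +kernel)
theorem L3964826 : W_1 (nat_lit 4) (nat_lit 0x100008000200030001c000400040000000000) (nat_lit 0x0) (nat_lit 0x20001c00c80000000000000000000000) := T_1 (nat_lit 108) (nat_lit 125) (nat_lit 5) (nat_lit 7) (nat_lit 3) L3964825 (by decide +kernel)
theorem L3964827 : W_1 (nat_lit 5) (nat_lit 0x100008000200030001c000400000000000000) (nat_lit 0x0) (nat_lit 0x20001c00c80000000800040000000000) := T_1 (nat_lit 42) (nat_lit 59) (nat_lit 6) (nat_lit 7) (nat_lit 6) L3964826 (by decide +kernel)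
theorem L3964828 : W_1 (nat_lit 6) (nat_lit 0x100008000000030001c000400000000000000) (nat_lit 0x0) (nat_lit 0x60003c00c80000000800040000000000) := T_1 (nat_lit 109) (nat_lit 126) (nat_lit 7) (nat_lit 7) (nat_lit 4) L3964827 (by decide +kernel)
theorem L3964829 : W_1 (nat_lit 11) (nat_lit 0x100008000000030001c000000000000000000) (nat_lit 0x0) (nat_lit 0x6000bc00ce0000003c000f8007800000) := Q_1 (nat_lit 58) (C_1 L3964811 (C_1 L3964814 (C_1 L3964823 (C_1 L3964828 N_1)))) (by decide +kernel)
theorem L3964830 : W_1 (nat_lit 12) (nat_lit 0x1000080000000300018000000000000000000) (nat_lit 0x0) (nat_lit 0x6000bc00ce0007003c000f8007800000) := Q_1 (nat_lit 74) (C_1 L340107 (C_1 L258915 (C_1 L3964829 N_1))) (by decide +kernel)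
theorem L3964831 : W_1 (nat_lit 13) (nat_lit 0x1000080000000300008000000000000000000) (nat_lit 0x0) (nat_lit 0x2f8077800bc01ce00f7007d801f800f800000) := Q_1 (nat_lit 76) (C_1 L3964732 (C_1 L3963857 (C_1 L3963363 (C_1 L3964743 (C_1 L3964755 (C_1 L3964830 N_1)))))) (by decide +kernel)
theorem L3964832 : W_1 (nat_lit 2) (nat_lit 0x100008000200038003c001e00080000000000) (nat_lit 0x0) (nat_lit 0x1000000000000000020001000000) := D_1 (nat_lit 41) (nat_lit 24) (nat_lit 108) (nat_lit 7) (nat_lit 7) (nat_lit 1) (nat_lit 6) (nat_lit 6) (nat_lit 6) (by decide +kernel)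
theorem L3964833 : W_1 (nat_lit 3) (nat_lit 0x100008000200038003c001a00080000000000) (nat_lit 0x0) (nat_lit 0x1000000000000400120001000000) := T_1 (nat_lit 58) (nat_lit 44) (nat_lit 2) (nat_lit 6) (nat_lit 3) L3964832 (by decide +kernel)
theorem L3964834 : W_1 (nat_lit 4) (nat_lit 0x100008000200038003c001800080000000000) (nat_lit 0x0) (nat_lit 0x1000000000000700120001000000) := T_1 (nat_lit 57) (nat_lit 56) (nat_lit 0) (nat_lit 9) (nat_lit 4) L3964833 (by decide +kernel)
theorem L3964835 : W_1 (nat_lit 5) (nat_lit 0x100008000200030003c001800080000000000) (nat_lit 0x0) (nat_lit 0x10000c0000000700120001000000) := T_1 (nat_lit 91) (nat_lit 90) (nat_lit 2) (nat_lit 5) (nat_lit 5) L3964834 (by decide +kernel)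
theorem L3964836 : W_1 (nat_lit 6) (nat_lit 0x100008000200030003c001800000000000000) (nat_lit 0x0) (nat_lit 0x10000c00000007001a0005000000) := T_1 (nat_lit 43) (nat_lit 26) (nat_lit 5) (nat_lit 9) (nat_lit 1) L3964835 (by decide +kernel)
theorem L3964837 : W_1 (nat_lit 7) (nat_lit 0x100008000200030003c000800000000000000) (nat_lit 0x0) (nat_lit 0x10000c00000037001a0005000000) := T_1 (nat_lit 60) (nat_lit 61) (nat_lit 2) (nat_lit 6) (nat_lit 4) L3964836 (by decide +kernel)
theorem L3964838 : W_1 (nat_lit 8) (nat_lit 0x100008000200030003c000000000000000000) (nat_lit 0x0) (nat_lit 0x10000c0000003f001e0005000000) := T_1 (nat_lit 59) (nat_lit 42) (nat_lit 5) (nat_lit 8) (nat_lit 2) L3964837 (by decide +kernel)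
theorem L3964839 : W_1 (nat_lit 9) (nat_lit 0x100008000000030003c000000000000000000) (nat_lit 0x0) (nat_lit 0x400030000c0000003f001e0005000000) := T_1 (nat_lit 109) (nat_lit 126) (nat_lit 7) (nat_lit 7) (nat_lit 4) L3964838 (by decide +kernel)
theorem L3964840 : W_1 (nat_lit 10) (nat_lit 0x100008000000030001c000000000000000000) (nat_lit 0x0) (nat_lit 0x400030000c00e0007f001e0005000000) := Q_1 (nat_lit 77) (C_1 L3963763 (C_1 L3964839 (C_1 L3962863 N_1))) (by decide +kernel)
theorem L3964841 : W_1 (nat_lit 11) (nat_lit 0x100008000000030000c000000000000000000) (nat_lit 0x0) (nat_lit 0x400030000e00f3007f801e0007000000) := Q_1 (nat_lit 76) (C_1 L257085 (C_1 L258915 (C_1 L259299 (C_1 L3964840 N_1)))) (by decide +kernel)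
theorem L3964842 : W_1 (nat_lit 2) (nat_lit 0x100008000b00078003c001100000004000000) (nat_lit 0x0) (nat_lit 0x400020000000000000000400000000000000) := D_1 (nat_lit 125) (nat_lit 142) (nat_lit 58) (nat_lit 6) (nat_lit 6) (nat_lit 8) (nat_lit 6) (nat_lit 6) (nat_lit 7) (by decide +kernel)
theorem L3964843 : W_1 (nat_lit 3) (nat_lit 0x100008000a00078003c001100000004000000) (nat_lit 0x0) (nat_lit 0x400020001800000000000400000000000000) := T_1 (nat_lit 108) (nat_lit 107) (nat_lit 1) (nat_lit 9) (nat_lit 5) L3964842 (by decide +kernel)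
theorem L3964844 : W_1 (nat_lit 4) (nat_lit 0x100008000a00078003c001000000004000000) (nat_lit 0x0) (nat_lit 0x400020001800000000000700000000000000) := T_1 (nat_lit 56) (nat_lit 57) (nat_lit 0) (nat_lit 9) (nat_lit 4) L3964843 (by decide +kernel)
theorem L3964845 : W_1 (nat_lit 5) (nat_lit 0x100008000a00070003c001000000004000000) (nat_lit 0x0) (nat_lit 0x4000200018000c0000000700000000000000) := T_1 (nat_lit 91) (nat_lit 90) (nat_lit 2) (nat_lit 5) (nat_lit 5) L3964844 (by decide +kernel)
theorem L3964846 : W_1 (nat_lit 6) (nat_lit 0x100008000200070003c001000000004000000) (nat_lit 0x0) (nat_lit 0x4001200098000c0000000700000000000000) := T_1 (nat_lit 111) (nat_lit 128) (nat_lit 5) (nat_lit 9) (nat_lit 4) L3964845 (by decide +kernel)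
theorem L3964847 : W_1 (nat_lit 7) (nat_lit 0x100008000200070003c001000000000000000) (nat_lit 0x0) (nat_lit 0x4001200098000c0000000700080004000000) := T_1 (nat_lit 26) (nat_lit 43) (nat_lit 5) (nat_lit 9) (nat_lit 1) L3964846 (by decide +kernel)
theorem L3964848 : W_1 (nat_lit 8) (nat_lit 0x100008000200030003c001000000000000000) (nat_lit 0x0) (nat_lit 0x400120009800cc0000000700080004000000) := T_1 (nat_lit 94) (nat_lit 95) (nat_lit 3) (nat_lit 6) (nat_lit 4) L3964847 (by decide +kernel)
theorem L3964849 : W_1 (nat_lit 9) (nat_lit 0x100008000200030003c000000000000000000) (nat_lit 0x0) (nat_lit 0x400120009800cc0000003700080004000000) := T_1 (nat_lit 60) (nat_lit 61) (nat_lit 2) (nat_lit 6) (nat_lit 4) L3964848 (by decide +kernel)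
theorem L3964850 : W_1 (nat_lit 10) (nat_lit 0x100008000000030003c000000000000000000) (nat_lit 0x0) (nat_lit 0x40016000b800cc0000003700080004000000) := T_1 (nat_lit 109) (nat_lit 126) (nat_lit 7) (nat_lit 7) (nat_lit 4) L3964849 (by decide +kernel)
theorem L3964851 : W_1 (nat_lit 11) (nat_lit 0x100008000000030001c000000000000000000) (nat_lit 0x0) (nat_lit 0x40016000b801cc00e0007700080004000000) := Q_1 (nat_lit 77) (C_1 L3963765 (C_1 L3963763 (C_1 L3964850 N_1))) (by decide +kernel)
theorem L3964852 : W_1 (nat_lit 2) (nat_lit 0x10000800000007a001c000c000e0000000000) (nat_lit 0x0) (nat_lit 0x300100000000000) := D_1 (nat_lit 57) (nat_lit 56) (nat_lit 44) (nat_lit 2) (nat_lit 5) (nat_lit 3) (nat_lit 1) (nat_lit 10) (nat_lit 2) (by decide +kernel)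
theorem L3964853 : W_1 (nat_lit 3) (nat_lit 0x10000800000007a001c000c00060000000000) (nat_lit 0x0) (nat_lit 0x300180004000000) := T_1 (nat_lit 43) (nat_lit 26) (nat_lit 6) (nat_lit 8) (nat_lit 5) L3964852 (by decide +kernel)
theorem L3964854 : W_1 (nat_lit 4) (nat_lit 0x10000800000007a001c000400060000000000) (nat_lit 0x0) (nat_lit 0x8000000000000b00180004000000) := T_1 (nat_lit 59) (nat_lit 111) (nat_lit 7) (nat_lit 8) (nat_lit 2) L3964853 (by decide +kernel)
theorem L3964855 : W_1 (nat_lit 5) (nat_lit 0x100008000000078001c000400060000000000) (nat_lit 0x0) (nat_lit 0x8000060000000b00180004000000) := T_1 (nat_lit 89) (nat_lit 90) (nat_lit 2) (nat_lit 4) (nat_lit 5) L3964854 (by decide +kernel)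
theorem L3964856 : W_1 (nat_lit 6) (nat_lit 0x100008000000070001c000400060000000000) (nat_lit 0x0) (nat_lit 0x90000e0000000b00180004000000) := T_1 (nat_lit 91) (nat_lit 108) (nat_lit 5) (nat_lit 7) (nat_lit 2) L3964855 (by decide +kernel)
theorem L3964857 : W_1 (nat_lit 7) (nat_lit 0x100008000000070001c000400020000000000) (nat_lit 0x0) (nat_lit 0x90000e0000000b001c0006000000) := T_1 (nat_lit 42) (nat_lit 25) (nat_lit 6) (nat_lit 7) (nat_lit 5) L3964856 (by decide +kernel)
theorem L3964858 : W_1 (nat_lit 8) (nat_lit 0x100008000000070001c000400000000000000) (nat_lit 0x0) (nat_lit 0x90000e0000000b001e0007000000) := T_1 (nat_lit 41) (nat_lit 24) (nat_lit 7) (nat_lit 7) (nat_lit 1) L3964857 (by decide +kernel)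
theorem L3964859 : W_1 (nat_lit 9) (nat_lit 0x100008000000030001c000400000000000000) (nat_lit 0x0) (nat_lit 0x9000ce0000000b001e0007000000) := T_1 (nat_lit 94) (nat_lit 95) (nat_lit 0) (nat_lit 10) (nat_lit 5) L3964858 (by decide +kernel)
theorem L3964860 : W_1 (nat_lit 10) (nat_lit 0x100008000000030001c000000000000000000) (nat_lit 0x0) (nat_lit 0x6000bc00ce0000000f001e0007000000) := Q_1 (nat_lit 58) (C_1 L3964814 (C_1 L3964811 (C_1 L3964828 (C_1 L3964859 N_1)))) (by decide +kernel)
theorem L3964861 : W_1 (nat_lit 2) (nat_lit 0x100008000100078003c000000000000000000) (nat_lit 0x0) (nat_lit 0x20000000000000000400020000000000) := D_1 (nat_lit 58) (nat_lit 41) (nat_lit 125) (nat_lit 5) (nat_lit 7) (nat_lit 2) (nat_lit 6) (nat_lit 6) (nat_lit 7) (by decide +kernel)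
theorem L3964862 : W_1 (nat_lit 3) (nat_lit 0x100008000000078003c000000000000000000) (nat_lit 0x0) (nat_lit 0x20001800000000000400020000000000) := T_1 (nat_lit 108) (nat_lit 107) (nat_lit 1) (nat_lit 9) (nat_lit 5) L3964861 (by decide +kernel)
theorem L3964863 : W_1 (nat_lit 4) (nat_lit 0x100008000000038003c000000000000000000) (nat_lit 0x0) (nat_lit 0x20001800c00000000400020000000000) := T_1 (nat_lit 94) (nat_lit 95) (nat_lit 3) (nat_lit 6) (nat_lit 4) L3964862 (by decide +kernel)
theorem L3964864 : W_1 (nat_lit 5) (nat_lit 0x100008000000030003c000000000000000000) (nat_lit 0x0) (nat_lit 0x20001800cc0000000400020000000000) := T_1 (nat_lit 91) (nat_lit 90) (nat_lit 2) (nat_lit 5) (nat_lit 5) L3964863 (by decide +kernel)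
theorem L3964865 : W_1 (nat_lit 6) (nat_lit 0x100008000000030001c000000000000000000) (nat_lit 0x0) (nat_lit 0x20001801cc00e0007400020000000000) := Q_1 (nat_lit 77) (C_1 L3963765 (C_1 L3963763 (C_1 L3964864 N_1))) (by decide +kernel)
theorem L3964866 : W_1 (nat_lit 12) (nat_lit 0x100008000000030000c000000000000000000) (nat_lit 0x0) (nat_lit 0x40016000bc01ce00f0007f001e0007000000) := Q_1 (nat_lit 76) (C_1 L3964851 (C_1 L3964860 (C_1 L3964840 (C_1 L3963856 (C_1 L3964865 N_1))))) (by decide +kernel)
theorem L3964867 : W_1 (nat_lit 13) (nat_lit 0x1000080000000300008000000000000000000) (nat_lit 0x0) (nat_lit 0x40016000bc01ce00f7007f801e0007000000) := Q_1 (nat_lit 74) (C_1 L32323 (C_1 L28280 (C_1 L340073 (C_1 L3964841 (C_1 L3964866 N_1))))) (by decide +kernel)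
theorem L3964868 : W_1 (nat_lit 17) (nat_lit 0x1000080000000300000000000000000000000) (nat_lit 0x0) (nat_lit 0x4002f8077c00be01cf01ffc07fc03fc00fe00040) := Q_1 (nat_lit 75) (C_1 L3962859 (C_1 L257187 (C_1 L3963154 (C_1 L3963171 (C_1 L3963372 (C_1 L3963455 (C_1 L3963858 (C_1 L3964039 (C_1 L3964042 (C_1 L3964605 (C_1 L3964636 (C_1 L3964670 (C_1 L3964690 (C_1 L3964727 (C_1 L3964831 (C_1 L3964867 N_1)))))))))))))))) (by decide +kernel)
theorem L3964869 : W_1 (nat_lit 5) (nat_lit 0x1000080002000300000000000000000000000) (nat_lit 0x0) (nat_lit 0x8000f00140000000000018000000000000000000) := T_1 (nat_lit 126) (nat_lit 75) (nat_lit 7) (nat_lit 7) (nat_lit 4) L23935 (by decide +kernel)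
theorem L3965119 : W_1 (nat_lit 2) (nat_lit 0x1000080002000700008000400030002000000) (nat_lit 0x0) (nat_lit 0x10000000000001000100) := D_1 (nat_lit 24) (nat_lit 8) (nat_lit 76) (nat_lit 6) (nat_lit 7) (nat_lit 4) (nat_lit 7) (nat_lit 7) (nat_lit 1) (by decide +kernel)
theorem L3965120 : W_1 (nat_lit 3) (nat_lit 0x1000080002000700008000400030000000000) (nat_lit 0x0) (nat_lit 0x10000000040003000100) := T_1 (nat_lit 25) (nat_lit 42) (nat_lit 6) (nat_lit 7) (nat_lit 5) L3965119 (by decide +kernel)
theorem L3965121 : W_1 (nat_lit 4) (nat_lit 0x1000080002000700008000400010000000000) (nat_lit 0x0) (nat_lit 0x10000000060003800100) := T_1 (nat_lit 41) (nat_lit 23) (nat_lit 4) (nat_lit 7) (nat_lit 5) L3965120 (by decide +kernel)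
theorem L3965122 : W_1 (nat_lit 5) (nat_lit 0x1000080002000700008000400000000000000) (nat_lit 0x0) (nat_lit 0x10000200070003800100) := T_1 (nat_lit 40) (nat_lit 57) (nat_lit 4) (nat_lit 7) (nat_lit 6) L3965121 (by decide +kernel)
theorem L3965169 : W_1 (nat_lit 5) (nat_lit 0x1000080002000300018000400000000000000) (nat_lit 0x0) (nat_lit 0x64000380030001000000) := T_1 (nat_lit 24) (nat_lit 41) (nat_lit 7) (nat_lit 7) (nat_lit 1) L257230 (by decide +kernel)
theorem L3965170 : W_1 (nat_lit 6) (nat_lit 0x1000080002000300018000000000000000000) (nat_lit 0x0) (nat_lit 0x64000f80070003000000) := Q_1 (nat_lit 58) (C_1 L257240 (C_1 L257226 (C_1 L3965169 N_1))) (by decide +kernel)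
theorem L3965239 : W_1 (nat_lit 2) (nat_lit 0x100008000200030000e000600000000000000) (nat_lit 0x0) (nat_lit 0x1800040000000000) := D_1 (nat_lit 59) (nat_lit 42) (nat_lit 60) (nat_lit 6) (nat_lit 7) (nat_lit 6) (nat_lit 1) (nat_lit 9) (nat_lit 3) (by decide +kernel)
theorem L3965240 : W_1 (nat_lit 3) (nat_lit 0x100008000200030000e000400000000000000) (nat_lit 0x0) (nat_lit 0x1a00050000000000) := T_1 (nat_lit 57) (nat_lit 40) (nat_lit 4) (nat_lit 7) (nat_lit 6) L3965239 (by decide +kernel)
theorem L3965241 : W_1 (nat_lit 4) (nat_lit 0x100008000200030000c000400000000000000) (nat_lit 0x0) (nat_lit 0x3001a00050000000000) := T_1 (nat_lit 73) (nat_lit 72) (nat_lit 3) (nat_lit 4) (nat_lit 4) L3965240 (by decide +kernel)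
theorem L3965689 : W_1 (nat_lit 2) (nat_lit 0x100008000000030007c000000000000000000) (nat_lit 0x0) (nat_lit 0x700000000000000) := D_1 (nat_lit 57) (nat_lit 58) (nat_lit 56) (nat_lit 0) (nat_lit 10) (nat_lit 4) (nat_lit 0) (nat_lit 9) (nat_lit 4) (by decide +kernel)
theorem L3965690 : W_1 (nat_lit 3) (nat_lit 0x100008000000030003c000000000000000000) (nat_lit 0x0) (nat_lit 0xc0000700000000000000) := T_1 (nat_lit 78) (nat_lit 79) (nat_lit 1) (nat_lit 11) (nat_lit 4) L3965689 (by decide +kernel)
theorem L3965792 : W_1 (nat_lit 2) (nat_lit 0x1000080000000700018000600070000000000) (nat_lit 0x0) (nat_lit 0x180080000000000) := D_1 (nat_lit 56) (nat_lit 55) (nat_lit 43) (nat_lit 3) (nat_lit 4) (nat_lit 3) (nat_lit 1) (nat_lit 9) (nat_lit 2) (by decide +kernel)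
theorem L3965793 : W_1 (nat_lit 3) (nat_lit 0x1000080000000700018000400070000000000) (nat_lit 0x0) (nat_lit 0x2000000000000380080000000000) := T_1 (nat_lit 57) (nat_lit 109) (nat_lit 4) (nat_lit 7) (nat_lit 6) L3965792 (by decide +kernel)
theorem L3965794 : W_1 (nat_lit 4) (nat_lit 0x1000080000000700018000400060000000000) (nat_lit 0x0) (nat_lit 0x2000000000000380090000800000) := T_1 (nat_lit 40) (nat_lit 23) (nat_lit 4) (nat_lit 7) (nat_lit 5) L3965793 (by decide +kernel)
theorem L3965795 : W_1 (nat_lit 5) (nat_lit 0x1000080000000700018000400020000000000) (nat_lit 0x0) (nat_lit 0x20000000000003800d0002800000) := T_1 (nat_lit 42) (nat_lit 25) (nat_lit 6) (nat_lit 7) (nat_lit 5) L3965794 (by decide +kernel)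
theorem L3965796 : W_1 (nat_lit 6) (nat_lit 0x1000080000000700018000400000000000000) (nat_lit 0x0) (nat_lit 0x20000000000003800f0003800000) := T_1 (nat_lit 41) (nat_lit 24) (nat_lit 7) (nat_lit 7) (nat_lit 1) L3965795 (by decide +kernel)
theorem L3965850 : W_1 (nat_lit 2) (nat_lit 0x1000080000000700008000400020000800000) (nat_lit 0x0) (nat_lit 0x10000000000001000040) := D_1 (nat_lit 24) (nat_lit 6) (nat_lit 76) (nat_lit 4) (nat_lit 7) (nat_lit 4) (nat_lit 7) (nat_lit 7) (nat_lit 1) (by decide +kernel)
theorem L3965851 : W_1 (nat_lit 3) (nat_lit 0x1000080000000700008000400020000000000) (nat_lit 0x0) (nat_lit 0x10000000010001800040) := T_1 (nat_lit 23) (nat_lit 40) (nat_lit 4) (nat_lit 7) (nat_lit 5) L3965850 (by decide +kernel)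
theorem L3965852 : W_1 (nat_lit 2) (nat_lit 0x1000080000000700008000400020001800000) (nat_lit 0x0) (nat_lit 0x40002000100) := D_1 (nat_lit 25) (nat_lit 42) (nat_lit 8) (nat_lit 6) (nat_lit 7) (nat_lit 5) (nat_lit 6) (nat_lit 7) (nat_lit 4) (by decide +kernel)
theorem L3965853 : W_1 (nat_lit 3) (nat_lit 0x1000080000000700008000400020000800000) (nat_lit 0x0) (nat_lit 0x40003000140) := T_1 (nat_lit 24) (nat_lit 6) (nat_lit 4) (nat_lit 7) (nat_lit 4) L3965852 (by decide +kernel)
theorem L3965854 : W_1 (nat_lit 4) (nat_lit 0x1000080000000700008000400020000000000) (nat_lit 0x0) (nat_lit 0x50003800140) := T_1 (nat_lit 23) (nat_lit 40) (nat_lit 4) (nat_lit 7) (nat_lit 5) L3965853 (by decide +kernel)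
theorem L3965855 : W_1 (nat_lit 2) (nat_lit 0x1000080000000700008000400020002000000) (nat_lit 0x0) (nat_lit 0x10000000000001000100) := D_1 (nat_lit 24) (nat_lit 8) (nat_lit 76) (nat_lit 6) (nat_lit 7) (nat_lit 4) (nat_lit 7) (nat_lit 7) (nat_lit 1) (by decide +kernel)
theorem L3965856 : W_1 (nat_lit 3) (nat_lit 0x1000080000000700008000400020000000000) (nat_lit 0x0) (nat_lit 0x10000000040003000100) := T_1 (nat_lit 25) (nat_lit 42) (nat_lit 6) (nat_lit 7) (nat_lit 5) L3965855 (by decide +kernel)
theorem L3965946 : W_1 (nat_lit 2) (nat_lit 0x1000080000000300018000700030000000000) (nat_lit 0x0) (nat_lit 0x60000800000000000000) := D_1 (nat_lit 77) (nat_lit 78) (nat_lit 59) (nat_lit 0) (nat_lit 10) (nat_lit 4) (nat_lit 3) (nat_lit 5) (nat_lit 3) (by decide +kernel)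
theorem L3965947 : W_1 (nat_lit 3) (nat_lit 0x1000080000000300018000600030000000000) (nat_lit 0x0) (nat_lit 0x60000980000000000000) := T_1 (nat_lit 56) (nat_lit 55) (nat_lit 3) (nat_lit 4) (nat_lit 3) L3965946 (by decide +kernel)
theorem L3965948 : W_1 (nat_lit 4) (nat_lit 0x1000080000000300018000400030000000000) (nat_lit 0x0) (nat_lit 0x2000000060000b80000000000000) := T_1 (nat_lit 57) (nat_lit 109) (nat_lit 4) (nat_lit 7) (nat_lit 6) L3965947 (by decide +kernel)
theorem L3965949 : W_1 (nat_lit 5) (nat_lit 0x1000080000000300018000400020000000000) (nat_lit 0x0) (nat_lit 0x2000000060000b80010000800000) := T_1 (nat_lit 40) (nat_lit 23) (nat_lit 4) (nat_lit 7) (nat_lit 5) L3965948 (by decide +kernel)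
theorem L3965950 : W_1 (nat_lit 6) (nat_lit 0x1000080000000300018000400000000000000) (nat_lit 0x0) (nat_lit 0x2000000060000b80030001800000) := T_1 (nat_lit 41) (nat_lit 24) (nat_lit 7) (nat_lit 7) (nat_lit 1) L3965949 (by decide +kernel)
theorem L3965979 : W_1 (nat_lit 2) (nat_lit 0x1000080000000300018000c000e0000000000) (nat_lit 0x0) (nat_lit 0x300100000000000) := D_1 (nat_lit 57) (nat_lit 56) (nat_lit 44) (nat_lit 2) (nat_lit 5) (nat_lit 3) (nat_lit 1) (nat_lit 10) (nat_lit 2) (by decide +kernel)
theorem L3965980 : W_1 (nat_lit 3) (nat_lit 0x1000080000000300018000c00060000000000) (nat_lit 0x0) (nat_lit 0x300180004000000) := T_1 (nat_lit 43) (nat_lit 26) (nat_lit 6) (nat_lit 8) (nat_lit 5) L3965979 (by decide +kernel)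
theorem L3966005 : W_1 (nat_lit 2) (nat_lit 0x1000080000000300018000600070000000000) (nat_lit 0x0) (nat_lit 0x180080000000000) := D_1 (nat_lit 56) (nat_lit 55) (nat_lit 43) (nat_lit 3) (nat_lit 4) (nat_lit 3) (nat_lit 1) (nat_lit 9) (nat_lit 2) (by decide +kernel)
theorem L3966006 : W_1 (nat_lit 3) (nat_lit 0x1000080000000300018000400070000000000) (nat_lit 0x0) (nat_lit 0x2000000000000380080000000000) := T_1 (nat_lit 57) (nat_lit 109) (nat_lit 4) (nat_lit 7) (nat_lit 6) L3966005 (by decide +kernel)
theorem L3966007 : W_1 (nat_lit 4) (nat_lit 0x1000080000000300018000400060000000000) (nat_lit 0x0) (nat_lit 0x2000000000000380090000800000) := T_1 (nat_lit 40) (nat_lit 23) (nat_lit 4) (nat_lit 7) (nat_lit 5) L3966006 (by decide +kernel)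
theorem L3966008 : W_1 (nat_lit 5) (nat_lit 0x1000080000000300018000400020000000000) (nat_lit 0x0) (nat_lit 0x20000000000003800d0002800000) := T_1 (nat_lit 42) (nat_lit 25) (nat_lit 6) (nat_lit 7) (nat_lit 5) L3966007 (by decide +kernel)
theorem L3966009 : W_1 (nat_lit 6) (nat_lit 0x1000080000000300018000400000000000000) (nat_lit 0x0) (nat_lit 0x20000000000003800f0003800000) := T_1 (nat_lit 41) (nat_lit 24) (nat_lit 7) (nat_lit 7) (nat_lit 1) L3966008 (by decide +kernel)
theorem L3966016 : W_1 (nat_lit 3) (nat_lit 0x1000080002000300018000c00000000000000) (nat_lit 0x0) (nat_lit 0x20000380010000000000) := T_1 (nat_lit 57) (nat_lit 40) (nat_lit 4) (nat_lit 7) (nat_lit 6) L3963216 (by decide +kernel)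
theorem L3966017 : W_1 (nat_lit 4) (nat_lit 0x1000080002000300018000400000000000000) (nat_lit 0x0) (nat_lit 0x20000b80050000000000) := T_1 (nat_lit 59) (nat_lit 42) (nat_lit 6) (nat_lit 7) (nat_lit 6) L3966016 (by decide +kernel)
theorem L3966218 : W_1 (nat_lit 2) (nat_lit 0x1000080000000300008000400070000000000) (nat_lit 0x0) (nat_lit 0x2000000000000a00000000000000) := D_1 (nat_lit 109) (nat_lit 57) (nat_lit 59) (nat_lit 4) (nat_lit 7) (nat_lit 6) (nat_lit 6) (nat_lit 7) (nat_lit 6) (by decide +kernel)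
theorem L3966219 : W_1 (nat_lit 3) (nat_lit 0x1000080000000300008000400030000000000) (nat_lit 0x0) (nat_lit 0x2000000000000a00040002000000) := T_1 (nat_lit 42) (nat_lit 25) (nat_lit 6) (nat_lit 7) (nat_lit 5) L3966218 (by decide +kernel)
theorem L3966220 : W_1 (nat_lit 4) (nat_lit 0x1000080000000300008000400020000000000) (nat_lit 0x0) (nat_lit 0x2000000000000a00050002800000) := T_1 (nat_lit 40) (nat_lit 23) (nat_lit 4) (nat_lit 7) (nat_lit 5) L3966219 (by decide +kernel)
theorem L3966221 : W_1 (nat_lit 5) (nat_lit 0x1000080000000300008000400000000000000) (nat_lit 0x0) (nat_lit 0x2000000010000a00070003800140) := Q_1 (nat_lit 41) (C_1 L257477 (C_1 L257475 (C_1 L257472 (C_1 L3966220 N_1)))) (by decide +kernel)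
theorem L3966769 : W_1 (nat_lit 2) (nat_lit 0x100008000000030003c000100000000000000) (nat_lit 0x0) (nat_lit 0x3000080000000000000) := D_1 (nat_lit 73) (nat_lit 55) (nat_lit 72) (nat_lit 0) (nat_lit 8) (nat_lit 4) (nat_lit 3) (nat_lit 4) (nat_lit 4) (by decide +kernel)
theorem L3966770 : W_1 (nat_lit 3) (nat_lit 0x100008000000030003c000000000000000000) (nat_lit 0x0) (nat_lit 0x3000380000000000000) := T_1 (nat_lit 56) (nat_lit 57) (nat_lit 0) (nat_lit 9) (nat_lit 4) L3966769 (by decide +kernel)
theorem L3967215 : W_1 (nat_lit 2) (nat_lit 0x10001e0000000700000000000000000000000) (nat_lit 0x0) (nat_lit 0x18000000020000000000000000000) := D_1 (nat_lit 111) (nat_lit 112) (nat_lit 77) (nat_lit 2) (nat_lit 6) (nat_lit 7) (nat_lit 5) (nat_lit 9) (nat_lit 4) (by decide +kernel)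
theorem L3967270 : W_1 (nat_lit 2) (nat_lit 0x1400fe0020800700000000000000000000000) (nat_lit 0x0) (nat_lit 0x38000000000000000000000000000000000000) := D_1 (nat_lit 148) (nat_lit 147) (nat_lit 149) (nat_lit 3) (nat_lit 8) (nat_lit 7) (nat_lit 3) (nat_lit 9) (nat_lit 7) (by decide +kernel)
theorem L3967271 : W_1 (nat_lit 3) (nat_lit 0x14007e0020800700000000000000000000000) (nat_lit 0x0) (nat_lit 0x3a000800000000000000000000000000000000) := T_1 (nat_lit 131) (nat_lit 145) (nat_lit 1) (nat_lit 12) (nat_lit 7) L3967270 (by decide +kernel)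
theorem L3967272 : W_1 (nat_lit 4) (nat_lit 0x14003e0020800700000000000000000000000) (nat_lit 0x0) (nat_lit 0x3a000c00040000000000000000000000000000) := T_1 (nat_lit 130) (nat_lit 114) (nat_lit 2) (nat_lit 8) (nat_lit 7) L3967271 (by decide +kernel)
theorem L3967273 : W_1 (nat_lit 5) (nat_lit 0x14003e0000800700000000000000000000000) (nat_lit 0x0) (nat_lit 0x3a000c00070000000000000000000000000000) := T_1 (nat_lit 113) (nat_lit 112) (nat_lit 2) (nat_lit 7) (nat_lit 7) L3967272 (by decide +kernel)
theorem L3967274 : W_1 (nat_lit 6) (nat_lit 0x14001e0000800700000000000000000000000) (nat_lit 0x0) (nat_lit 0x3a800e00070000000000000000000000000000) := T_1 (nat_lit 129) (nat_lit 143) (nat_lit 1) (nat_lit 10) (nat_lit 7) L3967273 (by decide +kernel)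
theorem L3967275 : W_1 (nat_lit 7) (nat_lit 0x10001e0000800700000000000000000000000) (nat_lit 0x0) (nat_lit 0x3ae00e00070000000000000000000000000000) := T_1 (nat_lit 142) (nat_lit 141) (nat_lit 1) (nat_lit 9) (nat_lit 7) L3967274 (by decide +kernel)
theorem L3967276 : W_1 (nat_lit 8) (nat_lit 0x10001e0000000700000000000000000000000) (nat_lit 0x0) (nat_lit 0x3ae00e00071800000000000000000000000000) := T_1 (nat_lit 107) (nat_lit 108) (nat_lit 0) (nat_lit 9) (nat_lit 7) L3967275 (by decide +kernel)
theorem L3967986 : W_1 (nat_lit 2) (nat_lit 0x10000f0000400700000000000000000000000) (nat_lit 0x0) (nat_lit 0x800008000200000000000000000000000000) := D_1 (nat_lit 123) (nat_lit 105) (nat_lit 143) (nat_lit 0) (nat_lit 7) (nat_lit 7) (nat_lit 3) (nat_lit 4) (nat_lit 7) (by decide +kernel)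
theorem L3967987 : W_1 (nat_lit 3) (nat_lit 0x10000f0000000700000000000000000000000) (nat_lit 0x0) (nat_lit 0x800008000e00000000000000000000000000) := T_1 (nat_lit 106) (nat_lit 107) (nat_lit 0) (nat_lit 8) (nat_lit 7) L3967986 (by decide +kernel)
theorem L3967988 : W_1 (nat_lit 2) (nat_lit 0x12000f0000800700000000000000000000000) (nat_lit 0x0) (nat_lit 0x400100001000000000000000000000000000) := D_1 (nat_lit 128) (nat_lit 108) (nat_lit 142) (nat_lit 0) (nat_lit 9) (nat_lit 7) (nat_lit 1) (nat_lit 9) (nat_lit 7) (by decide +kernel)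
theorem L3967989 : W_1 (nat_lit 3) (nat_lit 0x10000f0000800700000000000000000000000) (nat_lit 0x0) (nat_lit 0x700100001000000000000000000000000000) := T_1 (nat_lit 141) (nat_lit 140) (nat_lit 1) (nat_lit 8) (nat_lit 7) L3967988 (by decide +kernel)
theorem L3967990 : W_1 (nat_lit 4) (nat_lit 0x10000f0000000700000000000000000000000) (nat_lit 0x0) (nat_lit 0x700100001c00000000000000000000000000) := T_1 (nat_lit 107) (nat_lit 106) (nat_lit 0) (nat_lit 8) (nat_lit 7) L3967989 (by decide +kernel)
theorem L3967991 : W_1 (nat_lit 5) (nat_lit 0x10000e0000000700000000000000000000000) (nat_lit 0x0) (nat_lit 0xf80118001e00000000000000000000000000) := Q_1 (nat_lit 124) (C_1 L262054 (C_1 L3967987 (C_1 L258566 (C_1 L3967990 N_1)))) (by decide +kernel)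
theorem L3967992 : W_1 (nat_lit 4) (nat_lit 0x10000e0000000700000000000000000000000) (nat_lit 0x0) (nat_lit 0x2800018000e00000000000000000000000000) := T_1 (nat_lit 124) (nat_lit 145) (nat_lit 3) (nat_lit 5) (nat_lit 7) L3967987 (by decide +kernel)
theorem L3968025 : W_1 (nat_lit 2) (nat_lit 0x10001f0000800700000000000000000000000) (nat_lit 0x0) (nat_lit 0x700000000000000000000000000000000000) := D_1 (nat_lit 141) (nat_lit 142) (nat_lit 140) (nat_lit 1) (nat_lit 9) (nat_lit 7) (nat_lit 1) (nat_lit 8) (nat_lit 7) (by decide +kernel)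
theorem L3968026 : W_1 (nat_lit 3) (nat_lit 0x10001e0000800700000000000000000000000) (nat_lit 0x0) (nat_lit 0x700010000400000000000000000000000000) := T_1 (nat_lit 124) (nat_lit 106) (nat_lit 0) (nat_lit 8) (nat_lit 7) L3968025 (by decide +kernel)
theorem L3968027 : W_1 (nat_lit 4) (nat_lit 0x10001e0000000700000000000000000000000) (nat_lit 0x0) (nat_lit 0x700010001c00000000000000000000000000) := T_1 (nat_lit 107) (nat_lit 108) (nat_lit 0) (nat_lit 9) (nat_lit 7) L3968026 (by decide +kernel)
theorem L3968921 : W_1 (nat_lit 2) (nat_lit 0x1000080000001f00000000000000000000000) (nat_lit 0x0) (nat_lit 0x1c0000000000000000000) := D_1 (nat_lit 79) (nat_lit 78) (nat_lit 80) (nat_lit 2) (nat_lit 7) (nat_lit 5) (nat_lit 2) (nat_lit 8) (nat_lit 5) (by decide +kernel)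
theorem L3968922 : W_1 (nat_lit 2) (nat_lit 0x21001f80021003f00120000000400000000000) (nat_lit 0x0) (nat_lit 0x180004000000000000000000000000) := D_1 (nat_lit 115) (nat_lit 116) (nat_lit 98) (nat_lit 2) (nat_lit 10) (nat_lit 7) (nat_lit 4) (nat_lit 13) (nat_lit 8) (by decide +kernel)
theorem L3968923 : W_1 (nat_lit 3) (nat_lit 0x21000f80021003f00120000000400000000000) (nat_lit 0x0) (nat_lit 0x40001000180004000000000000000000000000) := T_1 (nat_lit 132) (nat_lit 150) (nat_lit 3) (nat_lit 10) (nat_lit 7) L3968922 (by decide +kernel)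
theorem L3968924 : W_1 (nat_lit 4) (nat_lit 0x1000f80021003f00120000000400000000000) (nat_lit 0x0) (nat_lit 0x70001000180004000000000000000000000000) := T_1 (nat_lit 149) (nat_lit 148) (nat_lit 3) (nat_lit 9) (nat_lit 7) L3968923 (by decide +kernel)
theorem L3968925 : W_1 (nat_lit 5) (nat_lit 0x1000780021003f00120000000400000000000) (nat_lit 0x0) (nat_lit 0x72001800180004000000000000000000000000) := T_1 (nat_lit 131) (nat_lit 145) (nat_lit 1) (nat_lit 12) (nat_lit 7) L3968924 (by decide +kernel)
theorem L3968926 : W_1 (nat_lit 6) (nat_lit 0x1000580021003f00120000000400000000000) (nat_lit 0x0) (nat_lit 0x72801a00180004000000000000000000000000) := T_1 (nat_lit 129) (nat_lit 143) (nat_lit 1) (nat_lit 11) (nat_lit 7) L3968925 (by decide +kernel)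
theorem L3968927 : W_1 (nat_lit 7) (nat_lit 0x1000580021003f00120000000000000000000) (nat_lit 0x0) (nat_lit 0x72801a00180004000000008000400000000000) := T_1 (nat_lit 46) (nat_lit 63) (nat_lit 5) (nat_lit 12) (nat_lit 2) L3968926 (by decide +kernel)
theorem L3968928 : W_1 (nat_lit 8) (nat_lit 0x1000480021003f00120000000000000000000) (nat_lit 0x0) (nat_lit 0x72801b00188004000000008000400000000000) := T_1 (nat_lit 128) (nat_lit 111) (nat_lit 5) (nat_lit 9) (nat_lit 4) L3968927 (by decide +kernel)
theorem L3968929 : W_1 (nat_lit 9) (nat_lit 0x1000080021003f00120000000000000000000) (nat_lit 0x0) (nat_lit 0x7a801f00188004000000008000400000000000) := T_1 (nat_lit 130) (nat_lit 147) (nat_lit 6) (nat_lit 11) (nat_lit 8) L3968928 (by decide +kernel)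
theorem L3968930 : W_1 (nat_lit 10) (nat_lit 0x1000080021003f00100000000000000000000) (nat_lit 0x0) (nat_lit 0x7a801f00188004000030008000400000000000) := T_1 (nat_lit 77) (nat_lit 76) (nat_lit 0) (nat_lit 12) (nat_lit 5) L3968929 (by decide +kernel)
theorem L3968931 : W_1 (nat_lit 11) (nat_lit 0x1000080021001f00100000000000000000000) (nat_lit 0x0) (nat_lit 0x7a801f00188006000230008000400000000000) := T_1 (nat_lit 97) (nat_lit 81) (nat_lit 2) (nat_lit 9) (nat_lit 5) L3968930 (by decide +kernel)
theorem L3968932 : W_1 (nat_lit 12) (nat_lit 0x1000080020001f00100000000000000000000) (nat_lit 0x0) (nat_lit 0x7a801f0018b006000230008000400000000000) := T_1 (nat_lit 108) (nat_lit 109) (nat_lit 1) (nat_lit 10) (nat_lit 5) L3968931 (by decide +kernel)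
theorem L3968933 : W_1 (nat_lit 13) (nat_lit 0x1000080020001f00000000000000000000000) (nat_lit 0x0) (nat_lit 0x7a801f0018b0060003b0008000400000000000) := T_1 (nat_lit 80) (nat_lit 79) (nat_lit 2) (nat_lit 8) (nat_lit 5) L3968932 (by decide +kernel)
theorem L3968934 : W_1 (nat_lit 14) (nat_lit 0x1000080000001f00000000000000000000000) (nat_lit 0x0) (nat_lit 0x7a801f001eb0060003b0008000400000000000) := T_1 (nat_lit 113) (nat_lit 114) (nat_lit 3) (nat_lit 8) (nat_lit 5) L3968933 (by decide +kernel)
theorem L3968935 : W_1 (nat_lit 2) (nat_lit 0x1000080041003f00220000000000000000000) (nat_lit 0x0) (nat_lit 0x4000440000000000000000000) := D_1 (nat_lit 98) (nat_lit 82) (nat_lit 78) (nat_lit 2) (nat_lit 10) (nat_lit 5) (nat_lit 0) (nat_lit 13) (nat_lit 5) (by decide +kernel)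
theorem L3968936 : W_1 (nat_lit 3) (nat_lit 0x1000080041003f00200000000000000000000) (nat_lit 0x0) (nat_lit 0x4000470000000000000000000) := T_1 (nat_lit 77) (nat_lit 76) (nat_lit 0) (nat_lit 12) (nat_lit 5) L3968935 (by decide +kernel)
theorem L3968937 : W_1 (nat_lit 4) (nat_lit 0x1000080041003f00000000000000000000000) (nat_lit 0x0) (nat_lit 0x4000770000000000000000000) := T_1 (nat_lit 81) (nat_lit 80) (nat_lit 2) (nat_lit 9) (nat_lit 5) L3968936 (by decide +kernel)
theorem L3968938 : W_1 (nat_lit 5) (nat_lit 0x1000080041001f00000000000000000000000) (nat_lit 0x0) (nat_lit 0x80006000770000000000000000000) := T_1 (nat_lit 97) (nat_lit 115) (nat_lit 3) (nat_lit 9) (nat_lit 5) L3968937 (by decide +kernel)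
theorem L3968939 : W_1 (nat_lit 6) (nat_lit 0x1000080040001f00000000000000000000000) (nat_lit 0x0) (nat_lit 0x83006000770000000000000000000) := T_1 (nat_lit 108) (nat_lit 109) (nat_lit 1) (nat_lit 10) (nat_lit 5) L3968938 (by decide +kernel)
theorem L3968940 : W_1 (nat_lit 7) (nat_lit 0x1000080000001f00000000000000000000000) (nat_lit 0x0) (nat_lit 0xe3006000770000000000000000000) := T_1 (nat_lit 114) (nat_lit 113) (nat_lit 3) (nat_lit 8) (nat_lit 5) L3968939 (by decide +kernel)
theorem L3968941 : W_1 (nat_lit 2) (nat_lit 0x1000080040003f00040000000000000000000) (nat_lit 0x0) (nat_lit 0x4000030000000000000000000) := D_1 (nat_lit 77) (nat_lit 98) (nat_lit 76) (nat_lit 0) (nat_lit 13) (nat_lit 5) (nat_lit 0) (nat_lit 12) (nat_lit 5) (by decide +kernel)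
theorem L3968942 : W_1 (nat_lit 3) (nat_lit 0x1000080040001f00040000000000000000000) (nat_lit 0x0) (nat_lit 0x80006000030000000000000000000) := T_1 (nat_lit 97) (nat_lit 115) (nat_lit 3) (nat_lit 9) (nat_lit 5) L3968941 (by decide +kernel)
theorem L3968943 : W_1 (nat_lit 4) (nat_lit 0x1000080040001f00000000000000000000000) (nat_lit 0x0) (nat_lit 0x800060000f0000000000000000000) := T_1 (nat_lit 78) (nat_lit 79) (nat_lit 2) (nat_lit 7) (nat_lit 5) L3968942 (by decide +kernel)
theorem L3968944 : W_1 (nat_lit 5) (nat_lit 0x1000080000001f00000000000000000000000) (nat_lit 0x0) (nat_lit 0xe00060000f0000000000000000000) := T_1 (nat_lit 114) (nat_lit 113) (nat_lit 3) (nat_lit 8) (nat_lit 5) L3968943 (by decide +kernel)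
theorem L3968945 : W_1 (nat_lit 15) (nat_lit 0x1000080000000f00000000000000000000000) (nat_lit 0x0) (nat_lit 0x7a801f001eb0070007f0008000400000000000) := Q_1 (nat_lit 96) (C_1 L3968921 (C_1 L3968934 (C_1 L3968940 (C_1 L3968944 N_1)))) (by decide +kernel)
theorem L3968946 : W_1 (nat_lit 16) (nat_lit 0x1000080000000700000000000000000000000) (nat_lit 0x0) (nat_lit 0x7a801f401eb0078007fc008000400000000000) := Q_1 (nat_lit 95) (C_1 L257037 (C_1 L31984 (C_1 L3968945 N_1))) (by decide +kernel)
theorem L3968947 : W_1 (nat_lit 5) (nat_lit 0x1000080000000700000000000000000000000) (nat_lit 0x0) (nat_lit 0x400730018001cc000000000000000000) := Q_1 (nat_lit 95) (C_1 L31984 (C_1 L23667 N_1)) (by decide +kernel)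
theorem L3968955 : W_1 (nat_lit 2) (nat_lit 0x10001c0003000700000000000000000000000) (nat_lit 0x0) (nat_lit 0x20000c00000000000000000000000000) := D_1 (nat_lit 107) (nat_lit 125) (nat_lit 106) (nat_lit 0) (nat_lit 9) (nat_lit 7) (nat_lit 3) (nat_lit 4) (nat_lit 6) (by decide +kernel)
theorem L3968956 : W_1 (nat_lit 3) (nat_lit 0x10001c0002000700000000000000000000000) (nat_lit 0x0) (nat_lit 0x220001c00000000000000000000000000) := T_1 (nat_lit 108) (nat_lit 129) (nat_lit 0) (nat_lit 10) (nat_lit 7) L3968955 (by decide +kernel)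
theorem L3968957 : W_1 (nat_lit 4) (nat_lit 0x10001c0000000700000000000000000000000) (nat_lit 0x0) (nat_lit 0x220003c00000008000000000000000000) := T_1 (nat_lit 109) (nat_lit 75) (nat_lit 7) (nat_lit 7) (nat_lit 4) L3968956 (by decide +kernel)
theorem L3968959 : W_1 (nat_lit 2) (nat_lit 0x4001e000f0002000700000000000000000000000) (nat_lit 0x0) (nat_lit 0x1000080000000000000001000000000000000000000000000) := D_1 (nat_lit 175) (nat_lit 108) (nat_lit 192) (nat_lit 6) (nat_lit 5) (nat_lit 10) (nat_lit 6) (nat_lit 5) (nat_lit 11) (by decide +kernel)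
theorem L3968960 : W_1 (nat_lit 3) (nat_lit 0x4001e000d0002000700000000000000000000000) (nat_lit 0x0) (nat_lit 0x1000080000002000020001000000000000000000000000000) := T_1 (nat_lit 125) (nat_lit 145) (nat_lit 3) (nat_lit 5) (nat_lit 7) L3968959 (by decide +kernel)
theorem L3968961 : W_1 (nat_lit 4) (nat_lit 0x4001e000c0002000700000000000000000000000) (nat_lit 0x0) (nat_lit 0x1000080000002000038001000000000000000000000000000) := T_1 (nat_lit 124) (nat_lit 123) (nat_lit 0) (nat_lit 8) (nat_lit 8) L3968960 (by decide +kernel)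
theorem L3968962 : W_1 (nat_lit 5) (nat_lit 0x1e000c0002000700000000000000000000000) (nat_lit 0x0) (nat_lit 0x1000080006002000038001000000000000000000000000000) := T_1 (nat_lit 158) (nat_lit 157) (nat_lit 1) (nat_lit 8) (nat_lit 8) L3968961 (by decide +kernel)
theorem L3968963 : W_1 (nat_lit 6) (nat_lit 0x1c000c0002000700000000000000000000000) (nat_lit 0x0) (nat_lit 0x1000080006002300038001000000000000000000000000000) := T_1 (nat_lit 141) (nat_lit 140) (nat_lit 2) (nat_lit 4) (nat_lit 8) L3968962 (by decide +kernel)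
theorem L3968964 : W_1 (nat_lit 7) (nat_lit 0x18000c0002000700000000000000000000000) (nat_lit 0x0) (nat_lit 0x100008000e002700038001000000000000000000000000000) := T_1 (nat_lit 142) (nat_lit 159) (nat_lit 5) (nat_lit 7) (nat_lit 5) L3968963 (by decide +kernel)
theorem L3968965 : W_1 (nat_lit 8) (nat_lit 0x10000c0002000700000000000000000000000) (nat_lit 0x0) (nat_lit 0x100008000e002f00038001000000010000000000000000000) := T_1 (nat_lit 143) (nat_lit 76) (nat_lit 6) (nat_lit 7) (nat_lit 8) L3968964 (by decide +kernel)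
theorem L3968966 : W_1 (nat_lit 9) (nat_lit 0x10000c0000000700000000000000000000000) (nat_lit 0x0) (nat_lit 0x100008000e002f00038003000000018000000000000000000) := T_1 (nat_lit 109) (nat_lit 75) (nat_lit 7) (nat_lit 7) (nat_lit 4) L3968965 (by decide +kernel)
theorem L3968969 : W_1 (nat_lit 2) (nat_lit 0x10001c0018000700000000000000000000000) (nat_lit 0x0) (nat_lit 0x200060000000000000000000000000000) := D_1 (nat_lit 113) (nat_lit 114) (nat_lit 129) (nat_lit 1) (nat_lit 12) (nat_lit 6) (nat_lit 2) (nat_lit 7) (nat_lit 7) (by decide +kernel)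
theorem L3968970 : W_1 (nat_lit 3) (nat_lit 0x10001c0008000700000000000000000000000) (nat_lit 0x0) (nat_lit 0x220070000000000000000000000000000) := T_1 (nat_lit 112) (nat_lit 125) (nat_lit 2) (nat_lit 6) (nat_lit 7) L3968969 (by decide +kernel)
theorem L3968971 : W_1 (nat_lit 4) (nat_lit 0x10001c0000000700000000000000000000000) (nat_lit 0x0) (nat_lit 0x220078000000020000000000000000000) := T_1 (nat_lit 111) (nat_lit 77) (nat_lit 5) (nat_lit 9) (nat_lit 4) L3968970 (by decide +kernel)
theorem L3968972 : W_1 (nat_lit 2) (nat_lit 0x1b00048003c001e0008800700000000000000000000000) (nat_lit 0x0) (nat_lit 0x8000400010000000000000000000000000000000000000000) := D_1 (nat_lit 178) (nat_lit 160) (nat_lit 195) (nat_lit 0) (nat_lit 10) (nat_lit 10) (nat_lit 5) (nat_lit 9) (nat_lit 7) (by decide +kernel)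
theorem L3968973 : W_1 (nat_lit 3) (nat_lit 0xb00048003c001e0008800700000000000000000000000) (nat_lit 0x0) (nat_lit 0x28001400010000000000000000000000000000000000000000) := T_1 (nat_lit 180) (nat_lit 197) (nat_lit 7) (nat_lit 9) (nat_lit 7) L3968972 (by decide +kernel)
theorem L3968974 : W_1 (nat_lit 4) (nat_lit 0x900048003c001e0008800700000000000000000000000) (nat_lit 0x0) (nat_lit 0x2c001600010000000000000000000000000000000000000000) := T_1 (nat_lit 177) (nat_lit 194) (nat_lit 7) (nat_lit 6) (nat_lit 7) L3968973 (by decide +kernel)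
theorem L3968975 : W_1 (nat_lit 5) (nat_lit 0x100048003c001e0008800700000000000000000000000) (nat_lit 0x0) (nat_lit 0x3c001e00010000000000000000000000000000000000000000) := T_1 (nat_lit 179) (nat_lit 196) (nat_lit 4) (nat_lit 9) (nat_lit 11) L3968974 (by decide +kernel)
theorem L3968976 : W_1 (nat_lit 6) (nat_lit 0x48003c001e0008800700000000000000000000000) (nat_lit 0x0) (nat_lit 0x3e001f00010000000000000000000000000000000000000000) := T_1 (nat_lit 176) (nat_lit 193) (nat_lit 6) (nat_lit 6) (nat_lit 11) L3968975 (by decide +kernel)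
theorem L3968977 : W_1 (nat_lit 7) (nat_lit 0x8003c001e0008800700000000000000000000000) (nat_lit 0x0) (nat_lit 0x3e001f000d0000000000000000000000000000000000000000) := T_1 (nat_lit 162) (nat_lit 163) (nat_lit 3) (nat_lit 6) (nat_lit 8) L3968976 (by decide +kernel)
theorem L3968978 : W_1 (nat_lit 8) (nat_lit 0x3c001e0008800700000000000000000000000) (nat_lit 0x0) (nat_lit 0x3e001f000dc000000000000000000000000000000000000000) := T_1 (nat_lit 159) (nat_lit 158) (nat_lit 1) (nat_lit 9) (nat_lit 8) L3968977 (by decide +kernel)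
theorem L3968979 : W_1 (nat_lit 9) (nat_lit 0x34001e0008800700000000000000000000000) (nat_lit 0x0) (nat_lit 0x3e001f000dc000800200000000000000000000000000000000) := T_1 (nat_lit 143) (nat_lit 129) (nat_lit 2) (nat_lit 6) (nat_lit 8) L3968978 (by decide +kernel)
theorem L3968980 : W_1 (nat_lit 10) (nat_lit 0x14001e0008800700000000000000000000000) (nat_lit 0x0) (nat_lit 0x3e001f000dc002800200000000000010000000000000000000) := T_1 (nat_lit 145) (nat_lit 76) (nat_lit 4) (nat_lit 9) (nat_lit 8) L3968979 (by decide +kernel)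
theorem L3968981 : W_1 (nat_lit 11) (nat_lit 0x10001e0008800700000000000000000000000) (nat_lit 0x0) (nat_lit 0x3e001f000dc002e00200000000000010000000000000000000) := T_1 (nat_lit 142) (nat_lit 141) (nat_lit 1) (nat_lit 9) (nat_lit 7) L3968980 (by decide +kernel)
theorem L3968982 : W_1 (nat_lit 12) (nat_lit 0x10001e0000800700000000000000000000000) (nat_lit 0x0) (nat_lit 0x3e001f000dc002e00200008000000030000000000000000000) := T_1 (nat_lit 111) (nat_lit 77) (nat_lit 5) (nat_lit 9) (nat_lit 4) L3968981 (by decide +kernel)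
theorem L3968983 : W_1 (nat_lit 13) (nat_lit 0x10001e0000000700000000000000000000000) (nat_lit 0x0) (nat_lit 0x3e001f000dc002e00200009800000030000000000000000000) := T_1 (nat_lit 107) (nat_lit 108) (nat_lit 0) (nat_lit 9) (nat_lit 7) L3968982 (by decide +kernel)
theorem L3968984 : W_1 (nat_lit 14) (nat_lit 0x10000e0000000700000000000000000000000) (nat_lit 0x0) (nat_lit 0x3e001f000dc03ae00f00079800000030000000000000000000) := Q_1 (nat_lit 128) (C_1 L3967276 (C_1 L3967215 (C_1 L3968983 N_1))) (by decide +kernel)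
theorem L3968985 : W_1 (nat_lit 15) (nat_lit 0x10000c0000000700000000000000000000000) (nat_lit 0x0) (nat_lit 0x3e001f000dc03af80f38079e00000030000000000000000000) := Q_1 (nat_lit 125) (C_1 L3967992 (C_1 L3967991 (C_1 L262055 (C_1 L3968984 (C_1 L258567 N_1))))) (by decide +kernel)
theorem L3968996 : W_1 (nat_lit 8) (nat_lit 0x10001c0000000700000000000000000000000) (nat_lit 0x0) (nat_lit 0x3a000e0007b000000028000000000000000000) := T_1 (nat_lit 77) (nat_lit 111) (nat_lit 5) (nat_lit 9) (nat_lit 4) L3949721 (by decide +kernel)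
theorem L3968997 : W_1 (nat_lit 2) (nat_lit 0x11001f000880070001a000000040000000000) (nat_lit 0x0) (nat_lit 0x880008000000000000000000000000000000) := D_1 (nat_lit 123) (nat_lit 139) (nat_lit 143) (nat_lit 1) (nat_lit 7) (nat_lit 7) (nat_lit 3) (nat_lit 4) (nat_lit 7) (by decide +kernel)
theorem L3968998 : W_1 (nat_lit 3) (nat_lit 0x10001f000880070001a000000040000000000) (nat_lit 0x0) (nat_lit 0xb80008000000000000000000000000000000) := T_1 (nat_lit 140) (nat_lit 141) (nat_lit 1) (nat_lit 8) (nat_lit 7) L3968997 (by decide +kernel)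
theorem L3968999 : W_1 (nat_lit 4) (nat_lit 0x10001e000880070001a000000040000000000) (nat_lit 0x0) (nat_lit 0xb80018000400000000000000000000000000) := T_1 (nat_lit 124) (nat_lit 106) (nat_lit 0) (nat_lit 8) (nat_lit 7) L3968998 (by decide +kernel)
theorem L3969000 : W_1 (nat_lit 5) (nat_lit 0x10001e000800070001a000000040000000000) (nat_lit 0x0) (nat_lit 0xb80018001c00000000000000000000000000) := T_1 (nat_lit 107) (nat_lit 108) (nat_lit 0) (nat_lit 9) (nat_lit 7) L3968999 (by decide +kernel)
theorem L3969001 : W_1 (nat_lit 6) (nat_lit 0x10001c000800070001a000000040000000000) (nat_lit 0x0) (nat_lit 0xb80038011c00000000000000000000000000) := T_1 (nat_lit 125) (nat_lit 112) (nat_lit 2) (nat_lit 6) (nat_lit 7) L3969000 (by decide +kernel)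
theorem L3969002 : W_1 (nat_lit 7) (nat_lit 0x10001c000800070001a000000000000000000) (nat_lit 0x0) (nat_lit 0xb80038011c00000000000800040000000000) := T_1 (nat_lit 42) (nat_lit 59) (nat_lit 7) (nat_lit 8) (nat_lit 2) L3969001 (by decide +kernel)
theorem L3969003 : W_1 (nat_lit 8) (nat_lit 0x10001c0008000700018000000000000000000) (nat_lit 0x0) (nat_lit 0xb80038011c00000006000800040000000000) := T_1 (nat_lit 73) (nat_lit 74) (nat_lit 3) (nat_lit 5) (nat_lit 4) L3969002 (by decide +kernel)
theorem L3969004 : W_1 (nat_lit 9) (nat_lit 0x10001c0008000700008000000000000000000) (nat_lit 0x0) (nat_lit 0x2b80038011c00000016000800040000000000) := T_1 (nat_lit 76) (nat_lit 145) (nat_lit 4) (nat_lit 9) (nat_lit 8) L3969003 (by decide +kernel)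
theorem L3969005 : W_1 (nat_lit 10) (nat_lit 0x10001c0000000700008000000000000000000) (nat_lit 0x0) (nat_lit 0x2b80038019c00000036000800040000000000) := T_1 (nat_lit 111) (nat_lit 77) (nat_lit 5) (nat_lit 9) (nat_lit 4) L3969004 (by decide +kernel)
theorem L3969006 : W_1 (nat_lit 11) (nat_lit 0x10001c0000000700000000000000000000000) (nat_lit 0x0) (nat_lit 0x2b8003801bc0000003e000800040000000000) := T_1 (nat_lit 75) (nat_lit 109) (nat_lit 7) (nat_lit 7) (nat_lit 4) L3969005 (by decide +kernel)
theorem L3969007 : W_1 (nat_lit 12) (nat_lit 0x10000c0000000700000000000000000000000) (nat_lit 0x0) (nat_lit 0x3ab80f3807bc0000003e000800040000000000) := Q_1 (nat_lit 128) (C_1 L3968971 (C_1 L3968996 (C_1 L3968957 (C_1 L3969006 N_1)))) (by decide +kernel)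
theorem L3969008 : W_1 (nat_lit 5) (nat_lit 0x10000e0000000700000000000000000000000) (nat_lit 0x0) (nat_lit 0x700110019c00000020000000000000000000) := Q_1 (nat_lit 128) (C_1 L3968027 (C_1 L3967215 N_1)) (by decide +kernel)
theorem L3969009 : W_1 (nat_lit 2) (nat_lit 0x10001f0000800700008000000000000000000) (nat_lit 0x0) (nat_lit 0x18000000020000000000000000000) := D_1 (nat_lit 111) (nat_lit 112) (nat_lit 77) (nat_lit 2) (nat_lit 6) (nat_lit 7) (nat_lit 5) (nat_lit 9) (nat_lit 4) (by decide +kernel)
theorem L3969010 : W_1 (nat_lit 3) (nat_lit 0x10000f0000800700008000000000000000000) (nat_lit 0x0) (nat_lit 0x100019000000020000000000000000000) := T_1 (nat_lit 128) (nat_lit 108) (nat_lit 0) (nat_lit 9) (nat_lit 7) L3969009 (by decide +kernel)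
theorem L3969011 : W_1 (nat_lit 4) (nat_lit 0x10000f0000000700008000000000000000000) (nat_lit 0x0) (nat_lit 0x100019c00000020000000000000000000) := T_1 (nat_lit 107) (nat_lit 106) (nat_lit 0) (nat_lit 8) (nat_lit 7) L3969010 (by decide +kernel)
theorem L3969012 : W_1 (nat_lit 5) (nat_lit 0x10000e0000000700008000000000000000000) (nat_lit 0x0) (nat_lit 0x2000110019c00000020000000000000000000) := T_1 (nat_lit 124) (nat_lit 145) (nat_lit 3) (nat_lit 5) (nat_lit 7) L3969011 (by decide +kernel)
theorem L3969013 : W_1 (nat_lit 6) (nat_lit 0x10000e0000000700000000000000000000000) (nat_lit 0x0) (nat_lit 0x200011001bc00000028000000000000000000) := T_1 (nat_lit 75) (nat_lit 109) (nat_lit 7) (nat_lit 7) (nat_lit 4) L3969012 (by decide +kernel)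
theorem L3969014 : W_1 (nat_lit 2) (nat_lit 0x10001e0002000700000000000000000000000) (nat_lit 0x0) (nat_lit 0x200001800000000000000000000000000) := D_1 (nat_lit 108) (nat_lit 107) (nat_lit 129) (nat_lit 0) (nat_lit 9) (nat_lit 7) (nat_lit 0) (nat_lit 10) (nat_lit 7) (by decide +kernel)
theorem L3969015 : W_1 (nat_lit 3) (nat_lit 0x10001e0000000700000000000000000000000) (nat_lit 0x0) (nat_lit 0x200003800000008000000000000000000) := T_1 (nat_lit 109) (nat_lit 75) (nat_lit 7) (nat_lit 7) (nat_lit 4) L3969014 (by decide +kernel)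
theorem L3969016 : W_1 (nat_lit 4) (nat_lit 0x10000e0000000700000000000000000000000) (nat_lit 0x0) (nat_lit 0x30001b800000028000000000000000000) := Q_1 (nat_lit 128) (C_1 L3967215 (C_1 L3969015 N_1)) (by decide +kernel)
theorem L3969017 : W_1 (nat_lit 2) (nat_lit 0x12001f0000000700008000000000000000000) (nat_lit 0x0) (nat_lit 0x18000000020000000000000000000) := D_1 (nat_lit 111) (nat_lit 112) (nat_lit 77) (nat_lit 2) (nat_lit 6) (nat_lit 7) (nat_lit 5) (nat_lit 9) (nat_lit 4) (by decide +kernel)
theorem L3969018 : W_1 (nat_lit 3) (nat_lit 0x12000f0000000700008000000000000000000) (nat_lit 0x0) (nat_lit 0x400100018000000020000000000000000000) := T_1 (nat_lit 128) (nat_lit 142) (nat_lit 1) (nat_lit 9) (nat_lit 7) L3969017 (by decide +kernel)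
theorem L3969019 : W_1 (nat_lit 4) (nat_lit 0x10000f0000000700008000000000000000000) (nat_lit 0x0) (nat_lit 0x700100018000000020000000000000000000) := T_1 (nat_lit 141) (nat_lit 140) (nat_lit 1) (nat_lit 8) (nat_lit 7) L3969018 (by decide +kernel)
theorem L3969020 : W_1 (nat_lit 5) (nat_lit 0x10000e0000000700008000000000000000000) (nat_lit 0x0) (nat_lit 0x2700110018000000020000000000000000000) := T_1 (nat_lit 124) (nat_lit 145) (nat_lit 3) (nat_lit 5) (nat_lit 7) L3969019 (by decide +kernel)
theorem L3969021 : W_1 (nat_lit 6) (nat_lit 0x10000e0000000700000000000000000000000) (nat_lit 0x0) (nat_lit 0x270011001a000000028000000000000000000) := T_1 (nat_lit 75) (nat_lit 109) (nat_lit 7) (nat_lit 7) (nat_lit 4) L3969020 (by decide +kernel)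
theorem L3969022 : W_1 (nat_lit 7) (nat_lit 0x10000c0000000700000000000000000000000) (nat_lit 0x0) (nat_lit 0x278033801be00000028000000000000000000) := Q_1 (nat_lit 125) (C_1 L262055 (C_1 L3969008 (C_1 L3969013 (C_1 L3969016 (C_1 L3969021 N_1))))) (by decide +kernel)
theorem L3969023 : W_1 (nat_lit 2) (nat_lit 0x1c001e000a000700000000000000000000000) (nat_lit 0x0) (nat_lit 0x2000018000000000000000000000000000000) := D_1 (nat_lit 124) (nat_lit 145) (nat_lit 123) (nat_lit 3) (nat_lit 5) (nat_lit 7) (nat_lit 3) (nat_lit 4) (nat_lit 7) (by decide +kernel)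
theorem L3969024 : W_1 (nat_lit 3) (nat_lit 0x1c001c000a000700000000000000000000000) (nat_lit 0x0) (nat_lit 0x2000038010000000000000000000000000000) := T_1 (nat_lit 125) (nat_lit 112) (nat_lit 2) (nat_lit 6) (nat_lit 7) L3969023 (by decide +kernel)
theorem L3969025 : W_1 (nat_lit 4) (nat_lit 0x1c001c0002000700000000000000000000000) (nat_lit 0x0) (nat_lit 0x2000038018000000020000000000000000000) := T_1 (nat_lit 111) (nat_lit 77) (nat_lit 5) (nat_lit 9) (nat_lit 4) L3969024 (by decide +kernel)
theorem L3969026 : W_1 (nat_lit 5) (nat_lit 0x1c000c0002000700000000000000000000000) (nat_lit 0x0) (nat_lit 0x2000338018000000020000000000000000000) := T_1 (nat_lit 128) (nat_lit 129) (nat_lit 1) (nat_lit 10) (nat_lit 7) L3969025 (by decide +kernel)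
theorem L3969027 : W_1 (nat_lit 6) (nat_lit 0x18000c0002000700000000000000000000000) (nat_lit 0x0) (nat_lit 0x8002400338018000000020000000000000000000) := T_1 (nat_lit 142) (nat_lit 159) (nat_lit 5) (nat_lit 7) (nat_lit 5) L3969026 (by decide +kernel)
theorem L3969028 : W_1 (nat_lit 7) (nat_lit 0x10000c0002000700000000000000000000000) (nat_lit 0x0) (nat_lit 0x8002c00338018000000030000000000000000000) := T_1 (nat_lit 143) (nat_lit 76) (nat_lit 6) (nat_lit 7) (nat_lit 8) L3969027 (by decide +kernel)
theorem L3969029 : W_1 (nat_lit 8) (nat_lit 0x10000c0000000700000000000000000000000) (nat_lit 0x0) (nat_lit 0x8002c0033801a000000038000000000000000000) := T_1 (nat_lit 109) (nat_lit 75) (nat_lit 7) (nat_lit 7) (nat_lit 4) L3969028 (by decide +kernel)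
theorem L3969030 : W_1 (nat_lit 16) (nat_lit 0x1000080000000700000000000000000000000) (nat_lit 0x0) (nat_lit 0x3f001f800de03af80f7807be0000003e000800040000000000) := Q_1 (nat_lit 126) (C_1 L262654 (C_1 L3968966 (C_1 L3968985 (C_1 L3969007 (C_1 L3969022 (C_1 L3969029 N_1)))))) (by decide +kernel)
theorem L3969137 : W_1 (nat_lit 2) (nat_lit 0x800040003000180009000f00000000000000000000000) (nat_lit 0x0) (nat_lit 0x20001000080000000000000000000000000000000000000000) := D_1 (nat_lit 180) (nat_lit 163) (nat_lit 197) (nat_lit 7) (nat_lit 9) (nat_lit 6) (nat_lit 7) (nat_lit 9) (nat_lit 7) (by decide +kernel)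
theorem L3969138 : W_1 (nat_lit 3) (nat_lit 0x40003000180009000f00000000000000000000000) (nat_lit 0x0) (nat_lit 0x30001800080000000000000000000000000000000000000000) := T_1 (nat_lit 179) (nat_lit 196) (nat_lit 4) (nat_lit 9) (nat_lit 11) L3969137 (by decide +kernel)
theorem L3969139 : W_1 (nat_lit 4) (nat_lit 0x3000180009000f00000000000000000000000) (nat_lit 0x0) (nat_lit 0x300018000c0000000000010000000000000000000000000000) := T_1 (nat_lit 162) (nat_lit 112) (nat_lit 6) (nat_lit 9) (nat_lit 9) L3969138 (by decide +kernel)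
theorem L3969140 : W_1 (nat_lit 5) (nat_lit 0x1000180009000f00000000000000000000000) (nat_lit 0x0) (nat_lit 0x300018000c0002000000010000000010000000000000000000) := T_1 (nat_lit 145) (nat_lit 76) (nat_lit 4) (nat_lit 9) (nat_lit 8) L3969139 (by decide +kernel)
theorem L3969141 : W_1 (nat_lit 6) (nat_lit 0x1000180001000f00000000000000000000000) (nat_lit 0x0) (nat_lit 0x300018000c0002000000018000000030000000000000000000) := T_1 (nat_lit 111) (nat_lit 77) (nat_lit 5) (nat_lit 9) (nat_lit 4) L3969140 (by decide +kernel)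
theorem L3969142 : W_1 (nat_lit 7) (nat_lit 0x1000180000000f00000000000000000000000) (nat_lit 0x0) (nat_lit 0x300018000c000200000001b000000030000000000000000000) := T_1 (nat_lit 108) (nat_lit 109) (nat_lit 1) (nat_lit 10) (nat_lit 5) L3969141 (by decide +kernel)
theorem L3969143 : W_1 (nat_lit 2) (nat_lit 0x1000180009000f00040000000000000000000) (nat_lit 0x0) (nat_lit 0x10000000000002000100000000000) := D_1 (nat_lit 61) (nat_lit 44) (nat_lit 112) (nat_lit 5) (nat_lit 10) (nat_lit 2) (nat_lit 5) (nat_lit 10) (nat_lit 3) (by decide +kernel)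
theorem L3969144 : W_1 (nat_lit 3) (nat_lit 0x1000180009000f00000000000000000000000) (nat_lit 0x0) (nat_lit 0x100000000c0002000100000000000) := T_1 (nat_lit 78) (nat_lit 79) (nat_lit 2) (nat_lit 7) (nat_lit 5) L3969143 (by decide +kernel)
theorem L3969145 : W_1 (nat_lit 4) (nat_lit 0x1000180008000f00000000000000000000000) (nat_lit 0x0) (nat_lit 0x130000000c0002000100000000000) := T_1 (nat_lit 108) (nat_lit 109) (nat_lit 1) (nat_lit 10) (nat_lit 5) L3969144 (by decide +kernel)
theorem L3969146 : W_1 (nat_lit 5) (nat_lit 0x1000180000000f00000000000000000000000) (nat_lit 0x0) (nat_lit 0x1b0000000e0002000100000000000) := T_1 (nat_lit 111) (nat_lit 77) (nat_lit 5) (nat_lit 9) (nat_lit 4) L3969145 (by decide +kernel)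
theorem L3969147 : W_1 (nat_lit 2) (nat_lit 0x1c00180000000f00040000000000000000000) (nat_lit 0x0) (nat_lit 0x2000600000000000000000000000000000000) := D_1 (nat_lit 129) (nat_lit 130) (nat_lit 145) (nat_lit 1) (nat_lit 11) (nat_lit 7) (nat_lit 2) (nat_lit 6) (nat_lit 8) (by decide +kernel)
theorem L3969148 : W_1 (nat_lit 3) (nat_lit 0x1800180000000f00040000000000000000000) (nat_lit 0x0) (nat_lit 0x2600600000000000000000000000000000000) := T_1 (nat_lit 142) (nat_lit 141) (nat_lit 2) (nat_lit 5) (nat_lit 8) L3969147 (by decide +kernel)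
theorem L3969149 : W_1 (nat_lit 4) (nat_lit 0x1800180000000f00000000000000000000000) (nat_lit 0x0) (nat_lit 0x26006000000000000c0000000000000000000) := T_1 (nat_lit 78) (nat_lit 79) (nat_lit 2) (nat_lit 7) (nat_lit 5) L3969148 (by decide +kernel)
theorem L3969150 : W_1 (nat_lit 2) (nat_lit 0x1800380012000f00050003800200000000000) (nat_lit 0x0) (nat_lit 0x400100010000000) := D_1 (nat_lit 44) (nat_lit 28) (nat_lit 58) (nat_lit 6) (nat_lit 10) (nat_lit 5) (nat_lit 2) (nat_lit 7) (nat_lit 3) (by decide +kernel)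
theorem L3969151 : W_1 (nat_lit 3) (nat_lit 0x1800380012000f00050003800000000000000) (nat_lit 0x0) (nat_lit 0x4400300010000000) := T_1 (nat_lit 45) (nat_lit 62) (nat_lit 6) (nat_lit 10) (nat_lit 6) L3969150 (by decide +kernel)
theorem L3969152 : W_1 (nat_lit 4) (nat_lit 0x1800380012000f00050003000000000000000) (nat_lit 0x0) (nat_lit 0x4c00340010000000) := T_1 (nat_lit 59) (nat_lit 42) (nat_lit 5) (nat_lit 8) (nat_lit 2) L3969151 (by decide +kernel)
theorem L3969153 : W_1 (nat_lit 5) (nat_lit 0x1800380012000f00040003000000000000000) (nat_lit 0x0) (nat_lit 0x40000000000010004c00340010000000) := T_1 (nat_lit 76) (nat_lit 126) (nat_lit 6) (nat_lit 7) (nat_lit 8) L3969152 (by decide +kernel)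
theorem L3969154 : W_1 (nat_lit 6) (nat_lit 0x1800380012000f00040001000000000000000) (nat_lit 0x0) (nat_lit 0x40000000000010006c003c0010000000) := T_1 (nat_lit 61) (nat_lit 43) (nat_lit 4) (nat_lit 10) (nat_lit 6) L3969153 (by decide +kernel)
theorem L3969155 : W_1 (nat_lit 7) (nat_lit 0x1800380012000f00040000000000000000000) (nat_lit 0x0) (nat_lit 0x40000000000030007c003c0010000000) := T_1 (nat_lit 60) (nat_lit 77) (nat_lit 4) (nat_lit 10) (nat_lit 7) L3969154 (by decide +kernel)
theorem L3969156 : W_1 (nat_lit 8) (nat_lit 0x1800380002000f00040000000000000000000) (nat_lit 0x0) (nat_lit 0x2000040010000000030007c003c0010000000) := T_1 (nat_lit 112) (nat_lit 145) (nat_lit 5) (nat_lit 10) (nat_lit 4) L3969155 (by decide +kernel)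
theorem L3969157 : W_1 (nat_lit 9) (nat_lit 0x1800380000000f00040000000000000000000) (nat_lit 0x0) (nat_lit 0x2000040013000000030007c003c0010000000) := T_1 (nat_lit 109) (nat_lit 108) (nat_lit 1) (nat_lit 10) (nat_lit 5) L3969156 (by decide +kernel)
theorem L3969158 : W_1 (nat_lit 10) (nat_lit 0x1800380000000f00000000000000000000000) (nat_lit 0x0) (nat_lit 0x20000400130000000f0007c003c0010000000) := T_1 (nat_lit 78) (nat_lit 79) (nat_lit 2) (nat_lit 7) (nat_lit 5) L3969157 (by decide +kernel)
theorem L3969159 : W_1 (nat_lit 11) (nat_lit 0x1800180000000f00000000000000000000000) (nat_lit 0x0) (nat_lit 0x20006400130000000f0007c003c0010000000) := T_1 (nat_lit 129) (nat_lit 130) (nat_lit 1) (nat_lit 11) (nat_lit 7) L3969158 (by decide +kernel)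
theorem L3969160 : W_1 (nat_lit 4) (nat_lit 0x1800180000000f00000000000000000000000) (nat_lit 0x0) (nat_lit 0x8000600040003000000010000000000000000000) := T_1 (nat_lit 109) (nat_lit 108) (nat_lit 1) (nat_lit 10) (nat_lit 5) L3489151 (by decide +kernel)
theorem L3969161 : W_1 (nat_lit 12) (nat_lit 0x1000180000000f00000000000000000000000) (nat_lit 0x0) (nat_lit 0x8002e006400130000000f0007c003c0010000000) := Q_1 (nat_lit 143) (C_1 L3934150 (C_1 L3969149 (C_1 L3969159 (C_1 L3969160 N_1)))) (by decide +kernel)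
theorem L3969162 : W_1 (nat_lit 3) (nat_lit 0x1000180001000f00040000000000000000000) (nat_lit 0x0) (nat_lit 0x2000000018000000000002000100000000000) := T_1 (nat_lit 111) (nat_lit 145) (nat_lit 6) (nat_lit 9) (nat_lit 8) L3969143 (by decide +kernel)
theorem L3969163 : W_1 (nat_lit 4) (nat_lit 0x1000180001000f00000000000000000000000) (nat_lit 0x0) (nat_lit 0x20000000180000000c0002000100000000000) := T_1 (nat_lit 78) (nat_lit 79) (nat_lit 2) (nat_lit 7) (nat_lit 5) L3969162 (by decide +kernel)
theorem L3969164 : W_1 (nat_lit 5) (nat_lit 0x1000180000000f00000000000000000000000) (nat_lit 0x0) (nat_lit 0x200000001b0000000c0002000100000000000) := T_1 (nat_lit 108) (nat_lit 109) (nat_lit 1) (nat_lit 10) (nat_lit 5) L3969163 (by decide +kernel)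
theorem L3969165 : W_1 (nat_lit 13) (nat_lit 0x1000080000000f00000000000000000000000) (nat_lit 0x0) (nat_lit 0x300018000c8002e0074001b0000000f0007c003c0010000000) := Q_1 (nat_lit 128) (C_1 L3969142 (C_1 L258849 (C_1 L3969146 (C_1 L3969161 (C_1 L3969164 N_1))))) (by decide +kernel)
theorem L3969166 : W_1 (nat_lit 12) (nat_lit 0x1000080021001f00000000000000000000000) (nat_lit 0x0) (nat_lit 0x7a801f001880060003b0008000400000000000) := T_1 (nat_lit 80) (nat_lit 79) (nat_lit 2) (nat_lit 8) (nat_lit 5) L3968931 (by decide +kernel)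
theorem L3969167 : W_1 (nat_lit 13) (nat_lit 0x1000080021000f00000000000000000000000) (nat_lit 0x0) (nat_lit 0x7a801f001c80070003b0008000400000000000) := T_1 (nat_lit 96) (nat_lit 114) (nat_lit 3) (nat_lit 8) (nat_lit 5) L3969166 (by decide +kernel)
theorem L3969168 : W_1 (nat_lit 14) (nat_lit 0x1000080020000f00000000000000000000000) (nat_lit 0x0) (nat_lit 0x7a801f001cb0070003b0008000400000000000) := T_1 (nat_lit 108) (nat_lit 109) (nat_lit 1) (nat_lit 10) (nat_lit 5) L3969167 (by decide +kernel)
theorem L3969169 : W_1 (nat_lit 15) (nat_lit 0x1000080000000f00000000000000000000000) (nat_lit 0x0) (nat_lit 0x7a801f001fb0070003b0008000400000000000) := T_1 (nat_lit 113) (nat_lit 112) (nat_lit 3) (nat_lit 7) (nat_lit 5) L3969168 (by decide +kernel)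
theorem L3969170 : W_1 (nat_lit 2) (nat_lit 0x1800380011000f00020001000000000000000) (nat_lit 0x0) (nat_lit 0x600040000000000000000000000000000000) := D_1 (nat_lit 142) (nat_lit 126) (nat_lit 141) (nat_lit 1) (nat_lit 10) (nat_lit 7) (nat_lit 2) (nat_lit 5) (nat_lit 8) (by decide +kernel)
theorem L3969171 : W_1 (nat_lit 3) (nat_lit 0x1000380011000f00020001000000000000000) (nat_lit 0x0) (nat_lit 0xe00440000000000000000000000000000000) := T_1 (nat_lit 143) (nat_lit 130) (nat_lit 1) (nat_lit 11) (nat_lit 7) L3969170 (by decide +kernel)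
theorem L3969172 : W_1 (nat_lit 4) (nat_lit 0x1000180011000f00020001000000000000000) (nat_lit 0x0) (nat_lit 0xe00640000000000040000000000000000000) := T_1 (nat_lit 129) (nat_lit 78) (nat_lit 4) (nat_lit 10) (nat_lit 7) L3969171 (by decide +kernel)
theorem L3969173 : W_1 (nat_lit 5) (nat_lit 0x1000180011000f00020000000000000000000) (nat_lit 0x0) (nat_lit 0xe00640000000000040001000080000000000) := T_1 (nat_lit 60) (nat_lit 43) (nat_lit 7) (nat_lit 9) (nat_lit 2) L3969172 (by decide +kernel)
theorem L3969174 : W_1 (nat_lit 6) (nat_lit 0x1000180011000f00000000000000000000000) (nat_lit 0x0) (nat_lit 0xe00640008000000060001000080000000000) := T_1 (nat_lit 77) (nat_lit 111) (nat_lit 5) (nat_lit 9) (nat_lit 4) L3969173 (by decide +kernel)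
theorem L3969175 : W_1 (nat_lit 7) (nat_lit 0x1000180010000f00000000000000000000000) (nat_lit 0x0) (nat_lit 0xe0064000b000000060001000080000000000) := T_1 (nat_lit 108) (nat_lit 109) (nat_lit 1) (nat_lit 10) (nat_lit 5) L3969174 (by decide +kernel)
theorem L3969176 : W_1 (nat_lit 8) (nat_lit 0x1000180000000f00000000000000000000000) (nat_lit 0x0) (nat_lit 0xe0064003b000000060001000080000000000) := T_1 (nat_lit 112) (nat_lit 113) (nat_lit 3) (nat_lit 7) (nat_lit 5) L3969175 (by decide +kernel)
theorem L3969177 : W_1 (nat_lit 2) (nat_lit 0x1800380010000f00000000000000000000000) (nat_lit 0x0) (nat_lit 0x600040000000000000000000000000000000) := D_1 (nat_lit 142) (nat_lit 126) (nat_lit 141) (nat_lit 1) (nat_lit 10) (nat_lit 7) (nat_lit 2) (nat_lit 5) (nat_lit 8) (by decide +kernel)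
theorem L3969178 : W_1 (nat_lit 3) (nat_lit 0x1800180010000f00000000000000000000000) (nat_lit 0x0) (nat_lit 0x600640000000000000000000000000000000) := T_1 (nat_lit 129) (nat_lit 130) (nat_lit 1) (nat_lit 11) (nat_lit 7) L3969177 (by decide +kernel)
theorem L3969179 : W_1 (nat_lit 4) (nat_lit 0x1800180000000f00000000000000000000000) (nat_lit 0x0) (nat_lit 0x600640030000000000000000000000000000) := T_1 (nat_lit 112) (nat_lit 113) (nat_lit 3) (nat_lit 7) (nat_lit 5) L3969178 (by decide +kernel)
theorem L3969180 : W_1 (nat_lit 2) (nat_lit 0x1800380000000f00000000000000000000000) (nat_lit 0x0) (nat_lit 0x2600000000000000000000000000000000000) := D_1 (nat_lit 142) (nat_lit 141) (nat_lit 145) (nat_lit 2) (nat_lit 5) (nat_lit 8) (nat_lit 2) (nat_lit 6) (nat_lit 8) (by decide +kernel)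
theorem L3969181 : W_1 (nat_lit 3) (nat_lit 0x1800180000000f00000000000000000000000) (nat_lit 0x0) (nat_lit 0x2600600000000000000000000000000000000) := T_1 (nat_lit 129) (nat_lit 130) (nat_lit 1) (nat_lit 11) (nat_lit 7) L3969180 (by decide +kernel)
theorem L3969182 : W_1 (nat_lit 4) (nat_lit 0x1800380012000f00050001800000000000000) (nat_lit 0x0) (nat_lit 0x6400380010000000) := T_1 (nat_lit 61) (nat_lit 43) (nat_lit 4) (nat_lit 10) (nat_lit 6) L3969151 (by decide +kernel)
theorem L3969183 : W_1 (nat_lit 5) (nat_lit 0x1800380012000f00050000800000000000000) (nat_lit 0x0) (nat_lit 0x20007400380010000000) := T_1 (nat_lit 60) (nat_lit 77) (nat_lit 4) (nat_lit 10) (nat_lit 7) L3969182 (by decide +kernel)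
theorem L3969184 : W_1 (nat_lit 6) (nat_lit 0x1800380012000f00010000800000000000000) (nat_lit 0x0) (nat_lit 0x2000000000000000060007400380010000000) := T_1 (nat_lit 78) (nat_lit 145) (nat_lit 5) (nat_lit 10) (nat_lit 4) L3969183 (by decide +kernel)
theorem L3969185 : W_1 (nat_lit 7) (nat_lit 0x1800180012000f00010000800000000000000) (nat_lit 0x0) (nat_lit 0x2000600000000000060007400380010000000) := T_1 (nat_lit 129) (nat_lit 130) (nat_lit 1) (nat_lit 11) (nat_lit 7) L3969184 (by decide +kernel)
theorem L3969186 : W_1 (nat_lit 8) (nat_lit 0x1800180012000f00010000000000000000000) (nat_lit 0x0) (nat_lit 0x2000600000000000060007c003c0010000000) := T_1 (nat_lit 59) (nat_lit 42) (nat_lit 5) (nat_lit 8) (nat_lit 2) L3969185 (by decide +kernel)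
theorem L3969187 : W_1 (nat_lit 9) (nat_lit 0x1800180012000f00000000000000000000000) (nat_lit 0x0) (nat_lit 0x2000640000000000070007c003c0010000000) := T_1 (nat_lit 76) (nat_lit 126) (nat_lit 6) (nat_lit 7) (nat_lit 8) L3969186 (by decide +kernel)
theorem L3969188 : W_1 (nat_lit 10) (nat_lit 0x1800180002000f00000000000000000000000) (nat_lit 0x0) (nat_lit 0x2000640030000000070007c003c0010000000) := T_1 (nat_lit 112) (nat_lit 113) (nat_lit 3) (nat_lit 7) (nat_lit 5) L3969187 (by decide +kernel)
theorem L3969189 : W_1 (nat_lit 11) (nat_lit 0x1800180000000f00000000000000000000000) (nat_lit 0x0) (nat_lit 0x2000640033000000070007c003c0010000000) := T_1 (nat_lit 109) (nat_lit 108) (nat_lit 1) (nat_lit 10) (nat_lit 5) L3969188 (by decide +kernel)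
theorem L3969190 : W_1 (nat_lit 12) (nat_lit 0x1000180000000f00000000000000000000000) (nat_lit 0x0) (nat_lit 0x8002e00640033000000070007c003c0010000000) := Q_1 (nat_lit 143) (C_1 L3969160 (C_1 L3969179 (C_1 L3969181 (C_1 L3969189 N_1)))) (by decide +kernel)
theorem L3969191 : W_1 (nat_lit 2) (nat_lit 0x1000180008000f00000000000000000000000) (nat_lit 0x0) (nat_lit 0x2000000000000000050000000000000000000) := D_1 (nat_lit 145) (nat_lit 76) (nat_lit 78) (nat_lit 4) (nat_lit 9) (nat_lit 8) (nat_lit 6) (nat_lit 9) (nat_lit 8) (by decide +kernel)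
theorem L3969192 : W_1 (nat_lit 3) (nat_lit 0x1000180000000f00000000000000000000000) (nat_lit 0x0) (nat_lit 0x2000000008000000070000000000000000000) := T_1 (nat_lit 111) (nat_lit 77) (nat_lit 5) (nat_lit 9) (nat_lit 4) L3969191 (by decide +kernel)
theorem L3969193 : W_1 (nat_lit 2) (nat_lit 0x3000380011000f00000000000000000000000) (nat_lit 0x0) (nat_lit 0xc00400000000000000000000000000000000) := D_1 (nat_lit 143) (nat_lit 142) (nat_lit 130) (nat_lit 2) (nat_lit 6) (nat_lit 8) (nat_lit 1) (nat_lit 11) (nat_lit 7) (by decide +kernel)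
theorem L3969194 : W_1 (nat_lit 3) (nat_lit 0x3000180011000f00000000000000000000000) (nat_lit 0x0) (nat_lit 0xc00600000000000040000000000000000000) := T_1 (nat_lit 129) (nat_lit 78) (nat_lit 5) (nat_lit 10) (nat_lit 4) L3969193 (by decide +kernel)
theorem L3969195 : W_1 (nat_lit 4) (nat_lit 0x3000180001000f00000000000000000000000) (nat_lit 0x0) (nat_lit 0xc00600030000000040000000000000000000) := T_1 (nat_lit 112) (nat_lit 113) (nat_lit 3) (nat_lit 7) (nat_lit 5) L3969194 (by decide +kernel)
theorem L3969196 : W_1 (nat_lit 5) (nat_lit 0x3000180000000f00000000000000000000000) (nat_lit 0x0) (nat_lit 0xc00600033000000040000000000000000000) := T_1 (nat_lit 108) (nat_lit 109) (nat_lit 1) (nat_lit 10) (nat_lit 5) L3969195 (by decide +kernel)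
theorem L3969197 : W_1 (nat_lit 2) (nat_lit 0x3000180000000f00000000000000000000000) (nat_lit 0x0) (nat_lit 0x8000000050000000000000000000) := D_1 (nat_lit 111) (nat_lit 78) (nat_lit 76) (nat_lit 6) (nat_lit 9) (nat_lit 8) (nat_lit 4) (nat_lit 9) (nat_lit 8) (by decide +kernel)
theorem L3969198 : W_1 (nat_lit 2) (nat_lit 0x3000180010000f00000000000000000000000) (nat_lit 0x0) (nat_lit 0x40000000000008000000010000000000000000000) := D_1 (nat_lit 111) (nat_lit 76) (nat_lit 162) (nat_lit 4) (nat_lit 9) (nat_lit 8) (nat_lit 6) (nat_lit 9) (nat_lit 9) (by decide +kernel)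
theorem L3969199 : W_1 (nat_lit 3) (nat_lit 0x3000180000000f00000000000000000000000) (nat_lit 0x0) (nat_lit 0x40000000000038000000010000000000000000000) := T_1 (nat_lit 112) (nat_lit 113) (nat_lit 3) (nat_lit 7) (nat_lit 5) L3969198 (by decide +kernel)
theorem L3969200 : W_1 (nat_lit 6) (nat_lit 0x1000180000000f00000000000000000000000) (nat_lit 0x0) (nat_lit 0x40002c0060003b000000050000000000000000000) := Q_1 (nat_lit 145) (C_1 L3969196 (C_1 L3969197 (C_1 L3969199 N_1))) (by decide +kernel)
theorem L3969201 : W_1 (nat_lit 13) (nat_lit 0x1000080000000f00000000000000000000000) (nat_lit 0x0) (nat_lit 0x300018000c8002e0074003b000000070007c003c0010000000) := Q_1 (nat_lit 128) (C_1 L3969142 (C_1 L258852 (C_1 L3969176 (C_1 L3969190 (C_1 L3969192 (C_1 L3969200 N_1)))))) (by decide +kernel)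
theorem L3969202 : W_1 (nat_lit 16) (nat_lit 0x1000080000000700000000000000000000000) (nat_lit 0x0) (nat_lit 0x300018000c807ae01f401fb0078007f000fc007c0010000000) := Q_1 (nat_lit 95) (C_1 L3968945 (C_1 L23667 (C_1 L3969165 (C_1 L3969169 (C_1 L3969201 N_1))))) (by decide +kernel)
theorem L3969203 : W_1 (nat_lit 14) (nat_lit 0x1000080000000700000000000000000000000) (nat_lit 0x0) (nat_lit 0x300018000c8002e0074001b0018001fc007c003c0010000000) := Q_1 (nat_lit 95) (C_1 L3969165 (C_1 L257037 (C_1 L31984 N_1))) (by decide +kernel)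
theorem L3969204 : W_1 (nat_lit 17) (nat_lit 0x1000080000000300000000000000000000000) (nat_lit 0x0) (nat_lit 0x3f001f800de07af81f781fbe07c007fe00fe007e0013000000) := Q_1 (nat_lit 94) (C_1 L258854 (C_1 L257049 (C_1 L31985 (C_1 L3968946 (C_1 L3968947 (C_1 L3969030 (C_1 L3969202 (C_1 L3969203 N_1)))))))) (by decide +kernel)
theorem L3969205 : W_1 (nat_lit 3) (nat_lit 0x100008000b000780020000000000000000000) (nat_lit 0x0) (nat_lit 0x400060000000000008000400000000000000) := T_1 (nat_lit 75) (nat_lit 126) (nat_lit 7) (nat_lit 7) (nat_lit 4) L258138 (by decide +kernel)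
theorem L3969206 : W_1 (nat_lit 4) (nat_lit 0x1000080009000780020000000000000000000) (nat_lit 0x0) (nat_lit 0x400060002000800008000400000000000000) := T_1 (nat_lit 109) (nat_lit 95) (nat_lit 1) (nat_lit 10) (nat_lit 5) L3969205 (by decide +kernel)
theorem L3969207 : W_1 (nat_lit 5) (nat_lit 0x1000080001000780020000000000000000000) (nat_lit 0x0) (nat_lit 0x40016000a000800008000400000000000000) := T_1 (nat_lit 111) (nat_lit 128) (nat_lit 5) (nat_lit 9) (nat_lit 4) L3969206 (by decide +kernel)
theorem L3969208 : W_1 (nat_lit 6) (nat_lit 0x1000080000000780020000000000000000000) (nat_lit 0x0) (nat_lit 0x40016000b800800008000400000000000000) := T_1 (nat_lit 108) (nat_lit 107) (nat_lit 1) (nat_lit 9) (nat_lit 5) L3969207 (by decide +kernel)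
theorem L3969209 : W_1 (nat_lit 7) (nat_lit 0x1000080000000780000000000000000000000) (nat_lit 0x0) (nat_lit 0x40016000b800800068000400000000000000) := T_1 (nat_lit 77) (nat_lit 78) (nat_lit 2) (nat_lit 6) (nat_lit 5) L3969208 (by decide +kernel)
theorem L3969210 : W_1 (nat_lit 8) (nat_lit 0x1000080000000700000000000000000000000) (nat_lit 0x0) (nat_lit 0x40016000bc008c00ef000400000000000000) := Q_1 (nat_lit 91) (C_1 L258962 (C_1 L23633 (C_1 L3969209 N_1))) (by decide +kernel)
theorem L3969211 : W_1 (nat_lit 5) (nat_lit 0x1000080000000700000000000000000000000) (nat_lit 0x0) (nat_lit 0x100019c000c0067000000000000000000) := Q_1 (nat_lit 91) (C_1 L23635 (C_1 L23633 N_1)) (by decide +kernel)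
theorem L3969212 : W_1 (nat_lit 9) (nat_lit 0x1000080000000300000000000000000000000) (nat_lit 0x0) (nat_lit 0x40016007bc01cc01ef000400000000000000) := Q_1 (nat_lit 94) (C_1 L259002 (C_1 L3968947 (C_1 L3969210 (C_1 L3969211 (C_1 L31993 (C_1 L258145 N_1)))))) (by decide +kernel)
theorem L3969213 : W_1 (nat_lit 6) (nat_lit 0x100008000000030001c000000000000000000) (nat_lit 0x0) (nat_lit 0xe00e3003800000000000000) := T_1 (nat_lit 73) (nat_lit 72) (nat_lit 3) (nat_lit 4) (nat_lit 4) L339301 (by decide +kernel)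
theorem L3969214 : W_1 (nat_lit 11) (nat_lit 0x100008000000030000c000000000000000000) (nat_lit 0x0) (nat_lit 0xe00f3007f800f8007c00000) := Q_1 (nat_lit 76) (C_1 L259307 (C_1 L3964606 (C_1 L259299 (C_1 L257080 (C_1 L257085 (C_1 L3969213 N_1)))))) (by decide +kernel)
theorem L3969226 : W_1 (nat_lit 2) (nat_lit 0x100008000100038000c000000000000000000) (nat_lit 0x0) (nat_lit 0x400020000000000000000400000000000000) := D_1 (nat_lit 125) (nat_lit 142) (nat_lit 58) (nat_lit 6) (nat_lit 6) (nat_lit 8) (nat_lit 6) (nat_lit 6) (nat_lit 7) (by decide +kernel)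
theorem L3969251 : W_1 (nat_lit 2) (nat_lit 0x10000800000003c000c000000000000000000) (nat_lit 0x0) (nat_lit 0x30010000000000000000000) := D_1 (nat_lit 89) (nat_lit 88) (nat_lit 76) (nat_lit 2) (nat_lit 3) (nat_lit 5) (nat_lit 2) (nat_lit 4) (nat_lit 5) (by decide +kernel)
theorem L3969254 : W_1 (nat_lit 4) (nat_lit 0x100008000800078003c000000000000000000) (nat_lit 0x0) (nat_lit 0x38000c0006000000) := T_1 (nat_lit 42) (nat_lit 59) (nat_lit 7) (nat_lit 8) (nat_lit 2) L23823 (by decide +kernel)
theorem L3969255 : W_1 (nat_lit 5) (nat_lit 0x100008000800078002c000000000000000000) (nat_lit 0x0) (nat_lit 0x400100038000c0006000000) := T_1 (nat_lit 76) (nat_lit 90) (nat_lit 2) (nat_lit 5) (nat_lit 5) L3969254 (by decide +kernel)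
theorem L3969256 : W_1 (nat_lit 6) (nat_lit 0x100008000800070002c000000000000000000) (nat_lit 0x0) (nat_lit 0x100000c00100038000c0006000000) := T_1 (nat_lit 91) (nat_lit 112) (nat_lit 3) (nat_lit 6) (nat_lit 5) L3969255 (by decide +kernel)
theorem L3969257 : W_1 (nat_lit 7) (nat_lit 0x100008000000070002c000000000000000000) (nat_lit 0x0) (nat_lit 0x1000180000c00100038000c0006000000) := T_1 (nat_lit 111) (nat_lit 128) (nat_lit 5) (nat_lit 9) (nat_lit 4) L3969256 (by decide +kernel)
theorem L3969258 : W_1 (nat_lit 8) (nat_lit 0x100008000000030002c000000000000000000) (nat_lit 0x0) (nat_lit 0x100018000cc00100038000c0006000000) := T_1 (nat_lit 94) (nat_lit 95) (nat_lit 0) (nat_lit 10) (nat_lit 5) L3969257 (by decide +kernel)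
theorem L3969259 : W_1 (nat_lit 10) (nat_lit 0x100008000000030002c000000000000000000) (nat_lit 0x0) (nat_lit 0xc00d0007f000f8007c00000) := Q_1 (nat_lit 76) (C_1 L3965690 (C_1 L3963763 (C_1 L345868 N_1))) (by decide +kernel)
theorem L3969260 : W_1 (nat_lit 7) (nat_lit 0x100008000000030002c000000000000000000) (nat_lit 0x0) (nat_lit 0x100008001c000d0003f000c0006000000) := Q_1 (nat_lit 76) (C_1 L3965690 (C_1 L3963765 (C_1 L3962875 N_1))) (by decide +kernel)
theorem L3969261 : W_1 (nat_lit 3) (nat_lit 0x100008000000070002c000000000000000000) (nat_lit 0x0) (nat_lit 0x100018000080040000000000000000000) := T_1 (nat_lit 91) (nat_lit 78) (nat_lit 2) (nat_lit 6) (nat_lit 5) L354605 (by decide +kernel)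
theorem L3969262 : W_1 (nat_lit 4) (nat_lit 0x100008000000030002c000000000000000000) (nat_lit 0x0) (nat_lit 0x100018000c80040000000000000000000) := T_1 (nat_lit 94) (nat_lit 95) (nat_lit 0) (nat_lit 10) (nat_lit 5) L3969261 (by decide +kernel)
theorem L3969263 : W_1 (nat_lit 11) (nat_lit 0x100008000000030000c000000000000000000) (nat_lit 0x0) (nat_lit 0x100018001cc01f0007f000f8007c00000) := Q_1 (nat_lit 77) (C_1 L3969258 (C_1 L257169 (C_1 L3969259 (C_1 L3969260 (C_1 L3969262 N_1))))) (by decide +kernel)
theorem L3969264 : W_1 (nat_lit 12) (nat_lit 0x1000080000000300008000000000000000000) (nat_lit 0x0) (nat_lit 0x100018001ce01f7007f800f8007c00000) := Q_1 (nat_lit 74) (C_1 L32323 (C_1 L3969214 (C_1 L28280 (C_1 L3969263 N_1)))) (by decide +kernel)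
theorem L3969294 : W_1 (nat_lit 2) (nat_lit 0x100008000200078003c001000040000000000) (nat_lit 0x0) (nat_lit 0x80006000000) := D_1 (nat_lit 43) (nat_lit 25) (nat_lit 26) (nat_lit 4) (nat_lit 9) (nat_lit 5) (nat_lit 5) (nat_lit 9) (nat_lit 1) (by decide +kernel)
theorem L3969295 : W_1 (nat_lit 3) (nat_lit 0x100008000200078003c000000040000000000) (nat_lit 0x0) (nat_lit 0x3000080006000000) := T_1 (nat_lit 60) (nat_lit 61) (nat_lit 2) (nat_lit 6) (nat_lit 4) L3969294 (by decide +kernel)
theorem L3969296 : W_1 (nat_lit 4) (nat_lit 0x100008000200078003c000000000000000000) (nat_lit 0x0) (nat_lit 0x38000c0006000000) := T_1 (nat_lit 42) (nat_lit 59) (nat_lit 5) (nat_lit 8) (nat_lit 2) L3969295 (by decide +kernel)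
theorem L3969297 : W_1 (nat_lit 5) (nat_lit 0x100008000200078002c000000000000000000) (nat_lit 0x0) (nat_lit 0x400100038000c0006000000) := T_1 (nat_lit 76) (nat_lit 90) (nat_lit 2) (nat_lit 5) (nat_lit 5) L3969296 (by decide +kernel)
theorem L3969298 : W_1 (nat_lit 6) (nat_lit 0x100008000200078000c000000000000000000) (nat_lit 0x0) (nat_lit 0x400700038000c0006000000) := T_1 (nat_lit 77) (nat_lit 78) (nat_lit 2) (nat_lit 6) (nat_lit 5) L3969297 (by decide +kernel)
theorem L3969299 : W_1 (nat_lit 7) (nat_lit 0x100008000000078000c000000000000000000) (nat_lit 0x0) (nat_lit 0x400020000400700038000c0006000000) := T_1 (nat_lit 109) (nat_lit 126) (nat_lit 7) (nat_lit 7) (nat_lit 4) L3969298 (by decide +kernel)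
theorem L3969300 : W_1 (nat_lit 8) (nat_lit 0x100008000000038000c000000000000000000) (nat_lit 0x0) (nat_lit 0x40002000c400700038000c0006000000) := T_1 (nat_lit 94) (nat_lit 95) (nat_lit 0) (nat_lit 10) (nat_lit 5) L3969299 (by decide +kernel)
theorem L3969301 : W_1 (nat_lit 2) (nat_lit 0x100008000300078000c000700040000000000) (nat_lit 0x0) (nat_lit 0x100000c0000000000000) := D_1 (nat_lit 55) (nat_lit 76) (nat_lit 54) (nat_lit 3) (nat_lit 4) (nat_lit 3) (nat_lit 3) (nat_lit 3) (nat_lit 3) (by decide +kernel)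
theorem L3969302 : W_1 (nat_lit 3) (nat_lit 0x100008000300078000c000600040000000000) (nat_lit 0x0) (nat_lit 0x100001c0008000000000) := T_1 (nat_lit 56) (nat_lit 39) (nat_lit 4) (nat_lit 6) (nat_lit 6) L3969301 (by decide +kernel)
theorem L3969303 : W_1 (nat_lit 4) (nat_lit 0x100008000200078000c000600040000000000) (nat_lit 0x0) (nat_lit 0x200010000000100001c0008000000000) := T_1 (nat_lit 108) (nat_lit 125) (nat_lit 6) (nat_lit 6) (nat_lit 7) L3969302 (by decide +kernel)
theorem L3969304 : W_1 (nat_lit 5) (nat_lit 0x100008000200078000c000600000000000000) (nat_lit 0x0) (nat_lit 0x200010000000100009c0048000000000) := T_1 (nat_lit 42) (nat_lit 59) (nat_lit 6) (nat_lit 7) (nat_lit 6) L3969303 (by decide +kernel)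
theorem L3969305 : W_1 (nat_lit 6) (nat_lit 0x100008000200078000c000400000000000000) (nat_lit 0x0) (nat_lit 0x20001000000010000bc0058000000000) := T_1 (nat_lit 57) (nat_lit 40) (nat_lit 7) (nat_lit 6) (nat_lit 2) L3969304 (by decide +kernel)
theorem L3969306 : W_1 (nat_lit 7) (nat_lit 0x100008000000078000c000400000000000000) (nat_lit 0x0) (nat_lit 0x60003000000010000bc0058000000000) := T_1 (nat_lit 109) (nat_lit 126) (nat_lit 7) (nat_lit 7) (nat_lit 4) L3969305 (by decide +kernel)
theorem L3969307 : W_1 (nat_lit 8) (nat_lit 0x100008000000038000c000400000000000000) (nat_lit 0x0) (nat_lit 0x60003000c00010000bc0058000000000) := T_1 (nat_lit 94) (nat_lit 95) (nat_lit 0) (nat_lit 10) (nat_lit 5) L3969306 (by decide +kernel)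
theorem L3969308 : W_1 (nat_lit 9) (nat_lit 0x100008000000038000c000000000000000000) (nat_lit 0x0) (nat_lit 0x60003000c00010000fc0078003000000) := Q_1 (nat_lit 58) (C_1 L3962768 (C_1 L3963978 (C_1 L3969307 N_1))) (by decide +kernel)
theorem L3969309 : W_1 (nat_lit 2) (nat_lit 0x100008000300038000c000700040000000000) (nat_lit 0x0) (nat_lit 0x100000c0000000000000) := D_1 (nat_lit 55) (nat_lit 76) (nat_lit 54) (nat_lit 3) (nat_lit 4) (nat_lit 3) (nat_lit 3) (nat_lit 3) (nat_lit 3) (by decide +kernel)
theorem L3969310 : W_1 (nat_lit 3) (nat_lit 0x100008000300038000c000600040000000000) (nat_lit 0x0) (nat_lit 0x100001c0008000000000) := T_1 (nat_lit 56) (nat_lit 39) (nat_lit 4) (nat_lit 6) (nat_lit 6) L3969309 (by decide +kernel)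
theorem L3969311 : W_1 (nat_lit 4) (nat_lit 0x100008000300038000c000400040000000000) (nat_lit 0x0) (nat_lit 0x100003c0018000000000) := T_1 (nat_lit 57) (nat_lit 40) (nat_lit 7) (nat_lit 6) (nat_lit 2) L3969310 (by decide +kernel)
theorem L3969312 : W_1 (nat_lit 5) (nat_lit 0x100008000300038000c000400000000000000) (nat_lit 0x0) (nat_lit 0x10000bc0058000000000) := T_1 (nat_lit 42) (nat_lit 59) (nat_lit 6) (nat_lit 7) (nat_lit 6) L3969311 (by decide +kernel)
theorem L3969313 : W_1 (nat_lit 6) (nat_lit 0x100008000100038000c000400000000000000) (nat_lit 0x0) (nat_lit 0x40002000000010000bc0058000000000) := T_1 (nat_lit 109) (nat_lit 126) (nat_lit 7) (nat_lit 7) (nat_lit 4) L3969312 (by decide +kernel)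
theorem L3969314 : W_1 (nat_lit 7) (nat_lit 0x100008000000038000c000400000000000000) (nat_lit 0x0) (nat_lit 0x60003000000010000bc0058000000000) := T_1 (nat_lit 108) (nat_lit 125) (nat_lit 6) (nat_lit 6) (nat_lit 7) L3969313 (by decide +kernel)
theorem L3969315 : W_1 (nat_lit 8) (nat_lit 0x100008000000038000c000000000000000000) (nat_lit 0x0) (nat_lit 0x60003000000010000fc0078003000000) := Q_1 (nat_lit 58) (C_1 L3963978 (C_1 L3962768 (C_1 L3969314 N_1))) (by decide +kernel)
theorem L3969316 : W_1 (nat_lit 2) (nat_lit 0x10000f800000078002c000400000000000000) (nat_lit 0x0) (nat_lit 0x380000000000000000000000000000000000) := D_1 (nat_lit 140) (nat_lit 139) (nat_lit 141) (nat_lit 1) (nat_lit 7) (nat_lit 7) (nat_lit 1) (nat_lit 8) (nat_lit 7) (by decide +kernel)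
theorem L3969317 : W_1 (nat_lit 3) (nat_lit 0x10000f000000078002c000400000000000000) (nat_lit 0x0) (nat_lit 0xb80008000000000000000000000000000000) := T_1 (nat_lit 123) (nat_lit 143) (nat_lit 3) (nat_lit 4) (nat_lit 7) L3969316 (by decide +kernel)
theorem L3969318 : W_1 (nat_lit 4) (nat_lit 0x10000e000000078002c000400000000000000) (nat_lit 0x0) (nat_lit 0x2b80018000000000000000000000000000000) := T_1 (nat_lit 124) (nat_lit 145) (nat_lit 3) (nat_lit 5) (nat_lit 7) L3969317 (by decide +kernel)
theorem L3969319 : W_1 (nat_lit 5) (nat_lit 0x10000e000000078000c000400000000000000) (nat_lit 0x0) (nat_lit 0x2b80018000000000060000000000000000000) := T_1 (nat_lit 77) (nat_lit 78) (nat_lit 2) (nat_lit 6) (nat_lit 5) L3969318 (by decide +kernel)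
theorem L3969320 : W_1 (nat_lit 6) (nat_lit 0x10000c000000078000c000400000000000000) (nat_lit 0x0) (nat_lit 0x2b80038001000000060000000000000000000) := T_1 (nat_lit 125) (nat_lit 108) (nat_lit 6) (nat_lit 6) (nat_lit 7) L3969319 (by decide +kernel)
theorem L3969321 : W_1 (nat_lit 7) (nat_lit 0x100008000000078000c000400000000000000) (nat_lit 0x0) (nat_lit 0x2b80078003000000060000000000000000000) := T_1 (nat_lit 126) (nat_lit 109) (nat_lit 7) (nat_lit 7) (nat_lit 4) L3969320 (by decide +kernel)
theorem L3969322 : W_1 (nat_lit 8) (nat_lit 0x100008000000038000c000400000000000000) (nat_lit 0x0) (nat_lit 0x2b80078003000c00060000000000000000000) := T_1 (nat_lit 94) (nat_lit 95) (nat_lit 0) (nat_lit 10) (nat_lit 5) L3969321 (by decide +kernel)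
theorem L3969323 : W_1 (nat_lit 9) (nat_lit 0x100008000000038000c000000000000000000) (nat_lit 0x0) (nat_lit 0x2b80078003000c00060000c00060003000000) := Q_1 (nat_lit 58) (C_1 L3963978 (C_1 L3962768 (C_1 L3969322 N_1))) (by decide +kernel)
theorem L3969324 : W_1 (nat_lit 12) (nat_lit 0x100008000000030000c000000000000000000) (nat_lit 0x0) (nat_lit 0x2b80078003000cc0070003fc00f8007c00000) := Q_1 (nat_lit 91) (C_1 L3969300 (C_1 L3969308 (C_1 L3962857 (C_1 L3969315 (C_1 L3969323 (C_1 L3964688 N_1)))))) (by decide +kernel)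
theorem L3969325 : W_1 (nat_lit 13) (nat_lit 0x1000080000000300008000000000000000000) (nat_lit 0x0) (nat_lit 0x2b80078003000ce00f7007fc00f8007c00000) := Q_1 (nat_lit 74) (C_1 L3969214 (C_1 L258920 (C_1 L32323 (C_1 L3969324 N_1)))) (by decide +kernel)
theorem L3969326 : W_1 (nat_lit 7) (nat_lit 0x1000080000000300018000000000000000000) (nat_lit 0x0) (nat_lit 0x40002000000064000f80070003000000) := T_1 (nat_lit 109) (nat_lit 126) (nat_lit 7) (nat_lit 7) (nat_lit 4) L3965170 (by decide +kernel)
theorem L3969327 : W_1 (nat_lit 4) (nat_lit 0x1000080000000300018000c00040000000000) (nat_lit 0x0) (nat_lit 0x3001a0005000000) := T_1 (nat_lit 41) (nat_lit 24) (nat_lit 7) (nat_lit 7) (nat_lit 1) L3965980 (by decide +kernel)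
theorem L3969328 : W_1 (nat_lit 5) (nat_lit 0x1000080000000300018000c00000000000000) (nat_lit 0x0) (nat_lit 0x3001e0007000000) := T_1 (nat_lit 42) (nat_lit 25) (nat_lit 5) (nat_lit 8) (nat_lit 1) L3969327 (by decide +kernel)
theorem L3969329 : W_1 (nat_lit 7) (nat_lit 0x1000080000000300018000800000000000000) (nat_lit 0x0) (nat_lit 0x37003fc007800000) := Q_1 (nat_lit 58) (C_1 L3963186 (C_1 L3963201 (C_1 L3969328 (C_1 L3963182 N_1)))) (by decide +kernel)
theorem L3969330 : W_1 (nat_lit 2) (nat_lit 0x100008000300030001a001f00104000000000) (nat_lit 0x0) (nat_lit 0x6000200000000000) := D_1 (nat_lit 61) (nat_lit 62) (nat_lit 45) (nat_lit 1) (nat_lit 11) (nat_lit 3) (nat_lit 2) (nat_lit 7) (nat_lit 3) (by decide +kernel)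
theorem L3969331 : W_1 (nat_lit 3) (nat_lit 0x100008000300030001a001f00004000000000) (nat_lit 0x0) (nat_lit 0x6000380000000000) := T_1 (nat_lit 44) (nat_lit 43) (nat_lit 2) (nat_lit 6) (nat_lit 3) L3969330 (by decide +kernel)
theorem L3969332 : W_1 (nat_lit 4) (nat_lit 0x100008000300030001a000f00004000000000) (nat_lit 0x0) (nat_lit 0x4007000380000000000) := T_1 (nat_lit 60) (nat_lit 74) (nat_lit 2) (nat_lit 5) (nat_lit 4) L3969331 (by decide +kernel)
theorem L3969333 : W_1 (nat_lit 5) (nat_lit 0x100008000300030001a000f00000000000000) (nat_lit 0x0) (nat_lit 0x400700038c000000000) := T_1 (nat_lit 38) (nat_lit 39) (nat_lit 0) (nat_lit 8) (nat_lit 3) L3969332 (by decide +kernel)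
theorem L3969334 : W_1 (nat_lit 6) (nat_lit 0x1000080003000300018000f00000000000000) (nat_lit 0x0) (nat_lit 0x700700038c000000000) := T_1 (nat_lit 73) (nat_lit 72) (nat_lit 1) (nat_lit 8) (nat_lit 3) L3969333 (by decide +kernel)
theorem L3969335 : W_1 (nat_lit 7) (nat_lit 0x1000080003000300018000e00000000000000) (nat_lit 0x0) (nat_lit 0x700718038c000000000) := T_1 (nat_lit 56) (nat_lit 55) (nat_lit 3) (nat_lit 4) (nat_lit 3) L3969334 (by decide +kernel)
theorem L3969336 : W_1 (nat_lit 8) (nat_lit 0x1000080002000300018000e00000000000000) (nat_lit 0x0) (nat_lit 0x2000100000000700718038c000000000) := T_1 (nat_lit 108) (nat_lit 125) (nat_lit 5) (nat_lit 7) (nat_lit 3) L3969335 (by decide +kernel)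
theorem L3969337 : W_1 (nat_lit 9) (nat_lit 0x1000080002000300018000c00000000000000) (nat_lit 0x0) (nat_lit 0x2000100000000700738039c000000000) := T_1 (nat_lit 57) (nat_lit 40) (nat_lit 4) (nat_lit 7) (nat_lit 6) L3969336 (by decide +kernel)
theorem L3969338 : W_1 (nat_lit 10) (nat_lit 0x1000080000000300018000c00000000000000) (nat_lit 0x0) (nat_lit 0x6000300000000700738039c000000000) := T_1 (nat_lit 109) (nat_lit 126) (nat_lit 7) (nat_lit 7) (nat_lit 4) L3969337 (by decide +kernel)
theorem L3969339 : W_1 (nat_lit 11) (nat_lit 0x1000080000000300018000800000000000000) (nat_lit 0x0) (nat_lit 0x600030000800070077803bc001800000) := Q_1 (nat_lit 58) (C_1 L3963617 (C_1 L3963229 (C_1 L3963201 (C_1 L3969338 N_1)))) (by decide +kernel)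
theorem L3969340 : W_1 (nat_lit 12) (nat_lit 0x1000080000000300018000000000000000000) (nat_lit 0x0) (nat_lit 0x60003000080007007f803fc007800000) := Q_1 (nat_lit 59) (C_1 L258147 (C_1 L3969329 (C_1 L3969339 N_1))) (by decide +kernel)
theorem L3969341 : W_1 (nat_lit 2) (nat_lit 0x100008000200034003c001200000004000000) (nat_lit 0x0) (nat_lit 0x400010000800000) := D_1 (nat_lit 40) (nat_lit 58) (nat_lit 23) (nat_lit 4) (nat_lit 7) (nat_lit 6) (nat_lit 7) (nat_lit 6) (nat_lit 1) (by decide +kernel)
theorem L3969342 : W_1 (nat_lit 3) (nat_lit 0x100008000200034003c001000000004000000) (nat_lit 0x0) (nat_lit 0x700010000800000) := T_1 (nat_lit 57) (nat_lit 56) (nat_lit 0) (nat_lit 9) (nat_lit 4) L3969341 (by decide +kernel)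
theorem L3969343 : W_1 (nat_lit 4) (nat_lit 0x100008000200034003c001000000000000000) (nat_lit 0x0) (nat_lit 0x700090004800000) := T_1 (nat_lit 26) (nat_lit 43) (nat_lit 5) (nat_lit 9) (nat_lit 1) L3969342 (by decide +kernel)
theorem L3969344 : W_1 (nat_lit 5) (nat_lit 0x100008000200030003c001000000000000000) (nat_lit 0x0) (nat_lit 0xc0000000700090004800000) := T_1 (nat_lit 90) (nat_lit 91) (nat_lit 2) (nat_lit 5) (nat_lit 5) L3969343 (by decide +kernel)
theorem L3969345 : W_1 (nat_lit 6) (nat_lit 0x100008000200030003c000000000000000000) (nat_lit 0x0) (nat_lit 0xc0000003700090004800000) := T_1 (nat_lit 60) (nat_lit 61) (nat_lit 2) (nat_lit 6) (nat_lit 4) L3969344 (by decide +kernel)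
theorem L3969346 : W_1 (nat_lit 7) (nat_lit 0x100008000000030003c000000000000000000) (nat_lit 0x0) (nat_lit 0x400020000c0000003700090004800000) := T_1 (nat_lit 109) (nat_lit 126) (nat_lit 7) (nat_lit 7) (nat_lit 4) L3969345 (by decide +kernel)
theorem L3969347 : W_1 (nat_lit 8) (nat_lit 0x1000080000000300038000000000000000000) (nat_lit 0x0) (nat_lit 0x400020000e0007003780090004800000) := Q_1 (nat_lit 74) (C_1 L3969346 (C_1 L3966770 (C_1 L3963173 N_1))) (by decide +kernel)
theorem L3969348 : W_1 (nat_lit 9) (nat_lit 0x1000080000000300018000000000000000000) (nat_lit 0x0) (nat_lit 0x400120018e00e7007780090004800000) := Q_1 (nat_lit 77) (C_1 L259291 (C_1 L257445 (C_1 L3969347 N_1))) (by decide +kernel)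
theorem L3969361 : W_1 (nat_lit 2) (nat_lit 0x10000800020003c001e000900000000000000) (nat_lit 0x0) (nat_lit 0x20001000000000000000008000000000) := D_1 (nat_lit 108) (nat_lit 125) (nat_lit 39) (nat_lit 4) (nat_lit 6) (nat_lit 7) (nat_lit 7) (nat_lit 5) (nat_lit 2) (by decide +kernel)
theorem L3969362 : W_1 (nat_lit 3) (nat_lit 0x10000800020003c001e000800000000000000) (nat_lit 0x0) (nat_lit 0x20001000000000000180008000000000) := T_1 (nat_lit 56) (nat_lit 55) (nat_lit 0) (nat_lit 8) (nat_lit 4) L3969361 (by decide +kernel)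
theorem L3969363 : W_1 (nat_lit 4) (nat_lit 0x10000800020003c001a000800000000000000) (nat_lit 0x0) (nat_lit 0x20001000000004001180008000000000) := T_1 (nat_lit 74) (nat_lit 60) (nat_lit 2) (nat_lit 5) (nat_lit 4) L3969362 (by decide +kernel)
theorem L3969364 : W_1 (nat_lit 5) (nat_lit 0x10000800020003c0018000800000000000000) (nat_lit 0x0) (nat_lit 0x20001000000007001180008000000000) := T_1 (nat_lit 73) (nat_lit 72) (nat_lit 0) (nat_lit 8) (nat_lit 5) L3969363 (by decide +kernel)
theorem L3969390 : W_1 (nat_lit 6) (nat_lit 0x1000080002000380018000800000000000000) (nat_lit 0x0) (nat_lit 0x20001000060007001180008000000000) := T_1 (nat_lit 90) (nat_lit 89) (nat_lit 2) (nat_lit 4) (nat_lit 5) L3969364 (by decide +kernel)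
theorem L3969391 : W_1 (nat_lit 7) (nat_lit 0x1000080002000380018000000000000000000) (nat_lit 0x0) (nat_lit 0x20001000060007001980048000000000) := T_1 (nat_lit 59) (nat_lit 42) (nat_lit 5) (nat_lit 8) (nat_lit 2) L3969390 (by decide +kernel)
theorem L3969392 : W_1 (nat_lit 8) (nat_lit 0x1000080000000380018000000000000000000) (nat_lit 0x0) (nat_lit 0x60003000060007001980048000000000) := T_1 (nat_lit 109) (nat_lit 126) (nat_lit 7) (nat_lit 7) (nat_lit 4) L3969391 (by decide +kernel)
theorem L3969393 : W_1 (nat_lit 9) (nat_lit 0x1000080000000300018000000000000000000) (nat_lit 0x0) (nat_lit 0x2f800780030000e0067001d80068000000000) := Q_1 (nat_lit 91) (C_1 L28229 (C_1 L3963362 (C_1 L3969392 N_1))) (by decide +kernel)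
theorem L3969394 : W_1 (nat_lit 4) (nat_lit 0x100008000200038003c001800080000000000) (nat_lit 0x0) (nat_lit 0x1000000000000600130001000000) := T_1 (nat_lit 57) (nat_lit 40) (nat_lit 7) (nat_lit 6) (nat_lit 2) L3964833 (by decide +kernel)
theorem L3969395 : W_1 (nat_lit 5) (nat_lit 0x100008000200030003c001800080000000000) (nat_lit 0x0) (nat_lit 0x10000c0000000600130001000000) := T_1 (nat_lit 91) (nat_lit 90) (nat_lit 2) (nat_lit 5) (nat_lit 5) L3969394 (by decide +kernel)
theorem L3969396 : W_1 (nat_lit 6) (nat_lit 0x100008000200030003c001800000000000000) (nat_lit 0x0) (nat_lit 0x10000c00000006001b0005000000) := T_1 (nat_lit 43) (nat_lit 26) (nat_lit 5) (nat_lit 9) (nat_lit 1) L3969395 (by decide +kernel)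
theorem L3969397 : W_1 (nat_lit 7) (nat_lit 0x100008000200030003c000800000000000000) (nat_lit 0x0) (nat_lit 0x10000c00000036001b0005000000) := T_1 (nat_lit 60) (nat_lit 61) (nat_lit 2) (nat_lit 6) (nat_lit 4) L3969396 (by decide +kernel)
theorem L3969398 : W_1 (nat_lit 8) (nat_lit 0x100008000200030003c000000000000000000) (nat_lit 0x0) (nat_lit 0x10000c0000003e001f0005000000) := T_1 (nat_lit 59) (nat_lit 42) (nat_lit 5) (nat_lit 8) (nat_lit 2) L3969397 (by decide +kernel)
theorem L3969399 : W_1 (nat_lit 9) (nat_lit 0x100008000000030003c000000000000000000) (nat_lit 0x0) (nat_lit 0x400030000c0000003e001f0005000000) := T_1 (nat_lit 109) (nat_lit 126) (nat_lit 7) (nat_lit 7) (nat_lit 4) L3969398 (by decide +kernel)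
theorem L3969400 : W_1 (nat_lit 10) (nat_lit 0x1000080000000300038000000000000000000) (nat_lit 0x0) (nat_lit 0x400030000e0007003e001f0005000000) := Q_1 (nat_lit 74) (C_1 L3963175 (C_1 L3969399 (C_1 L3963173 N_1))) (by decide +kernel)
theorem L3969401 : W_1 (nat_lit 11) (nat_lit 0x1000080000000300018000000000000000000) (nat_lit 0x0) (nat_lit 0x400130018e00e7007e001f0007800000) := Q_1 (nat_lit 77) (C_1 L259291 (C_1 L3969400 (C_1 L3964072 (C_1 L257450 N_1)))) (by decide +kernel)
theorem L3969402 : W_1 (nat_lit 13) (nat_lit 0x1000080000000300008000000000000000000) (nat_lit 0x0) (nat_lit 0x2f800780130018e00f7007f803fc007c00000) := Q_1 (nat_lit 76) (C_1 L3964064 (C_1 L3963177 (C_1 L3969326 (C_1 L3969340 (C_1 L3963271 (C_1 L3969348 (C_1 L3969393 (C_1 L3969401 N_1)))))))) (by decide +kernel)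
theorem L3969450 : W_1 (nat_lit 2) (nat_lit 0x1000080003000700018000400010000000000) (nat_lit 0x0) (nat_lit 0x20001800000) := D_1 (nat_lit 41) (nat_lit 23) (nat_lit 24) (nat_lit 4) (nat_lit 7) (nat_lit 5) (nat_lit 7) (nat_lit 7) (nat_lit 1) (by decide +kernel)
theorem L3969451 : W_1 (nat_lit 3) (nat_lit 0x1000080003000700018000400000000000000) (nat_lit 0x0) (nat_lit 0x200030001800000) := T_1 (nat_lit 40) (nat_lit 57) (nat_lit 4) (nat_lit 7) (nat_lit 6) L3969450 (by decide +kernel)
theorem L3969452 : W_1 (nat_lit 4) (nat_lit 0x1000080002000700018000400000000000000) (nat_lit 0x0) (nat_lit 0x20001000000000000200030001800000) := T_1 (nat_lit 108) (nat_lit 125) (nat_lit 5) (nat_lit 7) (nat_lit 3) L3969451 (by decide +kernel)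
theorem L3969453 : W_1 (nat_lit 5) (nat_lit 0x1000080000000700018000400000000000000) (nat_lit 0x0) (nat_lit 0x60003000000000000200030001800000) := T_1 (nat_lit 109) (nat_lit 126) (nat_lit 7) (nat_lit 7) (nat_lit 4) L3969452 (by decide +kernel)
theorem L3969455 : W_1 (nat_lit 2) (nat_lit 0x100008000300070001a000e00000000000000) (nat_lit 0x0) (nat_lit 0x1000180000000000000) := D_1 (nat_lit 56) (nat_lit 55) (nat_lit 72) (nat_lit 3) (nat_lit 4) (nat_lit 3) (nat_lit 1) (nat_lit 8) (nat_lit 3) (by decide +kernel)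
theorem L3969456 : W_1 (nat_lit 3) (nat_lit 0x100008000300070001a000c00000000000000) (nat_lit 0x0) (nat_lit 0x1000380010000000000) := T_1 (nat_lit 57) (nat_lit 40) (nat_lit 4) (nat_lit 7) (nat_lit 6) L3969455 (by decide +kernel)
theorem L3969457 : W_1 (nat_lit 4) (nat_lit 0x100008000200070001a000c00000000000000) (nat_lit 0x0) (nat_lit 0x20001000000001000380010000000000) := T_1 (nat_lit 108) (nat_lit 125) (nat_lit 5) (nat_lit 7) (nat_lit 3) L3969456 (by decide +kernel)
theorem L3969458 : W_1 (nat_lit 5) (nat_lit 0x100008000200070001a000400000000000000) (nat_lit 0x0) (nat_lit 0x20001000000001000b80050000000000) := T_1 (nat_lit 59) (nat_lit 42) (nat_lit 6) (nat_lit 7) (nat_lit 6) L3969457 (by decide +kernel)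
theorem L3969459 : W_1 (nat_lit 6) (nat_lit 0x100008000000070001a000400000000000000) (nat_lit 0x0) (nat_lit 0x60003000000001000b80050000000000) := T_1 (nat_lit 109) (nat_lit 126) (nat_lit 7) (nat_lit 7) (nat_lit 4) L3969458 (by decide +kernel)
theorem L3969460 : W_1 (nat_lit 7) (nat_lit 0x1000080000000700018000400000000000000) (nat_lit 0x0) (nat_lit 0x60003000000007000b80050000000000) := T_1 (nat_lit 73) (nat_lit 74) (nat_lit 3) (nat_lit 5) (nat_lit 4) L3969459 (by decide +kernel)
theorem L3969461 : W_1 (nat_lit 8) (nat_lit 0x1000080000000700018000000000000000000) (nat_lit 0x0) (nat_lit 0x6000b000000007000f801f0007800000) := Q_1 (nat_lit 58) (C_1 L3969453 (C_1 L3965796 (C_1 L3964219 (C_1 L3969460 (C_1 L3963820 N_1))))) (by decide +kernel)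
theorem L3969534 : W_1 (nat_lit 5) (nat_lit 0x1000080000000300018000400000000000000) (nat_lit 0x0) (nat_lit 0x40002000000020000b80050000000000) := T_1 (nat_lit 109) (nat_lit 126) (nat_lit 7) (nat_lit 7) (nat_lit 4) L3966017 (by decide +kernel)
theorem L3969535 : W_1 (nat_lit 11) (nat_lit 0x1000080000000300018000000000000000000) (nat_lit 0x0) (nat_lit 0x4000a001c000e0003f803fc007800000) := Q_1 (nat_lit 58) (C_1 L3966009 (C_1 L3965950 (C_1 L3963707 (C_1 L3969534 (C_1 L257227 N_1))))) (by decide +kernel)
theorem L3969541 : W_1 (nat_lit 9) (nat_lit 0x1000080000000300018000000000000000000) (nat_lit 0x0) (nat_lit 0x6000b001c00007000f801f0007800000) := Q_1 (nat_lit 94) (C_1 L3963749 (C_1 L3969461 (C_1 L257221 N_1))) (by decide +kernel)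
theorem L3969542 : W_1 (nat_lit 12) (nat_lit 0x1000080000000300008000000000000000000) (nat_lit 0x0) (nat_lit 0x16000b001c600f7007f803fc007800000) := Q_1 (nat_lit 76) (C_1 L3969326 (C_1 L3963642 (C_1 L3969535 (C_1 L3969541 (C_1 L3963857 (C_1 L3963774 N_1)))))) (by decide +kernel)
theorem L3969543 : W_1 (nat_lit 2) (nat_lit 0x100008000100038000c000200018001000000) (nat_lit 0x0) (nat_lit 0x400020000000000000000400000000000000) := D_1 (nat_lit 125) (nat_lit 58) (nat_lit 142) (nat_lit 6) (nat_lit 6) (nat_lit 7) (nat_lit 6) (nat_lit 6) (nat_lit 8) (by decide +kernel)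
theorem L3969544 : W_1 (nat_lit 3) (nat_lit 0x100008000000038000c000200018001000000) (nat_lit 0x0) (nat_lit 0x400020001000000000000500000000000000) := T_1 (nat_lit 108) (nat_lit 56) (nat_lit 4) (nat_lit 6) (nat_lit 6) L3969543 (by decide +kernel)
theorem L3969545 : W_1 (nat_lit 4) (nat_lit 0x100008000000038000c000200010001000000) (nat_lit 0x0) (nat_lit 0x400020001000000000000500008000400000) := T_1 (nat_lit 39) (nat_lit 22) (nat_lit 4) (nat_lit 6) (nat_lit 5) L3969544 (by decide +kernel)
theorem L3969546 : W_1 (nat_lit 5) (nat_lit 0x100008000000038000c000200010000000000) (nat_lit 0x0) (nat_lit 0x400020001000000000000500028001400000) := T_1 (nat_lit 24) (nat_lit 41) (nat_lit 6) (nat_lit 6) (nat_lit 5) L3969545 (by decide +kernel)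
theorem L3969547 : W_1 (nat_lit 6) (nat_lit 0x100008000000038000c000200000000000000) (nat_lit 0x0) (nat_lit 0x400020001000000000000500038001c00000) := T_1 (nat_lit 40) (nat_lit 23) (nat_lit 7) (nat_lit 6) (nat_lit 1) L3969546 (by decide +kernel)
theorem L3969548 : W_1 (nat_lit 2) (nat_lit 0x10000f800000038000c000400000000000000) (nat_lit 0x0) (nat_lit 0x380000000000000000000000000000000000) := D_1 (nat_lit 140) (nat_lit 139) (nat_lit 141) (nat_lit 1) (nat_lit 7) (nat_lit 7) (nat_lit 1) (nat_lit 8) (nat_lit 7) (by decide +kernel)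
theorem L3969549 : W_1 (nat_lit 3) (nat_lit 0x10000f000000038000c000400000000000000) (nat_lit 0x0) (nat_lit 0xb80008000000000000000000000000000000) := T_1 (nat_lit 123) (nat_lit 143) (nat_lit 3) (nat_lit 4) (nat_lit 7) L3969548 (by decide +kernel)
theorem L3969550 : W_1 (nat_lit 4) (nat_lit 0x10000e000000038000c000400000000000000) (nat_lit 0x0) (nat_lit 0x2b80018000000000000000000000000000000) := T_1 (nat_lit 124) (nat_lit 145) (nat_lit 3) (nat_lit 5) (nat_lit 7) L3969549 (by decide +kernel)
theorem L3969551 : W_1 (nat_lit 5) (nat_lit 0x10000a000000038000c000400000000000000) (nat_lit 0x0) (nat_lit 0x2b80058002000000000000000000000000000) := T_1 (nat_lit 126) (nat_lit 109) (nat_lit 7) (nat_lit 7) (nat_lit 4) L3969550 (by decide +kernel)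
theorem L3969552 : W_1 (nat_lit 6) (nat_lit 0x100008000000038000c000400000000000000) (nat_lit 0x0) (nat_lit 0x2b80078003000000000000000000000000000) := T_1 (nat_lit 125) (nat_lit 108) (nat_lit 6) (nat_lit 6) (nat_lit 7) L3969551 (by decide +kernel)
theorem L3969562 : W_1 (nat_lit 2) (nat_lit 0x100008000000038000c000400000000000000) (nat_lit 0x0) (nat_lit 0x20001000000000000000020000000000) := D_1 (nat_lit 108) (nat_lit 125) (nat_lit 41) (nat_lit 6) (nat_lit 6) (nat_lit 7) (nat_lit 5) (nat_lit 7) (nat_lit 2) (by decide +kernel)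
theorem L3969604 : W_1 (nat_lit 2) (nat_lit 0x100008000200030000c000400060000000000) (nat_lit 0x0) (nat_lit 0x20001000080000000000000000000000) := D_1 (nat_lit 108) (nat_lit 125) (nat_lit 91) (nat_lit 5) (nat_lit 7) (nat_lit 3) (nat_lit 5) (nat_lit 7) (nat_lit 2) (by decide +kernel)
theorem L3969605 : W_1 (nat_lit 3) (nat_lit 0x100008000200030000c000400040000000000) (nat_lit 0x0) (nat_lit 0x20001000080000000000020002000000) := T_1 (nat_lit 41) (nat_lit 25) (nat_lit 6) (nat_lit 7) (nat_lit 5) L3969604 (by decide +kernel)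
theorem L3969606 : W_1 (nat_lit 4) (nat_lit 0x100008000200030000c000400000000000000) (nat_lit 0x0) (nat_lit 0x20001000080000000800060002000000) := T_1 (nat_lit 42) (nat_lit 59) (nat_lit 6) (nat_lit 7) (nat_lit 6) L3969605 (by decide +kernel)
theorem L3969607 : W_1 (nat_lit 5) (nat_lit 0x100008000200030000c000000000000000000) (nat_lit 0x0) (nat_lit 0x20001000080003001e00070002800000) := Q_1 (nat_lit 58) (C_1 L3965241 (C_1 L340088 (C_1 L3969606 N_1))) (by decide +kernel)
theorem L3969608 : W_1 (nat_lit 6) (nat_lit 0x100008000000030000c000000000000000000) (nat_lit 0x0) (nat_lit 0x60003000080003001e00070002800000) := T_1 (nat_lit 109) (nat_lit 126) (nat_lit 7) (nat_lit 7) (nat_lit 4) L3969607 (by decide +kernel)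
theorem L3969609 : W_1 (nat_lit 2) (nat_lit 0x1000080000000780008000400020000000000) (nat_lit 0x0) (nat_lit 0x6000000000001000000) := D_1 (nat_lit 74) (nat_lit 24) (nat_lit 73) (nat_lit 5) (nat_lit 7) (nat_lit 1) (nat_lit 0) (nat_lit 9) (nat_lit 5) (by decide +kernel)
theorem L3969610 : W_1 (nat_lit 3) (nat_lit 0x1000080000000780008000400000000000000) (nat_lit 0x0) (nat_lit 0x1000000006000000020001000000) := T_1 (nat_lit 41) (nat_lit 108) (nat_lit 5) (nat_lit 7) (nat_lit 2) L3969609 (by decide +kernel)
theorem L3969611 : W_1 (nat_lit 2) (nat_lit 0x1000080002000780008000400060000000000) (nat_lit 0x0) (nat_lit 0x200010000800000) := D_1 (nat_lit 40) (nat_lit 57) (nat_lit 23) (nat_lit 4) (nat_lit 7) (nat_lit 6) (nat_lit 4) (nat_lit 7) (nat_lit 5) (by decide +kernel)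
theorem L3969612 : W_1 (nat_lit 3) (nat_lit 0x1000080002000780008000400040000000000) (nat_lit 0x0) (nat_lit 0x200030002800000) := T_1 (nat_lit 41) (nat_lit 25) (nat_lit 6) (nat_lit 7) (nat_lit 5) L3969611 (by decide +kernel)
theorem L3969613 : W_1 (nat_lit 4) (nat_lit 0x1000080002000780008000400000000000000) (nat_lit 0x0) (nat_lit 0xa00070002800000) := T_1 (nat_lit 42) (nat_lit 59) (nat_lit 6) (nat_lit 7) (nat_lit 6) L3969612 (by decide +kernel)
theorem L3969614 : W_1 (nat_lit 5) (nat_lit 0x1000080000000780008000400000000000000) (nat_lit 0x0) (nat_lit 0x40002000000000000a00070002800000) := T_1 (nat_lit 109) (nat_lit 126) (nat_lit 7) (nat_lit 7) (nat_lit 4) L3969613 (by decide +kernel)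
theorem L3969615 : W_1 (nat_lit 2) (nat_lit 0x100008000300078002a000e00000000000000) (nat_lit 0x0) (nat_lit 0x40001000100000000000000) := D_1 (nat_lit 72) (nat_lit 90) (nat_lit 56) (nat_lit 0) (nat_lit 8) (nat_lit 5) (nat_lit 1) (nat_lit 8) (nat_lit 3) (by decide +kernel)
theorem L3969616 : W_1 (nat_lit 3) (nat_lit 0x1000080003000780028000e00000000000000) (nat_lit 0x0) (nat_lit 0x40007000100000000000000) := T_1 (nat_lit 73) (nat_lit 74) (nat_lit 0) (nat_lit 9) (nat_lit 5) L3969615 (by decide +kernel)
theorem L3969617 : W_1 (nat_lit 4) (nat_lit 0x1000080003000780028000c00000000000000) (nat_lit 0x0) (nat_lit 0x40007000300010000000000) := T_1 (nat_lit 57) (nat_lit 40) (nat_lit 4) (nat_lit 7) (nat_lit 6) L3969616 (by decide +kernel)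
theorem L3969618 : W_1 (nat_lit 5) (nat_lit 0x1000080002000780028000c00000000000000) (nat_lit 0x0) (nat_lit 0x20001000040007000300010000000000) := T_1 (nat_lit 108) (nat_lit 125) (nat_lit 5) (nat_lit 7) (nat_lit 3) L3969617 (by decide +kernel)
theorem L3969619 : W_1 (nat_lit 6) (nat_lit 0x1000080002000780028000400000000000000) (nat_lit 0x0) (nat_lit 0x20001000040007000b00050000000000) := T_1 (nat_lit 59) (nat_lit 42) (nat_lit 6) (nat_lit 7) (nat_lit 6) L3969618 (by decide +kernel)
theorem L3969620 : W_1 (nat_lit 7) (nat_lit 0x1000080000000780028000400000000000000) (nat_lit 0x0) (nat_lit 0x60003000040007000b00050000000000) := T_1 (nat_lit 109) (nat_lit 126) (nat_lit 7) (nat_lit 7) (nat_lit 4) L3969619 (by decide +kernel)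
theorem L3969621 : W_1 (nat_lit 8) (nat_lit 0x1000080000000780008000400000000000000) (nat_lit 0x0) (nat_lit 0x60003000040067000b00050000000000) := T_1 (nat_lit 77) (nat_lit 78) (nat_lit 2) (nat_lit 6) (nat_lit 5) L3969620 (by decide +kernel)
theorem L3969622 : W_1 (nat_lit 9) (nat_lit 0x1000080000000780008000000000000000000) (nat_lit 0x0) (nat_lit 0x60003000040067000f00070003800040) := Q_1 (nat_lit 58) (C_1 L3964006 (C_1 L3964004 (C_1 L3969610 (C_1 L3969614 (C_1 L3969621 N_1))))) (by decide +kernel)
theorem L3969623 : W_1 (nat_lit 2) (nat_lit 0x100008000a00078000b000c00000000000000) (nat_lit 0x0) (nat_lit 0x300010000000000) := D_1 (nat_lit 57) (nat_lit 40) (nat_lit 56) (nat_lit 4) (nat_lit 7) (nat_lit 6) (nat_lit 1) (nat_lit 8) (nat_lit 3) (by decide +kernel)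
theorem L3969624 : W_1 (nat_lit 3) (nat_lit 0x100008000a00078000b000400000000000000) (nat_lit 0x0) (nat_lit 0xb00050000000000) := T_1 (nat_lit 59) (nat_lit 42) (nat_lit 6) (nat_lit 7) (nat_lit 6) L3969623 (by decide +kernel)
theorem L3969625 : W_1 (nat_lit 4) (nat_lit 0x100008000800078000b000400000000000000) (nat_lit 0x0) (nat_lit 0x40002000000000000b00050000000000) := T_1 (nat_lit 109) (nat_lit 126) (nat_lit 7) (nat_lit 7) (nat_lit 4) L3969624 (by decide +kernel)
theorem L3969626 : W_1 (nat_lit 5) (nat_lit 0x100008000000078000b000400000000000000) (nat_lit 0x0) (nat_lit 0x4001a000000000000b00050000000000) := T_1 (nat_lit 111) (nat_lit 112) (nat_lit 3) (nat_lit 6) (nat_lit 5) L3969625 (by decide +kernel)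
theorem L3969627 : W_1 (nat_lit 6) (nat_lit 0x100008000000078000a000400000000000000) (nat_lit 0x0) (nat_lit 0x4001a000040001000b00050000000000) := T_1 (nat_lit 72) (nat_lit 90) (nat_lit 0) (nat_lit 8) (nat_lit 5) L3969626 (by decide +kernel)
theorem L3969628 : W_1 (nat_lit 7) (nat_lit 0x1000080000000780008000400000000000000) (nat_lit 0x0) (nat_lit 0x4001a000040007000b00050000000000) := T_1 (nat_lit 73) (nat_lit 74) (nat_lit 0) (nat_lit 9) (nat_lit 5) L3969627 (by decide +kernel)
theorem L3969629 : W_1 (nat_lit 8) (nat_lit 0x1000080000000780008000000000000000000) (nat_lit 0x0) (nat_lit 0x4001b000040007000f00070003800000) := Q_1 (nat_lit 58) (C_1 L3969614 (C_1 L3969610 (C_1 L3969628 N_1))) (by decide +kernel)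
theorem L3969630 : W_1 (nat_lit 14) (nat_lit 0x1000080000000700008000000000000000000) (nat_lit 0x0) (nat_lit 0x16001b0000c0067003f001f000b800040) := Q_1 (nat_lit 91) (C_1 L341835 (C_1 L3964034 (C_1 L3969622 (C_1 L3969629 N_1)))) (by decide +kernel)
theorem L3969631 : W_1 (nat_lit 5) (nat_lit 0x1000080002000700008000000000000000000) (nat_lit 0x0) (nat_lit 0x710018001c0000000000000000000) := T_1 (nat_lit 95) (nat_lit 108) (nat_lit 1) (nat_lit 10) (nat_lit 5) L343863 (by decide +kernel)
theorem L3969632 : W_1 (nat_lit 6) (nat_lit 0x1000080000000700008000000000000000000) (nat_lit 0x0) (nat_lit 0x400730018001c0000000000000000000) := T_1 (nat_lit 109) (nat_lit 126) (nat_lit 7) (nat_lit 7) (nat_lit 4) L3969631 (by decide +kernel)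
theorem L3969633 : W_1 (nat_lit 15) (nat_lit 0x1000080000000300008000000000000000000) (nat_lit 0x0) (nat_lit 0x16007b001cc01e7003f001f000b800040) := Q_1 (nat_lit 94) (C_1 L3963988 (C_1 L3969630 (C_1 L343860 (C_1 L3969632 N_1)))) (by decide +kernel)
theorem L3969634 : W_1 (nat_lit 11) (nat_lit 0x1000080000000300018000000000000000000) (nat_lit 0x0) (nat_lit 0x4000a0004e00e7007b001f800fc00000) := Q_1 (nat_lit 77) (C_1 L3963176 (C_1 L346099 (C_1 L257445 N_1))) (by decide +kernel)
theorem L3969635 : W_1 (nat_lit 2) (nat_lit 0x10000800020003c001e000100000000000000) (nat_lit 0x0) (nat_lit 0x20001000000000000000008000000000) := D_1 (nat_lit 108) (nat_lit 125) (nat_lit 39) (nat_lit 4) (nat_lit 6) (nat_lit 7) (nat_lit 7) (nat_lit 5) (nat_lit 2) (by decide +kernel)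
theorem L3969636 : W_1 (nat_lit 3) (nat_lit 0x10000800020003c001e000000000000000000) (nat_lit 0x0) (nat_lit 0x20001000000000000180008000000000) := T_1 (nat_lit 56) (nat_lit 55) (nat_lit 0) (nat_lit 8) (nat_lit 4) L3969635 (by decide +kernel)
theorem L3969637 : W_1 (nat_lit 4) (nat_lit 0x10000800020003c001a000000000000000000) (nat_lit 0x0) (nat_lit 0x20001000400004000180008000000000) := T_1 (nat_lit 74) (nat_lit 94) (nat_lit 3) (nat_lit 5) (nat_lit 4) L3969636 (by decide +kernel)
theorem L3969638 : W_1 (nat_lit 5) (nat_lit 0x10000800020003c0018000000000000000000) (nat_lit 0x0) (nat_lit 0x20001000400007000180008000000000) := T_1 (nat_lit 73) (nat_lit 72) (nat_lit 0) (nat_lit 8) (nat_lit 5) L3969637 (by decide +kernel)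
theorem L3969639 : W_1 (nat_lit 6) (nat_lit 0x10000800000003c0018000000000000000000) (nat_lit 0x0) (nat_lit 0x60003000400007000180008000000000) := T_1 (nat_lit 109) (nat_lit 126) (nat_lit 7) (nat_lit 7) (nat_lit 4) L3969638 (by decide +kernel)
theorem L3969640 : W_1 (nat_lit 7) (nat_lit 0x1000080000000380018000000000000000000) (nat_lit 0x0) (nat_lit 0x60003000460007000180008000000000) := T_1 (nat_lit 90) (nat_lit 89) (nat_lit 2) (nat_lit 4) (nat_lit 5) L3969639 (by decide +kernel)
theorem L3969641 : W_1 (nat_lit 8) (nat_lit 0x1000080000000300018000000000000000000) (nat_lit 0x0) (nat_lit 0x2f800780030004e0067000580028000000000) := Q_1 (nat_lit 91) (C_1 L258156 (C_1 L3963362 (C_1 L3969640 N_1))) (by decide +kernel)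
theorem L3969642 : W_1 (nat_lit 10) (nat_lit 0x1000080000000300018000000000000000000) (nat_lit 0x0) (nat_lit 0x4000a0004e00e7007f801d000e800000) := Q_1 (nat_lit 77) (C_1 L257445 (C_1 L3969347 (C_1 L346099 N_1))) (by decide +kernel)
theorem L3969643 : W_1 (nat_lit 4) (nat_lit 0x10000800020003c0018000000000000000000) (nat_lit 0x0) (nat_lit 0x400007001800040000000000) := T_1 (nat_lit 59) (nat_lit 42) (nat_lit 5) (nat_lit 8) (nat_lit 2) L3964769 (by decide +kernel)
theorem L3969644 : W_1 (nat_lit 5) (nat_lit 0x10000800000003c0018000000000000000000) (nat_lit 0x0) (nat_lit 0x40002000400007001800040000000000) := T_1 (nat_lit 109) (nat_lit 126) (nat_lit 7) (nat_lit 7) (nat_lit 4) L3969643 (by decide +kernel)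
theorem L3969645 : W_1 (nat_lit 6) (nat_lit 0x1000080000000380018000000000000000000) (nat_lit 0x0) (nat_lit 0x40002000460007001800040000000000) := T_1 (nat_lit 90) (nat_lit 89) (nat_lit 2) (nat_lit 4) (nat_lit 5) L3969644 (by decide +kernel)
theorem L3969646 : W_1 (nat_lit 8) (nat_lit 0x1000080000000300018000000000000000000) (nat_lit 0x0) (nat_lit 0x2f800780030004e0067001c00060000000000) := Q_1 (nat_lit 91) (C_1 L258156 (C_1 L3963362 (C_1 L3969645 N_1))) (by decide +kernel)
theorem L3969647 : W_1 (nat_lit 13) (nat_lit 0x1000080000000300008000000000000000000) (nat_lit 0x0) (nat_lit 0x2f8007800b0004e00f7007f803fc00fc00000) := Q_1 (nat_lit 76) (C_1 L3969326 (C_1 L3969393 (C_1 L3963177 (C_1 L3964064 (C_1 L3969340 (C_1 L3969634 (C_1 L3969641 (C_1 L3969642 (C_1 L3969646 N_1))))))))) (by decide +kernel)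
theorem L3969656 : W_1 (nat_lit 2) (nat_lit 0x100008000800070002c000200000000800000) (nat_lit 0x0) (nat_lit 0x10000080040000000000000000000) := D_1 (nat_lit 91) (nat_lit 112) (nat_lit 78) (nat_lit 3) (nat_lit 6) (nat_lit 5) (nat_lit 2) (nat_lit 6) (nat_lit 5) (by decide +kernel)
theorem L3969657 : W_1 (nat_lit 3) (nat_lit 0x100008000000070002c000200000000800000) (nat_lit 0x0) (nat_lit 0x100018000080040000000000000000000) := T_1 (nat_lit 111) (nat_lit 128) (nat_lit 5) (nat_lit 9) (nat_lit 4) L3969656 (by decide +kernel)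
theorem L3969658 : W_1 (nat_lit 4) (nat_lit 0x100008000000070002c000200000000000000) (nat_lit 0x0) (nat_lit 0x100018000080040000000010000800000) := T_1 (nat_lit 23) (nat_lit 40) (nat_lit 7) (nat_lit 6) (nat_lit 1) L3969657 (by decide +kernel)
theorem L3969659 : W_1 (nat_lit 5) (nat_lit 0x100008000000030002c000200000000000000) (nat_lit 0x0) (nat_lit 0x100018000c80040000000010000800000) := T_1 (nat_lit 94) (nat_lit 95) (nat_lit 0) (nat_lit 10) (nat_lit 5) L3969658 (by decide +kernel)
theorem L3969660 : W_1 (nat_lit 2) (nat_lit 0x100008000800078002c000340008000000000) (nat_lit 0x0) (nat_lit 0x10000400020) := D_1 (nat_lit 22) (nat_lit 40) (nat_lit 5) (nat_lit 4) (nat_lit 6) (nat_lit 5) (nat_lit 7) (nat_lit 5) (nat_lit 0) (by decide +kernel)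
theorem L3969661 : W_1 (nat_lit 3) (nat_lit 0x100008000800078002c000340000000000000) (nat_lit 0x0) (nat_lit 0x1000000000000000018000400020) := T_1 (nat_lit 39) (nat_lit 108) (nat_lit 4) (nat_lit 6) (nat_lit 6) L3969660 (by decide +kernel)
theorem L3969662 : W_1 (nat_lit 4) (nat_lit 0x100008000800078002c000300000000000000) (nat_lit 0x0) (nat_lit 0x10000000000000c0018000400020) := T_1 (nat_lit 54) (nat_lit 55) (nat_lit 3) (nat_lit 3) (nat_lit 3) L3969661 (by decide +kernel)
theorem L3969663 : W_1 (nat_lit 5) (nat_lit 0x100008000800070002c000300000000000000) (nat_lit 0x0) (nat_lit 0x110000800000000c0018000400020) := T_1 (nat_lit 91) (nat_lit 112) (nat_lit 3) (nat_lit 6) (nat_lit 5) L3969662 (by decide +kernel)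
theorem L3969664 : W_1 (nat_lit 6) (nat_lit 0x100008000000070002c000300000000000000) (nat_lit 0x0) (nat_lit 0x1000190000800000000c0018000400020) := T_1 (nat_lit 111) (nat_lit 128) (nat_lit 5) (nat_lit 9) (nat_lit 4) L3969663 (by decide +kernel)
theorem L3969665 : W_1 (nat_lit 7) (nat_lit 0x100008000000070002c000200000000000000) (nat_lit 0x0) (nat_lit 0x1000190000800100001c0018000400020) := T_1 (nat_lit 56) (nat_lit 76) (nat_lit 0) (nat_lit 9) (nat_lit 4) L3969664 (by decide +kernel)
theorem L3969666 : W_1 (nat_lit 8) (nat_lit 0x100008000000030002c000200000000000000) (nat_lit 0x0) (nat_lit 0x100019000c800100001c0018000400020) := T_1 (nat_lit 94) (nat_lit 95) (nat_lit 0) (nat_lit 10) (nat_lit 5) L3969665 (by decide +kernel)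
theorem L3969667 : W_1 (nat_lit 2) (nat_lit 0x100008000800070002c000340000000000000) (nat_lit 0x0) (nat_lit 0x10000080040000000000000000000) := D_1 (nat_lit 91) (nat_lit 112) (nat_lit 78) (nat_lit 3) (nat_lit 6) (nat_lit 5) (nat_lit 2) (nat_lit 6) (nat_lit 5) (by decide +kernel)
theorem L3969668 : W_1 (nat_lit 3) (nat_lit 0x100008000000070002c000340000000000000) (nat_lit 0x0) (nat_lit 0x100018000080040000000000000000000) := T_1 (nat_lit 111) (nat_lit 128) (nat_lit 5) (nat_lit 9) (nat_lit 4) L3969667 (by decide +kernel)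
theorem L3969669 : W_1 (nat_lit 4) (nat_lit 0x100008000000070002c000300000000000000) (nat_lit 0x0) (nat_lit 0x1000180000800400000c0000000000000) := T_1 (nat_lit 54) (nat_lit 55) (nat_lit 3) (nat_lit 3) (nat_lit 3) L3969668 (by decide +kernel)
theorem L3969670 : W_1 (nat_lit 5) (nat_lit 0x100008000000030002c000300000000000000) (nat_lit 0x0) (nat_lit 0x100018000c800400000c0000000000000) := T_1 (nat_lit 94) (nat_lit 95) (nat_lit 0) (nat_lit 10) (nat_lit 5) L3969669 (by decide +kernel)
theorem L3969671 : W_1 (nat_lit 6) (nat_lit 0x100008000000030002c000200000000000000) (nat_lit 0x0) (nat_lit 0x100018000c800500001c0000000000000) := T_1 (nat_lit 56) (nat_lit 76) (nat_lit 0) (nat_lit 9) (nat_lit 4) L3969670 (by decide +kernel)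
theorem L3969672 : W_1 (nat_lit 9) (nat_lit 0x100008000000030000c000200000000000000) (nat_lit 0x0) (nat_lit 0x100019000c800f00005c0018000c00020) := Q_1 (nat_lit 77) (C_1 L3969659 (C_1 L3963388 (C_1 L3963393 (C_1 L3969666 (C_1 L3969671 N_1))))) (by decide +kernel)
theorem L3969673 : W_1 (nat_lit 2) (nat_lit 0x100008000a00070002c000200000000000000) (nat_lit 0x0) (nat_lit 0x10000080040000000000000000000) := D_1 (nat_lit 91) (nat_lit 112) (nat_lit 78) (nat_lit 3) (nat_lit 6) (nat_lit 5) (nat_lit 2) (nat_lit 6) (nat_lit 5) (by decide +kernel)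
theorem L3969674 : W_1 (nat_lit 3) (nat_lit 0x100008000200070002c000200000000000000) (nat_lit 0x0) (nat_lit 0x100018000080040000000000000000000) := T_1 (nat_lit 111) (nat_lit 128) (nat_lit 5) (nat_lit 9) (nat_lit 4) L3969673 (by decide +kernel)
theorem L3969675 : W_1 (nat_lit 4) (nat_lit 0x100008000200030002c000200000000000000) (nat_lit 0x0) (nat_lit 0x100018000c80040000000000000000000) := T_1 (nat_lit 94) (nat_lit 95) (nat_lit 0) (nat_lit 10) (nat_lit 5) L3969674 (by decide +kernel)
theorem L3969676 : W_1 (nat_lit 5) (nat_lit 0x100008000000030002c000200000000000000) (nat_lit 0x0) (nat_lit 0x14001a000c80040000000000000000000) := T_1 (nat_lit 109) (nat_lit 126) (nat_lit 7) (nat_lit 7) (nat_lit 4) L3969675 (by decide +kernel)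
theorem L3969677 : W_1 (nat_lit 8) (nat_lit 0x100008000000030000c000200000000000000) (nat_lit 0x0) (nat_lit 0x14001a000c80070003dc00c0006000000) := Q_1 (nat_lit 77) (C_1 L3969671 (C_1 L3964724 (C_1 L3962981 (C_1 L3969676 N_1)))) (by decide +kernel)
theorem L3969678 : W_1 (nat_lit 10) (nat_lit 0x100008000000030000c000000000000000000) (nat_lit 0x0) (nat_lit 0x14001b000c800f0003fc00d8006c00020) := Q_1 (nat_lit 57) (C_1 L3969672 (C_1 L415050 (C_1 L257257 (C_1 L257131 (C_1 L3969677 N_1))))) (by decide +kernel)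
theorem L3969679 : W_1 (nat_lit 11) (nat_lit 0x1000080000000300008000000000000000000) (nat_lit 0x0) (nat_lit 0x16001b000c800f7003fc00f8006c00020) := Q_1 (nat_lit 74) (C_1 L258920 (C_1 L3969608 (C_1 L32323 (C_1 L3969678 N_1)))) (by decide +kernel)
theorem L3970080 : W_1 (nat_lit 2) (nat_lit 0x1000080008000780008000400020002000000) (nat_lit 0x0) (nat_lit 0x100000000000060000000000000000000) := D_1 (nat_lit 77) (nat_lit 78) (nat_lit 128) (nat_lit 2) (nat_lit 6) (nat_lit 5) (nat_lit 5) (nat_lit 9) (nat_lit 4) (by decide +kernel)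
theorem L3970081 : W_1 (nat_lit 3) (nat_lit 0x1000080000000780008000400020002000000) (nat_lit 0x0) (nat_lit 0x100018000000060000000000000000000) := T_1 (nat_lit 111) (nat_lit 112) (nat_lit 3) (nat_lit 6) (nat_lit 5) L3970080 (by decide +kernel)
theorem L3970082 : W_1 (nat_lit 4) (nat_lit 0x1000080000000700008000400020002000000) (nat_lit 0x0) (nat_lit 0x100019000080060000000000000000000) := T_1 (nat_lit 91) (nat_lit 108) (nat_lit 5) (nat_lit 7) (nat_lit 2) L3970081 (by decide +kernel)
theorem L3970083 : W_1 (nat_lit 5) (nat_lit 0x1000080000000700008000400020000000000) (nat_lit 0x0) (nat_lit 0x100019000080060000000040002000000) := T_1 (nat_lit 25) (nat_lit 42) (nat_lit 6) (nat_lit 7) (nat_lit 5) L3970082 (by decide +kernel)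
theorem L3970085 : W_1 (nat_lit 2) (nat_lit 0x1000080000000f00058000400000000000000) (nat_lit 0x0) (nat_lit 0x80020000200000000000000) := D_1 (nat_lit 77) (nat_lit 91) (nat_lit 57) (nat_lit 2) (nat_lit 6) (nat_lit 5) (nat_lit 0) (nat_lit 10) (nat_lit 4) (by decide +kernel)
theorem L3970086 : W_1 (nat_lit 3) (nat_lit 0x1000080000000f00018000400000000000000) (nat_lit 0x0) (nat_lit 0x800e0000200000000000000) := T_1 (nat_lit 78) (nat_lit 79) (nat_lit 2) (nat_lit 7) (nat_lit 5) L3970085 (by decide +kernel)
theorem L3970198 : W_1 (nat_lit 12) (nat_lit 0x1000080000000700008000400000000000000) (nat_lit 0x0) (nat_lit 0x1000080018000f0007b803f001f800000) := Q_1 (nat_lit 76) (C_1 L3964219 (C_1 L3964235 (C_1 L3964253 (C_1 L3964224 (C_1 L3964245 N_1))))) (by decide +kernel)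
theorem L3970200 : W_1 (nat_lit 4) (nat_lit 0x1000080000000f00008000400000000000000) (nat_lit 0x0) (nat_lit 0x10800f0000200000000000000) := T_1 (nat_lit 76) (nat_lit 96) (nat_lit 0) (nat_lit 11) (nat_lit 5) L3970086 (by decide +kernel)
theorem L3970201 : W_1 (nat_lit 2) (nat_lit 0x1000080010000f80018000400000000000000) (nat_lit 0x0) (nat_lit 0x60020000000000000000000) := D_1 (nat_lit 90) (nat_lit 89) (nat_lit 77) (nat_lit 2) (nat_lit 4) (nat_lit 5) (nat_lit 2) (nat_lit 5) (nat_lit 5) (by decide +kernel)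
theorem L3970202 : W_1 (nat_lit 3) (nat_lit 0x1000080010000f80008000400000000000000) (nat_lit 0x0) (nat_lit 0x1060030000000000000000000) := T_1 (nat_lit 76) (nat_lit 96) (nat_lit 0) (nat_lit 11) (nat_lit 5) L3970201 (by decide +kernel)
theorem L3970203 : W_1 (nat_lit 4) (nat_lit 0x1000080010000f00008000400000000000000) (nat_lit 0x0) (nat_lit 0x80010e0030000000000000000000) := T_1 (nat_lit 91) (nat_lit 111) (nat_lit 3) (nat_lit 6) (nat_lit 5) L3970202 (by decide +kernel)
theorem L3970204 : W_1 (nat_lit 5) (nat_lit 0x1000080000000f00008000400000000000000) (nat_lit 0x0) (nat_lit 0x380010e0030000000000000000000) := T_1 (nat_lit 112) (nat_lit 113) (nat_lit 3) (nat_lit 7) (nat_lit 5) L3970203 (by decide +kernel)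
theorem L3970205 : W_1 (nat_lit 6) (nat_lit 0x1000080000000700008000400000000000000) (nat_lit 0x0) (nat_lit 0x2000780018e01f0001200080000000000) := Q_1 (nat_lit 95) (C_1 L344306 (C_1 L339248 (C_1 L3970200 (C_1 L3970204 N_1)))) (by decide +kernel)
theorem L3970206 : W_1 (nat_lit 2) (nat_lit 0x1000080000001f80048000400020002800000) (nat_lit 0x0) (nat_lit 0x70000000000000000000000000000) := D_1 (nat_lit 113) (nat_lit 112) (nat_lit 114) (nat_lit 3) (nat_lit 7) (nat_lit 5) (nat_lit 3) (nat_lit 8) (nat_lit 5) (by decide +kernel)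
theorem L3970207 : W_1 (nat_lit 3) (nat_lit 0x1000080000000f80048000400020002800000) (nat_lit 0x0) (nat_lit 0x70001000010000000000000000000) := T_1 (nat_lit 96) (nat_lit 76) (nat_lit 0) (nat_lit 11) (nat_lit 5) L3970206 (by decide +kernel)
theorem L3970208 : W_1 (nat_lit 4) (nat_lit 0x1000080000000780048000400020002800000) (nat_lit 0x0) (nat_lit 0x70001800090000000000000000000) := T_1 (nat_lit 95) (nat_lit 79) (nat_lit 2) (nat_lit 7) (nat_lit 5) L3970207 (by decide +kernel)
theorem L3970209 : W_1 (nat_lit 5) (nat_lit 0x1000080000000780008000400020002800000) (nat_lit 0x0) (nat_lit 0x700018000f0000000000000000000) := T_1 (nat_lit 78) (nat_lit 77) (nat_lit 2) (nat_lit 6) (nat_lit 5) L3970208 (by decide +kernel)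
theorem L3970210 : W_1 (nat_lit 6) (nat_lit 0x1000080000000700008000400020002800000) (nat_lit 0x0) (nat_lit 0x710018800f0000000000000000000) := T_1 (nat_lit 91) (nat_lit 108) (nat_lit 5) (nat_lit 7) (nat_lit 2) L3970209 (by decide +kernel)
theorem L3970211 : W_1 (nat_lit 7) (nat_lit 0x1000080000000700008000400020000800000) (nat_lit 0x0) (nat_lit 0x710018800f0000000040002000000) := T_1 (nat_lit 25) (nat_lit 42) (nat_lit 6) (nat_lit 7) (nat_lit 5) L3970210 (by decide +kernel)
theorem L3970212 : W_1 (nat_lit 8) (nat_lit 0x1000080000000700008000400020000000000) (nat_lit 0x0) (nat_lit 0x710018800f0000000050002800000) := T_1 (nat_lit 23) (nat_lit 40) (nat_lit 4) (nat_lit 7) (nat_lit 5) L3970211 (by decide +kernel)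
theorem L3970213 : W_1 (nat_lit 9) (nat_lit 0x1000080000000700008000400000000000000) (nat_lit 0x0) (nat_lit 0x710018800f0000000070003800140) := Q_1 (nat_lit 41) (C_1 L3965856 (C_1 L3965854 (C_1 L3965851 (C_1 L3970212 N_1)))) (by decide +kernel)
theorem L3970214 : W_1 (nat_lit 2) (nat_lit 0x1000080008000780008000400020000800040) (nat_lit 0x0) (nat_lit 0x100000000000060000000000000000000) := D_1 (nat_lit 77) (nat_lit 78) (nat_lit 128) (nat_lit 2) (nat_lit 6) (nat_lit 5) (nat_lit 5) (nat_lit 9) (nat_lit 4) (by decide +kernel)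
theorem L3970215 : W_1 (nat_lit 3) (nat_lit 0x1000080000000780008000400020000800040) (nat_lit 0x0) (nat_lit 0x100018000000060000000000000000000) := T_1 (nat_lit 111) (nat_lit 112) (nat_lit 3) (nat_lit 6) (nat_lit 5) L3970214 (by decide +kernel)
theorem L3970216 : W_1 (nat_lit 4) (nat_lit 0x1000080000000700008000400020000800040) (nat_lit 0x0) (nat_lit 0x100019000080060000000000000000000) := T_1 (nat_lit 91) (nat_lit 108) (nat_lit 5) (nat_lit 7) (nat_lit 2) L3970215 (by decide +kernel)
theorem L3970217 : W_1 (nat_lit 5) (nat_lit 0x1000080000000700008000400020000800000) (nat_lit 0x0) (nat_lit 0x100019000080060000000000001000040) := T_1 (nat_lit 6) (nat_lit 24) (nat_lit 4) (nat_lit 7) (nat_lit 4) L3970216 (by decide +kernel)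
theorem L3970218 : W_1 (nat_lit 6) (nat_lit 0x1000080000000700008000400020000000000) (nat_lit 0x0) (nat_lit 0x100019000080060000000010001800040) := T_1 (nat_lit 23) (nat_lit 40) (nat_lit 4) (nat_lit 7) (nat_lit 5) L3970217 (by decide +kernel)
theorem L3970219 : W_1 (nat_lit 7) (nat_lit 0x1000080000000700008000400000000000000) (nat_lit 0x0) (nat_lit 0x100019000080060000000070003800140) := Q_1 (nat_lit 41) (C_1 L3965854 (C_1 L3970083 (C_1 L3970218 N_1))) (by decide +kernel)
theorem L3970220 : W_1 (nat_lit 2) (nat_lit 0x1000080010000f80088000400020002800000) (nat_lit 0x0) (nat_lit 0x1000110000000000000000000) := D_1 (nat_lit 96) (nat_lit 76) (nat_lit 80) (nat_lit 0) (nat_lit 11) (nat_lit 5) (nat_lit 2) (nat_lit 8) (nat_lit 5) (by decide +kernel)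
theorem L3970221 : W_1 (nat_lit 3) (nat_lit 0x1000080010000f80008000400020002800000) (nat_lit 0x0) (nat_lit 0x10001d0000000000000000000) := T_1 (nat_lit 79) (nat_lit 78) (nat_lit 2) (nat_lit 7) (nat_lit 5) L3970220 (by decide +kernel)
theorem L3970222 : W_1 (nat_lit 4) (nat_lit 0x1000080010000780008000400020002800000) (nat_lit 0x0) (nat_lit 0x200018001d0000000000000000000) := T_1 (nat_lit 95) (nat_lit 113) (nat_lit 3) (nat_lit 7) (nat_lit 5) L3970221 (by decide +kernel)
theorem L3970223 : W_1 (nat_lit 5) (nat_lit 0x1000080000000780008000400020002800000) (nat_lit 0x0) (nat_lit 0x380018001d0000000000000000000) := T_1 (nat_lit 112) (nat_lit 111) (nat_lit 3) (nat_lit 6) (nat_lit 5) L3970222 (by decide +kernel)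
theorem L3970224 : W_1 (nat_lit 6) (nat_lit 0x1000080000000700008000400020002800000) (nat_lit 0x0) (nat_lit 0x390018801d0000000000000000000) := T_1 (nat_lit 91) (nat_lit 108) (nat_lit 5) (nat_lit 7) (nat_lit 2) L3970223 (by decide +kernel)
theorem L3970225 : W_1 (nat_lit 7) (nat_lit 0x1000080000000700008000400020000800000) (nat_lit 0x0) (nat_lit 0x390018801d0000000040002000000) := T_1 (nat_lit 25) (nat_lit 42) (nat_lit 6) (nat_lit 7) (nat_lit 5) L3970224 (by decide +kernel)
theorem L3970226 : W_1 (nat_lit 8) (nat_lit 0x1000080000000700008000400020000000000) (nat_lit 0x0) (nat_lit 0x390018801d0000000050002800000) := T_1 (nat_lit 23) (nat_lit 40) (nat_lit 4) (nat_lit 7) (nat_lit 5) L3970225 (by decide +kernel)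
theorem L3970227 : W_1 (nat_lit 9) (nat_lit 0x1000080000000700008000400000000000000) (nat_lit 0x0) (nat_lit 0x390018801d0000000070003800140) := Q_1 (nat_lit 41) (C_1 L3965856 (C_1 L3965854 (C_1 L3965851 (C_1 L3970226 N_1)))) (by decide +kernel)
theorem L3970228 : W_1 (nat_lit 2) (nat_lit 0x1000080010000f80018000400020002800000) (nat_lit 0x0) (nat_lit 0x60020000000000000000000) := D_1 (nat_lit 90) (nat_lit 89) (nat_lit 77) (nat_lit 2) (nat_lit 4) (nat_lit 5) (nat_lit 2) (nat_lit 5) (nat_lit 5) (by decide +kernel)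
theorem L3970229 : W_1 (nat_lit 3) (nat_lit 0x1000080010000f80008000400020002800000) (nat_lit 0x0) (nat_lit 0x1060030000000000000000000) := T_1 (nat_lit 76) (nat_lit 96) (nat_lit 0) (nat_lit 11) (nat_lit 5) L3970228 (by decide +kernel)
theorem L3970230 : W_1 (nat_lit 4) (nat_lit 0x1000080010000780008000400020002800000) (nat_lit 0x0) (nat_lit 0x20001860030000000000000000000) := T_1 (nat_lit 95) (nat_lit 113) (nat_lit 3) (nat_lit 7) (nat_lit 5) L3970229 (by decide +kernel)
theorem L3970231 : W_1 (nat_lit 5) (nat_lit 0x1000080000000780008000400020002800000) (nat_lit 0x0) (nat_lit 0x38001860030000000000000000000) := T_1 (nat_lit 112) (nat_lit 111) (nat_lit 3) (nat_lit 6) (nat_lit 5) L3970230 (by decide +kernel)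
theorem L3970232 : W_1 (nat_lit 6) (nat_lit 0x1000080000000700008000400020002800000) (nat_lit 0x0) (nat_lit 0x390018e0030000000000000000000) := T_1 (nat_lit 91) (nat_lit 108) (nat_lit 5) (nat_lit 7) (nat_lit 2) L3970231 (by decide +kernel)
theorem L3970233 : W_1 (nat_lit 7) (nat_lit 0x1000080000000700008000400020000800000) (nat_lit 0x0) (nat_lit 0x390018e0030000000040002000000) := T_1 (nat_lit 25) (nat_lit 42) (nat_lit 6) (nat_lit 7) (nat_lit 5) L3970232 (by decide +kernel)
theorem L3970234 : W_1 (nat_lit 8) (nat_lit 0x1000080000000700008000400020000000000) (nat_lit 0x0) (nat_lit 0x390018e0030000000050002800000) := T_1 (nat_lit 23) (nat_lit 40) (nat_lit 4) (nat_lit 7) (nat_lit 5) L3970233 (by decide +kernel)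
theorem L3970235 : W_1 (nat_lit 9) (nat_lit 0x1000080000000700008000400000000000000) (nat_lit 0x0) (nat_lit 0x390018e0030000000070003800140) := Q_1 (nat_lit 41) (C_1 L3965856 (C_1 L3965854 (C_1 L3965851 (C_1 L3970234 N_1)))) (by decide +kernel)
theorem L3970236 : W_1 (nat_lit 13) (nat_lit 0x1000080000000300008000400000000000000) (nat_lit 0x0) (nat_lit 0x300079001ce01f0007b803f001f800140) := Q_1 (nat_lit 94) (C_1 L3970198 (C_1 L3970205 (C_1 L3970213 (C_1 L3970219 (C_1 L3970227 (C_1 L3970235 N_1)))))) (by decide +kernel)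
theorem L3970237 : W_1 (nat_lit 6) (nat_lit 0x1000080000000300008000400000000000000) (nat_lit 0x0) (nat_lit 0x40002000000010000200070003800100) := T_1 (nat_lit 109) (nat_lit 126) (nat_lit 7) (nat_lit 7) (nat_lit 4) L257806 (by decide +kernel)
theorem L3970238 : W_1 (nat_lit 2) (nat_lit 0x1000080002000700008000400000000000000) (nat_lit 0x0) (nat_lit 0x20001000800000000000000000000000) := D_1 (nat_lit 108) (nat_lit 95) (nat_lit 125) (nat_lit 1) (nat_lit 10) (nat_lit 5) (nat_lit 5) (nat_lit 7) (nat_lit 3) (by decide +kernel)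
theorem L3970239 : W_1 (nat_lit 3) (nat_lit 0x1000080000000700008000400000000000000) (nat_lit 0x0) (nat_lit 0x60003000800000000000000000000000) := T_1 (nat_lit 109) (nat_lit 126) (nat_lit 7) (nat_lit 7) (nat_lit 4) L3970238 (by decide +kernel)
theorem L3970240 : W_1 (nat_lit 2) (nat_lit 0x100008000b000700028000400050000000000) (nat_lit 0x0) (nat_lit 0x10000080040000000000000000000) := D_1 (nat_lit 91) (nat_lit 112) (nat_lit 78) (nat_lit 3) (nat_lit 6) (nat_lit 5) (nat_lit 2) (nat_lit 6) (nat_lit 5) (by decide +kernel)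
theorem L3970241 : W_1 (nat_lit 3) (nat_lit 0x1000080003000700028000400050000000000) (nat_lit 0x0) (nat_lit 0x100018000080040000000000000000000) := T_1 (nat_lit 111) (nat_lit 128) (nat_lit 5) (nat_lit 9) (nat_lit 4) L3970240 (by decide +kernel)
theorem L3970242 : W_1 (nat_lit 4) (nat_lit 0x1000080003000700028000400040000000000) (nat_lit 0x0) (nat_lit 0x100018000080040000200010000000000) := T_1 (nat_lit 40) (nat_lit 57) (nat_lit 4) (nat_lit 7) (nat_lit 6) L3970241 (by decide +kernel)
theorem L3970243 : W_1 (nat_lit 5) (nat_lit 0x1000080002000700028000400040000000000) (nat_lit 0x0) (nat_lit 0x120019000080040000200010000000000) := T_1 (nat_lit 108) (nat_lit 125) (nat_lit 5) (nat_lit 7) (nat_lit 3) L3970242 (by decide +kernel)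
theorem L3970244 : W_1 (nat_lit 6) (nat_lit 0x1000080002000700028000400000000000000) (nat_lit 0x0) (nat_lit 0x120019000080040000a00050000000000) := T_1 (nat_lit 42) (nat_lit 59) (nat_lit 6) (nat_lit 7) (nat_lit 6) L3970243 (by decide +kernel)
theorem L3970245 : W_1 (nat_lit 7) (nat_lit 0x1000080000000700028000400000000000000) (nat_lit 0x0) (nat_lit 0x16001b000080040000a00050000000000) := T_1 (nat_lit 109) (nat_lit 126) (nat_lit 7) (nat_lit 7) (nat_lit 4) L3970244 (by decide +kernel)
theorem L3970246 : W_1 (nat_lit 2) (nat_lit 0x1000080000000700068000400000000000000) (nat_lit 0x0) (nat_lit 0x190000000000000000000) := D_1 (nat_lit 79) (nat_lit 80) (nat_lit 76) (nat_lit 1) (nat_lit 12) (nat_lit 4) (nat_lit 1) (nat_lit 11) (nat_lit 4) (by decide +kernel)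
theorem L3970247 : W_1 (nat_lit 3) (nat_lit 0x1000080000000700028000400000000000000) (nat_lit 0x0) (nat_lit 0x801d0000000000000000000) := T_1 (nat_lit 78) (nat_lit 91) (nat_lit 2) (nat_lit 6) (nat_lit 5) L3970246 (by decide +kernel)
theorem L3970248 : W_1 (nat_lit 2) (nat_lit 0x100008000a000700028000e00000000000000) (nat_lit 0x0) (nat_lit 0x50001000000000000000) := D_1 (nat_lit 78) (nat_lit 60) (nat_lit 76) (nat_lit 3) (nat_lit 6) (nat_lit 3) (nat_lit 0) (nat_lit 10) (nat_lit 4) (by decide +kernel)
theorem L3970249 : W_1 (nat_lit 3) (nat_lit 0x100008000a000700028000c00000000000000) (nat_lit 0x0) (nat_lit 0x50001200010000000000) := T_1 (nat_lit 57) (nat_lit 40) (nat_lit 4) (nat_lit 7) (nat_lit 6) L3970248 (by decide +kernel)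
theorem L3970250 : W_1 (nat_lit 4) (nat_lit 0x1000080002000700028000c00000000000000) (nat_lit 0x0) (nat_lit 0x100008000000050001200010000000000) := T_1 (nat_lit 111) (nat_lit 128) (nat_lit 5) (nat_lit 9) (nat_lit 4) L3970249 (by decide +kernel)
theorem L3970251 : W_1 (nat_lit 5) (nat_lit 0x1000080002000700028000400000000000000) (nat_lit 0x0) (nat_lit 0x100008000000050001a00050000000000) := T_1 (nat_lit 59) (nat_lit 42) (nat_lit 6) (nat_lit 7) (nat_lit 6) L3970250 (by decide +kernel)
theorem L3970252 : W_1 (nat_lit 6) (nat_lit 0x1000080000000700028000400000000000000) (nat_lit 0x0) (nat_lit 0x14000a000000050001a00050000000000) := T_1 (nat_lit 109) (nat_lit 126) (nat_lit 7) (nat_lit 7) (nat_lit 4) L3970251 (by decide +kernel)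
theorem L3970253 : W_1 (nat_lit 2) (nat_lit 0x100008000a000780038000c00000000000000) (nat_lit 0x0) (nat_lit 0x300010000000000) := D_1 (nat_lit 57) (nat_lit 40) (nat_lit 56) (nat_lit 4) (nat_lit 7) (nat_lit 6) (nat_lit 3) (nat_lit 5) (nat_lit 3) (by decide +kernel)
theorem L3970254 : W_1 (nat_lit 3) (nat_lit 0x1000080008000780038000c00000000000000) (nat_lit 0x0) (nat_lit 0x40002000000000000300010000000000) := T_1 (nat_lit 109) (nat_lit 126) (nat_lit 7) (nat_lit 7) (nat_lit 4) L3970253 (by decide +kernel)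
theorem L3970255 : W_1 (nat_lit 4) (nat_lit 0x1000080008000780038000400000000000000) (nat_lit 0x0) (nat_lit 0x40002000000000000b00050000000000) := T_1 (nat_lit 59) (nat_lit 42) (nat_lit 7) (nat_lit 8) (nat_lit 2) L3970254 (by decide +kernel)
theorem L3970256 : W_1 (nat_lit 5) (nat_lit 0x1000080008000780028000400000000000000) (nat_lit 0x0) (nat_lit 0x40002000040010000b00050000000000) := T_1 (nat_lit 76) (nat_lit 90) (nat_lit 2) (nat_lit 5) (nat_lit 5) L3970255 (by decide +kernel)
theorem L3970257 : W_1 (nat_lit 6) (nat_lit 0x1000080008000700028000400000000000000) (nat_lit 0x0) (nat_lit 0x400120000c0010000b00050000000000) := T_1 (nat_lit 91) (nat_lit 112) (nat_lit 3) (nat_lit 6) (nat_lit 5) L3970256 (by decide +kernel)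
theorem L3970258 : W_1 (nat_lit 7) (nat_lit 0x1000080000000700028000400000000000000) (nat_lit 0x0) (nat_lit 0x14001a0000c0010000b00050000000000) := T_1 (nat_lit 111) (nat_lit 128) (nat_lit 5) (nat_lit 9) (nat_lit 4) L3970257 (by decide +kernel)
theorem L3970259 : W_1 (nat_lit 8) (nat_lit 0x1000080000000700008000400000000000000) (nat_lit 0x0) (nat_lit 0x16001b0000c01f0001b00050000000000) := Q_1 (nat_lit 77) (C_1 L3970245 (C_1 L3970247 (C_1 L3970252 (C_1 L3970258 N_1)))) (by decide +kernel)
theorem L3970260 : W_1 (nat_lit 9) (nat_lit 0x1000080000000300008000400000000000000) (nat_lit 0x0) (nat_lit 0x36007b001ce01f0001b000d0000000000) := Q_1 (nat_lit 94) (C_1 L3970205 (C_1 L3970239 (C_1 L3970259 N_1))) (by decide +kernel)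
theorem L3970261 : W_1 (nat_lit 2) (nat_lit 0x1000080002000300008000400060000000000) (nat_lit 0x0) (nat_lit 0x20001000080000000000000000000000) := D_1 (nat_lit 108) (nat_lit 125) (nat_lit 91) (nat_lit 5) (nat_lit 7) (nat_lit 3) (nat_lit 5) (nat_lit 7) (nat_lit 2) (by decide +kernel)
theorem L3970262 : W_1 (nat_lit 3) (nat_lit 0x1000080002000300008000400040000000000) (nat_lit 0x0) (nat_lit 0x20001000080000000000020002000000) := T_1 (nat_lit 41) (nat_lit 25) (nat_lit 6) (nat_lit 7) (nat_lit 5) L3970261 (by decide +kernel)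
theorem L3970263 : W_1 (nat_lit 4) (nat_lit 0x1000080002000300008000400000000000000) (nat_lit 0x0) (nat_lit 0x20001000080000000800060002000000) := T_1 (nat_lit 42) (nat_lit 59) (nat_lit 6) (nat_lit 7) (nat_lit 6) L3970262 (by decide +kernel)
theorem L3970264 : W_1 (nat_lit 5) (nat_lit 0x1000080000000300008000400000000000000) (nat_lit 0x0) (nat_lit 0x60003000080000000800060002000000) := T_1 (nat_lit 109) (nat_lit 126) (nat_lit 7) (nat_lit 7) (nat_lit 4) L3970263 (by decide +kernel)
theorem L3970265 : W_1 (nat_lit 5) (nat_lit 0x1000080000000300008000400000000000000) (nat_lit 0x0) (nat_lit 0x60003000080000000200030000800000) := T_1 (nat_lit 109) (nat_lit 126) (nat_lit 7) (nat_lit 7) (nat_lit 4) L257523 (by decide +kernel)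
theorem L3970266 : W_1 (nat_lit 14) (nat_lit 0x1000080000000300008000000000000000000) (nat_lit 0x0) (nat_lit 0x36007b001ce01f0007f803f001f800140) := Q_1 (nat_lit 58) (C_1 L3966221 (C_1 L3970236 (C_1 L24226 (C_1 L3970237 (C_1 L3970260 (C_1 L3970264 (C_1 L3970265 N_1))))))) (by decide +kernel)
theorem L3970296 : W_1 (nat_lit 2) (nat_lit 0x100008000800078000c000780018000000000) (nat_lit 0x0) (nat_lit 0x800006000000000) := D_1 (nat_lit 38) (nat_lit 37) (nat_lit 59) (nat_lit 3) (nat_lit 3) (nat_lit 2) (nat_lit 0) (nat_lit 8) (nat_lit 3) (by decide +kernel)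
theorem L3970297 : W_1 (nat_lit 3) (nat_lit 0x100008000800078000c000380018000000000) (nat_lit 0x0) (nat_lit 0x10000c00006000000000) := T_1 (nat_lit 58) (nat_lit 76) (nat_lit 3) (nat_lit 4) (nat_lit 3) L3970296 (by decide +kernel)
theorem L3970298 : W_1 (nat_lit 4) (nat_lit 0x100008000800078000c000300018000000000) (nat_lit 0x0) (nat_lit 0x10000cc0006000000000) := T_1 (nat_lit 55) (nat_lit 54) (nat_lit 3) (nat_lit 3) (nat_lit 3) L3970297 (by decide +kernel)
theorem L3970299 : W_1 (nat_lit 5) (nat_lit 0x100008000800078000c000200018000000000) (nat_lit 0x0) (nat_lit 0x1000000010000dc0006000000000) := T_1 (nat_lit 56) (nat_lit 108) (nat_lit 4) (nat_lit 6) (nat_lit 6) L3970298 (by decide +kernel)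
theorem L3970300 : W_1 (nat_lit 6) (nat_lit 0x100008000800078000c000200010000000000) (nat_lit 0x0) (nat_lit 0x1000000010000dc000e000400000) := T_1 (nat_lit 39) (nat_lit 22) (nat_lit 4) (nat_lit 6) (nat_lit 5) L3970299 (by decide +kernel)
theorem L3970301 : W_1 (nat_lit 7) (nat_lit 0x100008000000078000c000200010000000000) (nat_lit 0x0) (nat_lit 0x19000000010000dc000e000400000) := T_1 (nat_lit 111) (nat_lit 112) (nat_lit 3) (nat_lit 6) (nat_lit 5) L3970300 (by decide +kernel)
theorem L3970302 : W_1 (nat_lit 8) (nat_lit 0x100008000000078000c000200000000000000) (nat_lit 0x0) (nat_lit 0x19000000010000dc001e000c00000) := T_1 (nat_lit 40) (nat_lit 23) (nat_lit 7) (nat_lit 6) (nat_lit 1) L3970301 (by decide +kernel)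
theorem L3970303 : W_1 (nat_lit 9) (nat_lit 0x100008000000038000c000200000000000000) (nat_lit 0x0) (nat_lit 0x19000c00010000dc001e000c00000) := T_1 (nat_lit 94) (nat_lit 95) (nat_lit 0) (nat_lit 10) (nat_lit 5) L3970302 (by decide +kernel)
theorem L3970394 : W_1 (nat_lit 3) (nat_lit 0x100008000100038000c000000000000000000) (nat_lit 0x0) (nat_lit 0xc00060002000000000000000000000000000) := T_1 (nat_lit 125) (nat_lit 142) (nat_lit 6) (nat_lit 6) (nat_lit 8) L271002 (by decide +kernel)
theorem L3970491 : W_1 (nat_lit 2) (nat_lit 0x10000800000007c0009000000000000000000) (nat_lit 0x0) (nat_lit 0x20010800000000000000000) := D_1 (nat_lit 89) (nat_lit 71) (nat_lit 76) (nat_lit 0) (nat_lit 7) (nat_lit 5) (nat_lit 2) (nat_lit 4) (nat_lit 5) (by decide +kernel)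
theorem L3970492 : W_1 (nat_lit 3) (nat_lit 0x10000800000007c0008000000000000000000) (nat_lit 0x0) (nat_lit 0x20013800000000000000000) := T_1 (nat_lit 72) (nat_lit 73) (nat_lit 0) (nat_lit 8) (nat_lit 5) L3970491 (by decide +kernel)
theorem L3970530 : W_1 (nat_lit 2) (nat_lit 0x10000800080007c000a000400060000800000) (nat_lit 0x0) (nat_lit 0x20010000800000000000000) := D_1 (nat_lit 76) (nat_lit 59) (nat_lit 89) (nat_lit 7) (nat_lit 8) (nat_lit 2) (nat_lit 2) (nat_lit 4) (nat_lit 5) (by decide +kernel)
theorem L3970531 : W_1 (nat_lit 3) (nat_lit 0x100008000800078000a000400060000800000) (nat_lit 0x0) (nat_lit 0x60011000800000000000000) := T_1 (nat_lit 90) (nat_lit 72) (nat_lit 0) (nat_lit 8) (nat_lit 5) L3970530 (by decide +kernel)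
theorem L3970532 : W_1 (nat_lit 4) (nat_lit 0x1000080008000780008000400060000800000) (nat_lit 0x0) (nat_lit 0x60017000800000000000000) := T_1 (nat_lit 73) (nat_lit 74) (nat_lit 0) (nat_lit 9) (nat_lit 5) L3970531 (by decide +kernel)
theorem L3970533 : W_1 (nat_lit 5) (nat_lit 0x1000080000000780008000400060000800000) (nat_lit 0x0) (nat_lit 0x18000060017000800000000000000) := T_1 (nat_lit 111) (nat_lit 112) (nat_lit 3) (nat_lit 6) (nat_lit 5) L3970532 (by decide +kernel)
theorem L3970534 : W_1 (nat_lit 6) (nat_lit 0x1000080000000700008000400060000800000) (nat_lit 0x0) (nat_lit 0x190000e0017000800000000000000) := T_1 (nat_lit 91) (nat_lit 108) (nat_lit 5) (nat_lit 7) (nat_lit 2) L3970533 (by decide +kernel)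
theorem L3970535 : W_1 (nat_lit 7) (nat_lit 0x1000080000000700008000400020000800000) (nat_lit 0x0) (nat_lit 0x190000e0017000800040002000000) := T_1 (nat_lit 42) (nat_lit 25) (nat_lit 6) (nat_lit 7) (nat_lit 5) L3970534 (by decide +kernel)
theorem L3970536 : W_1 (nat_lit 8) (nat_lit 0x1000080000000700008000400020000000000) (nat_lit 0x0) (nat_lit 0x190000e0017000800050002800000) := T_1 (nat_lit 23) (nat_lit 40) (nat_lit 4) (nat_lit 7) (nat_lit 5) L3970535 (by decide +kernel)
theorem L3970537 : W_1 (nat_lit 9) (nat_lit 0x1000080000000700008000400000000000000) (nat_lit 0x0) (nat_lit 0x190000e0017000800070003800140) := Q_1 (nat_lit 41) (C_1 L3965856 (C_1 L3965854 (C_1 L3965851 (C_1 L3970536 N_1)))) (by decide +kernel)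
theorem L3970538 : W_1 (nat_lit 6) (nat_lit 0x1000080000000700008000400000000000000) (nat_lit 0x0) (nat_lit 0x40002000000010000200070003800100) := T_1 (nat_lit 109) (nat_lit 126) (nat_lit 7) (nat_lit 7) (nat_lit 4) L3965122 (by decide +kernel)
theorem L3970539 : W_1 (nat_lit 2) (nat_lit 0x100008000000070000a000400000000000000) (nat_lit 0x0) (nat_lit 0x80014000000000000000000) := D_1 (nat_lit 74) (nat_lit 76) (nat_lit 91) (nat_lit 3) (nat_lit 5) (nat_lit 4) (nat_lit 0) (nat_lit 9) (nat_lit 5) (by decide +kernel)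
theorem L3970540 : W_1 (nat_lit 2) (nat_lit 0x100008000000070000a000400000000000000) (nat_lit 0x0) (nat_lit 0x15000000000000000000) := D_1 (nat_lit 74) (nat_lit 76) (nat_lit 72) (nat_lit 3) (nat_lit 5) (nat_lit 4) (nat_lit 3) (nat_lit 4) (nat_lit 4) (by decide +kernel)
theorem L3970541 : W_1 (nat_lit 2) (nat_lit 0x100008000000070000a000400000000000000) (nat_lit 0x0) (nat_lit 0x80005000000000000000000) := D_1 (nat_lit 74) (nat_lit 91) (nat_lit 72) (nat_lit 0) (nat_lit 9) (nat_lit 5) (nat_lit 3) (nat_lit 4) (nat_lit 4) (by decide +kernel)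
theorem L3970542 : W_1 (nat_lit 2) (nat_lit 0x100008000300070000a000f00004000000000) (nat_lit 0x0) (nat_lit 0x10000080002000000000) := D_1 (nat_lit 55) (nat_lit 37) (nat_lit 76) (nat_lit 0) (nat_lit 7) (nat_lit 3) (nat_lit 3) (nat_lit 4) (nat_lit 3) (by decide +kernel)
theorem L3970543 : W_1 (nat_lit 3) (nat_lit 0x100008000300070000a000f00000000000000) (nat_lit 0x0) (nat_lit 0x1000008000e000000000) := T_1 (nat_lit 38) (nat_lit 39) (nat_lit 0) (nat_lit 8) (nat_lit 3) L3970542 (by decide +kernel)
theorem L3970544 : W_1 (nat_lit 4) (nat_lit 0x100008000300070000a000e00000000000000) (nat_lit 0x0) (nat_lit 0x1100018000e000000000) := T_1 (nat_lit 56) (nat_lit 72) (nat_lit 1) (nat_lit 8) (nat_lit 3) L3970543 (by decide +kernel)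
theorem L3970545 : W_1 (nat_lit 5) (nat_lit 0x100008000300070000a000c00000000000000) (nat_lit 0x0) (nat_lit 0x1100038001e000000000) := T_1 (nat_lit 57) (nat_lit 40) (nat_lit 4) (nat_lit 7) (nat_lit 6) L3970544 (by decide +kernel)
theorem L3970546 : W_1 (nat_lit 6) (nat_lit 0x100008000200070000a000c00000000000000) (nat_lit 0x0) (nat_lit 0x2000100000001100038001e000000000) := T_1 (nat_lit 108) (nat_lit 125) (nat_lit 5) (nat_lit 7) (nat_lit 3) L3970545 (by decide +kernel)
theorem L3970547 : W_1 (nat_lit 7) (nat_lit 0x100008000200070000a000400000000000000) (nat_lit 0x0) (nat_lit 0x20001000000011000b8005e000000000) := T_1 (nat_lit 59) (nat_lit 42) (nat_lit 6) (nat_lit 7) (nat_lit 6) L3970546 (by decide +kernel)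
theorem L3970548 : W_1 (nat_lit 8) (nat_lit 0x100008000000070000a000400000000000000) (nat_lit 0x0) (nat_lit 0x60003000000011000b8005e000000000) := T_1 (nat_lit 109) (nat_lit 126) (nat_lit 7) (nat_lit 7) (nat_lit 4) L3970547 (by decide +kernel)
theorem L3970549 : W_1 (nat_lit 9) (nat_lit 0x1000080000000700008000400000000000000) (nat_lit 0x0) (nat_lit 0x60003000080017000b8005e000000000) := Q_1 (nat_lit 73) (C_1 L3970539 (C_1 L3970540 (C_1 L3970541 (C_1 L3970548 N_1)))) (by decide +kernel)
theorem L3970550 : W_1 (nat_lit 2) (nat_lit 0x1000080003000700008000400020000000000) (nat_lit 0x0) (nat_lit 0x200010000800000) := D_1 (nat_lit 40) (nat_lit 23) (nat_lit 57) (nat_lit 4) (nat_lit 7) (nat_lit 5) (nat_lit 4) (nat_lit 7) (nat_lit 6) (by decide +kernel)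
theorem L3970551 : W_1 (nat_lit 3) (nat_lit 0x1000080003000700008000400000000000000) (nat_lit 0x0) (nat_lit 0x80000000200030000800000) := T_1 (nat_lit 41) (nat_lit 91) (nat_lit 5) (nat_lit 7) (nat_lit 2) L3970550 (by decide +kernel)
theorem L3970552 : W_1 (nat_lit 4) (nat_lit 0x1000080002000700008000400000000000000) (nat_lit 0x0) (nat_lit 0x20001000080000000200030000800000) := T_1 (nat_lit 108) (nat_lit 125) (nat_lit 5) (nat_lit 7) (nat_lit 3) L3970551 (by decide +kernel)
theorem L3970553 : W_1 (nat_lit 5) (nat_lit 0x1000080000000700008000400000000000000) (nat_lit 0x0) (nat_lit 0x60003000080000000200030000800000) := T_1 (nat_lit 109) (nat_lit 126) (nat_lit 7) (nat_lit 7) (nat_lit 4) L3970552 (by decide +kernel)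
theorem L3970554 : W_1 (nat_lit 2) (nat_lit 0x1000080002000700008000400060000000000) (nat_lit 0x0) (nat_lit 0x20001000080000000000000000000000) := D_1 (nat_lit 108) (nat_lit 125) (nat_lit 91) (nat_lit 5) (nat_lit 7) (nat_lit 3) (nat_lit 5) (nat_lit 7) (nat_lit 2) (by decide +kernel)
theorem L3970555 : W_1 (nat_lit 3) (nat_lit 0x1000080002000700008000400040000000000) (nat_lit 0x0) (nat_lit 0x20001000080000000000020002000000) := T_1 (nat_lit 41) (nat_lit 25) (nat_lit 6) (nat_lit 7) (nat_lit 5) L3970554 (by decide +kernel)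
theorem L3970556 : W_1 (nat_lit 4) (nat_lit 0x1000080002000700008000400000000000000) (nat_lit 0x0) (nat_lit 0x20001000080000000800060002000000) := T_1 (nat_lit 42) (nat_lit 59) (nat_lit 6) (nat_lit 7) (nat_lit 6) L3970555 (by decide +kernel)
theorem L3970557 : W_1 (nat_lit 5) (nat_lit 0x1000080000000700008000400000000000000) (nat_lit 0x0) (nat_lit 0x60003000080000000800060002000000) := T_1 (nat_lit 109) (nat_lit 126) (nat_lit 7) (nat_lit 7) (nat_lit 4) L3970556 (by decide +kernel)
theorem L3970558 : W_1 (nat_lit 10) (nat_lit 0x1000080000000700008000000000000000000) (nat_lit 0x0) (nat_lit 0x6001b0000e0017000f8007e003800140) := Q_1 (nat_lit 58) (C_1 L258940 (C_1 L3970537 (C_1 L3970538 (C_1 L3970549 (C_1 L3970553 (C_1 L3970557 N_1)))))) (by decide +kernel)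
theorem L3970559 : W_1 (nat_lit 11) (nat_lit 0x1000080000000300008000000000000000000) (nat_lit 0x0) (nat_lit 0x6007b001ce01d7000f8007e003800140) := Q_1 (nat_lit 94) (C_1 L3969632 (C_1 L257128 (C_1 L3963988 (C_1 L3970558 N_1)))) (by decide +kernel)
theorem L3970592 : W_1 (nat_lit 2) (nat_lit 0x10000b000900078000c000200018001000000) (nat_lit 0x0) (nat_lit 0x2800040000000000000000000000000000000) := D_1 (nat_lit 126) (nat_lit 145) (nat_lit 143) (nat_lit 3) (nat_lit 5) (nat_lit 7) (nat_lit 7) (nat_lit 6) (nat_lit 4) (by decide +kernel)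
theorem L3970593 : W_1 (nat_lit 3) (nat_lit 0x10000a000900078000c000200018001000000) (nat_lit 0x0) (nat_lit 0x2a00050000000000000000000000000000000) := T_1 (nat_lit 124) (nat_lit 141) (nat_lit 5) (nat_lit 6) (nat_lit 4) L3970592 (by decide +kernel)
theorem L3970594 : W_1 (nat_lit 4) (nat_lit 0x100008000900078000c000200018001000000) (nat_lit 0x0) (nat_lit 0x2e00070000000000000000000000000000000) := T_1 (nat_lit 125) (nat_lit 142) (nat_lit 6) (nat_lit 6) (nat_lit 8) L3970593 (by decide +kernel)
theorem L3970595 : W_1 (nat_lit 5) (nat_lit 0x100008000800078000c000200018001000000) (nat_lit 0x0) (nat_lit 0x2e00070001000000000000100000000000000) := T_1 (nat_lit 108) (nat_lit 56) (nat_lit 4) (nat_lit 6) (nat_lit 6) L3970594 (by decide +kernel)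
theorem L3970596 : W_1 (nat_lit 6) (nat_lit 0x100008000800078000c000200018000000000) (nat_lit 0x0) (nat_lit 0x2e00070001000000000000100020001000000) := T_1 (nat_lit 24) (nat_lit 41) (nat_lit 6) (nat_lit 6) (nat_lit 5) L3970595 (by decide +kernel)
theorem L3970597 : W_1 (nat_lit 7) (nat_lit 0x100008000800078000c000200010000000000) (nat_lit 0x0) (nat_lit 0x2e00070001000000000000100028001400000) := T_1 (nat_lit 39) (nat_lit 22) (nat_lit 4) (nat_lit 6) (nat_lit 5) L3970596 (by decide +kernel)
theorem L3970598 : W_1 (nat_lit 8) (nat_lit 0x100008000000078000c000200010000000000) (nat_lit 0x0) (nat_lit 0x2e00070019000000000000100028001400000) := T_1 (nat_lit 111) (nat_lit 112) (nat_lit 3) (nat_lit 6) (nat_lit 5) L3970597 (by decide +kernel)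
theorem L3970599 : W_1 (nat_lit 9) (nat_lit 0x100008000000078000c000200000000000000) (nat_lit 0x0) (nat_lit 0x2e00070019000000000000100038001c00000) := T_1 (nat_lit 40) (nat_lit 23) (nat_lit 7) (nat_lit 6) (nat_lit 1) L3970598 (by decide +kernel)
theorem L3970600 : W_1 (nat_lit 10) (nat_lit 0x100008000000038000c000200000000000000) (nat_lit 0x0) (nat_lit 0x2e00070019000c00000000100038001c00000) := T_1 (nat_lit 94) (nat_lit 95) (nat_lit 0) (nat_lit 10) (nat_lit 5) L3970599 (by decide +kernel)
theorem L3970617 : W_1 (nat_lit 7) (nat_lit 0x100008000000030002c000000000000000000) (nat_lit 0x0) (nat_lit 0x100008001c000d00078000c0006000000) := Q_1 (nat_lit 76) (C_1 L3963763 (C_1 L3963765 (C_1 L3962875 N_1))) (by decide +kernel)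
theorem L3970618 : W_1 (nat_lit 10) (nat_lit 0x100008000000030002c000000000000000000) (nat_lit 0x0) (nat_lit 0xc00d0007b000f8007c00000) := Q_1 (nat_lit 76) (C_1 L3963763 (C_1 L345868 (C_1 L3962863 N_1))) (by decide +kernel)
theorem L3970619 : W_1 (nat_lit 11) (nat_lit 0x100008000000030000c000000000000000000) (nat_lit 0x0) (nat_lit 0x100018001cc01f0007b000f8007c00000) := Q_1 (nat_lit 77) (C_1 L3970617 (C_1 L257169 (C_1 L3970618 (C_1 L3969262 (C_1 L3969258 N_1))))) (by decide +kernel)
theorem L3970620 : W_1 (nat_lit 12) (nat_lit 0x1000080000000300008000000000000000000) (nat_lit 0x0) (nat_lit 0x14001a001ce01f7007b800f8007c00000) := Q_1 (nat_lit 74) (C_1 L3970619 (C_1 L340073 (C_1 L3964607 (C_1 L28280 (C_1 L32323 N_1))))) (by decide +kernel)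
theorem L3970624 : W_1 (nat_lit 2) (nat_lit 0x100008000a00078002c000200000000000000) (nat_lit 0x0) (nat_lit 0x40010000100000000000000) := D_1 (nat_lit 76) (nat_lit 90) (nat_lit 56) (nat_lit 2) (nat_lit 5) (nat_lit 5) (nat_lit 0) (nat_lit 9) (nat_lit 4) (by decide +kernel)
theorem L3970625 : W_1 (nat_lit 3) (nat_lit 0x100008000a00070002c000200000000000000) (nat_lit 0x0) (nat_lit 0x100000c0010000100000000000000) := T_1 (nat_lit 91) (nat_lit 112) (nat_lit 3) (nat_lit 6) (nat_lit 5) L3970624 (by decide +kernel)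
theorem L3970626 : W_1 (nat_lit 4) (nat_lit 0x100008000200070002c000200000000000000) (nat_lit 0x0) (nat_lit 0x1000180000c0010000100000000000000) := T_1 (nat_lit 111) (nat_lit 128) (nat_lit 5) (nat_lit 9) (nat_lit 4) L3970625 (by decide +kernel)
theorem L3970627 : W_1 (nat_lit 5) (nat_lit 0x100008000000070002c000200000000000000) (nat_lit 0x0) (nat_lit 0x14001a0000c0010000100000000000000) := T_1 (nat_lit 109) (nat_lit 126) (nat_lit 7) (nat_lit 7) (nat_lit 4) L3970626 (by decide +kernel)
theorem L3970628 : W_1 (nat_lit 6) (nat_lit 0x100008000000030002c000200000000000000) (nat_lit 0x0) (nat_lit 0x14001a000cc0010000100000000000000) := T_1 (nat_lit 94) (nat_lit 95) (nat_lit 0) (nat_lit 10) (nat_lit 5) L3970627 (by decide +kernel)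
theorem L3970629 : W_1 (nat_lit 7) (nat_lit 0x100008000000030000c000200000000000000) (nat_lit 0x0) (nat_lit 0x14001a000cc00f00005c0000000000000) := Q_1 (nat_lit 77) (C_1 L3962981 (C_1 L3969676 (C_1 L3969671 (C_1 L3962992 (C_1 L3970628 N_1))))) (by decide +kernel)
theorem L3970630 : W_1 (nat_lit 10) (nat_lit 0x100008000000030000c000000000000000000) (nat_lit 0x0) (nat_lit 0x14001b000cc00f00007c0018000c00020) := Q_1 (nat_lit 57) (C_1 L415050 (C_1 L257257 (C_1 L3969672 (C_1 L257131 (C_1 L3970629 N_1))))) (by decide +kernel)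
theorem L3970631 : W_1 (nat_lit 2) (nat_lit 0x100008000300038000d000700000000000000) (nat_lit 0x0) (nat_lit 0x10800080000000000000) := D_1 (nat_lit 55) (nat_lit 76) (nat_lit 71) (nat_lit 3) (nat_lit 4) (nat_lit 3) (nat_lit 1) (nat_lit 7) (nat_lit 3) (by decide +kernel)
theorem L3970632 : W_1 (nat_lit 3) (nat_lit 0x100008000300038000d000600000000000000) (nat_lit 0x0) (nat_lit 0x10800180008000000000) := T_1 (nat_lit 56) (nat_lit 39) (nat_lit 4) (nat_lit 6) (nat_lit 6) L3970631 (by decide +kernel)
theorem L3970633 : W_1 (nat_lit 4) (nat_lit 0x100008000300038000d000400000000000000) (nat_lit 0x0) (nat_lit 0x10800380018000000000) := T_1 (nat_lit 57) (nat_lit 40) (nat_lit 7) (nat_lit 6) (nat_lit 2) L3970632 (by decide +kernel)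
theorem L3970634 : W_1 (nat_lit 5) (nat_lit 0x100008000100038000d000400000000000000) (nat_lit 0x0) (nat_lit 0x40002000000010800380018000000000) := T_1 (nat_lit 109) (nat_lit 126) (nat_lit 7) (nat_lit 7) (nat_lit 4) L3970633 (by decide +kernel)
theorem L3970635 : W_1 (nat_lit 6) (nat_lit 0x100008000100038000d000000000000000000) (nat_lit 0x0) (nat_lit 0x40002000000010800780038000000000) := T_1 (nat_lit 58) (nat_lit 41) (nat_lit 5) (nat_lit 7) (nat_lit 2) L3970634 (by decide +kernel)
theorem L3970636 : W_1 (nat_lit 7) (nat_lit 0x100008000100038000c000000000000000000) (nat_lit 0x0) (nat_lit 0x40002000000013800780038000000000) := T_1 (nat_lit 72) (nat_lit 73) (nat_lit 3) (nat_lit 4) (nat_lit 4) L3970635 (by decide +kernel)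
theorem L3970637 : W_1 (nat_lit 8) (nat_lit 0x100008000000038000c000000000000000000) (nat_lit 0x0) (nat_lit 0xc00060003000000013800780038000000000) := Q_1 (nat_lit 108) (C_1 L3970394 (C_1 L3970636 (C_1 L3969226 N_1))) (by decide +kernel)
theorem L3970638 : W_1 (nat_lit 2) (nat_lit 0x10000800000003c001e000100000000000000) (nat_lit 0x0) (nat_lit 0x1000000000000000008000400000) := D_1 (nat_lit 39) (nat_lit 22) (nat_lit 108) (nat_lit 7) (nat_lit 5) (nat_lit 1) (nat_lit 7) (nat_lit 5) (nat_lit 2) (by decide +kernel)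
theorem L3970639 : W_1 (nat_lit 3) (nat_lit 0x10000800000003c001e000000000000000000) (nat_lit 0x0) (nat_lit 0x1000000000000180008000400000) := T_1 (nat_lit 56) (nat_lit 55) (nat_lit 0) (nat_lit 8) (nat_lit 4) L3970638 (by decide +kernel)
theorem L3970640 : W_1 (nat_lit 4) (nat_lit 0x10000800000003c000e000000000000000000) (nat_lit 0x0) (nat_lit 0x1000000030000180008000400000) := T_1 (nat_lit 76) (nat_lit 77) (nat_lit 2) (nat_lit 5) (nat_lit 5) L3970639 (by decide +kernel)
theorem L3970641 : W_1 (nat_lit 5) (nat_lit 0x10000800000003c000c000000000000000000) (nat_lit 0x0) (nat_lit 0x1000000033000180008000400000) := T_1 (nat_lit 73) (nat_lit 72) (nat_lit 3) (nat_lit 4) (nat_lit 4) L3970640 (by decide +kernel)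
theorem L3970642 : W_1 (nat_lit 6) (nat_lit 0x100008000000038000c000000000000000000) (nat_lit 0x0) (nat_lit 0x1000070033800180008000400000) := Q_1 (nat_lit 90) (C_1 L3969251 (C_1 L3962762 (C_1 L3970641 N_1))) (by decide +kernel)
theorem L3970643 : W_1 (nat_lit 2) (nat_lit 0x10000800020003c001e000100010000000000) (nat_lit 0x0) (nat_lit 0x8000c00000) := D_1 (nat_lit 39) (nat_lit 23) (nat_lit 22) (nat_lit 6) (nat_lit 5) (nat_lit 5) (nat_lit 7) (nat_lit 5) (nat_lit 1) (by decide +kernel)
theorem L3970644 : W_1 (nat_lit 3) (nat_lit 0x10000800020003c001e000000010000000000) (nat_lit 0x0) (nat_lit 0x180008000c00000) := T_1 (nat_lit 56) (nat_lit 55) (nat_lit 0) (nat_lit 8) (nat_lit 4) L3970643 (by decide +kernel)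
theorem L3970645 : W_1 (nat_lit 4) (nat_lit 0x10000800020003c001c000000010000000000) (nat_lit 0x0) (nat_lit 0x3000180008000c00000) := T_1 (nat_lit 73) (nat_lit 72) (nat_lit 3) (nat_lit 4) (nat_lit 4) L3970644 (by decide +kernel)
theorem L3970646 : W_1 (nat_lit 5) (nat_lit 0x10000800020003c000c000000010000000000) (nat_lit 0x0) (nat_lit 0x33000180008000c00000) := T_1 (nat_lit 76) (nat_lit 77) (nat_lit 2) (nat_lit 5) (nat_lit 5) L3970645 (by decide +kernel)
theorem L3970647 : W_1 (nat_lit 6) (nat_lit 0x10000800020003c000c000000000000000000) (nat_lit 0x0) (nat_lit 0x33000380018000c00000) := T_1 (nat_lit 40) (nat_lit 57) (nat_lit 7) (nat_lit 6) (nat_lit 2) L3970646 (by decide +kernel)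
theorem L3970648 : W_1 (nat_lit 7) (nat_lit 0x10000800000003c000c000000000000000000) (nat_lit 0x0) (nat_lit 0x40002000000033000380018000c00000) := T_1 (nat_lit 109) (nat_lit 126) (nat_lit 7) (nat_lit 7) (nat_lit 4) L3970647 (by decide +kernel)
theorem L3970649 : W_1 (nat_lit 8) (nat_lit 0x100008000000038000c000000000000000000) (nat_lit 0x0) (nat_lit 0x40002000070033800380018000c00000) := Q_1 (nat_lit 90) (C_1 L3969251 (C_1 L3962762 (C_1 L3970648 N_1))) (by decide +kernel)
theorem L3970650 : W_1 (nat_lit 2) (nat_lit 0x100008000300038000d000700000000000000) (nat_lit 0x0) (nat_lit 0x8000c0000000000000) := D_1 (nat_lit 55) (nat_lit 54) (nat_lit 71) (nat_lit 3) (nat_lit 3) (nat_lit 3) (nat_lit 1) (nat_lit 7) (nat_lit 3) (by decide +kernel)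
theorem L3970651 : W_1 (nat_lit 3) (nat_lit 0x100008000300038000d000600000000000000) (nat_lit 0x0) (nat_lit 0x8001c0008000000000) := T_1 (nat_lit 56) (nat_lit 39) (nat_lit 4) (nat_lit 6) (nat_lit 6) L3970650 (by decide +kernel)
theorem L3970652 : W_1 (nat_lit 4) (nat_lit 0x100008000300038000d000400000000000000) (nat_lit 0x0) (nat_lit 0x8003c0018000000000) := T_1 (nat_lit 57) (nat_lit 40) (nat_lit 7) (nat_lit 6) (nat_lit 2) L3970651 (by decide +kernel)
theorem L3970653 : W_1 (nat_lit 5) (nat_lit 0x100008000100038000d000400000000000000) (nat_lit 0x0) (nat_lit 0x400020000000008003c0018000000000) := T_1 (nat_lit 109) (nat_lit 126) (nat_lit 7) (nat_lit 7) (nat_lit 4) L3970652 (by decide +kernel)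
theorem L3970654 : W_1 (nat_lit 6) (nat_lit 0x100008000100038000d000000000000000000) (nat_lit 0x0) (nat_lit 0x400020000000008007c0038000000000) := T_1 (nat_lit 58) (nat_lit 41) (nat_lit 5) (nat_lit 7) (nat_lit 2) L3970653 (by decide +kernel)
theorem L3970655 : W_1 (nat_lit 7) (nat_lit 0x100008000100038000c000000000000000000) (nat_lit 0x0) (nat_lit 0x400020000000038007c0038000000000) := T_1 (nat_lit 72) (nat_lit 73) (nat_lit 3) (nat_lit 4) (nat_lit 4) L3970654 (by decide +kernel)
theorem L3970656 : W_1 (nat_lit 8) (nat_lit 0x100008000000038000c000000000000000000) (nat_lit 0x0) (nat_lit 0xc000600030000000038007c0038000000000) := Q_1 (nat_lit 108) (C_1 L3970394 (C_1 L3970655 (C_1 L3969226 N_1))) (by decide +kernel)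
theorem L3970657 : W_1 (nat_lit 2) (nat_lit 0x100008000200038000c000400010000000000) (nat_lit 0x0) (nat_lit 0x20001800000) := D_1 (nat_lit 41) (nat_lit 23) (nat_lit 24) (nat_lit 4) (nat_lit 7) (nat_lit 5) (nat_lit 5) (nat_lit 7) (nat_lit 1) (by decide +kernel)
theorem L3970658 : W_1 (nat_lit 3) (nat_lit 0x100008000200038000c000400000000000000) (nat_lit 0x0) (nat_lit 0x200030001800000) := T_1 (nat_lit 40) (nat_lit 57) (nat_lit 7) (nat_lit 6) (nat_lit 2) L3970657 (by decide +kernel)
theorem L3970659 : W_1 (nat_lit 4) (nat_lit 0x100008000000038000c000400000000000000) (nat_lit 0x0) (nat_lit 0x40002000000000000200030001800000) := T_1 (nat_lit 109) (nat_lit 126) (nat_lit 7) (nat_lit 7) (nat_lit 4) L3970658 (by decide +kernel)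
theorem L3970660 : W_1 (nat_lit 7) (nat_lit 0x100008000000038000c000000000000000000) (nat_lit 0x0) (nat_lit 0x2b80078003000000000000600030001800000) := Q_1 (nat_lit 58) (C_1 L3969562 (C_1 L3962768 (C_1 L3970659 (C_1 L3969552 N_1)))) (by decide +kernel)
theorem L3970661 : W_1 (nat_lit 9) (nat_lit 0x100008000000030000c000000000000000000) (nat_lit 0x0) (nat_lit 0x2f800780030000f00338007c0038001c00000) := Q_1 (nat_lit 91) (C_1 L3970637 (C_1 L3970642 (C_1 L3970649 (C_1 L3970656 (C_1 L3970660 N_1))))) (by decide +kernel)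
theorem L3970662 : W_1 (nat_lit 11) (nat_lit 0x1000080000000300008000000000000000000) (nat_lit 0x0) (nat_lit 0x2f8017801b000cf00f78007c0038001c00020) := Q_1 (nat_lit 74) (C_1 L3970630 (C_1 L340073 (C_1 L32323 (C_1 L3970661 (C_1 L28280 N_1))))) (by decide +kernel)
theorem L3970663 : W_1 (nat_lit 2) (nat_lit 0x100008000800078002c000200000000800000) (nat_lit 0x0) (nat_lit 0x40010000100000000000000) := D_1 (nat_lit 76) (nat_lit 90) (nat_lit 56) (nat_lit 2) (nat_lit 5) (nat_lit 5) (nat_lit 0) (nat_lit 9) (nat_lit 4) (by decide +kernel)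
theorem L3970664 : W_1 (nat_lit 3) (nat_lit 0x100008000800078000c000200000000800000) (nat_lit 0x0) (nat_lit 0x100000000040030000100000000000000) := T_1 (nat_lit 77) (nat_lit 128) (nat_lit 5) (nat_lit 9) (nat_lit 4) L3970663 (by decide +kernel)
theorem L3970665 : W_1 (nat_lit 4) (nat_lit 0x100008000000078000c000200000000800000) (nat_lit 0x0) (nat_lit 0x100018000040030000100000000000000) := T_1 (nat_lit 111) (nat_lit 112) (nat_lit 3) (nat_lit 6) (nat_lit 5) L3970664 (by decide +kernel)
theorem L3970666 : W_1 (nat_lit 5) (nat_lit 0x100008000000078000c000200000000000000) (nat_lit 0x0) (nat_lit 0x100018000040030000100010000800000) := T_1 (nat_lit 23) (nat_lit 40) (nat_lit 7) (nat_lit 6) (nat_lit 1) L3970665 (by decide +kernel)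
theorem L3970667 : W_1 (nat_lit 6) (nat_lit 0x100008000000038000c000200000000000000) (nat_lit 0x0) (nat_lit 0x100018000c40030000100010000800000) := T_1 (nat_lit 94) (nat_lit 95) (nat_lit 0) (nat_lit 10) (nat_lit 5) L3970666 (by decide +kernel)
theorem L3970668 : W_1 (nat_lit 2) (nat_lit 0x100008000800078003c001200040000800000) (nat_lit 0x0) (nat_lit 0x80006000000) := D_1 (nat_lit 43) (nat_lit 25) (nat_lit 26) (nat_lit 4) (nat_lit 9) (nat_lit 5) (nat_lit 5) (nat_lit 9) (nat_lit 1) (by decide +kernel)
theorem L3970669 : W_1 (nat_lit 3) (nat_lit 0x100008000800078003c000200040000800000) (nat_lit 0x0) (nat_lit 0x3000080006000000) := T_1 (nat_lit 60) (nat_lit 61) (nat_lit 2) (nat_lit 6) (nat_lit 4) L3970668 (by decide +kernel)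
theorem L3970670 : W_1 (nat_lit 4) (nat_lit 0x100008000800078003c000200000000800000) (nat_lit 0x0) (nat_lit 0x38000c0006000000) := T_1 (nat_lit 42) (nat_lit 59) (nat_lit 7) (nat_lit 8) (nat_lit 2) L3970669 (by decide +kernel)
theorem L3970671 : W_1 (nat_lit 5) (nat_lit 0x100008000800078002c000200000000800000) (nat_lit 0x0) (nat_lit 0x400100038000c0006000000) := T_1 (nat_lit 76) (nat_lit 90) (nat_lit 2) (nat_lit 5) (nat_lit 5) L3970670 (by decide +kernel)
theorem L3970672 : W_1 (nat_lit 6) (nat_lit 0x100008000800078000c000200000000800000) (nat_lit 0x0) (nat_lit 0x1000000000400300038000c0006000000) := T_1 (nat_lit 77) (nat_lit 128) (nat_lit 5) (nat_lit 9) (nat_lit 4) L3970671 (by decide +kernel)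
theorem L3970673 : W_1 (nat_lit 7) (nat_lit 0x100008000000078000c000200000000800000) (nat_lit 0x0) (nat_lit 0x1000180000400300038000c0006000000) := T_1 (nat_lit 111) (nat_lit 112) (nat_lit 3) (nat_lit 6) (nat_lit 5) L3970672 (by decide +kernel)
theorem L3970674 : W_1 (nat_lit 8) (nat_lit 0x100008000000078000c000200000000000000) (nat_lit 0x0) (nat_lit 0x1000180000400300038000d0006800000) := T_1 (nat_lit 23) (nat_lit 40) (nat_lit 7) (nat_lit 6) (nat_lit 1) L3970673 (by decide +kernel)
theorem L3970675 : W_1 (nat_lit 9) (nat_lit 0x100008000000038000c000200000000000000) (nat_lit 0x0) (nat_lit 0x100018000c400300038000d0006800000) := T_1 (nat_lit 94) (nat_lit 95) (nat_lit 0) (nat_lit 10) (nat_lit 5) L3970674 (by decide +kernel)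
theorem L3970676 : W_1 (nat_lit 2) (nat_lit 0x100008000800078002c000200000000000000) (nat_lit 0x0) (nat_lit 0x40010000100000000000000) := D_1 (nat_lit 76) (nat_lit 90) (nat_lit 56) (nat_lit 2) (nat_lit 5) (nat_lit 5) (nat_lit 0) (nat_lit 9) (nat_lit 4) (by decide +kernel)
theorem L3970677 : W_1 (nat_lit 3) (nat_lit 0x100008000800078000c000200000000000000) (nat_lit 0x0) (nat_lit 0x100000000040030000100000000000000) := T_1 (nat_lit 77) (nat_lit 128) (nat_lit 5) (nat_lit 9) (nat_lit 4) L3970676 (by decide +kernel)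
theorem L3970678 : W_1 (nat_lit 4) (nat_lit 0x100008000000078000c000200000000000000) (nat_lit 0x0) (nat_lit 0x100018000040030000100000000000000) := T_1 (nat_lit 111) (nat_lit 112) (nat_lit 3) (nat_lit 6) (nat_lit 5) L3970677 (by decide +kernel)
theorem L3970679 : W_1 (nat_lit 5) (nat_lit 0x100008000000038000c000200000000000000) (nat_lit 0x0) (nat_lit 0x100018000c40030000100000000000000) := T_1 (nat_lit 94) (nat_lit 95) (nat_lit 0) (nat_lit 10) (nat_lit 5) L3970678 (by decide +kernel)
theorem L3970680 : W_1 (nat_lit 11) (nat_lit 0x100008000000030000c000200000000000000) (nat_lit 0x0) (nat_lit 0x2e00170019000cc0030003dc00fe007c00000) := Q_1 (nat_lit 91) (C_1 L3970600 (C_1 L3970303 (C_1 L3969547 (C_1 L3970667 (C_1 L3970675 (C_1 L3970679 N_1)))))) (by decide +kernel)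
theorem L3970686 : W_1 (nat_lit 2) (nat_lit 0x100008003a00070002c001200180000000000) (nat_lit 0x0) (nat_lit 0x800040002000000) := D_1 (nat_lit 42) (nat_lit 59) (nat_lit 25) (nat_lit 4) (nat_lit 9) (nat_lit 6) (nat_lit 4) (nat_lit 9) (nat_lit 5) (by decide +kernel)
theorem L3970687 : W_1 (nat_lit 3) (nat_lit 0x100008003a00070002c001200100000000000) (nat_lit 0x0) (nat_lit 0x8000c000a000000) := T_1 (nat_lit 43) (nat_lit 27) (nat_lit 6) (nat_lit 9) (nat_lit 5) L3970686 (by decide +kernel)
theorem L3970688 : W_1 (nat_lit 4) (nat_lit 0x100008003a00070002c001200000000000000) (nat_lit 0x0) (nat_lit 0x28001c000a000000) := T_1 (nat_lit 44) (nat_lit 61) (nat_lit 6) (nat_lit 9) (nat_lit 6) L3970687 (by decide +kernel)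
theorem L3970689 : W_1 (nat_lit 5) (nat_lit 0x100008003a00070002c000200000000000000) (nat_lit 0x0) (nat_lit 0x2000000000000000038001c000a000000) := T_1 (nat_lit 60) (nat_lit 129) (nat_lit 7) (nat_lit 9) (nat_lit 3) L3970688 (by decide +kernel)
theorem L3970690 : W_1 (nat_lit 6) (nat_lit 0x100008001a00070002c000200000000000000) (nat_lit 0x0) (nat_lit 0x2000600000000000038001c000a000000) := T_1 (nat_lit 113) (nat_lit 114) (nat_lit 0) (nat_lit 12) (nat_lit 6) L3970689 (by decide +kernel)
theorem L3970691 : W_1 (nat_lit 7) (nat_lit 0x100008000a00070002c000200000000000000) (nat_lit 0x0) (nat_lit 0x2000700000800000038001c000a000000) := T_1 (nat_lit 112) (nat_lit 91) (nat_lit 3) (nat_lit 6) (nat_lit 5) L3970690 (by decide +kernel)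
theorem L3970692 : W_1 (nat_lit 8) (nat_lit 0x100008000200070002c000200000000000000) (nat_lit 0x0) (nat_lit 0x3000780000800000038001c000a000000) := T_1 (nat_lit 111) (nat_lit 128) (nat_lit 5) (nat_lit 9) (nat_lit 4) L3970691 (by decide +kernel)
theorem L3970693 : W_1 (nat_lit 9) (nat_lit 0x100008000200030002c000200000000000000) (nat_lit 0x0) (nat_lit 0x300078000c800000038001c000a000000) := T_1 (nat_lit 94) (nat_lit 95) (nat_lit 0) (nat_lit 10) (nat_lit 5) L3970692 (by decide +kernel)
theorem L3970694 : W_1 (nat_lit 10) (nat_lit 0x100008000000030002c000200000000000000) (nat_lit 0x0) (nat_lit 0x34007a000c800000038001c000a000000) := T_1 (nat_lit 109) (nat_lit 126) (nat_lit 7) (nat_lit 7) (nat_lit 4) L3970693 (by decide +kernel)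
theorem L3970695 : W_1 (nat_lit 2) (nat_lit 0x100008000900078002c000340000000000000) (nat_lit 0x0) (nat_lit 0x20000000000000000400020000000000) := D_1 (nat_lit 58) (nat_lit 41) (nat_lit 125) (nat_lit 6) (nat_lit 6) (nat_lit 6) (nat_lit 6) (nat_lit 6) (nat_lit 7) (by decide +kernel)
theorem L3970696 : W_1 (nat_lit 3) (nat_lit 0x100008000800078002c000340000000000000) (nat_lit 0x0) (nat_lit 0x20001000000000000400028000000000) := T_1 (nat_lit 108) (nat_lit 39) (nat_lit 4) (nat_lit 6) (nat_lit 6) L3970695 (by decide +kernel)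
theorem L3970697 : W_1 (nat_lit 4) (nat_lit 0x100008000800078002c000300000000000000) (nat_lit 0x0) (nat_lit 0x200010000000000004c0028000000000) := T_1 (nat_lit 54) (nat_lit 55) (nat_lit 3) (nat_lit 3) (nat_lit 3) L3970696 (by decide +kernel)
theorem L3970698 : W_1 (nat_lit 5) (nat_lit 0x100008000800070002c000300000000000000) (nat_lit 0x0) (nat_lit 0x200110000800000004c0028000000000) := T_1 (nat_lit 91) (nat_lit 112) (nat_lit 3) (nat_lit 6) (nat_lit 5) L3970697 (by decide +kernel)
theorem L3970699 : W_1 (nat_lit 6) (nat_lit 0x100008000000070002c000300000000000000) (nat_lit 0x0) (nat_lit 0x1200190000800000004c0028000000000) := T_1 (nat_lit 111) (nat_lit 128) (nat_lit 5) (nat_lit 9) (nat_lit 4) L3970698 (by decide +kernel)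
theorem L3970700 : W_1 (nat_lit 7) (nat_lit 0x100008000000070002c000200000000000000) (nat_lit 0x0) (nat_lit 0x1200190000800100005c0028000000000) := T_1 (nat_lit 56) (nat_lit 76) (nat_lit 0) (nat_lit 9) (nat_lit 4) L3970699 (by decide +kernel)
theorem L3970701 : W_1 (nat_lit 8) (nat_lit 0x100008000000030002c000200000000000000) (nat_lit 0x0) (nat_lit 0x120019000c800100005c0028000000000) := T_1 (nat_lit 94) (nat_lit 95) (nat_lit 0) (nat_lit 10) (nat_lit 5) L3970700 (by decide +kernel)
theorem L3970702 : W_1 (nat_lit 4) (nat_lit 0x100008000200038003c001a00000000000000) (nat_lit 0x0) (nat_lit 0x10000000000004001a0005000000) := T_1 (nat_lit 43) (nat_lit 26) (nat_lit 5) (nat_lit 9) (nat_lit 1) L3964833 (by decide +kernel)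
theorem L3970703 : W_1 (nat_lit 5) (nat_lit 0x100008000200038003c001200000000000000) (nat_lit 0x0) (nat_lit 0x1000000000000c001e0005000000) := T_1 (nat_lit 59) (nat_lit 42) (nat_lit 5) (nat_lit 8) (nat_lit 2) L3970702 (by decide +kernel)
theorem L3970704 : W_1 (nat_lit 6) (nat_lit 0x100008000200038003c000200000000000000) (nat_lit 0x0) (nat_lit 0x1000000000003c001e0005000000) := T_1 (nat_lit 60) (nat_lit 61) (nat_lit 2) (nat_lit 6) (nat_lit 4) L3970703 (by decide +kernel)
theorem L3970705 : W_1 (nat_lit 7) (nat_lit 0x100008000200030003c000200000000000000) (nat_lit 0x0) (nat_lit 0x10000c0000003c001e0005000000) := T_1 (nat_lit 91) (nat_lit 90) (nat_lit 2) (nat_lit 5) (nat_lit 5) L3970704 (by decide +kernel)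
theorem L3970706 : W_1 (nat_lit 8) (nat_lit 0x100008000000030003c000200000000000000) (nat_lit 0x0) (nat_lit 0x400030000c0000003c001e0005000000) := T_1 (nat_lit 109) (nat_lit 126) (nat_lit 7) (nat_lit 7) (nat_lit 4) L3970705 (by decide +kernel)
theorem L3970707 : W_1 (nat_lit 9) (nat_lit 0x100008000000030002c000200000000000000) (nat_lit 0x0) (nat_lit 0x400030000c0010003d001e0005000000) := T_1 (nat_lit 76) (nat_lit 56) (nat_lit 0) (nat_lit 9) (nat_lit 4) L3970706 (by decide +kernel)
theorem L3970708 : W_1 (nat_lit 11) (nat_lit 0x100008000000030000c000200000000000000) (nat_lit 0x0) (nat_lit 0x36007b000cc0030003dc01e800f000000) := Q_1 (nat_lit 77) (C_1 L3970694 (C_1 L3970701 (C_1 L3964724 (C_1 L3970707 N_1)))) (by decide +kernel)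
theorem L3970709 : W_1 (nat_lit 12) (nat_lit 0x100008000000030000c000000000000000000) (nat_lit 0x0) (nat_lit 0x2e0037007b000cc0030003fc01fe00fc00000) := Q_1 (nat_lit 57) (C_1 L415050 (C_1 L257257 (C_1 L3970680 (C_1 L257131 (C_1 L3970708 N_1))))) (by decide +kernel)
theorem L3970710 : W_1 (nat_lit 13) (nat_lit 0x1000080000000300008000000000000000000) (nat_lit 0x0) (nat_lit 0x2e0037007b000cc0037003fc01fe00fc00000) := Q_1 (nat_lit 74) (C_1 L3970709 (C_1 L3969608 (C_1 L340073 (C_1 L32323 (C_1 L258920 N_1))))) (by decide +kernel)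
theorem L3970711 : W_1 (nat_lit 11) (nat_lit 0x1000080000000300008000000000000000000) (nat_lit 0x0) (nat_lit 0x14001b000cc00f7003fc0058000c00020) := Q_1 (nat_lit 74) (C_1 L3970630 (C_1 L340073 (C_1 L32323 (C_1 L258920 N_1)))) (by decide +kernel)
theorem L3970712 : W_1 (nat_lit 2) (nat_lit 0x100008000a2007e000a000000000000000000) (nat_lit 0x0) (nat_lit 0x1100010000000000000000000000) := D_1 (nat_lit 88) (nat_lit 104) (nat_lit 108) (nat_lit 1) (nat_lit 6) (nat_lit 5) (nat_lit 3) (nat_lit 3) (nat_lit 5) (by decide +kernel)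
theorem L3970713 : W_1 (nat_lit 3) (nat_lit 0x100008000a0007e000a000000000000000000) (nat_lit 0x0) (nat_lit 0x1700010000000000000000000000) := T_1 (nat_lit 105) (nat_lit 106) (nat_lit 1) (nat_lit 7) (nat_lit 5) L3970712 (by decide +kernel)
theorem L3970714 : W_1 (nat_lit 4) (nat_lit 0x100008000a0007c000a000000000000000000) (nat_lit 0x0) (nat_lit 0x1700030010000000000000000000) := T_1 (nat_lit 89) (nat_lit 76) (nat_lit 2) (nat_lit 4) (nat_lit 5) L3970713 (by decide +kernel)
theorem L3970715 : W_1 (nat_lit 5) (nat_lit 0x100008000a00078000a000000000000000000) (nat_lit 0x0) (nat_lit 0x1700070011000000000000000000) := T_1 (nat_lit 90) (nat_lit 72) (nat_lit 0) (nat_lit 8) (nat_lit 5) L3970714 (by decide +kernel)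
theorem L3970716 : W_1 (nat_lit 6) (nat_lit 0x100008000a000780008000000000000000000) (nat_lit 0x0) (nat_lit 0x1700070017000000000000000000) := T_1 (nat_lit 73) (nat_lit 74) (nat_lit 0) (nat_lit 9) (nat_lit 5) L3970715 (by decide +kernel)
theorem L3970717 : W_1 (nat_lit 7) (nat_lit 0x1000080002000780008000000000000000000) (nat_lit 0x0) (nat_lit 0x19700070017000000000000000000) := T_1 (nat_lit 111) (nat_lit 112) (nat_lit 3) (nat_lit 6) (nat_lit 5) L3970716 (by decide +kernel)
theorem L3970718 : W_1 (nat_lit 8) (nat_lit 0x1000080000000780008000000000000000000) (nat_lit 0x0) (nat_lit 0x4001b700070017000000000000000000) := T_1 (nat_lit 109) (nat_lit 126) (nat_lit 7) (nat_lit 7) (nat_lit 4) L3970717 (by decide +kernel)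
theorem L3970719 : W_1 (nat_lit 9) (nat_lit 0x1000080000000700008000000000000000000) (nat_lit 0x0) (nat_lit 0x14001b7000f0077000000000000000000) := Q_1 (nat_lit 91) (C_1 L3970718 (C_1 L258840 (C_1 L341835 N_1))) (by decide +kernel)
theorem L3970720 : W_1 (nat_lit 10) (nat_lit 0x1000080000000300008000000000000000000) (nat_lit 0x0) (nat_lit 0x14007b701cf01f7000000000000000000) := Q_1 (nat_lit 94) (C_1 L3969632 (C_1 L343860 (C_1 L3963988 (C_1 L3970719 N_1)))) (by decide +kernel)
theorem L3970721 : W_1 (nat_lit 16) (nat_lit 0x1000080000000300000000000000000000000) (nat_lit 0x0) (nat_lit 0x2f8037807b701cf01ff807fc03fe01fc00160) := Q_1 (nat_lit 75) (C_1 L3969264 (C_1 L3969325 (C_1 L3969402 (C_1 L3969542 (C_1 L3969633 (C_1 L3969647 (C_1 L3969679 (C_1 L3970266 (C_1 L3970559 (C_1 L3970620 (C_1 L3970662 (C_1 L3970710 (C_1 L3970711 (C_1 L3970720 N_1)))))))))))))) (by decide +kernel)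
theorem L3970722 : W_1 (nat_lit 2) (nat_lit 0x10001c0003000780022000000000000000000) (nat_lit 0x0) (nat_lit 0x10000800000000000000010000000000000000000) := D_1 (nat_lit 143) (nat_lit 160) (nat_lit 76) (nat_lit 4) (nat_lit 7) (nat_lit 9) (nat_lit 6) (nat_lit 7) (nat_lit 8) (by decide +kernel)
theorem L3970723 : W_1 (nat_lit 3) (nat_lit 0x1000180003000780022000000000000000000) (nat_lit 0x0) (nat_lit 0x10000800240000000000010000000000000000000) := T_1 (nat_lit 126) (nat_lit 129) (nat_lit 0) (nat_lit 10) (nat_lit 7) L3970722 (by decide +kernel)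
theorem L3970724 : W_1 (nat_lit 4) (nat_lit 0x1000080003000780022000000000000000000) (nat_lit 0x0) (nat_lit 0x10000800340008000000010000000000000000000) := T_1 (nat_lit 128) (nat_lit 111) (nat_lit 5) (nat_lit 9) (nat_lit 4) L3970723 (by decide +kernel)
theorem L3970725 : W_1 (nat_lit 5) (nat_lit 0x1000080001000780022000000000000000000) (nat_lit 0x0) (nat_lit 0x1000080034000a000800010000000000000000000) := T_1 (nat_lit 109) (nat_lit 95) (nat_lit 1) (nat_lit 10) (nat_lit 5) L3970724 (by decide +kernel)
theorem L3970726 : W_1 (nat_lit 6) (nat_lit 0x1000080001000780002000000000000000000) (nat_lit 0x0) (nat_lit 0x1000080034000a000800070000000000000000000) := T_1 (nat_lit 77) (nat_lit 78) (nat_lit 2) (nat_lit 6) (nat_lit 5) L3970725 (by decide +kernel)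
theorem L3970727 : W_1 (nat_lit 7) (nat_lit 0x1000080000000780002000000000000000000) (nat_lit 0x0) (nat_lit 0x1000080034000b800800070000000000000000000) := T_1 (nat_lit 108) (nat_lit 107) (nat_lit 1) (nat_lit 9) (nat_lit 5) L3970726 (by decide +kernel)
theorem L3970728 : W_1 (nat_lit 8) (nat_lit 0x1000080000000780000000000000000000000) (nat_lit 0x0) (nat_lit 0x1000080034000b800800076000000000000000000) := T_1 (nat_lit 73) (nat_lit 74) (nat_lit 0) (nat_lit 9) (nat_lit 5) L3970727 (by decide +kernel)
theorem L3970729 : W_1 (nat_lit 9) (nat_lit 0x1000080000000700000000000000000000000) (nat_lit 0x0) (nat_lit 0x1000080034000be008e0077800000000000000000) := Q_1 (nat_lit 91) (C_1 L24436 (C_1 L23633 (C_1 L258984 (C_1 L23639 (C_1 L3970728 N_1))))) (by decide +kernel)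
theorem L3970730 : W_1 (nat_lit 2) (nat_lit 0x1000080011000780000000000000000000000) (nat_lit 0x0) (nat_lit 0x22000800000000000000000000000) := D_1 (nat_lit 95) (nat_lit 113) (nat_lit 109) (nat_lit 3) (nat_lit 7) (nat_lit 5) (nat_lit 1) (nat_lit 10) (nat_lit 5) (by decide +kernel)
theorem L3970731 : W_1 (nat_lit 3) (nat_lit 0x1000080010000780000000000000000000000) (nat_lit 0x0) (nat_lit 0x23800800000000000000000000000) := T_1 (nat_lit 108) (nat_lit 107) (nat_lit 1) (nat_lit 9) (nat_lit 5) L3970730 (by decide +kernel)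
theorem L3970732 : W_1 (nat_lit 4) (nat_lit 0x1000080000000780000000000000000000000) (nat_lit 0x0) (nat_lit 0x3b800800000000000000000000000) := T_1 (nat_lit 112) (nat_lit 111) (nat_lit 3) (nat_lit 6) (nat_lit 5) L3970731 (by decide +kernel)
theorem L3970782 : W_1 (nat_lit 2) (nat_lit 0x1c00180000000780000000000000000000000) (nat_lit 0x0) (nat_lit 0x640000000000000000000000000000000) := D_1 (nat_lit 129) (nat_lit 130) (nat_lit 126) (nat_lit 1) (nat_lit 11) (nat_lit 7) (nat_lit 1) (nat_lit 10) (nat_lit 7) (by decide +kernel)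
theorem L3970784 : W_1 (nat_lit 3) (nat_lit 0x1800180000000780000000000000000000000) (nat_lit 0x0) (nat_lit 0x600640000000000000000000000000000000) := T_1 (nat_lit 142) (nat_lit 141) (nat_lit 2) (nat_lit 5) (nat_lit 8) L3970782 (by decide +kernel)
theorem L3970785 : W_1 (nat_lit 2) (nat_lit 0x1800380000000780000000000000000000000) (nat_lit 0x0) (nat_lit 0x2600000000000000000000000000000000000) := D_1 (nat_lit 142) (nat_lit 141) (nat_lit 145) (nat_lit 2) (nat_lit 5) (nat_lit 8) (nat_lit 2) (nat_lit 6) (nat_lit 8) (by decide +kernel)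
theorem L3970786 : W_1 (nat_lit 3) (nat_lit 0x1800180000000780000000000000000000000) (nat_lit 0x0) (nat_lit 0x2600600000000000000000000000000000000) := T_1 (nat_lit 129) (nat_lit 130) (nat_lit 1) (nat_lit 11) (nat_lit 7) L3970785 (by decide +kernel)
theorem L3970918 : W_1 (nat_lit 2) (nat_lit 0x10000c0002000780000000000000000000000) (nat_lit 0x0) (nat_lit 0x800000000000000014000000000000000000) := D_1 (nat_lit 143) (nat_lit 76) (nat_lit 74) (nat_lit 6) (nat_lit 7) (nat_lit 8) (nat_lit 4) (nat_lit 7) (nat_lit 8) (by decide +kernel)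
theorem L3970925 : W_1 (nat_lit 2) (nat_lit 0x10000f8000000780000000000000000000000) (nat_lit 0x0) (nat_lit 0x380000000000000000000000000000000000) := D_1 (nat_lit 140) (nat_lit 139) (nat_lit 141) (nat_lit 1) (nat_lit 7) (nat_lit 7) (nat_lit 1) (nat_lit 8) (nat_lit 7) (by decide +kernel)
theorem L3970926 : W_1 (nat_lit 3) (nat_lit 0x10000f0000000780000000000000000000000) (nat_lit 0x0) (nat_lit 0xb80008000000000000000000000000000000) := T_1 (nat_lit 123) (nat_lit 143) (nat_lit 3) (nat_lit 4) (nat_lit 7) L3970925 (by decide +kernel)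
theorem L3970961 : W_1 (nat_lit 4) (nat_lit 0x10000e0000000780000000000000000000000) (nat_lit 0x0) (nat_lit 0x2b80018000000000000000000000000000000) := T_1 (nat_lit 124) (nat_lit 145) (nat_lit 3) (nat_lit 5) (nat_lit 7) L3970926 (by decide +kernel)
theorem L3970969 : W_1 (nat_lit 2) (nat_lit 0x10000f8008000780000000000000000000000) (nat_lit 0x0) (nat_lit 0xe00000000000000000000000000) := D_1 (nat_lit 106) (nat_lit 107) (nat_lit 105) (nat_lit 0) (nat_lit 8) (nat_lit 7) (nat_lit 0) (nat_lit 7) (nat_lit 7) (by decide +kernel)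
theorem L3970970 : W_1 (nat_lit 3) (nat_lit 0x10000f0008000780000000000000000000000) (nat_lit 0x0) (nat_lit 0x800008000e00000000000000000000000000) := T_1 (nat_lit 123) (nat_lit 143) (nat_lit 3) (nat_lit 4) (nat_lit 7) L3970969 (by decide +kernel)
theorem L3970971 : W_1 (nat_lit 4) (nat_lit 0x10000e0008000780000000000000000000000) (nat_lit 0x0) (nat_lit 0x2800018000e00000000000000000000000000) := T_1 (nat_lit 124) (nat_lit 145) (nat_lit 3) (nat_lit 5) (nat_lit 7) L3970970 (by decide +kernel)
theorem L3970972 : W_1 (nat_lit 5) (nat_lit 0x10000e0000000780000000000000000000000) (nat_lit 0x0) (nat_lit 0x2800018018e00000000000000000000000000) := T_1 (nat_lit 111) (nat_lit 112) (nat_lit 3) (nat_lit 6) (nat_lit 5) L3970971 (by decide +kernel)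
theorem L3971248 : W_1 (nat_lit 2) (nat_lit 0x3c001e0000000f00040000000000000000000) (nat_lit 0x0) (nat_lit 0xc000000000002000000000000000000000000000) := D_1 (nat_lit 159) (nat_lit 158) (nat_lit 109) (nat_lit 1) (nat_lit 9) (nat_lit 8) (nat_lit 5) (nat_lit 7) (nat_lit 5) (by decide +kernel)
theorem L3971249 : W_1 (nat_lit 3) (nat_lit 0x34001e0000000f00040000000000000000000) (nat_lit 0x0) (nat_lit 0xc000800200002000000000000000000000000000) := T_1 (nat_lit 143) (nat_lit 129) (nat_lit 2) (nat_lit 6) (nat_lit 8) L3971248 (by decide +kernel)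
theorem L3971250 : W_1 (nat_lit 4) (nat_lit 0x30001e0000000f00040000000000000000000) (nat_lit 0x0) (nat_lit 0xc000e00200002000000000000000000000000000) := T_1 (nat_lit 142) (nat_lit 141) (nat_lit 1) (nat_lit 9) (nat_lit 7) L3971249 (by decide +kernel)
theorem L3971251 : W_1 (nat_lit 5) (nat_lit 0x30001c0000000f00040000000000000000000) (nat_lit 0x0) (nat_lit 0xc000e00230002000000000000000000000000000) := T_1 (nat_lit 125) (nat_lit 124) (nat_lit 3) (nat_lit 5) (nat_lit 7) L3971250 (by decide +kernel)
theorem L3971252 : W_1 (nat_lit 6) (nat_lit 0x10001c0000000f00040000000000000000000) (nat_lit 0x0) (nat_lit 0xc002e0023000a000000000000000000000000000) := T_1 (nat_lit 145) (nat_lit 111) (nat_lit 6) (nat_lit 9) (nat_lit 8) L3971251 (by decide +kernel)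
theorem L3971253 : W_1 (nat_lit 7) (nat_lit 0x10001c0000000f00000000000000000000000) (nat_lit 0x0) (nat_lit 0xc002e0023000a0000000c0000000000000000000) := T_1 (nat_lit 78) (nat_lit 79) (nat_lit 2) (nat_lit 7) (nat_lit 5) L3971252 (by decide +kernel)
theorem L3971419 : W_1 (nat_lit 2) (nat_lit 0x1c001800010007c0002000000008000000000) (nat_lit 0x0) (nat_lit 0x640000000000000000000000000000000) := D_1 (nat_lit 129) (nat_lit 130) (nat_lit 126) (nat_lit 1) (nat_lit 11) (nat_lit 7) (nat_lit 1) (nat_lit 10) (nat_lit 7) (by decide +kernel)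
theorem L3971420 : W_1 (nat_lit 3) (nat_lit 0x14001800010007c0002000000008000000000) (nat_lit 0x0) (nat_lit 0xa00640000000000000000000000000000000) := T_1 (nat_lit 143) (nat_lit 141) (nat_lit 2) (nat_lit 5) (nat_lit 8) L3971419 (by decide +kernel)
theorem L3971421 : W_1 (nat_lit 4) (nat_lit 0x14001800010007c0002000000000000000000) (nat_lit 0x0) (nat_lit 0xa00640000000000000000100008000000000) := T_1 (nat_lit 39) (nat_lit 56) (nat_lit 7) (nat_lit 5) (nat_lit 2) L3971420 (by decide +kernel)
theorem L3971422 : W_1 (nat_lit 5) (nat_lit 0x10001800010007c0002000000000000000000) (nat_lit 0x0) (nat_lit 0xe00660000000000000000100008000000000) := T_1 (nat_lit 142) (nat_lit 125) (nat_lit 4) (nat_lit 6) (nat_lit 8) L3971421 (by decide +kernel)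
theorem L3971423 : W_1 (nat_lit 6) (nat_lit 0x1000180001000780002000000000000000000) (nat_lit 0x0) (nat_lit 0xe00660000000040001000100008000000000) := T_1 (nat_lit 90) (nat_lit 72) (nat_lit 0) (nat_lit 8) (nat_lit 5) L3971422 (by decide +kernel)
theorem L3971424 : W_1 (nat_lit 7) (nat_lit 0x1000180001000780000000000000000000000) (nat_lit 0x0) (nat_lit 0xe00660000000040007000100008000000000) := T_1 (nat_lit 73) (nat_lit 74) (nat_lit 0) (nat_lit 9) (nat_lit 5) L3971423 (by decide +kernel)
theorem L3971425 : W_1 (nat_lit 8) (nat_lit 0x1000180001000700000000000000000000000) (nat_lit 0x0) (nat_lit 0xe006600008000c0007000100008000000000) := T_1 (nat_lit 91) (nat_lit 107) (nat_lit 1) (nat_lit 9) (nat_lit 5) L3971424 (by decide +kernel)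
theorem L3971436 : W_1 (nat_lit 2) (nat_lit 0x1000180011000f00040002000300000000000) (nat_lit 0x0) (nat_lit 0x1000080004000000) := D_1 (nat_lit 43) (nat_lit 60) (nat_lit 26) (nat_lit 4) (nat_lit 10) (nat_lit 6) (nat_lit 4) (nat_lit 10) (nat_lit 5) (by decide +kernel)
theorem L3971437 : W_1 (nat_lit 3) (nat_lit 0x1000180011000f00040002000200000000000) (nat_lit 0x0) (nat_lit 0x1000180014000000) := T_1 (nat_lit 44) (nat_lit 28) (nat_lit 6) (nat_lit 10) (nat_lit 5) L3971436 (by decide +kernel)
theorem L3971438 : W_1 (nat_lit 4) (nat_lit 0x1000180011000f00040002000000000000000) (nat_lit 0x0) (nat_lit 0x5000380014000000) := T_1 (nat_lit 45) (nat_lit 62) (nat_lit 6) (nat_lit 10) (nat_lit 6) L3971437 (by decide +kernel)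
theorem L3971439 : W_1 (nat_lit 5) (nat_lit 0x1000180011000f00040000000000000000000) (nat_lit 0x0) (nat_lit 0x8000000000007000380014000000) := T_1 (nat_lit 61) (nat_lit 111) (nat_lit 5) (nat_lit 10) (nat_lit 3) L3971438 (by decide +kernel)
theorem L3971440 : W_1 (nat_lit 6) (nat_lit 0x1000180001000f00040000000000000000000) (nat_lit 0x0) (nat_lit 0x38000000000007000380014000000) := T_1 (nat_lit 112) (nat_lit 113) (nat_lit 3) (nat_lit 7) (nat_lit 5) L3971439 (by decide +kernel)
theorem L3971441 : W_1 (nat_lit 7) (nat_lit 0x1000180001000f00000000000000000000000) (nat_lit 0x0) (nat_lit 0x380000000c0007000380014000000) := T_1 (nat_lit 78) (nat_lit 79) (nat_lit 2) (nat_lit 7) (nat_lit 5) L3971440 (by decide +kernel)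
theorem L3971964 : W_1 (nat_lit 3) (nat_lit 0x1000080002000700000000000000000000000) (nat_lit 0x0) (nat_lit 0x1c00880000000000000000000000) := T_1 (nat_lit 108) (nat_lit 95) (nat_lit 1) (nat_lit 10) (nat_lit 5) L32028 (by decide +kernel)
theorem L3971966 : W_1 (nat_lit 2) (nat_lit 0x10000800024007e0000000000000000000000) (nat_lit 0x0) (nat_lit 0x3800000000000000000) := D_1 (nat_lit 72) (nat_lit 71) (nat_lit 73) (nat_lit 0) (nat_lit 7) (nat_lit 5) (nat_lit 0) (nat_lit 8) (nat_lit 5) (by decide +kernel)
theorem L3971967 : W_1 (nat_lit 3) (nat_lit 0x10000800024007c0000000000000000000000) (nat_lit 0x0) (nat_lit 0x200020003800000000000000000) := T_1 (nat_lit 89) (nat_lit 105) (nat_lit 1) (nat_lit 7) (nat_lit 5) L3971966 (by decide +kernel)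
theorem L3971968 : W_1 (nat_lit 4) (nat_lit 0x10000800020007c0000000000000000000000) (nat_lit 0x0) (nat_lit 0xe00020003800000000000000000) := T_1 (nat_lit 106) (nat_lit 107) (nat_lit 1) (nat_lit 8) (nat_lit 5) L3971967 (by decide +kernel)
theorem L3972226 : W_1 (nat_lit 2) (nat_lit 0x1800380000000700000000000000000000000) (nat_lit 0x0) (nat_lit 0x2400040000000000000000000000000000000) := D_1 (nat_lit 142) (nat_lit 126) (nat_lit 145) (nat_lit 1) (nat_lit 10) (nat_lit 7) (nat_lit 2) (nat_lit 6) (nat_lit 8) (by decide +kernel)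
theorem L3972227 : W_1 (nat_lit 3) (nat_lit 0x1800180000000700000000000000000000000) (nat_lit 0x0) (nat_lit 0x2400640000000000000000000000000000000) := T_1 (nat_lit 129) (nat_lit 130) (nat_lit 1) (nat_lit 11) (nat_lit 7) L3972226 (by decide +kernel)
theorem L3972228 : W_1 (nat_lit 2) (nat_lit 0x1800380010000700000000000000000000000) (nat_lit 0x0) (nat_lit 0x40020000800000000000000000000000) := D_1 (nat_lit 113) (nat_lit 95) (nat_lit 126) (nat_lit 3) (nat_lit 7) (nat_lit 5) (nat_lit 2) (nat_lit 7) (nat_lit 7) (by decide +kernel)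
theorem L3972229 : W_1 (nat_lit 3) (nat_lit 0x1800180010000700000000000000000000000) (nat_lit 0x0) (nat_lit 0x640020000800000000000000000000000) := T_1 (nat_lit 129) (nat_lit 130) (nat_lit 1) (nat_lit 11) (nat_lit 7) L3972228 (by decide +kernel)
theorem L3972230 : W_1 (nat_lit 3) (nat_lit 0x1800180010000f00000000000000000000000) (nat_lit 0x0) (nat_lit 0x20000000080000800c0000000000000000000) := T_1 (nat_lit 78) (nat_lit 79) (nat_lit 2) (nat_lit 7) (nat_lit 5) L3489140 (by decide +kernel)
theorem L3972231 : W_1 (nat_lit 4) (nat_lit 0x1800180010000700000000000000000000000) (nat_lit 0x0) (nat_lit 0x20000000280008800c0000000000000000000) := T_1 (nat_lit 95) (nat_lit 113) (nat_lit 3) (nat_lit 7) (nat_lit 5) L3972230 (by decide +kernel)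
theorem L3972232 : W_1 (nat_lit 2) (nat_lit 0x1800380010000780004000000000000000000) (nat_lit 0x0) (nat_lit 0x40022000000000000000000000000000) := D_1 (nat_lit 126) (nat_lit 113) (nat_lit 109) (nat_lit 2) (nat_lit 7) (nat_lit 7) (nat_lit 4) (nat_lit 7) (nat_lit 8) (by decide +kernel)
theorem L3972233 : W_1 (nat_lit 3) (nat_lit 0x1800380010000780000000000000000000000) (nat_lit 0x0) (nat_lit 0x40022000000006000000000000000000) := T_1 (nat_lit 74) (nat_lit 73) (nat_lit 0) (nat_lit 9) (nat_lit 5) L3972232 (by decide +kernel)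
theorem L3972234 : W_1 (nat_lit 4) (nat_lit 0x1800380010000700000000000000000000000) (nat_lit 0x0) (nat_lit 0x4002a000080006000000000000000000) := T_1 (nat_lit 91) (nat_lit 111) (nat_lit 3) (nat_lit 6) (nat_lit 5) L3972233 (by decide +kernel)
theorem L3972235 : W_1 (nat_lit 5) (nat_lit 0x1800180010000700000000000000000000000) (nat_lit 0x0) (nat_lit 0x64002a000080006000000000000000000) := T_1 (nat_lit 129) (nat_lit 130) (nat_lit 1) (nat_lit 11) (nat_lit 7) L3972234 (by decide +kernel)
theorem L3972236 : W_1 (nat_lit 2) (nat_lit 0x38003a0018000700000000000000000000000) (nat_lit 0x0) (nat_lit 0x40000000000000000800040000000000000000000) := D_1 (nat_lit 95) (nat_lit 78) (nat_lit 162) (nat_lit 6) (nat_lit 9) (nat_lit 8) (nat_lit 6) (nat_lit 9) (nat_lit 9) (by decide +kernel)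
theorem L3972237 : W_1 (nat_lit 3) (nat_lit 0x18003a0018000700000000000000000000000) (nat_lit 0x0) (nat_lit 0x40002000000000000800050000000000000000000) := T_1 (nat_lit 145) (nat_lit 76) (nat_lit 4) (nat_lit 9) (nat_lit 8) L3972236 (by decide +kernel)
theorem L3972238 : W_1 (nat_lit 4) (nat_lit 0x1800380018000700000000000000000000000) (nat_lit 0x0) (nat_lit 0x40002000060000000800050000000000000000000) := T_1 (nat_lit 125) (nat_lit 126) (nat_lit 2) (nat_lit 6) (nat_lit 7) L3972237 (by decide +kernel)
theorem L3972239 : W_1 (nat_lit 5) (nat_lit 0x1800380010000700000000000000000000000) (nat_lit 0x0) (nat_lit 0x40002000060008000880050000000000000000000) := T_1 (nat_lit 111) (nat_lit 91) (nat_lit 3) (nat_lit 6) (nat_lit 5) L3972238 (by decide +kernel)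
theorem L3972240 : W_1 (nat_lit 6) (nat_lit 0x1800180010000700000000000000000000000) (nat_lit 0x0) (nat_lit 0x40002000660008000880050000000000000000000) := T_1 (nat_lit 129) (nat_lit 130) (nat_lit 1) (nat_lit 11) (nat_lit 7) L3972239 (by decide +kernel)
theorem L3972241 : W_1 (nat_lit 7) (nat_lit 0x1800180000000700000000000000000000000) (nat_lit 0x0) (nat_lit 0x4000200066003a0008800d6000000000000000000) := Q_1 (nat_lit 112) (C_1 L3972229 (C_1 L3972231 (C_1 L3972235 (C_1 L3972240 N_1)))) (by decide +kernel)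
theorem L3972242 : W_1 (nat_lit 11) (nat_lit 0x1800180008000700000000000000000000000) (nat_lit 0x0) (nat_lit 0x3e001f000dc002600040002000000010000000000000000000) := T_1 (nat_lit 142) (nat_lit 141) (nat_lit 2) (nat_lit 5) (nat_lit 8) L3949628 (by decide +kernel)
theorem L3972243 : W_1 (nat_lit 12) (nat_lit 0x1800180000000700000000000000000000000) (nat_lit 0x0) (nat_lit 0x3e001f000dc00260004007a000880050000000000000000000) := Q_1 (nat_lit 111) (C_1 L3972242 (C_1 L255139 (C_1 L3838619 N_1))) (by decide +kernel)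
theorem L3972363 : W_1 (nat_lit 2) (nat_lit 0x1c00180001000fc0042000000008000000000) (nat_lit 0x0) (nat_lit 0x2000600000000000000000000000000000000) := D_1 (nat_lit 129) (nat_lit 130) (nat_lit 145) (nat_lit 1) (nat_lit 11) (nat_lit 7) (nat_lit 2) (nat_lit 6) (nat_lit 8) (by decide +kernel)
theorem L3972649 : W_1 (nat_lit 2) (nat_lit 0x10001c0003000780003000000000000000000) (nat_lit 0x0) (nat_lit 0x10000800000000000000010000000000000000000) := D_1 (nat_lit 143) (nat_lit 160) (nat_lit 76) (nat_lit 4) (nat_lit 7) (nat_lit 9) (nat_lit 6) (nat_lit 7) (nat_lit 8) (by decide +kernel)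
theorem L3972650 : W_1 (nat_lit 3) (nat_lit 0x1000180003000780003000000000000000000) (nat_lit 0x0) (nat_lit 0x10000800240000000000010000000000000000000) := T_1 (nat_lit 126) (nat_lit 129) (nat_lit 0) (nat_lit 10) (nat_lit 7) L3972649 (by decide +kernel)
theorem L3972651 : W_1 (nat_lit 4) (nat_lit 0x1000180001000780003000000000000000000) (nat_lit 0x0) (nat_lit 0x10000800240002000800010000000000000000000) := T_1 (nat_lit 109) (nat_lit 95) (nat_lit 1) (nat_lit 10) (nat_lit 5) L3972650 (by decide +kernel)
theorem L3972652 : W_1 (nat_lit 5) (nat_lit 0x1000180001000780002000000000000000000) (nat_lit 0x0) (nat_lit 0x10000800240002000840011000000000000000000) := T_1 (nat_lit 72) (nat_lit 90) (nat_lit 0) (nat_lit 8) (nat_lit 5) L3972651 (by decide +kernel)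
theorem L3972653 : W_1 (nat_lit 6) (nat_lit 0x1000180001000780000000000000000000000) (nat_lit 0x0) (nat_lit 0x10000800240002000840017000000000000000000) := T_1 (nat_lit 73) (nat_lit 74) (nat_lit 0) (nat_lit 9) (nat_lit 5) L3972652 (by decide +kernel)
theorem L3972654 : W_1 (nat_lit 7) (nat_lit 0x1000180001000700000000000000000000000) (nat_lit 0x0) (nat_lit 0x100008002400028008c0017000000000000000000) := T_1 (nat_lit 91) (nat_lit 107) (nat_lit 1) (nat_lit 9) (nat_lit 5) L3972653 (by decide +kernel)
theorem L3972655 : W_1 (nat_lit 2) (nat_lit 0x3400180001000fc0042000000008000000000) (nat_lit 0x0) (nat_lit 0xa00200000000000000000000000000000000) := D_1 (nat_lit 143) (nat_lit 141) (nat_lit 129) (nat_lit 2) (nat_lit 5) (nat_lit 8) (nat_lit 2) (nat_lit 6) (nat_lit 8) (by decide +kernel)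
theorem L3972656 : W_1 (nat_lit 3) (nat_lit 0x1400180001000fc0042000000008000000000) (nat_lit 0x0) (nat_lit 0x2a00200008000000000000000000000000000) := T_1 (nat_lit 145) (nat_lit 111) (nat_lit 6) (nat_lit 9) (nat_lit 8) L3972655 (by decide +kernel)
theorem L3972657 : W_1 (nat_lit 4) (nat_lit 0x1000180001000fc0042000000008000000000) (nat_lit 0x0) (nat_lit 0x2e00220008000000000000000000000000000) := T_1 (nat_lit 142) (nat_lit 125) (nat_lit 4) (nat_lit 6) (nat_lit 8) L3972656 (by decide +kernel)
theorem L3972658 : W_1 (nat_lit 5) (nat_lit 0x1000180001000fc0002000000008000000000) (nat_lit 0x0) (nat_lit 0x2e002200080000000c0000000000000000000) := T_1 (nat_lit 78) (nat_lit 79) (nat_lit 2) (nat_lit 7) (nat_lit 5) L3972657 (by decide +kernel)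
theorem L3972659 : W_1 (nat_lit 6) (nat_lit 0x1000180001000fc0002000000000000000000) (nat_lit 0x0) (nat_lit 0x2e002200080000000c0000100008000000000) := T_1 (nat_lit 39) (nat_lit 56) (nat_lit 7) (nat_lit 5) (nat_lit 2) L3972658 (by decide +kernel)
theorem L3972660 : W_1 (nat_lit 7) (nat_lit 0x10001800010007c0002000000000000000000) (nat_lit 0x0) (nat_lit 0x2e0022000a0008000c0000100008000000000) := T_1 (nat_lit 95) (nat_lit 109) (nat_lit 1) (nat_lit 10) (nat_lit 5) L3972659 (by decide +kernel)
theorem L3972661 : W_1 (nat_lit 8) (nat_lit 0x1000180001000780002000000000000000000) (nat_lit 0x0) (nat_lit 0x2e0022000a0008400c1000100008000000000) := T_1 (nat_lit 90) (nat_lit 72) (nat_lit 0) (nat_lit 8) (nat_lit 5) L3972660 (by decide +kernel)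
theorem L3972662 : W_1 (nat_lit 9) (nat_lit 0x1000180001000780000000000000000000000) (nat_lit 0x0) (nat_lit 0x2e0022000a0008400c7000100008000000000) := T_1 (nat_lit 73) (nat_lit 74) (nat_lit 0) (nat_lit 9) (nat_lit 5) L3972661 (by decide +kernel)
theorem L3972663 : W_1 (nat_lit 10) (nat_lit 0x1000180001000700000000000000000000000) (nat_lit 0x0) (nat_lit 0x2e0022000a8008c00c7000100008000000000) := T_1 (nat_lit 91) (nat_lit 107) (nat_lit 1) (nat_lit 9) (nat_lit 5) L3972662 (by decide +kernel)
theorem L3972664 : W_1 (nat_lit 3) (nat_lit 0x1000180001000700000000000000000000000) (nat_lit 0x0) (nat_lit 0x2c00880000000000000000000000) := T_1 (nat_lit 109) (nat_lit 95) (nat_lit 1) (nat_lit 10) (nat_lit 5) L429970 (by decide +kernel)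
theorem L3972665 : W_1 (nat_lit 3) (nat_lit 0x1000180003000700000000000000000000000) (nat_lit 0x0) (nat_lit 0x260000c00000000000000000000000000) := T_1 (nat_lit 126) (nat_lit 129) (nat_lit 0) (nat_lit 10) (nat_lit 7) L3968955 (by decide +kernel)
theorem L3972666 : W_1 (nat_lit 4) (nat_lit 0x1000180001000700000000000000000000000) (nat_lit 0x0) (nat_lit 0x260002c00800000000000000000000000) := T_1 (nat_lit 109) (nat_lit 95) (nat_lit 1) (nat_lit 10) (nat_lit 5) L3972665 (by decide +kernel)
theorem L3972667 : W_1 (nat_lit 2) (nat_lit 0x30001e0003000700010000000040000000000) (nat_lit 0x0) (nat_lit 0x8000600000000000000000000000000000000000) := D_1 (nat_lit 142) (nat_lit 141) (nat_lit 159) (nat_lit 1) (nat_lit 9) (nat_lit 7) (nat_lit 6) (nat_lit 6) (nat_lit 9) (by decide +kernel)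
theorem L3972668 : W_1 (nat_lit 3) (nat_lit 0x30001c0003000700010000000040000000000) (nat_lit 0x0) (nat_lit 0x8000600030000000000000000000000000000000) := T_1 (nat_lit 125) (nat_lit 124) (nat_lit 3) (nat_lit 5) (nat_lit 7) L3972667 (by decide +kernel)
theorem L3972669 : W_1 (nat_lit 4) (nat_lit 0x10001c0003000700010000000040000000000) (nat_lit 0x0) (nat_lit 0x8002600030008000000000000000000000000000) := T_1 (nat_lit 145) (nat_lit 111) (nat_lit 4) (nat_lit 9) (nat_lit 8) L3972668 (by decide +kernel)
theorem L3972670 : W_1 (nat_lit 5) (nat_lit 0x10001c0003000700010000000000000000000) (nat_lit 0x0) (nat_lit 0x8002600030008000000000000800040000000000) := T_1 (nat_lit 42) (nat_lit 59) (nat_lit 5) (nat_lit 8) (nat_lit 2) L3972669 (by decide +kernel)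
theorem L3972671 : W_1 (nat_lit 6) (nat_lit 0x10001c0003000700000000000000000000000) (nat_lit 0x0) (nat_lit 0x8002e00030008000000010000800040000000000) := T_1 (nat_lit 76) (nat_lit 143) (nat_lit 6) (nat_lit 7) (nat_lit 8) L3972670 (by decide +kernel)
theorem L3972672 : W_1 (nat_lit 7) (nat_lit 0x1000180003000700000000000000000000000) (nat_lit 0x0) (nat_lit 0x8002e00270008000000010000800040000000000) := T_1 (nat_lit 126) (nat_lit 129) (nat_lit 0) (nat_lit 10) (nat_lit 7) L3972671 (by decide +kernel)
theorem L3972673 : W_1 (nat_lit 8) (nat_lit 0x1000180001000700000000000000000000000) (nat_lit 0x0) (nat_lit 0x8002e0027000a000800010000800040000000000) := T_1 (nat_lit 109) (nat_lit 95) (nat_lit 1) (nat_lit 10) (nat_lit 5) L3972672 (by decide +kernel)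
theorem L3972674 : W_1 (nat_lit 11) (nat_lit 0x1000180000000700000000000000000000000) (nat_lit 0x0) (nat_lit 0x18002e0067000bc008c00d7000900048000000000) := Q_1 (nat_lit 108) (C_1 L3972654 (C_1 L3971425 (C_1 L3972663 (C_1 L3972664 (C_1 L3972666 (C_1 L3972673 N_1)))))) (by decide +kernel)
theorem L3972675 : W_1 (nat_lit 13) (nat_lit 0x1000180000000700000000000000000000000) (nat_lit 0x0) (nat_lit 0x3e001f000dc002e0066007a0008800d6000000000000000000) := Q_1 (nat_lit 143) (C_1 L3972241 (C_1 L3972227 (C_1 L3972243 (C_1 L3949475 (C_1 L255759 N_1))))) (by decide +kernel)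
theorem L3972676 : W_1 (nat_lit 3) (nat_lit 0x1000180030000780003000000000000000000) (nat_lit 0x0) (nat_lit 0x6400c0000000000000000000000000000) := T_1 (nat_lit 129) (nat_lit 126) (nat_lit 2) (nat_lit 7) (nat_lit 7) L3948054 (by decide +kernel)
theorem L3972677 : W_1 (nat_lit 4) (nat_lit 0x1000180010000780003000000000000000000) (nat_lit 0x0) (nat_lit 0x6400e0000800000000000000000000000) := T_1 (nat_lit 113) (nat_lit 95) (nat_lit 3) (nat_lit 7) (nat_lit 5) L3972676 (by decide +kernel)
theorem L3972678 : W_1 (nat_lit 5) (nat_lit 0x1000180000000780003000000000000000000) (nat_lit 0x0) (nat_lit 0x6400f8000800000000000000000000000) := T_1 (nat_lit 112) (nat_lit 111) (nat_lit 3) (nat_lit 6) (nat_lit 5) L3972677 (by decide +kernel)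
theorem L3972679 : W_1 (nat_lit 6) (nat_lit 0x1000180000000780002000000000000000000) (nat_lit 0x0) (nat_lit 0x6400f8000840001000000000000000000) := T_1 (nat_lit 72) (nat_lit 90) (nat_lit 0) (nat_lit 8) (nat_lit 5) L3972678 (by decide +kernel)
theorem L3972680 : W_1 (nat_lit 7) (nat_lit 0x1000180000000780000000000000000000000) (nat_lit 0x0) (nat_lit 0x6400f8000840007000000000000000000) := T_1 (nat_lit 73) (nat_lit 74) (nat_lit 0) (nat_lit 9) (nat_lit 5) L3972679 (by decide +kernel)
theorem L3972681 : W_1 (nat_lit 2) (nat_lit 0x10001c000b000780002000000000000000000) (nat_lit 0x0) (nat_lit 0x10000800000000000000010000000000000000000) := D_1 (nat_lit 143) (nat_lit 160) (nat_lit 76) (nat_lit 4) (nat_lit 7) (nat_lit 9) (nat_lit 6) (nat_lit 7) (nat_lit 8) (by decide +kernel)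
theorem L3972682 : W_1 (nat_lit 3) (nat_lit 0x100018000b000780002000000000000000000) (nat_lit 0x0) (nat_lit 0x10000800240000000000010000000000000000000) := T_1 (nat_lit 126) (nat_lit 129) (nat_lit 0) (nat_lit 10) (nat_lit 7) L3972681 (by decide +kernel)
theorem L3972683 : W_1 (nat_lit 4) (nat_lit 0x1000180009000780002000000000000000000) (nat_lit 0x0) (nat_lit 0x10000800240002000800010000000000000000000) := T_1 (nat_lit 109) (nat_lit 95) (nat_lit 1) (nat_lit 10) (nat_lit 5) L3972682 (by decide +kernel)
theorem L3972684 : W_1 (nat_lit 5) (nat_lit 0x1000180009000780000000000000000000000) (nat_lit 0x0) (nat_lit 0x10000800240002000800016000000000000000000) := T_1 (nat_lit 73) (nat_lit 74) (nat_lit 0) (nat_lit 9) (nat_lit 5) L3972683 (by decide +kernel)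
theorem L3972685 : W_1 (nat_lit 6) (nat_lit 0x1000180008000780000000000000000000000) (nat_lit 0x0) (nat_lit 0x10000800240003800800016000000000000000000) := T_1 (nat_lit 108) (nat_lit 107) (nat_lit 1) (nat_lit 9) (nat_lit 5) L3972684 (by decide +kernel)
theorem L3972686 : W_1 (nat_lit 7) (nat_lit 0x1000180000000780000000000000000000000) (nat_lit 0x0) (nat_lit 0x1000080024001b800800016000000000000000000) := T_1 (nat_lit 111) (nat_lit 112) (nat_lit 3) (nat_lit 6) (nat_lit 5) L3972685 (by decide +kernel)
theorem L3972687 : W_1 (nat_lit 3) (nat_lit 0x10001800308007c0001800000000000000000) (nat_lit 0x0) (nat_lit 0x6400c0000000000000000000000000000) := T_1 (nat_lit 129) (nat_lit 126) (nat_lit 2) (nat_lit 7) (nat_lit 7) L3948069 (by decide +kernel)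
theorem L3972688 : W_1 (nat_lit 4) (nat_lit 0x10001800108007c0001800000000000000000) (nat_lit 0x0) (nat_lit 0x6400e0000800000000000000000000000) := T_1 (nat_lit 113) (nat_lit 95) (nat_lit 3) (nat_lit 7) (nat_lit 5) L3972687 (by decide +kernel)
theorem L3972689 : W_1 (nat_lit 5) (nat_lit 0x10001800008007c0001800000000000000000) (nat_lit 0x0) (nat_lit 0x6400f8000800000000000000000000000) := T_1 (nat_lit 112) (nat_lit 111) (nat_lit 3) (nat_lit 6) (nat_lit 5) L3972688 (by decide +kernel)
theorem L3972690 : W_1 (nat_lit 6) (nat_lit 0x10001800008007c0001000000000000000000) (nat_lit 0x0) (nat_lit 0x6400f8000820000800000000000000000) := T_1 (nat_lit 71) (nat_lit 89) (nat_lit 0) (nat_lit 7) (nat_lit 5) L3972689 (by decide +kernel)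
theorem L3972691 : W_1 (nat_lit 7) (nat_lit 0x10001800008007c0000000000000000000000) (nat_lit 0x0) (nat_lit 0x6400f8000820003800000000000000000) := T_1 (nat_lit 72) (nat_lit 73) (nat_lit 0) (nat_lit 8) (nat_lit 5) L3972690 (by decide +kernel)
theorem L3972692 : W_1 (nat_lit 8) (nat_lit 0x1000180000800780000000000000000000000) (nat_lit 0x0) (nat_lit 0x6400f8400860003800000000000000000) := T_1 (nat_lit 90) (nat_lit 106) (nat_lit 1) (nat_lit 8) (nat_lit 5) L3972691 (by decide +kernel)
theorem L3972693 : W_1 (nat_lit 9) (nat_lit 0x1000180000000780000000000000000000000) (nat_lit 0x0) (nat_lit 0x6400f9c00860003800000000000000000) := T_1 (nat_lit 107) (nat_lit 108) (nat_lit 1) (nat_lit 9) (nat_lit 5) L3972692 (by decide +kernel)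
theorem L3972694 : W_1 (nat_lit 2) (nat_lit 0x10001c000b000780000000000000000000000) (nat_lit 0x0) (nat_lit 0x800000000000000004000200000000000000) := D_1 (nat_lit 74) (nat_lit 143) (nat_lit 57) (nat_lit 4) (nat_lit 7) (nat_lit 8) (nat_lit 7) (nat_lit 6) (nat_lit 3) (by decide +kernel)
theorem L3972695 : W_1 (nat_lit 3) (nat_lit 0x100018000b000780000000000000000000000) (nat_lit 0x0) (nat_lit 0x800240000000000004000200000000000000) := T_1 (nat_lit 126) (nat_lit 129) (nat_lit 0) (nat_lit 10) (nat_lit 7) L3972694 (by decide +kernel)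
theorem L3972696 : W_1 (nat_lit 4) (nat_lit 0x1000180009000780000000000000000000000) (nat_lit 0x0) (nat_lit 0x800240002000800004000200000000000000) := T_1 (nat_lit 109) (nat_lit 95) (nat_lit 1) (nat_lit 10) (nat_lit 5) L3972695 (by decide +kernel)
theorem L3972697 : W_1 (nat_lit 5) (nat_lit 0x1000180008000780000000000000000000000) (nat_lit 0x0) (nat_lit 0x800240003800800004000200000000000000) := T_1 (nat_lit 108) (nat_lit 107) (nat_lit 1) (nat_lit 9) (nat_lit 5) L3972696 (by decide +kernel)
theorem L3972698 : W_1 (nat_lit 6) (nat_lit 0x1000180000000780000000000000000000000) (nat_lit 0x0) (nat_lit 0x80024001b800800004000200000000000000) := T_1 (nat_lit 111) (nat_lit 112) (nat_lit 3) (nat_lit 6) (nat_lit 5) L3972697 (by decide +kernel)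
theorem L3972699 : W_1 (nat_lit 10) (nat_lit 0x1000180000000700000000000000000000000) (nat_lit 0x0) (nat_lit 0x100008006400fbc008e0017800200000000000000) := Q_1 (nat_lit 91) (C_1 L255677 (C_1 L3972680 (C_1 L3972686 (C_1 L3972693 (C_1 L3972698 N_1))))) (by decide +kernel)
theorem L3972700 : W_1 (nat_lit 7) (nat_lit 0x1000180001000f80002000000000000000000) (nat_lit 0x0) (nat_lit 0x2e002200080000400c1000100008000000000) := T_1 (nat_lit 90) (nat_lit 72) (nat_lit 0) (nat_lit 8) (nat_lit 5) L3972659 (by decide +kernel)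
theorem L3972701 : W_1 (nat_lit 8) (nat_lit 0x1000180001000f80000000000000000000000) (nat_lit 0x0) (nat_lit 0x2e002200080000400c7000100008000000000) := T_1 (nat_lit 73) (nat_lit 74) (nat_lit 0) (nat_lit 9) (nat_lit 5) L3972700 (by decide +kernel)
theorem L3972702 : W_1 (nat_lit 9) (nat_lit 0x1000180001000f00000000000000000000000) (nat_lit 0x0) (nat_lit 0x2e002200088000c00c7000100008000000000) := T_1 (nat_lit 91) (nat_lit 107) (nat_lit 1) (nat_lit 9) (nat_lit 5) L3972701 (by decide +kernel)
theorem L3972703 : W_1 (nat_lit 10) (nat_lit 0x1000180000000f00000000000000000000000) (nat_lit 0x0) (nat_lit 0x2e0022000b8000c00c7000100008000000000) := T_1 (nat_lit 108) (nat_lit 109) (nat_lit 1) (nat_lit 10) (nat_lit 5) L3972702 (by decide +kernel)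
theorem L3972704 : W_1 (nat_lit 11) (nat_lit 0x1000180000000700000000000000000000000) (nat_lit 0x0) (nat_lit 0x4000ae0062003b8008c00d7002100108000000000) := Q_1 (nat_lit 95) (C_1 L3969164 (C_1 L3969200 (C_1 L255541 (C_1 L260269 (C_1 L3972703 N_1))))) (by decide +kernel)
theorem L3972705 : W_1 (nat_lit 4) (nat_lit 0x1000180001000f80003000000000000000000) (nat_lit 0x0) (nat_lit 0x700010001c0000000000000000000) := T_1 (nat_lit 113) (nat_lit 112) (nat_lit 3) (nat_lit 7) (nat_lit 5) L3958801 (by decide +kernel)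
theorem L3972706 : W_1 (nat_lit 5) (nat_lit 0x1000180001000f80002000000000000000000) (nat_lit 0x0) (nat_lit 0x700010401c1000000000000000000) := T_1 (nat_lit 72) (nat_lit 90) (nat_lit 0) (nat_lit 8) (nat_lit 5) L3972705 (by decide +kernel)
theorem L3972707 : W_1 (nat_lit 6) (nat_lit 0x1000180001000f80000000000000000000000) (nat_lit 0x0) (nat_lit 0x700010401c7000000000000000000) := T_1 (nat_lit 73) (nat_lit 74) (nat_lit 0) (nat_lit 9) (nat_lit 5) L3972706 (by decide +kernel)
theorem L3972708 : W_1 (nat_lit 7) (nat_lit 0x1000180001000f00000000000000000000000) (nat_lit 0x0) (nat_lit 0x708010c01c7000000000000000000) := T_1 (nat_lit 91) (nat_lit 107) (nat_lit 1) (nat_lit 9) (nat_lit 5) L3972707 (by decide +kernel)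
theorem L3972709 : W_1 (nat_lit 8) (nat_lit 0x1000180000000f00000000000000000000000) (nat_lit 0x0) (nat_lit 0x738010c01c7000000000000000000) := T_1 (nat_lit 108) (nat_lit 109) (nat_lit 1) (nat_lit 10) (nat_lit 5) L3972708 (by decide +kernel)
theorem L3972710 : W_1 (nat_lit 3) (nat_lit 0x1400180001000fc0042000000008000000000) (nat_lit 0x0) (nat_lit 0x2a00600000000000000000000000000000000) := T_1 (nat_lit 143) (nat_lit 141) (nat_lit 2) (nat_lit 5) (nat_lit 8) L3972363 (by decide +kernel)
theorem L3972711 : W_1 (nat_lit 4) (nat_lit 0x1400180001000fc0042000000000000000000) (nat_lit 0x0) (nat_lit 0x2a00600000000000000000100008000000000) := T_1 (nat_lit 39) (nat_lit 56) (nat_lit 7) (nat_lit 5) (nat_lit 2) L3972710 (by decide +kernel)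
theorem L3972712 : W_1 (nat_lit 5) (nat_lit 0x1000180001000fc0042000000000000000000) (nat_lit 0x0) (nat_lit 0x2e00620000000000000000100008000000000) := T_1 (nat_lit 142) (nat_lit 125) (nat_lit 4) (nat_lit 6) (nat_lit 8) L3972711 (by decide +kernel)
theorem L3972713 : W_1 (nat_lit 6) (nat_lit 0x1000180001000f80042000000000000000000) (nat_lit 0x0) (nat_lit 0x2e00620000000040001000100008000000000) := T_1 (nat_lit 90) (nat_lit 72) (nat_lit 0) (nat_lit 8) (nat_lit 5) L3972712 (by decide +kernel)
theorem L3972714 : W_1 (nat_lit 7) (nat_lit 0x1000180001000f80040000000000000000000) (nat_lit 0x0) (nat_lit 0x2e00620000000040007000100008000000000) := T_1 (nat_lit 73) (nat_lit 74) (nat_lit 0) (nat_lit 9) (nat_lit 5) L3972713 (by decide +kernel)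
theorem L3972715 : W_1 (nat_lit 8) (nat_lit 0x1000180001000f00040000000000000000000) (nat_lit 0x0) (nat_lit 0x2e006200008000c0007000100008000000000) := T_1 (nat_lit 91) (nat_lit 107) (nat_lit 1) (nat_lit 9) (nat_lit 5) L3972714 (by decide +kernel)
theorem L3972716 : W_1 (nat_lit 9) (nat_lit 0x1000180000000f00040000000000000000000) (nat_lit 0x0) (nat_lit 0x2e006200038000c0007000100008000000000) := T_1 (nat_lit 108) (nat_lit 109) (nat_lit 1) (nat_lit 10) (nat_lit 5) L3972715 (by decide +kernel)
theorem L3972717 : W_1 (nat_lit 10) (nat_lit 0x1000180000000f00000000000000000000000) (nat_lit 0x0) (nat_lit 0x2e006200038000c00c7000100008000000000) := T_1 (nat_lit 78) (nat_lit 79) (nat_lit 2) (nat_lit 7) (nat_lit 5) L3972716 (by decide +kernel)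
theorem L3972718 : W_1 (nat_lit 2) (nat_lit 0x1c00180011000fc0002000000008000000000) (nat_lit 0x0) (nat_lit 0x640000000000000000000000000000000) := D_1 (nat_lit 129) (nat_lit 130) (nat_lit 126) (nat_lit 1) (nat_lit 11) (nat_lit 7) (nat_lit 1) (nat_lit 10) (nat_lit 7) (by decide +kernel)
theorem L3972719 : W_1 (nat_lit 3) (nat_lit 0x1400180011000fc0002000000008000000000) (nat_lit 0x0) (nat_lit 0xa00640000000000000000000000000000000) := T_1 (nat_lit 143) (nat_lit 141) (nat_lit 2) (nat_lit 5) (nat_lit 8) L3972718 (by decide +kernel)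
theorem L3972720 : W_1 (nat_lit 4) (nat_lit 0x1000180011000fc0002000000008000000000) (nat_lit 0x0) (nat_lit 0xe00660000000000000000000000000000000) := T_1 (nat_lit 142) (nat_lit 125) (nat_lit 4) (nat_lit 6) (nat_lit 8) L3972719 (by decide +kernel)
theorem L3972721 : W_1 (nat_lit 5) (nat_lit 0x1000180011000fc0002000000000000000000) (nat_lit 0x0) (nat_lit 0xe00660000000000000000100008000000000) := T_1 (nat_lit 39) (nat_lit 56) (nat_lit 7) (nat_lit 5) (nat_lit 2) L3972720 (by decide +kernel)
theorem L3972722 : W_1 (nat_lit 6) (nat_lit 0x1000180001000fc0002000000000000000000) (nat_lit 0x0) (nat_lit 0xe00660030000000000000100008000000000) := T_1 (nat_lit 112) (nat_lit 113) (nat_lit 3) (nat_lit 7) (nat_lit 5) L3972721 (by decide +kernel)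
theorem L3972723 : W_1 (nat_lit 7) (nat_lit 0x1000180001000f80002000000000000000000) (nat_lit 0x0) (nat_lit 0xe00660030000040001000100008000000000) := T_1 (nat_lit 90) (nat_lit 72) (nat_lit 0) (nat_lit 8) (nat_lit 5) L3972722 (by decide +kernel)
theorem L3972724 : W_1 (nat_lit 8) (nat_lit 0x1000180001000f80000000000000000000000) (nat_lit 0x0) (nat_lit 0xe00660030000040007000100008000000000) := T_1 (nat_lit 73) (nat_lit 74) (nat_lit 0) (nat_lit 9) (nat_lit 5) L3972723 (by decide +kernel)
theorem L3972725 : W_1 (nat_lit 9) (nat_lit 0x1000180001000f00000000000000000000000) (nat_lit 0x0) (nat_lit 0xe006600308000c0007000100008000000000) := T_1 (nat_lit 91) (nat_lit 107) (nat_lit 1) (nat_lit 9) (nat_lit 5) L3972724 (by decide +kernel)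
theorem L3972726 : W_1 (nat_lit 10) (nat_lit 0x1000180000000f00000000000000000000000) (nat_lit 0x0) (nat_lit 0xe006600338000c0007000100008000000000) := T_1 (nat_lit 108) (nat_lit 109) (nat_lit 1) (nat_lit 10) (nat_lit 5) L3972725 (by decide +kernel)
theorem L3972727 : W_1 (nat_lit 11) (nat_lit 0x1000180000000700000000000000000000000) (nat_lit 0x0) (nat_lit 0xae006600738018c01c7000100008000000000) := Q_1 (nat_lit 95) (C_1 L260269 (C_1 L3972709 (C_1 L3972717 (C_1 L3972726 N_1)))) (by decide +kernel)
theorem L3972728 : W_1 (nat_lit 10) (nat_lit 0x1000180000000700000000000000000000000) (nat_lit 0x0) (nat_lit 0xa8006400f9c008e00c7800000000000000000) := Q_1 (nat_lit 91) (C_1 L3972693 (C_1 L255677 (C_1 L3972680 (C_1 L258882 N_1)))) (by decide +kernel)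
theorem L3972729 : W_1 (nat_lit 2) (nat_lit 0x1000180010800fc0000000000000000000000) (nat_lit 0x0) (nat_lit 0x7000000000000000000) := D_1 (nat_lit 73) (nat_lit 72) (nat_lit 74) (nat_lit 0) (nat_lit 8) (nat_lit 5) (nat_lit 0) (nat_lit 9) (nat_lit 5) (by decide +kernel)
theorem L3972730 : W_1 (nat_lit 3) (nat_lit 0x1000180010800f80000000000000000000000) (nat_lit 0x0) (nat_lit 0x400040007000000000000000000) := T_1 (nat_lit 90) (nat_lit 106) (nat_lit 1) (nat_lit 8) (nat_lit 5) L3972729 (by decide +kernel)
theorem L3972731 : W_1 (nat_lit 4) (nat_lit 0x1000180010000f80000000000000000000000) (nat_lit 0x0) (nat_lit 0x1c00040007000000000000000000) := T_1 (nat_lit 107) (nat_lit 108) (nat_lit 1) (nat_lit 9) (nat_lit 5) L3972730 (by decide +kernel)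
theorem L3972732 : W_1 (nat_lit 5) (nat_lit 0x1000180010000f00000000000000000000000) (nat_lit 0x0) (nat_lit 0x9c000c0007000000000000000000) := T_1 (nat_lit 91) (nat_lit 111) (nat_lit 3) (nat_lit 6) (nat_lit 5) L3972731 (by decide +kernel)
theorem L3972733 : W_1 (nat_lit 6) (nat_lit 0x1000180000000f00000000000000000000000) (nat_lit 0x0) (nat_lit 0x39c000c0007000000000000000000) := T_1 (nat_lit 112) (nat_lit 113) (nat_lit 3) (nat_lit 7) (nat_lit 5) L3972732 (by decide +kernel)
theorem L3972734 : W_1 (nat_lit 2) (nat_lit 0x1000180010000f00040000000000000000000) (nat_lit 0x0) (nat_lit 0x2000000008000080000000000000000000000) := D_1 (nat_lit 111) (nat_lit 91) (nat_lit 145) (nat_lit 3) (nat_lit 6) (nat_lit 5) (nat_lit 6) (nat_lit 9) (nat_lit 8) (by decide +kernel)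
theorem L3972735 : W_1 (nat_lit 3) (nat_lit 0x1000180000000f00040000000000000000000) (nat_lit 0x0) (nat_lit 0x2000000038000080000000000000000000000) := T_1 (nat_lit 112) (nat_lit 113) (nat_lit 3) (nat_lit 7) (nat_lit 5) L3972734 (by decide +kernel)
theorem L3972736 : W_1 (nat_lit 4) (nat_lit 0x1000180000000f00000000000000000000000) (nat_lit 0x0) (nat_lit 0x20000000380000800c0000000000000000000) := T_1 (nat_lit 78) (nat_lit 79) (nat_lit 2) (nat_lit 7) (nat_lit 5) L3972735 (by decide +kernel)
theorem L3972752 : W_1 (nat_lit 2) (nat_lit 0x1000380030800780002000000000000000000) (nat_lit 0x0) (nat_lit 0x4000c0000000000000000000000000000) := D_1 (nat_lit 114) (nat_lit 115) (nat_lit 130) (nat_lit 1) (nat_lit 13) (nat_lit 6) (nat_lit 2) (nat_lit 8) (nat_lit 7) (by decide +kernel)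
theorem L3972753 : W_1 (nat_lit 3) (nat_lit 0x1000180030800780002000000000000000000) (nat_lit 0x0) (nat_lit 0x6400c0000000000000000000000000000) := T_1 (nat_lit 129) (nat_lit 126) (nat_lit 2) (nat_lit 7) (nat_lit 7) L3972752 (by decide +kernel)
theorem L3972754 : W_1 (nat_lit 4) (nat_lit 0x1000180010800780002000000000000000000) (nat_lit 0x0) (nat_lit 0x6400e0000800000000000000000000000) := T_1 (nat_lit 113) (nat_lit 95) (nat_lit 3) (nat_lit 7) (nat_lit 5) L3972753 (by decide +kernel)
theorem L3972755 : W_1 (nat_lit 5) (nat_lit 0x1000180000800780002000000000000000000) (nat_lit 0x0) (nat_lit 0x6400f8000800000000000000000000000) := T_1 (nat_lit 112) (nat_lit 111) (nat_lit 3) (nat_lit 6) (nat_lit 5) L3972754 (by decide +kernel)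
theorem L3972756 : W_1 (nat_lit 6) (nat_lit 0x1000180000000780002000000000000000000) (nat_lit 0x0) (nat_lit 0x6400f9800800000000000000000000000) := T_1 (nat_lit 107) (nat_lit 108) (nat_lit 1) (nat_lit 9) (nat_lit 5) L3972755 (by decide +kernel)
theorem L3972757 : W_1 (nat_lit 7) (nat_lit 0x1000180000000780000000000000000000000) (nat_lit 0x0) (nat_lit 0x6400f9800800006000000000000000000) := T_1 (nat_lit 73) (nat_lit 74) (nat_lit 0) (nat_lit 9) (nat_lit 5) L3972756 (by decide +kernel)
theorem L3972758 : W_1 (nat_lit 2) (nat_lit 0x3000180009000780000000000000000000000) (nat_lit 0x0) (nat_lit 0x2000800040000000000000000000) := D_1 (nat_lit 95) (nat_lit 109) (nat_lit 78) (nat_lit 1) (nat_lit 10) (nat_lit 5) (nat_lit 6) (nat_lit 9) (nat_lit 8) (by decide +kernel)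
theorem L3972759 : W_1 (nat_lit 3) (nat_lit 0x1000180009000780000000000000000000000) (nat_lit 0x0) (nat_lit 0x2000000002000800050000000000000000000) := T_1 (nat_lit 145) (nat_lit 76) (nat_lit 4) (nat_lit 9) (nat_lit 8) L3972758 (by decide +kernel)
theorem L3972760 : W_1 (nat_lit 4) (nat_lit 0x1000180008000780000000000000000000000) (nat_lit 0x0) (nat_lit 0x2000000003800800050000000000000000000) := T_1 (nat_lit 108) (nat_lit 107) (nat_lit 1) (nat_lit 9) (nat_lit 5) L3972759 (by decide +kernel)
theorem L3972761 : W_1 (nat_lit 5) (nat_lit 0x1000180000000780000000000000000000000) (nat_lit 0x0) (nat_lit 0x200000001b800800050000000000000000000) := T_1 (nat_lit 111) (nat_lit 112) (nat_lit 3) (nat_lit 6) (nat_lit 5) L3972760 (by decide +kernel)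
theorem L3972762 : W_1 (nat_lit 10) (nat_lit 0x1000180000000700000000000000000000000) (nat_lit 0x0) (nat_lit 0x20006400fbc008e0057800000000000000000) := Q_1 (nat_lit 91) (C_1 L255677 (C_1 L3972693 (C_1 L3972680 (C_1 L3972757 (C_1 L3972761 N_1))))) (by decide +kernel)
theorem L3972767 : W_1 (nat_lit 2) (nat_lit 0x10001e0001000f00040000000000000000000) (nat_lit 0x0) (nat_lit 0x2000010008000000000000000000000000000) := D_1 (nat_lit 145) (nat_lit 111) (nat_lit 124) (nat_lit 6) (nat_lit 9) (nat_lit 8) (nat_lit 3) (nat_lit 5) (nat_lit 7) (by decide +kernel)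
theorem L3972768 : W_1 (nat_lit 3) (nat_lit 0x10001c0001000f00040000000000000000000) (nat_lit 0x0) (nat_lit 0x2000030008800000000000000000000000000) := T_1 (nat_lit 125) (nat_lit 107) (nat_lit 0) (nat_lit 9) (nat_lit 7) L3972767 (by decide +kernel)
theorem L3972769 : W_1 (nat_lit 4) (nat_lit 0x10001c0000000f00040000000000000000000) (nat_lit 0x0) (nat_lit 0x200003000b800000000000000000000000000) := T_1 (nat_lit 108) (nat_lit 109) (nat_lit 1) (nat_lit 10) (nat_lit 5) L3972768 (by decide +kernel)
theorem L3972770 : W_1 (nat_lit 5) (nat_lit 0x10001c0000000f00000000000000000000000) (nat_lit 0x0) (nat_lit 0x200003000b8000000c0000000000000000000) := T_1 (nat_lit 78) (nat_lit 79) (nat_lit 2) (nat_lit 7) (nat_lit 5) L3972769 (by decide +kernel)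
theorem L3972771 : W_1 (nat_lit 2) (nat_lit 0x18001c0002000f00040000000000000000000) (nat_lit 0x0) (nat_lit 0x8000400200000000000000000000000000000000) := D_1 (nat_lit 142) (nat_lit 159) (nat_lit 129) (nat_lit 5) (nat_lit 7) (nat_lit 5) (nat_lit 1) (nat_lit 10) (nat_lit 7) (by decide +kernel)
theorem L3972772 : W_1 (nat_lit 3) (nat_lit 0x10001c0002000f00040000000000000000000) (nat_lit 0x0) (nat_lit 0x8000c00200000000000010000000000000000000) := T_1 (nat_lit 143) (nat_lit 76) (nat_lit 6) (nat_lit 7) (nat_lit 8) L3972771 (by decide +kernel)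
theorem L3972773 : W_1 (nat_lit 4) (nat_lit 0x10001c0000000f00040000000000000000000) (nat_lit 0x0) (nat_lit 0x8000c00200003000000010000000000000000000) := T_1 (nat_lit 109) (nat_lit 108) (nat_lit 1) (nat_lit 10) (nat_lit 5) L3972772 (by decide +kernel)
theorem L3972774 : W_1 (nat_lit 5) (nat_lit 0x10001c0000000f00000000000000000000000) (nat_lit 0x0) (nat_lit 0x8000c002000030000000d0000000000000000000) := T_1 (nat_lit 78) (nat_lit 79) (nat_lit 2) (nat_lit 7) (nat_lit 5) L3972773 (by decide +kernel)
theorem L3972775 : W_1 (nat_lit 2) (nat_lit 0x34007e0020800f00040000000000000000000) (nat_lit 0x0) (nat_lit 0x18000000000001000000000000000000000000) := D_1 (nat_lit 147) (nat_lit 148) (nat_lit 96) (nat_lit 3) (nat_lit 8) (nat_lit 7) (nat_lit 4) (nat_lit 11) (nat_lit 8) (by decide +kernel)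
theorem L3972776 : W_1 (nat_lit 3) (nat_lit 0x34007e0000800f00040000000000000000000) (nat_lit 0x0) (nat_lit 0x18000000060001000000000000000000000000) := T_1 (nat_lit 113) (nat_lit 114) (nat_lit 2) (nat_lit 8) (nat_lit 7) L3972775 (by decide +kernel)
theorem L3972777 : W_1 (nat_lit 4) (nat_lit 0x34003e0000800f00040000000000000000000) (nat_lit 0x0) (nat_lit 0x18000c00060001000000000000000000000000) := T_1 (nat_lit 130) (nat_lit 131) (nat_lit 1) (nat_lit 12) (nat_lit 7) L3972776 (by decide +kernel)
theorem L3972778 : W_1 (nat_lit 5) (nat_lit 0x34001e0000800f00040000000000000000000) (nat_lit 0x0) (nat_lit 0x18800e00060001000000000000000000000000) := T_1 (nat_lit 129) (nat_lit 143) (nat_lit 2) (nat_lit 6) (nat_lit 8) L3972777 (by decide +kernel)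
theorem L3972779 : W_1 (nat_lit 6) (nat_lit 0x34001e0000000f00040000000000000000000) (nat_lit 0x0) (nat_lit 0x18800e00061801000000000000000000000000) := T_1 (nat_lit 107) (nat_lit 108) (nat_lit 0) (nat_lit 9) (nat_lit 7) L3972778 (by decide +kernel)
theorem L3972780 : W_1 (nat_lit 7) (nat_lit 0x30001e0000000f00040000000000000000000) (nat_lit 0x0) (nat_lit 0x18e00e00061801000000000000000000000000) := T_1 (nat_lit 142) (nat_lit 141) (nat_lit 1) (nat_lit 9) (nat_lit 7) L3972779 (by decide +kernel)
theorem L3972781 : W_1 (nat_lit 8) (nat_lit 0x30001c0000000f00040000000000000000000) (nat_lit 0x0) (nat_lit 0x18e00e30061801000000000000000000000000) := T_1 (nat_lit 125) (nat_lit 124) (nat_lit 3) (nat_lit 5) (nat_lit 7) L3972780 (by decide +kernel)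
theorem L3972782 : W_1 (nat_lit 9) (nat_lit 0x10001c0000000f00040000000000000000000) (nat_lit 0x0) (nat_lit 0x1ae00e30069801000000000000000000000000) := T_1 (nat_lit 145) (nat_lit 111) (nat_lit 6) (nat_lit 9) (nat_lit 8) L3972781 (by decide +kernel)
theorem L3972783 : W_1 (nat_lit 10) (nat_lit 0x10001c0000000f00000000000000000000000) (nat_lit 0x0) (nat_lit 0x1ae00e300698010000c0000000000000000000) := T_1 (nat_lit 78) (nat_lit 79) (nat_lit 2) (nat_lit 7) (nat_lit 5) L3972782 (by decide +kernel)
theorem L3972784 : W_1 (nat_lit 2) (nat_lit 0x12001e0001000f00000000000000000000000) (nat_lit 0x0) (nat_lit 0x2100010000000000000000000000000000000) := D_1 (nat_lit 124) (nat_lit 140) (nat_lit 145) (nat_lit 1) (nat_lit 8) (nat_lit 7) (nat_lit 3) (nat_lit 5) (nat_lit 7) (by decide +kernel)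
theorem L3972785 : W_1 (nat_lit 3) (nat_lit 0x10001e0001000f00000000000000000000000) (nat_lit 0x0) (nat_lit 0x2700010000000000000000000000000000000) := T_1 (nat_lit 141) (nat_lit 142) (nat_lit 1) (nat_lit 9) (nat_lit 7) L3972784 (by decide +kernel)
theorem L3972786 : W_1 (nat_lit 4) (nat_lit 0x10001c0001000f00000000000000000000000) (nat_lit 0x0) (nat_lit 0x2700030000800000000000000000000000000) := T_1 (nat_lit 125) (nat_lit 107) (nat_lit 0) (nat_lit 9) (nat_lit 7) L3972785 (by decide +kernel)
theorem L3972787 : W_1 (nat_lit 5) (nat_lit 0x10001c0000000f00000000000000000000000) (nat_lit 0x0) (nat_lit 0x2700030003800000000000000000000000000) := T_1 (nat_lit 108) (nat_lit 109) (nat_lit 1) (nat_lit 10) (nat_lit 5) L3972786 (by decide +kernel)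
theorem L3972788 : W_1 (nat_lit 11) (nat_lit 0x1000180000000f00000000000000000000000) (nat_lit 0x0) (nat_lit 0xc01af00e7006b8010000d0000000000000000000) := Q_1 (nat_lit 126) (C_1 L3971253 (C_1 L3972770 (C_1 L3972774 (C_1 L3972783 (C_1 L3972787 N_1))))) (by decide +kernel)
theorem L3972789 : W_1 (nat_lit 8) (nat_lit 0x1000180000000f00000000000000000000000) (nat_lit 0x0) (nat_lit 0x3b0000000c0007000380014000000) := T_1 (nat_lit 108) (nat_lit 109) (nat_lit 1) (nat_lit 10) (nat_lit 5) L3971441 (by decide +kernel)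
theorem L3972790 : W_1 (nat_lit 2) (nat_lit 0x21001f80021003f00100000000400000000000) (nat_lit 0x0) (nat_lit 0x180004000000000000000000000000) := D_1 (nat_lit 115) (nat_lit 116) (nat_lit 98) (nat_lit 2) (nat_lit 10) (nat_lit 7) (nat_lit 4) (nat_lit 13) (nat_lit 8) (by decide +kernel)
theorem L3972791 : W_1 (nat_lit 3) (nat_lit 0x21000f80021003f00100000000400000000000) (nat_lit 0x0) (nat_lit 0x40001000180004000000000000000000000000) := T_1 (nat_lit 132) (nat_lit 150) (nat_lit 3) (nat_lit 10) (nat_lit 7) L3972790 (by decide +kernel)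
theorem L3972792 : W_1 (nat_lit 4) (nat_lit 0x1000f80021003f00100000000400000000000) (nat_lit 0x0) (nat_lit 0x70001000180004000000000000000000000000) := T_1 (nat_lit 149) (nat_lit 148) (nat_lit 3) (nat_lit 9) (nat_lit 7) L3972791 (by decide +kernel)
theorem L3972793 : W_1 (nat_lit 5) (nat_lit 0x1000780021003f00100000000400000000000) (nat_lit 0x0) (nat_lit 0x72001800180004000000000000000000000000) := T_1 (nat_lit 131) (nat_lit 145) (nat_lit 1) (nat_lit 12) (nat_lit 7) L3972792 (by decide +kernel)
theorem L3972794 : W_1 (nat_lit 6) (nat_lit 0x1000580021003f00100000000400000000000) (nat_lit 0x0) (nat_lit 0x72801a00180004000000000000000000000000) := T_1 (nat_lit 129) (nat_lit 143) (nat_lit 1) (nat_lit 11) (nat_lit 7) L3972793 (by decide +kernel)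
theorem L3972795 : W_1 (nat_lit 7) (nat_lit 0x1000180021003f00100000000400000000000) (nat_lit 0x0) (nat_lit 0x7a801e00180004000000000000000000000000) := T_1 (nat_lit 130) (nat_lit 147) (nat_lit 6) (nat_lit 11) (nat_lit 8) L3972794 (by decide +kernel)
theorem L3972796 : W_1 (nat_lit 8) (nat_lit 0x1000180021003f00100000000000000000000) (nat_lit 0x0) (nat_lit 0x7a801e00180004000000008000400000000000) := T_1 (nat_lit 46) (nat_lit 63) (nat_lit 5) (nat_lit 12) (nat_lit 2) L3972795 (by decide +kernel)
theorem L3972797 : W_1 (nat_lit 9) (nat_lit 0x1000180021001f00100000000000000000000) (nat_lit 0x0) (nat_lit 0x7a801e00180006000200008000400000000000) := T_1 (nat_lit 97) (nat_lit 81) (nat_lit 2) (nat_lit 9) (nat_lit 5) L3972796 (by decide +kernel)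
theorem L3972798 : W_1 (nat_lit 10) (nat_lit 0x1000180021001f00000000000000000000000) (nat_lit 0x0) (nat_lit 0x7a801e00180006000380008000400000000000) := T_1 (nat_lit 80) (nat_lit 79) (nat_lit 2) (nat_lit 8) (nat_lit 5) L3972797 (by decide +kernel)
theorem L3972799 : W_1 (nat_lit 11) (nat_lit 0x1000180021000f00000000000000000000000) (nat_lit 0x0) (nat_lit 0x7a801e001c0007000380008000400000000000) := T_1 (nat_lit 96) (nat_lit 114) (nat_lit 3) (nat_lit 8) (nat_lit 5) L3972798 (by decide +kernel)
theorem L3972800 : W_1 (nat_lit 12) (nat_lit 0x1000180020000f00000000000000000000000) (nat_lit 0x0) (nat_lit 0x7a801e001c3007000380008000400000000000) := T_1 (nat_lit 108) (nat_lit 109) (nat_lit 1) (nat_lit 10) (nat_lit 5) L3972799 (by decide +kernel)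
theorem L3972801 : W_1 (nat_lit 13) (nat_lit 0x1000180000000f00000000000000000000000) (nat_lit 0x0) (nat_lit 0x7a801e001f3007000380008000400000000000) := T_1 (nat_lit 113) (nat_lit 112) (nat_lit 3) (nat_lit 7) (nat_lit 5) L3972800 (by decide +kernel)
theorem L3972802 : W_1 (nat_lit 14) (nat_lit 0x1000180000000700000000000000000000000) (nat_lit 0x0) (nat_lit 0x4c07af01e701fb8078003d000f000780014000000) := Q_1 (nat_lit 95) (C_1 L3972788 (C_1 L3969164 (C_1 L3972789 (C_1 L260269 (C_1 L3972801 (C_1 L3969200 N_1)))))) (by decide +kernel)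
theorem L3972818 : W_1 (nat_lit 2) (nat_lit 0x2001e00048003c00190000000f00040000000000000000000) (nat_lit 0x0) (nat_lit 0x1000100000000000040000000000000000000000000000000) := D_1 (nat_lit 176) (nat_lit 192) (nat_lit 126) (nat_lit 1) (nat_lit 9) (nat_lit 10) (nat_lit 6) (nat_lit 6) (nat_lit 11) (by decide +kernel)
theorem L3972819 : W_1 (nat_lit 3) (nat_lit 0x1e00048003c00190000000f00040000000000000000000) (nat_lit 0x0) (nat_lit 0x7000100000000000040000000000000000000000000000000) := T_1 (nat_lit 193) (nat_lit 194) (nat_lit 1) (nat_lit 10) (nat_lit 10) L3972818 (by decide +kernel)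
theorem L3972820 : W_1 (nat_lit 4) (nat_lit 0x1c00048003c00190000000f00040000000000000000000) (nat_lit 0x0) (nat_lit 0x7000300010000000040000000000000000000000000000000) := T_1 (nat_lit 177) (nat_lit 160) (nat_lit 0) (nat_lit 10) (nat_lit 10) L3972819 (by decide +kernel)
theorem L3972821 : W_1 (nat_lit 5) (nat_lit 0x1800048003c00190000000f00040000000000000000000) (nat_lit 0x0) (nat_lit 0xf000700010000000040000000000000000000000000000000) := T_1 (nat_lit 178) (nat_lit 195) (nat_lit 5) (nat_lit 9) (nat_lit 7) L3972820 (by decide +kernel)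
theorem L3972822 : W_1 (nat_lit 6) (nat_lit 0x800048003c00190000000f00040000000000000000000) (nat_lit 0x0) (nat_lit 0x2f001700010000000040000000000000000000000000000000) := T_1 (nat_lit 180) (nat_lit 197) (nat_lit 7) (nat_lit 9) (nat_lit 7) L3972821 (by decide +kernel)
theorem L3972823 : W_1 (nat_lit 7) (nat_lit 0x800048003c00180000000f00040000000000000000000) (nat_lit 0x0) (nat_lit 0x2f001700010000000070000000000000000000000000000000) := T_1 (nat_lit 124) (nat_lit 125) (nat_lit 0) (nat_lit 9) (nat_lit 8) L3972822 (by decide +kernel)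
theorem L3972824 : W_1 (nat_lit 8) (nat_lit 0x48003c00180000000f00040000000000000000000) (nat_lit 0x0) (nat_lit 0x3f001f00010000000070000000000000000000000000000000) := T_1 (nat_lit 179) (nat_lit 196) (nat_lit 4) (nat_lit 9) (nat_lit 11) L3972823 (by decide +kernel)
theorem L3972825 : W_1 (nat_lit 9) (nat_lit 0x40003c00180000000f00040000000000000000000) (nat_lit 0x0) (nat_lit 0x3f001f0001c000000070000000000000000000000000000000) := T_1 (nat_lit 159) (nat_lit 158) (nat_lit 1) (nat_lit 9) (nat_lit 8) L3972824 (by decide +kernel)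
theorem L3972826 : W_1 (nat_lit 10) (nat_lit 0x3c00180000000f00040000000000000000000) (nat_lit 0x0) (nat_lit 0x3f001f000dc000000070000000000000000000000000000000) := T_1 (nat_lit 162) (nat_lit 163) (nat_lit 3) (nat_lit 6) (nat_lit 8) L3972825 (by decide +kernel)
theorem L3972827 : W_1 (nat_lit 11) (nat_lit 0x1c00180000000f00040000000000000000000) (nat_lit 0x0) (nat_lit 0x3f001f000dc002000070008000000000000000000000000000) := T_1 (nat_lit 145) (nat_lit 111) (nat_lit 6) (nat_lit 9) (nat_lit 8) L3972826 (by decide +kernel)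
theorem L3972838 : W_1 (nat_lit 12) (nat_lit 0x1c00180000000f00000000000000000000000) (nat_lit 0x0) (nat_lit 0x3f001f000dc0020000700080000000c0000000000000000000) := T_1 (nat_lit 78) (nat_lit 79) (nat_lit 2) (nat_lit 7) (nat_lit 5) L3972827 (by decide +kernel)
theorem L3972839 : W_1 (nat_lit 13) (nat_lit 0x1400180000000f00000000000000000000000) (nat_lit 0x0) (nat_lit 0x3f001f000dc002a000700080000000c0000000000000000000) := T_1 (nat_lit 143) (nat_lit 141) (nat_lit 2) (nat_lit 5) (nat_lit 8) L3972838 (by decide +kernel)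
theorem L3972840 : W_1 (nat_lit 14) (nat_lit 0x1000180000000f00000000000000000000000) (nat_lit 0x0) (nat_lit 0x3f001f000dc002e0007000b8000c00d7000000000000000000) := Q_1 (nat_lit 142) (C_1 L3972839 (C_1 L3952024 (C_1 L3861973 N_1))) (by decide +kernel)
theorem L3972841 : W_1 (nat_lit 15) (nat_lit 0x1000180000000700000000000000000000000) (nat_lit 0x0) (nat_lit 0x3f001f000dc002e0007007bc018c01d7007000380014000000) := Q_1 (nat_lit 95) (C_1 L3972840 (C_1 L3972789 (C_1 L3972709 (C_1 L3972736 (C_1 L3972733 N_1))))) (by decide +kernel)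
theorem L3972842 : W_1 (nat_lit 2) (nat_lit 0x18003c0000000780004000000000000000000) (nat_lit 0x0) (nat_lit 0x38000000000000000000000000000) := D_1 (nat_lit 112) (nat_lit 111) (nat_lit 113) (nat_lit 3) (nat_lit 6) (nat_lit 5) (nat_lit 2) (nat_lit 7) (nat_lit 7) (by decide +kernel)
theorem L3972843 : W_1 (nat_lit 3) (nat_lit 0x1800380000000780004000000000000000000) (nat_lit 0x0) (nat_lit 0x4003a000000000000000000000000000) := T_1 (nat_lit 126) (nat_lit 109) (nat_lit 4) (nat_lit 7) (nat_lit 8) L3972842 (by decide +kernel)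
theorem L3972844 : W_1 (nat_lit 4) (nat_lit 0x1800180000000780004000000000000000000) (nat_lit 0x0) (nat_lit 0x64003a000000000000000000000000000) := T_1 (nat_lit 129) (nat_lit 130) (nat_lit 1) (nat_lit 11) (nat_lit 7) L3972843 (by decide +kernel)
theorem L3972845 : W_1 (nat_lit 5) (nat_lit 0x1800180000000780000000000000000000000) (nat_lit 0x0) (nat_lit 0x64003a000000006000000000000000000) := T_1 (nat_lit 74) (nat_lit 73) (nat_lit 0) (nat_lit 9) (nat_lit 5) L3972844 (by decide +kernel)
theorem L3972846 : W_1 (nat_lit 2) (nat_lit 0x2001c00048003c001c0008000780002000000000000000000) (nat_lit 0x0) (nat_lit 0x4000200010000000000000000000000000000000000000000) := D_1 (nat_lit 177) (nat_lit 194) (nat_lit 160) (nat_lit 1) (nat_lit 10) (nat_lit 10) (nat_lit 0) (nat_lit 10) (nat_lit 10) (by decide +kernel)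
theorem L3972847 : W_1 (nat_lit 3) (nat_lit 0x2001800048003c001c0008000780002000000000000000000) (nat_lit 0x0) (nat_lit 0xc000600010000000000000000000000000000000000000000) := T_1 (nat_lit 178) (nat_lit 195) (nat_lit 5) (nat_lit 9) (nat_lit 7) L3972846 (by decide +kernel)
theorem L3972848 : W_1 (nat_lit 4) (nat_lit 0x1800048003c001c0008000780002000000000000000000) (nat_lit 0x0) (nat_lit 0xe000700010000000000000000000000000000000000000000) := T_1 (nat_lit 193) (nat_lit 176) (nat_lit 6) (nat_lit 6) (nat_lit 11) L3972847 (by decide +kernel)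
theorem L3972849 : W_1 (nat_lit 5) (nat_lit 0x800048003c001c0008000780002000000000000000000) (nat_lit 0x0) (nat_lit 0x2e001700010000000000000000000000000000000000000000) := T_1 (nat_lit 180) (nat_lit 197) (nat_lit 7) (nat_lit 9) (nat_lit 7) L3972848 (by decide +kernel)
theorem L3972850 : W_1 (nat_lit 6) (nat_lit 0x800048003c00180008000780002000000000000000000) (nat_lit 0x0) (nat_lit 0x2e001700010000000040002000000000000000000000000000) := T_1 (nat_lit 126) (nat_lit 109) (nat_lit 5) (nat_lit 7) (nat_lit 5) L3972849 (by decide +kernel)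
theorem L3972851 : W_1 (nat_lit 7) (nat_lit 0x48003c00180008000780002000000000000000000) (nat_lit 0x0) (nat_lit 0x3e001f00010000000040002000000000000000000000000000) := T_1 (nat_lit 179) (nat_lit 196) (nat_lit 4) (nat_lit 9) (nat_lit 11) L3972850 (by decide +kernel)
theorem L3972852 : W_1 (nat_lit 8) (nat_lit 0x40003c00180008000780002000000000000000000) (nat_lit 0x0) (nat_lit 0x3e001f0001c000000040002000000000000000000000000000) := T_1 (nat_lit 159) (nat_lit 158) (nat_lit 1) (nat_lit 9) (nat_lit 8) L3972851 (by decide +kernel)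
theorem L3972853 : W_1 (nat_lit 9) (nat_lit 0x3c00180008000780002000000000000000000) (nat_lit 0x0) (nat_lit 0x3e001f000dc000000040002000000000000000000000000000) := T_1 (nat_lit 162) (nat_lit 163) (nat_lit 3) (nat_lit 6) (nat_lit 8) L3972852 (by decide +kernel)
theorem L3972854 : W_1 (nat_lit 10) (nat_lit 0x1c00180008000780002000000000000000000) (nat_lit 0x0) (nat_lit 0x3e001f000dc002000040002000000010000000000000000000) := T_1 (nat_lit 145) (nat_lit 76) (nat_lit 4) (nat_lit 9) (nat_lit 8) L3972853 (by decide +kernel)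
theorem L3972855 : W_1 (nat_lit 11) (nat_lit 0x1c00180008000780000000000000000000000) (nat_lit 0x0) (nat_lit 0x3e001f000dc002000040002000000016000000000000000000) := T_1 (nat_lit 73) (nat_lit 74) (nat_lit 0) (nat_lit 9) (nat_lit 5) L3972854 (by decide +kernel)
theorem L3972856 : W_1 (nat_lit 12) (nat_lit 0x1c00180000000780000000000000000000000) (nat_lit 0x0) (nat_lit 0x3e001f000dc00200004001a000000016000000000000000000) := T_1 (nat_lit 111) (nat_lit 112) (nat_lit 3) (nat_lit 6) (nat_lit 5) L3972855 (by decide +kernel)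
theorem L3972857 : W_1 (nat_lit 13) (nat_lit 0x1800180000000780000000000000000000000) (nat_lit 0x0) (nat_lit 0x3e001f000dc00260004001a000000016000000000000000000) := T_1 (nat_lit 142) (nat_lit 141) (nat_lit 2) (nat_lit 5) (nat_lit 8) L3972856 (by decide +kernel)
theorem L3972858 : W_1 (nat_lit 14) (nat_lit 0x1000180000000780000000000000000000000) (nat_lit 0x0) (nat_lit 0x3e001f000dc002e0064003a000000016000000000000000000) := Q_1 (nat_lit 143) (C_1 L3972845 (C_1 L3970786 (C_1 L3972857 N_1))) (by decide +kernel)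
theorem L3972859 : W_1 (nat_lit 2) (nat_lit 0x18003d00108007e0001000000000000000000) (nat_lit 0x0) (nat_lit 0x2000028000000000000000000000000000000) := D_1 (nat_lit 125) (nat_lit 145) (nat_lit 123) (nat_lit 3) (nat_lit 5) (nat_lit 7) (nat_lit 3) (nat_lit 4) (nat_lit 7) (by decide +kernel)
theorem L3972860 : W_1 (nat_lit 3) (nat_lit 0x18003c00108007e0001000000000000000000) (nat_lit 0x0) (nat_lit 0x2200038000000000000000000000000000000) := T_1 (nat_lit 124) (nat_lit 141) (nat_lit 4) (nat_lit 5) (nat_lit 8) L3972859 (by decide +kernel)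
theorem L3972861 : W_1 (nat_lit 4) (nat_lit 0x18003800108007e0001000000000000000000) (nat_lit 0x0) (nat_lit 0x2200078020000000000000000000000000000) := T_1 (nat_lit 126) (nat_lit 113) (nat_lit 2) (nat_lit 7) (nat_lit 7) L3972860 (by decide +kernel)
theorem L3972862 : W_1 (nat_lit 5) (nat_lit 0x18003800108007c0001000000000000000000) (nat_lit 0x0) (nat_lit 0x2200078020000020000800000000000000000) := T_1 (nat_lit 89) (nat_lit 71) (nat_lit 0) (nat_lit 7) (nat_lit 5) L3972861 (by decide +kernel)
theorem L3972863 : W_1 (nat_lit 6) (nat_lit 0x18003800108007c0000000000000000000000) (nat_lit 0x0) (nat_lit 0x2200078020000020003800000000000000000) := T_1 (nat_lit 72) (nat_lit 73) (nat_lit 0) (nat_lit 8) (nat_lit 5) L3972862 (by decide +kernel)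
theorem L3972864 : W_1 (nat_lit 7) (nat_lit 0x1800380010800780000000000000000000000) (nat_lit 0x0) (nat_lit 0x2200078020400060003800000000000000000) := T_1 (nat_lit 90) (nat_lit 106) (nat_lit 1) (nat_lit 8) (nat_lit 5) L3972863 (by decide +kernel)
theorem L3972865 : W_1 (nat_lit 8) (nat_lit 0x1800380010000780000000000000000000000) (nat_lit 0x0) (nat_lit 0x2200078021c00060003800000000000000000) := T_1 (nat_lit 107) (nat_lit 108) (nat_lit 1) (nat_lit 9) (nat_lit 5) L3972864 (by decide +kernel)
theorem L3972866 : W_1 (nat_lit 9) (nat_lit 0x1800180010000780000000000000000000000) (nat_lit 0x0) (nat_lit 0x2200678021c00060003800000000000000000) := T_1 (nat_lit 129) (nat_lit 130) (nat_lit 1) (nat_lit 11) (nat_lit 7) L3972865 (by decide +kernel)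
theorem L3972867 : W_1 (nat_lit 10) (nat_lit 0x1800180000000780000000000000000000000) (nat_lit 0x0) (nat_lit 0x2200678039c00060003800000000000000000) := T_1 (nat_lit 112) (nat_lit 111) (nat_lit 3) (nat_lit 6) (nat_lit 5) L3972866 (by decide +kernel)
theorem L3972868 : W_1 (nat_lit 2) (nat_lit 0x1800380000000780000000000000000000000) (nat_lit 0x0) (nat_lit 0x2400040000000000000000000000000000000) := D_1 (nat_lit 142) (nat_lit 126) (nat_lit 145) (nat_lit 1) (nat_lit 10) (nat_lit 7) (nat_lit 2) (nat_lit 6) (nat_lit 8) (by decide +kernel)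
theorem L3972869 : W_1 (nat_lit 3) (nat_lit 0x1800180000000780000000000000000000000) (nat_lit 0x0) (nat_lit 0x2400640000000000000000000000000000000) := T_1 (nat_lit 129) (nat_lit 130) (nat_lit 1) (nat_lit 11) (nat_lit 7) L3972868 (by decide +kernel)
theorem L3972870 : W_1 (nat_lit 11) (nat_lit 0x1000180000000780000000000000000000000) (nat_lit 0x0) (nat_lit 0x2e00678039c00060003800000000000000000) := Q_1 (nat_lit 143) (C_1 L3972867 (C_1 L3970786 (C_1 L3970784 (C_1 L3972869 (C_1 L3929272 N_1))))) (by decide +kernel)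
theorem L3972871 : W_1 (nat_lit 14) (nat_lit 0x1000180000000780000000000000000000000) (nat_lit 0x0) (nat_lit 0x3e001f000dc002e0067001b800000014000000000000000000) := Q_1 (nat_lit 143) (C_1 L3506337 (C_1 L3972869 (C_1 L3970784 (C_1 L3970786 (C_1 L3489196 N_1))))) (by decide +kernel)
theorem L3972872 : W_1 (nat_lit 15) (nat_lit 0x1000180000000700000000000000000000000) (nat_lit 0x0) (nat_lit 0x3e001f000dc002e0067803bc000e0017800000000000000000) := Q_1 (nat_lit 91) (C_1 L255677 (C_1 L3972858 (C_1 L3972870 (C_1 L3972871 N_1)))) (by decide +kernel)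
theorem L3972873 : W_1 (nat_lit 16) (nat_lit 0x1000080000000700000000000000000000000) (nat_lit 0x0) (nat_lit 0x3f001f000dc07af01f781fbc078e03d780fb007c8014000000) := Q_1 (nat_lit 128) (C_1 L3972674 (C_1 L3972675 (C_1 L3972699 (C_1 L3972704 (C_1 L3972727 (C_1 L3972728 (C_1 L3972762 (C_1 L3972802 (C_1 L3972841 (C_1 L3972872 N_1)))))))))) (by decide +kernel)
theorem L3972874 : W_1 (nat_lit 6) (nat_lit 0x1000080000000700000000000000000000000) (nat_lit 0x0) (nat_lit 0x10003bc008c0037000000000000000000) := Q_1 (nat_lit 91) (C_1 L23633 (C_1 L31997 (C_1 L3970732 N_1))) (by decide +kernel)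
theorem L3972875 : W_1 (nat_lit 17) (nat_lit 0x1000080000000300000000000000000000000) (nat_lit 0x0) (nat_lit 0x3f001f000dc07af01f781fbe07ce07f780ff007c8014000000) := Q_1 (nat_lit 94) (C_1 L3969211 (C_1 L258781 (C_1 L259025 (C_1 L3970729 (C_1 L3969202 (C_1 L3972873 (C_1 L3972874 N_1))))))) (by decide +kernel)
theorem L3972974 : W_1 (nat_lit 2) (nat_lit 0x100008001a000f00020000000000000000000) (nat_lit 0x0) (nat_lit 0x200000000000000001000080000000000) := D_1 (nat_lit 60) (nat_lit 129) (nat_lit 43) (nat_lit 7) (nat_lit 9) (nat_lit 3) (nat_lit 7) (nat_lit 9) (nat_lit 2) (by decide +kernel)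
theorem L3972975 : W_1 (nat_lit 3) (nat_lit 0x100008000a000f00020000000000000000000) (nat_lit 0x0) (nat_lit 0x200030000000000001000080000000000) := T_1 (nat_lit 112) (nat_lit 113) (nat_lit 3) (nat_lit 7) (nat_lit 5) L3972974 (by decide +kernel)
theorem L3972976 : W_1 (nat_lit 4) (nat_lit 0x1000080002000f00020000000000000000000) (nat_lit 0x0) (nat_lit 0x300038000000000001000080000000000) := T_1 (nat_lit 111) (nat_lit 128) (nat_lit 5) (nat_lit 9) (nat_lit 4) L3972975 (by decide +kernel)
theorem L3972977 : W_1 (nat_lit 3) (nat_lit 0x1000080012000f00020000000000000000000) (nat_lit 0x0) (nat_lit 0x2000000000000c0001000080000000000) := T_1 (nat_lit 78) (nat_lit 79) (nat_lit 2) (nat_lit 7) (nat_lit 5) L257546 (by decide +kernel)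
theorem L3972978 : W_1 (nat_lit 4) (nat_lit 0x1000080002000f00020000000000000000000) (nat_lit 0x0) (nat_lit 0x2000300000000c0001000080000000000) := T_1 (nat_lit 112) (nat_lit 113) (nat_lit 3) (nat_lit 7) (nat_lit 5) L3972977 (by decide +kernel)
theorem L3972979 : W_1 (nat_lit 2) (nat_lit 0x100008000a001f000a0000000000000000000) (nat_lit 0x0) (nat_lit 0x2000018000000000000000000) := D_1 (nat_lit 76) (nat_lit 97) (nat_lit 75) (nat_lit 0) (nat_lit 12) (nat_lit 5) (nat_lit 0) (nat_lit 11) (nat_lit 5) (by decide +kernel)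
theorem L3972980 : W_1 (nat_lit 3) (nat_lit 0x100008000a000f000a0000000000000000000) (nat_lit 0x0) (nat_lit 0x3000118000000000000000000) := T_1 (nat_lit 96) (nat_lit 80) (nat_lit 2) (nat_lit 8) (nat_lit 5) L3972979 (by decide +kernel)
theorem L3972981 : W_1 (nat_lit 4) (nat_lit 0x1000080002000f000a0000000000000000000) (nat_lit 0x0) (nat_lit 0x100008003000118000000000000000000) := T_1 (nat_lit 111) (nat_lit 128) (nat_lit 5) (nat_lit 9) (nat_lit 4) L3972980 (by decide +kernel)
theorem L3972982 : W_1 (nat_lit 5) (nat_lit 0x1000080002000f00020000000000000000000) (nat_lit 0x0) (nat_lit 0x1000080030001d8000000000000000000) := T_1 (nat_lit 79) (nat_lit 78) (nat_lit 2) (nat_lit 7) (nat_lit 5) L3972981 (by decide +kernel)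
theorem L3972983 : W_1 (nat_lit 6) (nat_lit 0x1000080002000700020000000000000000000) (nat_lit 0x0) (nat_lit 0x3000380038001d8001000080000000000) := Q_1 (nat_lit 95) (C_1 L3972976 (C_1 L3972978 (C_1 L3972982 N_1))) (by decide +kernel)
theorem L3972984 : W_1 (nat_lit 2) (nat_lit 0x100008000a000700020000000000000000000) (nat_lit 0x0) (nat_lit 0x10000080040000000000000000000) := D_1 (nat_lit 91) (nat_lit 112) (nat_lit 78) (nat_lit 3) (nat_lit 6) (nat_lit 5) (nat_lit 2) (nat_lit 6) (nat_lit 5) (by decide +kernel)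
theorem L3972985 : W_1 (nat_lit 3) (nat_lit 0x1000080002000700020000000000000000000) (nat_lit 0x0) (nat_lit 0x100018000080040000000000000000000) := T_1 (nat_lit 111) (nat_lit 128) (nat_lit 5) (nat_lit 9) (nat_lit 4) L3972984 (by decide +kernel)
theorem L3972986 : W_1 (nat_lit 2) (nat_lit 0x100008000a4007e0020000000000000000000) (nat_lit 0x0) (nat_lit 0x3800000000000000000) := D_1 (nat_lit 72) (nat_lit 71) (nat_lit 73) (nat_lit 0) (nat_lit 7) (nat_lit 5) (nat_lit 0) (nat_lit 8) (nat_lit 5) (by decide +kernel)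
theorem L3972987 : W_1 (nat_lit 3) (nat_lit 0x100008000a4007c0020000000000000000000) (nat_lit 0x0) (nat_lit 0x200020003800000000000000000) := T_1 (nat_lit 89) (nat_lit 105) (nat_lit 1) (nat_lit 7) (nat_lit 5) L3972986 (by decide +kernel)
theorem L3972988 : W_1 (nat_lit 4) (nat_lit 0x100008000a0007c0020000000000000000000) (nat_lit 0x0) (nat_lit 0xe00020003800000000000000000) := T_1 (nat_lit 106) (nat_lit 107) (nat_lit 1) (nat_lit 8) (nat_lit 5) L3972987 (by decide +kernel)
theorem L3972989 : W_1 (nat_lit 5) (nat_lit 0x100008000a000780020000000000000000000) (nat_lit 0x0) (nat_lit 0xe00060013800000000000000000) := T_1 (nat_lit 90) (nat_lit 76) (nat_lit 2) (nat_lit 5) (nat_lit 5) L3972988 (by decide +kernel)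
theorem L3972990 : W_1 (nat_lit 6) (nat_lit 0x100008000a000700020000000000000000000) (nat_lit 0x0) (nat_lit 0x10e000e0013800000000000000000) := T_1 (nat_lit 91) (nat_lit 112) (nat_lit 3) (nat_lit 6) (nat_lit 5) L3972989 (by decide +kernel)
theorem L3972991 : W_1 (nat_lit 7) (nat_lit 0x1000080002000700020000000000000000000) (nat_lit 0x0) (nat_lit 0x100018e000e0013800000000000000000) := T_1 (nat_lit 111) (nat_lit 128) (nat_lit 5) (nat_lit 9) (nat_lit 4) L3972990 (by decide +kernel)
theorem L3972992 : W_1 (nat_lit 8) (nat_lit 0x1000080002000700000000000000000000000) (nat_lit 0x0) (nat_lit 0x300038e038e01fb801000080000000000) := Q_1 (nat_lit 77) (C_1 L258285 (C_1 L3972983 (C_1 L3972985 (C_1 L3972991 N_1)))) (by decide +kernel)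
theorem L3972993 : W_1 (nat_lit 5) (nat_lit 0x1000080002000700000000000000000000000) (nat_lit 0x0) (nat_lit 0x710018001c0000000000000000000) := T_1 (nat_lit 95) (nat_lit 108) (nat_lit 1) (nat_lit 10) (nat_lit 5) L257714 (by decide +kernel)
theorem L3972994 : W_1 (nat_lit 2) (nat_lit 0x100008000a000780000000000000000000000) (nat_lit 0x0) (nat_lit 0x100000000000060000000000000000000) := D_1 (nat_lit 77) (nat_lit 78) (nat_lit 128) (nat_lit 2) (nat_lit 6) (nat_lit 5) (nat_lit 5) (nat_lit 9) (nat_lit 4) (by decide +kernel)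
theorem L3972995 : W_1 (nat_lit 3) (nat_lit 0x1000080002000780000000000000000000000) (nat_lit 0x0) (nat_lit 0x100018000000060000000000000000000) := T_1 (nat_lit 111) (nat_lit 112) (nat_lit 3) (nat_lit 6) (nat_lit 5) L3972994 (by decide +kernel)
theorem L3972996 : W_1 (nat_lit 2) (nat_lit 0x100008000a0007f0001000000000000000000) (nat_lit 0x0) (nat_lit 0x700000000000000000000000000) := D_1 (nat_lit 105) (nat_lit 104) (nat_lit 106) (nat_lit 1) (nat_lit 6) (nat_lit 5) (nat_lit 1) (nat_lit 7) (nat_lit 5) (by decide +kernel)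
theorem L3972997 : W_1 (nat_lit 3) (nat_lit 0x100008000a0007e0001000000000000000000) (nat_lit 0x0) (nat_lit 0x1700010000000000000000000000) := T_1 (nat_lit 88) (nat_lit 108) (nat_lit 3) (nat_lit 3) (nat_lit 5) L3972996 (by decide +kernel)
theorem L3972998 : W_1 (nat_lit 4) (nat_lit 0x10000800020007e0001000000000000000000) (nat_lit 0x0) (nat_lit 0x19700010000000000000000000000) := T_1 (nat_lit 111) (nat_lit 112) (nat_lit 3) (nat_lit 6) (nat_lit 5) L3972997 (by decide +kernel)
theorem L3972999 : W_1 (nat_lit 5) (nat_lit 0x10000800020007c0001000000000000000000) (nat_lit 0x0) (nat_lit 0x19700030000800000000000000000) := T_1 (nat_lit 89) (nat_lit 71) (nat_lit 0) (nat_lit 7) (nat_lit 5) L3972998 (by decide +kernel)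
theorem L3973000 : W_1 (nat_lit 6) (nat_lit 0x10000800020007c0000000000000000000000) (nat_lit 0x0) (nat_lit 0x19700030003800000000000000000) := T_1 (nat_lit 72) (nat_lit 73) (nat_lit 0) (nat_lit 8) (nat_lit 5) L3972999 (by decide +kernel)
theorem L3973001 : W_1 (nat_lit 2) (nat_lit 0x10000800020007c0000000000000000000000) (nat_lit 0x0) (nat_lit 0x1c00000000000000000000000000) := D_1 (nat_lit 107) (nat_lit 108) (nat_lit 106) (nat_lit 1) (nat_lit 9) (nat_lit 5) (nat_lit 1) (nat_lit 8) (nat_lit 5) (by decide +kernel)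
theorem L3973002 : W_1 (nat_lit 2) (nat_lit 0x100008000a0007e0001000000000000000000) (nat_lit 0x0) (nat_lit 0x1800010000000000000000000000) := D_1 (nat_lit 108) (nat_lit 107) (nat_lit 88) (nat_lit 1) (nat_lit 9) (nat_lit 5) (nat_lit 3) (nat_lit 3) (nat_lit 5) (by decide +kernel)
theorem L3973003 : W_1 (nat_lit 3) (nat_lit 0x100008000a0007c0001000000000000000000) (nat_lit 0x0) (nat_lit 0x1800030000800000000000000000) := T_1 (nat_lit 89) (nat_lit 71) (nat_lit 0) (nat_lit 7) (nat_lit 5) L3973002 (by decide +kernel)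
theorem L3973004 : W_1 (nat_lit 4) (nat_lit 0x100008000a0007c0000000000000000000000) (nat_lit 0x0) (nat_lit 0x1800030003800000000000000000) := T_1 (nat_lit 72) (nat_lit 73) (nat_lit 0) (nat_lit 8) (nat_lit 5) L3973003 (by decide +kernel)
theorem L3973005 : W_1 (nat_lit 5) (nat_lit 0x10000800020007c0000000000000000000000) (nat_lit 0x0) (nat_lit 0x19800030003800000000000000000) := T_1 (nat_lit 111) (nat_lit 112) (nat_lit 3) (nat_lit 6) (nat_lit 5) L3973004 (by decide +kernel)
theorem L3973006 : W_1 (nat_lit 7) (nat_lit 0x1000080002000780000000000000000000000) (nat_lit 0x0) (nat_lit 0x19f00070003800000000000000000) := Q_1 (nat_lit 90) (C_1 L3971968 (C_1 L3973000 (C_1 L3973001 (C_1 L3973005 N_1)))) (by decide +kernel)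
theorem L3973007 : W_1 (nat_lit 8) (nat_lit 0x1000080002000700000000000000000000000) (nat_lit 0x0) (nat_lit 0x100019f000f0073800000000000000000) := Q_1 (nat_lit 91) (C_1 L257576 (C_1 L3972995 (C_1 L3973006 N_1))) (by decide +kernel)
theorem L3973008 : W_1 (nat_lit 9) (nat_lit 0x1000080002000300000000000000000000000) (nat_lit 0x0) (nat_lit 0x300079f03cf01fb801000080000000000) := Q_1 (nat_lit 94) (C_1 L3971964 (C_1 L3972992 (C_1 L3972993 (C_1 L3973007 N_1)))) (by decide +kernel)
theorem L3973009 : W_1 (nat_lit 2) (nat_lit 0x10001d000c0003400300000000000000000000000) (nat_lit 0x0) (nat_lit 0x4000200000000000020000000000000000000000000000000) := D_1 (nat_lit 177) (nat_lit 125) (nat_lit 194) (nat_lit 4) (nat_lit 7) (nat_lit 10) (nat_lit 6) (nat_lit 7) (nat_lit 11) (by decide +kernel)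
theorem L3973010 : W_1 (nat_lit 3) (nat_lit 0x1d000c0003400300000000000000000000000) (nat_lit 0x0) (nat_lit 0x4000200010000000020000000080000000000000000000000) := T_1 (nat_lit 160) (nat_lit 91) (nat_lit 4) (nat_lit 7) (nat_lit 9) L3973009 (by decide +kernel)
theorem L3973011 : W_1 (nat_lit 4) (nat_lit 0x1c000c0003400300000000000000000000000) (nat_lit 0x0) (nat_lit 0x4000200010000300020000000080000000000000000000000) := T_1 (nat_lit 140) (nat_lit 141) (nat_lit 2) (nat_lit 4) (nat_lit 8) L3973010 (by decide +kernel)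
theorem L3973012 : W_1 (nat_lit 5) (nat_lit 0x18000c0003400300000000000000000000000) (nat_lit 0x0) (nat_lit 0x4000200018000700020000000080000000000000000000000) := T_1 (nat_lit 142) (nat_lit 159) (nat_lit 5) (nat_lit 7) (nat_lit 5) L3973011 (by decide +kernel)
theorem L3973013 : W_1 (nat_lit 6) (nat_lit 0x10000c0003400300000000000000000000000) (nat_lit 0x0) (nat_lit 0x4000200018000f00020000000080010000000000000000000) := T_1 (nat_lit 143) (nat_lit 76) (nat_lit 6) (nat_lit 7) (nat_lit 8) L3973012 (by decide +kernel)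
theorem L3973014 : W_1 (nat_lit 7) (nat_lit 0x10000c0003000300000000000000000000000) (nat_lit 0x0) (nat_lit 0x4000200018000f00020000c00080010000000000000000000) := T_1 (nat_lit 106) (nat_lit 107) (nat_lit 3) (nat_lit 4) (nat_lit 6) L3973013 (by decide +kernel)
theorem L3973015 : W_1 (nat_lit 8) (nat_lit 0x1000080003000300000000000000000000000) (nat_lit 0x0) (nat_lit 0x4000200018000f00360000c00080010000000000000000000) := Q_1 (nat_lit 126) (C_1 L258193 (C_1 L3973014 (C_1 L258190 N_1))) (by decide +kernel)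
theorem L3973016 : W_1 (nat_lit 2) (nat_lit 0x10001d000c0003000700000000000000000000000) (nat_lit 0x0) (nat_lit 0x4000200000000000020000000000000000000000000000000) := D_1 (nat_lit 177) (nat_lit 125) (nat_lit 194) (nat_lit 4) (nat_lit 7) (nat_lit 10) (nat_lit 6) (nat_lit 7) (nat_lit 11) (by decide +kernel)
theorem L3973017 : W_1 (nat_lit 3) (nat_lit 0x1d000c0003000700000000000000000000000) (nat_lit 0x0) (nat_lit 0x4000200010000000020000000080000000000000000000000) := T_1 (nat_lit 160) (nat_lit 91) (nat_lit 4) (nat_lit 7) (nat_lit 9) L3973016 (by decide +kernel)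
theorem L3973018 : W_1 (nat_lit 4) (nat_lit 0x1c000c0003000700000000000000000000000) (nat_lit 0x0) (nat_lit 0x4000200010000300020000000080000000000000000000000) := T_1 (nat_lit 140) (nat_lit 141) (nat_lit 2) (nat_lit 4) (nat_lit 8) L3973017 (by decide +kernel)
theorem L3973019 : W_1 (nat_lit 5) (nat_lit 0x18000c0003000700000000000000000000000) (nat_lit 0x0) (nat_lit 0x4000200018000700020000000080000000000000000000000) := T_1 (nat_lit 142) (nat_lit 159) (nat_lit 5) (nat_lit 7) (nat_lit 5) L3973018 (by decide +kernel)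
theorem L3973020 : W_1 (nat_lit 6) (nat_lit 0x10000c0003000700000000000000000000000) (nat_lit 0x0) (nat_lit 0x4000200018000f00020000000080010000000000000000000) := T_1 (nat_lit 143) (nat_lit 76) (nat_lit 6) (nat_lit 7) (nat_lit 8) L3973019 (by decide +kernel)
theorem L3973021 : W_1 (nat_lit 7) (nat_lit 0x10000c0003000300000000000000000000000) (nat_lit 0x0) (nat_lit 0x4000200018000f00020000000c80010000000000000000000) := T_1 (nat_lit 94) (nat_lit 95) (nat_lit 1) (nat_lit 10) (nat_lit 5) L3973020 (by decide +kernel)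
theorem L3973022 : W_1 (nat_lit 2) (nat_lit 0x10001c0003000700010000000040000000000) (nat_lit 0x0) (nat_lit 0x2000000008000000020000000000000000000) := D_1 (nat_lit 111) (nat_lit 145) (nat_lit 77) (nat_lit 4) (nat_lit 9) (nat_lit 8) (nat_lit 5) (nat_lit 9) (nat_lit 4) (by decide +kernel)
theorem L3973023 : W_1 (nat_lit 3) (nat_lit 0x10001c0003000300010000000040000000000) (nat_lit 0x0) (nat_lit 0x2000000008000c00020000000000000000000) := T_1 (nat_lit 94) (nat_lit 95) (nat_lit 1) (nat_lit 10) (nat_lit 5) L3973022 (by decide +kernel)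
theorem L3973024 : W_1 (nat_lit 4) (nat_lit 0x10000c0003000300010000000040000000000) (nat_lit 0x0) (nat_lit 0x2000300008000c00020000000000000000000) := T_1 (nat_lit 128) (nat_lit 129) (nat_lit 0) (nat_lit 10) (nat_lit 7) L3973023 (by decide +kernel)
theorem L3973025 : W_1 (nat_lit 5) (nat_lit 0x10000c0003000300010000000000000000000) (nat_lit 0x0) (nat_lit 0x2000300008000c00020000800040000000000) := T_1 (nat_lit 42) (nat_lit 59) (nat_lit 5) (nat_lit 8) (nat_lit 2) L3973024 (by decide +kernel)
theorem L3973026 : W_1 (nat_lit 6) (nat_lit 0x10000c0003000300000000000000000000000) (nat_lit 0x0) (nat_lit 0x2800300008000c00030000800040000000000) := T_1 (nat_lit 76) (nat_lit 143) (nat_lit 6) (nat_lit 7) (nat_lit 8) L3973025 (by decide +kernel)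
theorem L3973027 : W_1 (nat_lit 4) (nat_lit 0x10001c0003000700000000000000000000000) (nat_lit 0x0) (nat_lit 0x80000801f0000000000000000000) := T_1 (nat_lit 77) (nat_lit 111) (nat_lit 5) (nat_lit 9) (nat_lit 4) L24846 (by decide +kernel)
theorem L3973028 : W_1 (nat_lit 5) (nat_lit 0x10000c0003000700000000000000000000000) (nat_lit 0x0) (nat_lit 0x3000080000801f0000000000000000000) := T_1 (nat_lit 128) (nat_lit 129) (nat_lit 0) (nat_lit 10) (nat_lit 7) L3973027 (by decide +kernel)
theorem L3973029 : W_1 (nat_lit 6) (nat_lit 0x10000c0003000300000000000000000000000) (nat_lit 0x0) (nat_lit 0x300008000c801f0000000000000000000) := T_1 (nat_lit 94) (nat_lit 95) (nat_lit 1) (nat_lit 10) (nat_lit 5) L3973028 (by decide +kernel)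
theorem L3973030 : W_1 (nat_lit 2) (nat_lit 0x18001c0003000780020000000000000000000) (nat_lit 0x0) (nat_lit 0x8000600000000000000000000000000000000000) := D_1 (nat_lit 142) (nat_lit 141) (nat_lit 159) (nat_lit 2) (nat_lit 5) (nat_lit 8) (nat_lit 5) (nat_lit 7) (nat_lit 5) (by decide +kernel)
theorem L3973031 : W_1 (nat_lit 3) (nat_lit 0x10001c0003000780020000000000000000000) (nat_lit 0x0) (nat_lit 0x18000e00000000000000000000000000000000000) := T_1 (nat_lit 143) (nat_lit 160) (nat_lit 4) (nat_lit 7) (nat_lit 9) L3973030 (by decide +kernel)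
theorem L3973032 : W_1 (nat_lit 4) (nat_lit 0x10001c0003000700020000000000000000000) (nat_lit 0x0) (nat_lit 0x18000e00000000000080040000000000000000000) := T_1 (nat_lit 91) (nat_lit 78) (nat_lit 2) (nat_lit 6) (nat_lit 5) L3973031 (by decide +kernel)
theorem L3973033 : W_1 (nat_lit 5) (nat_lit 0x10001c0003000700000000000000000000000) (nat_lit 0x0) (nat_lit 0x18000e00000008000080060000000000000000000) := T_1 (nat_lit 77) (nat_lit 111) (nat_lit 5) (nat_lit 9) (nat_lit 4) L3973032 (by decide +kernel)
theorem L3973034 : W_1 (nat_lit 6) (nat_lit 0x10001c0003000300000000000000000000000) (nat_lit 0x0) (nat_lit 0x18000e00000008000c80060000000000000000000) := T_1 (nat_lit 94) (nat_lit 95) (nat_lit 1) (nat_lit 10) (nat_lit 5) L3973033 (by decide +kernel)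
theorem L3973035 : W_1 (nat_lit 7) (nat_lit 0x10000c0003000300000000000000000000000) (nat_lit 0x0) (nat_lit 0x18000e00300008000c80060000000000000000000) := T_1 (nat_lit 128) (nat_lit 129) (nat_lit 0) (nat_lit 10) (nat_lit 7) L3973034 (by decide +kernel)
theorem L3973036 : W_1 (nat_lit 8) (nat_lit 0x1000080003000300000000000000000000000) (nat_lit 0x0) (nat_lit 0x4000200018002f00360008000c801f0000800040000000000) := Q_1 (nat_lit 126) (C_1 L258193 (C_1 L3973021 (C_1 L3973026 (C_1 L3973029 (C_1 L3973035 N_1))))) (by decide +kernel)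
theorem L3973037 : W_1 (nat_lit 11) (nat_lit 0x1000080002000300000000000000000000000) (nat_lit 0x0) (nat_lit 0x400028001e002f00378009c00c801f0000800040000000000) := Q_1 (nat_lit 108) (C_1 L3973015 (C_1 L258203 (C_1 L32029 (C_1 L3973036 N_1)))) (by decide +kernel)
theorem L3973038 : W_1 (nat_lit 12) (nat_lit 0x1000080000000300000000000000000000000) (nat_lit 0x0) (nat_lit 0x400038001e002f8037807bf03cf01fb801e000f0002800000) := Q_1 (nat_lit 109) (C_1 L3973008 (C_1 L3964869 (C_1 L257828 (C_1 L32036 (C_1 L3973037 N_1))))) (by decide +kernel)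
theorem L3974136 : W_1 (nat_lit 2) (nat_lit 0xa0032000d00088007c0018000000040000000000) (nat_lit 0x0) (nat_lit 0x140004000000000000000000000000000000000000000) := D_1 (nat_lit 158) (nat_lit 174) (nat_lit 176) (nat_lit 5) (nat_lit 5) (nat_lit 6) (nat_lit 7) (nat_lit 5) (nat_lit 6) (by decide +kernel)
theorem L3974137 : W_1 (nat_lit 3) (nat_lit 0x20032000d00088007c0018000000040000000000) (nat_lit 0x0) (nat_lit 0x14000c000400000000000000000000000000000000000) := T_1 (nat_lit 159) (nat_lit 142) (nat_lit 7) (nat_lit 5) (nat_lit 5) L3974136 (by decide +kernel)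
theorem L3974138 : W_1 (nat_lit 4) (nat_lit 0x32000d00088007c0018000000040000000000) (nat_lit 0x0) (nat_lit 0x14000e000500000000000000000000000000000000000) := T_1 (nat_lit 157) (nat_lit 140) (nat_lit 5) (nat_lit 5) (nat_lit 5) L3974137 (by decide +kernel)
theorem L3974139 : W_1 (nat_lit 5) (nat_lit 0x30000d00088007c0018000000040000000000) (nat_lit 0x0) (nat_lit 0x14000e000700000000000000004000000000000000000) := T_1 (nat_lit 141) (nat_lit 74) (nat_lit 6) (nat_lit 5) (nat_lit 8) L3974138 (by decide +kernel)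
theorem L3974140 : W_1 (nat_lit 6) (nat_lit 0x30000c00088007c0018000000040000000000) (nat_lit 0x0) (nat_lit 0x14000e000700030000000000004000000000000000000) := T_1 (nat_lit 124) (nat_lit 125) (nat_lit 3) (nat_lit 5) (nat_lit 7) L3974139 (by decide +kernel)
theorem L3974141 : W_1 (nat_lit 7) (nat_lit 0x30000c00088007c0018000000000000000000) (nat_lit 0x0) (nat_lit 0x14000e000700030000000000004000800040000000000) := T_1 (nat_lit 42) (nat_lit 59) (nat_lit 7) (nat_lit 8) (nat_lit 2) L3974140 (by decide +kernel)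
theorem L3974142 : W_1 (nat_lit 8) (nat_lit 0x10000c00088007c0018000000000000000000) (nat_lit 0x0) (nat_lit 0x14000e002700130000000000004000800040000000000) := T_1 (nat_lit 145) (nat_lit 128) (nat_lit 4) (nat_lit 9) (nat_lit 8) L3974141 (by decide +kernel)
theorem L3974143 : W_1 (nat_lit 9) (nat_lit 0x10000c00088007c0008000000000000000000) (nat_lit 0x0) (nat_lit 0x14000e002700130000000020014000800040000000000) := T_1 (nat_lit 76) (nat_lit 89) (nat_lit 2) (nat_lit 4) (nat_lit 5) L3974142 (by decide +kernel)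
theorem L3974144 : W_1 (nat_lit 10) (nat_lit 0x10000c0008800780008000000000000000000) (nat_lit 0x0) (nat_lit 0x14000e002700130000400060014000800040000000000) := T_1 (nat_lit 90) (nat_lit 106) (nat_lit 1) (nat_lit 8) (nat_lit 5) L3974143 (by decide +kernel)
theorem L3974145 : W_1 (nat_lit 11) (nat_lit 0x10000c0008000780008000000000000000000) (nat_lit 0x0) (nat_lit 0x14000e002700130001c00060014000800040000000000) := T_1 (nat_lit 107) (nat_lit 108) (nat_lit 1) (nat_lit 9) (nat_lit 5) L3974144 (by decide +kernel)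
theorem L3974146 : W_1 (nat_lit 12) (nat_lit 0x10000c0008000780000000000000000000000) (nat_lit 0x0) (nat_lit 0x14000e002700130003c0006001c000800040000000000) := T_1 (nat_lit 75) (nat_lit 109) (nat_lit 7) (nat_lit 7) (nat_lit 4) L3974145 (by decide +kernel)
theorem L3974147 : W_1 (nat_lit 13) (nat_lit 0x10000c0000000780000000000000000000000) (nat_lit 0x0) (nat_lit 0x14000e00270013001bc0006001c000800040000000000) := T_1 (nat_lit 111) (nat_lit 112) (nat_lit 3) (nat_lit 6) (nat_lit 5) L3974146 (by decide +kernel)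
theorem L3974148 : W_1 (nat_lit 2) (nat_lit 0x10000c00088007f0008000000000000000000) (nat_lit 0x0) (nat_lit 0x1c00000000000000000) := D_1 (nat_lit 71) (nat_lit 72) (nat_lit 70) (nat_lit 0) (nat_lit 7) (nat_lit 5) (nat_lit 0) (nat_lit 6) (nat_lit 5) (by decide +kernel)
theorem L3974149 : W_1 (nat_lit 3) (nat_lit 0x10000c00088007e0008000000000000000000) (nat_lit 0x0) (nat_lit 0x10005c00000000000000000) := T_1 (nat_lit 88) (nat_lit 74) (nat_lit 2) (nat_lit 3) (nat_lit 5) L3974148 (by decide +kernel)
theorem L3974150 : W_1 (nat_lit 4) (nat_lit 0x10000c00088007c0008000000000000000000) (nat_lit 0x0) (nat_lit 0x30015c00000000000000000) := T_1 (nat_lit 89) (nat_lit 76) (nat_lit 2) (nat_lit 4) (nat_lit 5) L3974149 (by decide +kernel)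
theorem L3974151 : W_1 (nat_lit 5) (nat_lit 0x10000c00088007c0000000000000000000000) (nat_lit 0x0) (nat_lit 0x200003001dc00000000000000000) := T_1 (nat_lit 75) (nat_lit 109) (nat_lit 7) (nat_lit 7) (nat_lit 4) L3974150 (by decide +kernel)
theorem L3974152 : W_1 (nat_lit 6) (nat_lit 0x10000c00008007c0000000000000000000000) (nat_lit 0x0) (nat_lit 0x1a00003001dc00000000000000000) := T_1 (nat_lit 111) (nat_lit 112) (nat_lit 3) (nat_lit 6) (nat_lit 5) L3974151 (by decide +kernel)
theorem L3974153 : W_1 (nat_lit 7) (nat_lit 0x10000c0000800780000000000000000000000) (nat_lit 0x0) (nat_lit 0x1a40007001dc00000000000000000) := T_1 (nat_lit 90) (nat_lit 106) (nat_lit 1) (nat_lit 8) (nat_lit 5) L3974152 (by decide +kernel)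
theorem L3974154 : W_1 (nat_lit 8) (nat_lit 0x10000c0000000780000000000000000000000) (nat_lit 0x0) (nat_lit 0x1bc0007001dc00000000000000000) := T_1 (nat_lit 107) (nat_lit 108) (nat_lit 1) (nat_lit 9) (nat_lit 5) L3974153 (by decide +kernel)
theorem L3974155 : W_1 (nat_lit 2) (nat_lit 0x10000c00008007f0008000000000000000000) (nat_lit 0x0) (nat_lit 0x1c00000000000000000) := D_1 (nat_lit 71) (nat_lit 72) (nat_lit 70) (nat_lit 0) (nat_lit 7) (nat_lit 5) (nat_lit 0) (nat_lit 6) (nat_lit 5) (by decide +kernel)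
theorem L3974156 : W_1 (nat_lit 3) (nat_lit 0x10000c00008007e0008000000000000000000) (nat_lit 0x0) (nat_lit 0x10005c00000000000000000) := T_1 (nat_lit 88) (nat_lit 74) (nat_lit 2) (nat_lit 3) (nat_lit 5) L3974155 (by decide +kernel)
theorem L3974157 : W_1 (nat_lit 4) (nat_lit 0x10000c00008007c0008000000000000000000) (nat_lit 0x0) (nat_lit 0x30015c00000000000000000) := T_1 (nat_lit 89) (nat_lit 76) (nat_lit 2) (nat_lit 4) (nat_lit 5) L3974156 (by decide +kernel)
theorem L3974158 : W_1 (nat_lit 5) (nat_lit 0x10000c0000800780008000000000000000000) (nat_lit 0x0) (nat_lit 0x400070015c00000000000000000) := T_1 (nat_lit 90) (nat_lit 106) (nat_lit 1) (nat_lit 8) (nat_lit 5) L3974157 (by decide +kernel)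
theorem L3974159 : W_1 (nat_lit 6) (nat_lit 0x10000c0000000780008000000000000000000) (nat_lit 0x0) (nat_lit 0x1c00070015c00000000000000000) := T_1 (nat_lit 107) (nat_lit 108) (nat_lit 1) (nat_lit 9) (nat_lit 5) L3974158 (by decide +kernel)
theorem L3974160 : W_1 (nat_lit 7) (nat_lit 0x10000c0000000780000000000000000000000) (nat_lit 0x0) (nat_lit 0x3c0007001dc00000000000000000) := T_1 (nat_lit 75) (nat_lit 109) (nat_lit 7) (nat_lit 7) (nat_lit 4) L3974159 (by decide +kernel)
theorem L3974161 : W_1 (nat_lit 2) (nat_lit 0x10000e0000800780000000000000000000000) (nat_lit 0x0) (nat_lit 0x10000400040000000000000000000000) := D_1 (nat_lit 106) (nat_lit 90) (nat_lit 124) (nat_lit 1) (nat_lit 8) (nat_lit 5) (nat_lit 0) (nat_lit 8) (nat_lit 7) (by decide +kernel)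
theorem L3974162 : W_1 (nat_lit 3) (nat_lit 0x10000e0000000780000000000000000000000) (nat_lit 0x0) (nat_lit 0x10001c00040000000000000000000000) := T_1 (nat_lit 107) (nat_lit 108) (nat_lit 1) (nat_lit 9) (nat_lit 5) L3974161 (by decide +kernel)
theorem L3974163 : W_1 (nat_lit 2) (nat_lit 0x10000e0009000780004000000000000000000) (nat_lit 0x0) (nat_lit 0x400000000000000008000400000000000000) := D_1 (nat_lit 75) (nat_lit 58) (nat_lit 142) (nat_lit 6) (nat_lit 6) (nat_lit 7) (nat_lit 6) (nat_lit 6) (nat_lit 8) (by decide +kernel)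
theorem L3974164 : W_1 (nat_lit 3) (nat_lit 0x10000e0009000780000000000000000000000) (nat_lit 0x0) (nat_lit 0xc0000000000000000c000400000000000000) := T_1 (nat_lit 74) (nat_lit 143) (nat_lit 7) (nat_lit 6) (nat_lit 4) L3974163 (by decide +kernel)
theorem L3974165 : W_1 (nat_lit 4) (nat_lit 0x10000e0008000780000000000000000000000) (nat_lit 0x0) (nat_lit 0xc0000000180000000c000400000000000000) := T_1 (nat_lit 108) (nat_lit 107) (nat_lit 1) (nat_lit 9) (nat_lit 5) L3974164 (by decide +kernel)
theorem L3974166 : W_1 (nat_lit 5) (nat_lit 0x10000e0000000780000000000000000000000) (nat_lit 0x0) (nat_lit 0xc0000001980000000c000400000000000000) := T_1 (nat_lit 111) (nat_lit 112) (nat_lit 3) (nat_lit 6) (nat_lit 5) L3974165 (by decide +kernel)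
theorem L3974167 : W_1 (nat_lit 6) (nat_lit 0x10000c0000000780000000000000000000000) (nat_lit 0x0) (nat_lit 0x2f80038019e0004000c000400000000000000) := Q_1 (nat_lit 125) (C_1 L3970972 (C_1 L3974162 (C_1 L3974166 (C_1 L3970961 N_1)))) (by decide +kernel)
theorem L3974168 : W_1 (nat_lit 3) (nat_lit 0x10000c0000000780000000000000000000000) (nat_lit 0x0) (nat_lit 0x80000000200000001c000000000000000000) := T_1 (nat_lit 109) (nat_lit 75) (nat_lit 7) (nat_lit 7) (nat_lit 4) L3970918 (by decide +kernel)
theorem L3974169 : W_1 (nat_lit 2) (nat_lit 0x18000c0008000780004000000000000000000) (nat_lit 0x0) (nat_lit 0x20001800000000000000000000000000) := D_1 (nat_lit 108) (nat_lit 107) (nat_lit 125) (nat_lit 1) (nat_lit 9) (nat_lit 5) (nat_lit 7) (nat_lit 6) (nat_lit 4) (by decide +kernel)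
theorem L3974170 : W_1 (nat_lit 3) (nat_lit 0x18000c0008000780000000000000000000000) (nat_lit 0x0) (nat_lit 0x20003800000004000000000000000000) := T_1 (nat_lit 74) (nat_lit 109) (nat_lit 4) (nat_lit 7) (nat_lit 8) L3974169 (by decide +kernel)
theorem L3974171 : W_1 (nat_lit 4) (nat_lit 0x18000c0000000780000000000000000000000) (nat_lit 0x0) (nat_lit 0x2001b800000004000000000000000000) := T_1 (nat_lit 111) (nat_lit 112) (nat_lit 3) (nat_lit 6) (nat_lit 5) L3974170 (by decide +kernel)
theorem L3974172 : W_1 (nat_lit 2) (nat_lit 0x18000e0009000780000000000000000000000) (nat_lit 0x0) (nat_lit 0x200010000400000000000000000000000000000000000) := D_1 (nat_lit 160) (nat_lit 177) (nat_lit 142) (nat_lit 4) (nat_lit 7) (nat_lit 10) (nat_lit 7) (nat_lit 6) (nat_lit 5) (by decide +kernel)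
theorem L3974173 : W_1 (nat_lit 3) (nat_lit 0x18000c0009000780000000000000000000000) (nat_lit 0x0) (nat_lit 0x200010000400020000000000004000000000000000000) := T_1 (nat_lit 125) (nat_lit 74) (nat_lit 7) (nat_lit 6) (nat_lit 4) L3974172 (by decide +kernel)
theorem L3974174 : W_1 (nat_lit 4) (nat_lit 0x18000c0001000780000000000000000000000) (nat_lit 0x0) (nat_lit 0x200010000400020018000000004000000000000000000) := T_1 (nat_lit 111) (nat_lit 112) (nat_lit 3) (nat_lit 6) (nat_lit 5) L3974173 (by decide +kernel)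
theorem L3974175 : W_1 (nat_lit 5) (nat_lit 0x18000c0000000780000000000000000000000) (nat_lit 0x0) (nat_lit 0x200010000400020019800000004000000000000000000) := T_1 (nat_lit 108) (nat_lit 107) (nat_lit 1) (nat_lit 9) (nat_lit 5) L3974174 (by decide +kernel)
theorem L3974176 : W_1 (nat_lit 2) (nat_lit 0x18001c00088007c0010000000000000000000) (nat_lit 0x0) (nat_lit 0x600200000000000000000000000000000000) := D_1 (nat_lit 142) (nat_lit 141) (nat_lit 129) (nat_lit 2) (nat_lit 5) (nat_lit 8) (nat_lit 1) (nat_lit 10) (nat_lit 7) (by decide +kernel)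
theorem L3974177 : W_1 (nat_lit 3) (nat_lit 0x18000c00088007c0010000000000000000000) (nat_lit 0x0) (nat_lit 0x2600300000000000000000000000000000000) := T_1 (nat_lit 128) (nat_lit 145) (nat_lit 4) (nat_lit 9) (nat_lit 8) L3974176 (by decide +kernel)
theorem L3974178 : W_1 (nat_lit 4) (nat_lit 0x18000c00008007c0010000000000000000000) (nat_lit 0x0) (nat_lit 0x2600300018000000000000000000000000000) := T_1 (nat_lit 111) (nat_lit 112) (nat_lit 3) (nat_lit 6) (nat_lit 5) L3974177 (by decide +kernel)
theorem L3974179 : W_1 (nat_lit 5) (nat_lit 0x18000c00008007c0000000000000000000000) (nat_lit 0x0) (nat_lit 0x260030001a000000010000000000000000000) := T_1 (nat_lit 76) (nat_lit 109) (nat_lit 6) (nat_lit 7) (nat_lit 8) L3974178 (by decide +kernel)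
theorem L3974180 : W_1 (nat_lit 6) (nat_lit 0x18000c0000800780000000000000000000000) (nat_lit 0x0) (nat_lit 0x260030001a400040010000000000000000000) := T_1 (nat_lit 90) (nat_lit 106) (nat_lit 1) (nat_lit 8) (nat_lit 5) L3974179 (by decide +kernel)
theorem L3974181 : W_1 (nat_lit 7) (nat_lit 0x18000c0000000780000000000000000000000) (nat_lit 0x0) (nat_lit 0x260030001bc00040010000000000000000000) := T_1 (nat_lit 107) (nat_lit 108) (nat_lit 1) (nat_lit 9) (nat_lit 5) L3974180 (by decide +kernel)
theorem L3974182 : W_1 (nat_lit 8) (nat_lit 0x10000c0000000780000000000000000000000) (nat_lit 0x0) (nat_lit 0x200010002e0032001bc00040014000000000000000000) := Q_1 (nat_lit 143) (C_1 L3508886 (C_1 L3974171 (C_1 L3974175 (C_1 L3974181 N_1)))) (by decide +kernel)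
theorem L3974183 : W_1 (nat_lit 2) (nat_lit 0x10800fc0088007e0009000000000000000000) (nat_lit 0x0) (nat_lit 0x300010000000000000000000000) := D_1 (nat_lit 105) (nat_lit 104) (nat_lit 88) (nat_lit 0) (nat_lit 6) (nat_lit 7) (nat_lit 6) (nat_lit 3) (nat_lit 8) (by decide +kernel)
theorem L3974184 : W_1 (nat_lit 3) (nat_lit 0x10800f80088007e0009000000000000000000) (nat_lit 0x0) (nat_lit 0x40004000300010000000000000000000000) := T_1 (nat_lit 122) (nat_lit 138) (nat_lit 1) (nat_lit 6) (nat_lit 7) L3974183 (by decide +kernel)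
theorem L3974185 : W_1 (nat_lit 4) (nat_lit 0x10000f80088007e0009000000000000000000) (nat_lit 0x0) (nat_lit 0x1c0004000300010000000000000000000000) := T_1 (nat_lit 139) (nat_lit 140) (nat_lit 1) (nat_lit 7) (nat_lit 7) L3974184 (by decide +kernel)
theorem L3974186 : W_1 (nat_lit 5) (nat_lit 0x10000f00088007e0009000000000000000000) (nat_lit 0x0) (nat_lit 0x9c000c000300010000000000000000000000) := T_1 (nat_lit 123) (nat_lit 143) (nat_lit 3) (nat_lit 4) (nat_lit 7) L3974185 (by decide +kernel)
theorem L3974187 : W_1 (nat_lit 6) (nat_lit 0x10000d00088007e0009000000000000000000) (nat_lit 0x0) (nat_lit 0x29c002c000300010000000000000000000000) := T_1 (nat_lit 125) (nat_lit 145) (nat_lit 3) (nat_lit 5) (nat_lit 7) L3974186 (by decide +kernel)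
theorem L3974188 : W_1 (nat_lit 7) (nat_lit 0x10000c00088007e0009000000000000000000) (nat_lit 0x0) (nat_lit 0x2bc003c000300010000000000000000000000) := T_1 (nat_lit 124) (nat_lit 141) (nat_lit 4) (nat_lit 5) (nat_lit 8) L3974187 (by decide +kernel)
theorem L3974189 : W_1 (nat_lit 8) (nat_lit 0x10000c00088007e0008000000000000000000) (nat_lit 0x0) (nat_lit 0x2bc003c000300010001800000000000000000) := T_1 (nat_lit 72) (nat_lit 71) (nat_lit 0) (nat_lit 7) (nat_lit 5) L3974188 (by decide +kernel)
theorem L3974190 : W_1 (nat_lit 9) (nat_lit 0x10000c00088007c0008000000000000000000) (nat_lit 0x0) (nat_lit 0x2bc003c000300030011800000000000000000) := T_1 (nat_lit 89) (nat_lit 76) (nat_lit 2) (nat_lit 4) (nat_lit 5) L3974189 (by decide +kernel)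
theorem L3974191 : W_1 (nat_lit 10) (nat_lit 0x10000c0008800780008000000000000000000) (nat_lit 0x0) (nat_lit 0x2bc003c000700070011800000000000000000) := T_1 (nat_lit 90) (nat_lit 106) (nat_lit 1) (nat_lit 8) (nat_lit 5) L3974190 (by decide +kernel)
theorem L3974192 : W_1 (nat_lit 11) (nat_lit 0x10000c0008000780008000000000000000000) (nat_lit 0x0) (nat_lit 0x2bc003c001f00070011800000000000000000) := T_1 (nat_lit 107) (nat_lit 108) (nat_lit 1) (nat_lit 9) (nat_lit 5) L3974191 (by decide +kernel)
theorem L3974193 : W_1 (nat_lit 12) (nat_lit 0x10000c0008000780000000000000000000000) (nat_lit 0x0) (nat_lit 0x2bc003c003f00070019800000000000000000) := T_1 (nat_lit 75) (nat_lit 109) (nat_lit 7) (nat_lit 7) (nat_lit 4) L3974192 (by decide +kernel)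
theorem L3974194 : W_1 (nat_lit 13) (nat_lit 0x10000c0000000780000000000000000000000) (nat_lit 0x0) (nat_lit 0x2bc003c01bf00070019800000000000000000) := T_1 (nat_lit 111) (nat_lit 112) (nat_lit 3) (nat_lit 6) (nat_lit 5) L3974193 (by decide +kernel)
theorem L3974195 : W_1 (nat_lit 14) (nat_lit 0x1000080000000780000000000000000000000) (nat_lit 0x0) (nat_lit 0x34001e002fc037c01bf0007001dc00c00040000000000) := Q_1 (nat_lit 126) (C_1 L3974147 (C_1 L3974154 (C_1 L3974160 (C_1 L3974167 (C_1 L3974168 (C_1 L3974182 (C_1 L3974194 N_1))))))) (by decide +kernel)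
theorem L3974196 : W_1 (nat_lit 15) (nat_lit 0x1000080000000700000000000000000000000) (nat_lit 0x0) (nat_lit 0x34001e002fc037c01bf000f007dc00c00040000000000) := Q_1 (nat_lit 91) (C_1 L32012 (C_1 L24436 (C_1 L23635 (C_1 L3974195 N_1)))) (by decide +kernel)
theorem L3974197 : W_1 (nat_lit 16) (nat_lit 0x1000080000000700000000000000000000000) (nat_lit 0x0) (nat_lit 0x807ae01f401fb0078003bc008000400000000000) := Q_1 (nat_lit 95) (C_1 L3969169 (C_1 L258787 (C_1 L257048 (C_1 L31984 N_1)))) (by decide +kernel)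
theorem L3974198 : W_1 (nat_lit 17) (nat_lit 0x1000080000000300000000000000000000000) (nat_lit 0x0) (nat_lit 0x30001b400de07afc1f7c1fbf07cf07fdc0fc007c0010000000) := Q_1 (nat_lit 94) (C_1 L258912 (C_1 L3969203 (C_1 L3968947 (C_1 L258854 (C_1 L3968946 (C_1 L3974196 (C_1 L3969202 (C_1 L3974197 N_1)))))))) (by decide +kernel)
theorem L3974201 : W_1 (nat_lit 2) (nat_lit 0x100008000a0007f0008000000000000000000) (nat_lit 0x0) (nat_lit 0x1c00000000000000000) := D_1 (nat_lit 71) (nat_lit 72) (nat_lit 70) (nat_lit 0) (nat_lit 7) (nat_lit 5) (nat_lit 0) (nat_lit 6) (nat_lit 5) (by decide +kernel)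
theorem L3974202 : W_1 (nat_lit 3) (nat_lit 0x100008000a0007e0008000000000000000000) (nat_lit 0x0) (nat_lit 0x10005c00000000000000000) := T_1 (nat_lit 88) (nat_lit 74) (nat_lit 2) (nat_lit 3) (nat_lit 5) L3974201 (by decide +kernel)
theorem L3974203 : W_1 (nat_lit 4) (nat_lit 0x100008000a0007c0008000000000000000000) (nat_lit 0x0) (nat_lit 0x30015c00000000000000000) := T_1 (nat_lit 89) (nat_lit 76) (nat_lit 2) (nat_lit 4) (nat_lit 5) L3974202 (by decide +kernel)
theorem L3974204 : W_1 (nat_lit 5) (nat_lit 0x10000800080007c0008000000000000000000) (nat_lit 0x0) (nat_lit 0x40002000030015c00000000000000000) := T_1 (nat_lit 109) (nat_lit 126) (nat_lit 7) (nat_lit 7) (nat_lit 4) L3974203 (by decide +kernel)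
theorem L3974205 : W_1 (nat_lit 6) (nat_lit 0x10000800000007c0008000000000000000000) (nat_lit 0x0) (nat_lit 0x4001a000030015c00000000000000000) := T_1 (nat_lit 111) (nat_lit 112) (nat_lit 3) (nat_lit 6) (nat_lit 5) L3974204 (by decide +kernel)
theorem L3974206 : W_1 (nat_lit 2) (nat_lit 0x10000800000007e0008000000000000000000) (nat_lit 0x0) (nat_lit 0x10006000000000000000000) := D_1 (nat_lit 74) (nat_lit 88) (nat_lit 73) (nat_lit 2) (nat_lit 3) (nat_lit 5) (nat_lit 0) (nat_lit 9) (nat_lit 5) (by decide +kernel)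
theorem L3974207 : W_1 (nat_lit 3) (nat_lit 0x10000800000007c0008000000000000000000) (nat_lit 0x0) (nat_lit 0x30016000000000000000000) := T_1 (nat_lit 89) (nat_lit 76) (nat_lit 2) (nat_lit 4) (nat_lit 5) L3974206 (by decide +kernel)
theorem L3974208 : W_1 (nat_lit 7) (nat_lit 0x1000080000000780008000000000000000000) (nat_lit 0x0) (nat_lit 0x4001a000070017c00000000000000000) := Q_1 (nat_lit 90) (C_1 L3970492 (C_1 L3963989 (C_1 L3974205 (C_1 L3974207 N_1)))) (by decide +kernel)
theorem L3974209 : W_1 (nat_lit 3) (nat_lit 0x100008000a000780008000000000000000000) (nat_lit 0x0) (nat_lit 0x400020001800000000000400000000000000) := T_1 (nat_lit 108) (nat_lit 107) (nat_lit 1) (nat_lit 9) (nat_lit 5) L32069 (by decide +kernel)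
theorem L3974210 : W_1 (nat_lit 4) (nat_lit 0x1000080008000780008000000000000000000) (nat_lit 0x0) (nat_lit 0x400060003800000000000400000000000000) := T_1 (nat_lit 109) (nat_lit 126) (nat_lit 7) (nat_lit 7) (nat_lit 4) L3974209 (by decide +kernel)
theorem L3974211 : W_1 (nat_lit 5) (nat_lit 0x1000080000000780008000000000000000000) (nat_lit 0x0) (nat_lit 0x40006001b800000000000400000000000000) := T_1 (nat_lit 111) (nat_lit 112) (nat_lit 3) (nat_lit 6) (nat_lit 5) L3974210 (by decide +kernel)
theorem L3974212 : W_1 (nat_lit 9) (nat_lit 0x1000080000000780000000000000000000000) (nat_lit 0x0) (nat_lit 0x40006001b80007001fc00f00070003800000) := Q_1 (nat_lit 75) (C_1 L258758 (C_1 L3969629 (C_1 L3974208 (C_1 L3974211 N_1)))) (by decide +kernel)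
theorem L3974213 : W_1 (nat_lit 12) (nat_lit 0x1000080000000700000000000000000000000) (nat_lit 0x0) (nat_lit 0x40016001b8000f007fc03fc00f8007800000) := Q_1 (nat_lit 91) (C_1 L258771 (C_1 L31997 (C_1 L23635 (C_1 L3974212 N_1)))) (by decide +kernel)
theorem L3974214 : W_1 (nat_lit 17) (nat_lit 0x1000080000000300000000000000000000000) (nat_lit 0x0) (nat_lit 0x300018000c807ae01f601fb807cf07ffc0ffc07f8017800000) := Q_1 (nat_lit 94) (C_1 L259002 (C_1 L3974197 (C_1 L3968947 (C_1 L3968946 (C_1 L3974213 (C_1 L3969202 N_1)))))) (by decide +kernel)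
theorem L3974215 : W_1 (nat_lit 18) (nat_lit 0x1000080000000200000000000000000000000) (nat_lit 0x0) (nat_lit 0x3f001fc00de07afc1f7c1fbf07df07ffc0ffc07fe01fe00160) := Q_1 (nat_lit 92) (C_1 L257052 (C_1 L258146 (C_1 L259093 (C_1 L258847 (C_1 L258913 (C_1 L3962759 (C_1 L3964868 (C_1 L3969204 (C_1 L3969212 (C_1 L3970721 (C_1 L3972875 (C_1 L3973038 (C_1 L3974198 (C_1 L3974214 N_1)))))))))))))) (by decide +kernel)
theorem L3974216 : W_1 (nat_lit 10) (nat_lit 0x1000080000000200000000000000000000000) (nat_lit 0x0) (nat_lit 0x5e002e00778007000100018000400000000000000) := Q_1 (nat_lit 110) (C_1 L18150 (C_1 L18141 (C_1 L20653 (C_1 L13 N_1)))) (by decide +kernel)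
theorem L3974217 : W_1 (nat_lit 14) (nat_lit 0x1000080000000200000000000000000000000) (nat_lit 0x0) (nat_lit 0xa000700038005c002e0077001f801c00070001000000000000000) := Q_1 (nat_lit 110) (C_1 L18151 (C_1 L18142 (C_1 L20421 (C_1 L13 N_1)))) (by decide +kernel)
theorem L3974218 : W_1 (nat_lit 12) (nat_lit 0x1000080000000200000000000000000000000) (nat_lit 0x0) (nat_lit 0x50002e0076003e003dc00fe001400000000000000) := Q_1 (nat_lit 110) (C_1 L18151 (C_1 L18142 (C_1 L3256692 (C_1 L18150 N_1)))) (by decide +kernel)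
theorem L3974219 : W_1 (nat_lit 14) (nat_lit 0x1000080000000200000000000000000000000) (nat_lit 0x0) (nat_lit 0xa000700038005e002e0077803fe03de00ef800000000000000000) := Q_1 (nat_lit 110) (C_1 L20424 (C_1 L20380 (C_1 L3256692 (C_1 L18611 (C_1 L20653 (C_1 L20421 N_1)))))) (by decide +kernel)
theorem L3974220 : W_1 (nat_lit 19) (nat_lit 0x1000080000000000000000000000000000000) (nat_lit 0x0) (nat_lit 0xa003f001fc00de07afc1f7c1fff07ff07ffc0ffc07fe01fe00160) := Q_1 (nat_lit 93) (C_1 L23415 (C_1 L23416 (C_1 L3928843 (C_1 L3928844 (C_1 L3928845 (C_1 L3974215 (C_1 L3974216 (C_1 L3974217 (C_1 L3974218 (C_1 L3974219 N_1)))))))))) (by decide +kernel)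
theorem L3974221 : W_1 (nat_lit 5) (nat_lit 0x20001000080000000000000000000000000000000) (nat_lit 0x0) (nat_lit 0x400060001000080010000e000700028000000000000000000) := Q_1 (nat_lit 110) (C_1 L18627 (C_1 L118 (C_1 L18624 N_1))) (by decide +kernel)
theorem L3974222 : W_1 (nat_lit 7) (nat_lit 0x20001000080000000000000000000000000000000) (nat_lit 0x0) (nat_lit 0x28001c000e00040000e0034000e000100000000000000000000000) := Q_1 (nat_lit 178) (C_1 L1400073 (C_1 L33797 (C_1 L35941 (C_1 L1400068 (C_1 L33787 N_1))))) (by decide +kernel)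
theorem L3974223 : W_1 (nat_lit 6) (nat_lit 0x20001000080000000000000000000000000000000) (nat_lit 0x0) (nat_lit 0x28001c000e00050000000040006000100000000000000000000000) := Q_1 (nat_lit 178) (C_1 L33797 (C_1 L101 (C_1 L33787 (C_1 L109 N_1)))) (by decide +kernel)
theorem L3974224 : W_1 (nat_lit 6) (nat_lit 0x20001000080000000000000000000000000000000) (nat_lit 0x0) (nat_lit 0x28001c000e0005000000010000c000400000000000000000000000) := Q_1 (nat_lit 178) (C_1 L35941 (C_1 L101 (C_1 L33784 (C_1 L33766 N_1)))) (by decide +kernel)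
theorem L3974225 : W_1 (nat_lit 2) (nat_lit 0x60001000080004000300030000000000000000000) (nat_lit 0x0) (nat_lit 0x10000800040000000000000000000000000000000) := D_1 (nat_lit 143) (nat_lit 160) (nat_lit 126) (nat_lit 5) (nat_lit 8) (nat_lit 5) (nat_lit 5) (nat_lit 8) (nat_lit 4) (by decide +kernel)
theorem L3974226 : W_1 (nat_lit 3) (nat_lit 0x60001000080004000300020000000000000000000) (nat_lit 0x0) (nat_lit 0x10000800040000000000010001000000000000000) := T_1 (nat_lit 76) (nat_lit 60) (nat_lit 6) (nat_lit 8) (nat_lit 7) L3974225 (by decide +kernel)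
theorem L3974227 : W_1 (nat_lit 4) (nat_lit 0x60001000080004000300000000000000000000000) (nat_lit 0x0) (nat_lit 0x10000800040000000400030001000000000000000) := T_1 (nat_lit 77) (nat_lit 94) (nat_lit 6) (nat_lit 8) (nat_lit 8) L3974226 (by decide +kernel)
theorem L3974228 : W_1 (nat_lit 5) (nat_lit 0x20001000080004000300000000000000000000000) (nat_lit 0x0) (nat_lit 0x800050000800040000000400030001000000000000000) := T_1 (nat_lit 162) (nat_lit 179) (nat_lit 7) (nat_lit 8) (nat_lit 6) L3974227 (by decide +kernel)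
theorem L3974229 : W_1 (nat_lit 6) (nat_lit 0x20001000080004000100000000000000000000000) (nat_lit 0x0) (nat_lit 0x800050000800040000000600038001000000000000000) := T_1 (nat_lit 93) (nat_lit 75) (nat_lit 4) (nat_lit 8) (nat_lit 8) L3974228 (by decide +kernel)
theorem L3974230 : W_1 (nat_lit 7) (nat_lit 0x20001000080004000000000000000000000000000) (nat_lit 0x0) (nat_lit 0x800050000800040002000700038001000000000000000) := T_1 (nat_lit 92) (nat_lit 109) (nat_lit 4) (nat_lit 8) (nat_lit 9) L3974229 (by decide +kernel)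
theorem L3974231 : W_1 (nat_lit 2) (nat_lit 0x60001800080004000600010000000000000000000) (nat_lit 0x0) (nat_lit 0x100008000400000000000000) := D_1 (nat_lit 75) (nat_lit 58) (nat_lit 92) (nat_lit 4) (nat_lit 8) (nat_lit 7) (nat_lit 4) (nat_lit 8) (nat_lit 8) (by decide +kernel)
theorem L3974232 : W_1 (nat_lit 3) (nat_lit 0x60001800080004000600000000000000000000000) (nat_lit 0x0) (nat_lit 0x40000000100018000400000000000000) := T_1 (nat_lit 76) (nat_lit 126) (nat_lit 5) (nat_lit 8) (nat_lit 4) L3974231 (by decide +kernel)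
theorem L3974233 : W_1 (nat_lit 4) (nat_lit 0x60001000080004000600000000000000000000000) (nat_lit 0x0) (nat_lit 0x10000800040000000100018000400000000000000) := T_1 (nat_lit 143) (nat_lit 160) (nat_lit 5) (nat_lit 8) (nat_lit 5) L3974232 (by decide +kernel)
theorem L3974234 : W_1 (nat_lit 5) (nat_lit 0x60001000080004000400000000000000000000000) (nat_lit 0x0) (nat_lit 0x10000800040000000300038000400000000000000) := T_1 (nat_lit 93) (nat_lit 77) (nat_lit 6) (nat_lit 8) (nat_lit 8) L3974233 (by decide +kernel)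
theorem L3974235 : W_1 (nat_lit 6) (nat_lit 0x60001000080004000000000000000000000000000) (nat_lit 0x0) (nat_lit 0x10000800040008000700038000400000000000000) := T_1 (nat_lit 94) (nat_lit 111) (nat_lit 6) (nat_lit 8) (nat_lit 9) L3974234 (by decide +kernel)
theorem L3974236 : W_1 (nat_lit 7) (nat_lit 0x20001000080004000000000000000000000000000) (nat_lit 0x0) (nat_lit 0x800050000800040008000700038000400000000000000) := T_1 (nat_lit 162) (nat_lit 179) (nat_lit 7) (nat_lit 8) (nat_lit 6) L3974235 (by decide +kernel)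
theorem L3974237 : W_1 (nat_lit 2) (nat_lit 0x400060001c000c0004000300000000000000000000000) (nat_lit 0x0) (nat_lit 0x300008000000000000000000000000000) := D_1 (nat_lit 128) (nat_lit 129) (nat_lit 111) (nat_lit 1) (nat_lit 10) (nat_lit 7) (nat_lit 6) (nat_lit 8) (nat_lit 10) (by decide +kernel)
theorem L3974238 : W_1 (nat_lit 3) (nat_lit 0x60001c000c0004000300000000000000000000000) (nat_lit 0x0) (nat_lit 0x8000400000000000300008000000000000000000000000000) := T_1 (nat_lit 178) (nat_lit 195) (nat_lit 4) (nat_lit 8) (nat_lit 11) L3974237 (by decide +kernel)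
theorem L3974239 : W_1 (nat_lit 4) (nat_lit 0x600018000c0004000300000000000000000000000) (nat_lit 0x0) (nat_lit 0x8000400000000600300008000000000000000000000000000) := T_1 (nat_lit 142) (nat_lit 141) (nat_lit 3) (nat_lit 5) (nat_lit 8) L3974238 (by decide +kernel)
theorem L3974240 : W_1 (nat_lit 5) (nat_lit 0x60001800080004000300000000000000000000000) (nat_lit 0x0) (nat_lit 0x8000400000000600340008000000010000000000000000000) := T_1 (nat_lit 126) (nat_lit 76) (nat_lit 5) (nat_lit 8) (nat_lit 4) L3974239 (by decide +kernel)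
theorem L3974241 : W_1 (nat_lit 6) (nat_lit 0x60001000080004000300000000000000000000000) (nat_lit 0x0) (nat_lit 0x8000400010000e00340008000000010000000000000000000) := T_1 (nat_lit 143) (nat_lit 160) (nat_lit 5) (nat_lit 8) (nat_lit 5) L3974240 (by decide +kernel)
theorem L3974242 : W_1 (nat_lit 7) (nat_lit 0x20001000080004000300000000000000000000000) (nat_lit 0x0) (nat_lit 0x8000c00050000e00340008000000010000000000000000000) := T_1 (nat_lit 162) (nat_lit 179) (nat_lit 7) (nat_lit 8) (nat_lit 6) L3974241 (by decide +kernel)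
theorem L3974243 : W_1 (nat_lit 8) (nat_lit 0x20001000080004000100000000000000000000000) (nat_lit 0x0) (nat_lit 0x8000c00050000e00340008000200018000000000000000000) := T_1 (nat_lit 93) (nat_lit 75) (nat_lit 4) (nat_lit 8) (nat_lit 8) L3974242 (by decide +kernel)
theorem L3974244 : W_1 (nat_lit 9) (nat_lit 0x20001000080004000000000000000000000000000) (nat_lit 0x0) (nat_lit 0x8000c00050000e0034000a000300018000000000000000000) := T_1 (nat_lit 92) (nat_lit 109) (nat_lit 4) (nat_lit 8) (nat_lit 9) L3974243 (by decide +kernel)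
theorem L3974245 : W_1 (nat_lit 2) (nat_lit 0x600018000c0004000600000000000000000000000) (nat_lit 0x0) (nat_lit 0x8000400000000000000002000000000000000000000000000) := D_1 (nat_lit 178) (nat_lit 195) (nat_lit 109) (nat_lit 4) (nat_lit 8) (nat_lit 11) (nat_lit 4) (nat_lit 8) (nat_lit 10) (by decide +kernel)
theorem L3974246 : W_1 (nat_lit 3) (nat_lit 0x60001800080004000600000000000000000000000) (nat_lit 0x0) (nat_lit 0x8000400000000000040002000000010000000000000000000) := T_1 (nat_lit 126) (nat_lit 76) (nat_lit 5) (nat_lit 8) (nat_lit 4) L3974245 (by decide +kernel)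
theorem L3974247 : W_1 (nat_lit 4) (nat_lit 0x60001000080004000600000000000000000000000) (nat_lit 0x0) (nat_lit 0x8000400010000800040002000000010000000000000000000) := T_1 (nat_lit 143) (nat_lit 160) (nat_lit 5) (nat_lit 8) (nat_lit 5) L3974246 (by decide +kernel)
theorem L3974248 : W_1 (nat_lit 5) (nat_lit 0x60001000080004000400000000000000000000000) (nat_lit 0x0) (nat_lit 0x8000400010000800040002000200030000000000000000000) := T_1 (nat_lit 93) (nat_lit 77) (nat_lit 6) (nat_lit 8) (nat_lit 8) L3974247 (by decide +kernel)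
theorem L3974249 : W_1 (nat_lit 6) (nat_lit 0x60001000080004000000000000000000000000000) (nat_lit 0x0) (nat_lit 0x800040001000080004000a000600030000000000000000000) := T_1 (nat_lit 94) (nat_lit 111) (nat_lit 6) (nat_lit 8) (nat_lit 9) L3974248 (by decide +kernel)
theorem L3974250 : W_1 (nat_lit 7) (nat_lit 0x20001000080004000000000000000000000000000) (nat_lit 0x0) (nat_lit 0x8000c0005000080004000a000600030000000000000000000) := T_1 (nat_lit 162) (nat_lit 179) (nat_lit 7) (nat_lit 8) (nat_lit 6) L3974249 (by decide +kernel)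
theorem L3974251 : W_1 (nat_lit 10) (nat_lit 0x20001000080000000000000000000000000000000) (nat_lit 0x0) (nat_lit 0x18000c00050000e0034000e000700038001400000000000000) := Q_1 (nat_lit 110) (C_1 L18627 (C_1 L3974230 (C_1 L3974236 (C_1 L3974244 (C_1 L3974250 (C_1 L70 N_1)))))) (by decide +kernel)
theorem L3974252 : W_1 (nat_lit 14) (nat_lit 0x20001000080000000000000000000000000000000) (nat_lit 0x0) (nat_lit 0x2800ff007f801dc000e0076000b000000000000000000000000000) := Q_1 (nat_lit 178) (C_1 L1400073 (C_1 L33797 (C_1 L35941 (C_1 L1400068 (C_1 L35321 N_1))))) (by decide +kernel)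
theorem L3974253 : W_1 (nat_lit 13) (nat_lit 0x20001000080000000000000000000000000000000) (nat_lit 0x0) (nat_lit 0xa0005000080077c03fc03ff0038001400000000000000) := Q_1 (nat_lit 110) (C_1 L3974236 (C_1 L18627 (C_1 L3974230 (C_1 L118 (C_1 L18179 (C_1 L19282 N_1)))))) (by decide +kernel)
theorem L3974254 : W_1 (nat_lit 15) (nat_lit 0x1000080000000000000000000000000000000) (nat_lit 0x0) (nat_lit 0x2800ff007f801fc000e0077c03fc03ff0038001400000000000000) := Q_1 (nat_lit 161) (C_1 L3974221 (C_1 L3974222 (C_1 L3974223 (C_1 L3974224 (C_1 L3974251 (C_1 L3974252 (C_1 L3974253 N_1))))))) (by decide +kernel)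
theorem L3974255 : W_1 (nat_lit 2) (nat_lit 0x800020001000080006000000000000000000000000000) (nat_lit 0x0) (nat_lit 0x10000400000000000040000000000000000000000000000000) := D_1 (nat_lit 178) (nat_lit 126) (nat_lit 196) (nat_lit 4) (nat_lit 8) (nat_lit 10) (nat_lit 7) (nat_lit 8) (nat_lit 7) (by decide +kernel)
theorem L3974256 : W_1 (nat_lit 3) (nat_lit 0x20001000080006000000000000000000000000000) (nat_lit 0x0) (nat_lit 0x10000c00040000000040000000000000000000000000000000) := T_1 (nat_lit 179) (nat_lit 162) (nat_lit 7) (nat_lit 8) (nat_lit 6) L3974255 (by decide +kernel)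
theorem L3974257 : W_1 (nat_lit 4) (nat_lit 0x20001000080004000000000000000000000000000) (nat_lit 0x0) (nat_lit 0x10000c00040000000040002000100000000000000000000000) := T_1 (nat_lit 109) (nat_lit 92) (nat_lit 4) (nat_lit 8) (nat_lit 9) L3974256 (by decide +kernel)
theorem L3974258 : W_1 (nat_lit 4) (nat_lit 0x20001000080004000000000000000000000000000) (nat_lit 0x0) (nat_lit 0x10000c00040000000100008000400000000000000000000000) := T_1 (nat_lit 111) (nat_lit 94) (nat_lit 6) (nat_lit 8) (nat_lit 9) L8300 (by decide +kernel)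
theorem L3974259 : W_1 (nat_lit 5) (nat_lit 0x1000080004000000000000000000000000000) (nat_lit 0x0) (nat_lit 0x10000c0006000000014000a000700028000000000000000000) := Q_1 (nat_lit 161) (C_1 L18627 (C_1 L3974257 (C_1 L3974258 N_1))) (by decide +kernel)
theorem L3974260 : W_1 (nat_lit 2) (nat_lit 0x3000080004000200018001800000000000000) (nat_lit 0x0) (nat_lit 0x800040002000000000000000000000000000) := D_1 (nat_lit 126) (nat_lit 143) (nat_lit 109) (nat_lit 5) (nat_lit 8) (nat_lit 4) (nat_lit 5) (nat_lit 8) (nat_lit 3) (by decide +kernel)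
theorem L3974261 : W_1 (nat_lit 3) (nat_lit 0x3000080004000200018001000000000000000) (nat_lit 0x0) (nat_lit 0x800040002000000000000800080000000000) := T_1 (nat_lit 59) (nat_lit 43) (nat_lit 6) (nat_lit 8) (nat_lit 6) L3974260 (by decide +kernel)
theorem L3974262 : W_1 (nat_lit 4) (nat_lit 0x3000080004000200018000000000000000000) (nat_lit 0x0) (nat_lit 0x800040002000000020001800080000000000) := T_1 (nat_lit 60) (nat_lit 77) (nat_lit 6) (nat_lit 8) (nat_lit 7) L3974261 (by decide +kernel)
theorem L3974263 : W_1 (nat_lit 5) (nat_lit 0x1000080004000200018000000000000000000) (nat_lit 0x0) (nat_lit 0x40002800040002000000020001800080000000000) := T_1 (nat_lit 145) (nat_lit 162) (nat_lit 7) (nat_lit 8) (nat_lit 5) L3974262 (by decide +kernel)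
theorem L3974264 : W_1 (nat_lit 6) (nat_lit 0x1000080004000200008000000000000000000) (nat_lit 0x0) (nat_lit 0x40002800040002000000030001c00080000000000) := T_1 (nat_lit 76) (nat_lit 58) (nat_lit 4) (nat_lit 8) (nat_lit 7) L3974263 (by decide +kernel)
theorem L3974265 : W_1 (nat_lit 7) (nat_lit 0x1000080004000200000000000000000000000) (nat_lit 0x0) (nat_lit 0x40002800040002000100038001c00080000000000) := T_1 (nat_lit 75) (nat_lit 92) (nat_lit 4) (nat_lit 8) (nat_lit 8) L3974264 (by decide +kernel)
theorem L3974266 : W_1 (nat_lit 5) (nat_lit 0x3000080004000200030000000000000000000) (nat_lit 0x0) (nat_lit 0x800070002000000008000c00020000000000) := T_1 (nat_lit 126) (nat_lit 143) (nat_lit 5) (nat_lit 8) (nat_lit 4) L30933 (by decide +kernel)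
theorem L3974267 : W_1 (nat_lit 6) (nat_lit 0x3000080004000200020000000000000000000) (nat_lit 0x0) (nat_lit 0x800070002000000018001c00020000000000) := T_1 (nat_lit 76) (nat_lit 60) (nat_lit 6) (nat_lit 8) (nat_lit 7) L3974266 (by decide +kernel)
theorem L3974268 : W_1 (nat_lit 7) (nat_lit 0x3000080004000200000000000000000000000) (nat_lit 0x0) (nat_lit 0x800070002000400038001c00020000000000) := T_1 (nat_lit 77) (nat_lit 94) (nat_lit 6) (nat_lit 8) (nat_lit 8) L3974267 (by decide +kernel)
theorem L3974269 : W_1 (nat_lit 8) (nat_lit 0x1000080004000200000000000000000000000) (nat_lit 0x0) (nat_lit 0x40002800070002000400038001c00020000000000) := T_1 (nat_lit 145) (nat_lit 162) (nat_lit 7) (nat_lit 8) (nat_lit 5) L3974268 (by decide +kernel)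
theorem L3974270 : W_1 (nat_lit 2) (nat_lit 0x30000c0006000200030000000000000000000) (nat_lit 0x0) (nat_lit 0x400020000000000000000100000000000000000000000) := D_1 (nat_lit 161) (nat_lit 178) (nat_lit 92) (nat_lit 4) (nat_lit 8) (nat_lit 10) (nat_lit 4) (nat_lit 8) (nat_lit 9) (by decide +kernel)
theorem L3974271 : W_1 (nat_lit 3) (nat_lit 0x30000c0004000200030000000000000000000) (nat_lit 0x0) (nat_lit 0x400020000000000002000100000000800000000000000) := T_1 (nat_lit 109) (nat_lit 59) (nat_lit 5) (nat_lit 8) (nat_lit 3) L3974270 (by decide +kernel)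
theorem L3974272 : W_1 (nat_lit 4) (nat_lit 0x3000080004000200030000000000000000000) (nat_lit 0x0) (nat_lit 0x400020000800040002000100000000800000000000000) := T_1 (nat_lit 126) (nat_lit 143) (nat_lit 5) (nat_lit 8) (nat_lit 4) L3974271 (by decide +kernel)
theorem L3974273 : W_1 (nat_lit 5) (nat_lit 0x1000080004000200030000000000000000000) (nat_lit 0x0) (nat_lit 0x400060002800040002000100000000800000000000000) := T_1 (nat_lit 145) (nat_lit 162) (nat_lit 7) (nat_lit 8) (nat_lit 5) L3974272 (by decide +kernel)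
theorem L3974274 : W_1 (nat_lit 6) (nat_lit 0x1000080004000200020000000000000000000) (nat_lit 0x0) (nat_lit 0x400060002800040002000100010001800000000000000) := T_1 (nat_lit 76) (nat_lit 60) (nat_lit 6) (nat_lit 8) (nat_lit 7) L3974273 (by decide +kernel)
theorem L3974275 : W_1 (nat_lit 7) (nat_lit 0x1000080004000200000000000000000000000) (nat_lit 0x0) (nat_lit 0x400060002800040002000500030001800000000000000) := T_1 (nat_lit 77) (nat_lit 94) (nat_lit 6) (nat_lit 8) (nat_lit 8) L3974274 (by decide +kernel)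
theorem L3974276 : W_1 (nat_lit 2) (nat_lit 0x200030000e0006000200018000000000000000000) (nat_lit 0x0) (nat_lit 0x18000400000000000000000000000) := D_1 (nat_lit 111) (nat_lit 112) (nat_lit 94) (nat_lit 1) (nat_lit 10) (nat_lit 6) (nat_lit 6) (nat_lit 8) (nat_lit 9) (by decide +kernel)
theorem L3974277 : W_1 (nat_lit 3) (nat_lit 0x30000e0006000200018000000000000000000) (nat_lit 0x0) (nat_lit 0x400020000000000018000400000000000000000000000) := T_1 (nat_lit 161) (nat_lit 178) (nat_lit 4) (nat_lit 8) (nat_lit 10) L3974276 (by decide +kernel)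
theorem L3974278 : W_1 (nat_lit 4) (nat_lit 0x30000c0006000200018000000000000000000) (nat_lit 0x0) (nat_lit 0x400020000000030018000400000000000000000000000) := T_1 (nat_lit 125) (nat_lit 124) (nat_lit 3) (nat_lit 5) (nat_lit 7) L3974277 (by decide +kernel)
theorem L3974279 : W_1 (nat_lit 5) (nat_lit 0x30000c0004000200018000000000000000000) (nat_lit 0x0) (nat_lit 0x40002000000003001a000400000000800000000000000) := T_1 (nat_lit 109) (nat_lit 59) (nat_lit 5) (nat_lit 8) (nat_lit 3) L3974278 (by decide +kernel)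
theorem L3974280 : W_1 (nat_lit 6) (nat_lit 0x3000080004000200018000000000000000000) (nat_lit 0x0) (nat_lit 0x40002000080007001a000400000000800000000000000) := T_1 (nat_lit 126) (nat_lit 143) (nat_lit 5) (nat_lit 8) (nat_lit 4) L3974279 (by decide +kernel)
theorem L3974281 : W_1 (nat_lit 7) (nat_lit 0x3000080004000200008000000000000000000) (nat_lit 0x0) (nat_lit 0x40002000080007001a000400010000c00000000000000) := T_1 (nat_lit 76) (nat_lit 58) (nat_lit 4) (nat_lit 8) (nat_lit 7) L3974280 (by decide +kernel)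
theorem L3974282 : W_1 (nat_lit 8) (nat_lit 0x3000080004000200000000000000000000000) (nat_lit 0x0) (nat_lit 0x40002000080007001a000500018000c00000000000000) := T_1 (nat_lit 75) (nat_lit 92) (nat_lit 4) (nat_lit 8) (nat_lit 8) L3974281 (by decide +kernel)
theorem L3974283 : W_1 (nat_lit 9) (nat_lit 0x1000080004000200000000000000000000000) (nat_lit 0x0) (nat_lit 0x40006000280007001a000500018000c00000000000000) := T_1 (nat_lit 145) (nat_lit 162) (nat_lit 7) (nat_lit 8) (nat_lit 5) L3974282 (by decide +kernel)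
theorem L3974284 : W_1 (nat_lit 10) (nat_lit 0x1000080004000000000000000000000000000) (nat_lit 0x0) (nat_lit 0xc0006000280007001a000700038001c000a0000000000) := Q_1 (nat_lit 93) (C_1 L18155 (C_1 L180 (C_1 L3974265 (C_1 L3974269 (C_1 L3974275 (C_1 L3974283 N_1)))))) (by decide +kernel)
theorem L3974285 : W_1 (nat_lit 2) (nat_lit 0x10000c0004000200018000800000000000000) (nat_lit 0x0) (nat_lit 0x2000100008000000000000000000000000000) := D_1 (nat_lit 128) (nat_lit 145) (nat_lit 111) (nat_lit 7) (nat_lit 8) (nat_lit 4) (nat_lit 7) (nat_lit 8) (nat_lit 3) (by decide +kernel)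
theorem L3974286 : W_1 (nat_lit 3) (nat_lit 0x10000c0004000200018000000000000000000) (nat_lit 0x0) (nat_lit 0x200010000a000000000000800000000000000) := T_1 (nat_lit 59) (nat_lit 109) (nat_lit 5) (nat_lit 8) (nat_lit 3) L3974285 (by decide +kernel)
theorem L3974287 : W_1 (nat_lit 4) (nat_lit 0x1000080004000200018000000000000000000) (nat_lit 0x0) (nat_lit 0x280014000a000000000000800000000000000) := T_1 (nat_lit 126) (nat_lit 143) (nat_lit 5) (nat_lit 8) (nat_lit 4) L3974286 (by decide +kernel)
theorem L3974288 : W_1 (nat_lit 5) (nat_lit 0x1000080004000200008000000000000000000) (nat_lit 0x0) (nat_lit 0x280014000a000000010000c00000000000000) := T_1 (nat_lit 76) (nat_lit 58) (nat_lit 4) (nat_lit 8) (nat_lit 7) L3974287 (by decide +kernel)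
theorem L3974289 : W_1 (nat_lit 6) (nat_lit 0x1000080004000200000000000000000000000) (nat_lit 0x0) (nat_lit 0x280014000a000100018000c00000000000000) := T_1 (nat_lit 75) (nat_lit 92) (nat_lit 4) (nat_lit 8) (nat_lit 8) L3974288 (by decide +kernel)
theorem L3974290 : W_1 (nat_lit 4) (nat_lit 0x1000080004000200030000000000000000000) (nat_lit 0x0) (nat_lit 0x800040002000000008000c00020000000000) := T_1 (nat_lit 126) (nat_lit 143) (nat_lit 5) (nat_lit 8) (nat_lit 4) L30937 (by decide +kernel)
theorem L3974291 : W_1 (nat_lit 5) (nat_lit 0x1000080004000200020000000000000000000) (nat_lit 0x0) (nat_lit 0x800040002000000018001c00020000000000) := T_1 (nat_lit 76) (nat_lit 60) (nat_lit 6) (nat_lit 8) (nat_lit 7) L3974290 (by decide +kernel)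
theorem L3974292 : W_1 (nat_lit 6) (nat_lit 0x1000080004000200000000000000000000000) (nat_lit 0x0) (nat_lit 0x800040002000400038001c00020000000000) := T_1 (nat_lit 77) (nat_lit 94) (nat_lit 6) (nat_lit 8) (nat_lit 8) L3974291 (by decide +kernel)
theorem L3974293 : W_1 (nat_lit 2) (nat_lit 0x1000080004000700000000000000000000000) (nat_lit 0x0) (nat_lit 0x2000000000000a000000000000000000000000000) := D_1 (nat_lit 161) (nat_lit 111) (nat_lit 109) (nat_lit 6) (nat_lit 8) (nat_lit 9) (nat_lit 4) (nat_lit 8) (nat_lit 9) (by decide +kernel)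
theorem L3974294 : W_1 (nat_lit 3) (nat_lit 0x1000080004000600000000000000000000000) (nat_lit 0x0) (nat_lit 0x2000000000000a000100008000000000000000000) := T_1 (nat_lit 92) (nat_lit 75) (nat_lit 4) (nat_lit 8) (nat_lit 8) L3974293 (by decide +kernel)
theorem L3974295 : W_1 (nat_lit 4) (nat_lit 0x1000080004000200000000000000000000000) (nat_lit 0x0) (nat_lit 0x2000000000000a000500028000000000000000000) := T_1 (nat_lit 94) (nat_lit 77) (nat_lit 6) (nat_lit 8) (nat_lit 8) L3974294 (by decide +kernel)
theorem L3974296 : W_1 (nat_lit 2) (nat_lit 0x10000c0004000200030000800000000000000) (nat_lit 0x0) (nat_lit 0x2000100008000000000000000000000000000) := D_1 (nat_lit 128) (nat_lit 145) (nat_lit 111) (nat_lit 7) (nat_lit 8) (nat_lit 4) (nat_lit 7) (nat_lit 8) (nat_lit 3) (by decide +kernel)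
theorem L3974297 : W_1 (nat_lit 3) (nat_lit 0x10000c0004000200030000000000000000000) (nat_lit 0x0) (nat_lit 0x200010000a000000000000800000000000000) := T_1 (nat_lit 59) (nat_lit 109) (nat_lit 5) (nat_lit 8) (nat_lit 3) L3974296 (by decide +kernel)
theorem L3974298 : W_1 (nat_lit 4) (nat_lit 0x1000080004000200030000000000000000000) (nat_lit 0x0) (nat_lit 0x280014000a000000000000800000000000000) := T_1 (nat_lit 126) (nat_lit 143) (nat_lit 5) (nat_lit 8) (nat_lit 4) L3974297 (by decide +kernel)
theorem L3974299 : W_1 (nat_lit 5) (nat_lit 0x1000080004000200020000000000000000000) (nat_lit 0x0) (nat_lit 0x280014000a000000010001800000000000000) := T_1 (nat_lit 76) (nat_lit 60) (nat_lit 6) (nat_lit 8) (nat_lit 7) L3974298 (by decide +kernel)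
theorem L3974300 : W_1 (nat_lit 6) (nat_lit 0x1000080004000200000000000000000000000) (nat_lit 0x0) (nat_lit 0x280014000a000400030001800000000000000) := T_1 (nat_lit 77) (nat_lit 94) (nat_lit 6) (nat_lit 8) (nat_lit 8) L3974299 (by decide +kernel)
theorem L3974301 : W_1 (nat_lit 7) (nat_lit 0x1000080004000000000000000000000000000) (nat_lit 0x0) (nat_lit 0x2000280014000a000700038001c00020000000000) := Q_1 (nat_lit 93) (C_1 L180 (C_1 L3974289 (C_1 L3974292 (C_1 L3974295 (C_1 L3974300 N_1))))) (by decide +kernel)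
theorem L3974302 : W_1 (nat_lit 2) (nat_lit 0x40001000080004000600008000000000000000000) (nat_lit 0x0) (nat_lit 0x800020000000000008000000000000000000000000000) := D_1 (nat_lit 161) (nat_lit 111) (nat_lit 179) (nat_lit 6) (nat_lit 8) (nat_lit 9) (nat_lit 7) (nat_lit 8) (nat_lit 6) (by decide +kernel)
theorem L3974303 : W_1 (nat_lit 3) (nat_lit 0x1000080004000600008000000000000000000) (nat_lit 0x0) (nat_lit 0x800060002000000008000000000000000000000000000) := T_1 (nat_lit 162) (nat_lit 145) (nat_lit 7) (nat_lit 8) (nat_lit 5) L3974302 (by decide +kernel)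
theorem L3974304 : W_1 (nat_lit 4) (nat_lit 0x1000080004000200008000000000000000000) (nat_lit 0x0) (nat_lit 0x800060002000000008000400020000000000000000000) := T_1 (nat_lit 94) (nat_lit 77) (nat_lit 6) (nat_lit 8) (nat_lit 8) L3974303 (by decide +kernel)
theorem L3974305 : W_1 (nat_lit 5) (nat_lit 0x1000080004000200000000000000000000000) (nat_lit 0x0) (nat_lit 0x800060002000000008000500028000000000000000000) := T_1 (nat_lit 75) (nat_lit 92) (nat_lit 4) (nat_lit 8) (nat_lit 8) L3974304 (by decide +kernel)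
theorem L3974306 : W_1 (nat_lit 6) (nat_lit 0x1000080004000000000000000000000000000) (nat_lit 0x0) (nat_lit 0x800060002000100008000700038001400000000000000) := Q_1 (nat_lit 93) (C_1 L18151 (C_1 L180 (C_1 L18150 (C_1 L3974305 N_1)))) (by decide +kernel)
theorem L3974307 : W_1 (nat_lit 2) (nat_lit 0x10000c0004000200018000800000000000000) (nat_lit 0x0) (nat_lit 0x20001000080000000000) := D_1 (nat_lit 60) (nat_lit 77) (nat_lit 43) (nat_lit 6) (nat_lit 8) (nat_lit 7) (nat_lit 6) (nat_lit 8) (nat_lit 6) (by decide +kernel)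
theorem L3974308 : W_1 (nat_lit 3) (nat_lit 0x10000c0004000200018000000000000000000) (nat_lit 0x0) (nat_lit 0x2000000020001800080000000000) := T_1 (nat_lit 59) (nat_lit 109) (nat_lit 5) (nat_lit 8) (nat_lit 3) L3974307 (by decide +kernel)
theorem L3974309 : W_1 (nat_lit 4) (nat_lit 0x1000080004000200018000000000000000000) (nat_lit 0x0) (nat_lit 0x800040002000000020001800080000000000) := T_1 (nat_lit 126) (nat_lit 143) (nat_lit 5) (nat_lit 8) (nat_lit 4) L3974308 (by decide +kernel)
theorem L3974310 : W_1 (nat_lit 5) (nat_lit 0x1000080004000200008000000000000000000) (nat_lit 0x0) (nat_lit 0x800040002000000030001c00080000000000) := T_1 (nat_lit 76) (nat_lit 58) (nat_lit 4) (nat_lit 8) (nat_lit 7) L3974309 (by decide +kernel)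
theorem L3974311 : W_1 (nat_lit 6) (nat_lit 0x1000080004000200000000000000000000000) (nat_lit 0x0) (nat_lit 0x800040002000100038001c00080000000000) := T_1 (nat_lit 75) (nat_lit 92) (nat_lit 4) (nat_lit 8) (nat_lit 8) L3974310 (by decide +kernel)
theorem L3974312 : W_1 (nat_lit 2) (nat_lit 0x3000080004000200010001800000000000000) (nat_lit 0x0) (nat_lit 0x800040002000000000000000000000000000) := D_1 (nat_lit 126) (nat_lit 143) (nat_lit 109) (nat_lit 5) (nat_lit 8) (nat_lit 4) (nat_lit 5) (nat_lit 8) (nat_lit 3) (by decide +kernel)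
theorem L3974313 : W_1 (nat_lit 3) (nat_lit 0x3000080004000200010001000000000000000) (nat_lit 0x0) (nat_lit 0x800040002000000000000800080000000000) := T_1 (nat_lit 59) (nat_lit 43) (nat_lit 6) (nat_lit 8) (nat_lit 6) L3974312 (by decide +kernel)
theorem L3974314 : W_1 (nat_lit 4) (nat_lit 0x3000080004000200010000000000000000000) (nat_lit 0x0) (nat_lit 0x800040002000000020001800080000000000) := T_1 (nat_lit 60) (nat_lit 77) (nat_lit 6) (nat_lit 8) (nat_lit 7) L3974313 (by decide +kernel)
theorem L3974315 : W_1 (nat_lit 5) (nat_lit 0x3000080004000200000000000000000000000) (nat_lit 0x0) (nat_lit 0x800140002000000030001800080000000000) := T_1 (nat_lit 76) (nat_lit 128) (nat_lit 7) (nat_lit 8) (nat_lit 4) L3974314 (by decide +kernel)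
theorem L3974316 : W_1 (nat_lit 6) (nat_lit 0x1000080004000200000000000000000000000) (nat_lit 0x0) (nat_lit 0x40002800140002000000030001800080000000000) := T_1 (nat_lit 145) (nat_lit 162) (nat_lit 7) (nat_lit 8) (nat_lit 5) L3974315 (by decide +kernel)
theorem L3974317 : W_1 (nat_lit 2) (nat_lit 0x40001000080004000300000000000000000000000) (nat_lit 0x0) (nat_lit 0x800020000000000002000000000000000000000000000) := D_1 (nat_lit 161) (nat_lit 179) (nat_lit 109) (nat_lit 7) (nat_lit 8) (nat_lit 6) (nat_lit 4) (nat_lit 8) (nat_lit 9) (by decide +kernel)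
theorem L3974318 : W_1 (nat_lit 3) (nat_lit 0x40001000080004000200000000000000000000000) (nat_lit 0x0) (nat_lit 0x800020000000000002000100008000000000000000000) := T_1 (nat_lit 92) (nat_lit 75) (nat_lit 4) (nat_lit 8) (nat_lit 8) L3974317 (by decide +kernel)
theorem L3974319 : W_1 (nat_lit 4) (nat_lit 0x1000080004000200000000000000000000000) (nat_lit 0x0) (nat_lit 0x800060002000000002000100008000000000000000000) := T_1 (nat_lit 162) (nat_lit 145) (nat_lit 7) (nat_lit 8) (nat_lit 5) L3974318 (by decide +kernel)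
theorem L3974320 : W_1 (nat_lit 8) (nat_lit 0x1000080004000000000000000000000000000) (nat_lit 0x0) (nat_lit 0x80006000280014000a000300038001c00080000000000) := Q_1 (nat_lit 93) (C_1 L3974289 (C_1 L3974265 (C_1 L3974311 (C_1 L18150 (C_1 L3974316 (C_1 L3974319 N_1)))))) (by decide +kernel)
theorem L3974321 : W_1 (nat_lit 2) (nat_lit 0x40001000080004000600000000000000000000000) (nat_lit 0x0) (nat_lit 0x800020000000000008000000000000000000000000000) := D_1 (nat_lit 161) (nat_lit 111) (nat_lit 179) (nat_lit 6) (nat_lit 8) (nat_lit 9) (nat_lit 7) (nat_lit 8) (nat_lit 6) (by decide +kernel)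
theorem L3974322 : W_1 (nat_lit 3) (nat_lit 0x1000080004000600000000000000000000000) (nat_lit 0x0) (nat_lit 0x800060002000000008000000000000000000000000000) := T_1 (nat_lit 162) (nat_lit 145) (nat_lit 7) (nat_lit 8) (nat_lit 5) L3974321 (by decide +kernel)
theorem L3974323 : W_1 (nat_lit 4) (nat_lit 0x1000080004000200000000000000000000000) (nat_lit 0x0) (nat_lit 0x800060002000000008000400020000000000000000000) := T_1 (nat_lit 94) (nat_lit 77) (nat_lit 6) (nat_lit 8) (nat_lit 8) L3974322 (by decide +kernel)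
theorem L3974324 : W_1 (nat_lit 2) (nat_lit 0x30000c0004000200010000800000000000000) (nat_lit 0x0) (nat_lit 0x8000400020000000000) := D_1 (nat_lit 58) (nat_lit 41) (nat_lit 75) (nat_lit 4) (nat_lit 8) (nat_lit 6) (nat_lit 4) (nat_lit 8) (nat_lit 7) (by decide +kernel)
theorem L3974325 : W_1 (nat_lit 3) (nat_lit 0x30000c0004000200010000000000000000000) (nat_lit 0x0) (nat_lit 0x2000000008000c00020000000000) := T_1 (nat_lit 59) (nat_lit 109) (nat_lit 5) (nat_lit 8) (nat_lit 3) L3974324 (by decide +kernel)
theorem L3974326 : W_1 (nat_lit 4) (nat_lit 0x3000080004000200010000000000000000000) (nat_lit 0x0) (nat_lit 0x800040002000000008000c00020000000000) := T_1 (nat_lit 126) (nat_lit 143) (nat_lit 5) (nat_lit 8) (nat_lit 4) L3974325 (by decide +kernel)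
theorem L3974327 : W_1 (nat_lit 5) (nat_lit 0x3000080004000200000000000000000000000) (nat_lit 0x0) (nat_lit 0x800140002000000018000c00020000000000) := T_1 (nat_lit 76) (nat_lit 128) (nat_lit 7) (nat_lit 8) (nat_lit 4) L3974326 (by decide +kernel)
theorem L3974328 : W_1 (nat_lit 6) (nat_lit 0x1000080004000200000000000000000000000) (nat_lit 0x0) (nat_lit 0x40002800140002000000018000c00020000000000) := T_1 (nat_lit 145) (nat_lit 162) (nat_lit 7) (nat_lit 8) (nat_lit 5) L3974327 (by decide +kernel)
theorem L3974329 : W_1 (nat_lit 7) (nat_lit 0x1000080004000000000000000000000000000) (nat_lit 0x0) (nat_lit 0x80006000280014000a000600038001c000a0000000000) := Q_1 (nat_lit 93) (C_1 L3974316 (C_1 L3974292 (C_1 L18151 (C_1 L3974323 (C_1 L3974328 N_1))))) (by decide +kernel)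
theorem L3974330 : W_1 (nat_lit 2) (nat_lit 0x1400040002000100008000c000100000000000000000000000) (nat_lit 0x0) (nat_lit 0x280008000000000000000000000000000000000000000000000000) := D_1 (nat_lit 195) (nat_lit 211) (nat_lit 213) (nat_lit 5) (nat_lit 8) (nat_lit 8) (nat_lit 7) (nat_lit 8) (nat_lit 8) (by decide +kernel)
theorem L3974331 : W_1 (nat_lit 3) (nat_lit 0x400040002000100008000c000100000000000000000000000) (nat_lit 0x0) (nat_lit 0x280018000800000000000000000000000000000000000000000000) := T_1 (nat_lit 196) (nat_lit 179) (nat_lit 7) (nat_lit 8) (nat_lit 7) L3974330 (by decide +kernel)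
theorem L3974332 : W_1 (nat_lit 4) (nat_lit 0x40002000100008000c000100000000000000000000000) (nat_lit 0x0) (nat_lit 0x28001c000a00000000000000000000000000000000000000000000) := T_1 (nat_lit 194) (nat_lit 177) (nat_lit 5) (nat_lit 8) (nat_lit 7) L3974331 (by decide +kernel)
theorem L3974333 : W_1 (nat_lit 5) (nat_lit 0x2000100008000c000100000000000000000000000) (nat_lit 0x0) (nat_lit 0x28001c000e00000000000100000000000000000000000000000000) := T_1 (nat_lit 178) (nat_lit 128) (nat_lit 6) (nat_lit 8) (nat_lit 10) L3974332 (by decide +kernel)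
theorem L3974334 : W_1 (nat_lit 6) (nat_lit 0x20001000080004000100000000000000000000000) (nat_lit 0x0) (nat_lit 0x28001c000e00000000000100008000400000000000000000000000) := T_1 (nat_lit 111) (nat_lit 94) (nat_lit 6) (nat_lit 8) (nat_lit 9) L3974333 (by decide +kernel)
theorem L3974335 : W_1 (nat_lit 7) (nat_lit 0x20001000080004000000000000000000000000000) (nat_lit 0x0) (nat_lit 0x28001c000e0000000000010000a000500000000000000000000000) := T_1 (nat_lit 92) (nat_lit 109) (nat_lit 4) (nat_lit 8) (nat_lit 9) L3974334 (by decide +kernel)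
theorem L3974336 : W_1 (nat_lit 2) (nat_lit 0x20000c000400020003000080006000400000000000000000000000) (nat_lit 0x0) (nat_lit 0x4000100000000000040000000000000000000000000000000000000000) := D_1 (nat_lit 212) (nat_lit 162) (nat_lit 230) (nat_lit 6) (nat_lit 8) (nat_lit 12) (nat_lit 7) (nat_lit 8) (nat_lit 9) (by decide +kernel)
theorem L3974337 : W_1 (nat_lit 3) (nat_lit 0xc000400020003000080006000400000000000000000000000) (nat_lit 0x0) (nat_lit 0x4000300010000000040000000000000000000000000000000000000000) := T_1 (nat_lit 213) (nat_lit 196) (nat_lit 7) (nat_lit 8) (nat_lit 8) L3974336 (by decide +kernel)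
theorem L3974338 : W_1 (nat_lit 4) (nat_lit 0xc000400020001000080006000400000000000000000000000) (nat_lit 0x0) (nat_lit 0x4000300010000000040002000100000000000000000000000000000000) := T_1 (nat_lit 145) (nat_lit 128) (nat_lit 6) (nat_lit 8) (nat_lit 11) L3974337 (by decide +kernel)
theorem L3974339 : W_1 (nat_lit 5) (nat_lit 0x4000400020001000080006000400000000000000000000000) (nat_lit 0x0) (nat_lit 0x4000380018000000040002000100000000000000000000000000000000) := T_1 (nat_lit 195) (nat_lit 211) (nat_lit 5) (nat_lit 8) (nat_lit 8) L3974338 (by decide +kernel)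
theorem L3974340 : W_1 (nat_lit 6) (nat_lit 0x400020001000080006000400000000000000000000000) (nat_lit 0x0) (nat_lit 0x400038001c000200040002000100000000000000000000000000000000) := T_1 (nat_lit 194) (nat_lit 177) (nat_lit 5) (nat_lit 8) (nat_lit 7) L3974339 (by decide +kernel)
theorem L3974341 : W_1 (nat_lit 7) (nat_lit 0x20001000080006000400000000000000000000000) (nat_lit 0x0) (nat_lit 0x400038001c000600040002000140000000000000000000000000000000) := T_1 (nat_lit 178) (nat_lit 126) (nat_lit 4) (nat_lit 8) (nat_lit 10) L3974340 (by decide +kernel)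
theorem L3974342 : W_1 (nat_lit 8) (nat_lit 0x20001000080004000400000000000000000000000) (nat_lit 0x0) (nat_lit 0x400038001c000600040002000140002000100000000000000000000000) := T_1 (nat_lit 109) (nat_lit 92) (nat_lit 4) (nat_lit 8) (nat_lit 9) L3974341 (by decide +kernel)
theorem L3974343 : W_1 (nat_lit 9) (nat_lit 0x20001000080004000000000000000000000000000) (nat_lit 0x0) (nat_lit 0x400038001c00060004000200014000a000500000000000000000000000) := T_1 (nat_lit 94) (nat_lit 111) (nat_lit 6) (nat_lit 8) (nat_lit 9) L3974342 (by decide +kernel)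
theorem L3974344 : W_1 (nat_lit 2) (nat_lit 0x6000100018000e000000000000000000000000000) (nat_lit 0x0) (nat_lit 0x200001800000000000000000000000000) := D_1 (nat_lit 108) (nat_lit 129) (nat_lit 107) (nat_lit 3) (nat_lit 6) (nat_lit 6) (nat_lit 3) (nat_lit 5) (nat_lit 6) (by decide +kernel)
theorem L3974345 : W_1 (nat_lit 3) (nat_lit 0x6000100018000c000000000000000000000000000) (nat_lit 0x0) (nat_lit 0x200003800100000000000000000000000) := T_1 (nat_lit 109) (nat_lit 92) (nat_lit 4) (nat_lit 8) (nat_lit 9) L3974344 (by decide +kernel)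
theorem L3974346 : W_1 (nat_lit 4) (nat_lit 0x2000100018000c000000000000000000000000000) (nat_lit 0x0) (nat_lit 0x800040000000200003800100000000000000000000000) := T_1 (nat_lit 162) (nat_lit 179) (nat_lit 7) (nat_lit 8) (nat_lit 6) L3974345 (by decide +kernel)
theorem L3974347 : W_1 (nat_lit 5) (nat_lit 0x20001000180004000000000000000000000000000) (nat_lit 0x0) (nat_lit 0x80004000000020000b800500000000000000000000000) := T_1 (nat_lit 111) (nat_lit 94) (nat_lit 6) (nat_lit 8) (nat_lit 9) L3974346 (by decide +kernel)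
theorem L3974520 : W_1 (nat_lit 3) (nat_lit 0x20001800180004000000000000000000000000000) (nat_lit 0x0) (nat_lit 0x600640000000000000000000000000000000) := T_1 (nat_lit 142) (nat_lit 141) (nat_lit 2) (nat_lit 5) (nat_lit 8) L1120061 (by decide +kernel)
theorem L3974521 : W_1 (nat_lit 2) (nat_lit 0x20001800380004000000000000000000000000000) (nat_lit 0x0) (nat_lit 0x2600000000000000000000000000000000000) := D_1 (nat_lit 142) (nat_lit 141) (nat_lit 145) (nat_lit 2) (nat_lit 5) (nat_lit 8) (nat_lit 2) (nat_lit 6) (nat_lit 8) (by decide +kernel)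
theorem L3974522 : W_1 (nat_lit 3) (nat_lit 0x20001800180004000000000000000000000000000) (nat_lit 0x0) (nat_lit 0x2600600000000000000000000000000000000) := T_1 (nat_lit 129) (nat_lit 130) (nat_lit 1) (nat_lit 11) (nat_lit 7) L3974521 (by decide +kernel)
theorem L3974523 : W_1 (nat_lit 2) (nat_lit 0x60001c00180004000400000000000000000000000) (nat_lit 0x0) (nat_lit 0x180002000000000000000000000000000000000000) := D_1 (nat_lit 163) (nat_lit 145) (nat_lit 164) (nat_lit 3) (nat_lit 6) (nat_lit 8) (nat_lit 0) (nat_lit 11) (nat_lit 9) (by decide +kernel)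
theorem L3974524 : W_1 (nat_lit 3) (nat_lit 0x20001c00180004000400000000000000000000000) (nat_lit 0x0) (nat_lit 0x8001c0002000000000000000000000000000000000000) := T_1 (nat_lit 162) (nat_lit 179) (nat_lit 7) (nat_lit 8) (nat_lit 6) L3974523 (by decide +kernel)
theorem L3974525 : W_1 (nat_lit 4) (nat_lit 0x20001800180004000400000000000000000000000) (nat_lit 0x0) (nat_lit 0x8001c0002600000000000000000000000000000000000) := T_1 (nat_lit 142) (nat_lit 141) (nat_lit 2) (nat_lit 5) (nat_lit 8) L3974524 (by decide +kernel)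
theorem L3974526 : W_1 (nat_lit 5) (nat_lit 0x20001800180004000000000000000000000000000) (nat_lit 0x0) (nat_lit 0x8001c0002600000008000400000000000000000000000) := T_1 (nat_lit 94) (nat_lit 111) (nat_lit 6) (nat_lit 8) (nat_lit 9) L3974525 (by decide +kernel)
theorem L3974527 : W_1 (nat_lit 9) (nat_lit 0x20001000180004000000000000000000000000000) (nat_lit 0x0) (nat_lit 0x18001c0002e00640078000c00000000000000000000000) := Q_1 (nat_lit 143) (C_1 L3974520 (C_1 L3974522 (C_1 L62154 (C_1 L3974526 N_1)))) (by decide +kernel)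
theorem L3974528 : W_1 (nat_lit 2) (nat_lit 0x20001000180007000400000000000000000000000) (nat_lit 0x0) (nat_lit 0x640000000000000000000000000000000) := D_1 (nat_lit 129) (nat_lit 130) (nat_lit 126) (nat_lit 0) (nat_lit 11) (nat_lit 7) (nat_lit 0) (nat_lit 10) (nat_lit 7) (by decide +kernel)
theorem L3974529 : W_1 (nat_lit 3) (nat_lit 0x20001000180006000400000000000000000000000) (nat_lit 0x0) (nat_lit 0x640001800000000000000000000000000) := T_1 (nat_lit 108) (nat_lit 107) (nat_lit 3) (nat_lit 5) (nat_lit 6) L3974528 (by decide +kernel)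
theorem L3974530 : W_1 (nat_lit 4) (nat_lit 0x20001000180004000400000000000000000000000) (nat_lit 0x0) (nat_lit 0x640003800100000000000000000000000) := T_1 (nat_lit 109) (nat_lit 92) (nat_lit 4) (nat_lit 8) (nat_lit 9) L3974529 (by decide +kernel)
theorem L3974531 : W_1 (nat_lit 5) (nat_lit 0x20001000180004000000000000000000000000000) (nat_lit 0x0) (nat_lit 0x64000b800500000000000000000000000) := T_1 (nat_lit 94) (nat_lit 111) (nat_lit 6) (nat_lit 8) (nat_lit 9) L3974530 (by decide +kernel)
theorem L3974532 : W_1 (nat_lit 2) (nat_lit 0x600010001a001f000040000000000000000000000) (nat_lit 0x0) (nat_lit 0x2000000000001800000000000000000000000) := D_1 (nat_lit 95) (nat_lit 96) (nat_lit 145) (nat_lit 2) (nat_lit 7) (nat_lit 6) (nat_lit 6) (nat_lit 9) (nat_lit 9) (by decide +kernel)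
theorem L3974533 : W_1 (nat_lit 3) (nat_lit 0x600010001a000f000040000000000000000000000) (nat_lit 0x0) (nat_lit 0x2000040010001800000000000000000000000) := T_1 (nat_lit 112) (nat_lit 126) (nat_lit 2) (nat_lit 6) (nat_lit 7) L3974532 (by decide +kernel)
theorem L3974534 : W_1 (nat_lit 4) (nat_lit 0x600010001a000f000000000000000000000000000) (nat_lit 0x0) (nat_lit 0x20000400100018c0000000000000000000000) := T_1 (nat_lit 90) (nat_lit 91) (nat_lit 0) (nat_lit 9) (nat_lit 6) L3974533 (by decide +kernel)
theorem L3974535 : W_1 (nat_lit 5) (nat_lit 0x6000100018000f000000000000000000000000000) (nat_lit 0x0) (nat_lit 0x20000700100018c0000000000000000000000) := T_1 (nat_lit 125) (nat_lit 124) (nat_lit 1) (nat_lit 9) (nat_lit 6) L3974534 (by decide +kernel)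
theorem L3974536 : W_1 (nat_lit 6) (nat_lit 0x60001000180007000000000000000000000000000) (nat_lit 0x0) (nat_lit 0x2000070018001cc0000000000000000000000) := T_1 (nat_lit 111) (nat_lit 94) (nat_lit 6) (nat_lit 8) (nat_lit 9) L3974535 (by decide +kernel)
theorem L3974537 : W_1 (nat_lit 7) (nat_lit 0x60001000180006000000000000000000000000000) (nat_lit 0x0) (nat_lit 0x2000070019801cc0000000000000000000000) := T_1 (nat_lit 108) (nat_lit 107) (nat_lit 3) (nat_lit 5) (nat_lit 6) L3974536 (by decide +kernel)
theorem L3974538 : W_1 (nat_lit 8) (nat_lit 0x20001000180006000000000000000000000000000) (nat_lit 0x0) (nat_lit 0x800040002000070019801cc0000000000000000000000) := T_1 (nat_lit 162) (nat_lit 179) (nat_lit 7) (nat_lit 8) (nat_lit 6) L3974537 (by decide +kernel)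
theorem L3974539 : W_1 (nat_lit 9) (nat_lit 0x20001000180004000000000000000000000000000) (nat_lit 0x0) (nat_lit 0x80004000200007001b801dc0000000000000000000000) := T_1 (nat_lit 109) (nat_lit 92) (nat_lit 4) (nat_lit 8) (nat_lit 9) L3974538 (by decide +kernel)
theorem L3974540 : W_1 (nat_lit 10) (nat_lit 0x20001000080004000000000000000000000000000) (nat_lit 0x0) (nat_lit 0x18001c0002e0077007b801dc0000000000000000000000) := Q_1 (nat_lit 128) (C_1 L3974347 (C_1 L3974527 (C_1 L754 (C_1 L3974531 (C_1 L3974539 N_1))))) (by decide +kernel)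
theorem L3974541 : W_1 (nat_lit 11) (nat_lit 0x1000080004000000000000000000000000000) (nat_lit 0x0) (nat_lit 0x400038001c001e001e0002e0077007b801dc0000000000000000000000) := Q_1 (nat_lit 161) (C_1 L3974258 (C_1 L3974257 (C_1 L3974335 (C_1 L3974343 (C_1 L3974540 N_1))))) (by decide +kernel)
theorem L3974542 : W_1 (nat_lit 12) (nat_lit 0x1000080000000000000000000000000000000) (nat_lit 0x0) (nat_lit 0x400038001c001e001e0002e0077007fe01fe00ff801c000a0000000000) := Q_1 (nat_lit 110) (C_1 L18612 (C_1 L3974259 (C_1 L18156 (C_1 L3974284 (C_1 L3974301 (C_1 L3974306 (C_1 L3974320 (C_1 L3974329 (C_1 L3974541 N_1))))))))) (by decide +kernel)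
theorem L3974543 : W_1 (nat_lit 2) (nat_lit 0x50001000080004000200028000000000000000000) (nat_lit 0x0) (nat_lit 0xa00020000000000000000000000000000000000000000) := D_1 (nat_lit 161) (nat_lit 179) (nat_lit 177) (nat_lit 7) (nat_lit 8) (nat_lit 6) (nat_lit 5) (nat_lit 8) (nat_lit 6) (by decide +kernel)
theorem L3974544 : W_1 (nat_lit 3) (nat_lit 0x40001000080004000200028000000000000000000) (nat_lit 0x0) (nat_lit 0xa00030000800000000000000000000000000000000000) := T_1 (nat_lit 160) (nat_lit 143) (nat_lit 5) (nat_lit 8) (nat_lit 5) L3974543 (by decide +kernel)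
theorem L3974545 : W_1 (nat_lit 4) (nat_lit 0x1000080004000200028000000000000000000) (nat_lit 0x0) (nat_lit 0xa00070002800000000000000000000000000000000000) := T_1 (nat_lit 162) (nat_lit 145) (nat_lit 7) (nat_lit 8) (nat_lit 5) L3974544 (by decide +kernel)
theorem L3974546 : W_1 (nat_lit 5) (nat_lit 0x1000080004000200008000000000000000000) (nat_lit 0x0) (nat_lit 0xa00070002800000000000400020000000000000000000) := T_1 (nat_lit 77) (nat_lit 94) (nat_lit 6) (nat_lit 8) (nat_lit 8) L3974545 (by decide +kernel)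
theorem L3974547 : W_1 (nat_lit 6) (nat_lit 0x1000080004000200000000000000000000000) (nat_lit 0x0) (nat_lit 0xa00070002800000000000500028000000000000000000) := T_1 (nat_lit 75) (nat_lit 92) (nat_lit 4) (nat_lit 8) (nat_lit 8) L3974546 (by decide +kernel)
theorem L3974548 : W_1 (nat_lit 7) (nat_lit 0x1000080004000000000000000000000000000) (nat_lit 0x0) (nat_lit 0xa00070002800140000000700038001400000000000000) := Q_1 (nat_lit 93) (C_1 L18151 (C_1 L18142 (C_1 L18150 (C_1 L3974547 N_1)))) (by decide +kernel)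
theorem L3974549 : W_1 (nat_lit 4) (nat_lit 0x1000080004000200000000000000000000000) (nat_lit 0x0) (nat_lit 0xa00070002800000000000000000000000000000000000) := T_1 (nat_lit 160) (nat_lit 143) (nat_lit 5) (nat_lit 8) (nat_lit 5) L2533399 (by decide +kernel)
theorem L3974550 : W_1 (nat_lit 7) (nat_lit 0x1000080004000000000000000000000000000) (nat_lit 0x0) (nat_lit 0xa00070002800140002000600038001c00020000000000) := Q_1 (nat_lit 93) (C_1 L3974328 (C_1 L3974292 (C_1 L18151 (C_1 L3974549 N_1)))) (by decide +kernel)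
theorem L3974551 : W_1 (nat_lit 2) (nat_lit 0xa00020001000080004000000000000000000000000000) (nat_lit 0x0) (nat_lit 0x14000400000000000000000000000000000000000000000000) := D_1 (nat_lit 178) (nat_lit 196) (nat_lit 194) (nat_lit 7) (nat_lit 8) (nat_lit 7) (nat_lit 5) (nat_lit 8) (nat_lit 7) (by decide +kernel)
theorem L3974552 : W_1 (nat_lit 3) (nat_lit 0x800020001000080004000000000000000000000000000) (nat_lit 0x0) (nat_lit 0x14000600010000000000000000000000000000000000000000) := T_1 (nat_lit 177) (nat_lit 160) (nat_lit 5) (nat_lit 8) (nat_lit 6) L3974551 (by decide +kernel)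
theorem L3974553 : W_1 (nat_lit 4) (nat_lit 0x20001000080004000000000000000000000000000) (nat_lit 0x0) (nat_lit 0x14000e00050000000000000000000000000000000000000000) := T_1 (nat_lit 179) (nat_lit 162) (nat_lit 7) (nat_lit 8) (nat_lit 6) L3974552 (by decide +kernel)
theorem L3974554 : W_1 (nat_lit 4) (nat_lit 0x300018000c0004000000000000000000000000000) (nat_lit 0x0) (nat_lit 0x100003c00180000000000000000000000) := T_1 (nat_lit 109) (nat_lit 92) (nat_lit 7) (nat_lit 7) (nat_lit 5) L69085 (by decide +kernel)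
theorem L3974555 : W_1 (nat_lit 5) (nat_lit 0x200018000c0004000000000000000000000000000) (nat_lit 0x0) (nat_lit 0x200010000000100003c00180000000000000000000000) := T_1 (nat_lit 160) (nat_lit 177) (nat_lit 6) (nat_lit 7) (nat_lit 10) L3974554 (by decide +kernel)
theorem L3974556 : W_1 (nat_lit 2) (nat_lit 0x20001c000c0004000000000000000000000000000) (nat_lit 0x0) (nat_lit 0x300100000000000000000000000000000000) := D_1 (nat_lit 141) (nat_lit 128) (nat_lit 140) (nat_lit 2) (nat_lit 5) (nat_lit 8) (nat_lit 2) (nat_lit 4) (nat_lit 8) (by decide +kernel)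
theorem L3974557 : W_1 (nat_lit 2) (nat_lit 0x22001e000f0004800100000000000000000000000) (nat_lit 0x0) (nat_lit 0x100008000000000000000040000000000000000000000) := D_1 (nat_lit 159) (nat_lit 176) (nat_lit 90) (nat_lit 4) (nat_lit 6) (nat_lit 10) (nat_lit 7) (nat_lit 5) (nat_lit 5) (by decide +kernel)
theorem L3974558 : W_1 (nat_lit 3) (nat_lit 0x22001e000f0004000100000000000000000000000) (nat_lit 0x0) (nat_lit 0x100008000000000000c00040000000000000000000000) := T_1 (nat_lit 107) (nat_lit 106) (nat_lit 0) (nat_lit 8) (nat_lit 7) L3974557 (by decide +kernel)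
theorem L3974559 : W_1 (nat_lit 4) (nat_lit 0x22001e000d0004000100000000000000000000000) (nat_lit 0x0) (nat_lit 0x100008002000020000c00040000000000000000000000) := T_1 (nat_lit 125) (nat_lit 145) (nat_lit 3) (nat_lit 5) (nat_lit 7) L3974558 (by decide +kernel)
theorem L3974560 : W_1 (nat_lit 5) (nat_lit 0x22001e000c0004000100000000000000000000000) (nat_lit 0x0) (nat_lit 0x100008002000038000c00040000000000000000000000) := T_1 (nat_lit 124) (nat_lit 123) (nat_lit 0) (nat_lit 8) (nat_lit 8) L3974559 (by decide +kernel)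
theorem L3974561 : W_1 (nat_lit 6) (nat_lit 0x20001e000c0004000100000000000000000000000) (nat_lit 0x0) (nat_lit 0x10000e002000038000c00040000000000000000000000) := T_1 (nat_lit 157) (nat_lit 158) (nat_lit 1) (nat_lit 8) (nat_lit 8) L3974560 (by decide +kernel)
theorem L3974562 : W_1 (nat_lit 7) (nat_lit 0x20001c000c0004000100000000000000000000000) (nat_lit 0x0) (nat_lit 0x10000e002300038000c00040000000000000000000000) := T_1 (nat_lit 141) (nat_lit 140) (nat_lit 2) (nat_lit 4) (nat_lit 8) L3974561 (by decide +kernel)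
end Crest.Agent.Helper32.Snaky.S2_0
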