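import Crest.Agent.Helper32.Snaky.Gen.S2_1_p1
set_option autoImplicit false
set_option maxRecDepth 100000
set_option linter.all false
set_option Elab.async false
namespace Crest.Agent.Helper32.Snaky.S2_1
@[reducible] def W_2 (d M Bz Z : Nat) : Prop := Crest.Agent.Helper32.Snaky.Wins (nat_lit 17) d M Bz Z
theorem D_2 {d M Bz Z : Nat} (m t1 t2 o1 x1 y1 o2 x2 y2 : Nat) (h : Crest.Agent.Helper32.Snaky.chkDoubleC (nat_lit 17) d M Bz Z m t1 t2 o1 x1 y1 o2 x2 y2 = true) : W_2 d M Bz Z := Crest.Agent.Helper32.Snaky.doubleC m t1 t2 o1 x1 y1 o2 x2 y2 h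
theorem T_2 {d M Bz Z cd cM cBz cZ : Nat} (m t o x y : Nat) (child : W_2 cd cM cBz cZ) (h : Crest.Agent.Helper32.Snaky.chkThreatC (nat_lit 17) d M Bz Z cd cM cBz cZ m t o x y = true) : W_2 d M Bz Z := Crest.Agent.Helper32.Snaky.threatC m t o x y child h
theorem Q_2 {d M Bz Z : Nat} (m : Nat) {l : List Crest.Agent.Helper32.Snaky.Spec} (kids : Crest.Agent.Helper32.Snaky.AllWins (nat_lit 17) l) (h : Crest.Agent.Helper32.Snaky.chkQuiet d M Bz Z m l = true) : W_2 d M Bz Z := Crest.Agent.Helper32.Snaky.quiet m kids h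
theorem C_2 {cd cM cBz cZ : Nat} {l : List Crest.Agent.Helper32.Snaky.Spec} (h : W_2 cd cM cBz cZ) (hl : Crest.Agent.Helper32.Snaky.AllWins (nat_lit 17) l) : Crest.Agent.Helper32.Snaky.AllWins (nat_lit 17) ((cd, cM, cBz, cZ) :: l) := Crest.Agent.Helper32.Snaky.AllWins.cons h hl
theorem N_2 : Crest.Agent.Helper32.Snaky.AllWins (nat_lit 17) [] := Crest.Agent.Helper32.Snaky.AllWins.nil
theorem L4300943 : W_2 (nat_lit 4) (nat_lit 0x700010001c001e000800000000000000000000000) (nat_lit 0x0) (nat_lit 0x8000000018000c0040002000000000000000) := T_2 (nat_lit 61) (nat_lit 78) (nat_lit 5) (nat_lit 10) (nat_lit 3) L4300942 (by decide +kernel)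
theorem L4300944 : W_2 (nat_lit 5) (nat_lit 0x700010000c001e000800000000000000000000000) (nat_lit 0x0) (nat_lit 0x28001000018000c0040002000000000000000) := T_2 (nat_lit 128) (nat_lit 145) (nat_lit 6) (nat_lit 9) (nat_lit 9) L4300943 (by decide +kernel)
theorem L4300945 : W_2 (nat_lit 6) (nat_lit 0x700010000c001e000000000000000000000000000) (nat_lit 0x0) (nat_lit 0x28001000018018c0040002000000000000000) := T_2 (nat_lit 95) (nat_lit 96) (nat_lit 2) (nat_lit 7) (nat_lit 6) L4300944 (by decide +kernel)
theorem L4300946 : W_2 (nat_lit 7) (nat_lit 0x300010000c001e000000000000000000000000000) (nat_lit 0x0) (nat_lit 0x8000400028001000018018c0040002000000000000000) := T_2 (nat_lit 162) (nat_lit 179) (nat_lit 7) (nat_lit 8) (nat_lit 6) L4300945 (by decide +kernel)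
theorem L4300947 : W_2 (nat_lit 8) (nat_lit 0x300010000c000e000000000000000000000000000) (nat_lit 0x0) (nat_lit 0x8000400028001000318018c0040002000000000000000) := T_2 (nat_lit 112) (nat_lit 113) (nat_lit 1) (nat_lit 11) (nat_lit 6) L4300946 (by decide +kernel)
theorem L4300948 : W_2 (nat_lit 9) (nat_lit 0x200010000c000e000000000000000000000000000) (nat_lit 0x0) (nat_lit 0xa000500028001000318018c0040002000000000000000) := T_2 (nat_lit 160) (nat_lit 177) (nat_lit 5) (nat_lit 8) (nat_lit 6) L4300947 (by decide +kernel)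
theorem L4300949 : W_2 (nat_lit 10) (nat_lit 0x200010000c0006000000000000000000000000000) (nat_lit 0x0) (nat_lit 0xa00050002800100039801cc0040002000000000000000) := T_2 (nat_lit 111) (nat_lit 94) (nat_lit 6) (nat_lit 8) (nat_lit 9) L4300948 (by decide +kernel)
theorem L4300950 : W_2 (nat_lit 11) (nat_lit 0x200010000c0004000000000000000000000000000) (nat_lit 0x0) (nat_lit 0xa0005000280010003b801dc0040002000000000000000) := T_2 (nat_lit 109) (nat_lit 92) (nat_lit 4) (nat_lit 8) (nat_lit 9) L4300949 (by decide +kernel)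
theorem L4300951 : W_2 (nat_lit 14) (nat_lit 0x20001000080004000000000000000000000000000) (nat_lit 0x0) (nat_lit 0x14000e0007000b8005c00ee0017003b801dc0040002000000000000000) := Q_2 (nat_lit 126) (C_2 L102667 (C_2 L1720 (C_2 L38713 (C_2 L4300950 N_2)))) (by decide +kernel)
theorem L4300952 : W_2 (nat_lit 2) (nat_lit 0x200018001e0004000000000000000000000000000) (nat_lit 0x0) (nat_lit 0x400600000000000000000000000000000000) := D_2 (nat_lit 129) (nat_lit 142) (nat_lit 130) (nat_lit 1) (nat_lit 10) (nat_lit 7) (nat_lit 1) (nat_lit 11) (nat_lit 7) (by decide +kernel)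
theorem L4300953 : W_2 (nat_lit 2) (nat_lit 0x200018003e0004000100000000000000000000000) (nat_lit 0x0) (nat_lit 0xe000000000000000000000000000000000000) := D_2 (nat_lit 146) (nat_lit 145) (nat_lit 147) (nat_lit 3) (nat_lit 6) (nat_lit 7) (nat_lit 3) (nat_lit 7) (nat_lit 7) (by decide +kernel)
theorem L4300954 : W_2 (nat_lit 3) (nat_lit 0x200018001e0004000100000000000000000000000) (nat_lit 0x0) (nat_lit 0xe000600000000000000000000000000000000) := T_2 (nat_lit 129) (nat_lit 130) (nat_lit 1) (nat_lit 11) (nat_lit 7) L4300953 (by decide +kernel)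
theorem L4300955 : W_2 (nat_lit 4) (nat_lit 0x200018001e0004000000000000000000000000000) (nat_lit 0x0) (nat_lit 0xe000600002000100000000000000000000000) := T_2 (nat_lit 92) (nat_lit 109) (nat_lit 7) (nat_lit 7) (nat_lit 5) L4300954 (by decide +kernel)
theorem L4300956 : W_2 (nat_lit 2) (nat_lit 0x20003c001e0006800000000000000000000000000) (nat_lit 0x0) (nat_lit 0x10000c000000000000000000000000000000000000000) := D_2 (nat_lit 159) (nat_lit 176) (nat_lit 158) (nat_lit 6) (nat_lit 6) (nat_lit 10) (nat_lit 1) (nat_lit 9) (nat_lit 8) (by decide +kernel)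
theorem L4300957 : W_2 (nat_lit 3) (nat_lit 0x20001c001e0006800000000000000000000000000) (nat_lit 0x0) (nat_lit 0x10000c006000000000000000000000000000000000000) := T_2 (nat_lit 145) (nat_lit 146) (nat_lit 3) (nat_lit 6) (nat_lit 7) L4300956 (by decide +kernel)
theorem L4300958 : W_2 (nat_lit 4) (nat_lit 0x20001c001e0004800000000000000000000000000) (nat_lit 0x0) (nat_lit 0x10000c006000000002000100000000000000000000000) := T_2 (nat_lit 109) (nat_lit 92) (nat_lit 7) (nat_lit 7) (nat_lit 5) L4300957 (by decide +kernel)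
theorem L4300959 : W_2 (nat_lit 5) (nat_lit 0x200018001e0004800000000000000000000000000) (nat_lit 0x0) (nat_lit 0x10000c006600000002000100000000000000000000000) := T_2 (nat_lit 142) (nat_lit 141) (nat_lit 2) (nat_lit 5) (nat_lit 8) L4300958 (by decide +kernel)
theorem L4300960 : W_2 (nat_lit 6) (nat_lit 0x200018001e0004000000000000000000000000000) (nat_lit 0x0) (nat_lit 0x10000c006600000003800100000000000000000000000) := T_2 (nat_lit 107) (nat_lit 108) (nat_lit 0) (nat_lit 9) (nat_lit 7) L4300959 (by decide +kernel)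
theorem L4300961 : W_2 (nat_lit 7) (nat_lit 0x200018000e0004000000000000000000000000000) (nat_lit 0x0) (nat_lit 0x10000c00e600700003800100000000000000000000000) := Q_2 (nat_lit 128) (C_2 L4300952 (C_2 L4300955 (C_2 L4300960 N_2))) (by decide +kernel)
theorem L4300962 : W_2 (nat_lit 10) (nat_lit 0x200018000c0004000000000000000000000000000) (nat_lit 0x0) (nat_lit 0x10000c00e700738003c001c000c000000000000000000) := Q_2 (nat_lit 125) (C_2 L4300961 (C_2 L761198 (C_2 L805931 N_2))) (by decide +kernel)
theorem L4300963 : W_2 (nat_lit 2) (nat_lit 0x380018000c0006000080000000000000000000000) (nat_lit 0x0) (nat_lit 0x4006000000000000000000000000000000000000) := D_2 (nat_lit 145) (nat_lit 158) (nat_lit 146) (nat_lit 2) (nat_lit 5) (nat_lit 9) (nat_lit 1) (nat_lit 10) (nat_lit 8) (by decide +kernel)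
theorem L4300964 : W_2 (nat_lit 3) (nat_lit 0x300018000c0006000080000000000000000000000) (nat_lit 0x0) (nat_lit 0x10000c006000000000000000000000000000000000000) := T_2 (nat_lit 159) (nat_lit 176) (nat_lit 5) (nat_lit 7) (nat_lit 6) L4300963 (by decide +kernel)
theorem L4300965 : W_2 (nat_lit 4) (nat_lit 0x300018000c0006000000000000000000000000000) (nat_lit 0x0) (nat_lit 0x10000c006000000001000080000000000000000000000) := T_2 (nat_lit 91) (nat_lit 108) (nat_lit 4) (nat_lit 7) (nat_lit 9) L4300964 (by decide +kernel)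
theorem L4300966 : W_2 (nat_lit 5) (nat_lit 0x200018000c0006000000000000000000000000000) (nat_lit 0x0) (nat_lit 0x30001c006000000001000080000000000000000000000) := T_2 (nat_lit 160) (nat_lit 177) (nat_lit 6) (nat_lit 7) (nat_lit 10) L4300965 (by decide +kernel)
theorem L4300967 : W_2 (nat_lit 6) (nat_lit 0x200018000c0004000000000000000000000000000) (nat_lit 0x0) (nat_lit 0x30001c006000000003000180000000000000000000000) := T_2 (nat_lit 109) (nat_lit 92) (nat_lit 7) (nat_lit 7) (nat_lit 5) L4300966 (by decide +kernel)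
theorem L4300968 : W_2 (nat_lit 2) (nat_lit 0x380018000c0006000000000000000000000000000) (nat_lit 0x0) (nat_lit 0x4006000000000000000000000000000000000000) := D_2 (nat_lit 145) (nat_lit 158) (nat_lit 146) (nat_lit 2) (nat_lit 5) (nat_lit 9) (nat_lit 1) (nat_lit 10) (nat_lit 8) (by decide +kernel)
theorem L4300969 : W_2 (nat_lit 3) (nat_lit 0x300018000c0006000000000000000000000000000) (nat_lit 0x0) (nat_lit 0x10000c006000000000000000000000000000000000000) := T_2 (nat_lit 159) (nat_lit 176) (nat_lit 5) (nat_lit 7) (nat_lit 6) L4300968 (by decide +kernel)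
theorem L4300970 : W_2 (nat_lit 4) (nat_lit 0x300018000c0004000000000000000000000000000) (nat_lit 0x0) (nat_lit 0x10000c006000000002000100000000000000000000000) := T_2 (nat_lit 109) (nat_lit 92) (nat_lit 7) (nat_lit 7) (nat_lit 5) L4300969 (by decide +kernel)
theorem L4300971 : W_2 (nat_lit 5) (nat_lit 0x200018000c0004000000000000000000000000000) (nat_lit 0x0) (nat_lit 0x30001c006000000002000100000000000000000000000) := T_2 (nat_lit 160) (nat_lit 177) (nat_lit 6) (nat_lit 7) (nat_lit 10) L4300970 (by decide +kernel)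
theorem L4300972 : W_2 (nat_lit 2) (nat_lit 0x32001e000f0004800000000000000000000000000) (nat_lit 0x0) (nat_lit 0x100008000000000000000040000000000000000000000) := D_2 (nat_lit 159) (nat_lit 176) (nat_lit 90) (nat_lit 4) (nat_lit 6) (nat_lit 10) (nat_lit 7) (nat_lit 5) (nat_lit 5) (by decide +kernel)
theorem L4300973 : W_2 (nat_lit 3) (nat_lit 0x32001e000f0004000000000000000000000000000) (nat_lit 0x0) (nat_lit 0x100008000000000000c00040000000000000000000000) := T_2 (nat_lit 107) (nat_lit 106) (nat_lit 0) (nat_lit 8) (nat_lit 7) L4300972 (by decide +kernel)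
theorem L4300974 : W_2 (nat_lit 4) (nat_lit 0x32001e000d0004000000000000000000000000000) (nat_lit 0x0) (nat_lit 0x100008002000020000c00040000000000000000000000) := T_2 (nat_lit 125) (nat_lit 145) (nat_lit 3) (nat_lit 5) (nat_lit 7) L4300973 (by decide +kernel)
theorem L4300975 : W_2 (nat_lit 5) (nat_lit 0x32001e000c0004000000000000000000000000000) (nat_lit 0x0) (nat_lit 0x100008002000038000c00040000000000000000000000) := T_2 (nat_lit 124) (nat_lit 123) (nat_lit 0) (nat_lit 8) (nat_lit 8) L4300974 (by decide +kernel)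
theorem L4300976 : W_2 (nat_lit 6) (nat_lit 0x30001e000c0004000000000000000000000000000) (nat_lit 0x0) (nat_lit 0x10000e002000038000c00040000000000000000000000) := T_2 (nat_lit 157) (nat_lit 158) (nat_lit 1) (nat_lit 8) (nat_lit 8) L4300975 (by decide +kernel)
theorem L4300977 : W_2 (nat_lit 7) (nat_lit 0x30001c000c0004000000000000000000000000000) (nat_lit 0x0) (nat_lit 0x10000e002300038000c00040000000000000000000000) := T_2 (nat_lit 141) (nat_lit 140) (nat_lit 3) (nat_lit 4) (nat_lit 8) L4300976 (by decide +kernel)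
theorem L4300978 : W_2 (nat_lit 8) (nat_lit 0x20001c000c0004000000000000000000000000000) (nat_lit 0x0) (nat_lit 0x30001e002300038000c00040000000000000000000000) := T_2 (nat_lit 160) (nat_lit 177) (nat_lit 6) (nat_lit 7) (nat_lit 10) L4300977 (by decide +kernel)
theorem L4300979 : W_2 (nat_lit 2) (nat_lit 0x20003c000c0004000000000000000000000000000) (nat_lit 0x0) (nat_lit 0x4000030000000000000000000000000000000) := D_2 (nat_lit 125) (nat_lit 124) (nat_lit 146) (nat_lit 3) (nat_lit 5) (nat_lit 7) (nat_lit 0) (nat_lit 10) (nat_lit 8) (by decide +kernel)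
theorem L4300980 : W_2 (nat_lit 2) (nat_lit 0x34003c001e0004000000000000000000000000000) (nat_lit 0x0) (nat_lit 0x1800080000000000000000000000) := D_2 (nat_lit 108) (nat_lit 91) (nat_lit 107) (nat_lit 7) (nat_lit 6) (nat_lit 5) (nat_lit 0) (nat_lit 9) (nat_lit 7) (by decide +kernel)
theorem L4300981 : W_2 (nat_lit 3) (nat_lit 0x24003c001e0004000000000000000000000000000) (nat_lit 0x0) (nat_lit 0x200010000000000001800080000000000000000000000) := T_2 (nat_lit 160) (nat_lit 177) (nat_lit 6) (nat_lit 7) (nat_lit 10) L4300980 (by decide +kernel)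
theorem L4300982 : W_2 (nat_lit 4) (nat_lit 0x24003c001c0004000000000000000000000000000) (nat_lit 0x0) (nat_lit 0x200010000000030001800080000000000000000000000) := T_2 (nat_lit 125) (nat_lit 124) (nat_lit 3) (nat_lit 5) (nat_lit 7) L4300981 (by decide +kernel)
theorem L4300983 : W_2 (nat_lit 5) (nat_lit 0x20003c001c0004000000000000000000000000000) (nat_lit 0x0) (nat_lit 0x20001c000000030001800080000000000000000000000) := T_2 (nat_lit 158) (nat_lit 159) (nat_lit 1) (nat_lit 9) (nat_lit 8) L4300982 (by decide +kernel)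
theorem L4300984 : W_2 (nat_lit 6) (nat_lit 0x20003c000c0004000000000000000000000000000) (nat_lit 0x0) (nat_lit 0x20001c000000330001800080000000000000000000000) := T_2 (nat_lit 128) (nat_lit 129) (nat_lit 2) (nat_lit 6) (nat_lit 8) L4300983 (by decide +kernel)
theorem L4300985 : W_2 (nat_lit 2) (nat_lit 0x30003c000c0004000000000000000000000000000) (nat_lit 0x0) (nat_lit 0xc004000000000000000000000000000000000000) := D_2 (nat_lit 159) (nat_lit 158) (nat_lit 146) (nat_lit 2) (nat_lit 5) (nat_lit 9) (nat_lit 1) (nat_lit 10) (nat_lit 8) (by decide +kernel)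
theorem L4300986 : W_2 (nat_lit 3) (nat_lit 0x20003c000c0004000000000000000000000000000) (nat_lit 0x0) (nat_lit 0x20001c004000000000000000000000000000000000000) := T_2 (nat_lit 160) (nat_lit 177) (nat_lit 6) (nat_lit 7) (nat_lit 10) L4300985 (by decide +kernel)
theorem L4300987 : W_2 (nat_lit 7) (nat_lit 0x20001c000c0004000000000000000000000000000) (nat_lit 0x0) (nat_lit 0x20001c006000330001800080000000000000000000000) := Q_2 (nat_lit 145) (C_2 L4300979 (C_2 L4300984 (C_2 L4300986 N_2))) (by decide +kernel)
theorem L4300988 : W_2 (nat_lit 9) (nat_lit 0x200018000c0004000000000000000000000000000) (nat_lit 0x0) (nat_lit 0x30001e006700338001c000c0000000000000000000000) := Q_2 (nat_lit 142) (C_2 L760916 (C_2 L4300978 (C_2 L4300987 N_2))) (by decide +kernel)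
theorem L4300989 : W_2 (nat_lit 11) (nat_lit 0x200010000c0004000000000000000000000000000) (nat_lit 0x0) (nat_lit 0x30001e00ef00738003c001c000c000000000000000000) := Q_2 (nat_lit 143) (C_2 L759972 (C_2 L4300962 (C_2 L4300967 (C_2 L4300971 (C_2 L4300988 N_2))))) (by decide +kernel)
theorem L4300990 : W_2 (nat_lit 2) (nat_lit 0x300010002c001f000000000000000000000000000) (nat_lit 0x0) (nat_lit 0x8000000000000c0000000000000000000000) := D_2 (nat_lit 91) (nat_lit 143) (nat_lit 90) (nat_lit 4) (nat_lit 7) (nat_lit 9) (nat_lit 0) (nat_lit 9) (nat_lit 6) (by decide +kernel)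
theorem L4300991 : W_2 (nat_lit 3) (nat_lit 0x300010002c001e000000000000000000000000000) (nat_lit 0x0) (nat_lit 0x8001000010000c0000000000000000000000) := T_2 (nat_lit 108) (nat_lit 128) (nat_lit 3) (nat_lit 6) (nat_lit 6) L4300990 (by decide +kernel)
theorem L4300992 : W_2 (nat_lit 4) (nat_lit 0x300010000c001e000000000000000000000000000) (nat_lit 0x0) (nat_lit 0x8007000010000c0000000000000000000000) := T_2 (nat_lit 129) (nat_lit 130) (nat_lit 3) (nat_lit 7) (nat_lit 6) L4300991 (by decide +kernel)
theorem L4300993 : W_2 (nat_lit 5) (nat_lit 0x200010000c001e000000000000000000000000000) (nat_lit 0x0) (nat_lit 0x2000100008007000010000c0000000000000000000000) := T_2 (nat_lit 160) (nat_lit 177) (nat_lit 5) (nat_lit 8) (nat_lit 6) L4300992 (by decide +kernel)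
theorem L4300994 : W_2 (nat_lit 6) (nat_lit 0x200010000c000e000000000000000000000000000) (nat_lit 0x0) (nat_lit 0x2000100008007000310000c0000000000000000000000) := T_2 (nat_lit 112) (nat_lit 113) (nat_lit 1) (nat_lit 11) (nat_lit 6) L4300993 (by decide +kernel)
theorem L4300995 : W_2 (nat_lit 7) (nat_lit 0x200010000c000c000000000000000000000000000) (nat_lit 0x0) (nat_lit 0x2000100008007000330001c0000000000000000000000) := T_2 (nat_lit 109) (nat_lit 92) (nat_lit 4) (nat_lit 8) (nat_lit 9) L4300994 (by decide +kernel)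
theorem L4300996 : W_2 (nat_lit 8) (nat_lit 0x200010000c0004000000000000000000000000000) (nat_lit 0x0) (nat_lit 0x20001000080070003b0005c0000000000000000000000) := T_2 (nat_lit 111) (nat_lit 94) (nat_lit 6) (nat_lit 8) (nat_lit 9) L4300995 (by decide +kernel)
theorem L4300997 : W_2 (nat_lit 12) (nat_lit 0x20001000080004000000000000000000000000000) (nat_lit 0x0) (nat_lit 0x30001e00ef0077803bc005c000c000000000000000000) := Q_2 (nat_lit 126) (C_2 L1720 (C_2 L4300989 (C_2 L1045 (C_2 L4300996 N_2)))) (by decide +kernel)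
theorem L4301727 : W_2 (nat_lit 4) (nat_lit 0x200078002c0006000000000000000000000000000) (nat_lit 0x0) (nat_lit 0x800040000000100031000800000000000000000000000) := T_2 (nat_lit 162) (nat_lit 179) (nat_lit 7) (nat_lit 8) (nat_lit 6) L805950 (by decide +kernel)
theorem L4301728 : W_2 (nat_lit 5) (nat_lit 0x20007800280006000000000000000000000000000) (nat_lit 0x0) (nat_lit 0x800040000000160031000800000000000000000000000) := T_2 (nat_lit 126) (nat_lit 125) (nat_lit 0) (nat_lit 10) (nat_lit 8) L4301727 (by decide +kernel)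
theorem L4301729 : W_2 (nat_lit 6) (nat_lit 0x20007800080006000000000000000000000000000) (nat_lit 0x0) (nat_lit 0x800040000000760031000800000000000000000000000) := T_2 (nat_lit 129) (nat_lit 130) (nat_lit 2) (nat_lit 7) (nat_lit 8) L4301728 (by decide +kernel)
theorem L4301730 : W_2 (nat_lit 7) (nat_lit 0x20007800080004000000000000000000000000000) (nat_lit 0x0) (nat_lit 0x800040000000760033000900000000000000000000000) := T_2 (nat_lit 109) (nat_lit 92) (nat_lit 4) (nat_lit 8) (nat_lit 9) L4301729 (by decide +kernel)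
theorem L4303518 : W_2 (nat_lit 2) (nat_lit 0x20007c00280004000100000000000000000000000) (nat_lit 0x0) (nat_lit 0x800040000200000000000000000000000000000000000) := D_2 (nat_lit 162) (nat_lit 179) (nat_lit 141) (nat_lit 7) (nat_lit 8) (nat_lit 6) (nat_lit 3) (nat_lit 5) (nat_lit 8) (by decide +kernel)
theorem L4303519 : W_2 (nat_lit 3) (nat_lit 0x20007800280004000100000000000000000000000) (nat_lit 0x0) (nat_lit 0x800040000600100000000000000000000000000000000) := T_2 (nat_lit 142) (nat_lit 128) (nat_lit 2) (nat_lit 6) (nat_lit 8) L4303518 (by decide +kernel)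
theorem L4303520 : W_2 (nat_lit 4) (nat_lit 0x20007800080004000100000000000000000000000) (nat_lit 0x0) (nat_lit 0x800040000600700000000000000000000000000000000) := T_2 (nat_lit 129) (nat_lit 130) (nat_lit 2) (nat_lit 7) (nat_lit 8) L4303519 (by decide +kernel)
theorem L4303521 : W_2 (nat_lit 5) (nat_lit 0x20007800080004000000000000000000000000000) (nat_lit 0x0) (nat_lit 0x800040000600700002000100000000000000000000000) := T_2 (nat_lit 92) (nat_lit 109) (nat_lit 4) (nat_lit 8) (nat_lit 9) L4303520 (by decide +kernel)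
theorem L4303522 : W_2 (nat_lit 2) (nat_lit 0x60007c00080004000000000000000000000000000) (nat_lit 0x0) (nat_lit 0x70000000000000000000000000000000) := D_2 (nat_lit 125) (nat_lit 126) (nat_lit 124) (nat_lit 0) (nat_lit 10) (nat_lit 8) (nat_lit 0) (nat_lit 9) (nat_lit 8) (by decide +kernel)
theorem L4303523 : W_2 (nat_lit 3) (nat_lit 0x60007800080004000000000000000000000000000) (nat_lit 0x0) (nat_lit 0x600070000000000000000000000000000000) := T_2 (nat_lit 142) (nat_lit 141) (nat_lit 3) (nat_lit 5) (nat_lit 8) L4303522 (by decide +kernel)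
theorem L4303524 : W_2 (nat_lit 4) (nat_lit 0x20007800080004000000000000000000000000000) (nat_lit 0x0) (nat_lit 0x800040000600070000000000000000000000000000000) := T_2 (nat_lit 162) (nat_lit 179) (nat_lit 7) (nat_lit 8) (nat_lit 6) L4303523 (by decide +kernel)
theorem L4303525 : W_2 (nat_lit 8) (nat_lit 0x20007000080004000000000000000000000000000) (nat_lit 0x0) (nat_lit 0x80004e000e00778033000900000000000000000000000) := Q_2 (nat_lit 143) (C_2 L4303521 (C_2 L4303524 (C_2 L864811 (C_2 L4301730 N_2)))) (by decide +kernel)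
theorem L4303526 : W_2 (nat_lit 9) (nat_lit 0x20003000080004000000000000000000000000000) (nat_lit 0x0) (nat_lit 0x280034e01ce00f78033000900000000000000000000000) := Q_2 (nat_lit 146) (C_2 L42114 (C_2 L102695 (C_2 L4303525 N_2))) (by decide +kernel)
theorem L4303527 : W_2 (nat_lit 2) (nat_lit 0x100078003400080006000000000000000000000000000) (nat_lit 0x0) (nat_lit 0x800060000000000000000000000000000000) := D_2 (nat_lit 126) (nat_lit 143) (nat_lit 125) (nat_lit 5) (nat_lit 7) (nat_lit 6) (nat_lit 6) (nat_lit 6) (nat_lit 10) (by decide +kernel)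
theorem L4303528 : W_2 (nat_lit 3) (nat_lit 0x100078003400080004000000000000000000000000000) (nat_lit 0x0) (nat_lit 0x800060002000100000000000000000000000) := T_2 (nat_lit 109) (nat_lit 92) (nat_lit 4) (nat_lit 8) (nat_lit 9) L4303527 (by decide +kernel)
theorem L4303529 : W_2 (nat_lit 4) (nat_lit 0x100078003000080004000000000000000000000000000) (nat_lit 0x0) (nat_lit 0xe00060002000100000000000000000000000) := T_2 (nat_lit 142) (nat_lit 141) (nat_lit 0) (nat_lit 9) (nat_lit 9) L4303528 (by decide +kernel)
theorem L4303530 : W_2 (nat_lit 5) (nat_lit 0x78003000080004000000000000000000000000000) (nat_lit 0x0) (nat_lit 0x180000000e00060002000100000000000000000000000) := T_2 (nat_lit 176) (nat_lit 175) (nat_lit 1) (nat_lit 9) (nat_lit 9) L4303529 (by decide +kernel)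
theorem L4303531 : W_2 (nat_lit 6) (nat_lit 0x38003000080004000000000000000000000000000) (nat_lit 0x0) (nat_lit 0x980040000e00060002000100000000000000000000000) := T_2 (nat_lit 162) (nat_lit 179) (nat_lit 7) (nat_lit 8) (nat_lit 6) L4303530 (by decide +kernel)
theorem L4303532 : W_2 (nat_lit 7) (nat_lit 0x30003000080004000000000000000000000000000) (nat_lit 0x0) (nat_lit 0x98004c000e00060002000100000000000000000000000) := T_2 (nat_lit 159) (nat_lit 158) (nat_lit 2) (nat_lit 5) (nat_lit 9) L4303531 (by decide +kernel)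
theorem L4303533 : W_2 (nat_lit 8) (nat_lit 0x20003000080004000000000000000000000000000) (nat_lit 0x0) (nat_lit 0xb8005c000e00060002000100000000000000000000000) := T_2 (nat_lit 160) (nat_lit 177) (nat_lit 5) (nat_lit 8) (nat_lit 6) L4303532 (by decide +kernel)
theorem L4303564 : W_2 (nat_lit 2) (nat_lit 0x20007c00280004000100000000000000000000000) (nat_lit 0x0) (nat_lit 0x70000000000000000000000000000000) := D_2 (nat_lit 125) (nat_lit 126) (nat_lit 124) (nat_lit 0) (nat_lit 10) (nat_lit 8) (nat_lit 0) (nat_lit 9) (nat_lit 8) (by decide +kernel)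
theorem L4303565 : W_2 (nat_lit 3) (nat_lit 0x20007800280004000100000000000000000000000) (nat_lit 0x0) (nat_lit 0x400170000000000000000000000000000000) := T_2 (nat_lit 142) (nat_lit 128) (nat_lit 2) (nat_lit 6) (nat_lit 8) L4303564 (by decide +kernel)
theorem L4303566 : W_2 (nat_lit 4) (nat_lit 0x20007800080004000100000000000000000000000) (nat_lit 0x0) (nat_lit 0x400770000000000000000000000000000000) := T_2 (nat_lit 129) (nat_lit 130) (nat_lit 2) (nat_lit 7) (nat_lit 8) L4303565 (by decide +kernel)
theorem L4303567 : W_2 (nat_lit 5) (nat_lit 0x20007800080004000000000000000000000000000) (nat_lit 0x0) (nat_lit 0x400770002000100000000000000000000000) := T_2 (nat_lit 92) (nat_lit 109) (nat_lit 4) (nat_lit 8) (nat_lit 9) L4303566 (by decide +kernel)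
theorem L4303568 : W_2 (nat_lit 8) (nat_lit 0x20007000080004000000000000000000000000000) (nat_lit 0x0) (nat_lit 0x800040000e00770033000900000000000000000000000) := Q_2 (nat_lit 143) (C_2 L4303521 (C_2 L4303524 (C_2 L4303567 (C_2 L4301730 N_2)))) (by decide +kernel)
theorem L4303569 : W_2 (nat_lit 9) (nat_lit 0x20003000080004000000000000000000000000000) (nat_lit 0x0) (nat_lit 0x280034001ce00f70033000900000000000000000000000) := Q_2 (nat_lit 146) (C_2 L42114 (C_2 L102695 (C_2 L4303568 N_2))) (by decide +kernel)
theorem L4303570 : W_2 (nat_lit 10) (nat_lit 0x20001000080004000000000000000000000000000) (nat_lit 0x0) (nat_lit 0x2b8035e01ee00f78033000900000000000000000000000) := Q_2 (nat_lit 145) (C_2 L4303526 (C_2 L1067 (C_2 L3228 (C_2 L4303533 (C_2 L4303569 N_2))))) (by decide +kernel)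
theorem L4303647 : W_2 (nat_lit 2) (nat_lit 0x200030000e000c000000000000000000000000000) (nat_lit 0x0) (nat_lit 0x100030000000000000000000000000000) := D_2 (nat_lit 112) (nat_lit 128) (nat_lit 113) (nat_lit 2) (nat_lit 6) (nat_lit 7) (nat_lit 1) (nat_lit 11) (nat_lit 6) (by decide +kernel)
theorem L4303648 : W_2 (nat_lit 3) (nat_lit 0x200030000e0004000000000000000000000000000) (nat_lit 0x0) (nat_lit 0x100038000400000000000000000000000) := T_2 (nat_lit 111) (nat_lit 94) (nat_lit 6) (nat_lit 8) (nat_lit 9) L4303647 (by decide +kernel)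
theorem L4303649 : W_2 (nat_lit 4) (nat_lit 0x200030000c0004000000000000000000000000000) (nat_lit 0x0) (nat_lit 0x130038000400000000000000000000000) := T_2 (nat_lit 125) (nat_lit 124) (nat_lit 3) (nat_lit 5) (nat_lit 7) L4303648 (by decide +kernel)
theorem L4303650 : W_2 (nat_lit 5) (nat_lit 0x600030000c0004000000000000000000000000000) (nat_lit 0x0) (nat_lit 0xc000300038000c00000000000000000000000) := T_2 (nat_lit 146) (nat_lit 147) (nat_lit 0) (nat_lit 11) (nat_lit 8) L992900 (by decide +kernel)
theorem L4303651 : W_2 (nat_lit 6) (nat_lit 0x200030000c0004000000000000000000000000000) (nat_lit 0x0) (nat_lit 0x80004000c000300038000c00000000000000000000000) := T_2 (nat_lit 162) (nat_lit 179) (nat_lit 7) (nat_lit 8) (nat_lit 6) L4303650 (by decide +kernel)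
theorem L4303652 : W_2 (nat_lit 7) (nat_lit 0x20003000080004000000000000000000000000000) (nat_lit 0x0) (nat_lit 0x80004000c800370038000c00000000000000000000000) := Q_2 (nat_lit 126) (C_2 L87369 (C_2 L20035 (C_2 L4303649 (C_2 L4303651 N_2)))) (by decide +kernel)
theorem L4304735 : W_2 (nat_lit 2) (nat_lit 0xa00020001000780034000d0004000000000000000000000000000) (nat_lit 0x0) (nat_lit 0x1400040000000000000000000000000000000000000000000000000000) := D_2 (nat_lit 210) (nat_lit 226) (nat_lit 228) (nat_lit 5) (nat_lit 6) (nat_lit 9) (nat_lit 7) (nat_lit 6) (nat_lit 9) (by decide +kernel)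
theorem L4304736 : W_2 (nat_lit 3) (nat_lit 0x200020001000780034000d0004000000000000000000000000000) (nat_lit 0x0) (nat_lit 0x14000c0004000000000000000000000000000000000000000000000000) := T_2 (nat_lit 211) (nat_lit 194) (nat_lit 7) (nat_lit 6) (nat_lit 8) L4304735 (by decide +kernel)
theorem L4304737 : W_2 (nat_lit 4) (nat_lit 0x20001000780034000d0004000000000000000000000000000) (nat_lit 0x0) (nat_lit 0x14000e0005000000000000000000000000000000000000000000000000) := T_2 (nat_lit 209) (nat_lit 192) (nat_lit 5) (nat_lit 6) (nat_lit 8) L4304736 (by decide +kernel)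
theorem L4304738 : W_2 (nat_lit 5) (nat_lit 0x1000780034000d0004000000000000000000000000000) (nat_lit 0x0) (nat_lit 0x14000e0007000000000000800000000000000000000000000000000000) := T_2 (nat_lit 193) (nat_lit 143) (nat_lit 6) (nat_lit 6) (nat_lit 11) L4304737 (by decide +kernel)
theorem L4304739 : W_2 (nat_lit 6) (nat_lit 0x1000780030000d0004000000000000000000000000000) (nat_lit 0x0) (nat_lit 0x14000e0007000000000000e00000000000000000000000000000000000) := T_2 (nat_lit 142) (nat_lit 141) (nat_lit 0) (nat_lit 9) (nat_lit 9) L4304738 (by decide +kernel)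
theorem L4304740 : W_2 (nat_lit 7) (nat_lit 0x780030000d0004000000000000000000000000000) (nat_lit 0x0) (nat_lit 0x14000e0007000180000000e00000000000000000000000000000000000) := T_2 (nat_lit 176) (nat_lit 175) (nat_lit 1) (nat_lit 9) (nat_lit 9) L4304739 (by decide +kernel)
theorem L4304741 : W_2 (nat_lit 8) (nat_lit 0x380030000d0004000000000000000000000000000) (nat_lit 0x0) (nat_lit 0x14000e0007000980040000e00000000000000000000000000000000000) := T_2 (nat_lit 162) (nat_lit 179) (nat_lit 7) (nat_lit 8) (nat_lit 6) L4304740 (by decide +kernel)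
theorem L4304742 : W_2 (nat_lit 9) (nat_lit 0x300030000d0004000000000000000000000000000) (nat_lit 0x0) (nat_lit 0x14000e000700098004c000e00000000000000000000000000000000000) := T_2 (nat_lit 159) (nat_lit 158) (nat_lit 2) (nat_lit 5) (nat_lit 9) L4304741 (by decide +kernel)
theorem L4304743 : W_2 (nat_lit 10) (nat_lit 0x200030000d0004000000000000000000000000000) (nat_lit 0x0) (nat_lit 0x14000e0007000b8005c000e00000000000000000000000000000000000) := T_2 (nat_lit 160) (nat_lit 177) (nat_lit 5) (nat_lit 8) (nat_lit 6) L4304742 (by decide +kernel)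
theorem L4304744 : W_2 (nat_lit 11) (nat_lit 0x200030000c0004000000000000000000000000000) (nat_lit 0x0) (nat_lit 0x14000e0007000b8005c000e00030000000000000000000000000000000) := T_2 (nat_lit 124) (nat_lit 125) (nat_lit 3) (nat_lit 5) (nat_lit 7) L4304743 (by decide +kernel)
theorem L4304745 : W_2 (nat_lit 2) (nat_lit 0xa00020001000780034000c0004000400000000000000000000000) (nat_lit 0x0) (nat_lit 0x1400040000000000000000000000000000000000000000000000000000) := D_2 (nat_lit 210) (nat_lit 226) (nat_lit 228) (nat_lit 5) (nat_lit 6) (nat_lit 9) (nat_lit 7) (nat_lit 6) (nat_lit 9) (by decide +kernel)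
theorem L4304746 : W_2 (nat_lit 3) (nat_lit 0x200020001000780034000c0004000400000000000000000000000) (nat_lit 0x0) (nat_lit 0x14000c0004000000000000000000000000000000000000000000000000) := T_2 (nat_lit 211) (nat_lit 194) (nat_lit 7) (nat_lit 6) (nat_lit 8) L4304745 (by decide +kernel)
theorem L4304747 : W_2 (nat_lit 4) (nat_lit 0x20001000780034000c0004000400000000000000000000000) (nat_lit 0x0) (nat_lit 0x14000e0005000000000000000000000000000000000000000000000000) := T_2 (nat_lit 209) (nat_lit 192) (nat_lit 5) (nat_lit 6) (nat_lit 8) L4304746 (by decide +kernel)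
theorem L4304748 : W_2 (nat_lit 5) (nat_lit 0x1000780034000c0004000400000000000000000000000) (nat_lit 0x0) (nat_lit 0x14000e0007000000000000800000000000000000000000000000000000) := T_2 (nat_lit 193) (nat_lit 143) (nat_lit 6) (nat_lit 6) (nat_lit 11) L4304747 (by decide +kernel)
theorem L4304749 : W_2 (nat_lit 6) (nat_lit 0x1000780030000c0004000400000000000000000000000) (nat_lit 0x0) (nat_lit 0x14000e0007000000000000e00000000000000000000000000000000000) := T_2 (nat_lit 142) (nat_lit 141) (nat_lit 0) (nat_lit 9) (nat_lit 9) L4304748 (by decide +kernel)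
theorem L4304750 : W_2 (nat_lit 7) (nat_lit 0x780030000c0004000400000000000000000000000) (nat_lit 0x0) (nat_lit 0x14000e0007000180000000e00000000000000000000000000000000000) := T_2 (nat_lit 176) (nat_lit 175) (nat_lit 1) (nat_lit 9) (nat_lit 9) L4304749 (by decide +kernel)
theorem L4304751 : W_2 (nat_lit 8) (nat_lit 0x700030000c0004000400000000000000000000000) (nat_lit 0x0) (nat_lit 0x14000e000700018000c000e00000000000000000000000000000000000) := T_2 (nat_lit 159) (nat_lit 158) (nat_lit 2) (nat_lit 5) (nat_lit 9) L4304750 (by decide +kernel)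
theorem L4304752 : W_2 (nat_lit 9) (nat_lit 0x600030000c0004000400000000000000000000000) (nat_lit 0x0) (nat_lit 0x14000e000700038001c000e00000000000000000000000000000000000) := T_2 (nat_lit 160) (nat_lit 177) (nat_lit 5) (nat_lit 8) (nat_lit 6) L4304751 (by decide +kernel)
theorem L4304753 : W_2 (nat_lit 10) (nat_lit 0x600030000c0004000000000000000000000000000) (nat_lit 0x0) (nat_lit 0x14000e000700038001c000e00000008000400000000000000000000000) := T_2 (nat_lit 94) (nat_lit 111) (nat_lit 6) (nat_lit 8) (nat_lit 9) L4304752 (by decide +kernel)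
theorem L4304754 : W_2 (nat_lit 11) (nat_lit 0x200030000c0004000000000000000000000000000) (nat_lit 0x0) (nat_lit 0x14000e0007000b8005c000e00000008000400000000000000000000000) := T_2 (nat_lit 162) (nat_lit 179) (nat_lit 7) (nat_lit 8) (nat_lit 6) L4304753 (by decide +kernel)
theorem L4304755 : W_2 (nat_lit 13) (nat_lit 0x20003000080004000000000000000000000000000) (nat_lit 0x0) (nat_lit 0x14000e0007000b8005c000e00170038000400000000000000000000000) := Q_2 (nat_lit 126) (C_2 L38690 (C_2 L4303649 (C_2 L4304744 (C_2 L4304754 N_2)))) (by decide +kernel)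
theorem L4304756 : W_2 (nat_lit 14) (nat_lit 0x20001000080004000000000000000000000000000) (nat_lit 0x0) (nat_lit 0x14000e0007000b8005c00ee00370038000c00000000000000000000000) := Q_2 (nat_lit 145) (C_2 L4303652 (C_2 L1067 (C_2 L3228 (C_2 L4304755 N_2)))) (by decide +kernel)
theorem L4304757 : W_2 (nat_lit 16) (nat_lit 0x1000080004000000000000000000000000000) (nat_lit 0x0) (nat_lit 0x14000e0007002b8037e03ef03f7c1fbc1fdf01cc006000000000000000) := Q_2 (nat_lit 161) (C_2 L4300940 (C_2 L4300951 (C_2 L103007 (C_2 L4300997 (C_2 L38724 (C_2 L4303570 (C_2 L42313 (C_2 L4304756 N_2)))))))) (by decide +kernel)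
theorem L4304758 : W_2 (nat_lit 9) (nat_lit 0x1000080004000000000000000000000000000) (nat_lit 0x0) (nat_lit 0xa0007000280014000a000600030001c000e0005000000) := Q_2 (nat_lit 93) (C_2 L3039656 (C_2 L3026667 (C_2 L103036 N_2))) (by decide +kernel)
theorem L4304759 : W_2 (nat_lit 17) (nat_lit 0x1000080000000000000000000000000000000) (nat_lit 0x0) (nat_lit 0x14000e0007002b8037e03ef03f7c1ffc1fff01fe007c000e0005000000) := Q_2 (nat_lit 110) (C_2 L102608 (C_2 L103042 (C_2 L23913 (C_2 L23929 (C_2 L20106 (C_2 L4304757 (C_2 L103033 (C_2 L4304758 N_2)))))))) (by decide +kernel)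
theorem L4304760 : W_2 (nat_lit 13) (nat_lit 0x1000080004000600000000000000000000000) (nat_lit 0x0) (nat_lit 0x75001e8007400f30039003c8008000400000000000) := T_2 (nat_lit 160) (nat_lit 143) (nat_lit 5) (nat_lit 8) (nat_lit 5) L2082000 (by decide +kernel)
theorem L4304761 : W_2 (nat_lit 14) (nat_lit 0x1000080004000200000000000000000000000) (nat_lit 0x0) (nat_lit 0x75001e8007400f3003d003e8008000400000000000) := T_2 (nat_lit 94) (nat_lit 77) (nat_lit 6) (nat_lit 8) (nat_lit 8) L4304760 (by decide +kernel)
theorem L4304762 : W_2 (nat_lit 15) (nat_lit 0x1000080004000000000000000000000000000) (nat_lit 0x0) (nat_lit 0x75001e8007400f3003f003f8009c004e0005000000) := Q_2 (nat_lit 93) (C_2 L3026667 (C_2 L103024 (C_2 L20090 (C_2 L4304761 N_2)))) (by decide +kernel)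
theorem L4304763 : W_2 (nat_lit 5) (nat_lit 0x1000080004000200008000000000000000000) (nat_lit 0x0) (nat_lit 0xa00070002800000000000400020000000000000000000) := T_2 (nat_lit 77) (nat_lit 94) (nat_lit 6) (nat_lit 8) (nat_lit 8) L3130374 (by decide +kernel)
theorem L4304764 : W_2 (nat_lit 6) (nat_lit 0x1000080004000200000000000000000000000) (nat_lit 0x0) (nat_lit 0xa00070002800000000000500028000000000000000000) := T_2 (nat_lit 75) (nat_lit 92) (nat_lit 4) (nat_lit 8) (nat_lit 8) L4304763 (by decide +kernel)
theorem L4304765 : W_2 (nat_lit 7) (nat_lit 0x1000080004000000000000000000000000000) (nat_lit 0x0) (nat_lit 0xa00070002800140000000700038001400000000000000) := Q_2 (nat_lit 93) (C_2 L20101 (C_2 L20090 (C_2 L20098 (C_2 L4304764 N_2)))) (by decide +kernel)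
theorem L4304766 : W_2 (nat_lit 2) (nat_lit 0xa00020001000080004000000000000000000000000000) (nat_lit 0x0) (nat_lit 0x14000400000000000000000000000000000000000000000000) := D_2 (nat_lit 178) (nat_lit 196) (nat_lit 194) (nat_lit 7) (nat_lit 8) (nat_lit 7) (nat_lit 5) (nat_lit 8) (nat_lit 7) (by decide +kernel)
theorem L4304767 : W_2 (nat_lit 3) (nat_lit 0x800020001000080004000000000000000000000000000) (nat_lit 0x0) (nat_lit 0x14000600010000000000000000000000000000000000000000) := T_2 (nat_lit 177) (nat_lit 160) (nat_lit 5) (nat_lit 8) (nat_lit 6) L4304766 (by decide +kernel)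
theorem L4304768 : W_2 (nat_lit 4) (nat_lit 0x20001000080004000000000000000000000000000) (nat_lit 0x0) (nat_lit 0x14000e00050000000000000000000000000000000000000000) := T_2 (nat_lit 179) (nat_lit 162) (nat_lit 7) (nat_lit 8) (nat_lit 6) L4304767 (by decide +kernel)
theorem L4304769 : W_2 (nat_lit 11) (nat_lit 0x1000080004000000000000000000000000000) (nat_lit 0x0) (nat_lit 0x14002f8037e01ee00f78033000900000000000000000000000) := Q_2 (nat_lit 161) (C_2 L102633 (C_2 L4303570 (C_2 L20868 (C_2 L41978 (C_2 L4304768 N_2))))) (by decide +kernel)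
theorem L4304770 : W_2 (nat_lit 2) (nat_lit 0x50001000080004000200000000000000000000000) (nat_lit 0x0) (nat_lit 0xa00020000000000000000000000000000000000000000) := D_2 (nat_lit 161) (nat_lit 179) (nat_lit 177) (nat_lit 7) (nat_lit 8) (nat_lit 6) (nat_lit 5) (nat_lit 8) (nat_lit 6) (by decide +kernel)
theorem L4304771 : W_2 (nat_lit 3) (nat_lit 0x40001000080004000200000000000000000000000) (nat_lit 0x0) (nat_lit 0xa00030000800000000000000000000000000000000000) := T_2 (nat_lit 160) (nat_lit 143) (nat_lit 5) (nat_lit 8) (nat_lit 5) L4304770 (by decide +kernel)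
theorem L4304772 : W_2 (nat_lit 4) (nat_lit 0x1000080004000200000000000000000000000) (nat_lit 0x0) (nat_lit 0xa00070002800000000000000000000000000000000000) := T_2 (nat_lit 162) (nat_lit 145) (nat_lit 7) (nat_lit 8) (nat_lit 5) L4304771 (by decide +kernel)
theorem L4304773 : W_2 (nat_lit 9) (nat_lit 0x1000080004000000000000000000000000000) (nat_lit 0x0) (nat_lit 0xa00070002800140002000600038001c000e0005000000) := Q_2 (nat_lit 93) (C_2 L3026667 (C_2 L102618 (C_2 L20090 (C_2 L4304772 N_2)))) (by decide +kernel)
theorem L4304774 : W_2 (nat_lit 16) (nat_lit 0x1000080000000000000000000000000000000) (nat_lit 0x0) (nat_lit 0x10001c002f8077e01ee00f780f7003f003f8009c004e0005000000) := Q_2 (nat_lit 110) (C_2 L20095 (C_2 L253740 (C_2 L20106 (C_2 L4304762 (C_2 L4304765 (C_2 L4304769 (C_2 L4304773 N_2))))))) (by decide +kernel)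
theorem L4304775 : W_2 (nat_lit 11) (nat_lit 0x1000080004000600000000000000000000000) (nat_lit 0x0) (nat_lit 0x500028001001fa00f980fc8000000000000000000) := T_2 (nat_lit 160) (nat_lit 143) (nat_lit 5) (nat_lit 8) (nat_lit 5) L2081871 (by decide +kernel)
theorem L4304776 : W_2 (nat_lit 12) (nat_lit 0x1000080004000200000000000000000000000) (nat_lit 0x0) (nat_lit 0x500028001001fa00fd80fe8000000000000000000) := T_2 (nat_lit 94) (nat_lit 77) (nat_lit 6) (nat_lit 8) (nat_lit 8) L4304775 (by decide +kernel)
theorem L4304777 : W_2 (nat_lit 13) (nat_lit 0x1000080004000000000000000000000000000) (nat_lit 0x0) (nat_lit 0x500028001401fa00ff80ff8001c000e0005000000) := Q_2 (nat_lit 93) (C_2 L3026667 (C_2 L200113 (C_2 L103024 (C_2 L20090 (C_2 L4304776 N_2))))) (by decide +kernel)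
theorem L4304778 : W_2 (nat_lit 16) (nat_lit 0x1000080000000000000000000000000000000) (nat_lit 0x0) (nat_lit 0x14002e001f000f8007c00ee007701fe00ff80ff8001c000e0005000000) := Q_2 (nat_lit 110) (C_2 L102634 (C_2 L4304773 (C_2 L102627 (C_2 L253771 (C_2 L4304777 (C_2 L253769 (C_2 L4304765 N_2))))))) (by decide +kernel)
theorem L4304779 : W_2 (nat_lit 2) (nat_lit 0x8001800040002000180008000c000100000000000000000000000) (nat_lit 0x0) (nat_lit 0x1000100000000000010000000000000000000000000000000000000000) := D_2 (nat_lit 212) (nat_lit 228) (nat_lit 160) (nat_lit 5) (nat_lit 8) (nat_lit 9) (nat_lit 4) (nat_lit 8) (nat_lit 12) (by decide +kernel)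
theorem L4304780 : W_2 (nat_lit 3) (nat_lit 0x8001800040002000100008000c000100000000000000000000000) (nat_lit 0x0) (nat_lit 0x1000100000000000010000800040000000000000000000000000000000) := T_2 (nat_lit 143) (nat_lit 126) (nat_lit 4) (nat_lit 8) (nat_lit 11) L4304779 (by decide +kernel)
theorem L4304781 : W_2 (nat_lit 4) (nat_lit 0x1800040002000100008000c000100000000000000000000000) (nat_lit 0x0) (nat_lit 0x1000180004000000010000800040000000000000000000000000000000) := T_2 (nat_lit 211) (nat_lit 194) (nat_lit 5) (nat_lit 8) (nat_lit 8) L4304780 (by decide +kernel)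
theorem L4304782 : W_2 (nat_lit 5) (nat_lit 0x1000040002000100008000c000100000000000000000000000) (nat_lit 0x0) (nat_lit 0x100038000c000000010000800040000000000000000000000000000000) := T_2 (nat_lit 195) (nat_lit 213) (nat_lit 7) (nat_lit 8) (nat_lit 8) L4304781 (by decide +kernel)
theorem L4304783 : W_2 (nat_lit 6) (nat_lit 0x40002000100008000c000100000000000000000000000) (nat_lit 0x0) (nat_lit 0x100038001c000800010000800040000000000000000000000000000000) := T_2 (nat_lit 196) (nat_lit 179) (nat_lit 7) (nat_lit 8) (nat_lit 7) L4304782 (by decide +kernel)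
theorem L4304784 : W_2 (nat_lit 7) (nat_lit 0x2000100008000c000100000000000000000000000) (nat_lit 0x0) (nat_lit 0x100038001c000c00010000800140000000000000000000000000000000) := T_2 (nat_lit 178) (nat_lit 128) (nat_lit 6) (nat_lit 8) (nat_lit 10) L4304783 (by decide +kernel)
theorem L4304785 : W_2 (nat_lit 8) (nat_lit 0x20001000080004000100000000000000000000000) (nat_lit 0x0) (nat_lit 0x100038001c000c00010000800140008000400000000000000000000000) := T_2 (nat_lit 111) (nat_lit 94) (nat_lit 6) (nat_lit 8) (nat_lit 9) L4304784 (by decide +kernel)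
theorem L4304786 : W_2 (nat_lit 9) (nat_lit 0x20001000080004000000000000000000000000000) (nat_lit 0x0) (nat_lit 0x100038001c000c0001000080014000a000500000000000000000000000) := T_2 (nat_lit 92) (nat_lit 109) (nat_lit 4) (nat_lit 8) (nat_lit 9) L4304785 (by decide +kernel)
theorem L4304787 : W_2 (nat_lit 3) (nat_lit 0x2000100008000c000000000000000000000000000) (nat_lit 0x0) (nat_lit 0x400000000000140002000100000000000000000000000) := T_2 (nat_lit 109) (nat_lit 92) (nat_lit 4) (nat_lit 8) (nat_lit 9) L10540 (by decide +kernel)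
theorem L4304788 : W_2 (nat_lit 4) (nat_lit 0x20001000080004000000000000000000000000000) (nat_lit 0x0) (nat_lit 0x40000000000014000a000500000000000000000000000) := T_2 (nat_lit 111) (nat_lit 94) (nat_lit 6) (nat_lit 8) (nat_lit 9) L4304787 (by decide +kernel)
theorem L4304789 : W_2 (nat_lit 13) (nat_lit 0x1000080004000000000000000000000000000) (nat_lit 0x0) (nat_lit 0x100038001c000c00070000803f781fb81fde0000000000000000000000) := Q_2 (nat_lit 161) (C_2 L102633 (C_2 L103007 (C_2 L4304786 (C_2 L102630 (C_2 L4304788 N_2))))) (by decide +kernel)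
theorem L4304790 : W_2 (nat_lit 16) (nat_lit 0x1000080000000000000000000000000000000) (nat_lit 0x0) (nat_lit 0x100038001c000c0077801ef03f781ff81ffe0ffe009c004e0005000000) := Q_2 (nat_lit 110) (C_2 L102634 (C_2 L4304777 (C_2 L253768 (C_2 L23929 (C_2 L4304762 (C_2 L102608 (C_2 L4304789 (C_2 L103042 (C_2 L103033 N_2))))))))) (by decide +kernel)
theorem L4304791 : W_2 (nat_lit 8) (nat_lit 0x1000080004000000000000000000000000000) (nat_lit 0x0) (nat_lit 0x600030002800100008000700038001c00080000000000) := Q_2 (nat_lit 93) (C_2 L3039656 (C_2 L20059 (C_2 L253753 (C_2 L253767 N_2)))) (by decide +kernel)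
theorem L4304792 : W_2 (nat_lit 15) (nat_lit 0x1000080004000000000000000000000000000) (nat_lit 0x0) (nat_lit 0x14000e0017000f8007c00ee00370038000c00000000000000000000000) := Q_2 (nat_lit 161) (C_2 L4304768 (C_2 L20858 (C_2 L102630 (C_2 L4304756 N_2)))) (by decide +kernel)
theorem L4304793 : W_2 (nat_lit 5) (nat_lit 0x1000080004000000000000000000000000000) (nat_lit 0x0) (nat_lit 0xa00070002800140000000300018000400000000000000) := Q_2 (nat_lit 93) (C_2 L4304772 (C_2 L20098 (C_2 L20089 N_2))) (by decide +kernel)
theorem L4304794 : W_2 (nat_lit 16) (nat_lit 0x1000080000000000000000000000000000000) (nat_lit 0x0) (nat_lit 0x14000e001f000f8007e00ef0077007d803fc01fe005c00080000000000) := Q_2 (nat_lit 110) (C_2 L102608 (C_2 L4304765 (C_2 L253728 (C_2 L4304791 (C_2 L24030 (C_2 L4304792 (C_2 L4304793 N_2))))))) (by decide +kernel)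
theorem L4304795 : W_2 (nat_lit 15) (nat_lit 0x1000080004000000000000000000000000000) (nat_lit 0x0) (nat_lit 0x14000e0017000f8007c00ee0017003b801dc0040002000000000000000) := Q_2 (nat_lit 161) (C_2 L4304788 (C_2 L4304768 (C_2 L4300951 N_2))) (by decide +kernel)
theorem L4304796 : W_2 (nat_lit 16) (nat_lit 0x1000080000000000000000000000000000000) (nat_lit 0x0) (nat_lit 0x14001e001f000f8007c00ee001701ff80ffc0ff8003c000e0005000000) := Q_2 (nat_lit 110) (C_2 L102634 (C_2 L4304793 (C_2 L4304791 (C_2 L253740 (C_2 L4304777 (C_2 L4304795 (C_2 L4304773 N_2))))))) (by decide +kernel)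
theorem L4304797 : W_2 (nat_lit 16) (nat_lit 0x1000080004000000000000000000000000000) (nat_lit 0x0) (nat_lit 0x14000f8017c03ee00f4007b803dc01c0004000000000000000) := Q_2 (nat_lit 161) (C_2 L4304788 (C_2 L4304768 (C_2 L4300940 N_2))) (by decide +kernel)
theorem L4304798 : W_2 (nat_lit 17) (nat_lit 0x1000080000000000000000000000000000000) (nat_lit 0x0) (nat_lit 0x10001c000f8017c03ee00f401ff80ffc0ff8005c000e0005000000) := Q_2 (nat_lit 110) (C_2 L102634 (C_2 L4304793 (C_2 L4304791 (C_2 L253740 (C_2 L4304777 (C_2 L4304797 (C_2 L4304773 N_2))))))) (by decide +kernel)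
theorem L4304799 : W_2 (nat_lit 16) (nat_lit 0x20001000080000000000000000000000000000000) (nat_lit 0x0) (nat_lit 0x14000e0007002b8035e03ef03f7c1ffc1fdf01cc006000000000000000) := Q_2 (nat_lit 110) (C_2 L4300940 (C_2 L4300951 (C_2 L4304756 (C_2 L103007 (C_2 L4300997 (C_2 L38724 (C_2 L4303570 (C_2 L42313 N_2)))))))) (by decide +kernel)
theorem L4304800 : W_2 (nat_lit 2) (nat_lit 0x280008000400020001000180002000100000000000000000000000) (nat_lit 0x0) (nat_lit 0x5000100000000000000000000000000000000000000000000000000000) := D_2 (nat_lit 212) (nat_lit 228) (nat_lit 230) (nat_lit 5) (nat_lit 8) (nat_lit 9) (nat_lit 7) (nat_lit 8) (nat_lit 9) (by decide +kernel)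
theorem L4304801 : W_2 (nat_lit 3) (nat_lit 0x80008000400020001000180002000100000000000000000000000) (nat_lit 0x0) (nat_lit 0x5000300010000000000000000000000000000000000000000000000000) := T_2 (nat_lit 213) (nat_lit 196) (nat_lit 7) (nat_lit 8) (nat_lit 8) L4304800 (by decide +kernel)
theorem L4304802 : W_2 (nat_lit 4) (nat_lit 0x8000400020001000180002000100000000000000000000000) (nat_lit 0x0) (nat_lit 0x5000380014000000000000000000000000000000000000000000000000) := T_2 (nat_lit 211) (nat_lit 194) (nat_lit 5) (nat_lit 8) (nat_lit 8) L4304801 (by decide +kernel)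
theorem L4304803 : W_2 (nat_lit 5) (nat_lit 0x400020001000180002000100000000000000000000000) (nat_lit 0x0) (nat_lit 0x500038001c000000000002000000000000000000000000000000000000) := T_2 (nat_lit 195) (nat_lit 145) (nat_lit 6) (nat_lit 8) (nat_lit 11) L4304802 (by decide +kernel)
theorem L4304804 : W_2 (nat_lit 6) (nat_lit 0x400020001000080002000100000000000000000000000) (nat_lit 0x0) (nat_lit 0x500038001c000000000002000100008000000000000000000000000000) := T_2 (nat_lit 128) (nat_lit 111) (nat_lit 6) (nat_lit 8) (nat_lit 10) L4304803 (by decide +kernel)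
theorem L4304805 : W_2 (nat_lit 7) (nat_lit 0x400020001000080002000000000000000000000000000) (nat_lit 0x0) (nat_lit 0x500038001c00000000000200010000c000100000000000000000000000) := T_2 (nat_lit 92) (nat_lit 110) (nat_lit 4) (nat_lit 8) (nat_lit 9) L4304804 (by decide +kernel)
theorem L4304806 : W_2 (nat_lit 8) (nat_lit 0x400020001000080000000000000000000000000000000) (nat_lit 0x0) (nat_lit 0x500038001c00000000000200014000e000100000000000000000000000) := T_2 (nat_lit 109) (nat_lit 126) (nat_lit 4) (nat_lit 8) (nat_lit 10) L4304805 (by decide +kernel)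
theorem L4304807 : W_2 (nat_lit 2) (nat_lit 0x40001800080004000600010000c0008000400000000000000000000000) (nat_lit 0x0) (nat_lit 0x80002000000000000800000000000000000000000000000000000000000000) := D_2 (nat_lit 229) (nat_lit 179) (nat_lit 247) (nat_lit 6) (nat_lit 8) (nat_lit 13) (nat_lit 7) (nat_lit 8) (nat_lit 10) (by decide +kernel)
theorem L4304808 : W_2 (nat_lit 3) (nat_lit 0x1800080004000600010000c0008000400000000000000000000000) (nat_lit 0x0) (nat_lit 0x80006000200000000800000000000000000000000000000000000000000000) := T_2 (nat_lit 230) (nat_lit 213) (nat_lit 7) (nat_lit 8) (nat_lit 9) L4304807 (by decide +kernel)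
theorem L4304809 : W_2 (nat_lit 4) (nat_lit 0x1800080004000200010000c0008000400000000000000000000000) (nat_lit 0x0) (nat_lit 0x80006000200000000800040002000000000000000000000000000000000000) := T_2 (nat_lit 162) (nat_lit 145) (nat_lit 6) (nat_lit 8) (nat_lit 12) L4304808 (by decide +kernel)
theorem L4304810 : W_2 (nat_lit 5) (nat_lit 0x800080004000200010000c0008000400000000000000000000000) (nat_lit 0x0) (nat_lit 0x80007000300000000800040002000000000000000000000000000000000000) := T_2 (nat_lit 212) (nat_lit 228) (nat_lit 5) (nat_lit 8) (nat_lit 9) L4304809 (by decide +kernel)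
theorem L4304811 : W_2 (nat_lit 6) (nat_lit 0x80004000200010000c0008000400000000000000000000000) (nat_lit 0x0) (nat_lit 0x80007000380004000800040002000000000000000000000000000000000000) := T_2 (nat_lit 211) (nat_lit 194) (nat_lit 5) (nat_lit 8) (nat_lit 8) L4304810 (by decide +kernel)
theorem L4304812 : W_2 (nat_lit 7) (nat_lit 0x4000200010000c0008000400000000000000000000000) (nat_lit 0x0) (nat_lit 0x8000700038000c000800040002800000000000000000000000000000000000) := T_2 (nat_lit 195) (nat_lit 143) (nat_lit 4) (nat_lit 8) (nat_lit 11) L4304811 (by decide +kernel)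
theorem L4304813 : W_2 (nat_lit 8) (nat_lit 0x400020001000080008000400000000000000000000000) (nat_lit 0x0) (nat_lit 0x8000700038000c000800040002800040002000000000000000000000000000) := T_2 (nat_lit 126) (nat_lit 109) (nat_lit 4) (nat_lit 8) (nat_lit 10) L4304812 (by decide +kernel)
theorem L4304814 : W_2 (nat_lit 9) (nat_lit 0x400020001000080008000000000000000000000000000) (nat_lit 0x0) (nat_lit 0x8000700038000c000800040002800040006000400000000000000000000000) := T_2 (nat_lit 94) (nat_lit 110) (nat_lit 6) (nat_lit 8) (nat_lit 9) L4304813 (by decide +kernel)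
theorem L4304815 : W_2 (nat_lit 10) (nat_lit 0x400020001000080000000000000000000000000000000) (nat_lit 0x0) (nat_lit 0x8000700038000c00080004000280014000e000400000000000000000000000) := T_2 (nat_lit 111) (nat_lit 128) (nat_lit 6) (nat_lit 8) (nat_lit 10) L4304814 (by decide +kernel)
theorem L4304816 : W_2 (nat_lit 11) (nat_lit 0x20001000080000000000000000000000000000000) (nat_lit 0x0) (nat_lit 0x8000700038003c003c0005c00ee00f7003f800500000000000000000000000) := Q_2 (nat_lit 178) (C_2 L41961 (C_2 L38668 (C_2 L41551 (C_2 L4304806 (C_2 L4304815 N_2))))) (by decide +kernel)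
theorem L4304817 : W_2 (nat_lit 2) (nat_lit 0x40002000100008000c000000000000000000000000000) (nat_lit 0x0) (nat_lit 0x40002000100000000000000000000000) := D_2 (nat_lit 109) (nat_lit 126) (nat_lit 92) (nat_lit 4) (nat_lit 8) (nat_lit 10) (nat_lit 4) (nat_lit 8) (nat_lit 9) (by decide +kernel)
theorem L4304818 : W_2 (nat_lit 3) (nat_lit 0x400020001000080008000000000000000000000000000) (nat_lit 0x0) (nat_lit 0x40006000500000000000000000000000) := T_2 (nat_lit 110) (nat_lit 94) (nat_lit 6) (nat_lit 8) (nat_lit 9) L4304817 (by decide +kernel)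
theorem L4304819 : W_2 (nat_lit 4) (nat_lit 0x400020001000080000000000000000000000000000000) (nat_lit 0x0) (nat_lit 0x14000e000500000000000000000000000) := T_2 (nat_lit 111) (nat_lit 128) (nat_lit 6) (nat_lit 8) (nat_lit 10) L4304818 (by decide +kernel)
theorem L4304820 : W_2 (nat_lit 13) (nat_lit 0x20001000080000000000000000000000000000000) (nat_lit 0x0) (nat_lit 0x500038001c00060000001ef8077807fe00500000000000000000000000) := Q_2 (nat_lit 178) (C_2 L4304806 (C_2 L38671 (C_2 L41964 (C_2 L41926 (C_2 L4304819 N_2))))) (by decide +kernel)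
theorem L4304821 : W_2 (nat_lit 11) (nat_lit 0x20001000080000000000000000000000000000000) (nat_lit 0x0) (nat_lit 0x10002f8035e01ee00f7803f000d00000000000000000000000) := Q_2 (nat_lit 110) (C_2 L4304788 (C_2 L102633 (C_2 L4303570 (C_2 L102630 N_2)))) (by decide +kernel)
theorem L4304822 : W_2 (nat_lit 17) (nat_lit 0x1000080000000000000000000000000000000) (nat_lit 0x0) (nat_lit 0x800074003e003f003f8037e03ef83f7c1ffe1fdf01cc006000000000000000) := Q_2 (nat_lit 161) (C_2 L38752 (C_2 L318001 (C_2 L39511 (C_2 L4304799 (C_2 L4304816 (C_2 L4304820 (C_2 L4304821 N_2))))))) (by decide +kernel)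
theorem L4304823 : W_2 (nat_lit 13) (nat_lit 0x1000080000000000000000000000000000000) (nat_lit 0x0) (nat_lit 0x38001c000e0007c00ee0037c00fc01ff003c001c000e0005000000) := Q_2 (nat_lit 110) (C_2 L102634 (C_2 L4304793 (C_2 L4304791 (C_2 L253740 (C_2 L20079 (C_2 L253719 (C_2 L4304773 N_2))))))) (by decide +kernel)
theorem L4304824 : W_2 (nat_lit 15) (nat_lit 0x20001000080000000000000000000000000000000) (nat_lit 0x0) (nat_lit 0x14000e0007000b8005c00ee0037003c000e00020000000000000000000) := Q_2 (nat_lit 110) (C_2 L20872 (C_2 L4304756 (C_2 L20123 (C_2 L20113 N_2)))) (by decide +kernel)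
theorem L4304825 : W_2 (nat_lit 2) (nat_lit 0x280008000400020001000180002000000000000000000000000000) (nat_lit 0x0) (nat_lit 0x5000100000000000000000000000000000000000000000000000000000) := D_2 (nat_lit 212) (nat_lit 228) (nat_lit 230) (nat_lit 5) (nat_lit 8) (nat_lit 9) (nat_lit 7) (nat_lit 8) (nat_lit 9) (by decide +kernel)
theorem L4304826 : W_2 (nat_lit 3) (nat_lit 0x80008000400020001000180002000000000000000000000000000) (nat_lit 0x0) (nat_lit 0x5000300010000000000000000000000000000000000000000000000000) := T_2 (nat_lit 213) (nat_lit 196) (nat_lit 7) (nat_lit 8) (nat_lit 8) L4304825 (by decide +kernel)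
theorem L4304827 : W_2 (nat_lit 4) (nat_lit 0x8000400020001000180002000000000000000000000000000) (nat_lit 0x0) (nat_lit 0x5000380014000000000000000000000000000000000000000000000000) := T_2 (nat_lit 211) (nat_lit 194) (nat_lit 5) (nat_lit 8) (nat_lit 8) L4304826 (by decide +kernel)
theorem L4304828 : W_2 (nat_lit 5) (nat_lit 0x400020001000180002000000000000000000000000000) (nat_lit 0x0) (nat_lit 0x500038001c000000000002000000000000000000000000000000000000) := T_2 (nat_lit 195) (nat_lit 145) (nat_lit 6) (nat_lit 8) (nat_lit 11) L4304827 (by decide +kernel)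
theorem L4304829 : W_2 (nat_lit 6) (nat_lit 0x400020001000080002000000000000000000000000000) (nat_lit 0x0) (nat_lit 0x500038001c000000000002000100008000000000000000000000000000) := T_2 (nat_lit 128) (nat_lit 111) (nat_lit 6) (nat_lit 8) (nat_lit 10) L4304828 (by decide +kernel)
theorem L4304830 : W_2 (nat_lit 7) (nat_lit 0x400020001000080000000000000000000000000000000) (nat_lit 0x0) (nat_lit 0x500038001c00000000000200014000a000000000000000000000000000) := T_2 (nat_lit 109) (nat_lit 126) (nat_lit 4) (nat_lit 8) (nat_lit 10) L4304829 (by decide +kernel)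
theorem L4304831 : W_2 (nat_lit 11) (nat_lit 0x20001000080000000000000000000000000000000) (nat_lit 0x0) (nat_lit 0x8000700038003c003c0005c00ee00f7003f800400000000000000000000000) := Q_2 (nat_lit 178) (C_2 L4304815 (C_2 L38668 (C_2 L41961 (C_2 L41551 (C_2 L4304830 N_2))))) (by decide +kernel)
theorem L4304832 : W_2 (nat_lit 2) (nat_lit 0x4000300010000c000c000000000000000000000000000) (nat_lit 0x0) (nat_lit 0x8000000000000800000000000200000000000000000000000) := D_2 (nat_lit 143) (nat_lit 93) (nat_lit 195) (nat_lit 5) (nat_lit 8) (nat_lit 5) (nat_lit 4) (nat_lit 8) (nat_lit 11) (by decide +kernel)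
theorem L4304833 : W_2 (nat_lit 3) (nat_lit 0x4000200010000c000c000000000000000000000000000) (nat_lit 0x0) (nat_lit 0x8000200010000800000000000200000000000000000000000) := T_2 (nat_lit 160) (nat_lit 177) (nat_lit 5) (nat_lit 8) (nat_lit 6) L4304832 (by decide +kernel)
theorem L4304834 : W_2 (nat_lit 4) (nat_lit 0x40002000100008000c000000000000000000000000000) (nat_lit 0x0) (nat_lit 0x8000200010000800040002000200000000000000000000000) := T_2 (nat_lit 126) (nat_lit 109) (nat_lit 4) (nat_lit 8) (nat_lit 10) L4304833 (by decide +kernel)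
theorem L4304835 : W_2 (nat_lit 5) (nat_lit 0x400020001000080008000000000000000000000000000) (nat_lit 0x0) (nat_lit 0x8000200010000800040006000600000000000000000000000) := T_2 (nat_lit 110) (nat_lit 94) (nat_lit 6) (nat_lit 8) (nat_lit 9) L4304834 (by decide +kernel)
theorem L4304836 : W_2 (nat_lit 6) (nat_lit 0x400020001000080000000000000000000000000000000) (nat_lit 0x0) (nat_lit 0x800020001000080014000e000600000000000000000000000) := T_2 (nat_lit 111) (nat_lit 128) (nat_lit 6) (nat_lit 8) (nat_lit 10) L4304835 (by decide +kernel)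
theorem L4304837 : W_2 (nat_lit 13) (nat_lit 0x20001000080000000000000000000000000000000) (nat_lit 0x0) (nat_lit 0x500038001c00060001001ef8077807fe00600000000000000000000000) := Q_2 (nat_lit 178) (C_2 L4304830 (C_2 L38671 (C_2 L41964 (C_2 L41926 (C_2 L4304836 N_2))))) (by decide +kernel)
theorem L4304838 : W_2 (nat_lit 7) (nat_lit 0x20001000080000000000000000000000000000000) (nat_lit 0x0) (nat_lit 0x100018000e0005000080014000c000600020000000000000000000) := Q_2 (nat_lit 110) (C_2 L253739 (C_2 L20123 (C_2 L102630 N_2))) (by decide +kernel)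
theorem L4304839 : W_2 (nat_lit 16) (nat_lit 0x1000080000000000000000000000000000000) (nat_lit 0x0) (nat_lit 0xa00074003e007f803fc007e01ef80f7807fe00e00020000000000000000000) := Q_2 (nat_lit 161) (C_2 L38752 (C_2 L318001 (C_2 L38674 (C_2 L4304824 (C_2 L38672 (C_2 L4304831 (C_2 L4304837 (C_2 L4304838 N_2)))))))) (by decide +kernel)
theorem L4304840 : W_2 (nat_lit 11) (nat_lit 0x20001000080000000000000000000000000000000) (nat_lit 0x0) (nat_lit 0x2b8035e01ee00f78037000b00008000000000000000000) := Q_2 (nat_lit 110) (C_2 L20872 (C_2 L4303570 (C_2 L125 (C_2 L20055 N_2)))) (by decide +kernel)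
theorem L4304841 : W_2 (nat_lit 2) (nat_lit 0x400060001000180006000000000000000000000000000) (nat_lit 0x0) (nat_lit 0x8000000000002000000000000200000000000000000000000) := D_2 (nat_lit 145) (nat_lit 93) (nat_lit 195) (nat_lit 7) (nat_lit 8) (nat_lit 5) (nat_lit 6) (nat_lit 8) (nat_lit 11) (by decide +kernel)
theorem L4304842 : W_2 (nat_lit 3) (nat_lit 0x400020001000180006000000000000000000000000000) (nat_lit 0x0) (nat_lit 0x8000800040002000000000000200000000000000000000000) := T_2 (nat_lit 162) (nat_lit 179) (nat_lit 7) (nat_lit 8) (nat_lit 6) L4304841 (by decide +kernel)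
theorem L4304843 : W_2 (nat_lit 4) (nat_lit 0x400020001000080006000000000000000000000000000) (nat_lit 0x0) (nat_lit 0x8000800040002000100008000200000000000000000000000) := T_2 (nat_lit 128) (nat_lit 111) (nat_lit 6) (nat_lit 8) (nat_lit 10) L4304842 (by decide +kernel)
theorem L4304844 : W_2 (nat_lit 5) (nat_lit 0x400020001000080002000000000000000000000000000) (nat_lit 0x0) (nat_lit 0x800080004000200010000c000300000000000000000000000) := T_2 (nat_lit 110) (nat_lit 92) (nat_lit 4) (nat_lit 8) (nat_lit 9) L4304843 (by decide +kernel)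
theorem L4304845 : W_2 (nat_lit 6) (nat_lit 0x400020001000080000000000000000000000000000000) (nat_lit 0x0) (nat_lit 0x800080004000200014000e000300000000000000000000000) := T_2 (nat_lit 109) (nat_lit 126) (nat_lit 4) (nat_lit 8) (nat_lit 10) L4304844 (by decide +kernel)
theorem L4304846 : W_2 (nat_lit 11) (nat_lit 0x20001000080000000000000000000000000000000) (nat_lit 0x0) (nat_lit 0x500038003c003c0005c00ee00f7003f800300000000000000000000000) := Q_2 (nat_lit 178) (C_2 L4304830 (C_2 L38668 (C_2 L41961 (C_2 L41551 (C_2 L4304845 N_2))))) (by decide +kernel)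
theorem L4304847 : W_2 (nat_lit 2) (nat_lit 0x1000300008000400030001000180002000100000000000000000000000) (nat_lit 0x0) (nat_lit 0x20002000000000000200000000000000000000000000000000000000000000) := D_2 (nat_lit 229) (nat_lit 245) (nat_lit 177) (nat_lit 5) (nat_lit 8) (nat_lit 10) (nat_lit 4) (nat_lit 8) (nat_lit 13) (by decide +kernel)
theorem L4304848 : W_2 (nat_lit 3) (nat_lit 0x1000300008000400020001000180002000100000000000000000000000) (nat_lit 0x0) (nat_lit 0x20002000000000000200010000800000000000000000000000000000000000) := T_2 (nat_lit 160) (nat_lit 143) (nat_lit 4) (nat_lit 8) (nat_lit 12) L4304847 (by decide +kernel)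
theorem L4304849 : W_2 (nat_lit 4) (nat_lit 0x300008000400020001000180002000100000000000000000000000) (nat_lit 0x0) (nat_lit 0x20003000080000000200010000800000000000000000000000000000000000) := T_2 (nat_lit 228) (nat_lit 211) (nat_lit 5) (nat_lit 8) (nat_lit 9) L4304848 (by decide +kernel)
theorem L4304850 : W_2 (nat_lit 5) (nat_lit 0x200008000400020001000180002000100000000000000000000000) (nat_lit 0x0) (nat_lit 0x20007000180000000200010000800000000000000000000000000000000000) := T_2 (nat_lit 212) (nat_lit 230) (nat_lit 7) (nat_lit 8) (nat_lit 9) L4304849 (by decide +kernel)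
theorem L4304851 : W_2 (nat_lit 6) (nat_lit 0x8000400020001000180002000100000000000000000000000) (nat_lit 0x0) (nat_lit 0x20007000380010000200010000800000000000000000000000000000000000) := T_2 (nat_lit 213) (nat_lit 196) (nat_lit 7) (nat_lit 8) (nat_lit 8) L4304850 (by decide +kernel)
theorem L4304852 : W_2 (nat_lit 7) (nat_lit 0x400020001000180002000100000000000000000000000) (nat_lit 0x0) (nat_lit 0x20007000380018000200010002800000000000000000000000000000000000) := T_2 (nat_lit 195) (nat_lit 145) (nat_lit 6) (nat_lit 8) (nat_lit 11) L4304851 (by decide +kernel)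
theorem L4304853 : W_2 (nat_lit 8) (nat_lit 0x400020001000180002000000000000000000000000000) (nat_lit 0x0) (nat_lit 0x20007000380018000200010002800000004000100000000000000000000000) := T_2 (nat_lit 92) (nat_lit 110) (nat_lit 4) (nat_lit 8) (nat_lit 9) L4304852 (by decide +kernel)
theorem L4304854 : W_2 (nat_lit 9) (nat_lit 0x400020001000180000000000000000000000000000000) (nat_lit 0x0) (nat_lit 0x20007000380018000200010002800040006000100000000000000000000000) := T_2 (nat_lit 109) (nat_lit 126) (nat_lit 4) (nat_lit 8) (nat_lit 10) L4304853 (by decide +kernel)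
theorem L4304855 : W_2 (nat_lit 10) (nat_lit 0x400020001000080000000000000000000000000000000) (nat_lit 0x0) (nat_lit 0x2000700038001800020001000280014000e000100000000000000000000000) := T_2 (nat_lit 128) (nat_lit 111) (nat_lit 6) (nat_lit 8) (nat_lit 10) L4304854 (by decide +kernel)
theorem L4304856 : W_2 (nat_lit 13) (nat_lit 0x20001000080000000000000000000000000000000) (nat_lit 0x0) (nat_lit 0x2000700038001c00060001001ef8077807fe00100000000000000000000000) := Q_2 (nat_lit 178) (C_2 L4304830 (C_2 L38671 (C_2 L41964 (C_2 L41926 (C_2 L4304855 N_2))))) (by decide +kernel)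
theorem L4304857 : W_2 (nat_lit 14) (nat_lit 0x1000080000000000000000000000000000000) (nat_lit 0x0) (nat_lit 0xa00070003800ffc07fc077e01ef80f7807fe00b00008000000000000000000) := Q_2 (nat_lit 161) (C_2 L38751 (C_2 L41979 (C_2 L318001 (C_2 L39511 (C_2 L4304840 (C_2 L4304846 (C_2 L41965 (C_2 L4304856 N_2)))))))) (by decide +kernel)
theorem L4304858 : W_2 (nat_lit 13) (nat_lit 0x1000080004000000000000000000000000000) (nat_lit 0x0) (nat_lit 0x400070003e00ef0077803bc005c000c000000000000000000) := Q_2 (nat_lit 161) (C_2 L4304788 (C_2 L20868 (C_2 L4300997 (C_2 L20858 N_2)))) (by decide +kernel)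
theorem L4304859 : W_2 (nat_lit 9) (nat_lit 0x1000080004000000000000000000000000000) (nat_lit 0x0) (nat_lit 0x20007000280014000a000600030001c000e0005000000) := Q_2 (nat_lit 93) (C_2 L3039656 (C_2 L3026667 (C_2 L20090 N_2))) (by decide +kernel)
theorem L4304860 : W_2 (nat_lit 9) (nat_lit 0x1000080004000000000000000000000000000) (nat_lit 0x0) (nat_lit 0x200070002800140002000300018001c000e0005000000) := Q_2 (nat_lit 93) (C_2 L3039653 (C_2 L3026667 (C_2 L20089 N_2))) (by decide +kernel)
theorem L4304861 : W_2 (nat_lit 16) (nat_lit 0x1000080000000000000000000000000000000) (nat_lit 0x0) (nat_lit 0x400070077e01ef007780ffe03fe03ff809c004e0005000000) := Q_2 (nat_lit 110) (C_2 L20842 (C_2 L4304791 (C_2 L23913 (C_2 L23929 (C_2 L4304762 (C_2 L4304858 (C_2 L4304859 (C_2 L4304860 N_2)))))))) (by decide +kernel)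
theorem L4304862 : W_2 (nat_lit 11) (nat_lit 0x1000080004000000000000000000000000000) (nat_lit 0x0) (nat_lit 0x10002f8037e01ee00f7803b000d00000000000000000000000) := Q_2 (nat_lit 161) (C_2 L4304788 (C_2 L102633 (C_2 L4303570 (C_2 L102630 N_2)))) (by decide +kernel)
theorem L4304863 : W_2 (nat_lit 14) (nat_lit 0x1000080000000000000000000000000000000) (nat_lit 0x0) (nat_lit 0x10002f8037e01ef00f7803f803fe01fe001c000e0005000000) := Q_2 (nat_lit 110) (C_2 L102634 (C_2 L4304860 (C_2 L4304791 (C_2 L23929 (C_2 L4304862 (C_2 L4304859 N_2)))))) (by decide +kernel)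
theorem L4304864 : W_2 (nat_lit 2) (nat_lit 0x10000c0007000200000000000000000000000) (nat_lit 0x0) (nat_lit 0x800400020000000000000000000) := D_2 (nat_lit 94) (nat_lit 77) (nat_lit 107) (nat_lit 6) (nat_lit 8) (nat_lit 8) (nat_lit 2) (nat_lit 5) (nat_lit 6) (by decide +kernel)
theorem L4304865 : W_2 (nat_lit 2) (nat_lit 0x10000c000f000200000000000000000000000) (nat_lit 0x0) (nat_lit 0x30010000000000000000000000000000) := D_2 (nat_lit 125) (nat_lit 124) (nat_lit 112) (nat_lit 2) (nat_lit 5) (nat_lit 7) (nat_lit 1) (nat_lit 10) (nat_lit 6) (by decide +kernel)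
theorem L4304866 : W_2 (nat_lit 2) (nat_lit 0x10000c001f000200020000000000000000000) (nat_lit 0x0) (nat_lit 0x700000000000000000000000000000000) := D_2 (nat_lit 129) (nat_lit 130) (nat_lit 128) (nat_lit 3) (nat_lit 7) (nat_lit 6) (nat_lit 3) (nat_lit 6) (nat_lit 6) (by decide +kernel)
theorem L4304867 : W_2 (nat_lit 3) (nat_lit 0x10000c000f000200020000000000000000000) (nat_lit 0x0) (nat_lit 0x700030000000000000000000000000000) := T_2 (nat_lit 112) (nat_lit 113) (nat_lit 1) (nat_lit 11) (nat_lit 6) L4304866 (by decide +kernel)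
theorem L4304868 : W_2 (nat_lit 4) (nat_lit 0x10000c000f000200000000000000000000000) (nat_lit 0x0) (nat_lit 0x700030000400020000000000000000000) := T_2 (nat_lit 77) (nat_lit 94) (nat_lit 6) (nat_lit 8) (nat_lit 8) L4304867 (by decide +kernel)
theorem L4304869 : W_2 (nat_lit 2) (nat_lit 0x10001d000f000380020000000000000000000) (nat_lit 0x0) (nat_lit 0x800000000000000004000200000000000000) := D_2 (nat_lit 74) (nat_lit 57) (nat_lit 143) (nat_lit 7) (nat_lit 6) (nat_lit 3) (nat_lit 4) (nat_lit 7) (nat_lit 8) (by decide +kernel)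
theorem L4304870 : W_2 (nat_lit 3) (nat_lit 0x10001d000f000280020000000000000000000) (nat_lit 0x0) (nat_lit 0x80000000000010000c000200000000000000) := T_2 (nat_lit 92) (nat_lit 75) (nat_lit 7) (nat_lit 7) (nat_lit 4) L4304869 (by decide +kernel)
theorem L4304871 : W_2 (nat_lit 4) (nat_lit 0x10001d000f000200020000000000000000000) (nat_lit 0x0) (nat_lit 0x8000000000001c000c000200000000000000) := T_2 (nat_lit 91) (nat_lit 90) (nat_lit 0) (nat_lit 9) (nat_lit 6) L4304870 (by decide +kernel)
theorem L4304872 : W_2 (nat_lit 5) (nat_lit 0x10000d000f000200020000000000000000000) (nat_lit 0x0) (nat_lit 0x8003000000001c000c000200000000000000) := T_2 (nat_lit 128) (nat_lit 129) (nat_lit 3) (nat_lit 6) (nat_lit 6) L4304871 (by decide +kernel)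
theorem L4304873 : W_2 (nat_lit 6) (nat_lit 0x10000d000f000200000000000000000000000) (nat_lit 0x0) (nat_lit 0x8003000000005c002c000200000000000000) := T_2 (nat_lit 77) (nat_lit 94) (nat_lit 6) (nat_lit 8) (nat_lit 8) L4304872 (by decide +kernel)
theorem L4304874 : W_2 (nat_lit 7) (nat_lit 0x10000c000f000200000000000000000000000) (nat_lit 0x0) (nat_lit 0x8003300000005c002c000200000000000000) := T_2 (nat_lit 124) (nat_lit 125) (nat_lit 2) (nat_lit 5) (nat_lit 7) L4304873 (by decide +kernel)
theorem L4304875 : W_2 (nat_lit 8) (nat_lit 0x10000c0007000200000000000000000000000) (nat_lit 0x0) (nat_lit 0x8007300380005c002c000200000000000000) := Q_2 (nat_lit 111) (C_2 L4304865 (C_2 L4304868 (C_2 L4304874 N_2))) (by decide +kernel)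
theorem L4304876 : W_2 (nat_lit 9) (nat_lit 0x10000c0006000200000000000000000000000) (nat_lit 0x0) (nat_lit 0x800730039c005c002c000200000000000000) := Q_2 (nat_lit 108) (C_2 L249149 (C_2 L4304864 (C_2 L4304875 N_2))) (by decide +kernel)
theorem L4304877 : W_2 (nat_lit 2) (nat_lit 0x10001e000f000280028000000000000000000) (nat_lit 0x0) (nat_lit 0x4000600000000000000) := D_2 (nat_lit 74) (nat_lit 58) (nat_lit 57) (nat_lit 6) (nat_lit 6) (nat_lit 7) (nat_lit 7) (nat_lit 6) (nat_lit 3) (by decide +kernel)
theorem L4304878 : W_2 (nat_lit 3) (nat_lit 0x10001e000f000200028000000000000000000) (nat_lit 0x0) (nat_lit 0xc0004000600000000000000) := T_2 (nat_lit 91) (nat_lit 90) (nat_lit 0) (nat_lit 9) (nat_lit 6) L4304877 (by decide +kernel)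
theorem L4304879 : W_2 (nat_lit 4) (nat_lit 0x10001c000f000200028000000000000000000) (nat_lit 0x0) (nat_lit 0x300000000c0004000600000000000000) := T_2 (nat_lit 125) (nat_lit 124) (nat_lit 2) (nat_lit 5) (nat_lit 7) L4304878 (by decide +kernel)
theorem L4304880 : W_2 (nat_lit 5) (nat_lit 0x10001c000f000200008000000000000000000) (nat_lit 0x0) (nat_lit 0x300000004c0024000600000000000000) := T_2 (nat_lit 77) (nat_lit 94) (nat_lit 6) (nat_lit 8) (nat_lit 8) L4304879 (by decide +kernel)
theorem L4304881 : W_2 (nat_lit 6) (nat_lit 0x10000c000f000200008000000000000000000) (nat_lit 0x0) (nat_lit 0x3300000004c0024000600000000000000) := T_2 (nat_lit 128) (nat_lit 129) (nat_lit 3) (nat_lit 6) (nat_lit 6) L4304880 (by decide +kernel)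
theorem L4304882 : W_2 (nat_lit 7) (nat_lit 0x10000c000f000200000000000000000000000) (nat_lit 0x0) (nat_lit 0x3300000005c002c000600000000000000) := T_2 (nat_lit 75) (nat_lit 92) (nat_lit 7) (nat_lit 7) (nat_lit 4) L4304881 (by decide +kernel)
theorem L4304883 : W_2 (nat_lit 8) (nat_lit 0x10000c0007000200000000000000000000000) (nat_lit 0x0) (nat_lit 0x7300380005c002c000600000000000000) := Q_2 (nat_lit 111) (C_2 L4304868 (C_2 L4304865 (C_2 L4304882 N_2))) (by decide +kernel)
theorem L4304884 : W_2 (nat_lit 9) (nat_lit 0x10000c0006000200000000000000000000000) (nat_lit 0x0) (nat_lit 0x730039c005c002c000600000000000000) := Q_2 (nat_lit 108) (C_2 L4304864 (C_2 L4304883 (C_2 L249149 N_2))) (by decide +kernel)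
theorem L4304885 : W_2 (nat_lit 2) (nat_lit 0x100014001e000f000240020000000000000000000) (nat_lit 0x0) (nat_lit 0x300008000000000000000000000000000000000000000) := D_2 (nat_lit 159) (nat_lit 176) (nat_lit 177) (nat_lit 6) (nat_lit 6) (nat_lit 10) (nat_lit 7) (nat_lit 6) (nat_lit 6) (by decide +kernel)
theorem L4304886 : W_2 (nat_lit 3) (nat_lit 0x14001e000f000240020000000000000000000) (nat_lit 0x0) (nat_lit 0x300018000800000000000000000000000000000000000) := T_2 (nat_lit 160) (nat_lit 143) (nat_lit 6) (nat_lit 7) (nat_lit 9) L4304885 (by decide +kernel)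
theorem L4304887 : W_2 (nat_lit 4) (nat_lit 0x10001e000f000240020000000000000000000) (nat_lit 0x0) (nat_lit 0x300018000e00000000000000000000000000000000000) := T_2 (nat_lit 142) (nat_lit 141) (nat_lit 1) (nat_lit 9) (nat_lit 7) L4304886 (by decide +kernel)
theorem L4304888 : W_2 (nat_lit 5) (nat_lit 0x10001e000f000200020000000000000000000) (nat_lit 0x0) (nat_lit 0x300018000e000000000000c0000000000000000000000) := T_2 (nat_lit 90) (nat_lit 91) (nat_lit 0) (nat_lit 9) (nat_lit 6) L4304887 (by decide +kernel)
theorem L4304889 : W_2 (nat_lit 6) (nat_lit 0x10001c000f000200020000000000000000000) (nat_lit 0x0) (nat_lit 0x300018000e000300000000c0000000000000000000000) := T_2 (nat_lit 125) (nat_lit 124) (nat_lit 2) (nat_lit 5) (nat_lit 7) L4304888 (by decide +kernel)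
theorem L4304890 : W_2 (nat_lit 7) (nat_lit 0x10000c000f000200020000000000000000000) (nat_lit 0x0) (nat_lit 0x300018000e003300000000c0000000000000000000000) := T_2 (nat_lit 128) (nat_lit 129) (nat_lit 3) (nat_lit 6) (nat_lit 6) L4304889 (by decide +kernel)
theorem L4304891 : W_2 (nat_lit 8) (nat_lit 0x10000c000f000200000000000000000000000) (nat_lit 0x0) (nat_lit 0x300018000e003300000004c0020000000000000000000) := T_2 (nat_lit 77) (nat_lit 94) (nat_lit 6) (nat_lit 8) (nat_lit 8) L4304890 (by decide +kernel)
theorem L4304892 : W_2 (nat_lit 9) (nat_lit 0x10000c0007000200000000000000000000000) (nat_lit 0x0) (nat_lit 0x300018000e007300380004c0020000000000000000000) := Q_2 (nat_lit 111) (C_2 L4304868 (C_2 L4304865 (C_2 L4304891 N_2))) (by decide +kernel)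
theorem L4304893 : W_2 (nat_lit 10) (nat_lit 0x10000c0006000200000000000000000000000) (nat_lit 0x0) (nat_lit 0x300018000e00730039c004c0020000000000000000000) := Q_2 (nat_lit 108) (C_2 L4304864 (C_2 L4304892 (C_2 L249149 N_2))) (by decide +kernel)
theorem L4304894 : W_2 (nat_lit 2) (nat_lit 0x1c000c0006000300020000000000000000000) (nat_lit 0x0) (nat_lit 0x200300000000000000000000000000000000) := D_2 (nat_lit 128) (nat_lit 141) (nat_lit 129) (nat_lit 2) (nat_lit 5) (nat_lit 8) (nat_lit 1) (nat_lit 10) (nat_lit 7) (by decide +kernel)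
theorem L4304895 : W_2 (nat_lit 3) (nat_lit 0x18000c0006000300020000000000000000000) (nat_lit 0x0) (nat_lit 0x8000600300000000000000000000000000000000) := T_2 (nat_lit 142) (nat_lit 159) (nat_lit 5) (nat_lit 7) (nat_lit 5) L4304894 (by decide +kernel)
theorem L4304896 : W_2 (nat_lit 4) (nat_lit 0x10000c0006000300020000000000000000000) (nat_lit 0x0) (nat_lit 0x18000e00300000000000000000000000000000000) := T_2 (nat_lit 143) (nat_lit 160) (nat_lit 6) (nat_lit 7) (nat_lit 9) L4304895 (by decide +kernel)
theorem L4304897 : W_2 (nat_lit 5) (nat_lit 0x10000c0006000200020000000000000000000) (nat_lit 0x0) (nat_lit 0x18000e00300000000100008000000000000000000) := T_2 (nat_lit 92) (nat_lit 75) (nat_lit 7) (nat_lit 7) (nat_lit 4) L4304896 (by decide +kernel)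
theorem L4304898 : W_2 (nat_lit 6) (nat_lit 0x10000c0006000200000000000000000000000) (nat_lit 0x0) (nat_lit 0x18000e00300000000500028000000000000000000) := T_2 (nat_lit 77) (nat_lit 94) (nat_lit 6) (nat_lit 8) (nat_lit 8) L4304897 (by decide +kernel)
theorem L4304899 : W_2 (nat_lit 11) (nat_lit 0x10000c0004000200000000000000000000000) (nat_lit 0x0) (nat_lit 0x300018000e0073003bc005e002c000600000000000000) := Q_2 (nat_lit 109) (C_2 L4300889 (C_2 L4304876 (C_2 L4299888 (C_2 L4304884 (C_2 L4304893 (C_2 L4304898 N_2)))))) (by decide +kernel)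
theorem L4304900 : W_2 (nat_lit 12) (nat_lit 0x1000080004000200000000000000000000000) (nat_lit 0x0) (nat_lit 0x30005e00ef0077003bc005e002c000600000000000000) := Q_2 (nat_lit 126) (C_2 L20337 (C_2 L249266 (C_2 L4304899 (C_2 L23927 N_2)))) (by decide +kernel)
theorem L4304901 : W_2 (nat_lit 13) (nat_lit 0x1000080004000000000000000000000000000) (nat_lit 0x0) (nat_lit 0x30005e00ef0077003bc007e003c001e000e0005000000) := Q_2 (nat_lit 93) (C_2 L3026667 (C_2 L200113 (C_2 L103024 (C_2 L20090 (C_2 L4304900 N_2))))) (by decide +kernel)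
theorem L4304902 : W_2 (nat_lit 14) (nat_lit 0x1000080000000000000000000000000000000) (nat_lit 0x0) (nat_lit 0x10001c000f0007e00ef0077803fc007e003c001e000e0005000000) := Q_2 (nat_lit 110) (C_2 L102634 (C_2 L4304860 (C_2 L4304858 (C_2 L253740 (C_2 L4304901 (C_2 L4304791 (C_2 L4304859 N_2))))))) (by decide +kernel)
theorem L4304903 : W_2 (nat_lit 20) (nat_lit 0x1000000000000000000000000000000000000) (nat_lit 0x0) (nat_lit 0x5000f800fc007fc1ffc07ff077f87efc3ffe1fff9fff0fff80ff807f8017000000) := Q_2 (nat_lit 127) (C_2 L4299829 (C_2 L253770 (C_2 L253741 (C_2 L4300895 (C_2 L253718 (C_2 L253772 (C_2 L253717 (C_2 L4304759 (C_2 L4304774 (C_2 L20917 (C_2 L4304778 (C_2 L4304790 (C_2 L4304794 (C_2 L4304796 (C_2 L4304798 (C_2 L4304822 (C_2 L4304823 (C_2 L4304839 (C_2 L4304857 (C_2 L4304861 (C_2 L4304863 (C_2 L4304902 N_2)))))))))))))))))))))) (by decide +kernel)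
theorem root : Crest.Agent.Helper32.Snaky.Wins (nat_lit 17) (nat_lit 20) (nat_lit 0x1000000000000000000000000000000000000) (nat_lit 0x0) (nat_lit 0x5000f800fc007fc1ffc07ff077f87efc3ffe1fff9fff0fff80ff807f8017000000) := L4304903
end Crest.Agent.Helper32.Snaky.S2_1
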