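import Crest.Agent.Helper32.Snaky.Rules2
set_option autoImplicit false
set_option maxRecDepth 100000
set_option linter.all false
set_option Elab.async false
namespace Crest.Agent.Helper32.Snaky.S2_1
@[reducible] def W_1 (d M Bz Z : Nat) : Prop := Crest.Agent.Helper32.Snaky.Wins (nat_lit 17) d M Bz Z
theorem D_1 {d M Bz Z : Nat} (m t1 t2 o1 x1 y1 o2 x2 y2 : Nat) (h : Crest.Agent.Helper32.Snaky.chkDoubleC (nat_lit 17) d M Bz Z m t1 t2 o1 x1 y1 o2 x2 y2 = true) : W_1 d M Bz Z := Crest.Agent.Helper32.Snaky.doubleC m t1 t2 o1 x1 y1 o2 x2 y2 h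
theorem T_1 {d M Bz Z cd cM cBz cZ : Nat} (m t o x y : Nat) (child : W_1 cd cM cBz cZ) (h : Crest.Agent.Helper32.Snaky.chkThreatC (nat_lit 17) d M Bz Z cd cM cBz cZ m t o x y = true) : W_1 d M Bz Z := Crest.Agent.Helper32.Snaky.threatC m t o x y child h
theorem Q_1 {d M Bz Z : Nat} (m : Nat) {l : List Crest.Agent.Helper32.Snaky.Spec} (kids : Crest.Agent.Helper32.Snaky.AllWins (nat_lit 17) l) (h : Crest.Agent.Helper32.Snaky.chkQuiet d M Bz Z m l = true) : W_1 d M Bz Z := Crest.Agent.Helper32.Snaky.quiet m kids h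
theorem C_1 {cd cM cBz cZ : Nat} {l : List Crest.Agent.Helper32.Snaky.Spec} (h : W_1 cd cM cBz cZ) (hl : Crest.Agent.Helper32.Snaky.AllWins (nat_lit 17) l) : Crest.Agent.Helper32.Snaky.AllWins (nat_lit 17) ((cd, cM, cBz, cZ) :: l) := Crest.Agent.Helper32.Snaky.AllWins.cons h hl
theorem N_1 : Crest.Agent.Helper32.Snaky.AllWins (nat_lit 17) [] := Crest.Agent.Helper32.Snaky.AllWins.nil
theorem L6 : W_1 (nat_lit 2) (nat_lit 0x50001000080004000200020001000000000000000) (nat_lit 0x0) (nat_lit 0xa00020000000000000000000000000000000000000000) := D_1 (nat_lit 161) (nat_lit 179) (nat_lit 177) (nat_lit 7) (nat_lit 8) (nat_lit 6) (nat_lit 5) (nat_lit 8) (nat_lit 6) (by decide +kernel)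
theorem L7 : W_1 (nat_lit 3) (nat_lit 0x40001000080004000200020001000000000000000) (nat_lit 0x0) (nat_lit 0xa00030000800000000000000000000000000000000000) := T_1 (nat_lit 160) (nat_lit 143) (nat_lit 5) (nat_lit 8) (nat_lit 5) L6 (by decide +kernel)
theorem L8 : W_1 (nat_lit 4) (nat_lit 0x1000080004000200020001000000000000000) (nat_lit 0x0) (nat_lit 0xa00070002800000000000000000000000000000000000) := T_1 (nat_lit 162) (nat_lit 145) (nat_lit 7) (nat_lit 8) (nat_lit 5) L7 (by decide +kernel)
theorem L9 : W_1 (nat_lit 5) (nat_lit 0x1000080004000200020000000000000000000) (nat_lit 0x0) (nat_lit 0xa00070002800000000000000010001000000000000000) := T_1 (nat_lit 60) (nat_lit 76) (nat_lit 6) (nat_lit 8) (nat_lit 7) L8 (by decide +kernel)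
theorem L10 : W_1 (nat_lit 6) (nat_lit 0x1000080004000200000000000000000000000) (nat_lit 0x0) (nat_lit 0xa00070002800000000000400030001000000000000000) := T_1 (nat_lit 77) (nat_lit 94) (nat_lit 6) (nat_lit 8) (nat_lit 8) L9 (by decide +kernel)
theorem L11 : W_1 (nat_lit 2) (nat_lit 0x3000080004000200010000000000000000000) (nat_lit 0x0) (nat_lit 0x10000800040000000000000000000000000000000) := D_1 (nat_lit 143) (nat_lit 160) (nat_lit 126) (nat_lit 5) (nat_lit 8) (nat_lit 5) (nat_lit 5) (nat_lit 8) (nat_lit 4) (by decide +kernel)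
theorem L12 : W_1 (nat_lit 3) (nat_lit 0x3000080004000200000000000000000000000) (nat_lit 0x0) (nat_lit 0x10000800140000000000010000000000000000000) := T_1 (nat_lit 76) (nat_lit 128) (nat_lit 7) (nat_lit 8) (nat_lit 4) L11 (by decide +kernel)
theorem L13 : W_1 (nat_lit 4) (nat_lit 0x1000080004000200000000000000000000000) (nat_lit 0x0) (nat_lit 0x50002800140000000000010000000000000000000) := T_1 (nat_lit 145) (nat_lit 162) (nat_lit 7) (nat_lit 8) (nat_lit 5) L12 (by decide +kernel)
theorem L48 : W_1 (nat_lit 2) (nat_lit 0x10003000080004000600008000000000000000000) (nat_lit 0x0) (nat_lit 0x200020000000000008000000000000000000000000000) := D_1 (nat_lit 161) (nat_lit 111) (nat_lit 177) (nat_lit 6) (nat_lit 8) (nat_lit 9) (nat_lit 5) (nat_lit 8) (nat_lit 6) (by decide +kernel)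
theorem L49 : W_1 (nat_lit 3) (nat_lit 0x3000080004000600008000000000000000000) (nat_lit 0x0) (nat_lit 0x200030000800000008000000000000000000000000000) := T_1 (nat_lit 160) (nat_lit 143) (nat_lit 5) (nat_lit 8) (nat_lit 5) L48 (by decide +kernel)
theorem L50 : W_1 (nat_lit 4) (nat_lit 0x3000080004000200008000000000000000000) (nat_lit 0x0) (nat_lit 0x200030000800000008000400020000000000000000000) := T_1 (nat_lit 94) (nat_lit 77) (nat_lit 6) (nat_lit 8) (nat_lit 8) L49 (by decide +kernel)
theorem L51 : W_1 (nat_lit 5) (nat_lit 0x1000080004000200008000000000000000000) (nat_lit 0x0) (nat_lit 0x200070002800000008000400020000000000000000000) := T_1 (nat_lit 145) (nat_lit 162) (nat_lit 7) (nat_lit 8) (nat_lit 5) L50 (by decide +kernel)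
theorem L52 : W_1 (nat_lit 6) (nat_lit 0x1000080004000200000000000000000000000) (nat_lit 0x0) (nat_lit 0x200070002800000008000500028000000000000000000) := T_1 (nat_lit 75) (nat_lit 92) (nat_lit 4) (nat_lit 8) (nat_lit 8) L51 (by decide +kernel)
theorem L59 : W_1 (nat_lit 2) (nat_lit 0xa00020001000080004000400000000000000000000000) (nat_lit 0x0) (nat_lit 0x14000400000000000000000000000000000000000000000000) := D_1 (nat_lit 178) (nat_lit 196) (nat_lit 194) (nat_lit 7) (nat_lit 8) (nat_lit 7) (nat_lit 5) (nat_lit 8) (nat_lit 7) (by decide +kernel)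
theorem L60 : W_1 (nat_lit 3) (nat_lit 0x800020001000080004000400000000000000000000000) (nat_lit 0x0) (nat_lit 0x14000600010000000000000000000000000000000000000000) := T_1 (nat_lit 177) (nat_lit 160) (nat_lit 5) (nat_lit 8) (nat_lit 6) L59 (by decide +kernel)
theorem L61 : W_1 (nat_lit 4) (nat_lit 0x20001000080004000400000000000000000000000) (nat_lit 0x0) (nat_lit 0x14000e00050000000000000000000000000000000000000000) := T_1 (nat_lit 179) (nat_lit 162) (nat_lit 7) (nat_lit 8) (nat_lit 6) L60 (by decide +kernel)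
theorem L62 : W_1 (nat_lit 5) (nat_lit 0x20001000080004000000000000000000000000000) (nat_lit 0x0) (nat_lit 0x14000e00050000000000008000400000000000000000000000) := T_1 (nat_lit 94) (nat_lit 111) (nat_lit 6) (nat_lit 8) (nat_lit 9) L61 (by decide +kernel)
theorem L63 : W_1 (nat_lit 2) (nat_lit 0x200060001000080006000000000000000000000000000) (nat_lit 0x0) (nat_lit 0x4000400000000000040000000000000000000000000000000) := D_1 (nat_lit 178) (nat_lit 126) (nat_lit 194) (nat_lit 4) (nat_lit 8) (nat_lit 10) (nat_lit 5) (nat_lit 8) (nat_lit 7) (by decide +kernel)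
theorem L64 : W_1 (nat_lit 3) (nat_lit 0x60001000080006000000000000000000000000000) (nat_lit 0x0) (nat_lit 0x4000600010000000040000000000000000000000000000000) := T_1 (nat_lit 177) (nat_lit 160) (nat_lit 5) (nat_lit 8) (nat_lit 6) L63 (by decide +kernel)
theorem L65 : W_1 (nat_lit 4) (nat_lit 0x60001000080004000000000000000000000000000) (nat_lit 0x0) (nat_lit 0x4000600010000000040002000100000000000000000000000) := T_1 (nat_lit 109) (nat_lit 92) (nat_lit 4) (nat_lit 8) (nat_lit 9) L64 (by decide +kernel)
theorem L66 : W_1 (nat_lit 5) (nat_lit 0x20001000080004000000000000000000000000000) (nat_lit 0x0) (nat_lit 0x4000e00050000000040002000100000000000000000000000) := T_1 (nat_lit 162) (nat_lit 179) (nat_lit 7) (nat_lit 8) (nat_lit 6) L65 (by decide +kernel)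
theorem L67 : W_1 (nat_lit 2) (nat_lit 0x20002000100008000c000100000000000000000000000) (nat_lit 0x0) (nat_lit 0x4000400000000000100000000000000000000000000000000) := D_1 (nat_lit 178) (nat_lit 128) (nat_lit 194) (nat_lit 6) (nat_lit 8) (nat_lit 10) (nat_lit 5) (nat_lit 8) (nat_lit 7) (by decide +kernel)
theorem L68 : W_1 (nat_lit 3) (nat_lit 0x2000100008000c000100000000000000000000000) (nat_lit 0x0) (nat_lit 0x4000600010000000100000000000000000000000000000000) := T_1 (nat_lit 177) (nat_lit 160) (nat_lit 5) (nat_lit 8) (nat_lit 6) L67 (by decide +kernel)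
theorem L69 : W_1 (nat_lit 4) (nat_lit 0x20001000080004000100000000000000000000000) (nat_lit 0x0) (nat_lit 0x4000600010000000100008000400000000000000000000000) := T_1 (nat_lit 111) (nat_lit 94) (nat_lit 6) (nat_lit 8) (nat_lit 9) L68 (by decide +kernel)
theorem L70 : W_1 (nat_lit 5) (nat_lit 0x20001000080004000000000000000000000000000) (nat_lit 0x0) (nat_lit 0x400060001000000010000a000500000000000000000000000) := T_1 (nat_lit 92) (nat_lit 109) (nat_lit 4) (nat_lit 8) (nat_lit 9) L69 (by decide +kernel)
theorem L71 : W_1 (nat_lit 2) (nat_lit 0x800020001000080006000400000000000000000000000) (nat_lit 0x0) (nat_lit 0x10000400000000000040000000000000000000000000000000) := D_1 (nat_lit 178) (nat_lit 126) (nat_lit 196) (nat_lit 4) (nat_lit 8) (nat_lit 10) (nat_lit 7) (nat_lit 8) (nat_lit 7) (by decide +kernel)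
theorem L72 : W_1 (nat_lit 3) (nat_lit 0x20001000080006000400000000000000000000000) (nat_lit 0x0) (nat_lit 0x10000c00040000000040000000000000000000000000000000) := T_1 (nat_lit 179) (nat_lit 162) (nat_lit 7) (nat_lit 8) (nat_lit 6) L71 (by decide +kernel)
theorem L73 : W_1 (nat_lit 4) (nat_lit 0x20001000080004000400000000000000000000000) (nat_lit 0x0) (nat_lit 0x10000c00040000000040002000100000000000000000000000) := T_1 (nat_lit 109) (nat_lit 92) (nat_lit 4) (nat_lit 8) (nat_lit 9) L72 (by decide +kernel)
theorem L74 : W_1 (nat_lit 5) (nat_lit 0x20001000080004000000000000000000000000000) (nat_lit 0x0) (nat_lit 0x10000c0004000000004000a000500000000000000000000000) := T_1 (nat_lit 94) (nat_lit 111) (nat_lit 6) (nat_lit 8) (nat_lit 9) L73 (by decide +kernel)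
theorem L123 : W_1 (nat_lit 2) (nat_lit 0x20001000080004000300000000000000000000000) (nat_lit 0x0) (nat_lit 0x200010000800000000000000000000000000000000000) := D_1 (nat_lit 160) (nat_lit 177) (nat_lit 143) (nat_lit 5) (nat_lit 8) (nat_lit 6) (nat_lit 5) (nat_lit 8) (nat_lit 5) (by decide +kernel)
theorem L124 : W_1 (nat_lit 3) (nat_lit 0x20001000080004000100000000000000000000000) (nat_lit 0x0) (nat_lit 0x200010000800000000000200008000000000000000000) := T_1 (nat_lit 93) (nat_lit 75) (nat_lit 4) (nat_lit 8) (nat_lit 8) L123 (by decide +kernel)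
theorem L125 : W_1 (nat_lit 4) (nat_lit 0x20001000080004000000000000000000000000000) (nat_lit 0x0) (nat_lit 0x200010000800000002000300008000000000000000000) := T_1 (nat_lit 92) (nat_lit 109) (nat_lit 4) (nat_lit 8) (nat_lit 9) L124 (by decide +kernel)
theorem L128 : W_1 (nat_lit 2) (nat_lit 0x10000f8000000000000000000000000000000) (nat_lit 0x0) (nat_lit 0x380000000000000000000000000000000000) := D_1 (nat_lit 140) (nat_lit 139) (nat_lit 141) (nat_lit 1) (nat_lit 7) (nat_lit 7) (nat_lit 1) (nat_lit 8) (nat_lit 7) (by decide +kernel)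
theorem L129 : W_1 (nat_lit 3) (nat_lit 0x10000f0000000000000000000000000000000) (nat_lit 0x0) (nat_lit 0xb80008000000000000000000000000000000) := T_1 (nat_lit 123) (nat_lit 143) (nat_lit 3) (nat_lit 4) (nat_lit 7) L128 (by decide +kernel)
theorem L130 : W_1 (nat_lit 4) (nat_lit 0x10000e0000000000000000000000000000000) (nat_lit 0x0) (nat_lit 0x2b80018000000000000000000000000000000) := T_1 (nat_lit 124) (nat_lit 145) (nat_lit 3) (nat_lit 5) (nat_lit 7) L129 (by decide +kernel)
theorem L230 : W_1 (nat_lit 2) (nat_lit 0x14000400020001000080002000000000000000000000000000) (nat_lit 0x0) (nat_lit 0x280008000000000000000000000000000000000000000000000000) := D_1 (nat_lit 195) (nat_lit 213) (nat_lit 211) (nat_lit 7) (nat_lit 8) (nat_lit 8) (nat_lit 5) (nat_lit 8) (nat_lit 8) (by decide +kernel)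
theorem L231 : W_1 (nat_lit 3) (nat_lit 0x10000400020001000080002000000000000000000000000000) (nat_lit 0x0) (nat_lit 0x28000c000200000000000000000000000000000000000000000000) := T_1 (nat_lit 194) (nat_lit 177) (nat_lit 5) (nat_lit 8) (nat_lit 7) L230 (by decide +kernel)
theorem L232 : W_1 (nat_lit 4) (nat_lit 0x400020001000080002000000000000000000000000000) (nat_lit 0x0) (nat_lit 0x28001c000a00000000000000000000000000000000000000000000) := T_1 (nat_lit 196) (nat_lit 179) (nat_lit 7) (nat_lit 8) (nat_lit 7) L231 (by decide +kernel)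
theorem L233 : W_1 (nat_lit 5) (nat_lit 0x400020001000080000000000000000000000000000000) (nat_lit 0x0) (nat_lit 0x28001c000a00000000000040002000000000000000000000000000) := T_1 (nat_lit 109) (nat_lit 126) (nat_lit 4) (nat_lit 8) (nat_lit 10) L232 (by decide +kernel)
theorem L238 : W_1 (nat_lit 2) (nat_lit 0x4000400020001000180002000000000000000000000000000) (nat_lit 0x0) (nat_lit 0x80008000000000002000000000000000000000000000000000000) := D_1 (nat_lit 195) (nat_lit 211) (nat_lit 145) (nat_lit 5) (nat_lit 8) (nat_lit 8) (nat_lit 6) (nat_lit 8) (nat_lit 11) (by decide +kernel)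
theorem L239 : W_1 (nat_lit 3) (nat_lit 0x4000400020001000080002000000000000000000000000000) (nat_lit 0x0) (nat_lit 0x80008000000000002000100008000000000000000000000000000) := T_1 (nat_lit 128) (nat_lit 111) (nat_lit 6) (nat_lit 8) (nat_lit 10) L238 (by decide +kernel)
theorem L240 : W_1 (nat_lit 4) (nat_lit 0x400020001000080002000000000000000000000000000) (nat_lit 0x0) (nat_lit 0x8000c000200000002000100008000000000000000000000000000) := T_1 (nat_lit 194) (nat_lit 177) (nat_lit 5) (nat_lit 8) (nat_lit 7) L239 (by decide +kernel)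
theorem L241 : W_1 (nat_lit 5) (nat_lit 0x400020001000080000000000000000000000000000000) (nat_lit 0x0) (nat_lit 0x8000c00020000000200014000a000000000000000000000000000) := T_1 (nat_lit 109) (nat_lit 126) (nat_lit 4) (nat_lit 8) (nat_lit 10) L240 (by decide +kernel)
theorem L411 : W_1 (nat_lit 2) (nat_lit 0x24001e000b0000000000000000000000000000000) (nat_lit 0x0) (nat_lit 0x80000000000000001000080000000000000000000000) := D_1 (nat_lit 108) (nat_lit 91) (nat_lit 175) (nat_lit 5) (nat_lit 6) (nat_lit 5) (nat_lit 6) (nat_lit 5) (nat_lit 10) (by decide +kernel)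
theorem L412 : W_1 (nat_lit 3) (nat_lit 0x20001e000b0000000000000000000000000000000) (nat_lit 0x0) (nat_lit 0x80006000000000001000080000000000000000000000) := T_1 (nat_lit 158) (nat_lit 157) (nat_lit 1) (nat_lit 8) (nat_lit 8) L411 (by decide +kernel)
theorem L413 : W_1 (nat_lit 4) (nat_lit 0x20001e00090000000000000000000000000000000) (nat_lit 0x0) (nat_lit 0x80006002000020001000080000000000000000000000) := T_1 (nat_lit 125) (nat_lit 145) (nat_lit 0) (nat_lit 9) (nat_lit 8) L412 (by decide +kernel)
theorem L414 : W_1 (nat_lit 5) (nat_lit 0x1e00090000000000000000000000000000000) (nat_lit 0x0) (nat_lit 0x80066002000020001000080000000000000000000000) := T_1 (nat_lit 161) (nat_lit 162) (nat_lit 3) (nat_lit 5) (nat_lit 8) L413 (by decide +kernel)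
theorem L415 : W_1 (nat_lit 6) (nat_lit 0x1e00080000000000000000000000000000000) (nat_lit 0x0) (nat_lit 0x80066002000038001000080000000000000000000000) := T_1 (nat_lit 124) (nat_lit 123) (nat_lit 0) (nat_lit 8) (nat_lit 8) L414 (by decide +kernel)
theorem L429 : W_1 (nat_lit 2) (nat_lit 0x4003e000c0000000000000000000000000000000) (nat_lit 0x0) (nat_lit 0xc000020000000000000000000000000000000) := D_1 (nat_lit 146) (nat_lit 147) (nat_lit 125) (nat_lit 0) (nat_lit 11) (nat_lit 8) (nat_lit 0) (nat_lit 10) (nat_lit 8) (by decide +kernel)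
theorem L430 : W_1 (nat_lit 3) (nat_lit 0x4001e000c0000000000000000000000000000000) (nat_lit 0x0) (nat_lit 0x800e000020000000000000000000000000000000) := T_1 (nat_lit 145) (nat_lit 159) (nat_lit 1) (nat_lit 9) (nat_lit 8) L429 (by decide +kernel)
theorem L431 : W_1 (nat_lit 4) (nat_lit 0x1e000c0000000000000000000000000000000) (nat_lit 0x0) (nat_lit 0xe00e000020000000000000000000000000000000) := T_1 (nat_lit 158) (nat_lit 157) (nat_lit 1) (nat_lit 8) (nat_lit 8) L430 (by decide +kernel)
theorem L486 : W_1 (nat_lit 2) (nat_lit 0x78003c0010000000000000000000000000000) (nat_lit 0x0) (nat_lit 0x40000000000000000800040000000000000000000) := D_1 (nat_lit 95) (nat_lit 78) (nat_lit 162) (nat_lit 5) (nat_lit 10) (nat_lit 4) (nat_lit 5) (nat_lit 10) (nat_lit 5) (by decide +kernel)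
theorem L487 : W_1 (nat_lit 3) (nat_lit 0x78003c0000000000000000000000000000000) (nat_lit 0x0) (nat_lit 0x40000000000030000800040000000000000000000) := T_1 (nat_lit 112) (nat_lit 113) (nat_lit 2) (nat_lit 7) (nat_lit 7) L486 (by decide +kernel)
theorem L488 : W_1 (nat_lit 4) (nat_lit 0x78002c0000000000000000000000000000000) (nat_lit 0x0) (nat_lit 0x40000400100030000800040000000000000000000) := T_1 (nat_lit 128) (nat_lit 142) (nat_lit 2) (nat_lit 6) (nat_lit 8) L487 (by decide +kernel)
theorem L489 : W_1 (nat_lit 5) (nat_lit 0x78000c0000000000000000000000000000000) (nat_lit 0x0) (nat_lit 0x40000400700030000800040000000000000000000) := T_1 (nat_lit 129) (nat_lit 130) (nat_lit 2) (nat_lit 7) (nat_lit 8) L488 (by decide +kernel)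
theorem L1042 : W_1 (nat_lit 2) (nat_lit 0x300010000c001c000000000000000000000000000) (nat_lit 0x0) (nat_lit 0x130000000000000000000000000000000) := D_1 (nat_lit 125) (nat_lit 124) (nat_lit 128) (nat_lit 2) (nat_lit 5) (nat_lit 7) (nat_lit 2) (nat_lit 6) (nat_lit 7) (by decide +kernel)
theorem L1043 : W_1 (nat_lit 3) (nat_lit 0x300010000c000c000000000000000000000000000) (nat_lit 0x0) (nat_lit 0x130030000000000000000000000000000) := T_1 (nat_lit 112) (nat_lit 113) (nat_lit 1) (nat_lit 11) (nat_lit 6) L1042 (by decide +kernel)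
theorem L1044 : W_1 (nat_lit 4) (nat_lit 0x200010000c000c000000000000000000000000000) (nat_lit 0x0) (nat_lit 0x200010000000130030000000000000000000000000000) := T_1 (nat_lit 160) (nat_lit 177) (nat_lit 5) (nat_lit 8) (nat_lit 6) L1043 (by decide +kernel)
theorem L1045 : W_1 (nat_lit 5) (nat_lit 0x200010000c0004000000000000000000000000000) (nat_lit 0x0) (nat_lit 0x200010000000130038000400000000000000000000000) := T_1 (nat_lit 111) (nat_lit 94) (nat_lit 6) (nat_lit 8) (nat_lit 9) L1044 (by decide +kernel)
theorem L1046 : W_1 (nat_lit 2) (nat_lit 0x70001000380006000000000000000000000000000) (nat_lit 0x0) (nat_lit 0x40001800000000000000000000000000) := D_1 (nat_lit 108) (nat_lit 126) (nat_lit 107) (nat_lit 0) (nat_lit 10) (nat_lit 7) (nat_lit 3) (nat_lit 5) (nat_lit 6) (by decide +kernel)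
theorem L1047 : W_1 (nat_lit 3) (nat_lit 0x70001000180006000000000000000000000000000) (nat_lit 0x0) (nat_lit 0x640001800000000000000000000000000) := T_1 (nat_lit 129) (nat_lit 130) (nat_lit 0) (nat_lit 11) (nat_lit 7) L1046 (by decide +kernel)
theorem L1048 : W_1 (nat_lit 4) (nat_lit 0x60001000180006000000000000000000000000000) (nat_lit 0x0) (nat_lit 0x200010000000640001800000000000000000000000000) := T_1 (nat_lit 160) (nat_lit 177) (nat_lit 5) (nat_lit 8) (nat_lit 6) L1047 (by decide +kernel)
theorem L1049 : W_1 (nat_lit 5) (nat_lit 0x60001000180004000000000000000000000000000) (nat_lit 0x0) (nat_lit 0x200010000000640003800100000000000000000000000) := T_1 (nat_lit 109) (nat_lit 92) (nat_lit 4) (nat_lit 8) (nat_lit 9) L1048 (by decide +kernel)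
theorem L1050 : W_1 (nat_lit 6) (nat_lit 0x20001000180004000000000000000000000000000) (nat_lit 0x0) (nat_lit 0xa00050000000640003800100000000000000000000000) := T_1 (nat_lit 162) (nat_lit 179) (nat_lit 7) (nat_lit 8) (nat_lit 6) L1049 (by decide +kernel)
theorem L1065 : W_1 (nat_lit 2) (nat_lit 0x38003000080004000000000000000000000000000) (nat_lit 0x0) (nat_lit 0xc800000000000000000000000000000000000) := D_1 (nat_lit 146) (nat_lit 147) (nat_lit 143) (nat_lit 1) (nat_lit 11) (nat_lit 8) (nat_lit 1) (nat_lit 10) (nat_lit 8) (by decide +kernel)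
theorem L1066 : W_1 (nat_lit 3) (nat_lit 0x30003000080004000000000000000000000000000) (nat_lit 0x0) (nat_lit 0xc00c800000000000000000000000000000000000) := T_1 (nat_lit 159) (nat_lit 158) (nat_lit 2) (nat_lit 5) (nat_lit 9) L1065 (by decide +kernel)
theorem L1067 : W_1 (nat_lit 4) (nat_lit 0x20003000080004000000000000000000000000000) (nat_lit 0x0) (nat_lit 0x20001c00c800000000000000000000000000000000000) := T_1 (nat_lit 160) (nat_lit 177) (nat_lit 5) (nat_lit 8) (nat_lit 6) L1066 (by decide +kernel)
theorem L1335 : W_1 (nat_lit 2) (nat_lit 0x32001e0008000000000000000000000000000) (nat_lit 0x0) (nat_lit 0x20000000000000000400020000000000000000000) := D_1 (nat_lit 94) (nat_lit 77) (nat_lit 161) (nat_lit 5) (nat_lit 9) (nat_lit 4) (nat_lit 5) (nat_lit 9) (nat_lit 5) (by decide +kernel)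
theorem L1336 : W_1 (nat_lit 3) (nat_lit 0x32001e0000000000000000000000000000000) (nat_lit 0x0) (nat_lit 0x20000000000018000400020000000000000000000) := T_1 (nat_lit 111) (nat_lit 112) (nat_lit 2) (nat_lit 6) (nat_lit 7) L1335 (by decide +kernel)
theorem L1337 : W_1 (nat_lit 4) (nat_lit 0x30001e0000000000000000000000000000000) (nat_lit 0x0) (nat_lit 0x20000600000018000400020000000000000000000) := T_1 (nat_lit 141) (nat_lit 142) (nat_lit 1) (nat_lit 9) (nat_lit 7) L1336 (by decide +kernel)
theorem L1338 : W_1 (nat_lit 5) (nat_lit 0x10001e0000000000000000000000000000000) (nat_lit 0x0) (nat_lit 0x20006600000018000400020000000000000000000) := T_1 (nat_lit 145) (nat_lit 146) (nat_lit 3) (nat_lit 6) (nat_lit 7) L1337 (by decide +kernel)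
theorem L1370 : W_1 (nat_lit 2) (nat_lit 0x9001fc0012000000008000000000000000000) (nat_lit 0x0) (nat_lit 0x1c0000000000000000000000000000) := D_1 (nat_lit 115) (nat_lit 114) (nat_lit 116) (nat_lit 2) (nat_lit 9) (nat_lit 7) (nat_lit 2) (nat_lit 10) (nat_lit 7) (by decide +kernel)
theorem L1371 : W_1 (nat_lit 3) (nat_lit 0x9000fc0012000000008000000000000000000) (nat_lit 0x0) (nat_lit 0x10001c8000000000000000000000000000) := T_1 (nat_lit 132) (nat_lit 111) (nat_lit 0) (nat_lit 13) (nat_lit 7) L1370 (by decide +kernel)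
theorem L1372 : W_1 (nat_lit 4) (nat_lit 0x90007c0012000000008000000000000000000) (nat_lit 0x0) (nat_lit 0x20018001c8000000000000000000000000000) := T_1 (nat_lit 131) (nat_lit 145) (nat_lit 1) (nat_lit 12) (nat_lit 7) L1371 (by decide +kernel)
theorem L1373 : W_1 (nat_lit 5) (nat_lit 0x90003c0012000000008000000000000000000) (nat_lit 0x0) (nat_lit 0x12001c001c8000000000000000000000000000) := T_1 (nat_lit 130) (nat_lit 148) (nat_lit 3) (nat_lit 8) (nat_lit 7) L1372 (by decide +kernel)
theorem L1374 : W_1 (nat_lit 6) (nat_lit 0x90003c0002000000008000000000000000000) (nat_lit 0x0) (nat_lit 0x12001c001f8000000000000000000000000000) := T_1 (nat_lit 112) (nat_lit 113) (nat_lit 2) (nat_lit 7) (nat_lit 7) L1373 (by decide +kernel)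
theorem L1375 : W_1 (nat_lit 7) (nat_lit 0x10003c0002000000008000000000000000000) (nat_lit 0x0) (nat_lit 0x1e001c001f8000000000000000000000000000) := T_1 (nat_lit 147) (nat_lit 146) (nat_lit 3) (nat_lit 7) (nat_lit 7) L1374 (by decide +kernel)
theorem L1376 : W_1 (nat_lit 8) (nat_lit 0x10003c0002000000000000000000000000000) (nat_lit 0x0) (nat_lit 0x1e001c001f8000100008000000000000000000) := T_1 (nat_lit 75) (nat_lit 92) (nat_lit 7) (nat_lit 7) (nat_lit 4) L1375 (by decide +kernel)
theorem L1377 : W_1 (nat_lit 9) (nat_lit 0x10001c0002000000000000000000000000000) (nat_lit 0x0) (nat_lit 0x1e001e001f9000100008000000000000000000) := T_1 (nat_lit 129) (nat_lit 108) (nat_lit 0) (nat_lit 10) (nat_lit 7) L1376 (by decide +kernel)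
theorem L1402 : W_1 (nat_lit 2) (nat_lit 0x70000c0000000000000000000000000000000) (nat_lit 0x0) (nat_lit 0x130000000000000000000000000000000) := D_1 (nat_lit 125) (nat_lit 124) (nat_lit 128) (nat_lit 3) (nat_lit 5) (nat_lit 7) (nat_lit 3) (nat_lit 6) (nat_lit 7) (by decide +kernel)
theorem L1403 : W_1 (nat_lit 3) (nat_lit 0x30000c0000000000000000000000000000000) (nat_lit 0x0) (nat_lit 0xc000130000000000000000000000000000000) := T_1 (nat_lit 146) (nat_lit 147) (nat_lit 0) (nat_lit 11) (nat_lit 8) L1402 (by decide +kernel)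
theorem L1454 : W_1 (nat_lit 2) (nat_lit 0x11000f8000000000000000000000000000000) (nat_lit 0x0) (nat_lit 0xe00000000000000000000000000) := D_1 (nat_lit 106) (nat_lit 105) (nat_lit 107) (nat_lit 0) (nat_lit 7) (nat_lit 7) (nat_lit 0) (nat_lit 8) (nat_lit 7) (by decide +kernel)
theorem L1455 : W_1 (nat_lit 3) (nat_lit 0x11000f0000000000000000000000000000000) (nat_lit 0x0) (nat_lit 0x80008000e00000000000000000000000000) := T_1 (nat_lit 123) (nat_lit 139) (nat_lit 1) (nat_lit 7) (nat_lit 7) L1454 (by decide +kernel)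
theorem L1456 : W_1 (nat_lit 4) (nat_lit 0x10000f0000000000000000000000000000000) (nat_lit 0x0) (nat_lit 0x380008000e00000000000000000000000000) := T_1 (nat_lit 140) (nat_lit 141) (nat_lit 1) (nat_lit 8) (nat_lit 7) L1455 (by decide +kernel)
theorem L1457 : W_1 (nat_lit 5) (nat_lit 0x10000e0000000000000000000000000000000) (nat_lit 0x0) (nat_lit 0x2380018000e00000000000000000000000000) := T_1 (nat_lit 124) (nat_lit 145) (nat_lit 3) (nat_lit 5) (nat_lit 7) L1456 (by decide +kernel)
theorem L1464 : W_1 (nat_lit 2) (nat_lit 0x200010001e0008800000000000000000000000000) (nat_lit 0x0) (nat_lit 0x4000400020000000000000000000) := D_1 (nat_lit 94) (nat_lit 110) (nat_lit 77) (nat_lit 6) (nat_lit 8) (nat_lit 9) (nat_lit 5) (nat_lit 9) (nat_lit 4) (by decide +kernel)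
theorem L1465 : W_1 (nat_lit 3) (nat_lit 0x10001e0008800000000000000000000000000) (nat_lit 0x0) (nat_lit 0x400020000000000004000400020000000000000000000) := T_1 (nat_lit 161) (nat_lit 178) (nat_lit 6) (nat_lit 8) (nat_lit 10) L1464 (by decide +kernel)
theorem L1466 : W_1 (nat_lit 4) (nat_lit 0x10001e0008000000000000000000000000000) (nat_lit 0x0) (nat_lit 0x400020000000000005800400020000000000000000000) := T_1 (nat_lit 107) (nat_lit 108) (nat_lit 0) (nat_lit 9) (nat_lit 7) L1465 (by decide +kernel)
theorem L1467 : W_1 (nat_lit 5) (nat_lit 0x10001e0000000000000000000000000000000) (nat_lit 0x0) (nat_lit 0x40002000000000001d800400020000000000000000000) := T_1 (nat_lit 111) (nat_lit 112) (nat_lit 2) (nat_lit 6) (nat_lit 7) L1466 (by decide +kernel)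
theorem L1476 : W_1 (nat_lit 2) (nat_lit 0x10000f0000400000000000000000000000000) (nat_lit 0x0) (nat_lit 0x800008000200000000000000000000000000) := D_1 (nat_lit 123) (nat_lit 105) (nat_lit 143) (nat_lit 0) (nat_lit 7) (nat_lit 7) (nat_lit 3) (nat_lit 4) (nat_lit 7) (by decide +kernel)
theorem L1477 : W_1 (nat_lit 3) (nat_lit 0x10000f0000000000000000000000000000000) (nat_lit 0x0) (nat_lit 0x800008000e00000000000000000000000000) := T_1 (nat_lit 106) (nat_lit 107) (nat_lit 0) (nat_lit 8) (nat_lit 7) L1476 (by decide +kernel)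
theorem L1479 : W_1 (nat_lit 4) (nat_lit 0x10000e0000000000000000000000000000000) (nat_lit 0x0) (nat_lit 0x2800018000e00000000000000000000000000) := T_1 (nat_lit 124) (nat_lit 145) (nat_lit 3) (nat_lit 5) (nat_lit 7) L1477 (by decide +kernel)
theorem L1495 : W_1 (nat_lit 2) (nat_lit 0x3a003e000c000780040000000000000000000) (nat_lit 0x0) (nat_lit 0x2000000006000000000000000000) := D_1 (nat_lit 74) (nat_lit 73) (nat_lit 109) (nat_lit 0) (nat_lit 9) (nat_lit 5) (nat_lit 4) (nat_lit 7) (nat_lit 8) (by decide +kernel)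
theorem L1496 : W_1 (nat_lit 3) (nat_lit 0x3a003e000c000700040000000000000000000) (nat_lit 0x0) (nat_lit 0x20000c0006000000000000000000) := T_1 (nat_lit 91) (nat_lit 90) (nat_lit 3) (nat_lit 5) (nat_lit 5) L1495 (by decide +kernel)
theorem L1497 : W_1 (nat_lit 4) (nat_lit 0x3a003e000c000600040000000000000000000) (nat_lit 0x0) (nat_lit 0x20001c000e000000000000000000) := T_1 (nat_lit 92) (nat_lit 75) (nat_lit 4) (nat_lit 8) (nat_lit 8) L1496 (by decide +kernel)
theorem L1498 : W_1 (nat_lit 5) (nat_lit 0x3a001e000c000600040000000000000000000) (nat_lit 0x0) (nat_lit 0x6000020001c000e000000000000000000) := T_1 (nat_lit 129) (nat_lit 130) (nat_lit 1) (nat_lit 11) (nat_lit 7) L1497 (by decide +kernel)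
theorem L1499 : W_1 (nat_lit 6) (nat_lit 0x32001e000c000600040000000000000000000) (nat_lit 0x0) (nat_lit 0x100008006000020001c000e000000000000000000) := T_1 (nat_lit 143) (nat_lit 160) (nat_lit 5) (nat_lit 8) (nat_lit 5) L1498 (by decide +kernel)
theorem L1500 : W_1 (nat_lit 7) (nat_lit 0x32001e0008000600040000000000000000000) (nat_lit 0x0) (nat_lit 0x500008006000060001c000e000000000000000000) := T_1 (nat_lit 110) (nat_lit 162) (nat_lit 7) (nat_lit 8) (nat_lit 5) L1499 (by decide +kernel)
theorem L1501 : W_1 (nat_lit 8) (nat_lit 0x32001e0008000600000000000000000000000) (nat_lit 0x0) (nat_lit 0x500008006000060009c004e000000000000000000) := T_1 (nat_lit 78) (nat_lit 95) (nat_lit 6) (nat_lit 9) (nat_lit 8) L1500 (by decide +kernel)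
theorem L1502 : W_1 (nat_lit 9) (nat_lit 0x32001e0008000400000000000000000000000) (nat_lit 0x0) (nat_lit 0x50000800600006000bc005e000000000000000000) := T_1 (nat_lit 93) (nat_lit 76) (nat_lit 4) (nat_lit 9) (nat_lit 8) L1501 (by decide +kernel)
theorem L1503 : W_1 (nat_lit 10) (nat_lit 0x32001e0008000000000000000000000000000) (nat_lit 0x0) (nat_lit 0x50000800600006000fc007e000000000000000000) := T_1 (nat_lit 94) (nat_lit 77) (nat_lit 5) (nat_lit 9) (nat_lit 4) L1502 (by decide +kernel)
theorem L1504 : W_1 (nat_lit 11) (nat_lit 0x32001e0000000000000000000000000000000) (nat_lit 0x0) (nat_lit 0x5000080060001e000fc007e000000000000000000) := T_1 (nat_lit 111) (nat_lit 112) (nat_lit 2) (nat_lit 6) (nat_lit 7) L1503 (by decide +kernel)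
theorem L1505 : W_1 (nat_lit 12) (nat_lit 0x30001e0000000000000000000000000000000) (nat_lit 0x0) (nat_lit 0x50000e0060001e000fc007e000000000000000000) := T_1 (nat_lit 141) (nat_lit 142) (nat_lit 1) (nat_lit 9) (nat_lit 7) L1504 (by decide +kernel)
theorem L1506 : W_1 (nat_lit 13) (nat_lit 0x10001e0000000000000000000000000000000) (nat_lit 0x0) (nat_lit 0x50006e0060001e000fc007e000000000000000000) := T_1 (nat_lit 145) (nat_lit 146) (nat_lit 3) (nat_lit 6) (nat_lit 7) L1505 (by decide +kernel)
theorem L1509 : W_1 (nat_lit 2) (nat_lit 0x200010000c0002000000000000000000000000000) (nat_lit 0x0) (nat_lit 0x4000100008000000000000000000) := D_1 (nat_lit 92) (nat_lit 110) (nat_lit 75) (nat_lit 4) (nat_lit 8) (nat_lit 9) (nat_lit 7) (nat_lit 7) (nat_lit 4) (by decide +kernel)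
theorem L1510 : W_1 (nat_lit 3) (nat_lit 0x10000c0002000000000000000000000000000) (nat_lit 0x0) (nat_lit 0x400020000000000004000100008000000000000000000) := T_1 (nat_lit 161) (nat_lit 178) (nat_lit 4) (nat_lit 8) (nat_lit 10) L1509 (by decide +kernel)
theorem L1519 : W_1 (nat_lit 2) (nat_lit 0x1c000c0002000100000000000000000000000) (nat_lit 0x0) (nat_lit 0x200300000000000000000000000000000000) := D_1 (nat_lit 128) (nat_lit 141) (nat_lit 129) (nat_lit 2) (nat_lit 5) (nat_lit 8) (nat_lit 1) (nat_lit 10) (nat_lit 7) (by decide +kernel)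
theorem L1520 : W_1 (nat_lit 3) (nat_lit 0x18000c0002000100000000000000000000000) (nat_lit 0x0) (nat_lit 0x8000600300000000000000000000000000000000) := T_1 (nat_lit 142) (nat_lit 159) (nat_lit 5) (nat_lit 7) (nat_lit 5) L1519 (by decide +kernel)
theorem L1521 : W_1 (nat_lit 4) (nat_lit 0x18000c0002000000000000000000000000000) (nat_lit 0x0) (nat_lit 0x8000600300000000100008000000000000000000) := T_1 (nat_lit 92) (nat_lit 75) (nat_lit 7) (nat_lit 7) (nat_lit 4) L1520 (by decide +kernel)
theorem L1528 : W_1 (nat_lit 2) (nat_lit 0x10001c0003000000000000000000000000000) (nat_lit 0x0) (nat_lit 0x4c00000000000000000000000000) := D_1 (nat_lit 107) (nat_lit 106) (nat_lit 110) (nat_lit 3) (nat_lit 4) (nat_lit 6) (nat_lit 3) (nat_lit 5) (nat_lit 6) (by decide +kernel)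
theorem L1529 : W_1 (nat_lit 3) (nat_lit 0x10001c0002000000000000000000000000000) (nat_lit 0x0) (nat_lit 0x200005c00000000000000000000000000) := T_1 (nat_lit 108) (nat_lit 129) (nat_lit 0) (nat_lit 10) (nat_lit 7) L1528 (by decide +kernel)
theorem L1541 : W_1 (nat_lit 2) (nat_lit 0x10003c0002000000000000000000000000000) (nat_lit 0x0) (nat_lit 0xc00400000000000000000000000000000000) := D_1 (nat_lit 143) (nat_lit 142) (nat_lit 130) (nat_lit 1) (nat_lit 10) (nat_lit 7) (nat_lit 1) (nat_lit 11) (nat_lit 7) (by decide +kernel)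
theorem L1546 : W_1 (nat_lit 2) (nat_lit 0x100018000c0000000000000000000000000000000) (nat_lit 0x0) (nat_lit 0x200000000000000004000200000000000000000000000) := D_1 (nat_lit 110) (nat_lit 93) (nat_lit 177) (nat_lit 5) (nat_lit 8) (nat_lit 5) (nat_lit 6) (nat_lit 7) (nat_lit 10) (by decide +kernel)
theorem L1547 : W_1 (nat_lit 2) (nat_lit 0x3000100018000c0002000000000000000000000000000) (nat_lit 0x0) (nat_lit 0x20001000080000000000000000000000) := D_1 (nat_lit 108) (nat_lit 91) (nat_lit 125) (nat_lit 4) (nat_lit 7) (nat_lit 9) (nat_lit 4) (nat_lit 7) (nat_lit 10) (by decide +kernel)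
theorem L1548 : W_1 (nat_lit 3) (nat_lit 0x3000100018000c0000000000000000000000000000000) (nat_lit 0x0) (nat_lit 0x8000000020003000080000000000000000000000) := T_1 (nat_lit 109) (nat_lit 159) (nat_lit 5) (nat_lit 7) (nat_lit 6) L1547 (by decide +kernel)
theorem L1549 : W_1 (nat_lit 4) (nat_lit 0x2000100018000c0000000000000000000000000000000) (nat_lit 0x0) (nat_lit 0x2000100008000000020003000080000000000000000000000) := T_1 (nat_lit 176) (nat_lit 193) (nat_lit 5) (nat_lit 7) (nat_lit 7) L1548 (by decide +kernel)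
theorem L1550 : W_1 (nat_lit 5) (nat_lit 0x100018000c0000000000000000000000000000000) (nat_lit 0x0) (nat_lit 0x6000300008000000020003000080000000000000000000000) := T_1 (nat_lit 177) (nat_lit 194) (nat_lit 6) (nat_lit 7) (nat_lit 11) L1549 (by decide +kernel)
theorem L1556 : W_1 (nat_lit 2) (nat_lit 0x18000c0004000000000000000000000000000) (nat_lit 0x0) (nat_lit 0x10000000000000000200010000000000000000000) := D_1 (nat_lit 93) (nat_lit 76) (nat_lit 160) (nat_lit 5) (nat_lit 8) (nat_lit 4) (nat_lit 5) (nat_lit 8) (nat_lit 5) (by decide +kernel)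
theorem L1558 : W_1 (nat_lit 2) (nat_lit 0x1c000c0000000000000000000000000000000) (nat_lit 0x0) (nat_lit 0x300100000000000000000000000000000000) := D_1 (nat_lit 141) (nat_lit 128) (nat_lit 140) (nat_lit 2) (nat_lit 5) (nat_lit 8) (nat_lit 2) (nat_lit 4) (nat_lit 8) (by decide +kernel)
theorem L1615 : W_1 (nat_lit 2) (nat_lit 0x10001f0008800000000000000000000000000) (nat_lit 0x0) (nat_lit 0x700000000000000000000000000000000000) := D_1 (nat_lit 141) (nat_lit 142) (nat_lit 140) (nat_lit 1) (nat_lit 9) (nat_lit 7) (nat_lit 1) (nat_lit 8) (nat_lit 7) (by decide +kernel)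
theorem L1616 : W_1 (nat_lit 3) (nat_lit 0x10001e0008800000000000000000000000000) (nat_lit 0x0) (nat_lit 0x700010000400000000000000000000000000) := T_1 (nat_lit 124) (nat_lit 106) (nat_lit 0) (nat_lit 8) (nat_lit 7) L1615 (by decide +kernel)
theorem L1617 : W_1 (nat_lit 4) (nat_lit 0x10001e0008000000000000000000000000000) (nat_lit 0x0) (nat_lit 0x700010001c00000000000000000000000000) := T_1 (nat_lit 107) (nat_lit 108) (nat_lit 0) (nat_lit 9) (nat_lit 7) L1616 (by decide +kernel)
theorem L1618 : W_1 (nat_lit 5) (nat_lit 0x10001e0000000000000000000000000000000) (nat_lit 0x0) (nat_lit 0x700010019c00000000000000000000000000) := T_1 (nat_lit 111) (nat_lit 112) (nat_lit 2) (nat_lit 6) (nat_lit 7) L1617 (by decide +kernel)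
theorem L1656 : W_1 (nat_lit 2) (nat_lit 0x8003c001e0000800000000000000000000000000) (nat_lit 0x0) (nat_lit 0x100000000000000002000100000000000000000000000) := D_1 (nat_lit 109) (nat_lit 92) (nat_lit 176) (nat_lit 5) (nat_lit 7) (nat_lit 5) (nat_lit 6) (nat_lit 6) (nat_lit 10) (by decide +kernel)
theorem L1657 : W_1 (nat_lit 3) (nat_lit 0x3c001e0000800000000000000000000000000) (nat_lit 0x0) (nat_lit 0x10000c000000000002000100000000000000000000000) := T_1 (nat_lit 159) (nat_lit 158) (nat_lit 1) (nat_lit 9) (nat_lit 8) L1656 (by decide +kernel)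
theorem L1694 : W_1 (nat_lit 2) (nat_lit 0x38000c0004000200028000000000000000000) (nat_lit 0x0) (nat_lit 0x4000030000000000000000000000000000000) := D_1 (nat_lit 125) (nat_lit 124) (nat_lit 146) (nat_lit 3) (nat_lit 5) (nat_lit 7) (nat_lit 0) (nat_lit 10) (nat_lit 8) (by decide +kernel)
theorem L1695 : W_1 (nat_lit 3) (nat_lit 0x18000c0004000200028000000000000000000) (nat_lit 0x0) (nat_lit 0x40006000030000000000000000000000000000000) := T_1 (nat_lit 145) (nat_lit 162) (nat_lit 7) (nat_lit 8) (nat_lit 5) L1694 (by decide +kernel)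
theorem L1696 : W_1 (nat_lit 4) (nat_lit 0x10000c0004000200028000000000000000000) (nat_lit 0x0) (nat_lit 0x50006800030000000000000000000000000000000) := T_1 (nat_lit 143) (nat_lit 160) (nat_lit 5) (nat_lit 8) (nat_lit 5) L1695 (by decide +kernel)
theorem L1697 : W_1 (nat_lit 5) (nat_lit 0x10000c0004000200020000000000000000000) (nat_lit 0x0) (nat_lit 0x50006800030000000100008000000000000000000) := T_1 (nat_lit 75) (nat_lit 92) (nat_lit 4) (nat_lit 8) (nat_lit 8) L1696 (by decide +kernel)
theorem L1698 : W_1 (nat_lit 6) (nat_lit 0x10000c0004000200000000000000000000000) (nat_lit 0x0) (nat_lit 0x50006800030000000500028000000000000000000) := T_1 (nat_lit 77) (nat_lit 94) (nat_lit 6) (nat_lit 8) (nat_lit 8) L1697 (by decide +kernel)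
theorem L1718 : W_1 (nat_lit 2) (nat_lit 0x200010000c000e000000000000000000000000000) (nat_lit 0x0) (nat_lit 0x30010000000000000000000000000000) := D_1 (nat_lit 125) (nat_lit 124) (nat_lit 112) (nat_lit 2) (nat_lit 5) (nat_lit 7) (nat_lit 1) (nat_lit 10) (nat_lit 6) (by decide +kernel)
theorem L1719 : W_1 (nat_lit 3) (nat_lit 0x200010000c0006000000000000000000000000000) (nat_lit 0x0) (nat_lit 0x30018000400000000000000000000000) := T_1 (nat_lit 111) (nat_lit 94) (nat_lit 6) (nat_lit 8) (nat_lit 9) L1718 (by decide +kernel)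
theorem L1720 : W_1 (nat_lit 4) (nat_lit 0x200010000c0004000000000000000000000000000) (nat_lit 0x0) (nat_lit 0x3001a000500000000000000000000000) := T_1 (nat_lit 109) (nat_lit 92) (nat_lit 4) (nat_lit 8) (nat_lit 9) L1719 (by decide +kernel)
theorem L1760 : W_1 (nat_lit 5) (nat_lit 0x1c000c0000000000000000000000000000000) (nat_lit 0x0) (nat_lit 0xe00e300020000000000000000000000000000000) := T_1 (nat_lit 141) (nat_lit 140) (nat_lit 2) (nat_lit 4) (nat_lit 8) L431 (by decide +kernel)
theorem L1766 : W_1 (nat_lit 2) (nat_lit 0x3a001e000d000700040000000000000000000) (nat_lit 0x0) (nat_lit 0xc0004000000000000000000) := D_1 (nat_lit 91) (nat_lit 74) (nat_lit 90) (nat_lit 7) (nat_lit 6) (nat_lit 4) (nat_lit 3) (nat_lit 5) (nat_lit 5) (by decide +kernel)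
theorem L1767 : W_1 (nat_lit 3) (nat_lit 0x32001e000d000700040000000000000000000) (nat_lit 0x0) (nat_lit 0x100008000000000000c0004000000000000000000) := T_1 (nat_lit 143) (nat_lit 160) (nat_lit 5) (nat_lit 8) (nat_lit 5) L1766 (by decide +kernel)
theorem L1768 : W_1 (nat_lit 4) (nat_lit 0x32001e000d000600040000000000000000000) (nat_lit 0x0) (nat_lit 0x100008000000000001c000c000000000000000000) := T_1 (nat_lit 92) (nat_lit 75) (nat_lit 4) (nat_lit 8) (nat_lit 8) L1767 (by decide +kernel)
theorem L1769 : W_1 (nat_lit 5) (nat_lit 0x32001e0009000600040000000000000000000) (nat_lit 0x0) (nat_lit 0x500008000000040001c000c000000000000000000) := T_1 (nat_lit 110) (nat_lit 162) (nat_lit 7) (nat_lit 8) (nat_lit 5) L1768 (by decide +kernel)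
theorem L1770 : W_1 (nat_lit 6) (nat_lit 0x32001e0009000400040000000000000000000) (nat_lit 0x0) (nat_lit 0x500008000000040003c001c000000000000000000) := T_1 (nat_lit 93) (nat_lit 76) (nat_lit 4) (nat_lit 9) (nat_lit 8) L1769 (by decide +kernel)
theorem L1771 : W_1 (nat_lit 7) (nat_lit 0x32001e0009000400000000000000000000000) (nat_lit 0x0) (nat_lit 0x50000800000004000bc005c000000000000000000) := T_1 (nat_lit 78) (nat_lit 95) (nat_lit 6) (nat_lit 9) (nat_lit 8) L1770 (by decide +kernel)
theorem L1792 : W_1 (nat_lit 2) (nat_lit 0x380008003c001e0004800000000000000000000000000) (nat_lit 0x0) (nat_lit 0x40000000000000000200010000000000000000000) := D_1 (nat_lit 93) (nat_lit 76) (nat_lit 162) (nat_lit 7) (nat_lit 8) (nat_lit 4) (nat_lit 7) (nat_lit 8) (nat_lit 5) (by decide +kernel)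
theorem L1793 : W_1 (nat_lit 3) (nat_lit 0x380008003c001e0000800000000000000000000000000) (nat_lit 0x0) (nat_lit 0x50000000000004000200010000000000000000000) := T_1 (nat_lit 110) (nat_lit 160) (nat_lit 6) (nat_lit 7) (nat_lit 10) L1792 (by decide +kernel)
theorem L1794 : W_1 (nat_lit 4) (nat_lit 0x180008003c001e0000800000000000000000000000000) (nat_lit 0x0) (nat_lit 0x4000200050000000000004000200010000000000000000000) := T_1 (nat_lit 177) (nat_lit 194) (nat_lit 7) (nat_lit 6) (nat_lit 7) L1793 (by decide +kernel)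
theorem L1795 : W_1 (nat_lit 5) (nat_lit 0x100008003c001e0000800000000000000000000000000) (nat_lit 0x0) (nat_lit 0x5000280050000000000004000200010000000000000000000) := T_1 (nat_lit 175) (nat_lit 192) (nat_lit 5) (nat_lit 6) (nat_lit 7) L1794 (by decide +kernel)
theorem L1796 : W_1 (nat_lit 6) (nat_lit 0x8003c001e0000800000000000000000000000000) (nat_lit 0x0) (nat_lit 0x7000380050000000000004000200010000000000000000000) := T_1 (nat_lit 176) (nat_lit 193) (nat_lit 6) (nat_lit 6) (nat_lit 11) L1795 (by decide +kernel)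
theorem L1797 : W_1 (nat_lit 7) (nat_lit 0x3c001e0000800000000000000000000000000) (nat_lit 0x0) (nat_lit 0x700038005c000000000004000200010000000000000000000) := T_1 (nat_lit 159) (nat_lit 158) (nat_lit 1) (nat_lit 9) (nat_lit 8) L1796 (by decide +kernel)
theorem L1798 : W_1 (nat_lit 8) (nat_lit 0x34001e0000800000000000000000000000000) (nat_lit 0x0) (nat_lit 0x700038005c000800200004000200010000000000000000000) := T_1 (nat_lit 143) (nat_lit 129) (nat_lit 2) (nat_lit 6) (nat_lit 8) L1797 (by decide +kernel)
theorem L1799 : W_1 (nat_lit 9) (nat_lit 0x30001e0000800000000000000000000000000) (nat_lit 0x0) (nat_lit 0x700038005c000e00200004000200010000000000000000000) := T_1 (nat_lit 142) (nat_lit 141) (nat_lit 1) (nat_lit 9) (nat_lit 7) L1798 (by decide +kernel)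
theorem L1800 : W_1 (nat_lit 10) (nat_lit 0x10001e0000800000000000000000000000000) (nat_lit 0x0) (nat_lit 0x700038005c006e00200004000200010000000000000000000) := T_1 (nat_lit 145) (nat_lit 146) (nat_lit 3) (nat_lit 6) (nat_lit 7) L1799 (by decide +kernel)
theorem L1801 : W_1 (nat_lit 11) (nat_lit 0x10001e0000000000000000000000000000000) (nat_lit 0x0) (nat_lit 0x700038005c006e00200005800200010000000000000000000) := T_1 (nat_lit 107) (nat_lit 108) (nat_lit 0) (nat_lit 9) (nat_lit 7) L1800 (by decide +kernel)
theorem L1807 : W_1 (nat_lit 2) (nat_lit 0x18003e0001000000000000000000000000000) (nat_lit 0x0) (nat_lit 0x2000018000000000000000000000000000000) := D_1 (nat_lit 124) (nat_lit 123) (nat_lit 145) (nat_lit 3) (nat_lit 4) (nat_lit 7) (nat_lit 3) (nat_lit 5) (nat_lit 7) (by decide +kernel)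
theorem L1808 : W_1 (nat_lit 3) (nat_lit 0x18003c0001000000000000000000000000000) (nat_lit 0x0) (nat_lit 0x2000038000800000000000000000000000000) := T_1 (nat_lit 125) (nat_lit 107) (nat_lit 0) (nat_lit 9) (nat_lit 7) L1807 (by decide +kernel)
theorem L1809 : W_1 (nat_lit 4) (nat_lit 0x18003c0000000000000000000000000000000) (nat_lit 0x0) (nat_lit 0x2000038003800000000000000000000000000) := T_1 (nat_lit 108) (nat_lit 109) (nat_lit 0) (nat_lit 10) (nat_lit 7) L1808 (by decide +kernel)
theorem L1810 : W_1 (nat_lit 5) (nat_lit 0x18001c0000000000000000000000000000000) (nat_lit 0x0) (nat_lit 0x2000638003800000000000000000000000000) := T_1 (nat_lit 129) (nat_lit 130) (nat_lit 1) (nat_lit 11) (nat_lit 7) L1809 (by decide +kernel)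
theorem L1811 : W_1 (nat_lit 2) (nat_lit 0x18000e0000000000000000000000000000000) (nat_lit 0x0) (nat_lit 0x2000018000000000000000000000000000000) := D_1 (nat_lit 124) (nat_lit 123) (nat_lit 145) (nat_lit 3) (nat_lit 4) (nat_lit 7) (nat_lit 3) (nat_lit 5) (nat_lit 7) (by decide +kernel)
theorem L1816 : W_1 (nat_lit 2) (nat_lit 0x18000d0000000000000000000000000000000) (nat_lit 0x0) (nat_lit 0x2000028000000000000000000000000000000) := D_1 (nat_lit 125) (nat_lit 123) (nat_lit 145) (nat_lit 3) (nat_lit 4) (nat_lit 7) (nat_lit 3) (nat_lit 5) (nat_lit 7) (by decide +kernel)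
theorem L1891 : W_1 (nat_lit 2) (nat_lit 0x12000f0000800000000000000000000000000) (nat_lit 0x0) (nat_lit 0x400100001000000000000000000000000000) := D_1 (nat_lit 128) (nat_lit 108) (nat_lit 142) (nat_lit 0) (nat_lit 9) (nat_lit 7) (nat_lit 1) (nat_lit 9) (nat_lit 7) (by decide +kernel)
theorem L1892 : W_1 (nat_lit 3) (nat_lit 0x10000f0000800000000000000000000000000) (nat_lit 0x0) (nat_lit 0x700100001000000000000000000000000000) := T_1 (nat_lit 141) (nat_lit 140) (nat_lit 1) (nat_lit 8) (nat_lit 7) L1891 (by decide +kernel)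
theorem L1893 : W_1 (nat_lit 4) (nat_lit 0x10000f0000000000000000000000000000000) (nat_lit 0x0) (nat_lit 0x700100001c00000000000000000000000000) := T_1 (nat_lit 107) (nat_lit 106) (nat_lit 0) (nat_lit 8) (nat_lit 7) L1892 (by decide +kernel)
theorem L1894 : W_1 (nat_lit 5) (nat_lit 0x10000e0000000000000000000000000000000) (nat_lit 0x0) (nat_lit 0xf80118001e00000000000000000000000000) := Q_1 (nat_lit 124) (C_1 L1477 (C_1 L1456 (C_1 L1893 (C_1 L129 N_1)))) (by decide +kernel)
theorem L1906 : W_1 (nat_lit 2) (nat_lit 0x50003e0020800000000000000000000000000) (nat_lit 0x0) (nat_lit 0x800400040000000000000000000000000000) := D_1 (nat_lit 130) (nat_lit 143) (nat_lit 114) (nat_lit 1) (nat_lit 11) (nat_lit 7) (nat_lit 2) (nat_lit 8) (nat_lit 7) (by decide +kernel)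
theorem L1907 : W_1 (nat_lit 3) (nat_lit 0x50003e0000800000000000000000000000000) (nat_lit 0x0) (nat_lit 0x800400070000000000000000000000000000) := T_1 (nat_lit 113) (nat_lit 112) (nat_lit 2) (nat_lit 7) (nat_lit 7) L1906 (by decide +kernel)
theorem L1908 : W_1 (nat_lit 4) (nat_lit 0x50001e0000800000000000000000000000000) (nat_lit 0x0) (nat_lit 0x8800600070000000000000000000000000000) := T_1 (nat_lit 129) (nat_lit 147) (nat_lit 3) (nat_lit 7) (nat_lit 7) L1907 (by decide +kernel)
theorem L1909 : W_1 (nat_lit 5) (nat_lit 0x10001e0000800000000000000000000000000) (nat_lit 0x0) (nat_lit 0xe800600070000000000000000000000000000) := T_1 (nat_lit 146) (nat_lit 145) (nat_lit 3) (nat_lit 6) (nat_lit 7) L1908 (by decide +kernel)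
theorem L1910 : W_1 (nat_lit 6) (nat_lit 0x10001e0000000000000000000000000000000) (nat_lit 0x0) (nat_lit 0xe800600071800000000000000000000000000) := T_1 (nat_lit 107) (nat_lit 108) (nat_lit 0) (nat_lit 9) (nat_lit 7) L1909 (by decide +kernel)
theorem L1912 : W_1 (nat_lit 2) (nat_lit 0x30000e0000000000000000000000000000000) (nat_lit 0x0) (nat_lit 0xc000100000000000000000000000000000000) := D_1 (nat_lit 146) (nat_lit 128) (nat_lit 147) (nat_lit 3) (nat_lit 6) (nat_lit 7) (nat_lit 0) (nat_lit 11) (nat_lit 8) (by decide +kernel)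
theorem L1917 : W_1 (nat_lit 2) (nat_lit 0x1400fe0020800000000000000000000000000) (nat_lit 0x0) (nat_lit 0x38000000000000000000000000000000000000) := D_1 (nat_lit 148) (nat_lit 147) (nat_lit 149) (nat_lit 3) (nat_lit 8) (nat_lit 7) (nat_lit 3) (nat_lit 9) (nat_lit 7) (by decide +kernel)
theorem L1918 : W_1 (nat_lit 3) (nat_lit 0x14007e0020800000000000000000000000000) (nat_lit 0x0) (nat_lit 0x3a000800000000000000000000000000000000) := T_1 (nat_lit 131) (nat_lit 145) (nat_lit 1) (nat_lit 12) (nat_lit 7) L1917 (by decide +kernel)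
theorem L1919 : W_1 (nat_lit 4) (nat_lit 0x14003e0020800000000000000000000000000) (nat_lit 0x0) (nat_lit 0x3a000c00040000000000000000000000000000) := T_1 (nat_lit 130) (nat_lit 114) (nat_lit 2) (nat_lit 8) (nat_lit 7) L1918 (by decide +kernel)
theorem L1920 : W_1 (nat_lit 5) (nat_lit 0x14003e0000800000000000000000000000000) (nat_lit 0x0) (nat_lit 0x3a000c00070000000000000000000000000000) := T_1 (nat_lit 113) (nat_lit 112) (nat_lit 2) (nat_lit 7) (nat_lit 7) L1919 (by decide +kernel)
theorem L1921 : W_1 (nat_lit 6) (nat_lit 0x14001e0000800000000000000000000000000) (nat_lit 0x0) (nat_lit 0x3a800e00070000000000000000000000000000) := T_1 (nat_lit 129) (nat_lit 143) (nat_lit 1) (nat_lit 10) (nat_lit 7) L1920 (by decide +kernel)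
theorem L1929 : W_1 (nat_lit 2) (nat_lit 0x10000e0001800000000000000000000000000) (nat_lit 0x0) (nat_lit 0x2600000000000000000000000000) := D_1 (nat_lit 106) (nat_lit 105) (nat_lit 109) (nat_lit 3) (nat_lit 3) (nat_lit 6) (nat_lit 3) (nat_lit 4) (nat_lit 6) (by decide +kernel)
theorem L1939 : W_1 (nat_lit 2) (nat_lit 0x200010000c0002000000000000000000000000000) (nat_lit 0x0) (nat_lit 0x800000004000100000000000000000000000) := D_1 (nat_lit 92) (nat_lit 143) (nat_lit 110) (nat_lit 7) (nat_lit 7) (nat_lit 5) (nat_lit 4) (nat_lit 8) (nat_lit 9) (by decide +kernel)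
theorem L1992 : W_1 (nat_lit 2) (nat_lit 0x10003c0000000000000000000000000000000) (nat_lit 0x0) (nat_lit 0xc00400000000000000000000000000000000) := D_1 (nat_lit 143) (nat_lit 142) (nat_lit 130) (nat_lit 1) (nat_lit 10) (nat_lit 7) (nat_lit 1) (nat_lit 11) (nat_lit 7) (by decide +kernel)
theorem L1993 : W_1 (nat_lit 2) (nat_lit 0x90003c0021800000000000000000000000000) (nat_lit 0x0) (nat_lit 0x10000400040000000000000000000000000000) := D_1 (nat_lit 130) (nat_lit 114) (nat_lit 148) (nat_lit 2) (nat_lit 8) (nat_lit 7) (nat_lit 3) (nat_lit 8) (nat_lit 7) (by decide +kernel)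
theorem L1994 : W_1 (nat_lit 3) (nat_lit 0x10003c0021800000000000000000000000000) (nat_lit 0x0) (nat_lit 0x1c000400040000000000000000000000000000) := T_1 (nat_lit 147) (nat_lit 146) (nat_lit 3) (nat_lit 7) (nat_lit 7) L1993 (by decide +kernel)
theorem L1995 : W_1 (nat_lit 4) (nat_lit 0x10003c0001800000000000000000000000000) (nat_lit 0x0) (nat_lit 0x1c000400070000000000000000000000000000) := T_1 (nat_lit 113) (nat_lit 112) (nat_lit 2) (nat_lit 7) (nat_lit 7) L1994 (by decide +kernel)
theorem L1996 : W_1 (nat_lit 5) (nat_lit 0x10003c0001000000000000000000000000000) (nat_lit 0x0) (nat_lit 0x1c000420070800000000000000000000000000) := T_1 (nat_lit 107) (nat_lit 125) (nat_lit 0) (nat_lit 9) (nat_lit 7) L1995 (by decide +kernel)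
theorem L1997 : W_1 (nat_lit 6) (nat_lit 0x10003c0000000000000000000000000000000) (nat_lit 0x0) (nat_lit 0x1c000420073800000000000000000000000000) := T_1 (nat_lit 108) (nat_lit 109) (nat_lit 0) (nat_lit 10) (nat_lit 7) L1996 (by decide +kernel)
theorem L1998 : W_1 (nat_lit 2) (nat_lit 0x14003e0010000000000000000000000000000) (nat_lit 0x0) (nat_lit 0x3800000000000000000000000000) := D_1 (nat_lit 108) (nat_lit 107) (nat_lit 109) (nat_lit 0) (nat_lit 9) (nat_lit 7) (nat_lit 0) (nat_lit 10) (nat_lit 7) (by decide +kernel)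
theorem L1999 : W_1 (nat_lit 3) (nat_lit 0x14003c0010000000000000000000000000000) (nat_lit 0x0) (nat_lit 0x200020003800000000000000000000000000) := T_1 (nat_lit 125) (nat_lit 141) (nat_lit 1) (nat_lit 9) (nat_lit 7) L1998 (by decide +kernel)
theorem L2000 : W_1 (nat_lit 4) (nat_lit 0x10003c0010000000000000000000000000000) (nat_lit 0x0) (nat_lit 0xe00020003800000000000000000000000000) := T_1 (nat_lit 142) (nat_lit 143) (nat_lit 1) (nat_lit 10) (nat_lit 7) L1999 (by decide +kernel)
theorem L2001 : W_1 (nat_lit 5) (nat_lit 0x10003c0000000000000000000000000000000) (nat_lit 0x0) (nat_lit 0xe00020033800000000000000000000000000) := T_1 (nat_lit 112) (nat_lit 113) (nat_lit 2) (nat_lit 7) (nat_lit 7) L2000 (by decide +kernel)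
theorem L2002 : W_1 (nat_lit 7) (nat_lit 0x10001c0000000000000000000000000000000) (nat_lit 0x0) (nat_lit 0x1ce00620073800000000000000000000000000) := Q_1 (nat_lit 129) (C_1 L1992 (C_1 L1997 (C_1 L2001 N_1))) (by decide +kernel)
theorem L2021 : W_1 (nat_lit 2) (nat_lit 0x10007c0000000000000000000000000000000) (nat_lit 0x0) (nat_lit 0x1c000000000000000000000000000000000000) := D_1 (nat_lit 147) (nat_lit 146) (nat_lit 148) (nat_lit 3) (nat_lit 7) (nat_lit 7) (nat_lit 3) (nat_lit 8) (nat_lit 7) (by decide +kernel)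
theorem L2022 : W_1 (nat_lit 3) (nat_lit 0x10003c0000000000000000000000000000000) (nat_lit 0x0) (nat_lit 0x1c800400000000000000000000000000000000) := T_1 (nat_lit 130) (nat_lit 143) (nat_lit 1) (nat_lit 11) (nat_lit 7) L2021 (by decide +kernel)
theorem L2031 : W_1 (nat_lit 2) (nat_lit 0x90003c0021000000000000000000000000000) (nat_lit 0x0) (nat_lit 0x10000400040000000000000000000000000000) := D_1 (nat_lit 130) (nat_lit 114) (nat_lit 148) (nat_lit 2) (nat_lit 8) (nat_lit 7) (nat_lit 3) (nat_lit 8) (nat_lit 7) (by decide +kernel)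
theorem L2032 : W_1 (nat_lit 3) (nat_lit 0x10003c0021000000000000000000000000000) (nat_lit 0x0) (nat_lit 0x1c000400040000000000000000000000000000) := T_1 (nat_lit 147) (nat_lit 146) (nat_lit 3) (nat_lit 7) (nat_lit 7) L2031 (by decide +kernel)
theorem L2033 : W_1 (nat_lit 4) (nat_lit 0x10003c0001000000000000000000000000000) (nat_lit 0x0) (nat_lit 0x1c000400070000000000000000000000000000) := T_1 (nat_lit 113) (nat_lit 112) (nat_lit 2) (nat_lit 7) (nat_lit 7) L2032 (by decide +kernel)
theorem L2034 : W_1 (nat_lit 5) (nat_lit 0x10003c0000000000000000000000000000000) (nat_lit 0x0) (nat_lit 0x1c000400073000000000000000000000000000) := T_1 (nat_lit 108) (nat_lit 109) (nat_lit 0) (nat_lit 10) (nat_lit 7) L2033 (by decide +kernel)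
theorem L2127 : W_1 (nat_lit 2) (nat_lit 0x100078000c0000000000000000000000000000000) (nat_lit 0x0) (nat_lit 0x200000000000000004000200000000000000000000000) := D_1 (nat_lit 110) (nat_lit 93) (nat_lit 177) (nat_lit 5) (nat_lit 8) (nat_lit 5) (nat_lit 6) (nat_lit 7) (nat_lit 10) (by decide +kernel)
theorem L2225 : W_1 (nat_lit 2) (nat_lit 0x1800380000000000000000000000000000000) (nat_lit 0x0) (nat_lit 0x600040000000000000000000000000000000) := D_1 (nat_lit 142) (nat_lit 126) (nat_lit 141) (nat_lit 1) (nat_lit 10) (nat_lit 7) (nat_lit 2) (nat_lit 5) (nat_lit 8) (by decide +kernel)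
theorem L2226 : W_1 (nat_lit 3) (nat_lit 0x1800180000000000000000000000000000000) (nat_lit 0x0) (nat_lit 0x600640000000000000000000000000000000) := T_1 (nat_lit 129) (nat_lit 130) (nat_lit 1) (nat_lit 11) (nat_lit 7) L2225 (by decide +kernel)
theorem L2227 : W_1 (nat_lit 2) (nat_lit 0x1c00180000000000000000000000000000000) (nat_lit 0x0) (nat_lit 0x2000600000000000000000000000000000000) := D_1 (nat_lit 129) (nat_lit 130) (nat_lit 145) (nat_lit 1) (nat_lit 11) (nat_lit 7) (nat_lit 2) (nat_lit 6) (nat_lit 8) (by decide +kernel)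
theorem L2228 : W_1 (nat_lit 3) (nat_lit 0x1800180000000000000000000000000000000) (nat_lit 0x0) (nat_lit 0x2600600000000000000000000000000000000) := T_1 (nat_lit 142) (nat_lit 141) (nat_lit 2) (nat_lit 5) (nat_lit 8) L2227 (by decide +kernel)
theorem L2331 : W_1 (nat_lit 2) (nat_lit 0x400020001800180000000000000000000000000000000) (nat_lit 0x0) (nat_lit 0x8000000000000000040002000000000000000000000000000) := D_1 (nat_lit 126) (nat_lit 109) (nat_lit 195) (nat_lit 4) (nat_lit 8) (nat_lit 10) (nat_lit 4) (nat_lit 8) (nat_lit 11) (by decide +kernel)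
theorem L2332 : W_1 (nat_lit 3) (nat_lit 0x20001800180000000000000000000000000000000) (nat_lit 0x0) (nat_lit 0x800040000000000004000a000000000000000000000000000) := T_1 (nat_lit 178) (nat_lit 111) (nat_lit 6) (nat_lit 8) (nat_lit 10) L2331 (by decide +kernel)
theorem L2343 : W_1 (nat_lit 2) (nat_lit 0x10003e0001000000000000000000000000000) (nat_lit 0x0) (nat_lit 0x38000000000000000000000000000) := D_1 (nat_lit 112) (nat_lit 113) (nat_lit 111) (nat_lit 2) (nat_lit 7) (nat_lit 7) (nat_lit 2) (nat_lit 6) (nat_lit 7) (by decide +kernel)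
theorem L2344 : W_1 (nat_lit 3) (nat_lit 0x10003c0001000000000000000000000000000) (nat_lit 0x0) (nat_lit 0x20038800000000000000000000000000) := T_1 (nat_lit 125) (nat_lit 107) (nat_lit 0) (nat_lit 9) (nat_lit 7) L2343 (by decide +kernel)
theorem L2345 : W_1 (nat_lit 4) (nat_lit 0x10003c0000000000000000000000000000000) (nat_lit 0x0) (nat_lit 0x2003b800000000000000000000000000) := T_1 (nat_lit 108) (nat_lit 109) (nat_lit 0) (nat_lit 10) (nat_lit 7) L2344 (by decide +kernel)
theorem L2366 : W_1 (nat_lit 2) (nat_lit 0x10007c0002000000000000000000000000000) (nat_lit 0x0) (nat_lit 0x70000000000000000000000000000) := D_1 (nat_lit 113) (nat_lit 114) (nat_lit 112) (nat_lit 2) (nat_lit 8) (nat_lit 7) (nat_lit 2) (nat_lit 7) (nat_lit 7) (by decide +kernel)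
theorem L2375 : W_1 (nat_lit 2) (nat_lit 0x20001800180008000000000000000000000000000) (nat_lit 0x0) (nat_lit 0x2000000000000400020000000000000000000) := D_1 (nat_lit 94) (nat_lit 145) (nat_lit 77) (nat_lit 5) (nat_lit 9) (nat_lit 5) (nat_lit 5) (nat_lit 9) (nat_lit 4) (by decide +kernel)
theorem L2376 : W_1 (nat_lit 3) (nat_lit 0x20001800180000000000000000000000000000000) (nat_lit 0x0) (nat_lit 0x400000002000000008000400020000000000000000000) := T_1 (nat_lit 111) (nat_lit 178) (nat_lit 6) (nat_lit 8) (nat_lit 10) L2375 (by decide +kernel)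
theorem L2497 : W_1 (nat_lit 2) (nat_lit 0x1c00180004000200028000000000000000000) (nat_lit 0x0) (nat_lit 0x2000600000000000000000000000000000000) := D_1 (nat_lit 129) (nat_lit 130) (nat_lit 145) (nat_lit 1) (nat_lit 11) (nat_lit 7) (nat_lit 2) (nat_lit 6) (nat_lit 8) (by decide +kernel)
theorem L2498 : W_1 (nat_lit 3) (nat_lit 0x1800180004000200028000000000000000000) (nat_lit 0x0) (nat_lit 0x2600600000000000000000000000000000000) := T_1 (nat_lit 142) (nat_lit 141) (nat_lit 2) (nat_lit 5) (nat_lit 8) L2497 (by decide +kernel)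
theorem L2499 : W_1 (nat_lit 4) (nat_lit 0x1000180004000200028000000000000000000) (nat_lit 0x0) (nat_lit 0x10002e00600000000000000000000000000000000) := T_1 (nat_lit 143) (nat_lit 160) (nat_lit 5) (nat_lit 8) (nat_lit 5) L2498 (by decide +kernel)
theorem L2500 : W_1 (nat_lit 5) (nat_lit 0x1000180004000200020000000000000000000) (nat_lit 0x0) (nat_lit 0x10002e00600000000100008000000000000000000) := T_1 (nat_lit 75) (nat_lit 92) (nat_lit 4) (nat_lit 8) (nat_lit 8) L2499 (by decide +kernel)
theorem L2501 : W_1 (nat_lit 6) (nat_lit 0x1000180004000200000000000000000000000) (nat_lit 0x0) (nat_lit 0x10002e00600000000500028000000000000000000) := T_1 (nat_lit 77) (nat_lit 94) (nat_lit 6) (nat_lit 8) (nat_lit 8) L2500 (by decide +kernel)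
theorem L2578 : W_1 (nat_lit 2) (nat_lit 0x18003c0018000400000000000000000000000) (nat_lit 0x0) (nat_lit 0x400020002000000000000000000000000000000000000) := D_1 (nat_lit 161) (nat_lit 178) (nat_lit 145) (nat_lit 6) (nat_lit 8) (nat_lit 10) (nat_lit 5) (nat_lit 9) (nat_lit 5) (by decide +kernel)
theorem L2579 : W_1 (nat_lit 3) (nat_lit 0x18003c0018000000000000000000000000000) (nat_lit 0x0) (nat_lit 0x400020002000000000000400020000000000000000000) := T_1 (nat_lit 94) (nat_lit 77) (nat_lit 5) (nat_lit 9) (nat_lit 4) L2578 (by decide +kernel)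
theorem L2580 : W_1 (nat_lit 4) (nat_lit 0x18003c0010000000000000000000000000000) (nat_lit 0x0) (nat_lit 0x400020002000020008000400020000000000000000000) := T_1 (nat_lit 111) (nat_lit 125) (nat_lit 2) (nat_lit 6) (nat_lit 7) L2579 (by decide +kernel)
theorem L2581 : W_1 (nat_lit 5) (nat_lit 0x18003c0000000000000000000000000000000) (nat_lit 0x0) (nat_lit 0x400020002000020038000400020000000000000000000) := T_1 (nat_lit 112) (nat_lit 113) (nat_lit 2) (nat_lit 7) (nat_lit 7) L2580 (by decide +kernel)
theorem L2582 : W_1 (nat_lit 6) (nat_lit 0x18001c0000000000000000000000000000000) (nat_lit 0x0) (nat_lit 0x400020002000620038000400020000000000000000000) := T_1 (nat_lit 129) (nat_lit 130) (nat_lit 1) (nat_lit 11) (nat_lit 7) L2581 (by decide +kernel)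
theorem L2601 : W_1 (nat_lit 2) (nat_lit 0x14003e0000000000000000000000000000000) (nat_lit 0x0) (nat_lit 0x38000000000000000000000000000) := D_1 (nat_lit 112) (nat_lit 113) (nat_lit 111) (nat_lit 2) (nat_lit 7) (nat_lit 7) (nat_lit 2) (nat_lit 6) (nat_lit 7) (by decide +kernel)
theorem L2602 : W_1 (nat_lit 3) (nat_lit 0x14003c0000000000000000000000000000000) (nat_lit 0x0) (nat_lit 0x200020038000000000000000000000000000) := T_1 (nat_lit 125) (nat_lit 141) (nat_lit 1) (nat_lit 9) (nat_lit 7) L2601 (by decide +kernel)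
theorem L2603 : W_1 (nat_lit 4) (nat_lit 0x10003c0000000000000000000000000000000) (nat_lit 0x0) (nat_lit 0xe00020038000000000000000000000000000) := T_1 (nat_lit 142) (nat_lit 143) (nat_lit 1) (nat_lit 10) (nat_lit 7) L2602 (by decide +kernel)
theorem L2673 : W_1 (nat_lit 2) (nat_lit 0x9000fc0010000000000000000000000000000) (nat_lit 0x0) (nat_lit 0x100000c000000000000000000000000000) := D_1 (nat_lit 111) (nat_lit 132) (nat_lit 110) (nat_lit 0) (nat_lit 13) (nat_lit 7) (nat_lit 0) (nat_lit 12) (nat_lit 7) (by decide +kernel)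
theorem L2674 : W_1 (nat_lit 3) (nat_lit 0x90007c0010000000000000000000000000000) (nat_lit 0x0) (nat_lit 0x200180000c000000000000000000000000000) := T_1 (nat_lit 131) (nat_lit 145) (nat_lit 1) (nat_lit 12) (nat_lit 7) L2673 (by decide +kernel)
theorem L2675 : W_1 (nat_lit 4) (nat_lit 0x90003c0010000000000000000000000000000) (nat_lit 0x0) (nat_lit 0x12001c0000c000000000000000000000000000) := T_1 (nat_lit 130) (nat_lit 148) (nat_lit 3) (nat_lit 8) (nat_lit 7) L2674 (by decide +kernel)
theorem L2676 : W_1 (nat_lit 5) (nat_lit 0x90003c0000000000000000000000000000000) (nat_lit 0x0) (nat_lit 0x12001c0003c000000000000000000000000000) := T_1 (nat_lit 112) (nat_lit 113) (nat_lit 2) (nat_lit 7) (nat_lit 7) L2675 (by decide +kernel)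
theorem L2677 : W_1 (nat_lit 6) (nat_lit 0x10003c0000000000000000000000000000000) (nat_lit 0x0) (nat_lit 0x1e001c0003c000000000000000000000000000) := T_1 (nat_lit 147) (nat_lit 146) (nat_lit 3) (nat_lit 7) (nat_lit 7) L2676 (by decide +kernel)
theorem L2678 : W_1 (nat_lit 2) (nat_lit 0x18001c0000000000000000000000000000000) (nat_lit 0x0) (nat_lit 0x600200000000000000000000000000000000) := D_1 (nat_lit 142) (nat_lit 129) (nat_lit 141) (nat_lit 1) (nat_lit 10) (nat_lit 7) (nat_lit 2) (nat_lit 5) (nat_lit 8) (by decide +kernel)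
theorem L2851 : W_1 (nat_lit 2) (nat_lit 0x3000100018000e0000000000000000000000000000000) (nat_lit 0x0) (nat_lit 0x2000018000000000000000000000000000000) := D_1 (nat_lit 124) (nat_lit 145) (nat_lit 123) (nat_lit 3) (nat_lit 5) (nat_lit 7) (nat_lit 3) (nat_lit 4) (nat_lit 7) (by decide +kernel)
theorem L2852 : W_1 (nat_lit 3) (nat_lit 0x3000100018000c0000000000000000000000000000000) (nat_lit 0x0) (nat_lit 0x2000038001000000000000000000000000000) := T_1 (nat_lit 125) (nat_lit 108) (nat_lit 4) (nat_lit 7) (nat_lit 10) L2851 (by decide +kernel)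
theorem L2853 : W_1 (nat_lit 4) (nat_lit 0x2000100018000c0000000000000000000000000000000) (nat_lit 0x0) (nat_lit 0x2000100000002000038001000000000000000000000000000) := T_1 (nat_lit 176) (nat_lit 193) (nat_lit 5) (nat_lit 7) (nat_lit 7) L2852 (by decide +kernel)
theorem L2854 : W_1 (nat_lit 5) (nat_lit 0x100018000c0000000000000000000000000000000) (nat_lit 0x0) (nat_lit 0x6000300000002000038001000000000000000000000000000) := T_1 (nat_lit 177) (nat_lit 194) (nat_lit 6) (nat_lit 7) (nat_lit 11) L2853 (by decide +kernel)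
theorem L2874 : W_1 (nat_lit 2) (nat_lit 0x4003c001e0008800000000000000000000000000) (nat_lit 0x0) (nat_lit 0x20000000000000000400020000000000000000000) := D_1 (nat_lit 94) (nat_lit 77) (nat_lit 161) (nat_lit 5) (nat_lit 9) (nat_lit 4) (nat_lit 5) (nat_lit 9) (nat_lit 5) (by decide +kernel)
theorem L2875 : W_1 (nat_lit 3) (nat_lit 0x4003c001e0000800000000000000000000000000) (nat_lit 0x0) (nat_lit 0x20000000000018000400020000000000000000000) := T_1 (nat_lit 111) (nat_lit 112) (nat_lit 2) (nat_lit 6) (nat_lit 7) L2874 (by decide +kernel)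
theorem L2876 : W_1 (nat_lit 4) (nat_lit 0x4003c001e0000000000000000000000000000000) (nat_lit 0x0) (nat_lit 0x20000000000019800400020000000000000000000) := T_1 (nat_lit 107) (nat_lit 108) (nat_lit 0) (nat_lit 9) (nat_lit 7) L2875 (by decide +kernel)
theorem L2877 : W_1 (nat_lit 5) (nat_lit 0x4003c001a0000000000000000000000000000000) (nat_lit 0x0) (nat_lit 0x20004000040019800400020000000000000000000) := T_1 (nat_lit 126) (nat_lit 146) (nat_lit 3) (nat_lit 6) (nat_lit 7) L2876 (by decide +kernel)
theorem L2878 : W_1 (nat_lit 6) (nat_lit 0x4003c00180000000000000000000000000000000) (nat_lit 0x0) (nat_lit 0x20004000070019800400020000000000000000000) := T_1 (nat_lit 125) (nat_lit 124) (nat_lit 0) (nat_lit 9) (nat_lit 8) L2877 (by decide +kernel)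
theorem L2879 : W_1 (nat_lit 7) (nat_lit 0x3c00180000000000000000000000000000000) (nat_lit 0x0) (nat_lit 0x2c004000070019800400020000000000000000000) := T_1 (nat_lit 158) (nat_lit 159) (nat_lit 1) (nat_lit 9) (nat_lit 8) L2878 (by decide +kernel)
theorem L2880 : W_1 (nat_lit 8) (nat_lit 0x3800180000000000000000000000000000000) (nat_lit 0x0) (nat_lit 0x2c004600070019800400020000000000000000000) := T_1 (nat_lit 142) (nat_lit 141) (nat_lit 2) (nat_lit 5) (nat_lit 8) L2879 (by decide +kernel)
theorem L2897 : W_1 (nat_lit 2) (nat_lit 0x1c001b0000000000000000000000000000000) (nat_lit 0x0) (nat_lit 0x4c000000000000000000000000000000) := D_1 (nat_lit 123) (nat_lit 122) (nat_lit 126) (nat_lit 3) (nat_lit 3) (nat_lit 7) (nat_lit 3) (nat_lit 4) (nat_lit 7) (by decide +kernel)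
theorem L2898 : W_1 (nat_lit 3) (nat_lit 0x1c001a0000000000000000000000000000000) (nat_lit 0x0) (nat_lit 0x200005c000000000000000000000000000000) := T_1 (nat_lit 124) (nat_lit 145) (nat_lit 0) (nat_lit 9) (nat_lit 8) L2897 (by decide +kernel)
theorem L2899 : W_1 (nat_lit 4) (nat_lit 0x18001a0000000000000000000000000000000) (nat_lit 0x0) (nat_lit 0x260005c000000000000000000000000000000) := T_1 (nat_lit 142) (nat_lit 141) (nat_lit 2) (nat_lit 5) (nat_lit 8) L2898 (by decide +kernel)
theorem L2910 : W_1 (nat_lit 2) (nat_lit 0x18003c0002000000000000000000000000000) (nat_lit 0x0) (nat_lit 0x20000000000000000100008000000000000000000) := D_1 (nat_lit 92) (nat_lit 75) (nat_lit 161) (nat_lit 7) (nat_lit 7) (nat_lit 4) (nat_lit 7) (nat_lit 7) (nat_lit 5) (by decide +kernel)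
theorem L2911 : W_1 (nat_lit 3) (nat_lit 0x18003c0000000000000000000000000000000) (nat_lit 0x0) (nat_lit 0x20000000000003000100008000000000000000000) := T_1 (nat_lit 109) (nat_lit 108) (nat_lit 0) (nat_lit 10) (nat_lit 7) L2910 (by decide +kernel)
theorem L2912 : W_1 (nat_lit 4) (nat_lit 0x18001c0000000000000000000000000000000) (nat_lit 0x0) (nat_lit 0x20000000600003000100008000000000000000000) := T_1 (nat_lit 129) (nat_lit 130) (nat_lit 1) (nat_lit 11) (nat_lit 7) L2911 (by decide +kernel)
theorem L2914 : W_1 (nat_lit 3) (nat_lit 0x78000c0000000000000000000000000000000) (nat_lit 0x0) (nat_lit 0x200018000000000004000200000000000000000000000) := T_1 (nat_lit 160) (nat_lit 159) (nat_lit 1) (nat_lit 10) (nat_lit 8) L2127 (by decide +kernel)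
theorem L2915 : W_1 (nat_lit 4) (nat_lit 0x38000c0000000000000000000000000000000) (nat_lit 0x0) (nat_lit 0x20001800c000000004000200000000000000000000000) := T_1 (nat_lit 146) (nat_lit 147) (nat_lit 0) (nat_lit 11) (nat_lit 8) L2914 (by decide +kernel)
theorem L2916 : W_1 (nat_lit 6) (nat_lit 0x38000c0000000000000000000000000000000) (nat_lit 0x0) (nat_lit 0x4000c400700030000800040000000000000000000) := T_1 (nat_lit 146) (nat_lit 147) (nat_lit 0) (nat_lit 11) (nat_lit 8) L489 (by decide +kernel)
theorem L2938 : W_1 (nat_lit 2) (nat_lit 0x1c00180000000000000000000000000000000) (nat_lit 0x0) (nat_lit 0x640000000000000000000000000000000) := D_1 (nat_lit 129) (nat_lit 126) (nat_lit 130) (nat_lit 1) (nat_lit 10) (nat_lit 7) (nat_lit 1) (nat_lit 11) (nat_lit 7) (by decide +kernel)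
theorem L3113 : W_1 (nat_lit 2) (nat_lit 0x18000c0002000000000000000000000000000) (nat_lit 0x0) (nat_lit 0x20000000000000000100008000000000000000000) := D_1 (nat_lit 92) (nat_lit 75) (nat_lit 161) (nat_lit 7) (nat_lit 7) (nat_lit 4) (nat_lit 7) (nat_lit 7) (nat_lit 5) (by decide +kernel)
theorem L3164 : W_1 (nat_lit 2) (nat_lit 0x70006c0000000000000000000000000000000) (nat_lit 0x0) (nat_lit 0x1900000000000000000000000000000000) := D_1 (nat_lit 131) (nat_lit 132) (nat_lit 128) (nat_lit 1) (nat_lit 13) (nat_lit 7) (nat_lit 1) (nat_lit 12) (nat_lit 7) (by decide +kernel)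
theorem L3165 : W_1 (nat_lit 3) (nat_lit 0x70002c0000000000000000000000000000000) (nat_lit 0x0) (nat_lit 0x801d00000000000000000000000000000000) := T_1 (nat_lit 130) (nat_lit 143) (nat_lit 2) (nat_lit 7) (nat_lit 8) L3164 (by decide +kernel)
theorem L3166 : W_1 (nat_lit 4) (nat_lit 0x30002c0000000000000000000000000000000) (nat_lit 0x0) (nat_lit 0xc801d00000000000000000000000000000000) := T_1 (nat_lit 146) (nat_lit 147) (nat_lit 0) (nat_lit 11) (nat_lit 8) L3165 (by decide +kernel)
theorem L3193 : W_1 (nat_lit 2) (nat_lit 0x70000c0000000000000000000000000000000) (nat_lit 0x0) (nat_lit 0x800030000000000000000000000000000000) := D_1 (nat_lit 125) (nat_lit 143) (nat_lit 124) (nat_lit 0) (nat_lit 10) (nat_lit 8) (nat_lit 3) (nat_lit 5) (nat_lit 7) (by decide +kernel)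
theorem L3200 : W_1 (nat_lit 2) (nat_lit 0x3000080004000200010000000000000000000) (nat_lit 0x0) (nat_lit 0x400020001000000000000000) := D_1 (nat_lit 77) (nat_lit 60) (nat_lit 94) (nat_lit 6) (nat_lit 8) (nat_lit 7) (nat_lit 6) (nat_lit 8) (nat_lit 8) (by decide +kernel)
theorem L3201 : W_1 (nat_lit 3) (nat_lit 0x3000080004000200000000000000000000000) (nat_lit 0x0) (nat_lit 0x100000000400030001000000000000000) := T_1 (nat_lit 76) (nat_lit 128) (nat_lit 7) (nat_lit 8) (nat_lit 4) L3200 (by decide +kernel)
theorem L3213 : W_1 (nat_lit 2) (nat_lit 0x6000300018001c000100000000000000000000000) (nat_lit 0x0) (nat_lit 0x60020000000000000000000000000000) := D_1 (nat_lit 126) (nat_lit 125) (nat_lit 113) (nat_lit 2) (nat_lit 6) (nat_lit 7) (nat_lit 1) (nat_lit 11) (nat_lit 6) (by decide +kernel)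
theorem L3214 : W_1 (nat_lit 3) (nat_lit 0x6000300018000c000100000000000000000000000) (nat_lit 0x0) (nat_lit 0x60030000800000000000000000000000) := T_1 (nat_lit 112) (nat_lit 95) (nat_lit 6) (nat_lit 9) (nat_lit 9) L3213 (by decide +kernel)
theorem L3226 : W_1 (nat_lit 2) (nat_lit 0x70003000080004000000000000000000000000000) (nat_lit 0x0) (nat_lit 0x800c000000000000000000000000000000000000) := D_1 (nat_lit 146) (nat_lit 159) (nat_lit 147) (nat_lit 2) (nat_lit 6) (nat_lit 9) (nat_lit 1) (nat_lit 11) (nat_lit 8) (by decide +kernel)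
theorem L3227 : W_1 (nat_lit 3) (nat_lit 0x60003000080004000000000000000000000000000) (nat_lit 0x0) (nat_lit 0x20001800c000000000000000000000000000000000000) := T_1 (nat_lit 160) (nat_lit 177) (nat_lit 5) (nat_lit 8) (nat_lit 6) L3226 (by decide +kernel)
theorem L3228 : W_1 (nat_lit 4) (nat_lit 0x20003000080004000000000000000000000000000) (nat_lit 0x0) (nat_lit 0xa0005800c000000000000000000000000000000000000) := T_1 (nat_lit 162) (nat_lit 179) (nat_lit 7) (nat_lit 8) (nat_lit 6) L3227 (by decide +kernel)
theorem L3282 : W_1 (nat_lit 2) (nat_lit 0x100078002c0000000000000000000000000000000) (nat_lit 0x0) (nat_lit 0x4000200000000000000004000000000000000000000000000) := D_1 (nat_lit 177) (nat_lit 194) (nat_lit 110) (nat_lit 6) (nat_lit 7) (nat_lit 11) (nat_lit 6) (nat_lit 7) (nat_lit 10) (by decide +kernel)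
theorem L3724 : W_1 (nat_lit 2) (nat_lit 0xc000200030001c0000000000000000000000000000000) (nat_lit 0x0) (nat_lit 0x4000030000000000000000000000000000000) := D_1 (nat_lit 125) (nat_lit 146) (nat_lit 124) (nat_lit 3) (nat_lit 6) (nat_lit 7) (nat_lit 3) (nat_lit 5) (nat_lit 7) (by decide +kernel)
theorem L3725 : W_1 (nat_lit 3) (nat_lit 0xc00020003000180000000000000000000000000000000) (nat_lit 0x0) (nat_lit 0x4000070002000000000000000000000000000) := T_1 (nat_lit 126) (nat_lit 109) (nat_lit 4) (nat_lit 8) (nat_lit 10) L3724 (by decide +kernel)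
theorem L3726 : W_1 (nat_lit 4) (nat_lit 0x400020003000180000000000000000000000000000000) (nat_lit 0x0) (nat_lit 0x10000800000004000070002000000000000000000000000000) := T_1 (nat_lit 179) (nat_lit 196) (nat_lit 7) (nat_lit 8) (nat_lit 7) L3725 (by decide +kernel)
theorem L3727 : W_1 (nat_lit 5) (nat_lit 0x400020003000080000000000000000000000000000000) (nat_lit 0x0) (nat_lit 0x1000080000000400017000a000000000000000000000000000) := T_1 (nat_lit 128) (nat_lit 111) (nat_lit 6) (nat_lit 8) (nat_lit 10) L3726 (by decide +kernel)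
theorem L3738 : W_1 (nat_lit 2) (nat_lit 0x6000200070000c0000000000000000000000000000000) (nat_lit 0x0) (nat_lit 0x800030000000000000000000000000000000) := D_1 (nat_lit 125) (nat_lit 143) (nat_lit 124) (nat_lit 0) (nat_lit 10) (nat_lit 8) (nat_lit 3) (nat_lit 5) (nat_lit 7) (by decide +kernel)
theorem L3739 : W_1 (nat_lit 3) (nat_lit 0x6000200030000c0000000000000000000000000000000) (nat_lit 0x0) (nat_lit 0xc800030000000000000000000000000000000) := T_1 (nat_lit 146) (nat_lit 147) (nat_lit 0) (nat_lit 11) (nat_lit 8) L3738 (by decide +kernel)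
theorem L3740 : W_1 (nat_lit 4) (nat_lit 0x4000200030000c0000000000000000000000000000000) (nat_lit 0x0) (nat_lit 0x400020000000c800030000000000000000000000000000000) := T_1 (nat_lit 177) (nat_lit 194) (nat_lit 5) (nat_lit 8) (nat_lit 7) L3739 (by decide +kernel)
theorem L3741 : W_1 (nat_lit 5) (nat_lit 0x400020003000080000000000000000000000000000000) (nat_lit 0x0) (nat_lit 0x400020000000c800070002000000000000000000000000000) := T_1 (nat_lit 126) (nat_lit 109) (nat_lit 4) (nat_lit 8) (nat_lit 10) L3740 (by decide +kernel)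
theorem L3906 : W_1 (nat_lit 2) (nat_lit 0x6000200011000f8000000000000000000000000000000) (nat_lit 0x0) (nat_lit 0xe00000000000000000000000000) := D_1 (nat_lit 106) (nat_lit 105) (nat_lit 107) (nat_lit 0) (nat_lit 7) (nat_lit 7) (nat_lit 0) (nat_lit 8) (nat_lit 7) (by decide +kernel)
theorem L3907 : W_1 (nat_lit 3) (nat_lit 0x6000200011000f0000000000000000000000000000000) (nat_lit 0x0) (nat_lit 0x80008000e00000000000000000000000000) := T_1 (nat_lit 123) (nat_lit 139) (nat_lit 1) (nat_lit 7) (nat_lit 7) L3906 (by decide +kernel)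
theorem L3908 : W_1 (nat_lit 4) (nat_lit 0x6000200010000f0000000000000000000000000000000) (nat_lit 0x0) (nat_lit 0x380008000e00000000000000000000000000) := T_1 (nat_lit 140) (nat_lit 141) (nat_lit 1) (nat_lit 8) (nat_lit 7) L3907 (by decide +kernel)
theorem L4086 : W_1 (nat_lit 2) (nat_lit 0x90003c0022000000000000000000000000000) (nat_lit 0x0) (nat_lit 0x10000400040000000000000000000000000000) := D_1 (nat_lit 130) (nat_lit 114) (nat_lit 148) (nat_lit 2) (nat_lit 8) (nat_lit 7) (nat_lit 3) (nat_lit 8) (nat_lit 7) (by decide +kernel)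
theorem L4087 : W_1 (nat_lit 3) (nat_lit 0x10003c0022000000000000000000000000000) (nat_lit 0x0) (nat_lit 0x1c000400040000000000000000000000000000) := T_1 (nat_lit 147) (nat_lit 146) (nat_lit 3) (nat_lit 7) (nat_lit 7) L4086 (by decide +kernel)
theorem L4088 : W_1 (nat_lit 4) (nat_lit 0x10003c0002000000000000000000000000000) (nat_lit 0x0) (nat_lit 0x1c000400070000000000000000000000000000) := T_1 (nat_lit 113) (nat_lit 112) (nat_lit 2) (nat_lit 7) (nat_lit 7) L4087 (by decide +kernel)
theorem L4206 : W_1 (nat_lit 2) (nat_lit 0x3000100018000c0002000080000000000000000000000) (nat_lit 0x0) (nat_lit 0x10000c000000000000000000) := D_1 (nat_lit 92) (nat_lit 74) (nat_lit 75) (nat_lit 4) (nat_lit 7) (nat_lit 8) (nat_lit 7) (nat_lit 7) (nat_lit 4) (by decide +kernel)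
theorem L4207 : W_1 (nat_lit 3) (nat_lit 0x3000100018000c0002000000000000000000000000000) (nat_lit 0x0) (nat_lit 0x100018000c000000000000000000) := T_1 (nat_lit 91) (nat_lit 108) (nat_lit 4) (nat_lit 7) (nat_lit 9) L4206 (by decide +kernel)
theorem L4208 : W_1 (nat_lit 4) (nat_lit 0x3000100018000c0000000000000000000000000000000) (nat_lit 0x0) (nat_lit 0x800000000000300018000c000000000000000000) := T_1 (nat_lit 109) (nat_lit 159) (nat_lit 5) (nat_lit 7) (nat_lit 6) L4207 (by decide +kernel)
theorem L4209 : W_1 (nat_lit 5) (nat_lit 0x2000100018000c0000000000000000000000000000000) (nat_lit 0x0) (nat_lit 0x200010000800000000000300018000c000000000000000000) := T_1 (nat_lit 176) (nat_lit 193) (nat_lit 5) (nat_lit 7) (nat_lit 7) L4208 (by decide +kernel)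
theorem L4210 : W_1 (nat_lit 6) (nat_lit 0x100018000c0000000000000000000000000000000) (nat_lit 0x0) (nat_lit 0x600030000800000000000300018000c000000000000000000) := T_1 (nat_lit 177) (nat_lit 194) (nat_lit 6) (nat_lit 7) (nat_lit 11) L4209 (by decide +kernel)
theorem L9963 : W_1 (nat_lit 2) (nat_lit 0x1800080006000e00000000000000000000000) (nat_lit 0x0) (nat_lit 0x1000100008000000000000000000) := D_1 (nat_lit 92) (nat_lit 108) (nat_lit 75) (nat_lit 1) (nat_lit 10) (nat_lit 5) (nat_lit 4) (nat_lit 8) (nat_lit 8) (by decide +kernel)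
theorem L9964 : W_1 (nat_lit 3) (nat_lit 0x1800080006000600000000000000000000000) (nat_lit 0x0) (nat_lit 0x1001900008000000000000000000) := T_1 (nat_lit 95) (nat_lit 96) (nat_lit 1) (nat_lit 11) (nat_lit 5) L9963 (by decide +kernel)
theorem L9965 : W_1 (nat_lit 4) (nat_lit 0x1000080006000600000000000000000000000) (nat_lit 0x0) (nat_lit 0x10000800000001001900008000000000000000000) := T_1 (nat_lit 143) (nat_lit 160) (nat_lit 5) (nat_lit 8) (nat_lit 5) L9964 (by decide +kernel)
theorem L9966 : W_1 (nat_lit 5) (nat_lit 0x1000080006000200000000000000000000000) (nat_lit 0x0) (nat_lit 0x10000800000001001d00028000000000000000000) := T_1 (nat_lit 94) (nat_lit 77) (nat_lit 6) (nat_lit 8) (nat_lit 8) L9965 (by decide +kernel)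
theorem L10133 : W_1 (nat_lit 2) (nat_lit 0x3000080006000e00008000000000000000000) (nat_lit 0x0) (nat_lit 0x9800000000000000000000000000) := D_1 (nat_lit 108) (nat_lit 107) (nat_lit 111) (nat_lit 2) (nat_lit 5) (nat_lit 6) (nat_lit 2) (nat_lit 6) (nat_lit 6) (by decide +kernel)
theorem L10134 : W_1 (nat_lit 3) (nat_lit 0x3000080006000600008000000000000000000) (nat_lit 0x0) (nat_lit 0x9801800000000000000000000000) := T_1 (nat_lit 95) (nat_lit 96) (nat_lit 1) (nat_lit 11) (nat_lit 5) L10133 (by decide +kernel)
theorem L10135 : W_1 (nat_lit 4) (nat_lit 0x1000080006000600008000000000000000000) (nat_lit 0x0) (nat_lit 0x40002000000009801800000000000000000000000) := T_1 (nat_lit 145) (nat_lit 162) (nat_lit 7) (nat_lit 8) (nat_lit 5) L10134 (by decide +kernel)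
theorem L10136 : W_1 (nat_lit 5) (nat_lit 0x1000080006000200008000000000000000000) (nat_lit 0x0) (nat_lit 0x40002000000009801c00020000000000000000000) := T_1 (nat_lit 94) (nat_lit 77) (nat_lit 6) (nat_lit 8) (nat_lit 8) L10135 (by decide +kernel)
theorem L10137 : W_1 (nat_lit 6) (nat_lit 0x1000080006000200000000000000000000000) (nat_lit 0x0) (nat_lit 0x40002000000009801d00028000000000000000000) := T_1 (nat_lit 75) (nat_lit 92) (nat_lit 4) (nat_lit 8) (nat_lit 8) L10136 (by decide +kernel)
theorem L10540 : W_1 (nat_lit 2) (nat_lit 0x2000100008000e000000000000000000000000000) (nat_lit 0x0) (nat_lit 0x400000000000140000000000000000000000000000000) := D_1 (nat_lit 178) (nat_lit 126) (nat_lit 128) (nat_lit 4) (nat_lit 8) (nat_lit 10) (nat_lit 6) (nat_lit 8) (nat_lit 10) (by decide +kernel)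
theorem L10868 : W_1 (nat_lit 2) (nat_lit 0x20002000100008000c000000000000000000000000000) (nat_lit 0x0) (nat_lit 0x4000400000000000100000000000000000000000000000000) := D_1 (nat_lit 178) (nat_lit 194) (nat_lit 128) (nat_lit 5) (nat_lit 8) (nat_lit 7) (nat_lit 6) (nat_lit 8) (nat_lit 10) (by decide +kernel)
theorem L11006 : W_1 (nat_lit 2) (nat_lit 0x300008001c000300000000000000000000000) (nat_lit 0x0) (nat_lit 0x4c0000000000000000000000) := D_1 (nat_lit 91) (nat_lit 90) (nat_lit 94) (nat_lit 3) (nat_lit 5) (nat_lit 5) (nat_lit 3) (nat_lit 6) (nat_lit 5) (by decide +kernel)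
theorem L11007 : W_1 (nat_lit 3) (nat_lit 0x300008000c000300000000000000000000000) (nat_lit 0x0) (nat_lit 0x300004c0000000000000000000000) := T_1 (nat_lit 112) (nat_lit 113) (nat_lit 0) (nat_lit 11) (nat_lit 6) L11006 (by decide +kernel)
theorem L11008 : W_1 (nat_lit 4) (nat_lit 0x100008000c000300000000000000000000000) (nat_lit 0x0) (nat_lit 0x400020000000300004c0000000000000000000000) := T_1 (nat_lit 145) (nat_lit 162) (nat_lit 7) (nat_lit 8) (nat_lit 5) L11007 (by decide +kernel)
theorem L11009 : W_1 (nat_lit 5) (nat_lit 0x100008000c000200000000000000000000000) (nat_lit 0x0) (nat_lit 0x400020000000300005c0008000000000000000000) := T_1 (nat_lit 92) (nat_lit 75) (nat_lit 4) (nat_lit 8) (nat_lit 8) L11008 (by decide +kernel)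
theorem L14758 : W_1 (nat_lit 3) (nat_lit 0x1c00080000000000000000000000000000000) (nat_lit 0x0) (nat_lit 0x2200700000000000000000000000000000000) := T_1 (nat_lit 128) (nat_lit 141) (nat_lit 2) (nat_lit 5) (nat_lit 8) L2227 (by decide +kernel)
theorem L14767 : W_1 (nat_lit 2) (nat_lit 0x1e00088000000000000000000000000000000) (nat_lit 0x0) (nat_lit 0x100044000000000000000000000000000000) := D_1 (nat_lit 140) (nat_lit 122) (nat_lit 126) (nat_lit 0) (nat_lit 7) (nat_lit 8) (nat_lit 2) (nat_lit 4) (nat_lit 8) (by decide +kernel)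
theorem L14768 : W_1 (nat_lit 3) (nat_lit 0x1e00080000000000000000000000000000000) (nat_lit 0x0) (nat_lit 0x10005c000000000000000000000000000000) := T_1 (nat_lit 123) (nat_lit 124) (nat_lit 0) (nat_lit 8) (nat_lit 8) L14767 (by decide +kernel)
theorem L14769 : W_1 (nat_lit 2) (nat_lit 0x20001f00080000000000000000000000000000000) (nat_lit 0x0) (nat_lit 0x1c000000000000000000000000000000) := D_1 (nat_lit 123) (nat_lit 124) (nat_lit 122) (nat_lit 0) (nat_lit 8) (nat_lit 8) (nat_lit 0) (nat_lit 7) (nat_lit 8) (by decide +kernel)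
theorem L14770 : W_1 (nat_lit 3) (nat_lit 0x20001e00080000000000000000000000000000000) (nat_lit 0x0) (nat_lit 0x1000010001c000000000000000000000000000000) := T_1 (nat_lit 140) (nat_lit 160) (nat_lit 3) (nat_lit 4) (nat_lit 8) L14769 (by decide +kernel)
theorem L14771 : W_1 (nat_lit 4) (nat_lit 0x1e00080000000000000000000000000000000) (nat_lit 0x0) (nat_lit 0x7000010001c000000000000000000000000000000) := T_1 (nat_lit 161) (nat_lit 162) (nat_lit 3) (nat_lit 5) (nat_lit 8) L14770 (by decide +kernel)
theorem L14772 : W_1 (nat_lit 2) (nat_lit 0x20001e000c0000000000000000000000000000000) (nat_lit 0x0) (nat_lit 0x400000000000000002000100000000000000000000000) := D_1 (nat_lit 109) (nat_lit 178) (nat_lit 92) (nat_lit 4) (nat_lit 8) (nat_lit 10) (nat_lit 7) (nat_lit 7) (nat_lit 5) (by decide +kernel)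
theorem L14773 : W_1 (nat_lit 3) (nat_lit 0x1e000c0000000000000000000000000000000) (nat_lit 0x0) (nat_lit 0x400060000000000002000100000000000000000000000) := T_1 (nat_lit 161) (nat_lit 162) (nat_lit 3) (nat_lit 5) (nat_lit 8) L14772 (by decide +kernel)
theorem L14774 : W_1 (nat_lit 4) (nat_lit 0x1e00080000000000000000000000000000000) (nat_lit 0x0) (nat_lit 0x400060000100040002000100000000000000000000000) := T_1 (nat_lit 126) (nat_lit 140) (nat_lit 2) (nat_lit 4) (nat_lit 8) L14773 (by decide +kernel)
theorem L14789 : W_1 (nat_lit 2) (nat_lit 0x20001e000d0000000000000000000000000000000) (nat_lit 0x0) (nat_lit 0x400000000000000002000100000000000000000000000) := D_1 (nat_lit 109) (nat_lit 178) (nat_lit 92) (nat_lit 4) (nat_lit 8) (nat_lit 10) (nat_lit 7) (nat_lit 7) (nat_lit 5) (by decide +kernel)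
theorem L14790 : W_1 (nat_lit 3) (nat_lit 0x1e000d0000000000000000000000000000000) (nat_lit 0x0) (nat_lit 0x400060000000000002000100000000000000000000000) := T_1 (nat_lit 161) (nat_lit 162) (nat_lit 3) (nat_lit 5) (nat_lit 8) L14789 (by decide +kernel)
theorem L14941 : W_1 (nat_lit 2) (nat_lit 0x18003c001a0000000000000000000000000000000) (nat_lit 0x0) (nat_lit 0x4000200000000000000001000000000000000000000000000) := D_1 (nat_lit 177) (nat_lit 194) (nat_lit 108) (nat_lit 6) (nat_lit 7) (nat_lit 11) (nat_lit 7) (nat_lit 6) (nat_lit 6) (by decide +kernel)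
theorem L14942 : W_1 (nat_lit 3) (nat_lit 0x8003c001a0000000000000000000000000000000) (nat_lit 0x0) (nat_lit 0x4000200010004000000001000000000000000000000000000) := T_1 (nat_lit 160) (nat_lit 146) (nat_lit 1) (nat_lit 10) (nat_lit 8) L14941 (by decide +kernel)
theorem L14950 : W_1 (nat_lit 2) (nat_lit 0x8003c001e0000000000000000000000000000000) (nat_lit 0x0) (nat_lit 0x2000100000000000000002000000000000000000000000000) := D_1 (nat_lit 176) (nat_lit 193) (nat_lit 109) (nat_lit 6) (nat_lit 6) (nat_lit 11) (nat_lit 6) (nat_lit 6) (nat_lit 10) (by decide +kernel)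
theorem L14951 : W_1 (nat_lit 3) (nat_lit 0x8003c001a0000000000000000000000000000000) (nat_lit 0x0) (nat_lit 0x2000100000004000040002000000000000000000000000000) := T_1 (nat_lit 126) (nat_lit 146) (nat_lit 3) (nat_lit 6) (nat_lit 7) L14950 (by decide +kernel)
theorem L15357 : W_1 (nat_lit 2) (nat_lit 0x8007c00180000000000000000000000000000000) (nat_lit 0x0) (nat_lit 0x18000040000000000000000000000000000000) := D_1 (nat_lit 147) (nat_lit 148) (nat_lit 126) (nat_lit 0) (nat_lit 12) (nat_lit 8) (nat_lit 0) (nat_lit 11) (nat_lit 8) (by decide +kernel)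
theorem L15358 : W_1 (nat_lit 3) (nat_lit 0x8003c00180000000000000000000000000000000) (nat_lit 0x0) (nat_lit 0x1001c000040000000000000000000000000000000) := T_1 (nat_lit 146) (nat_lit 160) (nat_lit 1) (nat_lit 10) (nat_lit 8) L15357 (by decide +kernel)
theorem L18501 : W_1 (nat_lit 2) (nat_lit 0x11000f8002000000000000000000000000000) (nat_lit 0x0) (nat_lit 0xe00000000000000000000000000) := D_1 (nat_lit 106) (nat_lit 105) (nat_lit 107) (nat_lit 0) (nat_lit 7) (nat_lit 7) (nat_lit 0) (nat_lit 8) (nat_lit 7) (by decide +kernel)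
theorem L18502 : W_1 (nat_lit 3) (nat_lit 0x11000f0002000000000000000000000000000) (nat_lit 0x0) (nat_lit 0x80008000e00000000000000000000000000) := T_1 (nat_lit 123) (nat_lit 139) (nat_lit 1) (nat_lit 7) (nat_lit 7) L18501 (by decide +kernel)
theorem L18503 : W_1 (nat_lit 4) (nat_lit 0x10000f0002000000000000000000000000000) (nat_lit 0x0) (nat_lit 0x380008000e00000000000000000000000000) := T_1 (nat_lit 140) (nat_lit 141) (nat_lit 1) (nat_lit 8) (nat_lit 7) L18502 (by decide +kernel)
theorem L18504 : W_1 (nat_lit 5) (nat_lit 0x10000e0002000000000000000000000000000) (nat_lit 0x0) (nat_lit 0x2380018000e00000000000000000000000000) := T_1 (nat_lit 124) (nat_lit 145) (nat_lit 3) (nat_lit 5) (nat_lit 7) L18503 (by decide +kernel)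
theorem L18924 : W_1 (nat_lit 2) (nat_lit 0x12000f0005800000000000000000000000000) (nat_lit 0x0) (nat_lit 0x4000000000000000080004000000000000000000) := D_1 (nat_lit 91) (nat_lit 74) (nat_lit 158) (nat_lit 5) (nat_lit 6) (nat_lit 4) (nat_lit 6) (nat_lit 5) (nat_lit 9) (by decide +kernel)
theorem L18925 : W_1 (nat_lit 3) (nat_lit 0x10000f0005800000000000000000000000000) (nat_lit 0x0) (nat_lit 0x4000300000000000080004000000000000000000) := T_1 (nat_lit 141) (nat_lit 140) (nat_lit 1) (nat_lit 8) (nat_lit 7) L18924 (by decide +kernel)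
theorem L18926 : W_1 (nat_lit 4) (nat_lit 0x10000f0004800000000000000000000000000) (nat_lit 0x0) (nat_lit 0x4000300100001000080004000000000000000000) := T_1 (nat_lit 108) (nat_lit 128) (nat_lit 0) (nat_lit 9) (nat_lit 7) L18925 (by decide +kernel)
theorem L18927 : W_1 (nat_lit 5) (nat_lit 0x10000f0000800000000000000000000000000) (nat_lit 0x0) (nat_lit 0x400030010000d000080004000000000000000000) := T_1 (nat_lit 110) (nat_lit 111) (nat_lit 2) (nat_lit 5) (nat_lit 7) L18926 (by decide +kernel)
theorem L18928 : W_1 (nat_lit 6) (nat_lit 0x10000f0000000000000000000000000000000) (nat_lit 0x0) (nat_lit 0x400030010000dc00080004000000000000000000) := T_1 (nat_lit 107) (nat_lit 106) (nat_lit 0) (nat_lit 8) (nat_lit 7) L18927 (by decide +kernel)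
theorem L20001 : W_1 (nat_lit 2) (nat_lit 0x10000f0004400000000000000000000000000) (nat_lit 0x0) (nat_lit 0x8002200000000000000000000000000) := D_1 (nat_lit 123) (nat_lit 109) (nat_lit 105) (nat_lit 2) (nat_lit 4) (nat_lit 7) (nat_lit 0) (nat_lit 7) (nat_lit 7) (by decide +kernel)
theorem L20002 : W_1 (nat_lit 3) (nat_lit 0x10000f0000400000000000000000000000000) (nat_lit 0x0) (nat_lit 0x800e200000000000000000000000000) := T_1 (nat_lit 110) (nat_lit 111) (nat_lit 2) (nat_lit 5) (nat_lit 7) L20001 (by decide +kernel)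
theorem L20031 : W_1 (nat_lit 2) (nat_lit 0x600070000c0004000000000000000000000000000) (nat_lit 0x0) (nat_lit 0x800030000000000000000000000000000000) := D_1 (nat_lit 125) (nat_lit 143) (nat_lit 124) (nat_lit 0) (nat_lit 10) (nat_lit 8) (nat_lit 3) (nat_lit 5) (nat_lit 7) (by decide +kernel)
theorem L20032 : W_1 (nat_lit 3) (nat_lit 0x600030000c0004000000000000000000000000000) (nat_lit 0x0) (nat_lit 0xc800030000000000000000000000000000000) := T_1 (nat_lit 146) (nat_lit 147) (nat_lit 0) (nat_lit 11) (nat_lit 8) L20031 (by decide +kernel)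
theorem L20033 : W_1 (nat_lit 4) (nat_lit 0x200030000c0004000000000000000000000000000) (nat_lit 0x0) (nat_lit 0x80004000c800030000000000000000000000000000000) := T_1 (nat_lit 162) (nat_lit 179) (nat_lit 7) (nat_lit 8) (nat_lit 6) L20032 (by decide +kernel)
theorem L20034 : W_1 (nat_lit 2) (nat_lit 0x200070000c0004000000000000000000000000000) (nat_lit 0x0) (nat_lit 0x130000000000000000000000000000000) := D_1 (nat_lit 125) (nat_lit 124) (nat_lit 128) (nat_lit 3) (nat_lit 5) (nat_lit 7) (nat_lit 3) (nat_lit 6) (nat_lit 7) (by decide +kernel)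
theorem L20035 : W_1 (nat_lit 3) (nat_lit 0x200030000c0004000000000000000000000000000) (nat_lit 0x0) (nat_lit 0xc000130000000000000000000000000000000) := T_1 (nat_lit 146) (nat_lit 147) (nat_lit 0) (nat_lit 11) (nat_lit 8) L20034 (by decide +kernel)
theorem L20036 : W_1 (nat_lit 2) (nat_lit 0xa00020001000780034000d0004000100000000000000000000000) (nat_lit 0x0) (nat_lit 0x1400040000000000000000000000000000000000000000000000000000) := D_1 (nat_lit 210) (nat_lit 226) (nat_lit 228) (nat_lit 5) (nat_lit 6) (nat_lit 9) (nat_lit 7) (nat_lit 6) (nat_lit 9) (by decide +kernel)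
theorem L20037 : W_1 (nat_lit 3) (nat_lit 0x200020001000780034000d0004000100000000000000000000000) (nat_lit 0x0) (nat_lit 0x14000c0004000000000000000000000000000000000000000000000000) := T_1 (nat_lit 211) (nat_lit 194) (nat_lit 7) (nat_lit 6) (nat_lit 8) L20036 (by decide +kernel)
theorem L20038 : W_1 (nat_lit 4) (nat_lit 0x20001000780034000d0004000100000000000000000000000) (nat_lit 0x0) (nat_lit 0x14000e0005000000000000000000000000000000000000000000000000) := T_1 (nat_lit 209) (nat_lit 192) (nat_lit 5) (nat_lit 6) (nat_lit 8) L20037 (by decide +kernel)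
theorem L20039 : W_1 (nat_lit 5) (nat_lit 0x1000780034000d0004000100000000000000000000000) (nat_lit 0x0) (nat_lit 0x14000e0007000000000000800000000000000000000000000000000000) := T_1 (nat_lit 193) (nat_lit 143) (nat_lit 6) (nat_lit 6) (nat_lit 11) L20038 (by decide +kernel)
theorem L20040 : W_1 (nat_lit 6) (nat_lit 0x1000780030000d0004000100000000000000000000000) (nat_lit 0x0) (nat_lit 0x14000e0007000000000000e00000000000000000000000000000000000) := T_1 (nat_lit 142) (nat_lit 141) (nat_lit 0) (nat_lit 9) (nat_lit 9) L20039 (by decide +kernel)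
theorem L20041 : W_1 (nat_lit 7) (nat_lit 0x780030000d0004000100000000000000000000000) (nat_lit 0x0) (nat_lit 0x14000e0007000180000000e00000000000000000000000000000000000) := T_1 (nat_lit 176) (nat_lit 175) (nat_lit 1) (nat_lit 9) (nat_lit 9) L20040 (by decide +kernel)
theorem L20042 : W_1 (nat_lit 8) (nat_lit 0x380030000d0004000100000000000000000000000) (nat_lit 0x0) (nat_lit 0x14000e0007000980040000e00000000000000000000000000000000000) := T_1 (nat_lit 162) (nat_lit 179) (nat_lit 7) (nat_lit 8) (nat_lit 6) L20041 (by decide +kernel)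
theorem L20043 : W_1 (nat_lit 9) (nat_lit 0x380030000c0004000100000000000000000000000) (nat_lit 0x0) (nat_lit 0x14000e0007000980040000e00030000000000000000000000000000000) := T_1 (nat_lit 124) (nat_lit 125) (nat_lit 3) (nat_lit 5) (nat_lit 7) L20042 (by decide +kernel)
theorem L20044 : W_1 (nat_lit 10) (nat_lit 0x380030000c0004000000000000000000000000000) (nat_lit 0x0) (nat_lit 0x14000e0007000980040000e00030002000100000000000000000000000) := T_1 (nat_lit 92) (nat_lit 109) (nat_lit 4) (nat_lit 8) (nat_lit 9) L20043 (by decide +kernel)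
theorem L20045 : W_1 (nat_lit 11) (nat_lit 0x300030000c0004000000000000000000000000000) (nat_lit 0x0) (nat_lit 0x14000e000700098004c000e00030002000100000000000000000000000) := T_1 (nat_lit 159) (nat_lit 158) (nat_lit 2) (nat_lit 5) (nat_lit 9) L20044 (by decide +kernel)
theorem L20046 : W_1 (nat_lit 12) (nat_lit 0x200030000c0004000000000000000000000000000) (nat_lit 0x0) (nat_lit 0x14000e0007000b8005c000e00030002000100000000000000000000000) := T_1 (nat_lit 160) (nat_lit 177) (nat_lit 5) (nat_lit 8) (nat_lit 6) L20045 (by decide +kernel)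
theorem L20047 : W_1 (nat_lit 2) (nat_lit 0x700030000c0004000000000000000000000000000) (nat_lit 0x0) (nat_lit 0x800c000000000000000000000000000000000000) := D_1 (nat_lit 146) (nat_lit 159) (nat_lit 147) (nat_lit 2) (nat_lit 6) (nat_lit 9) (nat_lit 1) (nat_lit 11) (nat_lit 8) (by decide +kernel)
theorem L20048 : W_1 (nat_lit 3) (nat_lit 0x600030000c0004000000000000000000000000000) (nat_lit 0x0) (nat_lit 0x20001800c000000000000000000000000000000000000) := T_1 (nat_lit 160) (nat_lit 177) (nat_lit 5) (nat_lit 8) (nat_lit 6) L20047 (by decide +kernel)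
theorem L20049 : W_1 (nat_lit 4) (nat_lit 0x200030000c0004000000000000000000000000000) (nat_lit 0x0) (nat_lit 0xa0005800c000000000000000000000000000000000000) := T_1 (nat_lit 162) (nat_lit 179) (nat_lit 7) (nat_lit 8) (nat_lit 6) L20048 (by decide +kernel)
theorem L20053 : W_1 (nat_lit 2) (nat_lit 0x20001000080004000300000000000000000000000) (nat_lit 0x0) (nat_lit 0x800040002000000000000000000000000000000000000) := D_1 (nat_lit 162) (nat_lit 179) (nat_lit 145) (nat_lit 7) (nat_lit 8) (nat_lit 6) (nat_lit 7) (nat_lit 8) (nat_lit 5) (by decide +kernel)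
theorem L20054 : W_1 (nat_lit 3) (nat_lit 0x20001000080004000100000000000000000000000) (nat_lit 0x0) (nat_lit 0x800040002000000000000200008000000000000000000) := T_1 (nat_lit 93) (nat_lit 75) (nat_lit 4) (nat_lit 8) (nat_lit 8) L20053 (by decide +kernel)
theorem L20055 : W_1 (nat_lit 4) (nat_lit 0x20001000080004000000000000000000000000000) (nat_lit 0x0) (nat_lit 0x800040002000000002000300008000000000000000000) := T_1 (nat_lit 92) (nat_lit 109) (nat_lit 4) (nat_lit 8) (nat_lit 9) L20054 (by decide +kernel)
theorem L20057 : W_1 (nat_lit 2) (nat_lit 0x1000080004000200018000000000000000000) (nat_lit 0x0) (nat_lit 0x400020001000000000000000) := D_1 (nat_lit 77) (nat_lit 94) (nat_lit 60) (nat_lit 6) (nat_lit 8) (nat_lit 8) (nat_lit 6) (nat_lit 8) (nat_lit 7) (by decide +kernel)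
theorem L20058 : W_1 (nat_lit 3) (nat_lit 0x1000080004000200008000000000000000000) (nat_lit 0x0) (nat_lit 0x400030001400000000000000) := T_1 (nat_lit 76) (nat_lit 58) (nat_lit 4) (nat_lit 8) (nat_lit 7) L20057 (by decide +kernel)
theorem L20059 : W_1 (nat_lit 4) (nat_lit 0x1000080004000200000000000000000000000) (nat_lit 0x0) (nat_lit 0x500038001400000000000000) := T_1 (nat_lit 75) (nat_lit 92) (nat_lit 4) (nat_lit 8) (nat_lit 8) L20058 (by decide +kernel)
theorem L20060 : W_1 (nat_lit 2) (nat_lit 0x30000e0006000200000000000000000000000) (nat_lit 0x0) (nat_lit 0xc000100000000000000000000000000000000) := D_1 (nat_lit 146) (nat_lit 147) (nat_lit 128) (nat_lit 0) (nat_lit 11) (nat_lit 8) (nat_lit 3) (nat_lit 6) (nat_lit 7) (by decide +kernel)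
theorem L20061 : W_1 (nat_lit 3) (nat_lit 0x30000c0006000200000000000000000000000) (nat_lit 0x0) (nat_lit 0xc000130000000000000000000000000000000) := T_1 (nat_lit 125) (nat_lit 124) (nat_lit 3) (nat_lit 5) (nat_lit 7) L20060 (by decide +kernel)
theorem L20062 : W_1 (nat_lit 4) (nat_lit 0x10000c0006000200000000000000000000000) (nat_lit 0x0) (nat_lit 0x4000e000130000000000000000000000000000000) := T_1 (nat_lit 145) (nat_lit 162) (nat_lit 7) (nat_lit 8) (nat_lit 5) L20061 (by decide +kernel)
theorem L20063 : W_1 (nat_lit 2) (nat_lit 0x1c000c0006000300004000000000000000000) (nat_lit 0x0) (nat_lit 0x200300000000000000000000000000000000) := D_1 (nat_lit 128) (nat_lit 141) (nat_lit 129) (nat_lit 2) (nat_lit 5) (nat_lit 8) (nat_lit 1) (nat_lit 10) (nat_lit 7) (by decide +kernel)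
theorem L20064 : W_1 (nat_lit 3) (nat_lit 0x18000c0006000300004000000000000000000) (nat_lit 0x0) (nat_lit 0x8000600300000000000000000000000000000000) := T_1 (nat_lit 142) (nat_lit 159) (nat_lit 5) (nat_lit 7) (nat_lit 5) L20063 (by decide +kernel)
theorem L20065 : W_1 (nat_lit 4) (nat_lit 0x18000c0006000300000000000000000000000) (nat_lit 0x0) (nat_lit 0x8000600300000000080004000000000000000000) := T_1 (nat_lit 74) (nat_lit 91) (nat_lit 4) (nat_lit 7) (nat_lit 8) L20064 (by decide +kernel)
theorem L20066 : W_1 (nat_lit 5) (nat_lit 0x10000c0006000300000000000000000000000) (nat_lit 0x0) (nat_lit 0x18000e00300000000080004000000000000000000) := T_1 (nat_lit 143) (nat_lit 160) (nat_lit 6) (nat_lit 7) (nat_lit 9) L20065 (by decide +kernel)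
theorem L20067 : W_1 (nat_lit 6) (nat_lit 0x10000c0006000200000000000000000000000) (nat_lit 0x0) (nat_lit 0x18000e0030000000018000c000000000000000000) := T_1 (nat_lit 92) (nat_lit 75) (nat_lit 7) (nat_lit 7) (nat_lit 4) L20066 (by decide +kernel)
theorem L20068 : W_1 (nat_lit 2) (nat_lit 0x38000c0006000200008000000000000000000) (nat_lit 0x0) (nat_lit 0x4000030000000000000000000000000000000) := D_1 (nat_lit 125) (nat_lit 124) (nat_lit 146) (nat_lit 3) (nat_lit 5) (nat_lit 7) (nat_lit 0) (nat_lit 10) (nat_lit 8) (by decide +kernel)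
theorem L20069 : W_1 (nat_lit 3) (nat_lit 0x18000c0006000200008000000000000000000) (nat_lit 0x0) (nat_lit 0x40006000030000000000000000000000000000000) := T_1 (nat_lit 145) (nat_lit 162) (nat_lit 7) (nat_lit 8) (nat_lit 5) L20068 (by decide +kernel)
theorem L20070 : W_1 (nat_lit 4) (nat_lit 0x18000c0006000200000000000000000000000) (nat_lit 0x0) (nat_lit 0x40006000030000000100008000000000000000000) := T_1 (nat_lit 75) (nat_lit 92) (nat_lit 7) (nat_lit 7) (nat_lit 4) L20069 (by decide +kernel)
theorem L20071 : W_1 (nat_lit 5) (nat_lit 0x10000c0006000200000000000000000000000) (nat_lit 0x0) (nat_lit 0x50006800030000000100008000000000000000000) := T_1 (nat_lit 143) (nat_lit 160) (nat_lit 6) (nat_lit 7) (nat_lit 9) L20070 (by decide +kernel)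
theorem L20072 : W_1 (nat_lit 7) (nat_lit 0x1000080006000200000000000000000000000) (nat_lit 0x0) (nat_lit 0x5800ee0037000000018000c000000000000000000) := Q_1 (nat_lit 126) (C_1 L20062 (C_1 L20067 (C_1 L20071 N_1))) (by decide +kernel)
theorem L20073 : W_1 (nat_lit 2) (nat_lit 0x3800080007000600000000000000000000000) (nat_lit 0x0) (nat_lit 0x8001800000000000000000000000) := D_1 (nat_lit 95) (nat_lit 96) (nat_lit 111) (nat_lit 1) (nat_lit 11) (nat_lit 5) (nat_lit 2) (nat_lit 6) (nat_lit 6) (by decide +kernel)
theorem L20074 : W_1 (nat_lit 3) (nat_lit 0x3800080006000600000000000000000000000) (nat_lit 0x0) (nat_lit 0x9801800000000000000000000000) := T_1 (nat_lit 108) (nat_lit 107) (nat_lit 2) (nat_lit 5) (nat_lit 6) L20073 (by decide +kernel)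
theorem L20075 : W_1 (nat_lit 4) (nat_lit 0x3800080006000200000000000000000000000) (nat_lit 0x0) (nat_lit 0x9801c00020000000000000000000) := T_1 (nat_lit 94) (nat_lit 77) (nat_lit 6) (nat_lit 8) (nat_lit 8) L20074 (by decide +kernel)
theorem L20076 : W_1 (nat_lit 5) (nat_lit 0x3000080006000200000000000000000000000) (nat_lit 0x0) (nat_lit 0x10000800000009801c00020000000000000000000) := T_1 (nat_lit 143) (nat_lit 160) (nat_lit 5) (nat_lit 8) (nat_lit 5) L20075 (by decide +kernel)
theorem L20077 : W_1 (nat_lit 6) (nat_lit 0x1000080006000200000000000000000000000) (nat_lit 0x0) (nat_lit 0x50002800000009801c00020000000000000000000) := T_1 (nat_lit 145) (nat_lit 162) (nat_lit 7) (nat_lit 8) (nat_lit 5) L20076 (by decide +kernel)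
theorem L20078 : W_1 (nat_lit 8) (nat_lit 0x1000080004000200000000000000000000000) (nat_lit 0x0) (nat_lit 0x5800ee0037000b801d8002c000000000000000000) := Q_1 (nat_lit 109) (C_1 L10137 (C_1 L9966 (C_1 L20072 (C_1 L20077 N_1)))) (by decide +kernel)
theorem L20079 : W_1 (nat_lit 9) (nat_lit 0x1000080004000000000000000000000000000) (nat_lit 0x0) (nat_lit 0x5800ee0037000b801f8003c001400000000000000) := Q_1 (nat_lit 93) (C_1 L13 (C_1 L20059 (C_1 L20078 N_1))) (by decide +kernel)
theorem L20081 : W_1 (nat_lit 2) (nat_lit 0x50001000080004000200008000400000000000000) (nat_lit 0x0) (nat_lit 0xa00020000000000000000000000000000000000000000) := D_1 (nat_lit 161) (nat_lit 179) (nat_lit 177) (nat_lit 7) (nat_lit 8) (nat_lit 6) (nat_lit 5) (nat_lit 8) (nat_lit 6) (by decide +kernel)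
theorem L20082 : W_1 (nat_lit 3) (nat_lit 0x40001000080004000200008000400000000000000) (nat_lit 0x0) (nat_lit 0xa00030000800000000000000000000000000000000000) := T_1 (nat_lit 160) (nat_lit 143) (nat_lit 5) (nat_lit 8) (nat_lit 5) L20081 (by decide +kernel)
theorem L20083 : W_1 (nat_lit 4) (nat_lit 0x1000080004000200008000400000000000000) (nat_lit 0x0) (nat_lit 0xa00070002800000000000000000000000000000000000) := T_1 (nat_lit 162) (nat_lit 145) (nat_lit 7) (nat_lit 8) (nat_lit 5) L20082 (by decide +kernel)
theorem L20084 : W_1 (nat_lit 5) (nat_lit 0x1000080004000200008000000000000000000) (nat_lit 0x0) (nat_lit 0xa00070002800000000000000010000400000000000000) := T_1 (nat_lit 58) (nat_lit 76) (nat_lit 4) (nat_lit 8) (nat_lit 7) L20083 (by decide +kernel)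
theorem L20085 : W_1 (nat_lit 6) (nat_lit 0x1000080004000200000000000000000000000) (nat_lit 0x0) (nat_lit 0xa00070002800000000000100018000400000000000000) := T_1 (nat_lit 75) (nat_lit 92) (nat_lit 4) (nat_lit 8) (nat_lit 8) L20084 (by decide +kernel)
theorem L20086 : W_1 (nat_lit 7) (nat_lit 0x1000080004000000000000000000000000000) (nat_lit 0x0) (nat_lit 0xa00070002800000008000700038001400000000000000) := Q_1 (nat_lit 93) (C_1 L20059 (C_1 L20085 (C_1 L10 (C_1 L52 N_1)))) (by decide +kernel)
theorem L20087 : W_1 (nat_lit 2) (nat_lit 0x1000080004000200018000000000000000000) (nat_lit 0x0) (nat_lit 0x40002000100000000000000000000000000000000) := D_1 (nat_lit 145) (nat_lit 162) (nat_lit 128) (nat_lit 7) (nat_lit 8) (nat_lit 5) (nat_lit 7) (nat_lit 8) (nat_lit 4) (by decide +kernel)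
theorem L20088 : W_1 (nat_lit 3) (nat_lit 0x1000080004000200008000000000000000000) (nat_lit 0x0) (nat_lit 0x40002000100000000000010000400000000000000) := T_1 (nat_lit 76) (nat_lit 58) (nat_lit 4) (nat_lit 8) (nat_lit 7) L20087 (by decide +kernel)
theorem L20089 : W_1 (nat_lit 4) (nat_lit 0x1000080004000200000000000000000000000) (nat_lit 0x0) (nat_lit 0x40002000100000000100018000400000000000000) := T_1 (nat_lit 75) (nat_lit 92) (nat_lit 4) (nat_lit 8) (nat_lit 8) L20088 (by decide +kernel)
theorem L20090 : W_1 (nat_lit 4) (nat_lit 0x1000080004000200000000000000000000000) (nat_lit 0x0) (nat_lit 0x40002000100000000400030001000000000000000) := T_1 (nat_lit 145) (nat_lit 162) (nat_lit 7) (nat_lit 8) (nat_lit 5) L3201 (by decide +kernel)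
theorem L20091 : W_1 (nat_lit 2) (nat_lit 0x40001000080004000300020000000000000000000) (nat_lit 0x0) (nat_lit 0x800020000000000002000000000000000000000000000) := D_1 (nat_lit 161) (nat_lit 109) (nat_lit 179) (nat_lit 4) (nat_lit 8) (nat_lit 9) (nat_lit 7) (nat_lit 8) (nat_lit 6) (by decide +kernel)
theorem L20092 : W_1 (nat_lit 3) (nat_lit 0x1000080004000300020000000000000000000) (nat_lit 0x0) (nat_lit 0x800060002000000002000000000000000000000000000) := T_1 (nat_lit 162) (nat_lit 145) (nat_lit 7) (nat_lit 8) (nat_lit 5) L20091 (by decide +kernel)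
theorem L20093 : W_1 (nat_lit 4) (nat_lit 0x1000080004000200020000000000000000000) (nat_lit 0x0) (nat_lit 0x800060002000000002000100008000000000000000000) := T_1 (nat_lit 92) (nat_lit 75) (nat_lit 4) (nat_lit 8) (nat_lit 8) L20092 (by decide +kernel)
theorem L20094 : W_1 (nat_lit 5) (nat_lit 0x1000080004000200000000000000000000000) (nat_lit 0x0) (nat_lit 0x800060002000000002000500028000000000000000000) := T_1 (nat_lit 77) (nat_lit 94) (nat_lit 6) (nat_lit 8) (nat_lit 8) L20093 (by decide +kernel)
theorem L20095 : W_1 (nat_lit 6) (nat_lit 0x1000080004000000000000000000000000000) (nat_lit 0x0) (nat_lit 0x800060002000100002000700038001400000000000000) := Q_1 (nat_lit 93) (C_1 L20059 (C_1 L20089 (C_1 L20090 (C_1 L20094 N_1)))) (by decide +kernel)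
theorem L20096 : W_1 (nat_lit 2) (nat_lit 0x1000080004000200018000000000000000000) (nat_lit 0x0) (nat_lit 0x10000800040000000000000000000000000000000) := D_1 (nat_lit 143) (nat_lit 160) (nat_lit 126) (nat_lit 5) (nat_lit 8) (nat_lit 5) (nat_lit 5) (nat_lit 8) (nat_lit 4) (by decide +kernel)
theorem L20097 : W_1 (nat_lit 3) (nat_lit 0x1000080004000200008000000000000000000) (nat_lit 0x0) (nat_lit 0x10000800040000000000010000400000000000000) := T_1 (nat_lit 76) (nat_lit 58) (nat_lit 4) (nat_lit 8) (nat_lit 7) L20096 (by decide +kernel)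
theorem L20098 : W_1 (nat_lit 4) (nat_lit 0x1000080004000200000000000000000000000) (nat_lit 0x0) (nat_lit 0x10000800040000000100018000400000000000000) := T_1 (nat_lit 75) (nat_lit 92) (nat_lit 4) (nat_lit 8) (nat_lit 8) L20097 (by decide +kernel)
theorem L20099 : W_1 (nat_lit 2) (nat_lit 0x1800080004000200010000000000000000000) (nat_lit 0x0) (nat_lit 0x400020001000000000000000) := D_1 (nat_lit 77) (nat_lit 94) (nat_lit 60) (nat_lit 6) (nat_lit 8) (nat_lit 8) (nat_lit 6) (nat_lit 8) (nat_lit 7) (by decide +kernel)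
theorem L20100 : W_1 (nat_lit 3) (nat_lit 0x1800080004000200000000000000000000000) (nat_lit 0x0) (nat_lit 0x40000000400030001000000000000000) := T_1 (nat_lit 76) (nat_lit 126) (nat_lit 5) (nat_lit 8) (nat_lit 4) L20099 (by decide +kernel)
theorem L20101 : W_1 (nat_lit 4) (nat_lit 0x1000080004000200000000000000000000000) (nat_lit 0x0) (nat_lit 0x10000800040000000400030001000000000000000) := T_1 (nat_lit 143) (nat_lit 160) (nat_lit 5) (nat_lit 8) (nat_lit 5) L20100 (by decide +kernel)
theorem L20102 : W_1 (nat_lit 2) (nat_lit 0x10001000080004000300020000000000000000000) (nat_lit 0x0) (nat_lit 0x200020000000000002000000000000000000000000000) := D_1 (nat_lit 161) (nat_lit 109) (nat_lit 177) (nat_lit 4) (nat_lit 8) (nat_lit 9) (nat_lit 5) (nat_lit 8) (nat_lit 6) (by decide +kernel)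
theorem L20103 : W_1 (nat_lit 3) (nat_lit 0x1000080004000300020000000000000000000) (nat_lit 0x0) (nat_lit 0x200030000800000002000000000000000000000000000) := T_1 (nat_lit 160) (nat_lit 143) (nat_lit 5) (nat_lit 8) (nat_lit 5) L20102 (by decide +kernel)
theorem L20104 : W_1 (nat_lit 4) (nat_lit 0x1000080004000200020000000000000000000) (nat_lit 0x0) (nat_lit 0x200030000800000002000100008000000000000000000) := T_1 (nat_lit 92) (nat_lit 75) (nat_lit 4) (nat_lit 8) (nat_lit 8) L20103 (by decide +kernel)
theorem L20105 : W_1 (nat_lit 5) (nat_lit 0x1000080004000200000000000000000000000) (nat_lit 0x0) (nat_lit 0x200030000800000002000500028000000000000000000) := T_1 (nat_lit 77) (nat_lit 94) (nat_lit 6) (nat_lit 8) (nat_lit 8) L20104 (by decide +kernel)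
theorem L20106 : W_1 (nat_lit 6) (nat_lit 0x1000080004000000000000000000000000000) (nat_lit 0x0) (nat_lit 0x200030000800040002000700038001400000000000000) := Q_1 (nat_lit 93) (C_1 L20059 (C_1 L20098 (C_1 L20101 (C_1 L20105 N_1)))) (by decide +kernel)
theorem L20107 : W_1 (nat_lit 2) (nat_lit 0x60001000080004000200000000000000000000000) (nat_lit 0x0) (nat_lit 0x200010000800000000000000000000000000000000000) := D_1 (nat_lit 160) (nat_lit 143) (nat_lit 177) (nat_lit 5) (nat_lit 8) (nat_lit 5) (nat_lit 5) (nat_lit 8) (nat_lit 6) (by decide +kernel)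
theorem L20108 : W_1 (nat_lit 3) (nat_lit 0x60001000080004000000000000000000000000000) (nat_lit 0x0) (nat_lit 0x200010002800000000000200000000000000000000000) := T_1 (nat_lit 93) (nat_lit 145) (nat_lit 7) (nat_lit 8) (nat_lit 5) L20107 (by decide +kernel)
theorem L20109 : W_1 (nat_lit 4) (nat_lit 0x20001000080004000000000000000000000000000) (nat_lit 0x0) (nat_lit 0xa00050002800000000000200000000000000000000000) := T_1 (nat_lit 162) (nat_lit 179) (nat_lit 7) (nat_lit 8) (nat_lit 6) L20108 (by decide +kernel)
theorem L20111 : W_1 (nat_lit 2) (nat_lit 0x60001000080004000200000000000000000000000) (nat_lit 0x0) (nat_lit 0x8000400020000000000000000000) := D_1 (nat_lit 94) (nat_lit 77) (nat_lit 111) (nat_lit 6) (nat_lit 8) (nat_lit 8) (nat_lit 6) (nat_lit 8) (nat_lit 9) (by decide +kernel)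
theorem L20112 : W_1 (nat_lit 3) (nat_lit 0x60001000080004000000000000000000000000000) (nat_lit 0x0) (nat_lit 0x2000000008000600020000000000000000000) := T_1 (nat_lit 93) (nat_lit 145) (nat_lit 7) (nat_lit 8) (nat_lit 5) L20111 (by decide +kernel)
theorem L20113 : W_1 (nat_lit 4) (nat_lit 0x20001000080004000000000000000000000000000) (nat_lit 0x0) (nat_lit 0x800040002000000008000600020000000000000000000) := T_1 (nat_lit 162) (nat_lit 179) (nat_lit 7) (nat_lit 8) (nat_lit 6) L20112 (by decide +kernel)
theorem L20114 : W_1 (nat_lit 2) (nat_lit 0x100006000200010000c0004000400020000000000000000000) (nat_lit 0x0) (nat_lit 0x200008000000000000800000000000000000000000000000000000) := D_1 (nat_lit 195) (nat_lit 143) (nat_lit 213) (nat_lit 4) (nat_lit 8) (nat_lit 11) (nat_lit 7) (nat_lit 8) (nat_lit 8) (by decide +kernel)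
theorem L20115 : W_1 (nat_lit 3) (nat_lit 0x6000200010000c0004000400020000000000000000000) (nat_lit 0x0) (nat_lit 0x200018000800000000800000000000000000000000000000000000) := T_1 (nat_lit 196) (nat_lit 179) (nat_lit 7) (nat_lit 8) (nat_lit 7) L20114 (by decide +kernel)
theorem L20116 : W_1 (nat_lit 4) (nat_lit 0x600020001000080004000400020000000000000000000) (nat_lit 0x0) (nat_lit 0x200018000800000000800040002000000000000000000000000000) := T_1 (nat_lit 126) (nat_lit 109) (nat_lit 4) (nat_lit 8) (nat_lit 10) L20115 (by decide +kernel)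
theorem L20117 : W_1 (nat_lit 5) (nat_lit 0x200020001000080004000400020000000000000000000) (nat_lit 0x0) (nat_lit 0x20001c000c00000000800040002000000000000000000000000000) := T_1 (nat_lit 178) (nat_lit 194) (nat_lit 5) (nat_lit 8) (nat_lit 7) L20116 (by decide +kernel)
theorem L20118 : W_1 (nat_lit 6) (nat_lit 0x20001000080004000400020000000000000000000) (nat_lit 0x0) (nat_lit 0x20001c000e00010000800040002000000000000000000000000000) := T_1 (nat_lit 177) (nat_lit 160) (nat_lit 5) (nat_lit 8) (nat_lit 6) L20117 (by decide +kernel)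
theorem L20119 : W_1 (nat_lit 7) (nat_lit 0x20001000080004000400000000000000000000000) (nat_lit 0x0) (nat_lit 0x20001c000e00010000800040002000200020000000000000000000) := T_1 (nat_lit 77) (nat_lit 93) (nat_lit 6) (nat_lit 8) (nat_lit 8) L20118 (by decide +kernel)
theorem L20120 : W_1 (nat_lit 8) (nat_lit 0x20001000080004000000000000000000000000000) (nat_lit 0x0) (nat_lit 0x20001c000e0001000080004000a000600020000000000000000000) := T_1 (nat_lit 94) (nat_lit 111) (nat_lit 6) (nat_lit 8) (nat_lit 9) L20119 (by decide +kernel)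
theorem L20121 : W_1 (nat_lit 2) (nat_lit 0x30001000080004000200000000000000000000000) (nat_lit 0x0) (nat_lit 0x8000400020000000000000000000) := D_1 (nat_lit 94) (nat_lit 111) (nat_lit 77) (nat_lit 6) (nat_lit 8) (nat_lit 9) (nat_lit 6) (nat_lit 8) (nat_lit 8) (by decide +kernel)
theorem L20122 : W_1 (nat_lit 3) (nat_lit 0x30001000080004000000000000000000000000000) (nat_lit 0x0) (nat_lit 0x800000008000600020000000000000000000) := T_1 (nat_lit 93) (nat_lit 143) (nat_lit 5) (nat_lit 8) (nat_lit 5) L20121 (by decide +kernel)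
theorem L20123 : W_1 (nat_lit 4) (nat_lit 0x20001000080004000000000000000000000000000) (nat_lit 0x0) (nat_lit 0x200010000800000008000600020000000000000000000) := T_1 (nat_lit 160) (nat_lit 177) (nat_lit 5) (nat_lit 8) (nat_lit 6) L20122 (by decide +kernel)
theorem L20124 : W_1 (nat_lit 9) (nat_lit 0x1000080004000000000000000000000000000) (nat_lit 0x0) (nat_lit 0x20001c000e0007000280004000a000600020000000000000000000) := Q_1 (nat_lit 161) (C_1 L20109 (C_1 L62 (C_1 L20113 (C_1 L20120 (C_1 L20123 N_1))))) (by decide +kernel)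
theorem L20136 : W_1 (nat_lit 2) (nat_lit 0x10000e000c000200000000000000000000000) (nat_lit 0x0) (nat_lit 0x32000000000000000000000000000) := D_1 (nat_lit 112) (nat_lit 113) (nat_lit 109) (nat_lit 1) (nat_lit 11) (nat_lit 6) (nat_lit 1) (nat_lit 10) (nat_lit 6) (by decide +kernel)
theorem L20137 : W_1 (nat_lit 3) (nat_lit 0x10000c000c000200000000000000000000000) (nat_lit 0x0) (nat_lit 0x30032000000000000000000000000000) := T_1 (nat_lit 125) (nat_lit 124) (nat_lit 2) (nat_lit 5) (nat_lit 7) L20136 (by decide +kernel)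
theorem L20141 : W_1 (nat_lit 2) (nat_lit 0x30000e000c000200000000000000000000000) (nat_lit 0x0) (nat_lit 0xc000100000000000000000000000000000000) := D_1 (nat_lit 146) (nat_lit 147) (nat_lit 128) (nat_lit 0) (nat_lit 11) (nat_lit 8) (nat_lit 3) (nat_lit 6) (nat_lit 7) (by decide +kernel)
theorem L20142 : W_1 (nat_lit 3) (nat_lit 0x30000c000c000200000000000000000000000) (nat_lit 0x0) (nat_lit 0xc000130000000000000000000000000000000) := T_1 (nat_lit 125) (nat_lit 124) (nat_lit 3) (nat_lit 5) (nat_lit 7) L20141 (by decide +kernel)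
theorem L20143 : W_1 (nat_lit 4) (nat_lit 0x10000c000c000200000000000000000000000) (nat_lit 0x0) (nat_lit 0x4000e000130000000000000000000000000000000) := T_1 (nat_lit 145) (nat_lit 162) (nat_lit 7) (nat_lit 8) (nat_lit 5) L20142 (by decide +kernel)
theorem L20166 : W_1 (nat_lit 2) (nat_lit 0x300018000c000e00000000000000000000000) (nat_lit 0x0) (nat_lit 0x3001000000000000000000000000) := D_1 (nat_lit 109) (nat_lit 108) (nat_lit 96) (nat_lit 2) (nat_lit 6) (nat_lit 6) (nat_lit 1) (nat_lit 11) (nat_lit 5) (by decide +kernel)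
theorem L20167 : W_1 (nat_lit 3) (nat_lit 0x300018000c000600000000000000000000000) (nat_lit 0x0) (nat_lit 0x3001800040000000000000000000) := T_1 (nat_lit 95) (nat_lit 78) (nat_lit 6) (nat_lit 9) (nat_lit 8) L20166 (by decide +kernel)
theorem L20168 : W_1 (nat_lit 4) (nat_lit 0x300018000c000200000000000000000000000) (nat_lit 0x0) (nat_lit 0x3001c00060000000000000000000) := T_1 (nat_lit 94) (nat_lit 77) (nat_lit 6) (nat_lit 8) (nat_lit 8) L20167 (by decide +kernel)
theorem L20169 : W_1 (nat_lit 5) (nat_lit 0x100018000c000200000000000000000000000) (nat_lit 0x0) (nat_lit 0x40002000000003001c00060000000000000000000) := T_1 (nat_lit 145) (nat_lit 162) (nat_lit 7) (nat_lit 8) (nat_lit 5) L20168 (by decide +kernel)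
theorem L20211 : W_1 (nat_lit 2) (nat_lit 0x1000080006000e00008000000000000000000) (nat_lit 0x0) (nat_lit 0x9800000000000000000000000000) := D_1 (nat_lit 108) (nat_lit 107) (nat_lit 111) (nat_lit 2) (nat_lit 5) (nat_lit 6) (nat_lit 2) (nat_lit 6) (nat_lit 6) (by decide +kernel)
theorem L20212 : W_1 (nat_lit 3) (nat_lit 0x1000080006000600008000000000000000000) (nat_lit 0x0) (nat_lit 0x9801800000000000000000000000) := T_1 (nat_lit 95) (nat_lit 96) (nat_lit 1) (nat_lit 11) (nat_lit 5) L20211 (by decide +kernel)
theorem L20213 : W_1 (nat_lit 4) (nat_lit 0x1000080006000600000000000000000000000) (nat_lit 0x0) (nat_lit 0x9801900008000000000000000000) := T_1 (nat_lit 75) (nat_lit 92) (nat_lit 4) (nat_lit 8) (nat_lit 8) L20212 (by decide +kernel)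
theorem L20214 : W_1 (nat_lit 5) (nat_lit 0x1000080006000200000000000000000000000) (nat_lit 0x0) (nat_lit 0x9801d00028000000000000000000) := T_1 (nat_lit 94) (nat_lit 77) (nat_lit 6) (nat_lit 8) (nat_lit 8) L20213 (by decide +kernel)
theorem L20218 : W_1 (nat_lit 2) (nat_lit 0x1000380006000200000000000000000000000) (nat_lit 0x0) (nat_lit 0x9800000000000000000000000000) := D_1 (nat_lit 108) (nat_lit 107) (nat_lit 111) (nat_lit 3) (nat_lit 5) (nat_lit 6) (nat_lit 3) (nat_lit 6) (nat_lit 6) (by decide +kernel)
theorem L20219 : W_1 (nat_lit 3) (nat_lit 0x1000180006000200000000000000000000000) (nat_lit 0x0) (nat_lit 0x600009800000000000000000000000000) := T_1 (nat_lit 129) (nat_lit 130) (nat_lit 0) (nat_lit 11) (nat_lit 7) L20218 (by decide +kernel)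
theorem L20290 : W_1 (nat_lit 2) (nat_lit 0x100018000c000380000000000000000000000) (nat_lit 0x0) (nat_lit 0x32000000000000000000000000000) := D_1 (nat_lit 112) (nat_lit 113) (nat_lit 109) (nat_lit 0) (nat_lit 11) (nat_lit 6) (nat_lit 0) (nat_lit 10) (nat_lit 6) (by decide +kernel)
theorem L20291 : W_1 (nat_lit 3) (nat_lit 0x100018000c000300000000000000000000000) (nat_lit 0x0) (nat_lit 0x320000c0000000000000000000000) := T_1 (nat_lit 91) (nat_lit 90) (nat_lit 3) (nat_lit 5) (nat_lit 5) L20290 (by decide +kernel)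
theorem L20292 : W_1 (nat_lit 4) (nat_lit 0x100018000c000200000000000000000000000) (nat_lit 0x0) (nat_lit 0x320001c0008000000000000000000) := T_1 (nat_lit 92) (nat_lit 75) (nat_lit 4) (nat_lit 8) (nat_lit 8) L20291 (by decide +kernel)
theorem L20335 : W_1 (nat_lit 2) (nat_lit 0x30000e0004000200000000000000000000000) (nat_lit 0x0) (nat_lit 0xc000100000000000000000000000000000000) := D_1 (nat_lit 146) (nat_lit 147) (nat_lit 128) (nat_lit 0) (nat_lit 11) (nat_lit 8) (nat_lit 3) (nat_lit 6) (nat_lit 7) (by decide +kernel)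
theorem L20336 : W_1 (nat_lit 3) (nat_lit 0x30000c0004000200000000000000000000000) (nat_lit 0x0) (nat_lit 0xc000130000000000000000000000000000000) := T_1 (nat_lit 125) (nat_lit 124) (nat_lit 3) (nat_lit 5) (nat_lit 7) L20335 (by decide +kernel)
theorem L20337 : W_1 (nat_lit 4) (nat_lit 0x10000c0004000200000000000000000000000) (nat_lit 0x0) (nat_lit 0x4000e000130000000000000000000000000000000) := T_1 (nat_lit 145) (nat_lit 162) (nat_lit 7) (nat_lit 8) (nat_lit 5) L20336 (by decide +kernel)
theorem L20341 : W_1 (nat_lit 2) (nat_lit 0x10000c001c000300020000000000000000000) (nat_lit 0x0) (nat_lit 0x20000c0000000000000000000000) := D_1 (nat_lit 91) (nat_lit 90) (nat_lit 109) (nat_lit 3) (nat_lit 5) (nat_lit 5) (nat_lit 0) (nat_lit 10) (nat_lit 6) (by decide +kernel)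
theorem L20342 : W_1 (nat_lit 3) (nat_lit 0x10000c001c000200020000000000000000000) (nat_lit 0x0) (nat_lit 0x20001c0008000000000000000000) := T_1 (nat_lit 92) (nat_lit 75) (nat_lit 4) (nat_lit 8) (nat_lit 8) L20341 (by decide +kernel)
theorem L20343 : W_1 (nat_lit 4) (nat_lit 0x10000c001c000200000000000000000000000) (nat_lit 0x0) (nat_lit 0x20005c0028000000000000000000) := T_1 (nat_lit 77) (nat_lit 94) (nat_lit 6) (nat_lit 8) (nat_lit 8) L20342 (by decide +kernel)
theorem L20344 : W_1 (nat_lit 5) (nat_lit 0x10000c000c000200000000000000000000000) (nat_lit 0x0) (nat_lit 0x320005c0028000000000000000000) := T_1 (nat_lit 112) (nat_lit 113) (nat_lit 1) (nat_lit 11) (nat_lit 6) L20343 (by decide +kernel)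
theorem L20345 : W_1 (nat_lit 2) (nat_lit 0x10000d000d000f80082000000000000000000) (nat_lit 0x0) (nat_lit 0x3000100000000000000000000) := D_1 (nat_lit 96) (nat_lit 97) (nat_lit 80) (nat_lit 1) (nat_lit 12) (nat_lit 5) (nat_lit 2) (nat_lit 8) (nat_lit 5) (by decide +kernel)
theorem L20346 : W_1 (nat_lit 3) (nat_lit 0x10000d000d000f80002000000000000000000) (nat_lit 0x0) (nat_lit 0x30001c0000000000000000000) := T_1 (nat_lit 79) (nat_lit 78) (nat_lit 2) (nat_lit 7) (nat_lit 5) L20345 (by decide +kernel)
theorem L20347 : W_1 (nat_lit 4) (nat_lit 0x10000d000d000780002000000000000000000) (nat_lit 0x0) (nat_lit 0x20038001c0000000000000000000) := T_1 (nat_lit 95) (nat_lit 109) (nat_lit 2) (nat_lit 6) (nat_lit 6) L20346 (by decide +kernel)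
theorem L20348 : W_1 (nat_lit 5) (nat_lit 0x10000d000d000780000000000000000000000) (nat_lit 0x0) (nat_lit 0x20038001c6000000000000000000) := T_1 (nat_lit 73) (nat_lit 74) (nat_lit 0) (nat_lit 9) (nat_lit 5) L20347 (by decide +kernel)
theorem L20349 : W_1 (nat_lit 6) (nat_lit 0x10000d000c000780000000000000000000000) (nat_lit 0x0) (nat_lit 0x38038001c6000000000000000000) := T_1 (nat_lit 108) (nat_lit 107) (nat_lit 1) (nat_lit 9) (nat_lit 5) L20348 (by decide +kernel)
theorem L20350 : W_1 (nat_lit 7) (nat_lit 0x10000d000c000380000000000000000000000) (nat_lit 0x0) (nat_lit 0x3803c001e6000000000000000000) := T_1 (nat_lit 94) (nat_lit 77) (nat_lit 6) (nat_lit 8) (nat_lit 8) L20349 (by decide +kernel)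
theorem L20351 : W_1 (nat_lit 8) (nat_lit 0x10000d000c000300000000000000000000000) (nat_lit 0x0) (nat_lit 0x3803cc01e6000000000000000000) := T_1 (nat_lit 91) (nat_lit 90) (nat_lit 3) (nat_lit 5) (nat_lit 5) L20350 (by decide +kernel)
theorem L20352 : W_1 (nat_lit 9) (nat_lit 0x10000c000c000300000000000000000000000) (nat_lit 0x0) (nat_lit 0x30003803cc01e6000000000000000000) := T_1 (nat_lit 124) (nat_lit 125) (nat_lit 2) (nat_lit 5) (nat_lit 7) L20351 (by decide +kernel)
theorem L20353 : W_1 (nat_lit 10) (nat_lit 0x10000c000c000200000000000000000000000) (nat_lit 0x0) (nat_lit 0x30003803dc01ee000000000000000000) := T_1 (nat_lit 92) (nat_lit 75) (nat_lit 4) (nat_lit 8) (nat_lit 8) L20352 (by decide +kernel)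
theorem L20355 : W_1 (nat_lit 2) (nat_lit 0x10000d001c000300000000000000000000000) (nat_lit 0x0) (nat_lit 0x4c0000000000000000000000) := D_1 (nat_lit 91) (nat_lit 90) (nat_lit 94) (nat_lit 3) (nat_lit 5) (nat_lit 5) (nat_lit 3) (nat_lit 6) (nat_lit 5) (by decide +kernel)
theorem L20356 : W_1 (nat_lit 3) (nat_lit 0x10000d000c000300000000000000000000000) (nat_lit 0x0) (nat_lit 0x300004c0000000000000000000000) := T_1 (nat_lit 112) (nat_lit 113) (nat_lit 1) (nat_lit 11) (nat_lit 6) L20355 (by decide +kernel)
theorem L20357 : W_1 (nat_lit 4) (nat_lit 0x10000c000c000300000000000000000000000) (nat_lit 0x0) (nat_lit 0x300300004c0000000000000000000000) := T_1 (nat_lit 124) (nat_lit 125) (nat_lit 2) (nat_lit 5) (nat_lit 7) L20356 (by decide +kernel)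
theorem L20358 : W_1 (nat_lit 5) (nat_lit 0x10000c000c000200000000000000000000000) (nat_lit 0x0) (nat_lit 0x300300005c0008000000000000000000) := T_1 (nat_lit 92) (nat_lit 75) (nat_lit 4) (nat_lit 8) (nat_lit 8) L20357 (by decide +kernel)
theorem L20359 : W_1 (nat_lit 11) (nat_lit 0x10000c0004000200000000000000000000000) (nat_lit 0x0) (nat_lit 0x3003b803dc01ee000000000000000000) := Q_1 (nat_lit 111) (C_1 L20353 (C_1 L20358 (C_1 L20344 (C_1 L20137 N_1)))) (by decide +kernel)
theorem L20360 : W_1 (nat_lit 2) (nat_lit 0x10000c0007000600008000000000000000000) (nat_lit 0x0) (nat_lit 0x8001800000000000000000000000) := D_1 (nat_lit 95) (nat_lit 96) (nat_lit 111) (nat_lit 1) (nat_lit 11) (nat_lit 5) (nat_lit 2) (nat_lit 6) (nat_lit 6) (by decide +kernel)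
theorem L20361 : W_1 (nat_lit 3) (nat_lit 0x10000c0006000600008000000000000000000) (nat_lit 0x0) (nat_lit 0x9801800000000000000000000000) := T_1 (nat_lit 108) (nat_lit 107) (nat_lit 2) (nat_lit 5) (nat_lit 6) L20360 (by decide +kernel)
theorem L20362 : W_1 (nat_lit 4) (nat_lit 0x10000c0006000200008000000000000000000) (nat_lit 0x0) (nat_lit 0x9801c00020000000000000000000) := T_1 (nat_lit 94) (nat_lit 77) (nat_lit 6) (nat_lit 8) (nat_lit 8) L20361 (by decide +kernel)
theorem L20363 : W_1 (nat_lit 5) (nat_lit 0x10000c0006000200000000000000000000000) (nat_lit 0x0) (nat_lit 0x9801d00028000000000000000000) := T_1 (nat_lit 75) (nat_lit 92) (nat_lit 7) (nat_lit 7) (nat_lit 4) L20362 (by decide +kernel)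
theorem L20364 : W_1 (nat_lit 2) (nat_lit 0x70000c0006000e00000000000000000000000) (nat_lit 0x0) (nat_lit 0x1000100008000000000000000000) := D_1 (nat_lit 92) (nat_lit 108) (nat_lit 75) (nat_lit 1) (nat_lit 10) (nat_lit 5) (nat_lit 7) (nat_lit 7) (nat_lit 4) (by decide +kernel)
theorem L20365 : W_1 (nat_lit 3) (nat_lit 0x70000c0006000600000000000000000000000) (nat_lit 0x0) (nat_lit 0x1001900008000000000000000000) := T_1 (nat_lit 95) (nat_lit 96) (nat_lit 1) (nat_lit 11) (nat_lit 5) L20364 (by decide +kernel)
theorem L20366 : W_1 (nat_lit 4) (nat_lit 0x30000c0006000600000000000000000000000) (nat_lit 0x0) (nat_lit 0xc000000001001900008000000000000000000) := T_1 (nat_lit 146) (nat_lit 147) (nat_lit 0) (nat_lit 11) (nat_lit 8) L20365 (by decide +kernel)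
theorem L20367 : W_1 (nat_lit 5) (nat_lit 0x10000c0006000600000000000000000000000) (nat_lit 0x0) (nat_lit 0x4000e000000001001900008000000000000000000) := T_1 (nat_lit 145) (nat_lit 162) (nat_lit 7) (nat_lit 8) (nat_lit 5) L20366 (by decide +kernel)
theorem L20368 : W_1 (nat_lit 6) (nat_lit 0x10000c0006000200000000000000000000000) (nat_lit 0x0) (nat_lit 0x4000e000000001001d00028000000000000000000) := T_1 (nat_lit 94) (nat_lit 77) (nat_lit 6) (nat_lit 8) (nat_lit 8) L20367 (by decide +kernel)
theorem L20702 : W_1 (nat_lit 2) (nat_lit 0x10000800040003e0020000000000000000000) (nat_lit 0x0) (nat_lit 0xe00000000000000000000000000) := D_1 (nat_lit 106) (nat_lit 105) (nat_lit 107) (nat_lit 1) (nat_lit 7) (nat_lit 5) (nat_lit 1) (nat_lit 8) (nat_lit 5) (by decide +kernel)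
theorem L20703 : W_1 (nat_lit 3) (nat_lit 0x10000800040003c0020000000000000000000) (nat_lit 0x0) (nat_lit 0x2e00020000000000000000000000) := T_1 (nat_lit 89) (nat_lit 109) (nat_lit 3) (nat_lit 4) (nat_lit 5) L20702 (by decide +kernel)
theorem L20704 : W_1 (nat_lit 4) (nat_lit 0x1000080004000380020000000000000000000) (nat_lit 0x0) (nat_lit 0xae00060000000000000000000000) := T_1 (nat_lit 90) (nat_lit 111) (nat_lit 3) (nat_lit 5) (nat_lit 5) L20703 (by decide +kernel)
theorem L20707 : W_1 (nat_lit 2) (nat_lit 0x30000800044003e0000000000000000000000) (nat_lit 0x0) (nat_lit 0x3800000000000000000) := D_1 (nat_lit 72) (nat_lit 71) (nat_lit 73) (nat_lit 0) (nat_lit 7) (nat_lit 5) (nat_lit 0) (nat_lit 8) (nat_lit 5) (by decide +kernel)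
theorem L20708 : W_1 (nat_lit 3) (nat_lit 0x30000800044003c0000000000000000000000) (nat_lit 0x0) (nat_lit 0x200020003800000000000000000) := T_1 (nat_lit 89) (nat_lit 105) (nat_lit 1) (nat_lit 7) (nat_lit 5) L20707 (by decide +kernel)
theorem L20709 : W_1 (nat_lit 4) (nat_lit 0x30000800040003c0000000000000000000000) (nat_lit 0x0) (nat_lit 0xe00020003800000000000000000) := T_1 (nat_lit 106) (nat_lit 107) (nat_lit 1) (nat_lit 8) (nat_lit 5) L20708 (by decide +kernel)
theorem L20710 : W_1 (nat_lit 5) (nat_lit 0x3000080004000380000000000000000000000) (nat_lit 0x0) (nat_lit 0x8e00060003800000000000000000) := T_1 (nat_lit 90) (nat_lit 111) (nat_lit 3) (nat_lit 5) (nat_lit 5) L20709 (by decide +kernel)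
theorem L20711 : W_1 (nat_lit 6) (nat_lit 0x1000080004000380000000000000000000000) (nat_lit 0x0) (nat_lit 0x40002000000008e00060003800000000000000000) := T_1 (nat_lit 145) (nat_lit 162) (nat_lit 7) (nat_lit 8) (nat_lit 5) L20710 (by decide +kernel)
theorem L20713 : W_1 (nat_lit 2) (nat_lit 0xb000280015000f80043000000000000000000) (nat_lit 0x0) (nat_lit 0x100004000040000000000000000000000000000000) := D_1 (nat_lit 146) (nat_lit 126) (nat_lit 164) (nat_lit 0) (nat_lit 11) (nat_lit 8) (nat_lit 7) (nat_lit 10) (nat_lit 5) (by decide +kernel)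
theorem L20714 : W_1 (nat_lit 3) (nat_lit 0x3000280015000f80043000000000000000000) (nat_lit 0x0) (nat_lit 0x10000c000440000000000000000000000000000000) := T_1 (nat_lit 147) (nat_lit 130) (nat_lit 7) (nat_lit 10) (nat_lit 4) L20713 (by decide +kernel)
theorem L20715 : W_1 (nat_lit 4) (nat_lit 0x3000080015000f80043000000000000000000) (nat_lit 0x0) (nat_lit 0x10000c000740000000000000000000000000000000) := T_1 (nat_lit 129) (nat_lit 128) (nat_lit 5) (nat_lit 10) (nat_lit 4) L20714 (by decide +kernel)
theorem L20716 : W_1 (nat_lit 5) (nat_lit 0x3000080015000f80003000000000000000000) (nat_lit 0x0) (nat_lit 0x10000c0007400000000000c0000000000000000000) := T_1 (nat_lit 78) (nat_lit 79) (nat_lit 2) (nat_lit 7) (nat_lit 5) L20715 (by decide +kernel)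
theorem L20717 : W_1 (nat_lit 6) (nat_lit 0x3000080005000f80003000000000000000000) (nat_lit 0x0) (nat_lit 0x10000c0007400300000000c0000000000000000000) := T_1 (nat_lit 112) (nat_lit 113) (nat_lit 3) (nat_lit 7) (nat_lit 5) L20716 (by decide +kernel)
theorem L20718 : W_1 (nat_lit 7) (nat_lit 0x3000080005000780003000000000000000000) (nat_lit 0x0) (nat_lit 0x10000c0007400320008000c0000000000000000000) := T_1 (nat_lit 95) (nat_lit 109) (nat_lit 1) (nat_lit 10) (nat_lit 5) L20717 (by decide +kernel)
theorem L20719 : W_1 (nat_lit 8) (nat_lit 0x3000080004000780003000000000000000000) (nat_lit 0x0) (nat_lit 0x10000c0007400338008000c0000000000000000000) := T_1 (nat_lit 108) (nat_lit 107) (nat_lit 1) (nat_lit 9) (nat_lit 5) L20718 (by decide +kernel)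
theorem L20720 : W_1 (nat_lit 9) (nat_lit 0x3000080004000780002000000000000000000) (nat_lit 0x0) (nat_lit 0x10000c0007400338008400c1000000000000000000) := T_1 (nat_lit 72) (nat_lit 90) (nat_lit 0) (nat_lit 8) (nat_lit 5) L20719 (by decide +kernel)
theorem L20721 : W_1 (nat_lit 10) (nat_lit 0x3000080004000780000000000000000000000) (nat_lit 0x0) (nat_lit 0x10000c0007400338008400c7000000000000000000) := T_1 (nat_lit 73) (nat_lit 74) (nat_lit 0) (nat_lit 9) (nat_lit 5) L20720 (by decide +kernel)
theorem L20826 : W_1 (nat_lit 5) (nat_lit 0x1000080004000380000000000000000000000) (nat_lit 0x0) (nat_lit 0xae00460020000000000000000000) := T_1 (nat_lit 77) (nat_lit 94) (nat_lit 6) (nat_lit 8) (nat_lit 8) L20704 (by decide +kernel)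
theorem L20827 : W_1 (nat_lit 11) (nat_lit 0x3000080004000380000000000000000000000) (nat_lit 0x0) (nat_lit 0x10000c000740033800c400e7000000000000000000) := T_1 (nat_lit 94) (nat_lit 77) (nat_lit 6) (nat_lit 8) (nat_lit 8) L20721 (by decide +kernel)
theorem L20828 : W_1 (nat_lit 12) (nat_lit 0x1000080004000380000000000000000000000) (nat_lit 0x0) (nat_lit 0x14000e000740033800c400e7000000000000000000) := T_1 (nat_lit 145) (nat_lit 162) (nat_lit 7) (nat_lit 8) (nat_lit 5) L20827 (by decide +kernel)
theorem L20829 : W_1 (nat_lit 2) (nat_lit 0x10000800040003e0020000000000000000000) (nat_lit 0x0) (nat_lit 0x3800000000000000000) := D_1 (nat_lit 72) (nat_lit 73) (nat_lit 71) (nat_lit 0) (nat_lit 8) (nat_lit 5) (nat_lit 0) (nat_lit 7) (nat_lit 5) (by decide +kernel)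
theorem L20830 : W_1 (nat_lit 3) (nat_lit 0x10000800040003c0020000000000000000000) (nat_lit 0x0) (nat_lit 0x2000020003800000000000000000) := T_1 (nat_lit 89) (nat_lit 109) (nat_lit 3) (nat_lit 4) (nat_lit 5) L20829 (by decide +kernel)
theorem L20831 : W_1 (nat_lit 4) (nat_lit 0x1000080004000380020000000000000000000) (nat_lit 0x0) (nat_lit 0xa000060003800000000000000000) := T_1 (nat_lit 90) (nat_lit 111) (nat_lit 3) (nat_lit 5) (nat_lit 5) L20830 (by decide +kernel)
theorem L20832 : W_1 (nat_lit 5) (nat_lit 0x1000080004000380000000000000000000000) (nat_lit 0x0) (nat_lit 0xa000460023800000000000000000) := T_1 (nat_lit 77) (nat_lit 94) (nat_lit 6) (nat_lit 8) (nat_lit 8) L20831 (by decide +kernel)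
theorem L20833 : W_1 (nat_lit 2) (nat_lit 0x300008000d000f80002000000000000000000) (nat_lit 0x0) (nat_lit 0x1000000000000c0000000000000000000) := D_1 (nat_lit 78) (nat_lit 79) (nat_lit 128) (nat_lit 2) (nat_lit 7) (nat_lit 5) (nat_lit 6) (nat_lit 9) (nat_lit 8) (by decide +kernel)
theorem L20834 : W_1 (nat_lit 3) (nat_lit 0x300008000d000780002000000000000000000) (nat_lit 0x0) (nat_lit 0x1000020008000c0000000000000000000) := T_1 (nat_lit 95) (nat_lit 109) (nat_lit 2) (nat_lit 6) (nat_lit 6) L20833 (by decide +kernel)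
theorem L20835 : W_1 (nat_lit 4) (nat_lit 0x300008000d000780000000000000000000000) (nat_lit 0x0) (nat_lit 0x1000020008000c6000000000000000000) := T_1 (nat_lit 73) (nat_lit 74) (nat_lit 0) (nat_lit 9) (nat_lit 5) L20834 (by decide +kernel)
theorem L20836 : W_1 (nat_lit 5) (nat_lit 0x300008000c000780000000000000000000000) (nat_lit 0x0) (nat_lit 0x1000038008000c6000000000000000000) := T_1 (nat_lit 108) (nat_lit 107) (nat_lit 1) (nat_lit 9) (nat_lit 5) L20835 (by decide +kernel)
theorem L20837 : W_1 (nat_lit 6) (nat_lit 0x3000080004000780000000000000000000000) (nat_lit 0x0) (nat_lit 0x10001b8008000c6000000000000000000) := T_1 (nat_lit 111) (nat_lit 112) (nat_lit 3) (nat_lit 6) (nat_lit 5) L20836 (by decide +kernel)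
theorem L20838 : W_1 (nat_lit 7) (nat_lit 0x3000080004000380000000000000000000000) (nat_lit 0x0) (nat_lit 0x10001b800c000e6000000000000000000) := T_1 (nat_lit 94) (nat_lit 77) (nat_lit 6) (nat_lit 8) (nat_lit 8) L20837 (by decide +kernel)
theorem L20839 : W_1 (nat_lit 8) (nat_lit 0x1000080004000380000000000000000000000) (nat_lit 0x0) (nat_lit 0x4000200010001b800c000e6000000000000000000) := T_1 (nat_lit 145) (nat_lit 162) (nat_lit 7) (nat_lit 8) (nat_lit 5) L20838 (by decide +kernel)
theorem L20840 : W_1 (nat_lit 13) (nat_lit 0x1000080004000300000000000000000000000) (nat_lit 0x0) (nat_lit 0x14000e00074003be00ce00e7800000000000000000) := Q_1 (nat_lit 91) (C_1 L20711 (C_1 L20826 (C_1 L20828 (C_1 L20832 (C_1 L20839 N_1))))) (by decide +kernel)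
theorem L20841 : W_1 (nat_lit 14) (nat_lit 0x1000080004000200000000000000000000000) (nat_lit 0x0) (nat_lit 0x14000e00074003be00de00ef800000000000000000) := T_1 (nat_lit 92) (nat_lit 75) (nat_lit 4) (nat_lit 8) (nat_lit 8) L20840 (by decide +kernel)
theorem L20842 : W_1 (nat_lit 15) (nat_lit 0x1000080004000000000000000000000000000) (nat_lit 0x0) (nat_lit 0x14000e00074003be00fe00ff801400000000000000) := Q_1 (nat_lit 93) (C_1 L20090 (C_1 L20059 (C_1 L20089 (C_1 L20841 N_1)))) (by decide +kernel)
theorem L20843 : W_1 (nat_lit 2) (nat_lit 0x20001000080004000300000000000000000000000) (nat_lit 0x0) (nat_lit 0x8000400020000000000000000000) := D_1 (nat_lit 94) (nat_lit 111) (nat_lit 77) (nat_lit 6) (nat_lit 8) (nat_lit 9) (nat_lit 6) (nat_lit 8) (nat_lit 8) (by decide +kernel)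
theorem L20844 : W_1 (nat_lit 3) (nat_lit 0x20001000080004000100000000000000000000000) (nat_lit 0x0) (nat_lit 0x8000600028000000000000000000) := T_1 (nat_lit 93) (nat_lit 75) (nat_lit 4) (nat_lit 8) (nat_lit 8) L20843 (by decide +kernel)
theorem L20845 : W_1 (nat_lit 4) (nat_lit 0x20001000080004000000000000000000000000000) (nat_lit 0x0) (nat_lit 0xa000700028000000000000000000) := T_1 (nat_lit 92) (nat_lit 109) (nat_lit 4) (nat_lit 8) (nat_lit 9) L20844 (by decide +kernel)
theorem L20846 : W_1 (nat_lit 6) (nat_lit 0x1000080004000000000000000000000000000) (nat_lit 0x0) (nat_lit 0x14000e0007000000014000a000700028000000000000000000) := Q_1 (nat_lit 161) (C_1 L74 (C_1 L70 (C_1 L20845 (C_1 L62 (C_1 L66 N_1))))) (by decide +kernel)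
theorem L20847 : W_1 (nat_lit 6) (nat_lit 0x1000080004000000000000000000000000000) (nat_lit 0x0) (nat_lit 0x10000c0006000200004000a000700028000000000000000000) := Q_1 (nat_lit 161) (C_1 L20845 (C_1 L20113 (C_1 L20055 (C_1 L74 N_1)))) (by decide +kernel)
theorem L20848 : W_1 (nat_lit 2) (nat_lit 0x8000600020003000080004000600008000000000000000000) (nat_lit 0x0) (nat_lit 0x200010000800000000000000000000000000000000000000000000) := D_1 (nat_lit 196) (nat_lit 179) (nat_lit 213) (nat_lit 7) (nat_lit 8) (nat_lit 7) (nat_lit 7) (nat_lit 8) (nat_lit 8) (by decide +kernel)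
theorem L20849 : W_1 (nat_lit 3) (nat_lit 0x600020003000080004000600008000000000000000000) (nat_lit 0x0) (nat_lit 0x200018000800000000000100000000000000000000000000000000) := T_1 (nat_lit 195) (nat_lit 128) (nat_lit 6) (nat_lit 8) (nat_lit 11) L20848 (by decide +kernel)
theorem L20850 : W_1 (nat_lit 4) (nat_lit 0x200020003000080004000600008000000000000000000) (nat_lit 0x0) (nat_lit 0x20001c000c00000000000100000000000000000000000000000000) := T_1 (nat_lit 178) (nat_lit 194) (nat_lit 5) (nat_lit 8) (nat_lit 7) L20849 (by decide +kernel)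
theorem L20851 : W_1 (nat_lit 5) (nat_lit 0x20003000080004000600008000000000000000000) (nat_lit 0x0) (nat_lit 0x20001c000e00010000000100000000000000000000000000000000) := T_1 (nat_lit 177) (nat_lit 160) (nat_lit 5) (nat_lit 8) (nat_lit 6) L20850 (by decide +kernel)
theorem L20852 : W_1 (nat_lit 6) (nat_lit 0x3000080004000600008000000000000000000) (nat_lit 0x0) (nat_lit 0x20001c000e00030000000100008000000000000000000000000000) := T_1 (nat_lit 161) (nat_lit 111) (nat_lit 6) (nat_lit 8) (nat_lit 9) L20851 (by decide +kernel)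
theorem L20853 : W_1 (nat_lit 7) (nat_lit 0x1000080004000600008000000000000000000) (nat_lit 0x0) (nat_lit 0x20001c000e00070002000100008000000000000000000000000000) := T_1 (nat_lit 145) (nat_lit 162) (nat_lit 7) (nat_lit 8) (nat_lit 5) L20852 (by decide +kernel)
theorem L20854 : W_1 (nat_lit 8) (nat_lit 0x1000080004000200008000000000000000000) (nat_lit 0x0) (nat_lit 0x20001c000e00070002000100008000400020000000000000000000) := T_1 (nat_lit 94) (nat_lit 77) (nat_lit 6) (nat_lit 8) (nat_lit 8) L20853 (by decide +kernel)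
theorem L20855 : W_1 (nat_lit 9) (nat_lit 0x1000080004000200000000000000000000000) (nat_lit 0x0) (nat_lit 0x20001c000e00070002000100008000500028000000000000000000) := T_1 (nat_lit 75) (nat_lit 92) (nat_lit 4) (nat_lit 8) (nat_lit 8) L20854 (by decide +kernel)
theorem L20856 : W_1 (nat_lit 10) (nat_lit 0x1000080004000000000000000000000000000) (nat_lit 0x0) (nat_lit 0x20001c000e00070002000100008000700038001400000000000000) := Q_1 (nat_lit 93) (C_1 L20090 (C_1 L20059 (C_1 L20089 (C_1 L20855 N_1)))) (by decide +kernel)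
theorem L20857 : W_1 (nat_lit 3) (nat_lit 0x2000100008000c000000000000000000000000000) (nat_lit 0x0) (nat_lit 0x4000600010000000100000000000000000000000000000000) := T_1 (nat_lit 177) (nat_lit 160) (nat_lit 5) (nat_lit 8) (nat_lit 6) L10868 (by decide +kernel)
theorem L20858 : W_1 (nat_lit 4) (nat_lit 0x20001000080004000000000000000000000000000) (nat_lit 0x0) (nat_lit 0x4000600010000000100008000400000000000000000000000) := T_1 (nat_lit 111) (nat_lit 94) (nat_lit 6) (nat_lit 8) (nat_lit 9) L20857 (by decide +kernel)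
theorem L20859 : W_1 (nat_lit 2) (nat_lit 0x10000600020001000180004000100008000000000000000000) (nat_lit 0x0) (nat_lit 0x200008000000000002000000000000000000000000000000000000) := D_1 (nat_lit 195) (nat_lit 145) (nat_lit 213) (nat_lit 6) (nat_lit 8) (nat_lit 11) (nat_lit 7) (nat_lit 8) (nat_lit 8) (by decide +kernel)
theorem L20860 : W_1 (nat_lit 3) (nat_lit 0x600020001000180004000100008000000000000000000) (nat_lit 0x0) (nat_lit 0x200018000800000002000000000000000000000000000000000000) := T_1 (nat_lit 196) (nat_lit 179) (nat_lit 7) (nat_lit 8) (nat_lit 7) L20859 (by decide +kernel)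
theorem L20861 : W_1 (nat_lit 4) (nat_lit 0x600020001000080004000100008000000000000000000) (nat_lit 0x0) (nat_lit 0x200018000800000002000100008000000000000000000000000000) := T_1 (nat_lit 128) (nat_lit 111) (nat_lit 6) (nat_lit 8) (nat_lit 10) L20860 (by decide +kernel)
theorem L20862 : W_1 (nat_lit 5) (nat_lit 0x200020001000080004000100008000000000000000000) (nat_lit 0x0) (nat_lit 0x20001c000c00000002000100008000000000000000000000000000) := T_1 (nat_lit 178) (nat_lit 194) (nat_lit 5) (nat_lit 8) (nat_lit 7) L20861 (by decide +kernel)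
theorem L20863 : W_1 (nat_lit 6) (nat_lit 0x20001000080004000100008000000000000000000) (nat_lit 0x0) (nat_lit 0x20001c000e00010002000100008000000000000000000000000000) := T_1 (nat_lit 177) (nat_lit 160) (nat_lit 5) (nat_lit 8) (nat_lit 6) L20862 (by decide +kernel)
theorem L20864 : W_1 (nat_lit 7) (nat_lit 0x20001000080004000100000000000000000000000) (nat_lit 0x0) (nat_lit 0x20001c000e00010002000100008000200008000000000000000000) := T_1 (nat_lit 75) (nat_lit 93) (nat_lit 4) (nat_lit 8) (nat_lit 8) L20863 (by decide +kernel)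
theorem L20865 : W_1 (nat_lit 8) (nat_lit 0x20001000080004000000000000000000000000000) (nat_lit 0x0) (nat_lit 0x20001c000e0001000200010000a000300008000000000000000000) := T_1 (nat_lit 92) (nat_lit 109) (nat_lit 4) (nat_lit 8) (nat_lit 9) L20864 (by decide +kernel)
theorem L20866 : W_1 (nat_lit 2) (nat_lit 0x200020001000080006000000000000000000000000000) (nat_lit 0x0) (nat_lit 0x4000400000000000040000000000000000000000000000000) := D_1 (nat_lit 178) (nat_lit 194) (nat_lit 126) (nat_lit 5) (nat_lit 8) (nat_lit 7) (nat_lit 4) (nat_lit 8) (nat_lit 10) (by decide +kernel)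
theorem L20867 : W_1 (nat_lit 3) (nat_lit 0x200020001000080004000000000000000000000000000) (nat_lit 0x0) (nat_lit 0x4000400000000000040002000100000000000000000000000) := T_1 (nat_lit 109) (nat_lit 92) (nat_lit 4) (nat_lit 8) (nat_lit 9) L20866 (by decide +kernel)
theorem L20868 : W_1 (nat_lit 4) (nat_lit 0x20001000080004000000000000000000000000000) (nat_lit 0x0) (nat_lit 0x4000600010000000040002000100000000000000000000000) := T_1 (nat_lit 177) (nat_lit 160) (nat_lit 5) (nat_lit 8) (nat_lit 6) L20867 (by decide +kernel)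
theorem L20869 : W_1 (nat_lit 9) (nat_lit 0x1000080004000000000000000000000000000) (nat_lit 0x0) (nat_lit 0x20001c000e0003000200014000a000700028000000000000000000) := Q_1 (nat_lit 161) (C_1 L20845 (C_1 L20858 (C_1 L20865 (C_1 L20868 N_1)))) (by decide +kernel)
theorem L20870 : W_1 (nat_lit 3) (nat_lit 0x70001000080004000000000000000000000000000) (nat_lit 0x0) (nat_lit 0x800e000000000000200000000000000000000000) := T_1 (nat_lit 145) (nat_lit 93) (nat_lit 7) (nat_lit 8) (nat_lit 5) L3226 (by decide +kernel)
theorem L20871 : W_1 (nat_lit 4) (nat_lit 0x30001000080004000000000000000000000000000) (nat_lit 0x0) (nat_lit 0x80004800e000000000000200000000000000000000000) := T_1 (nat_lit 162) (nat_lit 179) (nat_lit 7) (nat_lit 8) (nat_lit 6) L20870 (by decide +kernel)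
theorem L20872 : W_1 (nat_lit 5) (nat_lit 0x20001000080004000000000000000000000000000) (nat_lit 0x0) (nat_lit 0xa0005800e000000000000200000000000000000000000) := T_1 (nat_lit 160) (nat_lit 177) (nat_lit 5) (nat_lit 8) (nat_lit 6) L20871 (by decide +kernel)
theorem L20873 : W_1 (nat_lit 9) (nat_lit 0x1000080004000000000000000000000000000) (nat_lit 0x0) (nat_lit 0x20001c000e0007800e00014000a000300008000000000000000000) := Q_1 (nat_lit 161) (C_1 L20868 (C_1 L20865 (C_1 L20055 (C_1 L20872 N_1)))) (by decide +kernel)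
theorem L20874 : W_1 (nat_lit 4) (nat_lit 0x2000300018000c000100000000000000000000000) (nat_lit 0x0) (nat_lit 0x800040000000060030000800000000000000000000000) := T_1 (nat_lit 162) (nat_lit 179) (nat_lit 7) (nat_lit 8) (nat_lit 6) L3214 (by decide +kernel)
theorem L20875 : W_1 (nat_lit 5) (nat_lit 0x20003000180004000100000000000000000000000) (nat_lit 0x0) (nat_lit 0x800040000000060038000c00000000000000000000000) := T_1 (nat_lit 111) (nat_lit 94) (nat_lit 6) (nat_lit 8) (nat_lit 9) L20874 (by decide +kernel)
theorem L20876 : W_1 (nat_lit 6) (nat_lit 0x20003000180004000000000000000000000000000) (nat_lit 0x0) (nat_lit 0x80004000000006003a000d00000000000000000000000) := T_1 (nat_lit 92) (nat_lit 109) (nat_lit 4) (nat_lit 8) (nat_lit 9) L20875 (by decide +kernel)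
theorem L20877 : W_1 (nat_lit 2) (nat_lit 0x60003000180007000000000000000000000000000) (nat_lit 0x0) (nat_lit 0x640000000000000000000000000000000) := D_1 (nat_lit 129) (nat_lit 130) (nat_lit 126) (nat_lit 0) (nat_lit 11) (nat_lit 7) (nat_lit 0) (nat_lit 10) (nat_lit 7) (by decide +kernel)
theorem L20878 : W_1 (nat_lit 3) (nat_lit 0x60003000180006000000000000000000000000000) (nat_lit 0x0) (nat_lit 0x640001800000000000000000000000000) := T_1 (nat_lit 108) (nat_lit 107) (nat_lit 3) (nat_lit 5) (nat_lit 6) L20877 (by decide +kernel)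
theorem L20879 : W_1 (nat_lit 4) (nat_lit 0x60003000180004000000000000000000000000000) (nat_lit 0x0) (nat_lit 0x640003800100000000000000000000000) := T_1 (nat_lit 109) (nat_lit 92) (nat_lit 4) (nat_lit 8) (nat_lit 9) L20878 (by decide +kernel)
theorem L20880 : W_1 (nat_lit 5) (nat_lit 0x20003000180004000000000000000000000000000) (nat_lit 0x0) (nat_lit 0x800040000000640003800100000000000000000000000) := T_1 (nat_lit 162) (nat_lit 179) (nat_lit 7) (nat_lit 8) (nat_lit 6) L20879 (by decide +kernel)
theorem L20881 : W_1 (nat_lit 2) (nat_lit 0x2000300018000e000000000000000000000000000) (nat_lit 0x0) (nat_lit 0x200001800000000000000000000000000) := D_1 (nat_lit 108) (nat_lit 107) (nat_lit 129) (nat_lit 3) (nat_lit 5) (nat_lit 6) (nat_lit 3) (nat_lit 6) (nat_lit 6) (by decide +kernel)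
theorem L20882 : W_1 (nat_lit 3) (nat_lit 0x20003000180006000000000000000000000000000) (nat_lit 0x0) (nat_lit 0x200009800400000000000000000000000) := T_1 (nat_lit 111) (nat_lit 94) (nat_lit 6) (nat_lit 8) (nat_lit 9) L20881 (by decide +kernel)
theorem L20883 : W_1 (nat_lit 4) (nat_lit 0x20003000180004000000000000000000000000000) (nat_lit 0x0) (nat_lit 0x20000b800500000000000000000000000) := T_1 (nat_lit 109) (nat_lit 92) (nat_lit 4) (nat_lit 8) (nat_lit 9) L20882 (by decide +kernel)
theorem L20884 : W_1 (nat_lit 2) (nat_lit 0x6000300018001c000000000000000000000000000) (nat_lit 0x0) (nat_lit 0x60020000000000000000000000000000) := D_1 (nat_lit 126) (nat_lit 125) (nat_lit 113) (nat_lit 2) (nat_lit 6) (nat_lit 7) (nat_lit 1) (nat_lit 11) (nat_lit 6) (by decide +kernel)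
theorem L20885 : W_1 (nat_lit 3) (nat_lit 0x6000300018000c000000000000000000000000000) (nat_lit 0x0) (nat_lit 0x60030000800000000000000000000000) := T_1 (nat_lit 112) (nat_lit 95) (nat_lit 6) (nat_lit 9) (nat_lit 9) L20884 (by decide +kernel)
theorem L20886 : W_1 (nat_lit 4) (nat_lit 0x2000300018000c000000000000000000000000000) (nat_lit 0x0) (nat_lit 0x800040000000060030000800000000000000000000000) := T_1 (nat_lit 162) (nat_lit 179) (nat_lit 7) (nat_lit 8) (nat_lit 6) L20885 (by decide +kernel)
theorem L20887 : W_1 (nat_lit 5) (nat_lit 0x20003000180004000000000000000000000000000) (nat_lit 0x0) (nat_lit 0x800040000000060038000c00000000000000000000000) := T_1 (nat_lit 111) (nat_lit 94) (nat_lit 6) (nat_lit 8) (nat_lit 9) L20886 (by decide +kernel)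
theorem L20888 : W_1 (nat_lit 7) (nat_lit 0x20003000080004000000000000000000000000000) (nat_lit 0x0) (nat_lit 0x80004000000076003b800d00000000000000000000000) := Q_1 (nat_lit 128) (C_1 L20876 (C_1 L20880 (C_1 L20883 (C_1 L20887 N_1)))) (by decide +kernel)
theorem L20889 : W_1 (nat_lit 2) (nat_lit 0x340070000c000e000000000000000000000000000) (nat_lit 0x0) (nat_lit 0x30010000000000000000000000000000) := D_1 (nat_lit 125) (nat_lit 124) (nat_lit 112) (nat_lit 3) (nat_lit 5) (nat_lit 7) (nat_lit 1) (nat_lit 10) (nat_lit 6) (by decide +kernel)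
theorem L20890 : W_1 (nat_lit 3) (nat_lit 0x340070000c0006000000000000000000000000000) (nat_lit 0x0) (nat_lit 0x30018000400000000000000000000000) := T_1 (nat_lit 111) (nat_lit 94) (nat_lit 6) (nat_lit 8) (nat_lit 9) L20889 (by decide +kernel)
theorem L20891 : W_1 (nat_lit 4) (nat_lit 0x340030000c0006000000000000000000000000000) (nat_lit 0x0) (nat_lit 0xc000030018000400000000000000000000000) := T_1 (nat_lit 146) (nat_lit 147) (nat_lit 1) (nat_lit 11) (nat_lit 8) L20890 (by decide +kernel)
theorem L20892 : W_1 (nat_lit 5) (nat_lit 0x300030000c0006000000000000000000000000000) (nat_lit 0x0) (nat_lit 0xc00c000030018000400000000000000000000000) := T_1 (nat_lit 158) (nat_lit 159) (nat_lit 2) (nat_lit 5) (nat_lit 9) L20891 (by decide +kernel)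
theorem L20893 : W_1 (nat_lit 6) (nat_lit 0x200030000c0006000000000000000000000000000) (nat_lit 0x0) (nat_lit 0x20001c00c000030018000400000000000000000000000) := T_1 (nat_lit 160) (nat_lit 177) (nat_lit 5) (nat_lit 8) (nat_lit 6) L20892 (by decide +kernel)
theorem L20894 : W_1 (nat_lit 7) (nat_lit 0x200030000c0004000000000000000000000000000) (nat_lit 0x0) (nat_lit 0x20001c00c00003001a000500000000000000000000000) := T_1 (nat_lit 109) (nat_lit 92) (nat_lit 4) (nat_lit 8) (nat_lit 9) L20893 (by decide +kernel)
theorem L20895 : W_1 (nat_lit 2) (nat_lit 0x340030002d001e000800000000000000000000000) (nat_lit 0x0) (nat_lit 0x100001000000040000000000000000000) := D_1 (nat_lit 128) (nat_lit 108) (nat_lit 78) (nat_lit 3) (nat_lit 6) (nat_lit 6) (nat_lit 5) (nat_lit 10) (nat_lit 4) (by decide +kernel)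
theorem L20896 : W_1 (nat_lit 3) (nat_lit 0x340030000d001e000800000000000000000000000) (nat_lit 0x0) (nat_lit 0x700001000000040000000000000000000) := T_1 (nat_lit 129) (nat_lit 130) (nat_lit 3) (nat_lit 7) (nat_lit 6) L20895 (by decide +kernel)
theorem L20897 : W_1 (nat_lit 4) (nat_lit 0x340030000d001e000000000000000000000000000) (nat_lit 0x0) (nat_lit 0x700001001800040000000000000000000) := T_1 (nat_lit 95) (nat_lit 96) (nat_lit 2) (nat_lit 7) (nat_lit 6) L20896 (by decide +kernel)
theorem L20898 : W_1 (nat_lit 5) (nat_lit 0x340030000d000e000000000000000000000000000) (nat_lit 0x0) (nat_lit 0x700031001800040000000000000000000) := T_1 (nat_lit 112) (nat_lit 113) (nat_lit 1) (nat_lit 11) (nat_lit 6) L20897 (by decide +kernel)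
theorem L20899 : W_1 (nat_lit 6) (nat_lit 0x340030000d0006000000000000000000000000000) (nat_lit 0x0) (nat_lit 0x700039001c00040000000000000000000) := T_1 (nat_lit 111) (nat_lit 94) (nat_lit 6) (nat_lit 8) (nat_lit 9) L20898 (by decide +kernel)
theorem L20900 : W_1 (nat_lit 7) (nat_lit 0x340030000d0004000000000000000000000000000) (nat_lit 0x0) (nat_lit 0x70003b001d00040000000000000000000) := T_1 (nat_lit 109) (nat_lit 92) (nat_lit 4) (nat_lit 8) (nat_lit 9) L20899 (by decide +kernel)
theorem L20901 : W_1 (nat_lit 8) (nat_lit 0x300030000d0004000000000000000000000000000) (nat_lit 0x0) (nat_lit 0xc00000070003b001d00040000000000000000000) := T_1 (nat_lit 158) (nat_lit 159) (nat_lit 2) (nat_lit 5) (nat_lit 9) L20900 (by decide +kernel)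
theorem L20902 : W_1 (nat_lit 9) (nat_lit 0x200030000d0004000000000000000000000000000) (nat_lit 0x0) (nat_lit 0x20001c00000070003b001d00040000000000000000000) := T_1 (nat_lit 160) (nat_lit 177) (nat_lit 5) (nat_lit 8) (nat_lit 6) L20901 (by decide +kernel)
theorem L20903 : W_1 (nat_lit 10) (nat_lit 0x200030000c0004000000000000000000000000000) (nat_lit 0x0) (nat_lit 0x20001c00000073003b001d00040000000000000000000) := T_1 (nat_lit 124) (nat_lit 125) (nat_lit 3) (nat_lit 5) (nat_lit 7) L20902 (by decide +kernel)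
theorem L20904 : W_1 (nat_lit 2) (nat_lit 0x340070002c001e000800000000000000000000000) (nat_lit 0x0) (nat_lit 0x100001000000040000000000000000000) := D_1 (nat_lit 128) (nat_lit 108) (nat_lit 78) (nat_lit 3) (nat_lit 6) (nat_lit 6) (nat_lit 5) (nat_lit 10) (nat_lit 4) (by decide +kernel)
theorem L20905 : W_1 (nat_lit 3) (nat_lit 0x340070000c001e000800000000000000000000000) (nat_lit 0x0) (nat_lit 0x700001000000040000000000000000000) := T_1 (nat_lit 129) (nat_lit 130) (nat_lit 3) (nat_lit 7) (nat_lit 6) L20904 (by decide +kernel)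
theorem L20906 : W_1 (nat_lit 4) (nat_lit 0x340070000c001e000000000000000000000000000) (nat_lit 0x0) (nat_lit 0x700001001800040000000000000000000) := T_1 (nat_lit 95) (nat_lit 96) (nat_lit 2) (nat_lit 7) (nat_lit 6) L20905 (by decide +kernel)
theorem L20907 : W_1 (nat_lit 5) (nat_lit 0x340070000c000e000000000000000000000000000) (nat_lit 0x0) (nat_lit 0x700031001800040000000000000000000) := T_1 (nat_lit 112) (nat_lit 113) (nat_lit 1) (nat_lit 11) (nat_lit 6) L20906 (by decide +kernel)
theorem L20908 : W_1 (nat_lit 6) (nat_lit 0x300070000c000e000000000000000000000000000) (nat_lit 0x0) (nat_lit 0xc000000700031001800040000000000000000000) := T_1 (nat_lit 158) (nat_lit 159) (nat_lit 2) (nat_lit 5) (nat_lit 9) L20907 (by decide +kernel)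
theorem L20909 : W_1 (nat_lit 7) (nat_lit 0x200070000c000e000000000000000000000000000) (nat_lit 0x0) (nat_lit 0x20001c000000700031001800040000000000000000000) := T_1 (nat_lit 160) (nat_lit 177) (nat_lit 5) (nat_lit 8) (nat_lit 6) L20908 (by decide +kernel)
theorem L20910 : W_1 (nat_lit 8) (nat_lit 0x200030000c000e000000000000000000000000000) (nat_lit 0x0) (nat_lit 0x20001c00c000700031001800040000000000000000000) := T_1 (nat_lit 146) (nat_lit 147) (nat_lit 0) (nat_lit 11) (nat_lit 8) L20909 (by decide +kernel)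
theorem L20911 : W_1 (nat_lit 9) (nat_lit 0x200030000c000c000000000000000000000000000) (nat_lit 0x0) (nat_lit 0x20001c00c000700033001900040000000000000000000) := T_1 (nat_lit 109) (nat_lit 92) (nat_lit 4) (nat_lit 8) (nat_lit 9) L20910 (by decide +kernel)
theorem L20912 : W_1 (nat_lit 10) (nat_lit 0x200030000c0004000000000000000000000000000) (nat_lit 0x0) (nat_lit 0x20001c00c00070003b001d00040000000000000000000) := T_1 (nat_lit 111) (nat_lit 94) (nat_lit 6) (nat_lit 8) (nat_lit 9) L20911 (by decide +kernel)
theorem L20913 : W_1 (nat_lit 11) (nat_lit 0x20003000080004000000000000000000000000000) (nat_lit 0x0) (nat_lit 0x20001c00c00077003b001d00040000000000000000000) := Q_1 (nat_lit 126) (C_1 L20035 (C_1 L20894 (C_1 L20903 (C_1 L20912 N_1)))) (by decide +kernel)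
theorem L20914 : W_1 (nat_lit 12) (nat_lit 0x20001000080004000000000000000000000000000) (nat_lit 0x0) (nat_lit 0xa0005c00e00077003b801d00040000000000000000000) := Q_1 (nat_lit 145) (C_1 L3228 (C_1 L20888 (C_1 L20913 N_1))) (by decide +kernel)
theorem L20915 : W_1 (nat_lit 13) (nat_lit 0x1000080004000000000000000000000000000) (nat_lit 0x0) (nat_lit 0x14000e0007c00e00077003b801d00040000000000000000000) := Q_1 (nat_lit 161) (C_1 L20868 (C_1 L20858 (C_1 L74 (C_1 L20914 N_1)))) (by decide +kernel)
theorem L20916 : W_1 (nat_lit 6) (nat_lit 0x1000080004000000000000000000000000000) (nat_lit 0x0) (nat_lit 0x4000e0007800e000100008000600020000000000000000000) := Q_1 (nat_lit 161) (C_1 L20872 (C_1 L20858 (C_1 L20113 N_1))) (by decide +kernel)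
theorem L20917 : W_1 (nat_lit 16) (nat_lit 0x1000080000000000000000000000000000000) (nat_lit 0x0) (nat_lit 0x20001c000e0017c00e00077003fe01fe00ff801400000000000000) := Q_1 (nat_lit 110) (C_1 L20095 (C_1 L20842 (C_1 L20846 (C_1 L20847 (C_1 L20856 (C_1 L20869 (C_1 L20873 (C_1 L20915 (C_1 L20916 N_1))))))))) (by decide +kernel)
theorem L20918 : W_1 (nat_lit 2) (nat_lit 0x12001f0006000000008000000000000000000) (nat_lit 0x0) (nat_lit 0x600001000000000000000000000000000) := D_1 (nat_lit 129) (nat_lit 130) (nat_lit 108) (nat_lit 0) (nat_lit 11) (nat_lit 7) (nat_lit 0) (nat_lit 10) (nat_lit 7) (by decide +kernel)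
theorem L20919 : W_1 (nat_lit 3) (nat_lit 0x12000f0006000000008000000000000000000) (nat_lit 0x0) (nat_lit 0x400700001000000000000000000000000000) := T_1 (nat_lit 128) (nat_lit 142) (nat_lit 1) (nat_lit 9) (nat_lit 7) L20918 (by decide +kernel)
theorem L20920 : W_1 (nat_lit 4) (nat_lit 0x12000f0006000000000000000000000000000) (nat_lit 0x0) (nat_lit 0x400700001000100008000000000000000000) := T_1 (nat_lit 75) (nat_lit 92) (nat_lit 7) (nat_lit 7) (nat_lit 4) L20919 (by decide +kernel)
theorem L20921 : W_1 (nat_lit 5) (nat_lit 0x10000f0006000000000000000000000000000) (nat_lit 0x0) (nat_lit 0x700700001000100008000000000000000000) := T_1 (nat_lit 141) (nat_lit 140) (nat_lit 1) (nat_lit 8) (nat_lit 7) L20920 (by decide +kernel)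
theorem L20922 : W_1 (nat_lit 6) (nat_lit 0x10000f0004000000000000000000000000000) (nat_lit 0x0) (nat_lit 0x700708003000100008000000000000000000) := T_1 (nat_lit 109) (nat_lit 123) (nat_lit 2) (nat_lit 4) (nat_lit 7) L20921 (by decide +kernel)
theorem L20923 : W_1 (nat_lit 7) (nat_lit 0x10000f0000000000000000000000000000000) (nat_lit 0x0) (nat_lit 0x70070800f000100008000000000000000000) := T_1 (nat_lit 110) (nat_lit 111) (nat_lit 2) (nat_lit 5) (nat_lit 7) L20922 (by decide +kernel)
theorem L20924 : W_1 (nat_lit 8) (nat_lit 0x10000e0000000000000000000000000000000) (nat_lit 0x0) (nat_lit 0x270071800f000100008000000000000000000) := T_1 (nat_lit 124) (nat_lit 145) (nat_lit 3) (nat_lit 5) (nat_lit 7) L20923 (by decide +kernel)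
theorem L20925 : W_1 (nat_lit 4) (nat_lit 0x10000f0000000000000000000000000000000) (nat_lit 0x0) (nat_lit 0x800ee00000000000000000000000000) := T_1 (nat_lit 106) (nat_lit 107) (nat_lit 0) (nat_lit 8) (nat_lit 7) L20002 (by decide +kernel)
theorem L20926 : W_1 (nat_lit 8) (nat_lit 0x10000e0000000000000000000000000000000) (nat_lit 0x0) (nat_lit 0x400078071800fe0018000c000000000000000000) := Q_1 (nat_lit 124) (C_1 L20923 (C_1 L18928 (C_1 L1456 (C_1 L20925 N_1)))) (by decide +kernel)
theorem L20927 : W_1 (nat_lit 5) (nat_lit 0x10000e0000000000000000000000000000000) (nat_lit 0x0) (nat_lit 0x200001800ee00000000000000000000000000) := T_1 (nat_lit 124) (nat_lit 145) (nat_lit 3) (nat_lit 5) (nat_lit 7) L20925 (by decide +kernel)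
theorem L20928 : W_1 (nat_lit 2) (nat_lit 0x32007e0014800000000000000000000000000) (nat_lit 0x0) (nat_lit 0x800040000000000000000200000000000000000000000) := D_1 (nat_lit 162) (nat_lit 179) (nat_lit 93) (nat_lit 6) (nat_lit 9) (nat_lit 10) (nat_lit 7) (nat_lit 8) (nat_lit 5) (by decide +kernel)
theorem L20929 : W_1 (nat_lit 3) (nat_lit 0x32007e0010800000000000000000000000000) (nat_lit 0x0) (nat_lit 0x800040000000000006000200000000000000000000000) := T_1 (nat_lit 110) (nat_lit 109) (nat_lit 0) (nat_lit 11) (nat_lit 7) L20928 (by decide +kernel)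
theorem L20930 : W_1 (nat_lit 4) (nat_lit 0x32003e0010800000000000000000000000000) (nat_lit 0x0) (nat_lit 0x800040000000c00006000200000000000000000000000) := T_1 (nat_lit 130) (nat_lit 131) (nat_lit 1) (nat_lit 12) (nat_lit 7) L20929 (by decide +kernel)
theorem L20931 : W_1 (nat_lit 5) (nat_lit 0x32001e0010800000000000000000000000000) (nat_lit 0x0) (nat_lit 0x800040000000e00026000200000000000000000000000) := T_1 (nat_lit 129) (nat_lit 113) (nat_lit 2) (nat_lit 7) (nat_lit 7) L20930 (by decide +kernel)
theorem L20932 : W_1 (nat_lit 6) (nat_lit 0x30001e0010800000000000000000000000000) (nat_lit 0x0) (nat_lit 0x800040000600e00026000200000000000000000000000) := T_1 (nat_lit 141) (nat_lit 142) (nat_lit 1) (nat_lit 9) (nat_lit 7) L20931 (by decide +kernel)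
theorem L20933 : W_1 (nat_lit 7) (nat_lit 0x30001e0000800000000000000000000000000) (nat_lit 0x0) (nat_lit 0x800040000600e0003e000200000000000000000000000) := T_1 (nat_lit 112) (nat_lit 111) (nat_lit 2) (nat_lit 6) (nat_lit 7) L20932 (by decide +kernel)
theorem L20934 : W_1 (nat_lit 8) (nat_lit 0x10001e0000800000000000000000000000000) (nat_lit 0x0) (nat_lit 0x800040006600e0003e000200000000000000000000000) := T_1 (nat_lit 145) (nat_lit 146) (nat_lit 3) (nat_lit 6) (nat_lit 7) L20933 (by decide +kernel)
theorem L20935 : W_1 (nat_lit 9) (nat_lit 0x10001e0000000000000000000000000000000) (nat_lit 0x0) (nat_lit 0x800040006600e0003f800200000000000000000000000) := T_1 (nat_lit 107) (nat_lit 108) (nat_lit 0) (nat_lit 9) (nat_lit 7) L20934 (by decide +kernel)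
theorem L20936 : W_1 (nat_lit 2) (nat_lit 0x14001e000b000000020000000000000000000) (nat_lit 0x0) (nat_lit 0x8000000000000000100008000000000000000000) := D_1 (nat_lit 92) (nat_lit 75) (nat_lit 159) (nat_lit 7) (nat_lit 7) (nat_lit 4) (nat_lit 6) (nat_lit 6) (nat_lit 9) (by decide +kernel)
theorem L20937 : W_1 (nat_lit 3) (nat_lit 0x10001e000b000000020000000000000000000) (nat_lit 0x0) (nat_lit 0x8000600000000000100008000000000000000000) := T_1 (nat_lit 142) (nat_lit 141) (nat_lit 1) (nat_lit 9) (nat_lit 7) L20936 (by decide +kernel)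
theorem L20938 : W_1 (nat_lit 4) (nat_lit 0x10001e0009000000020000000000000000000) (nat_lit 0x0) (nat_lit 0x8000600200002000100008000000000000000000) := T_1 (nat_lit 109) (nat_lit 129) (nat_lit 0) (nat_lit 10) (nat_lit 7) L20937 (by decide +kernel)
theorem L20939 : W_1 (nat_lit 5) (nat_lit 0x10001e0009000000000000000000000000000) (nat_lit 0x0) (nat_lit 0x8000600200002000500028000000000000000000) := T_1 (nat_lit 77) (nat_lit 94) (nat_lit 5) (nat_lit 9) (nat_lit 4) L20938 (by decide +kernel)
theorem L20940 : W_1 (nat_lit 6) (nat_lit 0x10001e0008000000000000000000000000000) (nat_lit 0x0) (nat_lit 0x8000600200003800500028000000000000000000) := T_1 (nat_lit 108) (nat_lit 107) (nat_lit 0) (nat_lit 9) (nat_lit 7) L20939 (by decide +kernel)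
theorem L20941 : W_1 (nat_lit 7) (nat_lit 0x10001e0000000000000000000000000000000) (nat_lit 0x0) (nat_lit 0x800060020001b800500028000000000000000000) := T_1 (nat_lit 111) (nat_lit 112) (nat_lit 2) (nat_lit 6) (nat_lit 7) L20940 (by decide +kernel)
theorem L20942 : W_1 (nat_lit 2) (nat_lit 0x30001e000c800e00000000000000000000000) (nat_lit 0x0) (nat_lit 0x2003000000000000000000000000) := D_1 (nat_lit 96) (nat_lit 97) (nat_lit 109) (nat_lit 1) (nat_lit 12) (nat_lit 5) (nat_lit 1) (nat_lit 11) (nat_lit 5) (by decide +kernel)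
theorem L20943 : W_1 (nat_lit 3) (nat_lit 0x30001e0008800e00000000000000000000000) (nat_lit 0x0) (nat_lit 0x40000000000006003000000000000000000000000) := T_1 (nat_lit 110) (nat_lit 162) (nat_lit 7) (nat_lit 8) (nat_lit 5) L20942 (by decide +kernel)
theorem L20944 : W_1 (nat_lit 4) (nat_lit 0x30001e0008800600000000000000000000000) (nat_lit 0x0) (nat_lit 0x40000000000006003800040000000000000000000) := T_1 (nat_lit 95) (nat_lit 78) (nat_lit 6) (nat_lit 9) (nat_lit 8) L20943 (by decide +kernel)
theorem L20945 : W_1 (nat_lit 5) (nat_lit 0x30001e0008800400000000000000000000000) (nat_lit 0x0) (nat_lit 0x40000000000006003a00050000000000000000000) := T_1 (nat_lit 93) (nat_lit 76) (nat_lit 4) (nat_lit 9) (nat_lit 8) L20944 (by decide +kernel)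
theorem L20946 : W_1 (nat_lit 6) (nat_lit 0x30001e0008800000000000000000000000000) (nat_lit 0x0) (nat_lit 0x40000000000006003e00070000000000000000000) := T_1 (nat_lit 94) (nat_lit 77) (nat_lit 5) (nat_lit 9) (nat_lit 4) L20945 (by decide +kernel)
theorem L20947 : W_1 (nat_lit 7) (nat_lit 0x10001e0008800000000000000000000000000) (nat_lit 0x0) (nat_lit 0x40006000000006003e00070000000000000000000) := T_1 (nat_lit 145) (nat_lit 146) (nat_lit 3) (nat_lit 6) (nat_lit 7) L20946 (by decide +kernel)
theorem L20948 : W_1 (nat_lit 8) (nat_lit 0x10001e0000800000000000000000000000000) (nat_lit 0x0) (nat_lit 0x4000600000001e003e00070000000000000000000) := T_1 (nat_lit 111) (nat_lit 112) (nat_lit 2) (nat_lit 6) (nat_lit 7) L20947 (by decide +kernel)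
theorem L20949 : W_1 (nat_lit 9) (nat_lit 0x10001e0000000000000000000000000000000) (nat_lit 0x0) (nat_lit 0x4000600000001f803e00070000000000000000000) := T_1 (nat_lit 107) (nat_lit 108) (nat_lit 0) (nat_lit 9) (nat_lit 7) L20948 (by decide +kernel)
theorem L20950 : W_1 (nat_lit 2) (nat_lit 0x12003e0010000000000000000000000000000) (nat_lit 0x0) (nat_lit 0xe000000000000000000000000000000000000) := D_1 (nat_lit 146) (nat_lit 145) (nat_lit 147) (nat_lit 3) (nat_lit 6) (nat_lit 7) (nat_lit 3) (nat_lit 7) (nat_lit 7) (by decide +kernel)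
theorem L20951 : W_1 (nat_lit 3) (nat_lit 0x12001e0010000000000000000000000000000) (nat_lit 0x0) (nat_lit 0xe000200020000000000000000000000000000) := T_1 (nat_lit 129) (nat_lit 113) (nat_lit 2) (nat_lit 7) (nat_lit 7) L20950 (by decide +kernel)
theorem L20952 : W_1 (nat_lit 4) (nat_lit 0x10001e0010000000000000000000000000000) (nat_lit 0x0) (nat_lit 0xe600200020000000000000000000000000000) := T_1 (nat_lit 141) (nat_lit 142) (nat_lit 1) (nat_lit 9) (nat_lit 7) L20951 (by decide +kernel)
theorem L20953 : W_1 (nat_lit 5) (nat_lit 0x10001e0000000000000000000000000000000) (nat_lit 0x0) (nat_lit 0xe600200038000000000000000000000000000) := T_1 (nat_lit 112) (nat_lit 111) (nat_lit 2) (nat_lit 6) (nat_lit 7) L20952 (by decide +kernel)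
theorem L20954 : W_1 (nat_lit 2) (nat_lit 0x12003e0001000000000000000000000000000) (nat_lit 0x0) (nat_lit 0xe000000000000000000000000000000000000) := D_1 (nat_lit 146) (nat_lit 145) (nat_lit 147) (nat_lit 3) (nat_lit 6) (nat_lit 7) (nat_lit 3) (nat_lit 7) (nat_lit 7) (by decide +kernel)
theorem L20955 : W_1 (nat_lit 3) (nat_lit 0x12001e0001000000000000000000000000000) (nat_lit 0x0) (nat_lit 0xe000200002000000000000000000000000000) := T_1 (nat_lit 129) (nat_lit 109) (nat_lit 0) (nat_lit 10) (nat_lit 7) L20954 (by decide +kernel)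
theorem L20956 : W_1 (nat_lit 4) (nat_lit 0x10001e0001000000000000000000000000000) (nat_lit 0x0) (nat_lit 0xe600200002000000000000000000000000000) := T_1 (nat_lit 141) (nat_lit 142) (nat_lit 1) (nat_lit 9) (nat_lit 7) L20955 (by decide +kernel)
theorem L20957 : W_1 (nat_lit 5) (nat_lit 0x10001e0000000000000000000000000000000) (nat_lit 0x0) (nat_lit 0xe600200003800000000000000000000000000) := T_1 (nat_lit 108) (nat_lit 107) (nat_lit 0) (nat_lit 9) (nat_lit 7) L20956 (by decide +kernel)
theorem L20958 : W_1 (nat_lit 10) (nat_lit 0x10000e0000000000000000000000000000000) (nat_lit 0x0) (nat_lit 0x80004800e600f0003f803f00078000000000000000000) := Q_1 (nat_lit 128) (C_1 L20935 (C_1 L20941 (C_1 L20949 (C_1 L20953 (C_1 L20957 N_1))))) (by decide +kernel)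
theorem L20959 : W_1 (nat_lit 11) (nat_lit 0x10000c0000000000000000000000000000000) (nat_lit 0x0) (nat_lit 0x80004c00e780f3803fe03f8007c000000000000000000) := Q_1 (nat_lit 125) (C_1 L20924 (C_1 L20926 (C_1 L1457 (C_1 L20927 (C_1 L20958 N_1))))) (by decide +kernel)
theorem L20960 : W_1 (nat_lit 2) (nat_lit 0x100018000c0002000200000000000000000000000) (nat_lit 0x0) (nat_lit 0x100018000000000000000000) := D_1 (nat_lit 92) (nat_lit 76) (nat_lit 75) (nat_lit 6) (nat_lit 7) (nat_lit 8) (nat_lit 7) (nat_lit 7) (nat_lit 4) (by decide +kernel)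
theorem L20961 : W_1 (nat_lit 3) (nat_lit 0x100018000c0002000000000000000000000000000) (nat_lit 0x0) (nat_lit 0x4000300018000000000000000000) := T_1 (nat_lit 93) (nat_lit 110) (nat_lit 6) (nat_lit 7) (nat_lit 9) L20960 (by decide +kernel)
theorem L20962 : W_1 (nat_lit 2) (nat_lit 0x100018000c0002000080000000000000000000000) (nat_lit 0x0) (nat_lit 0x10000c000000000000000000) := D_1 (nat_lit 92) (nat_lit 74) (nat_lit 75) (nat_lit 4) (nat_lit 7) (nat_lit 8) (nat_lit 7) (nat_lit 7) (nat_lit 4) (by decide +kernel)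
theorem L20963 : W_1 (nat_lit 3) (nat_lit 0x100018000c0002000000000000000000000000000) (nat_lit 0x0) (nat_lit 0x100018000c000000000000000000) := T_1 (nat_lit 91) (nat_lit 108) (nat_lit 4) (nat_lit 7) (nat_lit 9) L20962 (by decide +kernel)
theorem L20974 : W_1 (nat_lit 2) (nat_lit 0x1a001e0000000000000000000000000000000) (nat_lit 0x0) (nat_lit 0x100018000000000000000000000000000000) := D_1 (nat_lit 124) (nat_lit 123) (nat_lit 140) (nat_lit 3) (nat_lit 4) (nat_lit 7) (nat_lit 1) (nat_lit 8) (nat_lit 7) (by decide +kernel)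
theorem L20975 : W_1 (nat_lit 3) (nat_lit 0x18001e0000000000000000000000000000000) (nat_lit 0x0) (nat_lit 0x700018000000000000000000000000000000) := T_1 (nat_lit 141) (nat_lit 142) (nat_lit 2) (nat_lit 5) (nat_lit 8) L20974 (by decide +kernel)
theorem L20976 : W_1 (nat_lit 2) (nat_lit 0x18001f0000000000000000000000000000000) (nat_lit 0x0) (nat_lit 0x1c000000000000000000000000000) := D_1 (nat_lit 111) (nat_lit 112) (nat_lit 110) (nat_lit 2) (nat_lit 6) (nat_lit 7) (nat_lit 2) (nat_lit 5) (nat_lit 7) (by decide +kernel)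
theorem L20977 : W_1 (nat_lit 3) (nat_lit 0x18001e0000000000000000000000000000000) (nat_lit 0x0) (nat_lit 0x1801c000000000000000000000000000) := T_1 (nat_lit 124) (nat_lit 123) (nat_lit 3) (nat_lit 4) (nat_lit 7) L20976 (by decide +kernel)
theorem L20978 : W_1 (nat_lit 2) (nat_lit 0x80008001c001e0009000180022000000000000000000) (nat_lit 0x0) (nat_lit 0x3000100000000000000000000000000000000000000000000) := D_1 (nat_lit 176) (nat_lit 193) (nat_lit 192) (nat_lit 6) (nat_lit 6) (nat_lit 11) (nat_lit 5) (nat_lit 6) (nat_lit 7) (by decide +kernel)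
theorem L20979 : W_1 (nat_lit 3) (nat_lit 0x8001c001e0009000180022000000000000000000) (nat_lit 0x0) (nat_lit 0x3000180004000000000000000000000000000000000000000) := T_1 (nat_lit 175) (nat_lit 158) (nat_lit 5) (nat_lit 6) (nat_lit 6) L20978 (by decide +kernel)
theorem L20980 : W_1 (nat_lit 4) (nat_lit 0x1c001e0009000180022000000000000000000) (nat_lit 0x0) (nat_lit 0x300018000c000000000002000000000000000000000000000) := T_1 (nat_lit 159) (nat_lit 109) (nat_lit 6) (nat_lit 6) (nat_lit 9) L20979 (by decide +kernel)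
theorem L20981 : W_1 (nat_lit 5) (nat_lit 0x1c001e0009000180020000000000000000000) (nat_lit 0x0) (nat_lit 0x300018000c000000000002000040002000000000000000000) := T_1 (nat_lit 73) (nat_lit 90) (nat_lit 4) (nat_lit 6) (nat_lit 8) L20980 (by decide +kernel)
theorem L20982 : W_1 (nat_lit 6) (nat_lit 0x1c001e0009000080020000000000000000000) (nat_lit 0x0) (nat_lit 0x300018000c00000000000200014000a000000000000000000) := T_1 (nat_lit 92) (nat_lit 75) (nat_lit 6) (nat_lit 6) (nat_lit 8) L20981 (by decide +kernel)
theorem L20983 : W_1 (nat_lit 7) (nat_lit 0x1c001e0009000000020000000000000000000) (nat_lit 0x0) (nat_lit 0x300018000c0000000000020001c000e000000000000000000) := T_1 (nat_lit 91) (nat_lit 74) (nat_lit 7) (nat_lit 6) (nat_lit 4) L20982 (by decide +kernel)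
theorem L20984 : W_1 (nat_lit 8) (nat_lit 0x1c001e0008000000020000000000000000000) (nat_lit 0x0) (nat_lit 0x300018000c0000000000038001c000e000000000000000000) := T_1 (nat_lit 108) (nat_lit 107) (nat_lit 0) (nat_lit 9) (nat_lit 7) L20983 (by decide +kernel)
theorem L20985 : W_1 (nat_lit 9) (nat_lit 0x1c001e0008000000000000000000000000000) (nat_lit 0x0) (nat_lit 0x300018000c0000000000038005c002e000000000000000000) := T_1 (nat_lit 77) (nat_lit 94) (nat_lit 5) (nat_lit 9) (nat_lit 4) L20984 (by decide +kernel)
theorem L20986 : W_1 (nat_lit 10) (nat_lit 0x18001e0008000000000000000000000000000) (nat_lit 0x0) (nat_lit 0x300018000c0006000000038005c002e000000000000000000) := T_1 (nat_lit 142) (nat_lit 141) (nat_lit 2) (nat_lit 5) (nat_lit 8) L20985 (by decide +kernel)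
theorem L20987 : W_1 (nat_lit 11) (nat_lit 0x18001e0000000000000000000000000000000) (nat_lit 0x0) (nat_lit 0x300018000c00060000001b8005c002e000000000000000000) := T_1 (nat_lit 111) (nat_lit 112) (nat_lit 2) (nat_lit 6) (nat_lit 7) L20986 (by decide +kernel)
theorem L20990 : W_1 (nat_lit 2) (nat_lit 0x1a0018000d000f800820000000000000000000000) (nat_lit 0x0) (nat_lit 0x30001000000000000000000000000) := D_1 (nat_lit 112) (nat_lit 113) (nat_lit 96) (nat_lit 1) (nat_lit 11) (nat_lit 6) (nat_lit 2) (nat_lit 7) (nat_lit 6) (by decide +kernel)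
theorem L20991 : W_1 (nat_lit 3) (nat_lit 0x1a0018000d000f800020000000000000000000000) (nat_lit 0x0) (nat_lit 0x30001c00000000000000000000000) := T_1 (nat_lit 95) (nat_lit 94) (nat_lit 2) (nat_lit 6) (nat_lit 6) L20990 (by decide +kernel)
theorem L20992 : W_1 (nat_lit 4) (nat_lit 0x1a0018000d0007800020000000000000000000000) (nat_lit 0x0) (nat_lit 0x20038001c00000000000000000000000) := T_1 (nat_lit 111) (nat_lit 125) (nat_lit 2) (nat_lit 5) (nat_lit 7) L20991 (by decide +kernel)
theorem L20993 : W_1 (nat_lit 5) (nat_lit 0x1a0018000d0007800000000000000000000000000) (nat_lit 0x0) (nat_lit 0x20038001c60000000000000000000000) := T_1 (nat_lit 89) (nat_lit 90) (nat_lit 0) (nat_lit 8) (nat_lit 6) L20992 (by decide +kernel)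
theorem L20994 : W_1 (nat_lit 6) (nat_lit 0x1a0018000c0007800000000000000000000000000) (nat_lit 0x0) (nat_lit 0x38038001c60000000000000000000000) := T_1 (nat_lit 124) (nat_lit 123) (nat_lit 1) (nat_lit 8) (nat_lit 6) L20993 (by decide +kernel)
theorem L20995 : W_1 (nat_lit 7) (nat_lit 0x1a0018000c0007000000000000000000000000000) (nat_lit 0x0) (nat_lit 0x38038c01c60000000000000000000000) := T_1 (nat_lit 107) (nat_lit 106) (nat_lit 3) (nat_lit 4) (nat_lit 6) L20994 (by decide +kernel)
theorem L20996 : W_1 (nat_lit 8) (nat_lit 0x1a0018000c0006000000000000000000000000000) (nat_lit 0x0) (nat_lit 0x38039c01ce0000000000000000000000) := T_1 (nat_lit 108) (nat_lit 91) (nat_lit 4) (nat_lit 7) (nat_lit 9) L20995 (by decide +kernel)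
theorem L20997 : W_1 (nat_lit 9) (nat_lit 0x180018000c0006000000000000000000000000000) (nat_lit 0x0) (nat_lit 0x6000000038039c01ce0000000000000000000000) := T_1 (nat_lit 157) (nat_lit 158) (nat_lit 2) (nat_lit 4) (nat_lit 9) L20996 (by decide +kernel)
theorem L20998 : W_1 (nat_lit 10) (nat_lit 0x100018000c0006000000000000000000000000000) (nat_lit 0x0) (nat_lit 0x10000e000000038039c01ce0000000000000000000000) := T_1 (nat_lit 159) (nat_lit 176) (nat_lit 5) (nat_lit 7) (nat_lit 6) L20997 (by decide +kernel)
theorem L20999 : W_1 (nat_lit 11) (nat_lit 0x100018000c0002000000000000000000000000000) (nat_lit 0x0) (nat_lit 0x10000e00000003803dc01ee0000000000000000000000) := T_1 (nat_lit 110) (nat_lit 93) (nat_lit 6) (nat_lit 7) (nat_lit 9) L20998 (by decide +kernel)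
theorem L21000 : W_1 (nat_lit 12) (nat_lit 0x100018000c0000000000000000000000000000000) (nat_lit 0x0) (nat_lit 0x10000e00000003803fc01fe001c000000000000000000) := Q_1 (nat_lit 109) (C_1 L20961 (C_1 L20963 (C_1 L20999 N_1))) (by decide +kernel)
theorem L21001 : W_1 (nat_lit 13) (nat_lit 0x18000c0000000000000000000000000000000) (nat_lit 0x0) (nat_lit 0x600030001e00000003803fc01fe001c000000000000000000) := Q_1 (nat_lit 160) (C_1 L4210 (C_1 L1550 (C_1 L1546 (C_1 L21000 N_1)))) (by decide +kernel)
theorem L21002 : W_1 (nat_lit 2) (nat_lit 0x8001d000f0000800000000000000000000000000) (nat_lit 0x0) (nat_lit 0x1000040002000000000000000000) := D_1 (nat_lit 90) (nat_lit 108) (nat_lit 73) (nat_lit 4) (nat_lit 6) (nat_lit 9) (nat_lit 7) (nat_lit 5) (nat_lit 4) (by decide +kernel)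
theorem L21003 : W_1 (nat_lit 3) (nat_lit 0x1d000f0000800000000000000000000000000) (nat_lit 0x0) (nat_lit 0x100008000000000001000040002000000000000000000) := T_1 (nat_lit 159) (nat_lit 176) (nat_lit 4) (nat_lit 6) (nat_lit 10) L21002 (by decide +kernel)
theorem L21004 : W_1 (nat_lit 4) (nat_lit 0x1d000f0000000000000000000000000000000) (nat_lit 0x0) (nat_lit 0x100008000000000001c00040002000000000000000000) := T_1 (nat_lit 107) (nat_lit 106) (nat_lit 0) (nat_lit 8) (nat_lit 7) L21003 (by decide +kernel)
theorem L21005 : W_1 (nat_lit 5) (nat_lit 0x1d000e0000000000000000000000000000000) (nat_lit 0x0) (nat_lit 0x100008000000018001c00040002000000000000000000) := T_1 (nat_lit 124) (nat_lit 123) (nat_lit 3) (nat_lit 4) (nat_lit 7) L21004 (by decide +kernel)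
theorem L21006 : W_1 (nat_lit 6) (nat_lit 0x1c000e0000000000000000000000000000000) (nat_lit 0x0) (nat_lit 0x100008000300018001c00040002000000000000000000) := T_1 (nat_lit 140) (nat_lit 141) (nat_lit 2) (nat_lit 4) (nat_lit 8) L21005 (by decide +kernel)
theorem L21007 : W_1 (nat_lit 2) (nat_lit 0x8001c000f0000800000000000000000000000000) (nat_lit 0x0) (nat_lit 0x1000040002000000000000000000) := D_1 (nat_lit 90) (nat_lit 108) (nat_lit 73) (nat_lit 4) (nat_lit 6) (nat_lit 9) (nat_lit 7) (nat_lit 5) (nat_lit 4) (by decide +kernel)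
theorem L21008 : W_1 (nat_lit 3) (nat_lit 0x1c000f0000800000000000000000000000000) (nat_lit 0x0) (nat_lit 0x100008000000000001000040002000000000000000000) := T_1 (nat_lit 159) (nat_lit 176) (nat_lit 4) (nat_lit 6) (nat_lit 10) L21007 (by decide +kernel)
theorem L21009 : W_1 (nat_lit 4) (nat_lit 0x1c000f0000000000000000000000000000000) (nat_lit 0x0) (nat_lit 0x100008000000000001c00040002000000000000000000) := T_1 (nat_lit 107) (nat_lit 106) (nat_lit 0) (nat_lit 8) (nat_lit 7) L21008 (by decide +kernel)
theorem L21010 : W_1 (nat_lit 5) (nat_lit 0x1c000e0000000000000000000000000000000) (nat_lit 0x0) (nat_lit 0x100008000000018001c00040002000000000000000000) := T_1 (nat_lit 124) (nat_lit 123) (nat_lit 3) (nat_lit 4) (nat_lit 7) L21009 (by decide +kernel)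
theorem L21011 : W_1 (nat_lit 2) (nat_lit 0x4001e000f0000400000000000000000000000000) (nat_lit 0x0) (nat_lit 0x80000000000000001000080000000000000000000000) := D_1 (nat_lit 108) (nat_lit 91) (nat_lit 175) (nat_lit 5) (nat_lit 6) (nat_lit 5) (nat_lit 6) (nat_lit 5) (nat_lit 10) (by decide +kernel)
theorem L21012 : W_1 (nat_lit 3) (nat_lit 0x1e000f0000400000000000000000000000000) (nat_lit 0x0) (nat_lit 0x80006000000000001000080000000000000000000000) := T_1 (nat_lit 158) (nat_lit 157) (nat_lit 1) (nat_lit 8) (nat_lit 8) L21011 (by decide +kernel)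
theorem L21013 : W_1 (nat_lit 4) (nat_lit 0x1e000f0000000000000000000000000000000) (nat_lit 0x0) (nat_lit 0x80006000000000001c00080000000000000000000000) := T_1 (nat_lit 106) (nat_lit 107) (nat_lit 0) (nat_lit 8) (nat_lit 7) L21012 (by decide +kernel)
theorem L21014 : W_1 (nat_lit 5) (nat_lit 0x1c000f0000000000000000000000000000000) (nat_lit 0x0) (nat_lit 0x80006000300000001c00080000000000000000000000) := T_1 (nat_lit 141) (nat_lit 140) (nat_lit 2) (nat_lit 4) (nat_lit 8) L21013 (by decide +kernel)
theorem L21015 : W_1 (nat_lit 6) (nat_lit 0x1c000e0000000000000000000000000000000) (nat_lit 0x0) (nat_lit 0x80006000300018001c00080000000000000000000000) := T_1 (nat_lit 124) (nat_lit 123) (nat_lit 3) (nat_lit 4) (nat_lit 7) L21014 (by decide +kernel)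
theorem L21016 : W_1 (nat_lit 2) (nat_lit 0x4001e000e0001000000000000000000000000000) (nat_lit 0x0) (nat_lit 0x1000080008000000000000000000000000000000000000000) := D_1 (nat_lit 175) (nat_lit 192) (nat_lit 159) (nat_lit 6) (nat_lit 5) (nat_lit 11) (nat_lit 5) (nat_lit 6) (nat_lit 6) (by decide +kernel)
theorem L21017 : W_1 (nat_lit 3) (nat_lit 0x4001e000e0000000000000000000000000000000) (nat_lit 0x0) (nat_lit 0x1000080008000000000001000080000000000000000000000) := T_1 (nat_lit 108) (nat_lit 91) (nat_lit 5) (nat_lit 6) (nat_lit 5) L21016 (by decide +kernel)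
theorem L21018 : W_1 (nat_lit 4) (nat_lit 0x1e000e0000000000000000000000000000000) (nat_lit 0x0) (nat_lit 0x100008000e000000000001000080000000000000000000000) := T_1 (nat_lit 158) (nat_lit 157) (nat_lit 1) (nat_lit 8) (nat_lit 8) L21017 (by decide +kernel)
theorem L21019 : W_1 (nat_lit 5) (nat_lit 0x1c000e0000000000000000000000000000000) (nat_lit 0x0) (nat_lit 0x100008000e000300000001000080000000000000000000000) := T_1 (nat_lit 141) (nat_lit 140) (nat_lit 2) (nat_lit 4) (nat_lit 8) L21018 (by decide +kernel)
theorem L21020 : W_1 (nat_lit 2) (nat_lit 0x2001e000f0000800000000000000000000000000) (nat_lit 0x0) (nat_lit 0x100008000000000000000040000000000000000000000) := D_1 (nat_lit 159) (nat_lit 176) (nat_lit 90) (nat_lit 4) (nat_lit 6) (nat_lit 10) (nat_lit 7) (nat_lit 5) (nat_lit 5) (by decide +kernel)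
theorem L21021 : W_1 (nat_lit 3) (nat_lit 0x2001e000f0000000000000000000000000000000) (nat_lit 0x0) (nat_lit 0x100008000000000000c00040000000000000000000000) := T_1 (nat_lit 107) (nat_lit 106) (nat_lit 0) (nat_lit 8) (nat_lit 7) L21020 (by decide +kernel)
theorem L21022 : W_1 (nat_lit 4) (nat_lit 0x1e000f0000000000000000000000000000000) (nat_lit 0x0) (nat_lit 0x10000e000000000000c00040000000000000000000000) := T_1 (nat_lit 157) (nat_lit 158) (nat_lit 1) (nat_lit 8) (nat_lit 8) L21021 (by decide +kernel)
theorem L21023 : W_1 (nat_lit 5) (nat_lit 0x1e000e0000000000000000000000000000000) (nat_lit 0x0) (nat_lit 0x10000e000000018000c00040000000000000000000000) := T_1 (nat_lit 124) (nat_lit 123) (nat_lit 3) (nat_lit 4) (nat_lit 7) L21022 (by decide +kernel)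
theorem L21024 : W_1 (nat_lit 6) (nat_lit 0x1c000e0000000000000000000000000000000) (nat_lit 0x0) (nat_lit 0x10000e000300018000c00040000000000000000000000) := T_1 (nat_lit 141) (nat_lit 140) (nat_lit 2) (nat_lit 4) (nat_lit 8) L21023 (by decide +kernel)
theorem L21025 : W_1 (nat_lit 7) (nat_lit 0x1c000c0000000000000000000000000000000) (nat_lit 0x0) (nat_lit 0x100018000e000300038001c000c0002000000000000000000) := Q_1 (nat_lit 125) (C_1 L21006 (C_1 L21010 (C_1 L21015 (C_1 L21019 (C_1 L21024 N_1))))) (by decide +kernel)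
theorem L21029 : W_1 (nat_lit 2) (nat_lit 0x1c001e0001000000000000000000000000000) (nat_lit 0x0) (nat_lit 0x200010000000000000000080000000000000000000000) := D_1 (nat_lit 160) (nat_lit 177) (nat_lit 91) (nat_lit 4) (nat_lit 7) (nat_lit 10) (nat_lit 7) (nat_lit 6) (nat_lit 5) (by decide +kernel)
theorem L21030 : W_1 (nat_lit 3) (nat_lit 0x1c001e0000000000000000000000000000000) (nat_lit 0x0) (nat_lit 0x200010000000000001800080000000000000000000000) := T_1 (nat_lit 108) (nat_lit 107) (nat_lit 0) (nat_lit 9) (nat_lit 7) L21029 (by decide +kernel)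
theorem L21084 : W_1 (nat_lit 2) (nat_lit 0x58003f0010000000000000000000000000000) (nat_lit 0x0) (nat_lit 0x1c00000000000000000000000000) := D_1 (nat_lit 107) (nat_lit 108) (nat_lit 106) (nat_lit 0) (nat_lit 9) (nat_lit 7) (nat_lit 0) (nat_lit 8) (nat_lit 7) (by decide +kernel)
theorem L21085 : W_1 (nat_lit 3) (nat_lit 0x58003e0010000000000000000000000000000) (nat_lit 0x0) (nat_lit 0x18001c00000000000000000000000000) := T_1 (nat_lit 124) (nat_lit 123) (nat_lit 3) (nat_lit 4) (nat_lit 7) L21084 (by decide +kernel)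
theorem L21086 : W_1 (nat_lit 4) (nat_lit 0x18003e0010000000000000000000000000000) (nat_lit 0x0) (nat_lit 0xc000018001c00000000000000000000000000) := T_1 (nat_lit 146) (nat_lit 147) (nat_lit 3) (nat_lit 7) (nat_lit 7) L21085 (by decide +kernel)
theorem L21087 : W_1 (nat_lit 5) (nat_lit 0x18003c0010000000000000000000000000000) (nat_lit 0x0) (nat_lit 0xc000038009c00000000000000000000000000) := T_1 (nat_lit 125) (nat_lit 111) (nat_lit 2) (nat_lit 6) (nat_lit 7) L21086 (by decide +kernel)
theorem L21088 : W_1 (nat_lit 6) (nat_lit 0x18003c0000000000000000000000000000000) (nat_lit 0x0) (nat_lit 0xc000038039c00000000000000000000000000) := T_1 (nat_lit 112) (nat_lit 113) (nat_lit 2) (nat_lit 7) (nat_lit 7) L21087 (by decide +kernel)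
theorem L21089 : W_1 (nat_lit 7) (nat_lit 0x18001c0000000000000000000000000000000) (nat_lit 0x0) (nat_lit 0xc000638039c00000000000000000000000000) := T_1 (nat_lit 129) (nat_lit 130) (nat_lit 1) (nat_lit 11) (nat_lit 7) L21088 (by decide +kernel)
theorem L21090 : W_1 (nat_lit 4) (nat_lit 0x18001e0000000000000000000000000000000) (nat_lit 0x0) (nat_lit 0x200010000600000001800080000000000000000000000) := T_1 (nat_lit 142) (nat_lit 141) (nat_lit 2) (nat_lit 5) (nat_lit 8) L21030 (by decide +kernel)
theorem L21091 : W_1 (nat_lit 5) (nat_lit 0x18001c0000000000000000000000000000000) (nat_lit 0x0) (nat_lit 0x20001000070003801d800080000000000000000000000) := Q_1 (nat_lit 125) (C_1 L20977 (C_1 L20975 (C_1 L21090 N_1))) (by decide +kernel)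
theorem L21093 : W_1 (nat_lit 2) (nat_lit 0x1a0018000c0007000000000000000000000000000) (nat_lit 0x0) (nat_lit 0x100000c00000000000000000000000000) := D_1 (nat_lit 107) (nat_lit 128) (nat_lit 106) (nat_lit 3) (nat_lit 5) (nat_lit 6) (nat_lit 3) (nat_lit 4) (nat_lit 6) (by decide +kernel)
theorem L21094 : W_1 (nat_lit 3) (nat_lit 0x1a0018000c0006000000000000000000000000000) (nat_lit 0x0) (nat_lit 0x100001c00080000000000000000000000) := T_1 (nat_lit 108) (nat_lit 91) (nat_lit 4) (nat_lit 7) (nat_lit 9) L21093 (by decide +kernel)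
theorem L21095 : W_1 (nat_lit 4) (nat_lit 0x180018000c0006000000000000000000000000000) (nat_lit 0x0) (nat_lit 0x6000000100001c00080000000000000000000000) := T_1 (nat_lit 157) (nat_lit 158) (nat_lit 2) (nat_lit 4) (nat_lit 9) L21094 (by decide +kernel)
theorem L21096 : W_1 (nat_lit 5) (nat_lit 0x100018000c0006000000000000000000000000000) (nat_lit 0x0) (nat_lit 0x10000e000000100001c00080000000000000000000000) := T_1 (nat_lit 159) (nat_lit 176) (nat_lit 5) (nat_lit 7) (nat_lit 6) L21095 (by decide +kernel)
theorem L21097 : W_1 (nat_lit 6) (nat_lit 0x100018000c0002000000000000000000000000000) (nat_lit 0x0) (nat_lit 0x10000e000000100005c00280000000000000000000000) := T_1 (nat_lit 110) (nat_lit 93) (nat_lit 6) (nat_lit 7) (nat_lit 9) L21096 (by decide +kernel)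
theorem L21110 : W_1 (nat_lit 2) (nat_lit 0x18001c0004000000000000000000000000000) (nat_lit 0x0) (nat_lit 0x400600000000000000000000000000000000) := D_1 (nat_lit 129) (nat_lit 142) (nat_lit 130) (nat_lit 1) (nat_lit 10) (nat_lit 7) (nat_lit 1) (nat_lit 11) (nat_lit 7) (by decide +kernel)
theorem L21111 : W_1 (nat_lit 2) (nat_lit 0x58003c001c000300020000000000000000000) (nat_lit 0x0) (nat_lit 0x20000c0000000000000000000000) := D_1 (nat_lit 91) (nat_lit 90) (nat_lit 109) (nat_lit 3) (nat_lit 5) (nat_lit 5) (nat_lit 0) (nat_lit 10) (nat_lit 6) (by decide +kernel)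
theorem L21112 : W_1 (nat_lit 3) (nat_lit 0x58003c001c000200020000000000000000000) (nat_lit 0x0) (nat_lit 0x20001c0008000000000000000000) := T_1 (nat_lit 92) (nat_lit 75) (nat_lit 4) (nat_lit 8) (nat_lit 8) L21111 (by decide +kernel)
theorem L21113 : W_1 (nat_lit 4) (nat_lit 0x58003c001c000200000000000000000000000) (nat_lit 0x0) (nat_lit 0x20005c0028000000000000000000) := T_1 (nat_lit 77) (nat_lit 94) (nat_lit 7) (nat_lit 9) (nat_lit 4) L21112 (by decide +kernel)
theorem L21114 : W_1 (nat_lit 5) (nat_lit 0x58003c0014000200000000000000000000000) (nat_lit 0x0) (nat_lit 0x2000a0005c0028000000000000000000) := T_1 (nat_lit 111) (nat_lit 125) (nat_lit 2) (nat_lit 6) (nat_lit 7) L21113 (by decide +kernel)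
theorem L21115 : W_1 (nat_lit 6) (nat_lit 0x58003c0004000200000000000000000000000) (nat_lit 0x0) (nat_lit 0x2003a0005c0028000000000000000000) := T_1 (nat_lit 112) (nat_lit 113) (nat_lit 2) (nat_lit 7) (nat_lit 7) L21114 (by decide +kernel)
theorem L21116 : W_1 (nat_lit 7) (nat_lit 0x18003c0004000200000000000000000000000) (nat_lit 0x0) (nat_lit 0xc00002003a0005c0028000000000000000000) := T_1 (nat_lit 146) (nat_lit 147) (nat_lit 3) (nat_lit 7) (nat_lit 7) L21115 (by decide +kernel)
theorem L21117 : W_1 (nat_lit 8) (nat_lit 0x18001c0004000200000000000000000000000) (nat_lit 0x0) (nat_lit 0xc00062003a0005c0028000000000000000000) := T_1 (nat_lit 129) (nat_lit 130) (nat_lit 1) (nat_lit 11) (nat_lit 7) L21116 (by decide +kernel)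
theorem L21118 : W_1 (nat_lit 9) (nat_lit 0x18001c0004000000000000000000000000000) (nat_lit 0x0) (nat_lit 0xc00062003a0007c0038000000000000000000) := T_1 (nat_lit 93) (nat_lit 76) (nat_lit 5) (nat_lit 8) (nat_lit 4) L21117 (by decide +kernel)
theorem L21119 : W_1 (nat_lit 2) (nat_lit 0x1c001c0006000380020000000000000000000) (nat_lit 0x0) (nat_lit 0x8000060000000000000000000000) := D_1 (nat_lit 90) (nat_lit 111) (nat_lit 89) (nat_lit 3) (nat_lit 5) (nat_lit 5) (nat_lit 3) (nat_lit 4) (nat_lit 5) (by decide +kernel)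
theorem L21120 : W_1 (nat_lit 3) (nat_lit 0x1c001c0006000300020000000000000000000) (nat_lit 0x0) (nat_lit 0x80000e0004000000000000000000) := T_1 (nat_lit 91) (nat_lit 74) (nat_lit 4) (nat_lit 7) (nat_lit 8) L21119 (by decide +kernel)
theorem L21121 : W_1 (nat_lit 4) (nat_lit 0x1c001c0004000300020000000000000000000) (nat_lit 0x0) (nat_lit 0x800000000000a0000e0004000000000000000000) := T_1 (nat_lit 109) (nat_lit 159) (nat_lit 5) (nat_lit 7) (nat_lit 5) L21120 (by decide +kernel)
theorem L21122 : W_1 (nat_lit 5) (nat_lit 0x1c001c0004000300000000000000000000000) (nat_lit 0x0) (nat_lit 0x800000000000a0004e0024000000000000000000) := T_1 (nat_lit 77) (nat_lit 94) (nat_lit 6) (nat_lit 8) (nat_lit 8) L21121 (by decide +kernel)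
theorem L21123 : W_1 (nat_lit 6) (nat_lit 0x1c001c0004000200000000000000000000000) (nat_lit 0x0) (nat_lit 0x800000000000a0005e002c000000000000000000) := T_1 (nat_lit 92) (nat_lit 75) (nat_lit 4) (nat_lit 8) (nat_lit 8) L21122 (by decide +kernel)
theorem L21124 : W_1 (nat_lit 7) (nat_lit 0x1c001c0004000000000000000000000000000) (nat_lit 0x0) (nat_lit 0x800000000000a0007e003c000000000000000000) := T_1 (nat_lit 93) (nat_lit 76) (nat_lit 5) (nat_lit 8) (nat_lit 4) L21123 (by decide +kernel)
theorem L21125 : W_1 (nat_lit 8) (nat_lit 0x18001c0004000000000000000000000000000) (nat_lit 0x0) (nat_lit 0x800060000000a0007e003c000000000000000000) := T_1 (nat_lit 142) (nat_lit 141) (nat_lit 2) (nat_lit 5) (nat_lit 8) L21124 (by decide +kernel)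
theorem L21126 : W_1 (nat_lit 10) (nat_lit 0x18000c0004000000000000000000000000000) (nat_lit 0x0) (nat_lit 0x800c60072003a0007e003c000000000000000000) := Q_1 (nat_lit 128) (C_1 L21110 (C_1 L21118 (C_1 L21125 N_1))) (by decide +kernel)
theorem L21197 : W_1 (nat_lit 2) (nat_lit 0x100018000c0000000000000000000000000000000) (nat_lit 0x0) (nat_lit 0x4000200000000000000004000000000000000000000000000) := D_1 (nat_lit 177) (nat_lit 194) (nat_lit 110) (nat_lit 6) (nat_lit 7) (nat_lit 11) (nat_lit 6) (nat_lit 7) (nat_lit 10) (by decide +kernel)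
theorem L21198 : W_1 (nat_lit 2) (nat_lit 0x7000180018000c0000000000000000000000000000000) (nat_lit 0x0) (nat_lit 0x800006000000000000000000000000000000000000000) := D_1 (nat_lit 158) (nat_lit 157) (nat_lit 179) (nat_lit 3) (nat_lit 4) (nat_lit 9) (nat_lit 0) (nat_lit 9) (nat_lit 10) (by decide +kernel)
theorem L21199 : W_1 (nat_lit 3) (nat_lit 0x3000180018000c0000000000000000000000000000000) (nat_lit 0x0) (nat_lit 0x8000c00006000000000000000000000000000000000000000) := T_1 (nat_lit 178) (nat_lit 195) (nat_lit 7) (nat_lit 7) (nat_lit 7) L21198 (by decide +kernel)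
theorem L21200 : W_1 (nat_lit 4) (nat_lit 0x3000100018000c0000000000000000000000000000000) (nat_lit 0x0) (nat_lit 0x8000c0000e000000000002000000000000000000000000000) := T_1 (nat_lit 159) (nat_lit 109) (nat_lit 5) (nat_lit 7) (nat_lit 6) L21199 (by decide +kernel)
theorem L21201 : W_1 (nat_lit 5) (nat_lit 0x2000100018000c0000000000000000000000000000000) (nat_lit 0x0) (nat_lit 0xa000d0000e000000000002000000000000000000000000000) := T_1 (nat_lit 176) (nat_lit 193) (nat_lit 5) (nat_lit 7) (nat_lit 7) L21200 (by decide +kernel)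
theorem L21202 : W_1 (nat_lit 6) (nat_lit 0x100018000c0000000000000000000000000000000) (nat_lit 0x0) (nat_lit 0xe000f0000e000000000002000000000000000000000000000) := T_1 (nat_lit 177) (nat_lit 194) (nat_lit 6) (nat_lit 7) (nat_lit 11) L21201 (by decide +kernel)
theorem L21215 : W_1 (nat_lit 2) (nat_lit 0x100018000c0002000100000000000000000000000) (nat_lit 0x0) (nat_lit 0x100008000400000000000000000000000000000000000) := D_1 (nat_lit 159) (nat_lit 176) (nat_lit 142) (nat_lit 5) (nat_lit 7) (nat_lit 6) (nat_lit 5) (nat_lit 7) (nat_lit 5) (by decide +kernel)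
theorem L21216 : W_1 (nat_lit 3) (nat_lit 0x100018000c0002000000000000000000000000000) (nat_lit 0x0) (nat_lit 0x100008000400000000000100008000000000000000000) := T_1 (nat_lit 92) (nat_lit 75) (nat_lit 7) (nat_lit 7) (nat_lit 4) L21215 (by decide +kernel)
theorem L21219 : W_1 (nat_lit 2) (nat_lit 0x180018000c0002000200000000000000000000000) (nat_lit 0x0) (nat_lit 0x100018000000000000000000) := D_1 (nat_lit 92) (nat_lit 76) (nat_lit 75) (nat_lit 6) (nat_lit 7) (nat_lit 8) (nat_lit 7) (nat_lit 7) (nat_lit 4) (by decide +kernel)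
theorem L21220 : W_1 (nat_lit 3) (nat_lit 0x180018000c0000000200000000000000000000000) (nat_lit 0x0) (nat_lit 0x100000000000000002000100018000000000000000000) := T_1 (nat_lit 109) (nat_lit 176) (nat_lit 5) (nat_lit 7) (nat_lit 6) L21219 (by decide +kernel)
theorem L21221 : W_1 (nat_lit 4) (nat_lit 0x180018000c0000000000000000000000000000000) (nat_lit 0x0) (nat_lit 0x100000000000000006000300018000000000000000000) := T_1 (nat_lit 93) (nat_lit 110) (nat_lit 5) (nat_lit 8) (nat_lit 5) L21220 (by decide +kernel)
theorem L21226 : W_1 (nat_lit 2) (nat_lit 0x180018000c0002000000000000000000000000000) (nat_lit 0x0) (nat_lit 0x400000000000100008000000000000000000) := D_1 (nat_lit 92) (nat_lit 142) (nat_lit 75) (nat_lit 5) (nat_lit 7) (nat_lit 5) (nat_lit 7) (nat_lit 7) (nat_lit 4) (by decide +kernel)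
theorem L21227 : W_1 (nat_lit 3) (nat_lit 0x180018000c0000000000000000000000000000000) (nat_lit 0x0) (nat_lit 0x100000000400000002000100008000000000000000000) := T_1 (nat_lit 109) (nat_lit 176) (nat_lit 5) (nat_lit 7) (nat_lit 6) L21226 (by decide +kernel)
theorem L21265 : W_1 (nat_lit 2) (nat_lit 0x100018001c0000000000000000000000000000000) (nat_lit 0x0) (nat_lit 0x4000200000000000000004000000000000000000000000000) := D_1 (nat_lit 177) (nat_lit 194) (nat_lit 110) (nat_lit 6) (nat_lit 7) (nat_lit 11) (nat_lit 6) (nat_lit 7) (nat_lit 10) (by decide +kernel)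
theorem L21295 : W_1 (nat_lit 2) (nat_lit 0x1c001c0002000000000000000000000000000) (nat_lit 0x0) (nat_lit 0x8000000000000000100008000000000000000000) := D_1 (nat_lit 92) (nat_lit 75) (nat_lit 159) (nat_lit 7) (nat_lit 7) (nat_lit 4) (nat_lit 5) (nat_lit 7) (nat_lit 5) (by decide +kernel)
theorem L21296 : W_1 (nat_lit 3) (nat_lit 0x18001c0002000000000000000000000000000) (nat_lit 0x0) (nat_lit 0x8000600000000000100008000000000000000000) := T_1 (nat_lit 142) (nat_lit 141) (nat_lit 2) (nat_lit 5) (nat_lit 8) L21295 (by decide +kernel)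
theorem L21361 : W_1 (nat_lit 2) (nat_lit 0x1a000d0000000000000000000000000000000) (nat_lit 0x0) (nat_lit 0x100028000000000000000000000000000000) := D_1 (nat_lit 125) (nat_lit 140) (nat_lit 123) (nat_lit 1) (nat_lit 8) (nat_lit 7) (nat_lit 3) (nat_lit 4) (nat_lit 7) (by decide +kernel)
theorem L21398 : W_1 (nat_lit 2) (nat_lit 0x180018000c0002000100014000000000000000000) (nat_lit 0x0) (nat_lit 0x4000200000000000000004000000000000000000000000000) := D_1 (nat_lit 177) (nat_lit 110) (nat_lit 194) (nat_lit 6) (nat_lit 7) (nat_lit 10) (nat_lit 6) (nat_lit 7) (nat_lit 11) (by decide +kernel)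
theorem L21399 : W_1 (nat_lit 3) (nat_lit 0x80018000c0002000100014000000000000000000) (nat_lit 0x0) (nat_lit 0x4000300010000000000004000000000000000000000000000) := T_1 (nat_lit 160) (nat_lit 176) (nat_lit 5) (nat_lit 7) (nat_lit 6) L21398 (by decide +kernel)
theorem L21400 : W_1 (nat_lit 4) (nat_lit 0x80018000c0002000100010000000000000000000) (nat_lit 0x0) (nat_lit 0x4000300010000000000004000080004000000000000000000) := T_1 (nat_lit 74) (nat_lit 91) (nat_lit 4) (nat_lit 7) (nat_lit 8) L21399 (by decide +kernel)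
theorem L21401 : W_1 (nat_lit 5) (nat_lit 0x18000c0002000100010000000000000000000) (nat_lit 0x0) (nat_lit 0x4000300018000400000004000080004000000000000000000) := T_1 (nat_lit 159) (nat_lit 142) (nat_lit 5) (nat_lit 7) (nat_lit 5) L21400 (by decide +kernel)
theorem L21402 : W_1 (nat_lit 6) (nat_lit 0x18000c0002000100000000000000000000000) (nat_lit 0x0) (nat_lit 0x4000300018000400000004000280014000000000000000000) := T_1 (nat_lit 76) (nat_lit 93) (nat_lit 6) (nat_lit 7) (nat_lit 8) L21401 (by decide +kernel)
theorem L21403 : W_1 (nat_lit 7) (nat_lit 0x18000c0002000000000000000000000000000) (nat_lit 0x0) (nat_lit 0x400030001800040000000400038001c000000000000000000) := T_1 (nat_lit 92) (nat_lit 75) (nat_lit 7) (nat_lit 7) (nat_lit 4) L21402 (by decide +kernel)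
theorem L21472 : W_1 (nat_lit 2) (nat_lit 0x18003e0000000000000000000000000000000) (nat_lit 0x0) (nat_lit 0x38000000000000000000000000000) := D_1 (nat_lit 112) (nat_lit 111) (nat_lit 113) (nat_lit 2) (nat_lit 6) (nat_lit 7) (nat_lit 2) (nat_lit 7) (nat_lit 7) (by decide +kernel)
theorem L21473 : W_1 (nat_lit 3) (nat_lit 0x18001e0000000000000000000000000000000) (nat_lit 0x0) (nat_lit 0x600038000000000000000000000000000) := T_1 (nat_lit 129) (nat_lit 130) (nat_lit 1) (nat_lit 11) (nat_lit 7) L21472 (by decide +kernel)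
theorem L21476 : W_1 (nat_lit 2) (nat_lit 0x7000180018000e0000000000000000000000000000000) (nat_lit 0x0) (nat_lit 0x800006000000000000000000000000000000000000000) := D_1 (nat_lit 158) (nat_lit 157) (nat_lit 179) (nat_lit 3) (nat_lit 4) (nat_lit 9) (nat_lit 0) (nat_lit 9) (nat_lit 10) (by decide +kernel)
theorem L21477 : W_1 (nat_lit 3) (nat_lit 0x3000180018000e0000000000000000000000000000000) (nat_lit 0x0) (nat_lit 0x8000c00006000000000000000000000000000000000000000) := T_1 (nat_lit 178) (nat_lit 195) (nat_lit 7) (nat_lit 7) (nat_lit 7) L21476 (by decide +kernel)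
theorem L21478 : W_1 (nat_lit 4) (nat_lit 0x3000100018000e0000000000000000000000000000000) (nat_lit 0x0) (nat_lit 0x8000c0000e000000000002000000000000000000000000000) := T_1 (nat_lit 159) (nat_lit 109) (nat_lit 5) (nat_lit 7) (nat_lit 6) L21477 (by decide +kernel)
theorem L21479 : W_1 (nat_lit 5) (nat_lit 0x2000100018000e0000000000000000000000000000000) (nat_lit 0x0) (nat_lit 0xa000d0000e000000000002000000000000000000000000000) := T_1 (nat_lit 176) (nat_lit 193) (nat_lit 5) (nat_lit 7) (nat_lit 7) L21478 (by decide +kernel)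
theorem L21480 : W_1 (nat_lit 6) (nat_lit 0x100018000e0000000000000000000000000000000) (nat_lit 0x0) (nat_lit 0xe000f0000e000000000002000000000000000000000000000) := T_1 (nat_lit 177) (nat_lit 194) (nat_lit 6) (nat_lit 7) (nat_lit 11) L21479 (by decide +kernel)
theorem L21493 : W_1 (nat_lit 2) (nat_lit 0x18000e0016000700004000000000000000000) (nat_lit 0x0) (nat_lit 0x20001800000000000000000000000) := D_1 (nat_lit 95) (nat_lit 96) (nat_lit 113) (nat_lit 1) (nat_lit 11) (nat_lit 5) (nat_lit 3) (nat_lit 7) (nat_lit 5) (by decide +kernel)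
theorem L21494 : W_1 (nat_lit 3) (nat_lit 0x18000e0006000700004000000000000000000) (nat_lit 0x0) (nat_lit 0x38001800000000000000000000000) := T_1 (nat_lit 112) (nat_lit 111) (nat_lit 1) (nat_lit 10) (nat_lit 6) L21493 (by decide +kernel)
theorem L21495 : W_1 (nat_lit 4) (nat_lit 0x18000e0006000300004000000000000000000) (nat_lit 0x0) (nat_lit 0x38001c00020000000000000000000) := T_1 (nat_lit 94) (nat_lit 77) (nat_lit 6) (nat_lit 8) (nat_lit 8) L21494 (by decide +kernel)
theorem L21496 : W_1 (nat_lit 5) (nat_lit 0x18000e0002000300004000000000000000000) (nat_lit 0x0) (nat_lit 0x1000000000003c001c00020000000000000000000) := T_1 (nat_lit 110) (nat_lit 160) (nat_lit 6) (nat_lit 7) (nat_lit 9) L21495 (by decide +kernel)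
theorem L21497 : W_1 (nat_lit 6) (nat_lit 0x18000e0002000300000000000000000000000) (nat_lit 0x0) (nat_lit 0x1000000000003c001c80024000000000000000000) := T_1 (nat_lit 74) (nat_lit 91) (nat_lit 4) (nat_lit 7) (nat_lit 8) L21496 (by decide +kernel)
theorem L21498 : W_1 (nat_lit 7) (nat_lit 0x18000e0002000100000000000000000000000) (nat_lit 0x0) (nat_lit 0x1000000000003c001e80034000000000000000000) := T_1 (nat_lit 93) (nat_lit 76) (nat_lit 6) (nat_lit 7) (nat_lit 8) L21497 (by decide +kernel)
theorem L21499 : W_1 (nat_lit 8) (nat_lit 0x18000e0002000000000000000000000000000) (nat_lit 0x0) (nat_lit 0x1000000000003c001f8003c000000000000000000) := T_1 (nat_lit 92) (nat_lit 75) (nat_lit 7) (nat_lit 7) (nat_lit 4) L21498 (by decide +kernel)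
theorem L21550 : W_1 (nat_lit 2) (nat_lit 0x1a000d0000000000000000000000000000000) (nat_lit 0x0) (nat_lit 0x500008000000000000000000000000000000) := D_1 (nat_lit 142) (nat_lit 123) (nat_lit 140) (nat_lit 0) (nat_lit 8) (nat_lit 8) (nat_lit 2) (nat_lit 4) (nat_lit 8) (by decide +kernel)
theorem L21620 : W_1 (nat_lit 2) (nat_lit 0x90007c0018000000000000000000000000000) (nat_lit 0x0) (nat_lit 0x800006000000000000000000000000000) := D_1 (nat_lit 110) (nat_lit 109) (nat_lit 131) (nat_lit 3) (nat_lit 7) (nat_lit 6) (nat_lit 0) (nat_lit 12) (nat_lit 7) (by decide +kernel)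
theorem L21621 : W_1 (nat_lit 3) (nat_lit 0x90003c0018000000000000000000000000000) (nat_lit 0x0) (nat_lit 0x10000c00006000000000000000000000000000) := T_1 (nat_lit 130) (nat_lit 148) (nat_lit 3) (nat_lit 8) (nat_lit 7) L21620 (by decide +kernel)
theorem L21622 : W_1 (nat_lit 4) (nat_lit 0x90003c0010000000000000000000000000000) (nat_lit 0x0) (nat_lit 0x10000c2000e000000000000000000000000000) := T_1 (nat_lit 111) (nat_lit 125) (nat_lit 2) (nat_lit 6) (nat_lit 7) L21621 (by decide +kernel)
theorem L21623 : W_1 (nat_lit 5) (nat_lit 0x90003c0000000000000000000000000000000) (nat_lit 0x0) (nat_lit 0x10000c2003e000000000000000000000000000) := T_1 (nat_lit 112) (nat_lit 113) (nat_lit 2) (nat_lit 7) (nat_lit 7) L21622 (by decide +kernel)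
theorem L21624 : W_1 (nat_lit 6) (nat_lit 0x10003c0000000000000000000000000000000) (nat_lit 0x0) (nat_lit 0x1c000c2003e000000000000000000000000000) := T_1 (nat_lit 147) (nat_lit 146) (nat_lit 3) (nat_lit 7) (nat_lit 7) L21623 (by decide +kernel)
theorem L21625 : W_1 (nat_lit 7) (nat_lit 0x10001c0000000000000000000000000000000) (nat_lit 0x0) (nat_lit 0x1ce00e2003e000000000000000000000000000) := Q_1 (nat_lit 129) (C_1 L2022 (C_1 L2603 (C_1 L21624 N_1))) (by decide +kernel)
theorem L21626 : W_1 (nat_lit 2) (nat_lit 0x10001f0000800000000000000000000000000) (nat_lit 0x0) (nat_lit 0x1c000000000000000000000000000) := D_1 (nat_lit 111) (nat_lit 112) (nat_lit 110) (nat_lit 2) (nat_lit 6) (nat_lit 7) (nat_lit 2) (nat_lit 5) (nat_lit 7) (by decide +kernel)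
theorem L21627 : W_1 (nat_lit 3) (nat_lit 0x10001e0000800000000000000000000000000) (nat_lit 0x0) (nat_lit 0x1001c400000000000000000000000000) := T_1 (nat_lit 124) (nat_lit 106) (nat_lit 0) (nat_lit 8) (nat_lit 7) L21626 (by decide +kernel)
theorem L21628 : W_1 (nat_lit 4) (nat_lit 0x10001e0000000000000000000000000000000) (nat_lit 0x0) (nat_lit 0x1001dc00000000000000000000000000) := T_1 (nat_lit 107) (nat_lit 108) (nat_lit 0) (nat_lit 9) (nat_lit 7) L21627 (by decide +kernel)
theorem L21629 : W_1 (nat_lit 2) (nat_lit 0x12001f0000000000000000000000000000000) (nat_lit 0x0) (nat_lit 0x1c00000000000000000000000000) := D_1 (nat_lit 107) (nat_lit 106) (nat_lit 108) (nat_lit 0) (nat_lit 8) (nat_lit 7) (nat_lit 0) (nat_lit 9) (nat_lit 7) (by decide +kernel)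
theorem L21630 : W_1 (nat_lit 3) (nat_lit 0x12001e0000000000000000000000000000000) (nat_lit 0x0) (nat_lit 0x100010001c00000000000000000000000000) := T_1 (nat_lit 124) (nat_lit 140) (nat_lit 1) (nat_lit 8) (nat_lit 7) L21629 (by decide +kernel)
theorem L21631 : W_1 (nat_lit 4) (nat_lit 0x10001e0000000000000000000000000000000) (nat_lit 0x0) (nat_lit 0x700010001c00000000000000000000000000) := T_1 (nat_lit 141) (nat_lit 142) (nat_lit 1) (nat_lit 9) (nat_lit 7) L21630 (by decide +kernel)
theorem L21632 : W_1 (nat_lit 2) (nat_lit 0x10001f0008000000000000000000000000000) (nat_lit 0x0) (nat_lit 0x700000000000000000000000000000000000) := D_1 (nat_lit 141) (nat_lit 142) (nat_lit 140) (nat_lit 1) (nat_lit 9) (nat_lit 7) (nat_lit 1) (nat_lit 8) (nat_lit 7) (by decide +kernel)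
theorem L21633 : W_1 (nat_lit 3) (nat_lit 0x10001e0008000000000000000000000000000) (nat_lit 0x0) (nat_lit 0x700010004000000000000000000000000000) := T_1 (nat_lit 124) (nat_lit 110) (nat_lit 2) (nat_lit 5) (nat_lit 7) L21632 (by decide +kernel)
theorem L21634 : W_1 (nat_lit 4) (nat_lit 0x10001e0000000000000000000000000000000) (nat_lit 0x0) (nat_lit 0x70001001c000000000000000000000000000) := T_1 (nat_lit 111) (nat_lit 112) (nat_lit 2) (nat_lit 6) (nat_lit 7) L21633 (by decide +kernel)
theorem L21635 : W_1 (nat_lit 8) (nat_lit 0x10001c0000000000000000000000000000000) (nat_lit 0x0) (nat_lit 0x800070023001fc00500028000000000000000000) := Q_1 (nat_lit 125) (C_1 L1618 (C_1 L20941 (C_1 L21628 (C_1 L21631 (C_1 L21634 N_1))))) (by decide +kernel)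
theorem L21636 : W_1 (nat_lit 7) (nat_lit 0x10001c0000000000000000000000000000000) (nat_lit 0x0) (nat_lit 0x1c800e2007f800000000000000000000000000) := Q_1 (nat_lit 129) (C_1 L2034 (C_1 L2022 (C_1 L21624 (C_1 L2345 N_1)))) (by decide +kernel)
theorem L21637 : W_1 (nat_lit 8) (nat_lit 0x10001c0000000000000000000000000000000) (nat_lit 0x0) (nat_lit 0x20001000cf0063803dc00080000000000000000000000) := Q_1 (nat_lit 143) (C_1 L2678 (C_1 L21091 (C_1 L21089 N_1))) (by decide +kernel)
theorem L21638 : W_1 (nat_lit 2) (nat_lit 0x58003c0016000f00044002000300000000000) (nat_lit 0x0) (nat_lit 0x1000080004000000) := D_1 (nat_lit 43) (nat_lit 60) (nat_lit 26) (nat_lit 4) (nat_lit 10) (nat_lit 6) (nat_lit 4) (nat_lit 10) (nat_lit 5) (by decide +kernel)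
theorem L21639 : W_1 (nat_lit 3) (nat_lit 0x58003c0016000f00044002000200000000000) (nat_lit 0x0) (nat_lit 0x1000180014000000) := T_1 (nat_lit 44) (nat_lit 28) (nat_lit 6) (nat_lit 10) (nat_lit 5) L21638 (by decide +kernel)
theorem L21640 : W_1 (nat_lit 4) (nat_lit 0x58003c0016000f00044002000000000000000) (nat_lit 0x0) (nat_lit 0x5000380014000000) := T_1 (nat_lit 45) (nat_lit 62) (nat_lit 6) (nat_lit 10) (nat_lit 6) L21639 (by decide +kernel)
theorem L21641 : W_1 (nat_lit 5) (nat_lit 0x58003c0016000f00044000000000000000000) (nat_lit 0x0) (nat_lit 0x8000000000007000380014000000) := T_1 (nat_lit 61) (nat_lit 111) (nat_lit 5) (nat_lit 10) (nat_lit 3) L21640 (by decide +kernel)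
theorem L21642 : W_1 (nat_lit 6) (nat_lit 0x58003c0016000f00004000000000000000000) (nat_lit 0x0) (nat_lit 0x80000000c0007000380014000000) := T_1 (nat_lit 78) (nat_lit 79) (nat_lit 2) (nat_lit 7) (nat_lit 5) L21641 (by decide +kernel)
theorem L21643 : W_1 (nat_lit 7) (nat_lit 0x58003c0016000700004000000000000000000) (nat_lit 0x0) (nat_lit 0x80018000c0007000380014000000) := T_1 (nat_lit 95) (nat_lit 96) (nat_lit 1) (nat_lit 11) (nat_lit 5) L21642 (by decide +kernel)
theorem L21644 : W_1 (nat_lit 8) (nat_lit 0x58003c0016000300004000000000000000000) (nat_lit 0x0) (nat_lit 0x8001c000e0007000380014000000) := T_1 (nat_lit 94) (nat_lit 77) (nat_lit 6) (nat_lit 8) (nat_lit 8) L21643 (by decide +kernel)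
theorem L21645 : W_1 (nat_lit 9) (nat_lit 0x58003c0012000300004000000000000000000) (nat_lit 0x0) (nat_lit 0x1000000000000c001c000e0007000380014000000) := T_1 (nat_lit 110) (nat_lit 160) (nat_lit 6) (nat_lit 7) (nat_lit 9) L21644 (by decide +kernel)
theorem L21646 : W_1 (nat_lit 10) (nat_lit 0x58003c0012000300000000000000000000000) (nat_lit 0x0) (nat_lit 0x1000000000000c001c800e4007000380014000000) := T_1 (nat_lit 74) (nat_lit 91) (nat_lit 4) (nat_lit 7) (nat_lit 8) L21645 (by decide +kernel)
theorem L21647 : W_1 (nat_lit 11) (nat_lit 0x58003c0012000100000000000000000000000) (nat_lit 0x0) (nat_lit 0x1000000000000c001e800f4007000380014000000) := T_1 (nat_lit 93) (nat_lit 76) (nat_lit 6) (nat_lit 7) (nat_lit 8) L21646 (by decide +kernel)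
theorem L21648 : W_1 (nat_lit 12) (nat_lit 0x58003c0012000000000000000000000000000) (nat_lit 0x0) (nat_lit 0x1000000000000c001f800fc007000380014000000) := T_1 (nat_lit 92) (nat_lit 75) (nat_lit 7) (nat_lit 7) (nat_lit 4) L21647 (by decide +kernel)
theorem L21649 : W_1 (nat_lit 13) (nat_lit 0x18003c0012000000000000000000000000000) (nat_lit 0x0) (nat_lit 0x1000c00000000c001f800fc007000380014000000) := T_1 (nat_lit 146) (nat_lit 147) (nat_lit 3) (nat_lit 7) (nat_lit 7) L21648 (by decide +kernel)
theorem L21650 : W_1 (nat_lit 14) (nat_lit 0x18003c0002000000000000000000000000000) (nat_lit 0x0) (nat_lit 0x1000c00000003c001f800fc007000380014000000) := T_1 (nat_lit 112) (nat_lit 113) (nat_lit 2) (nat_lit 7) (nat_lit 7) L21649 (by decide +kernel)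
theorem L21651 : W_1 (nat_lit 15) (nat_lit 0x10003c0002000000000000000000000000000) (nat_lit 0x0) (nat_lit 0x1000cc0000003c001f800fc007000380014000000) := T_1 (nat_lit 143) (nat_lit 142) (nat_lit 1) (nat_lit 10) (nat_lit 7) L21650 (by decide +kernel)
theorem L21652 : W_1 (nat_lit 16) (nat_lit 0x10003c0000000000000000000000000000000) (nat_lit 0x0) (nat_lit 0x1000cc0000003f001f800fc007000380014000000) := T_1 (nat_lit 109) (nat_lit 108) (nat_lit 0) (nat_lit 10) (nat_lit 7) L21651 (by decide +kernel)
theorem L21653 : W_1 (nat_lit 17) (nat_lit 0x10001c0000000000000000000000000000000) (nat_lit 0x0) (nat_lit 0x1001cc0060007f001f800fc007000380014000000) := Q_1 (nat_lit 129) (C_1 L2022 (C_1 L2034 (C_1 L1992 (C_1 L21652 N_1)))) (by decide +kernel)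
theorem L21654 : W_1 (nat_lit 2) (nat_lit 0x18001e0009000080000000000000000000000) (nat_lit 0x0) (nat_lit 0x200010000000000002000000000000000000000000000) := D_1 (nat_lit 160) (nat_lit 177) (nat_lit 109) (nat_lit 4) (nat_lit 7) (nat_lit 10) (nat_lit 4) (nat_lit 7) (nat_lit 9) (by decide +kernel)
theorem L21655 : W_1 (nat_lit 3) (nat_lit 0x18001e0009000000000000000000000000000) (nat_lit 0x0) (nat_lit 0x200010000000000002000080004000000000000000000) := T_1 (nat_lit 91) (nat_lit 74) (nat_lit 7) (nat_lit 6) (nat_lit 4) L21654 (by decide +kernel)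
theorem L21656 : W_1 (nat_lit 4) (nat_lit 0x18001e0001000000000000000000000000000) (nat_lit 0x0) (nat_lit 0x20001000000000001a000080004000000000000000000) := T_1 (nat_lit 111) (nat_lit 112) (nat_lit 2) (nat_lit 6) (nat_lit 7) L21655 (by decide +kernel)
theorem L21657 : W_1 (nat_lit 5) (nat_lit 0x18001e0000000000000000000000000000000) (nat_lit 0x0) (nat_lit 0x20001000000000001b800080004000000000000000000) := T_1 (nat_lit 108) (nat_lit 107) (nat_lit 0) (nat_lit 9) (nat_lit 7) L21656 (by decide +kernel)
theorem L21658 : W_1 (nat_lit 2) (nat_lit 0x14001e000a000100020000000000000000000) (nat_lit 0x0) (nat_lit 0x100008000800000000000000000000000000000000000) := D_1 (nat_lit 159) (nat_lit 176) (nat_lit 143) (nat_lit 6) (nat_lit 6) (nat_lit 10) (nat_lit 5) (nat_lit 7) (nat_lit 5) (by decide +kernel)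
theorem L21659 : W_1 (nat_lit 3) (nat_lit 0x10001e000a000100020000000000000000000) (nat_lit 0x0) (nat_lit 0x100008000e00000000000000000000000000000000000) := T_1 (nat_lit 142) (nat_lit 141) (nat_lit 1) (nat_lit 9) (nat_lit 7) L21658 (by decide +kernel)
theorem L21660 : W_1 (nat_lit 4) (nat_lit 0x10001e000a000000020000000000000000000) (nat_lit 0x0) (nat_lit 0x100008000e00000000000100008000000000000000000) := T_1 (nat_lit 92) (nat_lit 75) (nat_lit 7) (nat_lit 7) (nat_lit 4) L21659 (by decide +kernel)
theorem L21661 : W_1 (nat_lit 5) (nat_lit 0x10001e000a000000000000000000000000000) (nat_lit 0x0) (nat_lit 0x100008000e00000000000500028000000000000000000) := T_1 (nat_lit 77) (nat_lit 94) (nat_lit 5) (nat_lit 9) (nat_lit 4) L21660 (by decide +kernel)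
theorem L21662 : W_1 (nat_lit 6) (nat_lit 0x10001e0002000000000000000000000000000) (nat_lit 0x0) (nat_lit 0x100008000e00000018000500028000000000000000000) := T_1 (nat_lit 111) (nat_lit 112) (nat_lit 2) (nat_lit 6) (nat_lit 7) L21661 (by decide +kernel)
theorem L21663 : W_1 (nat_lit 2) (nat_lit 0x12001e000f000480008000000000000000000) (nat_lit 0x0) (nat_lit 0x4000600000000000000) := D_1 (nat_lit 74) (nat_lit 58) (nat_lit 57) (nat_lit 6) (nat_lit 6) (nat_lit 7) (nat_lit 7) (nat_lit 6) (nat_lit 3) (by decide +kernel)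
theorem L21664 : W_1 (nat_lit 3) (nat_lit 0x12001e000f000400008000000000000000000) (nat_lit 0x0) (nat_lit 0xc0004000600000000000000) := T_1 (nat_lit 91) (nat_lit 90) (nat_lit 0) (nat_lit 9) (nat_lit 6) L21663 (by decide +kernel)
theorem L21665 : W_1 (nat_lit 4) (nat_lit 0x12001e000b000400008000000000000000000) (nat_lit 0x0) (nat_lit 0x40008c0004000600000000000000) := T_1 (nat_lit 110) (nat_lit 95) (nat_lit 2) (nat_lit 6) (nat_lit 6) L21664 (by decide +kernel)
theorem L21666 : W_1 (nat_lit 5) (nat_lit 0x12001e000b000400000000000000000000000) (nat_lit 0x0) (nat_lit 0x40009c000c000600000000000000) := T_1 (nat_lit 75) (nat_lit 92) (nat_lit 7) (nat_lit 7) (nat_lit 4) L21665 (by decide +kernel)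
theorem L21667 : W_1 (nat_lit 6) (nat_lit 0x12001e000b000000000000000000000000000) (nat_lit 0x0) (nat_lit 0x4000dc002c000600000000000000) := T_1 (nat_lit 94) (nat_lit 77) (nat_lit 5) (nat_lit 9) (nat_lit 4) L21666 (by decide +kernel)
theorem L21668 : W_1 (nat_lit 7) (nat_lit 0x12001e0003000000000000000000000000000) (nat_lit 0x0) (nat_lit 0x1c000dc002c000600000000000000) := T_1 (nat_lit 111) (nat_lit 112) (nat_lit 2) (nat_lit 6) (nat_lit 7) L21667 (by decide +kernel)
theorem L21669 : W_1 (nat_lit 8) (nat_lit 0x12001e0002000000000000000000000000000) (nat_lit 0x0) (nat_lit 0x1d800dc002c000600000000000000) := T_1 (nat_lit 108) (nat_lit 107) (nat_lit 0) (nat_lit 9) (nat_lit 7) L21668 (by decide +kernel)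
theorem L21670 : W_1 (nat_lit 9) (nat_lit 0x10001e0002000000000000000000000000000) (nat_lit 0x0) (nat_lit 0x60000001d800dc002c000600000000000000) := T_1 (nat_lit 141) (nat_lit 142) (nat_lit 1) (nat_lit 9) (nat_lit 7) L21669 (by decide +kernel)
theorem L21671 : W_1 (nat_lit 2) (nat_lit 0x10001e000f000480008000000000000000000) (nat_lit 0x0) (nat_lit 0x10000800000000000000004000000000000000000) := D_1 (nat_lit 143) (nat_lit 160) (nat_lit 74) (nat_lit 4) (nat_lit 7) (nat_lit 9) (nat_lit 7) (nat_lit 6) (nat_lit 4) (by decide +kernel)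
theorem L21672 : W_1 (nat_lit 3) (nat_lit 0x10001e000f000400008000000000000000000) (nat_lit 0x0) (nat_lit 0x100008000000000000c0004000000000000000000) := T_1 (nat_lit 91) (nat_lit 90) (nat_lit 0) (nat_lit 9) (nat_lit 6) L21671 (by decide +kernel)
theorem L21673 : W_1 (nat_lit 4) (nat_lit 0x10001e000b000400008000000000000000000) (nat_lit 0x0) (nat_lit 0x100008000000040008c0004000000000000000000) := T_1 (nat_lit 110) (nat_lit 95) (nat_lit 2) (nat_lit 6) (nat_lit 6) L21672 (by decide +kernel)
theorem L21674 : W_1 (nat_lit 5) (nat_lit 0x10001e000b000000008000000000000000000) (nat_lit 0x0) (nat_lit 0x10000800000004000cc0024000000000000000000) := T_1 (nat_lit 94) (nat_lit 77) (nat_lit 5) (nat_lit 9) (nat_lit 4) L21673 (by decide +kernel)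
theorem L21675 : W_1 (nat_lit 6) (nat_lit 0x10001e0003000000008000000000000000000) (nat_lit 0x0) (nat_lit 0x1000080000001c000cc0024000000000000000000) := T_1 (nat_lit 111) (nat_lit 112) (nat_lit 2) (nat_lit 6) (nat_lit 7) L21674 (by decide +kernel)
theorem L21676 : W_1 (nat_lit 7) (nat_lit 0x10001e0002000000008000000000000000000) (nat_lit 0x0) (nat_lit 0x1000080000001d800cc0024000000000000000000) := T_1 (nat_lit 108) (nat_lit 107) (nat_lit 0) (nat_lit 9) (nat_lit 7) L21675 (by decide +kernel)
theorem L21677 : W_1 (nat_lit 8) (nat_lit 0x10001e0002000000000000000000000000000) (nat_lit 0x0) (nat_lit 0x1000080000001d800dc002c000000000000000000) := T_1 (nat_lit 75) (nat_lit 92) (nat_lit 7) (nat_lit 7) (nat_lit 4) L21676 (by decide +kernel)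
theorem L21678 : W_1 (nat_lit 2) (nat_lit 0x180014001e000b000080008000000000000000000) (nat_lit 0x0) (nat_lit 0x4000600000000000000) := D_1 (nat_lit 74) (nat_lit 57) (nat_lit 58) (nat_lit 7) (nat_lit 6) (nat_lit 3) (nat_lit 6) (nat_lit 6) (nat_lit 7) (by decide +kernel)
theorem L21679 : W_1 (nat_lit 3) (nat_lit 0x180014001e000b000000008000000000000000000) (nat_lit 0x0) (nat_lit 0x800000000000080004000600000000000000) := T_1 (nat_lit 91) (nat_lit 143) (nat_lit 7) (nat_lit 6) (nat_lit 5) L21678 (by decide +kernel)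
theorem L21680 : W_1 (nat_lit 4) (nat_lit 0x80014001e000b000000008000000000000000000) (nat_lit 0x0) (nat_lit 0x200010000800000000000080004000600000000000000) := T_1 (nat_lit 160) (nat_lit 177) (nat_lit 7) (nat_lit 6) (nat_lit 6) L21679 (by decide +kernel)
theorem L21681 : W_1 (nat_lit 5) (nat_lit 0x80014001e000a000000008000000000000000000) (nat_lit 0x0) (nat_lit 0x200010000800000001800080004000600000000000000) := T_1 (nat_lit 108) (nat_lit 107) (nat_lit 0) (nat_lit 9) (nat_lit 7) L21680 (by decide +kernel)
theorem L21682 : W_1 (nat_lit 6) (nat_lit 0x14001e000a000000008000000000000000000) (nat_lit 0x0) (nat_lit 0x300018000800000001800080004000600000000000000) := T_1 (nat_lit 159) (nat_lit 176) (nat_lit 6) (nat_lit 6) (nat_lit 10) L21681 (by decide +kernel)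
theorem L21683 : W_1 (nat_lit 7) (nat_lit 0x14001e000a000000000000000000000000000) (nat_lit 0x0) (nat_lit 0x30001800080000000180018000c000600000000000000) := T_1 (nat_lit 75) (nat_lit 92) (nat_lit 7) (nat_lit 7) (nat_lit 4) L21682 (by decide +kernel)
theorem L21684 : W_1 (nat_lit 8) (nat_lit 0x10001e000a000000000000000000000000000) (nat_lit 0x0) (nat_lit 0x300018000e0000000180018000c000600000000000000) := T_1 (nat_lit 142) (nat_lit 141) (nat_lit 1) (nat_lit 9) (nat_lit 7) L21683 (by decide +kernel)
theorem L21685 : W_1 (nat_lit 9) (nat_lit 0x10001e0002000000000000000000000000000) (nat_lit 0x0) (nat_lit 0x300018000e0000001980018000c000600000000000000) := T_1 (nat_lit 111) (nat_lit 112) (nat_lit 2) (nat_lit 6) (nat_lit 7) L21684 (by decide +kernel)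
theorem L21686 : W_1 (nat_lit 2) (nat_lit 0x12001e000f000480000000000000000000000) (nat_lit 0x0) (nat_lit 0x10000800000000000000004000000000000000000) := D_1 (nat_lit 143) (nat_lit 160) (nat_lit 74) (nat_lit 4) (nat_lit 7) (nat_lit 9) (nat_lit 7) (nat_lit 6) (nat_lit 4) (by decide +kernel)
theorem L21687 : W_1 (nat_lit 3) (nat_lit 0x12001e000f000400000000000000000000000) (nat_lit 0x0) (nat_lit 0x100008000000000000c0004000000000000000000) := T_1 (nat_lit 91) (nat_lit 90) (nat_lit 0) (nat_lit 9) (nat_lit 6) L21686 (by decide +kernel)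
theorem L21688 : W_1 (nat_lit 4) (nat_lit 0x12001e000b000400000000000000000000000) (nat_lit 0x0) (nat_lit 0x100008000000040008c0004000000000000000000) := T_1 (nat_lit 110) (nat_lit 95) (nat_lit 2) (nat_lit 6) (nat_lit 6) L21687 (by decide +kernel)
theorem L21689 : W_1 (nat_lit 5) (nat_lit 0x12001e000b000000000000000000000000000) (nat_lit 0x0) (nat_lit 0x10000800000004000cc0024000000000000000000) := T_1 (nat_lit 94) (nat_lit 77) (nat_lit 5) (nat_lit 9) (nat_lit 4) L21688 (by decide +kernel)
theorem L21690 : W_1 (nat_lit 6) (nat_lit 0x12001e0003000000000000000000000000000) (nat_lit 0x0) (nat_lit 0x1000080000001c000cc0024000000000000000000) := T_1 (nat_lit 111) (nat_lit 112) (nat_lit 2) (nat_lit 6) (nat_lit 7) L21689 (by decide +kernel)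
theorem L21691 : W_1 (nat_lit 7) (nat_lit 0x10001e0003000000000000000000000000000) (nat_lit 0x0) (nat_lit 0x10000e0000001c000cc0024000000000000000000) := T_1 (nat_lit 141) (nat_lit 142) (nat_lit 1) (nat_lit 9) (nat_lit 7) L21690 (by decide +kernel)
theorem L21692 : W_1 (nat_lit 8) (nat_lit 0x10001e0002000000000000000000000000000) (nat_lit 0x0) (nat_lit 0x10000e0000001d800cc0024000000000000000000) := T_1 (nat_lit 108) (nat_lit 107) (nat_lit 0) (nat_lit 9) (nat_lit 7) L21691 (by decide +kernel)
theorem L21693 : W_1 (nat_lit 2) (nat_lit 0x1c0014001e0003000000008000000000000000000) (nat_lit 0x0) (nat_lit 0x2000800000000000080000000000000000000000) := D_1 (nat_lit 143) (nat_lit 91) (nat_lit 157) (nat_lit 7) (nat_lit 6) (nat_lit 5) (nat_lit 2) (nat_lit 4) (nat_lit 9) (by decide +kernel)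
theorem L21694 : W_1 (nat_lit 3) (nat_lit 0xc0014001e0003000000008000000000000000000) (nat_lit 0x0) (nat_lit 0x200012000800000000000080000000000000000000000) := T_1 (nat_lit 160) (nat_lit 177) (nat_lit 7) (nat_lit 6) (nat_lit 6) L21693 (by decide +kernel)
theorem L21695 : W_1 (nat_lit 4) (nat_lit 0x80014001e0003000000008000000000000000000) (nat_lit 0x0) (nat_lit 0x280016000800000000000080000000000000000000000) := T_1 (nat_lit 158) (nat_lit 175) (nat_lit 5) (nat_lit 6) (nat_lit 6) L21694 (by decide +kernel)
theorem L21696 : W_1 (nat_lit 5) (nat_lit 0x14001e0003000000008000000000000000000) (nat_lit 0x0) (nat_lit 0x38001e000800000000000080000000000000000000000) := T_1 (nat_lit 159) (nat_lit 176) (nat_lit 6) (nat_lit 6) (nat_lit 10) L21695 (by decide +kernel)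
theorem L21697 : W_1 (nat_lit 6) (nat_lit 0x10001e0003000000008000000000000000000) (nat_lit 0x0) (nat_lit 0x38001e000e00000000000080000000000000000000000) := T_1 (nat_lit 142) (nat_lit 141) (nat_lit 1) (nat_lit 9) (nat_lit 7) L21696 (by decide +kernel)
theorem L21698 : W_1 (nat_lit 7) (nat_lit 0x10001e0002000000008000000000000000000) (nat_lit 0x0) (nat_lit 0x38001e000e00000001800080000000000000000000000) := T_1 (nat_lit 108) (nat_lit 107) (nat_lit 0) (nat_lit 9) (nat_lit 7) L21697 (by decide +kernel)
theorem L21699 : W_1 (nat_lit 8) (nat_lit 0x10001e0002000000000000000000000000000) (nat_lit 0x0) (nat_lit 0x38001e000e00000001800180008000000000000000000) := T_1 (nat_lit 75) (nat_lit 92) (nat_lit 7) (nat_lit 7) (nat_lit 4) L21698 (by decide +kernel)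
theorem L21700 : W_1 (nat_lit 10) (nat_lit 0x10001e0000000000000000000000000000000) (nat_lit 0x0) (nat_lit 0x38001e000e0000001f800dc002c000600000000000000) := Q_1 (nat_lit 109) (C_1 L21662 (C_1 L21670 (C_1 L21677 (C_1 L21685 (C_1 L21692 (C_1 L21699 N_1)))))) (by decide +kernel)
theorem L21701 : W_1 (nat_lit 11) (nat_lit 0x10001c0000000000000000000000000000000) (nat_lit 0x0) (nat_lit 0x38001e000f0003001fc00dc002c000600000000000000) := Q_1 (nat_lit 125) (C_1 L21634 (C_1 L21628 (C_1 L21631 (C_1 L21700 N_1)))) (by decide +kernel)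
theorem L21702 : W_1 (nat_lit 2) (nat_lit 0x100058003f0001000000004000000000000000000) (nat_lit 0x0) (nat_lit 0xc000200000000000000000000000) := D_1 (nat_lit 110) (nat_lit 93) (nat_lit 111) (nat_lit 5) (nat_lit 8) (nat_lit 5) (nat_lit 2) (nat_lit 5) (nat_lit 7) (by decide +kernel)
theorem L21703 : W_1 (nat_lit 3) (nat_lit 0x100058003e0001000000004000000000000000000) (nat_lit 0x0) (nat_lit 0x1800c000200000000000000000000000) := T_1 (nat_lit 124) (nat_lit 123) (nat_lit 3) (nat_lit 4) (nat_lit 7) L21702 (by decide +kernel)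
theorem L21704 : W_1 (nat_lit 4) (nat_lit 0x58003e0001000000004000000000000000000) (nat_lit 0x0) (nat_lit 0x20001000000001800c000200000000000000000000000) := T_1 (nat_lit 160) (nat_lit 177) (nat_lit 4) (nat_lit 7) (nat_lit 10) L21703 (by decide +kernel)
theorem L21705 : W_1 (nat_lit 5) (nat_lit 0x58003e0001000000000000000000000000000) (nat_lit 0x0) (nat_lit 0x20001000000001800c000280004000000000000000000) := T_1 (nat_lit 74) (nat_lit 91) (nat_lit 7) (nat_lit 6) (nat_lit 4) L21704 (by decide +kernel)
theorem L21706 : W_1 (nat_lit 6) (nat_lit 0x18003e0001000000000000000000000000000) (nat_lit 0x0) (nat_lit 0x20001000c00001800c000280004000000000000000000) := T_1 (nat_lit 146) (nat_lit 147) (nat_lit 3) (nat_lit 7) (nat_lit 7) L21705 (by decide +kernel)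
theorem L21707 : W_1 (nat_lit 7) (nat_lit 0x18003c0001000000000000000000000000000) (nat_lit 0x0) (nat_lit 0x20001000c00003800c800280004000000000000000000) := T_1 (nat_lit 125) (nat_lit 107) (nat_lit 0) (nat_lit 9) (nat_lit 7) L21706 (by decide +kernel)
theorem L21708 : W_1 (nat_lit 8) (nat_lit 0x18003c0000000000000000000000000000000) (nat_lit 0x0) (nat_lit 0x20001000c00003800f800280004000000000000000000) := T_1 (nat_lit 108) (nat_lit 109) (nat_lit 0) (nat_lit 10) (nat_lit 7) L21707 (by decide +kernel)
theorem L21709 : W_1 (nat_lit 9) (nat_lit 0x18001c0000000000000000000000000000000) (nat_lit 0x0) (nat_lit 0x20001000c00063800f800280004000000000000000000) := T_1 (nat_lit 129) (nat_lit 130) (nat_lit 1) (nat_lit 11) (nat_lit 7) L21708 (by decide +kernel)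
theorem L21710 : W_1 (nat_lit 2) (nat_lit 0x18001e0000800000000000000000000000000) (nat_lit 0x0) (nat_lit 0x18000400000000000000000000000000) := D_1 (nat_lit 124) (nat_lit 106) (nat_lit 123) (nat_lit 0) (nat_lit 8) (nat_lit 7) (nat_lit 3) (nat_lit 4) (nat_lit 7) (by decide +kernel)
theorem L21711 : W_1 (nat_lit 3) (nat_lit 0x18001e0000000000000000000000000000000) (nat_lit 0x0) (nat_lit 0x18001c00000000000000000000000000) := T_1 (nat_lit 107) (nat_lit 108) (nat_lit 0) (nat_lit 9) (nat_lit 7) L21710 (by decide +kernel)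
theorem L21712 : W_1 (nat_lit 5) (nat_lit 0x18001c0000000000000000000000000000000) (nat_lit 0x0) (nat_lit 0x200010000700038001c00080000000000000000000000) := Q_1 (nat_lit 125) (C_1 L20975 (C_1 L21090 (C_1 L21711 N_1))) (by decide +kernel)
theorem L21713 : W_1 (nat_lit 10) (nat_lit 0x10001c0000000000000000000000000000000) (nat_lit 0x0) (nat_lit 0x20001000cf0063800fc00280004000000000000000000) := Q_1 (nat_lit 143) (C_1 L2678 (C_1 L21709 (C_1 L21712 N_1))) (by decide +kernel)
theorem L21714 : W_1 (nat_lit 18) (nat_lit 0x10000c0000000000000000000000000000000) (nat_lit 0x0) (nat_lit 0x38001e01cf00f3807fc01fc00fc007600380014000000) := Q_1 (nat_lit 128) (C_1 L21625 (C_1 L21635 (C_1 L21636 (C_1 L2002 (C_1 L21637 (C_1 L21653 (C_1 L21701 (C_1 L21713 N_1)))))))) (by decide +kernel)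
theorem L21775 : W_1 (nat_lit 7) (nat_lit 0x18000e0000000000000000000000000000000) (nat_lit 0x0) (nat_lit 0x100018000e000700018001c000c0002000000000000000000) := Q_1 (nat_lit 142) (C_1 L21010 (C_1 L21019 (C_1 L21024 (C_1 L21015 N_1)))) (by decide +kernel)
theorem L21776 : W_1 (nat_lit 2) (nat_lit 0x1e000e0002000180010000000000000000000) (nat_lit 0x0) (nat_lit 0x6000000000001000000000000000000000000000) := D_1 (nat_lit 158) (nat_lit 157) (nat_lit 108) (nat_lit 1) (nat_lit 8) (nat_lit 8) (nat_lit 5) (nat_lit 6) (nat_lit 5) (by decide +kernel)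
theorem L21777 : W_1 (nat_lit 3) (nat_lit 0x1e000e0002000100010000000000000000000) (nat_lit 0x0) (nat_lit 0x6000000000001000080004000000000000000000) := T_1 (nat_lit 91) (nat_lit 74) (nat_lit 4) (nat_lit 7) (nat_lit 8) L21776 (by decide +kernel)
theorem L21778 : W_1 (nat_lit 4) (nat_lit 0x1c000e0002000100010000000000000000000) (nat_lit 0x0) (nat_lit 0x6000300000001000080004000000000000000000) := T_1 (nat_lit 141) (nat_lit 140) (nat_lit 2) (nat_lit 4) (nat_lit 8) L21777 (by decide +kernel)
theorem L21779 : W_1 (nat_lit 5) (nat_lit 0x18000e0002000100010000000000000000000) (nat_lit 0x0) (nat_lit 0xe000700000001000080004000000000000000000) := T_1 (nat_lit 142) (nat_lit 159) (nat_lit 5) (nat_lit 7) (nat_lit 5) L21778 (by decide +kernel)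
theorem L21780 : W_1 (nat_lit 6) (nat_lit 0x18000e0002000100000000000000000000000) (nat_lit 0x0) (nat_lit 0xe000700000001000280014000000000000000000) := T_1 (nat_lit 76) (nat_lit 93) (nat_lit 6) (nat_lit 7) (nat_lit 8) L21779 (by decide +kernel)
theorem L21781 : W_1 (nat_lit 7) (nat_lit 0x18000e0002000000000000000000000000000) (nat_lit 0x0) (nat_lit 0xe00070000000100038001c000000000000000000) := T_1 (nat_lit 92) (nat_lit 75) (nat_lit 7) (nat_lit 7) (nat_lit 4) L21780 (by decide +kernel)
theorem L21782 : W_1 (nat_lit 2) (nat_lit 0x1d000e00030001c0000000000000000000000) (nat_lit 0x0) (nat_lit 0x4000030000000000000000000000) := D_1 (nat_lit 89) (nat_lit 110) (nat_lit 88) (nat_lit 3) (nat_lit 4) (nat_lit 5) (nat_lit 3) (nat_lit 3) (nat_lit 5) (by decide +kernel)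
theorem L21783 : W_1 (nat_lit 3) (nat_lit 0x1d000e0003000180000000000000000000000) (nat_lit 0x0) (nat_lit 0x4000070002000000000000000000) := T_1 (nat_lit 90) (nat_lit 73) (nat_lit 4) (nat_lit 6) (nat_lit 8) L21782 (by decide +kernel)
theorem L21784 : W_1 (nat_lit 4) (nat_lit 0x1d000e0002000180000000000000000000000) (nat_lit 0x0) (nat_lit 0x10000000000005000070002000000000000000000) := T_1 (nat_lit 108) (nat_lit 160) (nat_lit 7) (nat_lit 6) (nat_lit 5) L21783 (by decide +kernel)
theorem L21785 : W_1 (nat_lit 5) (nat_lit 0x1d000e0002000100000000000000000000000) (nat_lit 0x0) (nat_lit 0x100000000000050000f0006000000000000000000) := T_1 (nat_lit 91) (nat_lit 74) (nat_lit 4) (nat_lit 7) (nat_lit 8) L21784 (by decide +kernel)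
theorem L21786 : W_1 (nat_lit 6) (nat_lit 0x1c000e0002000100000000000000000000000) (nat_lit 0x0) (nat_lit 0x100003000000050000f0006000000000000000000) := T_1 (nat_lit 140) (nat_lit 141) (nat_lit 2) (nat_lit 4) (nat_lit 8) L21785 (by decide +kernel)
theorem L21787 : W_1 (nat_lit 7) (nat_lit 0x18000e0002000100000000000000000000000) (nat_lit 0x0) (nat_lit 0x180007000000050000f0006000000000000000000) := T_1 (nat_lit 142) (nat_lit 159) (nat_lit 5) (nat_lit 7) (nat_lit 5) L21786 (by decide +kernel)
theorem L21788 : W_1 (nat_lit 8) (nat_lit 0x18000e0002000000000000000000000000000) (nat_lit 0x0) (nat_lit 0x180007000000050001f000e000000000000000000) := T_1 (nat_lit 92) (nat_lit 75) (nat_lit 7) (nat_lit 7) (nat_lit 4) L21787 (by decide +kernel)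
theorem L21857 : W_1 (nat_lit 3) (nat_lit 0x30000c0000000000000000000000000000000) (nat_lit 0x0) (nat_lit 0xc800030000000000000000000000000000000) := T_1 (nat_lit 146) (nat_lit 147) (nat_lit 0) (nat_lit 11) (nat_lit 8) L3193 (by decide +kernel)
theorem L21925 : W_1 (nat_lit 2) (nat_lit 0x8003c000e0000000000000000000000000000000) (nat_lit 0x0) (nat_lit 0x100000000000000002000100000000000000000000000) := D_1 (nat_lit 109) (nat_lit 92) (nat_lit 176) (nat_lit 5) (nat_lit 7) (nat_lit 5) (nat_lit 6) (nat_lit 6) (nat_lit 10) (by decide +kernel)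
theorem L21926 : W_1 (nat_lit 3) (nat_lit 0x3c000e0000000000000000000000000000000) (nat_lit 0x0) (nat_lit 0x10000c000000000002000100000000000000000000000) := T_1 (nat_lit 159) (nat_lit 158) (nat_lit 1) (nat_lit 9) (nat_lit 8) L21925 (by decide +kernel)
theorem L21927 : W_1 (nat_lit 4) (nat_lit 0x1c000e0000000000000000000000000000000) (nat_lit 0x0) (nat_lit 0x10000c006000000002000100000000000000000000000) := T_1 (nat_lit 145) (nat_lit 146) (nat_lit 0) (nat_lit 10) (nat_lit 8) L21926 (by decide +kernel)
theorem L21935 : W_1 (nat_lit 2) (nat_lit 0x3e000e0002000180000000000000000000000) (nat_lit 0x0) (nat_lit 0x6000000000001000000000000000000000000000) := D_1 (nat_lit 158) (nat_lit 108) (nat_lit 157) (nat_lit 5) (nat_lit 6) (nat_lit 5) (nat_lit 1) (nat_lit 8) (nat_lit 8) (by decide +kernel)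
theorem L21936 : W_1 (nat_lit 3) (nat_lit 0x3c000e0002000180000000000000000000000) (nat_lit 0x0) (nat_lit 0x6000300000001000000000000000000000000000) := T_1 (nat_lit 141) (nat_lit 140) (nat_lit 2) (nat_lit 4) (nat_lit 8) L21935 (by decide +kernel)
theorem L21937 : W_1 (nat_lit 4) (nat_lit 0x38000e0002000180000000000000000000000) (nat_lit 0x0) (nat_lit 0xe000700000001000000000000000000000000000) := T_1 (nat_lit 142) (nat_lit 159) (nat_lit 5) (nat_lit 7) (nat_lit 5) L21936 (by decide +kernel)
theorem L21938 : W_1 (nat_lit 5) (nat_lit 0x38000e0002000100000000000000000000000) (nat_lit 0x0) (nat_lit 0xe000700000001000080004000000000000000000) := T_1 (nat_lit 91) (nat_lit 74) (nat_lit 4) (nat_lit 7) (nat_lit 8) L21937 (by decide +kernel)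
theorem L21939 : W_1 (nat_lit 6) (nat_lit 0x18000e0002000100000000000000000000000) (nat_lit 0x0) (nat_lit 0xe006700000001000080004000000000000000000) := T_1 (nat_lit 145) (nat_lit 146) (nat_lit 0) (nat_lit 10) (nat_lit 8) L21938 (by decide +kernel)
theorem L21940 : W_1 (nat_lit 7) (nat_lit 0x18000e0002000000000000000000000000000) (nat_lit 0x0) (nat_lit 0xe00670000000100018000c000000000000000000) := T_1 (nat_lit 92) (nat_lit 75) (nat_lit 7) (nat_lit 7) (nat_lit 4) L21939 (by decide +kernel)
theorem L21943 : W_1 (nat_lit 2) (nat_lit 0x38000c0000000000000000000000000000000) (nat_lit 0x0) (nat_lit 0xc000020000000000000000000000000000000) := D_1 (nat_lit 146) (nat_lit 125) (nat_lit 147) (nat_lit 0) (nat_lit 10) (nat_lit 8) (nat_lit 0) (nat_lit 11) (nat_lit 8) (by decide +kernel)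
theorem L21944 : W_1 (nat_lit 2) (nat_lit 0x3c000d0000000000000000000000000000000) (nat_lit 0x0) (nat_lit 0x300008000000000000000000000000000000) := D_1 (nat_lit 141) (nat_lit 140) (nat_lit 123) (nat_lit 2) (nat_lit 4) (nat_lit 8) (nat_lit 0) (nat_lit 8) (nat_lit 8) (by decide +kernel)
theorem L21945 : W_1 (nat_lit 3) (nat_lit 0x3c000c0000000000000000000000000000000) (nat_lit 0x0) (nat_lit 0x300038000000000000000000000000000000) := T_1 (nat_lit 124) (nat_lit 125) (nat_lit 3) (nat_lit 5) (nat_lit 7) L21944 (by decide +kernel)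
theorem L21946 : W_1 (nat_lit 2) (nat_lit 0x3e000c0000000000000000000000000000000) (nat_lit 0x0) (nat_lit 0xe000000000000000000000000000000000000000) := D_1 (nat_lit 158) (nat_lit 159) (nat_lit 157) (nat_lit 1) (nat_lit 9) (nat_lit 8) (nat_lit 1) (nat_lit 8) (nat_lit 8) (by decide +kernel)
theorem L21947 : W_1 (nat_lit 3) (nat_lit 0x3c000c0000000000000000000000000000000) (nat_lit 0x0) (nat_lit 0xe000300000000000000000000000000000000000) := T_1 (nat_lit 141) (nat_lit 140) (nat_lit 2) (nat_lit 4) (nat_lit 8) L21946 (by decide +kernel)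
theorem L21948 : W_1 (nat_lit 3) (nat_lit 0x8003c000c0000000000000000000000000000000) (nat_lit 0x0) (nat_lit 0x100000000000030002000100000000000000000000000) := T_1 (nat_lit 125) (nat_lit 124) (nat_lit 3) (nat_lit 5) (nat_lit 7) L21925 (by decide +kernel)
theorem L21949 : W_1 (nat_lit 4) (nat_lit 0x3c000c0000000000000000000000000000000) (nat_lit 0x0) (nat_lit 0x10000c000000030002000100000000000000000000000) := T_1 (nat_lit 159) (nat_lit 158) (nat_lit 1) (nat_lit 9) (nat_lit 8) L21948 (by decide +kernel)
theorem L21950 : W_1 (nat_lit 5) (nat_lit 0x38000c0000000000000000000000000000000) (nat_lit 0x0) (nat_lit 0x10000e000700038002000100000000000000000000000) := Q_1 (nat_lit 142) (C_1 L21945 (C_1 L21947 (C_1 L21949 N_1))) (by decide +kernel)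
theorem L22025 : W_1 (nat_lit 2) (nat_lit 0xc001e000d0000000000000000000000000000000) (nat_lit 0x0) (nat_lit 0x2000100000000000000000800000000000000000000000000) := D_1 (nat_lit 176) (nat_lit 193) (nat_lit 107) (nat_lit 6) (nat_lit 6) (nat_lit 11) (nat_lit 7) (nat_lit 5) (nat_lit 6) (by decide +kernel)
theorem L22026 : W_1 (nat_lit 3) (nat_lit 0x4001e000d0000000000000000000000000000000) (nat_lit 0x0) (nat_lit 0x2000100008002000000000800000000000000000000000000) := T_1 (nat_lit 159) (nat_lit 145) (nat_lit 1) (nat_lit 9) (nat_lit 8) L22025 (by decide +kernel)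
theorem L22027 : W_1 (nat_lit 4) (nat_lit 0x4001e000c0000000000000000000000000000000) (nat_lit 0x0) (nat_lit 0x2000100008002000018000800000000000000000000000000) := T_1 (nat_lit 124) (nat_lit 123) (nat_lit 0) (nat_lit 8) (nat_lit 8) L22026 (by decide +kernel)
theorem L22028 : W_1 (nat_lit 5) (nat_lit 0x1e000c0000000000000000000000000000000) (nat_lit 0x0) (nat_lit 0x200010000e002000018000800000000000000000000000000) := T_1 (nat_lit 158) (nat_lit 157) (nat_lit 1) (nat_lit 8) (nat_lit 8) L22027 (by decide +kernel)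
theorem L22029 : W_1 (nat_lit 6) (nat_lit 0x1c000c0000000000000000000000000000000) (nat_lit 0x0) (nat_lit 0x200010000e002300018000800000000000000000000000000) := T_1 (nat_lit 141) (nat_lit 140) (nat_lit 2) (nat_lit 4) (nat_lit 8) L22028 (by decide +kernel)
theorem L22030 : W_1 (nat_lit 2) (nat_lit 0x1c000e0000000000000000000000000000000) (nat_lit 0x0) (nat_lit 0x2000018000000000000000000000000000000) := D_1 (nat_lit 124) (nat_lit 123) (nat_lit 145) (nat_lit 3) (nat_lit 4) (nat_lit 7) (nat_lit 3) (nat_lit 5) (nat_lit 7) (by decide +kernel)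
theorem L22031 : W_1 (nat_lit 6) (nat_lit 0x1c000c0000000000000000000000000000000) (nat_lit 0x0) (nat_lit 0x10000c006000038003c00140002000000000000000000) := Q_1 (nat_lit 125) (C_1 L21927 (C_1 L21010 (C_1 L22030 N_1))) (by decide +kernel)
theorem L22032 : W_1 (nat_lit 2) (nat_lit 0x2001e000f0004800700002000000000000000000) (nat_lit 0x0) (nat_lit 0x3000080000000000000000000000) := D_1 (nat_lit 108) (nat_lit 109) (nat_lit 91) (nat_lit 2) (nat_lit 5) (nat_lit 6) (nat_lit 1) (nat_lit 9) (nat_lit 5) (by decide +kernel)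
theorem L22033 : W_1 (nat_lit 3) (nat_lit 0x2001e000f0004800300002000000000000000000) (nat_lit 0x0) (nat_lit 0x3000480020000000000000000000) := T_1 (nat_lit 94) (nat_lit 77) (nat_lit 6) (nat_lit 8) (nat_lit 8) L22032 (by decide +kernel)
theorem L22034 : W_1 (nat_lit 4) (nat_lit 0x2001e000f0004800200002000000000000000000) (nat_lit 0x0) (nat_lit 0x3000580028000000000000000000) := T_1 (nat_lit 92) (nat_lit 75) (nat_lit 4) (nat_lit 8) (nat_lit 8) L22033 (by decide +kernel)
theorem L22035 : W_1 (nat_lit 5) (nat_lit 0x2001e000f0004800000002000000000000000000) (nat_lit 0x0) (nat_lit 0x3000780038000000000000000000) := T_1 (nat_lit 93) (nat_lit 76) (nat_lit 5) (nat_lit 8) (nat_lit 4) L22034 (by decide +kernel)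
theorem L22036 : W_1 (nat_lit 6) (nat_lit 0x2001e000f0004800000000000000000000000000) (nat_lit 0x0) (nat_lit 0x30007c003a000000000000000000) := T_1 (nat_lit 73) (nat_lit 90) (nat_lit 7) (nat_lit 5) (nat_lit 4) L22035 (by decide +kernel)
theorem L22037 : W_1 (nat_lit 7) (nat_lit 0x2001e000f0000800000000000000000000000000) (nat_lit 0x0) (nat_lit 0xf0007c003a000000000000000000) := T_1 (nat_lit 110) (nat_lit 111) (nat_lit 2) (nat_lit 5) (nat_lit 7) L22036 (by decide +kernel)
theorem L22038 : W_1 (nat_lit 8) (nat_lit 0x2001e000f0000000000000000000000000000000) (nat_lit 0x0) (nat_lit 0xfc007c003a000000000000000000) := T_1 (nat_lit 107) (nat_lit 106) (nat_lit 0) (nat_lit 8) (nat_lit 7) L22037 (by decide +kernel)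
theorem L22039 : W_1 (nat_lit 9) (nat_lit 0x2001e000d0000000000000000000000000000000) (nat_lit 0x0) (nat_lit 0x200002000fc007c003a000000000000000000) := T_1 (nat_lit 125) (nat_lit 145) (nat_lit 3) (nat_lit 5) (nat_lit 7) L22038 (by decide +kernel)
theorem L22040 : W_1 (nat_lit 10) (nat_lit 0x2001e000c0000000000000000000000000000000) (nat_lit 0x0) (nat_lit 0x200003800fc007c003a000000000000000000) := T_1 (nat_lit 124) (nat_lit 123) (nat_lit 0) (nat_lit 8) (nat_lit 8) L22039 (by decide +kernel)
theorem L22041 : W_1 (nat_lit 11) (nat_lit 0x1e000c0000000000000000000000000000000) (nat_lit 0x0) (nat_lit 0x600200003800fc007c003a000000000000000000) := T_1 (nat_lit 157) (nat_lit 158) (nat_lit 1) (nat_lit 8) (nat_lit 8) L22040 (by decide +kernel)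
theorem L22042 : W_1 (nat_lit 12) (nat_lit 0x1c000c0000000000000000000000000000000) (nat_lit 0x0) (nat_lit 0x600230003800fc007c003a000000000000000000) := T_1 (nat_lit 141) (nat_lit 140) (nat_lit 2) (nat_lit 4) (nat_lit 8) L22041 (by decide +kernel)
theorem L22043 : W_1 (nat_lit 2) (nat_lit 0x1e000f00064003c0020000000000000000000) (nat_lit 0x0) (nat_lit 0x1000000003000000000000000000) := D_1 (nat_lit 73) (nat_lit 108) (nat_lit 72) (nat_lit 4) (nat_lit 6) (nat_lit 8) (nat_lit 0) (nat_lit 8) (nat_lit 5) (by decide +kernel)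
theorem L22044 : W_1 (nat_lit 3) (nat_lit 0x1e000f0006400380020000000000000000000) (nat_lit 0x0) (nat_lit 0x1000060003000000000000000000) := T_1 (nat_lit 90) (nat_lit 89) (nat_lit 3) (nat_lit 4) (nat_lit 5) L22043 (by decide +kernel)
theorem L22045 : W_1 (nat_lit 4) (nat_lit 0x1e000f0006400300020000000000000000000) (nat_lit 0x0) (nat_lit 0x10000e0007000000000000000000) := T_1 (nat_lit 91) (nat_lit 74) (nat_lit 4) (nat_lit 7) (nat_lit 8) L22044 (by decide +kernel)
theorem L22046 : W_1 (nat_lit 5) (nat_lit 0x1e000f0004400300020000000000000000000) (nat_lit 0x0) (nat_lit 0x80000000000030000e0007000000000000000000) := T_1 (nat_lit 109) (nat_lit 159) (nat_lit 5) (nat_lit 7) (nat_lit 5) L22045 (by decide +kernel)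
theorem L22047 : W_1 (nat_lit 6) (nat_lit 0x1e000f0004400300000000000000000000000) (nat_lit 0x0) (nat_lit 0x80000000000030004e0027000000000000000000) := T_1 (nat_lit 77) (nat_lit 94) (nat_lit 6) (nat_lit 8) (nat_lit 8) L22046 (by decide +kernel)
theorem L22048 : W_1 (nat_lit 7) (nat_lit 0x1e000f0004400200000000000000000000000) (nat_lit 0x0) (nat_lit 0x80000000000030005e002f000000000000000000) := T_1 (nat_lit 92) (nat_lit 75) (nat_lit 4) (nat_lit 8) (nat_lit 8) L22047 (by decide +kernel)
theorem L22049 : W_1 (nat_lit 8) (nat_lit 0x1e000f0004400000000000000000000000000) (nat_lit 0x0) (nat_lit 0x80000000000030007e003f000000000000000000) := T_1 (nat_lit 93) (nat_lit 76) (nat_lit 5) (nat_lit 8) (nat_lit 4) L22048 (by decide +kernel)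
theorem L22050 : W_1 (nat_lit 9) (nat_lit 0x1e000f0000400000000000000000000000000) (nat_lit 0x0) (nat_lit 0x800000000000f0007e003f000000000000000000) := T_1 (nat_lit 110) (nat_lit 111) (nat_lit 2) (nat_lit 5) (nat_lit 7) L22049 (by decide +kernel)
theorem L22051 : W_1 (nat_lit 10) (nat_lit 0x1e000f0000000000000000000000000000000) (nat_lit 0x0) (nat_lit 0x800000000000fc007e003f000000000000000000) := T_1 (nat_lit 106) (nat_lit 107) (nat_lit 0) (nat_lit 8) (nat_lit 7) L22050 (by decide +kernel)
theorem L22052 : W_1 (nat_lit 11) (nat_lit 0x1e000d0000000000000000000000000000000) (nat_lit 0x0) (nat_lit 0x800200002000fc007e003f000000000000000000) := T_1 (nat_lit 125) (nat_lit 145) (nat_lit 3) (nat_lit 5) (nat_lit 7) L22051 (by decide +kernel)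
theorem L22053 : W_1 (nat_lit 12) (nat_lit 0x1e000c0000000000000000000000000000000) (nat_lit 0x0) (nat_lit 0x800200003800fc007e003f000000000000000000) := T_1 (nat_lit 124) (nat_lit 123) (nat_lit 0) (nat_lit 8) (nat_lit 8) L22052 (by decide +kernel)
theorem L22054 : W_1 (nat_lit 13) (nat_lit 0x1c000c0000000000000000000000000000000) (nat_lit 0x0) (nat_lit 0x800230003800fc007e003f000000000000000000) := T_1 (nat_lit 141) (nat_lit 140) (nat_lit 2) (nat_lit 4) (nat_lit 8) L22053 (by decide +kernel)
theorem L22055 : W_1 (nat_lit 14) (nat_lit 0x18000c0000000000000000000000000000000) (nat_lit 0x0) (nat_lit 0x300018000e00e70003800fc007e003f000000000000000000) := Q_1 (nat_lit 142) (C_1 L22029 (C_1 L1760 (C_1 L21025 (C_1 L22031 (C_1 L22042 (C_1 L22054 N_1)))))) (by decide +kernel)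
theorem L22056 : W_1 (nat_lit 2) (nat_lit 0x100018000e0000000000000000000000000000000) (nat_lit 0x0) (nat_lit 0x4000200000000000000001000000000000000000000000000) := D_1 (nat_lit 177) (nat_lit 108) (nat_lit 194) (nat_lit 4) (nat_lit 7) (nat_lit 10) (nat_lit 6) (nat_lit 7) (nat_lit 11) (by decide +kernel)
theorem L22066 : W_1 (nat_lit 2) (nat_lit 0x2000000018000e0000000000000000000000000000000) (nat_lit 0x0) (nat_lit 0x4000000010000000000001000000000000000000000000000) := D_1 (nat_lit 160) (nat_lit 108) (nat_lit 194) (nat_lit 4) (nat_lit 7) (nat_lit 10) (nat_lit 6) (nat_lit 7) (nat_lit 11) (by decide +kernel)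
theorem L22134 : W_1 (nat_lit 2) (nat_lit 0x2001e000f00018003c0001000000000000000000) (nat_lit 0x0) (nat_lit 0x2000000030000000000000000000) := D_1 (nat_lit 76) (nat_lit 77) (nat_lit 109) (nat_lit 2) (nat_lit 5) (nat_lit 5) (nat_lit 6) (nat_lit 7) (nat_lit 8) (by decide +kernel)
theorem L22135 : W_1 (nat_lit 3) (nat_lit 0x2001e000f00018001c0001000000000000000000) (nat_lit 0x0) (nat_lit 0x2000600030000000000000000000) := T_1 (nat_lit 93) (nat_lit 94) (nat_lit 1) (nat_lit 9) (nat_lit 5) L22134 (by decide +kernel)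
theorem L22136 : W_1 (nat_lit 4) (nat_lit 0x2001e000f00018000c0001000000000000000000) (nat_lit 0x0) (nat_lit 0x2000700038000000000000000000) := T_1 (nat_lit 92) (nat_lit 75) (nat_lit 6) (nat_lit 6) (nat_lit 8) L22135 (by decide +kernel)
theorem L22137 : W_1 (nat_lit 5) (nat_lit 0x2001e000f00008000c0001000000000000000000) (nat_lit 0x0) (nat_lit 0x10000000000003000700038000000000000000000) := T_1 (nat_lit 108) (nat_lit 160) (nat_lit 7) (nat_lit 6) (nat_lit 5) L22136 (by decide +kernel)
theorem L22138 : W_1 (nat_lit 6) (nat_lit 0x2001e000f00008000c0000000000000000000000) (nat_lit 0x0) (nat_lit 0x10000000000003000720039000000000000000000) := T_1 (nat_lit 72) (nat_lit 89) (nat_lit 4) (nat_lit 5) (nat_lit 8) L22137 (by decide +kernel)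
theorem L22139 : W_1 (nat_lit 7) (nat_lit 0x2001e000f0000800040000000000000000000000) (nat_lit 0x0) (nat_lit 0x100000000000030007a003d000000000000000000) := T_1 (nat_lit 91) (nat_lit 74) (nat_lit 6) (nat_lit 5) (nat_lit 8) L22138 (by decide +kernel)
theorem L22140 : W_1 (nat_lit 8) (nat_lit 0x2001e000f0000800000000000000000000000000) (nat_lit 0x0) (nat_lit 0x100000000000030007e003f000000000000000000) := T_1 (nat_lit 90) (nat_lit 73) (nat_lit 7) (nat_lit 5) (nat_lit 4) L22139 (by decide +kernel)
theorem L22141 : W_1 (nat_lit 9) (nat_lit 0x2001e000f0000000000000000000000000000000) (nat_lit 0x0) (nat_lit 0x10000000000003c007e003f000000000000000000) := T_1 (nat_lit 107) (nat_lit 106) (nat_lit 0) (nat_lit 8) (nat_lit 7) L22140 (by decide +kernel)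
theorem L22142 : W_1 (nat_lit 10) (nat_lit 0x2001e000d0000000000000000000000000000000) (nat_lit 0x0) (nat_lit 0x10002000020003c007e003f000000000000000000) := T_1 (nat_lit 125) (nat_lit 145) (nat_lit 3) (nat_lit 5) (nat_lit 7) L22141 (by decide +kernel)
theorem L22143 : W_1 (nat_lit 11) (nat_lit 0x2001e000c0000000000000000000000000000000) (nat_lit 0x0) (nat_lit 0x10002000038003c007e003f000000000000000000) := T_1 (nat_lit 124) (nat_lit 123) (nat_lit 0) (nat_lit 8) (nat_lit 8) L22142 (by decide +kernel)
theorem L22144 : W_1 (nat_lit 12) (nat_lit 0x1e000c0000000000000000000000000000000) (nat_lit 0x0) (nat_lit 0x16002000038003c007e003f000000000000000000) := T_1 (nat_lit 157) (nat_lit 158) (nat_lit 1) (nat_lit 8) (nat_lit 8) L22143 (by decide +kernel)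
theorem L22145 : W_1 (nat_lit 13) (nat_lit 0x1c000c0000000000000000000000000000000) (nat_lit 0x0) (nat_lit 0x16002300038003c007e003f000000000000000000) := T_1 (nat_lit 141) (nat_lit 140) (nat_lit 2) (nat_lit 4) (nat_lit 8) L22144 (by decide +kernel)
theorem L22146 : W_1 (nat_lit 2) (nat_lit 0x1e000f0000800000000000000000000000000) (nat_lit 0x0) (nat_lit 0x100008000000000000000040000000000000000000000) := D_1 (nat_lit 159) (nat_lit 176) (nat_lit 90) (nat_lit 4) (nat_lit 6) (nat_lit 10) (nat_lit 7) (nat_lit 5) (nat_lit 5) (by decide +kernel)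
theorem L22147 : W_1 (nat_lit 3) (nat_lit 0x1e000f0000000000000000000000000000000) (nat_lit 0x0) (nat_lit 0x100008000000000000c00040000000000000000000000) := T_1 (nat_lit 107) (nat_lit 106) (nat_lit 0) (nat_lit 8) (nat_lit 7) L22146 (by decide +kernel)
theorem L22148 : W_1 (nat_lit 4) (nat_lit 0x1e000d0000000000000000000000000000000) (nat_lit 0x0) (nat_lit 0x100008002000020000c00040000000000000000000000) := T_1 (nat_lit 125) (nat_lit 145) (nat_lit 3) (nat_lit 5) (nat_lit 7) L22147 (by decide +kernel)
theorem L22149 : W_1 (nat_lit 5) (nat_lit 0x1e000c0000000000000000000000000000000) (nat_lit 0x0) (nat_lit 0x100008002000038000c00040000000000000000000000) := T_1 (nat_lit 124) (nat_lit 123) (nat_lit 0) (nat_lit 8) (nat_lit 8) L22148 (by decide +kernel)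
theorem L22150 : W_1 (nat_lit 6) (nat_lit 0x1c000c0000000000000000000000000000000) (nat_lit 0x0) (nat_lit 0x100008002300038000c00040000000000000000000000) := T_1 (nat_lit 141) (nat_lit 140) (nat_lit 2) (nat_lit 4) (nat_lit 8) L22149 (by decide +kernel)
theorem L22151 : W_1 (nat_lit 14) (nat_lit 0x18000c0000000000000000000000000000000) (nat_lit 0x0) (nat_lit 0x300018001e00e700038003c007e003f000000000000000000) := Q_1 (nat_lit 142) (C_1 L22029 (C_1 L1760 (C_1 L22031 (C_1 L21025 (C_1 L22145 (C_1 L22150 N_1)))))) (by decide +kernel)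
theorem L22152 : W_1 (nat_lit 2) (nat_lit 0x380008003c000e0000000000000000000000000000000) (nat_lit 0x0) (nat_lit 0x10000000000005000000000000000000000000000) := D_1 (nat_lit 160) (nat_lit 108) (nat_lit 110) (nat_lit 7) (nat_lit 6) (nat_lit 6) (nat_lit 6) (nat_lit 7) (nat_lit 10) (by decide +kernel)
theorem L22153 : W_1 (nat_lit 3) (nat_lit 0x180008003c000e0000000000000000000000000000000) (nat_lit 0x0) (nat_lit 0x4000200010000000000005000000000000000000000000000) := T_1 (nat_lit 177) (nat_lit 194) (nat_lit 7) (nat_lit 6) (nat_lit 7) L22152 (by decide +kernel)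
theorem L22154 : W_1 (nat_lit 4) (nat_lit 0x100008003c000e0000000000000000000000000000000) (nat_lit 0x0) (nat_lit 0x5000280010000000000005000000000000000000000000000) := T_1 (nat_lit 175) (nat_lit 192) (nat_lit 5) (nat_lit 6) (nat_lit 7) L22153 (by decide +kernel)
theorem L22155 : W_1 (nat_lit 5) (nat_lit 0x8003c000e0000000000000000000000000000000) (nat_lit 0x0) (nat_lit 0x7000380010000000000005000000000000000000000000000) := T_1 (nat_lit 176) (nat_lit 193) (nat_lit 6) (nat_lit 6) (nat_lit 11) L22154 (by decide +kernel)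
theorem L22156 : W_1 (nat_lit 6) (nat_lit 0x3c000e0000000000000000000000000000000) (nat_lit 0x0) (nat_lit 0x700038001c000000000005000000000000000000000000000) := T_1 (nat_lit 159) (nat_lit 158) (nat_lit 1) (nat_lit 9) (nat_lit 8) L22155 (by decide +kernel)
theorem L22180 : W_1 (nat_lit 7) (nat_lit 0x3c000c0000000000000000000000000000000) (nat_lit 0x0) (nat_lit 0x700038001c000000030005000000000000000000000000000) := T_1 (nat_lit 125) (nat_lit 124) (nat_lit 3) (nat_lit 5) (nat_lit 7) L22156 (by decide +kernel)
theorem L22181 : W_1 (nat_lit 8) (nat_lit 0x38000c0000000000000000000000000000000) (nat_lit 0x0) (nat_lit 0x700038001e000700038005000000000000000000000000000) := Q_1 (nat_lit 142) (C_1 L21947 (C_1 L22180 (C_1 L21945 N_1))) (by decide +kernel)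
theorem L22182 : W_1 (nat_lit 9) (nat_lit 0x18000c0000000000000000000000000000000) (nat_lit 0x0) (nat_lit 0x700038001e00e700038005000200000000000000000000000) := Q_1 (nat_lit 145) (C_1 L21943 (C_1 L22181 (C_1 L2915 N_1))) (by decide +kernel)
theorem L22183 : W_1 (nat_lit 2) (nat_lit 0x1c0018000c0002000200010000000000000000000) (nat_lit 0x0) (nat_lit 0x6400000000000000000000000000000000000) := D_1 (nat_lit 145) (nat_lit 146) (nat_lit 142) (nat_lit 1) (nat_lit 10) (nat_lit 8) (nat_lit 1) (nat_lit 9) (nat_lit 8) (by decide +kernel)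
theorem L22184 : W_1 (nat_lit 3) (nat_lit 0x180018000c0002000200010000000000000000000) (nat_lit 0x0) (nat_lit 0x6006400000000000000000000000000000000000) := T_1 (nat_lit 158) (nat_lit 157) (nat_lit 2) (nat_lit 4) (nat_lit 9) L22183 (by decide +kernel)
theorem L22185 : W_1 (nat_lit 4) (nat_lit 0x100018000c0002000200010000000000000000000) (nat_lit 0x0) (nat_lit 0x10000e006400000000000000000000000000000000000) := T_1 (nat_lit 159) (nat_lit 176) (nat_lit 5) (nat_lit 7) (nat_lit 6) L22184 (by decide +kernel)
theorem L22186 : W_1 (nat_lit 5) (nat_lit 0x100018000c0002000200000000000000000000000) (nat_lit 0x0) (nat_lit 0x10000e006400000000000100010000000000000000000) := T_1 (nat_lit 76) (nat_lit 92) (nat_lit 6) (nat_lit 7) (nat_lit 8) L22185 (by decide +kernel)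
theorem L22187 : W_1 (nat_lit 6) (nat_lit 0x100018000c0002000000000000000000000000000) (nat_lit 0x0) (nat_lit 0x10000e006400000004000300010000000000000000000) := T_1 (nat_lit 93) (nat_lit 110) (nat_lit 6) (nat_lit 7) (nat_lit 9) L22186 (by decide +kernel)
theorem L22188 : W_1 (nat_lit 2) (nat_lit 0x1c0018000c0002000280000000000000000000000) (nat_lit 0x0) (nat_lit 0x6400000000000000000000000000000000000) := D_1 (nat_lit 145) (nat_lit 146) (nat_lit 142) (nat_lit 1) (nat_lit 10) (nat_lit 8) (nat_lit 1) (nat_lit 9) (nat_lit 8) (by decide +kernel)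
theorem L22189 : W_1 (nat_lit 3) (nat_lit 0x180018000c0002000280000000000000000000000) (nat_lit 0x0) (nat_lit 0x6006400000000000000000000000000000000000) := T_1 (nat_lit 158) (nat_lit 157) (nat_lit 2) (nat_lit 4) (nat_lit 9) L22188 (by decide +kernel)
theorem L22190 : W_1 (nat_lit 4) (nat_lit 0x100018000c0002000280000000000000000000000) (nat_lit 0x0) (nat_lit 0x10000e006400000000000000000000000000000000000) := T_1 (nat_lit 159) (nat_lit 176) (nat_lit 5) (nat_lit 7) (nat_lit 6) L22189 (by decide +kernel)
theorem L22191 : W_1 (nat_lit 5) (nat_lit 0x100018000c0002000080000000000000000000000) (nat_lit 0x0) (nat_lit 0x10000e006400000004000200000000000000000000000) := T_1 (nat_lit 93) (nat_lit 110) (nat_lit 6) (nat_lit 7) (nat_lit 9) L22190 (by decide +kernel)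
theorem L22192 : W_1 (nat_lit 6) (nat_lit 0x100018000c0002000000000000000000000000000) (nat_lit 0x0) (nat_lit 0x10000e006400000005000280000000000000000000000) := T_1 (nat_lit 91) (nat_lit 108) (nat_lit 4) (nat_lit 7) (nat_lit 9) L22191 (by decide +kernel)
theorem L22193 : W_1 (nat_lit 7) (nat_lit 0x100018000c0000000000000000000000000000000) (nat_lit 0x0) (nat_lit 0x10000e00640000000700038001c000000000000000000) := Q_1 (nat_lit 109) (C_1 L21216 (C_1 L20963 (C_1 L22187 (C_1 L22192 N_1)))) (by decide +kernel)
theorem L22194 : W_1 (nat_lit 8) (nat_lit 0x18000c0000000000000000000000000000000) (nat_lit 0x0) (nat_lit 0xe000f0001e00640000000700038001c000000000000000000) := Q_1 (nat_lit 160) (C_1 L22193 (C_1 L21202 (C_1 L21197 N_1))) (by decide +kernel)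
theorem L22195 : W_1 (nat_lit 2) (nat_lit 0x100038000e0002000180000000000000000000000) (nat_lit 0x0) (nat_lit 0x4000200000000000000004000000000000000000000000000) := D_1 (nat_lit 177) (nat_lit 194) (nat_lit 110) (nat_lit 6) (nat_lit 7) (nat_lit 11) (nat_lit 6) (nat_lit 7) (nat_lit 10) (by decide +kernel)
theorem L22196 : W_1 (nat_lit 3) (nat_lit 0x38000e0002000180000000000000000000000) (nat_lit 0x0) (nat_lit 0x4000200010000000000005000000000000000000000000000) := T_1 (nat_lit 160) (nat_lit 108) (nat_lit 4) (nat_lit 7) (nat_lit 9) L22195 (by decide +kernel)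
theorem L22197 : W_1 (nat_lit 4) (nat_lit 0x38000e0002000100000000000000000000000) (nat_lit 0x0) (nat_lit 0x4000200010000000000005000080004000000000000000000) := T_1 (nat_lit 91) (nat_lit 74) (nat_lit 4) (nat_lit 7) (nat_lit 8) L22196 (by decide +kernel)
theorem L22198 : W_1 (nat_lit 5) (nat_lit 0x18000e0002000100000000000000000000000) (nat_lit 0x0) (nat_lit 0x4000200010006000000005000080004000000000000000000) := T_1 (nat_lit 145) (nat_lit 146) (nat_lit 0) (nat_lit 10) (nat_lit 8) L22197 (by decide +kernel)
theorem L22199 : W_1 (nat_lit 6) (nat_lit 0x18000e0002000000000000000000000000000) (nat_lit 0x0) (nat_lit 0x400020001000600000000500018000c000000000000000000) := T_1 (nat_lit 92) (nat_lit 75) (nat_lit 7) (nat_lit 7) (nat_lit 4) L22198 (by decide +kernel)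
theorem L22200 : W_1 (nat_lit 2) (nat_lit 0x38000c0004000200008000000000000000000) (nat_lit 0x0) (nat_lit 0x4000030000000000000000000000000000000) := D_1 (nat_lit 125) (nat_lit 124) (nat_lit 146) (nat_lit 3) (nat_lit 5) (nat_lit 7) (nat_lit 0) (nat_lit 10) (nat_lit 8) (by decide +kernel)
theorem L22201 : W_1 (nat_lit 3) (nat_lit 0x18000c0004000200008000000000000000000) (nat_lit 0x0) (nat_lit 0x40006000030000000000000000000000000000000) := T_1 (nat_lit 145) (nat_lit 162) (nat_lit 7) (nat_lit 8) (nat_lit 5) L22200 (by decide +kernel)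
theorem L22202 : W_1 (nat_lit 4) (nat_lit 0x18000c0004000200000000000000000000000) (nat_lit 0x0) (nat_lit 0x40006000030000000100008000000000000000000) := T_1 (nat_lit 75) (nat_lit 92) (nat_lit 4) (nat_lit 8) (nat_lit 8) L22201 (by decide +kernel)
theorem L22203 : W_1 (nat_lit 5) (nat_lit 0x18000c0004000000000000000000000000000) (nat_lit 0x0) (nat_lit 0x40006000030000000300018000000000000000000) := T_1 (nat_lit 93) (nat_lit 76) (nat_lit 5) (nat_lit 8) (nat_lit 4) L22202 (by decide +kernel)
theorem L22205 : W_1 (nat_lit 2) (nat_lit 0x100018000c0006000080000000000000000000000) (nat_lit 0x0) (nat_lit 0x10000c000000000000000000) := D_1 (nat_lit 92) (nat_lit 74) (nat_lit 75) (nat_lit 4) (nat_lit 7) (nat_lit 8) (nat_lit 7) (nat_lit 7) (nat_lit 4) (by decide +kernel)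
theorem L22206 : W_1 (nat_lit 3) (nat_lit 0x100018000c0006000000000000000000000000000) (nat_lit 0x0) (nat_lit 0x100018000c000000000000000000) := T_1 (nat_lit 91) (nat_lit 108) (nat_lit 4) (nat_lit 7) (nat_lit 9) L22205 (by decide +kernel)
theorem L22207 : W_1 (nat_lit 4) (nat_lit 0x18000c0006000000000000000000000000000) (nat_lit 0x0) (nat_lit 0x20001000000000000100018000c000000000000000000) := T_1 (nat_lit 160) (nat_lit 177) (nat_lit 6) (nat_lit 7) (nat_lit 10) L22206 (by decide +kernel)
theorem L22208 : W_1 (nat_lit 2) (nat_lit 0x18000c00060001c0000000000000000000000) (nat_lit 0x0) (nat_lit 0x19000000000000000000000000000) := D_1 (nat_lit 111) (nat_lit 112) (nat_lit 108) (nat_lit 0) (nat_lit 10) (nat_lit 6) (nat_lit 0) (nat_lit 9) (nat_lit 6) (by decide +kernel)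
theorem L22209 : W_1 (nat_lit 3) (nat_lit 0x18000c0006000180000000000000000000000) (nat_lit 0x0) (nat_lit 0x19000060000000000000000000000) := T_1 (nat_lit 90) (nat_lit 89) (nat_lit 3) (nat_lit 4) (nat_lit 5) L22208 (by decide +kernel)
theorem L22210 : W_1 (nat_lit 4) (nat_lit 0x18000c0006000100000000000000000000000) (nat_lit 0x0) (nat_lit 0x190000e0004000000000000000000) := T_1 (nat_lit 91) (nat_lit 74) (nat_lit 4) (nat_lit 7) (nat_lit 8) L22209 (by decide +kernel)
theorem L22211 : W_1 (nat_lit 5) (nat_lit 0x18000c0006000000000000000000000000000) (nat_lit 0x0) (nat_lit 0x190001e000c000000000000000000) := T_1 (nat_lit 92) (nat_lit 75) (nat_lit 7) (nat_lit 7) (nat_lit 4) L22210 (by decide +kernel)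
theorem L22212 : W_1 (nat_lit 2) (nat_lit 0x100018000d0007800000000000000000000000000) (nat_lit 0x0) (nat_lit 0x2000020008000000000000000000000000000) := D_1 (nat_lit 125) (nat_lit 111) (nat_lit 145) (nat_lit 2) (nat_lit 5) (nat_lit 7) (nat_lit 3) (nat_lit 5) (nat_lit 7) (by decide +kernel)
theorem L22213 : W_1 (nat_lit 3) (nat_lit 0x100018000c0007800000000000000000000000000) (nat_lit 0x0) (nat_lit 0x2000038008000000000000000000000000000) := T_1 (nat_lit 124) (nat_lit 123) (nat_lit 1) (nat_lit 8) (nat_lit 6) L22212 (by decide +kernel)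
theorem L22214 : W_1 (nat_lit 4) (nat_lit 0x100018000c0007000000000000000000000000000) (nat_lit 0x0) (nat_lit 0x2000038008c00000000000000000000000000) := T_1 (nat_lit 107) (nat_lit 106) (nat_lit 3) (nat_lit 4) (nat_lit 6) L22213 (by decide +kernel)
theorem L22215 : W_1 (nat_lit 5) (nat_lit 0x100018000c0006000000000000000000000000000) (nat_lit 0x0) (nat_lit 0x2000038009c00080000000000000000000000) := T_1 (nat_lit 108) (nat_lit 91) (nat_lit 4) (nat_lit 7) (nat_lit 9) L22214 (by decide +kernel)
theorem L22216 : W_1 (nat_lit 6) (nat_lit 0x18000c0006000000000000000000000000000) (nat_lit 0x0) (nat_lit 0x200010002000038009c00080000000000000000000000) := T_1 (nat_lit 160) (nat_lit 177) (nat_lit 6) (nat_lit 7) (nat_lit 10) L22215 (by decide +kernel)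
theorem L22223 : W_1 (nat_lit 2) (nat_lit 0x100018000c0002000300000000000000000000000) (nat_lit 0x0) (nat_lit 0x1000080004000000000000000000) := D_1 (nat_lit 91) (nat_lit 108) (nat_lit 74) (nat_lit 4) (nat_lit 7) (nat_lit 9) (nat_lit 4) (nat_lit 7) (nat_lit 8) (by decide +kernel)
theorem L22224 : W_1 (nat_lit 3) (nat_lit 0x100018000c0002000200000000000000000000000) (nat_lit 0x0) (nat_lit 0x1000180014000000000000000000) := T_1 (nat_lit 92) (nat_lit 76) (nat_lit 6) (nat_lit 7) (nat_lit 8) L22223 (by decide +kernel)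
theorem L22225 : W_1 (nat_lit 4) (nat_lit 0x100018000c0002000000000000000000000000000) (nat_lit 0x0) (nat_lit 0x5000380014000000000000000000) := T_1 (nat_lit 93) (nat_lit 110) (nat_lit 6) (nat_lit 7) (nat_lit 9) L22224 (by decide +kernel)
theorem L22226 : W_1 (nat_lit 5) (nat_lit 0x100018000c0003000000000000000000000000000) (nat_lit 0x0) (nat_lit 0x200003800cc00200000000000000000000000) := T_1 (nat_lit 110) (nat_lit 93) (nat_lit 6) (nat_lit 7) (nat_lit 9) L22214 (by decide +kernel)
theorem L22227 : W_1 (nat_lit 6) (nat_lit 0x100018000c0002000000000000000000000000000) (nat_lit 0x0) (nat_lit 0x200003800dc00280000000000000000000000) := T_1 (nat_lit 108) (nat_lit 91) (nat_lit 4) (nat_lit 7) (nat_lit 9) L22226 (by decide +kernel)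
theorem L22228 : W_1 (nat_lit 7) (nat_lit 0x100018000c0000000000000000000000000000000) (nat_lit 0x0) (nat_lit 0x200003800fc0038001c000000000000000000) := Q_1 (nat_lit 109) (C_1 L20963 (C_1 L22225 (C_1 L22227 (C_1 L20961 N_1)))) (by decide +kernel)
theorem L22229 : W_1 (nat_lit 8) (nat_lit 0x18000c0000000000000000000000000000000) (nat_lit 0x0) (nat_lit 0x600030001000200003800fc0038001c000000000000000000) := Q_1 (nat_lit 160) (C_1 L21197 (C_1 L2854 (C_1 L22228 N_1))) (by decide +kernel)
theorem L22234 : W_1 (nat_lit 2) (nat_lit 0x100078000c0000000000000000000000000000000) (nat_lit 0x0) (nat_lit 0x4000200000000000000004000000000000000000000000000) := D_1 (nat_lit 177) (nat_lit 110) (nat_lit 194) (nat_lit 6) (nat_lit 7) (nat_lit 10) (nat_lit 6) (nat_lit 7) (nat_lit 11) (by decide +kernel)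
theorem L22235 : W_1 (nat_lit 3) (nat_lit 0x78000c0000000000000000000000000000000) (nat_lit 0x0) (nat_lit 0x4000200018000000000004000000000000000000000000000) := T_1 (nat_lit 160) (nat_lit 159) (nat_lit 1) (nat_lit 10) (nat_lit 8) L22234 (by decide +kernel)
theorem L22236 : W_1 (nat_lit 4) (nat_lit 0x38000c0000000000000000000000000000000) (nat_lit 0x0) (nat_lit 0x400020001800c000000004000000000000000000000000000) := T_1 (nat_lit 146) (nat_lit 147) (nat_lit 0) (nat_lit 11) (nat_lit 8) L22235 (by decide +kernel)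
theorem L22237 : W_1 (nat_lit 9) (nat_lit 0x18000c0000000000000000000000000000000) (nat_lit 0x0) (nat_lit 0x700038001e00e700038005000000000000000000000000000) := Q_1 (nat_lit 145) (C_1 L21943 (C_1 L22181 (C_1 L22236 N_1))) (by decide +kernel)
theorem L22251 : W_1 (nat_lit 2) (nat_lit 0x180018000c0006000000000000000000000000000) (nat_lit 0x0) (nat_lit 0x400000000000100008000000000000000000) := D_1 (nat_lit 92) (nat_lit 142) (nat_lit 75) (nat_lit 5) (nat_lit 7) (nat_lit 5) (nat_lit 7) (nat_lit 7) (nat_lit 4) (by decide +kernel)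
theorem L22252 : W_1 (nat_lit 3) (nat_lit 0x100018000c0006000000000000000000000000000) (nat_lit 0x0) (nat_lit 0x100008000400000000000100008000000000000000000) := T_1 (nat_lit 159) (nat_lit 176) (nat_lit 5) (nat_lit 7) (nat_lit 6) L22251 (by decide +kernel)
theorem L22253 : W_1 (nat_lit 4) (nat_lit 0x18000c0006000000000000000000000000000) (nat_lit 0x0) (nat_lit 0x300018000400000000000100008000000000000000000) := T_1 (nat_lit 160) (nat_lit 177) (nat_lit 6) (nat_lit 7) (nat_lit 10) L22252 (by decide +kernel)
theorem L22254 : W_1 (nat_lit 2) (nat_lit 0x1e000d0006000100004000000000000000000) (nat_lit 0x0) (nat_lit 0x2000020008000000000000000000000000000) := D_1 (nat_lit 125) (nat_lit 145) (nat_lit 111) (nat_lit 3) (nat_lit 5) (nat_lit 7) (nat_lit 2) (nat_lit 5) (nat_lit 7) (by decide +kernel)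
theorem L22255 : W_1 (nat_lit 3) (nat_lit 0x1e000c0006000100004000000000000000000) (nat_lit 0x0) (nat_lit 0x2000038008000000000000000000000000000) := T_1 (nat_lit 124) (nat_lit 123) (nat_lit 0) (nat_lit 8) (nat_lit 8) L22254 (by decide +kernel)
theorem L22256 : W_1 (nat_lit 4) (nat_lit 0x1e000c0006000100000000000000000000000) (nat_lit 0x0) (nat_lit 0x2000038008000080004000000000000000000) := T_1 (nat_lit 74) (nat_lit 91) (nat_lit 4) (nat_lit 7) (nat_lit 8) L22255 (by decide +kernel)
theorem L22257 : W_1 (nat_lit 5) (nat_lit 0x1c000c0006000100000000000000000000000) (nat_lit 0x0) (nat_lit 0x2300038008000080004000000000000000000) := T_1 (nat_lit 141) (nat_lit 140) (nat_lit 2) (nat_lit 4) (nat_lit 8) L22256 (by decide +kernel)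
theorem L22258 : W_1 (nat_lit 6) (nat_lit 0x18000c0006000100000000000000000000000) (nat_lit 0x0) (nat_lit 0x8002700038008000080004000000000000000000) := T_1 (nat_lit 142) (nat_lit 159) (nat_lit 5) (nat_lit 7) (nat_lit 5) L22257 (by decide +kernel)
theorem L22259 : W_1 (nat_lit 7) (nat_lit 0x18000c0006000000000000000000000000000) (nat_lit 0x0) (nat_lit 0x800270003800800018000c000000000000000000) := T_1 (nat_lit 92) (nat_lit 75) (nat_lit 7) (nat_lit 7) (nat_lit 4) L22258 (by decide +kernel)
theorem L22272 : W_1 (nat_lit 2) (nat_lit 0x1c0018000c0000000200000000000000000000000) (nat_lit 0x0) (nat_lit 0x6400000000000000000000000000000000000) := D_1 (nat_lit 145) (nat_lit 146) (nat_lit 142) (nat_lit 1) (nat_lit 10) (nat_lit 8) (nat_lit 1) (nat_lit 9) (nat_lit 8) (by decide +kernel)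
theorem L22273 : W_1 (nat_lit 3) (nat_lit 0x180018000c0000000200000000000000000000000) (nat_lit 0x0) (nat_lit 0x6006400000000000000000000000000000000000) := T_1 (nat_lit 158) (nat_lit 157) (nat_lit 2) (nat_lit 4) (nat_lit 9) L22272 (by decide +kernel)
theorem L22274 : W_1 (nat_lit 4) (nat_lit 0x180018000c0000000000000000000000000000000) (nat_lit 0x0) (nat_lit 0x6006400000004000200000000000000000000000) := T_1 (nat_lit 93) (nat_lit 110) (nat_lit 5) (nat_lit 8) (nat_lit 5) L22273 (by decide +kernel)
theorem L22275 : W_1 (nat_lit 5) (nat_lit 0x100018000c0000000000000000000000000000000) (nat_lit 0x0) (nat_lit 0x10000e006400000006000300018000000000000000000) := Q_1 (nat_lit 159) (C_1 L21227 (C_1 L21221 (C_1 L22274 N_1))) (by decide +kernel)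
theorem L22276 : W_1 (nat_lit 7) (nat_lit 0x18000c0000000000000000000000000000000) (nat_lit 0x0) (nat_lit 0xe000f0001e006400000006000300018000000000000000000) := Q_1 (nat_lit 160) (C_1 L21202 (C_1 L21197 (C_1 L22275 N_1))) (by decide +kernel)
theorem L22281 : W_1 (nat_lit 8) (nat_lit 0x18000c0004000000000000000000000000000) (nat_lit 0x0) (nat_lit 0x30001800270003800bc0018000c000000000000000000) := Q_1 (nat_lit 109) (C_1 L22259 (C_1 L22253 (C_1 L22216 N_1))) (by decide +kernel)
theorem L22282 : W_1 (nat_lit 9) (nat_lit 0x18000c0000000000000000000000000000000) (nat_lit 0x0) (nat_lit 0x30005800670003800fc0038001c000000000000000000) := Q_1 (nat_lit 110) (C_1 L1556 (C_1 L22281 (C_1 L22203 N_1))) (by decide +kernel)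
theorem L22283 : W_1 (nat_lit 2) (nat_lit 0x12001e000d0006000100000000000000000000000) (nat_lit 0x0) (nat_lit 0x2000020008000000000000000000000000000) := D_1 (nat_lit 125) (nat_lit 145) (nat_lit 111) (nat_lit 3) (nat_lit 5) (nat_lit 7) (nat_lit 2) (nat_lit 5) (nat_lit 7) (by decide +kernel)
theorem L22284 : W_1 (nat_lit 3) (nat_lit 0x12001e000c0006000100000000000000000000000) (nat_lit 0x0) (nat_lit 0x2000038008000000000000000000000000000) := T_1 (nat_lit 124) (nat_lit 123) (nat_lit 0) (nat_lit 8) (nat_lit 8) L22283 (by decide +kernel)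
theorem L22285 : W_1 (nat_lit 4) (nat_lit 0x10001e000c0006000100000000000000000000000) (nat_lit 0x0) (nat_lit 0x6002000038008000000000000000000000000000) := T_1 (nat_lit 157) (nat_lit 158) (nat_lit 1) (nat_lit 8) (nat_lit 8) L22284 (by decide +kernel)
theorem L22286 : W_1 (nat_lit 5) (nat_lit 0x10001c000c0006000100000000000000000000000) (nat_lit 0x0) (nat_lit 0x6002300038008000000000000000000000000000) := T_1 (nat_lit 141) (nat_lit 140) (nat_lit 2) (nat_lit 4) (nat_lit 8) L22285 (by decide +kernel)
theorem L22287 : W_1 (nat_lit 6) (nat_lit 0x100018000c0006000100000000000000000000000) (nat_lit 0x0) (nat_lit 0xe002700038008000000000000000000000000000) := T_1 (nat_lit 142) (nat_lit 159) (nat_lit 5) (nat_lit 7) (nat_lit 5) L22286 (by decide +kernel)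
theorem L22288 : W_1 (nat_lit 7) (nat_lit 0x100018000c0006000000000000000000000000000) (nat_lit 0x0) (nat_lit 0xe002700038008000100008000000000000000000) := T_1 (nat_lit 92) (nat_lit 75) (nat_lit 7) (nat_lit 7) (nat_lit 4) L22287 (by decide +kernel)
theorem L22289 : W_1 (nat_lit 8) (nat_lit 0x18000c0006000000000000000000000000000) (nat_lit 0x0) (nat_lit 0x20001e002700038008000100008000000000000000000) := T_1 (nat_lit 160) (nat_lit 177) (nat_lit 6) (nat_lit 7) (nat_lit 10) L22288 (by decide +kernel)
theorem L22290 : W_1 (nat_lit 9) (nat_lit 0x18000c0004000000000000000000000000000) (nat_lit 0x0) (nat_lit 0x20001e00270003801bc001e000c000000000000000000) := Q_1 (nat_lit 109) (C_1 L22259 (C_1 L22211 (C_1 L22216 (C_1 L22207 (C_1 L22289 N_1))))) (by decide +kernel)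
theorem L22291 : W_1 (nat_lit 10) (nat_lit 0x18000c0000000000000000000000000000000) (nat_lit 0x0) (nat_lit 0x20005e00670003801fc003e001c000000000000000000) := Q_1 (nat_lit 110) (C_1 L1556 (C_1 L22290 (C_1 L22203 N_1))) (by decide +kernel)
theorem L22292 : W_1 (nat_lit 15) (nat_lit 0x10000c0000000000000000000000000000000) (nat_lit 0x0) (nat_lit 0xf000f8005e00ef0003803fc01fe003f000000000000000000) := Q_1 (nat_lit 143) (C_1 L21001 (C_1 L22055 (C_1 L22151 (C_1 L22182 (C_1 L22194 (C_1 L22229 (C_1 L22237 (C_1 L22276 (C_1 L22282 (C_1 L22291 N_1)))))))))) (by decide +kernel)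
theorem L22305 : W_1 (nat_lit 2) (nat_lit 0x30003e0009000000020000000000000000000) (nat_lit 0x0) (nat_lit 0x800c00000000000000000000000000000000) := D_1 (nat_lit 130) (nat_lit 143) (nat_lit 131) (nat_lit 1) (nat_lit 11) (nat_lit 7) (nat_lit 1) (nat_lit 12) (nat_lit 7) (by decide +kernel)
theorem L22306 : W_1 (nat_lit 3) (nat_lit 0x30001e0009000000020000000000000000000) (nat_lit 0x0) (nat_lit 0x800e00002000000000000000000000000000) := T_1 (nat_lit 129) (nat_lit 109) (nat_lit 0) (nat_lit 10) (nat_lit 7) L22305 (by decide +kernel)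
theorem L22307 : W_1 (nat_lit 4) (nat_lit 0x30001e0009000000000000000000000000000) (nat_lit 0x0) (nat_lit 0x800e00002000400020000000000000000000) := T_1 (nat_lit 77) (nat_lit 94) (nat_lit 5) (nat_lit 9) (nat_lit 4) L22306 (by decide +kernel)
theorem L22308 : W_1 (nat_lit 5) (nat_lit 0x30001e0008000000000000000000000000000) (nat_lit 0x0) (nat_lit 0x800e00003800400020000000000000000000) := T_1 (nat_lit 108) (nat_lit 107) (nat_lit 0) (nat_lit 9) (nat_lit 7) L22307 (by decide +kernel)
theorem L22309 : W_1 (nat_lit 6) (nat_lit 0x30001e0000000000000000000000000000000) (nat_lit 0x0) (nat_lit 0x800e0001b800400020000000000000000000) := T_1 (nat_lit 111) (nat_lit 112) (nat_lit 2) (nat_lit 6) (nat_lit 7) L22308 (by decide +kernel)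
theorem L22310 : W_1 (nat_lit 7) (nat_lit 0x30001c0000000000000000000000000000000) (nat_lit 0x0) (nat_lit 0x800e3001b800400020000000000000000000) := T_1 (nat_lit 125) (nat_lit 124) (nat_lit 3) (nat_lit 5) (nat_lit 7) L22309 (by decide +kernel)
theorem L22311 : W_1 (nat_lit 7) (nat_lit 0x30001e0008000000000000000000000000000) (nat_lit 0x0) (nat_lit 0x40000000000007803e00070000000000000000000) := T_1 (nat_lit 107) (nat_lit 108) (nat_lit 0) (nat_lit 9) (nat_lit 7) L20946 (by decide +kernel)
theorem L22312 : W_1 (nat_lit 8) (nat_lit 0x30001e0000000000000000000000000000000) (nat_lit 0x0) (nat_lit 0x4000000000001f803e00070000000000000000000) := T_1 (nat_lit 111) (nat_lit 112) (nat_lit 2) (nat_lit 6) (nat_lit 7) L22311 (by decide +kernel)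
theorem L22313 : W_1 (nat_lit 9) (nat_lit 0x30001c0000000000000000000000000000000) (nat_lit 0x0) (nat_lit 0x4000000003001f803e00070000000000000000000) := T_1 (nat_lit 125) (nat_lit 124) (nat_lit 3) (nat_lit 5) (nat_lit 7) L22312 (by decide +kernel)
theorem L22314 : W_1 (nat_lit 2) (nat_lit 0x38001e000d000680040000000000000000000) (nat_lit 0x0) (nat_lit 0x140008000000000000000000) := D_1 (nat_lit 92) (nat_lit 75) (nat_lit 90) (nat_lit 4) (nat_lit 8) (nat_lit 8) (nat_lit 3) (nat_lit 5) (nat_lit 5) (by decide +kernel)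
theorem L22315 : W_1 (nat_lit 3) (nat_lit 0x38001e000d000600040000000000000000000) (nat_lit 0x0) (nat_lit 0x1c000c000000000000000000) := T_1 (nat_lit 91) (nat_lit 74) (nat_lit 7) (nat_lit 6) (nat_lit 4) L22314 (by decide +kernel)
theorem L22316 : W_1 (nat_lit 4) (nat_lit 0x30001e000d000600040000000000000000000) (nat_lit 0x0) (nat_lit 0x100008000000000001c000c000000000000000000) := T_1 (nat_lit 143) (nat_lit 160) (nat_lit 5) (nat_lit 8) (nat_lit 5) L22315 (by decide +kernel)
theorem L22317 : W_1 (nat_lit 5) (nat_lit 0x30001e0009000600040000000000000000000) (nat_lit 0x0) (nat_lit 0x500008000000040001c000c000000000000000000) := T_1 (nat_lit 110) (nat_lit 162) (nat_lit 7) (nat_lit 8) (nat_lit 5) L22316 (by decide +kernel)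
theorem L22318 : W_1 (nat_lit 6) (nat_lit 0x30001e0009000600000000000000000000000) (nat_lit 0x0) (nat_lit 0x500008000000040009c004c000000000000000000) := T_1 (nat_lit 78) (nat_lit 95) (nat_lit 6) (nat_lit 9) (nat_lit 8) L22317 (by decide +kernel)
theorem L22319 : W_1 (nat_lit 7) (nat_lit 0x30001e0009000400000000000000000000000) (nat_lit 0x0) (nat_lit 0x50000800000004000bc005c000000000000000000) := T_1 (nat_lit 93) (nat_lit 76) (nat_lit 4) (nat_lit 9) (nat_lit 8) L22318 (by decide +kernel)
theorem L22320 : W_1 (nat_lit 8) (nat_lit 0x30001e0009000000000000000000000000000) (nat_lit 0x0) (nat_lit 0x50000800000004000fc007c000000000000000000) := T_1 (nat_lit 94) (nat_lit 77) (nat_lit 5) (nat_lit 9) (nat_lit 4) L22319 (by decide +kernel)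
theorem L22321 : W_1 (nat_lit 9) (nat_lit 0x30001e0008000000000000000000000000000) (nat_lit 0x0) (nat_lit 0x50000800000005800fc007c000000000000000000) := T_1 (nat_lit 108) (nat_lit 107) (nat_lit 0) (nat_lit 9) (nat_lit 7) L22320 (by decide +kernel)
theorem L22322 : W_1 (nat_lit 10) (nat_lit 0x30001e0000000000000000000000000000000) (nat_lit 0x0) (nat_lit 0x5000080000001d800fc007c000000000000000000) := T_1 (nat_lit 111) (nat_lit 112) (nat_lit 2) (nat_lit 6) (nat_lit 7) L22321 (by decide +kernel)
theorem L22323 : W_1 (nat_lit 11) (nat_lit 0x30001c0000000000000000000000000000000) (nat_lit 0x0) (nat_lit 0x5000080003001d800fc007c000000000000000000) := T_1 (nat_lit 125) (nat_lit 124) (nat_lit 3) (nat_lit 5) (nat_lit 7) L22322 (by decide +kernel)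
theorem L22334 : W_1 (nat_lit 2) (nat_lit 0x30003c0000000000000000000000000000000) (nat_lit 0x0) (nat_lit 0x800c00000000000000000000000000000000) := D_1 (nat_lit 130) (nat_lit 143) (nat_lit 131) (nat_lit 1) (nat_lit 11) (nat_lit 7) (nat_lit 1) (nat_lit 12) (nat_lit 7) (by decide +kernel)
theorem L22335 : W_1 (nat_lit 2) (nat_lit 0x30007c0001000000000000000000000000000) (nat_lit 0x0) (nat_lit 0x70000000000000000000000000000) := D_1 (nat_lit 113) (nat_lit 112) (nat_lit 114) (nat_lit 2) (nat_lit 7) (nat_lit 7) (nat_lit 2) (nat_lit 8) (nat_lit 7) (by decide +kernel)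
theorem L22336 : W_1 (nat_lit 3) (nat_lit 0x30003c0001000000000000000000000000000) (nat_lit 0x0) (nat_lit 0xc00070000000000000000000000000000) := T_1 (nat_lit 130) (nat_lit 131) (nat_lit 1) (nat_lit 12) (nat_lit 7) L22335 (by decide +kernel)
theorem L22337 : W_1 (nat_lit 4) (nat_lit 0x30003c0000000000000000000000000000000) (nat_lit 0x0) (nat_lit 0xc00073000000000000000000000000000) := T_1 (nat_lit 108) (nat_lit 109) (nat_lit 0) (nat_lit 10) (nat_lit 7) L22336 (by decide +kernel)
theorem L22338 : W_1 (nat_lit 2) (nat_lit 0x400030003c0011000000000000000000000000000) (nat_lit 0x0) (nat_lit 0x8000800040000000000000000000) := D_1 (nat_lit 95) (nat_lit 111) (nat_lit 78) (nat_lit 6) (nat_lit 9) (nat_lit 9) (nat_lit 5) (nat_lit 10) (nat_lit 4) (by decide +kernel)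
theorem L22339 : W_1 (nat_lit 3) (nat_lit 0x30003c0011000000000000000000000000000) (nat_lit 0x0) (nat_lit 0x800040000000000008000800040000000000000000000) := T_1 (nat_lit 162) (nat_lit 179) (nat_lit 6) (nat_lit 9) (nat_lit 10) L22338 (by decide +kernel)
theorem L22340 : W_1 (nat_lit 4) (nat_lit 0x30003c0010000000000000000000000000000) (nat_lit 0x0) (nat_lit 0x80004000000000000b000800040000000000000000000) := T_1 (nat_lit 108) (nat_lit 109) (nat_lit 0) (nat_lit 10) (nat_lit 7) L22339 (by decide +kernel)
theorem L22341 : W_1 (nat_lit 5) (nat_lit 0x30003c0000000000000000000000000000000) (nat_lit 0x0) (nat_lit 0x80004000000000003b000800040000000000000000000) := T_1 (nat_lit 112) (nat_lit 113) (nat_lit 2) (nat_lit 7) (nat_lit 7) L22340 (by decide +kernel)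
theorem L22342 : W_1 (nat_lit 6) (nat_lit 0x30001c0000000000000000000000000000000) (nat_lit 0x0) (nat_lit 0x800040000800e0007b000800040000000000000000000) := Q_1 (nat_lit 129) (C_1 L22334 (C_1 L22337 (C_1 L22341 N_1))) (by decide +kernel)
theorem L22343 : W_1 (nat_lit 2) (nat_lit 0x30003e0001000000000000000000000000000) (nat_lit 0x0) (nat_lit 0x800c00000000000000000000000000000000) := D_1 (nat_lit 130) (nat_lit 143) (nat_lit 131) (nat_lit 1) (nat_lit 11) (nat_lit 7) (nat_lit 1) (nat_lit 12) (nat_lit 7) (by decide +kernel)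
theorem L22344 : W_1 (nat_lit 3) (nat_lit 0x30001e0001000000000000000000000000000) (nat_lit 0x0) (nat_lit 0x800e00002000000000000000000000000000) := T_1 (nat_lit 129) (nat_lit 109) (nat_lit 0) (nat_lit 10) (nat_lit 7) L22343 (by decide +kernel)
theorem L22345 : W_1 (nat_lit 4) (nat_lit 0x30001e0000000000000000000000000000000) (nat_lit 0x0) (nat_lit 0x800e00003800000000000000000000000000) := T_1 (nat_lit 108) (nat_lit 107) (nat_lit 0) (nat_lit 9) (nat_lit 7) L22344 (by decide +kernel)
theorem L22346 : W_1 (nat_lit 5) (nat_lit 0x30001c0000000000000000000000000000000) (nat_lit 0x0) (nat_lit 0x800e30003800000000000000000000000000) := T_1 (nat_lit 125) (nat_lit 124) (nat_lit 3) (nat_lit 5) (nat_lit 7) L22345 (by decide +kernel)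
theorem L22347 : W_1 (nat_lit 2) (nat_lit 0x38003e000c000780040000000000000000000) (nat_lit 0x0) (nat_lit 0x2000000006000000000000000000) := D_1 (nat_lit 74) (nat_lit 73) (nat_lit 109) (nat_lit 0) (nat_lit 9) (nat_lit 5) (nat_lit 4) (nat_lit 7) (nat_lit 8) (by decide +kernel)
theorem L22348 : W_1 (nat_lit 3) (nat_lit 0x38003e000c000700040000000000000000000) (nat_lit 0x0) (nat_lit 0x20000c0006000000000000000000) := T_1 (nat_lit 91) (nat_lit 90) (nat_lit 3) (nat_lit 5) (nat_lit 5) L22347 (by decide +kernel)
theorem L22349 : W_1 (nat_lit 4) (nat_lit 0x38003e000c000600040000000000000000000) (nat_lit 0x0) (nat_lit 0x20001c000e000000000000000000) := T_1 (nat_lit 92) (nat_lit 75) (nat_lit 4) (nat_lit 8) (nat_lit 8) L22348 (by decide +kernel)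
theorem L22350 : W_1 (nat_lit 5) (nat_lit 0x38001e000c000600040000000000000000000) (nat_lit 0x0) (nat_lit 0x6000020001c000e000000000000000000) := T_1 (nat_lit 129) (nat_lit 130) (nat_lit 1) (nat_lit 11) (nat_lit 7) L22349 (by decide +kernel)
theorem L22351 : W_1 (nat_lit 6) (nat_lit 0x30001e000c000600040000000000000000000) (nat_lit 0x0) (nat_lit 0x100008006000020001c000e000000000000000000) := T_1 (nat_lit 143) (nat_lit 160) (nat_lit 5) (nat_lit 8) (nat_lit 5) L22350 (by decide +kernel)
theorem L22352 : W_1 (nat_lit 7) (nat_lit 0x30001e0008000600040000000000000000000) (nat_lit 0x0) (nat_lit 0x500008006000060001c000e000000000000000000) := T_1 (nat_lit 110) (nat_lit 162) (nat_lit 7) (nat_lit 8) (nat_lit 5) L22351 (by decide +kernel)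
theorem L22353 : W_1 (nat_lit 8) (nat_lit 0x30001e0008000600000000000000000000000) (nat_lit 0x0) (nat_lit 0x500008006000060009c004e000000000000000000) := T_1 (nat_lit 78) (nat_lit 95) (nat_lit 6) (nat_lit 9) (nat_lit 8) L22352 (by decide +kernel)
theorem L22354 : W_1 (nat_lit 9) (nat_lit 0x30001e0008000400000000000000000000000) (nat_lit 0x0) (nat_lit 0x50000800600006000bc005e000000000000000000) := T_1 (nat_lit 93) (nat_lit 76) (nat_lit 4) (nat_lit 9) (nat_lit 8) L22353 (by decide +kernel)
theorem L22355 : W_1 (nat_lit 10) (nat_lit 0x30001e0008000000000000000000000000000) (nat_lit 0x0) (nat_lit 0x50000800600006000fc007e000000000000000000) := T_1 (nat_lit 94) (nat_lit 77) (nat_lit 5) (nat_lit 9) (nat_lit 4) L22354 (by decide +kernel)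
theorem L22356 : W_1 (nat_lit 11) (nat_lit 0x30001e0000000000000000000000000000000) (nat_lit 0x0) (nat_lit 0x5000080060001e000fc007e000000000000000000) := T_1 (nat_lit 111) (nat_lit 112) (nat_lit 2) (nat_lit 6) (nat_lit 7) L22355 (by decide +kernel)
theorem L22357 : W_1 (nat_lit 12) (nat_lit 0x30001c0000000000000000000000000000000) (nat_lit 0x0) (nat_lit 0x5000080063001e000fc007e000000000000000000) := T_1 (nat_lit 125) (nat_lit 124) (nat_lit 3) (nat_lit 5) (nat_lit 7) L22356 (by decide +kernel)
theorem L22358 : W_1 (nat_lit 13) (nat_lit 0x30000c0000000000000000000000000000000) (nat_lit 0x0) (nat_lit 0x800050000800f3007f803fc007e000000000000000000) := Q_1 (nat_lit 128) (C_1 L22310 (C_1 L22313 (C_1 L22323 (C_1 L22342 (C_1 L22346 (C_1 L22357 N_1)))))) (by decide +kernel)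
theorem L22384 : W_1 (nat_lit 2) (nat_lit 0x70003c0010000000000000000000000000000) (nat_lit 0x0) (nat_lit 0x40000000000000000800040000000000000000000) := D_1 (nat_lit 95) (nat_lit 78) (nat_lit 162) (nat_lit 5) (nat_lit 10) (nat_lit 4) (nat_lit 5) (nat_lit 10) (nat_lit 5) (by decide +kernel)
theorem L22385 : W_1 (nat_lit 3) (nat_lit 0x70003c0000000000000000000000000000000) (nat_lit 0x0) (nat_lit 0x40000000000030000800040000000000000000000) := T_1 (nat_lit 112) (nat_lit 113) (nat_lit 2) (nat_lit 7) (nat_lit 7) L22384 (by decide +kernel)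
theorem L22386 : W_1 (nat_lit 4) (nat_lit 0x30003c0000000000000000000000000000000) (nat_lit 0x0) (nat_lit 0x4000c000000030000800040000000000000000000) := T_1 (nat_lit 146) (nat_lit 147) (nat_lit 3) (nat_lit 7) (nat_lit 7) L22385 (by decide +kernel)
theorem L22387 : W_1 (nat_lit 2) (nat_lit 0x30007c0000000000000000000000000000000) (nat_lit 0x0) (nat_lit 0x7000000000000000000000000000) := D_1 (nat_lit 109) (nat_lit 110) (nat_lit 108) (nat_lit 0) (nat_lit 11) (nat_lit 7) (nat_lit 0) (nat_lit 10) (nat_lit 7) (by decide +kernel)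
theorem L22388 : W_1 (nat_lit 3) (nat_lit 0x30003c0000000000000000000000000000000) (nat_lit 0x0) (nat_lit 0xc00007000000000000000000000000000) := T_1 (nat_lit 130) (nat_lit 131) (nat_lit 1) (nat_lit 12) (nat_lit 7) L22387 (by decide +kernel)
theorem L22391 : W_1 (nat_lit 2) (nat_lit 0x70003c0012001c00008000000000000000000) (nat_lit 0x0) (nat_lit 0xc000200000000000000000000000) := D_1 (nat_lit 110) (nat_lit 111) (nat_lit 93) (nat_lit 2) (nat_lit 7) (nat_lit 6) (nat_lit 1) (nat_lit 11) (nat_lit 5) (by decide +kernel)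
theorem L22392 : W_1 (nat_lit 3) (nat_lit 0x70003c0012001800008000000000000000000) (nat_lit 0x0) (nat_lit 0xc000600020000000000000000000) := T_1 (nat_lit 94) (nat_lit 77) (nat_lit 4) (nat_lit 10) (nat_lit 8) L22391 (by decide +kernel)
theorem L22393 : W_1 (nat_lit 4) (nat_lit 0x70003c0012000800008000000000000000000) (nat_lit 0x0) (nat_lit 0xc0016000a0000000000000000000) := T_1 (nat_lit 96) (nat_lit 79) (nat_lit 6) (nat_lit 10) (nat_lit 8) L22392 (by decide +kernel)
theorem L22394 : W_1 (nat_lit 5) (nat_lit 0x70003c0012000800000000000000000000000) (nat_lit 0x0) (nat_lit 0xc0017000a8000000000000000000) := T_1 (nat_lit 75) (nat_lit 92) (nat_lit 7) (nat_lit 7) (nat_lit 4) L22393 (by decide +kernel)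
theorem L22395 : W_1 (nat_lit 6) (nat_lit 0x70003c0012000000000000000000000000000) (nat_lit 0x0) (nat_lit 0xc001f000e8000000000000000000) := T_1 (nat_lit 95) (nat_lit 78) (nat_lit 5) (nat_lit 10) (nat_lit 4) L22394 (by decide +kernel)
theorem L22396 : W_1 (nat_lit 7) (nat_lit 0x70003c0010000000000000000000000000000) (nat_lit 0x0) (nat_lit 0xf001f000e8000000000000000000) := T_1 (nat_lit 109) (nat_lit 108) (nat_lit 0) (nat_lit 10) (nat_lit 7) L22395 (by decide +kernel)
theorem L22397 : W_1 (nat_lit 8) (nat_lit 0x70003c0000000000000000000000000000000) (nat_lit 0x0) (nat_lit 0x3f001f000e8000000000000000000) := T_1 (nat_lit 112) (nat_lit 113) (nat_lit 2) (nat_lit 7) (nat_lit 7) L22396 (by decide +kernel)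
theorem L22398 : W_1 (nat_lit 9) (nat_lit 0x30003c0000000000000000000000000000000) (nat_lit 0x0) (nat_lit 0xc00000003f001f000e8000000000000000000) := T_1 (nat_lit 146) (nat_lit 147) (nat_lit 3) (nat_lit 7) (nat_lit 7) L22397 (by decide +kernel)
theorem L22484 : W_1 (nat_lit 10) (nat_lit 0x30002c0000000000000000000000000000000) (nat_lit 0x0) (nat_lit 0x4000c000d0003f001f000e8000000000000000000) := Q_1 (nat_lit 128) (C_1 L22386 (C_1 L22398 (C_1 L22388 N_1))) (by decide +kernel)
theorem L22485 : W_1 (nat_lit 3) (nat_lit 0x78002c0000000000000000000000000000000) (nat_lit 0x0) (nat_lit 0x4000200018000000000004000000000000000000000000000) := T_1 (nat_lit 160) (nat_lit 159) (nat_lit 1) (nat_lit 10) (nat_lit 8) L3282 (by decide +kernel)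
theorem L22486 : W_1 (nat_lit 4) (nat_lit 0x70002c0000000000000000000000000000000) (nat_lit 0x0) (nat_lit 0x4000200018000800400004000000000000000000000000000) := T_1 (nat_lit 143) (nat_lit 130) (nat_lit 2) (nat_lit 7) (nat_lit 8) L22485 (by decide +kernel)
theorem L22487 : W_1 (nat_lit 5) (nat_lit 0x30002c0000000000000000000000000000000) (nat_lit 0x0) (nat_lit 0x400020001800c800400004000000000000000000000000000) := T_1 (nat_lit 146) (nat_lit 147) (nat_lit 0) (nat_lit 11) (nat_lit 8) L22486 (by decide +kernel)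
theorem L22488 : W_1 (nat_lit 6) (nat_lit 0x30002c0000000000000000000000000000000) (nat_lit 0x0) (nat_lit 0x800040000800d0003f000800040000000000000000000) := Q_1 (nat_lit 128) (C_1 L22341 (C_1 L22388 (C_1 L22334 N_1))) (by decide +kernel)
theorem L22514 : W_1 (nat_lit 8) (nat_lit 0x70002c0010000000000000000000000000000) (nat_lit 0x0) (nat_lit 0x10002f001f000e8000000000000000000) := T_1 (nat_lit 128) (nat_lit 113) (nat_lit 2) (nat_lit 7) (nat_lit 7) L22396 (by decide +kernel)
theorem L22515 : W_1 (nat_lit 9) (nat_lit 0x30002c0010000000000000000000000000000) (nat_lit 0x0) (nat_lit 0xc00010002f001f000e8000000000000000000) := T_1 (nat_lit 146) (nat_lit 147) (nat_lit 0) (nat_lit 11) (nat_lit 8) L22514 (by decide +kernel)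
theorem L22516 : W_1 (nat_lit 2) (nat_lit 0x70002c0010000800060000000000000000000) (nat_lit 0x0) (nat_lit 0x1000080004000000000000000) := D_1 (nat_lit 79) (nat_lit 96) (nat_lit 62) (nat_lit 6) (nat_lit 10) (nat_lit 8) (nat_lit 6) (nat_lit 10) (nat_lit 7) (by decide +kernel)
theorem L22517 : W_1 (nat_lit 3) (nat_lit 0x70002c0010000800020000000000000000000) (nat_lit 0x0) (nat_lit 0x10000c0005000000000000000) := T_1 (nat_lit 78) (nat_lit 60) (nat_lit 4) (nat_lit 10) (nat_lit 7) L22516 (by decide +kernel)
theorem L22518 : W_1 (nat_lit 4) (nat_lit 0x70002c0010000800000000000000000000000) (nat_lit 0x0) (nat_lit 0x14000e0005000000000000000) := T_1 (nat_lit 77) (nat_lit 94) (nat_lit 4) (nat_lit 10) (nat_lit 8) L22517 (by decide +kernel)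
theorem L22519 : W_1 (nat_lit 5) (nat_lit 0x70002c0010000000000000000000000000000) (nat_lit 0x0) (nat_lit 0x40000000000000001c000e0005000000000000000) := T_1 (nat_lit 95) (nat_lit 162) (nat_lit 5) (nat_lit 10) (nat_lit 5) L22518 (by decide +kernel)
theorem L22520 : W_1 (nat_lit 6) (nat_lit 0x30002c0010000000000000000000000000000) (nat_lit 0x0) (nat_lit 0x4000c000000000001c000e0005000000000000000) := T_1 (nat_lit 146) (nat_lit 147) (nat_lit 0) (nat_lit 11) (nat_lit 8) L22519 (by decide +kernel)
theorem L22521 : W_1 (nat_lit 2) (nat_lit 0x30002c0034000200000000000000000000000) (nat_lit 0x0) (nat_lit 0x10000800000000000000010000000000000000000) := D_1 (nat_lit 143) (nat_lit 76) (nat_lit 160) (nat_lit 5) (nat_lit 8) (nat_lit 4) (nat_lit 5) (nat_lit 8) (nat_lit 5) (by decide +kernel)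
theorem L22522 : W_1 (nat_lit 3) (nat_lit 0x30002c0034000000000000000000000000000) (nat_lit 0x0) (nat_lit 0x50000800000000000200010000000000000000000) := T_1 (nat_lit 93) (nat_lit 162) (nat_lit 7) (nat_lit 8) (nat_lit 5) L22521 (by decide +kernel)
theorem L22523 : W_1 (nat_lit 4) (nat_lit 0x30002c0030000000000000000000000000000) (nat_lit 0x0) (nat_lit 0x5000080000000c000200010000000000000000000) := T_1 (nat_lit 110) (nat_lit 111) (nat_lit 1) (nat_lit 11) (nat_lit 6) L22522 (by decide +kernel)
theorem L22524 : W_1 (nat_lit 5) (nat_lit 0x30002c0010000000000000000000000000000) (nat_lit 0x0) (nat_lit 0x5000080010002c000200010000000000000000000) := T_1 (nat_lit 113) (nat_lit 128) (nat_lit 2) (nat_lit 7) (nat_lit 7) L22523 (by decide +kernel)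
theorem L22525 : W_1 (nat_lit 10) (nat_lit 0x30002c0000000000000000000000000000000) (nat_lit 0x0) (nat_lit 0x5000c80010003f001f000f8005000000000000000) := Q_1 (nat_lit 112) (C_1 L22515 (C_1 L22520 (C_1 L22524 N_1))) (by decide +kernel)
theorem L22526 : W_1 (nat_lit 11) (nat_lit 0x30000c0000000000000000000000000000000) (nat_lit 0x0) (nat_lit 0x4000a0005800c801f0003f001f000f8005000000000000000) := Q_1 (nat_lit 129) (C_1 L22484 (C_1 L3166 (C_1 L22487 (C_1 L22488 (C_1 L22525 N_1))))) (by decide +kernel)
theorem L22527 : W_1 (nat_lit 14) (nat_lit 0x10000c0000000000000000000000000000000) (nat_lit 0x0) (nat_lit 0x4000a0005800e801f3007f803fc00fe005000000000000000) := Q_1 (nat_lit 145) (C_1 L1403 (C_1 L21857 (C_1 L22358 (C_1 L22526 N_1)))) (by decide +kernel)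
theorem L22528 : W_1 (nat_lit 2) (nat_lit 0x32001e0009000f00004000000000000000000) (nat_lit 0x0) (nat_lit 0x800000000000080002000000000000000000) := D_1 (nat_lit 91) (nat_lit 73) (nat_lit 143) (nat_lit 0) (nat_lit 9) (nat_lit 5) (nat_lit 7) (nat_lit 6) (nat_lit 4) (by decide +kernel)
theorem L22529 : W_1 (nat_lit 3) (nat_lit 0x32001e0009000f00000000000000000000000) (nat_lit 0x0) (nat_lit 0x80000000000008000e000000000000000000) := T_1 (nat_lit 74) (nat_lit 75) (nat_lit 0) (nat_lit 10) (nat_lit 5) L22528 (by decide +kernel)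
theorem L22530 : W_1 (nat_lit 4) (nat_lit 0x32001e0009000e00000000000000000000000) (nat_lit 0x0) (nat_lit 0x80000000200018000e000000000000000000) := T_1 (nat_lit 92) (nat_lit 109) (nat_lit 1) (nat_lit 10) (nat_lit 5) L22529 (by decide +kernel)
theorem L22531 : W_1 (nat_lit 5) (nat_lit 0x32001e0009000600000000000000000000000) (nat_lit 0x0) (nat_lit 0x80000000200098004e000000000000000000) := T_1 (nat_lit 95) (nat_lit 78) (nat_lit 6) (nat_lit 9) (nat_lit 8) L22530 (by decide +kernel)
theorem L22532 : W_1 (nat_lit 6) (nat_lit 0x32001e0009000400000000000000000000000) (nat_lit 0x0) (nat_lit 0x800000002000b8005e000000000000000000) := T_1 (nat_lit 93) (nat_lit 76) (nat_lit 4) (nat_lit 9) (nat_lit 8) L22531 (by decide +kernel)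
theorem L22533 : W_1 (nat_lit 7) (nat_lit 0x32001e0009000000000000000000000000000) (nat_lit 0x0) (nat_lit 0x800000002000f8007e000000000000000000) := T_1 (nat_lit 94) (nat_lit 77) (nat_lit 5) (nat_lit 9) (nat_lit 4) L22532 (by decide +kernel)
theorem L22534 : W_1 (nat_lit 8) (nat_lit 0x12001e0009000000000000000000000000000) (nat_lit 0x0) (nat_lit 0x6800000002000f8007e000000000000000000) := T_1 (nat_lit 145) (nat_lit 146) (nat_lit 3) (nat_lit 6) (nat_lit 7) L22533 (by decide +kernel)
theorem L22535 : W_1 (nat_lit 9) (nat_lit 0x12001e0001000000000000000000000000000) (nat_lit 0x0) (nat_lit 0x680000001a000f8007e000000000000000000) := T_1 (nat_lit 111) (nat_lit 112) (nat_lit 2) (nat_lit 6) (nat_lit 7) L22534 (by decide +kernel)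
theorem L22536 : W_1 (nat_lit 10) (nat_lit 0x10001e0001000000000000000000000000000) (nat_lit 0x0) (nat_lit 0x6e0000001a000f8007e000000000000000000) := T_1 (nat_lit 141) (nat_lit 142) (nat_lit 1) (nat_lit 9) (nat_lit 7) L22535 (by decide +kernel)
theorem L22537 : W_1 (nat_lit 11) (nat_lit 0x10001e0000000000000000000000000000000) (nat_lit 0x0) (nat_lit 0x6e0000001b800f8007e000000000000000000) := T_1 (nat_lit 108) (nat_lit 107) (nat_lit 0) (nat_lit 9) (nat_lit 7) L22536 (by decide +kernel)
theorem L22538 : W_1 (nat_lit 12) (nat_lit 0x10000e0000000000000000000000000000000) (nat_lit 0x0) (nat_lit 0x800ee0070007b800f8007e000000000000000000) := Q_1 (nat_lit 128) (C_1 L20957 (C_1 L20941 (C_1 L1910 (C_1 L22537 (C_1 L20953 N_1))))) (by decide +kernel)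
theorem L22539 : W_1 (nat_lit 13) (nat_lit 0x10000c0000000000000000000000000000000) (nat_lit 0x0) (nat_lit 0x800ef8073807be00f8007e000000000000000000) := Q_1 (nat_lit 125) (C_1 L1457 (C_1 L1894 (C_1 L1479 (C_1 L22538 (C_1 L130 N_1))))) (by decide +kernel)
theorem L22540 : W_1 (nat_lit 2) (nat_lit 0x110007e0012800000000000000000000000000) (nat_lit 0x0) (nat_lit 0x22000800000000000000000000000000000000) := D_1 (nat_lit 131) (nat_lit 145) (nat_lit 149) (nat_lit 1) (nat_lit 12) (nat_lit 7) (nat_lit 3) (nat_lit 9) (nat_lit 7) (by decide +kernel)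
theorem L22541 : W_1 (nat_lit 3) (nat_lit 0x10007e0012800000000000000000000000000) (nat_lit 0x0) (nat_lit 0x3a000800000000000000000000000000000000) := T_1 (nat_lit 148) (nat_lit 147) (nat_lit 3) (nat_lit 8) (nat_lit 7) L22540 (by decide +kernel)
theorem L22542 : W_1 (nat_lit 4) (nat_lit 0x10007e0010800000000000000000000000000) (nat_lit 0x0) (nat_lit 0x3a000800006000000000000000000000000000) := T_1 (nat_lit 109) (nat_lit 110) (nat_lit 0) (nat_lit 11) (nat_lit 7) L22541 (by decide +kernel)
theorem L22543 : W_1 (nat_lit 5) (nat_lit 0x10003e0010800000000000000000000000000) (nat_lit 0x0) (nat_lit 0x3a800c00006000000000000000000000000000) := T_1 (nat_lit 130) (nat_lit 143) (nat_lit 1) (nat_lit 11) (nat_lit 7) L22542 (by decide +kernel)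
theorem L22544 : W_1 (nat_lit 6) (nat_lit 0x10001e0010800000000000000000000000000) (nat_lit 0x0) (nat_lit 0x3a800e00026000000000000000000000000000) := T_1 (nat_lit 129) (nat_lit 113) (nat_lit 2) (nat_lit 7) (nat_lit 7) L22543 (by decide +kernel)
theorem L22545 : W_1 (nat_lit 7) (nat_lit 0x10001e0000800000000000000000000000000) (nat_lit 0x0) (nat_lit 0x3a800e0003e000000000000000000000000000) := T_1 (nat_lit 112) (nat_lit 111) (nat_lit 2) (nat_lit 6) (nat_lit 7) L22544 (by decide +kernel)
theorem L22546 : W_1 (nat_lit 8) (nat_lit 0x10001e0000000000000000000000000000000) (nat_lit 0x0) (nat_lit 0x3a800e0003f800000000000000000000000000) := T_1 (nat_lit 107) (nat_lit 108) (nat_lit 0) (nat_lit 9) (nat_lit 7) L22545 (by decide +kernel)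
theorem L22547 : W_1 (nat_lit 2) (nat_lit 0x1c001e0009000000020000000000000000000) (nat_lit 0x0) (nat_lit 0x200010000000000000000080000000000000000000000) := D_1 (nat_lit 160) (nat_lit 177) (nat_lit 91) (nat_lit 4) (nat_lit 7) (nat_lit 10) (nat_lit 7) (nat_lit 6) (nat_lit 5) (by decide +kernel)
theorem L22548 : W_1 (nat_lit 3) (nat_lit 0x1c001e0008000000020000000000000000000) (nat_lit 0x0) (nat_lit 0x200010000000000001800080000000000000000000000) := T_1 (nat_lit 108) (nat_lit 107) (nat_lit 0) (nat_lit 9) (nat_lit 7) L22547 (by decide +kernel)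
theorem L22549 : W_1 (nat_lit 4) (nat_lit 0x14001e0008000000020000000000000000000) (nat_lit 0x0) (nat_lit 0x200010000800200001800080000000000000000000000) := T_1 (nat_lit 143) (nat_lit 129) (nat_lit 1) (nat_lit 10) (nat_lit 7) L22548 (by decide +kernel)
theorem L22550 : W_1 (nat_lit 5) (nat_lit 0x14001e0008000000000000000000000000000) (nat_lit 0x0) (nat_lit 0x200010000800200001800480020000000000000000000) := T_1 (nat_lit 77) (nat_lit 94) (nat_lit 5) (nat_lit 9) (nat_lit 4) L22549 (by decide +kernel)
theorem L22551 : W_1 (nat_lit 6) (nat_lit 0x10001e0008000000000000000000000000000) (nat_lit 0x0) (nat_lit 0x200010000e00200001800480020000000000000000000) := T_1 (nat_lit 142) (nat_lit 141) (nat_lit 1) (nat_lit 9) (nat_lit 7) L22550 (by decide +kernel)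
theorem L22552 : W_1 (nat_lit 7) (nat_lit 0x10001e0000000000000000000000000000000) (nat_lit 0x0) (nat_lit 0x200010000e00200019800480020000000000000000000) := T_1 (nat_lit 111) (nat_lit 112) (nat_lit 2) (nat_lit 6) (nat_lit 7) L22551 (by decide +kernel)
theorem L22553 : W_1 (nat_lit 7) (nat_lit 0x10001e0000800000000000000000000000000) (nat_lit 0x0) (nat_lit 0x3ae00e00070000000000000000000000000000) := T_1 (nat_lit 142) (nat_lit 141) (nat_lit 1) (nat_lit 9) (nat_lit 7) L1921 (by decide +kernel)
theorem L22554 : W_1 (nat_lit 8) (nat_lit 0x10001e0000000000000000000000000000000) (nat_lit 0x0) (nat_lit 0x3ae00e00071800000000000000000000000000) := T_1 (nat_lit 107) (nat_lit 108) (nat_lit 0) (nat_lit 9) (nat_lit 7) L22553 (by decide +kernel)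
theorem L22555 : W_1 (nat_lit 2) (nat_lit 0x12007e0010000000000000000000000000000) (nat_lit 0x0) (nat_lit 0x7000000000000000000000000000) := D_1 (nat_lit 109) (nat_lit 110) (nat_lit 108) (nat_lit 0) (nat_lit 11) (nat_lit 7) (nat_lit 0) (nat_lit 10) (nat_lit 7) (by decide +kernel)
theorem L22556 : W_1 (nat_lit 3) (nat_lit 0x12003e0010000000000000000000000000000) (nat_lit 0x0) (nat_lit 0x800400007000000000000000000000000000) := T_1 (nat_lit 130) (nat_lit 143) (nat_lit 1) (nat_lit 11) (nat_lit 7) L22555 (by decide +kernel)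
theorem L22557 : W_1 (nat_lit 4) (nat_lit 0x12001e0010000000000000000000000000000) (nat_lit 0x0) (nat_lit 0x800600027000000000000000000000000000) := T_1 (nat_lit 129) (nat_lit 113) (nat_lit 2) (nat_lit 7) (nat_lit 7) L22556 (by decide +kernel)
theorem L22558 : W_1 (nat_lit 5) (nat_lit 0x12001e0000000000000000000000000000000) (nat_lit 0x0) (nat_lit 0x80060003f000000000000000000000000000) := T_1 (nat_lit 112) (nat_lit 111) (nat_lit 2) (nat_lit 6) (nat_lit 7) L22557 (by decide +kernel)
theorem L22559 : W_1 (nat_lit 6) (nat_lit 0x10001e0000000000000000000000000000000) (nat_lit 0x0) (nat_lit 0xe0060003f000000000000000000000000000) := T_1 (nat_lit 141) (nat_lit 142) (nat_lit 1) (nat_lit 9) (nat_lit 7) L22558 (by decide +kernel)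
theorem L22560 : W_1 (nat_lit 2) (nat_lit 0x112007e0012000000000000000000000000000) (nat_lit 0x0) (nat_lit 0x22000800000000000000000000000000000000) := D_1 (nat_lit 131) (nat_lit 145) (nat_lit 149) (nat_lit 1) (nat_lit 12) (nat_lit 7) (nat_lit 3) (nat_lit 9) (nat_lit 7) (by decide +kernel)
theorem L22561 : W_1 (nat_lit 3) (nat_lit 0x12007e0012000000000000000000000000000) (nat_lit 0x0) (nat_lit 0x3a000800000000000000000000000000000000) := T_1 (nat_lit 148) (nat_lit 147) (nat_lit 3) (nat_lit 8) (nat_lit 7) L22560 (by decide +kernel)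
theorem L22562 : W_1 (nat_lit 4) (nat_lit 0x12007e0010000000000000000000000000000) (nat_lit 0x0) (nat_lit 0x3a000800006000000000000000000000000000) := T_1 (nat_lit 109) (nat_lit 110) (nat_lit 0) (nat_lit 11) (nat_lit 7) L22561 (by decide +kernel)
theorem L22563 : W_1 (nat_lit 5) (nat_lit 0x12003e0010000000000000000000000000000) (nat_lit 0x0) (nat_lit 0x3a800c00006000000000000000000000000000) := T_1 (nat_lit 130) (nat_lit 143) (nat_lit 1) (nat_lit 11) (nat_lit 7) L22562 (by decide +kernel)
theorem L22564 : W_1 (nat_lit 6) (nat_lit 0x12001e0010000000000000000000000000000) (nat_lit 0x0) (nat_lit 0x3a800e00026000000000000000000000000000) := T_1 (nat_lit 129) (nat_lit 113) (nat_lit 2) (nat_lit 7) (nat_lit 7) L22563 (by decide +kernel)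
theorem L22565 : W_1 (nat_lit 7) (nat_lit 0x10001e0010000000000000000000000000000) (nat_lit 0x0) (nat_lit 0x3ae00e00026000000000000000000000000000) := T_1 (nat_lit 141) (nat_lit 142) (nat_lit 1) (nat_lit 9) (nat_lit 7) L22564 (by decide +kernel)
theorem L22566 : W_1 (nat_lit 8) (nat_lit 0x10001e0000000000000000000000000000000) (nat_lit 0x0) (nat_lit 0x3ae00e0003e000000000000000000000000000) := T_1 (nat_lit 112) (nat_lit 111) (nat_lit 2) (nat_lit 6) (nat_lit 7) L22565 (by decide +kernel)
theorem L22567 : W_1 (nat_lit 2) (nat_lit 0x1200fe0001000000000000000000000000000) (nat_lit 0x0) (nat_lit 0xe0000000000000000000000000000) := D_1 (nat_lit 114) (nat_lit 113) (nat_lit 115) (nat_lit 2) (nat_lit 8) (nat_lit 7) (nat_lit 2) (nat_lit 9) (nat_lit 7) (by decide +kernel)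
theorem L22568 : W_1 (nat_lit 3) (nat_lit 0x12007e0001000000000000000000000000000) (nat_lit 0x0) (nat_lit 0x20008000e0000000000000000000000000000) := T_1 (nat_lit 131) (nat_lit 145) (nat_lit 1) (nat_lit 12) (nat_lit 7) L22567 (by decide +kernel)
theorem L22569 : W_1 (nat_lit 4) (nat_lit 0x12003e0001000000000000000000000000000) (nat_lit 0x0) (nat_lit 0x2800c000e0000000000000000000000000000) := T_1 (nat_lit 130) (nat_lit 143) (nat_lit 1) (nat_lit 11) (nat_lit 7) L22568 (by decide +kernel)
theorem L22570 : W_1 (nat_lit 5) (nat_lit 0x12001e0001000000000000000000000000000) (nat_lit 0x0) (nat_lit 0x2800e000e2000000000000000000000000000) := T_1 (nat_lit 129) (nat_lit 109) (nat_lit 0) (nat_lit 10) (nat_lit 7) L22569 (by decide +kernel)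
theorem L22571 : W_1 (nat_lit 6) (nat_lit 0x10001e0001000000000000000000000000000) (nat_lit 0x0) (nat_lit 0x2e00e000e2000000000000000000000000000) := T_1 (nat_lit 141) (nat_lit 142) (nat_lit 1) (nat_lit 9) (nat_lit 7) L22570 (by decide +kernel)
theorem L22572 : W_1 (nat_lit 7) (nat_lit 0x10001e0000000000000000000000000000000) (nat_lit 0x0) (nat_lit 0x2e00e000e3800000000000000000000000000) := T_1 (nat_lit 108) (nat_lit 107) (nat_lit 0) (nat_lit 9) (nat_lit 7) L22571 (by decide +kernel)
theorem L22573 : W_1 (nat_lit 11) (nat_lit 0x10000e0000000000000000000000000000000) (nat_lit 0x0) (nat_lit 0x38001e03ae00f000ff800dc002c000600000000000000) := Q_1 (nat_lit 128) (C_1 L20941 (C_1 L21700 (C_1 L22546 (C_1 L22552 (C_1 L22554 (C_1 L22559 (C_1 L22566 (C_1 L22572 N_1)))))))) (by decide +kernel)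
theorem L22574 : W_1 (nat_lit 12) (nat_lit 0x10000c0000000000000000000000000000000) (nat_lit 0x0) (nat_lit 0x38001e03af80f380ffe00dc002c000600000000000000) := Q_1 (nat_lit 125) (C_1 L20927 (C_1 L20926 (C_1 L1894 (C_1 L22573 (C_1 L20924 N_1))))) (by decide +kernel)
theorem L22575 : W_1 (nat_lit 8) (nat_lit 0x32001e0009000000000000000000000000000) (nat_lit 0x0) (nat_lit 0x50000800000004000fc007c000000000000000000) := T_1 (nat_lit 94) (nat_lit 77) (nat_lit 5) (nat_lit 9) (nat_lit 4) L1771 (by decide +kernel)
theorem L22576 : W_1 (nat_lit 9) (nat_lit 0x12001e0009000000000000000000000000000) (nat_lit 0x0) (nat_lit 0x50006800000004000fc007c000000000000000000) := T_1 (nat_lit 145) (nat_lit 146) (nat_lit 3) (nat_lit 6) (nat_lit 7) L22575 (by decide +kernel)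
theorem L22577 : W_1 (nat_lit 10) (nat_lit 0x12001e0001000000000000000000000000000) (nat_lit 0x0) (nat_lit 0x5000680000001c000fc007c000000000000000000) := T_1 (nat_lit 111) (nat_lit 112) (nat_lit 2) (nat_lit 6) (nat_lit 7) L22576 (by decide +kernel)
theorem L22578 : W_1 (nat_lit 11) (nat_lit 0x10001e0001000000000000000000000000000) (nat_lit 0x0) (nat_lit 0x50006e0000001c000fc007c000000000000000000) := T_1 (nat_lit 141) (nat_lit 142) (nat_lit 1) (nat_lit 9) (nat_lit 7) L22577 (by decide +kernel)
theorem L22579 : W_1 (nat_lit 12) (nat_lit 0x10001e0000000000000000000000000000000) (nat_lit 0x0) (nat_lit 0x50006e0000001d800fc007c000000000000000000) := T_1 (nat_lit 108) (nat_lit 107) (nat_lit 0) (nat_lit 9) (nat_lit 7) L22578 (by decide +kernel)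
theorem L22580 : W_1 (nat_lit 13) (nat_lit 0x10000e0000000000000000000000000000000) (nat_lit 0x0) (nat_lit 0x700038005c03ee00f0007d800fc007c000000000000000000) := Q_1 (nat_lit 128) (C_1 L20953 (C_1 L22554 (C_1 L22552 (C_1 L1910 (C_1 L22579 (C_1 L1801 N_1)))))) (by decide +kernel)
theorem L22581 : W_1 (nat_lit 14) (nat_lit 0x10000c0000000000000000000000000000000) (nat_lit 0x0) (nat_lit 0x700038005c03ef80f3807de00fc007c000000000000000000) := Q_1 (nat_lit 125) (C_1 L1457 (C_1 L1894 (C_1 L1479 (C_1 L22580 (C_1 L130 N_1))))) (by decide +kernel)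
theorem L22680 : W_1 (nat_lit 2) (nat_lit 0x18000c0006000380020000000000000000000) (nat_lit 0x0) (nat_lit 0x8000060000000000000000000000) := D_1 (nat_lit 90) (nat_lit 111) (nat_lit 89) (nat_lit 3) (nat_lit 5) (nat_lit 5) (nat_lit 3) (nat_lit 4) (nat_lit 5) (by decide +kernel)
theorem L22681 : W_1 (nat_lit 3) (nat_lit 0x18000c0006000300020000000000000000000) (nat_lit 0x0) (nat_lit 0x80000e0004000000000000000000) := T_1 (nat_lit 91) (nat_lit 74) (nat_lit 4) (nat_lit 7) (nat_lit 8) L22680 (by decide +kernel)
theorem L22682 : W_1 (nat_lit 4) (nat_lit 0x18000c0006000300000000000000000000000) (nat_lit 0x0) (nat_lit 0x80004e0024000000000000000000) := T_1 (nat_lit 77) (nat_lit 94) (nat_lit 6) (nat_lit 8) (nat_lit 8) L22681 (by decide +kernel)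
theorem L22683 : W_1 (nat_lit 5) (nat_lit 0x18000c0006000200000000000000000000000) (nat_lit 0x0) (nat_lit 0x80005e002c000000000000000000) := T_1 (nat_lit 92) (nat_lit 75) (nat_lit 7) (nat_lit 7) (nat_lit 4) L22682 (by decide +kernel)
theorem L22684 : W_1 (nat_lit 6) (nat_lit 0x18000c0006000000000000000000000000000) (nat_lit 0x0) (nat_lit 0x80007e003c000000000000000000) := T_1 (nat_lit 93) (nat_lit 76) (nat_lit 5) (nat_lit 8) (nat_lit 4) L22683 (by decide +kernel)
theorem L22704 : W_1 (nat_lit 2) (nat_lit 0x1c000c0002000000000000000000000000000) (nat_lit 0x0) (nat_lit 0x300100000000000000000000000000000000) := D_1 (nat_lit 141) (nat_lit 140) (nat_lit 128) (nat_lit 2) (nat_lit 4) (nat_lit 8) (nat_lit 2) (nat_lit 5) (nat_lit 8) (by decide +kernel)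
theorem L22709 : W_1 (nat_lit 2) (nat_lit 0x8003c002c0002000000000000000000000000000) (nat_lit 0x0) (nat_lit 0xc000400000000000000000000000000000000) := D_1 (nat_lit 146) (nat_lit 147) (nat_lit 130) (nat_lit 0) (nat_lit 11) (nat_lit 8) (nat_lit 2) (nat_lit 7) (nat_lit 8) (by decide +kernel)
theorem L22710 : W_1 (nat_lit 3) (nat_lit 0x8001c002c0002000000000000000000000000000) (nat_lit 0x0) (nat_lit 0x400e000400000000000000000000000000000000) := T_1 (nat_lit 145) (nat_lit 158) (nat_lit 1) (nat_lit 9) (nat_lit 8) L22709 (by decide +kernel)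
theorem L22714 : W_1 (nat_lit 2) (nat_lit 0xc001e000d0002000000000000000000000000000) (nat_lit 0x0) (nat_lit 0x2000100000000000000000800000000000000000000000000) := D_1 (nat_lit 176) (nat_lit 193) (nat_lit 107) (nat_lit 6) (nat_lit 6) (nat_lit 11) (nat_lit 7) (nat_lit 5) (nat_lit 6) (by decide +kernel)
theorem L22715 : W_1 (nat_lit 3) (nat_lit 0x4001e000d0002000000000000000000000000000) (nat_lit 0x0) (nat_lit 0x2000100008002000000000800000000000000000000000000) := T_1 (nat_lit 159) (nat_lit 145) (nat_lit 1) (nat_lit 9) (nat_lit 8) L22714 (by decide +kernel)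
theorem L22716 : W_1 (nat_lit 4) (nat_lit 0x4001e000c0002000000000000000000000000000) (nat_lit 0x0) (nat_lit 0x2000100008002000018000800000000000000000000000000) := T_1 (nat_lit 124) (nat_lit 123) (nat_lit 0) (nat_lit 8) (nat_lit 8) L22715 (by decide +kernel)
theorem L22717 : W_1 (nat_lit 5) (nat_lit 0x1e000c0002000000000000000000000000000) (nat_lit 0x0) (nat_lit 0x200010000e002000018000800000000000000000000000000) := T_1 (nat_lit 158) (nat_lit 157) (nat_lit 1) (nat_lit 8) (nat_lit 8) L22716 (by decide +kernel)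
theorem L22718 : W_1 (nat_lit 6) (nat_lit 0x1c000c0002000000000000000000000000000) (nat_lit 0x0) (nat_lit 0x200010000e002300018000800000000000000000000000000) := T_1 (nat_lit 141) (nat_lit 140) (nat_lit 2) (nat_lit 4) (nat_lit 8) L22717 (by decide +kernel)
theorem L22726 : W_1 (nat_lit 2) (nat_lit 0x18000c0007000600000000000000000000000) (nat_lit 0x0) (nat_lit 0x8001800000000000000000000000) := D_1 (nat_lit 95) (nat_lit 96) (nat_lit 111) (nat_lit 1) (nat_lit 11) (nat_lit 5) (nat_lit 2) (nat_lit 6) (nat_lit 6) (by decide +kernel)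
theorem L22727 : W_1 (nat_lit 3) (nat_lit 0x18000c0006000600000000000000000000000) (nat_lit 0x0) (nat_lit 0x9801800000000000000000000000) := T_1 (nat_lit 108) (nat_lit 107) (nat_lit 2) (nat_lit 5) (nat_lit 6) L22726 (by decide +kernel)
theorem L22728 : W_1 (nat_lit 4) (nat_lit 0x18000c0006000200000000000000000000000) (nat_lit 0x0) (nat_lit 0x9801c00020000000000000000000) := T_1 (nat_lit 94) (nat_lit 77) (nat_lit 6) (nat_lit 8) (nat_lit 8) L22727 (by decide +kernel)
theorem L22729 : W_1 (nat_lit 5) (nat_lit 0x18000c0006000000000000000000000000000) (nat_lit 0x0) (nat_lit 0x9801e00030000000000000000000) := T_1 (nat_lit 93) (nat_lit 76) (nat_lit 5) (nat_lit 8) (nat_lit 4) L22728 (by decide +kernel)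
theorem L22740 : W_1 (nat_lit 2) (nat_lit 0x78003c0016000a00020000000000000000000) (nat_lit 0x0) (nat_lit 0x8001000080000000000000000000) := D_1 (nat_lit 96) (nat_lit 79) (nat_lit 111) (nat_lit 6) (nat_lit 10) (nat_lit 8) (nat_lit 2) (nat_lit 7) (nat_lit 6) (by decide +kernel)
theorem L22770 : W_1 (nat_lit 2) (nat_lit 0x7e002c0004000200028000000000000000000) (nat_lit 0x0) (nat_lit 0xe000000000000000000000000000000000000000) := D_1 (nat_lit 158) (nat_lit 159) (nat_lit 157) (nat_lit 1) (nat_lit 9) (nat_lit 8) (nat_lit 1) (nat_lit 8) (nat_lit 8) (by decide +kernel)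
theorem L22771 : W_1 (nat_lit 3) (nat_lit 0x7c002c0004000200028000000000000000000) (nat_lit 0x0) (nat_lit 0xe000300000000000000000000000000000000000) := T_1 (nat_lit 141) (nat_lit 140) (nat_lit 2) (nat_lit 4) (nat_lit 8) L22770 (by decide +kernel)
theorem L22772 : W_1 (nat_lit 4) (nat_lit 0x78002c0004000200028000000000000000000) (nat_lit 0x0) (nat_lit 0xe000700100000000000000000000000000000000) := T_1 (nat_lit 142) (nat_lit 128) (nat_lit 2) (nat_lit 6) (nat_lit 8) L22771 (by decide +kernel)
theorem L22773 : W_1 (nat_lit 5) (nat_lit 0x78000c0004000200028000000000000000000) (nat_lit 0x0) (nat_lit 0xe000700700000000000000000000000000000000) := T_1 (nat_lit 129) (nat_lit 130) (nat_lit 2) (nat_lit 7) (nat_lit 8) L22772 (by decide +kernel)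
theorem L22774 : W_1 (nat_lit 6) (nat_lit 0x78000c0004000200008000000000000000000) (nat_lit 0x0) (nat_lit 0xe000700700000000400020000000000000000000) := T_1 (nat_lit 77) (nat_lit 94) (nat_lit 6) (nat_lit 8) (nat_lit 8) L22773 (by decide +kernel)
theorem L22900 : W_1 (nat_lit 2) (nat_lit 0x10000c0007000000000000000000000000000) (nat_lit 0x0) (nat_lit 0x100000c00000000000000000000000000) := D_1 (nat_lit 107) (nat_lit 128) (nat_lit 106) (nat_lit 3) (nat_lit 5) (nat_lit 6) (nat_lit 3) (nat_lit 4) (nat_lit 6) (by decide +kernel)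
theorem L22921 : W_1 (nat_lit 2) (nat_lit 0x10000c001e000c00000000000000000000000) (nat_lit 0x0) (nat_lit 0x100000000000020001000000000000000) := D_1 (nat_lit 77) (nat_lit 60) (nat_lit 128) (nat_lit 5) (nat_lit 9) (nat_lit 3) (nat_lit 5) (nat_lit 9) (nat_lit 4) (by decide +kernel)
theorem L22922 : W_1 (nat_lit 3) (nat_lit 0x10000c001e000800000000000000000000000) (nat_lit 0x0) (nat_lit 0x100001000400020001000000000000000) := T_1 (nat_lit 94) (nat_lit 108) (nat_lit 2) (nat_lit 6) (nat_lit 6) L22921 (by decide +kernel)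
theorem L22923 : W_1 (nat_lit 4) (nat_lit 0x10000c001e000000000000000000000000000) (nat_lit 0x0) (nat_lit 0x100001001c00020001000000000000000) := T_1 (nat_lit 95) (nat_lit 96) (nat_lit 2) (nat_lit 7) (nat_lit 6) L22922 (by decide +kernel)
theorem L22924 : W_1 (nat_lit 5) (nat_lit 0x10000c000e000000000000000000000000000) (nat_lit 0x0) (nat_lit 0x100031001c00020001000000000000000) := T_1 (nat_lit 112) (nat_lit 113) (nat_lit 1) (nat_lit 11) (nat_lit 6) L22923 (by decide +kernel)
theorem L22941 : W_1 (nat_lit 2) (nat_lit 0x10000c001e000400028000000000000000000) (nat_lit 0x0) (nat_lit 0x1001800000000000000000000000) := D_1 (nat_lit 95) (nat_lit 108) (nat_lit 96) (nat_lit 2) (nat_lit 6) (nat_lit 6) (nat_lit 2) (nat_lit 7) (nat_lit 6) (by decide +kernel)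
theorem L22942 : W_1 (nat_lit 3) (nat_lit 0x10000c000e000400028000000000000000000) (nat_lit 0x0) (nat_lit 0x31001800000000000000000000000) := T_1 (nat_lit 112) (nat_lit 113) (nat_lit 1) (nat_lit 11) (nat_lit 6) L22941 (by decide +kernel)
theorem L22943 : W_1 (nat_lit 4) (nat_lit 0x10000c000e000400020000000000000000000) (nat_lit 0x0) (nat_lit 0x31001900008000000000000000000) := T_1 (nat_lit 75) (nat_lit 92) (nat_lit 7) (nat_lit 7) (nat_lit 4) L22942 (by decide +kernel)
theorem L22944 : W_1 (nat_lit 5) (nat_lit 0x10000c0006000400020000000000000000000) (nat_lit 0x0) (nat_lit 0x39001900008001000000000000000) := T_1 (nat_lit 111) (nat_lit 60) (nat_lit 5) (nat_lit 9) (nat_lit 3) L22943 (by decide +kernel)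
theorem L22945 : W_1 (nat_lit 6) (nat_lit 0x10000c0006000400000000000000000000000) (nat_lit 0x0) (nat_lit 0x39001b00028001000000000000000) := T_1 (nat_lit 77) (nat_lit 93) (nat_lit 6) (nat_lit 8) (nat_lit 8) L22944 (by decide +kernel)
theorem L22984 : W_1 (nat_lit 2) (nat_lit 0x50003c001e000900020000000000000000000) (nat_lit 0x0) (nat_lit 0x40003000000000000000) := D_1 (nat_lit 78) (nat_lit 60) (nat_lit 61) (nat_lit 4) (nat_lit 10) (nat_lit 7) (nat_lit 5) (nat_lit 10) (nat_lit 3) (by decide +kernel)
theorem L22985 : W_1 (nat_lit 3) (nat_lit 0x50003c001e000900000000000000000000000) (nat_lit 0x0) (nat_lit 0x400060003000000000000000) := T_1 (nat_lit 77) (nat_lit 94) (nat_lit 7) (nat_lit 9) (nat_lit 4) L22984 (by decide +kernel)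
theorem L22986 : W_1 (nat_lit 4) (nat_lit 0x50003c001e000100000000000000000000000) (nat_lit 0x0) (nat_lit 0x1c00060003000000000000000) := T_1 (nat_lit 95) (nat_lit 96) (nat_lit 2) (nat_lit 7) (nat_lit 6) L22985 (by decide +kernel)
theorem L22987 : W_1 (nat_lit 5) (nat_lit 0x50003c0016000100000000000000000000000) (nat_lit 0x0) (nat_lit 0x8001c80060003000000000000000) := T_1 (nat_lit 111) (nat_lit 91) (nat_lit 0) (nat_lit 10) (nat_lit 6) L22986 (by decide +kernel)
theorem L22988 : W_1 (nat_lit 6) (nat_lit 0x50003c0016000000000000000000000000000) (nat_lit 0x0) (nat_lit 0x8001d80068003000000000000000) := T_1 (nat_lit 92) (nat_lit 75) (nat_lit 7) (nat_lit 7) (nat_lit 4) L22987 (by decide +kernel)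
theorem L22989 : W_1 (nat_lit 7) (nat_lit 0x50003c0006000000000000000000000000000) (nat_lit 0x0) (nat_lit 0x38001d80068003000000000000000) := T_1 (nat_lit 112) (nat_lit 113) (nat_lit 2) (nat_lit 7) (nat_lit 7) L22988 (by decide +kernel)
theorem L22990 : W_1 (nat_lit 8) (nat_lit 0x50003c0004000000000000000000000000000) (nat_lit 0x0) (nat_lit 0x3b001d80068003000000000000000) := T_1 (nat_lit 109) (nat_lit 108) (nat_lit 0) (nat_lit 10) (nat_lit 7) L22989 (by decide +kernel)
theorem L22991 : W_1 (nat_lit 9) (nat_lit 0x10003c0004000000000000000000000000000) (nat_lit 0x0) (nat_lit 0xc00000003b001d80068003000000000000000) := T_1 (nat_lit 146) (nat_lit 147) (nat_lit 3) (nat_lit 7) (nat_lit 7) L22990 (by decide +kernel)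
theorem L23092 : W_1 (nat_lit 2) (nat_lit 0x1000fc0021000000000000000000000000000) (nat_lit 0x0) (nat_lit 0x38000000000000000000000000000000000000) := D_1 (nat_lit 148) (nat_lit 147) (nat_lit 149) (nat_lit 3) (nat_lit 8) (nat_lit 7) (nat_lit 3) (nat_lit 9) (nat_lit 7) (by decide +kernel)
theorem L23093 : W_1 (nat_lit 3) (nat_lit 0x10007c0021000000000000000000000000000) (nat_lit 0x0) (nat_lit 0x3a000800000000000000000000000000000000) := T_1 (nat_lit 131) (nat_lit 145) (nat_lit 1) (nat_lit 12) (nat_lit 7) L23092 (by decide +kernel)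
theorem L23094 : W_1 (nat_lit 4) (nat_lit 0x10003c0021000000000000000000000000000) (nat_lit 0x0) (nat_lit 0x3a000c00040000000000000000000000000000) := T_1 (nat_lit 130) (nat_lit 114) (nat_lit 2) (nat_lit 8) (nat_lit 7) L23093 (by decide +kernel)
theorem L23095 : W_1 (nat_lit 5) (nat_lit 0x10003c0001000000000000000000000000000) (nat_lit 0x0) (nat_lit 0x3a000c00070000000000000000000000000000) := T_1 (nat_lit 113) (nat_lit 112) (nat_lit 2) (nat_lit 7) (nat_lit 7) L23094 (by decide +kernel)
theorem L23096 : W_1 (nat_lit 6) (nat_lit 0x10003c0000000000000000000000000000000) (nat_lit 0x0) (nat_lit 0x3a000c00073000000000000000000000000000) := T_1 (nat_lit 108) (nat_lit 109) (nat_lit 0) (nat_lit 10) (nat_lit 7) L23095 (by decide +kernel)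
theorem L23097 : W_1 (nat_lit 2) (nat_lit 0x10003c001e000900000000000000000000000) (nat_lit 0x0) (nat_lit 0x2000000000000000040002000000000000000) := D_1 (nat_lit 78) (nat_lit 61) (nat_lit 145) (nat_lit 5) (nat_lit 10) (nat_lit 3) (nat_lit 5) (nat_lit 10) (nat_lit 4) (by decide +kernel)
theorem L23098 : W_1 (nat_lit 3) (nat_lit 0x10003c001e000100000000000000000000000) (nat_lit 0x0) (nat_lit 0x2000000000001800040002000000000000000) := T_1 (nat_lit 95) (nat_lit 96) (nat_lit 2) (nat_lit 7) (nat_lit 6) L23097 (by decide +kernel)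
theorem L23099 : W_1 (nat_lit 4) (nat_lit 0x10003c0016000100000000000000000000000) (nat_lit 0x0) (nat_lit 0x2000000008001880040002000000000000000) := T_1 (nat_lit 111) (nat_lit 91) (nat_lit 0) (nat_lit 10) (nat_lit 6) L23098 (by decide +kernel)
theorem L23100 : W_1 (nat_lit 5) (nat_lit 0x10003c0016000000000000000000000000000) (nat_lit 0x0) (nat_lit 0x2000000008001980048002000000000000000) := T_1 (nat_lit 92) (nat_lit 75) (nat_lit 7) (nat_lit 7) (nat_lit 4) L23099 (by decide +kernel)
theorem L23101 : W_1 (nat_lit 6) (nat_lit 0x10003c0012000000000000000000000000000) (nat_lit 0x0) (nat_lit 0x200040000c001980048002000000000000000) := T_1 (nat_lit 110) (nat_lit 130) (nat_lit 0) (nat_lit 11) (nat_lit 7) L23100 (by decide +kernel)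
theorem L23102 : W_1 (nat_lit 7) (nat_lit 0x10003c0010000000000000000000000000000) (nat_lit 0x0) (nat_lit 0x200040000f001980048002000000000000000) := T_1 (nat_lit 109) (nat_lit 108) (nat_lit 0) (nat_lit 10) (nat_lit 7) L23101 (by decide +kernel)
theorem L23103 : W_1 (nat_lit 8) (nat_lit 0x10003c0000000000000000000000000000000) (nat_lit 0x0) (nat_lit 0x200040003f001980048002000000000000000) := T_1 (nat_lit 112) (nat_lit 113) (nat_lit 2) (nat_lit 7) (nat_lit 7) L23102 (by decide +kernel)
theorem L23258 : W_1 (nat_lit 2) (nat_lit 0x10000c0003800500000000000000000000000) (nat_lit 0x0) (nat_lit 0xa80000000000000000000000) := D_1 (nat_lit 93) (nat_lit 95) (nat_lit 91) (nat_lit 1) (nat_lit 10) (nat_lit 5) (nat_lit 1) (nat_lit 9) (nat_lit 5) (by decide +kernel)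
theorem L23259 : W_1 (nat_lit 3) (nat_lit 0x10000c0003000500000000000000000000000) (nat_lit 0x0) (nat_lit 0xc00a80000000000000000000000) := T_1 (nat_lit 107) (nat_lit 106) (nat_lit 3) (nat_lit 4) (nat_lit 6) L23258 (by decide +kernel)
theorem L23260 : W_1 (nat_lit 4) (nat_lit 0x10000c0003000400000000000000000000000) (nat_lit 0x0) (nat_lit 0xc00b80008000000000000000000) := T_1 (nat_lit 92) (nat_lit 75) (nat_lit 7) (nat_lit 7) (nat_lit 4) L23259 (by decide +kernel)
theorem L23278 : W_1 (nat_lit 2) (nat_lit 0x10000c0006000200008000000000000000000) (nat_lit 0x0) (nat_lit 0x10000c00000000000000) := D_1 (nat_lit 76) (nat_lit 58) (nat_lit 59) (nat_lit 4) (nat_lit 8) (nat_lit 7) (nat_lit 5) (nat_lit 8) (nat_lit 3) (by decide +kernel)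
theorem L23279 : W_1 (nat_lit 3) (nat_lit 0x10000c0006000200000000000000000000000) (nat_lit 0x0) (nat_lit 0x100018000c00000000000000) := T_1 (nat_lit 75) (nat_lit 92) (nat_lit 7) (nat_lit 7) (nat_lit 4) L23278 (by decide +kernel)
theorem L23287 : W_1 (nat_lit 2) (nat_lit 0x10000c0006000200020000000000000000000) (nat_lit 0x0) (nat_lit 0x10001800000000000000) := D_1 (nat_lit 76) (nat_lit 60) (nat_lit 59) (nat_lit 6) (nat_lit 8) (nat_lit 7) (nat_lit 5) (nat_lit 8) (nat_lit 3) (by decide +kernel)
theorem L23288 : W_1 (nat_lit 3) (nat_lit 0x10000c0006000200000000000000000000000) (nat_lit 0x0) (nat_lit 0x400030001800000000000000) := T_1 (nat_lit 77) (nat_lit 94) (nat_lit 6) (nat_lit 8) (nat_lit 8) L23287 (by decide +kernel)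
theorem L23312 : W_1 (nat_lit 2) (nat_lit 0x10003c0012000400028000000000000000000) (nat_lit 0x0) (nat_lit 0xc000000000000800000000000000000000000) := D_1 (nat_lit 146) (nat_lit 147) (nat_lit 95) (nat_lit 3) (nat_lit 7) (nat_lit 7) (nat_lit 4) (nat_lit 10) (nat_lit 8) (by decide +kernel)
theorem L23317 : W_1 (nat_lit 3) (nat_lit 0x10003c0012000400008000000000000000000) (nat_lit 0x0) (nat_lit 0xc000000008000800020000000000000000000) := T_1 (nat_lit 77) (nat_lit 111) (nat_lit 5) (nat_lit 9) (nat_lit 4) L23312 (by decide +kernel)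
theorem L23318 : W_1 (nat_lit 4) (nat_lit 0x10003c0002000400008000000000000000000) (nat_lit 0x0) (nat_lit 0xc000000038000800020000000000000000000) := T_1 (nat_lit 112) (nat_lit 113) (nat_lit 2) (nat_lit 7) (nat_lit 7) L23317 (by decide +kernel)
theorem L23605 : W_1 (nat_lit 2) (nat_lit 0x50003c0002000c00038000000000000000000) (nat_lit 0x0) (nat_lit 0x3200000000000000000000000) := D_1 (nat_lit 96) (nat_lit 97) (nat_lit 93) (nat_lit 0) (nat_lit 12) (nat_lit 5) (nat_lit 0) (nat_lit 11) (nat_lit 5) (by decide +kernel)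
theorem L23606 : W_1 (nat_lit 3) (nat_lit 0x50003c0002000c00028000000000000000000) (nat_lit 0x0) (nat_lit 0x3200014000000000000000000) := T_1 (nat_lit 76) (nat_lit 74) (nat_lit 3) (nat_lit 6) (nat_lit 4) L23605 (by decide +kernel)
theorem L23607 : W_1 (nat_lit 4) (nat_lit 0x50003c0002000c00020000000000000000000) (nat_lit 0x0) (nat_lit 0x330001c000000000000000000) := T_1 (nat_lit 75) (nat_lit 92) (nat_lit 7) (nat_lit 7) (nat_lit 4) L23606 (by decide +kernel)
theorem L23613 : W_1 (nat_lit 2) (nat_lit 0x10002c001e000400020000000000000000000) (nat_lit 0x0) (nat_lit 0x4000000000001800000000000000000000000) := D_1 (nat_lit 95) (nat_lit 96) (nat_lit 146) (nat_lit 2) (nat_lit 7) (nat_lit 6) (nat_lit 4) (nat_lit 10) (nat_lit 8) (by decide +kernel)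
theorem L23882 : W_1 (nat_lit 2) (nat_lit 0x1000380006000200008000000000000000000) (nat_lit 0x0) (nat_lit 0x40009000000000000000000000000000) := D_1 (nat_lit 108) (nat_lit 126) (nat_lit 111) (nat_lit 0) (nat_lit 10) (nat_lit 7) (nat_lit 3) (nat_lit 6) (nat_lit 6) (by decide +kernel)
theorem L23883 : W_1 (nat_lit 3) (nat_lit 0x1000180006000200008000000000000000000) (nat_lit 0x0) (nat_lit 0x640009000000000000000000000000000) := T_1 (nat_lit 129) (nat_lit 130) (nat_lit 0) (nat_lit 11) (nat_lit 7) L23882 (by decide +kernel)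
theorem L23884 : W_1 (nat_lit 4) (nat_lit 0x1000180006000200000000000000000000000) (nat_lit 0x0) (nat_lit 0x640009000100008000000000000000000) := T_1 (nat_lit 75) (nat_lit 92) (nat_lit 4) (nat_lit 8) (nat_lit 8) L23883 (by decide +kernel)
theorem L23885 : W_1 (nat_lit 2) (nat_lit 0x1c001c0006800380000000000000000000000) (nat_lit 0x0) (nat_lit 0x8400040000000000000000000000) := D_1 (nat_lit 90) (nat_lit 111) (nat_lit 106) (nat_lit 3) (nat_lit 5) (nat_lit 5) (nat_lit 1) (nat_lit 8) (nat_lit 5) (by decide +kernel)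
theorem L23886 : W_1 (nat_lit 3) (nat_lit 0x1c001c0006800300000000000000000000000) (nat_lit 0x0) (nat_lit 0x84000c0004000000000000000000) := T_1 (nat_lit 91) (nat_lit 74) (nat_lit 4) (nat_lit 7) (nat_lit 8) L23885 (by decide +kernel)
theorem L23887 : W_1 (nat_lit 4) (nat_lit 0x1c00180006800300000000000000000000000) (nat_lit 0x0) (nat_lit 0x80000000400084000c0004000000000000000000) := T_1 (nat_lit 126) (nat_lit 159) (nat_lit 5) (nat_lit 7) (nat_lit 5) L23886 (by decide +kernel)
theorem L23888 : W_1 (nat_lit 5) (nat_lit 0x1800180006800300000000000000000000000) (nat_lit 0x0) (nat_lit 0x80006000400084000c0004000000000000000000) := T_1 (nat_lit 142) (nat_lit 141) (nat_lit 2) (nat_lit 5) (nat_lit 8) L23887 (by decide +kernel)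
theorem L23889 : W_1 (nat_lit 6) (nat_lit 0x1000180006800300000000000000000000000) (nat_lit 0x0) (nat_lit 0x18000e000400084000c0004000000000000000000) := T_1 (nat_lit 143) (nat_lit 160) (nat_lit 5) (nat_lit 8) (nat_lit 5) L23888 (by decide +kernel)
theorem L23890 : W_1 (nat_lit 7) (nat_lit 0x1000180006800200000000000000000000000) (nat_lit 0x0) (nat_lit 0x18000e000400084001c000c000000000000000000) := T_1 (nat_lit 92) (nat_lit 75) (nat_lit 4) (nat_lit 8) (nat_lit 8) L23889 (by decide +kernel)
theorem L23891 : W_1 (nat_lit 8) (nat_lit 0x1000180006000200000000000000000000000) (nat_lit 0x0) (nat_lit 0x18000e00040009c001c000c000000000000000000) := T_1 (nat_lit 107) (nat_lit 108) (nat_lit 3) (nat_lit 5) (nat_lit 6) L23890 (by decide +kernel)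
theorem L23892 : W_1 (nat_lit 2) (nat_lit 0x1c00180006000200000000000000000000000) (nat_lit 0x0) (nat_lit 0x640000000000000000000000000000000) := D_1 (nat_lit 129) (nat_lit 130) (nat_lit 126) (nat_lit 1) (nat_lit 11) (nat_lit 7) (nat_lit 1) (nat_lit 10) (nat_lit 7) (by decide +kernel)
theorem L23893 : W_1 (nat_lit 3) (nat_lit 0x1800180006000200000000000000000000000) (nat_lit 0x0) (nat_lit 0x600640000000000000000000000000000000) := T_1 (nat_lit 142) (nat_lit 141) (nat_lit 2) (nat_lit 5) (nat_lit 8) L23892 (by decide +kernel)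
theorem L23894 : W_1 (nat_lit 4) (nat_lit 0x1000180006000200000000000000000000000) (nat_lit 0x0) (nat_lit 0x10000e00640000000000000000000000000000000) := T_1 (nat_lit 143) (nat_lit 160) (nat_lit 5) (nat_lit 8) (nat_lit 5) L23893 (by decide +kernel)
theorem L23895 : W_1 (nat_lit 9) (nat_lit 0x1000080006000200000000000000000000000) (nat_lit 0x0) (nat_lit 0x18000e00740009c001c000c000000000000000000) := Q_1 (nat_lit 128) (C_1 L23884 (C_1 L20219 (C_1 L23891 (C_1 L23894 N_1)))) (by decide +kernel)
theorem L23896 : W_1 (nat_lit 2) (nat_lit 0x1800080006000e00000000000000000000000) (nat_lit 0x0) (nat_lit 0x1800100000000000000000000000) := D_1 (nat_lit 108) (nat_lit 92) (nat_lit 107) (nat_lit 1) (nat_lit 10) (nat_lit 5) (nat_lit 2) (nat_lit 5) (nat_lit 6) (by decide +kernel)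
theorem L23897 : W_1 (nat_lit 3) (nat_lit 0x1800080006000600000000000000000000000) (nat_lit 0x0) (nat_lit 0x1801900000000000000000000000) := T_1 (nat_lit 95) (nat_lit 96) (nat_lit 1) (nat_lit 11) (nat_lit 5) L23896 (by decide +kernel)
theorem L23898 : W_1 (nat_lit 4) (nat_lit 0x1000080006000600000000000000000000000) (nat_lit 0x0) (nat_lit 0x10000800000001801900000000000000000000000) := T_1 (nat_lit 143) (nat_lit 160) (nat_lit 5) (nat_lit 8) (nat_lit 5) L23897 (by decide +kernel)
theorem L23899 : W_1 (nat_lit 5) (nat_lit 0x1000080006000200000000000000000000000) (nat_lit 0x0) (nat_lit 0x10000800000001801d00020000000000000000000) := T_1 (nat_lit 94) (nat_lit 77) (nat_lit 6) (nat_lit 8) (nat_lit 8) L23898 (by decide +kernel)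
theorem L23900 : W_1 (nat_lit 2) (nat_lit 0x1800080016000f80040000000000000000000) (nat_lit 0x0) (nat_lit 0x40000000000006000000000000000000) := D_1 (nat_lit 74) (nat_lit 126) (nat_lit 73) (nat_lit 4) (nat_lit 7) (nat_lit 8) (nat_lit 0) (nat_lit 9) (nat_lit 5) (by decide +kernel)
theorem L23901 : W_1 (nat_lit 3) (nat_lit 0x1800080016000f00040000000000000000000) (nat_lit 0x0) (nat_lit 0x40008000080006000000000000000000) := T_1 (nat_lit 91) (nat_lit 111) (nat_lit 3) (nat_lit 6) (nat_lit 5) L23900 (by decide +kernel)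
theorem L23902 : W_1 (nat_lit 4) (nat_lit 0x1800080006000f00040000000000000000000) (nat_lit 0x0) (nat_lit 0x40038000080006000000000000000000) := T_1 (nat_lit 112) (nat_lit 113) (nat_lit 3) (nat_lit 7) (nat_lit 5) L23901 (by decide +kernel)
theorem L23903 : W_1 (nat_lit 5) (nat_lit 0x1800080006000f00000000000000000000000) (nat_lit 0x0) (nat_lit 0x400380000800c6000000000000000000) := T_1 (nat_lit 78) (nat_lit 79) (nat_lit 2) (nat_lit 7) (nat_lit 5) L23902 (by decide +kernel)
theorem L23904 : W_1 (nat_lit 6) (nat_lit 0x1800080006000700000000000000000000000) (nat_lit 0x0) (nat_lit 0x400380018800c6000000000000000000) := T_1 (nat_lit 95) (nat_lit 96) (nat_lit 1) (nat_lit 11) (nat_lit 5) L23903 (by decide +kernel)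
theorem L23905 : W_1 (nat_lit 7) (nat_lit 0x1800080006000300000000000000000000000) (nat_lit 0x0) (nat_lit 0x40038001c800e6000000000000000000) := T_1 (nat_lit 94) (nat_lit 77) (nat_lit 6) (nat_lit 8) (nat_lit 8) L23904 (by decide +kernel)
theorem L23906 : W_1 (nat_lit 8) (nat_lit 0x1800080006000200000000000000000000000) (nat_lit 0x0) (nat_lit 0x40038001d800ee000000000000000000) := T_1 (nat_lit 92) (nat_lit 75) (nat_lit 4) (nat_lit 8) (nat_lit 8) L23905 (by decide +kernel)
theorem L23907 : W_1 (nat_lit 9) (nat_lit 0x1000080006000200000000000000000000000) (nat_lit 0x0) (nat_lit 0x10000800040038001d800ee000000000000000000) := T_1 (nat_lit 143) (nat_lit 160) (nat_lit 5) (nat_lit 8) (nat_lit 5) L23906 (by decide +kernel)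
theorem L23908 : W_1 (nat_lit 2) (nat_lit 0x1800080006000e00000000000000000000000) (nat_lit 0x0) (nat_lit 0x9800000000000000000000000000) := D_1 (nat_lit 108) (nat_lit 107) (nat_lit 111) (nat_lit 2) (nat_lit 5) (nat_lit 6) (nat_lit 2) (nat_lit 6) (nat_lit 6) (by decide +kernel)
theorem L23909 : W_1 (nat_lit 3) (nat_lit 0x1800080006000600000000000000000000000) (nat_lit 0x0) (nat_lit 0x9801800000000000000000000000) := T_1 (nat_lit 95) (nat_lit 96) (nat_lit 1) (nat_lit 11) (nat_lit 5) L23908 (by decide +kernel)
theorem L23910 : W_1 (nat_lit 4) (nat_lit 0x1000080006000600000000000000000000000) (nat_lit 0x0) (nat_lit 0x10000800000009801800000000000000000000000) := T_1 (nat_lit 143) (nat_lit 160) (nat_lit 5) (nat_lit 8) (nat_lit 5) L23909 (by decide +kernel)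
theorem L23911 : W_1 (nat_lit 5) (nat_lit 0x1000080006000200000000000000000000000) (nat_lit 0x0) (nat_lit 0x10000800000009801c00020000000000000000000) := T_1 (nat_lit 94) (nat_lit 77) (nat_lit 6) (nat_lit 8) (nat_lit 8) L23910 (by decide +kernel)
theorem L23912 : W_1 (nat_lit 10) (nat_lit 0x1000080004000200000000000000000000000) (nat_lit 0x0) (nat_lit 0x18000e0074003bc01dc00ee000000000000000000) := Q_1 (nat_lit 109) (C_1 L20214 (C_1 L23895 (C_1 L23899 (C_1 L23907 (C_1 L23911 N_1))))) (by decide +kernel)
theorem L23913 : W_1 (nat_lit 11) (nat_lit 0x1000080004000000000000000000000000000) (nat_lit 0x0) (nat_lit 0x18000e0074003bc01fc00fe001400000000000000) := Q_1 (nat_lit 93) (C_1 L20059 (C_1 L20101 (C_1 L20098 (C_1 L23912 N_1)))) (by decide +kernel)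
theorem L23914 : W_1 (nat_lit 2) (nat_lit 0x7d002c0006000380000000000000000000000) (nat_lit 0x0) (nat_lit 0x8000060000000000000000000000) := D_1 (nat_lit 90) (nat_lit 111) (nat_lit 89) (nat_lit 3) (nat_lit 5) (nat_lit 5) (nat_lit 3) (nat_lit 4) (nat_lit 5) (by decide +kernel)
theorem L23915 : W_1 (nat_lit 3) (nat_lit 0x7d002c0006000300000000000000000000000) (nat_lit 0x0) (nat_lit 0x80000e0004000000000000000000) := T_1 (nat_lit 91) (nat_lit 74) (nat_lit 4) (nat_lit 7) (nat_lit 8) L23914 (by decide +kernel)
theorem L23916 : W_1 (nat_lit 4) (nat_lit 0x7c002c0006000300000000000000000000000) (nat_lit 0x0) (nat_lit 0x3000000080000e0004000000000000000000) := T_1 (nat_lit 140) (nat_lit 141) (nat_lit 2) (nat_lit 4) (nat_lit 8) L23915 (by decide +kernel)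
theorem L23917 : W_1 (nat_lit 5) (nat_lit 0x78002c0006000300000000000000000000000) (nat_lit 0x0) (nat_lit 0x80007000000080000e0004000000000000000000) := T_1 (nat_lit 142) (nat_lit 159) (nat_lit 5) (nat_lit 7) (nat_lit 5) L23916 (by decide +kernel)
theorem L23918 : W_1 (nat_lit 6) (nat_lit 0x78000c0006000300000000000000000000000) (nat_lit 0x0) (nat_lit 0x80007006000080000e0004000000000000000000) := T_1 (nat_lit 129) (nat_lit 130) (nat_lit 2) (nat_lit 7) (nat_lit 8) L23917 (by decide +kernel)
theorem L23919 : W_1 (nat_lit 7) (nat_lit 0x78000c0006000200000000000000000000000) (nat_lit 0x0) (nat_lit 0x80007006000080001e000c000000000000000000) := T_1 (nat_lit 92) (nat_lit 75) (nat_lit 7) (nat_lit 7) (nat_lit 4) L23918 (by decide +kernel)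
theorem L23920 : W_1 (nat_lit 8) (nat_lit 0x70000c0006000200000000000000000000000) (nat_lit 0x0) (nat_lit 0x18000f006000080001e000c000000000000000000) := T_1 (nat_lit 143) (nat_lit 160) (nat_lit 6) (nat_lit 7) (nat_lit 9) L23919 (by decide +kernel)
theorem L23921 : W_1 (nat_lit 9) (nat_lit 0x30000c0006000200000000000000000000000) (nat_lit 0x0) (nat_lit 0x1800cf006000080001e000c000000000000000000) := T_1 (nat_lit 146) (nat_lit 147) (nat_lit 0) (nat_lit 11) (nat_lit 8) L23920 (by decide +kernel)
theorem L23922 : W_1 (nat_lit 10) (nat_lit 0x10000c0006000200000000000000000000000) (nat_lit 0x0) (nat_lit 0x5800ef006000080001e000c000000000000000000) := T_1 (nat_lit 145) (nat_lit 162) (nat_lit 7) (nat_lit 8) (nat_lit 5) L23921 (by decide +kernel)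
theorem L23923 : W_1 (nat_lit 5) (nat_lit 0x10000c0006000200000000000000000000000) (nat_lit 0x0) (nat_lit 0x10000800000009801c00020000000000000000000) := T_1 (nat_lit 143) (nat_lit 160) (nat_lit 6) (nat_lit 7) (nat_lit 9) L22728 (by decide +kernel)
theorem L23924 : W_1 (nat_lit 11) (nat_lit 0x10000c0004000200000000000000000000000) (nat_lit 0x0) (nat_lit 0x5800ef0060000b801de002c000000000000000000) := Q_1 (nat_lit 109) (C_1 L20368 (C_1 L20363 (C_1 L23922 (C_1 L23923 N_1)))) (by decide +kernel)
theorem L23925 : W_1 (nat_lit 2) (nat_lit 0x30000e0004000200000000000000000000000) (nat_lit 0x0) (nat_lit 0x10004800000000000000000000000000000000000) := D_1 (nat_lit 143) (nat_lit 160) (nat_lit 146) (nat_lit 5) (nat_lit 8) (nat_lit 5) (nat_lit 0) (nat_lit 10) (nat_lit 8) (by decide +kernel)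
theorem L23926 : W_1 (nat_lit 3) (nat_lit 0x30000c0004000200000000000000000000000) (nat_lit 0x0) (nat_lit 0x10004800030000000000000000000000000000000) := T_1 (nat_lit 125) (nat_lit 124) (nat_lit 3) (nat_lit 5) (nat_lit 7) L23925 (by decide +kernel)
theorem L23927 : W_1 (nat_lit 4) (nat_lit 0x10000c0004000200000000000000000000000) (nat_lit 0x0) (nat_lit 0x50006800030000000000000000000000000000000) := T_1 (nat_lit 145) (nat_lit 162) (nat_lit 7) (nat_lit 8) (nat_lit 5) L23926 (by decide +kernel)
theorem L23928 : W_1 (nat_lit 12) (nat_lit 0x1000080004000200000000000000000000000) (nat_lit 0x0) (nat_lit 0x5800ef0067003b803de01ee000000000000000000) := Q_1 (nat_lit 126) (C_1 L20359 (C_1 L1698 (C_1 L23924 (C_1 L23927 N_1)))) (by decide +kernel)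
theorem L23929 : W_1 (nat_lit 13) (nat_lit 0x1000080004000000000000000000000000000) (nat_lit 0x0) (nat_lit 0x5800ef0067003b803fe01fe001400000000000000) := Q_1 (nat_lit 93) (C_1 L20059 (C_1 L20101 (C_1 L20098 (C_1 L23928 N_1)))) (by decide +kernel)
theorem L23930 : W_1 (nat_lit 2) (nat_lit 0x1a0038000e000300020000000000000000000) (nat_lit 0x0) (nat_lit 0x100000c0000000000000000000000) := D_1 (nat_lit 91) (nat_lit 90) (nat_lit 112) (nat_lit 3) (nat_lit 5) (nat_lit 5) (nat_lit 0) (nat_lit 10) (nat_lit 6) (by decide +kernel)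
theorem L23931 : W_1 (nat_lit 3) (nat_lit 0x1a00380006000300020000000000000000000) (nat_lit 0x0) (nat_lit 0x190000c0000000000000000000000) := T_1 (nat_lit 111) (nat_lit 108) (nat_lit 3) (nat_lit 6) (nat_lit 6) L23930 (by decide +kernel)
theorem L23932 : W_1 (nat_lit 4) (nat_lit 0x1a00180006000300020000000000000000000) (nat_lit 0x0) (nat_lit 0x6000190000c0000000000000000000000) := T_1 (nat_lit 129) (nat_lit 130) (nat_lit 1) (nat_lit 11) (nat_lit 7) L23931 (by decide +kernel)
theorem L23933 : W_1 (nat_lit 5) (nat_lit 0x1800180006000300020000000000000000000) (nat_lit 0x0) (nat_lit 0x6006000190000c0000000000000000000000) := T_1 (nat_lit 141) (nat_lit 142) (nat_lit 2) (nat_lit 5) (nat_lit 8) L23932 (by decide +kernel)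
theorem L23934 : W_1 (nat_lit 6) (nat_lit 0x1000180006000300020000000000000000000) (nat_lit 0x0) (nat_lit 0x10000e006000190000c0000000000000000000000) := T_1 (nat_lit 143) (nat_lit 160) (nat_lit 5) (nat_lit 8) (nat_lit 5) L23933 (by decide +kernel)
theorem L23935 : W_1 (nat_lit 7) (nat_lit 0x1000180006000300000000000000000000000) (nat_lit 0x0) (nat_lit 0x10000e006000190004c0020000000000000000000) := T_1 (nat_lit 77) (nat_lit 94) (nat_lit 6) (nat_lit 8) (nat_lit 8) L23934 (by decide +kernel)
theorem L23936 : W_1 (nat_lit 8) (nat_lit 0x1000180006000200000000000000000000000) (nat_lit 0x0) (nat_lit 0x10000e006000190005c0028000000000000000000) := T_1 (nat_lit 92) (nat_lit 75) (nat_lit 4) (nat_lit 8) (nat_lit 8) L23935 (by decide +kernel)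
theorem L23937 : W_1 (nat_lit 2) (nat_lit 0x1a00180007000600008000000000000000000) (nat_lit 0x0) (nat_lit 0x8001800000000000000000000000) := D_1 (nat_lit 95) (nat_lit 96) (nat_lit 111) (nat_lit 1) (nat_lit 11) (nat_lit 5) (nat_lit 2) (nat_lit 6) (nat_lit 6) (by decide +kernel)
theorem L23938 : W_1 (nat_lit 3) (nat_lit 0x1a00180006000600008000000000000000000) (nat_lit 0x0) (nat_lit 0x9801800000000000000000000000) := T_1 (nat_lit 108) (nat_lit 107) (nat_lit 3) (nat_lit 5) (nat_lit 6) L23937 (by decide +kernel)
theorem L23939 : W_1 (nat_lit 4) (nat_lit 0x1a00180006000200008000000000000000000) (nat_lit 0x0) (nat_lit 0x9801c00020000000000000000000) := T_1 (nat_lit 94) (nat_lit 77) (nat_lit 6) (nat_lit 8) (nat_lit 8) L23938 (by decide +kernel)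
theorem L23940 : W_1 (nat_lit 5) (nat_lit 0x1a00180006000200000000000000000000000) (nat_lit 0x0) (nat_lit 0x9801d00028000000000000000000) := T_1 (nat_lit 75) (nat_lit 92) (nat_lit 4) (nat_lit 8) (nat_lit 8) L23939 (by decide +kernel)
theorem L23941 : W_1 (nat_lit 6) (nat_lit 0x1800180006000200000000000000000000000) (nat_lit 0x0) (nat_lit 0x600000009801d00028000000000000000000) := T_1 (nat_lit 141) (nat_lit 142) (nat_lit 2) (nat_lit 5) (nat_lit 8) L23940 (by decide +kernel)
theorem L23942 : W_1 (nat_lit 7) (nat_lit 0x1000180006000200000000000000000000000) (nat_lit 0x0) (nat_lit 0x10000e00000009801d00028000000000000000000) := T_1 (nat_lit 143) (nat_lit 160) (nat_lit 5) (nat_lit 8) (nat_lit 5) L23941 (by decide +kernel)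
theorem L23943 : W_1 (nat_lit 2) (nat_lit 0x1a00380016000f00040000000000000000000) (nat_lit 0x0) (nat_lit 0x8000080000002000000000000000) := D_1 (nat_lit 111) (nat_lit 91) (nat_lit 61) (nat_lit 3) (nat_lit 6) (nat_lit 5) (nat_lit 5) (nat_lit 10) (nat_lit 3) (by decide +kernel)
theorem L23944 : W_1 (nat_lit 3) (nat_lit 0x1a00380006000f00040000000000000000000) (nat_lit 0x0) (nat_lit 0x38000080000002000000000000000) := T_1 (nat_lit 112) (nat_lit 113) (nat_lit 3) (nat_lit 7) (nat_lit 5) L23943 (by decide +kernel)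
theorem L23945 : W_1 (nat_lit 4) (nat_lit 0x1a00380006000f00000000000000000000000) (nat_lit 0x0) (nat_lit 0x380000800c0002000000000000000) := T_1 (nat_lit 78) (nat_lit 79) (nat_lit 2) (nat_lit 7) (nat_lit 5) L23944 (by decide +kernel)
theorem L23946 : W_1 (nat_lit 5) (nat_lit 0x1a00380006000700000000000000000000000) (nat_lit 0x0) (nat_lit 0x380018800c0002000000000000000) := T_1 (nat_lit 95) (nat_lit 96) (nat_lit 1) (nat_lit 11) (nat_lit 5) L23945 (by decide +kernel)
theorem L23947 : W_1 (nat_lit 6) (nat_lit 0x1a00380006000300000000000000000000000) (nat_lit 0x0) (nat_lit 0x38001c800e0002000000000000000) := T_1 (nat_lit 94) (nat_lit 77) (nat_lit 6) (nat_lit 8) (nat_lit 8) L23946 (by decide +kernel)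
theorem L23948 : W_1 (nat_lit 7) (nat_lit 0x1a00380006000200000000000000000000000) (nat_lit 0x0) (nat_lit 0x38001d800e8002000000000000000) := T_1 (nat_lit 92) (nat_lit 75) (nat_lit 4) (nat_lit 8) (nat_lit 8) L23947 (by decide +kernel)
theorem L23949 : W_1 (nat_lit 8) (nat_lit 0x1800380006000200000000000000000000000) (nat_lit 0x0) (nat_lit 0x600000038001d800e8002000000000000000) := T_1 (nat_lit 141) (nat_lit 142) (nat_lit 2) (nat_lit 5) (nat_lit 8) L23948 (by decide +kernel)
theorem L23950 : W_1 (nat_lit 9) (nat_lit 0x1000380006000200000000000000000000000) (nat_lit 0x0) (nat_lit 0x10000e00000038001d800e8002000000000000000) := T_1 (nat_lit 143) (nat_lit 160) (nat_lit 5) (nat_lit 8) (nat_lit 5) L23949 (by decide +kernel)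
theorem L23951 : W_1 (nat_lit 10) (nat_lit 0x1000180006000200000000000000000000000) (nat_lit 0x0) (nat_lit 0x10000e00600038001d800e8002000000000000000) := T_1 (nat_lit 129) (nat_lit 130) (nat_lit 0) (nat_lit 11) (nat_lit 7) L23950 (by decide +kernel)
theorem L23952 : W_1 (nat_lit 2) (nat_lit 0x1000180007000600000000000000000000000) (nat_lit 0x0) (nat_lit 0x1900000000000000000000000) := D_1 (nat_lit 95) (nat_lit 96) (nat_lit 92) (nat_lit 1) (nat_lit 11) (nat_lit 5) (nat_lit 1) (nat_lit 10) (nat_lit 5) (by decide +kernel)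
theorem L23953 : W_1 (nat_lit 3) (nat_lit 0x1000180006000600000000000000000000000) (nat_lit 0x0) (nat_lit 0x1801900000000000000000000000) := T_1 (nat_lit 108) (nat_lit 107) (nat_lit 3) (nat_lit 5) (nat_lit 6) L23952 (by decide +kernel)
theorem L23954 : W_1 (nat_lit 4) (nat_lit 0x1000180006000200000000000000000000000) (nat_lit 0x0) (nat_lit 0x1801d00020000000000000000000) := T_1 (nat_lit 94) (nat_lit 77) (nat_lit 6) (nat_lit 8) (nat_lit 8) L23953 (by decide +kernel)
theorem L23955 : W_1 (nat_lit 11) (nat_lit 0x1000180004000200000000000000000000000) (nat_lit 0x0) (nat_lit 0x10000e0060003b801dc00e8002000000000000000) := Q_1 (nat_lit 109) (C_1 L23936 (C_1 L20219 (C_1 L23942 (C_1 L23951 (C_1 L23954 N_1))))) (by decide +kernel)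
theorem L23956 : W_1 (nat_lit 2) (nat_lit 0x100018000c000700000000000000000000000) (nat_lit 0x0) (nat_lit 0x100000c0000000000000000000000) := D_1 (nat_lit 91) (nat_lit 90) (nat_lit 112) (nat_lit 3) (nat_lit 5) (nat_lit 5) (nat_lit 3) (nat_lit 6) (nat_lit 5) (by decide +kernel)
theorem L23957 : W_1 (nat_lit 3) (nat_lit 0x100018000c000300000000000000000000000) (nat_lit 0x0) (nat_lit 0x100004c0020000000000000000000) := T_1 (nat_lit 94) (nat_lit 77) (nat_lit 6) (nat_lit 8) (nat_lit 8) L23956 (by decide +kernel)
theorem L23958 : W_1 (nat_lit 4) (nat_lit 0x100018000c000200000000000000000000000) (nat_lit 0x0) (nat_lit 0x100005c0028000000000000000000) := T_1 (nat_lit 92) (nat_lit 75) (nat_lit 4) (nat_lit 8) (nat_lit 8) L23957 (by decide +kernel)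
theorem L23959 : W_1 (nat_lit 6) (nat_lit 0x1000180004000200000000000000000000000) (nat_lit 0x0) (nat_lit 0x4000200000003b001dc0068000000000000000000) := Q_1 (nat_lit 111) (C_1 L20292 (C_1 L23958 (C_1 L20169 N_1))) (by decide +kernel)
theorem L23960 : W_1 (nat_lit 2) (nat_lit 0x3800180004000200008000000000000000000) (nat_lit 0x0) (nat_lit 0x400600000000000000000000000000000000) := D_1 (nat_lit 129) (nat_lit 142) (nat_lit 130) (nat_lit 2) (nat_lit 6) (nat_lit 8) (nat_lit 1) (nat_lit 11) (nat_lit 7) (by decide +kernel)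
theorem L23961 : W_1 (nat_lit 3) (nat_lit 0x3000180004000200008000000000000000000) (nat_lit 0x0) (nat_lit 0x10000c00600000000000000000000000000000000) := T_1 (nat_lit 143) (nat_lit 160) (nat_lit 5) (nat_lit 8) (nat_lit 5) L23960 (by decide +kernel)
theorem L23962 : W_1 (nat_lit 4) (nat_lit 0x3000180004000200000000000000000000000) (nat_lit 0x0) (nat_lit 0x10000c00600000000100008000000000000000000) := T_1 (nat_lit 75) (nat_lit 92) (nat_lit 4) (nat_lit 8) (nat_lit 8) L23961 (by decide +kernel)
theorem L23963 : W_1 (nat_lit 5) (nat_lit 0x1000180004000200000000000000000000000) (nat_lit 0x0) (nat_lit 0x50002c00600000000100008000000000000000000) := T_1 (nat_lit 145) (nat_lit 162) (nat_lit 7) (nat_lit 8) (nat_lit 5) L23962 (by decide +kernel)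
theorem L23964 : W_1 (nat_lit 2) (nat_lit 0x1c00180004000200000000000000000000000) (nat_lit 0x0) (nat_lit 0x2000600000000000000000000000000000000) := D_1 (nat_lit 129) (nat_lit 130) (nat_lit 145) (nat_lit 1) (nat_lit 11) (nat_lit 7) (nat_lit 2) (nat_lit 6) (nat_lit 8) (by decide +kernel)
theorem L23965 : W_1 (nat_lit 3) (nat_lit 0x1800180004000200000000000000000000000) (nat_lit 0x0) (nat_lit 0x2600600000000000000000000000000000000) := T_1 (nat_lit 142) (nat_lit 141) (nat_lit 2) (nat_lit 5) (nat_lit 8) L23964 (by decide +kernel)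
theorem L23966 : W_1 (nat_lit 4) (nat_lit 0x1000180004000200000000000000000000000) (nat_lit 0x0) (nat_lit 0x10002e00600000000000000000000000000000000) := T_1 (nat_lit 143) (nat_lit 160) (nat_lit 5) (nat_lit 8) (nat_lit 5) L23965 (by decide +kernel)
theorem L23967 : W_1 (nat_lit 12) (nat_lit 0x1000080004000200000000000000000000000) (nat_lit 0x0) (nat_lit 0x50002e0070003b801dc00e8002000000000000000) := Q_1 (nat_lit 128) (C_1 L23955 (C_1 L23959 (C_1 L2501 (C_1 L23963 (C_1 L23966 N_1))))) (by decide +kernel)
theorem L23968 : W_1 (nat_lit 13) (nat_lit 0x1000080004000000000000000000000000000) (nat_lit 0x0) (nat_lit 0x50002e0070003b801fc00f8003400000000000000) := Q_1 (nat_lit 93) (C_1 L20090 (C_1 L20059 (C_1 L20089 (C_1 L23967 N_1)))) (by decide +kernel)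
theorem L23969 : W_1 (nat_lit 2) (nat_lit 0x180008000c000700000000000000000000000) (nat_lit 0x0) (nat_lit 0x100000c0000000000000000000000) := D_1 (nat_lit 91) (nat_lit 112) (nat_lit 90) (nat_lit 3) (nat_lit 6) (nat_lit 5) (nat_lit 3) (nat_lit 5) (nat_lit 5) (by decide +kernel)
theorem L23970 : W_1 (nat_lit 3) (nat_lit 0x180008000c000600000000000000000000000) (nat_lit 0x0) (nat_lit 0x100001c0008000000000000000000) := T_1 (nat_lit 92) (nat_lit 75) (nat_lit 4) (nat_lit 8) (nat_lit 8) L23969 (by decide +kernel)
theorem L23971 : W_1 (nat_lit 4) (nat_lit 0x180008000c000200000000000000000000000) (nat_lit 0x0) (nat_lit 0x100005c0028000000000000000000) := T_1 (nat_lit 94) (nat_lit 77) (nat_lit 6) (nat_lit 8) (nat_lit 8) L23970 (by decide +kernel)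
theorem L23972 : W_1 (nat_lit 5) (nat_lit 0x100008000c000200000000000000000000000) (nat_lit 0x0) (nat_lit 0x100008000000100005c0028000000000000000000) := T_1 (nat_lit 143) (nat_lit 160) (nat_lit 5) (nat_lit 8) (nat_lit 5) L23971 (by decide +kernel)
theorem L23973 : W_1 (nat_lit 2) (nat_lit 0x10000c001c000200008000000000000000000) (nat_lit 0x0) (nat_lit 0x130000000000000000000000000000000) := D_1 (nat_lit 125) (nat_lit 124) (nat_lit 128) (nat_lit 2) (nat_lit 5) (nat_lit 7) (nat_lit 2) (nat_lit 6) (nat_lit 7) (by decide +kernel)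
theorem L23974 : W_1 (nat_lit 3) (nat_lit 0x10000c000c000200008000000000000000000) (nat_lit 0x0) (nat_lit 0x130030000000000000000000000000000) := T_1 (nat_lit 112) (nat_lit 113) (nat_lit 1) (nat_lit 11) (nat_lit 6) L23973 (by decide +kernel)
theorem L23975 : W_1 (nat_lit 4) (nat_lit 0x10000c000c000200000000000000000000000) (nat_lit 0x0) (nat_lit 0x130030000100008000000000000000000) := T_1 (nat_lit 75) (nat_lit 92) (nat_lit 4) (nat_lit 8) (nat_lit 8) L23974 (by decide +kernel)
theorem L23976 : W_1 (nat_lit 2) (nat_lit 0x30000e000c000200000000000000000000000) (nat_lit 0x0) (nat_lit 0xc800000000000000000000000000000000000) := D_1 (nat_lit 146) (nat_lit 147) (nat_lit 143) (nat_lit 0) (nat_lit 11) (nat_lit 8) (nat_lit 0) (nat_lit 10) (nat_lit 8) (by decide +kernel)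
theorem L23977 : W_1 (nat_lit 3) (nat_lit 0x10000e000c000200000000000000000000000) (nat_lit 0x0) (nat_lit 0x4000e800000000000000000000000000000000000) := T_1 (nat_lit 145) (nat_lit 162) (nat_lit 7) (nat_lit 8) (nat_lit 5) L23976 (by decide +kernel)
theorem L23978 : W_1 (nat_lit 4) (nat_lit 0x10000c000c000200000000000000000000000) (nat_lit 0x0) (nat_lit 0x4000e800030000000000000000000000000000000) := T_1 (nat_lit 125) (nat_lit 124) (nat_lit 2) (nat_lit 5) (nat_lit 7) L23977 (by decide +kernel)
theorem L23979 : W_1 (nat_lit 2) (nat_lit 0x7e002c001c000200008000000000000000000) (nat_lit 0x0) (nat_lit 0xe000000000000000000000000000000000000000) := D_1 (nat_lit 158) (nat_lit 159) (nat_lit 157) (nat_lit 1) (nat_lit 9) (nat_lit 8) (nat_lit 1) (nat_lit 8) (nat_lit 8) (by decide +kernel)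
theorem L23980 : W_1 (nat_lit 3) (nat_lit 0x7c002c001c000200008000000000000000000) (nat_lit 0x0) (nat_lit 0xe000300000000000000000000000000000000000) := T_1 (nat_lit 141) (nat_lit 140) (nat_lit 2) (nat_lit 4) (nat_lit 8) L23979 (by decide +kernel)
theorem L23981 : W_1 (nat_lit 4) (nat_lit 0x78002c001c000200008000000000000000000) (nat_lit 0x0) (nat_lit 0xe000700100000000000000000000000000000000) := T_1 (nat_lit 142) (nat_lit 128) (nat_lit 2) (nat_lit 6) (nat_lit 8) L23980 (by decide +kernel)
theorem L23982 : W_1 (nat_lit 5) (nat_lit 0x78000c001c000200008000000000000000000) (nat_lit 0x0) (nat_lit 0xe000700700000000000000000000000000000000) := T_1 (nat_lit 129) (nat_lit 130) (nat_lit 2) (nat_lit 7) (nat_lit 8) L23981 (by decide +kernel)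
theorem L23983 : W_1 (nat_lit 6) (nat_lit 0x70000c001c000200008000000000000000000) (nat_lit 0x0) (nat_lit 0x1e000f00700000000000000000000000000000000) := T_1 (nat_lit 143) (nat_lit 160) (nat_lit 5) (nat_lit 8) (nat_lit 5) L23982 (by decide +kernel)
theorem L23984 : W_1 (nat_lit 7) (nat_lit 0x70000c000c000200008000000000000000000) (nat_lit 0x0) (nat_lit 0x1e000f00700030000000000000000000000000000) := T_1 (nat_lit 112) (nat_lit 113) (nat_lit 1) (nat_lit 11) (nat_lit 6) L23983 (by decide +kernel)
theorem L23985 : W_1 (nat_lit 8) (nat_lit 0x30000c000c000200008000000000000000000) (nat_lit 0x0) (nat_lit 0x1e00cf00700030000000000000000000000000000) := T_1 (nat_lit 146) (nat_lit 147) (nat_lit 0) (nat_lit 11) (nat_lit 8) L23984 (by decide +kernel)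
theorem L23986 : W_1 (nat_lit 9) (nat_lit 0x10000c000c000200008000000000000000000) (nat_lit 0x0) (nat_lit 0x5e00ef00700030000000000000000000000000000) := T_1 (nat_lit 145) (nat_lit 162) (nat_lit 7) (nat_lit 8) (nat_lit 5) L23985 (by decide +kernel)
theorem L23987 : W_1 (nat_lit 10) (nat_lit 0x10000c000c000200000000000000000000000) (nat_lit 0x0) (nat_lit 0x5e00ef00700030000100008000000000000000000) := T_1 (nat_lit 75) (nat_lit 92) (nat_lit 4) (nat_lit 8) (nat_lit 8) L23986 (by decide +kernel)
theorem L23988 : W_1 (nat_lit 11) (nat_lit 0x100008000c000200000000000000000000000) (nat_lit 0x0) (nat_lit 0x5e00ef00770030000100008000000000000000000) := Q_1 (nat_lit 126) (C_1 L20143 (C_1 L23975 (C_1 L23978 (C_1 L23987 N_1)))) (by decide +kernel)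
theorem L23989 : W_1 (nat_lit 2) (nat_lit 0x380018000c000200020000000000000000000) (nat_lit 0x0) (nat_lit 0x400600000000000000000000000000000000) := D_1 (nat_lit 129) (nat_lit 142) (nat_lit 130) (nat_lit 2) (nat_lit 6) (nat_lit 8) (nat_lit 1) (nat_lit 11) (nat_lit 7) (by decide +kernel)
theorem L23990 : W_1 (nat_lit 3) (nat_lit 0x300018000c000200020000000000000000000) (nat_lit 0x0) (nat_lit 0x10000c00600000000000000000000000000000000) := T_1 (nat_lit 143) (nat_lit 160) (nat_lit 5) (nat_lit 8) (nat_lit 5) L23989 (by decide +kernel)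
theorem L23991 : W_1 (nat_lit 4) (nat_lit 0x100018000c000200020000000000000000000) (nat_lit 0x0) (nat_lit 0x50002c00600000000000000000000000000000000) := T_1 (nat_lit 145) (nat_lit 162) (nat_lit 7) (nat_lit 8) (nat_lit 5) L23990 (by decide +kernel)
theorem L23992 : W_1 (nat_lit 5) (nat_lit 0x100018000c000200000000000000000000000) (nat_lit 0x0) (nat_lit 0x50002c00600000000400020000000000000000000) := T_1 (nat_lit 77) (nat_lit 94) (nat_lit 6) (nat_lit 8) (nat_lit 8) L23991 (by decide +kernel)
theorem L23993 : W_1 (nat_lit 2) (nat_lit 0x300018002c001e00080000000000000000000) (nat_lit 0x0) (nat_lit 0x40010000100000000000000000000000) := D_1 (nat_lit 112) (nat_lit 92) (nat_lit 126) (nat_lit 3) (nat_lit 7) (nat_lit 5) (nat_lit 1) (nat_lit 11) (nat_lit 6) (by decide +kernel)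
theorem L23994 : W_1 (nat_lit 3) (nat_lit 0x300018000c001e00080000000000000000000) (nat_lit 0x0) (nat_lit 0x40070000100000000000000000000000) := T_1 (nat_lit 113) (nat_lit 114) (nat_lit 3) (nat_lit 8) (nat_lit 5) L23993 (by decide +kernel)
theorem L23995 : W_1 (nat_lit 4) (nat_lit 0x300018000c001e00000000000000000000000) (nat_lit 0x0) (nat_lit 0x40070000100180000000000000000000) := T_1 (nat_lit 79) (nat_lit 80) (nat_lit 2) (nat_lit 8) (nat_lit 5) L23994 (by decide +kernel)
theorem L23996 : W_1 (nat_lit 5) (nat_lit 0x300018000c000e00000000000000000000000) (nat_lit 0x0) (nat_lit 0x40070003100180000000000000000000) := T_1 (nat_lit 96) (nat_lit 97) (nat_lit 1) (nat_lit 12) (nat_lit 5) L23995 (by decide +kernel)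
theorem L23997 : W_1 (nat_lit 6) (nat_lit 0x300018000c000600000000000000000000000) (nat_lit 0x0) (nat_lit 0x400700039001c0000000000000000000) := T_1 (nat_lit 95) (nat_lit 78) (nat_lit 6) (nat_lit 9) (nat_lit 8) L23996 (by decide +kernel)
theorem L23998 : W_1 (nat_lit 7) (nat_lit 0x100018000c000600000000000000000000000) (nat_lit 0x0) (nat_lit 0x400020000400700039001c0000000000000000000) := T_1 (nat_lit 145) (nat_lit 162) (nat_lit 7) (nat_lit 8) (nat_lit 5) L23997 (by decide +kernel)
theorem L23999 : W_1 (nat_lit 8) (nat_lit 0x100018000c000200000000000000000000000) (nat_lit 0x0) (nat_lit 0x40002000040070003d001e0000000000000000000) := T_1 (nat_lit 94) (nat_lit 77) (nat_lit 6) (nat_lit 8) (nat_lit 8) L23998 (by decide +kernel)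
theorem L24000 : W_1 (nat_lit 2) (nat_lit 0x1c0018000c000200000000000000000000000) (nat_lit 0x0) (nat_lit 0x640000000000000000000000000000000) := D_1 (nat_lit 129) (nat_lit 130) (nat_lit 126) (nat_lit 1) (nat_lit 11) (nat_lit 7) (nat_lit 1) (nat_lit 10) (nat_lit 7) (by decide +kernel)
theorem L24001 : W_1 (nat_lit 3) (nat_lit 0x180018000c000200000000000000000000000) (nat_lit 0x0) (nat_lit 0x600640000000000000000000000000000000) := T_1 (nat_lit 142) (nat_lit 141) (nat_lit 2) (nat_lit 5) (nat_lit 8) L24000 (by decide +kernel)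
theorem L24002 : W_1 (nat_lit 4) (nat_lit 0x100018000c000200000000000000000000000) (nat_lit 0x0) (nat_lit 0x10000e00640000000000000000000000000000000) := T_1 (nat_lit 143) (nat_lit 160) (nat_lit 5) (nat_lit 8) (nat_lit 5) L24001 (by decide +kernel)
theorem L24003 : W_1 (nat_lit 9) (nat_lit 0x100008000c000200000000000000000000000) (nat_lit 0x0) (nat_lit 0x50002e00740070003d001e0000000000000000000) := Q_1 (nat_lit 128) (C_1 L23992 (C_1 L23999 (C_1 L24002 N_1))) (by decide +kernel)
theorem L24004 : W_1 (nat_lit 2) (nat_lit 0x300018003c001e00080000000000000000000) (nat_lit 0x0) (nat_lit 0x4000200000000000000004000000000000000) := D_1 (nat_lit 129) (nat_lit 146) (nat_lit 62) (nat_lit 6) (nat_lit 10) (nat_lit 8) (nat_lit 5) (nat_lit 11) (nat_lit 3) (by decide +kernel)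
theorem L24005 : W_1 (nat_lit 3) (nat_lit 0x300018002c001e00080000000000000000000) (nat_lit 0x0) (nat_lit 0x4000240010000000000004000000000000000) := T_1 (nat_lit 112) (nat_lit 126) (nat_lit 1) (nat_lit 11) (nat_lit 6) L24004 (by decide +kernel)
theorem L24006 : W_1 (nat_lit 4) (nat_lit 0x300018000c001e00080000000000000000000) (nat_lit 0x0) (nat_lit 0x4000240070000000000004000000000000000) := T_1 (nat_lit 113) (nat_lit 114) (nat_lit 3) (nat_lit 8) (nat_lit 5) L24005 (by decide +kernel)
theorem L24007 : W_1 (nat_lit 5) (nat_lit 0x300018000c001e00000000000000000000000) (nat_lit 0x0) (nat_lit 0x4000240070000000180004000000000000000) := T_1 (nat_lit 79) (nat_lit 80) (nat_lit 2) (nat_lit 8) (nat_lit 5) L24006 (by decide +kernel)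
theorem L24008 : W_1 (nat_lit 6) (nat_lit 0x300018000c000e00000000000000000000000) (nat_lit 0x0) (nat_lit 0x4000240070003000180004000000000000000) := T_1 (nat_lit 96) (nat_lit 97) (nat_lit 1) (nat_lit 12) (nat_lit 5) L24007 (by decide +kernel)
theorem L24009 : W_1 (nat_lit 7) (nat_lit 0x300018000c000600000000000000000000000) (nat_lit 0x0) (nat_lit 0x40002400700038001c0004000000000000000) := T_1 (nat_lit 95) (nat_lit 78) (nat_lit 6) (nat_lit 9) (nat_lit 8) L24008 (by decide +kernel)
theorem L24010 : W_1 (nat_lit 8) (nat_lit 0x300018000c000200000000000000000000000) (nat_lit 0x0) (nat_lit 0x4000240070003c001e0004000000000000000) := T_1 (nat_lit 94) (nat_lit 77) (nat_lit 6) (nat_lit 8) (nat_lit 8) L24009 (by decide +kernel)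
theorem L24011 : W_1 (nat_lit 9) (nat_lit 0x100018000c000200000000000000000000000) (nat_lit 0x0) (nat_lit 0x40006000240070003c001e0004000000000000000) := T_1 (nat_lit 145) (nat_lit 162) (nat_lit 7) (nat_lit 8) (nat_lit 5) L24010 (by decide +kernel)
theorem L24012 : W_1 (nat_lit 2) (nat_lit 0x4003c001a000c000200020000000000000000000) (nat_lit 0x0) (nat_lit 0x4000040010000000000000000000000000000) := D_1 (nat_lit 126) (nat_lit 146) (nat_lit 112) (nat_lit 3) (nat_lit 6) (nat_lit 7) (nat_lit 2) (nat_lit 6) (nat_lit 7) (by decide +kernel)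
theorem L24013 : W_1 (nat_lit 3) (nat_lit 0x4003c0018000c000200020000000000000000000) (nat_lit 0x0) (nat_lit 0x4000070010000000000000000000000000000) := T_1 (nat_lit 125) (nat_lit 124) (nat_lit 0) (nat_lit 9) (nat_lit 8) L24012 (by decide +kernel)
theorem L24014 : W_1 (nat_lit 4) (nat_lit 0x3c0018000c000200020000000000000000000) (nat_lit 0x0) (nat_lit 0xc004000070010000000000000000000000000000) := T_1 (nat_lit 158) (nat_lit 159) (nat_lit 1) (nat_lit 9) (nat_lit 8) L24013 (by decide +kernel)
theorem L24015 : W_1 (nat_lit 5) (nat_lit 0x1c0018000c000200020000000000000000000) (nat_lit 0x0) (nat_lit 0x4c006000070010000000000000000000000000000) := T_1 (nat_lit 145) (nat_lit 162) (nat_lit 7) (nat_lit 8) (nat_lit 5) L24014 (by decide +kernel)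
theorem L24016 : W_1 (nat_lit 6) (nat_lit 0x180018000c000200020000000000000000000) (nat_lit 0x0) (nat_lit 0x4c006600070010000000000000000000000000000) := T_1 (nat_lit 142) (nat_lit 141) (nat_lit 2) (nat_lit 5) (nat_lit 8) L24015 (by decide +kernel)
theorem L24017 : W_1 (nat_lit 7) (nat_lit 0x100018000c000200020000000000000000000) (nat_lit 0x0) (nat_lit 0x5c006e00070010000000000000000000000000000) := T_1 (nat_lit 143) (nat_lit 160) (nat_lit 5) (nat_lit 8) (nat_lit 5) L24016 (by decide +kernel)
theorem L24018 : W_1 (nat_lit 8) (nat_lit 0x100018000c000200000000000000000000000) (nat_lit 0x0) (nat_lit 0x5c006e00070010000400020000000000000000000) := T_1 (nat_lit 77) (nat_lit 94) (nat_lit 6) (nat_lit 8) (nat_lit 8) L24017 (by decide +kernel)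
theorem L24019 : W_1 (nat_lit 10) (nat_lit 0x100008000c000200000000000000000000000) (nat_lit 0x0) (nat_lit 0x5c006e00770070003c001e0004000000000000000) := Q_1 (nat_lit 128) (C_1 L24002 (C_1 L24011 (C_1 L23992 (C_1 L24018 N_1)))) (by decide +kernel)
theorem L24020 : W_1 (nat_lit 2) (nat_lit 0x38000a000d000780004000000000000000000) (nat_lit 0x0) (nat_lit 0x600010000000000000000000000000000000) := D_1 (nat_lit 124) (nat_lit 141) (nat_lit 142) (nat_lit 5) (nat_lit 6) (nat_lit 4) (nat_lit 0) (nat_lit 9) (nat_lit 8) (by decide +kernel)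
theorem L24021 : W_1 (nat_lit 3) (nat_lit 0x380008000d000780004000000000000000000) (nat_lit 0x0) (nat_lit 0x600070000000000000000000000000000000) := T_1 (nat_lit 125) (nat_lit 126) (nat_lit 7) (nat_lit 6) (nat_lit 4) L24020 (by decide +kernel)
theorem L24022 : W_1 (nat_lit 4) (nat_lit 0x380008000c000780004000000000000000000) (nat_lit 0x0) (nat_lit 0x600070001800000000000000000000000000) := T_1 (nat_lit 108) (nat_lit 107) (nat_lit 1) (nat_lit 9) (nat_lit 5) L24021 (by decide +kernel)
theorem L24023 : W_1 (nat_lit 5) (nat_lit 0x380008000c000780000000000000000000000) (nat_lit 0x0) (nat_lit 0x600070001800000006000000000000000000) := T_1 (nat_lit 74) (nat_lit 73) (nat_lit 0) (nat_lit 9) (nat_lit 5) L24022 (by decide +kernel)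
theorem L24024 : W_1 (nat_lit 6) (nat_lit 0x180008000c000780000000000000000000000) (nat_lit 0x0) (nat_lit 0x40002600070001800000006000000000000000000) := T_1 (nat_lit 145) (nat_lit 162) (nat_lit 7) (nat_lit 8) (nat_lit 5) L24023 (by decide +kernel)
theorem L24025 : W_1 (nat_lit 7) (nat_lit 0x180008000c000700000000000000000000000) (nat_lit 0x0) (nat_lit 0x400026000700018000c0006000000000000000000) := T_1 (nat_lit 91) (nat_lit 90) (nat_lit 3) (nat_lit 5) (nat_lit 5) L24024 (by decide +kernel)
theorem L24026 : W_1 (nat_lit 8) (nat_lit 0x100008000c000700000000000000000000000) (nat_lit 0x0) (nat_lit 0x50002e000700018000c0006000000000000000000) := T_1 (nat_lit 143) (nat_lit 160) (nat_lit 5) (nat_lit 8) (nat_lit 5) L24025 (by decide +kernel)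
theorem L24027 : W_1 (nat_lit 9) (nat_lit 0x100008000c000600000000000000000000000) (nat_lit 0x0) (nat_lit 0x50002e000700018001c000e000000000000000000) := T_1 (nat_lit 92) (nat_lit 75) (nat_lit 4) (nat_lit 8) (nat_lit 8) L24026 (by decide +kernel)
theorem L24028 : W_1 (nat_lit 10) (nat_lit 0x100008000c000200000000000000000000000) (nat_lit 0x0) (nat_lit 0x50002e000700018005c002e000000000000000000) := T_1 (nat_lit 94) (nat_lit 77) (nat_lit 6) (nat_lit 8) (nat_lit 8) L24027 (by decide +kernel)
theorem L24029 : W_1 (nat_lit 12) (nat_lit 0x1000080004000200000000000000000000000) (nat_lit 0x0) (nat_lit 0x5e00ef00770079803dc01ee004000000000000000) := Q_1 (nat_lit 111) (C_1 L23972 (C_1 L11009 (C_1 L23988 (C_1 L24003 (C_1 L24019 (C_1 L24028 N_1)))))) (by decide +kernel)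
theorem L24030 : W_1 (nat_lit 13) (nat_lit 0x1000080004000000000000000000000000000) (nat_lit 0x0) (nat_lit 0x5e00ef00770079803fc01fe005400000000000000) := Q_1 (nat_lit 93) (C_1 L20090 (C_1 L20101 (C_1 L20098 (C_1 L24029 N_1)))) (by decide +kernel)
theorem L24076 : W_1 (nat_lit 6) (nat_lit 0x18000c0006000000000000000000000000000) (nat_lit 0x0) (nat_lit 0x30001e000000100001c00080000000000000000000000) := T_1 (nat_lit 160) (nat_lit 177) (nat_lit 6) (nat_lit 7) (nat_lit 10) L21096 (by decide +kernel)
theorem L24126 : W_1 (nat_lit 2) (nat_lit 0x180018000c0006000100000000000000000000000) (nat_lit 0x0) (nat_lit 0x1000080004000000000000000000) := D_1 (nat_lit 91) (nat_lit 74) (nat_lit 108) (nat_lit 4) (nat_lit 7) (nat_lit 8) (nat_lit 4) (nat_lit 7) (nat_lit 9) (by decide +kernel)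
theorem L24127 : W_1 (nat_lit 3) (nat_lit 0x180018000c0006000000000000000000000000000) (nat_lit 0x0) (nat_lit 0x400000001000180004000000000000000000) := T_1 (nat_lit 92) (nat_lit 142) (nat_lit 5) (nat_lit 7) (nat_lit 5) L24126 (by decide +kernel)
theorem L24128 : W_1 (nat_lit 4) (nat_lit 0x100018000c0006000000000000000000000000000) (nat_lit 0x0) (nat_lit 0x100008000400000001000180004000000000000000000) := T_1 (nat_lit 159) (nat_lit 176) (nat_lit 5) (nat_lit 7) (nat_lit 6) L24127 (by decide +kernel)
theorem L24129 : W_1 (nat_lit 5) (nat_lit 0x18000c0006000000000000000000000000000) (nat_lit 0x0) (nat_lit 0x300018000400000001000180004000000000000000000) := T_1 (nat_lit 160) (nat_lit 177) (nat_lit 6) (nat_lit 7) (nat_lit 10) L24128 (by decide +kernel)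
theorem L24141 : W_1 (nat_lit 2) (nat_lit 0x1c0018000c0006000000000000000000000000000) (nat_lit 0x0) (nat_lit 0x6400000000000000000000000000000000000) := D_1 (nat_lit 145) (nat_lit 146) (nat_lit 142) (nat_lit 1) (nat_lit 10) (nat_lit 8) (nat_lit 1) (nat_lit 9) (nat_lit 8) (by decide +kernel)
theorem L24142 : W_1 (nat_lit 3) (nat_lit 0x180018000c0006000000000000000000000000000) (nat_lit 0x0) (nat_lit 0x6006400000000000000000000000000000000000) := T_1 (nat_lit 158) (nat_lit 157) (nat_lit 2) (nat_lit 4) (nat_lit 9) L24141 (by decide +kernel)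
theorem L24143 : W_1 (nat_lit 4) (nat_lit 0x100018000c0006000000000000000000000000000) (nat_lit 0x0) (nat_lit 0x10000e006400000000000000000000000000000000000) := T_1 (nat_lit 159) (nat_lit 176) (nat_lit 5) (nat_lit 7) (nat_lit 6) L24142 (by decide +kernel)
theorem L24144 : W_1 (nat_lit 5) (nat_lit 0x18000c0006000000000000000000000000000) (nat_lit 0x0) (nat_lit 0x30001e006400000000000000000000000000000000000) := T_1 (nat_lit 160) (nat_lit 177) (nat_lit 6) (nat_lit 7) (nat_lit 10) L24143 (by decide +kernel)
theorem L24145 : W_1 (nat_lit 6) (nat_lit 0x10000c0006000000000000000000000000000) (nat_lit 0x0) (nat_lit 0x30001e006c000000190001e000c000000000000000000) := Q_1 (nat_lit 143) (C_1 L24129 (C_1 L22211 (C_1 L22253 (C_1 L24144 N_1)))) (by decide +kernel)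
theorem L24186 : W_1 (nat_lit 2) (nat_lit 0x10002c001e000c00000000000000000000000) (nat_lit 0x0) (nat_lit 0x4000000000000000020001000000000000000) := D_1 (nat_lit 77) (nat_lit 60) (nat_lit 146) (nat_lit 7) (nat_lit 9) (nat_lit 3) (nat_lit 4) (nat_lit 10) (nat_lit 8) (by decide +kernel)
theorem L24187 : W_1 (nat_lit 3) (nat_lit 0x10000c001e000c00000000000000000000000) (nat_lit 0x0) (nat_lit 0x4000600000000000020001000000000000000) := T_1 (nat_lit 129) (nat_lit 130) (nat_lit 3) (nat_lit 7) (nat_lit 6) L24186 (by decide +kernel)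
theorem L24188 : W_1 (nat_lit 4) (nat_lit 0x10000c001e000800000000000000000000000) (nat_lit 0x0) (nat_lit 0x4000600001000400020001000000000000000) := T_1 (nat_lit 94) (nat_lit 108) (nat_lit 2) (nat_lit 6) (nat_lit 6) L24187 (by decide +kernel)
theorem L24189 : W_1 (nat_lit 5) (nat_lit 0x10000c001e000000000000000000000000000) (nat_lit 0x0) (nat_lit 0x4000600001001c00020001000000000000000) := T_1 (nat_lit 95) (nat_lit 96) (nat_lit 2) (nat_lit 7) (nat_lit 6) L24188 (by decide +kernel)
theorem L24190 : W_1 (nat_lit 6) (nat_lit 0x10000c000e000000000000000000000000000) (nat_lit 0x0) (nat_lit 0x4000600031001c00020001000000000000000) := T_1 (nat_lit 112) (nat_lit 113) (nat_lit 1) (nat_lit 11) (nat_lit 6) L24189 (by decide +kernel)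
theorem L24595 : W_1 (nat_lit 2) (nat_lit 0x100058003c00160001a0000000000000000000000) (nat_lit 0x0) (nat_lit 0x100008002000000000000000000000000000000000000) := D_1 (nat_lit 159) (nat_lit 176) (nat_lit 145) (nat_lit 5) (nat_lit 7) (nat_lit 6) (nat_lit 1) (nat_lit 10) (nat_lit 8) (by decide +kernel)
theorem L24596 : W_1 (nat_lit 3) (nat_lit 0x58003c00160001a0000000000000000000000) (nat_lit 0x0) (nat_lit 0x300018002000000000000000000000000000000000000) := T_1 (nat_lit 160) (nat_lit 177) (nat_lit 6) (nat_lit 7) (nat_lit 10) L24595 (by decide +kernel)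
theorem L24597 : W_1 (nat_lit 4) (nat_lit 0x58003c0016000180000000000000000000000) (nat_lit 0x0) (nat_lit 0x300018002000000000000060000000000000000000000) := T_1 (nat_lit 89) (nat_lit 90) (nat_lit 3) (nat_lit 4) (nat_lit 5) L24596 (by decide +kernel)
theorem L24598 : W_1 (nat_lit 5) (nat_lit 0x58003c0012000180000000000000000000000) (nat_lit 0x0) (nat_lit 0x30001800200000000c000060000000000000000000000) := T_1 (nat_lit 110) (nat_lit 111) (nat_lit 0) (nat_lit 10) (nat_lit 6) L24597 (by decide +kernel)
theorem L24599 : W_1 (nat_lit 6) (nat_lit 0x58003c0012000100000000000000000000000) (nat_lit 0x0) (nat_lit 0x30001800200000000c0000e0004000000000000000000) := T_1 (nat_lit 91) (nat_lit 74) (nat_lit 4) (nat_lit 7) (nat_lit 8) L24598 (by decide +kernel)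
theorem L24606 : W_1 (nat_lit 2) (nat_lit 0x18001c0003000180000000000000000000000) (nat_lit 0x0) (nat_lit 0x4c00000000000000000000000000) := D_1 (nat_lit 107) (nat_lit 110) (nat_lit 106) (nat_lit 3) (nat_lit 5) (nat_lit 6) (nat_lit 3) (nat_lit 4) (nat_lit 6) (by decide +kernel)
theorem L24607 : W_1 (nat_lit 3) (nat_lit 0x18001c0002000180000000000000000000000) (nat_lit 0x0) (nat_lit 0x10000000000005c00000000000000000000000000) := T_1 (nat_lit 108) (nat_lit 160) (nat_lit 4) (nat_lit 7) (nat_lit 9) L24606 (by decide +kernel)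
theorem L24608 : W_1 (nat_lit 4) (nat_lit 0x18001c0002000100000000000000000000000) (nat_lit 0x0) (nat_lit 0x10000000000005c00080004000000000000000000) := T_1 (nat_lit 91) (nat_lit 74) (nat_lit 4) (nat_lit 7) (nat_lit 8) L24607 (by decide +kernel)
theorem L24609 : W_1 (nat_lit 5) (nat_lit 0x18001c0002000000000000000000000000000) (nat_lit 0x0) (nat_lit 0x10000000000005c0018000c000000000000000000) := T_1 (nat_lit 92) (nat_lit 75) (nat_lit 7) (nat_lit 7) (nat_lit 4) L24608 (by decide +kernel)
theorem L24622 : W_1 (nat_lit 4) (nat_lit 0x3c001a0000000000000000000000000000000) (nat_lit 0x0) (nat_lit 0x400020001c004000000001000000000000000000000000000) := T_1 (nat_lit 159) (nat_lit 158) (nat_lit 1) (nat_lit 9) (nat_lit 8) L14942 (by decide +kernel)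
theorem L24623 : W_1 (nat_lit 5) (nat_lit 0x1c001a0000000000000000000000000000000) (nat_lit 0x0) (nat_lit 0x400020001c006000010001000000000000000000000000000) := T_1 (nat_lit 145) (nat_lit 124) (nat_lit 0) (nat_lit 9) (nat_lit 8) L24622 (by decide +kernel)
theorem L24624 : W_1 (nat_lit 6) (nat_lit 0x18001a0000000000000000000000000000000) (nat_lit 0x0) (nat_lit 0x400020001c006600010001000000000000000000000000000) := T_1 (nat_lit 142) (nat_lit 141) (nat_lit 2) (nat_lit 5) (nat_lit 8) L24623 (by decide +kernel)
theorem L24625 : W_1 (nat_lit 2) (nat_lit 0x8003c001e0008000000000000000000000000000) (nat_lit 0x0) (nat_lit 0x100000000000000002000100000000000000000000000) := D_1 (nat_lit 109) (nat_lit 92) (nat_lit 176) (nat_lit 5) (nat_lit 7) (nat_lit 5) (nat_lit 6) (nat_lit 6) (nat_lit 10) (by decide +kernel)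
theorem L24626 : W_1 (nat_lit 3) (nat_lit 0x3c001e0008000000000000000000000000000) (nat_lit 0x0) (nat_lit 0x10000c000000000002000100000000000000000000000) := T_1 (nat_lit 159) (nat_lit 158) (nat_lit 1) (nat_lit 9) (nat_lit 8) L24625 (by decide +kernel)
theorem L24627 : W_1 (nat_lit 4) (nat_lit 0x1c001e0008000000000000000000000000000) (nat_lit 0x0) (nat_lit 0x10000c006000000002000100000000000000000000000) := T_1 (nat_lit 145) (nat_lit 146) (nat_lit 3) (nat_lit 6) (nat_lit 7) L24626 (by decide +kernel)
theorem L24628 : W_1 (nat_lit 5) (nat_lit 0x1c001e0000000000000000000000000000000) (nat_lit 0x0) (nat_lit 0x10000c00600000001a000100000000000000000000000) := T_1 (nat_lit 111) (nat_lit 112) (nat_lit 2) (nat_lit 6) (nat_lit 7) L24627 (by decide +kernel)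
theorem L24629 : W_1 (nat_lit 6) (nat_lit 0x18001e0000000000000000000000000000000) (nat_lit 0x0) (nat_lit 0x10000c00660000001a000100000000000000000000000) := T_1 (nat_lit 142) (nat_lit 141) (nat_lit 2) (nat_lit 5) (nat_lit 8) L24628 (by decide +kernel)
theorem L24630 : W_1 (nat_lit 12) (nat_lit 0x18001a0000000000000000000000000000000) (nat_lit 0x0) (nat_lit 0x300038001c00660004001b8005c002e000000000000000000) := Q_1 (nat_lit 126) (C_1 L20987 (C_1 L21090 (C_1 L21657 (C_1 L24629 N_1)))) (by decide +kernel)
theorem L24741 : W_1 (nat_lit 2) (nat_lit 0x7800180000000000000000000000000000000) (nat_lit 0x0) (nat_lit 0x18000040000000000000000000000000000000) := D_1 (nat_lit 147) (nat_lit 126) (nat_lit 148) (nat_lit 0) (nat_lit 11) (nat_lit 8) (nat_lit 0) (nat_lit 12) (nat_lit 8) (by decide +kernel)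
theorem L24826 : W_1 (nat_lit 2) (nat_lit 0x58003c0012000780000000000000000000000) (nat_lit 0x0) (nat_lit 0x800060000000000000000000) := D_1 (nat_lit 77) (nat_lit 78) (nat_lit 95) (nat_lit 2) (nat_lit 6) (nat_lit 5) (nat_lit 4) (nat_lit 10) (nat_lit 8) (by decide +kernel)
theorem L24827 : W_1 (nat_lit 3) (nat_lit 0x58003c0012000380000000000000000000000) (nat_lit 0x0) (nat_lit 0x8000c00060000000000000000000) := T_1 (nat_lit 94) (nat_lit 111) (nat_lit 3) (nat_lit 6) (nat_lit 5) L24826 (by decide +kernel)
theorem L24828 : W_1 (nat_lit 4) (nat_lit 0x58003c0012000180000000000000000000000) (nat_lit 0x0) (nat_lit 0x8000e00070000000000000000000) := T_1 (nat_lit 93) (nat_lit 76) (nat_lit 6) (nat_lit 7) (nat_lit 8) L24827 (by decide +kernel)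
theorem L24829 : W_1 (nat_lit 5) (nat_lit 0x58003c0012000100000000000000000000000) (nat_lit 0x0) (nat_lit 0x8000e80074000000000000000000) := T_1 (nat_lit 91) (nat_lit 74) (nat_lit 4) (nat_lit 7) (nat_lit 8) L24828 (by decide +kernel)
theorem L24830 : W_1 (nat_lit 6) (nat_lit 0x58003c0002000100000000000000000000000) (nat_lit 0x0) (nat_lit 0x38000e80074000000000000000000) := T_1 (nat_lit 112) (nat_lit 113) (nat_lit 2) (nat_lit 7) (nat_lit 7) L24829 (by decide +kernel)
theorem L24831 : W_1 (nat_lit 7) (nat_lit 0x58003c0002000000000000000000000000000) (nat_lit 0x0) (nat_lit 0x38000f8007c000000000000000000) := T_1 (nat_lit 92) (nat_lit 75) (nat_lit 7) (nat_lit 7) (nat_lit 4) L24830 (by decide +kernel)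
theorem L24832 : W_1 (nat_lit 8) (nat_lit 0x18003c0002000000000000000000000000000) (nat_lit 0x0) (nat_lit 0xc000000038000f8007c000000000000000000) := T_1 (nat_lit 146) (nat_lit 147) (nat_lit 3) (nat_lit 7) (nat_lit 7) L24831 (by decide +kernel)
theorem L24833 : W_1 (nat_lit 9) (nat_lit 0x18003c0000000000000000000000000000000) (nat_lit 0x0) (nat_lit 0xc00000003b000f8007c000000000000000000) := T_1 (nat_lit 109) (nat_lit 108) (nat_lit 0) (nat_lit 10) (nat_lit 7) L24832 (by decide +kernel)
theorem L24834 : W_1 (nat_lit 10) (nat_lit 0x18001c0000000000000000000000000000000) (nat_lit 0x0) (nat_lit 0xc00060003b000f8007c000000000000000000) := T_1 (nat_lit 129) (nat_lit 130) (nat_lit 1) (nat_lit 11) (nat_lit 7) L24833 (by decide +kernel)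
theorem L24835 : W_1 (nat_lit 2) (nat_lit 0x38003c0016000700004000000000000000000) (nat_lit 0x0) (nat_lit 0x1800040000000000000000000) := D_1 (nat_lit 95) (nat_lit 78) (nat_lit 96) (nat_lit 5) (nat_lit 10) (nat_lit 4) (nat_lit 1) (nat_lit 11) (nat_lit 5) (by decide +kernel)
theorem L24836 : W_1 (nat_lit 3) (nat_lit 0x18003c0016000700004000000000000000000) (nat_lit 0x0) (nat_lit 0x40002000000000001800040000000000000000000) := T_1 (nat_lit 145) (nat_lit 162) (nat_lit 7) (nat_lit 8) (nat_lit 5) L24835 (by decide +kernel)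
theorem L24837 : W_1 (nat_lit 4) (nat_lit 0x18003c0016000300004000000000000000000) (nat_lit 0x0) (nat_lit 0x40002000000000001c00060000000000000000000) := T_1 (nat_lit 94) (nat_lit 77) (nat_lit 6) (nat_lit 8) (nat_lit 8) L24836 (by decide +kernel)
theorem L24838 : W_1 (nat_lit 5) (nat_lit 0x18003c0012000300004000000000000000000) (nat_lit 0x0) (nat_lit 0x50002000000004001c00060000000000000000000) := T_1 (nat_lit 110) (nat_lit 160) (nat_lit 6) (nat_lit 7) (nat_lit 9) L24837 (by decide +kernel)
theorem L24839 : W_1 (nat_lit 6) (nat_lit 0x18003c0012000300000000000000000000000) (nat_lit 0x0) (nat_lit 0x50002000000004001c80064000000000000000000) := T_1 (nat_lit 74) (nat_lit 91) (nat_lit 4) (nat_lit 7) (nat_lit 8) L24838 (by decide +kernel)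
theorem L24840 : W_1 (nat_lit 7) (nat_lit 0x18003c0012000100000000000000000000000) (nat_lit 0x0) (nat_lit 0x50002000000004001e80074000000000000000000) := T_1 (nat_lit 93) (nat_lit 76) (nat_lit 6) (nat_lit 7) (nat_lit 8) L24839 (by decide +kernel)
theorem L24841 : W_1 (nat_lit 8) (nat_lit 0x18003c0012000000000000000000000000000) (nat_lit 0x0) (nat_lit 0x50002000000004001f8007c000000000000000000) := T_1 (nat_lit 92) (nat_lit 75) (nat_lit 7) (nat_lit 7) (nat_lit 4) L24840 (by decide +kernel)
theorem L24846 : W_1 (nat_lit 2) (nat_lit 0x3000100018001c0002000080000000000000000000000) (nat_lit 0x0) (nat_lit 0x10000c000000000000000000) := D_1 (nat_lit 92) (nat_lit 74) (nat_lit 75) (nat_lit 4) (nat_lit 7) (nat_lit 8) (nat_lit 7) (nat_lit 7) (nat_lit 4) (by decide +kernel)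
theorem L24847 : W_1 (nat_lit 3) (nat_lit 0x3000100018001c0002000000000000000000000000000) (nat_lit 0x0) (nat_lit 0x100018000c000000000000000000) := T_1 (nat_lit 91) (nat_lit 108) (nat_lit 4) (nat_lit 7) (nat_lit 9) L24846 (by decide +kernel)
theorem L24848 : W_1 (nat_lit 4) (nat_lit 0x3000100018001c0000000000000000000000000000000) (nat_lit 0x0) (nat_lit 0x800000000000300018000c000000000000000000) := T_1 (nat_lit 109) (nat_lit 159) (nat_lit 5) (nat_lit 7) (nat_lit 6) L24847 (by decide +kernel)
theorem L24849 : W_1 (nat_lit 5) (nat_lit 0x2000100018001c0000000000000000000000000000000) (nat_lit 0x0) (nat_lit 0x200010000800000000000300018000c000000000000000000) := T_1 (nat_lit 176) (nat_lit 193) (nat_lit 5) (nat_lit 7) (nat_lit 7) L24848 (by decide +kernel)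
theorem L24850 : W_1 (nat_lit 6) (nat_lit 0x100018001c0000000000000000000000000000000) (nat_lit 0x0) (nat_lit 0x600030000800000000000300018000c000000000000000000) := T_1 (nat_lit 177) (nat_lit 194) (nat_lit 6) (nat_lit 7) (nat_lit 11) L24849 (by decide +kernel)
theorem L25465 : W_1 (nat_lit 2) (nat_lit 0x1f00088000000000000000000000000000000) (nat_lit 0x0) (nat_lit 0x7000000000000000000000000000000000000000) := D_1 (nat_lit 157) (nat_lit 158) (nat_lit 156) (nat_lit 1) (nat_lit 8) (nat_lit 8) (nat_lit 1) (nat_lit 7) (nat_lit 8) (by decide +kernel)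
theorem L25466 : W_1 (nat_lit 3) (nat_lit 0x1e00088000000000000000000000000000000) (nat_lit 0x0) (nat_lit 0x7000100004000000000000000000000000000000) := T_1 (nat_lit 140) (nat_lit 122) (nat_lit 0) (nat_lit 7) (nat_lit 8) L25465 (by decide +kernel)
theorem L25467 : W_1 (nat_lit 4) (nat_lit 0x1e00080000000000000000000000000000000) (nat_lit 0x0) (nat_lit 0x700010001c000000000000000000000000000000) := T_1 (nat_lit 123) (nat_lit 124) (nat_lit 0) (nat_lit 8) (nat_lit 8) L25466 (by decide +kernel)
theorem L25468 : W_1 (nat_lit 2) (nat_lit 0x2001e00080000000000000000000000000000000) (nat_lit 0x0) (nat_lit 0x1000100040000000000000000000000000000000) := D_1 (nat_lit 140) (nat_lit 156) (nat_lit 126) (nat_lit 1) (nat_lit 7) (nat_lit 8) (nat_lit 2) (nat_lit 4) (nat_lit 8) (by decide +kernel)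
theorem L25469 : W_1 (nat_lit 3) (nat_lit 0x1e00080000000000000000000000000000000) (nat_lit 0x0) (nat_lit 0x7000100040000000000000000000000000000000) := T_1 (nat_lit 157) (nat_lit 158) (nat_lit 1) (nat_lit 8) (nat_lit 8) L25468 (by decide +kernel)
theorem L25470 : W_1 (nat_lit 2) (nat_lit 0xc001e00090000000000000000000000000000000) (nat_lit 0x0) (nat_lit 0x2000100000000000000000800000000000000000000000000) := D_1 (nat_lit 176) (nat_lit 193) (nat_lit 107) (nat_lit 4) (nat_lit 6) (nat_lit 11) (nat_lit 7) (nat_lit 5) (nat_lit 6) (by decide +kernel)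
theorem L25471 : W_1 (nat_lit 3) (nat_lit 0x4001e00090000000000000000000000000000000) (nat_lit 0x0) (nat_lit 0x2000100008002000000000800000000000000000000000000) := T_1 (nat_lit 159) (nat_lit 145) (nat_lit 1) (nat_lit 9) (nat_lit 8) L25470 (by decide +kernel)
theorem L25472 : W_1 (nat_lit 4) (nat_lit 0x1e00090000000000000000000000000000000) (nat_lit 0x0) (nat_lit 0x200010000e002000000000800000000000000000000000000) := T_1 (nat_lit 158) (nat_lit 157) (nat_lit 1) (nat_lit 8) (nat_lit 8) L25471 (by decide +kernel)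
theorem L25473 : W_1 (nat_lit 5) (nat_lit 0x1e00080000000000000000000000000000000) (nat_lit 0x0) (nat_lit 0x200010000e002000018000800000000000000000000000000) := T_1 (nat_lit 124) (nat_lit 123) (nat_lit 0) (nat_lit 8) (nat_lit 8) L25472 (by decide +kernel)
theorem L25474 : W_1 (nat_lit 6) (nat_lit 0x1c00080000000000000000000000000000000) (nat_lit 0x0) (nat_lit 0x200010000f00230005c000800000000000000000000000000) := Q_1 (nat_lit 141) (C_1 L14768 (C_1 L25467 (C_1 L25469 (C_1 L25473 N_1)))) (by decide +kernel)
theorem L25483 : W_1 (nat_lit 2) (nat_lit 0x801fc00080000000000000000000000000000000) (nat_lit 0x0) (nat_lit 0x700000000000000000000000000000000000000000) := D_1 (nat_lit 165) (nat_lit 164) (nat_lit 166) (nat_lit 3) (nat_lit 8) (nat_lit 8) (nat_lit 3) (nat_lit 9) (nat_lit 8) (by decide +kernel)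
theorem L25484 : W_1 (nat_lit 3) (nat_lit 0x800fc00080000000000000000000000000000000) (nat_lit 0x0) (nat_lit 0x700010000100000000000000000000000000000000) := T_1 (nat_lit 148) (nat_lit 128) (nat_lit 0) (nat_lit 12) (nat_lit 8) L25483 (by decide +kernel)
theorem L25485 : W_1 (nat_lit 4) (nat_lit 0x8007c00080000000000000000000000000000000) (nat_lit 0x0) (nat_lit 0x700018000140000000000000000000000000000000) := T_1 (nat_lit 147) (nat_lit 126) (nat_lit 0) (nat_lit 11) (nat_lit 8) L25484 (by decide +kernel)
theorem L25486 : W_1 (nat_lit 5) (nat_lit 0x8003c00080000000000000000000000000000000) (nat_lit 0x0) (nat_lit 0x71001c000140000000000000000000000000000000) := T_1 (nat_lit 146) (nat_lit 160) (nat_lit 1) (nat_lit 10) (nat_lit 8) L25485 (by decide +kernel)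
theorem L25487 : W_1 (nat_lit 6) (nat_lit 0x3c00080000000000000000000000000000000) (nat_lit 0x0) (nat_lit 0x71c01c000140000000000000000000000000000000) := T_1 (nat_lit 159) (nat_lit 158) (nat_lit 1) (nat_lit 9) (nat_lit 8) L25486 (by decide +kernel)
theorem L25514 : W_1 (nat_lit 2) (nat_lit 0x8003c000c0002000000000000000000000000000) (nat_lit 0x0) (nat_lit 0x2000100010000000000000000000000000000000000000000) := D_1 (nat_lit 176) (nat_lit 193) (nat_lit 160) (nat_lit 6) (nat_lit 6) (nat_lit 11) (nat_lit 5) (nat_lit 7) (nat_lit 6) (by decide +kernel)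
theorem L25515 : W_1 (nat_lit 3) (nat_lit 0x8003c000c0000000000000000000000000000000) (nat_lit 0x0) (nat_lit 0x2000100010000000000002000100000000000000000000000) := T_1 (nat_lit 109) (nat_lit 92) (nat_lit 5) (nat_lit 7) (nat_lit 5) L25514 (by decide +kernel)
theorem L25516 : W_1 (nat_lit 4) (nat_lit 0x3c000c0000000000000000000000000000000) (nat_lit 0x0) (nat_lit 0x200010001c000000000002000100000000000000000000000) := T_1 (nat_lit 159) (nat_lit 158) (nat_lit 1) (nat_lit 9) (nat_lit 8) L25515 (by decide +kernel)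
theorem L25544 : W_1 (nat_lit 2) (nat_lit 0x8001c000c0002000000000000000000000000000) (nat_lit 0x0) (nat_lit 0x2000100010000000000000000000000000000000000000000) := D_1 (nat_lit 176) (nat_lit 193) (nat_lit 160) (nat_lit 6) (nat_lit 6) (nat_lit 11) (nat_lit 5) (nat_lit 7) (nat_lit 6) (by decide +kernel)
theorem L25545 : W_1 (nat_lit 3) (nat_lit 0x8001c000c0000000000000000000000000000000) (nat_lit 0x0) (nat_lit 0x2000100010000000000002000100000000000000000000000) := T_1 (nat_lit 109) (nat_lit 92) (nat_lit 5) (nat_lit 7) (nat_lit 5) L25544 (by decide +kernel)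
theorem L25546 : W_1 (nat_lit 2) (nat_lit 0xc001c001c0000000000000000000000000000000) (nat_lit 0x0) (nat_lit 0x13000000000000000000000000000000000000000) := D_1 (nat_lit 157) (nat_lit 156) (nat_lit 160) (nat_lit 2) (nat_lit 3) (nat_lit 9) (nat_lit 2) (nat_lit 4) (nat_lit 9) (by decide +kernel)
theorem L25547 : W_1 (nat_lit 3) (nat_lit 0x8001c001c0000000000000000000000000000000) (nat_lit 0x0) (nat_lit 0x17002000000000000000000000000000000000000) := T_1 (nat_lit 158) (nat_lit 145) (nat_lit 1) (nat_lit 9) (nat_lit 8) L25546 (by decide +kernel)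
theorem L25548 : W_1 (nat_lit 4) (nat_lit 0x8001c000c0000000000000000000000000000000) (nat_lit 0x0) (nat_lit 0x17002000300000000000000000000000000000000) := T_1 (nat_lit 128) (nat_lit 129) (nat_lit 1) (nat_lit 10) (nat_lit 7) L25547 (by decide +kernel)
theorem L25588 : W_1 (nat_lit 2) (nat_lit 0xc001c00080000000000000000000000000000000) (nat_lit 0x0) (nat_lit 0x13000000000000000000000000000000000000000) := D_1 (nat_lit 157) (nat_lit 156) (nat_lit 160) (nat_lit 2) (nat_lit 3) (nat_lit 9) (nat_lit 2) (nat_lit 4) (nat_lit 9) (by decide +kernel)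
theorem L25590 : W_1 (nat_lit 2) (nat_lit 0xa0002000100008001c00080000000000000000000000000000000) (nat_lit 0x0) (nat_lit 0x1400040000000000000000000000000000000000000000000000000000) := D_1 (nat_lit 210) (nat_lit 226) (nat_lit 228) (nat_lit 5) (nat_lit 6) (nat_lit 9) (nat_lit 7) (nat_lit 6) (nat_lit 9) (by decide +kernel)
theorem L25591 : W_1 (nat_lit 3) (nat_lit 0x20002000100008001c00080000000000000000000000000000000) (nat_lit 0x0) (nat_lit 0x14000c0004000000000000000000000000000000000000000000000000) := T_1 (nat_lit 211) (nat_lit 194) (nat_lit 7) (nat_lit 6) (nat_lit 8) L25590 (by decide +kernel)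
theorem L25592 : W_1 (nat_lit 4) (nat_lit 0x2000100008001c00080000000000000000000000000000000) (nat_lit 0x0) (nat_lit 0x14000e0005000000000000000000000000000000000000000000000000) := T_1 (nat_lit 209) (nat_lit 192) (nat_lit 5) (nat_lit 6) (nat_lit 8) L25591 (by decide +kernel)
theorem L25701 : W_1 (nat_lit 2) (nat_lit 0x18000c0003000380000000000000000000000) (nat_lit 0x0) (nat_lit 0xc00400000000000000000000000) := D_1 (nat_lit 107) (nat_lit 106) (nat_lit 94) (nat_lit 3) (nat_lit 4) (nat_lit 6) (nat_lit 1) (nat_lit 9) (nat_lit 5) (by decide +kernel)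
theorem L25702 : W_1 (nat_lit 3) (nat_lit 0x18000c0002000380000000000000000000000) (nat_lit 0x0) (nat_lit 0x10000000000001c00400000000000000000000000) := T_1 (nat_lit 108) (nat_lit 160) (nat_lit 4) (nat_lit 7) (nat_lit 9) L25701 (by decide +kernel)
theorem L25703 : W_1 (nat_lit 4) (nat_lit 0x18000c0002000300000000000000000000000) (nat_lit 0x0) (nat_lit 0x10000000000001c00480004000000000000000000) := T_1 (nat_lit 91) (nat_lit 74) (nat_lit 4) (nat_lit 7) (nat_lit 8) L25702 (by decide +kernel)
theorem L26028 : W_1 (nat_lit 2) (nat_lit 0x100038000c0000000000000000000000000000000) (nat_lit 0x0) (nat_lit 0x4000200000000000000004000000000000000000000000000) := D_1 (nat_lit 177) (nat_lit 194) (nat_lit 110) (nat_lit 6) (nat_lit 7) (nat_lit 11) (nat_lit 6) (nat_lit 7) (nat_lit 10) (by decide +kernel)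
theorem L26060 : W_1 (nat_lit 2) (nat_lit 0x38003c0010000800000000000000000000000) (nat_lit 0x0) (nat_lit 0x800040000000000008000000000000000000000000000) := D_1 (nat_lit 162) (nat_lit 179) (nat_lit 111) (nat_lit 6) (nat_lit 9) (nat_lit 10) (nat_lit 6) (nat_lit 9) (nat_lit 9) (by decide +kernel)
theorem L26061 : W_1 (nat_lit 3) (nat_lit 0x38003c0010000000000000000000000000000) (nat_lit 0x0) (nat_lit 0x800040000000000008000800040000000000000000000) := T_1 (nat_lit 95) (nat_lit 78) (nat_lit 5) (nat_lit 10) (nat_lit 4) L26060 (by decide +kernel)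
theorem L26062 : W_1 (nat_lit 4) (nat_lit 0x38003c0000000000000000000000000000000) (nat_lit 0x0) (nat_lit 0x800040000000000038000800040000000000000000000) := T_1 (nat_lit 112) (nat_lit 113) (nat_lit 2) (nat_lit 7) (nat_lit 7) L26061 (by decide +kernel)
theorem L26608 : W_1 (nat_lit 2) (nat_lit 0x8000400070000c001c00080000000000000000000000000000000) (nat_lit 0x0) (nat_lit 0x80003000000000000000000000000000000000000000) := D_1 (nat_lit 157) (nat_lit 175) (nat_lit 156) (nat_lit 0) (nat_lit 8) (nat_lit 10) (nat_lit 3) (nat_lit 3) (nat_lit 9) (by decide +kernel)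
theorem L26630 : W_1 (nat_lit 3) (nat_lit 0x8001c00080000000000000000000000000000000) (nat_lit 0x0) (nat_lit 0x17002000000000000000000000000000000000000) := T_1 (nat_lit 158) (nat_lit 145) (nat_lit 1) (nat_lit 9) (nat_lit 8) L25588 (by decide +kernel)
theorem L26817 : W_1 (nat_lit 9) (nat_lit 0x10003c0002000000000000000000000000000) (nat_lit 0x0) (nat_lit 0xcc00000038000f8007c000000000000000000) := T_1 (nat_lit 143) (nat_lit 142) (nat_lit 1) (nat_lit 10) (nat_lit 7) L24832 (by decide +kernel)
theorem L26818 : W_1 (nat_lit 10) (nat_lit 0x10003c0000000000000000000000000000000) (nat_lit 0x0) (nat_lit 0xcc0000003b000f8007c000000000000000000) := T_1 (nat_lit 109) (nat_lit 108) (nat_lit 0) (nat_lit 10) (nat_lit 7) L26817 (by decide +kernel)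
theorem L27009 : W_1 (nat_lit 7) (nat_lit 0x50003c0012000100000000000000000000000) (nat_lit 0x0) (nat_lit 0x300018002c0000000c0000e0004000000000000000000) := T_1 (nat_lit 143) (nat_lit 142) (nat_lit 1) (nat_lit 10) (nat_lit 7) L24599 (by decide +kernel)
theorem L27010 : W_1 (nat_lit 8) (nat_lit 0x50003c0002000100000000000000000000000) (nat_lit 0x0) (nat_lit 0x300018002c0000003c0000e0004000000000000000000) := T_1 (nat_lit 112) (nat_lit 113) (nat_lit 2) (nat_lit 7) (nat_lit 7) L27009 (by decide +kernel)
theorem L27011 : W_1 (nat_lit 9) (nat_lit 0x50003c0002000000000000000000000000000) (nat_lit 0x0) (nat_lit 0x300018002c0000003c0001e000c000000000000000000) := T_1 (nat_lit 92) (nat_lit 75) (nat_lit 7) (nat_lit 7) (nat_lit 4) L27010 (by decide +kernel)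
theorem L27012 : W_1 (nat_lit 10) (nat_lit 0x10003c0002000000000000000000000000000) (nat_lit 0x0) (nat_lit 0x30001800ec0000003c0001e000c000000000000000000) := T_1 (nat_lit 146) (nat_lit 147) (nat_lit 3) (nat_lit 7) (nat_lit 7) L27011 (by decide +kernel)
theorem L27013 : W_1 (nat_lit 11) (nat_lit 0x10003c0000000000000000000000000000000) (nat_lit 0x0) (nat_lit 0x30001800ec0000003f0001e000c000000000000000000) := T_1 (nat_lit 109) (nat_lit 108) (nat_lit 0) (nat_lit 10) (nat_lit 7) L27012 (by decide +kernel)
theorem L27757 : W_1 (nat_lit 2) (nat_lit 0x10001c0006000000000000000000000000000) (nat_lit 0x0) (nat_lit 0x200001800000000000000000000000000) := D_1 (nat_lit 108) (nat_lit 129) (nat_lit 107) (nat_lit 0) (nat_lit 10) (nat_lit 7) (nat_lit 3) (nat_lit 5) (nat_lit 6) (by decide +kernel)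
theorem L28311 : W_1 (nat_lit 2) (nat_lit 0x10003c001e000800020000000000000000000) (nat_lit 0x0) (nat_lit 0x40003000000000000000) := D_1 (nat_lit 78) (nat_lit 60) (nat_lit 61) (nat_lit 4) (nat_lit 10) (nat_lit 7) (nat_lit 5) (nat_lit 10) (nat_lit 3) (by decide +kernel)
theorem L29099 : W_1 (nat_lit 2) (nat_lit 0x50003c0012000d00080000000000000000000) (nat_lit 0x0) (nat_lit 0x200040004000000000000000) := D_1 (nat_lit 78) (nat_lit 62) (nat_lit 93) (nat_lit 6) (nat_lit 10) (nat_lit 7) (nat_lit 2) (nat_lit 7) (nat_lit 5) (by decide +kernel)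
theorem L29100 : W_1 (nat_lit 3) (nat_lit 0x50003c0012000d00000000000000000000000) (nat_lit 0x0) (nat_lit 0x12000c0004000000000000000) := T_1 (nat_lit 79) (nat_lit 96) (nat_lit 6) (nat_lit 10) (nat_lit 8) L29099 (by decide +kernel)
theorem L29101 : W_1 (nat_lit 4) (nat_lit 0x50003c0012000c00000000000000000000000) (nat_lit 0x0) (nat_lit 0x13000c8004000000000000000) := T_1 (nat_lit 92) (nat_lit 75) (nat_lit 7) (nat_lit 7) (nat_lit 4) L29100 (by decide +kernel)
theorem L29102 : W_1 (nat_lit 5) (nat_lit 0x50003c0012000400000000000000000000000) (nat_lit 0x0) (nat_lit 0x1b000e8004000000000000000) := T_1 (nat_lit 95) (nat_lit 77) (nat_lit 4) (nat_lit 10) (nat_lit 8) L29101 (by decide +kernel)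
theorem L29437 : W_1 (nat_lit 2) (nat_lit 0x10001c0003400700060000000000000000000) (nat_lit 0x0) (nat_lit 0x190000000000000000000) := D_1 (nat_lit 79) (nat_lit 80) (nat_lit 76) (nat_lit 1) (nat_lit 12) (nat_lit 4) (nat_lit 1) (nat_lit 11) (nat_lit 4) (by decide +kernel)
theorem L29438 : W_1 (nat_lit 3) (nat_lit 0x10001c0003400700020000000000000000000) (nat_lit 0x0) (nat_lit 0x801d0000000000000000000) := T_1 (nat_lit 78) (nat_lit 91) (nat_lit 2) (nat_lit 6) (nat_lit 5) L29437 (by decide +kernel)
theorem L29679 : W_1 (nat_lit 2) (nat_lit 0x90007c0042000000008000000000000000000) (nat_lit 0x0) (nat_lit 0x2000800080000000000000000000000000000) := D_1 (nat_lit 131) (nat_lit 145) (nat_lit 115) (nat_lit 1) (nat_lit 12) (nat_lit 7) (nat_lit 2) (nat_lit 9) (nat_lit 7) (by decide +kernel)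
theorem L29680 : W_1 (nat_lit 3) (nat_lit 0x90007c0002000000008000000000000000000) (nat_lit 0x0) (nat_lit 0x20008000e0000000000000000000000000000) := T_1 (nat_lit 114) (nat_lit 113) (nat_lit 2) (nat_lit 8) (nat_lit 7) L29679 (by decide +kernel)
theorem L29681 : W_1 (nat_lit 4) (nat_lit 0x90003c0002000000008000000000000000000) (nat_lit 0x0) (nat_lit 0x12000c000e0000000000000000000000000000) := T_1 (nat_lit 130) (nat_lit 148) (nat_lit 3) (nat_lit 8) (nat_lit 7) L29680 (by decide +kernel)
theorem L29682 : W_1 (nat_lit 5) (nat_lit 0x90003c0002000000000000000000000000000) (nat_lit 0x0) (nat_lit 0x12000c000e0000100008000000000000000000) := T_1 (nat_lit 75) (nat_lit 92) (nat_lit 7) (nat_lit 7) (nat_lit 4) L29681 (by decide +kernel)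
theorem L29683 : W_1 (nat_lit 6) (nat_lit 0x10003c0002000000000000000000000000000) (nat_lit 0x0) (nat_lit 0x1e000c000e0000100008000000000000000000) := T_1 (nat_lit 147) (nat_lit 146) (nat_lit 3) (nat_lit 7) (nat_lit 7) L29682 (by decide +kernel)
theorem L30713 : W_1 (nat_lit 2) (nat_lit 0x10000c0012000f00060000000000000000000) (nat_lit 0x0) (nat_lit 0x200000000000000001000080000000000) := D_1 (nat_lit 60) (nat_lit 129) (nat_lit 43) (nat_lit 4) (nat_lit 10) (nat_lit 7) (nat_lit 7) (nat_lit 9) (nat_lit 2) (by decide +kernel)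
theorem L30714 : W_1 (nat_lit 3) (nat_lit 0x10000c0002000f00060000000000000000000) (nat_lit 0x0) (nat_lit 0x200030000000000001000080000000000) := T_1 (nat_lit 112) (nat_lit 113) (nat_lit 3) (nat_lit 7) (nat_lit 5) L30713 (by decide +kernel)
theorem L30715 : W_1 (nat_lit 4) (nat_lit 0x10000c0002000f00040000000000000000000) (nat_lit 0x0) (nat_lit 0x200030000080020001000080000000000) := T_1 (nat_lit 77) (nat_lit 91) (nat_lit 2) (nat_lit 6) (nat_lit 5) L30714 (by decide +kernel)
theorem L30716 : W_1 (nat_lit 5) (nat_lit 0x10000c0002000f00000000000000000000000) (nat_lit 0x0) (nat_lit 0x2000300000800e0001000080000000000) := T_1 (nat_lit 78) (nat_lit 79) (nat_lit 2) (nat_lit 7) (nat_lit 5) L30715 (by decide +kernel)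
theorem L30717 : W_1 (nat_lit 6) (nat_lit 0x10000c0002000700000000000000000000000) (nat_lit 0x0) (nat_lit 0x2000310008800e0001000080000000000) := T_1 (nat_lit 95) (nat_lit 108) (nat_lit 1) (nat_lit 10) (nat_lit 5) L30716 (by decide +kernel)
theorem L30718 : W_1 (nat_lit 7) (nat_lit 0x10000c0002000600000000000000000000000) (nat_lit 0x0) (nat_lit 0x2000310009800e8001000080000000000) := T_1 (nat_lit 92) (nat_lit 75) (nat_lit 7) (nat_lit 7) (nat_lit 4) L30717 (by decide +kernel)
theorem L30719 : W_1 (nat_lit 2) (nat_lit 0x10000c0022001f00060000000000000000000) (nat_lit 0x0) (nat_lit 0x6000010000000000000000000) := D_1 (nat_lit 97) (nat_lit 98) (nat_lit 76) (nat_lit 0) (nat_lit 13) (nat_lit 5) (nat_lit 0) (nat_lit 12) (nat_lit 5) (by decide +kernel)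
theorem L30720 : W_1 (nat_lit 3) (nat_lit 0x10000c0022000f00060000000000000000000) (nat_lit 0x0) (nat_lit 0x40007000010000000000000000000) := T_1 (nat_lit 96) (nat_lit 114) (nat_lit 3) (nat_lit 8) (nat_lit 5) L30719 (by decide +kernel)
theorem L30721 : W_1 (nat_lit 4) (nat_lit 0x10000c0002000f00060000000000000000000) (nat_lit 0x0) (nat_lit 0x70007000010000000000000000000) := T_1 (nat_lit 113) (nat_lit 112) (nat_lit 3) (nat_lit 7) (nat_lit 5) L30720 (by decide +kernel)
theorem L30722 : W_1 (nat_lit 5) (nat_lit 0x10000c0002000f00040000000000000000000) (nat_lit 0x0) (nat_lit 0x70007080030000000000000000000) := T_1 (nat_lit 77) (nat_lit 91) (nat_lit 2) (nat_lit 6) (nat_lit 5) L30721 (by decide +kernel)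
theorem L30723 : W_1 (nat_lit 6) (nat_lit 0x10000c0002000f00000000000000000000000) (nat_lit 0x0) (nat_lit 0x700070800f0000000000000000000) := T_1 (nat_lit 78) (nat_lit 79) (nat_lit 2) (nat_lit 7) (nat_lit 5) L30722 (by decide +kernel)
theorem L30724 : W_1 (nat_lit 7) (nat_lit 0x10000c0002000700000000000000000000000) (nat_lit 0x0) (nat_lit 0x710078800f0000000000000000000) := T_1 (nat_lit 95) (nat_lit 108) (nat_lit 1) (nat_lit 10) (nat_lit 5) L30723 (by decide +kernel)
theorem L30725 : W_1 (nat_lit 8) (nat_lit 0x10000c0002000600000000000000000000000) (nat_lit 0x0) (nat_lit 0x710079800f8000000000000000000) := T_1 (nat_lit 92) (nat_lit 75) (nat_lit 7) (nat_lit 7) (nat_lit 4) L30724 (by decide +kernel)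
theorem L32017 : W_1 (nat_lit 2) (nat_lit 0x16000f0000800000000000000000000000000) (nat_lit 0x0) (nat_lit 0x100008000000000000000040000000000000000000000) := D_1 (nat_lit 159) (nat_lit 176) (nat_lit 90) (nat_lit 4) (nat_lit 6) (nat_lit 10) (nat_lit 7) (nat_lit 5) (nat_lit 5) (by decide +kernel)
theorem L32292 : W_1 (nat_lit 2) (nat_lit 0x18003c000a0000000000000000000000000000000) (nat_lit 0x0) (nat_lit 0x4000200000000000000001000000000000000000000000000) := D_1 (nat_lit 177) (nat_lit 194) (nat_lit 108) (nat_lit 6) (nat_lit 7) (nat_lit 11) (nat_lit 7) (nat_lit 6) (nat_lit 6) (by decide +kernel)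
theorem L32293 : W_1 (nat_lit 3) (nat_lit 0x8003c000a0000000000000000000000000000000) (nat_lit 0x0) (nat_lit 0x4000200010004000000001000000000000000000000000000) := T_1 (nat_lit 160) (nat_lit 146) (nat_lit 1) (nat_lit 10) (nat_lit 8) L32292 (by decide +kernel)
theorem L32294 : W_1 (nat_lit 4) (nat_lit 0x3c000a0000000000000000000000000000000) (nat_lit 0x0) (nat_lit 0x400020001c004000000001000000000000000000000000000) := T_1 (nat_lit 159) (nat_lit 158) (nat_lit 1) (nat_lit 9) (nat_lit 8) L32293 (by decide +kernel)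
theorem L32631 : W_1 (nat_lit 4) (nat_lit 0x3c000a0000000000000000000000000000000) (nat_lit 0x0) (nat_lit 0x10000c004000040002000100000000000000000000000) := T_1 (nat_lit 126) (nat_lit 146) (nat_lit 0) (nat_lit 10) (nat_lit 8) L21926 (by decide +kernel)
theorem L35708 : W_1 (nat_lit 2) (nat_lit 0x1001f80080000000000000000000000000000000) (nat_lit 0x0) (nat_lit 0xe000000000000000000000000000000) := D_1 (nat_lit 122) (nat_lit 121) (nat_lit 123) (nat_lit 0) (nat_lit 6) (nat_lit 8) (nat_lit 0) (nat_lit 7) (nat_lit 8) (by decide +kernel)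
theorem L35709 : W_1 (nat_lit 3) (nat_lit 0x1001f00080000000000000000000000000000000) (nat_lit 0x0) (nat_lit 0x80008000e000000000000000000000000000000) := T_1 (nat_lit 139) (nat_lit 155) (nat_lit 1) (nat_lit 6) (nat_lit 8) L35708 (by decide +kernel)
theorem L35710 : W_1 (nat_lit 4) (nat_lit 0x1f00080000000000000000000000000000000) (nat_lit 0x0) (nat_lit 0x380008000e000000000000000000000000000000) := T_1 (nat_lit 156) (nat_lit 157) (nat_lit 1) (nat_lit 7) (nat_lit 8) L35709 (by decide +kernel)
theorem L35740 : W_1 (nat_lit 5) (nat_lit 0x3c00080000000000000000000000000000000) (nat_lit 0x0) (nat_lit 0x400020001c004000030001000000000000000000000000000) := T_1 (nat_lit 125) (nat_lit 124) (nat_lit 0) (nat_lit 9) (nat_lit 8) L32294 (by decide +kernel)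
theorem L35776 : W_1 (nat_lit 2) (nat_lit 0x4000300008001c00080000000000000000000000000000000) (nat_lit 0x0) (nat_lit 0x1000080002000000000000000000000000000000000000000000000000) := D_1 (nat_lit 211) (nat_lit 228) (nat_lit 193) (nat_lit 4) (nat_lit 7) (nat_lit 13) (nat_lit 7) (nat_lit 6) (nat_lit 8) (by decide +kernel)
theorem L38489 : W_1 (nat_lit 2) (nat_lit 0x600020001000080004000000000000000000000000000) (nat_lit 0x0) (nat_lit 0x100008000400000000000000000000000) := D_1 (nat_lit 111) (nat_lit 128) (nat_lit 94) (nat_lit 6) (nat_lit 8) (nat_lit 10) (nat_lit 6) (nat_lit 8) (nat_lit 9) (by decide +kernel)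
theorem L38490 : W_1 (nat_lit 3) (nat_lit 0x600020001000080000000000000000000000000000000) (nat_lit 0x0) (nat_lit 0x1000000010000c000400000000000000000000000) := T_1 (nat_lit 110) (nat_lit 160) (nat_lit 5) (nat_lit 8) (nat_lit 6) L38489 (by decide +kernel)
theorem L38491 : W_1 (nat_lit 4) (nat_lit 0x400020001000080000000000000000000000000000000) (nat_lit 0x0) (nat_lit 0x400020001000000010000c000400000000000000000000000) := T_1 (nat_lit 177) (nat_lit 194) (nat_lit 5) (nat_lit 8) (nat_lit 7) L38490 (by decide +kernel)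
theorem L38492 : W_1 (nat_lit 2) (nat_lit 0x40002000100008000c000000000000000000000000000) (nat_lit 0x0) (nat_lit 0x10000800040000000000000000000000000000000000000000) := D_1 (nat_lit 179) (nat_lit 196) (nat_lit 162) (nat_lit 7) (nat_lit 8) (nat_lit 7) (nat_lit 7) (nat_lit 8) (nat_lit 6) (by decide +kernel)
theorem L38493 : W_1 (nat_lit 3) (nat_lit 0x400020001000080008000000000000000000000000000) (nat_lit 0x0) (nat_lit 0x10000800040000000000004000400000000000000000000000) := T_1 (nat_lit 110) (nat_lit 94) (nat_lit 6) (nat_lit 8) (nat_lit 9) L38492 (by decide +kernel)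
theorem L38494 : W_1 (nat_lit 4) (nat_lit 0x400020001000080000000000000000000000000000000) (nat_lit 0x0) (nat_lit 0x1000080004000000010000c000400000000000000000000000) := T_1 (nat_lit 111) (nat_lit 128) (nat_lit 6) (nat_lit 8) (nat_lit 10) L38493 (by decide +kernel)
theorem L38497 : W_1 (nat_lit 2) (nat_lit 0xc00020001000080004000000000000000000000000000) (nat_lit 0x0) (nat_lit 0x40002000100000000000000000000000) := D_1 (nat_lit 109) (nat_lit 92) (nat_lit 126) (nat_lit 4) (nat_lit 8) (nat_lit 9) (nat_lit 4) (nat_lit 8) (nat_lit 10) (by decide +kernel)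
theorem L38498 : W_1 (nat_lit 3) (nat_lit 0xc00020001000080000000000000000000000000000000) (nat_lit 0x0) (nat_lit 0x40000000040006000100000000000000000000000) := T_1 (nat_lit 110) (nat_lit 162) (nat_lit 7) (nat_lit 8) (nat_lit 6) L38497 (by decide +kernel)
theorem L38499 : W_1 (nat_lit 4) (nat_lit 0x400020001000080000000000000000000000000000000) (nat_lit 0x0) (nat_lit 0x10000800040000000040006000100000000000000000000000) := T_1 (nat_lit 179) (nat_lit 196) (nat_lit 7) (nat_lit 8) (nat_lit 7) L38498 (by decide +kernel)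
theorem L38514 : W_1 (nat_lit 2) (nat_lit 0x14000400020001000080000000000000000000000000000000) (nat_lit 0x0) (nat_lit 0x280008000000000000000000000000000000000000000000000000) := D_1 (nat_lit 195) (nat_lit 213) (nat_lit 211) (nat_lit 7) (nat_lit 8) (nat_lit 8) (nat_lit 5) (nat_lit 8) (nat_lit 8) (by decide +kernel)
theorem L38515 : W_1 (nat_lit 3) (nat_lit 0x10000400020001000080000000000000000000000000000000) (nat_lit 0x0) (nat_lit 0x28000c000200000000000000000000000000000000000000000000) := T_1 (nat_lit 194) (nat_lit 177) (nat_lit 5) (nat_lit 8) (nat_lit 7) L38514 (by decide +kernel)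
theorem L38516 : W_1 (nat_lit 4) (nat_lit 0x400020001000080000000000000000000000000000000) (nat_lit 0x0) (nat_lit 0x28001c000a00000000000000000000000000000000000000000000) := T_1 (nat_lit 196) (nat_lit 179) (nat_lit 7) (nat_lit 8) (nat_lit 7) L38515 (by decide +kernel)
theorem L38559 : W_1 (nat_lit 2) (nat_lit 0x400038003000080000000000000000000000000000000) (nat_lit 0x0) (nat_lit 0x4000c000000000000000000000000000000000000) := D_1 (nat_lit 146) (nat_lit 147) (nat_lit 162) (nat_lit 1) (nat_lit 11) (nat_lit 8) (nat_lit 2) (nat_lit 6) (nat_lit 9) (by decide +kernel)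
theorem L38560 : W_1 (nat_lit 3) (nat_lit 0x400030003000080000000000000000000000000000000) (nat_lit 0x0) (nat_lit 0x4c00c000000000000000000000000000000000000) := T_1 (nat_lit 159) (nat_lit 158) (nat_lit 2) (nat_lit 5) (nat_lit 9) L38559 (by decide +kernel)
theorem L38595 : W_1 (nat_lit 2) (nat_lit 0x1000f00028003000080002000000000000000000000000000) (nat_lit 0x0) (nat_lit 0x800080040000000000000000000000000000000000000000) := D_1 (nat_lit 175) (nat_lit 191) (nat_lit 162) (nat_lit 1) (nat_lit 8) (nat_lit 10) (nat_lit 2) (nat_lit 5) (nat_lit 10) (by decide +kernel)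
theorem L38596 : W_1 (nat_lit 3) (nat_lit 0xf00028003000080002000000000000000000000000000) (nat_lit 0x0) (nat_lit 0x3800080040000000000000000000000000000000000000000) := T_1 (nat_lit 192) (nat_lit 193) (nat_lit 1) (nat_lit 9) (nat_lit 10) L38595 (by decide +kernel)
theorem L38597 : W_1 (nat_lit 4) (nat_lit 0xe00028003000080002000000000000000000000000000) (nat_lit 0x0) (nat_lit 0x3800180044000000000000000000000000000000000000000) := T_1 (nat_lit 176) (nat_lit 158) (nat_lit 0) (nat_lit 9) (nat_lit 10) L38596 (by decide +kernel)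
theorem L38598 : W_1 (nat_lit 5) (nat_lit 0x600028003000080002000000000000000000000000000) (nat_lit 0x0) (nat_lit 0x13800980044000000000000000000000000000000000000000) := T_1 (nat_lit 179) (nat_lit 196) (nat_lit 7) (nat_lit 8) (nat_lit 7) L38597 (by decide +kernel)
theorem L38599 : W_1 (nat_lit 6) (nat_lit 0x600028003000080000000000000000000000000000000) (nat_lit 0x0) (nat_lit 0x13800980044000000040002000000000000000000000000000) := T_1 (nat_lit 109) (nat_lit 126) (nat_lit 4) (nat_lit 8) (nat_lit 10) L38598 (by decide +kernel)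
theorem L38600 : W_1 (nat_lit 7) (nat_lit 0x400028003000080000000000000000000000000000000) (nat_lit 0x0) (nat_lit 0x17800b80044000000040002000000000000000000000000000) := T_1 (nat_lit 177) (nat_lit 194) (nat_lit 5) (nat_lit 8) (nat_lit 7) L38599 (by decide +kernel)
theorem L38601 : W_1 (nat_lit 2) (nat_lit 0xc0002c003000080000000000000000000000000000000) (nat_lit 0x0) (nat_lit 0x4000300000000000000000000000000000000000000000000) := D_1 (nat_lit 177) (nat_lit 194) (nat_lit 176) (nat_lit 5) (nat_lit 8) (nat_lit 7) (nat_lit 0) (nat_lit 9) (nat_lit 10) (by decide +kernel)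
theorem L38602 : W_1 (nat_lit 3) (nat_lit 0xc00028003000080000000000000000000000000000000) (nat_lit 0x0) (nat_lit 0x4000300014000000000000000000000000000000000000000) := T_1 (nat_lit 158) (nat_lit 160) (nat_lit 3) (nat_lit 5) (nat_lit 9) L38601 (by decide +kernel)
theorem L38603 : W_1 (nat_lit 4) (nat_lit 0x400028003000080000000000000000000000000000000) (nat_lit 0x0) (nat_lit 0x14000b00014000000000000000000000000000000000000000) := T_1 (nat_lit 179) (nat_lit 196) (nat_lit 7) (nat_lit 8) (nat_lit 7) L38602 (by decide +kernel)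
theorem L38604 : W_1 (nat_lit 2) (nat_lit 0xe00038003000080000000000000000000000000000000) (nat_lit 0x0) (nat_lit 0x4000c000000000000000000000000000000000000) := D_1 (nat_lit 146) (nat_lit 162) (nat_lit 147) (nat_lit 2) (nat_lit 6) (nat_lit 9) (nat_lit 1) (nat_lit 11) (nat_lit 8) (by decide +kernel)
theorem L38605 : W_1 (nat_lit 3) (nat_lit 0xe00028003000080000000000000000000000000000000) (nat_lit 0x0) (nat_lit 0x100005000c000000000000000000000000000000000000) := T_1 (nat_lit 160) (nat_lit 180) (nat_lit 0) (nat_lit 10) (nat_lit 10) L38604 (by decide +kernel)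
theorem L38606 : W_1 (nat_lit 4) (nat_lit 0x600028003000080000000000000000000000000000000) (nat_lit 0x0) (nat_lit 0x1000180005000c000000000000000000000000000000000000) := T_1 (nat_lit 179) (nat_lit 196) (nat_lit 7) (nat_lit 8) (nat_lit 7) L38605 (by decide +kernel)
theorem L38607 : W_1 (nat_lit 5) (nat_lit 0x400028003000080000000000000000000000000000000) (nat_lit 0x0) (nat_lit 0x14001a0005000c000000000000000000000000000000000000) := T_1 (nat_lit 177) (nat_lit 194) (nat_lit 5) (nat_lit 8) (nat_lit 7) L38606 (by decide +kernel)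
theorem L38608 : W_1 (nat_lit 2) (nat_lit 0x400038003000080002000000000000000000000000000) (nat_lit 0x0) (nat_lit 0x4000c000000000000000000000000000000000000) := D_1 (nat_lit 146) (nat_lit 147) (nat_lit 162) (nat_lit 1) (nat_lit 11) (nat_lit 8) (nat_lit 2) (nat_lit 6) (nat_lit 9) (by decide +kernel)
theorem L38609 : W_1 (nat_lit 3) (nat_lit 0x400028003000080002000000000000000000000000000) (nat_lit 0x0) (nat_lit 0x5400c000000000000000000000000000000000000) := T_1 (nat_lit 160) (nat_lit 158) (nat_lit 2) (nat_lit 5) (nat_lit 9) L38608 (by decide +kernel)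
theorem L38610 : W_1 (nat_lit 4) (nat_lit 0x400028003000080000000000000000000000000000000) (nat_lit 0x0) (nat_lit 0x5400c000040002000000000000000000000000000) := T_1 (nat_lit 109) (nat_lit 126) (nat_lit 4) (nat_lit 8) (nat_lit 10) L38609 (by decide +kernel)
theorem L38611 : W_1 (nat_lit 8) (nat_lit 0x400020003000080000000000000000000000000000000) (nat_lit 0x0) (nat_lit 0x17801b8005c00c000040002000000000000000000000000000) := Q_1 (nat_lit 159) (C_1 L38600 (C_1 L38603 (C_1 L38607 (C_1 L38610 N_1)))) (by decide +kernel)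
theorem L38612 : W_1 (nat_lit 2) (nat_lit 0xc00038003000080000000000000000000000000000000) (nat_lit 0x0) (nat_lit 0x3200000000000000000000000000000000000000000000) := D_1 (nat_lit 180) (nat_lit 181) (nat_lit 177) (nat_lit 0) (nat_lit 11) (nat_lit 10) (nat_lit 0) (nat_lit 10) (nat_lit 10) (by decide +kernel)
theorem L38613 : W_1 (nat_lit 3) (nat_lit 0xc00030003000080000000000000000000000000000000) (nat_lit 0x0) (nat_lit 0x320000c000000000000000000000000000000000000000) := T_1 (nat_lit 159) (nat_lit 158) (nat_lit 3) (nat_lit 5) (nat_lit 9) L38612 (by decide +kernel)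
theorem L38614 : W_1 (nat_lit 4) (nat_lit 0x400030003000080000000000000000000000000000000) (nat_lit 0x0) (nat_lit 0x10003a0000c000000000000000000000000000000000000000) := T_1 (nat_lit 179) (nat_lit 196) (nat_lit 7) (nat_lit 8) (nat_lit 7) L38613 (by decide +kernel)
theorem L38615 : W_1 (nat_lit 2) (nat_lit 0x400030007000080000000000000000000000000000000) (nat_lit 0x0) (nat_lit 0x48000800000000000000000000000000000000000) := D_1 (nat_lit 159) (nat_lit 143) (nat_lit 162) (nat_lit 1) (nat_lit 10) (nat_lit 8) (nat_lit 2) (nat_lit 6) (nat_lit 9) (by decide +kernel)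
theorem L38616 : W_1 (nat_lit 3) (nat_lit 0x400030003000080000000000000000000000000000000) (nat_lit 0x0) (nat_lit 0x4800c800000000000000000000000000000000000) := T_1 (nat_lit 146) (nat_lit 147) (nat_lit 1) (nat_lit 11) (nat_lit 8) L38615 (by decide +kernel)
theorem L38617 : W_1 (nat_lit 2) (nat_lit 0x1000f00028003000080000000000000000000000000000000) (nat_lit 0x0) (nat_lit 0x800080040000000000000000000000000000000000000000) := D_1 (nat_lit 175) (nat_lit 191) (nat_lit 162) (nat_lit 1) (nat_lit 8) (nat_lit 10) (nat_lit 2) (nat_lit 5) (nat_lit 10) (by decide +kernel)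
theorem L38618 : W_1 (nat_lit 3) (nat_lit 0xf00028003000080000000000000000000000000000000) (nat_lit 0x0) (nat_lit 0x3800080040000000000000000000000000000000000000000) := T_1 (nat_lit 192) (nat_lit 193) (nat_lit 1) (nat_lit 9) (nat_lit 10) L38617 (by decide +kernel)
theorem L38619 : W_1 (nat_lit 4) (nat_lit 0xe00028003000080000000000000000000000000000000) (nat_lit 0x0) (nat_lit 0x3800180044000000000000000000000000000000000000000) := T_1 (nat_lit 176) (nat_lit 158) (nat_lit 0) (nat_lit 9) (nat_lit 10) L38618 (by decide +kernel)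
theorem L38620 : W_1 (nat_lit 5) (nat_lit 0xc00028003000080000000000000000000000000000000) (nat_lit 0x0) (nat_lit 0x7800380044000000000000000000000000000000000000000) := T_1 (nat_lit 177) (nat_lit 194) (nat_lit 5) (nat_lit 8) (nat_lit 7) L38619 (by decide +kernel)
theorem L38621 : W_1 (nat_lit 6) (nat_lit 0x400028003000080000000000000000000000000000000) (nat_lit 0x0) (nat_lit 0x17800b80044000000000000000000000000000000000000000) := T_1 (nat_lit 179) (nat_lit 196) (nat_lit 7) (nat_lit 8) (nat_lit 7) L38620 (by decide +kernel)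
theorem L38622 : W_1 (nat_lit 3) (nat_lit 0x400028003000080000000000000000000000000000000) (nat_lit 0x0) (nat_lit 0x5400c000000000000000000000000000000000000) := T_1 (nat_lit 160) (nat_lit 158) (nat_lit 2) (nat_lit 5) (nat_lit 9) L38559 (by decide +kernel)
theorem L38623 : W_1 (nat_lit 7) (nat_lit 0x400020003000080000000000000000000000000000000) (nat_lit 0x0) (nat_lit 0x17801b8005c00c000000000000000000000000000000000000) := Q_1 (nat_lit 159) (C_1 L38621 (C_1 L38607 (C_1 L38603 (C_1 L38622 N_1)))) (by decide +kernel)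
theorem L38624 : W_1 (nat_lit 2) (nat_lit 0x20001f000300038000e0000000000000000000000000000000) (nat_lit 0x0) (nat_lit 0xc0040000000000000000000000000000000000000000) := D_1 (nat_lit 175) (nat_lit 162) (nat_lit 174) (nat_lit 2) (nat_lit 5) (nat_lit 10) (nat_lit 2) (nat_lit 4) (nat_lit 10) (by decide +kernel)
theorem L38625 : W_1 (nat_lit 3) (nat_lit 0x20001e000300038000e0000000000000000000000000000000) (nat_lit 0x0) (nat_lit 0x20001c0040000000000000000000000000000000000000000) := T_1 (nat_lit 176) (nat_lit 193) (nat_lit 5) (nat_lit 7) (nat_lit 7) L38624 (by decide +kernel)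
theorem L38626 : W_1 (nat_lit 4) (nat_lit 0x20001e000300030000e0000000000000000000000000000000) (nat_lit 0x0) (nat_lit 0x20001c0040000800000001000000000000000000000000000) := T_1 (nat_lit 143) (nat_lit 108) (nat_lit 4) (nat_lit 7) (nat_lit 10) L38625 (by decide +kernel)
theorem L38627 : W_1 (nat_lit 5) (nat_lit 0x1e000300030000e0000000000000000000000000000000) (nat_lit 0x0) (nat_lit 0x620001c0040000800000001000000000000000000000000000) := T_1 (nat_lit 197) (nat_lit 198) (nat_lit 3) (nat_lit 7) (nat_lit 10) L38626 (by decide +kernel)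
theorem L38628 : W_1 (nat_lit 6) (nat_lit 0x1e000300030000c0000000000000000000000000000000) (nat_lit 0x0) (nat_lit 0x620001c0040000800030001000000000000000000000000000) := T_1 (nat_lit 125) (nat_lit 124) (nat_lit 3) (nat_lit 5) (nat_lit 7) L38627 (by decide +kernel)
theorem L38629 : W_1 (nat_lit 7) (nat_lit 0xe000300030000c0000000000000000000000000000000) (nat_lit 0x0) (nat_lit 0x620031c0040000800030001000000000000000000000000000) := T_1 (nat_lit 180) (nat_lit 181) (nat_lit 0) (nat_lit 11) (nat_lit 10) L38628 (by decide +kernel)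
theorem L38630 : W_1 (nat_lit 8) (nat_lit 0x6000300030000c0000000000000000000000000000000) (nat_lit 0x0) (nat_lit 0x720039c0040000800030001000000000000000000000000000) := T_1 (nat_lit 179) (nat_lit 196) (nat_lit 7) (nat_lit 8) (nat_lit 7) L38629 (by decide +kernel)
theorem L38631 : W_1 (nat_lit 9) (nat_lit 0x600030003000080000000000000000000000000000000) (nat_lit 0x0) (nat_lit 0x720039c0040000800070003000000000000000000000000000) := T_1 (nat_lit 126) (nat_lit 109) (nat_lit 4) (nat_lit 8) (nat_lit 10) L38630 (by decide +kernel)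
theorem L38632 : W_1 (nat_lit 10) (nat_lit 0x400030003000080000000000000000000000000000000) (nat_lit 0x0) (nat_lit 0x76003bc0040000800070003000000000000000000000000000) := T_1 (nat_lit 177) (nat_lit 194) (nat_lit 5) (nat_lit 8) (nat_lit 7) L38631 (by decide +kernel)
theorem L38633 : W_1 (nat_lit 2) (nat_lit 0xc00038003000080002000000000000000000000000000) (nat_lit 0x0) (nat_lit 0x3000040000000000000000000000000000000000000000) := D_1 (nat_lit 180) (nat_lit 162) (nat_lit 181) (nat_lit 3) (nat_lit 6) (nat_lit 9) (nat_lit 0) (nat_lit 11) (nat_lit 10) (by decide +kernel)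
theorem L38634 : W_1 (nat_lit 3) (nat_lit 0x400038003000080002000000000000000000000000000) (nat_lit 0x0) (nat_lit 0x10003800040000000000000000000000000000000000000000) := T_1 (nat_lit 179) (nat_lit 196) (nat_lit 7) (nat_lit 8) (nat_lit 7) L38633 (by decide +kernel)
theorem L38635 : W_1 (nat_lit 4) (nat_lit 0x400030003000080002000000000000000000000000000) (nat_lit 0x0) (nat_lit 0x1000380004c000000000000000000000000000000000000000) := T_1 (nat_lit 159) (nat_lit 158) (nat_lit 2) (nat_lit 5) (nat_lit 9) L38634 (by decide +kernel)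
theorem L38636 : W_1 (nat_lit 5) (nat_lit 0x400030003000080000000000000000000000000000000) (nat_lit 0x0) (nat_lit 0x1000380004c000000040002000000000000000000000000000) := T_1 (nat_lit 109) (nat_lit 126) (nat_lit 4) (nat_lit 8) (nat_lit 10) L38635 (by decide +kernel)
theorem L38637 : W_1 (nat_lit 2) (nat_lit 0x7000340038000e0000000000000000000000000000000) (nat_lit 0x0) (nat_lit 0x80042000000000000000000000000000000000000000) := D_1 (nat_lit 175) (nat_lit 162) (nat_lit 157) (nat_lit 2) (nat_lit 5) (nat_lit 10) (nat_lit 0) (nat_lit 8) (nat_lit 10) (by decide +kernel)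
theorem L38638 : W_1 (nat_lit 3) (nat_lit 0x6000340038000e0000000000000000000000000000000) (nat_lit 0x0) (nat_lit 0x2000180042000000000000000000000000000000000000000) := T_1 (nat_lit 176) (nat_lit 193) (nat_lit 5) (nat_lit 7) (nat_lit 7) L38637 (by decide +kernel)
theorem L38639 : W_1 (nat_lit 4) (nat_lit 0x6000340030000e0000000000000000000000000000000) (nat_lit 0x0) (nat_lit 0x2000180042000800000001000000000000000000000000000) := T_1 (nat_lit 143) (nat_lit 108) (nat_lit 4) (nat_lit 7) (nat_lit 10) L38638 (by decide +kernel)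
theorem L38640 : W_1 (nat_lit 5) (nat_lit 0x6000340030000c0000000000000000000000000000000) (nat_lit 0x0) (nat_lit 0x2000180042000800030001000000000000000000000000000) := T_1 (nat_lit 125) (nat_lit 124) (nat_lit 3) (nat_lit 5) (nat_lit 7) L38639 (by decide +kernel)
theorem L38641 : W_1 (nat_lit 6) (nat_lit 0x6000300030000c0000000000000000000000000000000) (nat_lit 0x0) (nat_lit 0x200018004e000800030001000000000000000000000000000) := T_1 (nat_lit 158) (nat_lit 159) (nat_lit 2) (nat_lit 5) (nat_lit 9) L38640 (by decide +kernel)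
theorem L38642 : W_1 (nat_lit 7) (nat_lit 0x600030003000080000000000000000000000000000000) (nat_lit 0x0) (nat_lit 0x200018004e000800070003000000000000000000000000000) := T_1 (nat_lit 126) (nat_lit 109) (nat_lit 4) (nat_lit 8) (nat_lit 10) L38641 (by decide +kernel)
theorem L38643 : W_1 (nat_lit 8) (nat_lit 0x400030003000080000000000000000000000000000000) (nat_lit 0x0) (nat_lit 0x600038004e000800070003000000000000000000000000000) := T_1 (nat_lit 177) (nat_lit 194) (nat_lit 5) (nat_lit 8) (nat_lit 7) L38642 (by decide +kernel)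
theorem L38644 : W_1 (nat_lit 11) (nat_lit 0x400020003000080000000000000000000000000000000) (nat_lit 0x0) (nat_lit 0x76003bc005e000800070003000000000000000000000000000) := Q_1 (nat_lit 160) (C_1 L38632 (C_1 L38614 (C_1 L38636 (C_1 L38643 N_1)))) (by decide +kernel)
theorem L38645 : W_1 (nat_lit 2) (nat_lit 0xc000200070000c0000000000000000000000000000000) (nat_lit 0x0) (nat_lit 0x800030000000000000000000000000000000) := D_1 (nat_lit 125) (nat_lit 143) (nat_lit 124) (nat_lit 0) (nat_lit 10) (nat_lit 8) (nat_lit 3) (nat_lit 5) (nat_lit 7) (by decide +kernel)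
theorem L38646 : W_1 (nat_lit 3) (nat_lit 0xc000200030000c0000000000000000000000000000000) (nat_lit 0x0) (nat_lit 0xc800030000000000000000000000000000000) := T_1 (nat_lit 146) (nat_lit 147) (nat_lit 0) (nat_lit 11) (nat_lit 8) L38645 (by decide +kernel)
theorem L38647 : W_1 (nat_lit 4) (nat_lit 0x4000200030000c0000000000000000000000000000000) (nat_lit 0x0) (nat_lit 0x1000080000000c800030000000000000000000000000000000) := T_1 (nat_lit 179) (nat_lit 196) (nat_lit 7) (nat_lit 8) (nat_lit 7) L38646 (by decide +kernel)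
theorem L38648 : W_1 (nat_lit 5) (nat_lit 0x400020003000080000000000000000000000000000000) (nat_lit 0x0) (nat_lit 0x1000080000000c800070002000000000000000000000000000) := T_1 (nat_lit 126) (nat_lit 109) (nat_lit 4) (nat_lit 8) (nat_lit 10) L38647 (by decide +kernel)
theorem L38649 : W_1 (nat_lit 12) (nat_lit 0x400020001000080000000000000000000000000000000) (nat_lit 0x0) (nat_lit 0x77803bc005e00e800070003000000000000000000000000000) := Q_1 (nat_lit 145) (C_1 L3741 (C_1 L38611 (C_1 L38623 (C_1 L38644 (C_1 L38648 N_1))))) (by decide +kernel)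
theorem L38650 : W_1 (nat_lit 2) (nat_lit 0x180008000c000200010000c0000000000000000000000000000000) (nat_lit 0x0) (nat_lit 0x2000000000000000040002000000000000000000000000000000000000) := D_1 (nat_lit 162) (nat_lit 145) (nat_lit 229) (nat_lit 6) (nat_lit 8) (nat_lit 12) (nat_lit 6) (nat_lit 8) (nat_lit 13) (by decide +kernel)
theorem L38651 : W_1 (nat_lit 3) (nat_lit 0x80008000c000200010000c0000000000000000000000000000000) (nat_lit 0x0) (nat_lit 0x3000100000000000040002000000000000000000000000000000000000) := T_1 (nat_lit 212) (nat_lit 228) (nat_lit 5) (nat_lit 8) (nat_lit 9) L38650 (by decide +kernel)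
theorem L38652 : W_1 (nat_lit 4) (nat_lit 0x8000c000200010000c0000000000000000000000000000000) (nat_lit 0x0) (nat_lit 0x3000180004000000040002000000000000000000000000000000000000) := T_1 (nat_lit 211) (nat_lit 194) (nat_lit 5) (nat_lit 8) (nat_lit 8) L38651 (by decide +kernel)
theorem L38653 : W_1 (nat_lit 5) (nat_lit 0xc000200010000c0000000000000000000000000000000) (nat_lit 0x0) (nat_lit 0x300018000c000000040002800000000000000000000000000000000000) := T_1 (nat_lit 195) (nat_lit 143) (nat_lit 4) (nat_lit 8) (nat_lit 11) L38652 (by decide +kernel)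
theorem L38654 : W_1 (nat_lit 6) (nat_lit 0xc00020001000080000000000000000000000000000000) (nat_lit 0x0) (nat_lit 0x300018000c000000040002800040002000000000000000000000000000) := T_1 (nat_lit 126) (nat_lit 109) (nat_lit 4) (nat_lit 8) (nat_lit 10) L38653 (by decide +kernel)
theorem L38655 : W_1 (nat_lit 7) (nat_lit 0x400020001000080000000000000000000000000000000) (nat_lit 0x0) (nat_lit 0x300018001c000800040002800040002000000000000000000000000000) := T_1 (nat_lit 179) (nat_lit 196) (nat_lit 7) (nat_lit 8) (nat_lit 7) L38654 (by decide +kernel)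
theorem L38656 : W_1 (nat_lit 2) (nat_lit 0x10003000080006000200070000d0000000000000000000000000000000) (nat_lit 0x0) (nat_lit 0x20002000000000000000010000000000000000000000000000000000000000) := D_1 (nat_lit 229) (nat_lit 160) (nat_lit 245) (nat_lit 4) (nat_lit 8) (nat_lit 13) (nat_lit 5) (nat_lit 8) (nat_lit 10) (by decide +kernel)
theorem L38657 : W_1 (nat_lit 3) (nat_lit 0x3000080006000200070000d0000000000000000000000000000000) (nat_lit 0x0) (nat_lit 0x20003000080000000000010000000000000000000000000000000000000000) := T_1 (nat_lit 228) (nat_lit 211) (nat_lit 5) (nat_lit 8) (nat_lit 9) L38656 (by decide +kernel)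
theorem L38658 : W_1 (nat_lit 4) (nat_lit 0x3000080006000200030000d0000000000000000000000000000000) (nat_lit 0x0) (nat_lit 0x2000300008000000000001000c000000000000000000000000000000000000) := T_1 (nat_lit 146) (nat_lit 147) (nat_lit 0) (nat_lit 11) (nat_lit 8) L38657 (by decide +kernel)
theorem L38659 : W_1 (nat_lit 5) (nat_lit 0x3000080006000200030000c0000000000000000000000000000000) (nat_lit 0x0) (nat_lit 0x2000300008000000000001000c000030000000000000000000000000000000) := T_1 (nat_lit 124) (nat_lit 125) (nat_lit 3) (nat_lit 5) (nat_lit 7) L38658 (by decide +kernel)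
theorem L38660 : W_1 (nat_lit 6) (nat_lit 0x3000080006000200010000c0000000000000000000000000000000) (nat_lit 0x0) (nat_lit 0x2000300008000000000005000e000030000000000000000000000000000000) := T_1 (nat_lit 145) (nat_lit 162) (nat_lit 6) (nat_lit 8) (nat_lit 12) L38659 (by decide +kernel)
theorem L38661 : W_1 (nat_lit 7) (nat_lit 0x2000080006000200010000c0000000000000000000000000000000) (nat_lit 0x0) (nat_lit 0x2000700018000000000005000e000030000000000000000000000000000000) := T_1 (nat_lit 212) (nat_lit 230) (nat_lit 7) (nat_lit 8) (nat_lit 9) L38660 (by decide +kernel)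
theorem L38662 : W_1 (nat_lit 8) (nat_lit 0x80006000200010000c0000000000000000000000000000000) (nat_lit 0x0) (nat_lit 0x2000700038001000000005000e000030000000000000000000000000000000) := T_1 (nat_lit 213) (nat_lit 196) (nat_lit 7) (nat_lit 8) (nat_lit 8) L38661 (by decide +kernel)
theorem L38663 : W_1 (nat_lit 9) (nat_lit 0x6000200010000c0000000000000000000000000000000) (nat_lit 0x0) (nat_lit 0x2000700038001800000005000e800030000000000000000000000000000000) := T_1 (nat_lit 195) (nat_lit 143) (nat_lit 4) (nat_lit 8) (nat_lit 11) L38662 (by decide +kernel)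
theorem L38664 : W_1 (nat_lit 10) (nat_lit 0x4000200010000c0000000000000000000000000000000) (nat_lit 0x0) (nat_lit 0x2000700038001c00020005000e800030000000000000000000000000000000) := T_1 (nat_lit 177) (nat_lit 194) (nat_lit 5) (nat_lit 8) (nat_lit 7) L38663 (by decide +kernel)
theorem L38665 : W_1 (nat_lit 11) (nat_lit 0x400020001000080000000000000000000000000000000) (nat_lit 0x0) (nat_lit 0x2000700038001c00020005000e800070002000000000000000000000000000) := T_1 (nat_lit 126) (nat_lit 109) (nat_lit 4) (nat_lit 8) (nat_lit 10) L38664 (by decide +kernel)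
theorem L38666 : W_1 (nat_lit 2) (nat_lit 0x100004000200010000c0000000000000000000000000000000) (nat_lit 0x0) (nat_lit 0x200008000000000000800000000000000000000000000000000000) := D_1 (nat_lit 195) (nat_lit 143) (nat_lit 213) (nat_lit 4) (nat_lit 8) (nat_lit 11) (nat_lit 7) (nat_lit 8) (nat_lit 8) (by decide +kernel)
theorem L38667 : W_1 (nat_lit 3) (nat_lit 0x4000200010000c0000000000000000000000000000000) (nat_lit 0x0) (nat_lit 0x200018000800000000800000000000000000000000000000000000) := T_1 (nat_lit 196) (nat_lit 179) (nat_lit 7) (nat_lit 8) (nat_lit 7) L38666 (by decide +kernel)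
theorem L38668 : W_1 (nat_lit 4) (nat_lit 0x400020001000080000000000000000000000000000000) (nat_lit 0x0) (nat_lit 0x200018000800000000800040002000000000000000000000000000) := T_1 (nat_lit 126) (nat_lit 109) (nat_lit 4) (nat_lit 8) (nat_lit 10) L38667 (by decide +kernel)
theorem L38669 : W_1 (nat_lit 2) (nat_lit 0x40004000200010000c0000000000000000000000000000000) (nat_lit 0x0) (nat_lit 0x80008000000000000800000000000000000000000000000000000) := D_1 (nat_lit 195) (nat_lit 143) (nat_lit 211) (nat_lit 4) (nat_lit 8) (nat_lit 11) (nat_lit 5) (nat_lit 8) (nat_lit 8) (by decide +kernel)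
theorem L38670 : W_1 (nat_lit 3) (nat_lit 0x4000200010000c0000000000000000000000000000000) (nat_lit 0x0) (nat_lit 0x8000c000200000000800000000000000000000000000000000000) := T_1 (nat_lit 194) (nat_lit 177) (nat_lit 5) (nat_lit 8) (nat_lit 7) L38669 (by decide +kernel)
theorem L38671 : W_1 (nat_lit 4) (nat_lit 0x400020001000080000000000000000000000000000000) (nat_lit 0x0) (nat_lit 0x8000c000200000000800040002000000000000000000000000000) := T_1 (nat_lit 126) (nat_lit 109) (nat_lit 4) (nat_lit 8) (nat_lit 10) L38670 (by decide +kernel)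
theorem L38672 : W_1 (nat_lit 13) (nat_lit 0x20001000080000000000000000000000000000000) (nat_lit 0x0) (nat_lit 0x2000700038007f803fc005e00e800070003000000000000000000000000000) := Q_1 (nat_lit 178) (C_1 L233 (C_1 L38516 (C_1 L38649 (C_1 L38655 (C_1 L38665 (C_1 L38668 (C_1 L38671 N_1))))))) (by decide +kernel)
theorem L38674 : W_1 (nat_lit 6) (nat_lit 0x20001000080000000000000000000000000000000) (nat_lit 0x0) (nat_lit 0x14000e0005800e80000000c000600020000000000000000000) := Q_1 (nat_lit 110) (C_1 L20872 (C_1 L20123 (C_1 L62 (C_1 L20113 N_1)))) (by decide +kernel)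
theorem L38680 : W_1 (nat_lit 2) (nat_lit 0xa00020001000780034000d0004000400000000000000000000000) (nat_lit 0x0) (nat_lit 0x1400040000000000000000000000000000000000000000000000000000) := D_1 (nat_lit 210) (nat_lit 226) (nat_lit 228) (nat_lit 5) (nat_lit 6) (nat_lit 9) (nat_lit 7) (nat_lit 6) (nat_lit 9) (by decide +kernel)
theorem L38681 : W_1 (nat_lit 3) (nat_lit 0x200020001000780034000d0004000400000000000000000000000) (nat_lit 0x0) (nat_lit 0x14000c0004000000000000000000000000000000000000000000000000) := T_1 (nat_lit 211) (nat_lit 194) (nat_lit 7) (nat_lit 6) (nat_lit 8) L38680 (by decide +kernel)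
theorem L38682 : W_1 (nat_lit 4) (nat_lit 0x20001000780034000d0004000400000000000000000000000) (nat_lit 0x0) (nat_lit 0x14000e0005000000000000000000000000000000000000000000000000) := T_1 (nat_lit 209) (nat_lit 192) (nat_lit 5) (nat_lit 6) (nat_lit 8) L38681 (by decide +kernel)
theorem L38683 : W_1 (nat_lit 5) (nat_lit 0x1000780034000d0004000400000000000000000000000) (nat_lit 0x0) (nat_lit 0x14000e0007000000000000800000000000000000000000000000000000) := T_1 (nat_lit 193) (nat_lit 143) (nat_lit 6) (nat_lit 6) (nat_lit 11) L38682 (by decide +kernel)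
theorem L38684 : W_1 (nat_lit 6) (nat_lit 0x1000780030000d0004000400000000000000000000000) (nat_lit 0x0) (nat_lit 0x14000e0007000000000000e00000000000000000000000000000000000) := T_1 (nat_lit 142) (nat_lit 141) (nat_lit 0) (nat_lit 9) (nat_lit 9) L38683 (by decide +kernel)
theorem L38685 : W_1 (nat_lit 7) (nat_lit 0x780030000d0004000400000000000000000000000) (nat_lit 0x0) (nat_lit 0x14000e0007000180000000e00000000000000000000000000000000000) := T_1 (nat_lit 176) (nat_lit 175) (nat_lit 1) (nat_lit 9) (nat_lit 9) L38684 (by decide +kernel)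
theorem L38686 : W_1 (nat_lit 8) (nat_lit 0x700030000d0004000400000000000000000000000) (nat_lit 0x0) (nat_lit 0x14000e000700018000c000e00000000000000000000000000000000000) := T_1 (nat_lit 159) (nat_lit 158) (nat_lit 2) (nat_lit 5) (nat_lit 9) L38685 (by decide +kernel)
theorem L38687 : W_1 (nat_lit 9) (nat_lit 0x600030000d0004000400000000000000000000000) (nat_lit 0x0) (nat_lit 0x14000e000700038001c000e00000000000000000000000000000000000) := T_1 (nat_lit 160) (nat_lit 177) (nat_lit 5) (nat_lit 8) (nat_lit 6) L38686 (by decide +kernel)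
theorem L38688 : W_1 (nat_lit 10) (nat_lit 0x600030000d0004000000000000000000000000000) (nat_lit 0x0) (nat_lit 0x14000e000700038001c000e00000008000400000000000000000000000) := T_1 (nat_lit 94) (nat_lit 111) (nat_lit 6) (nat_lit 8) (nat_lit 9) L38687 (by decide +kernel)
theorem L38689 : W_1 (nat_lit 11) (nat_lit 0x600030000c0004000000000000000000000000000) (nat_lit 0x0) (nat_lit 0x14000e000700038001c000e00030008000400000000000000000000000) := T_1 (nat_lit 124) (nat_lit 125) (nat_lit 3) (nat_lit 5) (nat_lit 7) L38688 (by decide +kernel)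
theorem L38690 : W_1 (nat_lit 12) (nat_lit 0x200030000c0004000000000000000000000000000) (nat_lit 0x0) (nat_lit 0x14000e0007000b8005c000e00030008000400000000000000000000000) := T_1 (nat_lit 162) (nat_lit 179) (nat_lit 7) (nat_lit 8) (nat_lit 6) L38689 (by decide +kernel)
theorem L38691 : W_1 (nat_lit 2) (nat_lit 0x340070000c0004000000000000000000000000000) (nat_lit 0x0) (nat_lit 0x800030000000000000000000000000000000) := D_1 (nat_lit 125) (nat_lit 143) (nat_lit 124) (nat_lit 0) (nat_lit 10) (nat_lit 8) (nat_lit 3) (nat_lit 5) (nat_lit 7) (by decide +kernel)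
theorem L38692 : W_1 (nat_lit 3) (nat_lit 0x340030000c0004000000000000000000000000000) (nat_lit 0x0) (nat_lit 0xc800030000000000000000000000000000000) := T_1 (nat_lit 146) (nat_lit 147) (nat_lit 1) (nat_lit 11) (nat_lit 8) L38691 (by decide +kernel)
theorem L38693 : W_1 (nat_lit 4) (nat_lit 0x300030000c0004000000000000000000000000000) (nat_lit 0x0) (nat_lit 0xc00c800030000000000000000000000000000000) := T_1 (nat_lit 158) (nat_lit 159) (nat_lit 2) (nat_lit 5) (nat_lit 9) L38692 (by decide +kernel)
theorem L38694 : W_1 (nat_lit 5) (nat_lit 0x200030000c0004000000000000000000000000000) (nat_lit 0x0) (nat_lit 0x20001c00c800030000000000000000000000000000000) := T_1 (nat_lit 160) (nat_lit 177) (nat_lit 5) (nat_lit 8) (nat_lit 6) L38693 (by decide +kernel)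
theorem L38695 : W_1 (nat_lit 13) (nat_lit 0x200010000c0004000000000000000000000000000) (nat_lit 0x0) (nat_lit 0x14000e0007000b8005c00ee00030008000400000000000000000000000) := Q_1 (nat_lit 145) (C_1 L20049 (C_1 L20033 (C_1 L38690 (C_1 L38694 N_1)))) (by decide +kernel)
theorem L38713 : W_1 (nat_lit 13) (nat_lit 0x200010000c0004000000000000000000000000000) (nat_lit 0x0) (nat_lit 0x14000e0007000b8005c00ee00030002000100000000000000000000000) := Q_1 (nat_lit 145) (C_1 L20049 (C_1 L38694 (C_1 L20033 (C_1 L20046 N_1)))) (by decide +kernel)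
theorem L38714 : W_1 (nat_lit 2) (nat_lit 0x780030002c001e000800000000000000000000000) (nat_lit 0x0) (nat_lit 0x180000000800000000000000000000000000000000000) := D_1 (nat_lit 176) (nat_lit 175) (nat_lit 143) (nat_lit 1) (nat_lit 9) (nat_lit 9) (nat_lit 5) (nat_lit 7) (nat_lit 6) (by decide +kernel)
theorem L38715 : W_1 (nat_lit 3) (nat_lit 0x700030002c001e000800000000000000000000000) (nat_lit 0x0) (nat_lit 0x18000c000800000000000000000000000000000000000) := T_1 (nat_lit 159) (nat_lit 158) (nat_lit 2) (nat_lit 5) (nat_lit 9) L38714 (by decide +kernel)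
theorem L38716 : W_1 (nat_lit 4) (nat_lit 0x700010002c001e000800000000000000000000000) (nat_lit 0x0) (nat_lit 0x18000c006800000000000000000000000000000000000) := T_1 (nat_lit 145) (nat_lit 146) (nat_lit 5) (nat_lit 10) (nat_lit 5) L38715 (by decide +kernel)
theorem L38717 : W_1 (nat_lit 5) (nat_lit 0x700010002c001e000000000000000000000000000) (nat_lit 0x0) (nat_lit 0x18000c006800000000001800000000000000000000000) := T_1 (nat_lit 95) (nat_lit 96) (nat_lit 2) (nat_lit 7) (nat_lit 6) L38716 (by decide +kernel)
theorem L38718 : W_1 (nat_lit 6) (nat_lit 0x700010000c001e000000000000000000000000000) (nat_lit 0x0) (nat_lit 0x18000c006800600000001800000000000000000000000) := T_1 (nat_lit 129) (nat_lit 130) (nat_lit 3) (nat_lit 7) (nat_lit 6) L38717 (by decide +kernel)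
theorem L38719 : W_1 (nat_lit 7) (nat_lit 0x300010000c001e000000000000000000000000000) (nat_lit 0x0) (nat_lit 0x98004c006800600000001800000000000000000000000) := T_1 (nat_lit 162) (nat_lit 179) (nat_lit 7) (nat_lit 8) (nat_lit 6) L38718 (by decide +kernel)
theorem L38720 : W_1 (nat_lit 8) (nat_lit 0x300010000c000e000000000000000000000000000) (nat_lit 0x0) (nat_lit 0x98004c006800600030001800000000000000000000000) := T_1 (nat_lit 112) (nat_lit 113) (nat_lit 1) (nat_lit 11) (nat_lit 6) L38719 (by decide +kernel)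
theorem L38721 : W_1 (nat_lit 9) (nat_lit 0x300010000c000c000000000000000000000000000) (nat_lit 0x0) (nat_lit 0x98004c006800600032001900000000000000000000000) := T_1 (nat_lit 109) (nat_lit 92) (nat_lit 4) (nat_lit 8) (nat_lit 9) L38720 (by decide +kernel)
theorem L38722 : W_1 (nat_lit 10) (nat_lit 0x300010000c0004000000000000000000000000000) (nat_lit 0x0) (nat_lit 0x98004c00680060003a001d00000000000000000000000) := T_1 (nat_lit 111) (nat_lit 94) (nat_lit 6) (nat_lit 8) (nat_lit 9) L38721 (by decide +kernel)
theorem L38723 : W_1 (nat_lit 11) (nat_lit 0x200010000c0004000000000000000000000000000) (nat_lit 0x0) (nat_lit 0xb8005c00680060003a001d00000000000000000000000) := T_1 (nat_lit 160) (nat_lit 177) (nat_lit 5) (nat_lit 8) (nat_lit 6) L38722 (by decide +kernel)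
theorem L38724 : W_1 (nat_lit 14) (nat_lit 0x20001000080004000000000000000000000000000) (nat_lit 0x0) (nat_lit 0x14000e0007000b8005c00ee0067003a001d00000000000000000000000) := Q_1 (nat_lit 126) (C_1 L1720 (C_1 L38695 (C_1 L38713 (C_1 L38723 N_1)))) (by decide +kernel)
theorem L38727 : W_1 (nat_lit 2) (nat_lit 0xe000280034001e0001000000000000000000000000000) (nat_lit 0x0) (nat_lit 0x180004000000000000000000000000000000000000000) := D_1 (nat_lit 158) (nat_lit 175) (nat_lit 176) (nat_lit 5) (nat_lit 6) (nat_lit 6) (nat_lit 0) (nat_lit 9) (nat_lit 10) (by decide +kernel)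
theorem L38728 : W_1 (nat_lit 3) (nat_lit 0xe000200034001e0001000000000000000000000000000) (nat_lit 0x0) (nat_lit 0x18001c000000000000000000000000000000000000000) := T_1 (nat_lit 159) (nat_lit 160) (nat_lit 7) (nat_lit 6) (nat_lit 6) L38727 (by decide +kernel)
theorem L38729 : W_1 (nat_lit 4) (nat_lit 0xe000200034001e0000000000000000000000000000000) (nat_lit 0x0) (nat_lit 0x18001c000000000001800000000000000000000000000) := T_1 (nat_lit 108) (nat_lit 107) (nat_lit 0) (nat_lit 9) (nat_lit 7) L38728 (by decide +kernel)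
theorem L38730 : W_1 (nat_lit 5) (nat_lit 0xe000200030001e0000000000000000000000000000000) (nat_lit 0x0) (nat_lit 0x18001c000600000001800000000000000000000000000) := T_1 (nat_lit 142) (nat_lit 141) (nat_lit 1) (nat_lit 9) (nat_lit 7) L38729 (by decide +kernel)
theorem L38731 : W_1 (nat_lit 6) (nat_lit 0xe000200030001c0000000000000000000000000000000) (nat_lit 0x0) (nat_lit 0x18001c000600030001800000000000000000000000000) := T_1 (nat_lit 125) (nat_lit 124) (nat_lit 3) (nat_lit 5) (nat_lit 7) L38730 (by decide +kernel)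
theorem L38732 : W_1 (nat_lit 7) (nat_lit 0xe00020003000180000000000000000000000000000000) (nat_lit 0x0) (nat_lit 0x18001c000600070003800000000000000000000000000) := T_1 (nat_lit 126) (nat_lit 109) (nat_lit 4) (nat_lit 8) (nat_lit 10) L38731 (by decide +kernel)
theorem L38733 : W_1 (nat_lit 8) (nat_lit 0xc00020003000180000000000000000000000000000000) (nat_lit 0x0) (nat_lit 0x400038001c000600070003800000000000000000000000000) := T_1 (nat_lit 177) (nat_lit 194) (nat_lit 5) (nat_lit 8) (nat_lit 7) L38732 (by decide +kernel)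
theorem L38734 : W_1 (nat_lit 9) (nat_lit 0xc00020003000080000000000000000000000000000000) (nat_lit 0x0) (nat_lit 0x400038001c00060017000b800000000000000000000000000) := T_1 (nat_lit 128) (nat_lit 111) (nat_lit 6) (nat_lit 8) (nat_lit 10) L38733 (by decide +kernel)
theorem L38735 : W_1 (nat_lit 10) (nat_lit 0x400020003000080000000000000000000000000000000) (nat_lit 0x0) (nat_lit 0x14000b8001c00060017000b800000000000000000000000000) := T_1 (nat_lit 179) (nat_lit 196) (nat_lit 7) (nat_lit 8) (nat_lit 7) L38734 (by decide +kernel)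
theorem L38736 : W_1 (nat_lit 2) (nat_lit 0x4000200030001c0000000000000000000000000000000) (nat_lit 0x0) (nat_lit 0xc000020000000000000000000000000000000) := D_1 (nat_lit 146) (nat_lit 147) (nat_lit 125) (nat_lit 0) (nat_lit 11) (nat_lit 8) (nat_lit 3) (nat_lit 6) (nat_lit 7) (by decide +kernel)
theorem L38737 : W_1 (nat_lit 3) (nat_lit 0x4000200030000c0000000000000000000000000000000) (nat_lit 0x0) (nat_lit 0xc000120008000000000000000000000000000) := T_1 (nat_lit 128) (nat_lit 111) (nat_lit 6) (nat_lit 8) (nat_lit 10) L38736 (by decide +kernel)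
theorem L38738 : W_1 (nat_lit 4) (nat_lit 0x400020003000080000000000000000000000000000000) (nat_lit 0x0) (nat_lit 0xc00016000a000000000000000000000000000) := T_1 (nat_lit 126) (nat_lit 109) (nat_lit 4) (nat_lit 8) (nat_lit 10) L38737 (by decide +kernel)
theorem L38739 : W_1 (nat_lit 11) (nat_lit 0x400020001000080000000000000000000000000000000) (nat_lit 0x0) (nat_lit 0x17801b8005c00e60017000b800000000000000000000000000) := Q_1 (nat_lit 145) (C_1 L3727 (C_1 L38623 (C_1 L38735 (C_1 L38738 N_1)))) (by decide +kernel)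
theorem L38740 : W_1 (nat_lit 2) (nat_lit 0x2000180008000c00020001000180002000000000000000000000000000) (nat_lit 0x0) (nat_lit 0x80004000200000000000000000000000000000000000000000000000000000) := D_1 (nat_lit 230) (nat_lit 213) (nat_lit 247) (nat_lit 7) (nat_lit 8) (nat_lit 9) (nat_lit 7) (nat_lit 8) (nat_lit 10) (by decide +kernel)
theorem L38741 : W_1 (nat_lit 3) (nat_lit 0x180008000c00020001000180002000000000000000000000000000) (nat_lit 0x0) (nat_lit 0x80006000200000000000040000000000000000000000000000000000000000) := T_1 (nat_lit 229) (nat_lit 162) (nat_lit 6) (nat_lit 8) (nat_lit 13) L38740 (by decide +kernel)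
theorem L38742 : W_1 (nat_lit 4) (nat_lit 0x80008000c00020001000180002000000000000000000000000000) (nat_lit 0x0) (nat_lit 0x80007000300000000000040000000000000000000000000000000000000000) := T_1 (nat_lit 212) (nat_lit 228) (nat_lit 5) (nat_lit 8) (nat_lit 9) L38741 (by decide +kernel)
theorem L38743 : W_1 (nat_lit 5) (nat_lit 0x8000c00020001000180002000000000000000000000000000) (nat_lit 0x0) (nat_lit 0x80007000380004000000040000000000000000000000000000000000000000) := T_1 (nat_lit 211) (nat_lit 194) (nat_lit 5) (nat_lit 8) (nat_lit 8) L38742 (by decide +kernel)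
theorem L38744 : W_1 (nat_lit 6) (nat_lit 0xc00020001000180002000000000000000000000000000) (nat_lit 0x0) (nat_lit 0x8000700038000c000000040002000000000000000000000000000000000000) := T_1 (nat_lit 195) (nat_lit 145) (nat_lit 6) (nat_lit 8) (nat_lit 11) L38743 (by decide +kernel)
theorem L38745 : W_1 (nat_lit 7) (nat_lit 0xc00020001000080002000000000000000000000000000) (nat_lit 0x0) (nat_lit 0x8000700038000c000000040002000100008000000000000000000000000000) := T_1 (nat_lit 128) (nat_lit 111) (nat_lit 6) (nat_lit 8) (nat_lit 10) L38744 (by decide +kernel)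
theorem L38746 : W_1 (nat_lit 8) (nat_lit 0xc00020001000080000000000000000000000000000000) (nat_lit 0x0) (nat_lit 0x8000700038000c00000004000200014000a000000000000000000000000000) := T_1 (nat_lit 109) (nat_lit 126) (nat_lit 4) (nat_lit 8) (nat_lit 10) L38745 (by decide +kernel)
theorem L38747 : W_1 (nat_lit 9) (nat_lit 0x400020001000080000000000000000000000000000000) (nat_lit 0x0) (nat_lit 0x8000700038001c00080004000200014000a000000000000000000000000000) := T_1 (nat_lit 179) (nat_lit 196) (nat_lit 7) (nat_lit 8) (nat_lit 7) L38746 (by decide +kernel)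
theorem L38748 : W_1 (nat_lit 4) (nat_lit 0xc00020001000180000000000000000000000000000000) (nat_lit 0x0) (nat_lit 0x8000000000006000070002000000000000000000000000000) := T_1 (nat_lit 145) (nat_lit 195) (nat_lit 6) (nat_lit 8) (nat_lit 11) L3725 (by decide +kernel)
theorem L38749 : W_1 (nat_lit 5) (nat_lit 0x400020001000180000000000000000000000000000000) (nat_lit 0x0) (nat_lit 0x18000800000006000070002000000000000000000000000000) := T_1 (nat_lit 179) (nat_lit 196) (nat_lit 7) (nat_lit 8) (nat_lit 7) L38748 (by decide +kernel)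
theorem L38750 : W_1 (nat_lit 6) (nat_lit 0x400020001000080000000000000000000000000000000) (nat_lit 0x0) (nat_lit 0x1800080000000600017000a000000000000000000000000000) := T_1 (nat_lit 128) (nat_lit 111) (nat_lit 6) (nat_lit 8) (nat_lit 10) L38749 (by decide +kernel)
theorem L38751 : W_1 (nat_lit 12) (nat_lit 0x20001000080000000000000000000000000000000) (nat_lit 0x0) (nat_lit 0x8000700038001f801f8005c00e60017000b800000000000000000000000000) := Q_1 (nat_lit 178) (C_1 L38516 (C_1 L38739 (C_1 L38747 (C_1 L241 (C_1 L38750 N_1))))) (by decide +kernel)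
theorem L38752 : W_1 (nat_lit 5) (nat_lit 0x20001000080000000000000000000000000000000) (nat_lit 0x0) (nat_lit 0x28001c000e0005000000010000c000400000000000000000000000) := Q_1 (nat_lit 178) (C_1 L38516 (C_1 L38494 (C_1 L38491 N_1))) (by decide +kernel)
theorem L39457 : W_1 (nat_lit 2) (nat_lit 0x6000200094003e0020c00000000000000000000000000) (nat_lit 0x0) (nat_lit 0x10000400040000000000000000000000000000) := D_1 (nat_lit 130) (nat_lit 148) (nat_lit 114) (nat_lit 3) (nat_lit 8) (nat_lit 7) (nat_lit 2) (nat_lit 8) (nat_lit 7) (by decide +kernel)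
theorem L39458 : W_1 (nat_lit 3) (nat_lit 0x6000200094003e0000c00000000000000000000000000) (nat_lit 0x0) (nat_lit 0x10000400070000000000000000000000000000) := T_1 (nat_lit 113) (nat_lit 112) (nat_lit 2) (nat_lit 7) (nat_lit 7) L39457 (by decide +kernel)
theorem L39459 : W_1 (nat_lit 4) (nat_lit 0x6000200014003e0000c00000000000000000000000000) (nat_lit 0x0) (nat_lit 0x1c000400070000000000000000000000000000) := T_1 (nat_lit 147) (nat_lit 146) (nat_lit 3) (nat_lit 7) (nat_lit 7) L39458 (by decide +kernel)
theorem L39460 : W_1 (nat_lit 5) (nat_lit 0x6000200014001e0000c00000000000000000000000000) (nat_lit 0x0) (nat_lit 0x1c800600070000000000000000000000000000) := T_1 (nat_lit 129) (nat_lit 143) (nat_lit 1) (nat_lit 10) (nat_lit 7) L39459 (by decide +kernel)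
theorem L39461 : W_1 (nat_lit 6) (nat_lit 0x6000200010001e0000c00000000000000000000000000) (nat_lit 0x0) (nat_lit 0x1ce00600070000000000000000000000000000) := T_1 (nat_lit 142) (nat_lit 141) (nat_lit 1) (nat_lit 9) (nat_lit 7) L39460 (by decide +kernel)
theorem L39462 : W_1 (nat_lit 7) (nat_lit 0x6000200010001e0000800000000000000000000000000) (nat_lit 0x0) (nat_lit 0x1ce00610070400000000000000000000000000) := T_1 (nat_lit 106) (nat_lit 124) (nat_lit 0) (nat_lit 8) (nat_lit 7) L39461 (by decide +kernel)
theorem L39486 : W_1 (nat_lit 2) (nat_lit 0x800780020001000080008000000000000000000000000000) (nat_lit 0x0) (nat_lit 0x400040010000000000000000000000000000000000000000) := D_1 (nat_lit 174) (nat_lit 190) (nat_lit 160) (nat_lit 1) (nat_lit 7) (nat_lit 10) (nat_lit 2) (nat_lit 4) (nat_lit 10) (by decide +kernel)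
theorem L39487 : W_1 (nat_lit 3) (nat_lit 0x780020001000080008000000000000000000000000000) (nat_lit 0x0) (nat_lit 0x1c00040010000000000000000000000000000000000000000) := T_1 (nat_lit 191) (nat_lit 192) (nat_lit 1) (nat_lit 8) (nat_lit 10) L39486 (by decide +kernel)
theorem L39488 : W_1 (nat_lit 4) (nat_lit 0x780020001000080000000000000000000000000000000) (nat_lit 0x0) (nat_lit 0x1c00040010000000100008000000000000000000000000000) := T_1 (nat_lit 111) (nat_lit 128) (nat_lit 6) (nat_lit 8) (nat_lit 10) L39487 (by decide +kernel)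
theorem L39489 : W_1 (nat_lit 5) (nat_lit 0x700020001000080000000000000000000000000000000) (nat_lit 0x0) (nat_lit 0x1c000c0050000000100008000000000000000000000000000) := T_1 (nat_lit 175) (nat_lit 162) (nat_lit 2) (nat_lit 5) (nat_lit 10) L39488 (by decide +kernel)
theorem L39511 : W_1 (nat_lit 5) (nat_lit 0x20001000080000000000000000000000000000000) (nat_lit 0x0) (nat_lit 0x28001c000e00040000800040006000100000000000000000000000) := Q_1 (nat_lit 178) (C_1 L38671 (C_1 L38516 (C_1 L38499 N_1))) (by decide +kernel)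
theorem L39727 : W_1 (nat_lit 2) (nat_lit 0x60001000780004000000000000000000000000000) (nat_lit 0x0) (nat_lit 0x800008000400000000000000000000000) := D_1 (nat_lit 111) (nat_lit 131) (nat_lit 94) (nat_lit 0) (nat_lit 12) (nat_lit 7) (nat_lit 6) (nat_lit 8) (nat_lit 9) (by decide +kernel)
theorem L39728 : W_1 (nat_lit 3) (nat_lit 0x60001000380004000000000000000000000000000) (nat_lit 0x0) (nat_lit 0x800c00008000400000000000000000000000) := T_1 (nat_lit 130) (nat_lit 143) (nat_lit 1) (nat_lit 11) (nat_lit 7) L39727 (by decide +kernel)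
theorem L39729 : W_1 (nat_lit 4) (nat_lit 0x20001000380004000000000000000000000000000) (nat_lit 0x0) (nat_lit 0x800040000800c00008000400000000000000000000000) := T_1 (nat_lit 162) (nat_lit 179) (nat_lit 7) (nat_lit 8) (nat_lit 6) L39728 (by decide +kernel)
theorem L39742 : W_1 (nat_lit 2) (nat_lit 0x700090007c0004000000000000000000000000000) (nat_lit 0x0) (nat_lit 0x70000000000000000000000000000) := D_1 (nat_lit 113) (nat_lit 112) (nat_lit 114) (nat_lit 2) (nat_lit 7) (nat_lit 7) (nat_lit 2) (nat_lit 8) (nat_lit 7) (by decide +kernel)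
theorem L39743 : W_1 (nat_lit 3) (nat_lit 0x70009000780004000000000000000000000000000) (nat_lit 0x0) (nat_lit 0x4000040070000000000000000000000000000) := T_1 (nat_lit 126) (nat_lit 146) (nat_lit 3) (nat_lit 7) (nat_lit 7) L39742 (by decide +kernel)
theorem L39744 : W_1 (nat_lit 4) (nat_lit 0x70001000780004000000000000000000000000000) (nat_lit 0x0) (nat_lit 0x1c000040070000000000000000000000000000) := T_1 (nat_lit 147) (nat_lit 148) (nat_lit 3) (nat_lit 8) (nat_lit 7) L39743 (by decide +kernel)
theorem L39745 : W_1 (nat_lit 5) (nat_lit 0x30001000780004000000000000000000000000000) (nat_lit 0x0) (nat_lit 0x80004001c000040070000000000000000000000000000) := T_1 (nat_lit 162) (nat_lit 179) (nat_lit 7) (nat_lit 8) (nat_lit 6) L39744 (by decide +kernel)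
theorem L39746 : W_1 (nat_lit 6) (nat_lit 0x30001000380004000000000000000000000000000) (nat_lit 0x0) (nat_lit 0x80004001c800440070000000000000000000000000000) := T_1 (nat_lit 130) (nat_lit 143) (nat_lit 1) (nat_lit 11) (nat_lit 7) L39745 (by decide +kernel)
theorem L39747 : W_1 (nat_lit 7) (nat_lit 0x20001000380004000000000000000000000000000) (nat_lit 0x0) (nat_lit 0xa0005001c800440070000000000000000000000000000) := T_1 (nat_lit 160) (nat_lit 177) (nat_lit 5) (nat_lit 8) (nat_lit 6) L39746 (by decide +kernel)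
theorem L40459 : W_1 (nat_lit 2) (nat_lit 0x60001000088007c00000000000000000000000000) (nat_lit 0x0) (nat_lit 0x70000000000000000000000) := D_1 (nat_lit 89) (nat_lit 88) (nat_lit 90) (nat_lit 0) (nat_lit 7) (nat_lit 6) (nat_lit 0) (nat_lit 8) (nat_lit 6) (by decide +kernel)
theorem L40460 : W_1 (nat_lit 3) (nat_lit 0x60001000088007800000000000000000000000000) (nat_lit 0x0) (nat_lit 0x4000400070000000000000000000000) := T_1 (nat_lit 106) (nat_lit 122) (nat_lit 1) (nat_lit 7) (nat_lit 6) L40459 (by decide +kernel)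
theorem L40461 : W_1 (nat_lit 4) (nat_lit 0x60001000080007800000000000000000000000000) (nat_lit 0x0) (nat_lit 0x1c000400070000000000000000000000) := T_1 (nat_lit 123) (nat_lit 124) (nat_lit 1) (nat_lit 8) (nat_lit 6) L40460 (by decide +kernel)
theorem L40462 : W_1 (nat_lit 5) (nat_lit 0x60001000080007000000000000000000000000000) (nat_lit 0x0) (nat_lit 0x11c000c00070000000000000000000000) := T_1 (nat_lit 107) (nat_lit 128) (nat_lit 3) (nat_lit 5) (nat_lit 6) L40461 (by decide +kernel)
theorem L40463 : W_1 (nat_lit 6) (nat_lit 0x20001000080007000000000000000000000000000) (nat_lit 0x0) (nat_lit 0x80004000000011c000c00070000000000000000000000) := T_1 (nat_lit 162) (nat_lit 179) (nat_lit 7) (nat_lit 8) (nat_lit 6) L40462 (by decide +kernel)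
theorem L40509 : W_1 (nat_lit 2) (nat_lit 0x600018000c0004000600000000000000000000000) (nat_lit 0x0) (nat_lit 0x8000400000000000000002000000000000000000000000000) := D_1 (nat_lit 178) (nat_lit 195) (nat_lit 109) (nat_lit 4) (nat_lit 8) (nat_lit 11) (nat_lit 4) (nat_lit 8) (nat_lit 10) (by decide +kernel)
theorem L40510 : W_1 (nat_lit 3) (nat_lit 0x60001800080004000600000000000000000000000) (nat_lit 0x0) (nat_lit 0x8000400000000000040002000000010000000000000000000) := T_1 (nat_lit 126) (nat_lit 76) (nat_lit 5) (nat_lit 8) (nat_lit 4) L40509 (by decide +kernel)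
theorem L40511 : W_1 (nat_lit 4) (nat_lit 0x60001000080004000600000000000000000000000) (nat_lit 0x0) (nat_lit 0x8000400010000800040002000000010000000000000000000) := T_1 (nat_lit 143) (nat_lit 160) (nat_lit 5) (nat_lit 8) (nat_lit 5) L40510 (by decide +kernel)
theorem L40512 : W_1 (nat_lit 5) (nat_lit 0x20001000080004000600000000000000000000000) (nat_lit 0x0) (nat_lit 0x8000c00050000800040002000000010000000000000000000) := T_1 (nat_lit 162) (nat_lit 179) (nat_lit 7) (nat_lit 8) (nat_lit 6) L40511 (by decide +kernel)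
theorem L40513 : W_1 (nat_lit 6) (nat_lit 0x20001000080004000400000000000000000000000) (nat_lit 0x0) (nat_lit 0x8000c00050000800040002000200030000000000000000000) := T_1 (nat_lit 93) (nat_lit 77) (nat_lit 6) (nat_lit 8) (nat_lit 8) L40512 (by decide +kernel)
theorem L40514 : W_1 (nat_lit 7) (nat_lit 0x20001000080004000000000000000000000000000) (nat_lit 0x0) (nat_lit 0x8000c0005000080004000a000600030000000000000000000) := T_1 (nat_lit 94) (nat_lit 111) (nat_lit 6) (nat_lit 8) (nat_lit 9) L40513 (by decide +kernel)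
theorem L40796 : W_1 (nat_lit 2) (nat_lit 0x600020001c00180000000000000000000000000000000) (nat_lit 0x0) (nat_lit 0x2000600000000000000000000000000000000) := D_1 (nat_lit 129) (nat_lit 130) (nat_lit 145) (nat_lit 1) (nat_lit 11) (nat_lit 7) (nat_lit 2) (nat_lit 6) (nat_lit 8) (by decide +kernel)
theorem L41090 : W_1 (nat_lit 2) (nat_lit 0x1000f80020001000080000000000000000000000000000000) (nat_lit 0x0) (nat_lit 0xe000000000000000000000000000000000000000) := D_1 (nat_lit 158) (nat_lit 157) (nat_lit 159) (nat_lit 0) (nat_lit 8) (nat_lit 10) (nat_lit 0) (nat_lit 9) (nat_lit 10) (by decide +kernel)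
theorem L41091 : W_1 (nat_lit 3) (nat_lit 0x1000f00020001000080000000000000000000000000000000) (nat_lit 0x0) (nat_lit 0x80008000e000000000000000000000000000000000000000) := T_1 (nat_lit 175) (nat_lit 191) (nat_lit 1) (nat_lit 8) (nat_lit 10) L41090 (by decide +kernel)
theorem L41092 : W_1 (nat_lit 4) (nat_lit 0xf00020001000080000000000000000000000000000000) (nat_lit 0x0) (nat_lit 0x380008000e000000000000000000000000000000000000000) := T_1 (nat_lit 192) (nat_lit 193) (nat_lit 1) (nat_lit 9) (nat_lit 10) L41091 (by decide +kernel)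
theorem L41093 : W_1 (nat_lit 5) (nat_lit 0x700020001000080000000000000000000000000000000) (nat_lit 0x0) (nat_lit 0x1380088000e000000000000000000000000000000000000000) := T_1 (nat_lit 179) (nat_lit 196) (nat_lit 7) (nat_lit 8) (nat_lit 7) L41092 (by decide +kernel)
theorem L41094 : W_1 (nat_lit 2) (nat_lit 0x41003f00228001000080008000000000000000000000000000) (nat_lit 0x0) (nat_lit 0x4000440000000000000000000000000000000000000000) := D_1 (nat_lit 182) (nat_lit 162) (nat_lit 166) (nat_lit 0) (nat_lit 12) (nat_lit 10) (nat_lit 2) (nat_lit 9) (nat_lit 10) (by decide +kernel)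
theorem L41095 : W_1 (nat_lit 3) (nat_lit 0x41003f00028001000080008000000000000000000000000000) (nat_lit 0x0) (nat_lit 0x4000740000000000000000000000000000000000000000) := T_1 (nat_lit 165) (nat_lit 164) (nat_lit 2) (nat_lit 8) (nat_lit 10) L41094 (by decide +kernel)
theorem L41096 : W_1 (nat_lit 4) (nat_lit 0x41001f00028001000080008000000000000000000000000000) (nat_lit 0x0) (nat_lit 0x80006000740000000000000000000000000000000000000000) := T_1 (nat_lit 181) (nat_lit 199) (nat_lit 3) (nat_lit 8) (nat_lit 10) L41095 (by decide +kernel)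
theorem L41097 : W_1 (nat_lit 5) (nat_lit 0x1001f00028001000080008000000000000000000000000000) (nat_lit 0x0) (nat_lit 0xe0006000740000000000000000000000000000000000000000) := T_1 (nat_lit 198) (nat_lit 197) (nat_lit 3) (nat_lit 7) (nat_lit 10) L41096 (by decide +kernel)
theorem L41098 : W_1 (nat_lit 6) (nat_lit 0x1000f00028001000080008000000000000000000000000000) (nat_lit 0x0) (nat_lit 0xe0007000750000000000000000000000000000000000000000) := T_1 (nat_lit 180) (nat_lit 160) (nat_lit 0) (nat_lit 10) (nat_lit 10) L41097 (by decide +kernel)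
theorem L41099 : W_1 (nat_lit 7) (nat_lit 0x1000f00020001000080008000000000000000000000000000) (nat_lit 0x0) (nat_lit 0xe000700075c000000000000000000000000000000000000000) := T_1 (nat_lit 159) (nat_lit 158) (nat_lit 0) (nat_lit 9) (nat_lit 10) L41098 (by decide +kernel)
theorem L41100 : W_1 (nat_lit 8) (nat_lit 0xf00020001000080008000000000000000000000000000) (nat_lit 0x0) (nat_lit 0xe300700075c000000000000000000000000000000000000000) := T_1 (nat_lit 192) (nat_lit 193) (nat_lit 1) (nat_lit 9) (nat_lit 10) L41099 (by decide +kernel)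
theorem L41101 : W_1 (nat_lit 9) (nat_lit 0x700020001000080008000000000000000000000000000) (nat_lit 0x0) (nat_lit 0xf300780075c000000000000000000000000000000000000000) := T_1 (nat_lit 179) (nat_lit 196) (nat_lit 7) (nat_lit 8) (nat_lit 7) L41100 (by decide +kernel)
theorem L41102 : W_1 (nat_lit 10) (nat_lit 0x700020001000080000000000000000000000000000000) (nat_lit 0x0) (nat_lit 0xf300780075c000000100008000000000000000000000000000) := T_1 (nat_lit 111) (nat_lit 128) (nat_lit 6) (nat_lit 8) (nat_lit 10) L41101 (by decide +kernel)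
theorem L41103 : W_1 (nat_lit 2) (nat_lit 0xf00024001000080000000000000000000000000000000) (nat_lit 0x0) (nat_lit 0x80042000000000000000000000000000000000000000) := D_1 (nat_lit 175) (nat_lit 157) (nat_lit 162) (nat_lit 0) (nat_lit 8) (nat_lit 10) (nat_lit 2) (nat_lit 5) (nat_lit 10) (by decide +kernel)
theorem L41104 : W_1 (nat_lit 3) (nat_lit 0xf00020001000080000000000000000000000000000000) (nat_lit 0x0) (nat_lit 0x8004e000000000000000000000000000000000000000) := T_1 (nat_lit 158) (nat_lit 159) (nat_lit 0) (nat_lit 9) (nat_lit 10) L41103 (by decide +kernel)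
theorem L41105 : W_1 (nat_lit 4) (nat_lit 0x700020001000080000000000000000000000000000000) (nat_lit 0x0) (nat_lit 0x1000088004e000000000000000000000000000000000000000) := T_1 (nat_lit 179) (nat_lit 196) (nat_lit 7) (nat_lit 8) (nat_lit 7) L41104 (by decide +kernel)
theorem L41106 : W_1 (nat_lit 11) (nat_lit 0x600020001000080000000000000000000000000000000) (nat_lit 0x0) (nat_lit 0xf3c079c075e000000100008000000000000000000000000000) := Q_1 (nat_lit 176) (C_1 L41093 (C_1 L39489 (C_1 L41102 (C_1 L41105 N_1)))) (by decide +kernel)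
theorem L41107 : W_1 (nat_lit 12) (nat_lit 0x400020001000080000000000000000000000000000000) (nat_lit 0x0) (nat_lit 0xf7c07bc075e000000100008000000000000000000000000000) := T_1 (nat_lit 177) (nat_lit 194) (nat_lit 5) (nat_lit 8) (nat_lit 7) L41106 (by decide +kernel)
theorem L41525 : W_1 (nat_lit 2) (nat_lit 0x1c00074003000380000000000000000000000000000000) (nat_lit 0x0) (nat_lit 0xc00400000000000000000000000000000000) := D_1 (nat_lit 143) (nat_lit 142) (nat_lit 130) (nat_lit 2) (nat_lit 6) (nat_lit 8) (nat_lit 1) (nat_lit 11) (nat_lit 7) (by decide +kernel)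
theorem L41526 : W_1 (nat_lit 3) (nat_lit 0x1c00074003000180000000000000000000000000000000) (nat_lit 0x0) (nat_lit 0xc00600010000000000000000000000000000) := T_1 (nat_lit 129) (nat_lit 112) (nat_lit 6) (nat_lit 9) (nat_lit 10) L41525 (by decide +kernel)
theorem L41527 : W_1 (nat_lit 4) (nat_lit 0x1c00034003000180000000000000000000000000000000) (nat_lit 0x0) (nat_lit 0x20000000040000c00600010000000000000000000000000000) := T_1 (nat_lit 162) (nat_lit 197) (nat_lit 7) (nat_lit 9) (nat_lit 7) L41526 (by decide +kernel)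
theorem L41528 : W_1 (nat_lit 5) (nat_lit 0xc00034003000180000000000000000000000000000000) (nat_lit 0x0) (nat_lit 0x20003000040000c00600010000000000000000000000000000) := T_1 (nat_lit 180) (nat_lit 181) (nat_lit 0) (nat_lit 11) (nat_lit 10) L41527 (by decide +kernel)
theorem L41529 : W_1 (nat_lit 6) (nat_lit 0x400034003000180000000000000000000000000000000) (nat_lit 0x0) (nat_lit 0x30003800040000c00600010000000000000000000000000000) := T_1 (nat_lit 179) (nat_lit 196) (nat_lit 7) (nat_lit 8) (nat_lit 7) L41528 (by decide +kernel)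
theorem L41530 : W_1 (nat_lit 7) (nat_lit 0x400034003000080000000000000000000000000000000) (nat_lit 0x0) (nat_lit 0x30003800040000c00700018000000000000000000000000000) := T_1 (nat_lit 128) (nat_lit 111) (nat_lit 6) (nat_lit 8) (nat_lit 10) L41529 (by decide +kernel)
theorem L41531 : W_1 (nat_lit 8) (nat_lit 0x400030003000080000000000000000000000000000000) (nat_lit 0x0) (nat_lit 0x3000380004c000c00700018000000000000000000000000000) := T_1 (nat_lit 158) (nat_lit 159) (nat_lit 2) (nat_lit 5) (nat_lit 9) L41530 (by decide +kernel)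
theorem L41532 : W_1 (nat_lit 2) (nat_lit 0xc00038003000080000000000000000000000000000000) (nat_lit 0x0) (nat_lit 0xc800000000000000000000000000000000000) := D_1 (nat_lit 146) (nat_lit 147) (nat_lit 143) (nat_lit 1) (nat_lit 11) (nat_lit 8) (nat_lit 1) (nat_lit 10) (nat_lit 8) (by decide +kernel)
theorem L41533 : W_1 (nat_lit 3) (nat_lit 0xc00030003000080000000000000000000000000000000) (nat_lit 0x0) (nat_lit 0xc00c800000000000000000000000000000000000) := T_1 (nat_lit 159) (nat_lit 158) (nat_lit 3) (nat_lit 5) (nat_lit 9) L41532 (by decide +kernel)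
theorem L41534 : W_1 (nat_lit 4) (nat_lit 0x400030003000080000000000000000000000000000000) (nat_lit 0x0) (nat_lit 0x1000080000c00c800000000000000000000000000000000000) := T_1 (nat_lit 179) (nat_lit 196) (nat_lit 7) (nat_lit 8) (nat_lit 7) L41533 (by decide +kernel)
theorem L41535 : W_1 (nat_lit 2) (nat_lit 0x1c00070007000380000000000000000000000000000000) (nat_lit 0x0) (nat_lit 0x800c00000000000000000000000000000000) := D_1 (nat_lit 130) (nat_lit 143) (nat_lit 131) (nat_lit 2) (nat_lit 7) (nat_lit 8) (nat_lit 1) (nat_lit 12) (nat_lit 7) (by decide +kernel)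
theorem L41536 : W_1 (nat_lit 3) (nat_lit 0x1c00070007000180000000000000000000000000000000) (nat_lit 0x0) (nat_lit 0x800e00010000000000000000000000000000) := T_1 (nat_lit 129) (nat_lit 112) (nat_lit 6) (nat_lit 9) (nat_lit 10) L41535 (by decide +kernel)
theorem L41537 : W_1 (nat_lit 4) (nat_lit 0x1c00030007000180000000000000000000000000000000) (nat_lit 0x0) (nat_lit 0x20000000040000800e00010000000000000000000000000000) := T_1 (nat_lit 162) (nat_lit 197) (nat_lit 7) (nat_lit 9) (nat_lit 7) L41536 (by decide +kernel)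
theorem L41538 : W_1 (nat_lit 5) (nat_lit 0x1c00030003000180000000000000000000000000000000) (nat_lit 0x0) (nat_lit 0x2000000004000c800e00010000000000000000000000000000) := T_1 (nat_lit 146) (nat_lit 147) (nat_lit 1) (nat_lit 11) (nat_lit 8) L41537 (by decide +kernel)
theorem L41539 : W_1 (nat_lit 6) (nat_lit 0xc00030003000180000000000000000000000000000000) (nat_lit 0x0) (nat_lit 0x2000300004000c800e00010000000000000000000000000000) := T_1 (nat_lit 180) (nat_lit 181) (nat_lit 0) (nat_lit 11) (nat_lit 10) L41538 (by decide +kernel)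
theorem L41540 : W_1 (nat_lit 7) (nat_lit 0x400030003000180000000000000000000000000000000) (nat_lit 0x0) (nat_lit 0x3000380004000c800e00010000000000000000000000000000) := T_1 (nat_lit 179) (nat_lit 196) (nat_lit 7) (nat_lit 8) (nat_lit 7) L41539 (by decide +kernel)
theorem L41541 : W_1 (nat_lit 8) (nat_lit 0x400030003000080000000000000000000000000000000) (nat_lit 0x0) (nat_lit 0x3000380004000c800f00018000000000000000000000000000) := T_1 (nat_lit 128) (nat_lit 111) (nat_lit 6) (nat_lit 8) (nat_lit 10) L41540 (by decide +kernel)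
theorem L41542 : W_1 (nat_lit 9) (nat_lit 0x400020003000080000000000000000000000000000000) (nat_lit 0x0) (nat_lit 0x3000380005c00cc00f00018000000000000000000000000000) := Q_1 (nat_lit 160) (C_1 L38616 (C_1 L38560 (C_1 L41531 (C_1 L41534 (C_1 L41541 N_1))))) (by decide +kernel)
theorem L41543 : W_1 (nat_lit 2) (nat_lit 0xc000200034003e0000800000000000000000000000000) (nat_lit 0x0) (nat_lit 0x40000000000030000000000000000000000000000) := D_1 (nat_lit 112) (nat_lit 113) (nat_lit 162) (nat_lit 2) (nat_lit 7) (nat_lit 7) (nat_lit 6) (nat_lit 9) (nat_lit 10) (by decide +kernel)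
theorem L41544 : W_1 (nat_lit 3) (nat_lit 0xc000200034001e0000800000000000000000000000000) (nat_lit 0x0) (nat_lit 0x40000800200030000000000000000000000000000) := T_1 (nat_lit 129) (nat_lit 143) (nat_lit 2) (nat_lit 6) (nat_lit 8) L41543 (by decide +kernel)
theorem L41545 : W_1 (nat_lit 4) (nat_lit 0xc000200034001e0000000000000000000000000000000) (nat_lit 0x0) (nat_lit 0x40000800200031800000000000000000000000000) := T_1 (nat_lit 107) (nat_lit 108) (nat_lit 0) (nat_lit 9) (nat_lit 7) L41544 (by decide +kernel)
theorem L41546 : W_1 (nat_lit 5) (nat_lit 0xc000200030001e0000000000000000000000000000000) (nat_lit 0x0) (nat_lit 0x40000e00200031800000000000000000000000000) := T_1 (nat_lit 142) (nat_lit 141) (nat_lit 1) (nat_lit 9) (nat_lit 7) L41545 (by decide +kernel)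
theorem L41547 : W_1 (nat_lit 6) (nat_lit 0xc000200030001c0000000000000000000000000000000) (nat_lit 0x0) (nat_lit 0x40000e00230031800000000000000000000000000) := T_1 (nat_lit 125) (nat_lit 124) (nat_lit 3) (nat_lit 5) (nat_lit 7) L41546 (by decide +kernel)
theorem L41548 : W_1 (nat_lit 7) (nat_lit 0x4000200030001c0000000000000000000000000000000) (nat_lit 0x0) (nat_lit 0x10000800040000e00230031800000000000000000000000000) := T_1 (nat_lit 179) (nat_lit 196) (nat_lit 7) (nat_lit 8) (nat_lit 7) L41547 (by decide +kernel)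
theorem L41549 : W_1 (nat_lit 8) (nat_lit 0x400020003000180000000000000000000000000000000) (nat_lit 0x0) (nat_lit 0x10000800040000e00270033800000000000000000000000000) := T_1 (nat_lit 126) (nat_lit 109) (nat_lit 4) (nat_lit 8) (nat_lit 10) L41548 (by decide +kernel)
theorem L41550 : W_1 (nat_lit 9) (nat_lit 0x400020003000080000000000000000000000000000000) (nat_lit 0x0) (nat_lit 0x10000800040000e0037003b800000000000000000000000000) := T_1 (nat_lit 128) (nat_lit 111) (nat_lit 6) (nat_lit 8) (nat_lit 10) L41549 (by decide +kernel)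
theorem L41551 : W_1 (nat_lit 10) (nat_lit 0x400020001000080000000000000000000000000000000) (nat_lit 0x0) (nat_lit 0x3000380005c00ee00f7003b800000000000000000000000000) := Q_1 (nat_lit 145) (C_1 L38648 (C_1 L38738 (C_1 L41542 (C_1 L41550 N_1)))) (by decide +kernel)
theorem L41872 : W_1 (nat_lit 5) (nat_lit 0x6000200010000e0000000000000000000000000000000) (nat_lit 0x0) (nat_lit 0x2380018000e00000000000000000000000000) := T_1 (nat_lit 124) (nat_lit 145) (nat_lit 3) (nat_lit 5) (nat_lit 7) L3908 (by decide +kernel)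
theorem L41905 : W_1 (nat_lit 2) (nat_lit 0x4000200010000f8008000000000000000000000000000) (nat_lit 0x0) (nat_lit 0x380000000000000000000000000000000000) := D_1 (nat_lit 140) (nat_lit 139) (nat_lit 141) (nat_lit 1) (nat_lit 7) (nat_lit 7) (nat_lit 1) (nat_lit 8) (nat_lit 7) (by decide +kernel)
theorem L41906 : W_1 (nat_lit 3) (nat_lit 0x4000200010000f0008000000000000000000000000000) (nat_lit 0x0) (nat_lit 0xb80008000000000000000000000000000000) := T_1 (nat_lit 123) (nat_lit 143) (nat_lit 3) (nat_lit 4) (nat_lit 7) L41905 (by decide +kernel)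
theorem L41907 : W_1 (nat_lit 4) (nat_lit 0x4000200010000e0008000000000000000000000000000) (nat_lit 0x0) (nat_lit 0x2b80018000000000000000000000000000000) := T_1 (nat_lit 124) (nat_lit 145) (nat_lit 3) (nat_lit 5) (nat_lit 7) L41906 (by decide +kernel)
theorem L41908 : W_1 (nat_lit 5) (nat_lit 0x4000200010000e0000000000000000000000000000000) (nat_lit 0x0) (nat_lit 0x2b80118008000000000000000000000000000) := T_1 (nat_lit 111) (nat_lit 128) (nat_lit 6) (nat_lit 8) (nat_lit 10) L41907 (by decide +kernel)
theorem L41909 : W_1 (nat_lit 6) (nat_lit 0x4000200010000e0000000000000000000000000000000) (nat_lit 0x0) (nat_lit 0x4000200000002380018000e00000000000000000000000000) := T_1 (nat_lit 177) (nat_lit 194) (nat_lit 5) (nat_lit 8) (nat_lit 7) L41872 (by decide +kernel)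
theorem L41910 : W_1 (nat_lit 8) (nat_lit 0x6000200010001e0000000000000000000000000000000) (nat_lit 0x0) (nat_lit 0x1ce00610071c00000000000000000000000000) := T_1 (nat_lit 107) (nat_lit 108) (nat_lit 0) (nat_lit 9) (nat_lit 7) L39462 (by decide +kernel)
theorem L41911 : W_1 (nat_lit 9) (nat_lit 0x4000200010001e0000000000000000000000000000000) (nat_lit 0x0) (nat_lit 0x400020000001ce00610071c00000000000000000000000000) := T_1 (nat_lit 177) (nat_lit 194) (nat_lit 5) (nat_lit 8) (nat_lit 7) L41910 (by decide +kernel)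
theorem L41912 : W_1 (nat_lit 10) (nat_lit 0x4000200010000e0000000000000000000000000000000) (nat_lit 0x0) (nat_lit 0x400020000001ce00710079c00000000000000000000000000) := T_1 (nat_lit 128) (nat_lit 111) (nat_lit 6) (nat_lit 8) (nat_lit 10) L41911 (by decide +kernel)
theorem L41913 : W_1 (nat_lit 2) (nat_lit 0x6000200010000f8000000000000000000000000000000) (nat_lit 0x0) (nat_lit 0xe00000000000000000000000000) := D_1 (nat_lit 106) (nat_lit 107) (nat_lit 105) (nat_lit 0) (nat_lit 8) (nat_lit 7) (nat_lit 0) (nat_lit 7) (nat_lit 7) (by decide +kernel)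
theorem L41914 : W_1 (nat_lit 3) (nat_lit 0x6000200010000f0000000000000000000000000000000) (nat_lit 0x0) (nat_lit 0x800008000e00000000000000000000000000) := T_1 (nat_lit 123) (nat_lit 143) (nat_lit 3) (nat_lit 4) (nat_lit 7) L41913 (by decide +kernel)
theorem L41915 : W_1 (nat_lit 4) (nat_lit 0x6000200010000e0000000000000000000000000000000) (nat_lit 0x0) (nat_lit 0x2800018000e00000000000000000000000000) := T_1 (nat_lit 124) (nat_lit 145) (nat_lit 3) (nat_lit 5) (nat_lit 7) L41914 (by decide +kernel)
theorem L41916 : W_1 (nat_lit 5) (nat_lit 0x4000200010000e0000000000000000000000000000000) (nat_lit 0x0) (nat_lit 0x4000200000002800018000e00000000000000000000000000) := T_1 (nat_lit 177) (nat_lit 194) (nat_lit 5) (nat_lit 8) (nat_lit 7) L41915 (by decide +kernel)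
theorem L41917 : W_1 (nat_lit 2) (nat_lit 0x6000200052003e0020800000000000000000000000000) (nat_lit 0x0) (nat_lit 0x800400040000000000000000000000000000) := D_1 (nat_lit 130) (nat_lit 143) (nat_lit 114) (nat_lit 1) (nat_lit 11) (nat_lit 7) (nat_lit 2) (nat_lit 8) (nat_lit 7) (by decide +kernel)
theorem L41918 : W_1 (nat_lit 3) (nat_lit 0x6000200052003e0000800000000000000000000000000) (nat_lit 0x0) (nat_lit 0x800400070000000000000000000000000000) := T_1 (nat_lit 113) (nat_lit 112) (nat_lit 2) (nat_lit 7) (nat_lit 7) L41917 (by decide +kernel)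
theorem L41919 : W_1 (nat_lit 4) (nat_lit 0x6000200052001e0000800000000000000000000000000) (nat_lit 0x0) (nat_lit 0x8800600070000000000000000000000000000) := T_1 (nat_lit 129) (nat_lit 147) (nat_lit 3) (nat_lit 7) (nat_lit 7) L41918 (by decide +kernel)
theorem L41920 : W_1 (nat_lit 5) (nat_lit 0x6000200012001e0000800000000000000000000000000) (nat_lit 0x0) (nat_lit 0xe800600070000000000000000000000000000) := T_1 (nat_lit 146) (nat_lit 145) (nat_lit 3) (nat_lit 6) (nat_lit 7) L41919 (by decide +kernel)
theorem L41921 : W_1 (nat_lit 6) (nat_lit 0x6000200012001e0000000000000000000000000000000) (nat_lit 0x0) (nat_lit 0xe800600071800000000000000000000000000) := T_1 (nat_lit 107) (nat_lit 108) (nat_lit 0) (nat_lit 9) (nat_lit 7) L41920 (by decide +kernel)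
theorem L41922 : W_1 (nat_lit 7) (nat_lit 0x6000200010001e0000000000000000000000000000000) (nat_lit 0x0) (nat_lit 0xee00600071800000000000000000000000000) := T_1 (nat_lit 141) (nat_lit 142) (nat_lit 1) (nat_lit 9) (nat_lit 7) L41921 (by decide +kernel)
theorem L41923 : W_1 (nat_lit 8) (nat_lit 0x4000200010001e0000000000000000000000000000000) (nat_lit 0x0) (nat_lit 0x400020000000ee00600071800000000000000000000000000) := T_1 (nat_lit 177) (nat_lit 194) (nat_lit 5) (nat_lit 8) (nat_lit 7) L41922 (by decide +kernel)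
theorem L41924 : W_1 (nat_lit 9) (nat_lit 0x4000200010000e0000000000000000000000000000000) (nat_lit 0x0) (nat_lit 0x400020000000ee00700079800000000000000000000000000) := T_1 (nat_lit 128) (nat_lit 111) (nat_lit 6) (nat_lit 8) (nat_lit 10) L41923 (by decide +kernel)
theorem L41925 : W_1 (nat_lit 11) (nat_lit 0x4000200010000c0000000000000000000000000000000) (nat_lit 0x0) (nat_lit 0x400020000001ef80738079e00000000000000000000000000) := Q_1 (nat_lit 125) (C_1 L41908 (C_1 L41909 (C_1 L41912 (C_1 L41916 (C_1 L41924 N_1))))) (by decide +kernel)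
theorem L41926 : W_1 (nat_lit 12) (nat_lit 0x400020001000080000000000000000000000000000000) (nat_lit 0x0) (nat_lit 0x400020000001ef8077807be00000000000000000000000000) := T_1 (nat_lit 126) (nat_lit 109) (nat_lit 4) (nat_lit 8) (nat_lit 10) L41925 (by decide +kernel)
theorem L41943 : W_1 (nat_lit 2) (nat_lit 0x4000180008000c00020001a00380000000000000000000000000000000) (nat_lit 0x0) (nat_lit 0x80002000000000000000040000000000000000000000000000000000000000) := D_1 (nat_lit 229) (nat_lit 162) (nat_lit 247) (nat_lit 6) (nat_lit 8) (nat_lit 13) (nat_lit 7) (nat_lit 8) (nat_lit 10) (by decide +kernel)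
theorem L41944 : W_1 (nat_lit 3) (nat_lit 0x180008000c00020001a00380000000000000000000000000000000) (nat_lit 0x0) (nat_lit 0x80006000200000000000040000000000000000000000000000000000000000) := T_1 (nat_lit 230) (nat_lit 213) (nat_lit 7) (nat_lit 8) (nat_lit 9) L41943 (by decide +kernel)
theorem L41945 : W_1 (nat_lit 4) (nat_lit 0x180008000c00020001a00180000000000000000000000000000000) (nat_lit 0x0) (nat_lit 0x80006000200000000000040000000600000000000000000000000000000000) := T_1 (nat_lit 129) (nat_lit 130) (nat_lit 1) (nat_lit 11) (nat_lit 7) L41944 (by decide +kernel)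
theorem L41946 : W_1 (nat_lit 5) (nat_lit 0x180008000c00020001800180000000000000000000000000000000) (nat_lit 0x0) (nat_lit 0x80006000200000000000040000600600000000000000000000000000000000) := T_1 (nat_lit 141) (nat_lit 142) (nat_lit 2) (nat_lit 5) (nat_lit 8) L41945 (by decide +kernel)
theorem L41947 : W_1 (nat_lit 6) (nat_lit 0x180008000c00020001000180000000000000000000000000000000) (nat_lit 0x0) (nat_lit 0x80006000200000000000050000e00600000000000000000000000000000000) := T_1 (nat_lit 143) (nat_lit 160) (nat_lit 4) (nat_lit 8) (nat_lit 12) L41946 (by decide +kernel)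
theorem L41948 : W_1 (nat_lit 7) (nat_lit 0x80008000c00020001000180000000000000000000000000000000) (nat_lit 0x0) (nat_lit 0x80007000300000000000050000e00600000000000000000000000000000000) := T_1 (nat_lit 212) (nat_lit 228) (nat_lit 5) (nat_lit 8) (nat_lit 9) L41947 (by decide +kernel)
theorem L41949 : W_1 (nat_lit 8) (nat_lit 0x8000c00020001000180000000000000000000000000000000) (nat_lit 0x0) (nat_lit 0x80007000380004000000050000e00600000000000000000000000000000000) := T_1 (nat_lit 211) (nat_lit 194) (nat_lit 5) (nat_lit 8) (nat_lit 8) L41948 (by decide +kernel)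
theorem L41950 : W_1 (nat_lit 9) (nat_lit 0xc00020001000180000000000000000000000000000000) (nat_lit 0x0) (nat_lit 0x8000700038000c000000050002e00600000000000000000000000000000000) := T_1 (nat_lit 195) (nat_lit 145) (nat_lit 6) (nat_lit 8) (nat_lit 11) L41949 (by decide +kernel)
theorem L41951 : W_1 (nat_lit 10) (nat_lit 0x400020001000180000000000000000000000000000000) (nat_lit 0x0) (nat_lit 0x8000700038001c000800050002e00600000000000000000000000000000000) := T_1 (nat_lit 179) (nat_lit 196) (nat_lit 7) (nat_lit 8) (nat_lit 7) L41950 (by decide +kernel)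
theorem L41952 : W_1 (nat_lit 11) (nat_lit 0x400020001000080000000000000000000000000000000) (nat_lit 0x0) (nat_lit 0x8000700038001c000800050002e00700008000000000000000000000000000) := T_1 (nat_lit 128) (nat_lit 111) (nat_lit 6) (nat_lit 8) (nat_lit 10) L41951 (by decide +kernel)
theorem L41953 : W_1 (nat_lit 2) (nat_lit 0x300008000600020001000180000000000000000000000000000000) (nat_lit 0x0) (nat_lit 0x2000000000000000010000800000000000000000000000000000000000) := D_1 (nat_lit 160) (nat_lit 143) (nat_lit 229) (nat_lit 4) (nat_lit 8) (nat_lit 12) (nat_lit 4) (nat_lit 8) (nat_lit 13) (by decide +kernel)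
theorem L41954 : W_1 (nat_lit 3) (nat_lit 0x200008000600020001000180000000000000000000000000000000) (nat_lit 0x0) (nat_lit 0x6000100000000000010000800000000000000000000000000000000000) := T_1 (nat_lit 212) (nat_lit 230) (nat_lit 7) (nat_lit 8) (nat_lit 9) L41953 (by decide +kernel)
theorem L41955 : W_1 (nat_lit 4) (nat_lit 0x8000600020001000180000000000000000000000000000000) (nat_lit 0x0) (nat_lit 0x6000300010000000010000800000000000000000000000000000000000) := T_1 (nat_lit 213) (nat_lit 196) (nat_lit 7) (nat_lit 8) (nat_lit 8) L41954 (by decide +kernel)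
theorem L41956 : W_1 (nat_lit 5) (nat_lit 0x600020001000180000000000000000000000000000000) (nat_lit 0x0) (nat_lit 0x6000300018000000010002800000000000000000000000000000000000) := T_1 (nat_lit 195) (nat_lit 145) (nat_lit 6) (nat_lit 8) (nat_lit 11) L41955 (by decide +kernel)
theorem L41957 : W_1 (nat_lit 6) (nat_lit 0x400020001000180000000000000000000000000000000) (nat_lit 0x0) (nat_lit 0x600030001c000200010002800000000000000000000000000000000000) := T_1 (nat_lit 177) (nat_lit 194) (nat_lit 5) (nat_lit 8) (nat_lit 7) L41956 (by decide +kernel)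
theorem L41958 : W_1 (nat_lit 7) (nat_lit 0x400020001000080000000000000000000000000000000) (nat_lit 0x0) (nat_lit 0x600030001c000200010002800100008000000000000000000000000000) := T_1 (nat_lit 128) (nat_lit 111) (nat_lit 6) (nat_lit 8) (nat_lit 10) L41957 (by decide +kernel)
theorem L41959 : W_1 (nat_lit 2) (nat_lit 0x10000400020001000180000000000000000000000000000000) (nat_lit 0x0) (nat_lit 0x200008000000000002000000000000000000000000000000000000) := D_1 (nat_lit 195) (nat_lit 145) (nat_lit 213) (nat_lit 6) (nat_lit 8) (nat_lit 11) (nat_lit 7) (nat_lit 8) (nat_lit 8) (by decide +kernel)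
theorem L41960 : W_1 (nat_lit 3) (nat_lit 0x400020001000180000000000000000000000000000000) (nat_lit 0x0) (nat_lit 0x200018000800000002000000000000000000000000000000000000) := T_1 (nat_lit 196) (nat_lit 179) (nat_lit 7) (nat_lit 8) (nat_lit 7) L41959 (by decide +kernel)
theorem L41961 : W_1 (nat_lit 4) (nat_lit 0x400020001000080000000000000000000000000000000) (nat_lit 0x0) (nat_lit 0x200018000800000002000100008000000000000000000000000000) := T_1 (nat_lit 128) (nat_lit 111) (nat_lit 6) (nat_lit 8) (nat_lit 10) L41960 (by decide +kernel)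
theorem L41962 : W_1 (nat_lit 2) (nat_lit 0x4000400020001000180000000000000000000000000000000) (nat_lit 0x0) (nat_lit 0x80008000000000002000000000000000000000000000000000000) := D_1 (nat_lit 195) (nat_lit 145) (nat_lit 211) (nat_lit 6) (nat_lit 8) (nat_lit 11) (nat_lit 5) (nat_lit 8) (nat_lit 8) (by decide +kernel)
theorem L41963 : W_1 (nat_lit 3) (nat_lit 0x400020001000180000000000000000000000000000000) (nat_lit 0x0) (nat_lit 0x8000c000200000002000000000000000000000000000000000000) := T_1 (nat_lit 194) (nat_lit 177) (nat_lit 5) (nat_lit 8) (nat_lit 7) L41962 (by decide +kernel)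
theorem L41964 : W_1 (nat_lit 4) (nat_lit 0x400020001000080000000000000000000000000000000) (nat_lit 0x0) (nat_lit 0x8000c000200000002000100008000000000000000000000000000) := T_1 (nat_lit 128) (nat_lit 111) (nat_lit 6) (nat_lit 8) (nat_lit 10) L41963 (by decide +kernel)
theorem L41965 : W_1 (nat_lit 13) (nat_lit 0x20001000080000000000000000000000000000000) (nat_lit 0x0) (nat_lit 0x800070003800ffc07fc075e002e00700008000000000000000000000000000) := Q_1 (nat_lit 178) (C_1 L38516 (C_1 L41107 (C_1 L41952 (C_1 L41958 (C_1 L41961 (C_1 L41964 N_1)))))) (by decide +kernel)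
theorem L41975 : W_1 (nat_lit 2) (nat_lit 0xa00020001000080004000100000000000000000000000) (nat_lit 0x0) (nat_lit 0x14000400000000000000000000000000000000000000000000) := D_1 (nat_lit 178) (nat_lit 196) (nat_lit 194) (nat_lit 7) (nat_lit 8) (nat_lit 7) (nat_lit 5) (nat_lit 8) (nat_lit 7) (by decide +kernel)
theorem L41976 : W_1 (nat_lit 3) (nat_lit 0x800020001000080004000100000000000000000000000) (nat_lit 0x0) (nat_lit 0x14000600010000000000000000000000000000000000000000) := T_1 (nat_lit 177) (nat_lit 160) (nat_lit 5) (nat_lit 8) (nat_lit 6) L41975 (by decide +kernel)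
theorem L41977 : W_1 (nat_lit 4) (nat_lit 0x20001000080004000100000000000000000000000) (nat_lit 0x0) (nat_lit 0x14000e00050000000000000000000000000000000000000000) := T_1 (nat_lit 179) (nat_lit 162) (nat_lit 7) (nat_lit 8) (nat_lit 6) L41976 (by decide +kernel)
theorem L41978 : W_1 (nat_lit 5) (nat_lit 0x20001000080004000000000000000000000000000) (nat_lit 0x0) (nat_lit 0x14000e00050000000000002000100000000000000000000000) := T_1 (nat_lit 92) (nat_lit 109) (nat_lit 4) (nat_lit 8) (nat_lit 9) L41977 (by decide +kernel)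
theorem L41979 : W_1 (nat_lit 6) (nat_lit 0x20001000080000000000000000000000000000000) (nat_lit 0x0) (nat_lit 0x14000e0005800e800000006000300008000000000000000000) := Q_1 (nat_lit 110) (C_1 L20872 (C_1 L125 (C_1 L41978 (C_1 L20055 N_1)))) (by decide +kernel)
theorem L41981 : W_1 (nat_lit 2) (nat_lit 0x70003000180004000400000000000000000000000) (nat_lit 0x0) (nat_lit 0x800c000000000000000000000000000000000000) := D_1 (nat_lit 146) (nat_lit 159) (nat_lit 147) (nat_lit 2) (nat_lit 6) (nat_lit 9) (nat_lit 1) (nat_lit 11) (nat_lit 8) (by decide +kernel)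
theorem L41982 : W_1 (nat_lit 3) (nat_lit 0x60003000180004000400000000000000000000000) (nat_lit 0x0) (nat_lit 0x20001800c000000000000000000000000000000000000) := T_1 (nat_lit 160) (nat_lit 177) (nat_lit 5) (nat_lit 8) (nat_lit 6) L41981 (by decide +kernel)
theorem L41983 : W_1 (nat_lit 4) (nat_lit 0x60003000180004000000000000000000000000000) (nat_lit 0x0) (nat_lit 0x20001800c000000008000400000000000000000000000) := T_1 (nat_lit 94) (nat_lit 111) (nat_lit 6) (nat_lit 8) (nat_lit 9) L41982 (by decide +kernel)
theorem L41984 : W_1 (nat_lit 5) (nat_lit 0x20003000180004000000000000000000000000000) (nat_lit 0x0) (nat_lit 0xa0005800c000000008000400000000000000000000000) := T_1 (nat_lit 162) (nat_lit 179) (nat_lit 7) (nat_lit 8) (nat_lit 6) L41983 (by decide +kernel)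
theorem L41985 : W_1 (nat_lit 2) (nat_lit 0x38003000180004000000000000000000000000000) (nat_lit 0x0) (nat_lit 0xc800000000000000000000000000000000000) := D_1 (nat_lit 146) (nat_lit 147) (nat_lit 143) (nat_lit 1) (nat_lit 11) (nat_lit 8) (nat_lit 1) (nat_lit 10) (nat_lit 8) (by decide +kernel)
theorem L41986 : W_1 (nat_lit 3) (nat_lit 0x30003000180004000000000000000000000000000) (nat_lit 0x0) (nat_lit 0xc00c800000000000000000000000000000000000) := T_1 (nat_lit 159) (nat_lit 158) (nat_lit 2) (nat_lit 5) (nat_lit 9) L41985 (by decide +kernel)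
theorem L41987 : W_1 (nat_lit 4) (nat_lit 0x20003000180004000000000000000000000000000) (nat_lit 0x0) (nat_lit 0x20001c00c800000000000000000000000000000000000) := T_1 (nat_lit 160) (nat_lit 177) (nat_lit 5) (nat_lit 8) (nat_lit 6) L41986 (by decide +kernel)
theorem L41988 : W_1 (nat_lit 2) (nat_lit 0x6000300078003c001000000000000000000000000) (nat_lit 0x0) (nat_lit 0x4000000000000000080004000000000000000) := D_1 (nat_lit 79) (nat_lit 146) (nat_lit 62) (nat_lit 5) (nat_lit 11) (nat_lit 4) (nat_lit 5) (nat_lit 11) (nat_lit 3) (by decide +kernel)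
theorem L41989 : W_1 (nat_lit 3) (nat_lit 0x6000300058003c001000000000000000000000000) (nat_lit 0x0) (nat_lit 0x4800200000000000080004000000000000000) := T_1 (nat_lit 129) (nat_lit 143) (nat_lit 1) (nat_lit 11) (nat_lit 7) L41988 (by decide +kernel)
theorem L41990 : W_1 (nat_lit 4) (nat_lit 0x6000300018003c001000000000000000000000000) (nat_lit 0x0) (nat_lit 0x4800e00000000000080004000000000000000) := T_1 (nat_lit 130) (nat_lit 131) (nat_lit 3) (nat_lit 8) (nat_lit 6) L41989 (by decide +kernel)
theorem L41991 : W_1 (nat_lit 5) (nat_lit 0x6000300018003c000000000000000000000000000) (nat_lit 0x0) (nat_lit 0x4800e00000003000080004000000000000000) := T_1 (nat_lit 96) (nat_lit 97) (nat_lit 2) (nat_lit 8) (nat_lit 6) L41990 (by decide +kernel)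
theorem L41992 : W_1 (nat_lit 6) (nat_lit 0x6000300018001c000000000000000000000000000) (nat_lit 0x0) (nat_lit 0x4800e00060003000080004000000000000000) := T_1 (nat_lit 113) (nat_lit 114) (nat_lit 1) (nat_lit 12) (nat_lit 6) L41991 (by decide +kernel)
theorem L41993 : W_1 (nat_lit 7) (nat_lit 0x6000300018000c000000000000000000000000000) (nat_lit 0x0) (nat_lit 0x4800e00070003800080004000000000000000) := T_1 (nat_lit 112) (nat_lit 95) (nat_lit 6) (nat_lit 9) (nat_lit 9) L41992 (by decide +kernel)
theorem L41994 : W_1 (nat_lit 8) (nat_lit 0x2000300018000c000000000000000000000000000) (nat_lit 0x0) (nat_lit 0x800040004800e00070003800080004000000000000000) := T_1 (nat_lit 162) (nat_lit 179) (nat_lit 7) (nat_lit 8) (nat_lit 6) L41993 (by decide +kernel)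
theorem L41995 : W_1 (nat_lit 9) (nat_lit 0x20003000180004000000000000000000000000000) (nat_lit 0x0) (nat_lit 0x800040004800e00078003c00080004000000000000000) := T_1 (nat_lit 111) (nat_lit 94) (nat_lit 6) (nat_lit 8) (nat_lit 9) L41994 (by decide +kernel)
theorem L41999 : W_1 (nat_lit 2) (nat_lit 0x7000d00078002c001000000000000000000000000) (nat_lit 0x0) (nat_lit 0x10002000100000000000000000000) := D_1 (nat_lit 97) (nat_lit 112) (nat_lit 80) (nat_lit 2) (nat_lit 8) (nat_lit 6) (nat_lit 6) (nat_lit 11) (nat_lit 8) (by decide +kernel)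
theorem L42000 : W_1 (nat_lit 3) (nat_lit 0x7000d00078002c000000000000000000000000000) (nat_lit 0x0) (nat_lit 0x10003000180000000000000000000) := T_1 (nat_lit 96) (nat_lit 79) (nat_lit 5) (nat_lit 11) (nat_lit 4) L41999 (by decide +kernel)
theorem L42001 : W_1 (nat_lit 4) (nat_lit 0x7000d00078000c000000000000000000000000000) (nat_lit 0x0) (nat_lit 0x70003000180000000000000000000) := T_1 (nat_lit 113) (nat_lit 114) (nat_lit 2) (nat_lit 8) (nat_lit 7) L42000 (by decide +kernel)
theorem L42002 : W_1 (nat_lit 5) (nat_lit 0x7000900078000c000000000000000000000000000) (nat_lit 0x0) (nat_lit 0x6000000070003000180000000000000000000) := T_1 (nat_lit 146) (nat_lit 145) (nat_lit 1) (nat_lit 11) (nat_lit 8) L42001 (by decide +kernel)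
theorem L42003 : W_1 (nat_lit 6) (nat_lit 0x7000100078000c000000000000000000000000000) (nat_lit 0x0) (nat_lit 0x1e000000070003000180000000000000000000) := T_1 (nat_lit 147) (nat_lit 148) (nat_lit 3) (nat_lit 8) (nat_lit 7) L42002 (by decide +kernel)
theorem L42004 : W_1 (nat_lit 7) (nat_lit 0x7000100038000c000000000000000000000000000) (nat_lit 0x0) (nat_lit 0x1e000c00070003000180000000000000000000) := T_1 (nat_lit 130) (nat_lit 131) (nat_lit 0) (nat_lit 12) (nat_lit 7) L42003 (by decide +kernel)
theorem L42005 : W_1 (nat_lit 8) (nat_lit 0x3000100038000c000000000000000000000000000) (nat_lit 0x0) (nat_lit 0x80004001e000c00070003000180000000000000000000) := T_1 (nat_lit 162) (nat_lit 179) (nat_lit 7) (nat_lit 8) (nat_lit 6) L42004 (by decide +kernel)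
theorem L42006 : W_1 (nat_lit 9) (nat_lit 0x30001000380004000000000000000000000000000) (nat_lit 0x0) (nat_lit 0x80004001e000c00078003400180000000000000000000) := T_1 (nat_lit 111) (nat_lit 94) (nat_lit 6) (nat_lit 8) (nat_lit 9) L42005 (by decide +kernel)
theorem L42007 : W_1 (nat_lit 10) (nat_lit 0x20001000380004000000000000000000000000000) (nat_lit 0x0) (nat_lit 0xa0005001e000c00078003400180000000000000000000) := T_1 (nat_lit 160) (nat_lit 177) (nat_lit 5) (nat_lit 8) (nat_lit 6) L42006 (by decide +kernel)
theorem L42018 : W_1 (nat_lit 2) (nat_lit 0x30001000f80004000400000000000000000000000) (nat_lit 0x0) (nat_lit 0x38000000000000000000000000000000000000) := D_1 (nat_lit 148) (nat_lit 147) (nat_lit 149) (nat_lit 3) (nat_lit 8) (nat_lit 7) (nat_lit 3) (nat_lit 9) (nat_lit 7) (by decide +kernel)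
theorem L42019 : W_1 (nat_lit 3) (nat_lit 0x30001000780004000400000000000000000000000) (nat_lit 0x0) (nat_lit 0x3a000800000000000000000000000000000000) := T_1 (nat_lit 131) (nat_lit 145) (nat_lit 1) (nat_lit 12) (nat_lit 7) L42018 (by decide +kernel)
theorem L42020 : W_1 (nat_lit 4) (nat_lit 0x30001000380004000400000000000000000000000) (nat_lit 0x0) (nat_lit 0x3a800c00000000000000000000000000000000) := T_1 (nat_lit 130) (nat_lit 143) (nat_lit 1) (nat_lit 11) (nat_lit 7) L42019 (by decide +kernel)
theorem L42021 : W_1 (nat_lit 5) (nat_lit 0x30001000380004000000000000000000000000000) (nat_lit 0x0) (nat_lit 0x3a800c00008000400000000000000000000000) := T_1 (nat_lit 94) (nat_lit 111) (nat_lit 6) (nat_lit 8) (nat_lit 9) L42020 (by decide +kernel)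
theorem L42022 : W_1 (nat_lit 6) (nat_lit 0x20001000380004000000000000000000000000000) (nat_lit 0x0) (nat_lit 0x20001003a800c00008000400000000000000000000000) := T_1 (nat_lit 160) (nat_lit 177) (nat_lit 5) (nat_lit 8) (nat_lit 6) L42021 (by decide +kernel)
theorem L42109 : W_1 (nat_lit 2) (nat_lit 0x16000f000680004000000000000000000000000000) (nat_lit 0x0) (nat_lit 0x2000000000000000010000800000000000000000000000) := D_1 (nat_lit 112) (nat_lit 95) (nat_lit 181) (nat_lit 7) (nat_lit 10) (nat_lit 5) (nat_lit 4) (nat_lit 11) (nat_lit 10) (by decide +kernel)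
theorem L42110 : W_1 (nat_lit 3) (nat_lit 0x16000f000480004000000000000000000000000000) (nat_lit 0x0) (nat_lit 0x2000000000800200010000800000000000000000000000) := T_1 (nat_lit 129) (nat_lit 143) (nat_lit 2) (nat_lit 7) (nat_lit 8) L42109 (by decide +kernel)
theorem L42111 : W_1 (nat_lit 4) (nat_lit 0x16000f000080004000000000000000000000000000) (nat_lit 0x0) (nat_lit 0x2000000000800e00010000800000000000000000000000) := T_1 (nat_lit 130) (nat_lit 131) (nat_lit 2) (nat_lit 8) (nat_lit 8) L42110 (by decide +kernel)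
theorem L42112 : W_1 (nat_lit 5) (nat_lit 0x6000f000080004000000000000000000000000000) (nat_lit 0x0) (nat_lit 0x2000300000800e00010000800000000000000000000000) := T_1 (nat_lit 164) (nat_lit 165) (nat_lit 3) (nat_lit 8) (nat_lit 8) L42111 (by decide +kernel)
theorem L42113 : W_1 (nat_lit 6) (nat_lit 0x60007000080004000000000000000000000000000) (nat_lit 0x0) (nat_lit 0x2000300018800e00010000800000000000000000000000) := T_1 (nat_lit 147) (nat_lit 148) (nat_lit 1) (nat_lit 12) (nat_lit 8) L42112 (by decide +kernel)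
theorem L42114 : W_1 (nat_lit 7) (nat_lit 0x20007000080004000000000000000000000000000) (nat_lit 0x0) (nat_lit 0x2800340018800e00010000800000000000000000000000) := T_1 (nat_lit 162) (nat_lit 179) (nat_lit 7) (nat_lit 8) (nat_lit 6) L42113 (by decide +kernel)
theorem L42248 : W_1 (nat_lit 2) (nat_lit 0x7000100009000f800000000000000000000000000) (nat_lit 0x0) (nat_lit 0xe0000000000000000000000) := D_1 (nat_lit 90) (nat_lit 89) (nat_lit 91) (nat_lit 0) (nat_lit 8) (nat_lit 6) (nat_lit 0) (nat_lit 9) (nat_lit 6) (by decide +kernel)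
theorem L42249 : W_1 (nat_lit 3) (nat_lit 0x7000100009000f000000000000000000000000000) (nat_lit 0x0) (nat_lit 0x80008000e0000000000000000000000) := T_1 (nat_lit 107) (nat_lit 123) (nat_lit 1) (nat_lit 8) (nat_lit 6) L42248 (by decide +kernel)
theorem L42250 : W_1 (nat_lit 4) (nat_lit 0x7000100008000f000000000000000000000000000) (nat_lit 0x0) (nat_lit 0x380008000e0000000000000000000000) := T_1 (nat_lit 124) (nat_lit 125) (nat_lit 1) (nat_lit 9) (nat_lit 6) L42249 (by decide +kernel)
theorem L42286 : W_1 (nat_lit 2) (nat_lit 0x2000100018000e000000000000000000000000000) (nat_lit 0x0) (nat_lit 0x600001000000000000000000000000000) := D_1 (nat_lit 129) (nat_lit 130) (nat_lit 108) (nat_lit 0) (nat_lit 11) (nat_lit 7) (nat_lit 3) (nat_lit 6) (nat_lit 6) (by decide +kernel)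
theorem L42287 : W_1 (nat_lit 3) (nat_lit 0x20001000180006000000000000000000000000000) (nat_lit 0x0) (nat_lit 0x600009000400000000000000000000000) := T_1 (nat_lit 111) (nat_lit 94) (nat_lit 6) (nat_lit 8) (nat_lit 9) L42286 (by decide +kernel)
theorem L42288 : W_1 (nat_lit 5) (nat_lit 0x3000100008000f000000000000000000000000000) (nat_lit 0x0) (nat_lit 0x8000400000000380008000e0000000000000000000000) := T_1 (nat_lit 162) (nat_lit 179) (nat_lit 7) (nat_lit 8) (nat_lit 6) L42250 (by decide +kernel)
theorem L42289 : W_1 (nat_lit 6) (nat_lit 0x30001000080007000000000000000000000000000) (nat_lit 0x0) (nat_lit 0x8000400000000380088004e0000000000000000000000) := T_1 (nat_lit 111) (nat_lit 94) (nat_lit 6) (nat_lit 8) (nat_lit 9) L42288 (by decide +kernel)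
theorem L42290 : W_1 (nat_lit 7) (nat_lit 0x20001000080007000000000000000000000000000) (nat_lit 0x0) (nat_lit 0xa000500000000380088004e0000000000000000000000) := T_1 (nat_lit 160) (nat_lit 177) (nat_lit 5) (nat_lit 8) (nat_lit 6) L42289 (by decide +kernel)
theorem L42291 : W_1 (nat_lit 2) (nat_lit 0x20001000088007c00000000000000000000000000) (nat_lit 0x0) (nat_lit 0x70000000000000000000000) := D_1 (nat_lit 89) (nat_lit 88) (nat_lit 90) (nat_lit 0) (nat_lit 7) (nat_lit 6) (nat_lit 0) (nat_lit 8) (nat_lit 6) (by decide +kernel)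
theorem L42292 : W_1 (nat_lit 3) (nat_lit 0x20001000088007800000000000000000000000000) (nat_lit 0x0) (nat_lit 0x4000400070000000000000000000000) := T_1 (nat_lit 106) (nat_lit 122) (nat_lit 1) (nat_lit 7) (nat_lit 6) L42291 (by decide +kernel)
theorem L42293 : W_1 (nat_lit 4) (nat_lit 0x20001000080007800000000000000000000000000) (nat_lit 0x0) (nat_lit 0x1c000400070000000000000000000000) := T_1 (nat_lit 123) (nat_lit 124) (nat_lit 1) (nat_lit 8) (nat_lit 6) L42292 (by decide +kernel)
theorem L42294 : W_1 (nat_lit 5) (nat_lit 0x20001000080007000000000000000000000000000) (nat_lit 0x0) (nat_lit 0x11c000c00070000000000000000000000) := T_1 (nat_lit 107) (nat_lit 128) (nat_lit 3) (nat_lit 5) (nat_lit 6) L42293 (by decide +kernel)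
theorem L42295 : W_1 (nat_lit 2) (nat_lit 0x70001000080007800040000000000000000000000) (nat_lit 0x0) (nat_lit 0x8000480000000000000000000000) := D_1 (nat_lit 111) (nat_lit 94) (nat_lit 91) (nat_lit 6) (nat_lit 8) (nat_lit 9) (nat_lit 0) (nat_lit 9) (nat_lit 6) (by decide +kernel)
theorem L42296 : W_1 (nat_lit 3) (nat_lit 0x70001000080007800000000000000000000000000) (nat_lit 0x0) (nat_lit 0x80004e0000000000000000000000) := T_1 (nat_lit 90) (nat_lit 89) (nat_lit 0) (nat_lit 8) (nat_lit 6) L42295 (by decide +kernel)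
theorem L42297 : W_1 (nat_lit 4) (nat_lit 0x70001000080007000000000000000000000000000) (nat_lit 0x0) (nat_lit 0x1000088004e0000000000000000000000) := T_1 (nat_lit 107) (nat_lit 128) (nat_lit 3) (nat_lit 5) (nat_lit 6) L42296 (by decide +kernel)
theorem L42298 : W_1 (nat_lit 5) (nat_lit 0x30001000080007000000000000000000000000000) (nat_lit 0x0) (nat_lit 0x8000400000001000088004e0000000000000000000000) := T_1 (nat_lit 162) (nat_lit 179) (nat_lit 7) (nat_lit 8) (nat_lit 6) L42297 (by decide +kernel)
theorem L42299 : W_1 (nat_lit 6) (nat_lit 0x20001000080007000000000000000000000000000) (nat_lit 0x0) (nat_lit 0xa000500000001000088004e0000000000000000000000) := T_1 (nat_lit 160) (nat_lit 177) (nat_lit 5) (nat_lit 8) (nat_lit 6) L42298 (by decide +kernel)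
theorem L42300 : W_1 (nat_lit 2) (nat_lit 0x700014001a000f000080000000000000000000000) (nat_lit 0x0) (nat_lit 0xc000200000000000000000000000000000000000) := D_1 (nat_lit 141) (nat_lit 158) (nat_lit 159) (nat_lit 5) (nat_lit 6) (nat_lit 5) (nat_lit 0) (nat_lit 9) (nat_lit 9) (by decide +kernel)
theorem L42301 : W_1 (nat_lit 3) (nat_lit 0x700010001a000f000080000000000000000000000) (nat_lit 0x0) (nat_lit 0xc000e00000000000000000000000000000000000) := T_1 (nat_lit 142) (nat_lit 143) (nat_lit 7) (nat_lit 6) (nat_lit 5) L42300 (by decide +kernel)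
theorem L42302 : W_1 (nat_lit 4) (nat_lit 0x700010001a000f000000000000000000000000000) (nat_lit 0x0) (nat_lit 0xc000e000000000000c0000000000000000000000) := T_1 (nat_lit 91) (nat_lit 90) (nat_lit 0) (nat_lit 9) (nat_lit 6) L42301 (by decide +kernel)
theorem L42303 : W_1 (nat_lit 5) (nat_lit 0x700010000a000f000000000000000000000000000) (nat_lit 0x0) (nat_lit 0xc000e003000000000c0000000000000000000000) := T_1 (nat_lit 128) (nat_lit 129) (nat_lit 3) (nat_lit 6) (nat_lit 6) L42302 (by decide +kernel)
theorem L42304 : W_1 (nat_lit 6) (nat_lit 0x600010000a000f000000000000000000000000000) (nat_lit 0x0) (nat_lit 0x20001c000e003000000000c0000000000000000000000) := T_1 (nat_lit 160) (nat_lit 177) (nat_lit 5) (nat_lit 8) (nat_lit 6) L42303 (by decide +kernel)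
theorem L42305 : W_1 (nat_lit 7) (nat_lit 0x6000100008000f000000000000000000000000000) (nat_lit 0x0) (nat_lit 0x20001c000e003300000000c0000000000000000000000) := T_1 (nat_lit 125) (nat_lit 124) (nat_lit 1) (nat_lit 9) (nat_lit 6) L42304 (by decide +kernel)
theorem L42306 : W_1 (nat_lit 8) (nat_lit 0x2000100008000f000000000000000000000000000) (nat_lit 0x0) (nat_lit 0xa0005c000e003300000000c0000000000000000000000) := T_1 (nat_lit 162) (nat_lit 179) (nat_lit 7) (nat_lit 8) (nat_lit 6) L42305 (by decide +kernel)
theorem L42307 : W_1 (nat_lit 9) (nat_lit 0x20001000080007000000000000000000000000000) (nat_lit 0x0) (nat_lit 0xa0005c000e003300080004c0000000000000000000000) := T_1 (nat_lit 111) (nat_lit 94) (nat_lit 6) (nat_lit 8) (nat_lit 9) L42306 (by decide +kernel)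
theorem L42308 : W_1 (nat_lit 2) (nat_lit 0x60001000090007800000000000000000000000000) (nat_lit 0x0) (nat_lit 0x20008000400000000000000000000000) := D_1 (nat_lit 111) (nat_lit 94) (nat_lit 125) (nat_lit 6) (nat_lit 8) (nat_lit 9) (nat_lit 1) (nat_lit 9) (nat_lit 6) (by decide +kernel)
theorem L42309 : W_1 (nat_lit 3) (nat_lit 0x60001000080007800000000000000000000000000) (nat_lit 0x0) (nat_lit 0x38008000400000000000000000000000) := T_1 (nat_lit 124) (nat_lit 123) (nat_lit 1) (nat_lit 8) (nat_lit 6) L42308 (by decide +kernel)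
theorem L42310 : W_1 (nat_lit 4) (nat_lit 0x60001000080007000000000000000000000000000) (nat_lit 0x0) (nat_lit 0x138008800400000000000000000000000) := T_1 (nat_lit 107) (nat_lit 128) (nat_lit 3) (nat_lit 5) (nat_lit 6) L42309 (by decide +kernel)
theorem L42311 : W_1 (nat_lit 5) (nat_lit 0x20001000080007000000000000000000000000000) (nat_lit 0x0) (nat_lit 0x800040000000138008800400000000000000000000000) := T_1 (nat_lit 162) (nat_lit 179) (nat_lit 7) (nat_lit 8) (nat_lit 6) L42310 (by decide +kernel)
theorem L42312 : W_1 (nat_lit 10) (nat_lit 0x20001000080006000000000000000000000000000) (nat_lit 0x0) (nat_lit 0xa0005c000e0033c009c004f0000000000000000000000) := Q_1 (nat_lit 108) (C_1 L40463 (C_1 L42290 (C_1 L42294 (C_1 L42299 (C_1 L42307 (C_1 L42311 N_1)))))) (by decide +kernel)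
theorem L42313 : W_1 (nat_lit 11) (nat_lit 0x20001000080004000000000000000000000000000) (nat_lit 0x0) (nat_lit 0xa0005c000e0033c00bc005f0000000000000000000000) := T_1 (nat_lit 109) (nat_lit 92) (nat_lit 4) (nat_lit 8) (nat_lit 9) L42312 (by decide +kernel)
theorem L42315 : W_1 (nat_lit 2) (nat_lit 0x80002000100008000c000100000000000000000000000) (nat_lit 0x0) (nat_lit 0x10000400000000000100000000000000000000000000000000) := D_1 (nat_lit 178) (nat_lit 196) (nat_lit 128) (nat_lit 7) (nat_lit 8) (nat_lit 7) (nat_lit 6) (nat_lit 8) (nat_lit 10) (by decide +kernel)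
theorem L42316 : W_1 (nat_lit 3) (nat_lit 0x800020001000080004000100000000000000000000000) (nat_lit 0x0) (nat_lit 0x10000400000000000100008000400000000000000000000000) := T_1 (nat_lit 111) (nat_lit 94) (nat_lit 6) (nat_lit 8) (nat_lit 9) L42315 (by decide +kernel)
theorem L42317 : W_1 (nat_lit 4) (nat_lit 0x20001000080004000100000000000000000000000) (nat_lit 0x0) (nat_lit 0x10000c00040000000100008000400000000000000000000000) := T_1 (nat_lit 179) (nat_lit 162) (nat_lit 7) (nat_lit 8) (nat_lit 6) L42316 (by decide +kernel)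
theorem L42318 : W_1 (nat_lit 5) (nat_lit 0x20001000080004000000000000000000000000000) (nat_lit 0x0) (nat_lit 0x10000c0004000000010000a000500000000000000000000000) := T_1 (nat_lit 92) (nat_lit 109) (nat_lit 4) (nat_lit 8) (nat_lit 9) L42317 (by decide +kernel)
theorem L65033 : W_1 (nat_lit 5) (nat_lit 0x1e00080000000000000000000000000000000) (nat_lit 0x0) (nat_lit 0x380018004e000000000000000000000000000000) := T_1 (nat_lit 140) (nat_lit 126) (nat_lit 2) (nat_lit 4) (nat_lit 8) L35710 (by decide +kernel)
theorem L66801 : W_1 (nat_lit 2) (nat_lit 0x38003c000e0003800000000000000000000000000) (nat_lit 0x0) (nat_lit 0x40000300000000000000000000000000000000000) := D_1 (nat_lit 141) (nat_lit 162) (nat_lit 140) (nat_lit 3) (nat_lit 5) (nat_lit 8) (nat_lit 3) (nat_lit 4) (nat_lit 8) (by decide +kernel)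
theorem L66802 : W_1 (nat_lit 3) (nat_lit 0x380038000e0003800000000000000000000000000) (nat_lit 0x0) (nat_lit 0x40000700000000000040000000000000000000000) := T_1 (nat_lit 142) (nat_lit 90) (nat_lit 4) (nat_lit 6) (nat_lit 9) L66801 (by decide +kernel)
theorem L66803 : W_1 (nat_lit 4) (nat_lit 0x380038000e0003000000000000000000000000000) (nat_lit 0x0) (nat_lit 0x40000700000000c00040000000000000000000000) := T_1 (nat_lit 107) (nat_lit 106) (nat_lit 3) (nat_lit 4) (nat_lit 6) L66802 (by decide +kernel)
theorem L66804 : W_1 (nat_lit 5) (nat_lit 0x380038000e0002000000000000000000000000000) (nat_lit 0x0) (nat_lit 0x40000700000001c000c0000000000000000000000) := T_1 (nat_lit 108) (nat_lit 91) (nat_lit 4) (nat_lit 7) (nat_lit 9) L66803 (by decide +kernel)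
theorem L67985 : W_1 (nat_lit 2) (nat_lit 0x14000400020001c00080000000000000000000000000000000) (nat_lit 0x0) (nat_lit 0x280008000000000000000000000000000000000000000000000000) := D_1 (nat_lit 195) (nat_lit 211) (nat_lit 213) (nat_lit 5) (nat_lit 8) (nat_lit 8) (nat_lit 7) (nat_lit 8) (nat_lit 8) (by decide +kernel)
theorem L67986 : W_1 (nat_lit 3) (nat_lit 0x4000400020001c00080000000000000000000000000000000) (nat_lit 0x0) (nat_lit 0x280018000800000000000000000000000000000000000000000000) := T_1 (nat_lit 196) (nat_lit 179) (nat_lit 7) (nat_lit 8) (nat_lit 7) L67985 (by decide +kernel)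
theorem L67987 : W_1 (nat_lit 4) (nat_lit 0x400020001c00080000000000000000000000000000000) (nat_lit 0x0) (nat_lit 0x28001c000a00000000000000000000000000000000000000000000) := T_1 (nat_lit 194) (nat_lit 177) (nat_lit 5) (nat_lit 8) (nat_lit 7) L67986 (by decide +kernel)
theorem L68667 : W_1 (nat_lit 2) (nat_lit 0x20003800180000000000000000000000000000000) (nat_lit 0x0) (nat_lit 0x8000400000000000000008000000000000000000000000000) := D_1 (nat_lit 178) (nat_lit 195) (nat_lit 111) (nat_lit 6) (nat_lit 8) (nat_lit 11) (nat_lit 6) (nat_lit 8) (nat_lit 10) (by decide +kernel)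
theorem L68671 : W_1 (nat_lit 5) (nat_lit 0x38001c0000000000000000000000000000000) (nat_lit 0x0) (nat_lit 0x800040000000600038000800040000000000000000000) := T_1 (nat_lit 129) (nat_lit 130) (nat_lit 1) (nat_lit 11) (nat_lit 7) L26062 (by decide +kernel)
theorem L68672 : W_1 (nat_lit 2) (nat_lit 0x38001e0008000000000000000000000000000) (nat_lit 0x0) (nat_lit 0x20000000000000000400020000000000000000000) := D_1 (nat_lit 94) (nat_lit 77) (nat_lit 161) (nat_lit 5) (nat_lit 9) (nat_lit 4) (nat_lit 5) (nat_lit 9) (nat_lit 5) (by decide +kernel)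
theorem L68673 : W_1 (nat_lit 3) (nat_lit 0x38001e0000000000000000000000000000000) (nat_lit 0x0) (nat_lit 0x20000000000018000400020000000000000000000) := T_1 (nat_lit 111) (nat_lit 112) (nat_lit 2) (nat_lit 6) (nat_lit 7) L68672 (by decide +kernel)
theorem L68674 : W_1 (nat_lit 4) (nat_lit 0x38001c0000000000000000000000000000000) (nat_lit 0x0) (nat_lit 0x20000000030018000400020000000000000000000) := T_1 (nat_lit 125) (nat_lit 124) (nat_lit 3) (nat_lit 5) (nat_lit 7) L68673 (by decide +kernel)
theorem L71053 : W_1 (nat_lit 2) (nat_lit 0x19000f0006000600000000000000000000000) (nat_lit 0x0) (nat_lit 0x1c00000000000000000000000000) := D_1 (nat_lit 107) (nat_lit 106) (nat_lit 108) (nat_lit 0) (nat_lit 8) (nat_lit 7) (nat_lit 2) (nat_lit 5) (nat_lit 6) (by decide +kernel)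
theorem L71054 : W_1 (nat_lit 3) (nat_lit 0x19000f0006000200000000000000000000000) (nat_lit 0x0) (nat_lit 0x1c00400020000000000000000000) := T_1 (nat_lit 94) (nat_lit 77) (nat_lit 6) (nat_lit 8) (nat_lit 8) L71053 (by decide +kernel)
theorem L71055 : W_1 (nat_lit 4) (nat_lit 0x18000f0006000200000000000000000000000) (nat_lit 0x0) (nat_lit 0x300000001c00400020000000000000000000) := T_1 (nat_lit 140) (nat_lit 141) (nat_lit 1) (nat_lit 8) (nat_lit 7) L71054 (by decide +kernel)
theorem L71056 : W_1 (nat_lit 5) (nat_lit 0x18000f0006000000000000000000000000000) (nat_lit 0x0) (nat_lit 0x300000001c00600030000000000000000000) := T_1 (nat_lit 93) (nat_lit 76) (nat_lit 5) (nat_lit 8) (nat_lit 4) L71055 (by decide +kernel)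
theorem L71057 : W_1 (nat_lit 6) (nat_lit 0x18000f0002000000000000000000000000000) (nat_lit 0x0) (nat_lit 0x30000000dc00600030000000000000000000) := T_1 (nat_lit 110) (nat_lit 111) (nat_lit 2) (nat_lit 5) (nat_lit 7) L71056 (by decide +kernel)
theorem L71058 : W_1 (nat_lit 7) (nat_lit 0x18000e0002000000000000000000000000000) (nat_lit 0x0) (nat_lit 0x30001800dc00600030000000000000000000) := T_1 (nat_lit 124) (nat_lit 123) (nat_lit 3) (nat_lit 4) (nat_lit 7) L71057 (by decide +kernel)
theorem L71059 : W_1 (nat_lit 2) (nat_lit 0x1e000e8002000180000000000000000000000) (nat_lit 0x0) (nat_lit 0x6000000000001000000000000000000000000000) := D_1 (nat_lit 158) (nat_lit 157) (nat_lit 108) (nat_lit 1) (nat_lit 8) (nat_lit 8) (nat_lit 5) (nat_lit 6) (nat_lit 5) (by decide +kernel)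
theorem L71060 : W_1 (nat_lit 3) (nat_lit 0x1e000e8002000100000000000000000000000) (nat_lit 0x0) (nat_lit 0x6000000000001000080004000000000000000000) := T_1 (nat_lit 91) (nat_lit 74) (nat_lit 4) (nat_lit 7) (nat_lit 8) L71059 (by decide +kernel)
theorem L71061 : W_1 (nat_lit 4) (nat_lit 0x1c000e8002000100000000000000000000000) (nat_lit 0x0) (nat_lit 0x6000300000001000080004000000000000000000) := T_1 (nat_lit 141) (nat_lit 140) (nat_lit 2) (nat_lit 4) (nat_lit 8) L71060 (by decide +kernel)
theorem L71062 : W_1 (nat_lit 5) (nat_lit 0x18000e8002000100000000000000000000000) (nat_lit 0x0) (nat_lit 0xe000700000001000080004000000000000000000) := T_1 (nat_lit 142) (nat_lit 159) (nat_lit 5) (nat_lit 7) (nat_lit 5) L71061 (by decide +kernel)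
theorem L71063 : W_1 (nat_lit 6) (nat_lit 0x18000e8002000000000000000000000000000) (nat_lit 0x0) (nat_lit 0xe00070000000100018000c000000000000000000) := T_1 (nat_lit 92) (nat_lit 75) (nat_lit 7) (nat_lit 7) (nat_lit 4) L71062 (by decide +kernel)
theorem L71064 : W_1 (nat_lit 7) (nat_lit 0x18000e0002000000000000000000000000000) (nat_lit 0x0) (nat_lit 0xe00070001800100018000c000000000000000000) := T_1 (nat_lit 123) (nat_lit 124) (nat_lit 3) (nat_lit 4) (nat_lit 7) L71063 (by decide +kernel)
theorem L71065 : W_1 (nat_lit 2) (nat_lit 0x18000f0006800200008000000000000000000) (nat_lit 0x0) (nat_lit 0x1000400020000000000000000000) := D_1 (nat_lit 94) (nat_lit 77) (nat_lit 108) (nat_lit 6) (nat_lit 8) (nat_lit 8) (nat_lit 2) (nat_lit 5) (nat_lit 6) (by decide +kernel)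
theorem L71066 : W_1 (nat_lit 3) (nat_lit 0x18000f0006000200008000000000000000000) (nat_lit 0x0) (nat_lit 0x1c00400020000000000000000000) := T_1 (nat_lit 107) (nat_lit 106) (nat_lit 0) (nat_lit 8) (nat_lit 7) L71065 (by decide +kernel)
theorem L71067 : W_1 (nat_lit 4) (nat_lit 0x18000f0006000000008000000000000000000) (nat_lit 0x0) (nat_lit 0x1c00600030000000000000000000) := T_1 (nat_lit 93) (nat_lit 76) (nat_lit 5) (nat_lit 8) (nat_lit 4) L71066 (by decide +kernel)
theorem L71068 : W_1 (nat_lit 5) (nat_lit 0x18000f0002000000008000000000000000000) (nat_lit 0x0) (nat_lit 0xdc00600030000000000000000000) := T_1 (nat_lit 110) (nat_lit 111) (nat_lit 2) (nat_lit 5) (nat_lit 7) L71067 (by decide +kernel)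
theorem L71069 : W_1 (nat_lit 6) (nat_lit 0x18000e0002000000008000000000000000000) (nat_lit 0x0) (nat_lit 0x1800dc00600030000000000000000000) := T_1 (nat_lit 124) (nat_lit 123) (nat_lit 3) (nat_lit 4) (nat_lit 7) L71068 (by decide +kernel)
theorem L71070 : W_1 (nat_lit 7) (nat_lit 0x18000e0002000000000000000000000000000) (nat_lit 0x0) (nat_lit 0x1800dc00700038000000000000000000) := T_1 (nat_lit 75) (nat_lit 92) (nat_lit 7) (nat_lit 7) (nat_lit 4) L71069 (by decide +kernel)
theorem L71071 : W_1 (nat_lit 2) (nat_lit 0x1d000f0006800180010000000000000000000) (nat_lit 0x0) (nat_lit 0x60002000000000000000000) := D_1 (nat_lit 90) (nat_lit 89) (nat_lit 73) (nat_lit 3) (nat_lit 4) (nat_lit 5) (nat_lit 7) (nat_lit 5) (nat_lit 4) (by decide +kernel)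
theorem L71072 : W_1 (nat_lit 3) (nat_lit 0x1d000f0002800180010000000000000000000) (nat_lit 0x0) (nat_lit 0xc000060002000000000000000000) := T_1 (nat_lit 110) (nat_lit 111) (nat_lit 2) (nat_lit 5) (nat_lit 7) L71071 (by decide +kernel)
theorem L71073 : W_1 (nat_lit 4) (nat_lit 0x1d000f0002000180010000000000000000000) (nat_lit 0x0) (nat_lit 0xcc00060002000000000000000000) := T_1 (nat_lit 107) (nat_lit 106) (nat_lit 0) (nat_lit 8) (nat_lit 7) L71072 (by decide +kernel)
theorem L71074 : W_1 (nat_lit 5) (nat_lit 0x1d000f0002000180000000000000000000000) (nat_lit 0x0) (nat_lit 0xcc00260012000000000000000000) := T_1 (nat_lit 76) (nat_lit 93) (nat_lit 6) (nat_lit 7) (nat_lit 8) L71073 (by decide +kernel)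
theorem L71075 : W_1 (nat_lit 6) (nat_lit 0x1d000f0002000100000000000000000000000) (nat_lit 0x0) (nat_lit 0xcc002e0016000000000000000000) := T_1 (nat_lit 91) (nat_lit 74) (nat_lit 4) (nat_lit 7) (nat_lit 8) L71074 (by decide +kernel)
theorem L71076 : W_1 (nat_lit 7) (nat_lit 0x19000f0002000100000000000000000000000) (nat_lit 0x0) (nat_lit 0x800040000000cc002e0016000000000000000000) := T_1 (nat_lit 142) (nat_lit 159) (nat_lit 5) (nat_lit 7) (nat_lit 5) L71075 (by decide +kernel)
theorem L71077 : W_1 (nat_lit 8) (nat_lit 0x18000f0002000100000000000000000000000) (nat_lit 0x0) (nat_lit 0x800070000000cc002e0016000000000000000000) := T_1 (nat_lit 140) (nat_lit 141) (nat_lit 1) (nat_lit 8) (nat_lit 7) L71076 (by decide +kernel)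
theorem L71078 : W_1 (nat_lit 9) (nat_lit 0x18000f0002000000000000000000000000000) (nat_lit 0x0) (nat_lit 0x800070000000cc003e001e000000000000000000) := T_1 (nat_lit 92) (nat_lit 75) (nat_lit 7) (nat_lit 7) (nat_lit 4) L71077 (by decide +kernel)
theorem L71079 : W_1 (nat_lit 10) (nat_lit 0x18000e0002000000000000000000000000000) (nat_lit 0x0) (nat_lit 0x800070001800cc003e001e000000000000000000) := T_1 (nat_lit 124) (nat_lit 123) (nat_lit 3) (nat_lit 4) (nat_lit 7) L71078 (by decide +kernel)
theorem L71081 : W_1 (nat_lit 2) (nat_lit 0x24001e000f0002400000000000000000000000000) (nat_lit 0x0) (nat_lit 0x80000000000000001000080000000000000000000000) := D_1 (nat_lit 108) (nat_lit 91) (nat_lit 175) (nat_lit 5) (nat_lit 6) (nat_lit 5) (nat_lit 6) (nat_lit 5) (nat_lit 10) (by decide +kernel)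
theorem L71082 : W_1 (nat_lit 3) (nat_lit 0x20001e000f0002400000000000000000000000000) (nat_lit 0x0) (nat_lit 0x80006000000000001000080000000000000000000000) := T_1 (nat_lit 158) (nat_lit 157) (nat_lit 1) (nat_lit 8) (nat_lit 8) L71081 (by decide +kernel)
theorem L71083 : W_1 (nat_lit 4) (nat_lit 0x20001a000f0002400000000000000000000000000) (nat_lit 0x0) (nat_lit 0x80046000400000001000080000000000000000000000) := T_1 (nat_lit 142) (nat_lit 162) (nat_lit 3) (nat_lit 5) (nat_lit 8) L71082 (by decide +kernel)
theorem L71084 : W_1 (nat_lit 5) (nat_lit 0x200018000f0002400000000000000000000000000) (nat_lit 0x0) (nat_lit 0x80046000700000001000080000000000000000000000) := T_1 (nat_lit 141) (nat_lit 140) (nat_lit 1) (nat_lit 8) (nat_lit 7) L71083 (by decide +kernel)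
theorem L71085 : W_1 (nat_lit 6) (nat_lit 0x200018000f0002000000000000000000000000000) (nat_lit 0x0) (nat_lit 0x80046000700000001c00080000000000000000000000) := T_1 (nat_lit 106) (nat_lit 107) (nat_lit 0) (nat_lit 8) (nat_lit 7) L71084 (by decide +kernel)
theorem L71086 : W_1 (nat_lit 7) (nat_lit 0x18000f0002000000000000000000000000000) (nat_lit 0x0) (nat_lit 0x480066000700000001c00080000000000000000000000) := T_1 (nat_lit 161) (nat_lit 178) (nat_lit 4) (nat_lit 8) (nat_lit 10) L71085 (by decide +kernel)
theorem L72125 : W_1 (nat_lit 2) (nat_lit 0x18001e0001000000000000000000000000000) (nat_lit 0x0) (nat_lit 0x600002000000000000000000000000000) := D_1 (nat_lit 129) (nat_lit 109) (nat_lit 130) (nat_lit 0) (nat_lit 10) (nat_lit 7) (nat_lit 1) (nat_lit 11) (nat_lit 7) (by decide +kernel)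
theorem L72136 : W_1 (nat_lit 4) (nat_lit 0x18001e0000000000000000000000000000000) (nat_lit 0x0) (nat_lit 0x20006000000018000400020000000000000000000) := T_1 (nat_lit 145) (nat_lit 146) (nat_lit 3) (nat_lit 6) (nat_lit 7) L68673 (by decide +kernel)
theorem L72237 : W_1 (nat_lit 2) (nat_lit 0x18001f0000800000000000000000000000000) (nat_lit 0x0) (nat_lit 0x400600000000000000000000000000000000) := D_1 (nat_lit 129) (nat_lit 142) (nat_lit 130) (nat_lit 1) (nat_lit 10) (nat_lit 7) (nat_lit 1) (nat_lit 11) (nat_lit 7) (by decide +kernel)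
theorem L72238 : W_1 (nat_lit 3) (nat_lit 0x18000f0000800000000000000000000000000) (nat_lit 0x0) (nat_lit 0x400700001000000000000000000000000000) := T_1 (nat_lit 128) (nat_lit 108) (nat_lit 0) (nat_lit 9) (nat_lit 7) L72237 (by decide +kernel)
theorem L72239 : W_1 (nat_lit 4) (nat_lit 0x18000f0000000000000000000000000000000) (nat_lit 0x0) (nat_lit 0x400700001c00000000000000000000000000) := T_1 (nat_lit 107) (nat_lit 106) (nat_lit 0) (nat_lit 8) (nat_lit 7) L72238 (by decide +kernel)
theorem L72240 : W_1 (nat_lit 5) (nat_lit 0x18000e0000000000000000000000000000000) (nat_lit 0x0) (nat_lit 0x400718001c00000000000000000000000000) := T_1 (nat_lit 124) (nat_lit 123) (nat_lit 3) (nat_lit 4) (nat_lit 7) L72239 (by decide +kernel)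
theorem L72241 : W_1 (nat_lit 2) (nat_lit 0x18000e0002000000000000000000000000000) (nat_lit 0x0) (nat_lit 0x20000000000000000100008000000000000000000) := D_1 (nat_lit 92) (nat_lit 161) (nat_lit 75) (nat_lit 7) (nat_lit 7) (nat_lit 5) (nat_lit 7) (nat_lit 7) (nat_lit 4) (by decide +kernel)
theorem L72281 : W_1 (nat_lit 2) (nat_lit 0x200018000c000e000000000000000000000000000) (nat_lit 0x0) (nat_lit 0x20030000000000000000000000000000) := D_1 (nat_lit 112) (nat_lit 125) (nat_lit 113) (nat_lit 1) (nat_lit 10) (nat_lit 6) (nat_lit 1) (nat_lit 11) (nat_lit 6) (by decide +kernel)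
theorem L72537 : W_1 (nat_lit 2) (nat_lit 0x200018000c0000000000000000000000000000000) (nat_lit 0x0) (nat_lit 0x8000400000000000000002000000000000000000000000000) := D_1 (nat_lit 178) (nat_lit 109) (nat_lit 195) (nat_lit 4) (nat_lit 8) (nat_lit 10) (nat_lit 4) (nat_lit 8) (nat_lit 11) (by decide +kernel)
theorem L72540 : W_1 (nat_lit 12) (nat_lit 0x18001c0000000000000000000000000000000) (nat_lit 0x0) (nat_lit 0x300018000c00070003801bc005c002e000000000000000000) := Q_1 (nat_lit 125) (C_1 L21711 (C_1 L20975 (C_1 L20987 N_1))) (by decide +kernel)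
theorem L72564 : W_1 (nat_lit 2) (nat_lit 0x20001c001e0009000080000000000000000000000) (nat_lit 0x0) (nat_lit 0x2000100008000000000000000000) := D_1 (nat_lit 92) (nat_lit 109) (nat_lit 75) (nat_lit 7) (nat_lit 7) (nat_lit 5) (nat_lit 6) (nat_lit 6) (nat_lit 8) (by decide +kernel)
theorem L72565 : W_1 (nat_lit 3) (nat_lit 0x1c001e0009000080000000000000000000000) (nat_lit 0x0) (nat_lit 0x400020000000000002000100008000000000000000000) := T_1 (nat_lit 161) (nat_lit 178) (nat_lit 6) (nat_lit 8) (nat_lit 10) L72564 (by decide +kernel)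
theorem L72566 : W_1 (nat_lit 4) (nat_lit 0x1c001e0009000000000000000000000000000) (nat_lit 0x0) (nat_lit 0x40002000000000000200018000c000000000000000000) := T_1 (nat_lit 91) (nat_lit 74) (nat_lit 7) (nat_lit 6) (nat_lit 4) L72565 (by decide +kernel)
theorem L72567 : W_1 (nat_lit 5) (nat_lit 0x1c001e0001000000000000000000000000000) (nat_lit 0x0) (nat_lit 0x40002000000000001a00018000c000000000000000000) := T_1 (nat_lit 111) (nat_lit 112) (nat_lit 2) (nat_lit 6) (nat_lit 7) L72566 (by decide +kernel)
theorem L72568 : W_1 (nat_lit 6) (nat_lit 0x1c001e0000000000000000000000000000000) (nat_lit 0x0) (nat_lit 0x40002000000000001b80018000c000000000000000000) := T_1 (nat_lit 108) (nat_lit 107) (nat_lit 0) (nat_lit 9) (nat_lit 7) L72567 (by decide +kernel)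
theorem L72591 : W_1 (nat_lit 2) (nat_lit 0x1c001c0006800380020000000000000000000) (nat_lit 0x0) (nat_lit 0x400060000000000000000000000) := D_1 (nat_lit 90) (nat_lit 106) (nat_lit 89) (nat_lit 1) (nat_lit 8) (nat_lit 5) (nat_lit 3) (nat_lit 4) (nat_lit 5) (by decide +kernel)
theorem L72592 : W_1 (nat_lit 3) (nat_lit 0x1c001c0006000380020000000000000000000) (nat_lit 0x0) (nat_lit 0x1c00060000000000000000000000) := T_1 (nat_lit 107) (nat_lit 108) (nat_lit 3) (nat_lit 5) (nat_lit 6) L72591 (by decide +kernel)
theorem L72593 : W_1 (nat_lit 4) (nat_lit 0x1c001c0006000300020000000000000000000) (nat_lit 0x0) (nat_lit 0x1c000e0004000000000000000000) := T_1 (nat_lit 91) (nat_lit 74) (nat_lit 4) (nat_lit 7) (nat_lit 8) L72592 (by decide +kernel)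
theorem L72599 : W_1 (nat_lit 2) (nat_lit 0x18001c0002000000000000000000000000000) (nat_lit 0x0) (nat_lit 0x20000000000000000100008000000000000000000) := D_1 (nat_lit 92) (nat_lit 161) (nat_lit 75) (nat_lit 7) (nat_lit 7) (nat_lit 5) (nat_lit 7) (nat_lit 7) (nat_lit 4) (by decide +kernel)
theorem L72600 : W_1 (nat_lit 2) (nat_lit 0x1c001e0001000180000000000000000000000) (nat_lit 0x0) (nat_lit 0x28000000000002000000000000000000000000000) := D_1 (nat_lit 109) (nat_lit 159) (nat_lit 161) (nat_lit 6) (nat_lit 6) (nat_lit 9) (nat_lit 7) (nat_lit 7) (nat_lit 5) (by decide +kernel)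
theorem L72601 : W_1 (nat_lit 3) (nat_lit 0x1c001e0001000080000000000000000000000) (nat_lit 0x0) (nat_lit 0x28000000000002000100008000000000000000000) := T_1 (nat_lit 92) (nat_lit 75) (nat_lit 6) (nat_lit 6) (nat_lit 8) L72600 (by decide +kernel)
theorem L72602 : W_1 (nat_lit 4) (nat_lit 0x1c001e0001000000000000000000000000000) (nat_lit 0x0) (nat_lit 0x2800000000000200018000c000000000000000000) := T_1 (nat_lit 91) (nat_lit 74) (nat_lit 7) (nat_lit 6) (nat_lit 4) L72601 (by decide +kernel)
theorem L72603 : W_1 (nat_lit 5) (nat_lit 0x1c001e0000000000000000000000000000000) (nat_lit 0x0) (nat_lit 0x2800000000000380018000c000000000000000000) := T_1 (nat_lit 108) (nat_lit 107) (nat_lit 0) (nat_lit 9) (nat_lit 7) L72602 (by decide +kernel)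
theorem L72604 : W_1 (nat_lit 6) (nat_lit 0x18001e0000000000000000000000000000000) (nat_lit 0x0) (nat_lit 0x2800060000000380018000c000000000000000000) := T_1 (nat_lit 142) (nat_lit 141) (nat_lit 2) (nat_lit 5) (nat_lit 8) L72603 (by decide +kernel)
theorem L72605 : W_1 (nat_lit 7) (nat_lit 0x18001c0000000000000000000000000000000) (nat_lit 0x0) (nat_lit 0x28000700038003c0018000c000000000000000000) := Q_1 (nat_lit 125) (C_1 L21711 (C_1 L20975 (C_1 L72604 N_1))) (by decide +kernel)
theorem L72606 : W_1 (nat_lit 8) (nat_lit 0x18000c0000000000000000000000000000000) (nat_lit 0x0) (nat_lit 0x28000700738003c0018000c000000000000000000) := Q_1 (nat_lit 128) (C_1 L2912 (C_1 L2678 (C_1 L72605 N_1))) (by decide +kernel)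
theorem L72621 : W_1 (nat_lit 2) (nat_lit 0x1a000f0001800000000000000000000000000) (nat_lit 0x0) (nat_lit 0x4000000000000000080004000000000000000000) := D_1 (nat_lit 91) (nat_lit 74) (nat_lit 158) (nat_lit 7) (nat_lit 6) (nat_lit 4) (nat_lit 6) (nat_lit 5) (nat_lit 9) (by decide +kernel)
theorem L72622 : W_1 (nat_lit 3) (nat_lit 0x1a000f0000800000000000000000000000000) (nat_lit 0x0) (nat_lit 0x4000000100001000080004000000000000000000) := T_1 (nat_lit 108) (nat_lit 128) (nat_lit 0) (nat_lit 9) (nat_lit 7) L72621 (by decide +kernel)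
theorem L72623 : W_1 (nat_lit 4) (nat_lit 0x1a000f0000000000000000000000000000000) (nat_lit 0x0) (nat_lit 0x4000000100001c00080004000000000000000000) := T_1 (nat_lit 107) (nat_lit 106) (nat_lit 0) (nat_lit 8) (nat_lit 7) L72622 (by decide +kernel)
theorem L72624 : W_1 (nat_lit 5) (nat_lit 0x18000f0000000000000000000000000000000) (nat_lit 0x0) (nat_lit 0x4000300100001c00080004000000000000000000) := T_1 (nat_lit 141) (nat_lit 140) (nat_lit 1) (nat_lit 8) (nat_lit 7) L72623 (by decide +kernel)
theorem L72625 : W_1 (nat_lit 6) (nat_lit 0x18000e0000000000000000000000000000000) (nat_lit 0x0) (nat_lit 0x4000300118001c00080004000000000000000000) := T_1 (nat_lit 124) (nat_lit 123) (nat_lit 3) (nat_lit 4) (nat_lit 7) L72624 (by decide +kernel)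
theorem L72626 : W_1 (nat_lit 3) (nat_lit 0x18001e0000000000000000000000000000000) (nat_lit 0x0) (nat_lit 0x600003800000000000000000000000000) := T_1 (nat_lit 108) (nat_lit 107) (nat_lit 0) (nat_lit 9) (nat_lit 7) L72125 (by decide +kernel)
theorem L72700 : W_1 (nat_lit 5) (nat_lit 0x18000e0000000000000000000000000000000) (nat_lit 0x0) (nat_lit 0x2000600070001b800400020000000000000000000) := Q_1 (nat_lit 128) (C_1 L72626 (C_1 L72136 N_1)) (by decide +kernel)
theorem L72701 : W_1 (nat_lit 7) (nat_lit 0x18000c0000000000000000000000000000000) (nat_lit 0x0) (nat_lit 0x2400630073801bc00480024000000000000000000) := Q_1 (nat_lit 125) (C_1 L72625 (C_1 L1811 (C_1 L72700 N_1))) (by decide +kernel)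
theorem L72702 : W_1 (nat_lit 2) (nat_lit 0x58001e0000000000000000000000000000000) (nat_lit 0x0) (nat_lit 0x8000600000000000000000000000000000000) := D_1 (nat_lit 129) (nat_lit 130) (nat_lit 147) (nat_lit 1) (nat_lit 11) (nat_lit 7) (nat_lit 3) (nat_lit 7) (nat_lit 7) (by decide +kernel)
theorem L72703 : W_1 (nat_lit 3) (nat_lit 0x18001e0000000000000000000000000000000) (nat_lit 0x0) (nat_lit 0xe000600000000000000000000000000000000) := T_1 (nat_lit 146) (nat_lit 145) (nat_lit 3) (nat_lit 6) (nat_lit 7) L72702 (by decide +kernel)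
theorem L72776 : W_1 (nat_lit 2) (nat_lit 0x200038000c0000000000000000000000000000000) (nat_lit 0x0) (nat_lit 0xc000020000000000000000000000000000000) := D_1 (nat_lit 146) (nat_lit 125) (nat_lit 147) (nat_lit 0) (nat_lit 10) (nat_lit 8) (nat_lit 0) (nat_lit 11) (nat_lit 8) (by decide +kernel)
theorem L72785 : W_1 (nat_lit 2) (nat_lit 0x200058003f0010000000000000000000000000000) (nat_lit 0x0) (nat_lit 0x1c00000000000000000000000000) := D_1 (nat_lit 107) (nat_lit 108) (nat_lit 106) (nat_lit 0) (nat_lit 9) (nat_lit 7) (nat_lit 0) (nat_lit 8) (nat_lit 7) (by decide +kernel)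
theorem L72786 : W_1 (nat_lit 3) (nat_lit 0x200058003e0010000000000000000000000000000) (nat_lit 0x0) (nat_lit 0x18001c00000000000000000000000000) := T_1 (nat_lit 124) (nat_lit 123) (nat_lit 3) (nat_lit 4) (nat_lit 7) L72785 (by decide +kernel)
theorem L72787 : W_1 (nat_lit 4) (nat_lit 0x200058003c0010000000000000000000000000000) (nat_lit 0x0) (nat_lit 0x2000038001c00000000000000000000000000) := T_1 (nat_lit 125) (nat_lit 145) (nat_lit 3) (nat_lit 6) (nat_lit 7) L72786 (by decide +kernel)
theorem L72788 : W_1 (nat_lit 5) (nat_lit 0x200018003c0010000000000000000000000000000) (nat_lit 0x0) (nat_lit 0xe000038001c00000000000000000000000000) := T_1 (nat_lit 146) (nat_lit 147) (nat_lit 3) (nat_lit 7) (nat_lit 7) L72787 (by decide +kernel)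
theorem L72789 : W_1 (nat_lit 6) (nat_lit 0x200018003c0000000000000000000000000000000) (nat_lit 0x0) (nat_lit 0xe000038031c00000000000000000000000000) := T_1 (nat_lit 112) (nat_lit 113) (nat_lit 2) (nat_lit 7) (nat_lit 7) L72788 (by decide +kernel)
theorem L72790 : W_1 (nat_lit 7) (nat_lit 0x200018001c0000000000000000000000000000000) (nat_lit 0x0) (nat_lit 0xe000638031c00000000000000000000000000) := T_1 (nat_lit 129) (nat_lit 130) (nat_lit 1) (nat_lit 11) (nat_lit 7) L72789 (by decide +kernel)
theorem L72849 : W_1 (nat_lit 2) (nat_lit 0x18000d0002000000000000000000000000000) (nat_lit 0x0) (nat_lit 0x20000000000000000100008000000000000000000) := D_1 (nat_lit 92) (nat_lit 161) (nat_lit 75) (nat_lit 7) (nat_lit 7) (nat_lit 5) (nat_lit 7) (nat_lit 7) (nat_lit 4) (by decide +kernel)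
theorem L72895 : W_1 (nat_lit 2) (nat_lit 0x1a000d00078003c0021000000000000000000) (nat_lit 0x0) (nat_lit 0x2000100020000000000000000000000000000000) := D_1 (nat_lit 140) (nat_lit 157) (nat_lit 125) (nat_lit 5) (nat_lit 5) (nat_lit 5) (nat_lit 1) (nat_lit 8) (nat_lit 7) (by decide +kernel)
theorem L72896 : W_1 (nat_lit 3) (nat_lit 0x18000d00078003c0021000000000000000000) (nat_lit 0x0) (nat_lit 0x6000300020000000000000000000000000000000) := T_1 (nat_lit 141) (nat_lit 158) (nat_lit 6) (nat_lit 5) (nat_lit 9) L72895 (by decide +kernel)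
theorem L72897 : W_1 (nat_lit 4) (nat_lit 0x18000c00078003c0021000000000000000000) (nat_lit 0x0) (nat_lit 0x6000300038000000000000000000000000000000) := T_1 (nat_lit 124) (nat_lit 123) (nat_lit 1) (nat_lit 8) (nat_lit 6) L72896 (by decide +kernel)
theorem L72898 : W_1 (nat_lit 5) (nat_lit 0x18000c00068003c0021000000000000000000) (nat_lit 0x0) (nat_lit 0x6000300138001000000000000000000000000000) := T_1 (nat_lit 108) (nat_lit 128) (nat_lit 3) (nat_lit 5) (nat_lit 6) L72897 (by decide +kernel)
theorem L72899 : W_1 (nat_lit 6) (nat_lit 0x18000c00068003c0020000000000000000000) (nat_lit 0x0) (nat_lit 0x6000300138001000000003000000000000000000) := T_1 (nat_lit 72) (nat_lit 73) (nat_lit 0) (nat_lit 8) (nat_lit 5) L72898 (by decide +kernel)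
theorem L72900 : W_1 (nat_lit 7) (nat_lit 0x18000c00060003c0020000000000000000000) (nat_lit 0x0) (nat_lit 0x6000300138001c00000003000000000000000000) := T_1 (nat_lit 107) (nat_lit 106) (nat_lit 1) (nat_lit 8) (nat_lit 5) L72899 (by decide +kernel)
theorem L72901 : W_1 (nat_lit 8) (nat_lit 0x18000c0006000380020000000000000000000) (nat_lit 0x0) (nat_lit 0x6000300138001c00060003000000000000000000) := T_1 (nat_lit 90) (nat_lit 89) (nat_lit 3) (nat_lit 4) (nat_lit 5) L72900 (by decide +kernel)
theorem L72902 : W_1 (nat_lit 9) (nat_lit 0x18000c0006000300020000000000000000000) (nat_lit 0x0) (nat_lit 0x6000300138001c000e0007000000000000000000) := T_1 (nat_lit 91) (nat_lit 74) (nat_lit 4) (nat_lit 7) (nat_lit 8) L72901 (by decide +kernel)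
theorem L72946 : W_1 (nat_lit 3) (nat_lit 0x58003c0010000000000000000000000000000) (nat_lit 0x0) (nat_lit 0x40002000020000000800040000000000000000000) := T_1 (nat_lit 145) (nat_lit 125) (nat_lit 3) (nat_lit 6) (nat_lit 7) L486 (by decide +kernel)
theorem L72947 : W_1 (nat_lit 4) (nat_lit 0x18003c0010000000000000000000000000000) (nat_lit 0x0) (nat_lit 0x4000e000020000000800040000000000000000000) := T_1 (nat_lit 146) (nat_lit 147) (nat_lit 3) (nat_lit 7) (nat_lit 7) L72946 (by decide +kernel)
theorem L72948 : W_1 (nat_lit 5) (nat_lit 0x18003c0000000000000000000000000000000) (nat_lit 0x0) (nat_lit 0x4000e000020030000800040000000000000000000) := T_1 (nat_lit 112) (nat_lit 113) (nat_lit 2) (nat_lit 7) (nat_lit 7) L72947 (by decide +kernel)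
theorem L72949 : W_1 (nat_lit 6) (nat_lit 0x18001c0000000000000000000000000000000) (nat_lit 0x0) (nat_lit 0x4000e000620030000800040000000000000000000) := T_1 (nat_lit 129) (nat_lit 130) (nat_lit 1) (nat_lit 11) (nat_lit 7) L72948 (by decide +kernel)
theorem L72950 : W_1 (nat_lit 2) (nat_lit 0x18001e0000000000000000000000000000000) (nat_lit 0x0) (nat_lit 0x6000010000000000000000000000000000000) := D_1 (nat_lit 145) (nat_lit 146) (nat_lit 124) (nat_lit 3) (nat_lit 6) (nat_lit 7) (nat_lit 3) (nat_lit 5) (nat_lit 7) (by decide +kernel)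
theorem L72952 : W_1 (nat_lit 2) (nat_lit 0x200018001c0000000000000000000000000000000) (nat_lit 0x0) (nat_lit 0x400000000000000002000100000000000000000000000) := D_1 (nat_lit 109) (nat_lit 178) (nat_lit 92) (nat_lit 4) (nat_lit 8) (nat_lit 10) (nat_lit 7) (nat_lit 7) (nat_lit 5) (by decide +kernel)
theorem L73113 : W_1 (nat_lit 2) (nat_lit 0x18000c0006000700004000000000000000000) (nat_lit 0x0) (nat_lit 0x1800800000000000000000000000) := D_1 (nat_lit 108) (nat_lit 107) (nat_lit 95) (nat_lit 2) (nat_lit 5) (nat_lit 6) (nat_lit 1) (nat_lit 10) (nat_lit 5) (by decide +kernel)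
theorem L73114 : W_1 (nat_lit 3) (nat_lit 0x18000c0006000300004000000000000000000) (nat_lit 0x0) (nat_lit 0x1800c00020000000000000000000) := T_1 (nat_lit 94) (nat_lit 77) (nat_lit 6) (nat_lit 8) (nat_lit 8) L73113 (by decide +kernel)
theorem L73115 : W_1 (nat_lit 4) (nat_lit 0x18000c0006000300000000000000000000000) (nat_lit 0x0) (nat_lit 0x1800c80024000000000000000000) := T_1 (nat_lit 74) (nat_lit 91) (nat_lit 4) (nat_lit 7) (nat_lit 8) L73114 (by decide +kernel)
theorem L73116 : W_1 (nat_lit 5) (nat_lit 0x18000c0006000100000000000000000000000) (nat_lit 0x0) (nat_lit 0x1800e80034000000000000000000) := T_1 (nat_lit 93) (nat_lit 76) (nat_lit 6) (nat_lit 7) (nat_lit 8) L73115 (by decide +kernel)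
theorem L73117 : W_1 (nat_lit 6) (nat_lit 0x18000c0006000000000000000000000000000) (nat_lit 0x0) (nat_lit 0x1800f8003c000000000000000000) := T_1 (nat_lit 92) (nat_lit 75) (nat_lit 7) (nat_lit 7) (nat_lit 4) L73116 (by decide +kernel)
theorem L73118 : W_1 (nat_lit 7) (nat_lit 0x18000c0002000000000000000000000000000) (nat_lit 0x0) (nat_lit 0x1d801fe003c000000000000000000) := Q_1 (nat_lit 110) (C_1 L22729 (C_1 L22211 (C_1 L22684 (C_1 L73117 N_1)))) (by decide +kernel)
theorem L73783 : W_1 (nat_lit 2) (nat_lit 0x14000400020001800380000000000000000000000000000000) (nat_lit 0x0) (nat_lit 0x280008000000000000000000000000000000000000000000000000) := D_1 (nat_lit 195) (nat_lit 213) (nat_lit 211) (nat_lit 7) (nat_lit 8) (nat_lit 8) (nat_lit 5) (nat_lit 8) (nat_lit 8) (by decide +kernel)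
theorem L73784 : W_1 (nat_lit 3) (nat_lit 0x10000400020001800380000000000000000000000000000000) (nat_lit 0x0) (nat_lit 0x28000c000200000000000000000000000000000000000000000000) := T_1 (nat_lit 194) (nat_lit 177) (nat_lit 5) (nat_lit 8) (nat_lit 7) L73783 (by decide +kernel)
theorem L73785 : W_1 (nat_lit 4) (nat_lit 0x400020001800380000000000000000000000000000000) (nat_lit 0x0) (nat_lit 0x28001c000a00000000000000000000000000000000000000000000) := T_1 (nat_lit 196) (nat_lit 179) (nat_lit 7) (nat_lit 8) (nat_lit 7) L73784 (by decide +kernel)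
theorem L73786 : W_1 (nat_lit 5) (nat_lit 0x400020001800180000000000000000000000000000000) (nat_lit 0x0) (nat_lit 0x28001c000a00000000000600000000000000000000000000000000) := T_1 (nat_lit 129) (nat_lit 130) (nat_lit 1) (nat_lit 11) (nat_lit 7) L73785 (by decide +kernel)
theorem L73800 : W_1 (nat_lit 2) (nat_lit 0x4000400020001800180000000000000000000000000000000) (nat_lit 0x0) (nat_lit 0x80008000000000002000000000000000000000000000000000000) := D_1 (nat_lit 195) (nat_lit 145) (nat_lit 211) (nat_lit 6) (nat_lit 8) (nat_lit 11) (nat_lit 5) (nat_lit 8) (nat_lit 8) (by decide +kernel)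
theorem L73801 : W_1 (nat_lit 3) (nat_lit 0x400020001800180000000000000000000000000000000) (nat_lit 0x0) (nat_lit 0x8000c000200000002000000000000000000000000000000000000) := T_1 (nat_lit 194) (nat_lit 177) (nat_lit 5) (nat_lit 8) (nat_lit 7) L73800 (by decide +kernel)
theorem L73803 : W_1 (nat_lit 2) (nat_lit 0x400020001800180000000000000000000000000000000) (nat_lit 0x0) (nat_lit 0x8000000000002000040000000000000000000000000000000) := D_1 (nat_lit 195) (nat_lit 126) (nat_lit 145) (nat_lit 4) (nat_lit 8) (nat_lit 11) (nat_lit 6) (nat_lit 8) (nat_lit 11) (by decide +kernel)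
theorem L73827 : W_1 (nat_lit 2) (nat_lit 0x200058003f0000000000000000000000000000000) (nat_lit 0x0) (nat_lit 0x1c00000000000000000000000000) := D_1 (nat_lit 107) (nat_lit 108) (nat_lit 106) (nat_lit 0) (nat_lit 9) (nat_lit 7) (nat_lit 0) (nat_lit 8) (nat_lit 7) (by decide +kernel)
theorem L73828 : W_1 (nat_lit 3) (nat_lit 0x200058003e0000000000000000000000000000000) (nat_lit 0x0) (nat_lit 0x18001c00000000000000000000000000) := T_1 (nat_lit 124) (nat_lit 123) (nat_lit 3) (nat_lit 4) (nat_lit 7) L73827 (by decide +kernel)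
theorem L73829 : W_1 (nat_lit 4) (nat_lit 0x200058003c0000000000000000000000000000000) (nat_lit 0x0) (nat_lit 0x2000038001c00000000000000000000000000) := T_1 (nat_lit 125) (nat_lit 145) (nat_lit 3) (nat_lit 6) (nat_lit 7) L73828 (by decide +kernel)
theorem L73929 : W_1 (nat_lit 6) (nat_lit 0x1800380000000000000000000000000000000) (nat_lit 0x0) (nat_lit 0x6000e000060033000900048000000000000000000) := Q_1 (nat_lit 126) (C_1 L72948 (C_1 L2911 N_1)) (by decide +kernel)
theorem L73930 : W_1 (nat_lit 7) (nat_lit 0x1800180000000000000000000000000000000) (nat_lit 0x0) (nat_lit 0x6000e000660033000900048000000000000000000) := T_1 (nat_lit 129) (nat_lit 130) (nat_lit 1) (nat_lit 11) (nat_lit 7) L73929 (by decide +kernel)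
theorem L73943 : W_1 (nat_lit 2) (nat_lit 0x200018001c0038000500000000000000000000000) (nat_lit 0x0) (nat_lit 0xa80000000000000000000000) := D_1 (nat_lit 93) (nat_lit 95) (nat_lit 91) (nat_lit 3) (nat_lit 7) (nat_lit 5) (nat_lit 3) (nat_lit 6) (nat_lit 5) (by decide +kernel)
theorem L73944 : W_1 (nat_lit 3) (nat_lit 0x200018001c0038000100000000000000000000000) (nat_lit 0x0) (nat_lit 0xe80020000000000000000000) := T_1 (nat_lit 94) (nat_lit 77) (nat_lit 5) (nat_lit 9) (nat_lit 4) L73943 (by decide +kernel)
theorem L73945 : W_1 (nat_lit 4) (nat_lit 0x200018001c0038000000000000000000000000000) (nat_lit 0x0) (nat_lit 0x2000f80020000000000000000000) := T_1 (nat_lit 92) (nat_lit 109) (nat_lit 7) (nat_lit 7) (nat_lit 5) L73944 (by decide +kernel)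
theorem L73973 : W_1 (nat_lit 5) (nat_lit 0x20001800380000000000000000000000000000000) (nat_lit 0x0) (nat_lit 0x28001c000e00000000000000008000000000000000000000000000) := T_1 (nat_lit 178) (nat_lit 111) (nat_lit 6) (nat_lit 8) (nat_lit 10) L73785 (by decide +kernel)
theorem L73974 : W_1 (nat_lit 6) (nat_lit 0x20001800180000000000000000000000000000000) (nat_lit 0x0) (nat_lit 0x28001c000e00000000000600008000000000000000000000000000) := T_1 (nat_lit 129) (nat_lit 130) (nat_lit 1) (nat_lit 11) (nat_lit 7) L73973 (by decide +kernel)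
theorem L74070 : W_1 (nat_lit 2) (nat_lit 0x200018001c0000000000000000000000000000000) (nat_lit 0x0) (nat_lit 0x8000400000000000000008000000000000000000000000000) := D_1 (nat_lit 178) (nat_lit 111) (nat_lit 195) (nat_lit 6) (nat_lit 8) (nat_lit 10) (nat_lit 4) (nat_lit 8) (nat_lit 11) (by decide +kernel)
theorem L74085 : W_1 (nat_lit 2) (nat_lit 0x4000000018001c0000000000000000000000000000000) (nat_lit 0x0) (nat_lit 0x8000000020000000000008000000000000000000000000000) := D_1 (nat_lit 161) (nat_lit 195) (nat_lit 111) (nat_lit 4) (nat_lit 8) (nat_lit 11) (nat_lit 6) (nat_lit 8) (nat_lit 10) (by decide +kernel)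
theorem L74603 : W_1 (nat_lit 2) (nat_lit 0x78002c0006000f00044000000000000000000) (nat_lit 0x0) (nat_lit 0x100030000000000000000000000000000) := D_1 (nat_lit 112) (nat_lit 113) (nat_lit 128) (nat_lit 3) (nat_lit 7) (nat_lit 5) (nat_lit 5) (nat_lit 10) (nat_lit 4) (by decide +kernel)
theorem L74604 : W_1 (nat_lit 3) (nat_lit 0x78002c0006000f00004000000000000000000) (nat_lit 0x0) (nat_lit 0x1000300000000c0000000000000000000) := T_1 (nat_lit 78) (nat_lit 79) (nat_lit 2) (nat_lit 7) (nat_lit 5) L74603 (by decide +kernel)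
theorem L75226 : W_1 (nat_lit 3) (nat_lit 0x200018000c0006000000000000000000000000000) (nat_lit 0x0) (nat_lit 0x20038000400000000000000000000000) := T_1 (nat_lit 111) (nat_lit 94) (nat_lit 6) (nat_lit 8) (nat_lit 9) L72281 (by decide +kernel)
theorem L75227 : W_1 (nat_lit 4) (nat_lit 0x18000c0006000000000000000000000000000) (nat_lit 0x0) (nat_lit 0x400020000000020038000400000000000000000000000) := T_1 (nat_lit 161) (nat_lit 178) (nat_lit 4) (nat_lit 8) (nat_lit 10) L75226 (by decide +kernel)
theorem L79247 : W_1 (nat_lit 4) (nat_lit 0x1a000d0000000000000000000000000000000) (nat_lit 0x0) (nat_lit 0x400060000500000002000100000000000000000000000) := T_1 (nat_lit 142) (nat_lit 140) (nat_lit 2) (nat_lit 4) (nat_lit 8) L14790 (by decide +kernel)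
theorem L79348 : W_1 (nat_lit 2) (nat_lit 0x1a000d0000000000000000000000000000000) (nat_lit 0x0) (nat_lit 0x400028000000000000000000000000000000) := D_1 (nat_lit 123) (nat_lit 142) (nat_lit 125) (nat_lit 0) (nat_lit 8) (nat_lit 8) (nat_lit 3) (nat_lit 4) (nat_lit 7) (by decide +kernel)
theorem L79349 : W_1 (nat_lit 5) (nat_lit 0x18000d0000000000000000000000000000000) (nat_lit 0x0) (nat_lit 0x400060000700028002000100000000000000000000000) := Q_1 (nat_lit 141) (C_1 L79247 (C_1 L21361 (C_1 L79348 N_1))) (by decide +kernel)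
theorem L80209 : W_1 (nat_lit 7) (nat_lit 0x1c001e0009000080000000000000000000000) (nat_lit 0x0) (nat_lit 0x300018000c00000000000200054002a000000000000000000) := T_1 (nat_lit 77) (nat_lit 94) (nat_lit 5) (nat_lit 9) (nat_lit 4) L20982 (by decide +kernel)
theorem L80210 : W_1 (nat_lit 8) (nat_lit 0x1c001e0009000000000000000000000000000) (nat_lit 0x0) (nat_lit 0x300018000c0000000000020005c002e000000000000000000) := T_1 (nat_lit 91) (nat_lit 74) (nat_lit 7) (nat_lit 6) (nat_lit 4) L80209 (by decide +kernel)
theorem L80211 : W_1 (nat_lit 9) (nat_lit 0x1c001e0001000000000000000000000000000) (nat_lit 0x0) (nat_lit 0x300018000c00000000001a0005c002e000000000000000000) := T_1 (nat_lit 111) (nat_lit 112) (nat_lit 2) (nat_lit 6) (nat_lit 7) L80210 (by decide +kernel)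
theorem L80212 : W_1 (nat_lit 10) (nat_lit 0x1c001e0000000000000000000000000000000) (nat_lit 0x0) (nat_lit 0x300018000c00000000001b8005c002e000000000000000000) := T_1 (nat_lit 108) (nat_lit 107) (nat_lit 0) (nat_lit 9) (nat_lit 7) L80211 (by decide +kernel)
theorem L87367 : W_1 (nat_lit 2) (nat_lit 0x200070000c0004000400000000000000000000000) (nat_lit 0x0) (nat_lit 0x800030000000000000000000000000000000) := D_1 (nat_lit 125) (nat_lit 143) (nat_lit 124) (nat_lit 0) (nat_lit 10) (nat_lit 8) (nat_lit 3) (nat_lit 5) (nat_lit 7) (by decide +kernel)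
theorem L87368 : W_1 (nat_lit 3) (nat_lit 0x200030000c0004000400000000000000000000000) (nat_lit 0x0) (nat_lit 0xc800030000000000000000000000000000000) := T_1 (nat_lit 146) (nat_lit 147) (nat_lit 0) (nat_lit 11) (nat_lit 8) L87367 (by decide +kernel)
theorem L87369 : W_1 (nat_lit 4) (nat_lit 0x200030000c0004000000000000000000000000000) (nat_lit 0x0) (nat_lit 0xc800030008000400000000000000000000000) := T_1 (nat_lit 94) (nat_lit 111) (nat_lit 6) (nat_lit 8) (nat_lit 9) L87368 (by decide +kernel)
theorem L87383 : W_1 (nat_lit 2) (nat_lit 0x30000c0004000200018000800000000000000) (nat_lit 0x0) (nat_lit 0x20001000080000000000) := D_1 (nat_lit 60) (nat_lit 77) (nat_lit 43) (nat_lit 6) (nat_lit 8) (nat_lit 7) (nat_lit 6) (nat_lit 8) (nat_lit 6) (by decide +kernel)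
theorem L87384 : W_1 (nat_lit 3) (nat_lit 0x30000c0004000200018000000000000000000) (nat_lit 0x0) (nat_lit 0x2000000020001800080000000000) := T_1 (nat_lit 59) (nat_lit 109) (nat_lit 5) (nat_lit 8) (nat_lit 3) L87383 (by decide +kernel)
theorem L87385 : W_1 (nat_lit 4) (nat_lit 0x3000080004000200018000000000000000000) (nat_lit 0x0) (nat_lit 0x800040002000000020001800080000000000) := T_1 (nat_lit 126) (nat_lit 143) (nat_lit 5) (nat_lit 8) (nat_lit 4) L87384 (by decide +kernel)
theorem L88723 : W_1 (nat_lit 2) (nat_lit 0x78003c0006000f00004000000000000000000) (nat_lit 0x0) (nat_lit 0x80000000c0000000000000000000) := D_1 (nat_lit 78) (nat_lit 79) (nat_lit 111) (nat_lit 2) (nat_lit 7) (nat_lit 5) (nat_lit 6) (nat_lit 9) (nat_lit 8) (by decide +kernel)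
theorem L88724 : W_1 (nat_lit 3) (nat_lit 0x78003c0006000700004000000000000000000) (nat_lit 0x0) (nat_lit 0x80018000c0000000000000000000) := T_1 (nat_lit 95) (nat_lit 96) (nat_lit 1) (nat_lit 11) (nat_lit 5) L88723 (by decide +kernel)
theorem L102604 : W_1 (nat_lit 2) (nat_lit 0x40001000080004000600008000000000000000000) (nat_lit 0x0) (nat_lit 0x800020000000000008000000000000000000000000000) := D_1 (nat_lit 161) (nat_lit 111) (nat_lit 179) (nat_lit 6) (nat_lit 8) (nat_lit 9) (nat_lit 7) (nat_lit 8) (nat_lit 6) (by decide +kernel)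
theorem L102605 : W_1 (nat_lit 3) (nat_lit 0x1000080004000600008000000000000000000) (nat_lit 0x0) (nat_lit 0x800060002000000008000000000000000000000000000) := T_1 (nat_lit 162) (nat_lit 145) (nat_lit 7) (nat_lit 8) (nat_lit 5) L102604 (by decide +kernel)
theorem L102606 : W_1 (nat_lit 4) (nat_lit 0x1000080004000200008000000000000000000) (nat_lit 0x0) (nat_lit 0x800060002000000008000400020000000000000000000) := T_1 (nat_lit 94) (nat_lit 77) (nat_lit 6) (nat_lit 8) (nat_lit 8) L102605 (by decide +kernel)
theorem L102607 : W_1 (nat_lit 5) (nat_lit 0x1000080004000200000000000000000000000) (nat_lit 0x0) (nat_lit 0x800060002000000008000500028000000000000000000) := T_1 (nat_lit 75) (nat_lit 92) (nat_lit 4) (nat_lit 8) (nat_lit 8) L102606 (by decide +kernel)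
theorem L102608 : W_1 (nat_lit 6) (nat_lit 0x1000080004000000000000000000000000000) (nat_lit 0x0) (nat_lit 0x800060002000100008000700038001400000000000000) := Q_1 (nat_lit 93) (C_1 L20090 (C_1 L20059 (C_1 L20089 (C_1 L102607 N_1)))) (by decide +kernel)
theorem L102609 : W_1 (nat_lit 2) (nat_lit 0x10000c0004000200018000800000000000000) (nat_lit 0x0) (nat_lit 0x2000100008000000000000000000000000000) := D_1 (nat_lit 128) (nat_lit 145) (nat_lit 111) (nat_lit 7) (nat_lit 8) (nat_lit 4) (nat_lit 7) (nat_lit 8) (nat_lit 3) (by decide +kernel)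
theorem L102610 : W_1 (nat_lit 3) (nat_lit 0x10000c0004000200018000000000000000000) (nat_lit 0x0) (nat_lit 0x200010000a000000000000800000000000000) := T_1 (nat_lit 59) (nat_lit 109) (nat_lit 5) (nat_lit 8) (nat_lit 3) L102609 (by decide +kernel)
theorem L102611 : W_1 (nat_lit 4) (nat_lit 0x1000080004000200018000000000000000000) (nat_lit 0x0) (nat_lit 0x280014000a000000000000800000000000000) := T_1 (nat_lit 126) (nat_lit 143) (nat_lit 5) (nat_lit 8) (nat_lit 4) L102610 (by decide +kernel)
theorem L102612 : W_1 (nat_lit 5) (nat_lit 0x1000080004000200008000000000000000000) (nat_lit 0x0) (nat_lit 0x280014000a000000010000c00000000000000) := T_1 (nat_lit 76) (nat_lit 58) (nat_lit 4) (nat_lit 8) (nat_lit 7) L102611 (by decide +kernel)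
theorem L102613 : W_1 (nat_lit 6) (nat_lit 0x1000080004000200000000000000000000000) (nat_lit 0x0) (nat_lit 0x280014000a000100018000c00000000000000) := T_1 (nat_lit 75) (nat_lit 92) (nat_lit 4) (nat_lit 8) (nat_lit 8) L102612 (by decide +kernel)
theorem L102614 : W_1 (nat_lit 2) (nat_lit 0x10000c0004000200030000800000000000000) (nat_lit 0x0) (nat_lit 0x8000400020000000000) := D_1 (nat_lit 58) (nat_lit 41) (nat_lit 75) (nat_lit 4) (nat_lit 8) (nat_lit 6) (nat_lit 4) (nat_lit 8) (nat_lit 7) (by decide +kernel)
theorem L102615 : W_1 (nat_lit 3) (nat_lit 0x10000c0004000200030000000000000000000) (nat_lit 0x0) (nat_lit 0x2000000008000c00020000000000) := T_1 (nat_lit 59) (nat_lit 109) (nat_lit 5) (nat_lit 8) (nat_lit 3) L102614 (by decide +kernel)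
theorem L102616 : W_1 (nat_lit 4) (nat_lit 0x1000080004000200030000000000000000000) (nat_lit 0x0) (nat_lit 0x800040002000000008000c00020000000000) := T_1 (nat_lit 126) (nat_lit 143) (nat_lit 5) (nat_lit 8) (nat_lit 4) L102615 (by decide +kernel)
theorem L102617 : W_1 (nat_lit 5) (nat_lit 0x1000080004000200020000000000000000000) (nat_lit 0x0) (nat_lit 0x800040002000000018001c00020000000000) := T_1 (nat_lit 76) (nat_lit 60) (nat_lit 6) (nat_lit 8) (nat_lit 7) L102616 (by decide +kernel)
theorem L102618 : W_1 (nat_lit 6) (nat_lit 0x1000080004000200000000000000000000000) (nat_lit 0x0) (nat_lit 0x800040002000400038001c00020000000000) := T_1 (nat_lit 77) (nat_lit 94) (nat_lit 6) (nat_lit 8) (nat_lit 8) L102617 (by decide +kernel)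
theorem L102619 : W_1 (nat_lit 2) (nat_lit 0x10000c0004000200030000800000000000000) (nat_lit 0x0) (nat_lit 0x2000100008000000000000000000000000000) := D_1 (nat_lit 128) (nat_lit 145) (nat_lit 111) (nat_lit 7) (nat_lit 8) (nat_lit 4) (nat_lit 7) (nat_lit 8) (nat_lit 3) (by decide +kernel)
theorem L102620 : W_1 (nat_lit 3) (nat_lit 0x10000c0004000200030000000000000000000) (nat_lit 0x0) (nat_lit 0x200010000a000000000000800000000000000) := T_1 (nat_lit 59) (nat_lit 109) (nat_lit 5) (nat_lit 8) (nat_lit 3) L102619 (by decide +kernel)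
theorem L102621 : W_1 (nat_lit 4) (nat_lit 0x1000080004000200030000000000000000000) (nat_lit 0x0) (nat_lit 0x280014000a000000000000800000000000000) := T_1 (nat_lit 126) (nat_lit 143) (nat_lit 5) (nat_lit 8) (nat_lit 4) L102620 (by decide +kernel)
theorem L102622 : W_1 (nat_lit 5) (nat_lit 0x1000080004000200020000000000000000000) (nat_lit 0x0) (nat_lit 0x280014000a000000010001800000000000000) := T_1 (nat_lit 76) (nat_lit 60) (nat_lit 6) (nat_lit 8) (nat_lit 7) L102621 (by decide +kernel)
theorem L102623 : W_1 (nat_lit 6) (nat_lit 0x1000080004000200000000000000000000000) (nat_lit 0x0) (nat_lit 0x280014000a000400030001800000000000000) := T_1 (nat_lit 77) (nat_lit 94) (nat_lit 6) (nat_lit 8) (nat_lit 8) L102622 (by decide +kernel)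
theorem L102624 : W_1 (nat_lit 2) (nat_lit 0x1000080004000700000000000000000000000) (nat_lit 0x0) (nat_lit 0x2000000000000a000000000000000000000000000) := D_1 (nat_lit 161) (nat_lit 111) (nat_lit 109) (nat_lit 6) (nat_lit 8) (nat_lit 9) (nat_lit 4) (nat_lit 8) (nat_lit 9) (by decide +kernel)
theorem L102625 : W_1 (nat_lit 3) (nat_lit 0x1000080004000600000000000000000000000) (nat_lit 0x0) (nat_lit 0x2000000000000a000100008000000000000000000) := T_1 (nat_lit 92) (nat_lit 75) (nat_lit 4) (nat_lit 8) (nat_lit 8) L102624 (by decide +kernel)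
theorem L102626 : W_1 (nat_lit 4) (nat_lit 0x1000080004000200000000000000000000000) (nat_lit 0x0) (nat_lit 0x2000000000000a000500028000000000000000000) := T_1 (nat_lit 94) (nat_lit 77) (nat_lit 6) (nat_lit 8) (nat_lit 8) L102625 (by decide +kernel)
theorem L102627 : W_1 (nat_lit 7) (nat_lit 0x1000080004000000000000000000000000000) (nat_lit 0x0) (nat_lit 0x2000280014000a000700038001c00020000000000) := Q_1 (nat_lit 93) (C_1 L20059 (C_1 L102613 (C_1 L102618 (C_1 L102623 (C_1 L102626 N_1))))) (by decide +kernel)
theorem L102628 : W_1 (nat_lit 2) (nat_lit 0x80002000100008000c000000000000000000000000000) (nat_lit 0x0) (nat_lit 0x10000400000000000100000000000000000000000000000000) := D_1 (nat_lit 178) (nat_lit 196) (nat_lit 128) (nat_lit 7) (nat_lit 8) (nat_lit 7) (nat_lit 6) (nat_lit 8) (nat_lit 10) (by decide +kernel)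
theorem L102629 : W_1 (nat_lit 3) (nat_lit 0x800020001000080004000000000000000000000000000) (nat_lit 0x0) (nat_lit 0x10000400000000000100008000400000000000000000000000) := T_1 (nat_lit 111) (nat_lit 94) (nat_lit 6) (nat_lit 8) (nat_lit 9) L102628 (by decide +kernel)
theorem L102630 : W_1 (nat_lit 4) (nat_lit 0x20001000080004000000000000000000000000000) (nat_lit 0x0) (nat_lit 0x10000c00040000000100008000400000000000000000000000) := T_1 (nat_lit 179) (nat_lit 162) (nat_lit 7) (nat_lit 8) (nat_lit 6) L102629 (by decide +kernel)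
theorem L102631 : W_1 (nat_lit 2) (nat_lit 0x800020001000080006000000000000000000000000000) (nat_lit 0x0) (nat_lit 0x10000400000000000040000000000000000000000000000000) := D_1 (nat_lit 178) (nat_lit 196) (nat_lit 126) (nat_lit 7) (nat_lit 8) (nat_lit 7) (nat_lit 4) (nat_lit 8) (nat_lit 10) (by decide +kernel)
theorem L102632 : W_1 (nat_lit 3) (nat_lit 0x800020001000080004000000000000000000000000000) (nat_lit 0x0) (nat_lit 0x10000400000000000040002000100000000000000000000000) := T_1 (nat_lit 109) (nat_lit 92) (nat_lit 4) (nat_lit 8) (nat_lit 9) L102631 (by decide +kernel)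
theorem L102633 : W_1 (nat_lit 4) (nat_lit 0x20001000080004000000000000000000000000000) (nat_lit 0x0) (nat_lit 0x10000c00040000000040002000100000000000000000000000) := T_1 (nat_lit 179) (nat_lit 162) (nat_lit 7) (nat_lit 8) (nat_lit 6) L102632 (by decide +kernel)
theorem L102634 : W_1 (nat_lit 6) (nat_lit 0x1000080004000000000000000000000000000) (nat_lit 0x0) (nat_lit 0x10000c0006000000014000a000700028000000000000000000) := Q_1 (nat_lit 161) (C_1 L42318 (C_1 L20845 (C_1 L102630 (C_1 L102633 N_1)))) (by decide +kernel)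
theorem L102635 : W_1 (nat_lit 2) (nat_lit 0x1400040002000100008000c000100000000000000000000000) (nat_lit 0x0) (nat_lit 0x280008000000000000000000000000000000000000000000000000) := D_1 (nat_lit 195) (nat_lit 211) (nat_lit 213) (nat_lit 5) (nat_lit 8) (nat_lit 8) (nat_lit 7) (nat_lit 8) (nat_lit 8) (by decide +kernel)
theorem L102636 : W_1 (nat_lit 3) (nat_lit 0x400040002000100008000c000100000000000000000000000) (nat_lit 0x0) (nat_lit 0x280018000800000000000000000000000000000000000000000000) := T_1 (nat_lit 196) (nat_lit 179) (nat_lit 7) (nat_lit 8) (nat_lit 7) L102635 (by decide +kernel)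
theorem L102637 : W_1 (nat_lit 4) (nat_lit 0x40002000100008000c000100000000000000000000000) (nat_lit 0x0) (nat_lit 0x28001c000a00000000000000000000000000000000000000000000) := T_1 (nat_lit 194) (nat_lit 177) (nat_lit 5) (nat_lit 8) (nat_lit 7) L102636 (by decide +kernel)
theorem L102638 : W_1 (nat_lit 5) (nat_lit 0x2000100008000c000100000000000000000000000) (nat_lit 0x0) (nat_lit 0x28001c000e00000000000100000000000000000000000000000000) := T_1 (nat_lit 178) (nat_lit 128) (nat_lit 6) (nat_lit 8) (nat_lit 10) L102637 (by decide +kernel)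
theorem L102639 : W_1 (nat_lit 6) (nat_lit 0x20001000080004000100000000000000000000000) (nat_lit 0x0) (nat_lit 0x28001c000e00000000000100008000400000000000000000000000) := T_1 (nat_lit 111) (nat_lit 94) (nat_lit 6) (nat_lit 8) (nat_lit 9) L102638 (by decide +kernel)
theorem L102640 : W_1 (nat_lit 7) (nat_lit 0x20001000080004000000000000000000000000000) (nat_lit 0x0) (nat_lit 0x28001c000e0000000000010000a000500000000000000000000000) := T_1 (nat_lit 92) (nat_lit 109) (nat_lit 4) (nat_lit 8) (nat_lit 9) L102639 (by decide +kernel)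
theorem L102641 : W_1 (nat_lit 4) (nat_lit 0x20001000180004000000000000000000000000000) (nat_lit 0x0) (nat_lit 0x60000b000500000000000000000000000) := T_1 (nat_lit 109) (nat_lit 92) (nat_lit 4) (nat_lit 8) (nat_lit 9) L42287 (by decide +kernel)
theorem L102664 : W_1 (nat_lit 2) (nat_lit 0x600010000e000c000000000000000000000000000) (nat_lit 0x0) (nat_lit 0x100030000000000000000000000000000) := D_1 (nat_lit 112) (nat_lit 113) (nat_lit 128) (nat_lit 1) (nat_lit 11) (nat_lit 6) (nat_lit 2) (nat_lit 6) (nat_lit 7) (by decide +kernel)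
theorem L102665 : W_1 (nat_lit 3) (nat_lit 0x600010000c000c000000000000000000000000000) (nat_lit 0x0) (nat_lit 0x130030000000000000000000000000000) := T_1 (nat_lit 125) (nat_lit 124) (nat_lit 2) (nat_lit 5) (nat_lit 7) L102664 (by decide +kernel)
theorem L102666 : W_1 (nat_lit 4) (nat_lit 0x600010000c0004000000000000000000000000000) (nat_lit 0x0) (nat_lit 0x130038000400000000000000000000000) := T_1 (nat_lit 111) (nat_lit 94) (nat_lit 6) (nat_lit 8) (nat_lit 9) L102665 (by decide +kernel)
theorem L102667 : W_1 (nat_lit 5) (nat_lit 0x200010000c0004000000000000000000000000000) (nat_lit 0x0) (nat_lit 0x800040000000130038000400000000000000000000000) := T_1 (nat_lit 162) (nat_lit 179) (nat_lit 7) (nat_lit 8) (nat_lit 6) L102666 (by decide +kernel)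
theorem L102695 : W_1 (nat_lit 3) (nat_lit 0x20007000080004000000000000000000000000000) (nat_lit 0x0) (nat_lit 0x8000170000000000000000000000000000000) := T_1 (nat_lit 126) (nat_lit 147) (nat_lit 0) (nat_lit 11) (nat_lit 8) L20034 (by decide +kernel)
theorem L102927 : W_1 (nat_lit 2) (nat_lit 0x6000100008007c000000000000000000000000000) (nat_lit 0x0) (nat_lit 0x1c00000000000000000000000000000000) := D_1 (nat_lit 131) (nat_lit 130) (nat_lit 132) (nat_lit 3) (nat_lit 8) (nat_lit 6) (nat_lit 3) (nat_lit 9) (nat_lit 6) (by decide +kernel)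
theorem L102928 : W_1 (nat_lit 3) (nat_lit 0x6000100008003c000000000000000000000000000) (nat_lit 0x0) (nat_lit 0x1d00040000000000000000000000000000) := T_1 (nat_lit 114) (nat_lit 128) (nat_lit 1) (nat_lit 12) (nat_lit 6) L102927 (by decide +kernel)
theorem L102929 : W_1 (nat_lit 4) (nat_lit 0x6000100008001c000000000000000000000000000) (nat_lit 0x0) (nat_lit 0x1d40060000000000000000000000000000) := T_1 (nat_lit 113) (nat_lit 126) (nat_lit 1) (nat_lit 11) (nat_lit 6) L102928 (by decide +kernel)
theorem L102930 : W_1 (nat_lit 5) (nat_lit 0x2000100008001c000000000000000000000000000) (nat_lit 0x0) (nat_lit 0x800040000001d40060000000000000000000000000000) := T_1 (nat_lit 162) (nat_lit 179) (nat_lit 7) (nat_lit 8) (nat_lit 6) L102929 (by decide +kernel)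
theorem L102980 : W_1 (nat_lit 2) (nat_lit 0x6000100088003c002100000000000000000000000) (nat_lit 0x0) (nat_lit 0x1000040004000000000000000000000000) := D_1 (nat_lit 114) (nat_lit 132) (nat_lit 98) (nat_lit 3) (nat_lit 9) (nat_lit 6) (nat_lit 2) (nat_lit 9) (nat_lit 6) (by decide +kernel)
theorem L102981 : W_1 (nat_lit 3) (nat_lit 0x6000100088003c000100000000000000000000000) (nat_lit 0x0) (nat_lit 0x1000040007000000000000000000000000) := T_1 (nat_lit 97) (nat_lit 96) (nat_lit 2) (nat_lit 8) (nat_lit 6) L102980 (by decide +kernel)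
theorem L102982 : W_1 (nat_lit 4) (nat_lit 0x6000100008003c000100000000000000000000000) (nat_lit 0x0) (nat_lit 0x1c00040007000000000000000000000000) := T_1 (nat_lit 131) (nat_lit 130) (nat_lit 3) (nat_lit 8) (nat_lit 6) L102981 (by decide +kernel)
theorem L102983 : W_1 (nat_lit 5) (nat_lit 0x6000100008003c000000000000000000000000000) (nat_lit 0x0) (nat_lit 0x1c00042007100000000000000000000000) := T_1 (nat_lit 92) (nat_lit 109) (nat_lit 4) (nat_lit 8) (nat_lit 9) L102982 (by decide +kernel)
theorem L102984 : W_1 (nat_lit 6) (nat_lit 0x6000100008001c000000000000000000000000000) (nat_lit 0x0) (nat_lit 0x1c40062007100000000000000000000000) := T_1 (nat_lit 113) (nat_lit 126) (nat_lit 1) (nat_lit 11) (nat_lit 6) L102983 (by decide +kernel)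
theorem L102985 : W_1 (nat_lit 7) (nat_lit 0x2000100008001c000000000000000000000000000) (nat_lit 0x0) (nat_lit 0x800040000001c40062007100000000000000000000000) := T_1 (nat_lit 162) (nat_lit 179) (nat_lit 7) (nat_lit 8) (nat_lit 6) L102984 (by decide +kernel)
theorem L102986 : W_1 (nat_lit 2) (nat_lit 0x2000100008007c000100000000000000000000000) (nat_lit 0x0) (nat_lit 0x1c00000000000000000000000000000000) := D_1 (nat_lit 131) (nat_lit 130) (nat_lit 132) (nat_lit 3) (nat_lit 8) (nat_lit 6) (nat_lit 3) (nat_lit 9) (nat_lit 6) (by decide +kernel)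
theorem L102987 : W_1 (nat_lit 3) (nat_lit 0x2000100008003c000100000000000000000000000) (nat_lit 0x0) (nat_lit 0x1d00040000000000000000000000000000) := T_1 (nat_lit 114) (nat_lit 128) (nat_lit 1) (nat_lit 12) (nat_lit 6) L102986 (by decide +kernel)
theorem L102988 : W_1 (nat_lit 4) (nat_lit 0x2000100008001c000100000000000000000000000) (nat_lit 0x0) (nat_lit 0x1d40060000000000000000000000000000) := T_1 (nat_lit 113) (nat_lit 126) (nat_lit 1) (nat_lit 11) (nat_lit 6) L102987 (by decide +kernel)
theorem L102989 : W_1 (nat_lit 5) (nat_lit 0x2000100008001c000000000000000000000000000) (nat_lit 0x0) (nat_lit 0x1d40062000100000000000000000000000) := T_1 (nat_lit 92) (nat_lit 109) (nat_lit 4) (nat_lit 8) (nat_lit 9) L102988 (by decide +kernel)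
theorem L102990 : W_1 (nat_lit 2) (nat_lit 0x6000100029001f800000000000000000000000000) (nat_lit 0x0) (nat_lit 0xe0000000000000000000000) := D_1 (nat_lit 90) (nat_lit 89) (nat_lit 91) (nat_lit 0) (nat_lit 8) (nat_lit 6) (nat_lit 0) (nat_lit 9) (nat_lit 6) (by decide +kernel)
theorem L102991 : W_1 (nat_lit 3) (nat_lit 0x6000100029001f000000000000000000000000000) (nat_lit 0x0) (nat_lit 0x80008000e0000000000000000000000) := T_1 (nat_lit 107) (nat_lit 123) (nat_lit 1) (nat_lit 8) (nat_lit 6) L102990 (by decide +kernel)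
theorem L102992 : W_1 (nat_lit 4) (nat_lit 0x6000100028001f000000000000000000000000000) (nat_lit 0x0) (nat_lit 0x380008000e0000000000000000000000) := T_1 (nat_lit 124) (nat_lit 125) (nat_lit 1) (nat_lit 9) (nat_lit 6) L102991 (by decide +kernel)
theorem L102993 : W_1 (nat_lit 5) (nat_lit 0x6000100028001e000000000000000000000000000) (nat_lit 0x0) (nat_lit 0x1380018000e0000000000000000000000) := T_1 (nat_lit 108) (nat_lit 128) (nat_lit 3) (nat_lit 6) (nat_lit 6) L102992 (by decide +kernel)
theorem L102994 : W_1 (nat_lit 6) (nat_lit 0x6000100008001e000000000000000000000000000) (nat_lit 0x0) (nat_lit 0x7380018000e0000000000000000000000) := T_1 (nat_lit 129) (nat_lit 130) (nat_lit 3) (nat_lit 7) (nat_lit 6) L102993 (by decide +kernel)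
theorem L102995 : W_1 (nat_lit 7) (nat_lit 0x6000100008001c000000000000000000000000000) (nat_lit 0x0) (nat_lit 0x7380038001e0000000000000000000000) := T_1 (nat_lit 109) (nat_lit 92) (nat_lit 4) (nat_lit 8) (nat_lit 9) L102994 (by decide +kernel)
theorem L102996 : W_1 (nat_lit 8) (nat_lit 0x2000100008001c000000000000000000000000000) (nat_lit 0x0) (nat_lit 0x8000400000007380038001e0000000000000000000000) := T_1 (nat_lit 162) (nat_lit 179) (nat_lit 7) (nat_lit 8) (nat_lit 6) L102995 (by decide +kernel)
theorem L102997 : W_1 (nat_lit 2) (nat_lit 0x600010010800fc009100000000000000000000000) (nat_lit 0x0) (nat_lit 0x100010800000000000000000000000) := D_1 (nat_lit 116) (nat_lit 95) (nat_lit 100) (nat_lit 0) (nat_lit 14) (nat_lit 6) (nat_lit 2) (nat_lit 11) (nat_lit 6) (by decide +kernel)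
theorem L102998 : W_1 (nat_lit 3) (nat_lit 0x600010010800fc001100000000000000000000000) (nat_lit 0x0) (nat_lit 0x10001c800000000000000000000000) := T_1 (nat_lit 99) (nat_lit 98) (nat_lit 2) (nat_lit 10) (nat_lit 6) L102997 (by decide +kernel)
theorem L102999 : W_1 (nat_lit 4) (nat_lit 0x6000100108007c001100000000000000000000000) (nat_lit 0x0) (nat_lit 0x200018001c800000000000000000000000) := T_1 (nat_lit 115) (nat_lit 133) (nat_lit 3) (nat_lit 10) (nat_lit 6) L102998 (by decide +kernel)
theorem L103000 : W_1 (nat_lit 5) (nat_lit 0x6000100008007c001100000000000000000000000) (nat_lit 0x0) (nat_lit 0x380018001c800000000000000000000000) := T_1 (nat_lit 132) (nat_lit 131) (nat_lit 3) (nat_lit 9) (nat_lit 6) L102999 (by decide +kernel)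
theorem L103001 : W_1 (nat_lit 6) (nat_lit 0x2000100008007c001100000000000000000000000) (nat_lit 0x0) (nat_lit 0x80004000000380018001c800000000000000000000000) := T_1 (nat_lit 162) (nat_lit 179) (nat_lit 7) (nat_lit 8) (nat_lit 6) L103000 (by decide +kernel)
theorem L103002 : W_1 (nat_lit 7) (nat_lit 0x2000100008003c001100000000000000000000000) (nat_lit 0x0) (nat_lit 0x8000400000039001c001c800000000000000000000000) := T_1 (nat_lit 114) (nat_lit 128) (nat_lit 1) (nat_lit 12) (nat_lit 6) L103001 (by decide +kernel)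
theorem L103003 : W_1 (nat_lit 8) (nat_lit 0x2000100008003c000100000000000000000000000) (nat_lit 0x0) (nat_lit 0x8000400000039001c001f800000000000000000000000) := T_1 (nat_lit 96) (nat_lit 97) (nat_lit 2) (nat_lit 8) (nat_lit 6) L103002 (by decide +kernel)
theorem L103004 : W_1 (nat_lit 9) (nat_lit 0x2000100008003c000000000000000000000000000) (nat_lit 0x0) (nat_lit 0x8000400000039001c201f900000000000000000000000) := T_1 (nat_lit 92) (nat_lit 109) (nat_lit 4) (nat_lit 8) (nat_lit 9) L103003 (by decide +kernel)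
theorem L103005 : W_1 (nat_lit 10) (nat_lit 0x2000100008001c000000000000000000000000000) (nat_lit 0x0) (nat_lit 0x8000400000039401e201f900000000000000000000000) := T_1 (nat_lit 113) (nat_lit 126) (nat_lit 1) (nat_lit 11) (nat_lit 6) L103004 (by decide +kernel)
theorem L103006 : W_1 (nat_lit 11) (nat_lit 0x2000100008000c000000000000000000000000000) (nat_lit 0x0) (nat_lit 0x800040000003f781f381f9e0000000000000000000000) := Q_1 (nat_lit 112) (C_1 L102985 (C_1 L102989 (C_1 L102996 (C_1 L102930 (C_1 L103005 N_1))))) (by decide +kernel)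
theorem L103007 : W_1 (nat_lit 12) (nat_lit 0x20001000080004000000000000000000000000000) (nat_lit 0x0) (nat_lit 0x800040000003f781fb81fde0000000000000000000000) := T_1 (nat_lit 111) (nat_lit 94) (nat_lit 6) (nat_lit 8) (nat_lit 9) L103006 (by decide +kernel)
theorem L103008 : W_1 (nat_lit 2) (nat_lit 0x20000c000400020003000080006000400000000000000000000000) (nat_lit 0x0) (nat_lit 0x4000100000000000040000000000000000000000000000000000000000) := D_1 (nat_lit 212) (nat_lit 162) (nat_lit 230) (nat_lit 6) (nat_lit 8) (nat_lit 12) (nat_lit 7) (nat_lit 8) (nat_lit 9) (by decide +kernel)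
theorem L103009 : W_1 (nat_lit 3) (nat_lit 0xc000400020003000080006000400000000000000000000000) (nat_lit 0x0) (nat_lit 0x4000300010000000040000000000000000000000000000000000000000) := T_1 (nat_lit 213) (nat_lit 196) (nat_lit 7) (nat_lit 8) (nat_lit 8) L103008 (by decide +kernel)
theorem L103010 : W_1 (nat_lit 4) (nat_lit 0xc000400020001000080006000400000000000000000000000) (nat_lit 0x0) (nat_lit 0x4000300010000000040002000100000000000000000000000000000000) := T_1 (nat_lit 145) (nat_lit 128) (nat_lit 6) (nat_lit 8) (nat_lit 11) L103009 (by decide +kernel)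
theorem L103011 : W_1 (nat_lit 5) (nat_lit 0x4000400020001000080006000400000000000000000000000) (nat_lit 0x0) (nat_lit 0x4000380018000000040002000100000000000000000000000000000000) := T_1 (nat_lit 195) (nat_lit 211) (nat_lit 5) (nat_lit 8) (nat_lit 8) L103010 (by decide +kernel)
theorem L103012 : W_1 (nat_lit 6) (nat_lit 0x400020001000080006000400000000000000000000000) (nat_lit 0x0) (nat_lit 0x400038001c000200040002000100000000000000000000000000000000) := T_1 (nat_lit 194) (nat_lit 177) (nat_lit 5) (nat_lit 8) (nat_lit 7) L103011 (by decide +kernel)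
theorem L103013 : W_1 (nat_lit 7) (nat_lit 0x20001000080006000400000000000000000000000) (nat_lit 0x0) (nat_lit 0x400038001c000600040002000140000000000000000000000000000000) := T_1 (nat_lit 178) (nat_lit 126) (nat_lit 4) (nat_lit 8) (nat_lit 10) L103012 (by decide +kernel)
theorem L103014 : W_1 (nat_lit 8) (nat_lit 0x20001000080004000400000000000000000000000) (nat_lit 0x0) (nat_lit 0x400038001c000600040002000140002000100000000000000000000000) := T_1 (nat_lit 109) (nat_lit 92) (nat_lit 4) (nat_lit 8) (nat_lit 9) L103013 (by decide +kernel)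
theorem L103015 : W_1 (nat_lit 9) (nat_lit 0x20001000080004000000000000000000000000000) (nat_lit 0x0) (nat_lit 0x400038001c00060004000200014000a000500000000000000000000000) := T_1 (nat_lit 94) (nat_lit 111) (nat_lit 6) (nat_lit 8) (nat_lit 9) L103014 (by decide +kernel)
theorem L103016 : W_1 (nat_lit 13) (nat_lit 0x1000080004000000000000000000000000000) (nat_lit 0x0) (nat_lit 0x400038001c000e00060002003f781fb81fde0000000000000000000000) := Q_1 (nat_lit 161) (C_1 L102633 (C_1 L102640 (C_1 L103007 (C_1 L102630 (C_1 L103015 N_1))))) (by decide +kernel)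
theorem L103017 : W_1 (nat_lit 5) (nat_lit 0x1000080004000200018000000000000000000) (nat_lit 0x0) (nat_lit 0x40002800040002000000020001800080000000000) := T_1 (nat_lit 145) (nat_lit 162) (nat_lit 7) (nat_lit 8) (nat_lit 5) L87385 (by decide +kernel)
theorem L103018 : W_1 (nat_lit 6) (nat_lit 0x1000080004000200008000000000000000000) (nat_lit 0x0) (nat_lit 0x40002800040002000000030001c00080000000000) := T_1 (nat_lit 76) (nat_lit 58) (nat_lit 4) (nat_lit 8) (nat_lit 7) L103017 (by decide +kernel)
theorem L103019 : W_1 (nat_lit 7) (nat_lit 0x1000080004000200000000000000000000000) (nat_lit 0x0) (nat_lit 0x40002800040002000100038001c00080000000000) := T_1 (nat_lit 75) (nat_lit 92) (nat_lit 4) (nat_lit 8) (nat_lit 8) L103018 (by decide +kernel)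
theorem L103020 : W_1 (nat_lit 2) (nat_lit 0x10000c0004000200018000800000000000000) (nat_lit 0x0) (nat_lit 0x20001000080000000000) := D_1 (nat_lit 60) (nat_lit 77) (nat_lit 43) (nat_lit 6) (nat_lit 8) (nat_lit 7) (nat_lit 6) (nat_lit 8) (nat_lit 6) (by decide +kernel)
theorem L103021 : W_1 (nat_lit 3) (nat_lit 0x10000c0004000200018000000000000000000) (nat_lit 0x0) (nat_lit 0x2000000020001800080000000000) := T_1 (nat_lit 59) (nat_lit 109) (nat_lit 5) (nat_lit 8) (nat_lit 3) L103020 (by decide +kernel)
theorem L103022 : W_1 (nat_lit 4) (nat_lit 0x1000080004000200018000000000000000000) (nat_lit 0x0) (nat_lit 0x800040002000000020001800080000000000) := T_1 (nat_lit 126) (nat_lit 143) (nat_lit 5) (nat_lit 8) (nat_lit 4) L103021 (by decide +kernel)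
theorem L103023 : W_1 (nat_lit 5) (nat_lit 0x1000080004000200008000000000000000000) (nat_lit 0x0) (nat_lit 0x800040002000000030001c00080000000000) := T_1 (nat_lit 76) (nat_lit 58) (nat_lit 4) (nat_lit 8) (nat_lit 7) L103022 (by decide +kernel)
theorem L103024 : W_1 (nat_lit 6) (nat_lit 0x1000080004000200000000000000000000000) (nat_lit 0x0) (nat_lit 0x800040002000100038001c00080000000000) := T_1 (nat_lit 75) (nat_lit 92) (nat_lit 4) (nat_lit 8) (nat_lit 8) L103023 (by decide +kernel)
theorem L103025 : W_1 (nat_lit 2) (nat_lit 0x3000080004000200010001800000000000000) (nat_lit 0x0) (nat_lit 0x800040002000000000000000000000000000) := D_1 (nat_lit 126) (nat_lit 143) (nat_lit 109) (nat_lit 5) (nat_lit 8) (nat_lit 4) (nat_lit 5) (nat_lit 8) (nat_lit 3) (by decide +kernel)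
theorem L103026 : W_1 (nat_lit 3) (nat_lit 0x3000080004000200010001000000000000000) (nat_lit 0x0) (nat_lit 0x800040002000000000000800080000000000) := T_1 (nat_lit 59) (nat_lit 43) (nat_lit 6) (nat_lit 8) (nat_lit 6) L103025 (by decide +kernel)
theorem L103027 : W_1 (nat_lit 4) (nat_lit 0x3000080004000200010000000000000000000) (nat_lit 0x0) (nat_lit 0x800040002000000020001800080000000000) := T_1 (nat_lit 60) (nat_lit 77) (nat_lit 6) (nat_lit 8) (nat_lit 7) L103026 (by decide +kernel)
theorem L103028 : W_1 (nat_lit 5) (nat_lit 0x3000080004000200000000000000000000000) (nat_lit 0x0) (nat_lit 0x800140002000000030001800080000000000) := T_1 (nat_lit 76) (nat_lit 128) (nat_lit 7) (nat_lit 8) (nat_lit 4) L103027 (by decide +kernel)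
theorem L103029 : W_1 (nat_lit 6) (nat_lit 0x1000080004000200000000000000000000000) (nat_lit 0x0) (nat_lit 0x40002800140002000000030001800080000000000) := T_1 (nat_lit 145) (nat_lit 162) (nat_lit 7) (nat_lit 8) (nat_lit 5) L103028 (by decide +kernel)
theorem L103030 : W_1 (nat_lit 2) (nat_lit 0x40001000080004000300000000000000000000000) (nat_lit 0x0) (nat_lit 0x800020000000000002000000000000000000000000000) := D_1 (nat_lit 161) (nat_lit 179) (nat_lit 109) (nat_lit 7) (nat_lit 8) (nat_lit 6) (nat_lit 4) (nat_lit 8) (nat_lit 9) (by decide +kernel)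
theorem L103031 : W_1 (nat_lit 3) (nat_lit 0x40001000080004000200000000000000000000000) (nat_lit 0x0) (nat_lit 0x800020000000000002000100008000000000000000000) := T_1 (nat_lit 92) (nat_lit 75) (nat_lit 4) (nat_lit 8) (nat_lit 8) L103030 (by decide +kernel)
theorem L103032 : W_1 (nat_lit 4) (nat_lit 0x1000080004000200000000000000000000000) (nat_lit 0x0) (nat_lit 0x800060002000000002000100008000000000000000000) := T_1 (nat_lit 162) (nat_lit 145) (nat_lit 7) (nat_lit 8) (nat_lit 5) L103031 (by decide +kernel)
theorem L103033 : W_1 (nat_lit 8) (nat_lit 0x1000080004000000000000000000000000000) (nat_lit 0x0) (nat_lit 0x80006000280014000a000300038001c00080000000000) := Q_1 (nat_lit 93) (C_1 L102613 (C_1 L20089 (C_1 L103019 (C_1 L103024 (C_1 L103029 (C_1 L103032 N_1)))))) (by decide +kernel)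
theorem L103034 : W_1 (nat_lit 2) (nat_lit 0x40001000080004000600000000000000000000000) (nat_lit 0x0) (nat_lit 0x800020000000000008000000000000000000000000000) := D_1 (nat_lit 161) (nat_lit 111) (nat_lit 179) (nat_lit 6) (nat_lit 8) (nat_lit 9) (nat_lit 7) (nat_lit 8) (nat_lit 6) (by decide +kernel)
theorem L103035 : W_1 (nat_lit 3) (nat_lit 0x1000080004000600000000000000000000000) (nat_lit 0x0) (nat_lit 0x800060002000000008000000000000000000000000000) := T_1 (nat_lit 162) (nat_lit 145) (nat_lit 7) (nat_lit 8) (nat_lit 5) L103034 (by decide +kernel)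
theorem L103036 : W_1 (nat_lit 4) (nat_lit 0x1000080004000200000000000000000000000) (nat_lit 0x0) (nat_lit 0x800060002000000008000400020000000000000000000) := T_1 (nat_lit 94) (nat_lit 77) (nat_lit 6) (nat_lit 8) (nat_lit 8) L103035 (by decide +kernel)
theorem L103037 : W_1 (nat_lit 2) (nat_lit 0x30000c0004000200010000800000000000000) (nat_lit 0x0) (nat_lit 0x8000400020000000000) := D_1 (nat_lit 58) (nat_lit 41) (nat_lit 75) (nat_lit 4) (nat_lit 8) (nat_lit 6) (nat_lit 4) (nat_lit 8) (nat_lit 7) (by decide +kernel)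
theorem L103038 : W_1 (nat_lit 3) (nat_lit 0x30000c0004000200010000000000000000000) (nat_lit 0x0) (nat_lit 0x2000000008000c00020000000000) := T_1 (nat_lit 59) (nat_lit 109) (nat_lit 5) (nat_lit 8) (nat_lit 3) L103037 (by decide +kernel)
theorem L103039 : W_1 (nat_lit 4) (nat_lit 0x3000080004000200010000000000000000000) (nat_lit 0x0) (nat_lit 0x800040002000000008000c00020000000000) := T_1 (nat_lit 126) (nat_lit 143) (nat_lit 5) (nat_lit 8) (nat_lit 4) L103038 (by decide +kernel)
theorem L103040 : W_1 (nat_lit 5) (nat_lit 0x3000080004000200000000000000000000000) (nat_lit 0x0) (nat_lit 0x800140002000000018000c00020000000000) := T_1 (nat_lit 76) (nat_lit 128) (nat_lit 7) (nat_lit 8) (nat_lit 4) L103039 (by decide +kernel)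
theorem L103041 : W_1 (nat_lit 6) (nat_lit 0x1000080004000200000000000000000000000) (nat_lit 0x0) (nat_lit 0x40002800140002000000018000c00020000000000) := T_1 (nat_lit 145) (nat_lit 162) (nat_lit 7) (nat_lit 8) (nat_lit 5) L103040 (by decide +kernel)
theorem L103042 : W_1 (nat_lit 7) (nat_lit 0x1000080004000000000000000000000000000) (nat_lit 0x0) (nat_lit 0x80006000280014000a000600038001c000a0000000000) := Q_1 (nat_lit 93) (C_1 L103029 (C_1 L20090 (C_1 L102618 (C_1 L103036 (C_1 L103041 N_1))))) (by decide +kernel)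
theorem L167145 : W_1 (nat_lit 2) (nat_lit 0x14000e0001800040000000000000000000000) (nat_lit 0x0) (nat_lit 0x80002000100000000000000) := D_1 (nat_lit 73) (nat_lit 91) (nat_lit 56) (nat_lit 4) (nat_lit 6) (nat_lit 8) (nat_lit 7) (nat_lit 5) (nat_lit 3) (by decide +kernel)
theorem L167146 : W_1 (nat_lit 3) (nat_lit 0x14000e0001800000000000000000000000000) (nat_lit 0x0) (nat_lit 0x80000000000000000c0002000100000000000000) := T_1 (nat_lit 90) (nat_lit 159) (nat_lit 4) (nat_lit 6) (nat_lit 9) L167145 (by decide +kernel)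
theorem L182130 : W_1 (nat_lit 2) (nat_lit 0x10000c0002000100000000000000000000000) (nat_lit 0x0) (nat_lit 0x400020000800000000000000000000000000000000000) := D_1 (nat_lit 161) (nat_lit 178) (nat_lit 143) (nat_lit 4) (nat_lit 8) (nat_lit 10) (nat_lit 7) (nat_lit 7) (nat_lit 5) (by decide +kernel)
theorem L200107 : W_1 (nat_lit 2) (nat_lit 0x10000c00040002000180008000c0000000000) (nat_lit 0x0) (nat_lit 0x100008000400000000000000000000000) := D_1 (nat_lit 111) (nat_lit 128) (nat_lit 94) (nat_lit 7) (nat_lit 8) (nat_lit 3) (nat_lit 7) (nat_lit 8) (nat_lit 2) (by decide +kernel)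
theorem L200108 : W_1 (nat_lit 3) (nat_lit 0x10000c0004000200018000800080000000000) (nat_lit 0x0) (nat_lit 0x100008000400000000000040004000000) := T_1 (nat_lit 42) (nat_lit 26) (nat_lit 6) (nat_lit 8) (nat_lit 5) L200107 (by decide +kernel)
theorem L200109 : W_1 (nat_lit 4) (nat_lit 0x10000c0004000200018000800000000000000) (nat_lit 0x0) (nat_lit 0x1000080004000000010000c0004000000) := T_1 (nat_lit 43) (nat_lit 60) (nat_lit 6) (nat_lit 8) (nat_lit 6) L200108 (by decide +kernel)
theorem L200110 : W_1 (nat_lit 5) (nat_lit 0x10000c0004000200018000000000000000000) (nat_lit 0x0) (nat_lit 0x10000a0004000000018000c0004000000) := T_1 (nat_lit 59) (nat_lit 109) (nat_lit 5) (nat_lit 8) (nat_lit 3) L200109 (by decide +kernel)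
theorem L200111 : W_1 (nat_lit 6) (nat_lit 0x1000080004000200018000000000000000000) (nat_lit 0x0) (nat_lit 0x80014000a0004000000018000c0004000000) := T_1 (nat_lit 126) (nat_lit 143) (nat_lit 5) (nat_lit 8) (nat_lit 4) L200110 (by decide +kernel)
theorem L200112 : W_1 (nat_lit 7) (nat_lit 0x1000080004000200008000000000000000000) (nat_lit 0x0) (nat_lit 0x80014000a000400010001c000c0004000000) := T_1 (nat_lit 76) (nat_lit 58) (nat_lit 4) (nat_lit 8) (nat_lit 7) L200111 (by decide +kernel)
theorem L200113 : W_1 (nat_lit 8) (nat_lit 0x1000080004000200000000000000000000000) (nat_lit 0x0) (nat_lit 0x80014000a000500018001c000c0004000000) := T_1 (nat_lit 75) (nat_lit 92) (nat_lit 4) (nat_lit 8) (nat_lit 8) L200112 (by decide +kernel)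
theorem L212552 : W_1 (nat_lit 2) (nat_lit 0x200010003c0002000000000000000000000000000) (nat_lit 0x0) (nat_lit 0xc00400000000000000000000000000000000) := D_1 (nat_lit 143) (nat_lit 142) (nat_lit 130) (nat_lit 1) (nat_lit 10) (nat_lit 7) (nat_lit 1) (nat_lit 11) (nat_lit 7) (by decide +kernel)
theorem L212553 : W_1 (nat_lit 3) (nat_lit 0x200010001c0002000000000000000000000000000) (nat_lit 0x0) (nat_lit 0xc00600001000000000000000000000000000) := T_1 (nat_lit 129) (nat_lit 108) (nat_lit 0) (nat_lit 10) (nat_lit 7) L212552 (by decide +kernel)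
theorem L212554 : W_1 (nat_lit 4) (nat_lit 0x10001c0002000000000000000000000000000) (nat_lit 0x0) (nat_lit 0x400020000c00600001000000000000000000000000000) := T_1 (nat_lit 161) (nat_lit 178) (nat_lit 4) (nat_lit 8) (nat_lit 10) L212553 (by decide +kernel)
theorem L212565 : W_1 (nat_lit 2) (nat_lit 0x10000f8002000000008000000000000000000) (nat_lit 0x0) (nat_lit 0x380000000000000000000000000000000000) := D_1 (nat_lit 140) (nat_lit 141) (nat_lit 139) (nat_lit 1) (nat_lit 8) (nat_lit 7) (nat_lit 1) (nat_lit 7) (nat_lit 7) (by decide +kernel)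
theorem L212566 : W_1 (nat_lit 3) (nat_lit 0x10000f0002000000008000000000000000000) (nat_lit 0x0) (nat_lit 0xb80008000000000000000000000000000000) := T_1 (nat_lit 123) (nat_lit 143) (nat_lit 3) (nat_lit 4) (nat_lit 7) L212565 (by decide +kernel)
theorem L212567 : W_1 (nat_lit 4) (nat_lit 0x10000e0002000000008000000000000000000) (nat_lit 0x0) (nat_lit 0x2b80018000000000000000000000000000000) := T_1 (nat_lit 124) (nat_lit 145) (nat_lit 3) (nat_lit 5) (nat_lit 7) L212566 (by decide +kernel)
theorem L212568 : W_1 (nat_lit 5) (nat_lit 0x10000e0002000000000000000000000000000) (nat_lit 0x0) (nat_lit 0x2b80018000000100008000000000000000000) := T_1 (nat_lit 75) (nat_lit 92) (nat_lit 7) (nat_lit 7) (nat_lit 4) L212567 (by decide +kernel)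
theorem L212587 : W_1 (nat_lit 3) (nat_lit 0x10000c0002000000000000000000000000000) (nat_lit 0x0) (nat_lit 0x400020000800000000000100008000000000000000000) := T_1 (nat_lit 92) (nat_lit 75) (nat_lit 7) (nat_lit 7) (nat_lit 4) L182130 (by decide +kernel)
theorem L212608 : W_1 (nat_lit 2) (nat_lit 0x10000f0002000000008000000000000000000) (nat_lit 0x0) (nat_lit 0x800c000000000000000000000000000) := D_1 (nat_lit 110) (nat_lit 111) (nat_lit 123) (nat_lit 2) (nat_lit 5) (nat_lit 7) (nat_lit 2) (nat_lit 4) (nat_lit 7) (by decide +kernel)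
theorem L212609 : W_1 (nat_lit 3) (nat_lit 0x10000e0002000000008000000000000000000) (nat_lit 0x0) (nat_lit 0x200001800c000000000000000000000000000) := T_1 (nat_lit 124) (nat_lit 145) (nat_lit 3) (nat_lit 5) (nat_lit 7) L212608 (by decide +kernel)
theorem L212610 : W_1 (nat_lit 4) (nat_lit 0x10000e0002000000000000000000000000000) (nat_lit 0x0) (nat_lit 0x200001800c000100008000000000000000000) := T_1 (nat_lit 75) (nat_lit 92) (nat_lit 7) (nat_lit 7) (nat_lit 4) L212609 (by decide +kernel)
theorem L212687 : W_1 (nat_lit 11) (nat_lit 0x10000e0002000000000000000000000000000) (nat_lit 0x0) (nat_lit 0xe000f0001800dc007e003e000000000000000000) := Q_1 (nat_lit 143) (C_1 L21781 (C_1 L71070 (C_1 L71079 (C_1 L71064 (C_1 L71058 N_1))))) (by decide +kernel)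
theorem L212695 : W_1 (nat_lit 7) (nat_lit 0x10000c0006000000000000000000000000000) (nat_lit 0x0) (nat_lit 0x4000e000000001001f00038001c00000000000000) := Q_1 (nat_lit 93) (C_1 L23288 (C_1 L23279 (C_1 L20368 N_1))) (by decide +kernel)
theorem L212696 : W_1 (nat_lit 6) (nat_lit 0x10000c0006000000000000000000000000000) (nat_lit 0x0) (nat_lit 0x9801f00038001c00000000000000) := Q_1 (nat_lit 93) (C_1 L23288 (C_1 L23279 (C_1 L20363 N_1))) (by decide +kernel)
theorem L212919 : W_1 (nat_lit 2) (nat_lit 0x10000c0006000200000000000000000000000) (nat_lit 0x0) (nat_lit 0x800000000000000010000800000000000000) := D_1 (nat_lit 76) (nat_lit 59) (nat_lit 143) (nat_lit 5) (nat_lit 8) (nat_lit 3) (nat_lit 5) (nat_lit 8) (nat_lit 4) (by decide +kernel)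
theorem L212959 : W_1 (nat_lit 2) (nat_lit 0x10001c0002000700060000000000000000000) (nat_lit 0x0) (nat_lit 0x190000000000000000000) := D_1 (nat_lit 79) (nat_lit 80) (nat_lit 76) (nat_lit 1) (nat_lit 12) (nat_lit 4) (nat_lit 1) (nat_lit 11) (nat_lit 4) (by decide +kernel)
theorem L212960 : W_1 (nat_lit 3) (nat_lit 0x10001c0002000700020000000000000000000) (nat_lit 0x0) (nat_lit 0x801d0000000000000000000) := T_1 (nat_lit 78) (nat_lit 91) (nat_lit 2) (nat_lit 6) (nat_lit 5) L212959 (by decide +kernel)
theorem L212961 : W_1 (nat_lit 4) (nat_lit 0x10001c0002000500020000000000000000000) (nat_lit 0x0) (nat_lit 0x40002801d0000000000000000000) := T_1 (nat_lit 93) (nat_lit 110) (nat_lit 6) (nat_lit 8) (nat_lit 8) L212960 (by decide +kernel)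
theorem L212962 : W_1 (nat_lit 5) (nat_lit 0x10001c0002000400020000000000000000000) (nat_lit 0x0) (nat_lit 0x40003801d8000000000000000000) := T_1 (nat_lit 92) (nat_lit 75) (nat_lit 7) (nat_lit 7) (nat_lit 4) L212961 (by decide +kernel)
theorem L212963 : W_1 (nat_lit 6) (nat_lit 0x10001c0002000400000000000000000000000) (nat_lit 0x0) (nat_lit 0xc0003801f8000000000000000000) := T_1 (nat_lit 77) (nat_lit 111) (nat_lit 5) (nat_lit 9) (nat_lit 4) L212962 (by decide +kernel)
theorem L213007 : W_1 (nat_lit 2) (nat_lit 0x70000c0006000e00000000000000000000000) (nat_lit 0x0) (nat_lit 0x9800000000000000000000000000) := D_1 (nat_lit 108) (nat_lit 107) (nat_lit 111) (nat_lit 2) (nat_lit 5) (nat_lit 6) (nat_lit 2) (nat_lit 6) (nat_lit 6) (by decide +kernel)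
theorem L213008 : W_1 (nat_lit 3) (nat_lit 0x70000c0006000600000000000000000000000) (nat_lit 0x0) (nat_lit 0x9801800000000000000000000000) := T_1 (nat_lit 95) (nat_lit 96) (nat_lit 1) (nat_lit 11) (nat_lit 5) L213007 (by decide +kernel)
theorem L213009 : W_1 (nat_lit 4) (nat_lit 0x30000c0006000600000000000000000000000) (nat_lit 0x0) (nat_lit 0xc000000009801800000000000000000000000) := T_1 (nat_lit 146) (nat_lit 147) (nat_lit 0) (nat_lit 11) (nat_lit 8) L213008 (by decide +kernel)
theorem L213010 : W_1 (nat_lit 5) (nat_lit 0x10000c0006000600000000000000000000000) (nat_lit 0x0) (nat_lit 0x4000e000000009801800000000000000000000000) := T_1 (nat_lit 145) (nat_lit 162) (nat_lit 7) (nat_lit 8) (nat_lit 5) L213009 (by decide +kernel)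
theorem L213011 : W_1 (nat_lit 6) (nat_lit 0x10000c0006000200000000000000000000000) (nat_lit 0x0) (nat_lit 0x4000e000000009801c00020000000000000000000) := T_1 (nat_lit 94) (nat_lit 77) (nat_lit 6) (nat_lit 8) (nat_lit 8) L213010 (by decide +kernel)
theorem L213149 : W_1 (nat_lit 7) (nat_lit 0x10000c0006000000000000000000000000000) (nat_lit 0x0) (nat_lit 0x4000e800000009801e00030000800000000000000) := Q_1 (nat_lit 93) (C_1 L213011 (C_1 L212919 N_1)) (by decide +kernel)
theorem L213212 : W_1 (nat_lit 3) (nat_lit 0x78003c0016000200020000000000000000000) (nat_lit 0x0) (nat_lit 0x80018000c0000000000000000000) := T_1 (nat_lit 95) (nat_lit 78) (nat_lit 5) (nat_lit 10) (nat_lit 4) L22740 (by decide +kernel)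
theorem L247828 : W_1 (nat_lit 2) (nat_lit 0xc001e000d0006000000000000000000000000000) (nat_lit 0x0) (nat_lit 0x2000100000000000000000800000000000000000000000000) := D_1 (nat_lit 176) (nat_lit 193) (nat_lit 107) (nat_lit 6) (nat_lit 6) (nat_lit 11) (nat_lit 7) (nat_lit 5) (nat_lit 6) (by decide +kernel)
theorem L247829 : W_1 (nat_lit 3) (nat_lit 0x4001e000d0006000000000000000000000000000) (nat_lit 0x0) (nat_lit 0x2000100008002000000000800000000000000000000000000) := T_1 (nat_lit 159) (nat_lit 145) (nat_lit 1) (nat_lit 9) (nat_lit 8) L247828 (by decide +kernel)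
theorem L247830 : W_1 (nat_lit 4) (nat_lit 0x4001e000c0006000000000000000000000000000) (nat_lit 0x0) (nat_lit 0x2000100008002000018000800000000000000000000000000) := T_1 (nat_lit 124) (nat_lit 123) (nat_lit 0) (nat_lit 8) (nat_lit 8) L247829 (by decide +kernel)
theorem L247831 : W_1 (nat_lit 5) (nat_lit 0x1e000c0006000000000000000000000000000) (nat_lit 0x0) (nat_lit 0x200010000e002000018000800000000000000000000000000) := T_1 (nat_lit 158) (nat_lit 157) (nat_lit 1) (nat_lit 8) (nat_lit 8) L247830 (by decide +kernel)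
theorem L247832 : W_1 (nat_lit 6) (nat_lit 0x1c000c0006000000000000000000000000000) (nat_lit 0x0) (nat_lit 0x200010000e002300018000800000000000000000000000000) := T_1 (nat_lit 141) (nat_lit 140) (nat_lit 2) (nat_lit 4) (nat_lit 8) L247831 (by decide +kernel)
theorem L247872 : W_1 (nat_lit 2) (nat_lit 0x18000d00078000c0010000000000000000000) (nat_lit 0x0) (nat_lit 0x200000000000000004000200000000000000) := D_1 (nat_lit 74) (nat_lit 57) (nat_lit 141) (nat_lit 7) (nat_lit 6) (nat_lit 3) (nat_lit 6) (nat_lit 5) (nat_lit 8) (by decide +kernel)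
theorem L247873 : W_1 (nat_lit 3) (nat_lit 0x18000d0007800040010000000000000000000) (nat_lit 0x0) (nat_lit 0x200000008000080004000200000000000000) := T_1 (nat_lit 91) (nat_lit 111) (nat_lit 0) (nat_lit 9) (nat_lit 6) L247872 (by decide +kernel)
theorem L247874 : W_1 (nat_lit 4) (nat_lit 0x18000c0007800040010000000000000000000) (nat_lit 0x0) (nat_lit 0x200018008000080004000200000000000000) := T_1 (nat_lit 124) (nat_lit 123) (nat_lit 1) (nat_lit 8) (nat_lit 6) L247873 (by decide +kernel)
theorem L247875 : W_1 (nat_lit 5) (nat_lit 0x18000c0007800000010000000000000000000) (nat_lit 0x0) (nat_lit 0x2000180080000e0004000200000000000000) := T_1 (nat_lit 90) (nat_lit 89) (nat_lit 0) (nat_lit 8) (nat_lit 6) L247874 (by decide +kernel)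
theorem L247876 : W_1 (nat_lit 6) (nat_lit 0x18000c0007800000000000000000000000000) (nat_lit 0x0) (nat_lit 0x2000180080002e0014000200000000000000) := T_1 (nat_lit 76) (nat_lit 93) (nat_lit 5) (nat_lit 8) (nat_lit 4) L247875 (by decide +kernel)
theorem L247877 : W_1 (nat_lit 7) (nat_lit 0x18000c0007000000000000000000000000000) (nat_lit 0x0) (nat_lit 0x200018008c002e0014000200000000000000) := T_1 (nat_lit 107) (nat_lit 106) (nat_lit 3) (nat_lit 4) (nat_lit 6) L247876 (by decide +kernel)
theorem L249149 : W_1 (nat_lit 2) (nat_lit 0x10000c0007000200000000000000000000000) (nat_lit 0x0) (nat_lit 0x100000c00000000000000000000000000) := D_1 (nat_lit 107) (nat_lit 128) (nat_lit 106) (nat_lit 3) (nat_lit 5) (nat_lit 6) (nat_lit 3) (nat_lit 4) (nat_lit 6) (by decide +kernel)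
theorem L249263 : W_1 (nat_lit 7) (nat_lit 0x70000c0004000200008000000000000000000) (nat_lit 0x0) (nat_lit 0x1e000f00700000000400020000000000000000000) := T_1 (nat_lit 143) (nat_lit 160) (nat_lit 5) (nat_lit 8) (nat_lit 5) L22774 (by decide +kernel)
theorem L249264 : W_1 (nat_lit 8) (nat_lit 0x30000c0004000200008000000000000000000) (nat_lit 0x0) (nat_lit 0x1e00cf00700000000400020000000000000000000) := T_1 (nat_lit 146) (nat_lit 147) (nat_lit 0) (nat_lit 11) (nat_lit 8) L249263 (by decide +kernel)
theorem L249265 : W_1 (nat_lit 9) (nat_lit 0x10000c0004000200008000000000000000000) (nat_lit 0x0) (nat_lit 0x5e00ef00700000000400020000000000000000000) := T_1 (nat_lit 145) (nat_lit 162) (nat_lit 7) (nat_lit 8) (nat_lit 5) L249264 (by decide +kernel)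
theorem L249266 : W_1 (nat_lit 10) (nat_lit 0x10000c0004000200000000000000000000000) (nat_lit 0x0) (nat_lit 0x5e00ef00700000000500028000000000000000000) := T_1 (nat_lit 75) (nat_lit 92) (nat_lit 4) (nat_lit 8) (nat_lit 8) L249265 (by decide +kernel)
theorem L249271 : W_1 (nat_lit 2) (nat_lit 0x10001c000f000000000000000000000000000) (nat_lit 0x0) (nat_lit 0xc00020000000000000000000) := D_1 (nat_lit 94) (nat_lit 77) (nat_lit 95) (nat_lit 5) (nat_lit 9) (nat_lit 4) (nat_lit 2) (nat_lit 6) (nat_lit 6) (by decide +kernel)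
theorem L249272 : W_1 (nat_lit 3) (nat_lit 0x10000c000f000000000000000000000000000) (nat_lit 0x0) (nat_lit 0x300000000c00020000000000000000000) := T_1 (nat_lit 128) (nat_lit 129) (nat_lit 3) (nat_lit 6) (nat_lit 6) L249271 (by decide +kernel)
theorem L249276 : W_1 (nat_lit 2) (nat_lit 0x10002c000f000040000000000000000000000) (nat_lit 0x0) (nat_lit 0x400030000000000000000000000000000) := D_1 (nat_lit 112) (nat_lit 113) (nat_lit 130) (nat_lit 1) (nat_lit 11) (nat_lit 6) (nat_lit 3) (nat_lit 7) (nat_lit 6) (by decide +kernel)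
theorem L249277 : W_1 (nat_lit 3) (nat_lit 0x10000c000f000040000000000000000000000) (nat_lit 0x0) (nat_lit 0x700030000000000000000000000000000) := T_1 (nat_lit 129) (nat_lit 128) (nat_lit 3) (nat_lit 6) (nat_lit 6) L249276 (by decide +kernel)
theorem L249278 : W_1 (nat_lit 4) (nat_lit 0x10000c000f000000000000000000000000000) (nat_lit 0x0) (nat_lit 0x7000300000c0000000000000000000000) := T_1 (nat_lit 90) (nat_lit 91) (nat_lit 0) (nat_lit 9) (nat_lit 6) L249277 (by decide +kernel)
theorem L249369 : W_1 (nat_lit 2) (nat_lit 0x10001c001e000c00000000000000000000000) (nat_lit 0x0) (nat_lit 0x40002000000000000000040000000000000000000) := D_1 (nat_lit 145) (nat_lit 162) (nat_lit 78) (nat_lit 6) (nat_lit 9) (nat_lit 9) (nat_lit 6) (nat_lit 9) (nat_lit 8) (by decide +kernel)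
theorem L249370 : W_1 (nat_lit 3) (nat_lit 0x10001c001e000400000000000000000000000) (nat_lit 0x0) (nat_lit 0x40002000000000001800040000000000000000000) := T_1 (nat_lit 95) (nat_lit 96) (nat_lit 2) (nat_lit 7) (nat_lit 6) L249369 (by decide +kernel)
theorem L249371 : W_1 (nat_lit 4) (nat_lit 0x10001c001e000000000000000000000000000) (nat_lit 0x0) (nat_lit 0x40002000000000001c00060000000000000000000) := T_1 (nat_lit 94) (nat_lit 77) (nat_lit 5) (nat_lit 9) (nat_lit 4) L249370 (by decide +kernel)
theorem L249372 : W_1 (nat_lit 5) (nat_lit 0x10001c000e000000000000000000000000000) (nat_lit 0x0) (nat_lit 0x40002000000030001c00060000000000000000000) := T_1 (nat_lit 112) (nat_lit 113) (nat_lit 1) (nat_lit 11) (nat_lit 6) L249371 (by decide +kernel)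
theorem L249417 : W_1 (nat_lit 3) (nat_lit 0x10001c001e000800020000000000000000000) (nat_lit 0x0) (nat_lit 0x600000000000040003000000000000000) := T_1 (nat_lit 129) (nat_lit 130) (nat_lit 3) (nat_lit 7) (nat_lit 6) L28311 (by decide +kernel)
theorem L249418 : W_1 (nat_lit 4) (nat_lit 0x10001c001e000000020000000000000000000) (nat_lit 0x0) (nat_lit 0x600000001800040003000000000000000) := T_1 (nat_lit 95) (nat_lit 96) (nat_lit 2) (nat_lit 7) (nat_lit 6) L249417 (by decide +kernel)
theorem L249419 : W_1 (nat_lit 5) (nat_lit 0x10001c001e000000000000000000000000000) (nat_lit 0x0) (nat_lit 0x600000001c00060003000000000000000) := T_1 (nat_lit 77) (nat_lit 94) (nat_lit 5) (nat_lit 9) (nat_lit 4) L249418 (by decide +kernel)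
theorem L249420 : W_1 (nat_lit 6) (nat_lit 0x10001c000e000000000000000000000000000) (nat_lit 0x0) (nat_lit 0x600030001c00060003000000000000000) := T_1 (nat_lit 112) (nat_lit 113) (nat_lit 1) (nat_lit 11) (nat_lit 6) L249419 (by decide +kernel)
theorem L249421 : W_1 (nat_lit 2) (nat_lit 0x10003c001e000800000000000000000000000) (nat_lit 0x0) (nat_lit 0x2000000000000000040002000000000000000) := D_1 (nat_lit 78) (nat_lit 61) (nat_lit 145) (nat_lit 5) (nat_lit 10) (nat_lit 3) (nat_lit 5) (nat_lit 10) (nat_lit 4) (by decide +kernel)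
theorem L249422 : W_1 (nat_lit 3) (nat_lit 0x10003c001e000000000000000000000000000) (nat_lit 0x0) (nat_lit 0x2000000000001800040002000000000000000) := T_1 (nat_lit 95) (nat_lit 96) (nat_lit 2) (nat_lit 7) (nat_lit 6) L249421 (by decide +kernel)
theorem L249423 : W_1 (nat_lit 4) (nat_lit 0x10003c000e000000000000000000000000000) (nat_lit 0x0) (nat_lit 0x2000000030001800040002000000000000000) := T_1 (nat_lit 112) (nat_lit 113) (nat_lit 2) (nat_lit 7) (nat_lit 7) L249422 (by decide +kernel)
theorem L249424 : W_1 (nat_lit 5) (nat_lit 0x10001c000e000000000000000000000000000) (nat_lit 0x0) (nat_lit 0x2000600030001800040002000000000000000) := T_1 (nat_lit 129) (nat_lit 130) (nat_lit 0) (nat_lit 11) (nat_lit 7) L249423 (by decide +kernel)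
theorem L249425 : W_1 (nat_lit 2) (nat_lit 0x100058003c001e000000020000000000000000000) (nat_lit 0x0) (nat_lit 0x100008002000000000000000000000000000000000000) := D_1 (nat_lit 159) (nat_lit 176) (nat_lit 145) (nat_lit 5) (nat_lit 7) (nat_lit 6) (nat_lit 1) (nat_lit 10) (nat_lit 8) (by decide +kernel)
theorem L249426 : W_1 (nat_lit 3) (nat_lit 0x58003c001e000000020000000000000000000) (nat_lit 0x0) (nat_lit 0x300018002000000000000000000000000000000000000) := T_1 (nat_lit 160) (nat_lit 177) (nat_lit 6) (nat_lit 7) (nat_lit 10) L249425 (by decide +kernel)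
theorem L249427 : W_1 (nat_lit 4) (nat_lit 0x50003c001e000000020000000000000000000) (nat_lit 0x0) (nat_lit 0x300018002c00000000000000000000000000000000000) := T_1 (nat_lit 143) (nat_lit 142) (nat_lit 1) (nat_lit 10) (nat_lit 7) L249426 (by decide +kernel)
theorem L249428 : W_1 (nat_lit 5) (nat_lit 0x10003c001e000000020000000000000000000) (nat_lit 0x0) (nat_lit 0x30001800ec00000000000000000000000000000000000) := T_1 (nat_lit 146) (nat_lit 147) (nat_lit 3) (nat_lit 7) (nat_lit 7) L249427 (by decide +kernel)
theorem L249429 : W_1 (nat_lit 6) (nat_lit 0x10003c000e000000020000000000000000000) (nat_lit 0x0) (nat_lit 0x30001800ec00000030000000000000000000000000000) := T_1 (nat_lit 112) (nat_lit 113) (nat_lit 2) (nat_lit 7) (nat_lit 7) L249428 (by decide +kernel)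
theorem L249430 : W_1 (nat_lit 7) (nat_lit 0x10003c000e000000000000000000000000000) (nat_lit 0x0) (nat_lit 0x30001800ec00000030000400020000000000000000000) := T_1 (nat_lit 77) (nat_lit 94) (nat_lit 5) (nat_lit 9) (nat_lit 4) L249429 (by decide +kernel)
theorem L249431 : W_1 (nat_lit 8) (nat_lit 0x10001c000e000000000000000000000000000) (nat_lit 0x0) (nat_lit 0x30001800ec00600030000400020000000000000000000) := T_1 (nat_lit 129) (nat_lit 130) (nat_lit 0) (nat_lit 11) (nat_lit 7) L249430 (by decide +kernel)
theorem L249432 : W_1 (nat_lit 2) (nat_lit 0x100058003c000e000000020000000000000000000) (nat_lit 0x0) (nat_lit 0x100008002000000000000000000000000000000000000) := D_1 (nat_lit 159) (nat_lit 176) (nat_lit 145) (nat_lit 5) (nat_lit 7) (nat_lit 6) (nat_lit 1) (nat_lit 10) (nat_lit 8) (by decide +kernel)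
theorem L249433 : W_1 (nat_lit 3) (nat_lit 0x58003c000e000000020000000000000000000) (nat_lit 0x0) (nat_lit 0x300018002000000000000000000000000000000000000) := T_1 (nat_lit 160) (nat_lit 177) (nat_lit 6) (nat_lit 7) (nat_lit 10) L249432 (by decide +kernel)
theorem L249434 : W_1 (nat_lit 4) (nat_lit 0x50003c000e000000020000000000000000000) (nat_lit 0x0) (nat_lit 0x300018002c00000000000000000000000000000000000) := T_1 (nat_lit 143) (nat_lit 142) (nat_lit 1) (nat_lit 10) (nat_lit 7) L249433 (by decide +kernel)
theorem L249435 : W_1 (nat_lit 5) (nat_lit 0x10003c000e000000020000000000000000000) (nat_lit 0x0) (nat_lit 0x30001800ec00000000000000000000000000000000000) := T_1 (nat_lit 146) (nat_lit 147) (nat_lit 3) (nat_lit 7) (nat_lit 7) L249434 (by decide +kernel)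
theorem L249436 : W_1 (nat_lit 6) (nat_lit 0x10001c000e000000020000000000000000000) (nat_lit 0x0) (nat_lit 0x30001800ec00600000000000000000000000000000000) := T_1 (nat_lit 129) (nat_lit 130) (nat_lit 0) (nat_lit 11) (nat_lit 7) L249435 (by decide +kernel)
theorem L249437 : W_1 (nat_lit 7) (nat_lit 0x10001c000e000000000000000000000000000) (nat_lit 0x0) (nat_lit 0x30001800ec00600000000400020000000000000000000) := T_1 (nat_lit 77) (nat_lit 94) (nat_lit 5) (nat_lit 9) (nat_lit 4) L249436 (by decide +kernel)
theorem L249438 : W_1 (nat_lit 9) (nat_lit 0x10000c000e000000000000000000000000000) (nat_lit 0x0) (nat_lit 0x30005800ec00700030001c00060003000000000000000) := Q_1 (nat_lit 128) (C_1 L249372 (C_1 L249420 (C_1 L249424 (C_1 L249431 (C_1 L249437 N_1))))) (by decide +kernel)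
theorem L249439 : W_1 (nat_lit 2) (nat_lit 0x10000c000e000400000000000000000000000) (nat_lit 0x0) (nat_lit 0x100000000000020001000000000000000) := D_1 (nat_lit 77) (nat_lit 60) (nat_lit 128) (nat_lit 5) (nat_lit 9) (nat_lit 3) (nat_lit 5) (nat_lit 9) (nat_lit 4) (by decide +kernel)
theorem L249612 : W_1 (nat_lit 3) (nat_lit 0x10001c000e000000000000000000000000000) (nat_lit 0x0) (nat_lit 0x1800c00020000000000000000000) := T_1 (nat_lit 108) (nat_lit 107) (nat_lit 3) (nat_lit 5) (nat_lit 6) L249271 (by decide +kernel)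
theorem L249816 : W_1 (nat_lit 2) (nat_lit 0x10000c000f800400008000000000000000000) (nat_lit 0x0) (nat_lit 0xe0000000000000000000000) := D_1 (nat_lit 90) (nat_lit 91) (nat_lit 89) (nat_lit 0) (nat_lit 9) (nat_lit 6) (nat_lit 0) (nat_lit 8) (nat_lit 6) (by decide +kernel)
theorem L249894 : W_1 (nat_lit 2) (nat_lit 0x10000c000e000500000001000000000000000) (nat_lit 0x0) (nat_lit 0x30000080000000000000000000000) := D_1 (nat_lit 112) (nat_lit 113) (nat_lit 91) (nat_lit 1) (nat_lit 11) (nat_lit 6) (nat_lit 0) (nat_lit 10) (nat_lit 6) (by decide +kernel)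
theorem L249895 : W_1 (nat_lit 3) (nat_lit 0x10000c000e000400000001000000000000000) (nat_lit 0x0) (nat_lit 0x30000180008000000000000000000) := T_1 (nat_lit 92) (nat_lit 75) (nat_lit 7) (nat_lit 7) (nat_lit 4) L249894 (by decide +kernel)
theorem L249896 : W_1 (nat_lit 4) (nat_lit 0x10000c000e000400000000000000000000000) (nat_lit 0x0) (nat_lit 0x30000180028001000000000000000) := T_1 (nat_lit 60) (nat_lit 77) (nat_lit 5) (nat_lit 9) (nat_lit 3) L249895 (by decide +kernel)
theorem L249897 : W_1 (nat_lit 3) (nat_lit 0x10000c001e000400020000000000000000000) (nat_lit 0x0) (nat_lit 0x4000600000001800000000000000000000000) := T_1 (nat_lit 129) (nat_lit 130) (nat_lit 3) (nat_lit 7) (nat_lit 6) L23613 (by decide +kernel)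
theorem L249898 : W_1 (nat_lit 4) (nat_lit 0x10000c001e000400000000000000000000000) (nat_lit 0x0) (nat_lit 0x4000600000001800020001000000000000000) := T_1 (nat_lit 77) (nat_lit 60) (nat_lit 5) (nat_lit 9) (nat_lit 3) L249897 (by decide +kernel)
theorem L249899 : W_1 (nat_lit 5) (nat_lit 0x10000c000e000400000000000000000000000) (nat_lit 0x0) (nat_lit 0x4000600030001800020001000000000000000) := T_1 (nat_lit 112) (nat_lit 113) (nat_lit 1) (nat_lit 11) (nat_lit 6) L249898 (by decide +kernel)
theorem L250601 : W_1 (nat_lit 2) (nat_lit 0x30003c0004000000000000000000000000000) (nat_lit 0x0) (nat_lit 0x40000000000000000200010000000000000000000) := D_1 (nat_lit 93) (nat_lit 162) (nat_lit 76) (nat_lit 7) (nat_lit 8) (nat_lit 5) (nat_lit 7) (nat_lit 8) (nat_lit 4) (by decide +kernel)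
theorem L250602 : W_1 (nat_lit 2) (nat_lit 0x70003c0015000700000000000000000000000) (nat_lit 0x0) (nat_lit 0x8800080000000000000000000000) := D_1 (nat_lit 91) (nat_lit 111) (nat_lit 107) (nat_lit 3) (nat_lit 6) (nat_lit 5) (nat_lit 1) (nat_lit 9) (nat_lit 5) (by decide +kernel)
theorem L250676 : W_1 (nat_lit 2) (nat_lit 0x70003c0094003c00210000000000000000000) (nat_lit 0x0) (nat_lit 0x100004000400000000000000000000) := D_1 (nat_lit 98) (nat_lit 116) (nat_lit 82) (nat_lit 3) (nat_lit 10) (nat_lit 5) (nat_lit 2) (nat_lit 10) (nat_lit 5) (by decide +kernel)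
theorem L250677 : W_1 (nat_lit 3) (nat_lit 0x70003c0094003c00010000000000000000000) (nat_lit 0x0) (nat_lit 0x100004000700000000000000000000) := T_1 (nat_lit 81) (nat_lit 80) (nat_lit 2) (nat_lit 9) (nat_lit 5) L250676 (by decide +kernel)
theorem L250678 : W_1 (nat_lit 4) (nat_lit 0x70003c0014003c00010000000000000000000) (nat_lit 0x0) (nat_lit 0x1c0004000700000000000000000000) := T_1 (nat_lit 115) (nat_lit 114) (nat_lit 3) (nat_lit 9) (nat_lit 5) L250677 (by decide +kernel)
theorem L250679 : W_1 (nat_lit 5) (nat_lit 0x70003c0014001c00010000000000000000000) (nat_lit 0x0) (nat_lit 0x1c8006000700000000000000000000) := T_1 (nat_lit 97) (nat_lit 111) (nat_lit 1) (nat_lit 12) (nat_lit 5) L250678 (by decide +kernel)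
theorem L250680 : W_1 (nat_lit 6) (nat_lit 0x70003c0014000c00010000000000000000000) (nat_lit 0x0) (nat_lit 0x1c8007000780000000000000000000) := T_1 (nat_lit 96) (nat_lit 79) (nat_lit 6) (nat_lit 10) (nat_lit 8) L250679 (by decide +kernel)
theorem L250681 : W_1 (nat_lit 7) (nat_lit 0x70003c0014000800010000000000000000000) (nat_lit 0x0) (nat_lit 0x1c80074007a0000000000000000000) := T_1 (nat_lit 94) (nat_lit 77) (nat_lit 4) (nat_lit 10) (nat_lit 8) L250680 (by decide +kernel)
theorem L250682 : W_1 (nat_lit 8) (nat_lit 0x70003c0014000000010000000000000000000) (nat_lit 0x0) (nat_lit 0x1c8007c007e0000000000000000000) := T_1 (nat_lit 95) (nat_lit 78) (nat_lit 5) (nat_lit 10) (nat_lit 4) L250681 (by decide +kernel)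
theorem L250683 : W_1 (nat_lit 9) (nat_lit 0x70003c0004000000010000000000000000000) (nat_lit 0x0) (nat_lit 0x1f8007c007e0000000000000000000) := T_1 (nat_lit 112) (nat_lit 113) (nat_lit 2) (nat_lit 7) (nat_lit 7) L250682 (by decide +kernel)
theorem L250684 : W_1 (nat_lit 10) (nat_lit 0x70003c0004000000000000000000000000000) (nat_lit 0x0) (nat_lit 0x1f8007e007f0000000000000000000) := T_1 (nat_lit 76) (nat_lit 93) (nat_lit 7) (nat_lit 8) (nat_lit 4) L250683 (by decide +kernel)
theorem L250685 : W_1 (nat_lit 11) (nat_lit 0x30003c0004000000000000000000000000000) (nat_lit 0x0) (nat_lit 0xc0000001f8007e007f0000000000000000000) := T_1 (nat_lit 146) (nat_lit 147) (nat_lit 3) (nat_lit 7) (nat_lit 7) L250684 (by decide +kernel)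
theorem L250686 : W_1 (nat_lit 2) (nat_lit 0x400030003c0014000000000000000000000000000) (nat_lit 0x0) (nat_lit 0x8000800040000000000000000000) := D_1 (nat_lit 95) (nat_lit 111) (nat_lit 78) (nat_lit 6) (nat_lit 9) (nat_lit 9) (nat_lit 5) (nat_lit 10) (nat_lit 4) (by decide +kernel)
theorem L250687 : W_1 (nat_lit 3) (nat_lit 0x30003c0014000000000000000000000000000) (nat_lit 0x0) (nat_lit 0x800040000000000008000800040000000000000000000) := T_1 (nat_lit 162) (nat_lit 179) (nat_lit 6) (nat_lit 9) (nat_lit 10) L250686 (by decide +kernel)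
theorem L250688 : W_1 (nat_lit 4) (nat_lit 0x30003c0004000000000000000000000000000) (nat_lit 0x0) (nat_lit 0x800040000000000038000800040000000000000000000) := T_1 (nat_lit 112) (nat_lit 113) (nat_lit 2) (nat_lit 7) (nat_lit 7) L250687 (by decide +kernel)
theorem L250689 : W_1 (nat_lit 12) (nat_lit 0x10003c0004000000000000000000000000000) (nat_lit 0x0) (nat_lit 0x80004000e0000001f8007e007f0000000000000000000) := Q_1 (nat_lit 145) (C_1 L250601 (C_1 L250685 (C_1 L250688 N_1))) (by decide +kernel)
theorem L250690 : W_1 (nat_lit 2) (nat_lit 0x10003c0004000200000000000000000000000) (nat_lit 0x0) (nat_lit 0x40002000000000000000010000000000000000000) := D_1 (nat_lit 145) (nat_lit 162) (nat_lit 76) (nat_lit 7) (nat_lit 8) (nat_lit 5) (nat_lit 7) (nat_lit 8) (nat_lit 4) (by decide +kernel)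
theorem L250691 : W_1 (nat_lit 2) (nat_lit 0x50003c0004000200030000000000000000000) (nat_lit 0x0) (nat_lit 0x100008000400000000000000) := D_1 (nat_lit 75) (nat_lit 92) (nat_lit 58) (nat_lit 4) (nat_lit 8) (nat_lit 8) (nat_lit 4) (nat_lit 8) (nat_lit 7) (by decide +kernel)
theorem L250692 : W_1 (nat_lit 3) (nat_lit 0x50003c0004000200020000000000000000000) (nat_lit 0x0) (nat_lit 0x100018001400000000000000) := T_1 (nat_lit 76) (nat_lit 60) (nat_lit 6) (nat_lit 8) (nat_lit 7) L250691 (by decide +kernel)
theorem L250693 : W_1 (nat_lit 4) (nat_lit 0x50003c0004000200000000000000000000000) (nat_lit 0x0) (nat_lit 0x500038001400000000000000) := T_1 (nat_lit 77) (nat_lit 94) (nat_lit 6) (nat_lit 8) (nat_lit 8) L250692 (by decide +kernel)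
theorem L250694 : W_1 (nat_lit 5) (nat_lit 0x10003c0004000200000000000000000000000) (nat_lit 0x0) (nat_lit 0xc000000000000500038001400000000000000) := T_1 (nat_lit 146) (nat_lit 147) (nat_lit 3) (nat_lit 7) (nat_lit 7) L250693 (by decide +kernel)
theorem L250695 : W_1 (nat_lit 3) (nat_lit 0x70003c0015000600000000000000000000000) (nat_lit 0x0) (nat_lit 0x8800180008000000000000000000) := T_1 (nat_lit 92) (nat_lit 75) (nat_lit 4) (nat_lit 8) (nat_lit 8) L250602 (by decide +kernel)
theorem L250696 : W_1 (nat_lit 4) (nat_lit 0x70003c0014000600000000000000000000000) (nat_lit 0x0) (nat_lit 0xb800180008000000000000000000) := T_1 (nat_lit 108) (nat_lit 109) (nat_lit 0) (nat_lit 10) (nat_lit 7) L250695 (by decide +kernel)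
theorem L250697 : W_1 (nat_lit 5) (nat_lit 0x70003c0014000200000000000000000000000) (nat_lit 0x0) (nat_lit 0xb800580028000000000000000000) := T_1 (nat_lit 94) (nat_lit 77) (nat_lit 6) (nat_lit 8) (nat_lit 8) L250696 (by decide +kernel)
theorem L250698 : W_1 (nat_lit 6) (nat_lit 0x30003c0014000200000000000000000000000) (nat_lit 0x0) (nat_lit 0xc00000000b800580028000000000000000000) := T_1 (nat_lit 146) (nat_lit 147) (nat_lit 3) (nat_lit 7) (nat_lit 7) L250697 (by decide +kernel)
theorem L250699 : W_1 (nat_lit 7) (nat_lit 0x10003c0014000200000000000000000000000) (nat_lit 0x0) (nat_lit 0x4000e00000000b800580028000000000000000000) := T_1 (nat_lit 145) (nat_lit 162) (nat_lit 7) (nat_lit 8) (nat_lit 5) L250698 (by decide +kernel)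
theorem L250700 : W_1 (nat_lit 8) (nat_lit 0x10003c0004000200000000000000000000000) (nat_lit 0x0) (nat_lit 0x4000e00000003b800580028000000000000000000) := T_1 (nat_lit 112) (nat_lit 113) (nat_lit 2) (nat_lit 7) (nat_lit 7) L250699 (by decide +kernel)
theorem L250701 : W_1 (nat_lit 9) (nat_lit 0x10003c0004000000000000000000000000000) (nat_lit 0x0) (nat_lit 0x4000e00000003b800780038001400000000000000) := Q_1 (nat_lit 93) (C_1 L250690 (C_1 L250694 (C_1 L250700 N_1))) (by decide +kernel)
theorem L250702 : W_1 (nat_lit 6) (nat_lit 0x10003c0014000000000000000000000000000) (nat_lit 0x0) (nat_lit 0x200000000b001980048002000000000000000) := T_1 (nat_lit 109) (nat_lit 108) (nat_lit 0) (nat_lit 10) (nat_lit 7) L23100 (by decide +kernel)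
theorem L250703 : W_1 (nat_lit 7) (nat_lit 0x10003c0004000000000000000000000000000) (nat_lit 0x0) (nat_lit 0x200000003b001980048002000000000000000) := T_1 (nat_lit 112) (nat_lit 113) (nat_lit 2) (nat_lit 7) (nat_lit 7) L250702 (by decide +kernel)
theorem L250704 : W_1 (nat_lit 2) (nat_lit 0x70003c0016000600008000000000000000000) (nat_lit 0x0) (nat_lit 0x1800040000000000000000000) := D_1 (nat_lit 95) (nat_lit 96) (nat_lit 78) (nat_lit 1) (nat_lit 11) (nat_lit 5) (nat_lit 5) (nat_lit 10) (nat_lit 4) (by decide +kernel)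
theorem L250705 : W_1 (nat_lit 3) (nat_lit 0x70003c0006000600008000000000000000000) (nat_lit 0x0) (nat_lit 0x30001800040000000000000000000) := T_1 (nat_lit 112) (nat_lit 113) (nat_lit 2) (nat_lit 7) (nat_lit 7) L250704 (by decide +kernel)
theorem L250706 : W_1 (nat_lit 4) (nat_lit 0x30003c0006000600008000000000000000000) (nat_lit 0x0) (nat_lit 0xc000000030001800040000000000000000000) := T_1 (nat_lit 146) (nat_lit 147) (nat_lit 3) (nat_lit 7) (nat_lit 7) L250705 (by decide +kernel)
theorem L250707 : W_1 (nat_lit 5) (nat_lit 0x10003c0006000600008000000000000000000) (nat_lit 0x0) (nat_lit 0x4000e000000030001800040000000000000000000) := T_1 (nat_lit 145) (nat_lit 162) (nat_lit 7) (nat_lit 8) (nat_lit 5) L250706 (by decide +kernel)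
theorem L250708 : W_1 (nat_lit 6) (nat_lit 0x10003c0006000600000000000000000000000) (nat_lit 0x0) (nat_lit 0x4000e000000030001900048000000000000000000) := T_1 (nat_lit 75) (nat_lit 92) (nat_lit 7) (nat_lit 7) (nat_lit 4) L250707 (by decide +kernel)
theorem L250709 : W_1 (nat_lit 7) (nat_lit 0x10003c0006000200000000000000000000000) (nat_lit 0x0) (nat_lit 0x4000e000000030001d00068000000000000000000) := T_1 (nat_lit 94) (nat_lit 77) (nat_lit 6) (nat_lit 8) (nat_lit 8) L250708 (by decide +kernel)
theorem L250710 : W_1 (nat_lit 8) (nat_lit 0x10003c0004000200000000000000000000000) (nat_lit 0x0) (nat_lit 0x4000e000000033001d00068000000000000000000) := T_1 (nat_lit 109) (nat_lit 108) (nat_lit 0) (nat_lit 10) (nat_lit 7) L250709 (by decide +kernel)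
theorem L250711 : W_1 (nat_lit 9) (nat_lit 0x10003c0004000000000000000000000000000) (nat_lit 0x0) (nat_lit 0x4000e000000033001f00078001400000000000000) := Q_1 (nat_lit 93) (C_1 L250690 (C_1 L250694 (C_1 L250710 N_1))) (by decide +kernel)
theorem L250712 : W_1 (nat_lit 2) (nat_lit 0x70003c0005000780002000000000000000000) (nat_lit 0x0) (nat_lit 0x8000040001000000000000000000) := D_1 (nat_lit 90) (nat_lit 72) (nat_lit 111) (nat_lit 0) (nat_lit 8) (nat_lit 5) (nat_lit 3) (nat_lit 5) (nat_lit 5) (by decide +kernel)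
theorem L250713 : W_1 (nat_lit 3) (nat_lit 0x70003c0005000780000000000000000000000) (nat_lit 0x0) (nat_lit 0x8000040007000000000000000000) := T_1 (nat_lit 73) (nat_lit 74) (nat_lit 0) (nat_lit 9) (nat_lit 5) L250712 (by decide +kernel)
theorem L250714 : W_1 (nat_lit 4) (nat_lit 0x70003c0005000700000000000000000000000) (nat_lit 0x0) (nat_lit 0x88000c0007000000000000000000) := T_1 (nat_lit 91) (nat_lit 107) (nat_lit 1) (nat_lit 9) (nat_lit 5) L250713 (by decide +kernel)
theorem L250715 : W_1 (nat_lit 5) (nat_lit 0x50003c0005000700000000000000000000000) (nat_lit 0x0) (nat_lit 0x400020000000088000c0007000000000000000000) := T_1 (nat_lit 145) (nat_lit 162) (nat_lit 7) (nat_lit 8) (nat_lit 5) L250714 (by decide +kernel)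
theorem L250716 : W_1 (nat_lit 6) (nat_lit 0x50003c0005000600000000000000000000000) (nat_lit 0x0) (nat_lit 0x400020000000088001c000f000000000000000000) := T_1 (nat_lit 92) (nat_lit 75) (nat_lit 4) (nat_lit 8) (nat_lit 8) L250715 (by decide +kernel)
theorem L250717 : W_1 (nat_lit 7) (nat_lit 0x10003c0005000600000000000000000000000) (nat_lit 0x0) (nat_lit 0x4000e0000000088001c000f000000000000000000) := T_1 (nat_lit 146) (nat_lit 147) (nat_lit 3) (nat_lit 7) (nat_lit 7) L250716 (by decide +kernel)
theorem L250718 : W_1 (nat_lit 8) (nat_lit 0x10003c0005000200000000000000000000000) (nat_lit 0x0) (nat_lit 0x4000e0000000088005c002f000000000000000000) := T_1 (nat_lit 94) (nat_lit 77) (nat_lit 6) (nat_lit 8) (nat_lit 8) L250717 (by decide +kernel)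
theorem L250719 : W_1 (nat_lit 9) (nat_lit 0x10003c0004000200000000000000000000000) (nat_lit 0x0) (nat_lit 0x4000e00000000b8005c002f000000000000000000) := T_1 (nat_lit 108) (nat_lit 109) (nat_lit 0) (nat_lit 10) (nat_lit 7) L250718 (by decide +kernel)
theorem L250720 : W_1 (nat_lit 10) (nat_lit 0x10003c0004000000000000000000000000000) (nat_lit 0x0) (nat_lit 0x4000e00000000b8007c003f001400000000000000) := Q_1 (nat_lit 93) (C_1 L250690 (C_1 L250694 (C_1 L250719 N_1))) (by decide +kernel)
theorem L250721 : W_1 (nat_lit 13) (nat_lit 0x10003c0000000000000000000000000000000) (nat_lit 0x0) (nat_lit 0x80004000e0000001ff807fc07ff003400000000000000) := Q_1 (nat_lit 110) (C_1 L250689 (C_1 L250701 (C_1 L22991 (C_1 L250703 (C_1 L250711 (C_1 L250720 N_1)))))) (by decide +kernel)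
theorem L250722 : W_1 (nat_lit 2) (nat_lit 0x90007c0041000000000000000000000000000) (nat_lit 0x0) (nat_lit 0x2000800080000000000000000000000000000) := D_1 (nat_lit 131) (nat_lit 145) (nat_lit 115) (nat_lit 1) (nat_lit 12) (nat_lit 7) (nat_lit 2) (nat_lit 9) (nat_lit 7) (by decide +kernel)
theorem L250723 : W_1 (nat_lit 3) (nat_lit 0x90007c0001000000000000000000000000000) (nat_lit 0x0) (nat_lit 0x20008000e0000000000000000000000000000) := T_1 (nat_lit 114) (nat_lit 113) (nat_lit 2) (nat_lit 8) (nat_lit 7) L250722 (by decide +kernel)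
theorem L250724 : W_1 (nat_lit 4) (nat_lit 0x90003c0001000000000000000000000000000) (nat_lit 0x0) (nat_lit 0x12000c000e0000000000000000000000000000) := T_1 (nat_lit 130) (nat_lit 148) (nat_lit 3) (nat_lit 8) (nat_lit 7) L250723 (by decide +kernel)
theorem L250725 : W_1 (nat_lit 5) (nat_lit 0x10003c0001000000000000000000000000000) (nat_lit 0x0) (nat_lit 0x1e000c000e0000000000000000000000000000) := T_1 (nat_lit 147) (nat_lit 146) (nat_lit 3) (nat_lit 7) (nat_lit 7) L250724 (by decide +kernel)
theorem L250726 : W_1 (nat_lit 6) (nat_lit 0x10003c0000000000000000000000000000000) (nat_lit 0x0) (nat_lit 0x1e000c000e3000000000000000000000000000) := T_1 (nat_lit 108) (nat_lit 109) (nat_lit 0) (nat_lit 10) (nat_lit 7) L250725 (by decide +kernel)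
theorem L250727 : W_1 (nat_lit 2) (nat_lit 0x25000fc0082000000008000000000000000000) (nat_lit 0x0) (nat_lit 0x40001000100000000000000000000000000000) := D_1 (nat_lit 132) (nat_lit 150) (nat_lit 116) (nat_lit 3) (nat_lit 10) (nat_lit 7) (nat_lit 2) (nat_lit 10) (nat_lit 7) (by decide +kernel)
theorem L250728 : W_1 (nat_lit 3) (nat_lit 0x25000fc0002000000008000000000000000000) (nat_lit 0x0) (nat_lit 0x400010001c0000000000000000000000000000) := T_1 (nat_lit 115) (nat_lit 114) (nat_lit 2) (nat_lit 9) (nat_lit 7) L250727 (by decide +kernel)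
theorem L250729 : W_1 (nat_lit 4) (nat_lit 0x5000fc0002000000008000000000000000000) (nat_lit 0x0) (nat_lit 0x700010001c0000000000000000000000000000) := T_1 (nat_lit 149) (nat_lit 148) (nat_lit 3) (nat_lit 9) (nat_lit 7) L250728 (by decide +kernel)
theorem L250730 : W_1 (nat_lit 5) (nat_lit 0x50007c0002000000008000000000000000000) (nat_lit 0x0) (nat_lit 0x720018001c0000000000000000000000000000) := T_1 (nat_lit 131) (nat_lit 145) (nat_lit 1) (nat_lit 12) (nat_lit 7) L250729 (by decide +kernel)
theorem L250731 : W_1 (nat_lit 6) (nat_lit 0x50007c0002000000000000000000000000000) (nat_lit 0x0) (nat_lit 0x720018001c0000100008000000000000000000) := T_1 (nat_lit 75) (nat_lit 92) (nat_lit 7) (nat_lit 7) (nat_lit 4) L250730 (by decide +kernel)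
theorem L250732 : W_1 (nat_lit 7) (nat_lit 0x50003c0002000000000000000000000000000) (nat_lit 0x0) (nat_lit 0x72001c001c4000100008000000000000000000) := T_1 (nat_lit 130) (nat_lit 110) (nat_lit 0) (nat_lit 11) (nat_lit 7) L250731 (by decide +kernel)
theorem L250733 : W_1 (nat_lit 8) (nat_lit 0x50003c0000000000000000000000000000000) (nat_lit 0x0) (nat_lit 0x72001c001c7000100008000000000000000000) := T_1 (nat_lit 109) (nat_lit 108) (nat_lit 0) (nat_lit 10) (nat_lit 7) L250732 (by decide +kernel)
theorem L250734 : W_1 (nat_lit 9) (nat_lit 0x10003c0000000000000000000000000000000) (nat_lit 0x0) (nat_lit 0x7e001c001c7000100008000000000000000000) := T_1 (nat_lit 146) (nat_lit 147) (nat_lit 3) (nat_lit 7) (nat_lit 7) L250733 (by decide +kernel)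
theorem L250735 : W_1 (nat_lit 14) (nat_lit 0x10001c0000000000000000000000000000000) (nat_lit 0x0) (nat_lit 0x80004007e001e001ff807fc07ff003400000000000000) := Q_1 (nat_lit 129) (C_1 L250721 (C_1 L2677 (C_1 L2034 (C_1 L23103 (C_1 L250726 (C_1 L250734 N_1)))))) (by decide +kernel)
theorem L250736 : W_1 (nat_lit 12) (nat_lit 0x10001c0000000000000000000000000000000) (nat_lit 0x0) (nat_lit 0x30001807ec01e001ff0019e004c002000000000000000) := Q_1 (nat_lit 129) (C_1 L2677 (C_1 L250734 (C_1 L2034 (C_1 L23103 (C_1 L27013 N_1))))) (by decide +kernel)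
theorem L250737 : W_1 (nat_lit 11) (nat_lit 0x10001c0000000000000000000000000000000) (nat_lit 0x0) (nat_lit 0x3ec00e000fb000f8007c000000000000000000) := Q_1 (nat_lit 129) (C_1 L2022 (C_1 L250726 (C_1 L23096 (C_1 L26818 (C_1 L1992 N_1))))) (by decide +kernel)
theorem L250738 : W_1 (nat_lit 2) (nat_lit 0x100078003c0010000000000000000000000000000) (nat_lit 0x0) (nat_lit 0x200000000000000004000200000000000000000000000) := D_1 (nat_lit 110) (nat_lit 93) (nat_lit 177) (nat_lit 5) (nat_lit 8) (nat_lit 5) (nat_lit 6) (nat_lit 7) (nat_lit 10) (by decide +kernel)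
theorem L250739 : W_1 (nat_lit 3) (nat_lit 0x78003c0010000000000000000000000000000) (nat_lit 0x0) (nat_lit 0x200018000000000004000200000000000000000000000) := T_1 (nat_lit 160) (nat_lit 159) (nat_lit 1) (nat_lit 10) (nat_lit 8) L250738 (by decide +kernel)
theorem L250740 : W_1 (nat_lit 4) (nat_lit 0x78003c0000000000000000000000000000000) (nat_lit 0x0) (nat_lit 0x200018000000000034000200000000000000000000000) := T_1 (nat_lit 112) (nat_lit 113) (nat_lit 2) (nat_lit 7) (nat_lit 7) L250739 (by decide +kernel)
theorem L250741 : W_1 (nat_lit 5) (nat_lit 0x70003c0000000000000000000000000000000) (nat_lit 0x0) (nat_lit 0x200018000c00000034000200000000000000000000000) := T_1 (nat_lit 143) (nat_lit 142) (nat_lit 2) (nat_lit 6) (nat_lit 8) L250740 (by decide +kernel)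
theorem L250742 : W_1 (nat_lit 6) (nat_lit 0x30003c0000000000000000000000000000000) (nat_lit 0x0) (nat_lit 0x20001800cc00000034000200000000000000000000000) := T_1 (nat_lit 146) (nat_lit 147) (nat_lit 3) (nat_lit 7) (nat_lit 7) L250741 (by decide +kernel)
theorem L250743 : W_1 (nat_lit 2) (nat_lit 0x34003c0010000800000000000000000000000) (nat_lit 0x0) (nat_lit 0x800040000000000008000000000000000000000000000) := D_1 (nat_lit 162) (nat_lit 179) (nat_lit 111) (nat_lit 6) (nat_lit 9) (nat_lit 10) (nat_lit 6) (nat_lit 9) (nat_lit 9) (by decide +kernel)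
theorem L250744 : W_1 (nat_lit 3) (nat_lit 0x34003c0010000000000000000000000000000) (nat_lit 0x0) (nat_lit 0x800040000000000008000800040000000000000000000) := T_1 (nat_lit 95) (nat_lit 78) (nat_lit 5) (nat_lit 10) (nat_lit 4) L250743 (by decide +kernel)
theorem L250745 : W_1 (nat_lit 4) (nat_lit 0x30003c0010000000000000000000000000000) (nat_lit 0x0) (nat_lit 0x800040000c00000008000800040000000000000000000) := T_1 (nat_lit 142) (nat_lit 143) (nat_lit 2) (nat_lit 6) (nat_lit 8) L250744 (by decide +kernel)
theorem L250746 : W_1 (nat_lit 5) (nat_lit 0x30003c0000000000000000000000000000000) (nat_lit 0x0) (nat_lit 0x800040000c00000038000800040000000000000000000) := T_1 (nat_lit 112) (nat_lit 113) (nat_lit 2) (nat_lit 7) (nat_lit 7) L250745 (by decide +kernel)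
theorem L250747 : W_1 (nat_lit 2) (nat_lit 0x100078003c0000000000000000000000000000000) (nat_lit 0x0) (nat_lit 0x200000000000000004000200000000000000000000000) := D_1 (nat_lit 110) (nat_lit 93) (nat_lit 177) (nat_lit 5) (nat_lit 8) (nat_lit 5) (nat_lit 6) (nat_lit 7) (nat_lit 10) (by decide +kernel)
theorem L250748 : W_1 (nat_lit 3) (nat_lit 0x78003c0000000000000000000000000000000) (nat_lit 0x0) (nat_lit 0x200018000000000004000200000000000000000000000) := T_1 (nat_lit 160) (nat_lit 159) (nat_lit 1) (nat_lit 10) (nat_lit 8) L250747 (by decide +kernel)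
theorem L250749 : W_1 (nat_lit 4) (nat_lit 0x38003c0000000000000000000000000000000) (nat_lit 0x0) (nat_lit 0x20001800c000000004000200000000000000000000000) := T_1 (nat_lit 146) (nat_lit 147) (nat_lit 3) (nat_lit 7) (nat_lit 7) L250748 (by decide +kernel)
theorem L250750 : W_1 (nat_lit 5) (nat_lit 0x30003c0000000000000000000000000000000) (nat_lit 0x0) (nat_lit 0x20001800cc00000004000200000000000000000000000) := T_1 (nat_lit 143) (nat_lit 142) (nat_lit 2) (nat_lit 6) (nat_lit 8) L250749 (by decide +kernel)
theorem L250751 : W_1 (nat_lit 7) (nat_lit 0x10003c0000000000000000000000000000000) (nat_lit 0x0) (nat_lit 0xa0005800ec0000003c000a00040000000000000000000) := Q_1 (nat_lit 145) (C_1 L22386 (C_1 L250742 (C_1 L250746 (C_1 L250750 N_1)))) (by decide +kernel)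
theorem L250752 : W_1 (nat_lit 8) (nat_lit 0x10001c0000000000000000000000000000000) (nat_lit 0x0) (nat_lit 0xa0005801ec01e0003c000a00040000000000000000000) := Q_1 (nat_lit 129) (C_1 L2677 (C_1 L2022 (C_1 L1992 (C_1 L250751 N_1)))) (by decide +kernel)
theorem L250753 : W_1 (nat_lit 9) (nat_lit 0x10003c0012000000000000000000000000000) (nat_lit 0x0) (nat_lit 0x50002c00000004001f8007c000000000000000000) := T_1 (nat_lit 143) (nat_lit 142) (nat_lit 1) (nat_lit 10) (nat_lit 7) L24841 (by decide +kernel)
theorem L250754 : W_1 (nat_lit 10) (nat_lit 0x10003c0010000000000000000000000000000) (nat_lit 0x0) (nat_lit 0x50002c00000007001f8007c000000000000000000) := T_1 (nat_lit 109) (nat_lit 108) (nat_lit 0) (nat_lit 10) (nat_lit 7) L250753 (by decide +kernel)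
theorem L250755 : W_1 (nat_lit 11) (nat_lit 0x10003c0000000000000000000000000000000) (nat_lit 0x0) (nat_lit 0x50002c00000037001f8007c000000000000000000) := T_1 (nat_lit 112) (nat_lit 113) (nat_lit 2) (nat_lit 7) (nat_lit 7) L250754 (by decide +kernel)
theorem L250756 : W_1 (nat_lit 12) (nat_lit 0x10001c0000000000000000000000000000000) (nat_lit 0x0) (nat_lit 0x50002c0060003f001f8007c002000000000000000) := Q_1 (nat_lit 129) (C_1 L1992 (C_1 L23103 (C_1 L250755 N_1))) (by decide +kernel)
theorem L250757 : W_1 (nat_lit 12) (nat_lit 0x10001c0000000000000000000000000000000) (nat_lit 0x0) (nat_lit 0x5007ec01e001f7001f8007c000000000000000000) := Q_1 (nat_lit 129) (C_1 L2022 (C_1 L250755 (C_1 L250734 N_1))) (by decide +kernel)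
theorem L250758 : W_1 (nat_lit 4) (nat_lit 0x58003c0006000700004000000000000000000) (nat_lit 0x0) (nat_lit 0x400020000000080018000c0000000000000000000) := T_1 (nat_lit 145) (nat_lit 162) (nat_lit 7) (nat_lit 8) (nat_lit 5) L88724 (by decide +kernel)
theorem L250759 : W_1 (nat_lit 5) (nat_lit 0x58003c0006000300004000000000000000000) (nat_lit 0x0) (nat_lit 0x40002000000008001c000e0000000000000000000) := T_1 (nat_lit 94) (nat_lit 77) (nat_lit 6) (nat_lit 8) (nat_lit 8) L250758 (by decide +kernel)
theorem L250760 : W_1 (nat_lit 6) (nat_lit 0x58003c0002000300004000000000000000000) (nat_lit 0x0) (nat_lit 0x5000200000000c001c000e0000000000000000000) := T_1 (nat_lit 110) (nat_lit 160) (nat_lit 6) (nat_lit 7) (nat_lit 9) L250759 (by decide +kernel)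
theorem L250761 : W_1 (nat_lit 7) (nat_lit 0x58003c0002000300000000000000000000000) (nat_lit 0x0) (nat_lit 0x5000200000000c001c800e4000000000000000000) := T_1 (nat_lit 74) (nat_lit 91) (nat_lit 4) (nat_lit 7) (nat_lit 8) L250760 (by decide +kernel)
theorem L250762 : W_1 (nat_lit 8) (nat_lit 0x58003c0002000100000000000000000000000) (nat_lit 0x0) (nat_lit 0x5000200000000c001e800f4000000000000000000) := T_1 (nat_lit 93) (nat_lit 76) (nat_lit 6) (nat_lit 7) (nat_lit 8) L250761 (by decide +kernel)
theorem L250763 : W_1 (nat_lit 9) (nat_lit 0x58003c0002000000000000000000000000000) (nat_lit 0x0) (nat_lit 0x5000200000000c001f800fc000000000000000000) := T_1 (nat_lit 92) (nat_lit 75) (nat_lit 7) (nat_lit 7) (nat_lit 4) L250762 (by decide +kernel)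
theorem L250764 : W_1 (nat_lit 10) (nat_lit 0x18003c0002000000000000000000000000000) (nat_lit 0x0) (nat_lit 0x5000e00000000c001f800fc000000000000000000) := T_1 (nat_lit 146) (nat_lit 147) (nat_lit 3) (nat_lit 7) (nat_lit 7) L250763 (by decide +kernel)
theorem L250765 : W_1 (nat_lit 11) (nat_lit 0x18003c0000000000000000000000000000000) (nat_lit 0x0) (nat_lit 0x5000e00000000f001f800fc000000000000000000) := T_1 (nat_lit 109) (nat_lit 108) (nat_lit 0) (nat_lit 10) (nat_lit 7) L250764 (by decide +kernel)
theorem L250883 : W_1 (nat_lit 2) (nat_lit 0xf0001a003a001c0000000000000000000000000000000) (nat_lit 0x0) (nat_lit 0x30000000040000000000000000000000000000000000000000) := D_1 (nat_lit 196) (nat_lit 197) (nat_lit 162) (nat_lit 3) (nat_lit 6) (nat_lit 10) (nat_lit 4) (nat_lit 9) (nat_lit 11) (by decide +kernel)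
theorem L250884 : W_1 (nat_lit 3) (nat_lit 0x70001a003a001c0000000000000000000000000000000) (nat_lit 0x0) (nat_lit 0x30001800040000000000000000000000000000000000000000) := T_1 (nat_lit 179) (nat_lit 180) (nat_lit 0) (nat_lit 10) (nat_lit 10) L250883 (by decide +kernel)
theorem L250885 : W_1 (nat_lit 4) (nat_lit 0x30001a003a001c0000000000000000000000000000000) (nat_lit 0x0) (nat_lit 0x38001c00040000000000000000000000000000000000000000) := T_1 (nat_lit 178) (nat_lit 195) (nat_lit 7) (nat_lit 7) (nat_lit 7) L250884 (by decide +kernel)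
theorem L250886 : W_1 (nat_lit 5) (nat_lit 0x20001a003a001c0000000000000000000000000000000) (nat_lit 0x0) (nat_lit 0x3a001d00040000000000000000000000000000000000000000) := T_1 (nat_lit 176) (nat_lit 193) (nat_lit 5) (nat_lit 7) (nat_lit 7) L250885 (by decide +kernel)
theorem L250887 : W_1 (nat_lit 6) (nat_lit 0x1a003a001c0000000000000000000000000000000) (nat_lit 0x0) (nat_lit 0x3e001f00040000000000000000000000000000000000000000) := T_1 (nat_lit 177) (nat_lit 194) (nat_lit 6) (nat_lit 7) (nat_lit 11) L250886 (by decide +kernel)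
theorem L250888 : W_1 (nat_lit 7) (nat_lit 0x1a001a001c0000000000000000000000000000000) (nat_lit 0x0) (nat_lit 0x3e001f00040006000000000000000000000000000000000000) := T_1 (nat_lit 145) (nat_lit 146) (nat_lit 1) (nat_lit 10) (nat_lit 8) L250887 (by decide +kernel)
theorem L250889 : W_1 (nat_lit 8) (nat_lit 0x18001a001c0000000000000000000000000000000) (nat_lit 0x0) (nat_lit 0x3e001f00046006000000000000000000000000000000000000) := T_1 (nat_lit 157) (nat_lit 158) (nat_lit 2) (nat_lit 4) (nat_lit 9) L250888 (by decide +kernel)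
theorem L250890 : W_1 (nat_lit 9) (nat_lit 0x180018001c0000000000000000000000000000000) (nat_lit 0x0) (nat_lit 0x3e001f00046006600000000000000000000000000000000000) := T_1 (nat_lit 141) (nat_lit 142) (nat_lit 2) (nat_lit 5) (nat_lit 8) L250889 (by decide +kernel)
theorem L250891 : W_1 (nat_lit 2) (nat_lit 0x7000180018001c0000000000000000000000000000000) (nat_lit 0x0) (nat_lit 0x800006000000000000000000000000000000000000000) := D_1 (nat_lit 158) (nat_lit 157) (nat_lit 179) (nat_lit 3) (nat_lit 4) (nat_lit 9) (nat_lit 0) (nat_lit 9) (nat_lit 10) (by decide +kernel)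
theorem L250892 : W_1 (nat_lit 3) (nat_lit 0x3000180018001c0000000000000000000000000000000) (nat_lit 0x0) (nat_lit 0x8000c00006000000000000000000000000000000000000000) := T_1 (nat_lit 178) (nat_lit 195) (nat_lit 7) (nat_lit 7) (nat_lit 7) L250891 (by decide +kernel)
theorem L250893 : W_1 (nat_lit 4) (nat_lit 0x2000180018001c0000000000000000000000000000000) (nat_lit 0x0) (nat_lit 0xa000d00006000000000000000000000000000000000000000) := T_1 (nat_lit 176) (nat_lit 193) (nat_lit 5) (nat_lit 7) (nat_lit 7) L250892 (by decide +kernel)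
theorem L250894 : W_1 (nat_lit 5) (nat_lit 0x180018001c0000000000000000000000000000000) (nat_lit 0x0) (nat_lit 0xe000f00006000000000000000000000000000000000000000) := T_1 (nat_lit 177) (nat_lit 194) (nat_lit 6) (nat_lit 7) (nat_lit 11) L250893 (by decide +kernel)
theorem L250895 : W_1 (nat_lit 2) (nat_lit 0x1c0018001c0000000000000000000000000000000) (nat_lit 0x0) (nat_lit 0x6400000000000000000000000000000000000) := D_1 (nat_lit 145) (nat_lit 146) (nat_lit 142) (nat_lit 1) (nat_lit 10) (nat_lit 8) (nat_lit 1) (nat_lit 9) (nat_lit 8) (by decide +kernel)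
theorem L250896 : W_1 (nat_lit 3) (nat_lit 0x180018001c0000000000000000000000000000000) (nat_lit 0x0) (nat_lit 0x6006400000000000000000000000000000000000) := T_1 (nat_lit 158) (nat_lit 157) (nat_lit 2) (nat_lit 4) (nat_lit 9) L250895 (by decide +kernel)
theorem L250897 : W_1 (nat_lit 2) (nat_lit 0xf000180038001c0000000000000000000000000000000) (nat_lit 0x0) (nat_lit 0x30000000040000000000000000000000000000000000000000) := D_1 (nat_lit 196) (nat_lit 197) (nat_lit 162) (nat_lit 3) (nat_lit 6) (nat_lit 10) (nat_lit 4) (nat_lit 9) (nat_lit 11) (by decide +kernel)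
theorem L250898 : W_1 (nat_lit 3) (nat_lit 0x7000180038001c0000000000000000000000000000000) (nat_lit 0x0) (nat_lit 0x30001800040000000000000000000000000000000000000000) := T_1 (nat_lit 179) (nat_lit 180) (nat_lit 0) (nat_lit 10) (nat_lit 10) L250897 (by decide +kernel)
theorem L250899 : W_1 (nat_lit 4) (nat_lit 0x3000180038001c0000000000000000000000000000000) (nat_lit 0x0) (nat_lit 0x38001c00040000000000000000000000000000000000000000) := T_1 (nat_lit 178) (nat_lit 195) (nat_lit 7) (nat_lit 7) (nat_lit 7) L250898 (by decide +kernel)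
theorem L250900 : W_1 (nat_lit 5) (nat_lit 0x2000180038001c0000000000000000000000000000000) (nat_lit 0x0) (nat_lit 0x3a001d00040000000000000000000000000000000000000000) := T_1 (nat_lit 176) (nat_lit 193) (nat_lit 5) (nat_lit 7) (nat_lit 7) L250899 (by decide +kernel)
theorem L250901 : W_1 (nat_lit 6) (nat_lit 0x180038001c0000000000000000000000000000000) (nat_lit 0x0) (nat_lit 0x3e001f00040000000000000000000000000000000000000000) := T_1 (nat_lit 177) (nat_lit 194) (nat_lit 6) (nat_lit 7) (nat_lit 11) L250900 (by decide +kernel)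
theorem L250902 : W_1 (nat_lit 7) (nat_lit 0x180018001c0000000000000000000000000000000) (nat_lit 0x0) (nat_lit 0x3e001f00040006000000000000000000000000000000000000) := T_1 (nat_lit 145) (nat_lit 146) (nat_lit 1) (nat_lit 10) (nat_lit 8) L250901 (by decide +kernel)
theorem L250903 : W_1 (nat_lit 10) (nat_lit 0x100018001c0000000000000000000000000000000) (nat_lit 0x0) (nat_lit 0x3e001f0004e006600000000000000000000000000000000000) := Q_1 (nat_lit 159) (C_1 L250890 (C_1 L250894 (C_1 L250896 (C_1 L250902 N_1)))) (by decide +kernel)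
theorem L250904 : W_1 (nat_lit 2) (nat_lit 0x100038001c0000000000000000000000000000000) (nat_lit 0x0) (nat_lit 0x800c000000000000000000000000000000000000) := D_1 (nat_lit 146) (nat_lit 147) (nat_lit 159) (nat_lit 0) (nat_lit 11) (nat_lit 8) (nat_lit 1) (nat_lit 10) (nat_lit 8) (by decide +kernel)
theorem L251157 : W_1 (nat_lit 2) (nat_lit 0x10001c0006000200000000000000000000000) (nat_lit 0x0) (nat_lit 0x2000000000000000010000800000000000000) := D_1 (nat_lit 76) (nat_lit 59) (nat_lit 145) (nat_lit 5) (nat_lit 8) (nat_lit 3) (nat_lit 7) (nat_lit 8) (nat_lit 4) (by decide +kernel)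
theorem L251194 : W_1 (nat_lit 2) (nat_lit 0x10001c000a000c00040000000000000000000) (nat_lit 0x0) (nat_lit 0x10000000000002000100000000000) := D_1 (nat_lit 61) (nat_lit 112) (nat_lit 44) (nat_lit 5) (nat_lit 10) (nat_lit 3) (nat_lit 5) (nat_lit 10) (nat_lit 2) (by decide +kernel)
theorem L251201 : W_1 (nat_lit 3) (nat_lit 0x10001c000a000c00000000000000000000000) (nat_lit 0x0) (nat_lit 0x2000000010000000040002000100000000000) := T_1 (nat_lit 78) (nat_lit 145) (nat_lit 6) (nat_lit 9) (nat_lit 8) L251194 (by decide +kernel)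
theorem L251205 : W_1 (nat_lit 4) (nat_lit 0x10001c0002000c00000000000000000000000) (nat_lit 0x0) (nat_lit 0x2000000018000000060002000100000000000) := T_1 (nat_lit 111) (nat_lit 77) (nat_lit 5) (nat_lit 9) (nat_lit 4) L251201 (by decide +kernel)
theorem L251206 : W_1 (nat_lit 2) (nat_lit 0x10001c0002000c00038000000000000000000) (nat_lit 0x0) (nat_lit 0x3200000000000000000000000) := D_1 (nat_lit 96) (nat_lit 97) (nat_lit 93) (nat_lit 0) (nat_lit 12) (nat_lit 5) (nat_lit 0) (nat_lit 11) (nat_lit 5) (by decide +kernel)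
theorem L251207 : W_1 (nat_lit 3) (nat_lit 0x10001c0002000c00028000000000000000000) (nat_lit 0x0) (nat_lit 0x3200014000000000000000000) := T_1 (nat_lit 76) (nat_lit 74) (nat_lit 3) (nat_lit 6) (nat_lit 4) L251206 (by decide +kernel)
theorem L251208 : W_1 (nat_lit 4) (nat_lit 0x10001c0002000c00020000000000000000000) (nat_lit 0x0) (nat_lit 0x330001c000000000000000000) := T_1 (nat_lit 75) (nat_lit 92) (nat_lit 7) (nat_lit 7) (nat_lit 4) L251207 (by decide +kernel)
theorem L251209 : W_1 (nat_lit 5) (nat_lit 0x10001c0002000c00000000000000000000000) (nat_lit 0x0) (nat_lit 0x800330003c000000000000000000) := T_1 (nat_lit 77) (nat_lit 111) (nat_lit 5) (nat_lit 9) (nat_lit 4) L251208 (by decide +kernel)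
theorem L251210 : W_1 (nat_lit 2) (nat_lit 0x10001c0022001f00060000000000000000000) (nat_lit 0x0) (nat_lit 0x6000010000000000000000000) := D_1 (nat_lit 97) (nat_lit 98) (nat_lit 76) (nat_lit 0) (nat_lit 13) (nat_lit 5) (nat_lit 0) (nat_lit 12) (nat_lit 5) (by decide +kernel)
theorem L251211 : W_1 (nat_lit 3) (nat_lit 0x10001c0022000f00060000000000000000000) (nat_lit 0x0) (nat_lit 0x40007000010000000000000000000) := T_1 (nat_lit 96) (nat_lit 114) (nat_lit 3) (nat_lit 8) (nat_lit 5) L251210 (by decide +kernel)
theorem L251212 : W_1 (nat_lit 4) (nat_lit 0x10001c0002000f00060000000000000000000) (nat_lit 0x0) (nat_lit 0x70007000010000000000000000000) := T_1 (nat_lit 113) (nat_lit 112) (nat_lit 3) (nat_lit 7) (nat_lit 5) L251211 (by decide +kernel)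
theorem L251213 : W_1 (nat_lit 5) (nat_lit 0x10001c0002000f00040000000000000000000) (nat_lit 0x0) (nat_lit 0x70007080030000000000000000000) := T_1 (nat_lit 77) (nat_lit 91) (nat_lit 2) (nat_lit 6) (nat_lit 5) L251212 (by decide +kernel)
theorem L251214 : W_1 (nat_lit 6) (nat_lit 0x10001c0002000f00000000000000000000000) (nat_lit 0x0) (nat_lit 0x700070800f0000000000000000000) := T_1 (nat_lit 78) (nat_lit 79) (nat_lit 2) (nat_lit 7) (nat_lit 5) L251213 (by decide +kernel)
theorem L251215 : W_1 (nat_lit 7) (nat_lit 0x10001c0002000d00000000000000000000000) (nat_lit 0x0) (nat_lit 0x710072800f0000000000000000000) := T_1 (nat_lit 93) (nat_lit 108) (nat_lit 1) (nat_lit 10) (nat_lit 5) L251214 (by decide +kernel)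
theorem L251216 : W_1 (nat_lit 8) (nat_lit 0x10001c0002000c00000000000000000000000) (nat_lit 0x0) (nat_lit 0x710073800f8000000000000000000) := T_1 (nat_lit 92) (nat_lit 75) (nat_lit 7) (nat_lit 7) (nat_lit 4) L251215 (by decide +kernel)
theorem L251217 : W_1 (nat_lit 2) (nat_lit 0x10001c0012000f00040000000000000000000) (nat_lit 0x0) (nat_lit 0x2000000008000080000000000000000000000) := D_1 (nat_lit 111) (nat_lit 91) (nat_lit 145) (nat_lit 3) (nat_lit 6) (nat_lit 5) (nat_lit 6) (nat_lit 9) (nat_lit 8) (by decide +kernel)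
theorem L251218 : W_1 (nat_lit 3) (nat_lit 0x10001c0002000f00040000000000000000000) (nat_lit 0x0) (nat_lit 0x2000000038000080000000000000000000000) := T_1 (nat_lit 112) (nat_lit 113) (nat_lit 3) (nat_lit 7) (nat_lit 5) L251217 (by decide +kernel)
theorem L251219 : W_1 (nat_lit 4) (nat_lit 0x10001c0002000f00000000000000000000000) (nat_lit 0x0) (nat_lit 0x20000000380000800c0000000000000000000) := T_1 (nat_lit 78) (nat_lit 79) (nat_lit 2) (nat_lit 7) (nat_lit 5) L251218 (by decide +kernel)
theorem L251220 : W_1 (nat_lit 5) (nat_lit 0x10001c0002000d00000000000000000000000) (nat_lit 0x0) (nat_lit 0x20000000390002800c0000000000000000000) := T_1 (nat_lit 93) (nat_lit 108) (nat_lit 1) (nat_lit 10) (nat_lit 5) L251219 (by decide +kernel)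
theorem L251221 : W_1 (nat_lit 6) (nat_lit 0x10001c0002000c00000000000000000000000) (nat_lit 0x0) (nat_lit 0x20000000390003800c8000000000000000000) := T_1 (nat_lit 92) (nat_lit 75) (nat_lit 7) (nat_lit 7) (nat_lit 4) L251220 (by decide +kernel)
theorem L251222 : W_1 (nat_lit 9) (nat_lit 0x10001c0002000400000000000000000000000) (nat_lit 0x0) (nat_lit 0x2000000079007b800fc002000100000000000) := Q_1 (nat_lit 95) (C_1 L251205 (C_1 L251209 (C_1 L251216 (C_1 L251221 N_1)))) (by decide +kernel)
theorem L251661 : W_1 (nat_lit 2) (nat_lit 0x70000c0016000f00040000000000000000000) (nat_lit 0x0) (nat_lit 0x100008000080000000000000000000000) := D_1 (nat_lit 111) (nat_lit 91) (nat_lit 128) (nat_lit 3) (nat_lit 6) (nat_lit 5) (nat_lit 6) (nat_lit 9) (nat_lit 8) (by decide +kernel)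
theorem L251662 : W_1 (nat_lit 3) (nat_lit 0x70000c0006000f00040000000000000000000) (nat_lit 0x0) (nat_lit 0x100038000080000000000000000000000) := T_1 (nat_lit 112) (nat_lit 113) (nat_lit 3) (nat_lit 7) (nat_lit 5) L251661 (by decide +kernel)
theorem L251663 : W_1 (nat_lit 4) (nat_lit 0x70000c0006000f00000000000000000000000) (nat_lit 0x0) (nat_lit 0x1000380000800c0000000000000000000) := T_1 (nat_lit 78) (nat_lit 79) (nat_lit 2) (nat_lit 7) (nat_lit 5) L251662 (by decide +kernel)
theorem L251664 : W_1 (nat_lit 5) (nat_lit 0x70000c0006000700000000000000000000000) (nat_lit 0x0) (nat_lit 0x1000380018800c0000000000000000000) := T_1 (nat_lit 95) (nat_lit 96) (nat_lit 1) (nat_lit 11) (nat_lit 5) L251663 (by decide +kernel)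
theorem L251665 : W_1 (nat_lit 6) (nat_lit 0x30000c0006000700000000000000000000000) (nat_lit 0x0) (nat_lit 0xc0001000380018800c0000000000000000000) := T_1 (nat_lit 146) (nat_lit 147) (nat_lit 0) (nat_lit 11) (nat_lit 8) L251664 (by decide +kernel)
theorem L251666 : W_1 (nat_lit 7) (nat_lit 0x10000c0006000700000000000000000000000) (nat_lit 0x0) (nat_lit 0x4000e0001000380018800c0000000000000000000) := T_1 (nat_lit 145) (nat_lit 162) (nat_lit 7) (nat_lit 8) (nat_lit 5) L251665 (by decide +kernel)
theorem L251667 : W_1 (nat_lit 8) (nat_lit 0x10000c0006000300000000000000000000000) (nat_lit 0x0) (nat_lit 0x4000e000100038001c800e0000000000000000000) := T_1 (nat_lit 94) (nat_lit 77) (nat_lit 6) (nat_lit 8) (nat_lit 8) L251666 (by decide +kernel)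
theorem L251668 : W_1 (nat_lit 9) (nat_lit 0x10000c0006000200000000000000000000000) (nat_lit 0x0) (nat_lit 0x4000e000100038001d800e8000000000000000000) := T_1 (nat_lit 92) (nat_lit 75) (nat_lit 7) (nat_lit 7) (nat_lit 4) L251667 (by decide +kernel)
theorem L251669 : W_1 (nat_lit 10) (nat_lit 0x10000c0006000000000000000000000000000) (nat_lit 0x0) (nat_lit 0x4000e000100038001f800f8001c00000000000000) := Q_1 (nat_lit 93) (C_1 L23279 (C_1 L23288 (C_1 L251668 N_1))) (by decide +kernel)
theorem L251716 : W_1 (nat_lit 2) (nat_lit 0x10000c0006000200010000000000000000000) (nat_lit 0x0) (nat_lit 0x40002000100000000000000000000000000000000) := D_1 (nat_lit 145) (nat_lit 162) (nat_lit 128) (nat_lit 7) (nat_lit 8) (nat_lit 5) (nat_lit 7) (nat_lit 8) (nat_lit 4) (by decide +kernel)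
theorem L251717 : W_1 (nat_lit 3) (nat_lit 0x10000c0006000200000000000000000000000) (nat_lit 0x0) (nat_lit 0x40002000100000000000010000800000000000000) := T_1 (nat_lit 76) (nat_lit 59) (nat_lit 5) (nat_lit 8) (nat_lit 3) L251716 (by decide +kernel)
theorem L251805 : W_1 (nat_lit 2) (nat_lit 0x50003c001e000800008000000000000000000) (nat_lit 0x0) (nat_lit 0x2000000000000000040002000000000000000) := D_1 (nat_lit 78) (nat_lit 61) (nat_lit 145) (nat_lit 5) (nat_lit 10) (nat_lit 3) (nat_lit 5) (nat_lit 10) (nat_lit 4) (by decide +kernel)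
theorem L251806 : W_1 (nat_lit 3) (nat_lit 0x50003c001e000000008000000000000000000) (nat_lit 0x0) (nat_lit 0x2000000000001800040002000000000000000) := T_1 (nat_lit 95) (nat_lit 96) (nat_lit 2) (nat_lit 7) (nat_lit 6) L251805 (by decide +kernel)
theorem L251807 : W_1 (nat_lit 4) (nat_lit 0x10003c001e000000008000000000000000000) (nat_lit 0x0) (nat_lit 0xe000000000001800040002000000000000000) := T_1 (nat_lit 146) (nat_lit 147) (nat_lit 3) (nat_lit 7) (nat_lit 7) L251806 (by decide +kernel)
theorem L251808 : W_1 (nat_lit 5) (nat_lit 0x10002c001e000000008000000000000000000) (nat_lit 0x0) (nat_lit 0xe000100001001800040002000000000000000) := T_1 (nat_lit 128) (nat_lit 108) (nat_lit 3) (nat_lit 6) (nat_lit 6) L251807 (by decide +kernel)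
theorem L251809 : W_1 (nat_lit 6) (nat_lit 0x10000c001e000000008000000000000000000) (nat_lit 0x0) (nat_lit 0xe000700001001800040002000000000000000) := T_1 (nat_lit 129) (nat_lit 130) (nat_lit 3) (nat_lit 7) (nat_lit 6) L251808 (by decide +kernel)
theorem L251810 : W_1 (nat_lit 7) (nat_lit 0x10000c001e000000000000000000000000000) (nat_lit 0x0) (nat_lit 0xe000700001001900048002000000000000000) := T_1 (nat_lit 75) (nat_lit 92) (nat_lit 7) (nat_lit 7) (nat_lit 4) L251809 (by decide +kernel)
theorem L251811 : W_1 (nat_lit 8) (nat_lit 0x10000c000e000000000000000000000000000) (nat_lit 0x0) (nat_lit 0xe000700031001900048002000000000000000) := T_1 (nat_lit 112) (nat_lit 113) (nat_lit 1) (nat_lit 11) (nat_lit 6) L251810 (by decide +kernel)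
theorem L251812 : W_1 (nat_lit 2) (nat_lit 0x10001c000e000000000000000000000000000) (nat_lit 0x0) (nat_lit 0x600001000000000000000000000000000) := D_1 (nat_lit 129) (nat_lit 108) (nat_lit 130) (nat_lit 3) (nat_lit 6) (nat_lit 6) (nat_lit 0) (nat_lit 11) (nat_lit 7) (by decide +kernel)
theorem L252513 : W_1 (nat_lit 5) (nat_lit 0x10001c0002000400008000000000000000000) (nat_lit 0x0) (nat_lit 0xc000200039000800020000000000000000000) := T_1 (nat_lit 129) (nat_lit 108) (nat_lit 0) (nat_lit 10) (nat_lit 7) L23318 (by decide +kernel)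
theorem L252514 : W_1 (nat_lit 6) (nat_lit 0x10001c0002000400000000000000000000000) (nat_lit 0x0) (nat_lit 0xc000200039000900028000000000000000000) := T_1 (nat_lit 75) (nat_lit 92) (nat_lit 7) (nat_lit 7) (nat_lit 4) L252513 (by decide +kernel)
theorem L252515 : W_1 (nat_lit 2) (nat_lit 0x50003c0002000400020000000000000000000) (nat_lit 0x0) (nat_lit 0x30000800000000000000000000000) := D_1 (nat_lit 112) (nat_lit 95) (nat_lit 113) (nat_lit 4) (nat_lit 10) (nat_lit 8) (nat_lit 2) (nat_lit 7) (nat_lit 7) (by decide +kernel)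
theorem L252516 : W_1 (nat_lit 3) (nat_lit 0x10003c0002000400020000000000000000000) (nat_lit 0x0) (nat_lit 0xc000000030000800000000000000000000000) := T_1 (nat_lit 146) (nat_lit 147) (nat_lit 3) (nat_lit 7) (nat_lit 7) L252515 (by decide +kernel)
theorem L252517 : W_1 (nat_lit 4) (nat_lit 0x10003c0002000400000000000000000000000) (nat_lit 0x0) (nat_lit 0xc000000038000800020000000000000000000) := T_1 (nat_lit 77) (nat_lit 111) (nat_lit 5) (nat_lit 9) (nat_lit 4) L252516 (by decide +kernel)
theorem L252518 : W_1 (nat_lit 2) (nat_lit 0x1000fc0022000400028000000000000000000) (nat_lit 0x0) (nat_lit 0x38000000000000000000000000000000000000) := D_1 (nat_lit 148) (nat_lit 147) (nat_lit 149) (nat_lit 3) (nat_lit 8) (nat_lit 7) (nat_lit 3) (nat_lit 9) (nat_lit 7) (by decide +kernel)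
theorem L252519 : W_1 (nat_lit 3) (nat_lit 0x10007c0022000400028000000000000000000) (nat_lit 0x0) (nat_lit 0x3a000800000000000000000000000000000000) := T_1 (nat_lit 131) (nat_lit 145) (nat_lit 1) (nat_lit 12) (nat_lit 7) L252518 (by decide +kernel)
theorem L252520 : W_1 (nat_lit 4) (nat_lit 0x10003c0022000400028000000000000000000) (nat_lit 0x0) (nat_lit 0x3a000c00040000000000000000000000000000) := T_1 (nat_lit 130) (nat_lit 114) (nat_lit 2) (nat_lit 8) (nat_lit 7) L252519 (by decide +kernel)
theorem L252521 : W_1 (nat_lit 5) (nat_lit 0x10003c0022000400020000000000000000000) (nat_lit 0x0) (nat_lit 0x3a000c00040000100008000000000000000000) := T_1 (nat_lit 75) (nat_lit 92) (nat_lit 7) (nat_lit 7) (nat_lit 4) L252520 (by decide +kernel)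
theorem L252522 : W_1 (nat_lit 6) (nat_lit 0x10003c0002000400020000000000000000000) (nat_lit 0x0) (nat_lit 0x3a000c00070000100008000000000000000000) := T_1 (nat_lit 113) (nat_lit 112) (nat_lit 2) (nat_lit 7) (nat_lit 7) L252521 (by decide +kernel)
theorem L252523 : W_1 (nat_lit 7) (nat_lit 0x10003c0002000400000000000000000000000) (nat_lit 0x0) (nat_lit 0x3a000c00078000100028000000000000000000) := T_1 (nat_lit 77) (nat_lit 111) (nat_lit 5) (nat_lit 9) (nat_lit 4) L252522 (by decide +kernel)
theorem L252524 : W_1 (nat_lit 6) (nat_lit 0x10003c0012000400000000000000000000000) (nat_lit 0x0) (nat_lit 0xc000000000001b000e8004000000000000000) := T_1 (nat_lit 146) (nat_lit 147) (nat_lit 3) (nat_lit 7) (nat_lit 7) L29102 (by decide +kernel)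
theorem L252525 : W_1 (nat_lit 7) (nat_lit 0x10003c0002000400000000000000000000000) (nat_lit 0x0) (nat_lit 0xc000000030001b000e8004000000000000000) := T_1 (nat_lit 112) (nat_lit 113) (nat_lit 2) (nat_lit 7) (nat_lit 7) L252524 (by decide +kernel)
theorem L252526 : W_1 (nat_lit 2) (nat_lit 0x10003c0012000c00028000000000000000000) (nat_lit 0x0) (nat_lit 0x40001000080000000000) := D_1 (nat_lit 60) (nat_lit 78) (nat_lit 43) (nat_lit 4) (nat_lit 10) (nat_lit 7) (nat_lit 7) (nat_lit 9) (nat_lit 2) (by decide +kernel)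
theorem L252527 : W_1 (nat_lit 3) (nat_lit 0x10003c0012000400028000000000000000000) (nat_lit 0x0) (nat_lit 0x4000000000000800040001000080000000000) := T_1 (nat_lit 95) (nat_lit 146) (nat_lit 4) (nat_lit 10) (nat_lit 8) L252526 (by decide +kernel)
theorem L252528 : W_1 (nat_lit 4) (nat_lit 0x10003c0012000400020000000000000000000) (nat_lit 0x0) (nat_lit 0x4000000000000900048001000080000000000) := T_1 (nat_lit 75) (nat_lit 92) (nat_lit 7) (nat_lit 7) (nat_lit 4) L252527 (by decide +kernel)
theorem L252529 : W_1 (nat_lit 5) (nat_lit 0x10003c0002000400020000000000000000000) (nat_lit 0x0) (nat_lit 0x4000000030000900048001000080000000000) := T_1 (nat_lit 112) (nat_lit 113) (nat_lit 2) (nat_lit 7) (nat_lit 7) L252528 (by decide +kernel)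
theorem L252530 : W_1 (nat_lit 6) (nat_lit 0x10003c0002000400000000000000000000000) (nat_lit 0x0) (nat_lit 0x4000000038000900068001000080000000000) := T_1 (nat_lit 77) (nat_lit 111) (nat_lit 5) (nat_lit 9) (nat_lit 4) L252529 (by decide +kernel)
theorem L252531 : W_1 (nat_lit 2) (nat_lit 0x90007c0042000400028000000000000000000) (nat_lit 0x0) (nat_lit 0x2000800080000000000000000000000000000) := D_1 (nat_lit 131) (nat_lit 145) (nat_lit 115) (nat_lit 1) (nat_lit 12) (nat_lit 7) (nat_lit 2) (nat_lit 9) (nat_lit 7) (by decide +kernel)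
theorem L252532 : W_1 (nat_lit 3) (nat_lit 0x90007c0002000400028000000000000000000) (nat_lit 0x0) (nat_lit 0x20008000e0000000000000000000000000000) := T_1 (nat_lit 114) (nat_lit 113) (nat_lit 2) (nat_lit 8) (nat_lit 7) L252531 (by decide +kernel)
theorem L252533 : W_1 (nat_lit 4) (nat_lit 0x90003c0002000400028000000000000000000) (nat_lit 0x0) (nat_lit 0x12000c000e0000000000000000000000000000) := T_1 (nat_lit 130) (nat_lit 148) (nat_lit 3) (nat_lit 8) (nat_lit 7) L252532 (by decide +kernel)
theorem L252534 : W_1 (nat_lit 5) (nat_lit 0x90003c0002000400020000000000000000000) (nat_lit 0x0) (nat_lit 0x12000c000e0000100008000000000000000000) := T_1 (nat_lit 75) (nat_lit 92) (nat_lit 7) (nat_lit 7) (nat_lit 4) L252533 (by decide +kernel)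
theorem L252535 : W_1 (nat_lit 6) (nat_lit 0x90003c0002000400000000000000000000000) (nat_lit 0x0) (nat_lit 0x12000c000e8000100028000000000000000000) := T_1 (nat_lit 77) (nat_lit 111) (nat_lit 5) (nat_lit 9) (nat_lit 4) L252534 (by decide +kernel)
theorem L252536 : W_1 (nat_lit 7) (nat_lit 0x10003c0002000400000000000000000000000) (nat_lit 0x0) (nat_lit 0x1e000c000e8000100028000000000000000000) := T_1 (nat_lit 147) (nat_lit 146) (nat_lit 3) (nat_lit 7) (nat_lit 7) L252535 (by decide +kernel)
theorem L252537 : W_1 (nat_lit 2) (nat_lit 0x9001fc0012000400000000000000000000000) (nat_lit 0x0) (nat_lit 0x1c0000000000000000000000000000) := D_1 (nat_lit 115) (nat_lit 114) (nat_lit 116) (nat_lit 2) (nat_lit 9) (nat_lit 7) (nat_lit 2) (nat_lit 10) (nat_lit 7) (by decide +kernel)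
theorem L252538 : W_1 (nat_lit 3) (nat_lit 0x9000fc0012000400000000000000000000000) (nat_lit 0x0) (nat_lit 0x10001c8000000000000000000000000000) := T_1 (nat_lit 132) (nat_lit 111) (nat_lit 0) (nat_lit 13) (nat_lit 7) L252537 (by decide +kernel)
theorem L252539 : W_1 (nat_lit 4) (nat_lit 0x90007c0012000400000000000000000000000) (nat_lit 0x0) (nat_lit 0x20018001c8000000000000000000000000000) := T_1 (nat_lit 131) (nat_lit 145) (nat_lit 1) (nat_lit 12) (nat_lit 7) L252538 (by decide +kernel)
theorem L252540 : W_1 (nat_lit 5) (nat_lit 0x90003c0012000400000000000000000000000) (nat_lit 0x0) (nat_lit 0x12001c001c8000000000000000000000000000) := T_1 (nat_lit 130) (nat_lit 148) (nat_lit 3) (nat_lit 8) (nat_lit 7) L252539 (by decide +kernel)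
theorem L252541 : W_1 (nat_lit 6) (nat_lit 0x90003c0002000400000000000000000000000) (nat_lit 0x0) (nat_lit 0x12001c001f8000000000000000000000000000) := T_1 (nat_lit 112) (nat_lit 113) (nat_lit 2) (nat_lit 7) (nat_lit 7) L252540 (by decide +kernel)
theorem L252542 : W_1 (nat_lit 7) (nat_lit 0x10003c0002000400000000000000000000000) (nat_lit 0x0) (nat_lit 0x1e001c001f8000000000000000000000000000) := T_1 (nat_lit 147) (nat_lit 146) (nat_lit 3) (nat_lit 7) (nat_lit 7) L252541 (by decide +kernel)
theorem L252543 : W_1 (nat_lit 5) (nat_lit 0x50003c0002000400020000000000000000000) (nat_lit 0x0) (nat_lit 0x10003b0001c000000000000000000) := T_1 (nat_lit 95) (nat_lit 112) (nat_lit 4) (nat_lit 10) (nat_lit 8) L23607 (by decide +kernel)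
theorem L252544 : W_1 (nat_lit 6) (nat_lit 0x50003c0002000400000000000000000000000) (nat_lit 0x0) (nat_lit 0x18003b0003c000000000000000000) := T_1 (nat_lit 77) (nat_lit 111) (nat_lit 7) (nat_lit 9) (nat_lit 4) L252543 (by decide +kernel)
theorem L252545 : W_1 (nat_lit 7) (nat_lit 0x10003c0002000400000000000000000000000) (nat_lit 0x0) (nat_lit 0xc000000018003b0003c000000000000000000) := T_1 (nat_lit 146) (nat_lit 147) (nat_lit 3) (nat_lit 7) (nat_lit 7) L252544 (by decide +kernel)
theorem L252546 : W_1 (nat_lit 8) (nat_lit 0x10001c0002000400000000000000000000000) (nat_lit 0x0) (nat_lit 0x3e001e001f8003b000fc005000080000000000) := Q_1 (nat_lit 129) (C_1 L252517 (C_1 L252523 (C_1 L252525 (C_1 L252530 (C_1 L252536 (C_1 L252542 (C_1 L252545 N_1))))))) (by decide +kernel)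
theorem L252547 : W_1 (nat_lit 8) (nat_lit 0x10001c0002000400000000000000000000000) (nat_lit 0x0) (nat_lit 0x1e001e001f9000000000000000000000000000) := T_1 (nat_lit 129) (nat_lit 108) (nat_lit 0) (nat_lit 10) (nat_lit 7) L252542 (by decide +kernel)
theorem L252548 : W_1 (nat_lit 2) (nat_lit 0x50003c0012000c00008000000000000000000) (nat_lit 0x0) (nat_lit 0x40002000000000000000040000000000000000000) := D_1 (nat_lit 145) (nat_lit 78) (nat_lit 162) (nat_lit 5) (nat_lit 10) (nat_lit 4) (nat_lit 5) (nat_lit 10) (nat_lit 5) (by decide +kernel)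
theorem L252549 : W_1 (nat_lit 3) (nat_lit 0x50003c0012000400008000000000000000000) (nat_lit 0x0) (nat_lit 0x40002000000000000800060000000000000000000) := T_1 (nat_lit 95) (nat_lit 77) (nat_lit 4) (nat_lit 10) (nat_lit 8) L252548 (by decide +kernel)
theorem L252550 : W_1 (nat_lit 4) (nat_lit 0x10003c0012000400008000000000000000000) (nat_lit 0x0) (nat_lit 0x4000e000000000000800060000000000000000000) := T_1 (nat_lit 146) (nat_lit 147) (nat_lit 3) (nat_lit 7) (nat_lit 7) L252549 (by decide +kernel)
theorem L252551 : W_1 (nat_lit 5) (nat_lit 0x10003c0002000400008000000000000000000) (nat_lit 0x0) (nat_lit 0x4000e000000030000800060000000000000000000) := T_1 (nat_lit 112) (nat_lit 113) (nat_lit 2) (nat_lit 7) (nat_lit 7) L252550 (by decide +kernel)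
theorem L252552 : W_1 (nat_lit 6) (nat_lit 0x10001c0002000400008000000000000000000) (nat_lit 0x0) (nat_lit 0x4000e000200031000800060000000000000000000) := T_1 (nat_lit 129) (nat_lit 108) (nat_lit 0) (nat_lit 10) (nat_lit 7) L252551 (by decide +kernel)
theorem L252553 : W_1 (nat_lit 7) (nat_lit 0x10001c0002000400000000000000000000000) (nat_lit 0x0) (nat_lit 0x4000e000200031000900068000000000000000000) := T_1 (nat_lit 75) (nat_lit 92) (nat_lit 7) (nat_lit 7) (nat_lit 4) L252552 (by decide +kernel)
theorem L252554 : W_1 (nat_lit 4) (nat_lit 0x10001c0003400500020000000000000000000) (nat_lit 0x0) (nat_lit 0xa801d0000000000000000000) := T_1 (nat_lit 93) (nat_lit 95) (nat_lit 1) (nat_lit 10) (nat_lit 5) L29438 (by decide +kernel)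
theorem L252555 : W_1 (nat_lit 5) (nat_lit 0x10001c0003400400020000000000000000000) (nat_lit 0x0) (nat_lit 0xb801d8000000000000000000) := T_1 (nat_lit 92) (nat_lit 75) (nat_lit 7) (nat_lit 7) (nat_lit 4) L252554 (by decide +kernel)
theorem L252556 : W_1 (nat_lit 6) (nat_lit 0x10001c0003000400020000000000000000000) (nat_lit 0x0) (nat_lit 0xc00b801d8000000000000000000) := T_1 (nat_lit 106) (nat_lit 107) (nat_lit 3) (nat_lit 4) (nat_lit 6) L252555 (by decide +kernel)
theorem L252557 : W_1 (nat_lit 7) (nat_lit 0x10001c0003000400000000000000000000000) (nat_lit 0x0) (nat_lit 0x8c00b801f8000000000000000000) := T_1 (nat_lit 77) (nat_lit 111) (nat_lit 5) (nat_lit 9) (nat_lit 4) L252556 (by decide +kernel)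
theorem L252558 : W_1 (nat_lit 8) (nat_lit 0x10001c0002000400000000000000000000000) (nat_lit 0x0) (nat_lit 0x200009c00b801f8000000000000000000) := T_1 (nat_lit 108) (nat_lit 129) (nat_lit 0) (nat_lit 10) (nat_lit 7) L252557 (by decide +kernel)
theorem L252559 : W_1 (nat_lit 10) (nat_lit 0x10000c0002000400000000000000000000000) (nat_lit 0x0) (nat_lit 0x4003e001f001f9c07b801fc007000180000000000) := Q_1 (nat_lit 128) (C_1 L251222 (C_1 L252514 (C_1 L252546 (C_1 L252547 (C_1 L252553 (C_1 L252558 N_1)))))) (by decide +kernel)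
theorem L252560 : W_1 (nat_lit 2) (nat_lit 0x10000c001e000c00028000000000000000000) (nat_lit 0x0) (nat_lit 0x4000600000000000000000000000000000000) := D_1 (nat_lit 129) (nat_lit 146) (nat_lit 130) (nat_lit 4) (nat_lit 10) (nat_lit 8) (nat_lit 3) (nat_lit 7) (nat_lit 6) (by decide +kernel)
theorem L252561 : W_1 (nat_lit 3) (nat_lit 0x10000c001e000400028000000000000000000) (nat_lit 0x0) (nat_lit 0x4000600000001800000000000000000000000) := T_1 (nat_lit 95) (nat_lit 96) (nat_lit 2) (nat_lit 7) (nat_lit 6) L252560 (by decide +kernel)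
theorem L252562 : W_1 (nat_lit 4) (nat_lit 0x10000c000e000400028000000000000000000) (nat_lit 0x0) (nat_lit 0x4000600030001800000000000000000000000) := T_1 (nat_lit 112) (nat_lit 113) (nat_lit 1) (nat_lit 11) (nat_lit 6) L252561 (by decide +kernel)
theorem L252563 : W_1 (nat_lit 5) (nat_lit 0x10000c0006000400028000000000000000000) (nat_lit 0x0) (nat_lit 0x4000600038001800000001000000000000000) := T_1 (nat_lit 111) (nat_lit 60) (nat_lit 5) (nat_lit 9) (nat_lit 3) L252562 (by decide +kernel)
theorem L252564 : W_1 (nat_lit 6) (nat_lit 0x10000c0006000400008000000000000000000) (nat_lit 0x0) (nat_lit 0x4000600038001a00020001000000000000000) := T_1 (nat_lit 77) (nat_lit 93) (nat_lit 6) (nat_lit 8) (nat_lit 8) L252563 (by decide +kernel)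
theorem L252565 : W_1 (nat_lit 7) (nat_lit 0x10000c0006000400000000000000000000000) (nat_lit 0x0) (nat_lit 0x4000600038001b00028001000000000000000) := T_1 (nat_lit 75) (nat_lit 92) (nat_lit 7) (nat_lit 7) (nat_lit 4) L252564 (by decide +kernel)
theorem L252566 : W_1 (nat_lit 2) (nat_lit 0x10000c000f000440008001000000000000000) (nat_lit 0x0) (nat_lit 0xc00020000000000000000000000) := D_1 (nat_lit 107) (nat_lit 89) (nat_lit 106) (nat_lit 0) (nat_lit 8) (nat_lit 6) (nat_lit 3) (nat_lit 4) (nat_lit 6) (by decide +kernel)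
theorem L252567 : W_1 (nat_lit 3) (nat_lit 0x10000c000f000400008001000000000000000) (nat_lit 0x0) (nat_lit 0xc000e0000000000000000000000) := T_1 (nat_lit 90) (nat_lit 91) (nat_lit 0) (nat_lit 9) (nat_lit 6) L252566 (by decide +kernel)
theorem L252568 : W_1 (nat_lit 4) (nat_lit 0x10000c000e000400008001000000000000000) (nat_lit 0x0) (nat_lit 0x1c008e0000000000000000000000) := T_1 (nat_lit 108) (nat_lit 95) (nat_lit 2) (nat_lit 6) (nat_lit 6) L252567 (by decide +kernel)
theorem L252569 : W_1 (nat_lit 5) (nat_lit 0x10000c000e000400008000000000000000000) (nat_lit 0x0) (nat_lit 0x1c008e0020001000000000000000) := T_1 (nat_lit 60) (nat_lit 77) (nat_lit 5) (nat_lit 9) (nat_lit 3) L252568 (by decide +kernel)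
theorem L252570 : W_1 (nat_lit 6) (nat_lit 0x10000c000e000400000000000000000000000) (nat_lit 0x0) (nat_lit 0x1c009e0028001000000000000000) := T_1 (nat_lit 75) (nat_lit 92) (nat_lit 7) (nat_lit 7) (nat_lit 4) L252569 (by decide +kernel)
theorem L252571 : W_1 (nat_lit 2) (nat_lit 0x10000c000e000c00000000000000000000000) (nat_lit 0x0) (nat_lit 0x10003000000000000000000000000) := D_1 (nat_lit 96) (nat_lit 97) (nat_lit 112) (nat_lit 1) (nat_lit 12) (nat_lit 5) (nat_lit 2) (nat_lit 7) (nat_lit 6) (by decide +kernel)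
theorem L252572 : W_1 (nat_lit 3) (nat_lit 0x10000c000e000400000000000000000000000) (nat_lit 0x0) (nat_lit 0x11003800000000000000000000000) := T_1 (nat_lit 95) (nat_lit 108) (nat_lit 2) (nat_lit 6) (nat_lit 6) L252571 (by decide +kernel)
theorem L252573 : W_1 (nat_lit 7) (nat_lit 0x10000c0006000400000000000000000000000) (nat_lit 0x0) (nat_lit 0x4000600039c039e0028001000000000000000) := Q_1 (nat_lit 111) (C_1 L249899 (C_1 L249896 (C_1 L252570 (C_1 L252572 N_1)))) (by decide +kernel)
theorem L252574 : W_1 (nat_lit 2) (nat_lit 0x10000c000e000c00020000000000000000000) (nat_lit 0x0) (nat_lit 0x10003000000000000000000000000) := D_1 (nat_lit 96) (nat_lit 97) (nat_lit 112) (nat_lit 1) (nat_lit 12) (nat_lit 5) (nat_lit 2) (nat_lit 7) (nat_lit 6) (by decide +kernel)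
theorem L252575 : W_1 (nat_lit 3) (nat_lit 0x10000c000e000400020000000000000000000) (nat_lit 0x0) (nat_lit 0x11003800000000000000000000000) := T_1 (nat_lit 95) (nat_lit 108) (nat_lit 2) (nat_lit 6) (nat_lit 6) L252574 (by decide +kernel)
theorem L252576 : W_1 (nat_lit 4) (nat_lit 0x10000c0006000400020000000000000000000) (nat_lit 0x0) (nat_lit 0x19003800000001000000000000000) := T_1 (nat_lit 111) (nat_lit 60) (nat_lit 5) (nat_lit 9) (nat_lit 3) L252575 (by decide +kernel)
theorem L252577 : W_1 (nat_lit 5) (nat_lit 0x10000c0006000400000000000000000000000) (nat_lit 0x0) (nat_lit 0x19003a00020001000000000000000) := T_1 (nat_lit 77) (nat_lit 93) (nat_lit 6) (nat_lit 8) (nat_lit 8) L252576 (by decide +kernel)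
theorem L252578 : W_1 (nat_lit 6) (nat_lit 0x10000c0006000400000000000000000000000) (nat_lit 0x0) (nat_lit 0x4000e000000001001b00028000000000000000000) := T_1 (nat_lit 93) (nat_lit 77) (nat_lit 6) (nat_lit 8) (nat_lit 8) L20367 (by decide +kernel)
theorem L252579 : W_1 (nat_lit 2) (nat_lit 0x10000c0006000600008000000000000000000) (nat_lit 0x0) (nat_lit 0x10000c00000000000000) := D_1 (nat_lit 76) (nat_lit 59) (nat_lit 58) (nat_lit 5) (nat_lit 8) (nat_lit 3) (nat_lit 4) (nat_lit 8) (nat_lit 7) (by decide +kernel)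
theorem L252580 : W_1 (nat_lit 3) (nat_lit 0x10000c0006000400008000000000000000000) (nat_lit 0x0) (nat_lit 0x200030000c00000000000000) := T_1 (nat_lit 93) (nat_lit 77) (nat_lit 6) (nat_lit 8) (nat_lit 8) L252579 (by decide +kernel)
theorem L252581 : W_1 (nat_lit 4) (nat_lit 0x10000c0006000400000000000000000000000) (nat_lit 0x0) (nat_lit 0x300038000c00000000000000) := T_1 (nat_lit 75) (nat_lit 92) (nat_lit 7) (nat_lit 7) (nat_lit 4) L252580 (by decide +kernel)
theorem L252582 : W_1 (nat_lit 3) (nat_lit 0x10000c0006000600000000000000000000000) (nat_lit 0x0) (nat_lit 0x100018000c00000000000000) := T_1 (nat_lit 75) (nat_lit 92) (nat_lit 7) (nat_lit 7) (nat_lit 4) L252579 (by decide +kernel)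
theorem L252583 : W_1 (nat_lit 6) (nat_lit 0x10000c0006000400000000000000000000000) (nat_lit 0x0) (nat_lit 0x4000e000000009801b00018000c00000000000000) := Q_1 (nat_lit 93) (C_1 L252582 (C_1 L213010 N_1)) (by decide +kernel)
theorem L252584 : W_1 (nat_lit 8) (nat_lit 0x10000c0002000400000000000000000000000) (nat_lit 0x0) (nat_lit 0x4000e00060003dc03be0038001c00000000000000) := Q_1 (nat_lit 110) (C_1 L22945 (C_1 L252565 (C_1 L252573 (C_1 L252577 (C_1 L252578 (C_1 L252581 (C_1 L252583 N_1))))))) (by decide +kernel)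
theorem L252585 : W_1 (nat_lit 2) (nat_lit 0x10000c0007000400000000000000000000000) (nat_lit 0x0) (nat_lit 0xc00200000000000000000000000) := D_1 (nat_lit 107) (nat_lit 106) (nat_lit 93) (nat_lit 3) (nat_lit 4) (nat_lit 6) (nat_lit 2) (nat_lit 5) (nat_lit 6) (by decide +kernel)
theorem L252586 : W_1 (nat_lit 2) (nat_lit 0x10000c0007000400000000000000000000000) (nat_lit 0x0) (nat_lit 0x100000c00000000000000000000000000) := D_1 (nat_lit 107) (nat_lit 106) (nat_lit 128) (nat_lit 3) (nat_lit 4) (nat_lit 6) (nat_lit 3) (nat_lit 5) (nat_lit 6) (by decide +kernel)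
theorem L252587 : W_1 (nat_lit 2) (nat_lit 0x10000c0007000e00008000000000000000000) (nat_lit 0x0) (nat_lit 0x10000c00000000000000) := D_1 (nat_lit 76) (nat_lit 59) (nat_lit 58) (nat_lit 5) (nat_lit 8) (nat_lit 3) (nat_lit 4) (nat_lit 8) (nat_lit 7) (by decide +kernel)
theorem L252588 : W_1 (nat_lit 3) (nat_lit 0x10000c0007000c00008000000000000000000) (nat_lit 0x0) (nat_lit 0x1200010000c00000000000000) := T_1 (nat_lit 93) (nat_lit 96) (nat_lit 1) (nat_lit 11) (nat_lit 5) L252587 (by decide +kernel)
theorem L252589 : W_1 (nat_lit 4) (nat_lit 0x10000c0007000400008000000000000000000) (nat_lit 0x0) (nat_lit 0x8001a00010000c00000000000000) := T_1 (nat_lit 95) (nat_lit 111) (nat_lit 2) (nat_lit 6) (nat_lit 6) L252588 (by decide +kernel)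
theorem L252590 : W_1 (nat_lit 5) (nat_lit 0x10000c0007000400000000000000000000000) (nat_lit 0x0) (nat_lit 0x8001b00018000c00000000000000) := T_1 (nat_lit 75) (nat_lit 92) (nat_lit 7) (nat_lit 7) (nat_lit 4) L252589 (by decide +kernel)
theorem L252591 : W_1 (nat_lit 6) (nat_lit 0x10000c0006000400000000000000000000000) (nat_lit 0x0) (nat_lit 0x100009c01b00018000c00000000000000) := Q_1 (nat_lit 108) (C_1 L252585 (C_1 L252586 (C_1 L252590 N_1))) (by decide +kernel)
theorem L252592 : W_1 (nat_lit 8) (nat_lit 0x10000c0002000400000000000000000000000) (nat_lit 0x0) (nat_lit 0x400070003dc03be0038001c00000000000000) := Q_1 (nat_lit 110) (C_1 L252581 (C_1 L252573 (C_1 L252577 (C_1 L252591 N_1)))) (by decide +kernel)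
theorem L252605 : W_1 (nat_lit 2) (nat_lit 0x10000c000a0004000200010000c0000000000) (nat_lit 0x0) (nat_lit 0x200010000800000000000000000000000) := D_1 (nat_lit 112) (nat_lit 129) (nat_lit 95) (nat_lit 7) (nat_lit 9) (nat_lit 3) (nat_lit 7) (nat_lit 9) (nat_lit 2) (by decide +kernel)
theorem L252606 : W_1 (nat_lit 3) (nat_lit 0x10000c000a000400020001000040000000000) (nat_lit 0x0) (nat_lit 0x200010000800000000000080002000000) := T_1 (nat_lit 43) (nat_lit 25) (nat_lit 4) (nat_lit 9) (nat_lit 5) L252605 (by decide +kernel)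
theorem L252607 : W_1 (nat_lit 4) (nat_lit 0x10000c000a000400020001000000000000000) (nat_lit 0x0) (nat_lit 0x2000100008000000008000c0002000000) := T_1 (nat_lit 42) (nat_lit 59) (nat_lit 4) (nat_lit 9) (nat_lit 6) L252606 (by decide +kernel)
theorem L252617 : W_1 (nat_lit 2) (nat_lit 0x10000c000e000500000000000000000000000) (nat_lit 0x0) (nat_lit 0x30000080000000000000000000000) := D_1 (nat_lit 112) (nat_lit 113) (nat_lit 91) (nat_lit 1) (nat_lit 11) (nat_lit 6) (nat_lit 0) (nat_lit 10) (nat_lit 6) (by decide +kernel)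
theorem L252618 : W_1 (nat_lit 3) (nat_lit 0x10000c000e000400000000000000000000000) (nat_lit 0x0) (nat_lit 0x30000180008000000000000000000) := T_1 (nat_lit 92) (nat_lit 75) (nat_lit 7) (nat_lit 7) (nat_lit 4) L252617 (by decide +kernel)
theorem L252619 : W_1 (nat_lit 6) (nat_lit 0x10000c0006000400000000000000000000000) (nat_lit 0x0) (nat_lit 0x4000700038001980028001000000000000000) := Q_1 (nat_lit 111) (C_1 L249899 (C_1 L249896 (C_1 L249439 (C_1 L252618 N_1)))) (by decide +kernel)
theorem L252620 : W_1 (nat_lit 2) (nat_lit 0x10000c0006000400020000000000000000000) (nat_lit 0x0) (nat_lit 0x100008000000000001000000000000000) := D_1 (nat_lit 111) (nat_lit 128) (nat_lit 60) (nat_lit 5) (nat_lit 9) (nat_lit 4) (nat_lit 5) (nat_lit 9) (nat_lit 3) (by decide +kernel)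
theorem L252621 : W_1 (nat_lit 3) (nat_lit 0x10000c0006000400000000000000000000000) (nat_lit 0x0) (nat_lit 0x100008000200020001000000000000000) := T_1 (nat_lit 77) (nat_lit 93) (nat_lit 6) (nat_lit 8) (nat_lit 8) L252620 (by decide +kernel)
theorem L252622 : W_1 (nat_lit 2) (nat_lit 0x10000c0006000600010000000000000000000) (nat_lit 0x0) (nat_lit 0x40002000100000000000000000000000000000000) := D_1 (nat_lit 145) (nat_lit 162) (nat_lit 128) (nat_lit 7) (nat_lit 8) (nat_lit 5) (nat_lit 7) (nat_lit 8) (nat_lit 4) (by decide +kernel)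
theorem L252623 : W_1 (nat_lit 3) (nat_lit 0x10000c0006000600000000000000000000000) (nat_lit 0x0) (nat_lit 0x40002000100000000000010000800000000000000) := T_1 (nat_lit 76) (nat_lit 59) (nat_lit 5) (nat_lit 8) (nat_lit 3) L252622 (by decide +kernel)
theorem L252624 : W_1 (nat_lit 6) (nat_lit 0x70000c0006000600000000000000000000000) (nat_lit 0x0) (nat_lit 0x1000380019800c8000000000000000000) := T_1 (nat_lit 92) (nat_lit 75) (nat_lit 7) (nat_lit 7) (nat_lit 4) L251664 (by decide +kernel)
theorem L252625 : W_1 (nat_lit 7) (nat_lit 0x30000c0006000600000000000000000000000) (nat_lit 0x0) (nat_lit 0xc0001000380019800c8000000000000000000) := T_1 (nat_lit 146) (nat_lit 147) (nat_lit 0) (nat_lit 11) (nat_lit 8) L252624 (by decide +kernel)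
theorem L252626 : W_1 (nat_lit 8) (nat_lit 0x10000c0006000600000000000000000000000) (nat_lit 0x0) (nat_lit 0x4000e0001000380019800c8000000000000000000) := T_1 (nat_lit 145) (nat_lit 162) (nat_lit 7) (nat_lit 8) (nat_lit 5) L252625 (by decide +kernel)
theorem L252627 : W_1 (nat_lit 9) (nat_lit 0x10000c0006000400000000000000000000000) (nat_lit 0x0) (nat_lit 0x4000e000100038001b800d8000c00000000000000) := Q_1 (nat_lit 93) (C_1 L252582 (C_1 L252623 (C_1 L252626 N_1))) (by decide +kernel)
theorem L252628 : W_1 (nat_lit 10) (nat_lit 0x10000c0002000400000000000000000000000) (nat_lit 0x0) (nat_lit 0x4000e00070003c001b800f8001c00000000000000) := Q_1 (nat_lit 110) (C_1 L252581 (C_1 L252619 (C_1 L252621 (C_1 L252627 N_1)))) (by decide +kernel)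
theorem L252629 : W_1 (nat_lit 7) (nat_lit 0x10000c0006000400000000000000000000000) (nat_lit 0x0) (nat_lit 0x39c039e0028001000000000000000) := Q_1 (nat_lit 111) (C_1 L252618 (C_1 L252572 (C_1 L252570 N_1))) (by decide +kernel)
theorem L252630 : W_1 (nat_lit 8) (nat_lit 0x10000c0002000400000000000000000000000) (nat_lit 0x0) (nat_lit 0x10003dc03be0038001c00000000000000) := Q_1 (nat_lit 110) (C_1 L252581 (C_1 L252621 (C_1 L252629 (C_1 L252591 N_1)))) (by decide +kernel)
theorem L252638 : W_1 (nat_lit 2) (nat_lit 0x10001c0003000400008000000000000000000) (nat_lit 0x0) (nat_lit 0x4c00000000000000000000000000) := D_1 (nat_lit 107) (nat_lit 106) (nat_lit 110) (nat_lit 3) (nat_lit 4) (nat_lit 6) (nat_lit 3) (nat_lit 5) (nat_lit 6) (by decide +kernel)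
theorem L252639 : W_1 (nat_lit 3) (nat_lit 0x10001c0002000400008000000000000000000) (nat_lit 0x0) (nat_lit 0x200005c00000000000000000000000000) := T_1 (nat_lit 108) (nat_lit 129) (nat_lit 0) (nat_lit 10) (nat_lit 7) L252638 (by decide +kernel)
theorem L252640 : W_1 (nat_lit 4) (nat_lit 0x10001c0002000400000000000000000000000) (nat_lit 0x0) (nat_lit 0x200005c00100008000000000000000000) := T_1 (nat_lit 75) (nat_lit 92) (nat_lit 7) (nat_lit 7) (nat_lit 4) L252639 (by decide +kernel)
theorem L252641 : W_1 (nat_lit 3) (nat_lit 0x10000c0007800400008000000000000000000) (nat_lit 0x0) (nat_lit 0x80008e0000000000000000000000) := T_1 (nat_lit 111) (nat_lit 95) (nat_lit 2) (nat_lit 6) (nat_lit 6) L249816 (by decide +kernel)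
theorem L252642 : W_1 (nat_lit 4) (nat_lit 0x10000c0003800400008000000000000000000) (nat_lit 0x0) (nat_lit 0x10000c0008e0000000000000000000000) := T_1 (nat_lit 110) (nat_lit 128) (nat_lit 3) (nat_lit 5) (nat_lit 6) L252641 (by decide +kernel)
theorem L252643 : W_1 (nat_lit 5) (nat_lit 0x10000c0003000400008000000000000000000) (nat_lit 0x0) (nat_lit 0x10000cc008e0000000000000000000000) := T_1 (nat_lit 107) (nat_lit 106) (nat_lit 3) (nat_lit 4) (nat_lit 6) L252642 (by decide +kernel)
theorem L252644 : W_1 (nat_lit 6) (nat_lit 0x10000c0003000400000000000000000000000) (nat_lit 0x0) (nat_lit 0x10000cc009e0008000000000000000000) := T_1 (nat_lit 75) (nat_lit 92) (nat_lit 7) (nat_lit 7) (nat_lit 4) L252643 (by decide +kernel)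
theorem L252645 : W_1 (nat_lit 2) (nat_lit 0x90007c001a000400008000000000000000000) (nat_lit 0x0) (nat_lit 0x2001800000000000000000000000000000000) := D_1 (nat_lit 131) (nat_lit 145) (nat_lit 132) (nat_lit 1) (nat_lit 12) (nat_lit 7) (nat_lit 0) (nat_lit 13) (nat_lit 7) (by decide +kernel)
theorem L252646 : W_1 (nat_lit 3) (nat_lit 0x90003c001a000400008000000000000000000) (nat_lit 0x0) (nat_lit 0x12001c00000000000000000000000000000000) := T_1 (nat_lit 130) (nat_lit 148) (nat_lit 3) (nat_lit 8) (nat_lit 7) L252645 (by decide +kernel)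
theorem L252647 : W_1 (nat_lit 4) (nat_lit 0x10003c001a000400008000000000000000000) (nat_lit 0x0) (nat_lit 0x1e001c00000000000000000000000000000000) := T_1 (nat_lit 147) (nat_lit 146) (nat_lit 3) (nat_lit 7) (nat_lit 7) L252646 (by decide +kernel)
theorem L252648 : W_1 (nat_lit 5) (nat_lit 0x10003c000a000400008000000000000000000) (nat_lit 0x0) (nat_lit 0x1e001c00030000000000000000000000000000) := T_1 (nat_lit 112) (nat_lit 113) (nat_lit 2) (nat_lit 7) (nat_lit 7) L252647 (by decide +kernel)
theorem L252649 : W_1 (nat_lit 6) (nat_lit 0x10001c000a000400008000000000000000000) (nat_lit 0x0) (nat_lit 0x1e001e00031000000000000000000000000000) := T_1 (nat_lit 129) (nat_lit 108) (nat_lit 0) (nat_lit 10) (nat_lit 7) L252648 (by decide +kernel)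
theorem L252650 : W_1 (nat_lit 7) (nat_lit 0x10000c000a000400008000000000000000000) (nat_lit 0x0) (nat_lit 0x1e001f00031000000020000000000000000000) := T_1 (nat_lit 128) (nat_lit 77) (nat_lit 5) (nat_lit 9) (nat_lit 4) L252649 (by decide +kernel)
theorem L252651 : W_1 (nat_lit 8) (nat_lit 0x10000c000a000400000000000000000000000) (nat_lit 0x0) (nat_lit 0x1e001f00031000100028000000000000000000) := T_1 (nat_lit 75) (nat_lit 92) (nat_lit 7) (nat_lit 7) (nat_lit 4) L252650 (by decide +kernel)
theorem L252652 : W_1 (nat_lit 2) (nat_lit 0x10000c000a000400038003000040002000000) (nat_lit 0x0) (nat_lit 0x4000c000000000000000) := D_1 (nat_lit 62) (nat_lit 63) (nat_lit 78) (nat_lit 1) (nat_lit 12) (nat_lit 3) (nat_lit 2) (nat_lit 7) (nat_lit 4) (by decide +kernel)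
theorem L252653 : W_1 (nat_lit 3) (nat_lit 0x10000c000a000400028003000040002000000) (nat_lit 0x0) (nat_lit 0x5400c000000000000000) := T_1 (nat_lit 76) (nat_lit 74) (nat_lit 2) (nat_lit 6) (nat_lit 4) L252652 (by decide +kernel)
theorem L252654 : W_1 (nat_lit 4) (nat_lit 0x10000c000a000400020003000040002000000) (nat_lit 0x0) (nat_lit 0x10005c00c000000000000000) := T_1 (nat_lit 75) (nat_lit 92) (nat_lit 7) (nat_lit 7) (nat_lit 4) L252653 (by decide +kernel)
theorem L252655 : W_1 (nat_lit 5) (nat_lit 0x10000c000a000400020001000040002000000) (nat_lit 0x0) (nat_lit 0x10005c00e000100000000000) := T_1 (nat_lit 61) (nat_lit 44) (nat_lit 6) (nat_lit 9) (nat_lit 6) L252654 (by decide +kernel)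
theorem L252656 : W_1 (nat_lit 6) (nat_lit 0x10000c000a000400020001000040000000000) (nat_lit 0x0) (nat_lit 0x10005c00e000180002000000) := T_1 (nat_lit 25) (nat_lit 43) (nat_lit 4) (nat_lit 9) (nat_lit 5) L252655 (by decide +kernel)
theorem L252657 : W_1 (nat_lit 7) (nat_lit 0x10000c000a000400020001000000000000000) (nat_lit 0x0) (nat_lit 0x10005c00e8001c0002000000) := T_1 (nat_lit 42) (nat_lit 59) (nat_lit 4) (nat_lit 9) (nat_lit 6) L252656 (by decide +kernel)
theorem L252658 : W_1 (nat_lit 8) (nat_lit 0x10000c000a000400020000000000000000000) (nat_lit 0x0) (nat_lit 0x400010005c00f8001c0002000000) := T_1 (nat_lit 60) (nat_lit 110) (nat_lit 5) (nat_lit 9) (nat_lit 3) L252657 (by decide +kernel)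
theorem L252659 : W_1 (nat_lit 9) (nat_lit 0x10000c000a000400000000000000000000000) (nat_lit 0x0) (nat_lit 0x10000400010007c00f8001c0002000000) := T_1 (nat_lit 77) (nat_lit 128) (nat_lit 5) (nat_lit 9) (nat_lit 4) L252658 (by decide +kernel)
theorem L252660 : W_1 (nat_lit 7) (nat_lit 0x10000c000a000400000000000000000000000) (nat_lit 0x0) (nat_lit 0x35c039e0028001000000000000000) := Q_1 (nat_lit 110) (C_1 L252572 (C_1 L252618 (C_1 L252570 N_1))) (by decide +kernel)
theorem L252661 : W_1 (nat_lit 5) (nat_lit 0x10000c000a000400020000000000000000000) (nat_lit 0x0) (nat_lit 0x2000140008000000018000c0002000000) := T_1 (nat_lit 60) (nat_lit 110) (nat_lit 5) (nat_lit 9) (nat_lit 3) L252607 (by decide +kernel)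
theorem L252662 : W_1 (nat_lit 6) (nat_lit 0x10000c000a000400000000000000000000000) (nat_lit 0x0) (nat_lit 0x3000140008000200018000c0002000000) := T_1 (nat_lit 77) (nat_lit 128) (nat_lit 5) (nat_lit 9) (nat_lit 4) L252661 (by decide +kernel)
theorem L252663 : W_1 (nat_lit 2) (nat_lit 0x10000c000f000400000000000000000000000) (nat_lit 0x0) (nat_lit 0x300000800000000000000000000000000) := D_1 (nat_lit 128) (nat_lit 129) (nat_lit 107) (nat_lit 3) (nat_lit 6) (nat_lit 6) (nat_lit 3) (nat_lit 5) (nat_lit 6) (by decide +kernel)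
theorem L252664 : W_1 (nat_lit 3) (nat_lit 0x10000c000e000400000000000000000000000) (nat_lit 0x0) (nat_lit 0x300001800800000000000000000000000) := T_1 (nat_lit 108) (nat_lit 95) (nat_lit 2) (nat_lit 6) (nat_lit 6) L252663 (by decide +kernel)
theorem L252665 : W_1 (nat_lit 4) (nat_lit 0x10000c000a000400000000000000000000000) (nat_lit 0x0) (nat_lit 0x300035803980008000000000000000000) := Q_1 (nat_lit 110) (C_1 L252618 (C_1 L252572 (C_1 L252664 N_1))) (by decide +kernel)
theorem L252666 : W_1 (nat_lit 10) (nat_lit 0x10000c0002000400000000000000000000000) (nat_lit 0x0) (nat_lit 0x1e001f0003dc039e007c00f8001c0002000000) := Q_1 (nat_lit 111) (C_1 L252651 (C_1 L252659 (C_1 L252660 (C_1 L252662 (C_1 L252665 N_1))))) (by decide +kernel)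
theorem L252667 : W_1 (nat_lit 6) (nat_lit 0x10000c0006000400000000000000000000000) (nat_lit 0x0) (nat_lit 0x4000700039803800020001000000000000000) := Q_1 (nat_lit 111) (C_1 L252572 (C_1 L252664 (C_1 L249899 (C_1 L249439 N_1)))) (by decide +kernel)
theorem L252668 : W_1 (nat_lit 4) (nat_lit 0x10000c0006000400000000000000000000000) (nat_lit 0x0) (nat_lit 0x40002000100000000200030000800000000000000) := T_1 (nat_lit 93) (nat_lit 77) (nat_lit 6) (nat_lit 8) (nat_lit 8) L252623 (by decide +kernel)
theorem L252669 : W_1 (nat_lit 2) (nat_lit 0x10001c0007000e00000000000000000000000) (nat_lit 0x0) (nat_lit 0x2000000000000000010000800000000000000) := D_1 (nat_lit 76) (nat_lit 59) (nat_lit 145) (nat_lit 5) (nat_lit 8) (nat_lit 3) (nat_lit 7) (nat_lit 8) (nat_lit 4) (by decide +kernel)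
theorem L252670 : W_1 (nat_lit 3) (nat_lit 0x10001c0007000c00000000000000000000000) (nat_lit 0x0) (nat_lit 0x2000000000001200010000800000000000000) := T_1 (nat_lit 93) (nat_lit 96) (nat_lit 1) (nat_lit 11) (nat_lit 5) L252669 (by decide +kernel)
theorem L252671 : W_1 (nat_lit 4) (nat_lit 0x10001c0007000400000000000000000000000) (nat_lit 0x0) (nat_lit 0x2000000008001a00010000800000000000000) := T_1 (nat_lit 95) (nat_lit 111) (nat_lit 2) (nat_lit 6) (nat_lit 6) L252670 (by decide +kernel)
theorem L252672 : W_1 (nat_lit 5) (nat_lit 0x10000c0007000400000000000000000000000) (nat_lit 0x0) (nat_lit 0x2000300008001a00010000800000000000000) := T_1 (nat_lit 128) (nat_lit 129) (nat_lit 0) (nat_lit 10) (nat_lit 7) L252671 (by decide +kernel)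
theorem L252673 : W_1 (nat_lit 6) (nat_lit 0x10000c0006000400000000000000000000000) (nat_lit 0x0) (nat_lit 0x2000300009c01a00010000800000000000000) := Q_1 (nat_lit 108) (C_1 L252585 (C_1 L252586 (C_1 L252672 N_1))) (by decide +kernel)
theorem L252674 : W_1 (nat_lit 7) (nat_lit 0x10000c0002000400000000000000000000000) (nat_lit 0x0) (nat_lit 0x4000600070003dc03a00030001800000000000000) := Q_1 (nat_lit 110) (C_1 L252621 (C_1 L252577 (C_1 L252667 (C_1 L252668 (C_1 L252673 N_1))))) (by decide +kernel)
theorem L252675 : W_1 (nat_lit 3) (nat_lit 0x10000c0002000600008000000000000000000) (nat_lit 0x0) (nat_lit 0x4000000030000c00000000000000) := T_1 (nat_lit 110) (nat_lit 77) (nat_lit 6) (nat_lit 8) (nat_lit 8) L252579 (by decide +kernel)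
theorem L252676 : W_1 (nat_lit 4) (nat_lit 0x10000c0002000600000000000000000000000) (nat_lit 0x0) (nat_lit 0x4000100038000c00000000000000) := T_1 (nat_lit 75) (nat_lit 92) (nat_lit 7) (nat_lit 7) (nat_lit 4) L252675 (by decide +kernel)
theorem L252677 : W_1 (nat_lit 4) (nat_lit 0x10000c0002000600000000000000000000000) (nat_lit 0x0) (nat_lit 0x40002000100004000000030000800000000000000) := T_1 (nat_lit 110) (nat_lit 77) (nat_lit 6) (nat_lit 8) (nat_lit 8) L252623 (by decide +kernel)
theorem L252678 : W_1 (nat_lit 2) (nat_lit 0x10000c0002001f00000000000000000000000) (nat_lit 0x0) (nat_lit 0x70000000000000000000000000000) := D_1 (nat_lit 113) (nat_lit 112) (nat_lit 114) (nat_lit 3) (nat_lit 7) (nat_lit 5) (nat_lit 3) (nat_lit 8) (nat_lit 5) (by decide +kernel)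
theorem L252679 : W_1 (nat_lit 3) (nat_lit 0x10000c0002000f00000000000000000000000) (nat_lit 0x0) (nat_lit 0x74001000000000000000000000000) := T_1 (nat_lit 96) (nat_lit 110) (nat_lit 1) (nat_lit 11) (nat_lit 5) L252678 (by decide +kernel)
theorem L252680 : W_1 (nat_lit 4) (nat_lit 0x10000c0002000700000000000000000000000) (nat_lit 0x0) (nat_lit 0x75001800000000000000000000000) := T_1 (nat_lit 95) (nat_lit 108) (nat_lit 1) (nat_lit 10) (nat_lit 5) L252679 (by decide +kernel)
theorem L252681 : W_1 (nat_lit 5) (nat_lit 0x10000c0002000600000000000000000000000) (nat_lit 0x0) (nat_lit 0x75001900008000000000000000000) := T_1 (nat_lit 92) (nat_lit 75) (nat_lit 7) (nat_lit 7) (nat_lit 4) L252680 (by decide +kernel)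
theorem L252682 : W_1 (nat_lit 9) (nat_lit 0x10000c0002000400000000000000000000000) (nat_lit 0x0) (nat_lit 0x40002000300075007b800f8001c00080000000000) := Q_1 (nat_lit 93) (C_1 L30725 (C_1 L252676 (C_1 L252677 (C_1 L30718 (C_1 L252681 N_1))))) (by decide +kernel)
theorem L252683 : W_1 (nat_lit 2) (nat_lit 0x10002c000f000400008000000000000000000) (nat_lit 0x0) (nat_lit 0x400030000000000000000000000000000) := D_1 (nat_lit 112) (nat_lit 113) (nat_lit 130) (nat_lit 1) (nat_lit 11) (nat_lit 6) (nat_lit 3) (nat_lit 7) (nat_lit 6) (by decide +kernel)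
theorem L252684 : W_1 (nat_lit 3) (nat_lit 0x10000c000f000400008000000000000000000) (nat_lit 0x0) (nat_lit 0x700030000000000000000000000000000) := T_1 (nat_lit 129) (nat_lit 128) (nat_lit 3) (nat_lit 6) (nat_lit 6) L252683 (by decide +kernel)
theorem L252685 : W_1 (nat_lit 4) (nat_lit 0x10000c0007000400008000000000000000000) (nat_lit 0x0) (nat_lit 0x700038000800000000000000000000000) := T_1 (nat_lit 111) (nat_lit 95) (nat_lit 2) (nat_lit 6) (nat_lit 6) L252684 (by decide +kernel)
theorem L252686 : W_1 (nat_lit 5) (nat_lit 0x10000c0007000400000000000000000000000) (nat_lit 0x0) (nat_lit 0x700038000900008000000000000000000) := T_1 (nat_lit 75) (nat_lit 92) (nat_lit 7) (nat_lit 7) (nat_lit 4) L252685 (by decide +kernel)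
theorem L252687 : W_1 (nat_lit 6) (nat_lit 0x10000c0006000400000000000000000000000) (nat_lit 0x0) (nat_lit 0x700039c00b00008000000000000000000) := Q_1 (nat_lit 108) (C_1 L252585 (C_1 L252586 (C_1 L252686 N_1))) (by decide +kernel)
theorem L252688 : W_1 (nat_lit 8) (nat_lit 0x10000c0002000400000000000000000000000) (nat_lit 0x0) (nat_lit 0x4000e00070003dc03be0028001000000000000000) := Q_1 (nat_lit 110) (C_1 L252667 (C_1 L252629 (C_1 L252621 (C_1 L252578 (C_1 L252687 N_1))))) (by decide +kernel)
theorem L252729 : W_1 (nat_lit 9) (nat_lit 0x10000c0002000400000000000000000000000) (nat_lit 0x0) (nat_lit 0x1e001f001fdc003801f8000000000000000000) := Q_1 (nat_lit 128) (C_1 L252640 (C_1 L252547 (C_1 L212963 N_1))) (by decide +kernel)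
theorem L252730 : W_1 (nat_lit 4) (nat_lit 0x10000c0007000400008000000000000000000) (nat_lit 0x0) (nat_lit 0x8c008e0000000000000000000000) := T_1 (nat_lit 107) (nat_lit 106) (nat_lit 3) (nat_lit 4) (nat_lit 6) L252641 (by decide +kernel)
theorem L252731 : W_1 (nat_lit 5) (nat_lit 0x10000c0007000400000000000000000000000) (nat_lit 0x0) (nat_lit 0x8c009e0008000000000000000000) := T_1 (nat_lit 75) (nat_lit 92) (nat_lit 7) (nat_lit 7) (nat_lit 4) L252730 (by decide +kernel)
theorem L252732 : W_1 (nat_lit 2) (nat_lit 0x10000c000f000400000000000000000000000) (nat_lit 0x0) (nat_lit 0x300000000000020000000000000000000) := D_1 (nat_lit 128) (nat_lit 129) (nat_lit 77) (nat_lit 3) (nat_lit 6) (nat_lit 6) (nat_lit 5) (nat_lit 9) (nat_lit 4) (by decide +kernel)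
theorem L252733 : W_1 (nat_lit 3) (nat_lit 0x10000c0007000400000000000000000000000) (nat_lit 0x0) (nat_lit 0x300008000800020000000000000000000) := T_1 (nat_lit 111) (nat_lit 95) (nat_lit 2) (nat_lit 6) (nat_lit 6) L252732 (by decide +kernel)
theorem L252734 : W_1 (nat_lit 6) (nat_lit 0x10000c0006000400000000000000000000000) (nat_lit 0x0) (nat_lit 0x300009c009e0028000000000000000000) := Q_1 (nat_lit 108) (C_1 L252586 (C_1 L252731 (C_1 L252733 N_1))) (by decide +kernel)
theorem L252735 : W_1 (nat_lit 7) (nat_lit 0x10000c0002000400000000000000000000000) (nat_lit 0x0) (nat_lit 0x4000e00030000dc01be0038001c00000000000000) := Q_1 (nat_lit 110) (C_1 L252673 (C_1 L252621 (C_1 L252583 (C_1 L252734 (C_1 L252668 N_1))))) (by decide +kernel)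
theorem L252736 : W_1 (nat_lit 2) (nat_lit 0x10000c0003800400000000000000000000000) (nat_lit 0x0) (nat_lit 0x300004000000000000000000000000000) := D_1 (nat_lit 128) (nat_lit 129) (nat_lit 110) (nat_lit 0) (nat_lit 10) (nat_lit 7) (nat_lit 3) (nat_lit 5) (nat_lit 6) (by decide +kernel)
theorem L252737 : W_1 (nat_lit 3) (nat_lit 0x10000c0003000400000000000000000000000) (nat_lit 0x0) (nat_lit 0x300004c00000000000000000000000000) := T_1 (nat_lit 107) (nat_lit 106) (nat_lit 3) (nat_lit 4) (nat_lit 6) L252736 (by decide +kernel)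
theorem L252738 : W_1 (nat_lit 2) (nat_lit 0x10001c000b000d00040000000000000000000) (nat_lit 0x0) (nat_lit 0x10000000000002000100000000000) := D_1 (nat_lit 61) (nat_lit 112) (nat_lit 44) (nat_lit 5) (nat_lit 10) (nat_lit 3) (nat_lit 5) (nat_lit 10) (nat_lit 2) (by decide +kernel)
theorem L252739 : W_1 (nat_lit 3) (nat_lit 0x10001c000b000d00000000000000000000000) (nat_lit 0x0) (nat_lit 0x2000000010000000040002000100000000000) := T_1 (nat_lit 78) (nat_lit 145) (nat_lit 6) (nat_lit 9) (nat_lit 8) L252738 (by decide +kernel)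
theorem L252740 : W_1 (nat_lit 4) (nat_lit 0x10001c0003000d00000000000000000000000) (nat_lit 0x0) (nat_lit 0x200000001c000000040002000100000000000) := T_1 (nat_lit 111) (nat_lit 110) (nat_lit 2) (nat_lit 6) (nat_lit 6) L252739 (by decide +kernel)
theorem L252741 : W_1 (nat_lit 5) (nat_lit 0x10001c0003000500000000000000000000000) (nat_lit 0x0) (nat_lit 0x200000001c000a00040002000100000000000) := T_1 (nat_lit 95) (nat_lit 93) (nat_lit 1) (nat_lit 10) (nat_lit 5) L252740 (by decide +kernel)
theorem L252742 : W_1 (nat_lit 6) (nat_lit 0x10001c0003000400000000000000000000000) (nat_lit 0x0) (nat_lit 0x200000001c000b00048002000100000000000) := T_1 (nat_lit 92) (nat_lit 75) (nat_lit 7) (nat_lit 7) (nat_lit 4) L252741 (by decide +kernel)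
theorem L252743 : W_1 (nat_lit 7) (nat_lit 0x10000c0003000400000000000000000000000) (nat_lit 0x0) (nat_lit 0x200030001c000b00048002000100000000000) := T_1 (nat_lit 128) (nat_lit 129) (nat_lit 0) (nat_lit 10) (nat_lit 7) L252742 (by decide +kernel)
theorem L252744 : W_1 (nat_lit 8) (nat_lit 0x10000c0002000400000000000000000000000) (nat_lit 0x0) (nat_lit 0x200030001dc00be0048002000100000000000) := Q_1 (nat_lit 108) (C_1 L23260 (C_1 L252644 (C_1 L252737 (C_1 L252743 N_1)))) (by decide +kernel)
theorem L252745 : W_1 (nat_lit 11) (nat_lit 0x10000c0002000000000000000000000000000) (nat_lit 0x0) (nat_lit 0x4003e001f001fdc07fe01fc00fc001c0002000000) := Q_1 (nat_lit 94) (C_1 L252559 (C_1 L252584 (C_1 L252592 (C_1 L252628 (C_1 L252630 (C_1 L252666 (C_1 L252674 (C_1 L252682 (C_1 L252688 (C_1 L252729 (C_1 L252735 (C_1 L252744 N_1)))))))))))) (by decide +kernel)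
theorem L252746 : W_1 (nat_lit 11) (nat_lit 0x10000c0002000000000000000000000000000) (nat_lit 0x0) (nat_lit 0x30005e00ec0010003d801fe00fc001c00000000000000) := Q_1 (nat_lit 110) (C_1 L213149 (C_1 L251669 (C_1 L212696 (C_1 L24145 (C_1 L212695 N_1))))) (by decide +kernel)
theorem L252747 : W_1 (nat_lit 11) (nat_lit 0x10001c0002000000000000000000000000000) (nat_lit 0x0) (nat_lit 0x30001801ec00e000fc0001e000c000000000000000000) := Q_1 (nat_lit 129) (C_1 L29683 (C_1 L4088 (C_1 L1541 (C_1 L27012 N_1)))) (by decide +kernel)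
theorem L252748 : W_1 (nat_lit 2) (nat_lit 0x100018001c0002000000000000000000000000000) (nat_lit 0x0) (nat_lit 0x4000200000000000000004000000000000000000000000000) := D_1 (nat_lit 177) (nat_lit 110) (nat_lit 194) (nat_lit 6) (nat_lit 7) (nat_lit 10) (nat_lit 6) (nat_lit 7) (nat_lit 11) (by decide +kernel)
theorem L252749 : W_1 (nat_lit 2) (nat_lit 0x200010001a001c0002000000000000000000000000000) (nat_lit 0x0) (nat_lit 0x2000100008000000000000000000000000000000000000000) := D_1 (nat_lit 176) (nat_lit 193) (nat_lit 159) (nat_lit 5) (nat_lit 7) (nat_lit 7) (nat_lit 5) (nat_lit 7) (nat_lit 6) (by decide +kernel)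
theorem L252750 : W_1 (nat_lit 3) (nat_lit 0x10001a001c0002000000000000000000000000000) (nat_lit 0x0) (nat_lit 0x6000300008000000000000000000000000000000000000000) := T_1 (nat_lit 177) (nat_lit 194) (nat_lit 6) (nat_lit 7) (nat_lit 11) L252749 (by decide +kernel)
theorem L252751 : W_1 (nat_lit 4) (nat_lit 0x100018001c0002000000000000000000000000000) (nat_lit 0x0) (nat_lit 0x6000300008000600000000000000000000000000000000000) := T_1 (nat_lit 141) (nat_lit 142) (nat_lit 2) (nat_lit 5) (nat_lit 8) L252750 (by decide +kernel)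
theorem L252752 : W_1 (nat_lit 2) (nat_lit 0x1a003a001c0003000000000000000000000000000) (nat_lit 0x0) (nat_lit 0x4c00000000000000000000000000) := D_1 (nat_lit 107) (nat_lit 110) (nat_lit 106) (nat_lit 3) (nat_lit 5) (nat_lit 6) (nat_lit 3) (nat_lit 4) (nat_lit 6) (by decide +kernel)
theorem L252753 : W_1 (nat_lit 3) (nat_lit 0x1a003a001c0002000000000000000000000000000) (nat_lit 0x0) (nat_lit 0x5c00080000000000000000000000) := T_1 (nat_lit 108) (nat_lit 91) (nat_lit 4) (nat_lit 7) (nat_lit 9) L252752 (by decide +kernel)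
theorem L252754 : W_1 (nat_lit 4) (nat_lit 0x1a001a001c0002000000000000000000000000000) (nat_lit 0x0) (nat_lit 0x6000000005c00080000000000000000000000) := T_1 (nat_lit 145) (nat_lit 146) (nat_lit 1) (nat_lit 10) (nat_lit 8) L252753 (by decide +kernel)
theorem L252755 : W_1 (nat_lit 5) (nat_lit 0x18001a001c0002000000000000000000000000000) (nat_lit 0x0) (nat_lit 0x6006000000005c00080000000000000000000000) := T_1 (nat_lit 157) (nat_lit 158) (nat_lit 2) (nat_lit 4) (nat_lit 9) L252754 (by decide +kernel)
theorem L252756 : W_1 (nat_lit 6) (nat_lit 0x10001a001c0002000000000000000000000000000) (nat_lit 0x0) (nat_lit 0x10000e006000000005c00080000000000000000000000) := T_1 (nat_lit 159) (nat_lit 176) (nat_lit 5) (nat_lit 7) (nat_lit 6) L252755 (by decide +kernel)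
theorem L252757 : W_1 (nat_lit 7) (nat_lit 0x100018001c0002000000000000000000000000000) (nat_lit 0x0) (nat_lit 0x10000e006600000005c00080000000000000000000000) := T_1 (nat_lit 141) (nat_lit 142) (nat_lit 2) (nat_lit 5) (nat_lit 8) L252756 (by decide +kernel)
theorem L252758 : W_1 (nat_lit 8) (nat_lit 0x18001c0002000000000000000000000000000) (nat_lit 0x0) (nat_lit 0x600030001e006600000005c00080000000000000000000000) := Q_1 (nat_lit 160) (C_1 L252748 (C_1 L252751 (C_1 L252757 N_1))) (by decide +kernel)
theorem L252759 : W_1 (nat_lit 9) (nat_lit 0x10001c0002000000000000000000000000000) (nat_lit 0x0) (nat_lit 0x600030001e006e00000005c0018000c000000000000000000) := Q_1 (nat_lit 143) (C_1 L252758 (C_1 L21296 (C_1 L24609 N_1))) (by decide +kernel)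
theorem L252760 : W_1 (nat_lit 12) (nat_lit 0x10000c0002000000000000000000000000000) (nat_lit 0x0) (nat_lit 0x600030001e01ee01f001fdc001e000c000000000000000000) := Q_1 (nat_lit 128) (C_1 L1377 (C_1 L1529 (C_1 L252747 (C_1 L252759 N_1)))) (by decide +kernel)
theorem L252761 : W_1 (nat_lit 2) (nat_lit 0x1000100018000c0002000080000000000000000000000) (nat_lit 0x0) (nat_lit 0x6000200000000000000000000000000000000000000000000) := D_1 (nat_lit 177) (nat_lit 194) (nat_lit 193) (nat_lit 6) (nat_lit 7) (nat_lit 11) (nat_lit 5) (nat_lit 7) (nat_lit 7) (by decide +kernel)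
theorem L252762 : W_1 (nat_lit 3) (nat_lit 0x100018000c0002000080000000000000000000000) (nat_lit 0x0) (nat_lit 0x6000300008000000000000000000000000000000000000000) := T_1 (nat_lit 176) (nat_lit 159) (nat_lit 5) (nat_lit 7) (nat_lit 6) L252761 (by decide +kernel)
theorem L252763 : W_1 (nat_lit 4) (nat_lit 0x100018000c0002000000000000000000000000000) (nat_lit 0x0) (nat_lit 0x6000300008000000000001000080000000000000000000000) := T_1 (nat_lit 91) (nat_lit 108) (nat_lit 4) (nat_lit 7) (nat_lit 9) L252762 (by decide +kernel)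
theorem L252764 : W_1 (nat_lit 2) (nat_lit 0x100018000c0002000000000000000000000000000) (nat_lit 0x0) (nat_lit 0x4000200000000000000004000000000000000000000000000) := D_1 (nat_lit 177) (nat_lit 194) (nat_lit 110) (nat_lit 6) (nat_lit 7) (nat_lit 11) (nat_lit 6) (nat_lit 7) (nat_lit 10) (by decide +kernel)
theorem L252765 : W_1 (nat_lit 7) (nat_lit 0x18000c0002000000000000000000000000000) (nat_lit 0x0) (nat_lit 0x600030001e000000100005c00280000000000000000000000) := Q_1 (nat_lit 160) (C_1 L21097 (C_1 L252763 (C_1 L252764 N_1))) (by decide +kernel)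
theorem L252766 : W_1 (nat_lit 8) (nat_lit 0x10000c0002000000000000000000000000000) (nat_lit 0x0) (nat_lit 0x600030001e000e0030001dc01fe003c000000000000000000) := Q_1 (nat_lit 143) (C_1 L1521 (C_1 L73118 (C_1 L252765 N_1))) (by decide +kernel)
theorem L252767 : W_1 (nat_lit 11) (nat_lit 0x10000c0006000000000000000000000000000) (nat_lit 0x0) (nat_lit 0x5800ef006000080007e003c001800000000000000) := Q_1 (nat_lit 93) (C_1 L212919 (C_1 L23288 (C_1 L23922 N_1))) (by decide +kernel)
theorem L252768 : W_1 (nat_lit 12) (nat_lit 0x10000c0002000000000000000000000000000) (nat_lit 0x0) (nat_lit 0x30005e00ef0060001d801fe003c001c00000000000000) := Q_1 (nat_lit 110) (C_1 L213149 (C_1 L212696 (C_1 L252767 (C_1 L24145 (C_1 L212695 N_1))))) (by decide +kernel)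
theorem L252769 : W_1 (nat_lit 2) (nat_lit 0x1e000d0003000180010000000000000000000) (nat_lit 0x0) (nat_lit 0x4000000000000c00000000000000000000000000) := D_1 (nat_lit 107) (nat_lit 106) (nat_lit 158) (nat_lit 3) (nat_lit 4) (nat_lit 6) (nat_lit 6) (nat_lit 5) (nat_lit 9) (by decide +kernel)
theorem L252770 : W_1 (nat_lit 3) (nat_lit 0x1e000d0002000180010000000000000000000) (nat_lit 0x0) (nat_lit 0x14000000000001c00000000000000000000000000) := T_1 (nat_lit 108) (nat_lit 160) (nat_lit 4) (nat_lit 7) (nat_lit 9) L252769 (by decide +kernel)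
theorem L252771 : W_1 (nat_lit 4) (nat_lit 0x1e000c0002000180010000000000000000000) (nat_lit 0x0) (nat_lit 0x14000000018001c00000000000000000000000000) := T_1 (nat_lit 124) (nat_lit 123) (nat_lit 0) (nat_lit 8) (nat_lit 8) L252770 (by decide +kernel)
theorem L252772 : W_1 (nat_lit 5) (nat_lit 0x1e000c0002000100010000000000000000000) (nat_lit 0x0) (nat_lit 0x14000000018001c00080004000000000000000000) := T_1 (nat_lit 91) (nat_lit 74) (nat_lit 4) (nat_lit 7) (nat_lit 8) L252771 (by decide +kernel)
theorem L252773 : W_1 (nat_lit 6) (nat_lit 0x1c000c0002000100010000000000000000000) (nat_lit 0x0) (nat_lit 0x14000300018001c00080004000000000000000000) := T_1 (nat_lit 141) (nat_lit 140) (nat_lit 2) (nat_lit 4) (nat_lit 8) L252772 (by decide +kernel)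
theorem L252774 : W_1 (nat_lit 7) (nat_lit 0x18000c0002000100010000000000000000000) (nat_lit 0x0) (nat_lit 0x1c000700018001c00080004000000000000000000) := T_1 (nat_lit 142) (nat_lit 159) (nat_lit 5) (nat_lit 7) (nat_lit 5) L252773 (by decide +kernel)
theorem L252775 : W_1 (nat_lit 8) (nat_lit 0x18000c0002000100000000000000000000000) (nat_lit 0x0) (nat_lit 0x1c000700018001c00280014000000000000000000) := T_1 (nat_lit 76) (nat_lit 93) (nat_lit 6) (nat_lit 7) (nat_lit 8) L252774 (by decide +kernel)
theorem L252776 : W_1 (nat_lit 9) (nat_lit 0x18000c0002000000000000000000000000000) (nat_lit 0x0) (nat_lit 0x1c000700018001c0038001c000000000000000000) := T_1 (nat_lit 92) (nat_lit 75) (nat_lit 7) (nat_lit 7) (nat_lit 4) L252775 (by decide +kernel)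
theorem L252777 : W_1 (nat_lit 2) (nat_lit 0x1000100018000c0002000180010000000000000000000) (nat_lit 0x0) (nat_lit 0x6000200000000000000000000000000000000000000000000) := D_1 (nat_lit 177) (nat_lit 194) (nat_lit 193) (nat_lit 6) (nat_lit 7) (nat_lit 11) (nat_lit 5) (nat_lit 7) (nat_lit 7) (by decide +kernel)
theorem L252778 : W_1 (nat_lit 3) (nat_lit 0x100018000c0002000180010000000000000000000) (nat_lit 0x0) (nat_lit 0x6000300008000000000000000000000000000000000000000) := T_1 (nat_lit 176) (nat_lit 159) (nat_lit 5) (nat_lit 7) (nat_lit 6) L252777 (by decide +kernel)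
theorem L252779 : W_1 (nat_lit 4) (nat_lit 0x18000c0002000180010000000000000000000) (nat_lit 0x0) (nat_lit 0x6000300018000000000001000000000000000000000000000) := T_1 (nat_lit 160) (nat_lit 108) (nat_lit 4) (nat_lit 7) (nat_lit 9) L252778 (by decide +kernel)
theorem L252780 : W_1 (nat_lit 5) (nat_lit 0x18000c0002000100010000000000000000000) (nat_lit 0x0) (nat_lit 0x6000300018000000000001000080004000000000000000000) := T_1 (nat_lit 91) (nat_lit 74) (nat_lit 4) (nat_lit 7) (nat_lit 8) L252779 (by decide +kernel)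
theorem L252781 : W_1 (nat_lit 6) (nat_lit 0x18000c0002000100000000000000000000000) (nat_lit 0x0) (nat_lit 0x6000300018000000000001000280014000000000000000000) := T_1 (nat_lit 76) (nat_lit 93) (nat_lit 6) (nat_lit 7) (nat_lit 8) L252780 (by decide +kernel)
theorem L252782 : W_1 (nat_lit 7) (nat_lit 0x18000c0002000000000000000000000000000) (nat_lit 0x0) (nat_lit 0x600030001800000000000100038001c000000000000000000) := T_1 (nat_lit 92) (nat_lit 75) (nat_lit 7) (nat_lit 7) (nat_lit 4) L252781 (by decide +kernel)
theorem L252783 : W_1 (nat_lit 2) (nat_lit 0x2000100018001c0002000000000000000000000000000) (nat_lit 0x0) (nat_lit 0x2000100008000000000000000000000000000000000000000) := D_1 (nat_lit 176) (nat_lit 193) (nat_lit 159) (nat_lit 5) (nat_lit 7) (nat_lit 7) (nat_lit 5) (nat_lit 7) (nat_lit 6) (by decide +kernel)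
theorem L252784 : W_1 (nat_lit 3) (nat_lit 0x100018001c0002000000000000000000000000000) (nat_lit 0x0) (nat_lit 0x6000300008000000000000000000000000000000000000000) := T_1 (nat_lit 177) (nat_lit 194) (nat_lit 6) (nat_lit 7) (nat_lit 11) L252783 (by decide +kernel)
theorem L252796 : W_1 (nat_lit 4) (nat_lit 0x8001c000c0002000000000000000000000000000) (nat_lit 0x0) (nat_lit 0x400e000700000000000000000000000000000000) := T_1 (nat_lit 129) (nat_lit 128) (nat_lit 1) (nat_lit 10) (nat_lit 7) L22710 (by decide +kernel)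
theorem L252797 : W_1 (nat_lit 5) (nat_lit 0x1c000c0002000000000000000000000000000) (nat_lit 0x0) (nat_lit 0x200010001c00e000700000000000000000000000000000000) := Q_1 (nat_lit 159) (C_1 L252796 (C_1 L25544 N_1)) (by decide +kernel)
theorem L252798 : W_1 (nat_lit 7) (nat_lit 0x18000c0002000000000000000000000000000) (nat_lit 0x0) (nat_lit 0x200010001e00e700718000800000000000000000000000000) := Q_1 (nat_lit 142) (C_1 L22718 (C_1 L22704 (C_1 L252797 N_1))) (by decide +kernel)
theorem L252799 : W_1 (nat_lit 5) (nat_lit 0x18000c0002000100000000000000000000000) (nat_lit 0x0) (nat_lit 0x10000000000001c00680014000000000000000000) := T_1 (nat_lit 93) (nat_lit 76) (nat_lit 6) (nat_lit 7) (nat_lit 8) L25703 (by decide +kernel)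
theorem L252800 : W_1 (nat_lit 6) (nat_lit 0x18000c0002000000000000000000000000000) (nat_lit 0x0) (nat_lit 0x10000000000001c0078001c000000000000000000) := T_1 (nat_lit 92) (nat_lit 75) (nat_lit 7) (nat_lit 7) (nat_lit 4) L252799 (by decide +kernel)
theorem L252801 : W_1 (nat_lit 10) (nat_lit 0x10000c0002000000000000000000000000000) (nat_lit 0x0) (nat_lit 0x600030001e00ef00718001c0078001c000000000000000000) := Q_1 (nat_lit 143) (C_1 L252776 (C_1 L252782 (C_1 L1521 (C_1 L252798 (C_1 L252800 N_1))))) (by decide +kernel)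
theorem L252802 : W_1 (nat_lit 4) (nat_lit 0x78000c0006000f00004000000000000000000) (nat_lit 0x0) (nat_lit 0x7000300000000c0000000000000000000) := T_1 (nat_lit 129) (nat_lit 130) (nat_lit 2) (nat_lit 7) (nat_lit 8) L74604 (by decide +kernel)
theorem L252803 : W_1 (nat_lit 5) (nat_lit 0x78000c0006000700004000000000000000000) (nat_lit 0x0) (nat_lit 0x7000300018000c0000000000000000000) := T_1 (nat_lit 95) (nat_lit 96) (nat_lit 1) (nat_lit 11) (nat_lit 5) L252802 (by decide +kernel)
theorem L252804 : W_1 (nat_lit 6) (nat_lit 0x38000c0006000700004000000000000000000) (nat_lit 0x0) (nat_lit 0xc0007000300018000c0000000000000000000) := T_1 (nat_lit 146) (nat_lit 147) (nat_lit 0) (nat_lit 11) (nat_lit 8) L252803 (by decide +kernel)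
theorem L252805 : W_1 (nat_lit 7) (nat_lit 0x18000c0006000700004000000000000000000) (nat_lit 0x0) (nat_lit 0x4000e0007000300018000c0000000000000000000) := T_1 (nat_lit 145) (nat_lit 162) (nat_lit 7) (nat_lit 8) (nat_lit 5) L252804 (by decide +kernel)
theorem L252806 : W_1 (nat_lit 8) (nat_lit 0x18000c0006000300004000000000000000000) (nat_lit 0x0) (nat_lit 0x4000e000700030001c000e0000000000000000000) := T_1 (nat_lit 94) (nat_lit 77) (nat_lit 6) (nat_lit 8) (nat_lit 8) L252805 (by decide +kernel)
theorem L252807 : W_1 (nat_lit 9) (nat_lit 0x18000c0002000300004000000000000000000) (nat_lit 0x0) (nat_lit 0x5000e000700034001c000e0000000000000000000) := T_1 (nat_lit 110) (nat_lit 160) (nat_lit 6) (nat_lit 7) (nat_lit 9) L252806 (by decide +kernel)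
theorem L252808 : W_1 (nat_lit 10) (nat_lit 0x18000c0002000300000000000000000000000) (nat_lit 0x0) (nat_lit 0x5000e000700034001c800e4000000000000000000) := T_1 (nat_lit 74) (nat_lit 91) (nat_lit 4) (nat_lit 7) (nat_lit 8) L252807 (by decide +kernel)
theorem L252809 : W_1 (nat_lit 11) (nat_lit 0x18000c0002000100000000000000000000000) (nat_lit 0x0) (nat_lit 0x5000e000700034001e800f4000000000000000000) := T_1 (nat_lit 93) (nat_lit 76) (nat_lit 6) (nat_lit 7) (nat_lit 8) L252808 (by decide +kernel)
theorem L252810 : W_1 (nat_lit 12) (nat_lit 0x18000c0002000000000000000000000000000) (nat_lit 0x0) (nat_lit 0x5000e000700034001f800fc000000000000000000) := T_1 (nat_lit 92) (nat_lit 75) (nat_lit 7) (nat_lit 7) (nat_lit 4) L252809 (by decide +kernel)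
theorem L252811 : W_1 (nat_lit 13) (nat_lit 0x10000c0002000000000000000000000000000) (nat_lit 0x0) (nat_lit 0x600030005e00ef00718034801f800fc000000000000000000) := Q_1 (nat_lit 143) (C_1 L252798 (C_1 L21403 (C_1 L252810 (C_1 L1521 N_1)))) (by decide +kernel)
theorem L252812 : W_1 (nat_lit 5) (nat_lit 0x10001c0002000000000000000000000000000) (nat_lit 0x0) (nat_lit 0x1c000600071000000000000000000000000000) := T_1 (nat_lit 129) (nat_lit 108) (nat_lit 0) (nat_lit 10) (nat_lit 7) L4088 (by decide +kernel)
theorem L252874 : W_1 (nat_lit 2) (nat_lit 0x10003c0006000200020000000000000000000) (nat_lit 0x0) (nat_lit 0x10001800000000000000) := D_1 (nat_lit 76) (nat_lit 60) (nat_lit 59) (nat_lit 6) (nat_lit 8) (nat_lit 7) (nat_lit 5) (nat_lit 8) (nat_lit 3) (by decide +kernel)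
theorem L252875 : W_1 (nat_lit 3) (nat_lit 0x10003c0006000200000000000000000000000) (nat_lit 0x0) (nat_lit 0x400030001800000000000000) := T_1 (nat_lit 77) (nat_lit 94) (nat_lit 6) (nat_lit 8) (nat_lit 8) L252874 (by decide +kernel)
theorem L252876 : W_1 (nat_lit 4) (nat_lit 0x10001c0006000200000000000000000000000) (nat_lit 0x0) (nat_lit 0x600000000400030001800000000000000) := T_1 (nat_lit 129) (nat_lit 130) (nat_lit 0) (nat_lit 11) (nat_lit 7) L252875 (by decide +kernel)
theorem L252877 : W_1 (nat_lit 2) (nat_lit 0x70003c0016000a00020000000000000000000) (nat_lit 0x0) (nat_lit 0x8001000080000000000000000000) := D_1 (nat_lit 96) (nat_lit 79) (nat_lit 111) (nat_lit 6) (nat_lit 10) (nat_lit 8) (nat_lit 2) (nat_lit 7) (nat_lit 6) (by decide +kernel)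
theorem L252878 : W_1 (nat_lit 3) (nat_lit 0x70003c0016000200020000000000000000000) (nat_lit 0x0) (nat_lit 0x80018000c0000000000000000000) := T_1 (nat_lit 95) (nat_lit 78) (nat_lit 5) (nat_lit 10) (nat_lit 4) L252877 (by decide +kernel)
theorem L252879 : W_1 (nat_lit 4) (nat_lit 0x70003c0006000200020000000000000000000) (nat_lit 0x0) (nat_lit 0x380018000c0000000000000000000) := T_1 (nat_lit 112) (nat_lit 113) (nat_lit 2) (nat_lit 7) (nat_lit 7) L252878 (by decide +kernel)
theorem L252880 : W_1 (nat_lit 5) (nat_lit 0x30003c0006000200020000000000000000000) (nat_lit 0x0) (nat_lit 0xc0000000380018000c0000000000000000000) := T_1 (nat_lit 146) (nat_lit 147) (nat_lit 3) (nat_lit 7) (nat_lit 7) L252879 (by decide +kernel)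
theorem L252881 : W_1 (nat_lit 6) (nat_lit 0x10003c0006000200020000000000000000000) (nat_lit 0x0) (nat_lit 0x4000e0000000380018000c0000000000000000000) := T_1 (nat_lit 145) (nat_lit 162) (nat_lit 7) (nat_lit 8) (nat_lit 5) L252880 (by decide +kernel)
theorem L252882 : W_1 (nat_lit 7) (nat_lit 0x10001c0006000200020000000000000000000) (nat_lit 0x0) (nat_lit 0x4000e0006000380018000c0000000000000000000) := T_1 (nat_lit 129) (nat_lit 130) (nat_lit 0) (nat_lit 11) (nat_lit 7) L252881 (by decide +kernel)
theorem L252883 : W_1 (nat_lit 8) (nat_lit 0x10001c0006000200000000000000000000000) (nat_lit 0x0) (nat_lit 0x4000e000600038001c000e0000000000000000000) := T_1 (nat_lit 77) (nat_lit 94) (nat_lit 6) (nat_lit 8) (nat_lit 8) L252882 (by decide +kernel)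
theorem L252884 : W_1 (nat_lit 9) (nat_lit 0x10001c0006000000000000000000000000000) (nat_lit 0x0) (nat_lit 0x4000e000600038001e000f0001800000000000000) := Q_1 (nat_lit 93) (C_1 L251157 (C_1 L252876 (C_1 L252883 N_1))) (by decide +kernel)
theorem L252885 : W_1 (nat_lit 2) (nat_lit 0x10001c0006800200020000000000000000000) (nat_lit 0x0) (nat_lit 0x10001800000000000000) := D_1 (nat_lit 76) (nat_lit 60) (nat_lit 59) (nat_lit 6) (nat_lit 8) (nat_lit 7) (nat_lit 5) (nat_lit 8) (nat_lit 3) (by decide +kernel)
theorem L252886 : W_1 (nat_lit 3) (nat_lit 0x10001c0006800200000000000000000000000) (nat_lit 0x0) (nat_lit 0x400030001800000000000000) := T_1 (nat_lit 77) (nat_lit 94) (nat_lit 6) (nat_lit 8) (nat_lit 8) L252885 (by decide +kernel)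
theorem L252887 : W_1 (nat_lit 4) (nat_lit 0x10001c0006000200000000000000000000000) (nat_lit 0x0) (nat_lit 0x1800400030001800000000000000) := T_1 (nat_lit 107) (nat_lit 108) (nat_lit 3) (nat_lit 5) (nat_lit 6) L252886 (by decide +kernel)
theorem L252888 : W_1 (nat_lit 2) (nat_lit 0x70001c0007000600000000000000000000000) (nat_lit 0x0) (nat_lit 0x8001800000000000000000000000) := D_1 (nat_lit 95) (nat_lit 111) (nat_lit 96) (nat_lit 2) (nat_lit 6) (nat_lit 6) (nat_lit 1) (nat_lit 11) (nat_lit 5) (by decide +kernel)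
theorem L252889 : W_1 (nat_lit 3) (nat_lit 0x70001c0007000200000000000000000000000) (nat_lit 0x0) (nat_lit 0x8001c00020000000000000000000) := T_1 (nat_lit 94) (nat_lit 77) (nat_lit 6) (nat_lit 8) (nat_lit 8) L252888 (by decide +kernel)
theorem L252890 : W_1 (nat_lit 4) (nat_lit 0x70001c0006000200000000000000000000000) (nat_lit 0x0) (nat_lit 0x9801c00020000000000000000000) := T_1 (nat_lit 108) (nat_lit 107) (nat_lit 3) (nat_lit 5) (nat_lit 6) L252889 (by decide +kernel)
theorem L252891 : W_1 (nat_lit 5) (nat_lit 0x30001c0006000200000000000000000000000) (nat_lit 0x0) (nat_lit 0xc000000009801c00020000000000000000000) := T_1 (nat_lit 146) (nat_lit 147) (nat_lit 0) (nat_lit 11) (nat_lit 8) L252890 (by decide +kernel)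
theorem L252892 : W_1 (nat_lit 6) (nat_lit 0x10001c0006000200000000000000000000000) (nat_lit 0x0) (nat_lit 0x4000e000000009801c00020000000000000000000) := T_1 (nat_lit 145) (nat_lit 162) (nat_lit 7) (nat_lit 8) (nat_lit 5) L252891 (by decide +kernel)
theorem L252893 : W_1 (nat_lit 7) (nat_lit 0x10001c0006000000000000000000000000000) (nat_lit 0x0) (nat_lit 0x4000e000000009801e00030001800000000000000) := Q_1 (nat_lit 93) (C_1 L251157 (C_1 L252887 (C_1 L252892 N_1))) (by decide +kernel)
theorem L252894 : W_1 (nat_lit 10) (nat_lit 0x10000c0006000000000000000000000000000) (nat_lit 0x0) (nat_lit 0x4000e000700039801e000f0001800000000000000) := Q_1 (nat_lit 128) (C_1 L27757 (C_1 L252884 (C_1 L252893 N_1))) (by decide +kernel)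
theorem L252895 : W_1 (nat_lit 6) (nat_lit 0x10000c0006000000000000000000000000000) (nat_lit 0x0) (nat_lit 0x10000800000009801e00030001800000000000000) := Q_1 (nat_lit 93) (C_1 L212919 (C_1 L23288 (C_1 L23923 N_1))) (by decide +kernel)
theorem L252896 : W_1 (nat_lit 4) (nat_lit 0x78003c0006000200020000000000000000000) (nat_lit 0x0) (nat_lit 0x380018000c0000000000000000000) := T_1 (nat_lit 112) (nat_lit 113) (nat_lit 2) (nat_lit 7) (nat_lit 7) L213212 (by decide +kernel)
theorem L252897 : W_1 (nat_lit 5) (nat_lit 0x78002c0006000200020000000000000000000) (nat_lit 0x0) (nat_lit 0x4001000380018000c0000000000000000000) := T_1 (nat_lit 128) (nat_lit 142) (nat_lit 2) (nat_lit 6) (nat_lit 8) L252896 (by decide +kernel)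
theorem L252898 : W_1 (nat_lit 6) (nat_lit 0x78000c0006000200020000000000000000000) (nat_lit 0x0) (nat_lit 0x4007000380018000c0000000000000000000) := T_1 (nat_lit 129) (nat_lit 130) (nat_lit 2) (nat_lit 7) (nat_lit 8) L252897 (by decide +kernel)
theorem L252899 : W_1 (nat_lit 7) (nat_lit 0x70000c0006000200020000000000000000000) (nat_lit 0x0) (nat_lit 0x10000c007000380018000c0000000000000000000) := T_1 (nat_lit 143) (nat_lit 160) (nat_lit 6) (nat_lit 7) (nat_lit 9) L252898 (by decide +kernel)
theorem L252900 : W_1 (nat_lit 8) (nat_lit 0x70000c0006000200000000000000000000000) (nat_lit 0x0) (nat_lit 0x10000c00700038001c000e0000000000000000000) := T_1 (nat_lit 77) (nat_lit 94) (nat_lit 6) (nat_lit 8) (nat_lit 8) L252899 (by decide +kernel)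
theorem L252901 : W_1 (nat_lit 9) (nat_lit 0x30000c0006000200000000000000000000000) (nat_lit 0x0) (nat_lit 0x1000cc00700038001c000e0000000000000000000) := T_1 (nat_lit 146) (nat_lit 147) (nat_lit 0) (nat_lit 11) (nat_lit 8) L252900 (by decide +kernel)
theorem L252902 : W_1 (nat_lit 10) (nat_lit 0x10000c0006000200000000000000000000000) (nat_lit 0x0) (nat_lit 0x5000ec00700038001c000e0000000000000000000) := T_1 (nat_lit 145) (nat_lit 162) (nat_lit 7) (nat_lit 8) (nat_lit 5) L252901 (by decide +kernel)
theorem L252903 : W_1 (nat_lit 11) (nat_lit 0x10000c0006000000000000000000000000000) (nat_lit 0x0) (nat_lit 0x5000ec00700038001e000f0000800000000000000) := Q_1 (nat_lit 93) (C_1 L251717 (C_1 L212919 (C_1 L252902 N_1))) (by decide +kernel)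
theorem L252919 : W_1 (nat_lit 2) (nat_lit 0x10000c801f800040000000000000000000000) (nat_lit 0x0) (nat_lit 0x1c00000000000000000000000) := D_1 (nat_lit 95) (nat_lit 94) (nat_lit 96) (nat_lit 2) (nat_lit 6) (nat_lit 6) (nat_lit 2) (nat_lit 7) (nat_lit 6) (by decide +kernel)
theorem L252920 : W_1 (nat_lit 3) (nat_lit 0x10000c800f800040000000000000000000000) (nat_lit 0x0) (nat_lit 0x30001c00000000000000000000000) := T_1 (nat_lit 112) (nat_lit 113) (nat_lit 1) (nat_lit 11) (nat_lit 6) L252919 (by decide +kernel)
theorem L252921 : W_1 (nat_lit 4) (nat_lit 0x10000c8007800040000000000000000000000) (nat_lit 0x0) (nat_lit 0x38001c80000000000000000000000) := T_1 (nat_lit 111) (nat_lit 91) (nat_lit 0) (nat_lit 9) (nat_lit 6) L252920 (by decide +kernel)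
theorem L252922 : W_1 (nat_lit 5) (nat_lit 0x10000c8007800000000000000000000000000) (nat_lit 0x0) (nat_lit 0x38001ce0000000000000000000000) := T_1 (nat_lit 90) (nat_lit 89) (nat_lit 0) (nat_lit 8) (nat_lit 6) L252921 (by decide +kernel)
theorem L252923 : W_1 (nat_lit 6) (nat_lit 0x10000c0007800000000000000000000000000) (nat_lit 0x0) (nat_lit 0x18038001ce0000000000000000000000) := T_1 (nat_lit 123) (nat_lit 124) (nat_lit 1) (nat_lit 8) (nat_lit 6) L252922 (by decide +kernel)
theorem L252924 : W_1 (nat_lit 7) (nat_lit 0x10000c0007000000000000000000000000000) (nat_lit 0x0) (nat_lit 0x18038c01ce0000000000000000000000) := T_1 (nat_lit 107) (nat_lit 106) (nat_lit 3) (nat_lit 4) (nat_lit 6) L252923 (by decide +kernel)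
theorem L252925 : W_1 (nat_lit 2) (nat_lit 0x10000c000f000800000000000000000000000) (nat_lit 0x0) (nat_lit 0x30001000000000000000000000000) := D_1 (nat_lit 112) (nat_lit 113) (nat_lit 96) (nat_lit 1) (nat_lit 11) (nat_lit 6) (nat_lit 2) (nat_lit 7) (nat_lit 6) (by decide +kernel)
theorem L252926 : W_1 (nat_lit 3) (nat_lit 0x10000c000f000000000000000000000000000) (nat_lit 0x0) (nat_lit 0x30001c00000000000000000000000) := T_1 (nat_lit 95) (nat_lit 94) (nat_lit 2) (nat_lit 6) (nat_lit 6) L252925 (by decide +kernel)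
theorem L252927 : W_1 (nat_lit 5) (nat_lit 0x10000c0007000000000000000000000000000) (nat_lit 0x0) (nat_lit 0x700038001cc0020000000000000000000) := Q_1 (nat_lit 111) (C_1 L249278 (C_1 L252926 (C_1 L249272 N_1))) (by decide +kernel)
theorem L252928 : W_1 (nat_lit 8) (nat_lit 0x10000c0006000000000000000000000000000) (nat_lit 0x0) (nat_lit 0x718039c01ce0020000000000000000000) := Q_1 (nat_lit 108) (C_1 L22900 (C_1 L252924 (C_1 L252927 N_1))) (by decide +kernel)
theorem L252929 : W_1 (nat_lit 2) (nat_lit 0x78002c0006000200000000000000000000000) (nat_lit 0x0) (nat_lit 0x400100001000000000000000000000000000) := D_1 (nat_lit 128) (nat_lit 142) (nat_lit 108) (nat_lit 2) (nat_lit 6) (nat_lit 8) (nat_lit 0) (nat_lit 10) (nat_lit 7) (by decide +kernel)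
theorem L252930 : W_1 (nat_lit 3) (nat_lit 0x78000c0006000200000000000000000000000) (nat_lit 0x0) (nat_lit 0x400700001000000000000000000000000000) := T_1 (nat_lit 129) (nat_lit 130) (nat_lit 2) (nat_lit 7) (nat_lit 8) L252929 (by decide +kernel)
theorem L252931 : W_1 (nat_lit 4) (nat_lit 0x38000c0006000200000000000000000000000) (nat_lit 0x0) (nat_lit 0xc400700001000000000000000000000000000) := T_1 (nat_lit 146) (nat_lit 147) (nat_lit 0) (nat_lit 11) (nat_lit 8) L252930 (by decide +kernel)
theorem L252932 : W_1 (nat_lit 5) (nat_lit 0x18000c0006000200000000000000000000000) (nat_lit 0x0) (nat_lit 0x4000e400700001000000000000000000000000000) := T_1 (nat_lit 145) (nat_lit 162) (nat_lit 7) (nat_lit 8) (nat_lit 5) L252931 (by decide +kernel)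
theorem L252933 : W_1 (nat_lit 6) (nat_lit 0x18000c0006000000000000000000000000000) (nat_lit 0x0) (nat_lit 0x4000e400700001000200010000000000000000000) := T_1 (nat_lit 93) (nat_lit 76) (nat_lit 5) (nat_lit 8) (nat_lit 4) L252932 (by decide +kernel)
theorem L252934 : W_1 (nat_lit 7) (nat_lit 0x10000c0006000000000000000000000000000) (nat_lit 0x0) (nat_lit 0x30005e00ec00700001c00280010000000000000000000) := Q_1 (nat_lit 143) (C_1 L24144 (C_1 L24076 (C_1 L252933 N_1))) (by decide +kernel)
theorem L252935 : W_1 (nat_lit 12) (nat_lit 0x10000c0002000000000000000000000000000) (nat_lit 0x0) (nat_lit 0x30005e00ec0071803dc01ee00f0001800000000000000) := Q_1 (nat_lit 110) (C_1 L213149 (C_1 L252894 (C_1 L252895 (C_1 L252903 (C_1 L252928 (C_1 L252934 N_1)))))) (by decide +kernel)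
theorem L252936 : W_1 (nat_lit 7) (nat_lit 0x18000c0002000000000000000000000000000) (nat_lit 0x0) (nat_lit 0x600030001e006400000005000280000000000000000000000) := Q_1 (nat_lit 160) (C_1 L252764 (C_1 L252763 (C_1 L22192 N_1))) (by decide +kernel)
theorem L252937 : W_1 (nat_lit 13) (nat_lit 0x10000c0002000000000000000000000000000) (nat_lit 0x0) (nat_lit 0x600030005e00ee00700035001f800fc000000000000000000) := Q_1 (nat_lit 143) (C_1 L252782 (C_1 L252810 (C_1 L1521 (C_1 L252936 N_1)))) (by decide +kernel)
theorem L252972 : W_1 (nat_lit 2) (nat_lit 0x100058003c001e000000028000000000000000000) (nat_lit 0x0) (nat_lit 0x100008002000000000000000000000000000000000000) := D_1 (nat_lit 159) (nat_lit 176) (nat_lit 145) (nat_lit 5) (nat_lit 7) (nat_lit 6) (nat_lit 1) (nat_lit 10) (nat_lit 8) (by decide +kernel)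
theorem L252973 : W_1 (nat_lit 3) (nat_lit 0x58003c001e000000028000000000000000000) (nat_lit 0x0) (nat_lit 0x300018002000000000000000000000000000000000000) := T_1 (nat_lit 160) (nat_lit 177) (nat_lit 6) (nat_lit 7) (nat_lit 10) L252972 (by decide +kernel)
theorem L252974 : W_1 (nat_lit 4) (nat_lit 0x50003c001e000000028000000000000000000) (nat_lit 0x0) (nat_lit 0x300018002c00000000000000000000000000000000000) := T_1 (nat_lit 143) (nat_lit 142) (nat_lit 1) (nat_lit 10) (nat_lit 7) L252973 (by decide +kernel)
theorem L252975 : W_1 (nat_lit 5) (nat_lit 0x10003c001e000000028000000000000000000) (nat_lit 0x0) (nat_lit 0x30001800ec00000000000000000000000000000000000) := T_1 (nat_lit 146) (nat_lit 147) (nat_lit 3) (nat_lit 7) (nat_lit 7) L252974 (by decide +kernel)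
theorem L252976 : W_1 (nat_lit 6) (nat_lit 0x10003c001e000000008000000000000000000) (nat_lit 0x0) (nat_lit 0x30001800ec00000000000400020000000000000000000) := T_1 (nat_lit 77) (nat_lit 94) (nat_lit 5) (nat_lit 9) (nat_lit 4) L252975 (by decide +kernel)
theorem L252977 : W_1 (nat_lit 7) (nat_lit 0x10002c001e000000008000000000000000000) (nat_lit 0x0) (nat_lit 0x30001800ec00100001000400020000000000000000000) := T_1 (nat_lit 128) (nat_lit 108) (nat_lit 3) (nat_lit 6) (nat_lit 6) L252976 (by decide +kernel)
theorem L252978 : W_1 (nat_lit 8) (nat_lit 0x10000c001e000000008000000000000000000) (nat_lit 0x0) (nat_lit 0x30001800ec00700001000400020000000000000000000) := T_1 (nat_lit 129) (nat_lit 130) (nat_lit 3) (nat_lit 7) (nat_lit 6) L252977 (by decide +kernel)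
theorem L252979 : W_1 (nat_lit 9) (nat_lit 0x10000c000e000000008000000000000000000) (nat_lit 0x0) (nat_lit 0x30001800ec00700031000400020000000000000000000) := T_1 (nat_lit 112) (nat_lit 113) (nat_lit 1) (nat_lit 11) (nat_lit 6) L252978 (by decide +kernel)
theorem L252980 : W_1 (nat_lit 10) (nat_lit 0x10000c000e000000000000000000000000000) (nat_lit 0x0) (nat_lit 0x30001800ec00700031000500028000000000000000000) := T_1 (nat_lit 75) (nat_lit 92) (nat_lit 7) (nat_lit 7) (nat_lit 4) L252979 (by decide +kernel)
theorem L252981 : W_1 (nat_lit 8) (nat_lit 0x10000c000e000000000000000000000000000) (nat_lit 0x0) (nat_lit 0x30001800ec00700001800c00020000000000000000000) := Q_1 (nat_lit 128) (C_1 L251812 (C_1 L249437 (C_1 L249612 N_1))) (by decide +kernel)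
theorem L252982 : W_1 (nat_lit 11) (nat_lit 0x10000c0006000000000000000000000000000) (nat_lit 0x0) (nat_lit 0x30005800ec00700039801d00068003000000000000000) := Q_1 (nat_lit 111) (C_1 L251811 (C_1 L24190 (C_1 L249438 (C_1 L22924 (C_1 L252980 (C_1 L252981 N_1)))))) (by decide +kernel)
theorem L252983 : W_1 (nat_lit 2) (nat_lit 0x78002c0006000200008000000000000000000) (nat_lit 0x0) (nat_lit 0x400100001000000000000000000000000000) := D_1 (nat_lit 128) (nat_lit 142) (nat_lit 108) (nat_lit 2) (nat_lit 6) (nat_lit 8) (nat_lit 0) (nat_lit 10) (nat_lit 7) (by decide +kernel)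
theorem L252984 : W_1 (nat_lit 3) (nat_lit 0x78000c0006000200008000000000000000000) (nat_lit 0x0) (nat_lit 0x400700001000000000000000000000000000) := T_1 (nat_lit 129) (nat_lit 130) (nat_lit 2) (nat_lit 7) (nat_lit 8) L252983 (by decide +kernel)
theorem L252985 : W_1 (nat_lit 4) (nat_lit 0x38000c0006000200008000000000000000000) (nat_lit 0x0) (nat_lit 0xc400700001000000000000000000000000000) := T_1 (nat_lit 146) (nat_lit 147) (nat_lit 0) (nat_lit 11) (nat_lit 8) L252984 (by decide +kernel)
theorem L252986 : W_1 (nat_lit 5) (nat_lit 0x18000c0006000200008000000000000000000) (nat_lit 0x0) (nat_lit 0x4000e400700001000000000000000000000000000) := T_1 (nat_lit 145) (nat_lit 162) (nat_lit 7) (nat_lit 8) (nat_lit 5) L252985 (by decide +kernel)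
theorem L252987 : W_1 (nat_lit 6) (nat_lit 0x10000c0006000200008000000000000000000) (nat_lit 0x0) (nat_lit 0x5000ec00700001000000000000000000000000000) := T_1 (nat_lit 143) (nat_lit 160) (nat_lit 6) (nat_lit 7) (nat_lit 9) L252986 (by decide +kernel)
theorem L252988 : W_1 (nat_lit 7) (nat_lit 0x10000c0006000200000000000000000000000) (nat_lit 0x0) (nat_lit 0x5000ec00700001000100008000000000000000000) := T_1 (nat_lit 75) (nat_lit 92) (nat_lit 7) (nat_lit 7) (nat_lit 4) L252987 (by decide +kernel)
theorem L252989 : W_1 (nat_lit 8) (nat_lit 0x10000c0006000000000000000000000000000) (nat_lit 0x0) (nat_lit 0x5000ec00700001000300018000800000000000000) := Q_1 (nat_lit 93) (C_1 L251717 (C_1 L212919 (C_1 L252988 N_1))) (by decide +kernel)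
theorem L252990 : W_1 (nat_lit 12) (nat_lit 0x10000c0002000000000000000000000000000) (nat_lit 0x0) (nat_lit 0x30005800ec0070003d801f000f8003800000000000000) := Q_1 (nat_lit 110) (C_1 L252895 (C_1 L252903 (C_1 L252894 (C_1 L252982 (C_1 L252989 N_1))))) (by decide +kernel)
theorem L252991 : W_1 (nat_lit 14) (nat_lit 0x10000c0000000000000000000000000000000) (nat_lit 0x0) (nat_lit 0x600030005e03ef01f181ffc07fe01fc00fc001c0002000000) := Q_1 (nat_lit 109) (C_1 L252745 (C_1 L252746 (C_1 L252760 (C_1 L252766 (C_1 L252768 (C_1 L252801 (C_1 L252811 (C_1 L252935 (C_1 L252937 (C_1 L252990 N_1)))))))))) (by decide +kernel)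
theorem L252992 : W_1 (nat_lit 2) (nat_lit 0x3c000c0000000000000000000000000000000) (nat_lit 0x0) (nat_lit 0x300100000000000000000000000000000000) := D_1 (nat_lit 141) (nat_lit 140) (nat_lit 128) (nat_lit 2) (nat_lit 4) (nat_lit 8) (nat_lit 2) (nat_lit 5) (nat_lit 8) (by decide +kernel)
theorem L252993 : W_1 (nat_lit 5) (nat_lit 0x38000c0000000000000000000000000000000) (nat_lit 0x0) (nat_lit 0x200010001e000700100002000100000000000000000000000) := Q_1 (nat_lit 142) (C_1 L25516 (C_1 L21947 (C_1 L252992 N_1))) (by decide +kernel)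
theorem L252994 : W_1 (nat_lit 7) (nat_lit 0x30000c0000000000000000000000000000000) (nat_lit 0x0) (nat_lit 0x600030005e00cf00700036000900040000000000000000000) := Q_1 (nat_lit 143) (C_1 L22236 (C_1 L2916 (C_1 L252993 N_1))) (by decide +kernel)
theorem L253256 : W_1 (nat_lit 2) (nat_lit 0x7000180038000d0000000000000000000000000000000) (nat_lit 0x0) (nat_lit 0x800006000000000000000000000000000000000000000) := D_1 (nat_lit 158) (nat_lit 157) (nat_lit 179) (nat_lit 3) (nat_lit 4) (nat_lit 9) (nat_lit 0) (nat_lit 9) (nat_lit 10) (by decide +kernel)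
theorem L253257 : W_1 (nat_lit 3) (nat_lit 0x3000180038000d0000000000000000000000000000000) (nat_lit 0x0) (nat_lit 0x8000c00006000000000000000000000000000000000000000) := T_1 (nat_lit 178) (nat_lit 195) (nat_lit 7) (nat_lit 7) (nat_lit 7) L253256 (by decide +kernel)
theorem L253258 : W_1 (nat_lit 4) (nat_lit 0x3000100038000d0000000000000000000000000000000) (nat_lit 0x0) (nat_lit 0x8000c0000e000000000002000000000000000000000000000) := T_1 (nat_lit 159) (nat_lit 109) (nat_lit 5) (nat_lit 7) (nat_lit 6) L253257 (by decide +kernel)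
theorem L253259 : W_1 (nat_lit 5) (nat_lit 0x2000100038000d0000000000000000000000000000000) (nat_lit 0x0) (nat_lit 0xa000d0000e000000000002000000000000000000000000000) := T_1 (nat_lit 176) (nat_lit 193) (nat_lit 5) (nat_lit 7) (nat_lit 7) L253258 (by decide +kernel)
theorem L253260 : W_1 (nat_lit 6) (nat_lit 0x100038000d0000000000000000000000000000000) (nat_lit 0x0) (nat_lit 0xe000f0000e000000000002000000000000000000000000000) := T_1 (nat_lit 177) (nat_lit 194) (nat_lit 6) (nat_lit 7) (nat_lit 11) L253259 (by decide +kernel)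
theorem L253261 : W_1 (nat_lit 7) (nat_lit 0x100038000c0000000000000000000000000000000) (nat_lit 0x0) (nat_lit 0xe000f0000e000000030002000000000000000000000000000) := T_1 (nat_lit 124) (nat_lit 125) (nat_lit 3) (nat_lit 5) (nat_lit 7) L253260 (by decide +kernel)
theorem L253262 : W_1 (nat_lit 2) (nat_lit 0x100038000c0002000200000000000000000000000) (nat_lit 0x0) (nat_lit 0x100018000000000000000000) := D_1 (nat_lit 92) (nat_lit 75) (nat_lit 76) (nat_lit 7) (nat_lit 7) (nat_lit 4) (nat_lit 6) (nat_lit 7) (nat_lit 8) (by decide +kernel)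
theorem L253263 : W_1 (nat_lit 3) (nat_lit 0x100038000c0002000000000000000000000000000) (nat_lit 0x0) (nat_lit 0x4000300018000000000000000000) := T_1 (nat_lit 93) (nat_lit 110) (nat_lit 6) (nat_lit 7) (nat_lit 9) L253262 (by decide +kernel)
theorem L253299 : W_1 (nat_lit 2) (nat_lit 0x38003e0000000000000000000000000000000) (nat_lit 0x0) (nat_lit 0x38000000000000000000000000000) := D_1 (nat_lit 112) (nat_lit 111) (nat_lit 113) (nat_lit 2) (nat_lit 6) (nat_lit 7) (nat_lit 2) (nat_lit 7) (nat_lit 7) (by decide +kernel)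
theorem L253300 : W_1 (nat_lit 3) (nat_lit 0x38001e0000000000000000000000000000000) (nat_lit 0x0) (nat_lit 0x600038000000000000000000000000000) := T_1 (nat_lit 129) (nat_lit 130) (nat_lit 1) (nat_lit 11) (nat_lit 7) L253299 (by decide +kernel)
theorem L253301 : W_1 (nat_lit 4) (nat_lit 0x38001c0000000000000000000000000000000) (nat_lit 0x0) (nat_lit 0x630038000000000000000000000000000) := T_1 (nat_lit 125) (nat_lit 124) (nat_lit 3) (nat_lit 5) (nat_lit 7) L253300 (by decide +kernel)
theorem L253602 : W_1 (nat_lit 2) (nat_lit 0x8003c001e0008000000020000000000000000000) (nat_lit 0x0) (nat_lit 0x100000000000000002000100000000000000000000000) := D_1 (nat_lit 109) (nat_lit 92) (nat_lit 176) (nat_lit 5) (nat_lit 7) (nat_lit 5) (nat_lit 6) (nat_lit 6) (nat_lit 10) (by decide +kernel)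
theorem L253603 : W_1 (nat_lit 3) (nat_lit 0x3c001e0008000000020000000000000000000) (nat_lit 0x0) (nat_lit 0x10000c000000000002000100000000000000000000000) := T_1 (nat_lit 159) (nat_lit 158) (nat_lit 1) (nat_lit 9) (nat_lit 8) L253602 (by decide +kernel)
theorem L253604 : W_1 (nat_lit 4) (nat_lit 0x34001e0008000000020000000000000000000) (nat_lit 0x0) (nat_lit 0x10000c000800200002000100000000000000000000000) := T_1 (nat_lit 143) (nat_lit 129) (nat_lit 2) (nat_lit 6) (nat_lit 8) L253603 (by decide +kernel)
theorem L253605 : W_1 (nat_lit 5) (nat_lit 0x34001e0008000000000000000000000000000) (nat_lit 0x0) (nat_lit 0x10000c000800200002000500020000000000000000000) := T_1 (nat_lit 77) (nat_lit 94) (nat_lit 5) (nat_lit 9) (nat_lit 4) L253604 (by decide +kernel)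
theorem L253606 : W_1 (nat_lit 6) (nat_lit 0x30001e0008000000000000000000000000000) (nat_lit 0x0) (nat_lit 0x10000c000e00200002000500020000000000000000000) := T_1 (nat_lit 142) (nat_lit 141) (nat_lit 1) (nat_lit 9) (nat_lit 7) L253605 (by decide +kernel)
theorem L253607 : W_1 (nat_lit 7) (nat_lit 0x30001e0000000000000000000000000000000) (nat_lit 0x0) (nat_lit 0x10000c000e0020001a000500020000000000000000000) := T_1 (nat_lit 111) (nat_lit 112) (nat_lit 2) (nat_lit 6) (nat_lit 7) L253606 (by decide +kernel)
theorem L253608 : W_1 (nat_lit 8) (nat_lit 0x30001c0000000000000000000000000000000) (nat_lit 0x0) (nat_lit 0x10000c000e0023001a000500020000000000000000000) := T_1 (nat_lit 125) (nat_lit 124) (nat_lit 3) (nat_lit 5) (nat_lit 7) L253607 (by decide +kernel)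
theorem L253609 : W_1 (nat_lit 2) (nat_lit 0x32001e000c000e00000000000000000000000) (nat_lit 0x0) (nat_lit 0x2003000000000000000000000000) := D_1 (nat_lit 96) (nat_lit 97) (nat_lit 109) (nat_lit 1) (nat_lit 12) (nat_lit 5) (nat_lit 1) (nat_lit 11) (nat_lit 5) (by decide +kernel)
theorem L253610 : W_1 (nat_lit 3) (nat_lit 0x32001e0008000e00000000000000000000000) (nat_lit 0x0) (nat_lit 0x40000000000006003000000000000000000000000) := T_1 (nat_lit 110) (nat_lit 162) (nat_lit 7) (nat_lit 8) (nat_lit 5) L253609 (by decide +kernel)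
theorem L253611 : W_1 (nat_lit 4) (nat_lit 0x32001e0008000600000000000000000000000) (nat_lit 0x0) (nat_lit 0x40000000000006003800040000000000000000000) := T_1 (nat_lit 95) (nat_lit 78) (nat_lit 6) (nat_lit 9) (nat_lit 8) L253610 (by decide +kernel)
theorem L253612 : W_1 (nat_lit 5) (nat_lit 0x32001e0008000400000000000000000000000) (nat_lit 0x0) (nat_lit 0x40000000000006003a00050000000000000000000) := T_1 (nat_lit 93) (nat_lit 76) (nat_lit 4) (nat_lit 9) (nat_lit 8) L253611 (by decide +kernel)
theorem L253613 : W_1 (nat_lit 6) (nat_lit 0x32001e0008000000000000000000000000000) (nat_lit 0x0) (nat_lit 0x40000000000006003e00070000000000000000000) := T_1 (nat_lit 94) (nat_lit 77) (nat_lit 5) (nat_lit 9) (nat_lit 4) L253612 (by decide +kernel)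
theorem L253614 : W_1 (nat_lit 7) (nat_lit 0x30001e0008000000000000000000000000000) (nat_lit 0x0) (nat_lit 0x40000600000006003e00070000000000000000000) := T_1 (nat_lit 141) (nat_lit 142) (nat_lit 1) (nat_lit 9) (nat_lit 7) L253613 (by decide +kernel)
theorem L253615 : W_1 (nat_lit 8) (nat_lit 0x30001e0000000000000000000000000000000) (nat_lit 0x0) (nat_lit 0x4000060000001e003e00070000000000000000000) := T_1 (nat_lit 111) (nat_lit 112) (nat_lit 2) (nat_lit 6) (nat_lit 7) L253614 (by decide +kernel)
theorem L253616 : W_1 (nat_lit 9) (nat_lit 0x30001c0000000000000000000000000000000) (nat_lit 0x0) (nat_lit 0x4000060003001e003e00070000000000000000000) := T_1 (nat_lit 125) (nat_lit 124) (nat_lit 3) (nat_lit 5) (nat_lit 7) L253615 (by decide +kernel)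
theorem L253617 : W_1 (nat_lit 2) (nat_lit 0x30007c0000000000000000000000000000000) (nat_lit 0x0) (nat_lit 0x70000000000000000000000000000) := D_1 (nat_lit 113) (nat_lit 112) (nat_lit 114) (nat_lit 2) (nat_lit 7) (nat_lit 7) (nat_lit 2) (nat_lit 8) (nat_lit 7) (by decide +kernel)
theorem L253618 : W_1 (nat_lit 3) (nat_lit 0x30003c0000000000000000000000000000000) (nat_lit 0x0) (nat_lit 0xc00070000000000000000000000000000) := T_1 (nat_lit 130) (nat_lit 131) (nat_lit 1) (nat_lit 12) (nat_lit 7) L253617 (by decide +kernel)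
theorem L253619 : W_1 (nat_lit 6) (nat_lit 0x30001c0000000000000000000000000000000) (nat_lit 0x0) (nat_lit 0x800040000c00e00078000800040000000000000000000) := Q_1 (nat_lit 129) (C_1 L250746 (C_1 L253618 (C_1 L22334 N_1))) (by decide +kernel)
theorem L253620 : W_1 (nat_lit 2) (nat_lit 0x34007e0014000000000000000000000000000) (nat_lit 0x0) (nat_lit 0x800040000000000000000200000000000000000000000) := D_1 (nat_lit 162) (nat_lit 179) (nat_lit 93) (nat_lit 6) (nat_lit 9) (nat_lit 10) (nat_lit 7) (nat_lit 8) (nat_lit 5) (by decide +kernel)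
theorem L253621 : W_1 (nat_lit 3) (nat_lit 0x34007e0010000000000000000000000000000) (nat_lit 0x0) (nat_lit 0x800040000000000006000200000000000000000000000) := T_1 (nat_lit 110) (nat_lit 109) (nat_lit 0) (nat_lit 11) (nat_lit 7) L253620 (by decide +kernel)
theorem L253622 : W_1 (nat_lit 4) (nat_lit 0x34003e0010000000000000000000000000000) (nat_lit 0x0) (nat_lit 0x800040000000c00006000200000000000000000000000) := T_1 (nat_lit 130) (nat_lit 131) (nat_lit 1) (nat_lit 12) (nat_lit 7) L253621 (by decide +kernel)
theorem L253623 : W_1 (nat_lit 5) (nat_lit 0x34003e0000000000000000000000000000000) (nat_lit 0x0) (nat_lit 0x800040000000c00036000200000000000000000000000) := T_1 (nat_lit 112) (nat_lit 113) (nat_lit 2) (nat_lit 7) (nat_lit 7) L253622 (by decide +kernel)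
theorem L253624 : W_1 (nat_lit 6) (nat_lit 0x34001e0000000000000000000000000000000) (nat_lit 0x0) (nat_lit 0x800040000800e00036000200000000000000000000000) := T_1 (nat_lit 129) (nat_lit 143) (nat_lit 2) (nat_lit 6) (nat_lit 8) L253623 (by decide +kernel)
theorem L253625 : W_1 (nat_lit 7) (nat_lit 0x30001e0000000000000000000000000000000) (nat_lit 0x0) (nat_lit 0x800040000e00e00036000200000000000000000000000) := T_1 (nat_lit 142) (nat_lit 141) (nat_lit 1) (nat_lit 9) (nat_lit 7) L253624 (by decide +kernel)
theorem L253626 : W_1 (nat_lit 8) (nat_lit 0x30001c0000000000000000000000000000000) (nat_lit 0x0) (nat_lit 0x800040000e00e30036000200000000000000000000000) := T_1 (nat_lit 125) (nat_lit 124) (nat_lit 3) (nat_lit 5) (nat_lit 7) L253625 (by decide +kernel)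
theorem L253627 : W_1 (nat_lit 2) (nat_lit 0x34007e0004000000000000000000000000000) (nat_lit 0x0) (nat_lit 0x800040000000000000000200000000000000000000000) := D_1 (nat_lit 162) (nat_lit 179) (nat_lit 93) (nat_lit 4) (nat_lit 9) (nat_lit 10) (nat_lit 7) (nat_lit 8) (nat_lit 5) (by decide +kernel)
theorem L253628 : W_1 (nat_lit 3) (nat_lit 0x34007e0000000000000000000000000000000) (nat_lit 0x0) (nat_lit 0x800040000000000006000200000000000000000000000) := T_1 (nat_lit 110) (nat_lit 109) (nat_lit 0) (nat_lit 11) (nat_lit 7) L253627 (by decide +kernel)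
theorem L253629 : W_1 (nat_lit 4) (nat_lit 0x34003e0000000000000000000000000000000) (nat_lit 0x0) (nat_lit 0x800040000000c00006000200000000000000000000000) := T_1 (nat_lit 130) (nat_lit 131) (nat_lit 1) (nat_lit 12) (nat_lit 7) L253628 (by decide +kernel)
theorem L253630 : W_1 (nat_lit 5) (nat_lit 0x34001e0000000000000000000000000000000) (nat_lit 0x0) (nat_lit 0x800040000800e00006000200000000000000000000000) := T_1 (nat_lit 129) (nat_lit 143) (nat_lit 2) (nat_lit 6) (nat_lit 8) L253629 (by decide +kernel)
theorem L253631 : W_1 (nat_lit 6) (nat_lit 0x30001e0000000000000000000000000000000) (nat_lit 0x0) (nat_lit 0x800040000e00e00006000200000000000000000000000) := T_1 (nat_lit 142) (nat_lit 141) (nat_lit 1) (nat_lit 9) (nat_lit 7) L253630 (by decide +kernel)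
theorem L253632 : W_1 (nat_lit 7) (nat_lit 0x30001c0000000000000000000000000000000) (nat_lit 0x0) (nat_lit 0x800040000e00e30006000200000000000000000000000) := T_1 (nat_lit 125) (nat_lit 124) (nat_lit 3) (nat_lit 5) (nat_lit 7) L253631 (by decide +kernel)
theorem L253633 : W_1 (nat_lit 13) (nat_lit 0x30000c0000000000000000000000000000000) (nat_lit 0x0) (nat_lit 0x90005c000e00f3007e003fc007e000000000000000000) := Q_1 (nat_lit 128) (C_1 L22357 (C_1 L253608 (C_1 L253616 (C_1 L253619 (C_1 L253626 (C_1 L253632 N_1)))))) (by decide +kernel)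
theorem L253634 : W_1 (nat_lit 14) (nat_lit 0x10000c0000000000000000000000000000000) (nat_lit 0x0) (nat_lit 0x6000b0005e00ef00f3007e003fc007e000000000000000000) := Q_1 (nat_lit 145) (C_1 L21857 (C_1 L1403 (C_1 L252994 (C_1 L253633 N_1)))) (by decide +kernel)
theorem L253635 : W_1 (nat_lit 10) (nat_lit 0x10000e0000000000000000000000000000000) (nat_lit 0x0) (nat_lit 0x4003ee00f000ff803e00070000000000000000000) := Q_1 (nat_lit 128) (C_1 L22546 (C_1 L22572 (C_1 L20957 (C_1 L22559 (C_1 L22566 (C_1 L22554 (C_1 L20949 N_1))))))) (by decide +kernel)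
theorem L253636 : W_1 (nat_lit 11) (nat_lit 0x10000c0000000000000000000000000000000) (nat_lit 0x0) (nat_lit 0x4003ef80f380ffe03e00070000000000000000000) := Q_1 (nat_lit 125) (C_1 L20927 (C_1 L1894 (C_1 L130 (C_1 L253635 N_1)))) (by decide +kernel)
theorem L253637 : W_1 (nat_lit 7) (nat_lit 0x10001e0000000000000000000000000000000) (nat_lit 0x0) (nat_lit 0x30001c006e0000001b800180004000000000000000000) := Q_1 (nat_lit 143) (C_1 L24629 (C_1 L21657 (C_1 L21090 N_1))) (by decide +kernel)
theorem L253638 : W_1 (nat_lit 9) (nat_lit 0x10000e0000000000000000000000000000000) (nat_lit 0x0) (nat_lit 0x30001c03ee00f000ff800180004000000000000000000) := Q_1 (nat_lit 128) (C_1 L22546 (C_1 L22572 (C_1 L20957 (C_1 L22559 (C_1 L22566 (C_1 L22554 (C_1 L253637 N_1))))))) (by decide +kernel)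
theorem L253639 : W_1 (nat_lit 10) (nat_lit 0x10000c0000000000000000000000000000000) (nat_lit 0x0) (nat_lit 0x30001c03ef80f380ffe0018000c000000000000000000) := Q_1 (nat_lit 125) (C_1 L20927 (C_1 L20926 (C_1 L1894 (C_1 L20924 (C_1 L253638 N_1))))) (by decide +kernel)
theorem L253654 : W_1 (nat_lit 2) (nat_lit 0x1a0038000e0003000000008000000000000000000) (nat_lit 0x0) (nat_lit 0x300000800000000000000000000000000) := D_1 (nat_lit 128) (nat_lit 129) (nat_lit 107) (nat_lit 0) (nat_lit 10) (nat_lit 7) (nat_lit 0) (nat_lit 9) (nat_lit 7) (by decide +kernel)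
theorem L253655 : W_1 (nat_lit 3) (nat_lit 0x1a0038000c0003000000008000000000000000000) (nat_lit 0x0) (nat_lit 0x330000800000000000000000000000000) := T_1 (nat_lit 125) (nat_lit 124) (nat_lit 3) (nat_lit 5) (nat_lit 7) L253654 (by decide +kernel)
theorem L253656 : W_1 (nat_lit 4) (nat_lit 0x1a0038000c0002000000008000000000000000000) (nat_lit 0x0) (nat_lit 0x330001800080000000000000000000000) := T_1 (nat_lit 108) (nat_lit 91) (nat_lit 4) (nat_lit 7) (nat_lit 9) L253655 (by decide +kernel)
theorem L253657 : W_1 (nat_lit 5) (nat_lit 0x180038000c0002000000008000000000000000000) (nat_lit 0x0) (nat_lit 0x6000000330001800080000000000000000000000) := T_1 (nat_lit 157) (nat_lit 158) (nat_lit 2) (nat_lit 4) (nat_lit 9) L253656 (by decide +kernel)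
theorem L253658 : W_1 (nat_lit 6) (nat_lit 0x100038000c0002000000008000000000000000000) (nat_lit 0x0) (nat_lit 0x10000e000000330001800080000000000000000000000) := T_1 (nat_lit 159) (nat_lit 176) (nat_lit 5) (nat_lit 7) (nat_lit 6) L253657 (by decide +kernel)
theorem L253659 : W_1 (nat_lit 7) (nat_lit 0x100038000c0002000000000000000000000000000) (nat_lit 0x0) (nat_lit 0x10000e000000330001800180008000000000000000000) := T_1 (nat_lit 75) (nat_lit 92) (nat_lit 7) (nat_lit 7) (nat_lit 4) L253658 (by decide +kernel)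
theorem L253660 : W_1 (nat_lit 2) (nat_lit 0x1a0038000d0007000000000000000000000000000) (nat_lit 0x0) (nat_lit 0x108000800000000000000000000000000) := D_1 (nat_lit 107) (nat_lit 128) (nat_lit 123) (nat_lit 3) (nat_lit 5) (nat_lit 6) (nat_lit 1) (nat_lit 8) (nat_lit 6) (by decide +kernel)
theorem L253661 : W_1 (nat_lit 3) (nat_lit 0x1a0038000d0006000000000000000000000000000) (nat_lit 0x0) (nat_lit 0x108001800080000000000000000000000) := T_1 (nat_lit 108) (nat_lit 91) (nat_lit 4) (nat_lit 7) (nat_lit 9) L253660 (by decide +kernel)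
theorem L253662 : W_1 (nat_lit 4) (nat_lit 0x180038000d0006000000000000000000000000000) (nat_lit 0x0) (nat_lit 0x6000000108001800080000000000000000000000) := T_1 (nat_lit 157) (nat_lit 158) (nat_lit 2) (nat_lit 4) (nat_lit 9) L253661 (by decide +kernel)
theorem L253663 : W_1 (nat_lit 5) (nat_lit 0x100038000d0006000000000000000000000000000) (nat_lit 0x0) (nat_lit 0x10000e000000108001800080000000000000000000000) := T_1 (nat_lit 159) (nat_lit 176) (nat_lit 5) (nat_lit 7) (nat_lit 6) L253662 (by decide +kernel)
theorem L253664 : W_1 (nat_lit 6) (nat_lit 0x100038000d0002000000000000000000000000000) (nat_lit 0x0) (nat_lit 0x10000e000000108005800280000000000000000000000) := T_1 (nat_lit 110) (nat_lit 93) (nat_lit 6) (nat_lit 7) (nat_lit 9) L253663 (by decide +kernel)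
theorem L253665 : W_1 (nat_lit 7) (nat_lit 0x100038000c0002000000000000000000000000000) (nat_lit 0x0) (nat_lit 0x10000e000000138005800280000000000000000000000) := T_1 (nat_lit 124) (nat_lit 125) (nat_lit 3) (nat_lit 5) (nat_lit 7) L253664 (by decide +kernel)
theorem L253666 : W_1 (nat_lit 8) (nat_lit 0x100038000c0000000000000000000000000000000) (nat_lit 0x0) (nat_lit 0x10000e000000338007800380018000000000000000000) := Q_1 (nat_lit 109) (C_1 L253263 (C_1 L253659 (C_1 L253665 N_1))) (by decide +kernel)
theorem L253667 : W_1 (nat_lit 9) (nat_lit 0x38000c0000000000000000000000000000000) (nat_lit 0x0) (nat_lit 0xe000f0001e000000338007800380018000000000000000000) := Q_1 (nat_lit 160) (C_1 L253261 (C_1 L26028 (C_1 L253666 N_1))) (by decide +kernel)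
theorem L253668 : W_1 (nat_lit 2) (nat_lit 0x3c001e0001000000000000000000000000000) (nat_lit 0x0) (nat_lit 0x200010000000000000000080000000000000000000000) := D_1 (nat_lit 160) (nat_lit 177) (nat_lit 91) (nat_lit 4) (nat_lit 7) (nat_lit 10) (nat_lit 7) (nat_lit 6) (nat_lit 5) (by decide +kernel)
theorem L253669 : W_1 (nat_lit 3) (nat_lit 0x3c001e0000000000000000000000000000000) (nat_lit 0x0) (nat_lit 0x200010000000000001800080000000000000000000000) := T_1 (nat_lit 108) (nat_lit 107) (nat_lit 0) (nat_lit 9) (nat_lit 7) L253668 (by decide +kernel)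
theorem L253670 : W_1 (nat_lit 4) (nat_lit 0x3c000e0000000000000000000000000000000) (nat_lit 0x0) (nat_lit 0x200010000000300001800080000000000000000000000) := T_1 (nat_lit 128) (nat_lit 129) (nat_lit 2) (nat_lit 6) (nat_lit 8) L253669 (by decide +kernel)
theorem L253671 : W_1 (nat_lit 5) (nat_lit 0x3c000c0000000000000000000000000000000) (nat_lit 0x0) (nat_lit 0x200010000000330001800080000000000000000000000) := T_1 (nat_lit 125) (nat_lit 124) (nat_lit 3) (nat_lit 5) (nat_lit 7) L253670 (by decide +kernel)
theorem L253672 : W_1 (nat_lit 6) (nat_lit 0x38000c0000000000000000000000000000000) (nat_lit 0x0) (nat_lit 0x200010000700338001800080000000000000000000000) := Q_1 (nat_lit 142) (C_1 L252992 (C_1 L21945 (C_1 L253671 N_1))) (by decide +kernel)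
theorem L253673 : W_1 (nat_lit 10) (nat_lit 0x30000c0000000000000000000000000000000) (nat_lit 0x0) (nat_lit 0xf000f8001e000f00338007800380018000000000000000000) := Q_1 (nat_lit 143) (C_1 L253667 (C_1 L252993 (C_1 L22181 (C_1 L21950 (C_1 L253672 N_1))))) (by decide +kernel)
theorem L253674 : W_1 (nat_lit 11) (nat_lit 0x10000c0000000000000000000000000000000) (nat_lit 0x0) (nat_lit 0xf000f8005e00ef00738037800b80058000000000000000000) := Q_1 (nat_lit 145) (C_1 L21857 (C_1 L252994 (C_1 L1403 (C_1 L253673 N_1)))) (by decide +kernel)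
theorem L253675 : W_1 (nat_lit 14) (nat_lit 0x10000e0000000000000000000000000000000) (nat_lit 0x0) (nat_lit 0x30005c006e00f000ff803fc007e000000000000000000) := Q_1 (nat_lit 128) (C_1 L20949 (C_1 L253637 (C_1 L22559 (C_1 L1506 (C_1 L22579 (C_1 L22572 N_1)))))) (by decide +kernel)
theorem L253676 : W_1 (nat_lit 15) (nat_lit 0x10000c0000000000000000000000000000000) (nat_lit 0x0) (nat_lit 0x30005c006f80f380ffe03fc007e000000000000000000) := Q_1 (nat_lit 125) (C_1 L20927 (C_1 L20926 (C_1 L1894 (C_1 L20924 (C_1 L253675 N_1))))) (by decide +kernel)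
theorem L253677 : W_1 (nat_lit 9) (nat_lit 0x10001e0000000000000000000000000000000) (nat_lit 0x0) (nat_lit 0x4000660000001e003e00070000000000000000000) := T_1 (nat_lit 145) (nat_lit 146) (nat_lit 3) (nat_lit 6) (nat_lit 7) L253615 (by decide +kernel)
theorem L253678 : W_1 (nat_lit 2) (nat_lit 0x100038001e0001000000000000000000000000000) (nat_lit 0x0) (nat_lit 0x2000080004000000000000000000) := D_1 (nat_lit 91) (nat_lit 109) (nat_lit 74) (nat_lit 4) (nat_lit 7) (nat_lit 9) (nat_lit 7) (nat_lit 6) (nat_lit 4) (by decide +kernel)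
theorem L253679 : W_1 (nat_lit 3) (nat_lit 0x38001e0001000000000000000000000000000) (nat_lit 0x0) (nat_lit 0x200010000000000002000080004000000000000000000) := T_1 (nat_lit 160) (nat_lit 177) (nat_lit 4) (nat_lit 7) (nat_lit 10) L253678 (by decide +kernel)
theorem L253680 : W_1 (nat_lit 4) (nat_lit 0x38001e0000000000000000000000000000000) (nat_lit 0x0) (nat_lit 0x200010000000000003800080004000000000000000000) := T_1 (nat_lit 108) (nat_lit 107) (nat_lit 0) (nat_lit 9) (nat_lit 7) L253679 (by decide +kernel)
theorem L253681 : W_1 (nat_lit 5) (nat_lit 0x18001e0000000000000000000000000000000) (nat_lit 0x0) (nat_lit 0x200010006000000003800080004000000000000000000) := T_1 (nat_lit 145) (nat_lit 146) (nat_lit 3) (nat_lit 6) (nat_lit 7) L253680 (by decide +kernel)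
theorem L253682 : W_1 (nat_lit 4) (nat_lit 0x1c001e0000800000000000000000000000000) (nat_lit 0x0) (nat_lit 0x10000c006000000002000100000000000000000000000) := T_1 (nat_lit 145) (nat_lit 146) (nat_lit 3) (nat_lit 6) (nat_lit 7) L1657 (by decide +kernel)
theorem L253683 : W_1 (nat_lit 5) (nat_lit 0x18001e0000800000000000000000000000000) (nat_lit 0x0) (nat_lit 0x10000c006600000002000100000000000000000000000) := T_1 (nat_lit 142) (nat_lit 141) (nat_lit 2) (nat_lit 5) (nat_lit 8) L253682 (by decide +kernel)
theorem L253684 : W_1 (nat_lit 6) (nat_lit 0x18001e0000000000000000000000000000000) (nat_lit 0x0) (nat_lit 0x10000c006600000003800100000000000000000000000) := T_1 (nat_lit 107) (nat_lit 108) (nat_lit 0) (nat_lit 9) (nat_lit 7) L253683 (by decide +kernel)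
theorem L253685 : W_1 (nat_lit 3) (nat_lit 0x3c001e0000000000000000000000000000000) (nat_lit 0x0) (nat_lit 0x200010000c000000000002000000000000000000000000000) := T_1 (nat_lit 159) (nat_lit 158) (nat_lit 1) (nat_lit 9) (nat_lit 8) L14950 (by decide +kernel)
theorem L253686 : W_1 (nat_lit 4) (nat_lit 0x38001e0000000000000000000000000000000) (nat_lit 0x0) (nat_lit 0x200010000c000600000002000000000000000000000000000) := T_1 (nat_lit 142) (nat_lit 141) (nat_lit 2) (nat_lit 5) (nat_lit 8) L253685 (by decide +kernel)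
theorem L253687 : W_1 (nat_lit 5) (nat_lit 0x18001e0000000000000000000000000000000) (nat_lit 0x0) (nat_lit 0x200010000c006600000002000000000000000000000000000) := T_1 (nat_lit 145) (nat_lit 146) (nat_lit 3) (nat_lit 6) (nat_lit 7) L253686 (by decide +kernel)
theorem L253688 : W_1 (nat_lit 7) (nat_lit 0x10001e0000000000000000000000000000000) (nat_lit 0x0) (nat_lit 0x200030001c006e00000003800180004000000000000000000) := Q_1 (nat_lit 143) (C_1 L21090 (C_1 L253681 (C_1 L253684 (C_1 L253687 N_1)))) (by decide +kernel)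
theorem L253689 : W_1 (nat_lit 13) (nat_lit 0x10001c0000000000000000000000000000000) (nat_lit 0x0) (nat_lit 0x200038005e006e0002001f803fc007c000600000000000000) := Q_1 (nat_lit 125) (C_1 L20949 (C_1 L253637 (C_1 L21700 (C_1 L253677 (C_1 L22579 (C_1 L253688 N_1)))))) (by decide +kernel)
theorem L253690 : W_1 (nat_lit 12) (nat_lit 0x18001c0000000000000000000000000000000) (nat_lit 0x0) (nat_lit 0x5000e00060000f001f800fc000000000000000000) := T_1 (nat_lit 129) (nat_lit 130) (nat_lit 1) (nat_lit 11) (nat_lit 7) L250765 (by decide +kernel)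
theorem L253691 : W_1 (nat_lit 2) (nat_lit 0x18003c001c0000000200000000000000000000000) (nat_lit 0x0) (nat_lit 0x2000100000000000000002000000000000000000000000000) := D_1 (nat_lit 176) (nat_lit 193) (nat_lit 109) (nat_lit 6) (nat_lit 6) (nat_lit 11) (nat_lit 5) (nat_lit 7) (nat_lit 6) (by decide +kernel)
theorem L253692 : W_1 (nat_lit 3) (nat_lit 0x10003c001c0000000200000000000000000000000) (nat_lit 0x0) (nat_lit 0x200010000c000000000002000000000000000000000000000) := T_1 (nat_lit 159) (nat_lit 158) (nat_lit 1) (nat_lit 9) (nat_lit 8) L253691 (by decide +kernel)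
theorem L253693 : W_1 (nat_lit 4) (nat_lit 0x10003c001c0000000000000000000000000000000) (nat_lit 0x0) (nat_lit 0x200010000c000000000006000200000000000000000000000) := T_1 (nat_lit 93) (nat_lit 110) (nat_lit 5) (nat_lit 8) (nat_lit 5) L253692 (by decide +kernel)
theorem L253694 : W_1 (nat_lit 5) (nat_lit 0x100038001c0000000000000000000000000000000) (nat_lit 0x0) (nat_lit 0x200010000c000600000006000200000000000000000000000) := T_1 (nat_lit 142) (nat_lit 141) (nat_lit 2) (nat_lit 5) (nat_lit 8) L253693 (by decide +kernel)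
theorem L253695 : W_1 (nat_lit 2) (nat_lit 0x100038001c0000000000000000000000000000000) (nat_lit 0x0) (nat_lit 0xc000020000000000000000000000000000000) := D_1 (nat_lit 146) (nat_lit 125) (nat_lit 147) (nat_lit 3) (nat_lit 6) (nat_lit 7) (nat_lit 0) (nat_lit 11) (nat_lit 8) (by decide +kernel)
theorem L253696 : W_1 (nat_lit 6) (nat_lit 0x100018001c0000000000000000000000000000000) (nat_lit 0x0) (nat_lit 0x200010000c00e600020006000200000000000000000000000) := Q_1 (nat_lit 145) (C_1 L250904 (C_1 L253694 (C_1 L253695 N_1))) (by decide +kernel)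
theorem L253697 : W_1 (nat_lit 11) (nat_lit 0x18001c0000000000000000000000000000000) (nat_lit 0x0) (nat_lit 0x3e001f0005e00e60002000700038000c000000000000000000) := Q_1 (nat_lit 160) (C_1 L250903 (C_1 L24850 (C_1 L253696 (C_1 L21265 N_1)))) (by decide +kernel)
theorem L253698 : W_1 (nat_lit 13) (nat_lit 0x10001c0000000000000000000000000000000) (nat_lit 0x0) (nat_lit 0x3e001f0005e00ee0062000f001f800fc000000000000000000) := Q_1 (nat_lit 143) (C_1 L253690 (C_1 L2678 (C_1 L253697 N_1))) (by decide +kernel)
theorem L253699 : W_1 (nat_lit 18) (nat_lit 0x10000c0000000000000000000000000000000) (nat_lit 0x0) (nat_lit 0x3e001f8005e07ee01f201ff807fe07ff007600380014000000) := Q_1 (nat_lit 128) (C_1 L253689 (C_1 L250736 (C_1 L250735 (C_1 L21653 (C_1 L250737 (C_1 L250752 (C_1 L250756 (C_1 L250757 (C_1 L21636 (C_1 L253698 N_1)))))))))) (by decide +kernel)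
theorem L253700 : W_1 (nat_lit 2) (nat_lit 0x50007e0044800000000000000000000000000) (nat_lit 0x0) (nat_lit 0x800088000000000000000000000000000) := D_1 (nat_lit 131) (nat_lit 111) (nat_lit 115) (nat_lit 0) (nat_lit 12) (nat_lit 7) (nat_lit 2) (nat_lit 9) (nat_lit 7) (by decide +kernel)
theorem L253701 : W_1 (nat_lit 3) (nat_lit 0x50007e0004800000000000000000000000000) (nat_lit 0x0) (nat_lit 0x8000e8000000000000000000000000000) := T_1 (nat_lit 114) (nat_lit 113) (nat_lit 2) (nat_lit 8) (nat_lit 7) L253700 (by decide +kernel)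
theorem L253702 : W_1 (nat_lit 4) (nat_lit 0x50007e0000800000000000000000000000000) (nat_lit 0x0) (nat_lit 0x8000ee000000000000000000000000000) := T_1 (nat_lit 110) (nat_lit 109) (nat_lit 0) (nat_lit 11) (nat_lit 7) L253701 (by decide +kernel)
theorem L253703 : W_1 (nat_lit 5) (nat_lit 0x50003e0000800000000000000000000000000) (nat_lit 0x0) (nat_lit 0x800c000ee000000000000000000000000000) := T_1 (nat_lit 130) (nat_lit 143) (nat_lit 1) (nat_lit 11) (nat_lit 7) L253702 (by decide +kernel)
theorem L253704 : W_1 (nat_lit 6) (nat_lit 0x50001e0000800000000000000000000000000) (nat_lit 0x0) (nat_lit 0x8800e000ee000000000000000000000000000) := T_1 (nat_lit 129) (nat_lit 147) (nat_lit 3) (nat_lit 7) (nat_lit 7) L253703 (by decide +kernel)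
theorem L253705 : W_1 (nat_lit 7) (nat_lit 0x10001e0000800000000000000000000000000) (nat_lit 0x0) (nat_lit 0xe800e000ee000000000000000000000000000) := T_1 (nat_lit 146) (nat_lit 145) (nat_lit 3) (nat_lit 6) (nat_lit 7) L253704 (by decide +kernel)
theorem L253706 : W_1 (nat_lit 8) (nat_lit 0x10001e0000000000000000000000000000000) (nat_lit 0x0) (nat_lit 0xe800e000ef800000000000000000000000000) := T_1 (nat_lit 107) (nat_lit 108) (nat_lit 0) (nat_lit 9) (nat_lit 7) L253705 (by decide +kernel)
theorem L253707 : W_1 (nat_lit 2) (nat_lit 0x12007e0001000000000000000000000000000) (nat_lit 0x0) (nat_lit 0x1c000000000000000000000000000000000000) := D_1 (nat_lit 147) (nat_lit 146) (nat_lit 148) (nat_lit 3) (nat_lit 7) (nat_lit 7) (nat_lit 3) (nat_lit 8) (nat_lit 7) (by decide +kernel)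
theorem L253708 : W_1 (nat_lit 3) (nat_lit 0x12003e0001000000000000000000000000000) (nat_lit 0x0) (nat_lit 0x1c800400000000000000000000000000000000) := T_1 (nat_lit 130) (nat_lit 143) (nat_lit 1) (nat_lit 11) (nat_lit 7) L253707 (by decide +kernel)
theorem L253709 : W_1 (nat_lit 4) (nat_lit 0x12001e0001000000000000000000000000000) (nat_lit 0x0) (nat_lit 0x1c800600002000000000000000000000000000) := T_1 (nat_lit 129) (nat_lit 109) (nat_lit 0) (nat_lit 10) (nat_lit 7) L253708 (by decide +kernel)
theorem L253710 : W_1 (nat_lit 5) (nat_lit 0x12001e0000000000000000000000000000000) (nat_lit 0x0) (nat_lit 0x1c800600003800000000000000000000000000) := T_1 (nat_lit 108) (nat_lit 107) (nat_lit 0) (nat_lit 9) (nat_lit 7) L253709 (by decide +kernel)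
theorem L253711 : W_1 (nat_lit 6) (nat_lit 0x10001e0000000000000000000000000000000) (nat_lit 0x0) (nat_lit 0x1ce00600003800000000000000000000000000) := T_1 (nat_lit 141) (nat_lit 142) (nat_lit 1) (nat_lit 9) (nat_lit 7) L253710 (by decide +kernel)
theorem L253712 : W_1 (nat_lit 7) (nat_lit 0x10001e0000000000000000000000000000000) (nat_lit 0x0) (nat_lit 0x800040006e00e00006000200000000000000000000000) := T_1 (nat_lit 145) (nat_lit 146) (nat_lit 3) (nat_lit 6) (nat_lit 7) L253631 (by decide +kernel)
theorem L253713 : W_1 (nat_lit 12) (nat_lit 0x10000e0000000000000000000000000000000) (nat_lit 0x0) (nat_lit 0x7000b8005c01ee00f000ef800380014000000000000000000) := Q_1 (nat_lit 128) (C_1 L253706 (C_1 L20957 (C_1 L253711 (C_1 L253712 (C_1 L1801 (C_1 L22572 (C_1 L253688 N_1))))))) (by decide +kernel)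
theorem L253714 : W_1 (nat_lit 13) (nat_lit 0x10000c0000000000000000000000000000000) (nat_lit 0x0) (nat_lit 0x7000b8005c01ef80f380efe0038001c000000000000000000) := Q_1 (nat_lit 125) (C_1 L20927 (C_1 L20926 (C_1 L1894 (C_1 L20924 (C_1 L253713 N_1))))) (by decide +kernel)
theorem L253715 : W_1 (nat_lit 13) (nat_lit 0x10000e0000000000000000000000000000000) (nat_lit 0x0) (nat_lit 0xa0005001ee00f0001f803fc007c000000000000000000) := Q_1 (nat_lit 128) (C_1 L20949 (C_1 L253711 (C_1 L253712 (C_1 L22579 (C_1 L22552 N_1))))) (by decide +kernel)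
theorem L253716 : W_1 (nat_lit 14) (nat_lit 0x10000c0000000000000000000000000000000) (nat_lit 0x0) (nat_lit 0xa0005401ef80f3801fe03fc007c000000000000000000) := Q_1 (nat_lit 125) (C_1 L20927 (C_1 L20926 (C_1 L1894 (C_1 L20924 (C_1 L253715 N_1))))) (by decide +kernel)
theorem L253717 : W_1 (nat_lit 19) (nat_lit 0x1000080000000000000000000000000000000) (nat_lit 0x0) (nat_lit 0x3f001f8005e07ef81f781ffe07fe07ff00fe003c0016000000) := Q_1 (nat_lit 126) (C_1 L252991 (C_1 L20959 (C_1 L22527 (C_1 L21714 (C_1 L22292 (C_1 L22539 (C_1 L253634 (C_1 L22581 (C_1 L22574 (C_1 L253636 (C_1 L253639 (C_1 L253674 (C_1 L253676 (C_1 L253699 (C_1 L253714 (C_1 L253716 N_1)))))))))))))))) (by decide +kernel)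
theorem L253718 : W_1 (nat_lit 16) (nat_lit 0x1000080000000000000000000000000000000) (nat_lit 0x0) (nat_lit 0x400038001c000e0016000e803f781ffe1ffe00ff801c000a0000000000) := Q_1 (nat_lit 110) (C_1 L103016 (C_1 L103042 (C_1 L102634 (C_1 L20842 (C_1 L102608 (C_1 L20847 (C_1 L102627 (C_1 L103033 (C_1 L20095 N_1))))))))) (by decide +kernel)
theorem L253719 : W_1 (nat_lit 12) (nat_lit 0x1000080004000000000000000000000000000) (nat_lit 0x0) (nat_lit 0x28001c000e0007c000e0033c00bc005f0000000000000000000000) := Q_1 (nat_lit 161) (C_1 L102640 (C_1 L41978 (C_1 L102630 (C_1 L42313 (C_1 L20858 N_1))))) (by decide +kernel)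
theorem L253720 : W_1 (nat_lit 2) (nat_lit 0x4000c00020001800080004000600008000000000000000000) (nat_lit 0x0) (nat_lit 0x80008000000000000000040000000000000000000000000000000) := D_1 (nat_lit 195) (nat_lit 126) (nat_lit 211) (nat_lit 4) (nat_lit 8) (nat_lit 11) (nat_lit 5) (nat_lit 8) (nat_lit 8) (by decide +kernel)
theorem L253721 : W_1 (nat_lit 3) (nat_lit 0xc00020001800080004000600008000000000000000000) (nat_lit 0x0) (nat_lit 0x8000c000200000000000040000000000000000000000000000000) := T_1 (nat_lit 194) (nat_lit 177) (nat_lit 5) (nat_lit 8) (nat_lit 7) L253720 (by decide +kernel)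
theorem L253722 : W_1 (nat_lit 4) (nat_lit 0x800020001800080004000600008000000000000000000) (nat_lit 0x0) (nat_lit 0x8001c000600000000000040000000000000000000000000000000) := T_1 (nat_lit 178) (nat_lit 196) (nat_lit 7) (nat_lit 8) (nat_lit 7) L253721 (by decide +kernel)
theorem L253723 : W_1 (nat_lit 5) (nat_lit 0x20001800080004000600008000000000000000000) (nat_lit 0x0) (nat_lit 0x8001c000e00040000000040000000000000000000000000000000) := T_1 (nat_lit 179) (nat_lit 162) (nat_lit 7) (nat_lit 8) (nat_lit 6) L253722 (by decide +kernel)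
theorem L253724 : W_1 (nat_lit 6) (nat_lit 0x1800080004000600008000000000000000000) (nat_lit 0x0) (nat_lit 0x8001c000e00060000000040008000000000000000000000000000) := T_1 (nat_lit 161) (nat_lit 111) (nat_lit 6) (nat_lit 8) (nat_lit 9) L253723 (by decide +kernel)
theorem L253725 : W_1 (nat_lit 7) (nat_lit 0x1000080004000600008000000000000000000) (nat_lit 0x0) (nat_lit 0x8001c000e00070000800040008000000000000000000000000000) := T_1 (nat_lit 143) (nat_lit 160) (nat_lit 5) (nat_lit 8) (nat_lit 5) L253724 (by decide +kernel)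
theorem L253726 : W_1 (nat_lit 8) (nat_lit 0x1000080004000200008000000000000000000) (nat_lit 0x0) (nat_lit 0x8001c000e00070000800040008000400020000000000000000000) := T_1 (nat_lit 94) (nat_lit 77) (nat_lit 6) (nat_lit 8) (nat_lit 8) L253725 (by decide +kernel)
theorem L253727 : W_1 (nat_lit 9) (nat_lit 0x1000080004000200000000000000000000000) (nat_lit 0x0) (nat_lit 0x8001c000e00070000800040008000500028000000000000000000) := T_1 (nat_lit 75) (nat_lit 92) (nat_lit 4) (nat_lit 8) (nat_lit 8) L253726 (by decide +kernel)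
theorem L253728 : W_1 (nat_lit 10) (nat_lit 0x1000080004000000000000000000000000000) (nat_lit 0x0) (nat_lit 0x8001c000e00070000800040008000700038001400000000000000) := Q_1 (nat_lit 93) (C_1 L20101 (C_1 L20059 (C_1 L20098 (C_1 L253727 N_1)))) (by decide +kernel)
theorem L253729 : W_1 (nat_lit 2) (nat_lit 0xc00030001800080004000000000000000000000000000) (nat_lit 0x0) (nat_lit 0x8000000000000000040002000000000000000000000000000) := D_1 (nat_lit 126) (nat_lit 109) (nat_lit 195) (nat_lit 7) (nat_lit 7) (nat_lit 6) (nat_lit 4) (nat_lit 8) (nat_lit 11) (by decide +kernel)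
theorem L253730 : W_1 (nat_lit 3) (nat_lit 0x800030001800080004000000000000000000000000000) (nat_lit 0x0) (nat_lit 0x18000400000000000040002000000000000000000000000000) := T_1 (nat_lit 178) (nat_lit 196) (nat_lit 7) (nat_lit 8) (nat_lit 7) L253729 (by decide +kernel)
theorem L253731 : W_1 (nat_lit 4) (nat_lit 0x30001800080004000000000000000000000000000) (nat_lit 0x0) (nat_lit 0x18000c00040000000040002000000000000000000000000000) := T_1 (nat_lit 179) (nat_lit 162) (nat_lit 7) (nat_lit 8) (nat_lit 6) L253730 (by decide +kernel)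
theorem L253732 : W_1 (nat_lit 5) (nat_lit 0x30001000080004000000000000000000000000000) (nat_lit 0x0) (nat_lit 0x18000c00040000800040002000200000000000000000000000) := T_1 (nat_lit 143) (nat_lit 93) (nat_lit 5) (nat_lit 8) (nat_lit 5) L253731 (by decide +kernel)
theorem L253733 : W_1 (nat_lit 6) (nat_lit 0x20001000080004000000000000000000000000000) (nat_lit 0x0) (nat_lit 0x18000e00050000800040002000200000000000000000000000) := T_1 (nat_lit 160) (nat_lit 177) (nat_lit 5) (nat_lit 8) (nat_lit 6) L253732 (by decide +kernel)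
theorem L253734 : W_1 (nat_lit 8) (nat_lit 0x1000080004000000000000000000000000000) (nat_lit 0x0) (nat_lit 0x1c000e0007000080014000a000600030000000000000000000) := Q_1 (nat_lit 161) (C_1 L102630 (C_1 L40514 (C_1 L20858 (C_1 L20123 (C_1 L253733 N_1))))) (by decide +kernel)
theorem L253735 : W_1 (nat_lit 2) (nat_lit 0xc00030001800080004000000000000000000000000000) (nat_lit 0x0) (nat_lit 0x100008000000000000000040000000000000000000000000000000) := D_1 (nat_lit 195) (nat_lit 126) (nat_lit 212) (nat_lit 4) (nat_lit 8) (nat_lit 11) (nat_lit 4) (nat_lit 8) (nat_lit 12) (by decide +kernel)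
theorem L253736 : W_1 (nat_lit 3) (nat_lit 0x800030001800080004000000000000000000000000000) (nat_lit 0x0) (nat_lit 0x100018000400000000000040000000000000000000000000000000) := T_1 (nat_lit 178) (nat_lit 196) (nat_lit 7) (nat_lit 8) (nat_lit 7) L253735 (by decide +kernel)
theorem L253737 : W_1 (nat_lit 4) (nat_lit 0x800030001000080004000000000000000000000000000) (nat_lit 0x0) (nat_lit 0x100018000400000000800040000000200000000000000000000000) := T_1 (nat_lit 143) (nat_lit 93) (nat_lit 5) (nat_lit 8) (nat_lit 5) L253736 (by decide +kernel)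
theorem L253738 : W_1 (nat_lit 5) (nat_lit 0x800020001000080004000000000000000000000000000) (nat_lit 0x0) (nat_lit 0x100018000600010000800040000000200000000000000000000000) := T_1 (nat_lit 160) (nat_lit 177) (nat_lit 5) (nat_lit 8) (nat_lit 6) L253737 (by decide +kernel)
theorem L253739 : W_1 (nat_lit 6) (nat_lit 0x20001000080004000000000000000000000000000) (nat_lit 0x0) (nat_lit 0x100018000e00050000800040000000200000000000000000000000) := T_1 (nat_lit 179) (nat_lit 162) (nat_lit 7) (nat_lit 8) (nat_lit 6) L253738 (by decide +kernel)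
theorem L253740 : W_1 (nat_lit 7) (nat_lit 0x1000080004000000000000000000000000000) (nat_lit 0x0) (nat_lit 0x10001c000e00070000800040002000300008000000000000000000) := Q_1 (nat_lit 161) (C_1 L253733 (C_1 L102633 (C_1 L41978 (C_1 L20868 (C_1 L253739 (C_1 L125 N_1)))))) (by decide +kernel)
theorem L253741 : W_1 (nat_lit 13) (nat_lit 0x1000080000000000000000000000000000000) (nat_lit 0x0) (nat_lit 0x38001c000e0007c000e0077c03fc01ff00fe001400000000000000) := Q_1 (nat_lit 110) (C_1 L102634 (C_1 L23913 (C_1 L253719 (C_1 L20106 (C_1 L253728 (C_1 L253734 (C_1 L253740 N_1))))))) (by decide +kernel)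
theorem L253742 : W_1 (nat_lit 2) (nat_lit 0x1800180004000200030000800000000000000) (nat_lit 0x0) (nat_lit 0x8000400020000000000) := D_1 (nat_lit 58) (nat_lit 41) (nat_lit 75) (nat_lit 4) (nat_lit 8) (nat_lit 6) (nat_lit 4) (nat_lit 8) (nat_lit 7) (by decide +kernel)
theorem L253743 : W_1 (nat_lit 3) (nat_lit 0x1800180004000200030000000000000000000) (nat_lit 0x0) (nat_lit 0x8000000008000c00020000000000) := T_1 (nat_lit 59) (nat_lit 111) (nat_lit 7) (nat_lit 8) (nat_lit 3) L253742 (by decide +kernel)
theorem L253744 : W_1 (nat_lit 4) (nat_lit 0x1800080004000200030000000000000000000) (nat_lit 0x0) (nat_lit 0x2000100008000000008000c00020000000000) := T_1 (nat_lit 128) (nat_lit 145) (nat_lit 7) (nat_lit 8) (nat_lit 4) L253743 (by decide +kernel)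
theorem L253745 : W_1 (nat_lit 5) (nat_lit 0x1000080004000200030000000000000000000) (nat_lit 0x0) (nat_lit 0x10002800100008000000008000c00020000000000) := T_1 (nat_lit 143) (nat_lit 160) (nat_lit 5) (nat_lit 8) (nat_lit 5) L253744 (by decide +kernel)
theorem L253746 : W_1 (nat_lit 6) (nat_lit 0x1000080004000200020000000000000000000) (nat_lit 0x0) (nat_lit 0x10002800100008000000018001c00020000000000) := T_1 (nat_lit 76) (nat_lit 60) (nat_lit 6) (nat_lit 8) (nat_lit 7) L253745 (by decide +kernel)
theorem L253747 : W_1 (nat_lit 7) (nat_lit 0x1000080004000200000000000000000000000) (nat_lit 0x0) (nat_lit 0x10002800100008000400038001c00020000000000) := T_1 (nat_lit 77) (nat_lit 94) (nat_lit 6) (nat_lit 8) (nat_lit 8) L253746 (by decide +kernel)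
theorem L253748 : W_1 (nat_lit 2) (nat_lit 0x1800080004000200018001800000000000000) (nat_lit 0x0) (nat_lit 0x2000100008000000000000000000000000000) := D_1 (nat_lit 128) (nat_lit 145) (nat_lit 111) (nat_lit 7) (nat_lit 8) (nat_lit 4) (nat_lit 7) (nat_lit 8) (nat_lit 3) (by decide +kernel)
theorem L253749 : W_1 (nat_lit 3) (nat_lit 0x1800080004000200018001000000000000000) (nat_lit 0x0) (nat_lit 0x2000100008000000000000800080000000000) := T_1 (nat_lit 59) (nat_lit 43) (nat_lit 6) (nat_lit 8) (nat_lit 6) L253748 (by decide +kernel)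
theorem L253750 : W_1 (nat_lit 4) (nat_lit 0x1800080004000200018000000000000000000) (nat_lit 0x0) (nat_lit 0x2000100008000000020001800080000000000) := T_1 (nat_lit 60) (nat_lit 77) (nat_lit 6) (nat_lit 8) (nat_lit 7) L253749 (by decide +kernel)
theorem L253751 : W_1 (nat_lit 5) (nat_lit 0x1800080004000200008000000000000000000) (nat_lit 0x0) (nat_lit 0x2000100008000000030001c00080000000000) := T_1 (nat_lit 76) (nat_lit 58) (nat_lit 4) (nat_lit 8) (nat_lit 7) L253750 (by decide +kernel)
theorem L253752 : W_1 (nat_lit 6) (nat_lit 0x1800080004000200000000000000000000000) (nat_lit 0x0) (nat_lit 0x2000100008000100038001c00080000000000) := T_1 (nat_lit 75) (nat_lit 92) (nat_lit 4) (nat_lit 8) (nat_lit 8) L253751 (by decide +kernel)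
theorem L253753 : W_1 (nat_lit 7) (nat_lit 0x1000080004000200000000000000000000000) (nat_lit 0x0) (nat_lit 0x10002800100008000100038001c00080000000000) := T_1 (nat_lit 143) (nat_lit 160) (nat_lit 5) (nat_lit 8) (nat_lit 5) L253752 (by decide +kernel)
theorem L253754 : W_1 (nat_lit 2) (nat_lit 0x180038000e000200030000000000000000000) (nat_lit 0x0) (nat_lit 0x400020000000000000000100000000000000000000000) := D_1 (nat_lit 161) (nat_lit 178) (nat_lit 92) (nat_lit 6) (nat_lit 8) (nat_lit 10) (nat_lit 4) (nat_lit 8) (nat_lit 9) (by decide +kernel)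
theorem L253755 : W_1 (nat_lit 3) (nat_lit 0x180038000c000200030000000000000000000) (nat_lit 0x0) (nat_lit 0x400020000000000003000100000000000000000000000) := T_1 (nat_lit 109) (nat_lit 108) (nat_lit 3) (nat_lit 6) (nat_lit 6) L253754 (by decide +kernel)
theorem L253756 : W_1 (nat_lit 4) (nat_lit 0x180018000c000200030000000000000000000) (nat_lit 0x0) (nat_lit 0x400020000000600003000100000000000000000000000) := T_1 (nat_lit 129) (nat_lit 130) (nat_lit 1) (nat_lit 11) (nat_lit 7) L253755 (by decide +kernel)
theorem L253757 : W_1 (nat_lit 5) (nat_lit 0x1800180004000200030000000000000000000) (nat_lit 0x0) (nat_lit 0x40002000000060000b000100000000800000000000000) := T_1 (nat_lit 111) (nat_lit 59) (nat_lit 7) (nat_lit 8) (nat_lit 3) L253756 (by decide +kernel)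
theorem L253758 : W_1 (nat_lit 6) (nat_lit 0x1800080004000200030000000000000000000) (nat_lit 0x0) (nat_lit 0x40002000200070000b000100000000800000000000000) := T_1 (nat_lit 128) (nat_lit 145) (nat_lit 7) (nat_lit 8) (nat_lit 4) L253757 (by decide +kernel)
theorem L253759 : W_1 (nat_lit 7) (nat_lit 0x1000080004000200030000000000000000000) (nat_lit 0x0) (nat_lit 0x40003000280070000b000100000000800000000000000) := T_1 (nat_lit 143) (nat_lit 160) (nat_lit 5) (nat_lit 8) (nat_lit 5) L253758 (by decide +kernel)
theorem L253760 : W_1 (nat_lit 8) (nat_lit 0x1000080004000200020000000000000000000) (nat_lit 0x0) (nat_lit 0x40003000280070000b000100010001800000000000000) := T_1 (nat_lit 76) (nat_lit 60) (nat_lit 6) (nat_lit 8) (nat_lit 7) L253759 (by decide +kernel)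
theorem L253761 : W_1 (nat_lit 9) (nat_lit 0x1000080004000200000000000000000000000) (nat_lit 0x0) (nat_lit 0x40003000280070000b000500030001800000000000000) := T_1 (nat_lit 77) (nat_lit 94) (nat_lit 6) (nat_lit 8) (nat_lit 8) L253760 (by decide +kernel)
theorem L253762 : W_1 (nat_lit 2) (nat_lit 0x180018000c000200018000000000000000000) (nat_lit 0x0) (nat_lit 0x400020000000000000000400000000000000000000000) := D_1 (nat_lit 161) (nat_lit 178) (nat_lit 94) (nat_lit 6) (nat_lit 8) (nat_lit 10) (nat_lit 6) (nat_lit 8) (nat_lit 9) (by decide +kernel)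
theorem L253763 : W_1 (nat_lit 3) (nat_lit 0x1800180004000200018000000000000000000) (nat_lit 0x0) (nat_lit 0x400020000000000008000400000000800000000000000) := T_1 (nat_lit 111) (nat_lit 59) (nat_lit 7) (nat_lit 8) (nat_lit 3) L253762 (by decide +kernel)
theorem L253764 : W_1 (nat_lit 4) (nat_lit 0x1800080004000200018000000000000000000) (nat_lit 0x0) (nat_lit 0x400020002000100008000400000000800000000000000) := T_1 (nat_lit 128) (nat_lit 145) (nat_lit 7) (nat_lit 8) (nat_lit 4) L253763 (by decide +kernel)
theorem L253765 : W_1 (nat_lit 5) (nat_lit 0x1800080004000200008000000000000000000) (nat_lit 0x0) (nat_lit 0x400020002000100008000400010000c00000000000000) := T_1 (nat_lit 76) (nat_lit 58) (nat_lit 4) (nat_lit 8) (nat_lit 7) L253764 (by decide +kernel)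
theorem L253766 : W_1 (nat_lit 6) (nat_lit 0x1800080004000200000000000000000000000) (nat_lit 0x0) (nat_lit 0x400020002000100008000500018000c00000000000000) := T_1 (nat_lit 75) (nat_lit 92) (nat_lit 4) (nat_lit 8) (nat_lit 8) L253765 (by decide +kernel)
theorem L253767 : W_1 (nat_lit 7) (nat_lit 0x1000080004000200000000000000000000000) (nat_lit 0x0) (nat_lit 0x400030002800100008000500018000c00000000000000) := T_1 (nat_lit 143) (nat_lit 160) (nat_lit 5) (nat_lit 8) (nat_lit 5) L253766 (by decide +kernel)
theorem L253768 : W_1 (nat_lit 10) (nat_lit 0x1000080004000000000000000000000000000) (nat_lit 0x0) (nat_lit 0x40003000280070000b000700038001c000a0000000000) := Q_1 (nat_lit 93) (C_1 L102626 (C_1 L20059 (C_1 L253747 (C_1 L253753 (C_1 L253761 (C_1 L253767 N_1)))))) (by decide +kernel)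
theorem L253769 : W_1 (nat_lit 9) (nat_lit 0x1000080004000000000000000000000000000) (nat_lit 0x0) (nat_lit 0x20001c000e0007800e80010000a000300008000000000000000000) := Q_1 (nat_lit 161) (C_1 L41978 (C_1 L20865 (C_1 L20055 (C_1 L20872 (C_1 L125 N_1))))) (by decide +kernel)
theorem L253770 : W_1 (nat_lit 14) (nat_lit 0x1000080000000000000000000000000000000) (nat_lit 0x0) (nat_lit 0x28001c000e0007c00ee0073c03fc01ff00f8003c000a0000000000) := Q_1 (nat_lit 110) (C_1 L102608 (C_1 L253719 (C_1 L23968 (C_1 L20086 (C_1 L253768 (C_1 L20916 (C_1 L253769 (C_1 L20095 N_1)))))))) (by decide +kernel)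
theorem L253771 : W_1 (nat_lit 15) (nat_lit 0x1000080004000000000000000000000000000) (nat_lit 0x0) (nat_lit 0x14000e0017000f8007c00ee0067003a001d00000000000000000000000) := Q_1 (nat_lit 161) (C_1 L102633 (C_1 L41978 (C_1 L20868 (C_1 L62 (C_1 L38724 N_1))))) (by decide +kernel)
theorem L253772 : W_1 (nat_lit 16) (nat_lit 0x1000080000000000000000000000000000000) (nat_lit 0x0) (nat_lit 0x14003e001f000f8007c00ef0067003f803fe01fe001400000000000000) := Q_1 (nat_lit 110) (C_1 L20847 (C_1 L253740 (C_1 L23929 (C_1 L20086 (C_1 L20106 (C_1 L253771 (C_1 L20124 N_1))))))) (by decide +kernel)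
theorem L254455 : W_1 (nat_lit 2) (nat_lit 0x10001e0011000000000000000000000000000) (nat_lit 0x0) (nat_lit 0x200022000000000000000000000000000) := D_1 (nat_lit 129) (nat_lit 109) (nat_lit 113) (nat_lit 0) (nat_lit 10) (nat_lit 7) (nat_lit 2) (nat_lit 7) (nat_lit 7) (by decide +kernel)
theorem L254456 : W_1 (nat_lit 3) (nat_lit 0x10001e0001000000000000000000000000000) (nat_lit 0x0) (nat_lit 0x20003a000000000000000000000000000) := T_1 (nat_lit 112) (nat_lit 111) (nat_lit 2) (nat_lit 6) (nat_lit 7) L254455 (by decide +kernel)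
theorem L254457 : W_1 (nat_lit 4) (nat_lit 0x10001e0000000000000000000000000000000) (nat_lit 0x0) (nat_lit 0x20003b800000000000000000000000000) := T_1 (nat_lit 108) (nat_lit 107) (nat_lit 0) (nat_lit 9) (nat_lit 7) L254456 (by decide +kernel)
theorem L254550 : W_1 (nat_lit 2) (nat_lit 0x200010001e0000000000000000000000000000000) (nat_lit 0x0) (nat_lit 0x400000000000000018000000000000000000000000000) := D_1 (nat_lit 111) (nat_lit 178) (nat_lit 112) (nat_lit 6) (nat_lit 8) (nat_lit 10) (nat_lit 2) (nat_lit 6) (nat_lit 7) (by decide +kernel)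
theorem L254966 : W_1 (nat_lit 2) (nat_lit 0x10000f8000000000000000000000000000000) (nat_lit 0x0) (nat_lit 0xe00000000000000000000000000) := D_1 (nat_lit 106) (nat_lit 107) (nat_lit 105) (nat_lit 0) (nat_lit 8) (nat_lit 7) (nat_lit 0) (nat_lit 7) (nat_lit 7) (by decide +kernel)
theorem L254967 : W_1 (nat_lit 2) (nat_lit 0x10800fc000000000000000000000000000000) (nat_lit 0x0) (nat_lit 0x700000000000000000000000000) := D_1 (nat_lit 105) (nat_lit 104) (nat_lit 106) (nat_lit 0) (nat_lit 6) (nat_lit 7) (nat_lit 0) (nat_lit 7) (nat_lit 7) (by decide +kernel)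
theorem L254968 : W_1 (nat_lit 3) (nat_lit 0x10800f8000000000000000000000000000000) (nat_lit 0x0) (nat_lit 0x40004000700000000000000000000000000) := T_1 (nat_lit 122) (nat_lit 138) (nat_lit 1) (nat_lit 6) (nat_lit 7) L254967 (by decide +kernel)
theorem L254969 : W_1 (nat_lit 4) (nat_lit 0x10000f8000000000000000000000000000000) (nat_lit 0x0) (nat_lit 0x1c0004000700000000000000000000000000) := T_1 (nat_lit 139) (nat_lit 140) (nat_lit 1) (nat_lit 7) (nat_lit 7) L254968 (by decide +kernel)
theorem L254970 : W_1 (nat_lit 2) (nat_lit 0x10800fe000100000000000000000000000000) (nat_lit 0x0) (nat_lit 0x3800000000000000000000000000) := D_1 (nat_lit 108) (nat_lit 109) (nat_lit 107) (nat_lit 2) (nat_lit 3) (nat_lit 7) (nat_lit 2) (nat_lit 2) (nat_lit 7) (by decide +kernel)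
theorem L254971 : W_1 (nat_lit 3) (nat_lit 0x10800fc000100000000000000000000000000) (nat_lit 0x0) (nat_lit 0x2003880000000000000000000000000) := T_1 (nat_lit 121) (nat_lit 103) (nat_lit 0) (nat_lit 5) (nat_lit 7) L254970 (by decide +kernel)
theorem L254972 : W_1 (nat_lit 4) (nat_lit 0x10800fc000000000000000000000000000000) (nat_lit 0x0) (nat_lit 0x2003b80000000000000000000000000) := T_1 (nat_lit 104) (nat_lit 105) (nat_lit 0) (nat_lit 6) (nat_lit 7) L254971 (by decide +kernel)
theorem L254973 : W_1 (nat_lit 5) (nat_lit 0x10800f8000000000000000000000000000000) (nat_lit 0x0) (nat_lit 0x40006003b80000000000000000000000000) := T_1 (nat_lit 122) (nat_lit 138) (nat_lit 1) (nat_lit 6) (nat_lit 7) L254972 (by decide +kernel)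
theorem L254974 : W_1 (nat_lit 6) (nat_lit 0x10000f8000000000000000000000000000000) (nat_lit 0x0) (nat_lit 0x1c0006003b80000000000000000000000000) := T_1 (nat_lit 139) (nat_lit 140) (nat_lit 1) (nat_lit 7) (nat_lit 7) L254973 (by decide +kernel)
theorem L254975 : W_1 (nat_lit 2) (nat_lit 0x10800fc000800000000000000000000000000) (nat_lit 0x0) (nat_lit 0x100003000000000000000000000000000) := D_1 (nat_lit 108) (nat_lit 109) (nat_lit 128) (nat_lit 2) (nat_lit 3) (nat_lit 7) (nat_lit 0) (nat_lit 9) (nat_lit 7) (by decide +kernel)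
theorem L254976 : W_1 (nat_lit 3) (nat_lit 0x10800fc000000000000000000000000000000) (nat_lit 0x0) (nat_lit 0x100003c00000000000000000000000000) := T_1 (nat_lit 107) (nat_lit 106) (nat_lit 0) (nat_lit 8) (nat_lit 7) L254975 (by decide +kernel)
theorem L254977 : W_1 (nat_lit 4) (nat_lit 0x10800f8000000000000000000000000000000) (nat_lit 0x0) (nat_lit 0x40104003c00000000000000000000000000) := T_1 (nat_lit 122) (nat_lit 138) (nat_lit 1) (nat_lit 6) (nat_lit 7) L254976 (by decide +kernel)
theorem L254978 : W_1 (nat_lit 5) (nat_lit 0x10000f8000000000000000000000000000000) (nat_lit 0x0) (nat_lit 0x1c0104003c00000000000000000000000000) := T_1 (nat_lit 139) (nat_lit 140) (nat_lit 1) (nat_lit 7) (nat_lit 7) L254977 (by decide +kernel)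
theorem L254979 : W_1 (nat_lit 7) (nat_lit 0x10000f0000000000000000000000000000000) (nat_lit 0x0) (nat_lit 0x1c010e003f80000000000000000000000000) := Q_1 (nat_lit 123) (C_1 L254966 (C_1 L254969 (C_1 L254974 (C_1 L254978 N_1)))) (by decide +kernel)
theorem L255376 : W_1 (nat_lit 3) (nat_lit 0x12000f0000800000000000000000000000000) (nat_lit 0x0) (nat_lit 0x100008000400100000000040000000000000000000000) := T_1 (nat_lit 142) (nat_lit 128) (nat_lit 1) (nat_lit 9) (nat_lit 7) L32017 (by decide +kernel)
theorem L255377 : W_1 (nat_lit 4) (nat_lit 0x10000f0000800000000000000000000000000) (nat_lit 0x0) (nat_lit 0x100008000700100000000040000000000000000000000) := T_1 (nat_lit 141) (nat_lit 140) (nat_lit 1) (nat_lit 8) (nat_lit 7) L255376 (by decide +kernel)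
theorem L255378 : W_1 (nat_lit 5) (nat_lit 0x10000e0000800000000000000000000000000) (nat_lit 0x0) (nat_lit 0x100008000700110000400040000000000000000000000) := T_1 (nat_lit 124) (nat_lit 106) (nat_lit 0) (nat_lit 8) (nat_lit 7) L255377 (by decide +kernel)
theorem L255379 : W_1 (nat_lit 2) (nat_lit 0x10000e0000c00000000000000000000000000) (nat_lit 0x0) (nat_lit 0x100001200000000000000000000000000) := D_1 (nat_lit 108) (nat_lit 128) (nat_lit 105) (nat_lit 0) (nat_lit 9) (nat_lit 7) (nat_lit 3) (nat_lit 3) (nat_lit 6) (by decide +kernel)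
theorem L255380 : W_1 (nat_lit 3) (nat_lit 0x10000e0000800000000000000000000000000) (nat_lit 0x0) (nat_lit 0x110001600000000000000000000000000) := T_1 (nat_lit 106) (nat_lit 124) (nat_lit 0) (nat_lit 8) (nat_lit 7) L255379 (by decide +kernel)
theorem L255381 : W_1 (nat_lit 2) (nat_lit 0x10000e0000c00000000000000000000000000) (nat_lit 0x0) (nat_lit 0x3200000000000000000000000000) := D_1 (nat_lit 108) (nat_lit 105) (nat_lit 109) (nat_lit 3) (nat_lit 3) (nat_lit 6) (nat_lit 3) (nat_lit 4) (nat_lit 6) (by decide +kernel)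
theorem L255382 : W_1 (nat_lit 3) (nat_lit 0x10000e0000800000000000000000000000000) (nat_lit 0x0) (nat_lit 0x10003600000000000000000000000000) := T_1 (nat_lit 106) (nat_lit 124) (nat_lit 0) (nat_lit 8) (nat_lit 7) L255381 (by decide +kernel)
theorem L255383 : W_1 (nat_lit 3) (nat_lit 0x10000e0000800000000000000000000000000) (nat_lit 0x0) (nat_lit 0x100003600000000000000000000000000) := T_1 (nat_lit 108) (nat_lit 128) (nat_lit 0) (nat_lit 9) (nat_lit 7) L1929 (by decide +kernel)
theorem L255386 : W_1 (nat_lit 2) (nat_lit 0x16000e0000800000000000000000000000000) (nat_lit 0x0) (nat_lit 0x180010000000000000000000000000000000) := D_1 (nat_lit 140) (nat_lit 124) (nat_lit 139) (nat_lit 1) (nat_lit 8) (nat_lit 7) (nat_lit 2) (nat_lit 3) (nat_lit 8) (by decide +kernel)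
theorem L255396 : W_1 (nat_lit 2) (nat_lit 0x50001000080014000e0000800040000000000000000000000) (nat_lit 0x0) (nat_lit 0xa0002000000000000000000000000000000000000000000000000) := D_1 (nat_lit 193) (nat_lit 209) (nat_lit 211) (nat_lit 5) (nat_lit 6) (nat_lit 8) (nat_lit 7) (nat_lit 6) (nat_lit 8) (by decide +kernel)
theorem L255397 : W_1 (nat_lit 3) (nat_lit 0x10001000080014000e0000800040000000000000000000000) (nat_lit 0x0) (nat_lit 0xa0006000200000000000000000000000000000000000000000000) := T_1 (nat_lit 194) (nat_lit 177) (nat_lit 7) (nat_lit 6) (nat_lit 7) L255396 (by decide +kernel)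
theorem L255398 : W_1 (nat_lit 4) (nat_lit 0x1000080014000e0000800040000000000000000000000) (nat_lit 0x0) (nat_lit 0xa0007000280000000000000000000000000000000000000000000) := T_1 (nat_lit 192) (nat_lit 175) (nat_lit 5) (nat_lit 6) (nat_lit 7) L255397 (by decide +kernel)
theorem L255399 : W_1 (nat_lit 5) (nat_lit 0x80014000e0000800040000000000000000000000) (nat_lit 0x0) (nat_lit 0xa0007000380000000000000002000000000000000000000000000) := T_1 (nat_lit 176) (nat_lit 109) (nat_lit 6) (nat_lit 6) (nat_lit 10) L255398 (by decide +kernel)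
theorem L255400 : W_1 (nat_lit 6) (nat_lit 0x80014000e0000800000000000000000000000000) (nat_lit 0x0) (nat_lit 0xa0007000380000000000000003000040000000000000000000000) := T_1 (nat_lit 90) (nat_lit 108) (nat_lit 4) (nat_lit 6) (nat_lit 9) L255399 (by decide +kernel)
theorem L255401 : W_1 (nat_lit 2) (nat_lit 0x80014000f0000800000000000000000000000000) (nat_lit 0x0) (nat_lit 0x300000000000040000000000000000000000) := D_1 (nat_lit 141) (nat_lit 140) (nat_lit 90) (nat_lit 1) (nat_lit 8) (nat_lit 7) (nat_lit 7) (nat_lit 5) (nat_lit 5) (by decide +kernel)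
theorem L255402 : W_1 (nat_lit 3) (nat_lit 0x80014000e0000800000000000000000000000000) (nat_lit 0x0) (nat_lit 0x100000000300010000000040000000000000000000000) := T_1 (nat_lit 124) (nat_lit 176) (nat_lit 4) (nat_lit 6) (nat_lit 10) L255401 (by decide +kernel)
theorem L255403 : W_1 (nat_lit 2) (nat_lit 0x80014000e0000800000000000000000000000000) (nat_lit 0x0) (nat_lit 0x100000000000010002000000000000000000000000000) := D_1 (nat_lit 176) (nat_lit 124) (nat_lit 109) (nat_lit 4) (nat_lit 6) (nat_lit 10) (nat_lit 6) (nat_lit 6) (nat_lit 10) (by decide +kernel)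
theorem L255404 : W_1 (nat_lit 2) (nat_lit 0x80014000e0000800040000000000000000000000) (nat_lit 0x0) (nat_lit 0x200010000000000002000000000000000000) := D_1 (nat_lit 124) (nat_lit 73) (nat_lit 141) (nat_lit 7) (nat_lit 5) (nat_lit 4) (nat_lit 7) (nat_lit 5) (nat_lit 5) (by decide +kernel)
theorem L255405 : W_1 (nat_lit 3) (nat_lit 0x80014000e0000800000000000000000000000000) (nat_lit 0x0) (nat_lit 0x200010001000040002000000000000000000) := T_1 (nat_lit 90) (nat_lit 108) (nat_lit 4) (nat_lit 6) (nat_lit 9) L255404 (by decide +kernel)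
theorem L255406 : W_1 (nat_lit 7) (nat_lit 0x14000e0000800000000000000000000000000) (nat_lit 0x0) (nat_lit 0xa0007000380008000300010003000040002000000000000000000) := Q_1 (nat_lit 159) (C_1 L255400 (C_1 L255402 (C_1 L255403 (C_1 L255405 N_1)))) (by decide +kernel)
theorem L255407 : W_1 (nat_lit 4) (nat_lit 0x14000e0000800000000000000000000000000) (nat_lit 0x0) (nat_lit 0x80000001000010000c0002000100000000000000) := T_1 (nat_lit 108) (nat_lit 128) (nat_lit 0) (nat_lit 9) (nat_lit 7) L167146 (by decide +kernel)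
theorem L255408 : W_1 (nat_lit 3) (nat_lit 0x14000e0000800000000000000000000000000) (nat_lit 0x0) (nat_lit 0x380110000000000000000000000000000000) := T_1 (nat_lit 141) (nat_lit 128) (nat_lit 1) (nat_lit 9) (nat_lit 7) L255386 (by decide +kernel)
theorem L255409 : W_1 (nat_lit 8) (nat_lit 0x10000e0000800000000000000000000000000) (nat_lit 0x0) (nat_lit 0xa00070003800080007801100030000c0002000100000000000000) := Q_1 (nat_lit 142) (C_1 L255406 (C_1 L255407 (C_1 L255408 N_1))) (by decide +kernel)
theorem L255410 : W_1 (nat_lit 9) (nat_lit 0x10000e0000000000000000000000000000000) (nat_lit 0x0) (nat_lit 0xa0007000380008000780110003e000c0002000100000000000000) := Q_1 (nat_lit 107) (C_1 L255378 (C_1 L255380 (C_1 L255382 (C_1 L255383 (C_1 L255409 N_1))))) (by decide +kernel)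
theorem L255411 : W_1 (nat_lit 8) (nat_lit 0x10000e0000000000000000000000000000000) (nat_lit 0x0) (nat_lit 0x21c011e003f80000000000000000000000000) := T_1 (nat_lit 124) (nat_lit 145) (nat_lit 3) (nat_lit 5) (nat_lit 7) L254979 (by decide +kernel)
theorem L255412 : W_1 (nat_lit 3) (nat_lit 0x10000e0000000000000000000000000000000) (nat_lit 0x0) (nat_lit 0xe000110000000000000000000000000000000) := T_1 (nat_lit 145) (nat_lit 124) (nat_lit 3) (nat_lit 5) (nat_lit 7) L1912 (by decide +kernel)
theorem L255413 : W_1 (nat_lit 6) (nat_lit 0x10000e0000000000000000000000000000000) (nat_lit 0x0) (nat_lit 0x2000e60030003b800400020000000000000000000) := Q_1 (nat_lit 128) (C_1 L20953 (C_1 L254457 (C_1 L20957 (C_1 L1338 N_1)))) (by decide +kernel)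
theorem L255414 : W_1 (nat_lit 10) (nat_lit 0x10000c0000000000000000000000000000000) (nat_lit 0x0) (nat_lit 0xa000700038002800e7c033e03bf804c0022000100000000000000) := Q_1 (nat_lit 125) (C_1 L1457 (C_1 L255410 (C_1 L255411 (C_1 L255412 (C_1 L255413 N_1))))) (by decide +kernel)
theorem L257100 : W_1 (nat_lit 2) (nat_lit 0x2000300018000c0002000000000000000000000000000) (nat_lit 0x0) (nat_lit 0x2000100008000000000000000000000000000000000000000) := D_1 (nat_lit 176) (nat_lit 193) (nat_lit 159) (nat_lit 5) (nat_lit 7) (nat_lit 7) (nat_lit 5) (nat_lit 7) (nat_lit 6) (by decide +kernel)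
theorem L257101 : W_1 (nat_lit 3) (nat_lit 0x300018000c0002000000000000000000000000000) (nat_lit 0x0) (nat_lit 0x6000300008000000000000000000000000000000000000000) := T_1 (nat_lit 177) (nat_lit 194) (nat_lit 6) (nat_lit 7) (nat_lit 11) L257100 (by decide +kernel)
theorem L257102 : W_1 (nat_lit 4) (nat_lit 0x100018000c0002000000000000000000000000000) (nat_lit 0x0) (nat_lit 0x6000700028000000000000000000000000000000000000000) := T_1 (nat_lit 161) (nat_lit 178) (nat_lit 7) (nat_lit 7) (nat_lit 6) L257101 (by decide +kernel)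
theorem L257103 : W_1 (nat_lit 2) (nat_lit 0x2000100018000c0002000000000000000000000000000) (nat_lit 0x0) (nat_lit 0x8000400020000000000000000000000000000000000000000) := D_1 (nat_lit 178) (nat_lit 161) (nat_lit 195) (nat_lit 7) (nat_lit 7) (nat_lit 6) (nat_lit 7) (nat_lit 7) (nat_lit 7) (by decide +kernel)
theorem L257104 : W_1 (nat_lit 3) (nat_lit 0x100018000c0002000000000000000000000000000) (nat_lit 0x0) (nat_lit 0xc000600020000000000000000000000000000000000000000) := T_1 (nat_lit 177) (nat_lit 194) (nat_lit 6) (nat_lit 7) (nat_lit 11) L257103 (by decide +kernel)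
theorem L257105 : W_1 (nat_lit 2) (nat_lit 0x4003c001e000d0002800080000000000000000000000) (nat_lit 0x0) (nat_lit 0x20000400020000000000000000000000) := D_1 (nat_lit 106) (nat_lit 89) (nat_lit 125) (nat_lit 4) (nat_lit 5) (nat_lit 9) (nat_lit 0) (nat_lit 8) (nat_lit 7) (by decide +kernel)
theorem L257106 : W_1 (nat_lit 3) (nat_lit 0x4003c001e000d0002000080000000000000000000000) (nat_lit 0x0) (nat_lit 0x20000c00060000000000000000000000) := T_1 (nat_lit 107) (nat_lit 90) (nat_lit 7) (nat_lit 5) (nat_lit 5) L257105 (by decide +kernel)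
theorem L257107 : W_1 (nat_lit 4) (nat_lit 0x4003c001e000c0002000080000000000000000000000) (nat_lit 0x0) (nat_lit 0x38000c00060000000000000000000000) := T_1 (nat_lit 124) (nat_lit 123) (nat_lit 0) (nat_lit 8) (nat_lit 8) L257106 (by decide +kernel)
theorem L257108 : W_1 (nat_lit 5) (nat_lit 0x4003c001a000c0002000080000000000000000000000) (nat_lit 0x0) (nat_lit 0x40000400038000c00060000000000000000000000) := T_1 (nat_lit 142) (nat_lit 162) (nat_lit 3) (nat_lit 5) (nat_lit 8) L257107 (by decide +kernel)
theorem L257109 : W_1 (nat_lit 6) (nat_lit 0x4003c0018000c0002000080000000000000000000000) (nat_lit 0x0) (nat_lit 0x40000700038000c00060000000000000000000000) := T_1 (nat_lit 141) (nat_lit 140) (nat_lit 0) (nat_lit 8) (nat_lit 9) L257108 (by decide +kernel)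
theorem L257110 : W_1 (nat_lit 7) (nat_lit 0x4003c0018000c0002000000000000000000000000000) (nat_lit 0x0) (nat_lit 0x40000700038001c000e0000000000000000000000) := T_1 (nat_lit 91) (nat_lit 108) (nat_lit 4) (nat_lit 7) (nat_lit 9) L257109 (by decide +kernel)
theorem L257111 : W_1 (nat_lit 8) (nat_lit 0x3c0018000c0002000000000000000000000000000) (nat_lit 0x0) (nat_lit 0xc0040000700038001c000e0000000000000000000000) := T_1 (nat_lit 174) (nat_lit 175) (nat_lit 1) (nat_lit 8) (nat_lit 9) L257110 (by decide +kernel)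
theorem L257112 : W_1 (nat_lit 9) (nat_lit 0x1c0018000c0002000000000000000000000000000) (nat_lit 0x0) (nat_lit 0x4c0060000700038001c000e0000000000000000000000) := T_1 (nat_lit 161) (nat_lit 178) (nat_lit 7) (nat_lit 7) (nat_lit 6) L257111 (by decide +kernel)
theorem L257113 : W_1 (nat_lit 10) (nat_lit 0x180018000c0002000000000000000000000000000) (nat_lit 0x0) (nat_lit 0x4c0066000700038001c000e0000000000000000000000) := T_1 (nat_lit 158) (nat_lit 157) (nat_lit 2) (nat_lit 4) (nat_lit 9) L257112 (by decide +kernel)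
theorem L257114 : W_1 (nat_lit 11) (nat_lit 0x100018000c0002000000000000000000000000000) (nat_lit 0x0) (nat_lit 0x5c006e000700038001c000e0000000000000000000000) := T_1 (nat_lit 159) (nat_lit 176) (nat_lit 5) (nat_lit 7) (nat_lit 6) L257113 (by decide +kernel)
theorem L257115 : W_1 (nat_lit 12) (nat_lit 0x18000c0002000000000000000000000000000) (nat_lit 0x0) (nat_lit 0xe0007c007e000700038001c000e0000000000000000000000) := Q_1 (nat_lit 160) (C_1 L257102 (C_1 L252763 (C_1 L257104 (C_1 L257114 N_1)))) (by decide +kernel)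
theorem L257116 : W_1 (nat_lit 13) (nat_lit 0x18000c0000000000000000000000000000000) (nat_lit 0x0) (nat_lit 0xe0007c007e000700038003c007e001c000000000000000000) := Q_1 (nat_lit 109) (C_1 L3113 (C_1 L252800 (C_1 L257115 N_1))) (by decide +kernel)
theorem L257117 : W_1 (nat_lit 2) (nat_lit 0x300018001c0003000000000000000000000000000) (nat_lit 0x0) (nat_lit 0x20000c00000000000000000000000000) := D_1 (nat_lit 107) (nat_lit 125) (nat_lit 106) (nat_lit 0) (nat_lit 9) (nat_lit 7) (nat_lit 3) (nat_lit 4) (nat_lit 6) (by decide +kernel)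
theorem L257118 : W_1 (nat_lit 3) (nat_lit 0x300018000c0003000000000000000000000000000) (nat_lit 0x0) (nat_lit 0x320000c00000000000000000000000000) := T_1 (nat_lit 128) (nat_lit 129) (nat_lit 0) (nat_lit 10) (nat_lit 7) L257117 (by decide +kernel)
theorem L257119 : W_1 (nat_lit 4) (nat_lit 0x100018000c0003000000000000000000000000000) (nat_lit 0x0) (nat_lit 0x400020000000320000c00000000000000000000000000) := T_1 (nat_lit 161) (nat_lit 178) (nat_lit 7) (nat_lit 7) (nat_lit 6) L257118 (by decide +kernel)
theorem L257120 : W_1 (nat_lit 5) (nat_lit 0x100018000c0002000000000000000000000000000) (nat_lit 0x0) (nat_lit 0x400020000000320001c00080000000000000000000000) := T_1 (nat_lit 108) (nat_lit 91) (nat_lit 4) (nat_lit 7) (nat_lit 9) L257119 (by decide +kernel)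
theorem L257121 : W_1 (nat_lit 6) (nat_lit 0x18000c0002000000000000000000000000000) (nat_lit 0x0) (nat_lit 0xe000700038000000320001c00080000000000000000000000) := Q_1 (nat_lit 160) (C_1 L257104 (C_1 L252763 (C_1 L257120 N_1))) (by decide +kernel)
theorem L257122 : W_1 (nat_lit 7) (nat_lit 0x18000c0000000000000000000000000000000) (nat_lit 0x0) (nat_lit 0xe000700038000000320003c0078001c000000000000000000) := Q_1 (nat_lit 109) (C_1 L3113 (C_1 L252800 (C_1 L257121 N_1))) (by decide +kernel)
theorem L257320 : W_1 (nat_lit 2) (nat_lit 0x100008001c001e0000000000000000000000000000000) (nat_lit 0x0) (nat_lit 0x18000800000000000000000000000000) := D_1 (nat_lit 124) (nat_lit 123) (nat_lit 107) (nat_lit 3) (nat_lit 4) (nat_lit 7) (nat_lit 4) (nat_lit 6) (nat_lit 10) (by decide +kernel)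
theorem L257383 : W_1 (nat_lit 2) (nat_lit 0x100008001c001c0000000000000000000000000000000) (nat_lit 0x0) (nat_lit 0x20002000100000000000000000000000) := D_1 (nat_lit 109) (nat_lit 125) (nat_lit 92) (nat_lit 6) (nat_lit 6) (nat_lit 10) (nat_lit 5) (nat_lit 7) (nat_lit 5) (by decide +kernel)
theorem L257407 : W_1 (nat_lit 2) (nat_lit 0x200018001c0010000000000000000000000000000) (nat_lit 0x0) (nat_lit 0x600020000000000000000000000000000) := D_1 (nat_lit 129) (nat_lit 130) (nat_lit 113) (nat_lit 1) (nat_lit 11) (nat_lit 7) (nat_lit 2) (nat_lit 7) (nat_lit 7) (by decide +kernel)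
theorem L257410 : W_1 (nat_lit 5) (nat_lit 0x200018001c0018000000000000000000000000000) (nat_lit 0x0) (nat_lit 0x62000f80020000000000000000000) := T_1 (nat_lit 113) (nat_lit 114) (nat_lit 1) (nat_lit 12) (nat_lit 6) L73945 (by decide +kernel)
theorem L257411 : W_1 (nat_lit 6) (nat_lit 0x200018001c0010000000000000000000000000000) (nat_lit 0x0) (nat_lit 0x2006a000f80020000000000000000000) := T_1 (nat_lit 111) (nat_lit 125) (nat_lit 2) (nat_lit 6) (nat_lit 7) L257410 (by decide +kernel)
theorem L257440 : W_1 (nat_lit 2) (nat_lit 0x200058003c0000000400020000000000000000000) (nat_lit 0x0) (nat_lit 0x30000800000000000000000000000) := D_1 (nat_lit 112) (nat_lit 113) (nat_lit 95) (nat_lit 2) (nat_lit 7) (nat_lit 7) (nat_lit 4) (nat_lit 10) (nat_lit 8) (by decide +kernel)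
theorem L257441 : W_1 (nat_lit 3) (nat_lit 0x200018003c0000000400020000000000000000000) (nat_lit 0x0) (nat_lit 0xc000000030000800000000000000000000000) := T_1 (nat_lit 146) (nat_lit 147) (nat_lit 3) (nat_lit 7) (nat_lit 7) L257440 (by decide +kernel)
theorem L257444 : W_1 (nat_lit 3) (nat_lit 0x200018001c0018000500000000000000000000000) (nat_lit 0x0) (nat_lit 0x60000a80000000000000000000000) := T_1 (nat_lit 113) (nat_lit 114) (nat_lit 1) (nat_lit 12) (nat_lit 6) L73943 (by decide +kernel)
theorem L257445 : W_1 (nat_lit 4) (nat_lit 0x200018001c0008000500000000000000000000000) (nat_lit 0x0) (nat_lit 0x20070000a80000000000000000000000) := T_1 (nat_lit 112) (nat_lit 125) (nat_lit 2) (nat_lit 6) (nat_lit 7) L257444 (by decide +kernel)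
theorem L257453 : W_1 (nat_lit 4) (nat_lit 0x200018003c0000000400000000000000000000000) (nat_lit 0x0) (nat_lit 0xc000000038000800020000000000000000000) := T_1 (nat_lit 77) (nat_lit 111) (nat_lit 5) (nat_lit 9) (nat_lit 4) L257441 (by decide +kernel)
theorem L257454 : W_1 (nat_lit 5) (nat_lit 0x200018001c0000000400000000000000000000000) (nat_lit 0x0) (nat_lit 0xc000600038000800020000000000000000000) := T_1 (nat_lit 129) (nat_lit 130) (nat_lit 1) (nat_lit 11) (nat_lit 7) L257453 (by decide +kernel)
theorem L257679 : W_1 (nat_lit 2) (nat_lit 0x4000100018001c0000000000000000000000000000000) (nat_lit 0x0) (nat_lit 0xc000200000000000000000000000000000000000000000000) := D_1 (nat_lit 177) (nat_lit 194) (nat_lit 195) (nat_lit 6) (nat_lit 7) (nat_lit 11) (nat_lit 7) (nat_lit 7) (nat_lit 7) (by decide +kernel)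
theorem L258220 : W_1 (nat_lit 2) (nat_lit 0x2000100018001c0002000000000000000000000000000) (nat_lit 0x0) (nat_lit 0x8000400020000000000000000000000000000000000000000) := D_1 (nat_lit 178) (nat_lit 161) (nat_lit 195) (nat_lit 7) (nat_lit 7) (nat_lit 6) (nat_lit 7) (nat_lit 7) (nat_lit 7) (by decide +kernel)
theorem L258221 : W_1 (nat_lit 3) (nat_lit 0x100018001c0002000000000000000000000000000) (nat_lit 0x0) (nat_lit 0xc000600020000000000000000000000000000000000000000) := T_1 (nat_lit 177) (nat_lit 194) (nat_lit 6) (nat_lit 7) (nat_lit 11) L258220 (by decide +kernel)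
theorem L258227 : W_1 (nat_lit 2) (nat_lit 0x2000100018000c0002000000000000000000000000000) (nat_lit 0x0) (nat_lit 0x2000100008000000000000000000000000000000000000000) := D_1 (nat_lit 176) (nat_lit 193) (nat_lit 159) (nat_lit 5) (nat_lit 7) (nat_lit 7) (nat_lit 5) (nat_lit 7) (nat_lit 6) (by decide +kernel)
theorem L258228 : W_1 (nat_lit 3) (nat_lit 0x100018000c0002000000000000000000000000000) (nat_lit 0x0) (nat_lit 0x6000300008000000000000000000000000000000000000000) := T_1 (nat_lit 177) (nat_lit 194) (nat_lit 6) (nat_lit 7) (nat_lit 11) L258227 (by decide +kernel)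
theorem L258229 : W_1 (nat_lit 2) (nat_lit 0x4003c001a000c0002000000000000000000000000000) (nat_lit 0x0) (nat_lit 0x40000400100000000000000000000000000000000) := D_1 (nat_lit 142) (nat_lit 162) (nat_lit 128) (nat_lit 3) (nat_lit 5) (nat_lit 8) (nat_lit 2) (nat_lit 5) (nat_lit 8) (by decide +kernel)
theorem L258230 : W_1 (nat_lit 3) (nat_lit 0x4003c0018000c0002000000000000000000000000000) (nat_lit 0x0) (nat_lit 0x40000700100000000000000000000000000000000) := T_1 (nat_lit 141) (nat_lit 140) (nat_lit 0) (nat_lit 8) (nat_lit 9) L258229 (by decide +kernel)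
theorem L258231 : W_1 (nat_lit 4) (nat_lit 0x3c0018000c0002000000000000000000000000000) (nat_lit 0x0) (nat_lit 0xc0040000700100000000000000000000000000000000) := T_1 (nat_lit 174) (nat_lit 175) (nat_lit 1) (nat_lit 8) (nat_lit 9) L258230 (by decide +kernel)
theorem L258232 : W_1 (nat_lit 5) (nat_lit 0x380018000c0002000000000000000000000000000) (nat_lit 0x0) (nat_lit 0xc0046000700100000000000000000000000000000000) := T_1 (nat_lit 158) (nat_lit 157) (nat_lit 2) (nat_lit 4) (nat_lit 9) L258231 (by decide +kernel)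
theorem L258233 : W_1 (nat_lit 6) (nat_lit 0x300018000c0002000000000000000000000000000) (nat_lit 0x0) (nat_lit 0x1c004e000700100000000000000000000000000000000) := T_1 (nat_lit 159) (nat_lit 176) (nat_lit 5) (nat_lit 7) (nat_lit 6) L258232 (by decide +kernel)
theorem L258234 : W_1 (nat_lit 7) (nat_lit 0x100018000c0002000000000000000000000000000) (nat_lit 0x0) (nat_lit 0x5c006e000700100000000000000000000000000000000) := T_1 (nat_lit 161) (nat_lit 178) (nat_lit 7) (nat_lit 7) (nat_lit 6) L258233 (by decide +kernel)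
theorem L258235 : W_1 (nat_lit 8) (nat_lit 0x18000c0002000000000000000000000000000) (nat_lit 0x0) (nat_lit 0xe0007c007e000700100000000000000000000000000000000) := Q_1 (nat_lit 160) (C_1 L257104 (C_1 L258228 (C_1 L258234 N_1))) (by decide +kernel)
theorem L258236 : W_1 (nat_lit 9) (nat_lit 0x18000c0000000000000000000000000000000) (nat_lit 0x0) (nat_lit 0xe0007c007e000700300002000100008000000000000000000) := Q_1 (nat_lit 109) (C_1 L3113 (C_1 L1521 (C_1 L258235 N_1))) (by decide +kernel)
theorem L258347 : W_1 (nat_lit 2) (nat_lit 0x8001c001e0000800000000000000000000000000) (nat_lit 0x0) (nat_lit 0x18000400000000000000000000000000) := D_1 (nat_lit 124) (nat_lit 106) (nat_lit 123) (nat_lit 0) (nat_lit 8) (nat_lit 7) (nat_lit 3) (nat_lit 4) (nat_lit 7) (by decide +kernel)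
theorem L258348 : W_1 (nat_lit 3) (nat_lit 0x8001c001e0000000000000000000000000000000) (nat_lit 0x0) (nat_lit 0x18001c00000000000000000000000000) := T_1 (nat_lit 107) (nat_lit 108) (nat_lit 0) (nat_lit 9) (nat_lit 7) L258347 (by decide +kernel)
theorem L258408 : W_1 (nat_lit 2) (nat_lit 0x700030001c000c0000000000000000000000000000000) (nat_lit 0x0) (nat_lit 0xc0040000000000000000000000000000000000000000) := D_1 (nat_lit 175) (nat_lit 162) (nat_lit 174) (nat_lit 2) (nat_lit 5) (nat_lit 10) (nat_lit 2) (nat_lit 4) (nat_lit 10) (by decide +kernel)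
theorem L258453 : W_1 (nat_lit 8) (nat_lit 0x18000c0000000000000000000000000000000) (nat_lit 0x0) (nat_lit 0x20001000c700738039c00080000000000000000000000) := Q_1 (nat_lit 128) (C_1 L21089 (C_1 L21712 (C_1 L2678 N_1))) (by decide +kernel)
theorem L259091 : W_1 (nat_lit 2) (nat_lit 0x8001c000e0002000000000000000000000000000) (nat_lit 0x0) (nat_lit 0x4006000000000000000000000000000000000000) := D_1 (nat_lit 145) (nat_lit 158) (nat_lit 146) (nat_lit 1) (nat_lit 9) (nat_lit 8) (nat_lit 0) (nat_lit 10) (nat_lit 8) (by decide +kernel)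
theorem L259092 : W_1 (nat_lit 3) (nat_lit 0x1c000e0002000000000000000000000000000) (nat_lit 0x0) (nat_lit 0x10000c006000000000000000000000000000000000000) := T_1 (nat_lit 159) (nat_lit 176) (nat_lit 6) (nat_lit 6) (nat_lit 10) L259091 (by decide +kernel)
theorem L259093 : W_1 (nat_lit 2) (nat_lit 0xc001e000e0002000000000000000000000000000) (nat_lit 0x0) (nat_lit 0x1000080000000000000001000000000000000000000000000) := D_1 (nat_lit 175) (nat_lit 192) (nat_lit 108) (nat_lit 6) (nat_lit 5) (nat_lit 11) (nat_lit 5) (nat_lit 6) (nat_lit 6) (by decide +kernel)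
theorem L259094 : W_1 (nat_lit 3) (nat_lit 0x8001e000e0002000000000000000000000000000) (nat_lit 0x0) (nat_lit 0x1000080006000000000001000000000000000000000000000) := T_1 (nat_lit 158) (nat_lit 157) (nat_lit 1) (nat_lit 8) (nat_lit 8) L259093 (by decide +kernel)
theorem L259095 : W_1 (nat_lit 4) (nat_lit 0x8001c000e0002000000000000000000000000000) (nat_lit 0x0) (nat_lit 0x1000080006000300000001000000000000000000000000000) := T_1 (nat_lit 141) (nat_lit 140) (nat_lit 2) (nat_lit 4) (nat_lit 8) L259094 (by decide +kernel)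
theorem L259096 : W_1 (nat_lit 5) (nat_lit 0x1c000e0002000000000000000000000000000) (nat_lit 0x0) (nat_lit 0x100018000e000300000001000000000000000000000000000) := T_1 (nat_lit 159) (nat_lit 176) (nat_lit 6) (nat_lit 6) (nat_lit 10) L259095 (by decide +kernel)
theorem L259103 : W_1 (nat_lit 2) (nat_lit 0x100018000e0002000000000000000000000000000) (nat_lit 0x0) (nat_lit 0x200000000000000001000080000000000000000000000) := D_1 (nat_lit 108) (nat_lit 91) (nat_lit 177) (nat_lit 4) (nat_lit 7) (nat_lit 9) (nat_lit 4) (nat_lit 7) (nat_lit 10) (by decide +kernel)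
theorem L259104 : W_1 (nat_lit 2) (nat_lit 0x2000100038000e0002000000000000000000000000000) (nat_lit 0x0) (nat_lit 0x2000100008000000000000000000000000000000000000000) := D_1 (nat_lit 176) (nat_lit 193) (nat_lit 159) (nat_lit 5) (nat_lit 7) (nat_lit 7) (nat_lit 5) (nat_lit 7) (nat_lit 6) (by decide +kernel)
theorem L259105 : W_1 (nat_lit 3) (nat_lit 0x100038000e0002000000000000000000000000000) (nat_lit 0x0) (nat_lit 0x6000300008000000000000000000000000000000000000000) := T_1 (nat_lit 177) (nat_lit 194) (nat_lit 6) (nat_lit 7) (nat_lit 11) L259104 (by decide +kernel)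
theorem L259106 : W_1 (nat_lit 4) (nat_lit 0x100018000e0002000000000000000000000000000) (nat_lit 0x0) (nat_lit 0x6000300008006000000000000000000000000000000000000) := T_1 (nat_lit 145) (nat_lit 146) (nat_lit 0) (nat_lit 10) (nat_lit 8) L259105 (by decide +kernel)
theorem L259113 : W_1 (nat_lit 2) (nat_lit 0x180038000e0002000000000000000000000000000) (nat_lit 0x0) (nat_lit 0x6000400000000000000000000000000000000000) := D_1 (nat_lit 158) (nat_lit 157) (nat_lit 142) (nat_lit 2) (nat_lit 4) (nat_lit 9) (nat_lit 1) (nat_lit 9) (nat_lit 8) (by decide +kernel)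
theorem L259114 : W_1 (nat_lit 3) (nat_lit 0x100038000e0002000000000000000000000000000) (nat_lit 0x0) (nat_lit 0x10000e000400000000000000000000000000000000000) := T_1 (nat_lit 159) (nat_lit 176) (nat_lit 5) (nat_lit 7) (nat_lit 6) L259113 (by decide +kernel)
theorem L259115 : W_1 (nat_lit 4) (nat_lit 0x100018000e0002000000000000000000000000000) (nat_lit 0x0) (nat_lit 0x10000e006400000000000000000000000000000000000) := T_1 (nat_lit 145) (nat_lit 146) (nat_lit 0) (nat_lit 10) (nat_lit 8) L259114 (by decide +kernel)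
theorem L259116 : W_1 (nat_lit 5) (nat_lit 0x18000e0002000000000000000000000000000) (nat_lit 0x0) (nat_lit 0x600030001e006400000001000080000000000000000000000) := Q_1 (nat_lit 160) (C_1 L259103 (C_1 L259106 (C_1 L259115 N_1))) (by decide +kernel)
theorem L259173 : W_1 (nat_lit 2) (nat_lit 0x180038000e0002000080000000000000000000000) (nat_lit 0x0) (nat_lit 0x10000c000000000000000000) := D_1 (nat_lit 92) (nat_lit 74) (nat_lit 75) (nat_lit 4) (nat_lit 7) (nat_lit 8) (nat_lit 7) (nat_lit 7) (nat_lit 4) (by decide +kernel)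
theorem L259174 : W_1 (nat_lit 3) (nat_lit 0x180038000e0002000000000000000000000000000) (nat_lit 0x0) (nat_lit 0x100018000c000000000000000000) := T_1 (nat_lit 91) (nat_lit 108) (nat_lit 4) (nat_lit 7) (nat_lit 9) L259173 (by decide +kernel)
theorem L259175 : W_1 (nat_lit 4) (nat_lit 0x180038000e0000000000000000000000000000000) (nat_lit 0x0) (nat_lit 0x10000000000000000300018000c000000000000000000) := T_1 (nat_lit 109) (nat_lit 176) (nat_lit 5) (nat_lit 7) (nat_lit 6) L259174 (by decide +kernel)
theorem L259176 : W_1 (nat_lit 5) (nat_lit 0x180018000e0000000000000000000000000000000) (nat_lit 0x0) (nat_lit 0x10000000600000000300018000c000000000000000000) := T_1 (nat_lit 145) (nat_lit 146) (nat_lit 1) (nat_lit 10) (nat_lit 8) L259175 (by decide +kernel)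
theorem L259177 : W_1 (nat_lit 2) (nat_lit 0x180018000e0002000000000000000000000000000) (nat_lit 0x0) (nat_lit 0x400000000000100008000000000000000000) := D_1 (nat_lit 92) (nat_lit 142) (nat_lit 75) (nat_lit 5) (nat_lit 7) (nat_lit 5) (nat_lit 7) (nat_lit 7) (nat_lit 4) (by decide +kernel)
theorem L259178 : W_1 (nat_lit 3) (nat_lit 0x180018000e0000000000000000000000000000000) (nat_lit 0x0) (nat_lit 0x100000000400000002000100008000000000000000000) := T_1 (nat_lit 109) (nat_lit 176) (nat_lit 5) (nat_lit 7) (nat_lit 6) L259177 (by decide +kernel)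
theorem L259179 : W_1 (nat_lit 2) (nat_lit 0x180038000e0000000000000000000000000000000) (nat_lit 0x0) (nat_lit 0x6000400000000000000000000000000000000000) := D_1 (nat_lit 158) (nat_lit 142) (nat_lit 157) (nat_lit 1) (nat_lit 9) (nat_lit 8) (nat_lit 2) (nat_lit 4) (nat_lit 9) (by decide +kernel)
theorem L259180 : W_1 (nat_lit 3) (nat_lit 0x180018000e0000000000000000000000000000000) (nat_lit 0x0) (nat_lit 0x6006400000000000000000000000000000000000) := T_1 (nat_lit 145) (nat_lit 146) (nat_lit 1) (nat_lit 10) (nat_lit 8) L259179 (by decide +kernel)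
theorem L259181 : W_1 (nat_lit 6) (nat_lit 0x100018000e0000000000000000000000000000000) (nat_lit 0x0) (nat_lit 0x10000e00640000000300018000c000000000000000000) := Q_1 (nat_lit 159) (C_1 L259176 (C_1 L259178 (C_1 L259180 N_1))) (by decide +kernel)
theorem L259182 : W_1 (nat_lit 7) (nat_lit 0x18000e0000000000000000000000000000000) (nat_lit 0x0) (nat_lit 0xe000f0001e00640000000300018000c000000000000000000) := Q_1 (nat_lit 160) (C_1 L259181 (C_1 L21480 (C_1 L22056 N_1))) (by decide +kernel)
theorem L259195 : W_1 (nat_lit 2) (nat_lit 0x8003c001a000e0002000080000000000000000000000) (nat_lit 0x0) (nat_lit 0x1000000040000400000000000000000000000000000000000) := D_1 (nat_lit 142) (nat_lit 162) (nat_lit 192) (nat_lit 3) (nat_lit 5) (nat_lit 8) (nat_lit 6) (nat_lit 5) (nat_lit 11) (by decide +kernel)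
theorem L259196 : W_1 (nat_lit 3) (nat_lit 0x8003c0018000e0002000080000000000000000000000) (nat_lit 0x0) (nat_lit 0x1000000040000700000000000000000000000000000000000) := T_1 (nat_lit 141) (nat_lit 140) (nat_lit 0) (nat_lit 8) (nat_lit 9) L259195 (by decide +kernel)
theorem L259197 : W_1 (nat_lit 4) (nat_lit 0x3c0018000e0002000080000000000000000000000) (nat_lit 0x0) (nat_lit 0x10000c0040000700000000000000000000000000000000000) := T_1 (nat_lit 175) (nat_lit 174) (nat_lit 1) (nat_lit 8) (nat_lit 9) L259196 (by decide +kernel)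
theorem L259198 : W_1 (nat_lit 5) (nat_lit 0x380018000e0002000080000000000000000000000) (nat_lit 0x0) (nat_lit 0x10000c0046000700000000000000000000000000000000000) := T_1 (nat_lit 158) (nat_lit 157) (nat_lit 2) (nat_lit 4) (nat_lit 9) L259197 (by decide +kernel)
theorem L259245 : W_1 (nat_lit 2) (nat_lit 0x8003e000e0002000000000000000000000000000) (nat_lit 0x0) (nat_lit 0x400060000000000000000000000000000000000000000) := D_1 (nat_lit 161) (nat_lit 178) (nat_lit 162) (nat_lit 4) (nat_lit 8) (nat_lit 10) (nat_lit 3) (nat_lit 5) (nat_lit 8) (by decide +kernel)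
theorem L259246 : W_1 (nat_lit 3) (nat_lit 0x8003c000e0002000000000000000000000000000) (nat_lit 0x0) (nat_lit 0x400060000300000000000000000000000000000000000) := T_1 (nat_lit 141) (nat_lit 140) (nat_lit 2) (nat_lit 4) (nat_lit 8) L259245 (by decide +kernel)
theorem L259247 : W_1 (nat_lit 4) (nat_lit 0x3c000e0002000000000000000000000000000) (nat_lit 0x0) (nat_lit 0x500068000300000000000000000000000000000000000) := T_1 (nat_lit 159) (nat_lit 176) (nat_lit 6) (nat_lit 6) (nat_lit 10) L259246 (by decide +kernel)
theorem L259248 : W_1 (nat_lit 5) (nat_lit 0x1c000e0002000000000000000000000000000) (nat_lit 0x0) (nat_lit 0x500068006300000000000000000000000000000000000) := T_1 (nat_lit 145) (nat_lit 146) (nat_lit 0) (nat_lit 10) (nat_lit 8) L259247 (by decide +kernel)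
theorem L259249 : W_1 (nat_lit 2) (nat_lit 0x20001c000e0002000000000000000000000000000) (nat_lit 0x0) (nat_lit 0x40000300000000000000000000000000000000000) := D_1 (nat_lit 141) (nat_lit 162) (nat_lit 140) (nat_lit 3) (nat_lit 5) (nat_lit 8) (nat_lit 2) (nat_lit 4) (nat_lit 8) (by decide +kernel)
theorem L259250 : W_1 (nat_lit 3) (nat_lit 0x1c000e0002000000000000000000000000000) (nat_lit 0x0) (nat_lit 0x400060000300000000000000000000000000000000000) := T_1 (nat_lit 161) (nat_lit 178) (nat_lit 4) (nat_lit 8) (nat_lit 10) L259249 (by decide +kernel)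
theorem L259251 : W_1 (nat_lit 6) (nat_lit 0x18000e0002000000000000000000000000000) (nat_lit 0x0) (nat_lit 0x100058006e006700000001000000000000000000000000000) := Q_1 (nat_lit 142) (C_1 L259096 (C_1 L259092 (C_1 L259248 (C_1 L259250 N_1)))) (by decide +kernel)
theorem L259252 : W_1 (nat_lit 8) (nat_lit 0x18000e0000000000000000000000000000000) (nat_lit 0x0) (nat_lit 0x100058006e00670000000300018000c000000000000000000) := Q_1 (nat_lit 109) (C_1 L21940 (C_1 L72241 (C_1 L259251 N_1))) (by decide +kernel)
theorem L259253 : W_1 (nat_lit 2) (nat_lit 0x180038000e0000000000000000000000000000000) (nat_lit 0x0) (nat_lit 0x26000000000000000000000000000000000000000) := D_1 (nat_lit 158) (nat_lit 157) (nat_lit 161) (nat_lit 2) (nat_lit 4) (nat_lit 9) (nat_lit 2) (nat_lit 5) (nat_lit 9) (by decide +kernel)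
theorem L259254 : W_1 (nat_lit 3) (nat_lit 0x180018000e0000000000000000000000000000000) (nat_lit 0x0) (nat_lit 0x26006000000000000000000000000000000000000) := T_1 (nat_lit 145) (nat_lit 146) (nat_lit 1) (nat_lit 10) (nat_lit 8) L259253 (by decide +kernel)
theorem L259255 : W_1 (nat_lit 2) (nat_lit 0xf0001a0018000e0000000000000000000000000000000) (nat_lit 0x0) (nat_lit 0x30000000020000000000000000000000000000000000000000) := D_1 (nat_lit 196) (nat_lit 197) (nat_lit 161) (nat_lit 3) (nat_lit 6) (nat_lit 10) (nat_lit 7) (nat_lit 8) (nat_lit 7) (by decide +kernel)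
theorem L259256 : W_1 (nat_lit 3) (nat_lit 0x70001a0018000e0000000000000000000000000000000) (nat_lit 0x0) (nat_lit 0x30001800020000000000000000000000000000000000000000) := T_1 (nat_lit 179) (nat_lit 180) (nat_lit 0) (nat_lit 10) (nat_lit 10) L259255 (by decide +kernel)
theorem L259257 : W_1 (nat_lit 4) (nat_lit 0x30001a0018000e0000000000000000000000000000000) (nat_lit 0x0) (nat_lit 0x38001c00020000000000000000000000000000000000000000) := T_1 (nat_lit 178) (nat_lit 195) (nat_lit 7) (nat_lit 7) (nat_lit 7) L259256 (by decide +kernel)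
theorem L259258 : W_1 (nat_lit 5) (nat_lit 0x20001a0018000e0000000000000000000000000000000) (nat_lit 0x0) (nat_lit 0x3a001d00020000000000000000000000000000000000000000) := T_1 (nat_lit 176) (nat_lit 193) (nat_lit 5) (nat_lit 7) (nat_lit 7) L259257 (by decide +kernel)
theorem L259259 : W_1 (nat_lit 6) (nat_lit 0x1a0018000e0000000000000000000000000000000) (nat_lit 0x0) (nat_lit 0x3e001f00020000000000000000000000000000000000000000) := T_1 (nat_lit 177) (nat_lit 194) (nat_lit 6) (nat_lit 7) (nat_lit 11) L259258 (by decide +kernel)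
theorem L259260 : W_1 (nat_lit 7) (nat_lit 0x180018000e0000000000000000000000000000000) (nat_lit 0x0) (nat_lit 0x3e001f00026000000000000000000000000000000000000000) := T_1 (nat_lit 157) (nat_lit 158) (nat_lit 2) (nat_lit 4) (nat_lit 9) L259259 (by decide +kernel)
theorem L259261 : W_1 (nat_lit 2) (nat_lit 0xf000180018000e0000000000000000000000000000000) (nat_lit 0x0) (nat_lit 0x30000000020000000000000000000000000000000000000000) := D_1 (nat_lit 196) (nat_lit 197) (nat_lit 161) (nat_lit 3) (nat_lit 6) (nat_lit 10) (nat_lit 7) (nat_lit 8) (nat_lit 7) (by decide +kernel)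
theorem L259262 : W_1 (nat_lit 3) (nat_lit 0x7000180018000e0000000000000000000000000000000) (nat_lit 0x0) (nat_lit 0x30001800020000000000000000000000000000000000000000) := T_1 (nat_lit 179) (nat_lit 180) (nat_lit 0) (nat_lit 10) (nat_lit 10) L259261 (by decide +kernel)
theorem L259263 : W_1 (nat_lit 4) (nat_lit 0x3000180018000e0000000000000000000000000000000) (nat_lit 0x0) (nat_lit 0x38001c00020000000000000000000000000000000000000000) := T_1 (nat_lit 178) (nat_lit 195) (nat_lit 7) (nat_lit 7) (nat_lit 7) L259262 (by decide +kernel)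
theorem L259264 : W_1 (nat_lit 5) (nat_lit 0x2000180018000e0000000000000000000000000000000) (nat_lit 0x0) (nat_lit 0x3a001d00020000000000000000000000000000000000000000) := T_1 (nat_lit 176) (nat_lit 193) (nat_lit 5) (nat_lit 7) (nat_lit 7) L259263 (by decide +kernel)
theorem L259265 : W_1 (nat_lit 6) (nat_lit 0x180018000e0000000000000000000000000000000) (nat_lit 0x0) (nat_lit 0x3e001f00020000000000000000000000000000000000000000) := T_1 (nat_lit 177) (nat_lit 194) (nat_lit 6) (nat_lit 7) (nat_lit 11) L259264 (by decide +kernel)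
theorem L259266 : W_1 (nat_lit 8) (nat_lit 0x100018000e0000000000000000000000000000000) (nat_lit 0x0) (nat_lit 0x3e001f0002e006400000000000000000000000000000000000) := Q_1 (nat_lit 159) (C_1 L259254 (C_1 L259180 (C_1 L259260 (C_1 L259265 N_1)))) (by decide +kernel)
theorem L259293 : W_1 (nat_lit 2) (nat_lit 0x6000000018000e0000000000000000000000000000000) (nat_lit 0x0) (nat_lit 0xc000000010000000000000000000000000000000000000000) := D_1 (nat_lit 160) (nat_lit 194) (nat_lit 195) (nat_lit 6) (nat_lit 7) (nat_lit 11) (nat_lit 7) (nat_lit 7) (nat_lit 7) (by decide +kernel)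
theorem L259294 : W_1 (nat_lit 2) (nat_lit 0x6000000018000e0000000000000000000000000000000) (nat_lit 0x0) (nat_lit 0xc000000020000000000000000000000000000000000000000) := D_1 (nat_lit 161) (nat_lit 194) (nat_lit 195) (nat_lit 5) (nat_lit 8) (nat_lit 7) (nat_lit 4) (nat_lit 8) (nat_lit 11) (by decide +kernel)
theorem L259295 : W_1 (nat_lit 2) (nat_lit 0x6000000018000e0000000000000000000000000000000) (nat_lit 0x0) (nat_lit 0x4000000030000000000000000000000000000000000000000) := D_1 (nat_lit 194) (nat_lit 161) (nat_lit 160) (nat_lit 5) (nat_lit 8) (nat_lit 7) (nat_lit 6) (nat_lit 7) (nat_lit 11) (by decide +kernel)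
theorem L259296 : W_1 (nat_lit 2) (nat_lit 0x6000000018000e0000000000000000000000000000000) (nat_lit 0x0) (nat_lit 0x8000000030000000000000000000000000000000000000000) := D_1 (nat_lit 195) (nat_lit 160) (nat_lit 161) (nat_lit 7) (nat_lit 7) (nat_lit 7) (nat_lit 4) (nat_lit 8) (nat_lit 11) (by decide +kernel)
theorem L259297 : W_1 (nat_lit 3) (nat_lit 0x2000000018000e0000000000000000000000000000000) (nat_lit 0x0) (nat_lit 0xc000400030000000000000000000000000000000000000000) := Q_1 (nat_lit 178) (C_1 L259293 (C_1 L259294 (C_1 L259295 (C_1 L259296 N_1)))) (by decide +kernel)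
theorem L259298 : W_1 (nat_lit 2) (nat_lit 0x200008003d000e0000000000000000000000000000000) (nat_lit 0x0) (nat_lit 0x6000100000000000000000000000000000000000000000000) := D_1 (nat_lit 176) (nat_lit 193) (nat_lit 194) (nat_lit 6) (nat_lit 6) (nat_lit 11) (nat_lit 7) (nat_lit 6) (nat_lit 7) (by decide +kernel)
theorem L259299 : W_1 (nat_lit 3) (nat_lit 0x200000003d000e0000000000000000000000000000000) (nat_lit 0x0) (nat_lit 0x600010000c000000000000000000000000000000000000000) := T_1 (nat_lit 159) (nat_lit 158) (nat_lit 1) (nat_lit 9) (nat_lit 8) L259298 (by decide +kernel)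
theorem L259300 : W_1 (nat_lit 4) (nat_lit 0x200000003c000e0000000000000000000000000000000) (nat_lit 0x0) (nat_lit 0x600010000c000300000000000000000000000000000000000) := T_1 (nat_lit 140) (nat_lit 141) (nat_lit 2) (nat_lit 4) (nat_lit 8) L259299 (by decide +kernel)
theorem L259301 : W_1 (nat_lit 5) (nat_lit 0x200000001c000e0000000000000000000000000000000) (nat_lit 0x0) (nat_lit 0x600010000c006300000000000000000000000000000000000) := T_1 (nat_lit 145) (nat_lit 146) (nat_lit 0) (nat_lit 10) (nat_lit 8) L259300 (by decide +kernel)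
theorem L259302 : W_1 (nat_lit 2) (nat_lit 0x200020001e000e0000000000000000000000000000000) (nat_lit 0x0) (nat_lit 0xc000400000000000000000000000000000000000000000000) := D_1 (nat_lit 178) (nat_lit 195) (nat_lit 194) (nat_lit 4) (nat_lit 8) (nat_lit 11) (nat_lit 5) (nat_lit 8) (nat_lit 7) (by decide +kernel)
theorem L259303 : W_1 (nat_lit 3) (nat_lit 0x200000001e000e0000000000000000000000000000000) (nat_lit 0x0) (nat_lit 0xc000400060000000000000000000000000000000000000000) := T_1 (nat_lit 161) (nat_lit 162) (nat_lit 3) (nat_lit 5) (nat_lit 8) L259302 (by decide +kernel)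
theorem L259304 : W_1 (nat_lit 4) (nat_lit 0x200000001c000e0000000000000000000000000000000) (nat_lit 0x0) (nat_lit 0xc000400060000300000000000000000000000000000000000) := T_1 (nat_lit 141) (nat_lit 140) (nat_lit 2) (nat_lit 4) (nat_lit 8) L259303 (by decide +kernel)
theorem L259305 : W_1 (nat_lit 2) (nat_lit 0x200008003c000e0000000000000000000000000000000) (nat_lit 0x0) (nat_lit 0x6000100000000000000000000000000000000000000000000) := D_1 (nat_lit 176) (nat_lit 193) (nat_lit 194) (nat_lit 6) (nat_lit 6) (nat_lit 11) (nat_lit 7) (nat_lit 6) (nat_lit 7) (by decide +kernel)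
theorem L259306 : W_1 (nat_lit 3) (nat_lit 0x200000003c000e0000000000000000000000000000000) (nat_lit 0x0) (nat_lit 0x600010000c000000000000000000000000000000000000000) := T_1 (nat_lit 159) (nat_lit 158) (nat_lit 1) (nat_lit 9) (nat_lit 8) L259305 (by decide +kernel)
theorem L259307 : W_1 (nat_lit 4) (nat_lit 0x200000001c000e0000000000000000000000000000000) (nat_lit 0x0) (nat_lit 0x600010000c006000000000000000000000000000000000000) := T_1 (nat_lit 145) (nat_lit 146) (nat_lit 0) (nat_lit 10) (nat_lit 8) L259306 (by decide +kernel)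
theorem L259308 : W_1 (nat_lit 2) (nat_lit 0x200000003e000e0000000000000000000000000000000) (nat_lit 0x0) (nat_lit 0xe000000000000000000000000000000000000000) := D_1 (nat_lit 158) (nat_lit 159) (nat_lit 157) (nat_lit 1) (nat_lit 9) (nat_lit 8) (nat_lit 1) (nat_lit 8) (nat_lit 8) (by decide +kernel)
theorem L259309 : W_1 (nat_lit 3) (nat_lit 0x200000003c000e0000000000000000000000000000000) (nat_lit 0x0) (nat_lit 0xe000300000000000000000000000000000000000) := T_1 (nat_lit 141) (nat_lit 140) (nat_lit 2) (nat_lit 4) (nat_lit 8) L259308 (by decide +kernel)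
theorem L259310 : W_1 (nat_lit 4) (nat_lit 0x200000001c000e0000000000000000000000000000000) (nat_lit 0x0) (nat_lit 0xe006300000000000000000000000000000000000) := T_1 (nat_lit 145) (nat_lit 146) (nat_lit 0) (nat_lit 10) (nat_lit 8) L259309 (by decide +kernel)
theorem L259311 : W_1 (nat_lit 6) (nat_lit 0x2000000018000e0000000000000000000000000000000) (nat_lit 0x0) (nat_lit 0xe00050006e006700000000000000000000000000000000000) := Q_1 (nat_lit 142) (C_1 L259301 (C_1 L259304 (C_1 L259307 (C_1 L259310 N_1)))) (by decide +kernel)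
theorem L259312 : W_1 (nat_lit 2) (nat_lit 0x280008001d000e00010000c0008000000000000000000) (nat_lit 0x0) (nat_lit 0x3000100000000000000000000000000000000000000000000) := D_1 (nat_lit 176) (nat_lit 193) (nat_lit 192) (nat_lit 6) (nat_lit 6) (nat_lit 11) (nat_lit 5) (nat_lit 6) (nat_lit 7) (by decide +kernel)
theorem L259313 : W_1 (nat_lit 3) (nat_lit 0x200008001d000e00010000c0008000000000000000000) (nat_lit 0x0) (nat_lit 0x3000180004000000000000000000000000000000000000000) := T_1 (nat_lit 175) (nat_lit 158) (nat_lit 5) (nat_lit 6) (nat_lit 6) L259312 (by decide +kernel)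
theorem L259314 : W_1 (nat_lit 4) (nat_lit 0x200000001d000e00010000c0008000000000000000000) (nat_lit 0x0) (nat_lit 0x300018000c000000000000800000000000000000000000000) := T_1 (nat_lit 159) (nat_lit 107) (nat_lit 4) (nat_lit 6) (nat_lit 9) L259313 (by decide +kernel)
theorem L259315 : W_1 (nat_lit 5) (nat_lit 0x200000001d000e0001000080008000000000000000000) (nat_lit 0x0) (nat_lit 0x300018000c000000000000800040002000000000000000000) := T_1 (nat_lit 90) (nat_lit 73) (nat_lit 4) (nat_lit 6) (nat_lit 8) L259314 (by decide +kernel)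
theorem L259316 : W_1 (nat_lit 6) (nat_lit 0x200000001d000e0001000080000000000000000000000) (nat_lit 0x0) (nat_lit 0x300018000c00000000000080014000a000000000000000000) := T_1 (nat_lit 75) (nat_lit 92) (nat_lit 6) (nat_lit 6) (nat_lit 8) L259315 (by decide +kernel)
theorem L259317 : W_1 (nat_lit 7) (nat_lit 0x200000001d000e0001000000000000000000000000000) (nat_lit 0x0) (nat_lit 0x300018000c0000000000008001c000e000000000000000000) := T_1 (nat_lit 91) (nat_lit 74) (nat_lit 7) (nat_lit 6) (nat_lit 4) L259316 (by decide +kernel)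
theorem L259318 : W_1 (nat_lit 8) (nat_lit 0x200000001d000e0000000000000000000000000000000) (nat_lit 0x0) (nat_lit 0x300018001c0000000000018001c000e000000000000000000) := T_1 (nat_lit 108) (nat_lit 160) (nat_lit 4) (nat_lit 7) (nat_lit 10) L259317 (by decide +kernel)
theorem L259319 : W_1 (nat_lit 9) (nat_lit 0x200000001c000e0000000000000000000000000000000) (nat_lit 0x0) (nat_lit 0x300018001c0003000000018001c000e000000000000000000) := T_1 (nat_lit 140) (nat_lit 141) (nat_lit 2) (nat_lit 4) (nat_lit 8) L259318 (by decide +kernel)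
theorem L259320 : W_1 (nat_lit 2) (nat_lit 0x200008003c000e0001000080000000000000000000000) (nat_lit 0x0) (nat_lit 0x800040002000000000000000000) := D_1 (nat_lit 90) (nat_lit 73) (nat_lit 107) (nat_lit 4) (nat_lit 6) (nat_lit 8) (nat_lit 4) (nat_lit 6) (nat_lit 9) (by decide +kernel)
theorem L259321 : W_1 (nat_lit 3) (nat_lit 0x200000003c000e0001000080000000000000000000000) (nat_lit 0x0) (nat_lit 0xc000000000000800040002000000000000000000) := T_1 (nat_lit 159) (nat_lit 158) (nat_lit 1) (nat_lit 9) (nat_lit 8) L259320 (by decide +kernel)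
theorem L259322 : W_1 (nat_lit 4) (nat_lit 0x200000003c000e0001000000000000000000000000000) (nat_lit 0x0) (nat_lit 0xc0000000000008000c0006000000000000000000) := T_1 (nat_lit 91) (nat_lit 74) (nat_lit 7) (nat_lit 6) (nat_lit 4) L259321 (by decide +kernel)
theorem L259323 : W_1 (nat_lit 5) (nat_lit 0x200000001c000e0001000000000000000000000000000) (nat_lit 0x0) (nat_lit 0xc0060000000008000c0006000000000000000000) := T_1 (nat_lit 145) (nat_lit 146) (nat_lit 0) (nat_lit 10) (nat_lit 8) L259322 (by decide +kernel)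
theorem L259324 : W_1 (nat_lit 6) (nat_lit 0x200000001c000e0000000000000000000000000000000) (nat_lit 0x0) (nat_lit 0x1c0060000000018000c0006000000000000000000) := T_1 (nat_lit 108) (nat_lit 160) (nat_lit 4) (nat_lit 7) (nat_lit 10) L259323 (by decide +kernel)
theorem L259325 : W_1 (nat_lit 2) (nat_lit 0x200000003d000e00018001c0000000000000000000000) (nat_lit 0x0) (nat_lit 0x600200000000000000000000000) := D_1 (nat_lit 106) (nat_lit 105) (nat_lit 93) (nat_lit 3) (nat_lit 3) (nat_lit 6) (nat_lit 1) (nat_lit 8) (nat_lit 5) (by decide +kernel)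
theorem L259326 : W_1 (nat_lit 3) (nat_lit 0x200000003d000e00010001c0000000000000000000000) (nat_lit 0x0) (nat_lit 0x8000000000000e00200000000000000000000000) := T_1 (nat_lit 107) (nat_lit 159) (nat_lit 4) (nat_lit 6) (nat_lit 9) L259325 (by decide +kernel)
theorem L259327 : W_1 (nat_lit 4) (nat_lit 0x200000003d000e0001000180000000000000000000000) (nat_lit 0x0) (nat_lit 0x8000000000000e00240002000000000000000000) := T_1 (nat_lit 90) (nat_lit 73) (nat_lit 4) (nat_lit 6) (nat_lit 8) L259326 (by decide +kernel)
theorem L259328 : W_1 (nat_lit 5) (nat_lit 0x200000003d000e0001000080000000000000000000000) (nat_lit 0x0) (nat_lit 0x8000000000000e0034000a000000000000000000) := T_1 (nat_lit 92) (nat_lit 75) (nat_lit 6) (nat_lit 6) (nat_lit 8) L259327 (by decide +kernel)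
theorem L259329 : W_1 (nat_lit 6) (nat_lit 0x200000003d000e0001000000000000000000000000000) (nat_lit 0x0) (nat_lit 0x8000000000000e003c000e000000000000000000) := T_1 (nat_lit 91) (nat_lit 74) (nat_lit 7) (nat_lit 6) (nat_lit 4) L259328 (by decide +kernel)
theorem L259330 : W_1 (nat_lit 7) (nat_lit 0x200000003d000e0000000000000000000000000000000) (nat_lit 0x0) (nat_lit 0x18000000000001e003c000e000000000000000000) := T_1 (nat_lit 108) (nat_lit 160) (nat_lit 4) (nat_lit 7) (nat_lit 10) L259329 (by decide +kernel)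
theorem L259331 : W_1 (nat_lit 8) (nat_lit 0x200000003c000e0000000000000000000000000000000) (nat_lit 0x0) (nat_lit 0x18000300000001e003c000e000000000000000000) := T_1 (nat_lit 140) (nat_lit 141) (nat_lit 2) (nat_lit 4) (nat_lit 8) L259330 (by decide +kernel)
theorem L259332 : W_1 (nat_lit 9) (nat_lit 0x200000001c000e0000000000000000000000000000000) (nat_lit 0x0) (nat_lit 0x18006300000001e003c000e000000000000000000) := T_1 (nat_lit 145) (nat_lit 146) (nat_lit 0) (nat_lit 10) (nat_lit 8) L259331 (by decide +kernel)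
theorem L259333 : W_1 (nat_lit 2) (nat_lit 0x200000003c000e0001000080000000000000000000000) (nat_lit 0x0) (nat_lit 0x4000300000000000000000000000000000000000) := D_1 (nat_lit 141) (nat_lit 140) (nat_lit 158) (nat_lit 2) (nat_lit 4) (nat_lit 8) (nat_lit 5) (nat_lit 6) (nat_lit 5) (by decide +kernel)
theorem L259334 : W_1 (nat_lit 3) (nat_lit 0x200000003c000e0001000000000000000000000000000) (nat_lit 0x0) (nat_lit 0x4000300000000000080004000000000000000000) := T_1 (nat_lit 91) (nat_lit 74) (nat_lit 7) (nat_lit 6) (nat_lit 4) L259333 (by decide +kernel)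
theorem L259335 : W_1 (nat_lit 4) (nat_lit 0x200000001c000e0001000000000000000000000000000) (nat_lit 0x0) (nat_lit 0x4006300000000000080004000000000000000000) := T_1 (nat_lit 145) (nat_lit 146) (nat_lit 0) (nat_lit 10) (nat_lit 8) L259334 (by decide +kernel)
theorem L259336 : W_1 (nat_lit 5) (nat_lit 0x200000001c000e0000000000000000000000000000000) (nat_lit 0x0) (nat_lit 0x14006300000001000080004000000000000000000) := T_1 (nat_lit 108) (nat_lit 160) (nat_lit 4) (nat_lit 7) (nat_lit 10) L259335 (by decide +kernel)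
theorem L259337 : W_1 (nat_lit 10) (nat_lit 0x2000000018000e0000000000000000000000000000000) (nat_lit 0x0) (nat_lit 0x300018001e006700000001e003c000e000000000000000000) := Q_1 (nat_lit 142) (C_1 L259310 (C_1 L259319 (C_1 L259324 (C_1 L259332 (C_1 L259336 N_1))))) (by decide +kernel)
theorem L259338 : W_1 (nat_lit 11) (nat_lit 0x18000e0000000000000000000000000000000) (nat_lit 0x0) (nat_lit 0xf00078007e006700000001e003c000e000000000000000000) := Q_1 (nat_lit 177) (C_1 L22066 (C_1 L259297 (C_1 L259311 (C_1 L259337 N_1)))) (by decide +kernel)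
theorem L259391 : W_1 (nat_lit 6) (nat_lit 0x380018000e0002000000000000000000000000000) (nat_lit 0x0) (nat_lit 0x10000c0046000700000001000080000000000000000000000) := T_1 (nat_lit 91) (nat_lit 108) (nat_lit 4) (nat_lit 7) (nat_lit 9) L259198 (by decide +kernel)
theorem L259392 : W_1 (nat_lit 7) (nat_lit 0x180018000e0002000000000000000000000000000) (nat_lit 0x0) (nat_lit 0x10004c0066000700000001000080000000000000000000000) := T_1 (nat_lit 161) (nat_lit 178) (nat_lit 7) (nat_lit 7) (nat_lit 6) L259391 (by decide +kernel)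
theorem L259393 : W_1 (nat_lit 8) (nat_lit 0x180018000e0000000000000000000000000000000) (nat_lit 0x0) (nat_lit 0x10005c0066000700000003000080000000000000000000000) := T_1 (nat_lit 109) (nat_lit 176) (nat_lit 5) (nat_lit 7) (nat_lit 6) L259392 (by decide +kernel)
theorem L259394 : W_1 (nat_lit 6) (nat_lit 0x180038000e0002000000000000000000000000000) (nat_lit 0x0) (nat_lit 0x400060000700000001c000c0000000000000000000000) := T_1 (nat_lit 161) (nat_lit 178) (nat_lit 7) (nat_lit 7) (nat_lit 6) L66804 (by decide +kernel)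
theorem L259395 : W_1 (nat_lit 7) (nat_lit 0x180038000e0000000000000000000000000000000) (nat_lit 0x0) (nat_lit 0x500060000700000003c000c0000000000000000000000) := T_1 (nat_lit 109) (nat_lit 176) (nat_lit 5) (nat_lit 7) (nat_lit 6) L259394 (by decide +kernel)
theorem L259396 : W_1 (nat_lit 8) (nat_lit 0x180018000e0000000000000000000000000000000) (nat_lit 0x0) (nat_lit 0x500060006700000003c000c0000000000000000000000) := T_1 (nat_lit 145) (nat_lit 146) (nat_lit 1) (nat_lit 10) (nat_lit 8) L259395 (by decide +kernel)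
theorem L259397 : W_1 (nat_lit 9) (nat_lit 0x100018000e0000000000000000000000000000000) (nat_lit 0x0) (nat_lit 0x10005c006e006700000003c000c0000000000000000000000) := Q_1 (nat_lit 159) (C_1 L259254 (C_1 L259180 (C_1 L259393 (C_1 L259396 N_1)))) (by decide +kernel)
theorem L259398 : W_1 (nat_lit 10) (nat_lit 0x18000e0000000000000000000000000000000) (nat_lit 0x0) (nat_lit 0x3f001fc007e006700000003c000c0000000000000000000000) := Q_1 (nat_lit 160) (C_1 L22056 (C_1 L259397 (C_1 L259266 N_1))) (by decide +kernel)
theorem L259905 : W_1 (nat_lit 2) (nat_lit 0x380008003c000e0001000080000000000000000000000) (nat_lit 0x0) (nat_lit 0x800040002000000000000000000) := D_1 (nat_lit 90) (nat_lit 107) (nat_lit 73) (nat_lit 4) (nat_lit 6) (nat_lit 9) (nat_lit 4) (nat_lit 6) (nat_lit 8) (by decide +kernel)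
theorem L259906 : W_1 (nat_lit 3) (nat_lit 0x380008003c000e0001000000000000000000000000000) (nat_lit 0x0) (nat_lit 0x8000c0006000000000000000000) := T_1 (nat_lit 91) (nat_lit 74) (nat_lit 7) (nat_lit 6) (nat_lit 4) L259905 (by decide +kernel)
theorem L259907 : W_1 (nat_lit 4) (nat_lit 0x380008003c000e0000000000000000000000000000000) (nat_lit 0x0) (nat_lit 0x100000000000018000c0006000000000000000000) := T_1 (nat_lit 108) (nat_lit 160) (nat_lit 7) (nat_lit 6) (nat_lit 6) L259906 (by decide +kernel)
theorem L259908 : W_1 (nat_lit 5) (nat_lit 0x180008003c000e0000000000000000000000000000000) (nat_lit 0x0) (nat_lit 0x40002000100000000000018000c0006000000000000000000) := T_1 (nat_lit 177) (nat_lit 194) (nat_lit 7) (nat_lit 6) (nat_lit 7) L259907 (by decide +kernel)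
theorem L259909 : W_1 (nat_lit 6) (nat_lit 0x100008003c000e0000000000000000000000000000000) (nat_lit 0x0) (nat_lit 0x50002800100000000000018000c0006000000000000000000) := T_1 (nat_lit 175) (nat_lit 192) (nat_lit 5) (nat_lit 6) (nat_lit 7) L259908 (by decide +kernel)
theorem L259910 : W_1 (nat_lit 7) (nat_lit 0x8003c000e0000000000000000000000000000000) (nat_lit 0x0) (nat_lit 0x70003800100000000000018000c0006000000000000000000) := T_1 (nat_lit 176) (nat_lit 193) (nat_lit 6) (nat_lit 6) (nat_lit 11) L259909 (by decide +kernel)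
theorem L260872 : W_1 (nat_lit 2) (nat_lit 0x200010003c000a000000000000000000000000000) (nat_lit 0x0) (nat_lit 0x2000000000000400020000000000000000000) := D_1 (nat_lit 94) (nat_lit 77) (nat_lit 145) (nat_lit 5) (nat_lit 9) (nat_lit 4) (nat_lit 5) (nat_lit 9) (nat_lit 5) (by decide +kernel)
theorem L260873 : W_1 (nat_lit 3) (nat_lit 0x10003c000a000000000000000000000000000) (nat_lit 0x0) (nat_lit 0x400020002000000000000400020000000000000000000) := T_1 (nat_lit 161) (nat_lit 178) (nat_lit 6) (nat_lit 8) (nat_lit 10) L260872 (by decide +kernel)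
theorem L260891 : W_1 (nat_lit 2) (nat_lit 0x1000fc0002000000000000000000000000000) (nat_lit 0x0) (nat_lit 0xe0000000000000000000000000000) := D_1 (nat_lit 114) (nat_lit 113) (nat_lit 115) (nat_lit 2) (nat_lit 8) (nat_lit 7) (nat_lit 2) (nat_lit 9) (nat_lit 7) (by decide +kernel)
theorem L260892 : W_1 (nat_lit 3) (nat_lit 0x10007c0002000000000000000000000000000) (nat_lit 0x0) (nat_lit 0x20008000e0000000000000000000000000000) := T_1 (nat_lit 131) (nat_lit 145) (nat_lit 1) (nat_lit 12) (nat_lit 7) L260891 (by decide +kernel)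
theorem L260893 : W_1 (nat_lit 2) (nat_lit 0x20021000fc0082000000000000000000000000000) (nat_lit 0x0) (nat_lit 0x40001000100000000000000000000000000000) := D_1 (nat_lit 132) (nat_lit 150) (nat_lit 116) (nat_lit 3) (nat_lit 10) (nat_lit 7) (nat_lit 2) (nat_lit 10) (nat_lit 7) (by decide +kernel)
theorem L260894 : W_1 (nat_lit 3) (nat_lit 0x20021000fc0002000000000000000000000000000) (nat_lit 0x0) (nat_lit 0x400010001c0000000000000000000000000000) := T_1 (nat_lit 115) (nat_lit 114) (nat_lit 2) (nat_lit 9) (nat_lit 7) L260893 (by decide +kernel)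
theorem L260895 : W_1 (nat_lit 4) (nat_lit 0x20001000fc0002000000000000000000000000000) (nat_lit 0x0) (nat_lit 0x700010001c0000000000000000000000000000) := T_1 (nat_lit 149) (nat_lit 148) (nat_lit 3) (nat_lit 9) (nat_lit 7) L260894 (by decide +kernel)
theorem L260896 : W_1 (nat_lit 5) (nat_lit 0x1000fc0002000000000000000000000000000) (nat_lit 0x0) (nat_lit 0x4000200700010001c0000000000000000000000000000) := T_1 (nat_lit 161) (nat_lit 178) (nat_lit 4) (nat_lit 8) (nat_lit 10) L260895 (by decide +kernel)
theorem L260897 : W_1 (nat_lit 6) (nat_lit 0x10007c0002000000000000000000000000000) (nat_lit 0x0) (nat_lit 0x4000200720018001c0000000000000000000000000000) := T_1 (nat_lit 131) (nat_lit 145) (nat_lit 1) (nat_lit 12) (nat_lit 7) L260896 (by decide +kernel)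
theorem L260898 : W_1 (nat_lit 2) (nat_lit 0x20001001fc0012000000000000000000000000000) (nat_lit 0x0) (nat_lit 0x70000000000000000000000000000000000000) := D_1 (nat_lit 149) (nat_lit 148) (nat_lit 150) (nat_lit 3) (nat_lit 9) (nat_lit 7) (nat_lit 3) (nat_lit 10) (nat_lit 7) (by decide +kernel)
theorem L260899 : W_1 (nat_lit 3) (nat_lit 0x20001000fc0012000000000000000000000000000) (nat_lit 0x0) (nat_lit 0x70001000008000000000000000000000000000) := T_1 (nat_lit 132) (nat_lit 111) (nat_lit 0) (nat_lit 13) (nat_lit 7) L260898 (by decide +kernel)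
theorem L260900 : W_1 (nat_lit 4) (nat_lit 0x200010007c0012000000000000000000000000000) (nat_lit 0x0) (nat_lit 0x72001800008000000000000000000000000000) := T_1 (nat_lit 131) (nat_lit 145) (nat_lit 1) (nat_lit 12) (nat_lit 7) L260899 (by decide +kernel)
theorem L260901 : W_1 (nat_lit 5) (nat_lit 0x200010007c0002000000000000000000000000000) (nat_lit 0x0) (nat_lit 0x72001800038000000000000000000000000000) := T_1 (nat_lit 112) (nat_lit 113) (nat_lit 2) (nat_lit 7) (nat_lit 7) L260900 (by decide +kernel)
theorem L260902 : W_1 (nat_lit 6) (nat_lit 0x10007c0002000000000000000000000000000) (nat_lit 0x0) (nat_lit 0x400020072001800038000000000000000000000000000) := T_1 (nat_lit 161) (nat_lit 178) (nat_lit 4) (nat_lit 8) (nat_lit 10) L260901 (by decide +kernel)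
theorem L260903 : W_1 (nat_lit 7) (nat_lit 0x10003c0002000000000000000000000000000) (nat_lit 0x0) (nat_lit 0x400020072001c001f8000000000000000000000000000) := Q_1 (nat_lit 130) (C_1 L2366 (C_1 L260892 (C_1 L260897 (C_1 L260902 N_1)))) (by decide +kernel)
theorem L261430 : W_1 (nat_lit 2) (nat_lit 0x28003c001c0002000400000000000000000000000) (nat_lit 0x0) (nat_lit 0x2000100010000000000000000000000000000000000000000) := D_1 (nat_lit 176) (nat_lit 193) (nat_lit 160) (nat_lit 6) (nat_lit 6) (nat_lit 11) (nat_lit 5) (nat_lit 7) (nat_lit 6) (by decide +kernel)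
theorem L261431 : W_1 (nat_lit 3) (nat_lit 0x20003c001c0002000400000000000000000000000) (nat_lit 0x0) (nat_lit 0x200010001c000000000000000000000000000000000000000) := T_1 (nat_lit 159) (nat_lit 158) (nat_lit 1) (nat_lit 9) (nat_lit 8) L261430 (by decide +kernel)
theorem L261928 : W_1 (nat_lit 2) (nat_lit 0x8003c002c0000000000000000000000000000000) (nat_lit 0x0) (nat_lit 0xc000400000000000000000000000000000000) := D_1 (nat_lit 146) (nat_lit 147) (nat_lit 130) (nat_lit 0) (nat_lit 11) (nat_lit 8) (nat_lit 2) (nat_lit 7) (nat_lit 8) (by decide +kernel)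
theorem L261929 : W_1 (nat_lit 3) (nat_lit 0x8001c002c0000000000000000000000000000000) (nat_lit 0x0) (nat_lit 0x400e000400000000000000000000000000000000) := T_1 (nat_lit 145) (nat_lit 158) (nat_lit 1) (nat_lit 9) (nat_lit 8) L261928 (by decide +kernel)
theorem L261930 : W_1 (nat_lit 4) (nat_lit 0x8001c000c0000000000000000000000000000000) (nat_lit 0x0) (nat_lit 0x400e000700000000000000000000000000000000) := T_1 (nat_lit 129) (nat_lit 128) (nat_lit 1) (nat_lit 10) (nat_lit 7) L261929 (by decide +kernel)
theorem L261931 : W_1 (nat_lit 5) (nat_lit 0x1c000c0000000000000000000000000000000) (nat_lit 0x0) (nat_lit 0x200010001f00e000700002000100000000000000000000000) := Q_1 (nat_lit 159) (C_1 L25545 (C_1 L25548 (C_1 L261930 N_1))) (by decide +kernel)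
theorem L261932 : W_1 (nat_lit 7) (nat_lit 0x18000c0000000000000000000000000000000) (nat_lit 0x0) (nat_lit 0x200010001f00e700718002800100000000000000000000000) := Q_1 (nat_lit 142) (C_1 L1558 (C_1 L22029 (C_1 L261931 N_1))) (by decide +kernel)
theorem L261933 : W_1 (nat_lit 2) (nat_lit 0x380018000c0002000000000000000000000000000) (nat_lit 0x0) (nat_lit 0x4006000000000000000000000000000000000000) := D_1 (nat_lit 145) (nat_lit 158) (nat_lit 146) (nat_lit 2) (nat_lit 5) (nat_lit 9) (nat_lit 1) (nat_lit 10) (nat_lit 8) (by decide +kernel)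
theorem L261934 : W_1 (nat_lit 3) (nat_lit 0x300018000c0002000000000000000000000000000) (nat_lit 0x0) (nat_lit 0x10000c006000000000000000000000000000000000000) := T_1 (nat_lit 159) (nat_lit 176) (nat_lit 5) (nat_lit 7) (nat_lit 6) L261933 (by decide +kernel)
theorem L261935 : W_1 (nat_lit 4) (nat_lit 0x100018000c0002000000000000000000000000000) (nat_lit 0x0) (nat_lit 0x50002c006000000000000000000000000000000000000) := T_1 (nat_lit 161) (nat_lit 178) (nat_lit 7) (nat_lit 7) (nat_lit 6) L261934 (by decide +kernel)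
theorem L261936 : W_1 (nat_lit 5) (nat_lit 0x18000c0002000000000000000000000000000) (nat_lit 0x0) (nat_lit 0xe00070003c006000000000000000000000000000000000000) := Q_1 (nat_lit 160) (C_1 L258228 (C_1 L257104 (C_1 L261935 N_1))) (by decide +kernel)
theorem L261937 : W_1 (nat_lit 7) (nat_lit 0x18000c0000000000000000000000000000000) (nat_lit 0x0) (nat_lit 0xe00070003c006000000003c0078001c000000000000000000) := Q_1 (nat_lit 109) (C_1 L252800 (C_1 L3113 (C_1 L261936 N_1))) (by decide +kernel)
theorem L261938 : W_1 (nat_lit 2) (nat_lit 0x200018001c0008000000000000000000000000000) (nat_lit 0x0) (nat_lit 0x2000000000000400020000000000000000000) := D_1 (nat_lit 94) (nat_lit 145) (nat_lit 77) (nat_lit 5) (nat_lit 9) (nat_lit 5) (nat_lit 5) (nat_lit 9) (nat_lit 4) (by decide +kernel)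
theorem L262099 : W_1 (nat_lit 2) (nat_lit 0x20003c000c0000000000000000000000000000000) (nat_lit 0x0) (nat_lit 0x40000300000000000000000000000000000000000) := D_1 (nat_lit 141) (nat_lit 162) (nat_lit 140) (nat_lit 3) (nat_lit 5) (nat_lit 8) (nat_lit 2) (nat_lit 4) (nat_lit 8) (by decide +kernel)
theorem L263328 : W_1 (nat_lit 2) (nat_lit 0x4000100078003c0010000000000000000000000000000) (nat_lit 0x0) (nat_lit 0x40000000000000000800040000000000000000000) := D_1 (nat_lit 95) (nat_lit 78) (nat_lit 162) (nat_lit 5) (nat_lit 10) (nat_lit 4) (nat_lit 5) (nat_lit 10) (nat_lit 5) (by decide +kernel)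
theorem L263329 : W_1 (nat_lit 3) (nat_lit 0x4000100058003c0010000000000000000000000000000) (nat_lit 0x0) (nat_lit 0x48002000000000000800040000000000000000000) := T_1 (nat_lit 145) (nat_lit 159) (nat_lit 1) (nat_lit 10) (nat_lit 8) L263328 (by decide +kernel)
theorem L263330 : W_1 (nat_lit 4) (nat_lit 0x4000100018003c0010000000000000000000000000000) (nat_lit 0x0) (nat_lit 0x4800e000000000000800040000000000000000000) := T_1 (nat_lit 146) (nat_lit 147) (nat_lit 3) (nat_lit 7) (nat_lit 7) L263329 (by decide +kernel)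
theorem L263331 : W_1 (nat_lit 5) (nat_lit 0x4000100018003c0000000000000000000000000000000) (nat_lit 0x0) (nat_lit 0x4800e000000030000800040000000000000000000) := T_1 (nat_lit 112) (nat_lit 113) (nat_lit 2) (nat_lit 7) (nat_lit 7) L263330 (by decide +kernel)
theorem L263332 : W_1 (nat_lit 6) (nat_lit 0x4000100018001c0000000000000000000000000000000) (nat_lit 0x0) (nat_lit 0x4800e000600030000800040000000000000000000) := T_1 (nat_lit 129) (nat_lit 130) (nat_lit 1) (nat_lit 11) (nat_lit 7) L263331 (by decide +kernel)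
theorem L263350 : W_1 (nat_lit 7) (nat_lit 0x4000000018001c0000000000000000000000000000000) (nat_lit 0x0) (nat_lit 0xc00020005800e000600030000800040000000000000000000) := Q_1 (nat_lit 160) (C_1 L257679 (C_1 L263332 N_1)) (by decide +kernel)
theorem L274613 : W_1 (nat_lit 2) (nat_lit 0x7000100078003c0000000000000000000000000000000) (nat_lit 0x0) (nat_lit 0x2000000000000a000000000000000000000000000) := D_1 (nat_lit 161) (nat_lit 109) (nat_lit 111) (nat_lit 7) (nat_lit 7) (nat_lit 6) (nat_lit 6) (nat_lit 8) (nat_lit 10) (by decide +kernel)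
theorem L274614 : W_1 (nat_lit 3) (nat_lit 0x3000100078003c0000000000000000000000000000000) (nat_lit 0x0) (nat_lit 0x800040002000000000000a000000000000000000000000000) := T_1 (nat_lit 178) (nat_lit 195) (nat_lit 7) (nat_lit 7) (nat_lit 7) L274613 (by decide +kernel)
theorem L274615 : W_1 (nat_lit 4) (nat_lit 0x2000100078003c0000000000000000000000000000000) (nat_lit 0x0) (nat_lit 0xa00050002000000000000a000000000000000000000000000) := T_1 (nat_lit 176) (nat_lit 193) (nat_lit 5) (nat_lit 7) (nat_lit 7) L274614 (by decide +kernel)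
theorem L274616 : W_1 (nat_lit 5) (nat_lit 0x100078003c0000000000000000000000000000000) (nat_lit 0x0) (nat_lit 0xe00070002000000000000a000000000000000000000000000) := T_1 (nat_lit 177) (nat_lit 194) (nat_lit 6) (nat_lit 7) (nat_lit 11) L274615 (by decide +kernel)
theorem L274617 : W_1 (nat_lit 6) (nat_lit 0x78003c0000000000000000000000000000000) (nat_lit 0x0) (nat_lit 0xe00070003800000000000a000000000000000000000000000) := T_1 (nat_lit 160) (nat_lit 159) (nat_lit 1) (nat_lit 10) (nat_lit 8) L274616 (by decide +kernel)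
theorem L291535 : W_1 (nat_lit 2) (nat_lit 0x28003800180000000000000000000000000000000) (nat_lit 0x0) (nat_lit 0x14004000000000000000000000000000000000000) := D_1 (nat_lit 160) (nat_lit 146) (nat_lit 158) (nat_lit 1) (nat_lit 10) (nat_lit 8) (nat_lit 2) (nat_lit 5) (nat_lit 9) (by decide +kernel)
theorem L291544 : W_1 (nat_lit 2) (nat_lit 0x38001800180000000000000000000000000000000) (nat_lit 0x0) (nat_lit 0x6002000000000000000000000000000000000000) := D_1 (nat_lit 158) (nat_lit 145) (nat_lit 157) (nat_lit 2) (nat_lit 5) (nat_lit 9) (nat_lit 2) (nat_lit 4) (nat_lit 9) (by decide +kernel)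
theorem L291558 : W_1 (nat_lit 2) (nat_lit 0x3000300018001c0000000000000000000000000000000) (nat_lit 0x0) (nat_lit 0x8000000000002000100000000000000000000000) := D_1 (nat_lit 109) (nat_lit 159) (nat_lit 92) (nat_lit 5) (nat_lit 7) (nat_lit 6) (nat_lit 7) (nat_lit 7) (nat_lit 5) (by decide +kernel)
theorem L291559 : W_1 (nat_lit 3) (nat_lit 0x2000300018001c0000000000000000000000000000000) (nat_lit 0x0) (nat_lit 0x2000100008000000000002000100000000000000000000000) := T_1 (nat_lit 176) (nat_lit 193) (nat_lit 5) (nat_lit 7) (nat_lit 7) L291558 (by decide +kernel)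
theorem L291560 : W_1 (nat_lit 4) (nat_lit 0x300018001c0000000000000000000000000000000) (nat_lit 0x0) (nat_lit 0x6000300008000000000002000100000000000000000000000) := T_1 (nat_lit 177) (nat_lit 194) (nat_lit 6) (nat_lit 7) (nat_lit 11) L291559 (by decide +kernel)
theorem L291618 : W_1 (nat_lit 2) (nat_lit 0x200018001c0000000400000000000000000000000) (nat_lit 0x0) (nat_lit 0x2000000008000000020000000000000000000) := D_1 (nat_lit 111) (nat_lit 145) (nat_lit 77) (nat_lit 5) (nat_lit 9) (nat_lit 5) (nat_lit 5) (nat_lit 9) (nat_lit 4) (by decide +kernel)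
theorem L291642 : W_1 (nat_lit 2) (nat_lit 0x200058003c0010000c00000000000000000000000) (nat_lit 0x0) (nat_lit 0x40002000000000000000040000000000000000000) := D_1 (nat_lit 145) (nat_lit 78) (nat_lit 162) (nat_lit 5) (nat_lit 10) (nat_lit 4) (nat_lit 5) (nat_lit 10) (nat_lit 5) (by decide +kernel)
theorem L291643 : W_1 (nat_lit 3) (nat_lit 0x200058003c0010000400000000000000000000000) (nat_lit 0x0) (nat_lit 0x40002000000000000800060000000000000000000) := T_1 (nat_lit 95) (nat_lit 77) (nat_lit 4) (nat_lit 10) (nat_lit 8) L291642 (by decide +kernel)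
theorem L291644 : W_1 (nat_lit 4) (nat_lit 0x200018003c0010000400000000000000000000000) (nat_lit 0x0) (nat_lit 0x4000e000000000000800060000000000000000000) := T_1 (nat_lit 146) (nat_lit 147) (nat_lit 3) (nat_lit 7) (nat_lit 7) L291643 (by decide +kernel)
theorem L291645 : W_1 (nat_lit 5) (nat_lit 0x200018003c0000000400000000000000000000000) (nat_lit 0x0) (nat_lit 0x4000e000000030000800060000000000000000000) := T_1 (nat_lit 112) (nat_lit 113) (nat_lit 2) (nat_lit 7) (nat_lit 7) L291644 (by decide +kernel)
theorem L291646 : W_1 (nat_lit 6) (nat_lit 0x200018001c0000000400000000000000000000000) (nat_lit 0x0) (nat_lit 0x4000e000600030000800060000000000000000000) := T_1 (nat_lit 129) (nat_lit 130) (nat_lit 1) (nat_lit 11) (nat_lit 7) L291645 (by decide +kernel)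
theorem L291647 : W_1 (nat_lit 2) (nat_lit 0x280078003c0010000400000000000000000000000) (nat_lit 0x0) (nat_lit 0x40000000000000000800040000000000000000000) := D_1 (nat_lit 95) (nat_lit 78) (nat_lit 162) (nat_lit 5) (nat_lit 10) (nat_lit 4) (nat_lit 5) (nat_lit 10) (nat_lit 5) (by decide +kernel)
theorem L291648 : W_1 (nat_lit 3) (nat_lit 0x280078003c0000000400000000000000000000000) (nat_lit 0x0) (nat_lit 0x40000000000030000800040000000000000000000) := T_1 (nat_lit 112) (nat_lit 113) (nat_lit 2) (nat_lit 7) (nat_lit 7) L291647 (by decide +kernel)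
theorem L291649 : W_1 (nat_lit 4) (nat_lit 0x200078003c0000000400000000000000000000000) (nat_lit 0x0) (nat_lit 0x58000000000030000800040000000000000000000) := T_1 (nat_lit 159) (nat_lit 160) (nat_lit 1) (nat_lit 10) (nat_lit 8) L291648 (by decide +kernel)
theorem L291650 : W_1 (nat_lit 5) (nat_lit 0x200038003c0000000400000000000000000000000) (nat_lit 0x0) (nat_lit 0x5800c000000030000800040000000000000000000) := T_1 (nat_lit 146) (nat_lit 147) (nat_lit 3) (nat_lit 7) (nat_lit 7) L291649 (by decide +kernel)
theorem L291651 : W_1 (nat_lit 6) (nat_lit 0x200018003c0000000400000000000000000000000) (nat_lit 0x0) (nat_lit 0x5800e000000038000800040000000000000000000) := T_1 (nat_lit 145) (nat_lit 111) (nat_lit 5) (nat_lit 9) (nat_lit 5) L291650 (by decide +kernel)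
theorem L291652 : W_1 (nat_lit 7) (nat_lit 0x200018001c0000000400000000000000000000000) (nat_lit 0x0) (nat_lit 0x5800e000600038000800040000000000000000000) := T_1 (nat_lit 129) (nat_lit 130) (nat_lit 1) (nat_lit 11) (nat_lit 7) L291651 (by decide +kernel)
theorem L291653 : W_1 (nat_lit 8) (nat_lit 0x200018001c0000000000000000000000000000000) (nat_lit 0x0) (nat_lit 0x5800e000600038000c00060000000000000000000) := Q_1 (nat_lit 94) (C_1 L257454 (C_1 L291618 (C_1 L291646 (C_1 L291652 N_1)))) (by decide +kernel)
theorem L291654 : W_1 (nat_lit 2) (nat_lit 0x380018001c0002000000000000000000000000000) (nat_lit 0x0) (nat_lit 0x4006000000000000000000000000000000000000) := D_1 (nat_lit 145) (nat_lit 158) (nat_lit 146) (nat_lit 2) (nat_lit 5) (nat_lit 9) (nat_lit 1) (nat_lit 10) (nat_lit 8) (by decide +kernel)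
theorem L291655 : W_1 (nat_lit 3) (nat_lit 0x300018001c0002000000000000000000000000000) (nat_lit 0x0) (nat_lit 0x10000c006000000000000000000000000000000000000) := T_1 (nat_lit 159) (nat_lit 176) (nat_lit 5) (nat_lit 7) (nat_lit 6) L291654 (by decide +kernel)
theorem L291697 : W_1 (nat_lit 2) (nat_lit 0x28007800180000000000000000000000000000000) (nat_lit 0x0) (nat_lit 0x18000040000000000000000000000000000000) := D_1 (nat_lit 147) (nat_lit 148) (nat_lit 126) (nat_lit 0) (nat_lit 12) (nat_lit 8) (nat_lit 0) (nat_lit 11) (nat_lit 8) (by decide +kernel)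
theorem L291698 : W_1 (nat_lit 3) (nat_lit 0x28003800180000000000000000000000000000000) (nat_lit 0x0) (nat_lit 0x1001c000040000000000000000000000000000000) := T_1 (nat_lit 146) (nat_lit 160) (nat_lit 1) (nat_lit 10) (nat_lit 8) L291697 (by decide +kernel)
theorem L292175 : W_1 (nat_lit 2) (nat_lit 0xf000100038003c0010000000040000000000000000000) (nat_lit 0x0) (nat_lit 0x100000c000000000000000000000000000000000000000) := D_1 (nat_lit 159) (nat_lit 158) (nat_lit 180) (nat_lit 0) (nat_lit 9) (nat_lit 10) (nat_lit 0) (nat_lit 10) (nat_lit 10) (by decide +kernel)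
theorem L292176 : W_1 (nat_lit 3) (nat_lit 0x7000100038003c0010000000040000000000000000000) (nat_lit 0x0) (nat_lit 0x180004c000000000000000000000000000000000000000) := T_1 (nat_lit 179) (nat_lit 162) (nat_lit 6) (nat_lit 9) (nat_lit 10) L292175 (by decide +kernel)
theorem L292177 : W_1 (nat_lit 4) (nat_lit 0x7000100038003c0010000000000000000000000000000) (nat_lit 0x0) (nat_lit 0x180004c000000000000000800040000000000000000000) := T_1 (nat_lit 78) (nat_lit 95) (nat_lit 5) (nat_lit 10) (nat_lit 4) L292176 (by decide +kernel)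
theorem L292178 : W_1 (nat_lit 5) (nat_lit 0x7000100038003c0000000000000000000000000000000) (nat_lit 0x0) (nat_lit 0x180004c000000000030000800040000000000000000000) := T_1 (nat_lit 112) (nat_lit 113) (nat_lit 2) (nat_lit 7) (nat_lit 7) L292177 (by decide +kernel)
theorem L292179 : W_1 (nat_lit 6) (nat_lit 0x3000100038003c0000000000000000000000000000000) (nat_lit 0x0) (nat_lit 0x8001c0004c000000000030000800040000000000000000000) := T_1 (nat_lit 178) (nat_lit 195) (nat_lit 7) (nat_lit 7) (nat_lit 7) L292178 (by decide +kernel)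
theorem L292180 : W_1 (nat_lit 7) (nat_lit 0x2000100038003c0000000000000000000000000000000) (nat_lit 0x0) (nat_lit 0xa001d0004c000000000030000800040000000000000000000) := T_1 (nat_lit 176) (nat_lit 193) (nat_lit 5) (nat_lit 7) (nat_lit 7) L292179 (by decide +kernel)
theorem L292181 : W_1 (nat_lit 8) (nat_lit 0x100038003c0000000000000000000000000000000) (nat_lit 0x0) (nat_lit 0xe001f0004c000000000030000800040000000000000000000) := T_1 (nat_lit 177) (nat_lit 194) (nat_lit 6) (nat_lit 7) (nat_lit 11) L292180 (by decide +kernel)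
theorem L292182 : W_1 (nat_lit 9) (nat_lit 0x100038001c0000000000000000000000000000000) (nat_lit 0x0) (nat_lit 0xe001f0004c000000600030000800040000000000000000000) := T_1 (nat_lit 129) (nat_lit 130) (nat_lit 1) (nat_lit 11) (nat_lit 7) L292181 (by decide +kernel)
theorem L292571 : W_1 (nat_lit 2) (nat_lit 0x10007800180000000000000000000000000000000) (nat_lit 0x0) (nat_lit 0x20018000000000000000000000000000000000000) := D_1 (nat_lit 147) (nat_lit 148) (nat_lit 161) (nat_lit 0) (nat_lit 12) (nat_lit 8) (nat_lit 1) (nat_lit 11) (nat_lit 8) (by decide +kernel)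
theorem L292572 : W_1 (nat_lit 3) (nat_lit 0x7800180000000000000000000000000000000) (nat_lit 0x0) (nat_lit 0x38018000000000000000000000000000000000000) := T_1 (nat_lit 160) (nat_lit 159) (nat_lit 1) (nat_lit 10) (nat_lit 8) L292571 (by decide +kernel)
theorem L292830 : W_1 (nat_lit 9) (nat_lit 0x18001c0000000000000000000000000000000) (nat_lit 0x0) (nat_lit 0x800040007800e00060003a000d00060000000000000000000) := Q_1 (nat_lit 161) (C_1 L74070 (C_1 L291653 (C_1 L72952 N_1))) (by decide +kernel)
theorem L292831 : W_1 (nat_lit 2) (nat_lit 0xf000600018003c0010000000000000000000000000000) (nat_lit 0x0) (nat_lit 0x3000000010000000000000000000000000000000000000000) := D_1 (nat_lit 193) (nat_lit 192) (nat_lit 160) (nat_lit 1) (nat_lit 9) (nat_lit 10) (nat_lit 5) (nat_lit 7) (nat_lit 7) (by decide +kernel)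
theorem L292832 : W_1 (nat_lit 3) (nat_lit 0xe000600018003c0010000000000000000000000000000) (nat_lit 0x0) (nat_lit 0x3000180010000000000000000000000000000000000000000) := T_1 (nat_lit 176) (nat_lit 175) (nat_lit 2) (nat_lit 5) (nat_lit 10) L292831 (by decide +kernel)
theorem L292833 : W_1 (nat_lit 4) (nat_lit 0xc000600018003c0010000000000000000000000000000) (nat_lit 0x0) (nat_lit 0x7000380010000000000000000000000000000000000000000) := T_1 (nat_lit 177) (nat_lit 194) (nat_lit 5) (nat_lit 8) (nat_lit 7) L292832 (by decide +kernel)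
theorem L292834 : W_1 (nat_lit 5) (nat_lit 0xc000200018003c0010000000000000000000000000000) (nat_lit 0x0) (nat_lit 0x7000380050002000000000000000000000000000000000000) := T_1 (nat_lit 162) (nat_lit 145) (nat_lit 6) (nat_lit 9) (nat_lit 10) L292833 (by decide +kernel)
theorem L292835 : W_1 (nat_lit 6) (nat_lit 0x4000200018003c0010000000000000000000000000000) (nat_lit 0x0) (nat_lit 0x17000b80050002000000000000000000000000000000000000) := T_1 (nat_lit 179) (nat_lit 196) (nat_lit 7) (nat_lit 8) (nat_lit 7) L292834 (by decide +kernel)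
theorem L292836 : W_1 (nat_lit 7) (nat_lit 0x4000200018003c0000000000000000000000000000000) (nat_lit 0x0) (nat_lit 0x17000b80050002000000030000000000000000000000000000) := T_1 (nat_lit 112) (nat_lit 113) (nat_lit 2) (nat_lit 7) (nat_lit 7) L292835 (by decide +kernel)
theorem L292837 : W_1 (nat_lit 8) (nat_lit 0x4000000018003c0000000000000000000000000000000) (nat_lit 0x0) (nat_lit 0x17000b80070002000000038000000000000000000000000000) := T_1 (nat_lit 161) (nat_lit 111) (nat_lit 6) (nat_lit 8) (nat_lit 10) L292836 (by decide +kernel)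
theorem L292838 : W_1 (nat_lit 9) (nat_lit 0x4000000018001c0000000000000000000000000000000) (nat_lit 0x0) (nat_lit 0x17000b80070002000600038000000000000000000000000000) := T_1 (nat_lit 129) (nat_lit 130) (nat_lit 1) (nat_lit 11) (nat_lit 7) L292837 (by decide +kernel)
theorem L292839 : W_1 (nat_lit 10) (nat_lit 0x18001c0000000000000000000000000000000) (nat_lit 0x0) (nat_lit 0x1f000f8007800e000600038000800040000000000000000000) := Q_1 (nat_lit 178) (C_1 L74085 (C_1 L263350 (C_1 L292838 N_1))) (by decide +kernel)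
theorem L292840 : W_1 (nat_lit 2) (nat_lit 0x1000100018001c0002000180010000000000000000000) (nat_lit 0x0) (nat_lit 0x6000200000000000000000000000000000000000000000000) := D_1 (nat_lit 177) (nat_lit 194) (nat_lit 193) (nat_lit 6) (nat_lit 7) (nat_lit 11) (nat_lit 5) (nat_lit 7) (nat_lit 7) (by decide +kernel)
theorem L292841 : W_1 (nat_lit 3) (nat_lit 0x100018001c0002000180010000000000000000000) (nat_lit 0x0) (nat_lit 0x6000300008000000000000000000000000000000000000000) := T_1 (nat_lit 176) (nat_lit 159) (nat_lit 5) (nat_lit 7) (nat_lit 6) L292840 (by decide +kernel)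
theorem L292842 : W_1 (nat_lit 4) (nat_lit 0x18001c0002000180010000000000000000000) (nat_lit 0x0) (nat_lit 0x6000300018000000000001000000000000000000000000000) := T_1 (nat_lit 160) (nat_lit 108) (nat_lit 4) (nat_lit 7) (nat_lit 9) L292841 (by decide +kernel)
theorem L292843 : W_1 (nat_lit 5) (nat_lit 0x18001c0002000100010000000000000000000) (nat_lit 0x0) (nat_lit 0x6000300018000000000001000080004000000000000000000) := T_1 (nat_lit 91) (nat_lit 74) (nat_lit 4) (nat_lit 7) (nat_lit 8) L292842 (by decide +kernel)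
theorem L292844 : W_1 (nat_lit 6) (nat_lit 0x18001c0002000100000000000000000000000) (nat_lit 0x0) (nat_lit 0x6000300018000000000001000280014000000000000000000) := T_1 (nat_lit 76) (nat_lit 93) (nat_lit 6) (nat_lit 7) (nat_lit 8) L292843 (by decide +kernel)
theorem L292845 : W_1 (nat_lit 7) (nat_lit 0x18001c0002000000000000000000000000000) (nat_lit 0x0) (nat_lit 0x600030001800000000000100038001c000000000000000000) := T_1 (nat_lit 92) (nat_lit 75) (nat_lit 7) (nat_lit 7) (nat_lit 4) L292844 (by decide +kernel)
theorem L292846 : W_1 (nat_lit 4) (nat_lit 0x100018001c0002000000000000000000000000000) (nat_lit 0x0) (nat_lit 0x50002c006000000000000000000000000000000000000) := T_1 (nat_lit 161) (nat_lit 178) (nat_lit 7) (nat_lit 7) (nat_lit 6) L291655 (by decide +kernel)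
theorem L292847 : W_1 (nat_lit 5) (nat_lit 0x18001c0002000000000000000000000000000) (nat_lit 0x0) (nat_lit 0xe00070003c006000000000000000000000000000000000000) := Q_1 (nat_lit 160) (C_1 L252784 (C_1 L258221 (C_1 L292846 N_1))) (by decide +kernel)
theorem L292848 : W_1 (nat_lit 8) (nat_lit 0x18001c0000000000000000000000000000000) (nat_lit 0x0) (nat_lit 0xe00070003c00600000000300038001c000000000000000000) := Q_1 (nat_lit 109) (C_1 L292845 (C_1 L72599 (C_1 L292847 N_1))) (by decide +kernel)
theorem L292849 : W_1 (nat_lit 11) (nat_lit 0x1800180000000000000000000000000000000) (nat_lit 0x0) (nat_lit 0x1f000f8007c00e00064003b000f8007c000000000000000000) := Q_1 (nat_lit 126) (C_1 L24834 (C_1 L292830 (C_1 L292839 (C_1 L2912 (C_1 L292848 N_1))))) (by decide +kernel)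
theorem L292871 : W_1 (nat_lit 2) (nat_lit 0x38001a00180000000000000000000000000000000) (nat_lit 0x0) (nat_lit 0x6000100000000000000000000000000000000000) := D_1 (nat_lit 158) (nat_lit 140) (nat_lit 157) (nat_lit 0) (nat_lit 8) (nat_lit 9) (nat_lit 2) (nat_lit 4) (nat_lit 9) (by decide +kernel)
theorem L292872 : W_1 (nat_lit 3) (nat_lit 0x38001800180000000000000000000000000000000) (nat_lit 0x0) (nat_lit 0x6000700000000000000000000000000000000000) := T_1 (nat_lit 141) (nat_lit 142) (nat_lit 2) (nat_lit 5) (nat_lit 8) L292871 (by decide +kernel)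
theorem L292905 : W_1 (nat_lit 2) (nat_lit 0x70000c001c00180000000000000000000000000000000) (nat_lit 0x0) (nat_lit 0x80003000000000000000000000000000000000000000) := D_1 (nat_lit 157) (nat_lit 175) (nat_lit 156) (nat_lit 0) (nat_lit 8) (nat_lit 10) (nat_lit 3) (nat_lit 3) (nat_lit 9) (by decide +kernel)
theorem L292948 : W_1 (nat_lit 2) (nat_lit 0x3000700008001c00180000000000000000000000000000000) (nat_lit 0x0) (nat_lit 0x4800080000000000000000000000000000000000000000000) := D_1 (nat_lit 191) (nat_lit 175) (nat_lit 194) (nat_lit 1) (nat_lit 8) (nat_lit 10) (nat_lit 2) (nat_lit 4) (nat_lit 11) (by decide +kernel)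
theorem L292949 : W_1 (nat_lit 3) (nat_lit 0x3000500008001c00180000000000000000000000000000000) (nat_lit 0x0) (nat_lit 0x4800a80000000000000000000000000000000000000000000) := T_1 (nat_lit 177) (nat_lit 179) (nat_lit 1) (nat_lit 9) (nat_lit 10) L292948 (by decide +kernel)
theorem L292950 : W_1 (nat_lit 4) (nat_lit 0x2000500008001c00180000000000000000000000000000000) (nat_lit 0x0) (nat_lit 0x20005800a80000000000000000000000000000000000000000000) := T_1 (nat_lit 192) (nat_lit 209) (nat_lit 5) (nat_lit 6) (nat_lit 8) L292949 (by decide +kernel)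
theorem L293129 : W_1 (nat_lit 2) (nat_lit 0xe00018003c001c0000000000000000000000000000000) (nat_lit 0x0) (nat_lit 0x2000100000000000000002000000000000000000000000000) := D_1 (nat_lit 176) (nat_lit 193) (nat_lit 109) (nat_lit 6) (nat_lit 6) (nat_lit 11) (nat_lit 5) (nat_lit 7) (nat_lit 6) (by decide +kernel)
theorem L293130 : W_1 (nat_lit 3) (nat_lit 0xe00018003c00180000000000000000000000000000000) (nat_lit 0x0) (nat_lit 0xa000100000000000040002000000000000000000000000000) := T_1 (nat_lit 126) (nat_lit 195) (nat_lit 7) (nat_lit 7) (nat_lit 7) L293129 (by decide +kernel)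
theorem L293135 : W_1 (nat_lit 5) (nat_lit 0x3000100038001c0000000000000000000000000000000) (nat_lit 0x0) (nat_lit 0x38001c00048000000000002000000000000000000000000000) := T_1 (nat_lit 159) (nat_lit 109) (nat_lit 5) (nat_lit 7) (nat_lit 6) L250899 (by decide +kernel)
theorem L293136 : W_1 (nat_lit 6) (nat_lit 0x2000100038001c0000000000000000000000000000000) (nat_lit 0x0) (nat_lit 0x3a001d00048000000000002000000000000000000000000000) := T_1 (nat_lit 176) (nat_lit 193) (nat_lit 5) (nat_lit 7) (nat_lit 7) L293135 (by decide +kernel)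
theorem L293137 : W_1 (nat_lit 7) (nat_lit 0x100038001c0000000000000000000000000000000) (nat_lit 0x0) (nat_lit 0x3e001f00048000000000002000000000000000000000000000) := T_1 (nat_lit 177) (nat_lit 194) (nat_lit 6) (nat_lit 7) (nat_lit 11) L293136 (by decide +kernel)
theorem L293246 : W_1 (nat_lit 4) (nat_lit 0x3c00180000000000000000000000000000000) (nat_lit 0x0) (nat_lit 0x1c01c000040000000000000000000000000000000) := T_1 (nat_lit 159) (nat_lit 158) (nat_lit 1) (nat_lit 9) (nat_lit 8) L15358 (by decide +kernel)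
theorem L293247 : W_1 (nat_lit 5) (nat_lit 0x3800180000000000000000000000000000000) (nat_lit 0x0) (nat_lit 0x1c01c600040000000000000000000000000000000) := T_1 (nat_lit 142) (nat_lit 141) (nat_lit 2) (nat_lit 5) (nat_lit 8) L293246 (by decide +kernel)
theorem L294170 : W_1 (nat_lit 2) (nat_lit 0x400028001c00180000000000000000000000000000000) (nat_lit 0x0) (nat_lit 0x8000000000000000040002000000000000000000000000000) := D_1 (nat_lit 126) (nat_lit 109) (nat_lit 195) (nat_lit 4) (nat_lit 8) (nat_lit 10) (nat_lit 4) (nat_lit 8) (nat_lit 11) (by decide +kernel)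
theorem L294176 : W_1 (nat_lit 3) (nat_lit 0x400008001c00180000000000000000000000000000000) (nat_lit 0x0) (nat_lit 0x800000002000000004000a000000000000000000000000000) := T_1 (nat_lit 161) (nat_lit 111) (nat_lit 6) (nat_lit 8) (nat_lit 10) L294170 (by decide +kernel)
theorem L294183 : W_1 (nat_lit 2) (nat_lit 0xa0002000100008001c00180000000000000000000000000000000) (nat_lit 0x0) (nat_lit 0x1400040000000000000000000000000000000000000000000000000000) := D_1 (nat_lit 210) (nat_lit 226) (nat_lit 228) (nat_lit 5) (nat_lit 6) (nat_lit 9) (nat_lit 7) (nat_lit 6) (nat_lit 9) (by decide +kernel)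
theorem L294184 : W_1 (nat_lit 3) (nat_lit 0x20002000100008001c00180000000000000000000000000000000) (nat_lit 0x0) (nat_lit 0x14000c0004000000000000000000000000000000000000000000000000) := T_1 (nat_lit 211) (nat_lit 194) (nat_lit 7) (nat_lit 6) (nat_lit 8) L294183 (by decide +kernel)
theorem L294185 : W_1 (nat_lit 4) (nat_lit 0x2000100008001c00180000000000000000000000000000000) (nat_lit 0x0) (nat_lit 0x14000e0005000000000000000000000000000000000000000000000000) := T_1 (nat_lit 209) (nat_lit 192) (nat_lit 5) (nat_lit 6) (nat_lit 8) L294184 (by decide +kernel)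
theorem L294323 : W_1 (nat_lit 2) (nat_lit 0x28003c000c0002000000000000000000000000000) (nat_lit 0x0) (nat_lit 0x2000100010000000000000000000000000000000000000000) := D_1 (nat_lit 176) (nat_lit 193) (nat_lit 160) (nat_lit 6) (nat_lit 6) (nat_lit 11) (nat_lit 5) (nat_lit 7) (nat_lit 6) (by decide +kernel)
theorem L294324 : W_1 (nat_lit 3) (nat_lit 0x28003c000c0000000000000000000000000000000) (nat_lit 0x0) (nat_lit 0x2000100010000000000002000100000000000000000000000) := T_1 (nat_lit 109) (nat_lit 92) (nat_lit 7) (nat_lit 7) (nat_lit 5) L294323 (by decide +kernel)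
theorem L294325 : W_1 (nat_lit 4) (nat_lit 0x20003c000c0000000000000000000000000000000) (nat_lit 0x0) (nat_lit 0x200010001c000000000002000100000000000000000000000) := T_1 (nat_lit 159) (nat_lit 158) (nat_lit 1) (nat_lit 9) (nat_lit 8) L294324 (by decide +kernel)
theorem L294369 : W_1 (nat_lit 2) (nat_lit 0xe00018003c00180000000000000000000000000000000) (nat_lit 0x0) (nat_lit 0x18000000040000000000000000000000000000000000000000) := D_1 (nat_lit 162) (nat_lit 196) (nat_lit 195) (nat_lit 4) (nat_lit 9) (nat_lit 11) (nat_lit 5) (nat_lit 9) (nat_lit 7) (by decide +kernel)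
theorem L294370 : W_1 (nat_lit 3) (nat_lit 0x600018003c00180000000000000000000000000000000) (nat_lit 0x0) (nat_lit 0x18001800040000000000000000000000000000000000000000) := T_1 (nat_lit 179) (nat_lit 180) (nat_lit 0) (nat_lit 10) (nat_lit 10) L294369 (by decide +kernel)
theorem L294371 : W_1 (nat_lit 4) (nat_lit 0x600018003c00080000000000000000000000000000000) (nat_lit 0x0) (nat_lit 0x18001800040000000300000000000000000000000000000000) := T_1 (nat_lit 128) (nat_lit 129) (nat_lit 2) (nat_lit 6) (nat_lit 8) L294370 (by decide +kernel)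
theorem L294372 : W_1 (nat_lit 5) (nat_lit 0x600010003c00080000000000000000000000000000000) (nat_lit 0x0) (nat_lit 0x1800180004c000000300000000000000000000000000000000) := T_1 (nat_lit 159) (nat_lit 158) (nat_lit 1) (nat_lit 9) (nat_lit 8) L294371 (by decide +kernel)
theorem L294373 : W_1 (nat_lit 6) (nat_lit 0x600000003c00080000000000000000000000000000000) (nat_lit 0x0) (nat_lit 0x1c00180005c000000300000000000000000000000000000000) := T_1 (nat_lit 160) (nat_lit 194) (nat_lit 6) (nat_lit 7) (nat_lit 11) L294372 (by decide +kernel)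
theorem L294391 : W_1 (nat_lit 2) (nat_lit 0xf000500008003c00180000000000000000000000000000000) (nat_lit 0x0) (nat_lit 0x100000c0000000000000000000000000000000000000000000) := D_1 (nat_lit 175) (nat_lit 196) (nat_lit 174) (nat_lit 0) (nat_lit 9) (nat_lit 11) (nat_lit 0) (nat_lit 8) (nat_lit 11) (by decide +kernel)
theorem L294392 : W_1 (nat_lit 3) (nat_lit 0x7000500008003c00180000000000000000000000000000000) (nat_lit 0x0) (nat_lit 0x180008c0000000000000000000000000000000000000000000) := T_1 (nat_lit 195) (nat_lit 179) (nat_lit 2) (nat_lit 5) (nat_lit 11) L294391 (by decide +kernel)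
theorem L294393 : W_1 (nat_lit 4) (nat_lit 0x3000500008003c00180000000000000000000000000000000) (nat_lit 0x0) (nat_lit 0x8001c0008c0000000000000000000000000000000000000000000) := T_1 (nat_lit 194) (nat_lit 211) (nat_lit 7) (nat_lit 6) (nat_lit 8) L294392 (by decide +kernel)
theorem L294394 : W_1 (nat_lit 5) (nat_lit 0x2000500008003c00180000000000000000000000000000000) (nat_lit 0x0) (nat_lit 0xa001d0008c0000000000000000000000000000000000000000000) := T_1 (nat_lit 192) (nat_lit 209) (nat_lit 5) (nat_lit 6) (nat_lit 8) L294393 (by decide +kernel)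
theorem L294584 : W_1 (nat_lit 2) (nat_lit 0x3800300018001c00080000000000000000000000000000000) (nat_lit 0x0) (nat_lit 0xc80000000000000000000000000000000000000000000) := D_1 (nat_lit 178) (nat_lit 179) (nat_lit 175) (nat_lit 1) (nat_lit 9) (nat_lit 10) (nat_lit 1) (nat_lit 8) (nat_lit 10) (by decide +kernel)
theorem L294585 : W_1 (nat_lit 3) (nat_lit 0x3000300018001c00080000000000000000000000000000000) (nat_lit 0x0) (nat_lit 0xc00c80000000000000000000000000000000000000000000) := T_1 (nat_lit 191) (nat_lit 190) (nat_lit 2) (nat_lit 3) (nat_lit 11) L294584 (by decide +kernel)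
theorem L294586 : W_1 (nat_lit 4) (nat_lit 0x2000300018001c00080000000000000000000000000000000) (nat_lit 0x0) (nat_lit 0x20001c00c80000000000000000000000000000000000000000000) := T_1 (nat_lit 192) (nat_lit 209) (nat_lit 5) (nat_lit 6) (nat_lit 8) L294585 (by decide +kernel)
theorem L294596 : W_1 (nat_lit 2) (nat_lit 0x60001c001c00080000000000000000000000000000000) (nat_lit 0x0) (nat_lit 0x1900000000000000000000000000000000000000000000) := D_1 (nat_lit 179) (nat_lit 180) (nat_lit 176) (nat_lit 0) (nat_lit 10) (nat_lit 10) (nat_lit 0) (nat_lit 9) (nat_lit 10) (by decide +kernel)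
theorem L294597 : W_1 (nat_lit 3) (nat_lit 0x600018001c00080000000000000000000000000000000) (nat_lit 0x0) (nat_lit 0x1900006000000000000000000000000000000000000000) := T_1 (nat_lit 158) (nat_lit 157) (nat_lit 3) (nat_lit 4) (nat_lit 9) L294596 (by decide +kernel)
theorem L294660 : W_1 (nat_lit 2) (nat_lit 0x1800040003000100008001c00080000000000000000000000000000000) (nat_lit 0x0) (nat_lit 0x10000000000000000080004000000000000000000000000000000000000000) := D_1 (nat_lit 175) (nat_lit 158) (nat_lit 244) (nat_lit 4) (nat_lit 6) (nat_lit 13) (nat_lit 4) (nat_lit 6) (nat_lit 14) (by decide +kernel)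
theorem L294661 : W_1 (nat_lit 3) (nat_lit 0x1000040003000100008001c00080000000000000000000000000000000) (nat_lit 0x0) (nat_lit 0x30000800000000000080004000000000000000000000000000000000000000) := T_1 (nat_lit 227) (nat_lit 245) (nat_lit 7) (nat_lit 6) (nat_lit 10) L294660 (by decide +kernel)
theorem L294662 : W_1 (nat_lit 4) (nat_lit 0x40003000100008001c00080000000000000000000000000000000) (nat_lit 0x0) (nat_lit 0x30001800080000000080004000000000000000000000000000000000000000) := T_1 (nat_lit 228) (nat_lit 211) (nat_lit 7) (nat_lit 6) (nat_lit 9) L294661 (by decide +kernel)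
theorem L294663 : W_1 (nat_lit 5) (nat_lit 0x3000100008001c00080000000000000000000000000000000) (nat_lit 0x0) (nat_lit 0x300018000c0000000080014000000000000000000000000000000000000000) := T_1 (nat_lit 210) (nat_lit 160) (nat_lit 6) (nat_lit 6) (nat_lit 12) L294662 (by decide +kernel)
theorem L294664 : W_1 (nat_lit 6) (nat_lit 0x2000100008001c00080000000000000000000000000000000) (nat_lit 0x0) (nat_lit 0x300018000e0001000080014000000000000000000000000000000000000000) := T_1 (nat_lit 192) (nat_lit 209) (nat_lit 5) (nat_lit 6) (nat_lit 8) L294663 (by decide +kernel)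
theorem L294665 : W_1 (nat_lit 5) (nat_lit 0x2000100018001c00080000000000000000000000000000000) (nat_lit 0x0) (nat_lit 0x20005c00e80000000000000000000000000000000000000000000) := T_1 (nat_lit 177) (nat_lit 194) (nat_lit 6) (nat_lit 7) (nat_lit 11) L294586 (by decide +kernel)
theorem L294666 : W_1 (nat_lit 6) (nat_lit 0x2000100008001c00080000000000000000000000000000000) (nat_lit 0x0) (nat_lit 0x60005c00e80010000000000000000000000000000000000000000) := T_1 (nat_lit 160) (nat_lit 210) (nat_lit 6) (nat_lit 6) (nat_lit 12) L294665 (by decide +kernel)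
theorem L294669 : W_1 (nat_lit 2) (nat_lit 0x7000300008001c00080000000000000000000000000000000) (nat_lit 0x0) (nat_lit 0xc00020000000000000000000000000000000000000000) := D_1 (nat_lit 178) (nat_lit 161) (nat_lit 179) (nat_lit 5) (nat_lit 8) (nat_lit 7) (nat_lit 1) (nat_lit 9) (nat_lit 10) (by decide +kernel)
theorem L294670 : W_1 (nat_lit 3) (nat_lit 0x7000100008001c00080000000000000000000000000000000) (nat_lit 0x0) (nat_lit 0xe00030000000000000000000000000000000000000000) := T_1 (nat_lit 177) (nat_lit 160) (nat_lit 6) (nat_lit 7) (nat_lit 11) L294669 (by decide +kernel)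
theorem L294671 : W_1 (nat_lit 4) (nat_lit 0x3000100008001c00080000000000000000000000000000000) (nat_lit 0x0) (nat_lit 0x80004000e00030000000000000000000000000000000000000000) := T_1 (nat_lit 194) (nat_lit 211) (nat_lit 7) (nat_lit 6) (nat_lit 8) L294670 (by decide +kernel)
theorem L294672 : W_1 (nat_lit 5) (nat_lit 0x2000100008001c00080000000000000000000000000000000) (nat_lit 0x0) (nat_lit 0xa0005000e00030000000000000000000000000000000000000000) := T_1 (nat_lit 192) (nat_lit 209) (nat_lit 5) (nat_lit 6) (nat_lit 8) L294671 (by decide +kernel)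
theorem L294676 : W_1 (nat_lit 2) (nat_lit 0x10000c001c00080000000000000000000000000000000) (nat_lit 0x0) (nat_lit 0x13000000000000000000000000000000000000000) := D_1 (nat_lit 157) (nat_lit 156) (nat_lit 160) (nat_lit 2) (nat_lit 3) (nat_lit 9) (nat_lit 2) (nat_lit 4) (nat_lit 9) (by decide +kernel)
theorem L294678 : W_1 (nat_lit 3) (nat_lit 0x80004000700008001c00080000000000000000000000000000000) (nat_lit 0x0) (nat_lit 0x880007000000000000000000000000000000000000000) := T_1 (nat_lit 158) (nat_lit 179) (nat_lit 0) (nat_lit 9) (nat_lit 10) L26608 (by decide +kernel)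
theorem L294692 : W_1 (nat_lit 4) (nat_lit 0x80004000300008001c00080000000000000000000000000000000) (nat_lit 0x0) (nat_lit 0xc80027000000000000000000000000000000000000000) := T_1 (nat_lit 178) (nat_lit 161) (nat_lit 5) (nat_lit 8) (nat_lit 7) L294678 (by decide +kernel)
theorem L294693 : W_1 (nat_lit 5) (nat_lit 0x80004000100008001c00080000000000000000000000000000000) (nat_lit 0x0) (nat_lit 0x1000000000000e80027000000000000000000000000000000000000000) := T_1 (nat_lit 177) (nat_lit 228) (nat_lit 4) (nat_lit 7) (nat_lit 13) L294692 (by decide +kernel)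
theorem L294694 : W_1 (nat_lit 6) (nat_lit 0x4000100008001c00080000000000000000000000000000000) (nat_lit 0x0) (nat_lit 0x1000080002000e80027000000000000000000000000000000000000000) := T_1 (nat_lit 211) (nat_lit 193) (nat_lit 7) (nat_lit 6) (nat_lit 8) L294693 (by decide +kernel)
theorem L294726 : W_1 (nat_lit 2) (nat_lit 0xc00038001c00080000000000000000000000000000000) (nat_lit 0x0) (nat_lit 0x4001200000000000000000000000000000000000000000000) := D_1 (nat_lit 177) (nat_lit 194) (nat_lit 180) (nat_lit 6) (nat_lit 7) (nat_lit 11) (nat_lit 0) (nat_lit 10) (nat_lit 10) (by decide +kernel)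
theorem L294805 : W_1 (nat_lit 2) (nat_lit 0x700010001c000c0002000100000000000000000000000) (nat_lit 0x0) (nat_lit 0x1000080004000000000000000000) := D_1 (nat_lit 91) (nat_lit 108) (nat_lit 74) (nat_lit 4) (nat_lit 7) (nat_lit 9) (nat_lit 4) (nat_lit 7) (nat_lit 8) (by decide +kernel)
theorem L294806 : W_1 (nat_lit 3) (nat_lit 0x700010001c000c0002000000000000000000000000000) (nat_lit 0x0) (nat_lit 0x100018000c000000000000000000) := T_1 (nat_lit 92) (nat_lit 75) (nat_lit 7) (nat_lit 7) (nat_lit 4) L294805 (by decide +kernel)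
theorem L294807 : W_1 (nat_lit 4) (nat_lit 0x700010001c000c0000000000000000000000000000000) (nat_lit 0x0) (nat_lit 0x800000000000300018000c000000000000000000) := T_1 (nat_lit 109) (nat_lit 159) (nat_lit 5) (nat_lit 7) (nat_lit 6) L294806 (by decide +kernel)
theorem L294808 : W_1 (nat_lit 5) (nat_lit 0x600010001c000c0000000000000000000000000000000) (nat_lit 0x0) (nat_lit 0x200010000800000000000300018000c000000000000000000) := T_1 (nat_lit 176) (nat_lit 193) (nat_lit 5) (nat_lit 7) (nat_lit 7) L294807 (by decide +kernel)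
theorem L294809 : W_1 (nat_lit 6) (nat_lit 0x600010001c00080000000000000000000000000000000) (nat_lit 0x0) (nat_lit 0xa00010000800000004000300018000c000000000000000000) := T_1 (nat_lit 126) (nat_lit 195) (nat_lit 7) (nat_lit 7) (nat_lit 7) L294808 (by decide +kernel)
theorem L295008 : W_1 (nat_lit 2) (nat_lit 0x20007c00280000000000000000000000000000000) (nat_lit 0x0) (nat_lit 0x10008000040000000000000000000000000000000) := D_1 (nat_lit 147) (nat_lit 160) (nat_lit 126) (nat_lit 1) (nat_lit 11) (nat_lit 8) (nat_lit 0) (nat_lit 11) (nat_lit 8) (by decide +kernel)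
theorem L295009 : W_1 (nat_lit 3) (nat_lit 0x20003c00280000000000000000000000000000000) (nat_lit 0x0) (nat_lit 0x1000c000440000000000000000000000000000000) := T_1 (nat_lit 146) (nat_lit 130) (nat_lit 2) (nat_lit 7) (nat_lit 8) L295008 (by decide +kernel)
theorem L295010 : W_1 (nat_lit 4) (nat_lit 0x20003c00080000000000000000000000000000000) (nat_lit 0x0) (nat_lit 0x1000c000740000000000000000000000000000000) := T_1 (nat_lit 129) (nat_lit 128) (nat_lit 2) (nat_lit 6) (nat_lit 8) L295009 (by decide +kernel)
theorem L295152 : W_1 (nat_lit 2) (nat_lit 0x400020001c00080000000000000000000000000000000) (nat_lit 0x0) (nat_lit 0x8000000000000000040002000000000000000000000000000) := D_1 (nat_lit 126) (nat_lit 109) (nat_lit 195) (nat_lit 4) (nat_lit 8) (nat_lit 10) (nat_lit 4) (nat_lit 8) (nat_lit 11) (by decide +kernel)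
theorem L295153 : W_1 (nat_lit 2) (nat_lit 0x400020001c000c0000000000000000000000000000000) (nat_lit 0x0) (nat_lit 0x300008000000000000000000000000000) := D_1 (nat_lit 128) (nat_lit 111) (nat_lit 129) (nat_lit 6) (nat_lit 8) (nat_lit 10) (nat_lit 1) (nat_lit 10) (nat_lit 7) (by decide +kernel)
theorem L295154 : W_1 (nat_lit 3) (nat_lit 0x400020001c00080000000000000000000000000000000) (nat_lit 0x0) (nat_lit 0x34000a000000000000000000000000000) := T_1 (nat_lit 126) (nat_lit 109) (nat_lit 4) (nat_lit 8) (nat_lit 10) L295153 (by decide +kernel)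
theorem L295155 : W_1 (nat_lit 5) (nat_lit 0x400000001c00080000000000000000000000000000000) (nat_lit 0x0) (nat_lit 0x28001c000a0002000000034000a000000000000000000000000000) := Q_1 (nat_lit 161) (C_1 L67987 (C_1 L295152 (C_1 L295154 N_1))) (by decide +kernel)
theorem L295193 : W_1 (nat_lit 2) (nat_lit 0x70000c001c00080000000000000000000000000000000) (nat_lit 0x0) (nat_lit 0x80003000000000000000000000000000000000000000) := D_1 (nat_lit 157) (nat_lit 175) (nat_lit 156) (nat_lit 0) (nat_lit 8) (nat_lit 10) (nat_lit 3) (nat_lit 3) (nat_lit 9) (by decide +kernel)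
theorem L295194 : W_1 (nat_lit 3) (nat_lit 0x60000c001c00080000000000000000000000000000000) (nat_lit 0x0) (nat_lit 0x980003000000000000000000000000000000000000000) := T_1 (nat_lit 176) (nat_lit 179) (nat_lit 0) (nat_lit 9) (nat_lit 10) L295193 (by decide +kernel)
theorem L295195 : W_1 (nat_lit 4) (nat_lit 0x600008001c00080000000000000000000000000000000) (nat_lit 0x0) (nat_lit 0x980007002000000000000000000000000000000000000) := T_1 (nat_lit 158) (nat_lit 145) (nat_lit 1) (nat_lit 9) (nat_lit 8) L295194 (by decide +kernel)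
theorem L295289 : W_1 (nat_lit 3) (nat_lit 0x30000c001c00080000000000000000000000000000000) (nat_lit 0x0) (nat_lit 0xc80003000000000000000000000000000000000000000) := T_1 (nat_lit 178) (nat_lit 179) (nat_lit 0) (nat_lit 9) (nat_lit 10) L295193 (by decide +kernel)
theorem L295771 : W_1 (nat_lit 2) (nat_lit 0x4000900078001c00080000000000000000000000000000000) (nat_lit 0x0) (nat_lit 0xc0002000000000000000000000000000000000000000000000000) := D_1 (nat_lit 193) (nat_lit 210) (nat_lit 211) (nat_lit 6) (nat_lit 6) (nat_lit 12) (nat_lit 7) (nat_lit 6) (nat_lit 8) (by decide +kernel)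
theorem L295772 : W_1 (nat_lit 3) (nat_lit 0x4000800078001c00080000000000000000000000000000000) (nat_lit 0x0) (nat_lit 0xc0002000180000000000000000000000000000000000000000000) := T_1 (nat_lit 176) (nat_lit 175) (nat_lit 1) (nat_lit 9) (nat_lit 9) L295771 (by decide +kernel)
theorem L295773 : W_1 (nat_lit 4) (nat_lit 0x4000000078001c00080000000000000000000000000000000) (nat_lit 0x0) (nat_lit 0xc0002001980000000000000000000000000000000000000000000) := T_1 (nat_lit 179) (nat_lit 180) (nat_lit 3) (nat_lit 6) (nat_lit 9) L295772 (by decide +kernel)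
theorem L295774 : W_1 (nat_lit 5) (nat_lit 0x78001c00080000000000000000000000000000000) (nat_lit 0x0) (nat_lit 0xc0006001b80000000000000000000000000000000000000000000) := T_1 (nat_lit 194) (nat_lit 177) (nat_lit 6) (nat_lit 7) (nat_lit 11) L295773 (by decide +kernel)
theorem L295778 : W_1 (nat_lit 2) (nat_lit 0x4000100078003c00080000000000000000000000000000000) (nat_lit 0x0) (nat_lit 0xc0002000000000000000000000000000000000000000000000000) := D_1 (nat_lit 193) (nat_lit 210) (nat_lit 211) (nat_lit 6) (nat_lit 6) (nat_lit 12) (nat_lit 7) (nat_lit 6) (nat_lit 8) (by decide +kernel)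
theorem L295779 : W_1 (nat_lit 3) (nat_lit 0x4000000078003c00080000000000000000000000000000000) (nat_lit 0x0) (nat_lit 0xc0002000180000000000000000000000000000000000000000000) := T_1 (nat_lit 176) (nat_lit 175) (nat_lit 1) (nat_lit 9) (nat_lit 9) L295778 (by decide +kernel)
theorem L297341 : W_1 (nat_lit 2) (nat_lit 0x700030001a001c0000000000000000000000000000000) (nat_lit 0x0) (nat_lit 0xc0040000000000000000000000000000000000000000) := D_1 (nat_lit 175) (nat_lit 162) (nat_lit 174) (nat_lit 2) (nat_lit 5) (nat_lit 10) (nat_lit 2) (nat_lit 4) (nat_lit 10) (by decide +kernel)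
theorem L299089 : W_1 (nat_lit 2) (nat_lit 0x3000100038001c0002000000000000000000000000000) (nat_lit 0x0) (nat_lit 0x20000000000000000100008000000000000000000) := D_1 (nat_lit 92) (nat_lit 75) (nat_lit 161) (nat_lit 7) (nat_lit 7) (nat_lit 4) (nat_lit 7) (nat_lit 7) (nat_lit 5) (by decide +kernel)
theorem L299090 : W_1 (nat_lit 3) (nat_lit 0x3000100038001c0000000000000000000000000000000) (nat_lit 0x0) (nat_lit 0x28000000000002000100008000000000000000000) := T_1 (nat_lit 109) (nat_lit 159) (nat_lit 5) (nat_lit 7) (nat_lit 6) L299089 (by decide +kernel)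
theorem L299091 : W_1 (nat_lit 4) (nat_lit 0x2000100038001c0000000000000000000000000000000) (nat_lit 0x0) (nat_lit 0x2000100028000000000002000100008000000000000000000) := T_1 (nat_lit 176) (nat_lit 193) (nat_lit 5) (nat_lit 7) (nat_lit 7) L299090 (by decide +kernel)
theorem L299092 : W_1 (nat_lit 5) (nat_lit 0x100038001c0000000000000000000000000000000) (nat_lit 0x0) (nat_lit 0x6000300028000000000002000100008000000000000000000) := T_1 (nat_lit 177) (nat_lit 194) (nat_lit 6) (nat_lit 7) (nat_lit 11) L299091 (by decide +kernel)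
theorem L303772 : W_1 (nat_lit 2) (nat_lit 0x3c000c0002000000000000000000000000000) (nat_lit 0x0) (nat_lit 0x20000000000000000100008000000000000000000) := D_1 (nat_lit 92) (nat_lit 161) (nat_lit 75) (nat_lit 7) (nat_lit 7) (nat_lit 5) (nat_lit 7) (nat_lit 7) (nat_lit 4) (by decide +kernel)
theorem L304428 : W_1 (nat_lit 2) (nat_lit 0x10000f80000003c00080000000000000000000000000000000) (nat_lit 0x0) (nat_lit 0x3800000000000000000000000000000000000000000000000) := D_1 (nat_lit 192) (nat_lit 191) (nat_lit 193) (nat_lit 1) (nat_lit 8) (nat_lit 10) (nat_lit 1) (nat_lit 9) (nat_lit 10) (by decide +kernel)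
theorem L304429 : W_1 (nat_lit 3) (nat_lit 0x10000f00000003c00080000000000000000000000000000000) (nat_lit 0x0) (nat_lit 0xb800080000000000000000000000000000000000000000000) := T_1 (nat_lit 175) (nat_lit 195) (nat_lit 3) (nat_lit 5) (nat_lit 10) L304428 (by decide +kernel)
theorem L309764 : W_1 (nat_lit 3) (nat_lit 0x600020001c00080000000000000000000000000000000) (nat_lit 0x0) (nat_lit 0x2000700008000000000000000000000000000) := T_1 (nat_lit 128) (nat_lit 111) (nat_lit 6) (nat_lit 8) (nat_lit 10) L40796 (by decide +kernel)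
theorem L312640 : W_1 (nat_lit 5) (nat_lit 0x100008001c00180000000000000000000000000000000) (nat_lit 0x0) (nat_lit 0x14000e0007000000000000000040000000000000000000000000000000) := T_1 (nat_lit 193) (nat_lit 126) (nat_lit 6) (nat_lit 6) (nat_lit 11) L294185 (by decide +kernel)
theorem L312644 : W_1 (nat_lit 2) (nat_lit 0x80006000200010000d001c00080000000000000000000000000000000) (nat_lit 0x0) (nat_lit 0x20001000080000000000000000000000000000000000000000000000000000) := D_1 (nat_lit 228) (nat_lit 211) (nat_lit 245) (nat_lit 7) (nat_lit 6) (nat_lit 9) (nat_lit 7) (nat_lit 6) (nat_lit 10) (by decide +kernel)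
theorem L312645 : W_1 (nat_lit 3) (nat_lit 0x6000200010000d001c00080000000000000000000000000000000) (nat_lit 0x0) (nat_lit 0x20001800080000000080000000000000000000000000000000000000000000) := T_1 (nat_lit 227) (nat_lit 175) (nat_lit 4) (nat_lit 6) (nat_lit 13) L312644 (by decide +kernel)
theorem L312646 : W_1 (nat_lit 4) (nat_lit 0x2000200010000d001c00080000000000000000000000000000000) (nat_lit 0x0) (nat_lit 0x20001c000c0000000080000000000000000000000000000000000000000000) := T_1 (nat_lit 210) (nat_lit 226) (nat_lit 5) (nat_lit 6) (nat_lit 9) L312645 (by decide +kernel)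
theorem L312647 : W_1 (nat_lit 5) (nat_lit 0x2000200010000c001c00080000000000000000000000000000000) (nat_lit 0x0) (nat_lit 0x20001c000c0000000080003000000000000000000000000000000000000000) := T_1 (nat_lit 156) (nat_lit 157) (nat_lit 2) (nat_lit 3) (nat_lit 9) L312646 (by decide +kernel)
theorem L312648 : W_1 (nat_lit 6) (nat_lit 0x200010000c001c00080000000000000000000000000000000) (nat_lit 0x0) (nat_lit 0x20001c000e0001000080003000000000000000000000000000000000000000) := T_1 (nat_lit 209) (nat_lit 192) (nat_lit 5) (nat_lit 6) (nat_lit 8) L312647 (by decide +kernel)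
theorem L312649 : W_1 (nat_lit 7) (nat_lit 0x2000100008001c00080000000000000000000000000000000) (nat_lit 0x0) (nat_lit 0x20001c000e0001000080007002000000000000000000000000000000000000) := T_1 (nat_lit 158) (nat_lit 145) (nat_lit 1) (nat_lit 9) (nat_lit 8) L312648 (by decide +kernel)
theorem L313068 : W_1 (nat_lit 5) (nat_lit 0x500008001c00180000000000000000000000000000000) (nat_lit 0x0) (nat_lit 0x20007800a80000000000040000000000000000000000000000000) := T_1 (nat_lit 193) (nat_lit 126) (nat_lit 6) (nat_lit 6) (nat_lit 11) L292950 (by decide +kernel)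
theorem L313183 : W_1 (nat_lit 2) (nat_lit 0x7000300008001c00180000000000000000000000000000000) (nat_lit 0x0) (nat_lit 0x800400020000000000000000000000000000000000000000) := D_1 (nat_lit 178) (nat_lit 191) (nat_lit 161) (nat_lit 2) (nat_lit 4) (nat_lit 11) (nat_lit 5) (nat_lit 8) (nat_lit 7) (by decide +kernel)
theorem L313304 : W_1 (nat_lit 2) (nat_lit 0x200038003c00180000000000000000000000000000000) (nat_lit 0x0) (nat_lit 0x8000400000000000000008000000000000000000000000000) := D_1 (nat_lit 178) (nat_lit 195) (nat_lit 111) (nat_lit 6) (nat_lit 8) (nat_lit 11) (nat_lit 6) (nat_lit 8) (nat_lit 10) (by decide +kernel)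
theorem L313305 : W_1 (nat_lit 3) (nat_lit 0x200038003c00080000000000000000000000000000000) (nat_lit 0x0) (nat_lit 0x8000400000000000300008000000000000000000000000000) := T_1 (nat_lit 128) (nat_lit 129) (nat_lit 2) (nat_lit 6) (nat_lit 8) L313304 (by decide +kernel)
theorem L313306 : W_1 (nat_lit 4) (nat_lit 0x38003c00080000000000000000000000000000000) (nat_lit 0x0) (nat_lit 0xc000600000000000300008000000000000000000000000000) := T_1 (nat_lit 177) (nat_lit 194) (nat_lit 6) (nat_lit 7) (nat_lit 11) L313305 (by decide +kernel)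
theorem L313307 : W_1 (nat_lit 5) (nat_lit 0x38001c00080000000000000000000000000000000) (nat_lit 0x0) (nat_lit 0xc000600000006000300008000000000000000000000000000) := T_1 (nat_lit 145) (nat_lit 146) (nat_lit 1) (nat_lit 10) (nat_lit 8) L313306 (by decide +kernel)
theorem L313454 : W_1 (nat_lit 2) (nat_lit 0x100078003c00080000000000000000000000000000000) (nat_lit 0x0) (nat_lit 0x10001800000000000000000000000000000000000000000000) := D_1 (nat_lit 179) (nat_lit 196) (nat_lit 180) (nat_lit 4) (nat_lit 9) (nat_lit 11) (nat_lit 3) (nat_lit 6) (nat_lit 9) (by decide +kernel)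
theorem L313455 : W_1 (nat_lit 3) (nat_lit 0x100078001c00080000000000000000000000000000000) (nat_lit 0x0) (nat_lit 0x10001800000006000000000000000000000000000000000000) := T_1 (nat_lit 145) (nat_lit 146) (nat_lit 2) (nat_lit 6) (nat_lit 9) L313454 (by decide +kernel)
theorem L314429 : W_1 (nat_lit 2) (nat_lit 0x10000f00018003c00080000000000000000000000000000000) (nat_lit 0x0) (nat_lit 0x40003000000000000000000000000000000000000000000000000) := D_1 (nat_lit 193) (nat_lit 192) (nat_lit 210) (nat_lit 1) (nat_lit 9) (nat_lit 10) (nat_lit 6) (nat_lit 6) (nat_lit 12) (by decide +kernel)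
theorem L314430 : W_1 (nat_lit 3) (nat_lit 0x10000e00018003c00080000000000000000000000000000000) (nat_lit 0x0) (nat_lit 0x40023000100000000000000000000000000000000000000000000) := T_1 (nat_lit 176) (nat_lit 197) (nat_lit 3) (nat_lit 6) (nat_lit 10) L314429 (by decide +kernel)
theorem L314431 : W_1 (nat_lit 4) (nat_lit 0xe00018003c00080000000000000000000000000000000) (nat_lit 0x0) (nat_lit 0x40033000100040000000000000000000000000000000000000000) := T_1 (nat_lit 196) (nat_lit 162) (nat_lit 4) (nat_lit 9) (nat_lit 11) L314430 (by decide +kernel)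
theorem L314432 : W_1 (nat_lit 5) (nat_lit 0xe00018001c00080000000000000000000000000000000) (nat_lit 0x0) (nat_lit 0x40033000100040006000000000000000000000000000000000000) := T_1 (nat_lit 145) (nat_lit 146) (nat_lit 1) (nat_lit 10) (nat_lit 8) L314431 (by decide +kernel)
theorem L314433 : W_1 (nat_lit 6) (nat_lit 0x600018001c00080000000000000000000000000000000) (nat_lit 0x0) (nat_lit 0x40033001900040006000000000000000000000000000000000000) := T_1 (nat_lit 179) (nat_lit 180) (nat_lit 0) (nat_lit 10) (nat_lit 10) L314432 (by decide +kernel)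
theorem L314435 : W_1 (nat_lit 7) (nat_lit 0x600008001c00080000000000000000000000000000000) (nat_lit 0x0) (nat_lit 0x40037001900050006000000000000000000000000000000000000) := T_1 (nat_lit 160) (nat_lit 194) (nat_lit 6) (nat_lit 7) (nat_lit 11) L314433 (by decide +kernel)
theorem L315419 : W_1 (nat_lit 2) (nat_lit 0x38003c001a00180000000000000000000000000000000) (nat_lit 0x0) (nat_lit 0x40002000000000000000010000000000000000000000000000000) := D_1 (nat_lit 193) (nat_lit 210) (nat_lit 124) (nat_lit 6) (nat_lit 6) (nat_lit 12) (nat_lit 7) (nat_lit 5) (nat_lit 7) (by decide +kernel)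
theorem L315420 : W_1 (nat_lit 3) (nat_lit 0x28003c001a00180000000000000000000000000000000) (nat_lit 0x0) (nat_lit 0x40002000100040000000010000000000000000000000000000000) := T_1 (nat_lit 176) (nat_lit 162) (nat_lit 1) (nat_lit 9) (nat_lit 9) L315419 (by decide +kernel)
theorem L315421 : W_1 (nat_lit 4) (nat_lit 0x28003c001800180000000000000000000000000000000) (nat_lit 0x0) (nat_lit 0x40002000100040000300010000000000000000000000000000000) := T_1 (nat_lit 141) (nat_lit 140) (nat_lit 0) (nat_lit 8) (nat_lit 9) L315420 (by decide +kernel)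
theorem L318001 : W_1 (nat_lit 13) (nat_lit 0x20001000080000000000000000000000000000000) (nat_lit 0x0) (nat_lit 0x28001c000e0000001ef8077807be00000000000000000000000000) := Q_1 (nat_lit 178) (C_1 L41964 (C_1 L38671 (C_1 L41961 (C_1 L41926 N_1)))) (by decide +kernel)
theorem L318045 : W_1 (nat_lit 2) (nat_lit 0x38003c001a0000000400000000000000000000000) (nat_lit 0x0) (nat_lit 0x200000000000000001000080000000000000000000000) := D_1 (nat_lit 108) (nat_lit 91) (nat_lit 177) (nat_lit 7) (nat_lit 6) (nat_lit 5) (nat_lit 7) (nat_lit 6) (nat_lit 6) (by decide +kernel)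
theorem L321000 : W_1 (nat_lit 2) (nat_lit 0x2001fc002a0000000000000000000000000000000) (nat_lit 0x0) (nat_lit 0x700000000000000000000000000000000000000000) := D_1 (nat_lit 165) (nat_lit 164) (nat_lit 166) (nat_lit 3) (nat_lit 8) (nat_lit 8) (nat_lit 3) (nat_lit 9) (nat_lit 8) (by decide +kernel)
theorem L321001 : W_1 (nat_lit 3) (nat_lit 0x2000fc002a0000000000000000000000000000000) (nat_lit 0x0) (nat_lit 0x740010000000000000000000000000000000000000) := T_1 (nat_lit 148) (nat_lit 162) (nat_lit 1) (nat_lit 12) (nat_lit 8) L321000 (by decide +kernel)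
theorem L321002 : W_1 (nat_lit 4) (nat_lit 0x20007c002a0000000000000000000000000000000) (nat_lit 0x0) (nat_lit 0x750018000000000000000000000000000000000000) := T_1 (nat_lit 147) (nat_lit 160) (nat_lit 1) (nat_lit 11) (nat_lit 8) L321001 (by decide +kernel)
theorem L321013 : W_1 (nat_lit 3) (nat_lit 0x28003c001a0000000400000000000000000000000) (nat_lit 0x0) (nat_lit 0x200010004000000001000080000000000000000000000) := T_1 (nat_lit 160) (nat_lit 146) (nat_lit 1) (nat_lit 10) (nat_lit 8) L318045 (by decide +kernel)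
theorem L321014 : W_1 (nat_lit 4) (nat_lit 0x28003c001a0000000000000000000000000000000) (nat_lit 0x0) (nat_lit 0x200010004000000009000480000000000000000000000) := T_1 (nat_lit 94) (nat_lit 111) (nat_lit 5) (nat_lit 9) (nat_lit 5) L321013 (by decide +kernel)
theorem L321098 : W_1 (nat_lit 2) (nat_lit 0x2001fc00290000000000000000000000000000000) (nat_lit 0x0) (nat_lit 0x700000000000000000000000000000000000000000) := D_1 (nat_lit 165) (nat_lit 164) (nat_lit 166) (nat_lit 3) (nat_lit 8) (nat_lit 8) (nat_lit 3) (nat_lit 9) (nat_lit 8) (by decide +kernel)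
theorem L321099 : W_1 (nat_lit 3) (nat_lit 0x2000fc00290000000000000000000000000000000) (nat_lit 0x0) (nat_lit 0x740010000000000000000000000000000000000000) := T_1 (nat_lit 148) (nat_lit 162) (nat_lit 1) (nat_lit 12) (nat_lit 8) L321098 (by decide +kernel)
theorem L321100 : W_1 (nat_lit 4) (nat_lit 0x20007c00290000000000000000000000000000000) (nat_lit 0x0) (nat_lit 0x750018000000000000000000000000000000000000) := T_1 (nat_lit 147) (nat_lit 160) (nat_lit 1) (nat_lit 11) (nat_lit 8) L321099 (by decide +kernel)
theorem L321101 : W_1 (nat_lit 5) (nat_lit 0x20003c00290000000000000000000000000000000) (nat_lit 0x0) (nat_lit 0x75001c000400000000000000000000000000000000) := T_1 (nat_lit 146) (nat_lit 130) (nat_lit 2) (nat_lit 7) (nat_lit 8) L321100 (by decide +kernel)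
theorem L321102 : W_1 (nat_lit 6) (nat_lit 0x20003c00090000000000000000000000000000000) (nat_lit 0x0) (nat_lit 0x75001c000700000000000000000000000000000000) := T_1 (nat_lit 129) (nat_lit 128) (nat_lit 2) (nat_lit 6) (nat_lit 8) L321101 (by decide +kernel)
theorem L330146 : W_1 (nat_lit 2) (nat_lit 0xc00028007c002c0000000000000000000000000000000) (nat_lit 0x0) (nat_lit 0x40000300000000000000000000000000000000000) := D_1 (nat_lit 141) (nat_lit 140) (nat_lit 162) (nat_lit 2) (nat_lit 4) (nat_lit 8) (nat_lit 3) (nat_lit 5) (nat_lit 8) (by decide +kernel)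
theorem L330147 : W_1 (nat_lit 3) (nat_lit 0xc000280078002c0000000000000000000000000000000) (nat_lit 0x0) (nat_lit 0x44000700000000000000000000000000000000000) := T_1 (nat_lit 142) (nat_lit 158) (nat_lit 1) (nat_lit 9) (nat_lit 8) L330146 (by decide +kernel)
theorem L330148 : W_1 (nat_lit 4) (nat_lit 0xc000200078002c0000000000000000000000000000000) (nat_lit 0x0) (nat_lit 0x5c000700000000000000000000000000000000000) := T_1 (nat_lit 159) (nat_lit 160) (nat_lit 1) (nat_lit 10) (nat_lit 8) L330147 (by decide +kernel)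
theorem L330149 : W_1 (nat_lit 5) (nat_lit 0xc000200078000c0000000000000000000000000000000) (nat_lit 0x0) (nat_lit 0x5c000700600000000000000000000000000000000) := T_1 (nat_lit 129) (nat_lit 130) (nat_lit 2) (nat_lit 7) (nat_lit 8) L330148 (by decide +kernel)
theorem L332435 : W_1 (nat_lit 4) (nat_lit 0x20003c001c0002000000000000000000000000000) (nat_lit 0x0) (nat_lit 0x200010001c000000000008000400000000000000000000000) := T_1 (nat_lit 94) (nat_lit 111) (nat_lit 5) (nat_lit 9) (nat_lit 5) L261431 (by decide +kernel)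
theorem L332436 : W_1 (nat_lit 5) (nat_lit 0x200038001c0002000000000000000000000000000) (nat_lit 0x0) (nat_lit 0x200010001c000600000008000400000000000000000000000) := T_1 (nat_lit 142) (nat_lit 141) (nat_lit 2) (nat_lit 5) (nat_lit 8) L332435 (by decide +kernel)
theorem L332437 : W_1 (nat_lit 6) (nat_lit 0x200038001c0000000000000000000000000000000) (nat_lit 0x0) (nat_lit 0x200010001c00060000000a000500000000000000000000000) := T_1 (nat_lit 109) (nat_lit 92) (nat_lit 7) (nat_lit 7) (nat_lit 5) L332436 (by decide +kernel)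
theorem L341410 : W_1 (nat_lit 2) (nat_lit 0x7000300078002c0000000000000000000000000000000) (nat_lit 0x0) (nat_lit 0xc0040000000000000000000000000000000000000000) := D_1 (nat_lit 175) (nat_lit 162) (nat_lit 174) (nat_lit 2) (nat_lit 5) (nat_lit 10) (nat_lit 2) (nat_lit 4) (nat_lit 10) (by decide +kernel)
theorem L345118 : W_1 (nat_lit 7) (nat_lit 0x600000001c00080000000000000000000000000000000) (nat_lit 0x0) (nat_lit 0xe00010001800000004000300018000c000000000000000000) := T_1 (nat_lit 160) (nat_lit 194) (nat_lit 6) (nat_lit 7) (nat_lit 11) L294809 (by decide +kernel)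
theorem L346089 : W_1 (nat_lit 6) (nat_lit 0x500008003c00180000000000000000000000000000000) (nat_lit 0x0) (nat_lit 0xa001f0008c0000000000040000000000000000000000000000000) := T_1 (nat_lit 193) (nat_lit 126) (nat_lit 6) (nat_lit 6) (nat_lit 11) L294394 (by decide +kernel)
theorem L352851 : W_1 (nat_lit 2) (nat_lit 0x600008003c00080000000000000000000000000000000) (nat_lit 0x0) (nat_lit 0x4000000010004000000000000000000000000000000000000) := D_1 (nat_lit 160) (nat_lit 194) (nat_lit 146) (nat_lit 6) (nat_lit 7) (nat_lit 11) (nat_lit 1) (nat_lit 10) (nat_lit 8) (by decide +kernel)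
theorem L352852 : W_1 (nat_lit 3) (nat_lit 0x600008001c00080000000000000000000000000000000) (nat_lit 0x0) (nat_lit 0x4000000014006000000000000000000000000000000000000) := T_1 (nat_lit 145) (nat_lit 158) (nat_lit 1) (nat_lit 9) (nat_lit 8) L352851 (by decide +kernel)
theorem L353241 : W_1 (nat_lit 2) (nat_lit 0x400070000c001c00080000000000000000000000000000000) (nat_lit 0x0) (nat_lit 0x1000080002000000000000000000000000000000000000000000000000) := D_1 (nat_lit 211) (nat_lit 228) (nat_lit 193) (nat_lit 4) (nat_lit 7) (nat_lit 13) (nat_lit 7) (nat_lit 6) (nat_lit 8) (by decide +kernel)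
theorem L353242 : W_1 (nat_lit 3) (nat_lit 0x70000c001c00080000000000000000000000000000000) (nat_lit 0x0) (nat_lit 0x1000080006000000000000000020000000000000000000000000000000) := T_1 (nat_lit 194) (nat_lit 125) (nat_lit 7) (nat_lit 6) (nat_lit 7) L353241 (by decide +kernel)
theorem L353484 : W_1 (nat_lit 2) (nat_lit 0x600010003c00080000000000000000000000000000000) (nat_lit 0x0) (nat_lit 0xc004000000000000000000000000000000000000) := D_1 (nat_lit 159) (nat_lit 146) (nat_lit 158) (nat_lit 1) (nat_lit 10) (nat_lit 8) (nat_lit 1) (nat_lit 9) (nat_lit 8) (by decide +kernel)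
theorem L353485 : W_1 (nat_lit 3) (nat_lit 0x600000003c00080000000000000000000000000000000) (nat_lit 0x0) (nat_lit 0x400000001c004000000000000000000000000000000000000) := T_1 (nat_lit 160) (nat_lit 194) (nat_lit 6) (nat_lit 7) (nat_lit 11) L353484 (by decide +kernel)
theorem L353493 : W_1 (nat_lit 4) (nat_lit 0x600008001c00080000000000000000000000000000000) (nat_lit 0x0) (nat_lit 0x4001900016000000000000000000000000000000000000000) := T_1 (nat_lit 160) (nat_lit 194) (nat_lit 6) (nat_lit 7) (nat_lit 11) L294597 (by decide +kernel)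
theorem L353494 : W_1 (nat_lit 8) (nat_lit 0x600000001c00080000000000000000000000000000000) (nat_lit 0x0) (nat_lit 0x4003700198005f006000000000000000000000000000000000000) := Q_1 (nat_lit 159) (C_1 L353493 (C_1 L295195 (C_1 L314435 (C_1 L352852 N_1)))) (by decide +kernel)
theorem L362611 : W_1 (nat_lit 4) (nat_lit 0x3c001a0000000000000000000000000000000) (nat_lit 0x0) (nat_lit 0x200010004000040001800080000000000000000000000) := T_1 (nat_lit 126) (nat_lit 146) (nat_lit 3) (nat_lit 6) (nat_lit 7) L253669 (by decide +kernel)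
theorem L362612 : W_1 (nat_lit 5) (nat_lit 0x3c00180000000000000000000000000000000) (nat_lit 0x0) (nat_lit 0x200010004000070001800080000000000000000000000) := T_1 (nat_lit 125) (nat_lit 124) (nat_lit 0) (nat_lit 9) (nat_lit 8) L362611 (by decide +kernel)
theorem L365764 : W_1 (nat_lit 2) (nat_lit 0x1f00030001c000c0000000000000000000000000000000) (nat_lit 0x0) (nat_lit 0xc0040000000000000000000000000000000000000000) := D_1 (nat_lit 175) (nat_lit 162) (nat_lit 174) (nat_lit 2) (nat_lit 5) (nat_lit 10) (nat_lit 2) (nat_lit 4) (nat_lit 10) (by decide +kernel)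
theorem L365765 : W_1 (nat_lit 3) (nat_lit 0x1e00030001c000c0000000000000000000000000000000) (nat_lit 0x0) (nat_lit 0x20001c0040000000000000000000000000000000000000000) := T_1 (nat_lit 176) (nat_lit 193) (nat_lit 5) (nat_lit 7) (nat_lit 7) L365764 (by decide +kernel)
theorem L365766 : W_1 (nat_lit 4) (nat_lit 0xe00030001c000c0000000000000000000000000000000) (nat_lit 0x0) (nat_lit 0x20031c0040000000000000000000000000000000000000000) := T_1 (nat_lit 180) (nat_lit 181) (nat_lit 0) (nat_lit 11) (nat_lit 10) L365765 (by decide +kernel)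
theorem L365767 : W_1 (nat_lit 5) (nat_lit 0x600030001c000c0000000000000000000000000000000) (nat_lit 0x0) (nat_lit 0x120039c0040000000000000000000000000000000000000000) := T_1 (nat_lit 179) (nat_lit 196) (nat_lit 7) (nat_lit 8) (nat_lit 7) L365766 (by decide +kernel)
theorem L365768 : W_1 (nat_lit 6) (nat_lit 0x400030001c000c0000000000000000000000000000000) (nat_lit 0x0) (nat_lit 0x16003bc0040000000000000000000000000000000000000000) := T_1 (nat_lit 177) (nat_lit 194) (nat_lit 6) (nat_lit 7) (nat_lit 11) L365767 (by decide +kernel)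
theorem L365769 : W_1 (nat_lit 7) (nat_lit 0x400030001c00080000000000000000000000000000000) (nat_lit 0x0) (nat_lit 0x16003bc0040000000040002000000000000000000000000000) := T_1 (nat_lit 126) (nat_lit 109) (nat_lit 7) (nat_lit 7) (nat_lit 6) L365768 (by decide +kernel)
theorem L365770 : W_1 (nat_lit 3) (nat_lit 0x600030001c000c0000000000000000000000000000000) (nat_lit 0x0) (nat_lit 0x20001c0040000000000000000000000000000000000000000) := T_1 (nat_lit 176) (nat_lit 193) (nat_lit 5) (nat_lit 7) (nat_lit 7) L258408 (by decide +kernel)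
theorem L365771 : W_1 (nat_lit 4) (nat_lit 0x600030001c00080000000000000000000000000000000) (nat_lit 0x0) (nat_lit 0x20001c0040000000040002000000000000000000000000000) := T_1 (nat_lit 126) (nat_lit 109) (nat_lit 7) (nat_lit 7) (nat_lit 6) L365770 (by decide +kernel)
theorem L365772 : W_1 (nat_lit 5) (nat_lit 0x400030001c00080000000000000000000000000000000) (nat_lit 0x0) (nat_lit 0x60003c0040000000040002000000000000000000000000000) := T_1 (nat_lit 177) (nat_lit 194) (nat_lit 6) (nat_lit 7) (nat_lit 11) L365771 (by decide +kernel)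
theorem L365773 : W_1 (nat_lit 3) (nat_lit 0xc00030001c00080000000000000000000000000000000) (nat_lit 0x0) (nat_lit 0x400120000c000000000000000000000000000000000000000) := T_1 (nat_lit 159) (nat_lit 158) (nat_lit 3) (nat_lit 5) (nat_lit 9) L294726 (by decide +kernel)
theorem L365774 : W_1 (nat_lit 4) (nat_lit 0x400030001c00080000000000000000000000000000000) (nat_lit 0x0) (nat_lit 0x14001a0000c000000000000000000000000000000000000000) := T_1 (nat_lit 179) (nat_lit 196) (nat_lit 7) (nat_lit 8) (nat_lit 7) L365773 (by decide +kernel)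
theorem L365775 : W_1 (nat_lit 2) (nat_lit 0xc00038001c00080002000000000000000000000000000) (nat_lit 0x0) (nat_lit 0x3000040000000000000000000000000000000000000000) := D_1 (nat_lit 180) (nat_lit 181) (nat_lit 162) (nat_lit 0) (nat_lit 11) (nat_lit 10) (nat_lit 3) (nat_lit 6) (nat_lit 9) (by decide +kernel)
theorem L365776 : W_1 (nat_lit 3) (nat_lit 0xc00030001c00080002000000000000000000000000000) (nat_lit 0x0) (nat_lit 0x300004c000000000000000000000000000000000000000) := T_1 (nat_lit 159) (nat_lit 158) (nat_lit 3) (nat_lit 5) (nat_lit 9) L365775 (by decide +kernel)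
theorem L365777 : W_1 (nat_lit 4) (nat_lit 0x400030001c00080002000000000000000000000000000) (nat_lit 0x0) (nat_lit 0x1000380004c000000000000000000000000000000000000000) := T_1 (nat_lit 179) (nat_lit 196) (nat_lit 7) (nat_lit 8) (nat_lit 7) L365776 (by decide +kernel)
theorem L365778 : W_1 (nat_lit 5) (nat_lit 0x400030001c00080000000000000000000000000000000) (nat_lit 0x0) (nat_lit 0x1000380004c000000040002000000000000000000000000000) := T_1 (nat_lit 109) (nat_lit 126) (nat_lit 7) (nat_lit 7) (nat_lit 6) L365777 (by decide +kernel)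
theorem L365779 : W_1 (nat_lit 8) (nat_lit 0x400020001c00080000000000000000000000000000000) (nat_lit 0x0) (nat_lit 0x16003bc005c000000040002000000000000000000000000000) := Q_1 (nat_lit 160) (C_1 L365769 (C_1 L365772 (C_1 L365774 (C_1 L365778 N_1)))) (by decide +kernel)
theorem L375641 : W_1 (nat_lit 2) (nat_lit 0x12007f0010400000000000000000000000000) (nat_lit 0x0) (nat_lit 0x1c000000000000000000000000000000000000) := D_1 (nat_lit 147) (nat_lit 146) (nat_lit 148) (nat_lit 3) (nat_lit 7) (nat_lit 7) (nat_lit 3) (nat_lit 8) (nat_lit 7) (by decide +kernel)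
theorem L375642 : W_1 (nat_lit 3) (nat_lit 0x12003f0010400000000000000000000000000) (nat_lit 0x0) (nat_lit 0x1c800400000000000000000000000000000000) := T_1 (nat_lit 130) (nat_lit 143) (nat_lit 1) (nat_lit 11) (nat_lit 7) L375641 (by decide +kernel)
theorem L375643 : W_1 (nat_lit 4) (nat_lit 0x12001f0010400000000000000000000000000) (nat_lit 0x0) (nat_lit 0x1c800600020000000000000000000000000000) := T_1 (nat_lit 129) (nat_lit 113) (nat_lit 2) (nat_lit 7) (nat_lit 7) L375642 (by decide +kernel)
theorem L375644 : W_1 (nat_lit 5) (nat_lit 0x12001f0000400000000000000000000000000) (nat_lit 0x0) (nat_lit 0x1c800600038000000000000000000000000000) := T_1 (nat_lit 112) (nat_lit 111) (nat_lit 2) (nat_lit 6) (nat_lit 7) L375643 (by decide +kernel)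
theorem L375645 : W_1 (nat_lit 6) (nat_lit 0x12000f0000400000000000000000000000000) (nat_lit 0x0) (nat_lit 0x1cc00700038000000000000000000000000000) := T_1 (nat_lit 128) (nat_lit 142) (nat_lit 1) (nat_lit 9) (nat_lit 7) L375644 (by decide +kernel)
theorem L375646 : W_1 (nat_lit 7) (nat_lit 0x10000f0000400000000000000000000000000) (nat_lit 0x0) (nat_lit 0x1cf00700038000000000000000000000000000) := T_1 (nat_lit 141) (nat_lit 140) (nat_lit 1) (nat_lit 8) (nat_lit 7) L375645 (by decide +kernel)
theorem L375647 : W_1 (nat_lit 8) (nat_lit 0x10000f0000000000000000000000000000000) (nat_lit 0x0) (nat_lit 0x1cf00700038c00000000000000000000000000) := T_1 (nat_lit 106) (nat_lit 107) (nat_lit 0) (nat_lit 8) (nat_lit 7) L375646 (by decide +kernel)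
theorem L375648 : W_1 (nat_lit 9) (nat_lit 0x10000e0000000000000000000000000000000) (nat_lit 0x0) (nat_lit 0x1cf80718038e00000000000000000000000000) := Q_1 (nat_lit 124) (C_1 L1477 (C_1 L1456 (C_1 L129 (C_1 L375647 N_1)))) (by decide +kernel)
theorem L375699 : W_1 (nat_lit 2) (nat_lit 0x10003e0010000000000000000000000000000) (nat_lit 0x0) (nat_lit 0xc00400000000000000000000000000000000) := D_1 (nat_lit 143) (nat_lit 130) (nat_lit 142) (nat_lit 1) (nat_lit 11) (nat_lit 7) (nat_lit 1) (nat_lit 10) (nat_lit 7) (by decide +kernel)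
theorem L375700 : W_1 (nat_lit 3) (nat_lit 0x10001e0010000000000000000000000000000) (nat_lit 0x0) (nat_lit 0xc00600020000000000000000000000000000) := T_1 (nat_lit 129) (nat_lit 113) (nat_lit 2) (nat_lit 7) (nat_lit 7) L375699 (by decide +kernel)
theorem L375701 : W_1 (nat_lit 4) (nat_lit 0x10001e0000000000000000000000000000000) (nat_lit 0x0) (nat_lit 0xc00600038000000000000000000000000000) := T_1 (nat_lit 112) (nat_lit 111) (nat_lit 2) (nat_lit 6) (nat_lit 7) L375700 (by decide +kernel)
theorem L375722 : W_1 (nat_lit 2) (nat_lit 0x200010001f0000000000000000000000000000000) (nat_lit 0x0) (nat_lit 0x1c00000000000000000000000000) := D_1 (nat_lit 107) (nat_lit 108) (nat_lit 106) (nat_lit 0) (nat_lit 9) (nat_lit 7) (nat_lit 0) (nat_lit 8) (nat_lit 7) (by decide +kernel)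
theorem L375723 : W_1 (nat_lit 2) (nat_lit 0x200010001f8000000000000000000000000000000) (nat_lit 0x0) (nat_lit 0xe00000000000000000000000000) := D_1 (nat_lit 106) (nat_lit 107) (nat_lit 105) (nat_lit 0) (nat_lit 8) (nat_lit 7) (nat_lit 0) (nat_lit 7) (nat_lit 7) (by decide +kernel)
theorem L375724 : W_1 (nat_lit 3) (nat_lit 0x200010001f0000000000000000000000000000000) (nat_lit 0x0) (nat_lit 0x800008000e00000000000000000000000000) := T_1 (nat_lit 123) (nat_lit 143) (nat_lit 3) (nat_lit 4) (nat_lit 7) L375723 (by decide +kernel)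
theorem L375725 : W_1 (nat_lit 2) (nat_lit 0x200010801fc000000000000000000000000000000) (nat_lit 0x0) (nat_lit 0x700000000000000000000000000) := D_1 (nat_lit 105) (nat_lit 104) (nat_lit 106) (nat_lit 0) (nat_lit 6) (nat_lit 7) (nat_lit 0) (nat_lit 7) (nat_lit 7) (by decide +kernel)
theorem L375726 : W_1 (nat_lit 3) (nat_lit 0x200010801f8000000000000000000000000000000) (nat_lit 0x0) (nat_lit 0x40004000700000000000000000000000000) := T_1 (nat_lit 122) (nat_lit 138) (nat_lit 1) (nat_lit 6) (nat_lit 7) L375725 (by decide +kernel)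
theorem L375727 : W_1 (nat_lit 4) (nat_lit 0x200010001f8000000000000000000000000000000) (nat_lit 0x0) (nat_lit 0x1c0004000700000000000000000000000000) := T_1 (nat_lit 139) (nat_lit 140) (nat_lit 1) (nat_lit 7) (nat_lit 7) L375726 (by decide +kernel)
theorem L375728 : W_1 (nat_lit 5) (nat_lit 0x200010001f0000000000000000000000000000000) (nat_lit 0x0) (nat_lit 0x9c000c000700000000000000000000000000) := T_1 (nat_lit 123) (nat_lit 143) (nat_lit 3) (nat_lit 4) (nat_lit 7) L375727 (by decide +kernel)
theorem L375729 : W_1 (nat_lit 2) (nat_lit 0x200010001fc009000000020000000000000000000) (nat_lit 0x0) (nat_lit 0x1c0000000000000000000000000000000000) := D_1 (nat_lit 139) (nat_lit 140) (nat_lit 138) (nat_lit 1) (nat_lit 7) (nat_lit 7) (nat_lit 1) (nat_lit 6) (nat_lit 7) (by decide +kernel)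
theorem L375730 : W_1 (nat_lit 3) (nat_lit 0x200010001f8009000000020000000000000000000) (nat_lit 0x0) (nat_lit 0x1c0004002000000000000000000000000000) := T_1 (nat_lit 122) (nat_lit 109) (nat_lit 2) (nat_lit 3) (nat_lit 7) L375729 (by decide +kernel)
theorem L375731 : W_1 (nat_lit 4) (nat_lit 0x200010001f0009000000020000000000000000000) (nat_lit 0x0) (nat_lit 0x9c000c002000000000000000000000000000) := T_1 (nat_lit 123) (nat_lit 143) (nat_lit 3) (nat_lit 4) (nat_lit 7) L375730 (by decide +kernel)
theorem L375732 : W_1 (nat_lit 5) (nat_lit 0x200010001f0009000000000000000000000000000) (nat_lit 0x0) (nat_lit 0x9c000c002000400020000000000000000000) := T_1 (nat_lit 77) (nat_lit 94) (nat_lit 5) (nat_lit 9) (nat_lit 4) L375731 (by decide +kernel)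
theorem L375733 : W_1 (nat_lit 6) (nat_lit 0x200010001f0008000000000000000000000000000) (nat_lit 0x0) (nat_lit 0x9c000c003800400020000000000000000000) := T_1 (nat_lit 108) (nat_lit 107) (nat_lit 0) (nat_lit 9) (nat_lit 7) L375732 (by decide +kernel)
theorem L375734 : W_1 (nat_lit 7) (nat_lit 0x200010001f0000000000000000000000000000000) (nat_lit 0x0) (nat_lit 0x9c000c01b800400020000000000000000000) := T_1 (nat_lit 111) (nat_lit 112) (nat_lit 2) (nat_lit 6) (nat_lit 7) L375733 (by decide +kernel)
theorem L375735 : W_1 (nat_lit 8) (nat_lit 0x200010001e0000000000000000000000000000000) (nat_lit 0x0) (nat_lit 0x9c001c01bf00400020000000000000000000) := Q_1 (nat_lit 124) (C_1 L375722 (C_1 L375724 (C_1 L375728 (C_1 L375734 N_1)))) (by decide +kernel)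
theorem L375736 : W_1 (nat_lit 2) (nat_lit 0x200010001e0002c00000000000000000000000000) (nat_lit 0x0) (nat_lit 0x800000000000100008000000000000000000) := D_1 (nat_lit 92) (nat_lit 75) (nat_lit 143) (nat_lit 7) (nat_lit 7) (nat_lit 4) (nat_lit 7) (nat_lit 7) (nat_lit 5) (by decide +kernel)
theorem L375737 : W_1 (nat_lit 3) (nat_lit 0x200010001e0000c00000000000000000000000000) (nat_lit 0x0) (nat_lit 0x400000000800000002000100008000000000000000000) := T_1 (nat_lit 109) (nat_lit 178) (nat_lit 4) (nat_lit 8) (nat_lit 10) L375736 (by decide +kernel)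
theorem L375738 : W_1 (nat_lit 4) (nat_lit 0x200010001e0000800000000000000000000000000) (nat_lit 0x0) (nat_lit 0x400000000800010002400100008000000000000000000) := T_1 (nat_lit 106) (nat_lit 124) (nat_lit 0) (nat_lit 8) (nat_lit 7) L375737 (by decide +kernel)
theorem L375739 : W_1 (nat_lit 5) (nat_lit 0x200010001e0000000000000000000000000000000) (nat_lit 0x0) (nat_lit 0x400000000800010003c00100008000000000000000000) := T_1 (nat_lit 107) (nat_lit 108) (nat_lit 0) (nat_lit 9) (nat_lit 7) L375738 (by decide +kernel)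
theorem L375740 : W_1 (nat_lit 9) (nat_lit 0x10001e0000000000000000000000000000000) (nat_lit 0x0) (nat_lit 0x4000200009c001c01bf00500028000000000000000000) := Q_1 (nat_lit 161) (C_1 L254550 (C_1 L375735 (C_1 L375739 N_1))) (by decide +kernel)
theorem L375741 : W_1 (nat_lit 3) (nat_lit 0x10001f0000800000000000000000000000000) (nat_lit 0x0) (nat_lit 0xc00608000000000000000000000000000000) := T_1 (nat_lit 143) (nat_lit 123) (nat_lit 3) (nat_lit 4) (nat_lit 7) L72237 (by decide +kernel)
theorem L375742 : W_1 (nat_lit 4) (nat_lit 0x10001e0000800000000000000000000000000) (nat_lit 0x0) (nat_lit 0xc00618000400000000000000000000000000) := T_1 (nat_lit 124) (nat_lit 106) (nat_lit 0) (nat_lit 8) (nat_lit 7) L375741 (by decide +kernel)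
theorem L375743 : W_1 (nat_lit 5) (nat_lit 0x10001e0000000000000000000000000000000) (nat_lit 0x0) (nat_lit 0xc00618001c00000000000000000000000000) := T_1 (nat_lit 107) (nat_lit 108) (nat_lit 0) (nat_lit 9) (nat_lit 7) L375742 (by decide +kernel)
theorem L375744 : W_1 (nat_lit 10) (nat_lit 0x10000e0000000000000000000000000000000) (nat_lit 0x0) (nat_lit 0x400020000dc071c03bf00500028000000000000000000) := Q_1 (nat_lit 128) (C_1 L254457 (C_1 L375701 (C_1 L375740 (C_1 L375743 N_1)))) (by decide +kernel)
theorem L376064 : W_1 (nat_lit 2) (nat_lit 0x5000100008001c000a0000000000000000000000000000000) (nat_lit 0x0) (nat_lit 0xa0002000000000000000000000000000000000000000000000000) := D_1 (nat_lit 193) (nat_lit 211) (nat_lit 209) (nat_lit 7) (nat_lit 6) (nat_lit 8) (nat_lit 5) (nat_lit 6) (nat_lit 8) (by decide +kernel)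
theorem L376146 : W_1 (nat_lit 2) (nat_lit 0x1000100018001c000a0001800100000000000000000000000) (nat_lit 0x0) (nat_lit 0x60002000000000000000000000000000000000000000000000000) := D_1 (nat_lit 193) (nat_lit 210) (nat_lit 209) (nat_lit 6) (nat_lit 6) (nat_lit 12) (nat_lit 5) (nat_lit 6) (nat_lit 8) (by decide +kernel)
theorem L376147 : W_1 (nat_lit 3) (nat_lit 0x100018001c000a0001800100000000000000000000000) (nat_lit 0x0) (nat_lit 0x60003000080000000000000000000000000000000000000000000) := T_1 (nat_lit 192) (nat_lit 175) (nat_lit 5) (nat_lit 6) (nat_lit 7) L376146 (by decide +kernel)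
theorem L376148 : W_1 (nat_lit 4) (nat_lit 0x18001c000a0001800100000000000000000000000) (nat_lit 0x0) (nat_lit 0x60003000180000000000010000000000000000000000000000000) := T_1 (nat_lit 176) (nat_lit 124) (nat_lit 4) (nat_lit 6) (nat_lit 10) L376147 (by decide +kernel)
theorem L376149 : W_1 (nat_lit 5) (nat_lit 0x18001c000a0001000100000000000000000000000) (nat_lit 0x0) (nat_lit 0x60003000180000000000010000800040000000000000000000000) := T_1 (nat_lit 107) (nat_lit 90) (nat_lit 4) (nat_lit 6) (nat_lit 9) L376148 (by decide +kernel)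
theorem L376150 : W_1 (nat_lit 6) (nat_lit 0x18001c000a0001000000000000000000000000000) (nat_lit 0x0) (nat_lit 0x60003000180000000000010002800140000000000000000000000) := T_1 (nat_lit 92) (nat_lit 109) (nat_lit 6) (nat_lit 6) (nat_lit 9) L376149 (by decide +kernel)
theorem L376170 : W_1 (nat_lit 2) (nat_lit 0x18001c000a0000000000000000000000000000000) (nat_lit 0x0) (nat_lit 0x4000200000000000000001000000000000000000000000000) := D_1 (nat_lit 177) (nat_lit 194) (nat_lit 108) (nat_lit 6) (nat_lit 7) (nat_lit 11) (nat_lit 7) (nat_lit 6) (nat_lit 6) (by decide +kernel)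
theorem L376188 : W_1 (nat_lit 3) (nat_lit 0x1000100008001c000a0000000000000000000000000000000) (nat_lit 0x0) (nat_lit 0xa0006000200000000000000000000000000000000000000000000) := T_1 (nat_lit 194) (nat_lit 177) (nat_lit 7) (nat_lit 6) (nat_lit 7) L376064 (by decide +kernel)
theorem L376189 : W_1 (nat_lit 4) (nat_lit 0x100008001c000a0000000000000000000000000000000) (nat_lit 0x0) (nat_lit 0xa0007000280000000000000000000000000000000000000000000) := T_1 (nat_lit 192) (nat_lit 175) (nat_lit 5) (nat_lit 6) (nat_lit 7) L376188 (by decide +kernel)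
theorem L376190 : W_1 (nat_lit 2) (nat_lit 0x3000100018001c000a0000000000000000000000000000000) (nat_lit 0x0) (nat_lit 0x200000000000000001000080000000000000000000000) := D_1 (nat_lit 108) (nat_lit 91) (nat_lit 177) (nat_lit 7) (nat_lit 6) (nat_lit 5) (nat_lit 7) (nat_lit 6) (nat_lit 6) (by decide +kernel)
theorem L376191 : W_1 (nat_lit 3) (nat_lit 0x3000100008001c000a0000000000000000000000000000000) (nat_lit 0x0) (nat_lit 0x40000000200010000000000001000080000000000000000000000) := T_1 (nat_lit 160) (nat_lit 210) (nat_lit 6) (nat_lit 6) (nat_lit 12) L376190 (by decide +kernel)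
theorem L376192 : W_1 (nat_lit 4) (nat_lit 0x1000100008001c000a0000000000000000000000000000000) (nat_lit 0x0) (nat_lit 0x60002000200010000000000001000080000000000000000000000) := T_1 (nat_lit 193) (nat_lit 209) (nat_lit 5) (nat_lit 6) (nat_lit 8) L376191 (by decide +kernel)
theorem L376193 : W_1 (nat_lit 5) (nat_lit 0x100008001c000a0000000000000000000000000000000) (nat_lit 0x0) (nat_lit 0x60003000280010000000000001000080000000000000000000000) := T_1 (nat_lit 192) (nat_lit 175) (nat_lit 5) (nat_lit 6) (nat_lit 7) L376192 (by decide +kernel)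
theorem L376284 : W_1 (nat_lit 2) (nat_lit 0x100008001c000a0001800000000000000000000000000) (nat_lit 0x0) (nat_lit 0x1000080004000000000000000000000000000000000000000) := D_1 (nat_lit 175) (nat_lit 192) (nat_lit 158) (nat_lit 5) (nat_lit 6) (nat_lit 7) (nat_lit 5) (nat_lit 6) (nat_lit 6) (by decide +kernel)
theorem L376285 : W_1 (nat_lit 3) (nat_lit 0x100008001c000a0000800000000000000000000000000) (nat_lit 0x0) (nat_lit 0x1000080004000000000001000040000000000000000000000) := T_1 (nat_lit 108) (nat_lit 90) (nat_lit 4) (nat_lit 6) (nat_lit 9) L376284 (by decide +kernel)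
theorem L376286 : W_1 (nat_lit 4) (nat_lit 0x100008001c000a0000000000000000000000000000000) (nat_lit 0x0) (nat_lit 0x1000080004000000010001800040000000000000000000000) := T_1 (nat_lit 107) (nat_lit 124) (nat_lit 4) (nat_lit 6) (nat_lit 10) L376285 (by decide +kernel)
theorem L376339 : W_1 (nat_lit 2) (nat_lit 0x38000c001c000a0000000000000000000000000000000) (nat_lit 0x0) (nat_lit 0x400003000000000000000000000000000000000000000) := D_1 (nat_lit 157) (nat_lit 156) (nat_lit 178) (nat_lit 3) (nat_lit 3) (nat_lit 9) (nat_lit 0) (nat_lit 8) (nat_lit 10) (by decide +kernel)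
theorem L376340 : W_1 (nat_lit 3) (nat_lit 0x18000c001c000a0000000000000000000000000000000) (nat_lit 0x0) (nat_lit 0x4000600003000000000000000000000000000000000000000) := T_1 (nat_lit 177) (nat_lit 194) (nat_lit 7) (nat_lit 6) (nat_lit 7) L376339 (by decide +kernel)
theorem L376341 : W_1 (nat_lit 4) (nat_lit 0x180008001c000a0000000000000000000000000000000) (nat_lit 0x0) (nat_lit 0x4000600007000000000001000000000000000000000000000) := T_1 (nat_lit 158) (nat_lit 108) (nat_lit 5) (nat_lit 6) (nat_lit 6) L376340 (by decide +kernel)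
theorem L376939 : W_1 (nat_lit 2) (nat_lit 0x100008001c000a0000000000000000000000000000000) (nat_lit 0x0) (nat_lit 0x4002000010000000000000000000000000000000) := D_1 (nat_lit 145) (nat_lit 158) (nat_lit 124) (nat_lit 1) (nat_lit 9) (nat_lit 8) (nat_lit 0) (nat_lit 9) (nat_lit 8) (by decide +kernel)
theorem L377096 : W_1 (nat_lit 2) (nat_lit 0x8001c001a0000000000000000000000000000000) (nat_lit 0x0) (nat_lit 0x4002000010000000000000000000000000000000) := D_1 (nat_lit 145) (nat_lit 124) (nat_lit 158) (nat_lit 0) (nat_lit 9) (nat_lit 8) (nat_lit 1) (nat_lit 9) (nat_lit 8) (by decide +kernel)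
theorem L394252 : W_1 (nat_lit 2) (nat_lit 0x7000180008001c00080000000000000000000000000000000) (nat_lit 0x0) (nat_lit 0x8000060000000000000000000000000000000000000000000) := D_1 (nat_lit 174) (nat_lit 173) (nat_lit 195) (nat_lit 3) (nat_lit 3) (nat_lit 10) (nat_lit 0) (nat_lit 8) (nat_lit 11) (by decide +kernel)
theorem L394253 : W_1 (nat_lit 3) (nat_lit 0x7000100008001c00080000000000000000000000000000000) (nat_lit 0x0) (nat_lit 0x80000e0000000000020000000000000000000000000000000) := T_1 (nat_lit 175) (nat_lit 125) (nat_lit 5) (nat_lit 6) (nat_lit 7) L394252 (by decide +kernel)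
theorem L394254 : W_1 (nat_lit 4) (nat_lit 0x6000100008001c00080000000000000000000000000000000) (nat_lit 0x0) (nat_lit 0x200090000e0000000000020000000000000000000000000000000) := T_1 (nat_lit 192) (nat_lit 209) (nat_lit 5) (nat_lit 6) (nat_lit 8) L394253 (by decide +kernel)
theorem L394256 : W_1 (nat_lit 2) (nat_lit 0x40006000100008001c00080000000000000000000000000000000) (nat_lit 0x0) (nat_lit 0x400020001000000000000000000000000000000000000000000000000) := D_1 (nat_lit 209) (nat_lit 192) (nat_lit 226) (nat_lit 5) (nat_lit 6) (nat_lit 8) (nat_lit 5) (nat_lit 6) (nat_lit 9) (by decide +kernel)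
theorem L394257 : W_1 (nat_lit 3) (nat_lit 0x6000100008001c00080000000000000000000000000000000) (nat_lit 0x0) (nat_lit 0x400060001000000010000000000000000000000000000000000000000) := T_1 (nat_lit 210) (nat_lit 160) (nat_lit 6) (nat_lit 6) (nat_lit 12) L394256 (by decide +kernel)
theorem L394260 : W_1 (nat_lit 5) (nat_lit 0x4000100008001c00080000000000000000000000000000000) (nat_lit 0x0) (nat_lit 0xa000b0000e0000000000020000000000000000000000000000000) := T_1 (nat_lit 193) (nat_lit 211) (nat_lit 7) (nat_lit 6) (nat_lit 8) L394254 (by decide +kernel)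
theorem L394261 : W_1 (nat_lit 4) (nat_lit 0x4000100008001c00080000000000000000000000000000000) (nat_lit 0x0) (nat_lit 0x4000e0003000000010000000000000000000000000000000000000000) := T_1 (nat_lit 193) (nat_lit 211) (nat_lit 7) (nat_lit 6) (nat_lit 8) L394257 (by decide +kernel)
theorem L474204 : W_1 (nat_lit 2) (nat_lit 0x11000f00004003c00080000000000000000000000000000000) (nat_lit 0x0) (nat_lit 0x800080002000000000000000000000000000000000000000) := D_1 (nat_lit 175) (nat_lit 191) (nat_lit 157) (nat_lit 1) (nat_lit 8) (nat_lit 10) (nat_lit 0) (nat_lit 8) (nat_lit 10) (by decide +kernel)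
theorem L474205 : W_1 (nat_lit 3) (nat_lit 0x10000f00004003c00080000000000000000000000000000000) (nat_lit 0x0) (nat_lit 0x3800080002000000000000000000000000000000000000000) := T_1 (nat_lit 192) (nat_lit 193) (nat_lit 1) (nat_lit 9) (nat_lit 10) L474204 (by decide +kernel)
theorem L474206 : W_1 (nat_lit 4) (nat_lit 0x10000e00004003c00080000000000000000000000000000000) (nat_lit 0x0) (nat_lit 0x23800180002000000000000000000000000000000000000000) := T_1 (nat_lit 176) (nat_lit 197) (nat_lit 3) (nat_lit 6) (nat_lit 10) L474205 (by decide +kernel)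
theorem L502897 : W_1 (nat_lit 4) (nat_lit 0x30000c001c00080000000000000000000000000000000) (nat_lit 0x0) (nat_lit 0x1000080006000c00000000000020000000000000000000000000000000) := T_1 (nat_lit 178) (nat_lit 179) (nat_lit 0) (nat_lit 9) (nat_lit 10) L353242 (by decide +kernel)
theorem L502925 : W_1 (nat_lit 2) (nat_lit 0x400070000c001c00080000000000000000000000000000000) (nat_lit 0x0) (nat_lit 0x80003000000000000000000000000000000000000000) := D_1 (nat_lit 157) (nat_lit 175) (nat_lit 156) (nat_lit 0) (nat_lit 8) (nat_lit 10) (nat_lit 3) (nat_lit 3) (nat_lit 9) (by decide +kernel)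
theorem L759953 : W_1 (nat_lit 2) (nat_lit 0x300018000e000c000000000000000000000000000) (nat_lit 0x0) (nat_lit 0x100030000000000000000000000000000) := D_1 (nat_lit 112) (nat_lit 113) (nat_lit 128) (nat_lit 1) (nat_lit 11) (nat_lit 6) (nat_lit 2) (nat_lit 6) (nat_lit 7) (by decide +kernel)
theorem L759954 : W_1 (nat_lit 3) (nat_lit 0x300018000c000c000000000000000000000000000) (nat_lit 0x0) (nat_lit 0x130030000000000000000000000000000) := T_1 (nat_lit 125) (nat_lit 124) (nat_lit 2) (nat_lit 5) (nat_lit 7) L759953 (by decide +kernel)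
theorem L759955 : W_1 (nat_lit 4) (nat_lit 0x300018000c0004000000000000000000000000000) (nat_lit 0x0) (nat_lit 0x130038000400000000000000000000000) := T_1 (nat_lit 111) (nat_lit 94) (nat_lit 6) (nat_lit 8) (nat_lit 9) L759954 (by decide +kernel)
theorem L759956 : W_1 (nat_lit 5) (nat_lit 0x200018000c0004000000000000000000000000000) (nat_lit 0x0) (nat_lit 0x200010000000130038000400000000000000000000000) := T_1 (nat_lit 160) (nat_lit 177) (nat_lit 6) (nat_lit 7) (nat_lit 10) L759955 (by decide +kernel)
theorem L759969 : W_1 (nat_lit 2) (nat_lit 0x300018000c0007000000000000000000000000000) (nat_lit 0x0) (nat_lit 0x100000c00000000000000000000000000) := D_1 (nat_lit 107) (nat_lit 128) (nat_lit 106) (nat_lit 3) (nat_lit 5) (nat_lit 6) (nat_lit 3) (nat_lit 4) (nat_lit 6) (by decide +kernel)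
theorem L759970 : W_1 (nat_lit 3) (nat_lit 0x300018000c0006000000000000000000000000000) (nat_lit 0x0) (nat_lit 0x100001c00080000000000000000000000) := T_1 (nat_lit 108) (nat_lit 91) (nat_lit 4) (nat_lit 7) (nat_lit 9) L759969 (by decide +kernel)
theorem L759971 : W_1 (nat_lit 4) (nat_lit 0x200018000c0006000000000000000000000000000) (nat_lit 0x0) (nat_lit 0x200010000000100001c00080000000000000000000000) := T_1 (nat_lit 160) (nat_lit 177) (nat_lit 6) (nat_lit 7) (nat_lit 10) L759970 (by decide +kernel)
theorem L759972 : W_1 (nat_lit 5) (nat_lit 0x200018000c0004000000000000000000000000000) (nat_lit 0x0) (nat_lit 0x200010000000100003c00180000000000000000000000) := T_1 (nat_lit 109) (nat_lit 92) (nat_lit 7) (nat_lit 7) (nat_lit 5) L759971 (by decide +kernel)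
theorem L760916 : W_1 (nat_lit 2) (nat_lit 0x20001c000c0004000000000000000000000000000) (nat_lit 0x0) (nat_lit 0x200300000000000000000000000000000000) := D_1 (nat_lit 128) (nat_lit 141) (nat_lit 129) (nat_lit 2) (nat_lit 5) (nat_lit 8) (nat_lit 1) (nat_lit 10) (nat_lit 7) (by decide +kernel)
theorem L761191 : W_1 (nat_lit 2) (nat_lit 0x20001d000f0005800180000000000000000000000) (nat_lit 0x0) (nat_lit 0x100008000000000000000040000000000000000000000) := D_1 (nat_lit 159) (nat_lit 176) (nat_lit 90) (nat_lit 4) (nat_lit 6) (nat_lit 10) (nat_lit 4) (nat_lit 6) (nat_lit 9) (by decide +kernel)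
theorem L761192 : W_1 (nat_lit 3) (nat_lit 0x200019000f0005800180000000000000000000000) (nat_lit 0x0) (nat_lit 0x100008000400000000000040008000000000000000000) := T_1 (nat_lit 142) (nat_lit 75) (nat_lit 6) (nat_lit 6) (nat_lit 8) L761191 (by decide +kernel)
theorem L761193 : W_1 (nat_lit 4) (nat_lit 0x200019000f0005800100000000000000000000000) (nat_lit 0x0) (nat_lit 0x1000080004000000000000c000c000000000000000000) := T_1 (nat_lit 91) (nat_lit 74) (nat_lit 7) (nat_lit 6) (nat_lit 4) L761192 (by decide +kernel)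
theorem L761194 : W_1 (nat_lit 5) (nat_lit 0x200019000f0004800100000000000000000000000) (nat_lit 0x0) (nat_lit 0x1000080004001000010000c000c000000000000000000) := T_1 (nat_lit 108) (nat_lit 128) (nat_lit 0) (nat_lit 9) (nat_lit 7) L761193 (by decide +kernel)
theorem L761195 : W_1 (nat_lit 6) (nat_lit 0x200019000f0004000100000000000000000000000) (nat_lit 0x0) (nat_lit 0x100008000400100001c000c000c000000000000000000) := T_1 (nat_lit 107) (nat_lit 106) (nat_lit 0) (nat_lit 8) (nat_lit 7) L761194 (by decide +kernel)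
theorem L761196 : W_1 (nat_lit 7) (nat_lit 0x200018000f0004000100000000000000000000000) (nat_lit 0x0) (nat_lit 0x100008000700100001c000c000c000000000000000000) := T_1 (nat_lit 140) (nat_lit 141) (nat_lit 1) (nat_lit 8) (nat_lit 7) L761195 (by decide +kernel)
theorem L761197 : W_1 (nat_lit 8) (nat_lit 0x200018000e0004000100000000000000000000000) (nat_lit 0x0) (nat_lit 0x100008000700118001c000c000c000000000000000000) := T_1 (nat_lit 124) (nat_lit 123) (nat_lit 3) (nat_lit 4) (nat_lit 7) L761196 (by decide +kernel)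
theorem L761198 : W_1 (nat_lit 9) (nat_lit 0x200018000e0004000000000000000000000000000) (nat_lit 0x0) (nat_lit 0x100008000700118003c001c000c000000000000000000) := T_1 (nat_lit 92) (nat_lit 109) (nat_lit 7) (nat_lit 7) (nat_lit 5) L761197 (by decide +kernel)
theorem L763848 : W_1 (nat_lit 2) (nat_lit 0x300010001a001c000a0000800000000000000000000000000) (nat_lit 0x0) (nat_lit 0x10000c0000000000000000000000) := D_1 (nat_lit 108) (nat_lit 90) (nat_lit 91) (nat_lit 4) (nat_lit 6) (nat_lit 9) (nat_lit 7) (nat_lit 6) (nat_lit 5) (by decide +kernel)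
theorem L763849 : W_1 (nat_lit 3) (nat_lit 0x300010001a001c000a0000000000000000000000000000000) (nat_lit 0x0) (nat_lit 0x100018000c0000000000000000000000) := T_1 (nat_lit 107) (nat_lit 124) (nat_lit 4) (nat_lit 6) (nat_lit 10) L763848 (by decide +kernel)
theorem L763850 : W_1 (nat_lit 4) (nat_lit 0x300010001a001c00080000000000000000000000000000000) (nat_lit 0x0) (nat_lit 0x800000000000300018000c0000000000000000000000) := T_1 (nat_lit 125) (nat_lit 175) (nat_lit 5) (nat_lit 6) (nat_lit 7) L763849 (by decide +kernel)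
theorem L763851 : W_1 (nat_lit 5) (nat_lit 0x200010001a001c00080000000000000000000000000000000) (nat_lit 0x0) (nat_lit 0x200010000800000000000300018000c0000000000000000000000) := T_1 (nat_lit 192) (nat_lit 209) (nat_lit 5) (nat_lit 6) (nat_lit 8) L763850 (by decide +kernel)
theorem L764742 : W_1 (nat_lit 2) (nat_lit 0x40001a0018000d0007800040000000000000000000000) (nat_lit 0x0) (nat_lit 0x700000000000000000000000000000000000) := D_1 (nat_lit 141) (nat_lit 140) (nat_lit 142) (nat_lit 5) (nat_lit 5) (nat_lit 5) (nat_lit 7) (nat_lit 5) (nat_lit 5) (by decide +kernel)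
theorem L764743 : W_1 (nat_lit 3) (nat_lit 0x40001a0018000d0007800000000000000000000000000) (nat_lit 0x0) (nat_lit 0x700000000000060000000000000000000000) := T_1 (nat_lit 90) (nat_lit 89) (nat_lit 0) (nat_lit 8) (nat_lit 6) L764742 (by decide +kernel)
theorem L764744 : W_1 (nat_lit 4) (nat_lit 0x40001a0018000c0007800000000000000000000000000) (nat_lit 0x0) (nat_lit 0x700018000000060000000000000000000000) := T_1 (nat_lit 124) (nat_lit 123) (nat_lit 1) (nat_lit 8) (nat_lit 6) L764743 (by decide +kernel)
theorem L764745 : W_1 (nat_lit 5) (nat_lit 0x40001a0018000c0007000000000000000000000000000) (nat_lit 0x0) (nat_lit 0x700018000c00060000000000000000000000) := T_1 (nat_lit 107) (nat_lit 106) (nat_lit 3) (nat_lit 4) (nat_lit 6) L764744 (by decide +kernel)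
theorem L764746 : W_1 (nat_lit 6) (nat_lit 0x40001a0018000c0006000000000000000000000000000) (nat_lit 0x0) (nat_lit 0x700018001c000e0000000000000000000000) := T_1 (nat_lit 108) (nat_lit 91) (nat_lit 4) (nat_lit 7) (nat_lit 9) L764745 (by decide +kernel)
theorem L764747 : W_1 (nat_lit 7) (nat_lit 0x4000180018000c0006000000000000000000000000000) (nat_lit 0x0) (nat_lit 0x6000700018001c000e0000000000000000000000) := T_1 (nat_lit 157) (nat_lit 158) (nat_lit 2) (nat_lit 4) (nat_lit 9) L764746 (by decide +kernel)
theorem L764748 : W_1 (nat_lit 8) (nat_lit 0x4000100018000c0006000000000000000000000000000) (nat_lit 0x0) (nat_lit 0x10000e000700018001c000e0000000000000000000000) := T_1 (nat_lit 159) (nat_lit 176) (nat_lit 5) (nat_lit 7) (nat_lit 6) L764747 (by decide +kernel)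
theorem L764749 : W_1 (nat_lit 9) (nat_lit 0x4000100018000c0002000000000000000000000000000) (nat_lit 0x0) (nat_lit 0x10000e000700018005c002e0000000000000000000000) := T_1 (nat_lit 110) (nat_lit 93) (nat_lit 6) (nat_lit 7) (nat_lit 9) L764748 (by decide +kernel)
theorem L768520 : W_1 (nat_lit 2) (nat_lit 0x8001c001e0000000000000000000000000000000) (nat_lit 0x0) (nat_lit 0x2000100000000000000002000000000000000000000000000) := D_1 (nat_lit 176) (nat_lit 193) (nat_lit 109) (nat_lit 6) (nat_lit 6) (nat_lit 11) (nat_lit 6) (nat_lit 6) (nat_lit 10) (by decide +kernel)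
theorem L773841 : W_1 (nat_lit 2) (nat_lit 0x3a0018001c0003000000000000000000000000000) (nat_lit 0x0) (nat_lit 0x20000c00000000000000000000000000) := D_1 (nat_lit 107) (nat_lit 106) (nat_lit 125) (nat_lit 3) (nat_lit 4) (nat_lit 6) (nat_lit 0) (nat_lit 9) (nat_lit 7) (by decide +kernel)
theorem L773842 : W_1 (nat_lit 3) (nat_lit 0x3a0018001c0002000000000000000000000000000) (nat_lit 0x0) (nat_lit 0x20001c00080000000000000000000000) := T_1 (nat_lit 108) (nat_lit 91) (nat_lit 4) (nat_lit 7) (nat_lit 9) L773841 (by decide +kernel)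
theorem L773843 : W_1 (nat_lit 4) (nat_lit 0x380018001c0002000000000000000000000000000) (nat_lit 0x0) (nat_lit 0x6000000020001c00080000000000000000000000) := T_1 (nat_lit 157) (nat_lit 158) (nat_lit 2) (nat_lit 4) (nat_lit 9) L773842 (by decide +kernel)
theorem L773844 : W_1 (nat_lit 5) (nat_lit 0x300018001c0002000000000000000000000000000) (nat_lit 0x0) (nat_lit 0x10000e000000020001c00080000000000000000000000) := T_1 (nat_lit 159) (nat_lit 176) (nat_lit 5) (nat_lit 7) (nat_lit 6) L773843 (by decide +kernel)
theorem L773845 : W_1 (nat_lit 6) (nat_lit 0x300018001c0000000000000000000000000000000) (nat_lit 0x0) (nat_lit 0x10000e000000020003c00180000000000000000000000) := T_1 (nat_lit 109) (nat_lit 92) (nat_lit 7) (nat_lit 7) (nat_lit 5) L773844 (by decide +kernel)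
theorem L773846 : W_1 (nat_lit 2) (nat_lit 0x2000300018001c0002000000000000000000000000000) (nat_lit 0x0) (nat_lit 0x20001000080000000000000000000000) := D_1 (nat_lit 108) (nat_lit 91) (nat_lit 125) (nat_lit 4) (nat_lit 7) (nat_lit 9) (nat_lit 4) (nat_lit 7) (nat_lit 10) (by decide +kernel)
theorem L773847 : W_1 (nat_lit 3) (nat_lit 0x300018001c0002000000000000000000000000000) (nat_lit 0x0) (nat_lit 0x4000200000000000020001000080000000000000000000000) := T_1 (nat_lit 177) (nat_lit 194) (nat_lit 6) (nat_lit 7) (nat_lit 11) L773846 (by decide +kernel)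
theorem L773848 : W_1 (nat_lit 4) (nat_lit 0x300018001c0000000000000000000000000000000) (nat_lit 0x0) (nat_lit 0x4000200000000000020003000180000000000000000000000) := T_1 (nat_lit 109) (nat_lit 92) (nat_lit 7) (nat_lit 7) (nat_lit 5) L773847 (by decide +kernel)
theorem L773849 : W_1 (nat_lit 2) (nat_lit 0x340030001a001f0008800000020000000000000000000) (nat_lit 0x0) (nat_lit 0xe000000000000000000000000000000000000000) := D_1 (nat_lit 158) (nat_lit 157) (nat_lit 159) (nat_lit 5) (nat_lit 5) (nat_lit 6) (nat_lit 7) (nat_lit 5) (nat_lit 6) (by decide +kernel)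
theorem L773850 : W_1 (nat_lit 3) (nat_lit 0x3400300018001f0008800000020000000000000000000) (nat_lit 0x0) (nat_lit 0xe000300000000000000000000000000000000000) := T_1 (nat_lit 141) (nat_lit 140) (nat_lit 1) (nat_lit 8) (nat_lit 7) L773849 (by decide +kernel)
theorem L773851 : W_1 (nat_lit 4) (nat_lit 0x3400300018001f0008800000000000000000000000000) (nat_lit 0x0) (nat_lit 0xe000300000000000400020000000000000000000) := T_1 (nat_lit 77) (nat_lit 94) (nat_lit 5) (nat_lit 9) (nat_lit 4) L773850 (by decide +kernel)
theorem L773852 : W_1 (nat_lit 5) (nat_lit 0x3400300018001f0008000000000000000000000000000) (nat_lit 0x0) (nat_lit 0xe000300000000c00400020000000000000000000) := T_1 (nat_lit 107) (nat_lit 106) (nat_lit 0) (nat_lit 8) (nat_lit 7) L773851 (by decide +kernel)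
theorem L773853 : W_1 (nat_lit 6) (nat_lit 0x3400300018001f0000000000000000000000000000000) (nat_lit 0x0) (nat_lit 0xe000300000018c00400020000000000000000000) := T_1 (nat_lit 111) (nat_lit 112) (nat_lit 2) (nat_lit 6) (nat_lit 7) L773852 (by decide +kernel)
theorem L773854 : W_1 (nat_lit 7) (nat_lit 0x3400300018001e0000000000000000000000000000000) (nat_lit 0x0) (nat_lit 0xe000300018018c00400020000000000000000000) := T_1 (nat_lit 124) (nat_lit 123) (nat_lit 3) (nat_lit 4) (nat_lit 7) L773853 (by decide +kernel)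
theorem L773855 : W_1 (nat_lit 8) (nat_lit 0x3400300018001c0000000000000000000000000000000) (nat_lit 0x0) (nat_lit 0xe000300038019c00400020000000000000000000) := T_1 (nat_lit 125) (nat_lit 108) (nat_lit 4) (nat_lit 7) (nat_lit 10) L773854 (by decide +kernel)
theorem L773856 : W_1 (nat_lit 9) (nat_lit 0x3000300018001c0000000000000000000000000000000) (nat_lit 0x0) (nat_lit 0xc000e000300038019c00400020000000000000000000) := T_1 (nat_lit 174) (nat_lit 175) (nat_lit 2) (nat_lit 4) (nat_lit 10) L773855 (by decide +kernel)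
theorem L773857 : W_1 (nat_lit 10) (nat_lit 0x2000300018001c0000000000000000000000000000000) (nat_lit 0x0) (nat_lit 0x20001c000e000300038019c00400020000000000000000000) := T_1 (nat_lit 176) (nat_lit 193) (nat_lit 5) (nat_lit 7) (nat_lit 7) L773856 (by decide +kernel)
theorem L773858 : W_1 (nat_lit 11) (nat_lit 0x300018001c0000000000000000000000000000000) (nat_lit 0x0) (nat_lit 0x60003c000e000300038019c00400020000000000000000000) := T_1 (nat_lit 177) (nat_lit 194) (nat_lit 6) (nat_lit 7) (nat_lit 11) L773857 (by decide +kernel)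
theorem L773859 : W_1 (nat_lit 12) (nat_lit 0x200018001c0000000000000000000000000000000) (nat_lit 0x0) (nat_lit 0x60003c001e00030003801bc00580020000000000000000000) := Q_1 (nat_lit 160) (C_1 L291560 (C_1 L773845 (C_1 L773848 (C_1 L773858 N_1)))) (by decide +kernel)
theorem L773860 : W_1 (nat_lit 13) (nat_lit 0x18001c0000000000000000000000000000000) (nat_lit 0x0) (nat_lit 0xe0007c003e00030003801bc00580020000000000000000000) := Q_1 (nat_lit 161) (C_1 L74070 (C_1 L773859 (C_1 L72952 N_1))) (by decide +kernel)
theorem L774748 : W_1 (nat_lit 5) (nat_lit 0x1c00080000000000000000000000000000000) (nat_lit 0x0) (nat_lit 0x700030011c000000000000000000000000000000) := T_1 (nat_lit 141) (nat_lit 128) (nat_lit 2) (nat_lit 5) (nat_lit 8) L25467 (by decide +kernel)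
theorem L774823 : W_1 (nat_lit 2) (nat_lit 0x1c001c0002000000000000000000000000000) (nat_lit 0x0) (nat_lit 0x20000000000000000100008000000000000000000) := D_1 (nat_lit 92) (nat_lit 75) (nat_lit 161) (nat_lit 7) (nat_lit 7) (nat_lit 4) (nat_lit 7) (nat_lit 7) (nat_lit 5) (by decide +kernel)
theorem L774862 : W_1 (nat_lit 2) (nat_lit 0x2000100018001c00080000000000000000000000000000000) (nat_lit 0x0) (nat_lit 0x80004000200000000000000000000000000000000000000000000) := D_1 (nat_lit 194) (nat_lit 177) (nat_lit 211) (nat_lit 6) (nat_lit 7) (nat_lit 11) (nat_lit 7) (nat_lit 6) (nat_lit 8) (by decide +kernel)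
theorem L774863 : W_1 (nat_lit 3) (nat_lit 0x100018001c00080000000000000000000000000000000) (nat_lit 0x0) (nat_lit 0xc0006000200000000000000000000000000000000000000000000) := T_1 (nat_lit 193) (nat_lit 210) (nat_lit 6) (nat_lit 6) (nat_lit 12) L774862 (by decide +kernel)
theorem L774937 : W_1 (nat_lit 3) (nat_lit 0x4000700008001c00080000000000000000000000000000000) (nat_lit 0x0) (nat_lit 0x880007000000000000000000000000000000000000000) := T_1 (nat_lit 158) (nat_lit 179) (nat_lit 0) (nat_lit 9) (nat_lit 10) L502925 (by decide +kernel)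
theorem L774938 : W_1 (nat_lit 4) (nat_lit 0x4000300008001c00080000000000000000000000000000000) (nat_lit 0x0) (nat_lit 0xc80027000000000000000000000000000000000000000) := T_1 (nat_lit 178) (nat_lit 161) (nat_lit 5) (nat_lit 8) (nat_lit 7) L774937 (by decide +kernel)
theorem L774987 : W_1 (nat_lit 2) (nat_lit 0x100008001c000a0001800100000000000000000000000) (nat_lit 0x0) (nat_lit 0x10000000000000000080008000000000000000000) := D_1 (nat_lit 91) (nat_lit 75) (nat_lit 160) (nat_lit 6) (nat_lit 6) (nat_lit 8) (nat_lit 7) (nat_lit 6) (nat_lit 5) (by decide +kernel)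
theorem L774988 : W_1 (nat_lit 3) (nat_lit 0x100008001c000a0001800000000000000000000000000) (nat_lit 0x0) (nat_lit 0x10000000000002000180008000000000000000000) := T_1 (nat_lit 92) (nat_lit 109) (nat_lit 6) (nat_lit 6) (nat_lit 9) L774987 (by decide +kernel)
theorem L774989 : W_1 (nat_lit 4) (nat_lit 0x100008001c000a0000800000000000000000000000000) (nat_lit 0x0) (nat_lit 0x100000000000030001c0008000000000000000000) := T_1 (nat_lit 108) (nat_lit 90) (nat_lit 4) (nat_lit 6) (nat_lit 9) L774988 (by decide +kernel)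
theorem L774990 : W_1 (nat_lit 5) (nat_lit 0x100008001c000a0000000000000000000000000000000) (nat_lit 0x0) (nat_lit 0x100000000100038001c0008000000000000000000) := T_1 (nat_lit 107) (nat_lit 124) (nat_lit 4) (nat_lit 6) (nat_lit 10) L774989 (by decide +kernel)
theorem L775012 : W_1 (nat_lit 3) (nat_lit 0x4000100008001c00080000000000000000000000000000000) (nat_lit 0x0) (nat_lit 0x1000080002000200000000000020000000000000000000000000000000) := T_1 (nat_lit 177) (nat_lit 125) (nat_lit 7) (nat_lit 6) (nat_lit 7) L35776 (by decide +kernel)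
theorem L775014 : W_1 (nat_lit 2) (nat_lit 0x80002000100008001c00080000000000000000000000000000000) (nat_lit 0x0) (nat_lit 0x1000040000000000010000000000000000000000000000000000000000) := D_1 (nat_lit 210) (nat_lit 160) (nat_lit 228) (nat_lit 6) (nat_lit 6) (nat_lit 12) (nat_lit 7) (nat_lit 6) (nat_lit 9) (by decide +kernel)
theorem L775015 : W_1 (nat_lit 3) (nat_lit 0x2000100008001c00080000000000000000000000000000000) (nat_lit 0x0) (nat_lit 0x10000c0004000000010000000000000000000000000000000000000000) := T_1 (nat_lit 211) (nat_lit 194) (nat_lit 7) (nat_lit 6) (nat_lit 8) L775014 (by decide +kernel)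
theorem L775016 : W_1 (nat_lit 6) (nat_lit 0x2000100018001c00080000000000000000000000000000000) (nat_lit 0x0) (nat_lit 0x200010000800060000000300018000c0000000000000000000000) := T_1 (nat_lit 157) (nat_lit 158) (nat_lit 2) (nat_lit 4) (nat_lit 9) L763851 (by decide +kernel)
theorem L775017 : W_1 (nat_lit 7) (nat_lit 0x2000100008001c00080000000000000000000000000000000) (nat_lit 0x0) (nat_lit 0x600010000800160000000300018000c0000000000000000000000) := T_1 (nat_lit 160) (nat_lit 210) (nat_lit 6) (nat_lit 6) (nat_lit 12) L775016 (by decide +kernel)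
theorem L775018 : W_1 (nat_lit 2) (nat_lit 0x7000100008001c000a0001800080000000000000000000000) (nat_lit 0x0) (nat_lit 0x2000100008000000000000000000) := D_1 (nat_lit 92) (nat_lit 75) (nat_lit 109) (nat_lit 6) (nat_lit 6) (nat_lit 8) (nat_lit 6) (nat_lit 6) (nat_lit 9) (by decide +kernel)
theorem L775019 : W_1 (nat_lit 3) (nat_lit 0x7000100008001c000a0001800000000000000000000000000) (nat_lit 0x0) (nat_lit 0x10000000000002000180008000000000000000000) := T_1 (nat_lit 91) (nat_lit 160) (nat_lit 7) (nat_lit 6) (nat_lit 5) L775018 (by decide +kernel)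
theorem L775020 : W_1 (nat_lit 4) (nat_lit 0x3000100008001c000a0001800000000000000000000000000) (nat_lit 0x0) (nat_lit 0x80004000000010000000000002000180008000000000000000000) := T_1 (nat_lit 194) (nat_lit 211) (nat_lit 7) (nat_lit 6) (nat_lit 8) L775019 (by decide +kernel)
theorem L775021 : W_1 (nat_lit 5) (nat_lit 0x3000100008001c000a0000800000000000000000000000000) (nat_lit 0x0) (nat_lit 0x800040000000100000000000030001c0008000000000000000000) := T_1 (nat_lit 108) (nat_lit 90) (nat_lit 4) (nat_lit 6) (nat_lit 9) L775020 (by decide +kernel)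
theorem L775022 : W_1 (nat_lit 6) (nat_lit 0x3000100008001c000a0000000000000000000000000000000) (nat_lit 0x0) (nat_lit 0x800040000000100000000100038001c0008000000000000000000) := T_1 (nat_lit 107) (nat_lit 124) (nat_lit 4) (nat_lit 6) (nat_lit 10) L775021 (by decide +kernel)
theorem L775023 : W_1 (nat_lit 7) (nat_lit 0x3000100008001c00080000000000000000000000000000000) (nat_lit 0x0) (nat_lit 0x800040000800100000000300038001c0008000000000000000000) := T_1 (nat_lit 125) (nat_lit 175) (nat_lit 5) (nat_lit 6) (nat_lit 7) L775022 (by decide +kernel)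
theorem L775024 : W_1 (nat_lit 8) (nat_lit 0x2000100008001c00080000000000000000000000000000000) (nat_lit 0x0) (nat_lit 0xa00050000800100000000300038001c0008000000000000000000) := T_1 (nat_lit 192) (nat_lit 209) (nat_lit 5) (nat_lit 6) (nat_lit 8) L775023 (by decide +kernel)
theorem L775025 : W_1 (nat_lit 9) (nat_lit 0x100008001c00080000000000000000000000000000000) (nat_lit 0x0) (nat_lit 0x30001c000e00070000800160000000300038001c0008000000000000000000) := Q_1 (nat_lit 193) (C_1 L775015 (C_1 L294664 (C_1 L25592 (C_1 L775017 (C_1 L775024 N_1))))) (by decide +kernel)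
theorem L775026 : W_1 (nat_lit 2) (nat_lit 0x4000100008001c00080000000000000000000000000000000) (nat_lit 0x0) (nat_lit 0x200010000000020000000000000000000000000000000) := D_1 (nat_lit 177) (nat_lit 125) (nat_lit 160) (nat_lit 7) (nat_lit 6) (nat_lit 7) (nat_lit 6) (nat_lit 7) (nat_lit 11) (by decide +kernel)
theorem L775027 : W_1 (nat_lit 5) (nat_lit 0x100008001c00080000000000000000000000000000000) (nat_lit 0x0) (nat_lit 0x14000e0007000200010000000020000000000000000000000000000000) := Q_1 (nat_lit 194) (C_1 L775012 (C_1 L394261 (C_1 L775026 N_1))) (by decide +kernel)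
theorem L775069 : W_1 (nat_lit 2) (nat_lit 0x80018000400020001c00080008000000000000000000000000000) (nat_lit 0x0) (nat_lit 0x1000100000000000010000000000000000000000000000000000000000) := D_1 (nat_lit 212) (nat_lit 160) (nat_lit 228) (nat_lit 4) (nat_lit 8) (nat_lit 12) (nat_lit 5) (nat_lit 8) (nat_lit 9) (by decide +kernel)
theorem L775070 : W_1 (nat_lit 3) (nat_lit 0x18000400020001c00080008000000000000000000000000000) (nat_lit 0x0) (nat_lit 0x1000180004000000010000000000000000000000000000000000000000) := T_1 (nat_lit 211) (nat_lit 194) (nat_lit 5) (nat_lit 8) (nat_lit 8) L775069 (by decide +kernel)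
theorem L775071 : W_1 (nat_lit 4) (nat_lit 0x10000400020001c00080008000000000000000000000000000) (nat_lit 0x0) (nat_lit 0x100038000c000000010000000000000000000000000000000000000000) := T_1 (nat_lit 195) (nat_lit 213) (nat_lit 7) (nat_lit 8) (nat_lit 8) L775070 (by decide +kernel)
theorem L775072 : W_1 (nat_lit 5) (nat_lit 0x10000400020001c00080000000000000000000000000000000) (nat_lit 0x0) (nat_lit 0x100038000c000000010000000100008000000000000000000000000000) := T_1 (nat_lit 111) (nat_lit 128) (nat_lit 6) (nat_lit 8) (nat_lit 10) L775071 (by decide +kernel)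
theorem L775073 : W_1 (nat_lit 6) (nat_lit 0x400020001c00080000000000000000000000000000000) (nat_lit 0x0) (nat_lit 0x100038001c000800010000000100008000000000000000000000000000) := T_1 (nat_lit 196) (nat_lit 179) (nat_lit 7) (nat_lit 8) (nat_lit 7) L775072 (by decide +kernel)
theorem L775178 : W_1 (nat_lit 14) (nat_lit 0x1800080000000000000000000000000000000) (nat_lit 0x0) (nat_lit 0xe0007c007e00c70077803bc007e001c000000000000000000) := Q_1 (nat_lit 126) (C_1 L257122 (C_1 L258453 (C_1 L72606 (C_1 L257116 (C_1 L258236 N_1))))) (by decide +kernel)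
theorem L775226 : W_1 (nat_lit 7) (nat_lit 0x1800380000000000000000000000000000000) (nat_lit 0x0) (nat_lit 0xc400078039c00000000000000000000000000) := T_1 (nat_lit 126) (nat_lit 142) (nat_lit 1) (nat_lit 10) (nat_lit 7) L21088 (by decide +kernel)
theorem L775227 : W_1 (nat_lit 8) (nat_lit 0x1800180000000000000000000000000000000) (nat_lit 0x0) (nat_lit 0xc400678039c00000000000000000000000000) := T_1 (nat_lit 129) (nat_lit 130) (nat_lit 1) (nat_lit 11) (nat_lit 7) L775226 (by decide +kernel)
theorem L775731 : W_1 (nat_lit 2) (nat_lit 0x18000c0003800180000000000000000000000) (nat_lit 0x0) (nat_lit 0x300004000000000000000000000000000) := D_1 (nat_lit 128) (nat_lit 129) (nat_lit 110) (nat_lit 0) (nat_lit 10) (nat_lit 7) (nat_lit 3) (nat_lit 5) (nat_lit 6) (by decide +kernel)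
theorem L775732 : W_1 (nat_lit 3) (nat_lit 0x18000c0003000180000000000000000000000) (nat_lit 0x0) (nat_lit 0x300004c00000000000000000000000000) := T_1 (nat_lit 107) (nat_lit 106) (nat_lit 3) (nat_lit 4) (nat_lit 6) L775731 (by decide +kernel)
theorem L775733 : W_1 (nat_lit 4) (nat_lit 0x18000c0002000180000000000000000000000) (nat_lit 0x0) (nat_lit 0x10000000300005c00000000000000000000000000) := T_1 (nat_lit 108) (nat_lit 160) (nat_lit 4) (nat_lit 7) (nat_lit 9) L775732 (by decide +kernel)
theorem L775734 : W_1 (nat_lit 5) (nat_lit 0x18000c0002000100000000000000000000000) (nat_lit 0x0) (nat_lit 0x10000000300005c00080004000000000000000000) := T_1 (nat_lit 91) (nat_lit 74) (nat_lit 4) (nat_lit 7) (nat_lit 8) L775733 (by decide +kernel)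
theorem L775735 : W_1 (nat_lit 6) (nat_lit 0x18000c0002000000000000000000000000000) (nat_lit 0x0) (nat_lit 0x10000000300005c0018000c000000000000000000) := T_1 (nat_lit 92) (nat_lit 75) (nat_lit 7) (nat_lit 7) (nat_lit 4) L775734 (by decide +kernel)
theorem L775736 : W_1 (nat_lit 7) (nat_lit 0x18000c0000000000000000000000000000000) (nat_lit 0x0) (nat_lit 0xe000700038000000320007c0018000c000000000000000000) := Q_1 (nat_lit 109) (C_1 L775735 (C_1 L3113 (C_1 L257121 N_1))) (by decide +kernel)
theorem L779007 : W_1 (nat_lit 2) (nat_lit 0xd80028003c000e0000000000000000000000000000000) (nat_lit 0x0) (nat_lit 0x4000200040000000000000000000000000000000000000000) := D_1 (nat_lit 177) (nat_lit 162) (nat_lit 194) (nat_lit 2) (nat_lit 5) (nat_lit 10) (nat_lit 7) (nat_lit 6) (nat_lit 7) (by decide +kernel)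
theorem L779008 : W_1 (nat_lit 3) (nat_lit 0xd00028003c000e0000000000000000000000000000000) (nat_lit 0x0) (nat_lit 0x5000280040000000000000000000000000000000000000000) := T_1 (nat_lit 175) (nat_lit 192) (nat_lit 5) (nat_lit 6) (nat_lit 7) L779007 (by decide +kernel)
theorem L779009 : W_1 (nat_lit 4) (nat_lit 0xc00028003c000e0000000000000000000000000000000) (nat_lit 0x0) (nat_lit 0x7000380040000000000000000000000000000000000000000) := T_1 (nat_lit 176) (nat_lit 193) (nat_lit 6) (nat_lit 6) (nat_lit 11) L779008 (by decide +kernel)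
theorem L779010 : W_1 (nat_lit 5) (nat_lit 0x400028003c000e0000000000000000000000000000000) (nat_lit 0x0) (nat_lit 0x17000b80040000000000000000000000000000000000000000) := T_1 (nat_lit 179) (nat_lit 196) (nat_lit 7) (nat_lit 8) (nat_lit 7) L779009 (by decide +kernel)
theorem L779011 : W_1 (nat_lit 6) (nat_lit 0x400020003c000e0000000000000000000000000000000) (nat_lit 0x0) (nat_lit 0x17000b8004c000000000000000000000000000000000000000) := T_1 (nat_lit 159) (nat_lit 158) (nat_lit 1) (nat_lit 9) (nat_lit 8) L779010 (by decide +kernel)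
theorem L779012 : W_1 (nat_lit 7) (nat_lit 0x20003c000e0000000000000000000000000000000) (nat_lit 0x0) (nat_lit 0x1f000f8004c000000000000000000000000000000000000000) := T_1 (nat_lit 178) (nat_lit 195) (nat_lit 4) (nat_lit 8) (nat_lit 11) L779011 (by decide +kernel)
theorem L779013 : W_1 (nat_lit 8) (nat_lit 0x20003c000c0000000000000000000000000000000) (nat_lit 0x0) (nat_lit 0x1f000f8004c000000030000000000000000000000000000000) := T_1 (nat_lit 125) (nat_lit 124) (nat_lit 3) (nat_lit 5) (nat_lit 7) L779012 (by decide +kernel)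
theorem L779194 : W_1 (nat_lit 2) (nat_lit 0x8001c000f0006800000010000000000000000000) (nat_lit 0x0) (nat_lit 0x1000040002000000000000000000) := D_1 (nat_lit 90) (nat_lit 73) (nat_lit 108) (nat_lit 7) (nat_lit 5) (nat_lit 4) (nat_lit 4) (nat_lit 6) (nat_lit 9) (by decide +kernel)
theorem L779195 : W_1 (nat_lit 3) (nat_lit 0x8001c000f0006000000010000000000000000000) (nat_lit 0x0) (nat_lit 0x1c00040002000000000000000000) := T_1 (nat_lit 107) (nat_lit 106) (nat_lit 0) (nat_lit 8) (nat_lit 7) L779194 (by decide +kernel)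
theorem L779196 : W_1 (nat_lit 4) (nat_lit 0x8001c000f0006000000000000000000000000000) (nat_lit 0x0) (nat_lit 0x1c00240012000000000000000000) := T_1 (nat_lit 76) (nat_lit 93) (nat_lit 5) (nat_lit 8) (nat_lit 4) L779195 (by decide +kernel)
theorem L783731 : W_1 (nat_lit 5) (nat_lit 0x4000100008001c00080000000000000000000000000000000) (nat_lit 0x0) (nat_lit 0xe80027000000020000000000000000000000000000000) := T_1 (nat_lit 177) (nat_lit 125) (nat_lit 7) (nat_lit 6) (nat_lit 7) L774938 (by decide +kernel)
theorem L783732 : W_1 (nat_lit 7) (nat_lit 0x100008001c00080000000000000000000000000000000) (nat_lit 0x0) (nat_lit 0x10000a000f000ee0027000000020000000000000000000000000000000) := Q_1 (nat_lit 194) (C_1 L775012 (C_1 L394260 (C_1 L294694 (C_1 L783731 N_1)))) (by decide +kernel)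
theorem L805931 : W_1 (nat_lit 2) (nat_lit 0x200018000e0004000000000000000000000000000) (nat_lit 0x0) (nat_lit 0x2000018000000000000000000000000000000) := D_1 (nat_lit 124) (nat_lit 123) (nat_lit 145) (nat_lit 3) (nat_lit 4) (nat_lit 7) (nat_lit 3) (nat_lit 5) (nat_lit 7) (by decide +kernel)
theorem L805949 : W_1 (nat_lit 2) (nat_lit 0x600078002c0016000000000000000000000000000) (nat_lit 0x0) (nat_lit 0x100021000000000000000000000000000) := D_1 (nat_lit 128) (nat_lit 108) (nat_lit 113) (nat_lit 0) (nat_lit 10) (nat_lit 7) (nat_lit 2) (nat_lit 7) (nat_lit 7) (by decide +kernel)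
theorem L805950 : W_1 (nat_lit 3) (nat_lit 0x600078002c0006000000000000000000000000000) (nat_lit 0x0) (nat_lit 0x100031000800000000000000000000000) := T_1 (nat_lit 112) (nat_lit 95) (nat_lit 5) (nat_lit 10) (nat_lit 5) L805949 (by decide +kernel)
theorem L806009 : W_1 (nat_lit 2) (nat_lit 0x200038001c0000000000000000000000000000000) (nat_lit 0x0) (nat_lit 0xc000020000000000000000000000000000000) := D_1 (nat_lit 146) (nat_lit 125) (nat_lit 147) (nat_lit 3) (nat_lit 6) (nat_lit 7) (nat_lit 0) (nat_lit 11) (nat_lit 8) (by decide +kernel)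
theorem L817515 : W_1 (nat_lit 2) (nat_lit 0x18000c0006000380000000000000000000000) (nat_lit 0x0) (nat_lit 0x8000060000000000000000000000) := D_1 (nat_lit 90) (nat_lit 111) (nat_lit 89) (nat_lit 3) (nat_lit 5) (nat_lit 5) (nat_lit 3) (nat_lit 4) (nat_lit 5) (by decide +kernel)
theorem L817516 : W_1 (nat_lit 3) (nat_lit 0x18000c0006000300000000000000000000000) (nat_lit 0x0) (nat_lit 0x80000e0004000000000000000000) := T_1 (nat_lit 91) (nat_lit 74) (nat_lit 4) (nat_lit 7) (nat_lit 8) L817515 (by decide +kernel)
theorem L817517 : W_1 (nat_lit 4) (nat_lit 0x18000c0004000300000000000000000000000) (nat_lit 0x0) (nat_lit 0x2000000000000a0000e0004000000000000000000) := T_1 (nat_lit 109) (nat_lit 161) (nat_lit 7) (nat_lit 7) (nat_lit 5) L817516 (by decide +kernel)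
theorem L817518 : W_1 (nat_lit 5) (nat_lit 0x18000c0004000200000000000000000000000) (nat_lit 0x0) (nat_lit 0x2000000000000a0001e000c000000000000000000) := T_1 (nat_lit 92) (nat_lit 75) (nat_lit 4) (nat_lit 8) (nat_lit 8) L817517 (by decide +kernel)
theorem L817519 : W_1 (nat_lit 6) (nat_lit 0x18000c0004000000000000000000000000000) (nat_lit 0x0) (nat_lit 0x2000000000000a0003e001c000000000000000000) := T_1 (nat_lit 93) (nat_lit 76) (nat_lit 5) (nat_lit 8) (nat_lit 4) L817518 (by decide +kernel)
theorem L817522 : W_1 (nat_lit 2) (nat_lit 0x200018000c0004000000000000000000000000000) (nat_lit 0x0) (nat_lit 0x8000400000000000000002000000000000000000000000000) := D_1 (nat_lit 178) (nat_lit 109) (nat_lit 195) (nat_lit 4) (nat_lit 8) (nat_lit 10) (nat_lit 4) (nat_lit 8) (nat_lit 11) (by decide +kernel)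
theorem L820402 : W_1 (nat_lit 2) (nat_lit 0x200018001e0000800000000000000000000000000) (nat_lit 0x0) (nat_lit 0x18000400000000000000000000000000) := D_1 (nat_lit 124) (nat_lit 106) (nat_lit 123) (nat_lit 0) (nat_lit 8) (nat_lit 7) (nat_lit 3) (nat_lit 4) (nat_lit 7) (by decide +kernel)
theorem L820403 : W_1 (nat_lit 3) (nat_lit 0x200018001e0000000000000000000000000000000) (nat_lit 0x0) (nat_lit 0x18001c00000000000000000000000000) := T_1 (nat_lit 107) (nat_lit 108) (nat_lit 0) (nat_lit 9) (nat_lit 7) L820402 (by decide +kernel)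
theorem L820861 : W_1 (nat_lit 2) (nat_lit 0x200018001e0008000100000000000000000000000) (nat_lit 0x0) (nat_lit 0x6000010000000000000000000000000000000) := D_1 (nat_lit 145) (nat_lit 146) (nat_lit 124) (nat_lit 3) (nat_lit 6) (nat_lit 7) (nat_lit 3) (nat_lit 5) (nat_lit 7) (by decide +kernel)
theorem L820862 : W_1 (nat_lit 3) (nat_lit 0x200018001c0008000100000000000000000000000) (nat_lit 0x0) (nat_lit 0x6000030010000000000000000000000000000) := T_1 (nat_lit 125) (nat_lit 112) (nat_lit 2) (nat_lit 6) (nat_lit 7) L820861 (by decide +kernel)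
theorem L820863 : W_1 (nat_lit 4) (nat_lit 0x200018001c0008000000000000000000000000000) (nat_lit 0x0) (nat_lit 0x6000030012000100000000000000000000000) := T_1 (nat_lit 92) (nat_lit 109) (nat_lit 7) (nat_lit 7) (nat_lit 5) L820862 (by decide +kernel)
theorem L822325 : W_1 (nat_lit 2) (nat_lit 0x20003e000c0000000000000000000000000000000) (nat_lit 0x0) (nat_lit 0xe000000000000000000000000000000000000000) := D_1 (nat_lit 158) (nat_lit 159) (nat_lit 157) (nat_lit 1) (nat_lit 9) (nat_lit 8) (nat_lit 1) (nat_lit 8) (nat_lit 8) (by decide +kernel)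
theorem L822326 : W_1 (nat_lit 3) (nat_lit 0x20003c000c0000000000000000000000000000000) (nat_lit 0x0) (nat_lit 0xe000300000000000000000000000000000000000) := T_1 (nat_lit 141) (nat_lit 140) (nat_lit 2) (nat_lit 4) (nat_lit 8) L822325 (by decide +kernel)
theorem L822327 : W_1 (nat_lit 2) (nat_lit 0x400020003e000c0000000000000000000000000000000) (nat_lit 0x0) (nat_lit 0x38000000000000000000000000000000) := D_1 (nat_lit 124) (nat_lit 125) (nat_lit 123) (nat_lit 3) (nat_lit 5) (nat_lit 7) (nat_lit 0) (nat_lit 8) (nat_lit 8) (by decide +kernel)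
theorem L822328 : W_1 (nat_lit 3) (nat_lit 0x400020003c000c0000000000000000000000000000000) (nat_lit 0x0) (nat_lit 0x300038000000000000000000000000000000) := T_1 (nat_lit 141) (nat_lit 140) (nat_lit 2) (nat_lit 4) (nat_lit 8) L822327 (by decide +kernel)
theorem L822329 : W_1 (nat_lit 4) (nat_lit 0x20003c000c0000000000000000000000000000000) (nat_lit 0x0) (nat_lit 0x8000400000000300038000000000000000000000000000000) := T_1 (nat_lit 178) (nat_lit 195) (nat_lit 4) (nat_lit 8) (nat_lit 11) L822328 (by decide +kernel)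
theorem L822742 : W_1 (nat_lit 3) (nat_lit 0x200018000c000c000000000000000000000000000) (nat_lit 0x0) (nat_lit 0x20032000100000000000000000000000) := T_1 (nat_lit 109) (nat_lit 92) (nat_lit 7) (nat_lit 7) (nat_lit 5) L72281 (by decide +kernel)
theorem L822743 : W_1 (nat_lit 4) (nat_lit 0x200018000c0004000000000000000000000000000) (nat_lit 0x0) (nat_lit 0x2003a000500000000000000000000000) := T_1 (nat_lit 111) (nat_lit 94) (nat_lit 6) (nat_lit 8) (nat_lit 9) L822742 (by decide +kernel)
theorem L825188 : W_1 (nat_lit 2) (nat_lit 0x1a000f0007800020000000000000000000000) (nat_lit 0x0) (nat_lit 0x4000000000000000080004000000000000000000) := D_1 (nat_lit 91) (nat_lit 74) (nat_lit 158) (nat_lit 7) (nat_lit 6) (nat_lit 4) (nat_lit 6) (nat_lit 5) (nat_lit 9) (by decide +kernel)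
theorem L825189 : W_1 (nat_lit 3) (nat_lit 0x18000f0007800020000000000000000000000) (nat_lit 0x0) (nat_lit 0x4000300000000000080004000000000000000000) := T_1 (nat_lit 141) (nat_lit 140) (nat_lit 1) (nat_lit 8) (nat_lit 7) L825188 (by decide +kernel)
theorem L825190 : W_1 (nat_lit 4) (nat_lit 0x18000d0007800020000000000000000000000) (nat_lit 0x0) (nat_lit 0x4002300020000000080004000000000000000000) := T_1 (nat_lit 125) (nat_lit 145) (nat_lit 3) (nat_lit 5) (nat_lit 7) L825189 (by decide +kernel)
theorem L825191 : W_1 (nat_lit 5) (nat_lit 0x18000d0007800000000000000000000000000) (nat_lit 0x0) (nat_lit 0x40023000200000000e0004000000000000000000) := T_1 (nat_lit 89) (nat_lit 90) (nat_lit 0) (nat_lit 8) (nat_lit 6) L825190 (by decide +kernel)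
theorem L825192 : W_1 (nat_lit 6) (nat_lit 0x18000c0007800000000000000000000000000) (nat_lit 0x0) (nat_lit 0x40023000380000000e0004000000000000000000) := T_1 (nat_lit 124) (nat_lit 123) (nat_lit 1) (nat_lit 8) (nat_lit 6) L825191 (by decide +kernel)
theorem L825193 : W_1 (nat_lit 7) (nat_lit 0x18000c0007000000000000000000000000000) (nat_lit 0x0) (nat_lit 0x4002300038000c000e0004000000000000000000) := T_1 (nat_lit 107) (nat_lit 106) (nat_lit 3) (nat_lit 4) (nat_lit 6) L825192 (by decide +kernel)
theorem L825406 : W_1 (nat_lit 2) (nat_lit 0x18000c00078000c0000000000000000000000) (nat_lit 0x0) (nat_lit 0x20000000000004000200000000000000) := D_1 (nat_lit 74) (nat_lit 57) (nat_lit 125) (nat_lit 7) (nat_lit 6) (nat_lit 3) (nat_lit 7) (nat_lit 6) (nat_lit 4) (by decide +kernel)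
theorem L825407 : W_1 (nat_lit 3) (nat_lit 0x18000c0007800040000000000000000000000) (nat_lit 0x0) (nat_lit 0x20008000080004000200000000000000) := T_1 (nat_lit 91) (nat_lit 111) (nat_lit 0) (nat_lit 9) (nat_lit 6) L825406 (by decide +kernel)
theorem L825408 : W_1 (nat_lit 4) (nat_lit 0x18000c0007800000000000000000000000000) (nat_lit 0x0) (nat_lit 0x200080000e0004000200000000000000) := T_1 (nat_lit 90) (nat_lit 89) (nat_lit 0) (nat_lit 8) (nat_lit 6) L825407 (by decide +kernel)
theorem L825409 : W_1 (nat_lit 5) (nat_lit 0x18000c0007000000000000000000000000000) (nat_lit 0x0) (nat_lit 0x20008c000e0004000200000000000000) := T_1 (nat_lit 107) (nat_lit 106) (nat_lit 3) (nat_lit 4) (nat_lit 6) L825408 (by decide +kernel)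
theorem L825426 : W_1 (nat_lit 2) (nat_lit 0x4003e000c0006000000000000000000000000000) (nat_lit 0x0) (nat_lit 0xc000020000000000000000000000000000000) := D_1 (nat_lit 146) (nat_lit 147) (nat_lit 125) (nat_lit 0) (nat_lit 11) (nat_lit 8) (nat_lit 0) (nat_lit 10) (nat_lit 8) (by decide +kernel)
theorem L825427 : W_1 (nat_lit 3) (nat_lit 0x4001e000c0006000000000000000000000000000) (nat_lit 0x0) (nat_lit 0x800e000020000000000000000000000000000000) := T_1 (nat_lit 145) (nat_lit 159) (nat_lit 1) (nat_lit 9) (nat_lit 8) L825426 (by decide +kernel)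
theorem L825428 : W_1 (nat_lit 4) (nat_lit 0x1e000c0006000000000000000000000000000) (nat_lit 0x0) (nat_lit 0xe00e000020000000000000000000000000000000) := T_1 (nat_lit 158) (nat_lit 157) (nat_lit 1) (nat_lit 8) (nat_lit 8) L825427 (by decide +kernel)
theorem L825429 : W_1 (nat_lit 5) (nat_lit 0x1c000c0006000000000000000000000000000) (nat_lit 0x0) (nat_lit 0xe00e300020000000000000000000000000000000) := T_1 (nat_lit 141) (nat_lit 140) (nat_lit 2) (nat_lit 4) (nat_lit 8) L825428 (by decide +kernel)
theorem L826730 : W_1 (nat_lit 2) (nat_lit 0x100008001c000a0000000000000000000000000000000) (nat_lit 0x0) (nat_lit 0x2000010000800000000000000000000000000) := D_1 (nat_lit 124) (nat_lit 107) (nat_lit 145) (nat_lit 4) (nat_lit 6) (nat_lit 10) (nat_lit 0) (nat_lit 9) (nat_lit 8) (by decide +kernel)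
theorem L826731 : W_1 (nat_lit 2) (nat_lit 0x10000c001c000a0000000000000000000000000000000) (nat_lit 0x0) (nat_lit 0x1000080000000000000001000000000000000000000000000) := D_1 (nat_lit 175) (nat_lit 192) (nat_lit 108) (nat_lit 5) (nat_lit 6) (nat_lit 7) (nat_lit 5) (nat_lit 6) (nat_lit 6) (by decide +kernel)
theorem L826732 : W_1 (nat_lit 3) (nat_lit 0x100008001c000a0000000000000000000000000000000) (nat_lit 0x0) (nat_lit 0x1000080004002000000001000000000000000000000000000) := T_1 (nat_lit 158) (nat_lit 145) (nat_lit 1) (nat_lit 9) (nat_lit 8) L826731 (by decide +kernel)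
theorem L826733 : W_1 (nat_lit 5) (nat_lit 0x100008001c00080000000000000000000000000000000) (nat_lit 0x0) (nat_lit 0x1000080004002000030001800040000000000000000000000) := Q_1 (nat_lit 125) (C_1 L376939 (C_1 L376286 (C_1 L826730 (C_1 L826732 N_1)))) (by decide +kernel)
theorem L835549 : W_1 (nat_lit 2) (nat_lit 0x1a000d0002c00020000000000000000000000) (nat_lit 0x0) (nat_lit 0x40001000080000000000000) := D_1 (nat_lit 72) (nat_lit 90) (nat_lit 55) (nat_lit 4) (nat_lit 5) (nat_lit 8) (nat_lit 7) (nat_lit 4) (nat_lit 3) (by decide +kernel)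
theorem L835550 : W_1 (nat_lit 3) (nat_lit 0x1a000d0002c00000000000000000000000000) (nat_lit 0x0) (nat_lit 0x4000000000000000060001000080000000000000) := T_1 (nat_lit 89) (nat_lit 158) (nat_lit 4) (nat_lit 5) (nat_lit 9) L835549 (by decide +kernel)
theorem L837916 : W_1 (nat_lit 2) (nat_lit 0x1a000d0002c00020008000000000000000000) (nat_lit 0x0) (nat_lit 0x8000000000001000080000000000000) := D_1 (nat_lit 72) (nat_lit 55) (nat_lit 123) (nat_lit 7) (nat_lit 4) (nat_lit 3) (nat_lit 7) (nat_lit 4) (nat_lit 4) (by decide +kernel)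
theorem L837917 : W_1 (nat_lit 3) (nat_lit 0x1a000d0002c00000008000000000000000000) (nat_lit 0x0) (nat_lit 0x4000000008000000020001000080000000000000) := T_1 (nat_lit 89) (nat_lit 158) (nat_lit 4) (nat_lit 5) (nat_lit 9) L837916 (by decide +kernel)
theorem L853232 : W_1 (nat_lit 2) (nat_lit 0xc000400020001a00180000000000000000000000000000000) (nat_lit 0x0) (nat_lit 0x200010000800000000000000000000000000000000000000000000) := D_1 (nat_lit 196) (nat_lit 179) (nat_lit 213) (nat_lit 7) (nat_lit 8) (nat_lit 7) (nat_lit 7) (nat_lit 8) (nat_lit 8) (by decide +kernel)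
theorem L853233 : W_1 (nat_lit 3) (nat_lit 0x4000400020001a00180000000000000000000000000000000) (nat_lit 0x0) (nat_lit 0x280018000800000000000000000000000000000000000000000000) := T_1 (nat_lit 195) (nat_lit 211) (nat_lit 5) (nat_lit 8) (nat_lit 8) L853232 (by decide +kernel)
theorem L858681 : W_1 (nat_lit 2) (nat_lit 0x1c001a00018001c0000000000000000000000) (nat_lit 0x0) (nat_lit 0x600200000000000000000000000) := D_1 (nat_lit 106) (nat_lit 105) (nat_lit 93) (nat_lit 2) (nat_lit 3) (nat_lit 6) (nat_lit 1) (nat_lit 8) (nat_lit 5) (by decide +kernel)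
theorem L858682 : W_1 (nat_lit 3) (nat_lit 0x1c001a00010001c0000000000000000000000) (nat_lit 0x0) (nat_lit 0x8000000000000e00200000000000000000000000) := T_1 (nat_lit 107) (nat_lit 159) (nat_lit 4) (nat_lit 6) (nat_lit 9) L858681 (by decide +kernel)
theorem L858683 : W_1 (nat_lit 4) (nat_lit 0x1c001a0001000180000000000000000000000) (nat_lit 0x0) (nat_lit 0x8000000000000e00240002000000000000000000) := T_1 (nat_lit 90) (nat_lit 73) (nat_lit 4) (nat_lit 6) (nat_lit 8) L858682 (by decide +kernel)
theorem L861662 : W_1 (nat_lit 2) (nat_lit 0x20001c001e0001000100000000000000000000000) (nat_lit 0x0) (nat_lit 0x8000c000000000000000000) := D_1 (nat_lit 91) (nat_lit 75) (nat_lit 74) (nat_lit 6) (nat_lit 6) (nat_lit 8) (nat_lit 7) (nat_lit 6) (nat_lit 4) (by decide +kernel)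
theorem L861663 : W_1 (nat_lit 3) (nat_lit 0x20001c001e0000000100000000000000000000000) (nat_lit 0x0) (nat_lit 0x180008000c000000000000000000) := T_1 (nat_lit 108) (nat_lit 107) (nat_lit 0) (nat_lit 9) (nat_lit 7) L861662 (by decide +kernel)
theorem L861664 : W_1 (nat_lit 4) (nat_lit 0x200018001e0000000100000000000000000000000) (nat_lit 0x0) (nat_lit 0x60000000180008000c000000000000000000) := T_1 (nat_lit 142) (nat_lit 141) (nat_lit 2) (nat_lit 5) (nat_lit 8) L861663 (by decide +kernel)
theorem L861665 : W_1 (nat_lit 5) (nat_lit 0x200018001e0000000000000000000000000000000) (nat_lit 0x0) (nat_lit 0x60000000380018000c000000000000000000) := T_1 (nat_lit 92) (nat_lit 109) (nat_lit 7) (nat_lit 7) (nat_lit 5) L861664 (by decide +kernel)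
theorem L861666 : W_1 (nat_lit 2) (nat_lit 0x200018001f0000000000000000000000000000000) (nat_lit 0x0) (nat_lit 0x700000000000000000000000000000000000) := D_1 (nat_lit 141) (nat_lit 142) (nat_lit 140) (nat_lit 2) (nat_lit 5) (nat_lit 8) (nat_lit 1) (nat_lit 8) (nat_lit 7) (by decide +kernel)
theorem L861667 : W_1 (nat_lit 3) (nat_lit 0x200018001e0000000000000000000000000000000) (nat_lit 0x0) (nat_lit 0x700018000000000000000000000000000000) := T_1 (nat_lit 124) (nat_lit 123) (nat_lit 3) (nat_lit 4) (nat_lit 7) L861666 (by decide +kernel)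
theorem L861668 : W_1 (nat_lit 6) (nat_lit 0x200018001c0000000000000000000000000000000) (nat_lit 0x0) (nat_lit 0x700038003c0018000c000000000000000000) := Q_1 (nat_lit 125) (C_1 L820403 (C_1 L861665 (C_1 L861667 N_1))) (by decide +kernel)
theorem L862510 : W_1 (nat_lit 2) (nat_lit 0x400020001c00180000000000000000000000000000000) (nat_lit 0x0) (nat_lit 0x2000600000000000000000000000000000000) := D_1 (nat_lit 129) (nat_lit 130) (nat_lit 145) (nat_lit 1) (nat_lit 11) (nat_lit 7) (nat_lit 2) (nat_lit 6) (nat_lit 8) (by decide +kernel)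
theorem L863101 : W_1 (nat_lit 2) (nat_lit 0x200038001e0000000000000000000000000000000) (nat_lit 0x0) (nat_lit 0x18000400000000000000000000000) := D_1 (nat_lit 111) (nat_lit 94) (nat_lit 112) (nat_lit 5) (nat_lit 9) (nat_lit 5) (nat_lit 2) (nat_lit 6) (nat_lit 7) (by decide +kernel)
theorem L863102 : W_1 (nat_lit 3) (nat_lit 0x200018001e0000000000000000000000000000000) (nat_lit 0x0) (nat_lit 0x6000000018000400000000000000000000000) := T_1 (nat_lit 145) (nat_lit 146) (nat_lit 3) (nat_lit 6) (nat_lit 7) L863101 (by decide +kernel)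
theorem L864806 : W_1 (nat_lit 2) (nat_lit 0x20007e00290004000100000000000000000000000) (nat_lit 0x0) (nat_lit 0xe000000000000000000000000000000000000000) := D_1 (nat_lit 158) (nat_lit 159) (nat_lit 157) (nat_lit 1) (nat_lit 9) (nat_lit 8) (nat_lit 1) (nat_lit 8) (nat_lit 8) (by decide +kernel)
theorem L864807 : W_1 (nat_lit 3) (nat_lit 0x20007c00290004000100000000000000000000000) (nat_lit 0x0) (nat_lit 0xe000200008000000000000000000000000000000) := T_1 (nat_lit 141) (nat_lit 123) (nat_lit 0) (nat_lit 8) (nat_lit 8) L864806 (by decide +kernel)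
theorem L864808 : W_1 (nat_lit 4) (nat_lit 0x20007c00280004000100000000000000000000000) (nat_lit 0x0) (nat_lit 0xe000200038000000000000000000000000000000) := T_1 (nat_lit 124) (nat_lit 125) (nat_lit 0) (nat_lit 9) (nat_lit 8) L864807 (by decide +kernel)
theorem L864809 : W_1 (nat_lit 5) (nat_lit 0x20007c00280004000000000000000000000000000) (nat_lit 0x0) (nat_lit 0xe000200038002000100000000000000000000000) := T_1 (nat_lit 92) (nat_lit 109) (nat_lit 4) (nat_lit 8) (nat_lit 9) L864808 (by decide +kernel)
theorem L864810 : W_1 (nat_lit 6) (nat_lit 0x20007800280004000000000000000000000000000) (nat_lit 0x0) (nat_lit 0xe000600138002000100000000000000000000000) := T_1 (nat_lit 142) (nat_lit 128) (nat_lit 2) (nat_lit 6) (nat_lit 8) L864809 (by decide +kernel)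
theorem L864811 : W_1 (nat_lit 7) (nat_lit 0x20007800080004000000000000000000000000000) (nat_lit 0x0) (nat_lit 0xe000600738002000100000000000000000000000) := T_1 (nat_lit 129) (nat_lit 130) (nat_lit 2) (nat_lit 7) (nat_lit 8) L864810 (by decide +kernel)
theorem L880152 : W_1 (nat_lit 2) (nat_lit 0x1a000d0002c00300000000000000000000000) (nat_lit 0x0) (nat_lit 0xc0004000000000000000000) := D_1 (nat_lit 91) (nat_lit 74) (nat_lit 90) (nat_lit 4) (nat_lit 7) (nat_lit 8) (nat_lit 1) (nat_lit 8) (nat_lit 5) (by decide +kernel)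
theorem L880153 : W_1 (nat_lit 3) (nat_lit 0x1a000d0002c00100000000000000000000000) (nat_lit 0x0) (nat_lit 0x2c0014000000000000000000) := T_1 (nat_lit 93) (nat_lit 76) (nat_lit 6) (nat_lit 7) (nat_lit 8) L880152 (by decide +kernel)
theorem L880154 : W_1 (nat_lit 4) (nat_lit 0x1a000d0002c00000000000000000000000000) (nat_lit 0x0) (nat_lit 0x3c001c000000000000000000) := T_1 (nat_lit 92) (nat_lit 75) (nat_lit 7) (nat_lit 7) (nat_lit 4) L880153 (by decide +kernel)
theorem L992898 : W_1 (nat_lit 2) (nat_lit 0x600070000c001c000000000000000000000000000) (nat_lit 0x0) (nat_lit 0x300000000800000000000000000000000) := D_1 (nat_lit 95) (nat_lit 129) (nat_lit 128) (nat_lit 5) (nat_lit 10) (nat_lit 5) (nat_lit 6) (nat_lit 9) (nat_lit 9) (by decide +kernel)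
theorem L992899 : W_1 (nat_lit 3) (nat_lit 0x600070000c000c000000000000000000000000000) (nat_lit 0x0) (nat_lit 0x300030000800000000000000000000000) := T_1 (nat_lit 112) (nat_lit 113) (nat_lit 1) (nat_lit 11) (nat_lit 6) L992898 (by decide +kernel)
theorem L992900 : W_1 (nat_lit 4) (nat_lit 0x600070000c0004000000000000000000000000000) (nat_lit 0x0) (nat_lit 0x300038000c00000000000000000000000) := T_1 (nat_lit 111) (nat_lit 94) (nat_lit 6) (nat_lit 8) (nat_lit 9) L992899 (by decide +kernel)
theorem L997295 : W_1 (nat_lit 2) (nat_lit 0x28003c001e0000000400000000000000000000000) (nat_lit 0x0) (nat_lit 0x2000100000000000000002000000000000000000000000000) := D_1 (nat_lit 176) (nat_lit 193) (nat_lit 109) (nat_lit 6) (nat_lit 6) (nat_lit 11) (nat_lit 6) (nat_lit 6) (nat_lit 10) (by decide +kernel)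
theorem L997296 : W_1 (nat_lit 3) (nat_lit 0x28003c001a0000000400000000000000000000000) (nat_lit 0x0) (nat_lit 0x2000100000004000040002000000000000000000000000000) := T_1 (nat_lit 126) (nat_lit 146) (nat_lit 3) (nat_lit 6) (nat_lit 7) L997295 (by decide +kernel)
theorem L1923476 : W_1 (nat_lit 3) (nat_lit 0x18003c00080000000000000000000000000000000) (nat_lit 0x0) (nat_lit 0x4000200000000000030001000000000000000000000000000) := T_1 (nat_lit 125) (nat_lit 124) (nat_lit 0) (nat_lit 9) (nat_lit 8) L32292 (by decide +kernel)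
theorem L1923477 : W_1 (nat_lit 4) (nat_lit 0x18001c00080000000000000000000000000000000) (nat_lit 0x0) (nat_lit 0x4000200000006000030001000000000000000000000000000) := T_1 (nat_lit 145) (nat_lit 146) (nat_lit 1) (nat_lit 10) (nat_lit 8) L1923476 (by decide +kernel)
theorem L1923780 : W_1 (nat_lit 2) (nat_lit 0x300018000c000e000000000000000000000000000) (nat_lit 0x0) (nat_lit 0x30010000000000000000000000000000) := D_1 (nat_lit 125) (nat_lit 124) (nat_lit 112) (nat_lit 2) (nat_lit 5) (nat_lit 7) (nat_lit 1) (nat_lit 10) (nat_lit 6) (by decide +kernel)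
theorem L1923781 : W_1 (nat_lit 3) (nat_lit 0x300018000c0006000000000000000000000000000) (nat_lit 0x0) (nat_lit 0x30018000400000000000000000000000) := T_1 (nat_lit 111) (nat_lit 94) (nat_lit 6) (nat_lit 8) (nat_lit 9) L1923780 (by decide +kernel)
theorem L1923782 : W_1 (nat_lit 4) (nat_lit 0x300018000c0002000000000000000000000000000) (nat_lit 0x0) (nat_lit 0x3001c000600000000000000000000000) := T_1 (nat_lit 110) (nat_lit 93) (nat_lit 6) (nat_lit 7) (nat_lit 9) L1923781 (by decide +kernel)
theorem L1923783 : W_1 (nat_lit 5) (nat_lit 0x100018000c0002000000000000000000000000000) (nat_lit 0x0) (nat_lit 0x40002000000003001c000600000000000000000000000) := T_1 (nat_lit 161) (nat_lit 178) (nat_lit 7) (nat_lit 7) (nat_lit 6) L1923782 (by decide +kernel)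
theorem L1923822 : W_1 (nat_lit 2) (nat_lit 0x38001a001c0007000400000000000000000000000) (nat_lit 0x0) (nat_lit 0x4006000000000000000000000000000000000000) := D_1 (nat_lit 145) (nat_lit 158) (nat_lit 146) (nat_lit 2) (nat_lit 5) (nat_lit 9) (nat_lit 1) (nat_lit 10) (nat_lit 8) (by decide +kernel)
theorem L1923823 : W_1 (nat_lit 3) (nat_lit 0x30001a001c0007000400000000000000000000000) (nat_lit 0x0) (nat_lit 0x10000c006000000000000000000000000000000000000) := T_1 (nat_lit 159) (nat_lit 176) (nat_lit 5) (nat_lit 7) (nat_lit 6) L1923822 (by decide +kernel)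
theorem L1923871 : W_1 (nat_lit 2) (nat_lit 0x10001c001c0003000000000000000000000000000) (nat_lit 0x0) (nat_lit 0x20000c00000000000000000000000000) := D_1 (nat_lit 107) (nat_lit 106) (nat_lit 125) (nat_lit 3) (nat_lit 4) (nat_lit 6) (nat_lit 0) (nat_lit 9) (nat_lit 7) (by decide +kernel)
theorem L1923872 : W_1 (nat_lit 3) (nat_lit 0x10001c001c0002000000000000000000000000000) (nat_lit 0x0) (nat_lit 0x20001c00080000000000000000000000) := T_1 (nat_lit 108) (nat_lit 91) (nat_lit 4) (nat_lit 7) (nat_lit 9) L1923871 (by decide +kernel)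
theorem L1947939 : W_1 (nat_lit 5) (nat_lit 0x20003c001800180000000000000000000000000000000) (nat_lit 0x0) (nat_lit 0x400020001c0040000300010000000000000000000000000000000) := T_1 (nat_lit 175) (nat_lit 174) (nat_lit 1) (nat_lit 8) (nat_lit 9) L315421 (by decide +kernel)
theorem L1947940 : W_1 (nat_lit 6) (nat_lit 0x200038001800180000000000000000000000000000000) (nat_lit 0x0) (nat_lit 0x400020001c0046000300010000000000000000000000000000000) := T_1 (nat_lit 158) (nat_lit 157) (nat_lit 2) (nat_lit 4) (nat_lit 9) L1947939 (by decide +kernel)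
theorem L1947941 : W_1 (nat_lit 7) (nat_lit 0x38001800180000000000000000000000000000000) (nat_lit 0x0) (nat_lit 0x400060003c0046000300010000000000000000000000000000000) := T_1 (nat_lit 177) (nat_lit 194) (nat_lit 6) (nat_lit 7) (nat_lit 11) L1947940 (by decide +kernel)
theorem L1959953 : W_1 (nat_lit 2) (nat_lit 0x1c000300038003d0000000000000000000000000000000) (nat_lit 0x0) (nat_lit 0x20000000040000000000010000000000000000000000000000) := D_1 (nat_lit 162) (nat_lit 197) (nat_lit 112) (nat_lit 7) (nat_lit 9) (nat_lit 7) (nat_lit 6) (nat_lit 9) (nat_lit 10) (by decide +kernel)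
theorem L1959954 : W_1 (nat_lit 3) (nat_lit 0x1c000300038001d0000000000000000000000000000000) (nat_lit 0x0) (nat_lit 0x20000000040000000600010000000000000000000000000000) := T_1 (nat_lit 129) (nat_lit 130) (nat_lit 1) (nat_lit 11) (nat_lit 7) L1959953 (by decide +kernel)
theorem L1959955 : W_1 (nat_lit 4) (nat_lit 0xc000300038001d0000000000000000000000000000000) (nat_lit 0x0) (nat_lit 0x20003000040000000600010000000000000000000000000000) := T_1 (nat_lit 180) (nat_lit 181) (nat_lit 0) (nat_lit 11) (nat_lit 10) L1959954 (by decide +kernel)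
theorem L1959956 : W_1 (nat_lit 5) (nat_lit 0x4000300038001d0000000000000000000000000000000) (nat_lit 0x0) (nat_lit 0x30003800040000000600010000000000000000000000000000) := T_1 (nat_lit 179) (nat_lit 196) (nat_lit 7) (nat_lit 8) (nat_lit 7) L1959955 (by decide +kernel)
theorem L2080051 : W_1 (nat_lit 2) (nat_lit 0x10001000080004003e00000000000000000000000) (nat_lit 0x0) (nat_lit 0xe0000000000000000000000000000) := D_1 (nat_lit 114) (nat_lit 113) (nat_lit 115) (nat_lit 3) (nat_lit 8) (nat_lit 5) (nat_lit 3) (nat_lit 9) (nat_lit 5) (by decide +kernel)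
theorem L2080052 : W_1 (nat_lit 3) (nat_lit 0x10001000080004001e00000000000000000000000) (nat_lit 0x0) (nat_lit 0xe8002000000000000000000000000) := T_1 (nat_lit 97) (nat_lit 111) (nat_lit 1) (nat_lit 12) (nat_lit 5) L2080051 (by decide +kernel)
theorem L2080053 : W_1 (nat_lit 4) (nat_lit 0x10001000080004000e00000000000000000000000) (nat_lit 0x0) (nat_lit 0xea003000000000000000000000000) := T_1 (nat_lit 96) (nat_lit 109) (nat_lit 1) (nat_lit 11) (nat_lit 5) L2080052 (by decide +kernel)
theorem L2080093 : W_1 (nat_lit 2) (nat_lit 0x10001000080044001e00108000000000000000000) (nat_lit 0x0) (nat_lit 0x80002000200000000000000000000) := D_1 (nat_lit 97) (nat_lit 81) (nat_lit 115) (nat_lit 2) (nat_lit 9) (nat_lit 5) (nat_lit 3) (nat_lit 9) (nat_lit 5) (by decide +kernel)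
theorem L2080094 : W_1 (nat_lit 3) (nat_lit 0x10001000080004001e00108000000000000000000) (nat_lit 0x0) (nat_lit 0xe0002000200000000000000000000) := T_1 (nat_lit 114) (nat_lit 113) (nat_lit 3) (nat_lit 8) (nat_lit 5) L2080093 (by decide +kernel)
theorem L2080095 : W_1 (nat_lit 4) (nat_lit 0x10001000080004001e00008000000000000000000) (nat_lit 0x0) (nat_lit 0xe0002000380000000000000000000) := T_1 (nat_lit 80) (nat_lit 79) (nat_lit 2) (nat_lit 8) (nat_lit 5) L2080094 (by decide +kernel)
theorem L2080096 : W_1 (nat_lit 5) (nat_lit 0x10001000080004000e00008000000000000000000) (nat_lit 0x0) (nat_lit 0xe2003000380000000000000000000) := T_1 (nat_lit 96) (nat_lit 109) (nat_lit 1) (nat_lit 11) (nat_lit 5) L2080095 (by decide +kernel)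
theorem L2080097 : W_1 (nat_lit 6) (nat_lit 0x10001000080004000e00000000000000000000000) (nat_lit 0x0) (nat_lit 0xe2003100388000000000000000000) := T_1 (nat_lit 75) (nat_lit 92) (nat_lit 4) (nat_lit 8) (nat_lit 8) L2080096 (by decide +kernel)
theorem L2080104 : W_1 (nat_lit 2) (nat_lit 0x10001000080084007e00488000000000000000000) (nat_lit 0x0) (nat_lit 0x8000840000000000000000000) := D_1 (nat_lit 99) (nat_lit 78) (nat_lit 83) (nat_lit 0) (nat_lit 14) (nat_lit 5) (nat_lit 2) (nat_lit 11) (nat_lit 5) (by decide +kernel)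
theorem L2080105 : W_1 (nat_lit 3) (nat_lit 0x10001000080084007e00088000000000000000000) (nat_lit 0x0) (nat_lit 0x8000e40000000000000000000) := T_1 (nat_lit 82) (nat_lit 81) (nat_lit 2) (nat_lit 10) (nat_lit 5) L2080104 (by decide +kernel)
theorem L2080106 : W_1 (nat_lit 4) (nat_lit 0x10001000080084003e00088000000000000000000) (nat_lit 0x0) (nat_lit 0x10000c000e40000000000000000000) := T_1 (nat_lit 98) (nat_lit 116) (nat_lit 3) (nat_lit 10) (nat_lit 5) L2080105 (by decide +kernel)
theorem L2080107 : W_1 (nat_lit 5) (nat_lit 0x10001000080004003e00088000000000000000000) (nat_lit 0x0) (nat_lit 0x1c000c000e40000000000000000000) := T_1 (nat_lit 115) (nat_lit 114) (nat_lit 3) (nat_lit 9) (nat_lit 5) L2080106 (by decide +kernel)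
theorem L2080108 : W_1 (nat_lit 6) (nat_lit 0x10001000080004001e00088000000000000000000) (nat_lit 0x0) (nat_lit 0x1c800e000e40000000000000000000) := T_1 (nat_lit 97) (nat_lit 111) (nat_lit 1) (nat_lit 12) (nat_lit 5) L2080107 (by decide +kernel)
theorem L2080109 : W_1 (nat_lit 7) (nat_lit 0x10001000080004001e00008000000000000000000) (nat_lit 0x0) (nat_lit 0x1c800e000fc0000000000000000000) := T_1 (nat_lit 79) (nat_lit 80) (nat_lit 2) (nat_lit 8) (nat_lit 5) L2080108 (by decide +kernel)
theorem L2080110 : W_1 (nat_lit 8) (nat_lit 0x10001000080004001e00000000000000000000000) (nat_lit 0x0) (nat_lit 0x1c800e100fc8000000000000000000) := T_1 (nat_lit 75) (nat_lit 92) (nat_lit 4) (nat_lit 8) (nat_lit 8) L2080109 (by decide +kernel)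
theorem L2080111 : W_1 (nat_lit 9) (nat_lit 0x10001000080004000e00000000000000000000000) (nat_lit 0x0) (nat_lit 0x1ca00f100fc8000000000000000000) := T_1 (nat_lit 96) (nat_lit 109) (nat_lit 1) (nat_lit 11) (nat_lit 5) L2080110 (by decide +kernel)
theorem L2081715 : W_1 (nat_lit 2) (nat_lit 0x10003000080014000f00040000000000000000000) (nat_lit 0x0) (nat_lit 0x100008000080000000000000000000000) := D_1 (nat_lit 111) (nat_lit 91) (nat_lit 128) (nat_lit 3) (nat_lit 6) (nat_lit 5) (nat_lit 6) (nat_lit 9) (nat_lit 8) (by decide +kernel)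
theorem L2081716 : W_1 (nat_lit 3) (nat_lit 0x10003000080004000f00040000000000000000000) (nat_lit 0x0) (nat_lit 0x100038000080000000000000000000000) := T_1 (nat_lit 112) (nat_lit 113) (nat_lit 3) (nat_lit 7) (nat_lit 5) L2081715 (by decide +kernel)
theorem L2081717 : W_1 (nat_lit 4) (nat_lit 0x10003000080004000f00000000000000000000000) (nat_lit 0x0) (nat_lit 0x1000380000800c0000000000000000000) := T_1 (nat_lit 78) (nat_lit 79) (nat_lit 2) (nat_lit 7) (nat_lit 5) L2081716 (by decide +kernel)
theorem L2081869 : W_1 (nat_lit 5) (nat_lit 0x10003000080004000e00000000000000000000000) (nat_lit 0x0) (nat_lit 0x1000380001800c8000000000000000000) := T_1 (nat_lit 92) (nat_lit 75) (nat_lit 4) (nat_lit 8) (nat_lit 8) L2081717 (by decide +kernel)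
theorem L2081870 : W_1 (nat_lit 6) (nat_lit 0x10001000080004000e00000000000000000000000) (nat_lit 0x0) (nat_lit 0x400020001000380001800c8000000000000000000) := T_1 (nat_lit 145) (nat_lit 162) (nat_lit 7) (nat_lit 8) (nat_lit 5) L2081869 (by decide +kernel)
theorem L2081871 : W_1 (nat_lit 10) (nat_lit 0x10001000080004000600000000000000000000000) (nat_lit 0x0) (nat_lit 0x400020001001fa00f980fc8000000000000000000) := Q_1 (nat_lit 95) (C_1 L2080053 (C_1 L2080111 (C_1 L2080097 (C_1 L2081870 N_1)))) (by decide +kernel)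
theorem L2081981 : W_1 (nat_lit 2) (nat_lit 0x1001f000080024003e00100000000400000000000) (nat_lit 0x0) (nat_lit 0x700000000000000000000000000000000000000000) := D_1 (nat_lit 165) (nat_lit 164) (nat_lit 166) (nat_lit 3) (nat_lit 8) (nat_lit 8) (nat_lit 3) (nat_lit 9) (nat_lit 8) (by decide +kernel)
theorem L2081982 : W_1 (nat_lit 3) (nat_lit 0x1000f000080024003e00100000000400000000000) (nat_lit 0x0) (nat_lit 0x700010000100000000000000000000000000000000) := T_1 (nat_lit 148) (nat_lit 128) (nat_lit 0) (nat_lit 12) (nat_lit 8) L2081981 (by decide +kernel)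
theorem L2081983 : W_1 (nat_lit 4) (nat_lit 0x1000b000080024003e00100000000400000000000) (nat_lit 0x0) (nat_lit 0x700014000140000000000000000000000000000000) := T_1 (nat_lit 146) (nat_lit 126) (nat_lit 0) (nat_lit 11) (nat_lit 8) L2081982 (by decide +kernel)
theorem L2081984 : W_1 (nat_lit 5) (nat_lit 0x10003000080024003e00100000000400000000000) (nat_lit 0x0) (nat_lit 0x70001c000540000000000000000000000000000000) := T_1 (nat_lit 147) (nat_lit 130) (nat_lit 6) (nat_lit 11) (nat_lit 8) L2081983 (by decide +kernel)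
theorem L2081985 : W_1 (nat_lit 6) (nat_lit 0x10003000080024003e00100000000000000000000) (nat_lit 0x0) (nat_lit 0x70001c000540000000000000008000400000000000) := T_1 (nat_lit 46) (nat_lit 63) (nat_lit 5) (nat_lit 12) (nat_lit 2) L2081984 (by decide +kernel)
theorem L2081986 : W_1 (nat_lit 7) (nat_lit 0x10003000080024001e00100000000000000000000) (nat_lit 0x0) (nat_lit 0x70001c000540000002000200008000400000000000) := T_1 (nat_lit 97) (nat_lit 81) (nat_lit 2) (nat_lit 9) (nat_lit 5) L2081985 (by decide +kernel)
theorem L2081987 : W_1 (nat_lit 8) (nat_lit 0x10003000080004001e00100000000000000000000) (nat_lit 0x0) (nat_lit 0x70001c000540060002000200008000400000000000) := T_1 (nat_lit 113) (nat_lit 114) (nat_lit 3) (nat_lit 8) (nat_lit 5) L2081986 (by decide +kernel)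
theorem L2081988 : W_1 (nat_lit 9) (nat_lit 0x10003000080004001e00000000000000000000000) (nat_lit 0x0) (nat_lit 0x70001c000540060002000380008000400000000000) := T_1 (nat_lit 80) (nat_lit 79) (nat_lit 2) (nat_lit 8) (nat_lit 5) L2081987 (by decide +kernel)
theorem L2081989 : W_1 (nat_lit 10) (nat_lit 0x10003000080004000e00000000000000000000000) (nat_lit 0x0) (nat_lit 0x70001c000540062003000380008000400000000000) := T_1 (nat_lit 96) (nat_lit 109) (nat_lit 1) (nat_lit 11) (nat_lit 5) L2081988 (by decide +kernel)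
theorem L2081990 : W_1 (nat_lit 11) (nat_lit 0x10001000080004000e00000000000000000000000) (nat_lit 0x0) (nat_lit 0x74001e000540062003000380008000400000000000) := T_1 (nat_lit 145) (nat_lit 162) (nat_lit 7) (nat_lit 8) (nat_lit 5) L2081989 (by decide +kernel)
theorem L2081991 : W_1 (nat_lit 2) (nat_lit 0x1000b000280014000f00040000000000000000000) (nat_lit 0x0) (nat_lit 0x100004000040000000000000000000000000000000) := D_1 (nat_lit 146) (nat_lit 126) (nat_lit 164) (nat_lit 0) (nat_lit 11) (nat_lit 8) (nat_lit 7) (nat_lit 10) (nat_lit 5) (by decide +kernel)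
theorem L2081992 : W_1 (nat_lit 3) (nat_lit 0x10003000280014000f00040000000000000000000) (nat_lit 0x0) (nat_lit 0x10000c000440000000000000000000000000000000) := T_1 (nat_lit 147) (nat_lit 130) (nat_lit 7) (nat_lit 10) (nat_lit 4) L2081991 (by decide +kernel)
theorem L2081993 : W_1 (nat_lit 4) (nat_lit 0x10003000080014000f00040000000000000000000) (nat_lit 0x0) (nat_lit 0x10000c000740000000000000000000000000000000) := T_1 (nat_lit 129) (nat_lit 128) (nat_lit 5) (nat_lit 10) (nat_lit 4) L2081992 (by decide +kernel)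
theorem L2081994 : W_1 (nat_lit 5) (nat_lit 0x10003000080014000f00000000000000000000000) (nat_lit 0x0) (nat_lit 0x10000c0007400000000000c0000000000000000000) := T_1 (nat_lit 78) (nat_lit 79) (nat_lit 2) (nat_lit 7) (nat_lit 5) L2081993 (by decide +kernel)
theorem L2081995 : W_1 (nat_lit 6) (nat_lit 0x10003000080004000f00000000000000000000000) (nat_lit 0x0) (nat_lit 0x10000c0007400300000000c0000000000000000000) := T_1 (nat_lit 112) (nat_lit 113) (nat_lit 3) (nat_lit 7) (nat_lit 5) L2081994 (by decide +kernel)
theorem L2081996 : W_1 (nat_lit 7) (nat_lit 0x10003000080004000e00000000000000000000000) (nat_lit 0x0) (nat_lit 0x10000c0007400300001000c8000000000000000000) := T_1 (nat_lit 92) (nat_lit 75) (nat_lit 4) (nat_lit 8) (nat_lit 8) L2081995 (by decide +kernel)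
theorem L2081997 : W_1 (nat_lit 8) (nat_lit 0x10001000080004000e00000000000000000000000) (nat_lit 0x0) (nat_lit 0x14000e0007400300001000c8000000000000000000) := T_1 (nat_lit 145) (nat_lit 162) (nat_lit 7) (nat_lit 8) (nat_lit 5) L2081996 (by decide +kernel)
theorem L2081998 : W_1 (nat_lit 2) (nat_lit 0x10001000080004000f00000000000000000000000) (nat_lit 0x0) (nat_lit 0x3001000000000000000000000000) := D_1 (nat_lit 109) (nat_lit 96) (nat_lit 108) (nat_lit 1) (nat_lit 11) (nat_lit 5) (nat_lit 1) (nat_lit 10) (nat_lit 5) (by decide +kernel)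
theorem L2081999 : W_1 (nat_lit 3) (nat_lit 0x10001000080004000e00000000000000000000000) (nat_lit 0x0) (nat_lit 0x3001100008000000000000000000) := T_1 (nat_lit 92) (nat_lit 75) (nat_lit 4) (nat_lit 8) (nat_lit 8) L2081998 (by decide +kernel)
theorem L2082000 : W_1 (nat_lit 12) (nat_lit 0x10001000080004000600000000000000000000000) (nat_lit 0x0) (nat_lit 0x74001e0007400f30039003c8008000400000000000) := Q_1 (nat_lit 95) (C_1 L2081990 (C_1 L2080097 (C_1 L2081997 (C_1 L2081999 N_1)))) (by decide +kernel)
theorem L2249797 : W_1 (nat_lit 2) (nat_lit 0x4000100018000c0002000000000000000000000000000) (nat_lit 0x0) (nat_lit 0x200000000000000004000200000000000000000000000) := D_1 (nat_lit 110) (nat_lit 93) (nat_lit 177) (nat_lit 6) (nat_lit 7) (nat_lit 9) (nat_lit 6) (nat_lit 7) (nat_lit 10) (by decide +kernel)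
theorem L2279939 : W_1 (nat_lit 2) (nat_lit 0x4000100018000c0002000000000000000000000000000) (nat_lit 0x0) (nat_lit 0x4000200000000000000004000000000000000000000000000) := D_1 (nat_lit 177) (nat_lit 194) (nat_lit 110) (nat_lit 6) (nat_lit 7) (nat_lit 11) (nat_lit 6) (nat_lit 7) (nat_lit 10) (by decide +kernel)
theorem L2279940 : W_1 (nat_lit 2) (nat_lit 0x5000100018000c0002000080000000000000000000000) (nat_lit 0x0) (nat_lit 0x6000200000000000000000000000000000000000000000000) := D_1 (nat_lit 177) (nat_lit 194) (nat_lit 193) (nat_lit 6) (nat_lit 7) (nat_lit 11) (nat_lit 5) (nat_lit 7) (nat_lit 7) (by decide +kernel)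
theorem L2279941 : W_1 (nat_lit 3) (nat_lit 0x4000100018000c0002000080000000000000000000000) (nat_lit 0x0) (nat_lit 0x6000300008000000000000000000000000000000000000000) := T_1 (nat_lit 176) (nat_lit 159) (nat_lit 5) (nat_lit 7) (nat_lit 6) L2279940 (by decide +kernel)
theorem L2279942 : W_1 (nat_lit 4) (nat_lit 0x4000100018000c0002000000000000000000000000000) (nat_lit 0x0) (nat_lit 0x6000300008000000000001000080000000000000000000000) := T_1 (nat_lit 91) (nat_lit 108) (nat_lit 4) (nat_lit 7) (nat_lit 9) L2279941 (by decide +kernel)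
theorem L2279943 : W_1 (nat_lit 10) (nat_lit 0x4000000018000c0002000000000000000000000000000) (nat_lit 0x0) (nat_lit 0x600030001e000700018005c002e0000000000000000000000) := Q_1 (nat_lit 160) (C_1 L2249797 (C_1 L764749 (C_1 L2279939 (C_1 L2279942 N_1)))) (by decide +kernel)
theorem L2480474 : W_1 (nat_lit 2) (nat_lit 0x3c000e0003000380002000000000000000000) (nat_lit 0x0) (nat_lit 0xc00400000000000000000000000) := D_1 (nat_lit 107) (nat_lit 106) (nat_lit 94) (nat_lit 3) (nat_lit 4) (nat_lit 6) (nat_lit 1) (nat_lit 9) (nat_lit 5) (by decide +kernel)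
theorem L2480475 : W_1 (nat_lit 3) (nat_lit 0x3c000e0003000180002000000000000000000) (nat_lit 0x0) (nat_lit 0xc00600010000000000000000000) := T_1 (nat_lit 93) (nat_lit 76) (nat_lit 6) (nat_lit 7) (nat_lit 8) L2480474 (by decide +kernel)
theorem L2480476 : W_1 (nat_lit 4) (nat_lit 0x3c000e0001000180002000000000000000000) (nat_lit 0x0) (nat_lit 0x20000000000002c00600010000000000000000000) := T_1 (nat_lit 109) (nat_lit 161) (nat_lit 7) (nat_lit 7) (nat_lit 5) L2480475 (by decide +kernel)
theorem L2480477 : W_1 (nat_lit 5) (nat_lit 0x3c000e0001000180000000000000000000000) (nat_lit 0x0) (nat_lit 0x20000000000002c00640012000000000000000000) := T_1 (nat_lit 73) (nat_lit 90) (nat_lit 4) (nat_lit 6) (nat_lit 8) L2480476 (by decide +kernel)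
theorem L2480478 : W_1 (nat_lit 6) (nat_lit 0x3c000e0001000080000000000000000000000) (nat_lit 0x0) (nat_lit 0x20000000000002c0074001a000000000000000000) := T_1 (nat_lit 92) (nat_lit 75) (nat_lit 6) (nat_lit 6) (nat_lit 8) L2480477 (by decide +kernel)
theorem L2480479 : W_1 (nat_lit 7) (nat_lit 0x3c000e0001000000000000000000000000000) (nat_lit 0x0) (nat_lit 0x20000000000002c007c001e000000000000000000) := T_1 (nat_lit 91) (nat_lit 74) (nat_lit 7) (nat_lit 6) (nat_lit 4) L2480478 (by decide +kernel)
theorem L2482225 : W_1 (nat_lit 2) (nat_lit 0x14003e0000800000000000000000000000000) (nat_lit 0x0) (nat_lit 0xe000000000000000000000000000000000000) := D_1 (nat_lit 146) (nat_lit 145) (nat_lit 147) (nat_lit 3) (nat_lit 6) (nat_lit 7) (nat_lit 3) (nat_lit 7) (nat_lit 7) (by decide +kernel)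
theorem L2482226 : W_1 (nat_lit 3) (nat_lit 0x14001e0000800000000000000000000000000) (nat_lit 0x0) (nat_lit 0xe800200000000000000000000000000000000) := T_1 (nat_lit 129) (nat_lit 143) (nat_lit 1) (nat_lit 10) (nat_lit 7) L2482225 (by decide +kernel)
theorem L2751823 : W_1 (nat_lit 3) (nat_lit 0x1000080004000300000000000000000000000) (nat_lit 0x0) (nat_lit 0x200030000800000002000000000000000000000000000) := T_1 (nat_lit 161) (nat_lit 109) (nat_lit 4) (nat_lit 8) (nat_lit 9) L123 (by decide +kernel)
theorem L2822193 : W_1 (nat_lit 2) (nat_lit 0x1c001a0001000100008000000000000000000) (nat_lit 0x0) (nat_lit 0x8000000000002000000000000400000000000000) := D_1 (nat_lit 109) (nat_lit 58) (nat_lit 159) (nat_lit 5) (nat_lit 7) (nat_lit 3) (nat_lit 6) (nat_lit 6) (nat_lit 9) (by decide +kernel)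
theorem L3026661 : W_1 (nat_lit 2) (nat_lit 0x30000c0004000200010000800060000000000) (nat_lit 0x0) (nat_lit 0x1000080004000000) := D_1 (nat_lit 43) (nat_lit 60) (nat_lit 26) (nat_lit 6) (nat_lit 8) (nat_lit 6) (nat_lit 6) (nat_lit 8) (nat_lit 5) (by decide +kernel)
theorem L3026662 : W_1 (nat_lit 3) (nat_lit 0x30000c0004000200010000800020000000000) (nat_lit 0x0) (nat_lit 0x10000c0005000000) := T_1 (nat_lit 42) (nat_lit 24) (nat_lit 4) (nat_lit 8) (nat_lit 5) L3026661 (by decide +kernel)
theorem L3026663 : W_1 (nat_lit 4) (nat_lit 0x30000c0004000200010000800000000000000) (nat_lit 0x0) (nat_lit 0x14000e0005000000) := T_1 (nat_lit 41) (nat_lit 58) (nat_lit 4) (nat_lit 8) (nat_lit 6) L3026662 (by decide +kernel)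
theorem L3026664 : W_1 (nat_lit 5) (nat_lit 0x30000c0004000200010000000000000000000) (nat_lit 0x0) (nat_lit 0x2000000000001c000e0005000000) := T_1 (nat_lit 59) (nat_lit 109) (nat_lit 5) (nat_lit 8) (nat_lit 3) L3026663 (by decide +kernel)
theorem L3026665 : W_1 (nat_lit 6) (nat_lit 0x3000080004000200010000000000000000000) (nat_lit 0x0) (nat_lit 0x800040002000000000001c000e0005000000) := T_1 (nat_lit 126) (nat_lit 143) (nat_lit 5) (nat_lit 8) (nat_lit 4) L3026664 (by decide +kernel)
theorem L3026666 : W_1 (nat_lit 7) (nat_lit 0x3000080004000200000000000000000000000) (nat_lit 0x0) (nat_lit 0x800140002000000010001c000e0005000000) := T_1 (nat_lit 76) (nat_lit 128) (nat_lit 7) (nat_lit 8) (nat_lit 4) L3026665 (by decide +kernel)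
theorem L3026667 : W_1 (nat_lit 8) (nat_lit 0x1000080004000200000000000000000000000) (nat_lit 0x0) (nat_lit 0x40002800140002000000010001c000e0005000000) := T_1 (nat_lit 145) (nat_lit 162) (nat_lit 7) (nat_lit 8) (nat_lit 5) L3026666 (by decide +kernel)
theorem L3039653 : W_1 (nat_lit 4) (nat_lit 0x1000080004000200000000000000000000000) (nat_lit 0x0) (nat_lit 0x200030000800000002000100008000000000000000000) := T_1 (nat_lit 92) (nat_lit 75) (nat_lit 4) (nat_lit 8) (nat_lit 8) L2751823 (by decide +kernel)
theorem L3039654 : W_1 (nat_lit 2) (nat_lit 0x10001000080004000600000000000000000000000) (nat_lit 0x0) (nat_lit 0x200020000000000008000000000000000000000000000) := D_1 (nat_lit 161) (nat_lit 111) (nat_lit 177) (nat_lit 6) (nat_lit 8) (nat_lit 9) (nat_lit 5) (nat_lit 8) (nat_lit 6) (by decide +kernel)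
theorem L3039655 : W_1 (nat_lit 3) (nat_lit 0x1000080004000600000000000000000000000) (nat_lit 0x0) (nat_lit 0x200030000800000008000000000000000000000000000) := T_1 (nat_lit 160) (nat_lit 143) (nat_lit 5) (nat_lit 8) (nat_lit 5) L3039654 (by decide +kernel)
theorem L3039656 : W_1 (nat_lit 4) (nat_lit 0x1000080004000200000000000000000000000) (nat_lit 0x0) (nat_lit 0x200030000800000008000400020000000000000000000) := T_1 (nat_lit 94) (nat_lit 77) (nat_lit 6) (nat_lit 8) (nat_lit 8) L3039655 (by decide +kernel)
theorem L3130372 : W_1 (nat_lit 2) (nat_lit 0x50001000080004000200028000000000000000000) (nat_lit 0x0) (nat_lit 0xa00020000000000000000000000000000000000000000) := D_1 (nat_lit 161) (nat_lit 179) (nat_lit 177) (nat_lit 7) (nat_lit 8) (nat_lit 6) (nat_lit 5) (nat_lit 8) (nat_lit 6) (by decide +kernel)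
theorem L3130373 : W_1 (nat_lit 3) (nat_lit 0x40001000080004000200028000000000000000000) (nat_lit 0x0) (nat_lit 0xa00030000800000000000000000000000000000000000) := T_1 (nat_lit 160) (nat_lit 143) (nat_lit 5) (nat_lit 8) (nat_lit 5) L3130372 (by decide +kernel)
theorem L3130374 : W_1 (nat_lit 4) (nat_lit 0x1000080004000200028000000000000000000) (nat_lit 0x0) (nat_lit 0xa00070002800000000000000000000000000000000000) := T_1 (nat_lit 162) (nat_lit 145) (nat_lit 7) (nat_lit 8) (nat_lit 5) L3130373 (by decide +kernel)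
theorem L3721867 : W_1 (nat_lit 3) (nat_lit 0x7000100078002c0000000000000000000000000000000) (nat_lit 0x0) (nat_lit 0xc0060000000000002000000000000000000000000000) := T_1 (nat_lit 161) (nat_lit 109) (nat_lit 7) (nat_lit 7) (nat_lit 6) L341410 (by decide +kernel)
theorem L3721868 : W_1 (nat_lit 4) (nat_lit 0x3000100078002c0000000000000000000000000000000) (nat_lit 0x0) (nat_lit 0x80004c0060000000000002000000000000000000000000000) := T_1 (nat_lit 178) (nat_lit 195) (nat_lit 7) (nat_lit 7) (nat_lit 7) L3721867 (by decide +kernel)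
theorem L3721869 : W_1 (nat_lit 5) (nat_lit 0x2000100078002c0000000000000000000000000000000) (nat_lit 0x0) (nat_lit 0xa0005c0060000000000002000000000000000000000000000) := T_1 (nat_lit 176) (nat_lit 193) (nat_lit 5) (nat_lit 7) (nat_lit 7) L3721868 (by decide +kernel)
theorem L3721870 : W_1 (nat_lit 6) (nat_lit 0x100078002c0000000000000000000000000000000) (nat_lit 0x0) (nat_lit 0xe0007c0060000000000002000000000000000000000000000) := T_1 (nat_lit 177) (nat_lit 194) (nat_lit 6) (nat_lit 7) (nat_lit 11) L3721869 (by decide +kernel)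
theorem L3721871 : W_1 (nat_lit 7) (nat_lit 0x100078000c0000000000000000000000000000000) (nat_lit 0x0) (nat_lit 0xe0007c0060000000600002000000000000000000000000000) := T_1 (nat_lit 129) (nat_lit 130) (nat_lit 2) (nat_lit 7) (nat_lit 8) L3721870 (by decide +kernel)
theorem L3721872 : W_1 (nat_lit 8) (nat_lit 0x78000c0000000000000000000000000000000) (nat_lit 0x0) (nat_lit 0xe0007c0078000000600002000000000000000000000000000) := T_1 (nat_lit 160) (nat_lit 159) (nat_lit 1) (nat_lit 10) (nat_lit 8) L3721871 (by decide +kernel)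
theorem L3721873 : W_1 (nat_lit 9) (nat_lit 0x38000c0000000000000000000000000000000) (nat_lit 0x0) (nat_lit 0xe0007c007800c000600002000000000000000000000000000) := T_1 (nat_lit 146) (nat_lit 147) (nat_lit 0) (nat_lit 11) (nat_lit 8) L3721872 (by decide +kernel)
theorem L3721885 : W_1 (nat_lit 11) (nat_lit 0x10000c0000000000000000000000000000000) (nat_lit 0x0) (nat_lit 0x40002001efc073c03bf00500028000000000000000000) := Q_1 (nat_lit 125) (C_1 L375648 (C_1 L375744 (C_1 L1479 (C_1 L255413 (C_1 L255412 N_1))))) (by decide +kernel)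
theorem L3752085 : W_1 (nat_lit 2) (nat_lit 0x20001a000d0003800080000000000000000000000) (nat_lit 0x0) (nat_lit 0x40004000200000000000000) := D_1 (nat_lit 74) (nat_lit 90) (nat_lit 57) (nat_lit 6) (nat_lit 5) (nat_lit 8) (nat_lit 7) (nat_lit 6) (nat_lit 3) (by decide +kernel)
theorem L3752560 : W_1 (nat_lit 4) (nat_lit 0x1a000d0002800000000000000000000000000) (nat_lit 0x0) (nat_lit 0x4000000000001400060001000080000000000000) := T_1 (nat_lit 106) (nat_lit 108) (nat_lit 3) (nat_lit 4) (nat_lit 6) L835550 (by decide +kernel)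
theorem L3941416 : W_1 (nat_lit 2) (nat_lit 0x200058003c0010000900060000000000000000000) (nat_lit 0x0) (nat_lit 0x1000080004000000000000000) := D_1 (nat_lit 79) (nat_lit 96) (nat_lit 62) (nat_lit 6) (nat_lit 10) (nat_lit 8) (nat_lit 6) (nat_lit 10) (nat_lit 7) (by decide +kernel)
theorem L3941417 : W_1 (nat_lit 3) (nat_lit 0x200058003c0010000900020000000000000000000) (nat_lit 0x0) (nat_lit 0x10000c0005000000000000000) := T_1 (nat_lit 78) (nat_lit 60) (nat_lit 4) (nat_lit 10) (nat_lit 7) L3941416 (by decide +kernel)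
theorem L3941431 : W_1 (nat_lit 2) (nat_lit 0x200018001c0018003f00008002000000000000000) (nat_lit 0x0) (nat_lit 0x380000000000000000000) := D_1 (nat_lit 80) (nat_lit 79) (nat_lit 81) (nat_lit 2) (nat_lit 8) (nat_lit 5) (nat_lit 2) (nat_lit 9) (nat_lit 5) (by decide +kernel)
theorem L3941432 : W_1 (nat_lit 3) (nat_lit 0x200018001c0018001f00008002000000000000000) (nat_lit 0x0) (nat_lit 0x6000380000000000000000000) := T_1 (nat_lit 97) (nat_lit 98) (nat_lit 1) (nat_lit 13) (nat_lit 5) L3941431 (by decide +kernel)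
theorem L3941433 : W_1 (nat_lit 4) (nat_lit 0x200018001c0018000f00008002000000000000000) (nat_lit 0x0) (nat_lit 0x7000390000000000000000000) := T_1 (nat_lit 96) (nat_lit 76) (nat_lit 0) (nat_lit 11) (nat_lit 5) L3941432 (by decide +kernel)
theorem L3941434 : W_1 (nat_lit 5) (nat_lit 0x200018001c0018000f00000002000000000000000) (nat_lit 0x0) (nat_lit 0x700039c000000000000000000) := T_1 (nat_lit 75) (nat_lit 74) (nat_lit 0) (nat_lit 10) (nat_lit 5) L3941433 (by decide +kernel)
theorem L3941435 : W_1 (nat_lit 6) (nat_lit 0x200018001c0018000d00000002000000000000000) (nat_lit 0x0) (nat_lit 0x728039c000000000000000000) := T_1 (nat_lit 93) (nat_lit 91) (nat_lit 3) (nat_lit 6) (nat_lit 5) L3941434 (by decide +kernel)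
theorem L3941436 : W_1 (nat_lit 7) (nat_lit 0x200018001c0018000900000002000000000000000) (nat_lit 0x0) (nat_lit 0x76803bc000000000000000000) := T_1 (nat_lit 94) (nat_lit 77) (nat_lit 5) (nat_lit 9) (nat_lit 4) L3941435 (by decide +kernel)
theorem L3941437 : W_1 (nat_lit 8) (nat_lit 0x200018001c0018000900000000000000000000000) (nat_lit 0x0) (nat_lit 0x76803fc002000000000000000) := T_1 (nat_lit 61) (nat_lit 78) (nat_lit 5) (nat_lit 10) (nat_lit 3) L3941436 (by decide +kernel)
theorem L3941438 : W_1 (nat_lit 9) (nat_lit 0x200018001c0010000900000000000000000000000) (nat_lit 0x0) (nat_lit 0x200080076803fc002000000000000000) := T_1 (nat_lit 111) (nat_lit 125) (nat_lit 2) (nat_lit 6) (nat_lit 7) L3941437 (by decide +kernel)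
theorem L3941439 : W_1 (nat_lit 10) (nat_lit 0x200018001c0010000800000000000000000000000) (nat_lit 0x0) (nat_lit 0x2000a0077803fc002000000000000000) := T_1 (nat_lit 92) (nat_lit 109) (nat_lit 7) (nat_lit 7) (nat_lit 5) L3941438 (by decide +kernel)
theorem L3941440 : W_1 (nat_lit 4) (nat_lit 0x200058003c0010000900000000000000000000000) (nat_lit 0x0) (nat_lit 0x14000e0005000000000000000) := T_1 (nat_lit 77) (nat_lit 94) (nat_lit 4) (nat_lit 10) (nat_lit 8) L3941417 (by decide +kernel)
theorem L3941441 : W_1 (nat_lit 5) (nat_lit 0x200018003c0010000900000000000000000000000) (nat_lit 0x0) (nat_lit 0xc0000000000014000e0005000000000000000) := T_1 (nat_lit 146) (nat_lit 147) (nat_lit 3) (nat_lit 7) (nat_lit 7) L3941440 (by decide +kernel)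
theorem L3941442 : W_1 (nat_lit 6) (nat_lit 0x200018003c0010000800000000000000000000000) (nat_lit 0x0) (nat_lit 0xc0000000020015000e0005000000000000000) := T_1 (nat_lit 92) (nat_lit 109) (nat_lit 7) (nat_lit 7) (nat_lit 5) L3941441 (by decide +kernel)
theorem L3941443 : W_1 (nat_lit 7) (nat_lit 0x200018001c0010000800000000000000000000000) (nat_lit 0x0) (nat_lit 0xc0006000020015000e0005000000000000000) := T_1 (nat_lit 129) (nat_lit 130) (nat_lit 1) (nat_lit 11) (nat_lit 7) L3941442 (by decide +kernel)
theorem L3941444 : W_1 (nat_lit 2) (nat_lit 0x200058003c0018000800020000000000000000000) (nat_lit 0x0) (nat_lit 0x40003000000000000000) := D_1 (nat_lit 78) (nat_lit 61) (nat_lit 60) (nat_lit 5) (nat_lit 10) (nat_lit 3) (nat_lit 4) (nat_lit 10) (nat_lit 7) (by decide +kernel)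
theorem L3941445 : W_1 (nat_lit 3) (nat_lit 0x200058003c0018000800000000000000000000000) (nat_lit 0x0) (nat_lit 0x400060003000000000000000) := T_1 (nat_lit 77) (nat_lit 94) (nat_lit 7) (nat_lit 9) (nat_lit 4) L3941444 (by decide +kernel)
theorem L3941446 : W_1 (nat_lit 4) (nat_lit 0x200018003c0018000800000000000000000000000) (nat_lit 0x0) (nat_lit 0xc000000000000400060003000000000000000) := T_1 (nat_lit 146) (nat_lit 147) (nat_lit 3) (nat_lit 7) (nat_lit 7) L3941445 (by decide +kernel)
theorem L3941447 : W_1 (nat_lit 5) (nat_lit 0x200018003c0010000800000000000000000000000) (nat_lit 0x0) (nat_lit 0xc000020008000400060003000000000000000) := T_1 (nat_lit 111) (nat_lit 125) (nat_lit 2) (nat_lit 6) (nat_lit 7) L3941446 (by decide +kernel)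
theorem L3941448 : W_1 (nat_lit 6) (nat_lit 0x200018001c0010000800000000000000000000000) (nat_lit 0x0) (nat_lit 0xc000620008000400060003000000000000000) := T_1 (nat_lit 129) (nat_lit 130) (nat_lit 1) (nat_lit 11) (nat_lit 7) L3941447 (by decide +kernel)
theorem L3941449 : W_1 (nat_lit 2) (nat_lit 0x200058003c0018000900080000000000000000000) (nat_lit 0x0) (nat_lit 0x40006000000000000000) := D_1 (nat_lit 78) (nat_lit 62) (nat_lit 61) (nat_lit 6) (nat_lit 10) (nat_lit 7) (nat_lit 5) (nat_lit 10) (nat_lit 3) (by decide +kernel)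
theorem L3941450 : W_1 (nat_lit 3) (nat_lit 0x200058003c0018000900000000000000000000000) (nat_lit 0x0) (nat_lit 0x10000c0006000000000000000) := T_1 (nat_lit 79) (nat_lit 96) (nat_lit 6) (nat_lit 10) (nat_lit 8) L3941449 (by decide +kernel)
theorem L3941451 : W_1 (nat_lit 4) (nat_lit 0x200058003c0010000900000000000000000000000) (nat_lit 0x0) (nat_lit 0x200080010000c0006000000000000000) := T_1 (nat_lit 111) (nat_lit 125) (nat_lit 2) (nat_lit 6) (nat_lit 7) L3941450 (by decide +kernel)
theorem L3941452 : W_1 (nat_lit 5) (nat_lit 0x200018003c0010000900000000000000000000000) (nat_lit 0x0) (nat_lit 0xc0000200080010000c0006000000000000000) := T_1 (nat_lit 146) (nat_lit 147) (nat_lit 3) (nat_lit 7) (nat_lit 7) L3941451 (by decide +kernel)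
theorem L3941453 : W_1 (nat_lit 6) (nat_lit 0x200018003c0010000800000000000000000000000) (nat_lit 0x0) (nat_lit 0xc00002000a0011000c0006000000000000000) := T_1 (nat_lit 92) (nat_lit 109) (nat_lit 7) (nat_lit 7) (nat_lit 5) L3941452 (by decide +kernel)
theorem L3941454 : W_1 (nat_lit 7) (nat_lit 0x200018001c0010000800000000000000000000000) (nat_lit 0x0) (nat_lit 0xc00062000a0011000c0006000000000000000) := T_1 (nat_lit 129) (nat_lit 130) (nat_lit 1) (nat_lit 11) (nat_lit 7) L3941453 (by decide +kernel)
theorem L3941455 : W_1 (nat_lit 2) (nat_lit 0x200058003c0018000f00008000000000000000000) (nat_lit 0x0) (nat_lit 0x1000090000000000000000000) := D_1 (nat_lit 96) (nat_lit 79) (nat_lit 76) (nat_lit 6) (nat_lit 10) (nat_lit 8) (nat_lit 0) (nat_lit 11) (nat_lit 5) (by decide +kernel)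
theorem L3941456 : W_1 (nat_lit 3) (nat_lit 0x200058003c0018000f00000000000000000000000) (nat_lit 0x0) (nat_lit 0x100009c000000000000000000) := T_1 (nat_lit 75) (nat_lit 74) (nat_lit 0) (nat_lit 10) (nat_lit 5) L3941455 (by decide +kernel)
theorem L3941457 : W_1 (nat_lit 4) (nat_lit 0x200018003c0018000f00000000000000000000000) (nat_lit 0x0) (nat_lit 0xc00000000000100009c000000000000000000) := T_1 (nat_lit 146) (nat_lit 147) (nat_lit 3) (nat_lit 7) (nat_lit 7) L3941456 (by decide +kernel)
theorem L3941458 : W_1 (nat_lit 5) (nat_lit 0x200018003c0018000d00000000000000000000000) (nat_lit 0x0) (nat_lit 0xc00000000000128009c000000000000000000) := T_1 (nat_lit 93) (nat_lit 91) (nat_lit 3) (nat_lit 6) (nat_lit 5) L3941457 (by decide +kernel)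
theorem L3941459 : W_1 (nat_lit 6) (nat_lit 0x200018001c0018000d00000000000000000000000) (nat_lit 0x0) (nat_lit 0xc00060000000128009c000000000000000000) := T_1 (nat_lit 129) (nat_lit 130) (nat_lit 1) (nat_lit 11) (nat_lit 7) L3941458 (by decide +kernel)
theorem L3941460 : W_1 (nat_lit 7) (nat_lit 0x200018001c0018000900000000000000000000000) (nat_lit 0x0) (nat_lit 0xc0006000000016800bc000000000000000000) := T_1 (nat_lit 94) (nat_lit 77) (nat_lit 5) (nat_lit 9) (nat_lit 4) L3941459 (by decide +kernel)
theorem L3941461 : W_1 (nat_lit 8) (nat_lit 0x200018001c0018000800000000000000000000000) (nat_lit 0x0) (nat_lit 0xc0006000020017800bc000000000000000000) := T_1 (nat_lit 92) (nat_lit 109) (nat_lit 7) (nat_lit 7) (nat_lit 5) L3941460 (by decide +kernel)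
theorem L3941462 : W_1 (nat_lit 9) (nat_lit 0x200018001c0010000800000000000000000000000) (nat_lit 0x0) (nat_lit 0xc00062000a0017800bc000000000000000000) := T_1 (nat_lit 111) (nat_lit 125) (nat_lit 2) (nat_lit 6) (nat_lit 7) L3941461 (by decide +kernel)
theorem L3941463 : W_1 (nat_lit 11) (nat_lit 0x200018001c0010000000000000000000000000000) (nat_lit 0x0) (nat_lit 0xc00062000a007f803fc007000000000000000) := Q_1 (nat_lit 95) (C_1 L3941439 (C_1 L3941443 (C_1 L3941448 (C_1 L3941454 (C_1 L3941462 N_1))))) (by decide +kernel)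
theorem L3941464 : W_1 (nat_lit 12) (nat_lit 0x200018001c0000000000000000000000000000000) (nat_lit 0x0) (nat_lit 0xc00062007a007f803fc007000000000000000) := Q_1 (nat_lit 112) (C_1 L257411 (C_1 L257407 (C_1 L3941463 N_1))) (by decide +kernel)
theorem L3941465 : W_1 (nat_lit 13) (nat_lit 0x18001c0000000000000000000000000000000) (nat_lit 0x0) (nat_lit 0x800040002000c00062007a007f803fc007000000000000000) := Q_1 (nat_lit 161) (C_1 L74070 (C_1 L3941464 (C_1 L72952 N_1))) (by decide +kernel)
theorem L3941466 : W_1 (nat_lit 14) (nat_lit 0x1800180000000000000000000000000000000) (nat_lit 0x0) (nat_lit 0xe0007c003e00c30067807bc07f803fc007000000000000000) := Q_1 (nat_lit 126) (C_1 L24834 (C_1 L773860 (C_1 L3941465 (C_1 L21089 (C_1 L2912 N_1))))) (by decide +kernel)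
theorem L3942274 : W_1 (nat_lit 2) (nat_lit 0x2000180038001800180000000000000000000000000000000) (nat_lit 0x0) (nat_lit 0x4000240000000000000000000000000000000000000000000) := D_1 (nat_lit 177) (nat_lit 194) (nat_lit 174) (nat_lit 6) (nat_lit 7) (nat_lit 11) (nat_lit 2) (nat_lit 4) (nat_lit 10) (by decide +kernel)
theorem L3942275 : W_1 (nat_lit 3) (nat_lit 0x2000100038001800180000000000000000000000000000000) (nat_lit 0x0) (nat_lit 0x40002c0040000000000000000000000000000000000000000) := T_1 (nat_lit 175) (nat_lit 162) (nat_lit 1) (nat_lit 9) (nat_lit 9) L3942274 (by decide +kernel)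
theorem L3942276 : W_1 (nat_lit 4) (nat_lit 0x100038001800180000000000000000000000000000000) (nat_lit 0x0) (nat_lit 0x400060002c0040000000000000000000000000000000000000000) := T_1 (nat_lit 193) (nat_lit 210) (nat_lit 6) (nat_lit 6) (nat_lit 12) L3942275 (by decide +kernel)
theorem L3942292 : W_1 (nat_lit 2) (nat_lit 0x4000100038001c00180000000000000000000000000000000) (nat_lit 0x0) (nat_lit 0xc0002000000000000000000000000000000000000000000000000) := D_1 (nat_lit 193) (nat_lit 210) (nat_lit 211) (nat_lit 6) (nat_lit 6) (nat_lit 12) (nat_lit 7) (nat_lit 6) (nat_lit 8) (by decide +kernel)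
theorem L3942293 : W_1 (nat_lit 3) (nat_lit 0x4000100038001800180000000000000000000000000000000) (nat_lit 0x0) (nat_lit 0xc0002000000000000600000000000000000000000000000000000) := T_1 (nat_lit 142) (nat_lit 141) (nat_lit 2) (nat_lit 5) (nat_lit 8) L3942292 (by decide +kernel)
theorem L3942294 : W_1 (nat_lit 4) (nat_lit 0x100038001800180000000000000000000000000000000) (nat_lit 0x0) (nat_lit 0xc0006000200000000600000000000000000000000000000000000) := T_1 (nat_lit 194) (nat_lit 177) (nat_lit 6) (nat_lit 7) (nat_lit 11) L3942293 (by decide +kernel)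
theorem L3959913 : W_1 (nat_lit 2) (nat_lit 0x180008001c001a0001000000000000000000000000000) (nat_lit 0x0) (nat_lit 0x10000800040000000000000000000000) := D_1 (nat_lit 107) (nat_lit 90) (nat_lit 124) (nat_lit 4) (nat_lit 6) (nat_lit 9) (nat_lit 4) (nat_lit 6) (nat_lit 10) (by decide +kernel)
theorem L3959914 : W_1 (nat_lit 3) (nat_lit 0x180008001c001a0000000000000000000000000000000) (nat_lit 0x0) (nat_lit 0x4000000010001800040000000000000000000000) := T_1 (nat_lit 108) (nat_lit 158) (nat_lit 5) (nat_lit 6) (nat_lit 6) L3959913 (by decide +kernel)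
theorem L3959915 : W_1 (nat_lit 4) (nat_lit 0x100008001c001a0000000000000000000000000000000) (nat_lit 0x0) (nat_lit 0x1000080004000000010001800040000000000000000000000) := T_1 (nat_lit 175) (nat_lit 192) (nat_lit 5) (nat_lit 6) (nat_lit 7) L3959914 (by decide +kernel)
theorem L3959993 : W_1 (nat_lit 2) (nat_lit 0x1c001a000100008000c000000000000000000) (nat_lit 0x0) (nat_lit 0x40002000100000000000000) := D_1 (nat_lit 73) (nat_lit 90) (nat_lit 56) (nat_lit 4) (nat_lit 6) (nat_lit 8) (nat_lit 4) (nat_lit 6) (nat_lit 7) (by decide +kernel)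
theorem L3959994 : W_1 (nat_lit 3) (nat_lit 0x1c001a0001000080008000000000000000000) (nat_lit 0x0) (nat_lit 0x40006000500000000000000) := T_1 (nat_lit 74) (nat_lit 58) (nat_lit 6) (nat_lit 6) (nat_lit 7) L3959993 (by decide +kernel)
theorem L3959995 : W_1 (nat_lit 4) (nat_lit 0x1c001a0001000080000000000000000000000) (nat_lit 0x0) (nat_lit 0x14000e000500000000000000) := T_1 (nat_lit 75) (nat_lit 92) (nat_lit 6) (nat_lit 6) (nat_lit 8) L3959994 (by decide +kernel)
theorem L3960001 : W_1 (nat_lit 5) (nat_lit 0x1c001a0001000100000000000000000000000) (nat_lit 0x0) (nat_lit 0x8000000000000e002c000a000000000000000000) := T_1 (nat_lit 91) (nat_lit 75) (nat_lit 6) (nat_lit 6) (nat_lit 8) L858683 (by decide +kernel)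
theorem L4208749 : W_1 (nat_lit 2) (nat_lit 0x38001a001c0002000000000000000000000000000) (nat_lit 0x0) (nat_lit 0x6000100000000000000000000000000000000000) := D_1 (nat_lit 158) (nat_lit 140) (nat_lit 157) (nat_lit 0) (nat_lit 8) (nat_lit 9) (nat_lit 2) (nat_lit 4) (nat_lit 9) (by decide +kernel)
theorem L4208750 : W_1 (nat_lit 3) (nat_lit 0x28001a001c0002000000000000000000000000000) (nat_lit 0x0) (nat_lit 0x100016000100000000000000000000000000000000000) := T_1 (nat_lit 160) (nat_lit 176) (nat_lit 5) (nat_lit 7) (nat_lit 6) L4208749 (by decide +kernel)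
theorem L4208839 : W_1 (nat_lit 4) (nat_lit 0x28001a001c0000000000000000000000000000000) (nat_lit 0x0) (nat_lit 0x100016000100000002000100000000000000000000000) := T_1 (nat_lit 109) (nat_lit 92) (nat_lit 7) (nat_lit 7) (nat_lit 5) L4208750 (by decide +kernel)
theorem L4208845 : W_1 (nat_lit 2) (nat_lit 0x28001c001c0002000000000000000000000000000) (nat_lit 0x0) (nat_lit 0x2000100010000000000000000000000000000000000000000) := D_1 (nat_lit 176) (nat_lit 193) (nat_lit 160) (nat_lit 6) (nat_lit 6) (nat_lit 11) (nat_lit 5) (nat_lit 7) (nat_lit 6) (by decide +kernel)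
theorem L4208846 : W_1 (nat_lit 3) (nat_lit 0x28001c001c0000000000000000000000000000000) (nat_lit 0x0) (nat_lit 0x2000100010000000000002000100000000000000000000000) := T_1 (nat_lit 109) (nat_lit 92) (nat_lit 7) (nat_lit 7) (nat_lit 5) L4208845 (by decide +kernel)
theorem L4208866 : W_1 (nat_lit 2) (nat_lit 0x20001f00034001a001c0000000000000000000000000000000) (nat_lit 0x0) (nat_lit 0x80042000000000000000000000000000000000000000) := D_1 (nat_lit 175) (nat_lit 162) (nat_lit 157) (nat_lit 2) (nat_lit 5) (nat_lit 10) (nat_lit 0) (nat_lit 8) (nat_lit 10) (by decide +kernel)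
theorem L4208867 : W_1 (nat_lit 3) (nat_lit 0x20001e00034001a001c0000000000000000000000000000000) (nat_lit 0x0) (nat_lit 0x2000180042000000000000000000000000000000000000000) := T_1 (nat_lit 176) (nat_lit 193) (nat_lit 5) (nat_lit 7) (nat_lit 7) L4208866 (by decide +kernel)
theorem L4208868 : W_1 (nat_lit 4) (nat_lit 0x20001e000340018001c0000000000000000000000000000000) (nat_lit 0x0) (nat_lit 0x2000180042000600000000000000000000000000000000000) := T_1 (nat_lit 141) (nat_lit 142) (nat_lit 2) (nat_lit 5) (nat_lit 8) L4208867 (by decide +kernel)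
theorem L4208869 : W_1 (nat_lit 5) (nat_lit 0x1e000340018001c0000000000000000000000000000000) (nat_lit 0x0) (nat_lit 0x62000180042000600000000000000000000000000000000000) := T_1 (nat_lit 197) (nat_lit 198) (nat_lit 3) (nat_lit 7) (nat_lit 10) L4208868 (by decide +kernel)
theorem L4208870 : W_1 (nat_lit 6) (nat_lit 0x1c000340018001c0000000000000000000000000000000) (nat_lit 0x0) (nat_lit 0x66000380042000600000000000000000000000000000000000) := T_1 (nat_lit 177) (nat_lit 194) (nat_lit 6) (nat_lit 7) (nat_lit 11) L4208869 (by decide +kernel)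
theorem L4208871 : W_1 (nat_lit 7) (nat_lit 0x1c00034001800180000000000000000000000000000000) (nat_lit 0x0) (nat_lit 0x66000380042000600040002000000000000000000000000000) := T_1 (nat_lit 126) (nat_lit 109) (nat_lit 7) (nat_lit 7) (nat_lit 6) L4208870 (by decide +kernel)
theorem L4208872 : W_1 (nat_lit 8) (nat_lit 0xc00034001800180000000000000000000000000000000) (nat_lit 0x0) (nat_lit 0x66003380042000600040002000000000000000000000000000) := T_1 (nat_lit 180) (nat_lit 181) (nat_lit 0) (nat_lit 11) (nat_lit 10) L4208871 (by decide +kernel)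
theorem L4208873 : W_1 (nat_lit 9) (nat_lit 0xc00030001800180000000000000000000000000000000) (nat_lit 0x0) (nat_lit 0x6600338004e000600040002000000000000000000000000000) := T_1 (nat_lit 158) (nat_lit 159) (nat_lit 3) (nat_lit 5) (nat_lit 9) L4208872 (by decide +kernel)
theorem L4208874 : W_1 (nat_lit 10) (nat_lit 0x400030001800180000000000000000000000000000000) (nat_lit 0x0) (nat_lit 0x76003b8004e000600040002000000000000000000000000000) := T_1 (nat_lit 179) (nat_lit 196) (nat_lit 7) (nat_lit 8) (nat_lit 7) L4208873 (by decide +kernel)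
theorem L4208875 : W_1 (nat_lit 2) (nat_lit 0xe00030001800180002000000000000000000000000000) (nat_lit 0x0) (nat_lit 0x100000c000000000000000000000000000000000000000) := D_1 (nat_lit 159) (nat_lit 158) (nat_lit 180) (nat_lit 3) (nat_lit 5) (nat_lit 9) (nat_lit 0) (nat_lit 10) (nat_lit 10) (by decide +kernel)
theorem L4208876 : W_1 (nat_lit 3) (nat_lit 0x600030001800180002000000000000000000000000000) (nat_lit 0x0) (nat_lit 0x1000180000c000000000000000000000000000000000000000) := T_1 (nat_lit 179) (nat_lit 196) (nat_lit 7) (nat_lit 8) (nat_lit 7) L4208875 (by decide +kernel)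
theorem L4208877 : W_1 (nat_lit 4) (nat_lit 0x600030001800180000000000000000000000000000000) (nat_lit 0x0) (nat_lit 0x1000180000c000000040002000000000000000000000000000) := T_1 (nat_lit 109) (nat_lit 126) (nat_lit 7) (nat_lit 7) (nat_lit 6) L4208876 (by decide +kernel)
theorem L4208878 : W_1 (nat_lit 5) (nat_lit 0x400030001800180000000000000000000000000000000) (nat_lit 0x0) (nat_lit 0x14001a0000c000000040002000000000000000000000000000) := T_1 (nat_lit 177) (nat_lit 194) (nat_lit 6) (nat_lit 7) (nat_lit 11) L4208877 (by decide +kernel)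
theorem L4208879 : W_1 (nat_lit 2) (nat_lit 0xe00030001a00180000000000000000000000000000000) (nat_lit 0x0) (nat_lit 0x100000c000000000000000000000000000000000000000) := D_1 (nat_lit 159) (nat_lit 158) (nat_lit 180) (nat_lit 3) (nat_lit 5) (nat_lit 9) (nat_lit 0) (nat_lit 10) (nat_lit 10) (by decide +kernel)
theorem L4208880 : W_1 (nat_lit 3) (nat_lit 0x600030001a00180000000000000000000000000000000) (nat_lit 0x0) (nat_lit 0x1000180000c000000000000000000000000000000000000000) := T_1 (nat_lit 179) (nat_lit 196) (nat_lit 7) (nat_lit 8) (nat_lit 7) L4208879 (by decide +kernel)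
theorem L4208881 : W_1 (nat_lit 4) (nat_lit 0x400030001a00180000000000000000000000000000000) (nat_lit 0x0) (nat_lit 0x14001a0000c000000000000000000000000000000000000000) := T_1 (nat_lit 177) (nat_lit 194) (nat_lit 6) (nat_lit 7) (nat_lit 11) L4208880 (by decide +kernel)
theorem L4208882 : W_1 (nat_lit 5) (nat_lit 0x400030001800180000000000000000000000000000000) (nat_lit 0x0) (nat_lit 0x14001a0000c000600000000000000000000000000000000000) := T_1 (nat_lit 141) (nat_lit 142) (nat_lit 2) (nat_lit 5) (nat_lit 8) L4208881 (by decide +kernel)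
theorem L4208883 : W_1 (nat_lit 2) (nat_lit 0xc00038001800180000000000000000000000000000000) (nat_lit 0x0) (nat_lit 0x3000040000000000000000000000000000000000000000) := D_1 (nat_lit 180) (nat_lit 181) (nat_lit 162) (nat_lit 0) (nat_lit 11) (nat_lit 10) (nat_lit 3) (nat_lit 6) (nat_lit 9) (by decide +kernel)
theorem L4208884 : W_1 (nat_lit 3) (nat_lit 0xc00030001800180000000000000000000000000000000) (nat_lit 0x0) (nat_lit 0x300004c000000000000000000000000000000000000000) := T_1 (nat_lit 159) (nat_lit 158) (nat_lit 3) (nat_lit 5) (nat_lit 9) L4208883 (by decide +kernel)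
theorem L4208885 : W_1 (nat_lit 4) (nat_lit 0x400030001800180000000000000000000000000000000) (nat_lit 0x0) (nat_lit 0x1000380004c000000000000000000000000000000000000000) := T_1 (nat_lit 179) (nat_lit 196) (nat_lit 7) (nat_lit 8) (nat_lit 7) L4208884 (by decide +kernel)
theorem L4208886 : W_1 (nat_lit 2) (nat_lit 0x20001f00030001a001c0000000000000000000000000000000) (nat_lit 0x0) (nat_lit 0x80040002000000000000000000000000000000000000) := D_1 (nat_lit 162) (nat_lit 175) (nat_lit 145) (nat_lit 2) (nat_lit 5) (nat_lit 10) (nat_lit 7) (nat_lit 9) (nat_lit 7) (by decide +kernel)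
theorem L4208887 : W_1 (nat_lit 3) (nat_lit 0x20001e00030001a001c0000000000000000000000000000000) (nat_lit 0x0) (nat_lit 0x2000180040002000000000000000000000000000000000000) := T_1 (nat_lit 176) (nat_lit 193) (nat_lit 5) (nat_lit 7) (nat_lit 7) L4208886 (by decide +kernel)
theorem L4208888 : W_1 (nat_lit 4) (nat_lit 0x1e00030001a001c0000000000000000000000000000000) (nat_lit 0x0) (nat_lit 0x62000180040002000000000000000000000000000000000000) := T_1 (nat_lit 197) (nat_lit 198) (nat_lit 3) (nat_lit 7) (nat_lit 10) L4208887 (by decide +kernel)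
theorem L4208889 : W_1 (nat_lit 5) (nat_lit 0x1e000300018001c0000000000000000000000000000000) (nat_lit 0x0) (nat_lit 0x62000180040002600000000000000000000000000000000000) := T_1 (nat_lit 141) (nat_lit 142) (nat_lit 2) (nat_lit 5) (nat_lit 8) L4208888 (by decide +kernel)
theorem L4208890 : W_1 (nat_lit 6) (nat_lit 0xe000300018001c0000000000000000000000000000000) (nat_lit 0x0) (nat_lit 0x62003180040002600000000000000000000000000000000000) := T_1 (nat_lit 180) (nat_lit 181) (nat_lit 0) (nat_lit 11) (nat_lit 10) L4208889 (by decide +kernel)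
theorem L4208891 : W_1 (nat_lit 7) (nat_lit 0x6000300018001c0000000000000000000000000000000) (nat_lit 0x0) (nat_lit 0x72003980040002600000000000000000000000000000000000) := T_1 (nat_lit 179) (nat_lit 196) (nat_lit 7) (nat_lit 8) (nat_lit 7) L4208890 (by decide +kernel)
theorem L4208892 : W_1 (nat_lit 8) (nat_lit 0x4000300018001c0000000000000000000000000000000) (nat_lit 0x0) (nat_lit 0x76003b80040002600000000000000000000000000000000000) := T_1 (nat_lit 177) (nat_lit 194) (nat_lit 6) (nat_lit 7) (nat_lit 11) L4208891 (by decide +kernel)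
theorem L4208893 : W_1 (nat_lit 9) (nat_lit 0x400030001800180000000000000000000000000000000) (nat_lit 0x0) (nat_lit 0x76003b80040002600040002000000000000000000000000000) := T_1 (nat_lit 126) (nat_lit 109) (nat_lit 7) (nat_lit 7) (nat_lit 6) L4208892 (by decide +kernel)
theorem L4208894 : W_1 (nat_lit 3) (nat_lit 0x600030001a001c0000000000000000000000000000000) (nat_lit 0x0) (nat_lit 0x20001c0040000000000000000000000000000000000000000) := T_1 (nat_lit 176) (nat_lit 193) (nat_lit 5) (nat_lit 7) (nat_lit 7) L297341 (by decide +kernel)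
theorem L4208895 : W_1 (nat_lit 4) (nat_lit 0x400030001a001c0000000000000000000000000000000) (nat_lit 0x0) (nat_lit 0x60003c0040000000000000000000000000000000000000000) := T_1 (nat_lit 177) (nat_lit 194) (nat_lit 6) (nat_lit 7) (nat_lit 11) L4208894 (by decide +kernel)
theorem L4208896 : W_1 (nat_lit 5) (nat_lit 0x400030001a00180000000000000000000000000000000) (nat_lit 0x0) (nat_lit 0x60003c0040000000040002000000000000000000000000000) := T_1 (nat_lit 126) (nat_lit 109) (nat_lit 7) (nat_lit 7) (nat_lit 6) L4208895 (by decide +kernel)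
theorem L4208897 : W_1 (nat_lit 6) (nat_lit 0x400030001800180000000000000000000000000000000) (nat_lit 0x0) (nat_lit 0x60003c0040000600040002000000000000000000000000000) := T_1 (nat_lit 141) (nat_lit 142) (nat_lit 2) (nat_lit 5) (nat_lit 8) L4208896 (by decide +kernel)
theorem L4208898 : W_1 (nat_lit 11) (nat_lit 0x400020001800180000000000000000000000000000000) (nat_lit 0x0) (nat_lit 0x76003bc005e002600040002000000000000000000000000000) := Q_1 (nat_lit 160) (C_1 L4208874 (C_1 L4208878 (C_1 L4208882 (C_1 L4208885 (C_1 L4208893 (C_1 L4208897 N_1)))))) (by decide +kernel)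
theorem L4209825 : W_1 (nat_lit 3) (nat_lit 0x50000c001c00180000000000000000000000000000000) (nat_lit 0x0) (nat_lit 0xa80003000000000000000000000000000000000000000) := T_1 (nat_lit 177) (nat_lit 179) (nat_lit 0) (nat_lit 9) (nat_lit 10) L292905 (by decide +kernel)
theorem L4209826 : W_1 (nat_lit 4) (nat_lit 0x500008001c00180000000000000000000000000000000) (nat_lit 0x0) (nat_lit 0xa80007002000000000000000000000000000000000000) := T_1 (nat_lit 158) (nat_lit 145) (nat_lit 1) (nat_lit 9) (nat_lit 8) L4209825 (by decide +kernel)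
theorem L4209827 : W_1 (nat_lit 7) (nat_lit 0x500008001c00180000000000000000000000000000000) (nat_lit 0x0) (nat_lit 0xa001f0008c0004002000040000000000000000000000000000000) := T_1 (nat_lit 145) (nat_lit 158) (nat_lit 1) (nat_lit 9) (nat_lit 8) L346089 (by decide +kernel)
theorem L4209828 : W_1 (nat_lit 2) (nat_lit 0x8007c00500008003c00180000000000000000000000000000000) (nat_lit 0x0) (nat_lit 0x70000000000000000000000000000000000000000000) := D_1 (nat_lit 173) (nat_lit 172) (nat_lit 174) (nat_lit 0) (nat_lit 6) (nat_lit 11) (nat_lit 0) (nat_lit 7) (nat_lit 11) (by decide +kernel)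
theorem L4209829 : W_1 (nat_lit 3) (nat_lit 0x8007800500008003c00180000000000000000000000000000000) (nat_lit 0x0) (nat_lit 0x4000400070000000000000000000000000000000000000000000) := T_1 (nat_lit 190) (nat_lit 206) (nat_lit 1) (nat_lit 6) (nat_lit 11) L4209828 (by decide +kernel)
theorem L4209830 : W_1 (nat_lit 4) (nat_lit 0x7800500008003c00180000000000000000000000000000000) (nat_lit 0x0) (nat_lit 0x1c000400070000000000000000000000000000000000000000000) := T_1 (nat_lit 207) (nat_lit 208) (nat_lit 1) (nat_lit 7) (nat_lit 11) L4209829 (by decide +kernel)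
theorem L4209831 : W_1 (nat_lit 5) (nat_lit 0x7000500008003c00180000000000000000000000000000000) (nat_lit 0x0) (nat_lit 0x1c000c00270000000000000000000000000000000000000000000) := T_1 (nat_lit 191) (nat_lit 177) (nat_lit 2) (nat_lit 4) (nat_lit 11) L4209830 (by decide +kernel)
theorem L4209832 : W_1 (nat_lit 6) (nat_lit 0x6000500008003c00180000000000000000000000000000000) (nat_lit 0x0) (nat_lit 0x3c001c00270000000000000000000000000000000000000000000) := T_1 (nat_lit 192) (nat_lit 209) (nat_lit 5) (nat_lit 6) (nat_lit 8) L4209831 (by decide +kernel)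
theorem L4209833 : W_1 (nat_lit 7) (nat_lit 0x2000500008003c00180000000000000000000000000000000) (nat_lit 0x0) (nat_lit 0xbc005c00270000000000000000000000000000000000000000000) := T_1 (nat_lit 194) (nat_lit 211) (nat_lit 7) (nat_lit 6) (nat_lit 8) L4209832 (by decide +kernel)
theorem L4209834 : W_1 (nat_lit 8) (nat_lit 0x2000500008001c00180000000000000000000000000000000) (nat_lit 0x0) (nat_lit 0xbc005c00270004002000000000000000000000000000000000000) := T_1 (nat_lit 145) (nat_lit 158) (nat_lit 1) (nat_lit 9) (nat_lit 8) L4209833 (by decide +kernel)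
theorem L4209835 : W_1 (nat_lit 9) (nat_lit 0x500008001c00180000000000000000000000000000000) (nat_lit 0x0) (nat_lit 0xbc007c00270004002000040000000000000000000000000000000) := T_1 (nat_lit 193) (nat_lit 126) (nat_lit 6) (nat_lit 6) (nat_lit 11) L4209834 (by decide +kernel)
theorem L4209836 : W_1 (nat_lit 10) (nat_lit 0x400008001c00180000000000000000000000000000000) (nat_lit 0x0) (nat_lit 0xbc01fc00bf0007002000040000000000000000000000000000000) := Q_1 (nat_lit 176) (C_1 L313068 (C_1 L4209826 (C_1 L4209827 (C_1 L4209835 N_1)))) (by decide +kernel)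
theorem L4212028 : W_1 (nat_lit 2) (nat_lit 0x2000100038003800180000000000000000000000000000000) (nat_lit 0x0) (nat_lit 0x200000000000040002000000000000000000000000000) := D_1 (nat_lit 126) (nat_lit 177) (nat_lit 109) (nat_lit 5) (nat_lit 7) (nat_lit 7) (nat_lit 5) (nat_lit 7) (nat_lit 6) (by decide +kernel)
theorem L4212029 : W_1 (nat_lit 3) (nat_lit 0x100038003800180000000000000000000000000000000) (nat_lit 0x0) (nat_lit 0x40002000200000000000040002000000000000000000000000000) := T_1 (nat_lit 193) (nat_lit 210) (nat_lit 6) (nat_lit 6) (nat_lit 12) L4212028 (by decide +kernel)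
theorem L4212030 : W_1 (nat_lit 4) (nat_lit 0x100038001800180000000000000000000000000000000) (nat_lit 0x0) (nat_lit 0x40002000200000006000040002000000000000000000000000000) := T_1 (nat_lit 145) (nat_lit 146) (nat_lit 1) (nat_lit 10) (nat_lit 8) L4212029 (by decide +kernel)
theorem L4212031 : W_1 (nat_lit 2) (nat_lit 0x2000100078003800180002000400000000000000000000000) (nat_lit 0x0) (nat_lit 0x10001800000000000000000000000000000000000000000000) := D_1 (nat_lit 179) (nat_lit 180) (nat_lit 196) (nat_lit 3) (nat_lit 6) (nat_lit 9) (nat_lit 4) (nat_lit 9) (nat_lit 11) (by decide +kernel)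
theorem L4212032 : W_1 (nat_lit 3) (nat_lit 0x2000100038003800180002000400000000000000000000000) (nat_lit 0x0) (nat_lit 0x10001880040000000000000000000000000000000000000000) := T_1 (nat_lit 162) (nat_lit 175) (nat_lit 1) (nat_lit 9) (nat_lit 9) L4212031 (by decide +kernel)
theorem L4212033 : W_1 (nat_lit 4) (nat_lit 0x2000100038003800180000000400000000000000000000000) (nat_lit 0x0) (nat_lit 0x10001880040000000040002000000000000000000000000000) := T_1 (nat_lit 109) (nat_lit 126) (nat_lit 5) (nat_lit 7) (nat_lit 6) L4212032 (by decide +kernel)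
theorem L4212034 : W_1 (nat_lit 5) (nat_lit 0x2000100038003800180000000000000000000000000000000) (nat_lit 0x0) (nat_lit 0x1000188004000000004000a000400000000000000000000000) := T_1 (nat_lit 94) (nat_lit 111) (nat_lit 5) (nat_lit 9) (nat_lit 5) L4212033 (by decide +kernel)
theorem L4212035 : W_1 (nat_lit 6) (nat_lit 0x100038003800180000000000000000000000000000000) (nat_lit 0x0) (nat_lit 0x4001200188004000000004000a000400000000000000000000000) := T_1 (nat_lit 193) (nat_lit 210) (nat_lit 6) (nat_lit 6) (nat_lit 12) L4212034 (by decide +kernel)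
theorem L4212036 : W_1 (nat_lit 7) (nat_lit 0x100038001800180000000000000000000000000000000) (nat_lit 0x0) (nat_lit 0x4001200188004000600004000a000400000000000000000000000) := T_1 (nat_lit 145) (nat_lit 146) (nat_lit 1) (nat_lit 10) (nat_lit 8) L4212035 (by decide +kernel)
theorem L4212037 : W_1 (nat_lit 2) (nat_lit 0xb00078001800180000000000000000000000000000000) (nat_lit 0x0) (nat_lit 0x10000000000006000000000000000000000000000000000000) := D_1 (nat_lit 145) (nat_lit 146) (nat_lit 196) (nat_lit 2) (nat_lit 6) (nat_lit 9) (nat_lit 4) (nat_lit 9) (nat_lit 11) (by decide +kernel)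
theorem L4212038 : W_1 (nat_lit 3) (nat_lit 0x300078001800180000000000000000000000000000000) (nat_lit 0x0) (nat_lit 0x10001800000006000000000000000000000000000000000000) := T_1 (nat_lit 179) (nat_lit 180) (nat_lit 3) (nat_lit 6) (nat_lit 9) L4212037 (by decide +kernel)
theorem L4212039 : W_1 (nat_lit 4) (nat_lit 0x100078001800180000000000000000000000000000000) (nat_lit 0x0) (nat_lit 0x14001a00000006000000000000000000000000000000000000) := T_1 (nat_lit 177) (nat_lit 194) (nat_lit 6) (nat_lit 7) (nat_lit 11) L4212038 (by decide +kernel)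
theorem L4212040 : W_1 (nat_lit 5) (nat_lit 0x100038001800180000000000000000000000000000000) (nat_lit 0x0) (nat_lit 0x14001a80040006000000000000000000000000000000000000) := T_1 (nat_lit 162) (nat_lit 175) (nat_lit 1) (nat_lit 9) (nat_lit 9) L4212039 (by decide +kernel)
theorem L4212041 : W_1 (nat_lit 8) (nat_lit 0x38001800180000000000000000000000000000000) (nat_lit 0x0) (nat_lit 0x40016001bc004000600004000a000400000000000000000000000) := Q_1 (nat_lit 176) (C_1 L3942276 (C_1 L4212030 (C_1 L4212036 (C_1 L4212040 N_1)))) (by decide +kernel)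
theorem L4212148 : W_1 (nat_lit 2) (nat_lit 0x380018001c0000000000000000000000000000000) (nat_lit 0x0) (nat_lit 0x100000000000000002000100000000000000000000000) := D_1 (nat_lit 109) (nat_lit 92) (nat_lit 176) (nat_lit 7) (nat_lit 7) (nat_lit 5) (nat_lit 5) (nat_lit 7) (nat_lit 6) (by decide +kernel)
theorem L4222955 : W_1 (nat_lit 2) (nat_lit 0x38003c00180000000000000000000000000000000) (nat_lit 0x0) (nat_lit 0x400000000000000008000400000000000000000000000) := D_1 (nat_lit 111) (nat_lit 178) (nat_lit 94) (nat_lit 6) (nat_lit 8) (nat_lit 10) (nat_lit 5) (nat_lit 9) (nat_lit 5) (by decide +kernel)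
theorem L4228154 : W_1 (nat_lit 2) (nat_lit 0x1c001c0003000380000000000000000000000) (nat_lit 0x0) (nat_lit 0xc00400000000000000000000000) := D_1 (nat_lit 107) (nat_lit 106) (nat_lit 94) (nat_lit 3) (nat_lit 4) (nat_lit 6) (nat_lit 1) (nat_lit 9) (nat_lit 5) (by decide +kernel)
theorem L4228155 : W_1 (nat_lit 3) (nat_lit 0x1c001c0002000380000000000000000000000) (nat_lit 0x0) (nat_lit 0x10000000000001c00400000000000000000000000) := T_1 (nat_lit 108) (nat_lit 160) (nat_lit 4) (nat_lit 7) (nat_lit 9) L4228154 (by decide +kernel)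
theorem L4228156 : W_1 (nat_lit 4) (nat_lit 0x1c001c0002000300000000000000000000000) (nat_lit 0x0) (nat_lit 0x10000000000001c00480004000000000000000000) := T_1 (nat_lit 91) (nat_lit 74) (nat_lit 4) (nat_lit 7) (nat_lit 8) L4228155 (by decide +kernel)
theorem L4228157 : W_1 (nat_lit 5) (nat_lit 0x1c001c0002000100000000000000000000000) (nat_lit 0x0) (nat_lit 0x10000000000001c00680014000000000000000000) := T_1 (nat_lit 93) (nat_lit 76) (nat_lit 6) (nat_lit 7) (nat_lit 8) L4228156 (by decide +kernel)
theorem L4228158 : W_1 (nat_lit 6) (nat_lit 0x1c001c0002000000000000000000000000000) (nat_lit 0x0) (nat_lit 0x10000000000001c0078001c000000000000000000) := T_1 (nat_lit 92) (nat_lit 75) (nat_lit 7) (nat_lit 7) (nat_lit 4) L4228157 (by decide +kernel)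
theorem L4228759 : W_1 (nat_lit 2) (nat_lit 0x400010001c001c0002000000000000000000000000000) (nat_lit 0x0) (nat_lit 0xc000200000000000000000000000000000000000000000000) := D_1 (nat_lit 177) (nat_lit 194) (nat_lit 195) (nat_lit 6) (nat_lit 7) (nat_lit 11) (nat_lit 7) (nat_lit 7) (nat_lit 7) (by decide +kernel)
theorem L4228760 : W_1 (nat_lit 3) (nat_lit 0x10001c001c0002000000000000000000000000000) (nat_lit 0x0) (nat_lit 0xc000600020000000000000000000000000000000000000000) := T_1 (nat_lit 178) (nat_lit 161) (nat_lit 7) (nat_lit 7) (nat_lit 6) L4228759 (by decide +kernel)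
theorem L4229879 : W_1 (nat_lit 5) (nat_lit 0xe00004003c00080000000000000000000000000000000) (nat_lit 0x0) (nat_lit 0x33800180042000000000000000000000000000000000000000) := T_1 (nat_lit 196) (nat_lit 162) (nat_lit 4) (nat_lit 9) (nat_lit 11) L474206 (by decide +kernel)
theorem L4229880 : W_1 (nat_lit 6) (nat_lit 0xe00000003c00080000000000000000000000000000000) (nat_lit 0x0) (nat_lit 0x3380018004e000000000000000000000000000000000000000) := T_1 (nat_lit 158) (nat_lit 159) (nat_lit 1) (nat_lit 9) (nat_lit 8) L4229879 (by decide +kernel)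
theorem L4229881 : W_1 (nat_lit 2) (nat_lit 0xe00040003c00080000000000000000000000000000000) (nat_lit 0x0) (nat_lit 0x8000000000000000300000000000000000000000000000000) := D_1 (nat_lit 128) (nat_lit 129) (nat_lit 195) (nat_lit 2) (nat_lit 6) (nat_lit 8) (nat_lit 5) (nat_lit 9) (nat_lit 7) (by decide +kernel)
theorem L4229882 : W_1 (nat_lit 3) (nat_lit 0xe00000003c00080000000000000000000000000000000) (nat_lit 0x0) (nat_lit 0x18000000040000000300000000000000000000000000000000) := T_1 (nat_lit 162) (nat_lit 196) (nat_lit 4) (nat_lit 9) (nat_lit 11) L4229881 (by decide +kernel)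
theorem L4231301 : W_1 (nat_lit 2) (nat_lit 0x500008003c00180000000000000000000000000000000) (nat_lit 0x0) (nat_lit 0x8000000020000000000008000000000000000000000000000) := D_1 (nat_lit 161) (nat_lit 111) (nat_lit 195) (nat_lit 6) (nat_lit 8) (nat_lit 10) (nat_lit 6) (nat_lit 8) (nat_lit 11) (by decide +kernel)
theorem L4231302 : W_1 (nat_lit 3) (nat_lit 0x500008003c00080000000000000000000000000000000) (nat_lit 0x0) (nat_lit 0x8000000020000000300008000000000000000000000000000) := T_1 (nat_lit 128) (nat_lit 129) (nat_lit 2) (nat_lit 6) (nat_lit 8) L4231301 (by decide +kernel)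
theorem L4231690 : W_1 (nat_lit 2) (nat_lit 0x7000180018001c00080000000000000000000000000000000) (nat_lit 0x0) (nat_lit 0x8000060000000000000000000000000000000000000000000) := D_1 (nat_lit 174) (nat_lit 173) (nat_lit 195) (nat_lit 3) (nat_lit 3) (nat_lit 10) (nat_lit 0) (nat_lit 8) (nat_lit 11) (by decide +kernel)
theorem L4231691 : W_1 (nat_lit 3) (nat_lit 0x3000180018001c00080000000000000000000000000000000) (nat_lit 0x0) (nat_lit 0x8000c000060000000000000000000000000000000000000000000) := T_1 (nat_lit 194) (nat_lit 211) (nat_lit 7) (nat_lit 6) (nat_lit 8) L4231690 (by decide +kernel)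
theorem L4232024 : W_1 (nat_lit 2) (nat_lit 0x700028001c00180000000000000000000000000000000) (nat_lit 0x0) (nat_lit 0x10000800004000000000000000000000000000000000000000) := D_1 (nat_lit 179) (nat_lit 196) (nat_lit 158) (nat_lit 7) (nat_lit 8) (nat_lit 7) (nat_lit 0) (nat_lit 9) (nat_lit 10) (by decide +kernel)
theorem L4232025 : W_1 (nat_lit 3) (nat_lit 0x500028001c00180000000000000000000000000000000) (nat_lit 0x0) (nat_lit 0x14000a00004000000000000000000000000000000000000000) := T_1 (nat_lit 177) (nat_lit 194) (nat_lit 5) (nat_lit 8) (nat_lit 7) L4232024 (by decide +kernel)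
theorem L4232026 : W_1 (nat_lit 4) (nat_lit 0x500008001c00180000000000000000000000000000000) (nat_lit 0x0) (nat_lit 0x14000a00024000000000008000000000000000000000000000) := T_1 (nat_lit 161) (nat_lit 111) (nat_lit 6) (nat_lit 8) (nat_lit 10) L4232025 (by decide +kernel)
theorem L4232043 : W_1 (nat_lit 3) (nat_lit 0x700008001c00080000000000000000000000000000000) (nat_lit 0x0) (nat_lit 0x880007000000000000000000000000000000000000000) := T_1 (nat_lit 158) (nat_lit 179) (nat_lit 0) (nat_lit 9) (nat_lit 10) L295193 (by decide +kernel)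
theorem L4232302 : W_1 (nat_lit 2) (nat_lit 0x78003c00080000000000000000000000000000000) (nat_lit 0x0) (nat_lit 0x10001800000000000000000000000000000000000000000000) := D_1 (nat_lit 179) (nat_lit 180) (nat_lit 196) (nat_lit 3) (nat_lit 6) (nat_lit 9) (nat_lit 4) (nat_lit 9) (nat_lit 11) (by decide +kernel)
theorem L4232303 : W_1 (nat_lit 3) (nat_lit 0x78001c00080000000000000000000000000000000) (nat_lit 0x0) (nat_lit 0x10001800000006000000000000000000000000000000000000) := T_1 (nat_lit 145) (nat_lit 146) (nat_lit 2) (nat_lit 6) (nat_lit 9) L4232302 (by decide +kernel)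
theorem L4232352 : W_1 (nat_lit 2) (nat_lit 0x8001800040003000100008001c00080000000000000000000000000000000) (nat_lit 0x0) (nat_lit 0x100010000000000000000080000000000000000000000000000000000000000000) := D_1 (nat_lit 244) (nat_lit 175) (nat_lit 260) (nat_lit 4) (nat_lit 6) (nat_lit 14) (nat_lit 5) (nat_lit 6) (nat_lit 11) (by decide +kernel)
theorem L4232353 : W_1 (nat_lit 3) (nat_lit 0x1800040003000100008001c00080000000000000000000000000000000) (nat_lit 0x0) (nat_lit 0x100018000400000000000080000000000000000000000000000000000000000000) := T_1 (nat_lit 243) (nat_lit 226) (nat_lit 5) (nat_lit 6) (nat_lit 10) L4232352 (by decide +kernel)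
theorem L4232354 : W_1 (nat_lit 4) (nat_lit 0x1000040003000100008001c00080000000000000000000000000000000) (nat_lit 0x0) (nat_lit 0x100038000c00000000000080000000000000000000000000000000000000000000) := T_1 (nat_lit 227) (nat_lit 245) (nat_lit 7) (nat_lit 6) (nat_lit 10) L4232353 (by decide +kernel)
theorem L4232355 : W_1 (nat_lit 5) (nat_lit 0x40003000100008001c00080000000000000000000000000000000) (nat_lit 0x0) (nat_lit 0x100038001c00080000000080000000000000000000000000000000000000000000) := T_1 (nat_lit 228) (nat_lit 211) (nat_lit 7) (nat_lit 6) (nat_lit 9) L4232354 (by decide +kernel)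
theorem L4232356 : W_1 (nat_lit 6) (nat_lit 0x3000100008001c00080000000000000000000000000000000) (nat_lit 0x0) (nat_lit 0x100038001c000c0000000080010000000000000000000000000000000000000000) := T_1 (nat_lit 210) (nat_lit 160) (nat_lit 6) (nat_lit 6) (nat_lit 12) L4232355 (by decide +kernel)
theorem L4232357 : W_1 (nat_lit 7) (nat_lit 0x2000100008001c00080000000000000000000000000000000) (nat_lit 0x0) (nat_lit 0x100038001c000e0001000080010000000000000000000000000000000000000000) := T_1 (nat_lit 192) (nat_lit 209) (nat_lit 5) (nat_lit 6) (nat_lit 8) L4232356 (by decide +kernel)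
theorem L4232358 : W_1 (nat_lit 8) (nat_lit 0x100008001c00080000000000000000000000000000000) (nat_lit 0x0) (nat_lit 0x100038001c000e0007c00e80030000000000000000000000000000000000000000) := Q_1 (nat_lit 193) (C_1 L775015 (C_1 L25592 (C_1 L4232357 (C_1 L294666 (C_1 L294672 N_1))))) (by decide +kernel)
theorem L4232890 : W_1 (nat_lit 4) (nat_lit 0x100038001c00080000000000000000000000000000000) (nat_lit 0x0) (nat_lit 0x10001880040006000000000000000000000000000000000000) := T_1 (nat_lit 162) (nat_lit 175) (nat_lit 1) (nat_lit 9) (nat_lit 9) L313455 (by decide +kernel)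
theorem L4232937 : W_1 (nat_lit 4) (nat_lit 0x4000000078001c00080000000000000000000000000000000) (nat_lit 0x0) (nat_lit 0xc0002000180000006000000000000000000000000000000000000) := T_1 (nat_lit 145) (nat_lit 146) (nat_lit 2) (nat_lit 6) (nat_lit 9) L295779 (by decide +kernel)
theorem L4232938 : W_1 (nat_lit 5) (nat_lit 0x78001c00080000000000000000000000000000000) (nat_lit 0x0) (nat_lit 0xc0006000380000006000000000000000000000000000000000000) := T_1 (nat_lit 194) (nat_lit 177) (nat_lit 6) (nat_lit 7) (nat_lit 11) L4232937 (by decide +kernel)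
theorem L4233206 : W_1 (nat_lit 2) (nat_lit 0x3000700008001c00080000000000000000000000000000000) (nat_lit 0x0) (nat_lit 0xc00080000000000000000000000000000000000000000000) := D_1 (nat_lit 191) (nat_lit 175) (nat_lit 190) (nat_lit 1) (nat_lit 8) (nat_lit 10) (nat_lit 2) (nat_lit 3) (nat_lit 11) (by decide +kernel)
theorem L4233207 : W_1 (nat_lit 3) (nat_lit 0x3000500008001c00080000000000000000000000000000000) (nat_lit 0x0) (nat_lit 0xc00a80000000000000000000000000000000000000000000) := T_1 (nat_lit 177) (nat_lit 179) (nat_lit 1) (nat_lit 9) (nat_lit 10) L4233206 (by decide +kernel)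
theorem L4233208 : W_1 (nat_lit 4) (nat_lit 0x2000500008001c00080000000000000000000000000000000) (nat_lit 0x0) (nat_lit 0x20001c00a80000000000000000000000000000000000000000000) := T_1 (nat_lit 192) (nat_lit 209) (nat_lit 5) (nat_lit 6) (nat_lit 8) L4233207 (by decide +kernel)
theorem L4233213 : W_1 (nat_lit 2) (nat_lit 0x2000700008001c00080000000000000000000000000000000) (nat_lit 0x0) (nat_lit 0x20001000800000000000000000000000000000000000000000000) := D_1 (nat_lit 192) (nat_lit 209) (nat_lit 179) (nat_lit 5) (nat_lit 6) (nat_lit 8) (nat_lit 1) (nat_lit 9) (nat_lit 10) (by decide +kernel)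
theorem L4233214 : W_1 (nat_lit 3) (nat_lit 0x700008001c00080000000000000000000000000000000) (nat_lit 0x0) (nat_lit 0x20003000800000000000040000000000000000000000000000000) := T_1 (nat_lit 193) (nat_lit 126) (nat_lit 6) (nat_lit 6) (nat_lit 11) L4233213 (by decide +kernel)
theorem L4236279 : W_1 (nat_lit 9) (nat_lit 0x400000001c00080000000000000000000000000000000) (nat_lit 0x0) (nat_lit 0x28001e003bc007c000000040002000000000000000000000000000) := Q_1 (nat_lit 161) (C_1 L365779 (C_1 L295152 (C_1 L67987 N_1))) (by decide +kernel)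
theorem L4236288 : W_1 (nat_lit 3) (nat_lit 0x2000700008001c00080000000000000000000000000000000) (nat_lit 0x0) (nat_lit 0x20001c00080000000000000000000000000000000000000000000) := T_1 (nat_lit 192) (nat_lit 209) (nat_lit 5) (nat_lit 6) (nat_lit 8) L4233206 (by decide +kernel)
theorem L4236289 : W_1 (nat_lit 4) (nat_lit 0x700008001c00080000000000000000000000000000000) (nat_lit 0x0) (nat_lit 0x20003c00080000000000040000000000000000000000000000000) := T_1 (nat_lit 193) (nat_lit 126) (nat_lit 6) (nat_lit 6) (nat_lit 11) L4236288 (by decide +kernel)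
theorem L4236419 : W_1 (nat_lit 2) (nat_lit 0x600000007c00480000000000000000000000000000000) (nat_lit 0x0) (nat_lit 0x8000840000000000000000000000000000000) := D_1 (nat_lit 147) (nat_lit 126) (nat_lit 131) (nat_lit 0) (nat_lit 11) (nat_lit 8) (nat_lit 2) (nat_lit 8) (nat_lit 8) (by decide +kernel)
theorem L4236421 : W_1 (nat_lit 5) (nat_lit 0x700000001c00080000000000000000000000000000000) (nat_lit 0x0) (nat_lit 0x20003c0088000f000000040000000000000000000000000000000) := Q_1 (nat_lit 159) (C_1 L4232043 (C_1 L4236289 (C_1 L4233214 N_1))) (by decide +kernel)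
theorem L4236422 : W_1 (nat_lit 2) (nat_lit 0x11000780003001c00080000000000000000000000000000000) (nat_lit 0x0) (nat_lit 0x22000800000000000000000000000000000000000000000000) := D_1 (nat_lit 179) (nat_lit 197) (nat_lit 193) (nat_lit 3) (nat_lit 6) (nat_lit 10) (nat_lit 1) (nat_lit 9) (nat_lit 10) (by decide +kernel)
theorem L4236423 : W_1 (nat_lit 3) (nat_lit 0x10000780003001c00080000000000000000000000000000000) (nat_lit 0x0) (nat_lit 0x23800800000000000000000000000000000000000000000000) := T_1 (nat_lit 192) (nat_lit 191) (nat_lit 1) (nat_lit 8) (nat_lit 10) L4236422 (by decide +kernel)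
theorem L4236424 : W_1 (nat_lit 4) (nat_lit 0x780003001c00080000000000000000000000000000000) (nat_lit 0x0) (nat_lit 0x3b800800000000000000000000000000000000000000000000) := T_1 (nat_lit 196) (nat_lit 195) (nat_lit 3) (nat_lit 5) (nat_lit 10) L4236423 (by decide +kernel)
theorem L4236425 : W_1 (nat_lit 5) (nat_lit 0x780002001c00080000000000000000000000000000000) (nat_lit 0x0) (nat_lit 0x3b800840001000000000000000000000000000000000000000) := T_1 (nat_lit 156) (nat_lit 174) (nat_lit 0) (nat_lit 7) (nat_lit 10) L4236424 (by decide +kernel)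
theorem L4236426 : W_1 (nat_lit 6) (nat_lit 0x780000001c00080000000000000000000000000000000) (nat_lit 0x0) (nat_lit 0x3b800840007000000000000000000000000000000000000000) := T_1 (nat_lit 157) (nat_lit 158) (nat_lit 0) (nat_lit 8) (nat_lit 10) L4236425 (by decide +kernel)
theorem L4236427 : W_1 (nat_lit 2) (nat_lit 0x80007c0000001c00080000000000000000000000000000000) (nat_lit 0x0) (nat_lit 0x1c00000000000000000000000000000000000000000000000) := D_1 (nat_lit 191) (nat_lit 190) (nat_lit 192) (nat_lit 1) (nat_lit 7) (nat_lit 10) (nat_lit 1) (nat_lit 8) (nat_lit 10) (by decide +kernel)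
theorem L4236428 : W_1 (nat_lit 3) (nat_lit 0x8000780000001c00080000000000000000000000000000000) (nat_lit 0x0) (nat_lit 0x5c00040000000000000000000000000000000000000000000) := T_1 (nat_lit 174) (nat_lit 194) (nat_lit 3) (nat_lit 4) (nat_lit 10) L4236427 (by decide +kernel)
theorem L4236429 : W_1 (nat_lit 4) (nat_lit 0x780000001c00080000000000000000000000000000000) (nat_lit 0x0) (nat_lit 0x1dc00040000000000000000000000000000000000000000000) := T_1 (nat_lit 195) (nat_lit 196) (nat_lit 3) (nat_lit 5) (nat_lit 10) L4236428 (by decide +kernel)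
theorem L4236430 : W_1 (nat_lit 2) (nat_lit 0x8007c0000001c00080000000000000000000000000000000) (nat_lit 0x0) (nat_lit 0x7000000000000000000000000000000000000000) := D_1 (nat_lit 157) (nat_lit 156) (nat_lit 158) (nat_lit 0) (nat_lit 7) (nat_lit 10) (nat_lit 0) (nat_lit 8) (nat_lit 10) (by decide +kernel)
theorem L4236431 : W_1 (nat_lit 3) (nat_lit 0x800780000001c00080000000000000000000000000000000) (nat_lit 0x0) (nat_lit 0x400040007000000000000000000000000000000000000000) := T_1 (nat_lit 174) (nat_lit 190) (nat_lit 1) (nat_lit 7) (nat_lit 10) L4236430 (by decide +kernel)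
theorem L4236432 : W_1 (nat_lit 4) (nat_lit 0x780000001c00080000000000000000000000000000000) (nat_lit 0x0) (nat_lit 0x1c00040007000000000000000000000000000000000000000) := T_1 (nat_lit 191) (nat_lit 192) (nat_lit 1) (nat_lit 8) (nat_lit 10) L4236431 (by decide +kernel)
theorem L4236433 : W_1 (nat_lit 2) (nat_lit 0x7c0002001c00080000000000000000000000000000000) (nat_lit 0x0) (nat_lit 0x1c000000000000000000000000000000000000000000000000) := D_1 (nat_lit 195) (nat_lit 196) (nat_lit 194) (nat_lit 3) (nat_lit 5) (nat_lit 10) (nat_lit 3) (nat_lit 4) (nat_lit 10) (by decide +kernel)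
theorem L4236434 : W_1 (nat_lit 3) (nat_lit 0x780002001c00080000000000000000000000000000000) (nat_lit 0x0) (nat_lit 0x1c000040001000000000000000000000000000000000000000) := T_1 (nat_lit 174) (nat_lit 156) (nat_lit 0) (nat_lit 7) (nat_lit 10) L4236433 (by decide +kernel)
theorem L4236435 : W_1 (nat_lit 4) (nat_lit 0x780000001c00080000000000000000000000000000000) (nat_lit 0x0) (nat_lit 0x1c000040007000000000000000000000000000000000000000) := T_1 (nat_lit 157) (nat_lit 158) (nat_lit 0) (nat_lit 8) (nat_lit 10) L4236434 (by decide +kernel)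
theorem L4236436 : W_1 (nat_lit 2) (nat_lit 0x8800780004001c00080000000000000000000000000000000) (nat_lit 0x0) (nat_lit 0x800008002000000000000000000000000000000000000) := D_1 (nat_lit 159) (nat_lit 179) (nat_lit 145) (nat_lit 0) (nat_lit 9) (nat_lit 10) (nat_lit 1) (nat_lit 9) (nat_lit 8) (by decide +kernel)
theorem L4236437 : W_1 (nat_lit 3) (nat_lit 0x8800780000001c00080000000000000000000000000000000) (nat_lit 0x0) (nat_lit 0x80000e002000000000000000000000000000000000000) := T_1 (nat_lit 158) (nat_lit 157) (nat_lit 0) (nat_lit 8) (nat_lit 10) L4236436 (by decide +kernel)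
theorem L4236438 : W_1 (nat_lit 4) (nat_lit 0x8000780000001c00080000000000000000000000000000000) (nat_lit 0x0) (nat_lit 0x180080000e002000000000000000000000000000000000000) := T_1 (nat_lit 191) (nat_lit 192) (nat_lit 1) (nat_lit 8) (nat_lit 10) L4236437 (by decide +kernel)
theorem L4236439 : W_1 (nat_lit 5) (nat_lit 0x780000001c00080000000000000000000000000000000) (nat_lit 0x0) (nat_lit 0x1980080000e002000000000000000000000000000000000000) := T_1 (nat_lit 195) (nat_lit 196) (nat_lit 3) (nat_lit 5) (nat_lit 10) L4236438 (by decide +kernel)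
theorem L4236440 : W_1 (nat_lit 7) (nat_lit 0x700000001c00080000000000000000000000000000000) (nat_lit 0x0) (nat_lit 0x3fc008c000f002000000000000000000000000000000000000) := Q_1 (nat_lit 175) (C_1 L4236426 (C_1 L4236429 (C_1 L4236432 (C_1 L4236435 (C_1 L4236439 N_1))))) (by decide +kernel)
theorem L4236441 : W_1 (nat_lit 2) (nat_lit 0x11000780002001c00080000000000000000000000000000000) (nat_lit 0x0) (nat_lit 0x22000800000000000000000000000000000000000000000000) := D_1 (nat_lit 179) (nat_lit 197) (nat_lit 193) (nat_lit 3) (nat_lit 6) (nat_lit 10) (nat_lit 1) (nat_lit 9) (nat_lit 10) (by decide +kernel)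
theorem L4236442 : W_1 (nat_lit 3) (nat_lit 0x10000780002001c00080000000000000000000000000000000) (nat_lit 0x0) (nat_lit 0x23800800000000000000000000000000000000000000000000) := T_1 (nat_lit 192) (nat_lit 191) (nat_lit 1) (nat_lit 8) (nat_lit 10) L4236441 (by decide +kernel)
theorem L4236443 : W_1 (nat_lit 4) (nat_lit 0x780002001c00080000000000000000000000000000000) (nat_lit 0x0) (nat_lit 0x3b800800000000000000000000000000000000000000000000) := T_1 (nat_lit 196) (nat_lit 195) (nat_lit 3) (nat_lit 5) (nat_lit 10) L4236442 (by decide +kernel)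
theorem L4236444 : W_1 (nat_lit 5) (nat_lit 0x780000001c00080000000000000000000000000000000) (nat_lit 0x0) (nat_lit 0x3b800800006000000000000000000000000000000000000000) := T_1 (nat_lit 157) (nat_lit 158) (nat_lit 0) (nat_lit 8) (nat_lit 10) L4236443 (by decide +kernel)
theorem L4236445 : W_1 (nat_lit 6) (nat_lit 0x700000001c00080000000000000000000000000000000) (nat_lit 0x0) (nat_lit 0x3fc008c0007000000000000000000000000000000000000000) := Q_1 (nat_lit 175) (C_1 L4236435 (C_1 L4236429 (C_1 L4236432 (C_1 L4236444 N_1)))) (by decide +kernel)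
theorem L4236446 : W_1 (nat_lit 2) (nat_lit 0x2001f00000001c00080000000000000000000000000000000) (nat_lit 0x0) (nat_lit 0x70000000000000000000000000000000000000000000000000) := D_1 (nat_lit 197) (nat_lit 196) (nat_lit 198) (nat_lit 3) (nat_lit 6) (nat_lit 10) (nat_lit 3) (nat_lit 7) (nat_lit 10) (by decide +kernel)
theorem L4236447 : W_1 (nat_lit 3) (nat_lit 0x2000f00000001c00080000000000000000000000000000000) (nat_lit 0x0) (nat_lit 0x74001000000000000000000000000000000000000000000000) := T_1 (nat_lit 180) (nat_lit 194) (nat_lit 1) (nat_lit 10) (nat_lit 10) L4236446 (by decide +kernel)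
theorem L4236448 : W_1 (nat_lit 4) (nat_lit 0x2000700000001c00080000000000000000000000000000000) (nat_lit 0x0) (nat_lit 0x75001800000000000000000000000000000000000000000000) := T_1 (nat_lit 179) (nat_lit 192) (nat_lit 1) (nat_lit 9) (nat_lit 10) L4236447 (by decide +kernel)
theorem L4236449 : W_1 (nat_lit 4) (nat_lit 0x2000700000001c00080000000000000000000000000000000) (nat_lit 0x0) (nat_lit 0x20001c00080008000000040000000000000000000000000000000) := T_1 (nat_lit 159) (nat_lit 126) (nat_lit 6) (nat_lit 6) (nat_lit 11) L4236288 (by decide +kernel)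
theorem L4236450 : W_1 (nat_lit 2) (nat_lit 0x400022001e000f00048001c00080000000000000000000000000000000) (nat_lit 0x0) (nat_lit 0x40002000100000000000000000000000000000000000000000000000000000) := D_1 (nat_lit 229) (nat_lit 246) (nat_lit 212) (nat_lit 5) (nat_lit 9) (nat_lit 10) (nat_lit 6) (nat_lit 8) (nat_lit 13) (by decide +kernel)
theorem L4236451 : W_1 (nat_lit 3) (nat_lit 0x400022001e000f00008001c00080000000000000000000000000000000) (nat_lit 0x0) (nat_lit 0x40002000100000000000040002000000000000000000000000000000000000) := T_1 (nat_lit 162) (nat_lit 145) (nat_lit 4) (nat_lit 9) (nat_lit 11) L4236450 (by decide +kernel)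
theorem L4236452 : W_1 (nat_lit 4) (nat_lit 0x22001e000f00008001c00080000000000000000000000000000000) (nat_lit 0x0) (nat_lit 0xc0006000100000000000040002000000000000000000000000000000000000) := T_1 (nat_lit 230) (nat_lit 247) (nat_lit 4) (nat_lit 9) (nat_lit 14) L4236451 (by decide +kernel)
theorem L4236453 : W_1 (nat_lit 5) (nat_lit 0x20001e000f00008001c00080000000000000000000000000000000) (nat_lit 0x0) (nat_lit 0xc0006000160000000000040002000000000000000000000000000000000000) := T_1 (nat_lit 209) (nat_lit 210) (nat_lit 1) (nat_lit 9) (nat_lit 11) L4236452 (by decide +kernel)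
theorem L4236454 : W_1 (nat_lit 6) (nat_lit 0x1e000f00008001c00080000000000000000000000000000000) (nat_lit 0x0) (nat_lit 0xc0006000760000000000040002000000000000000000000000000000000000) := T_1 (nat_lit 213) (nat_lit 214) (nat_lit 3) (nat_lit 6) (nat_lit 11) L4236453 (by decide +kernel)
theorem L4236455 : W_1 (nat_lit 7) (nat_lit 0x16000f00008001c00080000000000000000000000000000000) (nat_lit 0x0) (nat_lit 0xc0006000760008000080040002000000000000000000000000000000000000) := T_1 (nat_lit 195) (nat_lit 175) (nat_lit 3) (nat_lit 5) (nat_lit 10) L4236454 (by decide +kernel)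
theorem L4236456 : W_1 (nat_lit 8) (nat_lit 0x6000f00008001c00080000000000000000000000000000000) (nat_lit 0x0) (nat_lit 0xc0006000760038000080040002000000000000000000000000000000000000) := T_1 (nat_lit 196) (nat_lit 197) (nat_lit 3) (nat_lit 6) (nat_lit 10) L4236455 (by decide +kernel)
theorem L4236457 : W_1 (nat_lit 9) (nat_lit 0x6000700008001c00080000000000000000000000000000000) (nat_lit 0x0) (nat_lit 0xc0006000760038001880040002000000000000000000000000000000000000) := T_1 (nat_lit 179) (nat_lit 180) (nat_lit 1) (nat_lit 10) (nat_lit 10) L4236456 (by decide +kernel)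
theorem L4236458 : W_1 (nat_lit 10) (nat_lit 0x2000700008001c00080000000000000000000000000000000) (nat_lit 0x0) (nat_lit 0xc00060007e003c001880040002000000000000000000000000000000000000) := T_1 (nat_lit 194) (nat_lit 211) (nat_lit 7) (nat_lit 6) (nat_lit 8) L4236457 (by decide +kernel)
theorem L4236459 : W_1 (nat_lit 11) (nat_lit 0x2000700000001c00080000000000000000000000000000000) (nat_lit 0x0) (nat_lit 0xc00060007e003c001880048002000040000000000000000000000000000000) := T_1 (nat_lit 159) (nat_lit 126) (nat_lit 6) (nat_lit 6) (nat_lit 11) L4236458 (by decide +kernel)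
theorem L4236460 : W_1 (nat_lit 12) (nat_lit 0x700000001c00080000000000000000000000000000000) (nat_lit 0x0) (nat_lit 0xc00060007e007fc01880048002000040000000000000000000000000000000) := Q_1 (nat_lit 193) (C_1 L4236448 (C_1 L4236449 (C_1 L4236459 N_1))) (by decide +kernel)
theorem L4236461 : W_1 (nat_lit 2) (nat_lit 0x800078000c001c00080000000000000000000000000000000) (nat_lit 0x0) (nat_lit 0x20001800000000000000000000000000000000000000000000000) := D_1 (nat_lit 192) (nat_lit 191) (nat_lit 209) (nat_lit 1) (nat_lit 8) (nat_lit 10) (nat_lit 6) (nat_lit 5) (nat_lit 12) (by decide +kernel)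
theorem L4236462 : W_1 (nat_lit 3) (nat_lit 0x8000780004001c00080000000000000000000000000000000) (nat_lit 0x0) (nat_lit 0x20001800000008002000000000000000000000000000000000000) := T_1 (nat_lit 159) (nat_lit 145) (nat_lit 1) (nat_lit 9) (nat_lit 8) L4236461 (by decide +kernel)
theorem L4236463 : W_1 (nat_lit 4) (nat_lit 0x780004001c00080000000000000000000000000000000) (nat_lit 0x0) (nat_lit 0x20019800000008002000000000000000000000000000000000000) := T_1 (nat_lit 195) (nat_lit 196) (nat_lit 3) (nat_lit 5) (nat_lit 10) L4236462 (by decide +kernel)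
theorem L4236464 : W_1 (nat_lit 5) (nat_lit 0x780000001c00080000000000000000000000000000000) (nat_lit 0x0) (nat_lit 0x2001980000000e002000000000000000000000000000000000000) := T_1 (nat_lit 158) (nat_lit 157) (nat_lit 0) (nat_lit 8) (nat_lit 10) L4236463 (by decide +kernel)
theorem L4236465 : W_1 (nat_lit 6) (nat_lit 0x700000001c00080000000000000000000000000000000) (nat_lit 0x0) (nat_lit 0x2001dc000c000f002000000000000000000000000000000000000) := Q_1 (nat_lit 175) (C_1 L4236435 (C_1 L4236429 (C_1 L4236432 (C_1 L4236464 N_1)))) (by decide +kernel)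
theorem L4236466 : W_1 (nat_lit 2) (nat_lit 0x700008001c00080000000000000000000000000000000) (nat_lit 0x0) (nat_lit 0x800004002000000000000000000000000000000000000) := D_1 (nat_lit 158) (nat_lit 179) (nat_lit 145) (nat_lit 0) (nat_lit 9) (nat_lit 10) (nat_lit 1) (nat_lit 9) (nat_lit 8) (by decide +kernel)
theorem L4236467 : W_1 (nat_lit 2) (nat_lit 0x700008003c002c0000000100000000000000000000000) (nat_lit 0x0) (nat_lit 0xc000400000000000000000000000000000000) := D_1 (nat_lit 146) (nat_lit 147) (nat_lit 130) (nat_lit 0) (nat_lit 11) (nat_lit 8) (nat_lit 2) (nat_lit 7) (nat_lit 8) (by decide +kernel)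
theorem L4236468 : W_1 (nat_lit 3) (nat_lit 0x700008003c000c0000000100000000000000000000000) (nat_lit 0x0) (nat_lit 0xc000700000000000000000000000000000000) := T_1 (nat_lit 129) (nat_lit 128) (nat_lit 2) (nat_lit 6) (nat_lit 8) L4236467 (by decide +kernel)
theorem L4236469 : W_1 (nat_lit 4) (nat_lit 0x700008003c000c0000000000000000000000000000000) (nat_lit 0x0) (nat_lit 0xc000700002000100000000000000000000000) := T_1 (nat_lit 92) (nat_lit 109) (nat_lit 5) (nat_lit 7) (nat_lit 5) L4236468 (by decide +kernel)
theorem L4236470 : W_1 (nat_lit 5) (nat_lit 0x700008003c00080000000000000000000000000000000) (nat_lit 0x0) (nat_lit 0x200000000000c000740002000100000000000000000000000) := T_1 (nat_lit 126) (nat_lit 193) (nat_lit 6) (nat_lit 6) (nat_lit 11) L4236469 (by decide +kernel)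
theorem L4236471 : W_1 (nat_lit 6) (nat_lit 0x700008001c00080000000000000000000000000000000) (nat_lit 0x0) (nat_lit 0x200000000400e000740002000100000000000000000000000) := T_1 (nat_lit 145) (nat_lit 158) (nat_lit 1) (nat_lit 9) (nat_lit 8) L4236470 (by decide +kernel)
theorem L4236472 : W_1 (nat_lit 7) (nat_lit 0x700000001c00080000000000000000000000000000000) (nat_lit 0x0) (nat_lit 0x2000300080000c00e000740002000100000000000000000000000) := Q_1 (nat_lit 159) (C_1 L4236466 (C_1 L4233214 (C_1 L4236471 N_1))) (by decide +kernel)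
theorem L4236473 : W_1 (nat_lit 11) (nat_lit 0x700008001c00080000000000000000000000000000000) (nat_lit 0x0) (nat_lit 0xc00060007e003e001880040002000040000000000000000000000000000000) := T_1 (nat_lit 193) (nat_lit 126) (nat_lit 6) (nat_lit 6) (nat_lit 11) L4236458 (by decide +kernel)
theorem L4236474 : W_1 (nat_lit 12) (nat_lit 0x700000001c00080000000000000000000000000000000) (nat_lit 0x0) (nat_lit 0xc00060007e003e00188004f00e000740002000100000000000000000000000) := Q_1 (nat_lit 159) (C_1 L4236466 (C_1 L4236471 (C_1 L4232043 (C_1 L4236473 N_1)))) (by decide +kernel)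
theorem L4236475 : W_1 (nat_lit 13) (nat_lit 0x600000001c00080000000000000000000000000000000) (nat_lit 0x0) (nat_lit 0xc00060007e007fc019c004f00e000740002000100000000000000000000000) := Q_1 (nat_lit 176) (C_1 L4236421 (C_1 L4236440 (C_1 L4236445 (C_1 L4236460 (C_1 L4236465 (C_1 L4236472 (C_1 L4236474 N_1))))))) (by decide +kernel)
theorem L4236484 : W_1 (nat_lit 3) (nat_lit 0x600000007c00080000000000000000000000000000000) (nat_lit 0x0) (nat_lit 0x8000e40000000000000000000000000000000) := T_1 (nat_lit 130) (nat_lit 129) (nat_lit 2) (nat_lit 7) (nat_lit 8) L4236419 (by decide +kernel)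
theorem L4236485 : W_1 (nat_lit 2) (nat_lit 0x600000007c00080000000000000000000000000000000) (nat_lit 0x0) (nat_lit 0x700000000000000000000000000000000) := D_1 (nat_lit 129) (nat_lit 128) (nat_lit 130) (nat_lit 2) (nat_lit 6) (nat_lit 8) (nat_lit 2) (nat_lit 7) (nat_lit 8) (by decide +kernel)
theorem L4236486 : W_1 (nat_lit 2) (nat_lit 0x60000001fc00080000000000000000000000000000000) (nat_lit 0x0) (nat_lit 0x700000000000000000000000000000000000000000) := D_1 (nat_lit 165) (nat_lit 164) (nat_lit 166) (nat_lit 3) (nat_lit 8) (nat_lit 8) (nat_lit 3) (nat_lit 9) (nat_lit 8) (by decide +kernel)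
theorem L4236487 : W_1 (nat_lit 3) (nat_lit 0x60000000fc00080000000000000000000000000000000) (nat_lit 0x0) (nat_lit 0x700010000100000000000000000000000000000000) := T_1 (nat_lit 148) (nat_lit 128) (nat_lit 0) (nat_lit 12) (nat_lit 8) L4236486 (by decide +kernel)
theorem L4236488 : W_1 (nat_lit 4) (nat_lit 0x600000007c00080000000000000000000000000000000) (nat_lit 0x0) (nat_lit 0x700018000140000000000000000000000000000000) := T_1 (nat_lit 147) (nat_lit 126) (nat_lit 0) (nat_lit 11) (nat_lit 8) L4236487 (by decide +kernel)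
theorem L4236489 : W_1 (nat_lit 5) (nat_lit 0x600000003c00080000000000000000000000000000000) (nat_lit 0x0) (nat_lit 0x70001c000f40000000000000000000000000000000) := Q_1 (nat_lit 146) (C_1 L4236484 (C_1 L4236485 (C_1 L4236488 N_1))) (by decide +kernel)
theorem L4236490 : W_1 (nat_lit 4) (nat_lit 0x10000e00000003c00080000000000000000000000000000000) (nat_lit 0x0) (nat_lit 0x2b800180000000000000000000000000000000000000000000) := T_1 (nat_lit 176) (nat_lit 197) (nat_lit 3) (nat_lit 6) (nat_lit 10) L304429 (by decide +kernel)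
theorem L4236491 : W_1 (nat_lit 5) (nat_lit 0xe00000003c00080000000000000000000000000000000) (nat_lit 0x0) (nat_lit 0x3b800180040000000000000000000000000000000000000000) := T_1 (nat_lit 196) (nat_lit 162) (nat_lit 4) (nat_lit 9) (nat_lit 11) L4236490 (by decide +kernel)
theorem L4236492 : W_1 (nat_lit 2) (nat_lit 0x4003e00000003c00080000000000000000000000000000000) (nat_lit 0x0) (nat_lit 0xe0000000000000000000000000000000000000000000000000) := D_1 (nat_lit 198) (nat_lit 197) (nat_lit 199) (nat_lit 3) (nat_lit 7) (nat_lit 10) (nat_lit 3) (nat_lit 8) (nat_lit 10) (by decide +kernel)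
theorem L4236493 : W_1 (nat_lit 3) (nat_lit 0x4001e00000003c00080000000000000000000000000000000) (nat_lit 0x0) (nat_lit 0xe8002000000000000000000000000000000000000000000000) := T_1 (nat_lit 181) (nat_lit 195) (nat_lit 1) (nat_lit 11) (nat_lit 10) L4236492 (by decide +kernel)
theorem L4236494 : W_1 (nat_lit 4) (nat_lit 0x4000e00000003c00080000000000000000000000000000000) (nat_lit 0x0) (nat_lit 0xea003000000000000000000000000000000000000000000000) := T_1 (nat_lit 180) (nat_lit 193) (nat_lit 1) (nat_lit 10) (nat_lit 10) L4236493 (by decide +kernel)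
theorem L4236495 : W_1 (nat_lit 5) (nat_lit 0xe00000003c00080000000000000000000000000000000) (nat_lit 0x0) (nat_lit 0xee003000010000000000000000000000000000000000000000) := T_1 (nat_lit 194) (nat_lit 160) (nat_lit 6) (nat_lit 7) (nat_lit 11) L4236494 (by decide +kernel)
theorem L4236496 : W_1 (nat_lit 2) (nat_lit 0x10000f00010003c00080000000000000000000000000000000) (nat_lit 0x0) (nat_lit 0x3000000000000000040000000000000000000000000000000) := D_1 (nat_lit 193) (nat_lit 192) (nat_lit 126) (nat_lit 1) (nat_lit 9) (nat_lit 10) (nat_lit 5) (nat_lit 7) (nat_lit 7) (by decide +kernel)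
theorem L4236497 : W_1 (nat_lit 3) (nat_lit 0x10000e00010003c00080000000000000000000000000000000) (nat_lit 0x0) (nat_lit 0x23000100000000000040000000000000000000000000000000) := T_1 (nat_lit 176) (nat_lit 197) (nat_lit 3) (nat_lit 6) (nat_lit 10) L4236496 (by decide +kernel)
theorem L4236498 : W_1 (nat_lit 4) (nat_lit 0xe00010003c00080000000000000000000000000000000) (nat_lit 0x0) (nat_lit 0x33000100040000000040000000000000000000000000000000) := T_1 (nat_lit 196) (nat_lit 162) (nat_lit 4) (nat_lit 9) (nat_lit 11) L4236497 (by decide +kernel)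
theorem L4236499 : W_1 (nat_lit 5) (nat_lit 0xe00000003c00080000000000000000000000000000000) (nat_lit 0x0) (nat_lit 0x37000100050000000040000000000000000000000000000000) := T_1 (nat_lit 160) (nat_lit 194) (nat_lit 6) (nat_lit 7) (nat_lit 11) L4236498 (by decide +kernel)
theorem L4236500 : W_1 (nat_lit 2) (nat_lit 0x10000f00010003c00080000000000000000000000000000000) (nat_lit 0x0) (nat_lit 0x8000080000000000040000000000000000000000000000000) := D_1 (nat_lit 195) (nat_lit 175) (nat_lit 126) (nat_lit 3) (nat_lit 5) (nat_lit 10) (nat_lit 7) (nat_lit 7) (nat_lit 7) (by decide +kernel)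
theorem L4236501 : W_1 (nat_lit 3) (nat_lit 0x10000e00010003c00080000000000000000000000000000000) (nat_lit 0x0) (nat_lit 0x28000180000000000040000000000000000000000000000000) := T_1 (nat_lit 176) (nat_lit 197) (nat_lit 3) (nat_lit 6) (nat_lit 10) L4236500 (by decide +kernel)
theorem L4236502 : W_1 (nat_lit 4) (nat_lit 0x10000e00000003c00080000000000000000000000000000000) (nat_lit 0x0) (nat_lit 0x2c000180010000000040000000000000000000000000000000) := T_1 (nat_lit 160) (nat_lit 194) (nat_lit 6) (nat_lit 7) (nat_lit 11) L4236501 (by decide +kernel)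
theorem L4236503 : W_1 (nat_lit 5) (nat_lit 0xe00000003c00080000000000000000000000000000000) (nat_lit 0x0) (nat_lit 0x3c000180050000000040000000000000000000000000000000) := T_1 (nat_lit 196) (nat_lit 162) (nat_lit 4) (nat_lit 9) (nat_lit 11) L4236502 (by decide +kernel)
theorem L4236504 : W_1 (nat_lit 2) (nat_lit 0x84003e00240003c00080000000000000000000000000000000) (nat_lit 0x0) (nat_lit 0x100004000400000000000000000000000000000000000000000) := D_1 (nat_lit 182) (nat_lit 166) (nat_lit 200) (nat_lit 2) (nat_lit 9) (nat_lit 10) (nat_lit 3) (nat_lit 9) (nat_lit 10) (by decide +kernel)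
theorem L4236505 : W_1 (nat_lit 3) (nat_lit 0x4003e00240003c00080000000000000000000000000000000) (nat_lit 0x0) (nat_lit 0x1c0004000400000000000000000000000000000000000000000) := T_1 (nat_lit 199) (nat_lit 198) (nat_lit 3) (nat_lit 8) (nat_lit 10) L4236504 (by decide +kernel)
theorem L4236506 : W_1 (nat_lit 4) (nat_lit 0x4003e00040003c00080000000000000000000000000000000) (nat_lit 0x0) (nat_lit 0x1c0004000700000000000000000000000000000000000000000) := T_1 (nat_lit 165) (nat_lit 164) (nat_lit 2) (nat_lit 8) (nat_lit 10) L4236505 (by decide +kernel)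
theorem L4236507 : W_1 (nat_lit 5) (nat_lit 0x4001e00040003c00080000000000000000000000000000000) (nat_lit 0x0) (nat_lit 0x1c8006000700000000000000000000000000000000000000000) := T_1 (nat_lit 181) (nat_lit 195) (nat_lit 1) (nat_lit 11) (nat_lit 10) L4236506 (by decide +kernel)
theorem L4236508 : W_1 (nat_lit 6) (nat_lit 0x4000e00040003c00080000000000000000000000000000000) (nat_lit 0x0) (nat_lit 0x1ca007000700000000000000000000000000000000000000000) := T_1 (nat_lit 180) (nat_lit 193) (nat_lit 1) (nat_lit 10) (nat_lit 10) L4236507 (by decide +kernel)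
theorem L4236509 : W_1 (nat_lit 7) (nat_lit 0x4000e00000003c00080000000000000000000000000000000) (nat_lit 0x0) (nat_lit 0x1da007000740000000000000000000000000000000000000000) := T_1 (nat_lit 162) (nat_lit 196) (nat_lit 4) (nat_lit 9) (nat_lit 11) L4236508 (by decide +kernel)
theorem L4236510 : W_1 (nat_lit 8) (nat_lit 0xe00000003c00080000000000000000000000000000000) (nat_lit 0x0) (nat_lit 0x1de007000750000000000000000000000000000000000000000) := T_1 (nat_lit 194) (nat_lit 160) (nat_lit 6) (nat_lit 7) (nat_lit 11) L4236509 (by decide +kernel)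
theorem L4236511 : W_1 (nat_lit 9) (nat_lit 0x600000003c00080000000000000000000000000000000) (nat_lit 0x0) (nat_lit 0x1ff807980750000000040000000000000000000000000000000) := Q_1 (nat_lit 179) (C_1 L4236491 (C_1 L4236495 (C_1 L4236499 (C_1 L4236503 (C_1 L4236510 N_1))))) (by decide +kernel)
theorem L4236513 : W_1 (nat_lit 2) (nat_lit 0x30000e00010003c00180000000000000000000000000000000) (nat_lit 0x0) (nat_lit 0xc0001000000000000000000000000000000000000000000000) := D_1 (nat_lit 198) (nat_lit 199) (nat_lit 180) (nat_lit 0) (nat_lit 12) (nat_lit 11) (nat_lit 3) (nat_lit 7) (nat_lit 10) (by decide +kernel)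
theorem L4236514 : W_1 (nat_lit 3) (nat_lit 0x10000e00010003c00180000000000000000000000000000000) (nat_lit 0x0) (nat_lit 0xe0001100000000000000000000000000000000000000000000) := T_1 (nat_lit 197) (nat_lit 176) (nat_lit 3) (nat_lit 6) (nat_lit 10) L4236513 (by decide +kernel)
theorem L4236515 : W_1 (nat_lit 4) (nat_lit 0x10000e00010003c00080000000000000000000000000000000) (nat_lit 0x0) (nat_lit 0xe0001100000000000300000000000000000000000000000000) := T_1 (nat_lit 128) (nat_lit 129) (nat_lit 2) (nat_lit 6) (nat_lit 8) L4236514 (by decide +kernel)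
theorem L4236516 : W_1 (nat_lit 5) (nat_lit 0xe00010003c00080000000000000000000000000000000) (nat_lit 0x0) (nat_lit 0xf0001100040000000300000000000000000000000000000000) := T_1 (nat_lit 196) (nat_lit 162) (nat_lit 4) (nat_lit 9) (nat_lit 11) L4236515 (by decide +kernel)
theorem L4236517 : W_1 (nat_lit 6) (nat_lit 0xe00000003c00080000000000000000000000000000000) (nat_lit 0x0) (nat_lit 0xf4001100050000000300000000000000000000000000000000) := T_1 (nat_lit 160) (nat_lit 194) (nat_lit 6) (nat_lit 7) (nat_lit 11) L4236516 (by decide +kernel)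
theorem L4236518 : W_1 (nat_lit 9) (nat_lit 0x600000003c00080000000000000000000000000000000) (nat_lit 0x0) (nat_lit 0x1ff807980750000000300000000000000000000000000000000) := Q_1 (nat_lit 179) (C_1 L4236510 (C_1 L4236491 (C_1 L4236495 (C_1 L4236517 N_1)))) (by decide +kernel)
theorem L4236519 : W_1 (nat_lit 2) (nat_lit 0x600010007c00280000000000000000000000000000000) (nat_lit 0x0) (nat_lit 0x8000000000008000040000000000000000000000000000000) := D_1 (nat_lit 126) (nat_lit 195) (nat_lit 147) (nat_lit 7) (nat_lit 7) (nat_lit 7) (nat_lit 0) (nat_lit 11) (nat_lit 8) (by decide +kernel)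
theorem L4236520 : W_1 (nat_lit 3) (nat_lit 0x600010003c00280000000000000000000000000000000) (nat_lit 0x0) (nat_lit 0x800000000000c000440000000000000000000000000000000) := T_1 (nat_lit 146) (nat_lit 130) (nat_lit 2) (nat_lit 7) (nat_lit 8) L4236519 (by decide +kernel)
theorem L4236521 : W_1 (nat_lit 4) (nat_lit 0x600000003c00280000000000000000000000000000000) (nat_lit 0x0) (nat_lit 0xc00000001000c000440000000000000000000000000000000) := T_1 (nat_lit 160) (nat_lit 194) (nat_lit 6) (nat_lit 7) (nat_lit 11) L4236520 (by decide +kernel)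
theorem L4236522 : W_1 (nat_lit 5) (nat_lit 0x600000003c00080000000000000000000000000000000) (nat_lit 0x0) (nat_lit 0xc00000001000c000740000000000000000000000000000000) := T_1 (nat_lit 129) (nat_lit 128) (nat_lit 2) (nat_lit 6) (nat_lit 8) L4236521 (by decide +kernel)
theorem L4236523 : W_1 (nat_lit 10) (nat_lit 0x600000001c00080000000000000000000000000000000) (nat_lit 0x0) (nat_lit 0x1ff80798075001e000f40000000000000000000000000000000) := Q_1 (nat_lit 145) (C_1 L4236489 (C_1 L4236511 (C_1 L4236518 (C_1 L4236522 N_1)))) (by decide +kernel)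
theorem L4236524 : W_1 (nat_lit 7) (nat_lit 0x600000001c00080000000000000000000000000000000) (nat_lit 0x0) (nat_lit 0x1c00180075c01e000f40000000000000000000000000000000) := Q_1 (nat_lit 145) (C_1 L353485 (C_1 L4236522 (C_1 L4236489 (C_1 L294373 N_1)))) (by decide +kernel)
theorem L4236525 : W_1 (nat_lit 4) (nat_lit 0x600008003c00180000000000000000000000000000000) (nat_lit 0x0) (nat_lit 0x18001800050004000000000000000000000000000000000000) := T_1 (nat_lit 160) (nat_lit 146) (nat_lit 1) (nat_lit 10) (nat_lit 8) L294370 (by decide +kernel)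
theorem L4236536 : W_1 (nat_lit 2) (nat_lit 0x60000800fc00080000000000000000000000000000000) (nat_lit 0x0) (nat_lit 0xe00000000000000000000000000000000) := D_1 (nat_lit 130) (nat_lit 129) (nat_lit 131) (nat_lit 2) (nat_lit 7) (nat_lit 8) (nat_lit 2) (nat_lit 8) (nat_lit 8) (by decide +kernel)
theorem L4236537 : W_1 (nat_lit 3) (nat_lit 0x600008007c00080000000000000000000000000000000) (nat_lit 0x0) (nat_lit 0x8000e40000000000000000000000000000000) := T_1 (nat_lit 147) (nat_lit 126) (nat_lit 0) (nat_lit 11) (nat_lit 8) L4236536 (by decide +kernel)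
theorem L4236538 : W_1 (nat_lit 4) (nat_lit 0x600008003c00080000000000000000000000000000000) (nat_lit 0x0) (nat_lit 0x1000c000e40000000000000000000000000000000) := T_1 (nat_lit 146) (nat_lit 160) (nat_lit 1) (nat_lit 10) (nat_lit 8) L4236537 (by decide +kernel)
theorem L4236539 : W_1 (nat_lit 5) (nat_lit 0x600000003c00080000000000000000000000000000000) (nat_lit 0x0) (nat_lit 0x1c00c000e40000000000000000000000000000000) := T_1 (nat_lit 159) (nat_lit 158) (nat_lit 1) (nat_lit 9) (nat_lit 8) L4236538 (by decide +kernel)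
theorem L4236540 : W_1 (nat_lit 5) (nat_lit 0x600008003c00080000000000000000000000000000000) (nat_lit 0x0) (nat_lit 0x18001800050004000300000000000000000000000000000000) := T_1 (nat_lit 128) (nat_lit 129) (nat_lit 2) (nat_lit 6) (nat_lit 8) L4236525 (by decide +kernel)
theorem L4236541 : W_1 (nat_lit 6) (nat_lit 0x600000003c00080000000000000000000000000000000) (nat_lit 0x0) (nat_lit 0x1800180005c004000300000000000000000000000000000000) := T_1 (nat_lit 159) (nat_lit 158) (nat_lit 1) (nat_lit 9) (nat_lit 8) L4236540 (by decide +kernel)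
theorem L4236542 : W_1 (nat_lit 4) (nat_lit 0xe00008003c00180000000000000000000000000000000) (nat_lit 0x0) (nat_lit 0xa001100010000000040002000000000000000000000000000) := T_1 (nat_lit 160) (nat_lit 180) (nat_lit 0) (nat_lit 10) (nat_lit 10) L293130 (by decide +kernel)
theorem L4236543 : W_1 (nat_lit 5) (nat_lit 0xe00000003c00180000000000000000000000000000000) (nat_lit 0x0) (nat_lit 0xa00110001c000000040002000000000000000000000000000) := T_1 (nat_lit 159) (nat_lit 158) (nat_lit 1) (nat_lit 9) (nat_lit 8) L4236542 (by decide +kernel)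
theorem L4236544 : W_1 (nat_lit 6) (nat_lit 0xe00000003c00080000000000000000000000000000000) (nat_lit 0x0) (nat_lit 0xa00110001c000000340002000000000000000000000000000) := T_1 (nat_lit 128) (nat_lit 129) (nat_lit 2) (nat_lit 6) (nat_lit 8) L4236543 (by decide +kernel)
theorem L4236545 : W_1 (nat_lit 7) (nat_lit 0x600000003c00080000000000000000000000000000000) (nat_lit 0x0) (nat_lit 0x3b80198005e000000340002000000000000000000000000000) := Q_1 (nat_lit 179) (C_1 L4236491 (C_1 L4236544 (C_1 L4229882 (C_1 L4229880 N_1)))) (by decide +kernel)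
theorem L4236546 : W_1 (nat_lit 2) (nat_lit 0x60000801fc00080000000000000000000000000000000) (nat_lit 0x0) (nat_lit 0x700000000000000000000000000000000000000000) := D_1 (nat_lit 165) (nat_lit 164) (nat_lit 166) (nat_lit 3) (nat_lit 8) (nat_lit 8) (nat_lit 3) (nat_lit 9) (nat_lit 8) (by decide +kernel)
theorem L4236547 : W_1 (nat_lit 3) (nat_lit 0x60000800fc00080000000000000000000000000000000) (nat_lit 0x0) (nat_lit 0x700010000100000000000000000000000000000000) := T_1 (nat_lit 148) (nat_lit 128) (nat_lit 0) (nat_lit 12) (nat_lit 8) L4236546 (by decide +kernel)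
theorem L4236548 : W_1 (nat_lit 4) (nat_lit 0x600008007c00080000000000000000000000000000000) (nat_lit 0x0) (nat_lit 0x700018000140000000000000000000000000000000) := T_1 (nat_lit 147) (nat_lit 126) (nat_lit 0) (nat_lit 11) (nat_lit 8) L4236547 (by decide +kernel)
theorem L4236549 : W_1 (nat_lit 5) (nat_lit 0x600008003c00080000000000000000000000000000000) (nat_lit 0x0) (nat_lit 0x71001c000140000000000000000000000000000000) := T_1 (nat_lit 146) (nat_lit 160) (nat_lit 1) (nat_lit 10) (nat_lit 8) L4236548 (by decide +kernel)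
theorem L4236550 : W_1 (nat_lit 6) (nat_lit 0x600000003c00080000000000000000000000000000000) (nat_lit 0x0) (nat_lit 0x71c01c000140000000000000000000000000000000) := T_1 (nat_lit 159) (nat_lit 158) (nat_lit 1) (nat_lit 9) (nat_lit 8) L4236549 (by decide +kernel)
theorem L4236551 : W_1 (nat_lit 8) (nat_lit 0x600000001c00080000000000000000000000000000000) (nat_lit 0x0) (nat_lit 0x3b80198075e01e000f40002000000000000000000000000000) := Q_1 (nat_lit 145) (C_1 L4236489 (C_1 L4236539 (C_1 L4236541 (C_1 L4236545 (C_1 L4236550 N_1))))) (by decide +kernel)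
theorem L4236552 : W_1 (nat_lit 14) (nat_lit 0x400000001c00080000000000000000000000000000000) (nat_lit 0x0) (nat_lit 0xc00060007e01ffc07bc075f01e000f4000300018000c000000000000000000) := Q_1 (nat_lit 177) (C_1 L345118 (C_1 L353494 (C_1 L4236475 (C_1 L4236523 (C_1 L4236524 (C_1 L4236551 N_1)))))) (by decide +kernel)
theorem L4236553 : W_1 (nat_lit 4) (nat_lit 0x400020001c00080000000000000000000000000000000) (nat_lit 0x0) (nat_lit 0x4000200000002000700008000000000000000000000000000) := T_1 (nat_lit 177) (nat_lit 194) (nat_lit 5) (nat_lit 8) (nat_lit 7) L309764 (by decide +kernel)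
theorem L4236554 : W_1 (nat_lit 3) (nat_lit 0x400020001c00080000000000000000000000000000000) (nat_lit 0x0) (nat_lit 0x2000700008000000000000000000000000000) := T_1 (nat_lit 128) (nat_lit 111) (nat_lit 6) (nat_lit 8) (nat_lit 10) L862510 (by decide +kernel)
theorem L4236555 : W_1 (nat_lit 7) (nat_lit 0x400000001c00080000000000000000000000000000000) (nat_lit 0x0) (nat_lit 0x100038001c000a00030002000700008000000000000000000000000000) := Q_1 (nat_lit 161) (C_1 L775073 (C_1 L67987 (C_1 L4236553 (C_1 L4236554 N_1)))) (by decide +kernel)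
theorem L4236556 : W_1 (nat_lit 7) (nat_lit 0x400000001c00080000000000000000000000000000000) (nat_lit 0x0) (nat_lit 0x100038001c00080003000200074000a000000000000000000000000000) := Q_1 (nat_lit 161) (C_1 L4236554 (C_1 L775073 (C_1 L295152 N_1))) (by decide +kernel)
theorem L4236557 : W_1 (nat_lit 9) (nat_lit 0x400000001c00080000000000000000000000000000000) (nat_lit 0x0) (nat_lit 0x16003bc007c00200074000a000000000000000000000000000) := Q_1 (nat_lit 161) (C_1 L4236554 (C_1 L365779 N_1)) (by decide +kernel)
theorem L4236558 : W_1 (nat_lit 4) (nat_lit 0x400000001c00080000000000000000000000000000000) (nat_lit 0x0) (nat_lit 0x800000002000200074000a000000000000000000000000000) := Q_1 (nat_lit 161) (C_1 L4236554 (C_1 L295154 (C_1 L295152 N_1))) (by decide +kernel)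
theorem L4236559 : W_1 (nat_lit 15) (nat_lit 0x1c00080000000000000000000000000000000) (nat_lit 0x0) (nat_lit 0xc00070007e01ffc07fc077f01e000f4000b00018000c000000000000000000) := Q_1 (nat_lit 178) (C_1 L295155 (C_1 L4236279 (C_1 L4236552 (C_1 L4236555 (C_1 L4236556 (C_1 L4236557 (C_1 L4236558 N_1))))))) (by decide +kernel)
theorem L4236560 : W_1 (nat_lit 16) (nat_lit 0x1800080000000000000000000000000000000) (nat_lit 0x0) (nat_lit 0xc00070007e01ffc07fc077f01e700f5c00b80018000c000000000000000000) := Q_1 (nat_lit 142) (C_1 L774748 (C_1 L25474 (C_1 L4236559 (C_1 L14758 N_1)))) (by decide +kernel)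
theorem L4236561 : W_1 (nat_lit 6) (nat_lit 0x18001c0000000000000000000000000000000) (nat_lit 0x0) (nat_lit 0x200010000c006700038002000000000000000000000000000) := Q_1 (nat_lit 125) (C_1 L72950 (C_1 L20975 (C_1 L253687 N_1))) (by decide +kernel)
theorem L4236562 : W_1 (nat_lit 14) (nat_lit 0x1800180000000000000000000000000000000) (nat_lit 0x0) (nat_lit 0xf0007c003e00670007801bc007c003e000000000000000000) := Q_1 (nat_lit 126) (C_1 L72605 (C_1 L773860 (C_1 L72540 (C_1 L4236561 (C_1 L21712 (C_1 L292848 N_1)))))) (by decide +kernel)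
theorem L4236563 : W_1 (nat_lit 15) (nat_lit 0x1800080000000000000000000000000000000) (nat_lit 0x0) (nat_lit 0xf0007c003e00e70077807bc07fc03fe007000000000000000) := Q_1 (nat_lit 128) (C_1 L4236562 (C_1 L2228 (C_1 L3941466 (C_1 L775227 N_1)))) (by decide +kernel)
theorem L4236564 : W_1 (nat_lit 9) (nat_lit 0x18000c0000000000000000000000000000000) (nat_lit 0x0) (nat_lit 0x100058006e006700038003c001c000e000000000000000000) := Q_1 (nat_lit 125) (C_1 L21775 (C_1 L1811 (C_1 L259252 N_1))) (by decide +kernel)
theorem L4236565 : W_1 (nat_lit 5) (nat_lit 0x200038000c0000000000000000000000000000000) (nat_lit 0x0) (nat_lit 0x200010005e000700000002000100000000000000000000000) := Q_1 (nat_lit 142) (C_1 L822326 (C_1 L262099 (C_1 L294325 N_1))) (by decide +kernel)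
theorem L4236566 : W_1 (nat_lit 6) (nat_lit 0x200018000c0000000000000000000000000000000) (nat_lit 0x0) (nat_lit 0x200010005e00e700020002000100000000000000000000000) := Q_1 (nat_lit 145) (C_1 L72776 (C_1 L4236565 N_1)) (by decide +kernel)
theorem L4236567 : W_1 (nat_lit 9) (nat_lit 0x200038000c0000000000000000000000000000000) (nat_lit 0x0) (nat_lit 0x1f000f8004e000700038000000000000000000000000000000) := Q_1 (nat_lit 142) (C_1 L822329 (C_1 L822326 (C_1 L779013 N_1))) (by decide +kernel)
theorem L4236568 : W_1 (nat_lit 6) (nat_lit 0x4000200078000c0000000000000000000000000000000) (nat_lit 0x0) (nat_lit 0x1000080005c000700600000000000000000000000000000000) := T_1 (nat_lit 179) (nat_lit 196) (nat_lit 7) (nat_lit 8) (nat_lit 7) L330149 (by decide +kernel)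
theorem L4236569 : W_1 (nat_lit 7) (nat_lit 0x4000200038000c0000000000000000000000000000000) (nat_lit 0x0) (nat_lit 0x1000080005c00c700600000000000000000000000000000000) := T_1 (nat_lit 146) (nat_lit 147) (nat_lit 0) (nat_lit 11) (nat_lit 8) L4236568 (by decide +kernel)
theorem L4236570 : W_1 (nat_lit 8) (nat_lit 0x200038000c0000000000000000000000000000000) (nat_lit 0x0) (nat_lit 0x18000c0005c00c700600000000000000000000000000000000) := T_1 (nat_lit 178) (nat_lit 195) (nat_lit 4) (nat_lit 8) (nat_lit 11) L4236569 (by decide +kernel)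
theorem L4236571 : W_1 (nat_lit 10) (nat_lit 0x200018000c0000000000000000000000000000000) (nat_lit 0x0) (nat_lit 0x1f000f8005e00e700638000000000000000000000000000000) := Q_1 (nat_lit 145) (C_1 L72776 (C_1 L4236567 (C_1 L4236570 N_1))) (by decide +kernel)
theorem L4236572 : W_1 (nat_lit 11) (nat_lit 0x18000c0000000000000000000000000000000) (nat_lit 0x0) (nat_lit 0x1f000f8007e00e700638002000100000000000000000000000) := Q_1 (nat_lit 161) (C_1 L4236566 (C_1 L72537 (C_1 L4236571 N_1))) (by decide +kernel)
theorem L4236573 : W_1 (nat_lit 12) (nat_lit 0x18000c0000000000000000000000000000000) (nat_lit 0x0) (nat_lit 0xf00078007e006700038001e003c000e000000000000000000) := Q_1 (nat_lit 125) (C_1 L21775 (C_1 L1811 (C_1 L259338 N_1))) (by decide +kernel)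
theorem L4237345 : W_1 (nat_lit 2) (nat_lit 0x3c000e0001000000000000000000000000000) (nat_lit 0x0) (nat_lit 0x10000000000000000080004000000000000000000) := D_1 (nat_lit 91) (nat_lit 160) (nat_lit 74) (nat_lit 7) (nat_lit 6) (nat_lit 5) (nat_lit 7) (nat_lit 6) (nat_lit 4) (by decide +kernel)
theorem L4238301 : W_1 (nat_lit 2) (nat_lit 0x2000100018000c0002000000000000000000000000000) (nat_lit 0x0) (nat_lit 0x20001000080000000000000000000000) := D_1 (nat_lit 108) (nat_lit 91) (nat_lit 125) (nat_lit 4) (nat_lit 7) (nat_lit 9) (nat_lit 4) (nat_lit 7) (nat_lit 10) (by decide +kernel)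
theorem L4238302 : W_1 (nat_lit 3) (nat_lit 0x100018000c0002000000000000000000000000000) (nat_lit 0x0) (nat_lit 0x4000200000000000020001000080000000000000000000000) := T_1 (nat_lit 177) (nat_lit 194) (nat_lit 6) (nat_lit 7) (nat_lit 11) L4238301 (by decide +kernel)
theorem L4238598 : W_1 (nat_lit 2) (nat_lit 0x10003c000c0003000000000000000000000000000) (nat_lit 0x0) (nat_lit 0x200000000000030000000000000000000000000000000) := D_1 (nat_lit 125) (nat_lit 124) (nat_lit 177) (nat_lit 3) (nat_lit 5) (nat_lit 7) (nat_lit 4) (nat_lit 7) (nat_lit 10) (by decide +kernel)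
theorem L4238599 : W_1 (nat_lit 3) (nat_lit 0x10003c000c0002000000000000000000000000000) (nat_lit 0x0) (nat_lit 0x200000000000030001000080000000000000000000000) := T_1 (nat_lit 108) (nat_lit 91) (nat_lit 4) (nat_lit 7) (nat_lit 9) L4238598 (by decide +kernel)
theorem L4241176 : W_1 (nat_lit 2) (nat_lit 0x3c000d0003000380000000000000000000000) (nat_lit 0x0) (nat_lit 0xc00400000000000000000000000) := D_1 (nat_lit 107) (nat_lit 106) (nat_lit 94) (nat_lit 3) (nat_lit 4) (nat_lit 6) (nat_lit 1) (nat_lit 9) (nat_lit 5) (by decide +kernel)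
theorem L4241177 : W_1 (nat_lit 3) (nat_lit 0x3c000d0002000380000000000000000000000) (nat_lit 0x0) (nat_lit 0x10000000000001c00400000000000000000000000) := T_1 (nat_lit 108) (nat_lit 160) (nat_lit 4) (nat_lit 7) (nat_lit 9) L4241176 (by decide +kernel)
theorem L4241178 : W_1 (nat_lit 4) (nat_lit 0x3c000d0002000300000000000000000000000) (nat_lit 0x0) (nat_lit 0x10000000000001c00480004000000000000000000) := T_1 (nat_lit 91) (nat_lit 74) (nat_lit 4) (nat_lit 7) (nat_lit 8) L4241177 (by decide +kernel)
theorem L4241179 : W_1 (nat_lit 5) (nat_lit 0x3c000d0002000100000000000000000000000) (nat_lit 0x0) (nat_lit 0x10000000000001c00680014000000000000000000) := T_1 (nat_lit 93) (nat_lit 76) (nat_lit 6) (nat_lit 7) (nat_lit 8) L4241178 (by decide +kernel)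
theorem L4241180 : W_1 (nat_lit 6) (nat_lit 0x3c000d0002000000000000000000000000000) (nat_lit 0x0) (nat_lit 0x10000000000001c0078001c000000000000000000) := T_1 (nat_lit 92) (nat_lit 75) (nat_lit 7) (nat_lit 7) (nat_lit 4) L4241179 (by decide +kernel)
theorem L4241181 : W_1 (nat_lit 7) (nat_lit 0x3c000c0002000000000000000000000000000) (nat_lit 0x0) (nat_lit 0x10000000030001c0078001c000000000000000000) := T_1 (nat_lit 124) (nat_lit 125) (nat_lit 3) (nat_lit 5) (nat_lit 7) L4241180 (by decide +kernel)
theorem L4242417 : W_1 (nat_lit 2) (nat_lit 0x2001a000d00008000c0001000080000000000000) (nat_lit 0x0) (nat_lit 0x40004000000000001000000000000000000000000000) := D_1 (nat_lit 158) (nat_lit 108) (nat_lit 174) (nat_lit 6) (nat_lit 5) (nat_lit 9) (nat_lit 5) (nat_lit 5) (nat_lit 6) (by decide +kernel)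
theorem L4242418 : W_1 (nat_lit 3) (nat_lit 0x1a000d00008000c0001000080000000000000) (nat_lit 0x0) (nat_lit 0x40006000100000001000000000000000000000000000) := T_1 (nat_lit 157) (nat_lit 140) (nat_lit 5) (nat_lit 5) (nat_lit 5) L4242417 (by decide +kernel)
theorem L4242419 : W_1 (nat_lit 4) (nat_lit 0x1a000d0000800040001000080000000000000) (nat_lit 0x0) (nat_lit 0x40006000100000001000080004000000000000000000) := T_1 (nat_lit 91) (nat_lit 74) (nat_lit 6) (nat_lit 5) (nat_lit 8) L4242418 (by decide +kernel)
theorem L4242420 : W_1 (nat_lit 5) (nat_lit 0x1a000d0000800040001000000000000000000) (nat_lit 0x0) (nat_lit 0x40006000100000001000080006000080000000000000) := T_1 (nat_lit 55) (nat_lit 73) (nat_lit 4) (nat_lit 5) (nat_lit 7) L4242419 (by decide +kernel)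
theorem L4242421 : W_1 (nat_lit 6) (nat_lit 0x1a000d0000800040000000000000000000000) (nat_lit 0x0) (nat_lit 0x400060001000000010000a0007000080000000000000) := T_1 (nat_lit 72) (nat_lit 89) (nat_lit 4) (nat_lit 5) (nat_lit 8) L4242420 (by decide +kernel)
theorem L4242422 : W_1 (nat_lit 2) (nat_lit 0x2001a000d0000800060004000200000000000000) (nat_lit 0x0) (nat_lit 0x40004000000000000400000000000000000000000000) := D_1 (nat_lit 158) (nat_lit 106) (nat_lit 174) (nat_lit 4) (nat_lit 5) (nat_lit 9) (nat_lit 5) (nat_lit 5) (nat_lit 6) (by decide +kernel)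
theorem L4242423 : W_1 (nat_lit 3) (nat_lit 0x1a000d0000800060004000200000000000000) (nat_lit 0x0) (nat_lit 0x40006000100000000400000000000000000000000000) := T_1 (nat_lit 157) (nat_lit 140) (nat_lit 5) (nat_lit 5) (nat_lit 5) L4242422 (by decide +kernel)
theorem L4242424 : W_1 (nat_lit 4) (nat_lit 0x1a000d0000800040004000200000000000000) (nat_lit 0x0) (nat_lit 0x40006000100000000400020001000000000000000000) := T_1 (nat_lit 89) (nat_lit 72) (nat_lit 4) (nat_lit 5) (nat_lit 8) L4242423 (by decide +kernel)
theorem L4242425 : W_1 (nat_lit 5) (nat_lit 0x1a000d0000800040004000000000000000000) (nat_lit 0x0) (nat_lit 0x40006000100000000400020003000200000000000000) := T_1 (nat_lit 57) (nat_lit 73) (nat_lit 6) (nat_lit 5) (nat_lit 7) L4242424 (by decide +kernel)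
theorem L4242426 : W_1 (nat_lit 6) (nat_lit 0x1a000d0000800040000000000000000000000) (nat_lit 0x0) (nat_lit 0x400060001000000004000a0007000200000000000000) := T_1 (nat_lit 74) (nat_lit 91) (nat_lit 6) (nat_lit 5) (nat_lit 8) L4242425 (by decide +kernel)
theorem L4242427 : W_1 (nat_lit 2) (nat_lit 0x1a000d0000800040003000000000000000000) (nat_lit 0x0) (nat_lit 0x80004000200000000000000) := D_1 (nat_lit 74) (nat_lit 91) (nat_lit 57) (nat_lit 6) (nat_lit 5) (nat_lit 8) (nat_lit 6) (nat_lit 5) (nat_lit 7) (by decide +kernel)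
theorem L4242428 : W_1 (nat_lit 3) (nat_lit 0x1a000d0000800040001000000000000000000) (nat_lit 0x0) (nat_lit 0x80006000280000000000000) := T_1 (nat_lit 73) (nat_lit 55) (nat_lit 4) (nat_lit 5) (nat_lit 7) L4242427 (by decide +kernel)
theorem L4242429 : W_1 (nat_lit 4) (nat_lit 0x1a000d0000800040000000000000000000000) (nat_lit 0x0) (nat_lit 0xa0007000280000000000000) := T_1 (nat_lit 72) (nat_lit 89) (nat_lit 4) (nat_lit 5) (nat_lit 8) L4242428 (by decide +kernel)
theorem L4242430 : W_1 (nat_lit 2) (nat_lit 0x1a000d0000800040003000000000000000000) (nat_lit 0x0) (nat_lit 0x2000100008000000000000000000000000000000) := D_1 (nat_lit 140) (nat_lit 157) (nat_lit 123) (nat_lit 5) (nat_lit 5) (nat_lit 5) (nat_lit 5) (nat_lit 5) (nat_lit 4) (by decide +kernel)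
theorem L4242431 : W_1 (nat_lit 3) (nat_lit 0x1a000d0000800040001000000000000000000) (nat_lit 0x0) (nat_lit 0x2000100008000000000002000080000000000000) := T_1 (nat_lit 73) (nat_lit 55) (nat_lit 4) (nat_lit 5) (nat_lit 7) L4242430 (by decide +kernel)
theorem L4242432 : W_1 (nat_lit 4) (nat_lit 0x1a000d0000800040000000000000000000000) (nat_lit 0x0) (nat_lit 0x2000100008000000020003000080000000000000) := T_1 (nat_lit 72) (nat_lit 89) (nat_lit 4) (nat_lit 5) (nat_lit 8) L4242431 (by decide +kernel)
theorem L4242433 : W_1 (nat_lit 2) (nat_lit 0x1b000d00008000e0000000000000000000000) (nat_lit 0x0) (nat_lit 0x4000000000001400000000000000000000000000) := D_1 (nat_lit 158) (nat_lit 108) (nat_lit 106) (nat_lit 6) (nat_lit 5) (nat_lit 9) (nat_lit 4) (nat_lit 5) (nat_lit 9) (by decide +kernel)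
theorem L4242434 : W_1 (nat_lit 3) (nat_lit 0x1b000d00008000c0000000000000000000000) (nat_lit 0x0) (nat_lit 0x4000000000001400020001000000000000000000) := T_1 (nat_lit 89) (nat_lit 72) (nat_lit 4) (nat_lit 5) (nat_lit 8) L4242433 (by decide +kernel)
theorem L4242435 : W_1 (nat_lit 4) (nat_lit 0x1b000d0000800040000000000000000000000) (nat_lit 0x0) (nat_lit 0x40000000000014000a0005000000000000000000) := T_1 (nat_lit 91) (nat_lit 74) (nat_lit 6) (nat_lit 5) (nat_lit 8) L4242434 (by decide +kernel)
theorem L4242436 : W_1 (nat_lit 5) (nat_lit 0x1a000d0000800040000000000000000000000) (nat_lit 0x0) (nat_lit 0x60001000000014000a0005000000000000000000) := T_1 (nat_lit 140) (nat_lit 157) (nat_lit 5) (nat_lit 5) (nat_lit 5) L4242435 (by decide +kernel)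
theorem L4242437 : W_1 (nat_lit 2) (nat_lit 0x1a000d0000800040006000000000000000000) (nat_lit 0x0) (nat_lit 0x2000100008000000000000000000000000000000) := D_1 (nat_lit 140) (nat_lit 157) (nat_lit 123) (nat_lit 5) (nat_lit 5) (nat_lit 5) (nat_lit 5) (nat_lit 5) (nat_lit 4) (by decide +kernel)
theorem L4242438 : W_1 (nat_lit 3) (nat_lit 0x1a000d0000800040004000000000000000000) (nat_lit 0x0) (nat_lit 0x2000100008000000000002000200000000000000) := T_1 (nat_lit 73) (nat_lit 57) (nat_lit 6) (nat_lit 5) (nat_lit 7) L4242437 (by decide +kernel)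
theorem L4242439 : W_1 (nat_lit 4) (nat_lit 0x1a000d0000800040000000000000000000000) (nat_lit 0x0) (nat_lit 0x2000100008000000080006000200000000000000) := T_1 (nat_lit 74) (nat_lit 91) (nat_lit 6) (nat_lit 5) (nat_lit 8) L4242438 (by decide +kernel)
theorem L4242440 : W_1 (nat_lit 7) (nat_lit 0x1a000d0000800000000000000000000000000) (nat_lit 0x0) (nat_lit 0x400060001000080014000e0007000280000000000000) := Q_1 (nat_lit 90) (C_1 L4242421 (C_1 L4242426 (C_1 L4242429 (C_1 L4242432 (C_1 L4242436 (C_1 L4242439 N_1)))))) (by decide +kernel)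
theorem L4242441 : W_1 (nat_lit 2) (nat_lit 0x1b000d0000c000e0000000000000000000000) (nat_lit 0x0) (nat_lit 0x300100000000000000000000000) := D_1 (nat_lit 105) (nat_lit 104) (nat_lit 92) (nat_lit 2) (nat_lit 2) (nat_lit 6) (nat_lit 1) (nat_lit 7) (nat_lit 5) (by decide +kernel)
theorem L4242442 : W_1 (nat_lit 3) (nat_lit 0x1b000d0000c00060000000000000000000000) (nat_lit 0x0) (nat_lit 0x300180004000000000000000000) := T_1 (nat_lit 91) (nat_lit 74) (nat_lit 6) (nat_lit 5) (nat_lit 8) L4242441 (by decide +kernel)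
theorem L4242443 : W_1 (nat_lit 4) (nat_lit 0x1b000d0000800060000000000000000000000) (nat_lit 0x0) (nat_lit 0x4000000000000700180004000000000000000000) := T_1 (nat_lit 106) (nat_lit 158) (nat_lit 4) (nat_lit 5) (nat_lit 9) L4242442 (by decide +kernel)
theorem L4242444 : W_1 (nat_lit 5) (nat_lit 0x1a000d0000800060000000000000000000000) (nat_lit 0x0) (nat_lit 0x6000100000000700180004000000000000000000) := T_1 (nat_lit 140) (nat_lit 157) (nat_lit 5) (nat_lit 5) (nat_lit 5) L4242443 (by decide +kernel)
theorem L4242445 : W_1 (nat_lit 6) (nat_lit 0x1a000d0000800040000000000000000000000) (nat_lit 0x0) (nat_lit 0x60001000000007001a0005000000000000000000) := T_1 (nat_lit 89) (nat_lit 72) (nat_lit 4) (nat_lit 5) (nat_lit 8) L4242444 (by decide +kernel)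
theorem L4242446 : W_1 (nat_lit 7) (nat_lit 0x1a000d0000800000000000000000000000000) (nat_lit 0x0) (nat_lit 0x60001000080007001e0007000280000000000000) := Q_1 (nat_lit 90) (C_1 L4242439 (C_1 L4242432 (C_1 L4242429 (C_1 L4242445 N_1)))) (by decide +kernel)
theorem L4242447 : W_1 (nat_lit 2) (nat_lit 0x1a000d0002800000000000000000000000000) (nat_lit 0x0) (nat_lit 0x400020000000000000000100000000000000000000000) := D_1 (nat_lit 161) (nat_lit 178) (nat_lit 92) (nat_lit 4) (nat_lit 8) (nat_lit 10) (nat_lit 7) (nat_lit 7) (nat_lit 5) (by decide +kernel)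
theorem L4242448 : W_1 (nat_lit 5) (nat_lit 0x1a000d0002800000000000000000000000000) (nat_lit 0x0) (nat_lit 0x14003c001c000000000000000000) := T_1 (nat_lit 106) (nat_lit 108) (nat_lit 3) (nat_lit 4) (nat_lit 6) L880154 (by decide +kernel)
theorem L4242449 : W_1 (nat_lit 3) (nat_lit 0x20001a000d0003800000000000000000000000000) (nat_lit 0x0) (nat_lit 0x100000000000000000c0004000200000000000000) := T_1 (nat_lit 91) (nat_lit 160) (nat_lit 4) (nat_lit 7) (nat_lit 9) L3752085 (by decide +kernel)
theorem L4242450 : W_1 (nat_lit 4) (nat_lit 0x20001a000d0002800000000000000000000000000) (nat_lit 0x0) (nat_lit 0x100000000000014000c0004000200000000000000) := T_1 (nat_lit 108) (nat_lit 106) (nat_lit 3) (nat_lit 4) (nat_lit 6) L4242449 (by decide +kernel)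
theorem L4242451 : W_1 (nat_lit 5) (nat_lit 0x1a000d0002800000000000000000000000000) (nat_lit 0x0) (nat_lit 0x4000300000000000014000c0004000200000000000000) := T_1 (nat_lit 161) (nat_lit 178) (nat_lit 4) (nat_lit 8) (nat_lit 10) L4242450 (by decide +kernel)
theorem L4242452 : W_1 (nat_lit 6) (nat_lit 0x1a000d0000800000000000000000000000000) (nat_lit 0x0) (nat_lit 0x4000300000000000034003c001c000200000000000000) := Q_1 (nat_lit 109) (C_1 L4242447 (C_1 L4242448 (C_1 L4242451 N_1))) (by decide +kernel)
theorem L4242453 : W_1 (nat_lit 5) (nat_lit 0x1a000d0000800000000000000000000000000) (nat_lit 0x0) (nat_lit 0x400024000000000003400160001000080000000000000) := Q_1 (nat_lit 109) (C_1 L4242447 (C_1 L3752560 N_1)) (by decide +kernel)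
theorem L4242454 : W_1 (nat_lit 4) (nat_lit 0x1a000d0002c00000000000000000000000000) (nat_lit 0x0) (nat_lit 0x4000000008000000120009000080000000000000) := T_1 (nat_lit 75) (nat_lit 92) (nat_lit 7) (nat_lit 7) (nat_lit 4) L837917 (by decide +kernel)
theorem L4242455 : W_1 (nat_lit 5) (nat_lit 0x1a000d0002800000000000000000000000000) (nat_lit 0x0) (nat_lit 0x4000000008001400120009000080000000000000) := T_1 (nat_lit 106) (nat_lit 108) (nat_lit 3) (nat_lit 4) (nat_lit 6) L4242454 (by decide +kernel)
theorem L4242456 : W_1 (nat_lit 2) (nat_lit 0x20001a000d0002c00020000000000000000000000) (nat_lit 0x0) (nat_lit 0x8000000000001000080000000000000) := D_1 (nat_lit 72) (nat_lit 55) (nat_lit 123) (nat_lit 7) (nat_lit 4) (nat_lit 3) (nat_lit 7) (nat_lit 4) (nat_lit 4) (by decide +kernel)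
theorem L4242457 : W_1 (nat_lit 3) (nat_lit 0x20001a000d0002c00000000000000000000000000) (nat_lit 0x0) (nat_lit 0x4000000008000000020001000080000000000000) := T_1 (nat_lit 89) (nat_lit 158) (nat_lit 4) (nat_lit 5) (nat_lit 9) L4242456 (by decide +kernel)
theorem L4242458 : W_1 (nat_lit 4) (nat_lit 0x1a000d0002c00000000000000000000000000) (nat_lit 0x0) (nat_lit 0x400024000000008000000020001000080000000000000) := T_1 (nat_lit 161) (nat_lit 178) (nat_lit 4) (nat_lit 8) (nat_lit 10) L4242457 (by decide +kernel)
theorem L4242459 : W_1 (nat_lit 5) (nat_lit 0x1a000d0002800000000000000000000000000) (nat_lit 0x0) (nat_lit 0x400024000000008001400020001000080000000000000) := T_1 (nat_lit 106) (nat_lit 108) (nat_lit 3) (nat_lit 4) (nat_lit 6) L4242458 (by decide +kernel)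
theorem L4242460 : W_1 (nat_lit 6) (nat_lit 0x1a000d0000800000000000000000000000000) (nat_lit 0x0) (nat_lit 0x400024000000008003400120009000080000000000000) := Q_1 (nat_lit 109) (C_1 L4242447 (C_1 L4242455 (C_1 L4242459 N_1))) (by decide +kernel)
theorem L4242461 : W_1 (nat_lit 2) (nat_lit 0x1b000d00038000c0001000000000000000000) (nat_lit 0x0) (nat_lit 0x400020000000000000000100000000000000000000000) := D_1 (nat_lit 161) (nat_lit 178) (nat_lit 92) (nat_lit 4) (nat_lit 8) (nat_lit 10) (nat_lit 7) (nat_lit 7) (nat_lit 5) (by decide +kernel)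
theorem L4242462 : W_1 (nat_lit 3) (nat_lit 0x1b000d00018000c0001000000000000000000) (nat_lit 0x0) (nat_lit 0x400030000000000002000100000000000000000000000) := T_1 (nat_lit 109) (nat_lit 160) (nat_lit 4) (nat_lit 7) (nat_lit 9) L4242461 (by decide +kernel)
theorem L4242463 : W_1 (nat_lit 4) (nat_lit 0x1b000d00008000c0001000000000000000000) (nat_lit 0x0) (nat_lit 0x400034000000000003000100000000000000000000000) := T_1 (nat_lit 108) (nat_lit 158) (nat_lit 6) (nat_lit 5) (nat_lit 9) L4242462 (by decide +kernel)
theorem L4242464 : W_1 (nat_lit 5) (nat_lit 0x1b000d0000800040001000000000000000000) (nat_lit 0x0) (nat_lit 0x400034000000000003000180004000000000000000000) := T_1 (nat_lit 91) (nat_lit 74) (nat_lit 6) (nat_lit 5) (nat_lit 8) L4242463 (by decide +kernel)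
theorem L4242465 : W_1 (nat_lit 6) (nat_lit 0x1a000d0000800040001000000000000000000) (nat_lit 0x0) (nat_lit 0x400036000100000003000180004000000000000000000) := T_1 (nat_lit 140) (nat_lit 157) (nat_lit 5) (nat_lit 5) (nat_lit 5) L4242464 (by decide +kernel)
theorem L4242466 : W_1 (nat_lit 7) (nat_lit 0x1a000d0000800040000000000000000000000) (nat_lit 0x0) (nat_lit 0x4000360001000000030001a0005000000000000000000) := T_1 (nat_lit 72) (nat_lit 89) (nat_lit 4) (nat_lit 5) (nat_lit 8) L4242465 (by decide +kernel)
theorem L4242467 : W_1 (nat_lit 8) (nat_lit 0x1a000d0000800000000000000000000000000) (nat_lit 0x0) (nat_lit 0x4000360001000080030001e0007000280000000000000) := Q_1 (nat_lit 90) (C_1 L4242439 (C_1 L4242432 (C_1 L4242429 (C_1 L4242466 N_1)))) (by decide +kernel)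
theorem L4242468 : W_1 (nat_lit 9) (nat_lit 0x1a000d0000000000000000000000000000000) (nat_lit 0x0) (nat_lit 0x440036000100008003f003e001f000280000000000000) := Q_1 (nat_lit 107) (C_1 L4242440 (C_1 L4242446 (C_1 L4242452 (C_1 L4242453 (C_1 L4242460 (C_1 L4242467 N_1)))))) (by decide +kernel)
theorem L4242469 : W_1 (nat_lit 4) (nat_lit 0x1a000d0000000000000000000000000000000) (nat_lit 0x0) (nat_lit 0x400060000400008002000100000000000000000000000) := T_1 (nat_lit 142) (nat_lit 123) (nat_lit 0) (nat_lit 8) (nat_lit 8) L14790 (by decide +kernel)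
theorem L4242470 : W_1 (nat_lit 10) (nat_lit 0x18000d0000000000000000000000000000000) (nat_lit 0x0) (nat_lit 0x440076000700008003f003e001f000280000000000000) := Q_1 (nat_lit 141) (C_1 L21550 (C_1 L79247 (C_1 L4242468 (C_1 L4242469 N_1)))) (by decide +kernel)
theorem L4242471 : W_1 (nat_lit 8) (nat_lit 0x18000d0002000000000000000000000000000) (nat_lit 0x0) (nat_lit 0x480066002700020001c00080000000000000000000000) := T_1 (nat_lit 125) (nat_lit 145) (nat_lit 3) (nat_lit 5) (nat_lit 7) L71086 (by decide +kernel)
theorem L4242472 : W_1 (nat_lit 2) (nat_lit 0x19000f0002800380000000000000000000000) (nat_lit 0x0) (nat_lit 0x10000000000001000400000000000000000000000) := D_1 (nat_lit 108) (nat_lit 160) (nat_lit 94) (nat_lit 4) (nat_lit 7) (nat_lit 9) (nat_lit 1) (nat_lit 9) (nat_lit 5) (by decide +kernel)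
theorem L4242473 : W_1 (nat_lit 3) (nat_lit 0x19000f0002800180000000000000000000000) (nat_lit 0x0) (nat_lit 0x10000000000001000600010000000000000000000) := T_1 (nat_lit 93) (nat_lit 76) (nat_lit 6) (nat_lit 7) (nat_lit 8) L4242472 (by decide +kernel)
theorem L4242474 : W_1 (nat_lit 4) (nat_lit 0x19000f0002800100000000000000000000000) (nat_lit 0x0) (nat_lit 0x10000000000001000680014000000000000000000) := T_1 (nat_lit 91) (nat_lit 74) (nat_lit 4) (nat_lit 7) (nat_lit 8) L4242473 (by decide +kernel)
theorem L4242475 : W_1 (nat_lit 5) (nat_lit 0x19000f0002000100000000000000000000000) (nat_lit 0x0) (nat_lit 0x10000000000001c00680014000000000000000000) := T_1 (nat_lit 107) (nat_lit 106) (nat_lit 0) (nat_lit 8) (nat_lit 7) L4242474 (by decide +kernel)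
theorem L4242476 : W_1 (nat_lit 6) (nat_lit 0x18000f0002000100000000000000000000000) (nat_lit 0x0) (nat_lit 0x10000300000001c00680014000000000000000000) := T_1 (nat_lit 140) (nat_lit 141) (nat_lit 1) (nat_lit 8) (nat_lit 7) L4242475 (by decide +kernel)
theorem L4242477 : W_1 (nat_lit 7) (nat_lit 0x18000d0002000100000000000000000000000) (nat_lit 0x0) (nat_lit 0x10002300020001c00680014000000000000000000) := T_1 (nat_lit 125) (nat_lit 145) (nat_lit 3) (nat_lit 5) (nat_lit 7) L4242476 (by decide +kernel)
theorem L4242478 : W_1 (nat_lit 8) (nat_lit 0x18000d0002000000000000000000000000000) (nat_lit 0x0) (nat_lit 0x10002300020001c0078001c000000000000000000) := T_1 (nat_lit 92) (nat_lit 75) (nat_lit 7) (nat_lit 7) (nat_lit 4) L4242477 (by decide +kernel)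
theorem L4242479 : W_1 (nat_lit 9) (nat_lit 0x18000d0000000000000000000000000000000) (nat_lit 0x0) (nat_lit 0x480076002700020003c0078001c000000000000000000) := Q_1 (nat_lit 109) (C_1 L4242471 (C_1 L72849 (C_1 L4242478 N_1))) (by decide +kernel)
theorem L4242480 : W_1 (nat_lit 11) (nat_lit 0x18000c0000000000000000000000000000000) (nat_lit 0x0) (nat_lit 0x4c0076002700038003f007e001f000280000000000000) := Q_1 (nat_lit 124) (C_1 L79349 (C_1 L1816 (C_1 L4242470 (C_1 L4242479 N_1)))) (by decide +kernel)
theorem L4242481 : W_1 (nat_lit 11) (nat_lit 0x18000c0000000000000000000000000000000) (nat_lit 0x0) (nat_lit 0x3f001fc007e006700038003c000c0002000000000000000000) := Q_1 (nat_lit 125) (C_1 L21775 (C_1 L259398 (C_1 L1811 N_1))) (by decide +kernel)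
theorem L4242482 : W_1 (nat_lit 4) (nat_lit 0x380038000c0003800000000000000000000000000) (nat_lit 0x0) (nat_lit 0x40000700030000000040000000000000000000000) := T_1 (nat_lit 125) (nat_lit 124) (nat_lit 3) (nat_lit 5) (nat_lit 7) L66802 (by decide +kernel)
theorem L4242483 : W_1 (nat_lit 5) (nat_lit 0x380018000c0003800000000000000000000000000) (nat_lit 0x0) (nat_lit 0x40006700030000000040000000000000000000000) := T_1 (nat_lit 145) (nat_lit 146) (nat_lit 1) (nat_lit 10) (nat_lit 8) L4242482 (by decide +kernel)
theorem L4242484 : W_1 (nat_lit 6) (nat_lit 0x300018000c0003800000000000000000000000000) (nat_lit 0x0) (nat_lit 0x100048006700030000000040000000000000000000000) := T_1 (nat_lit 159) (nat_lit 176) (nat_lit 5) (nat_lit 7) (nat_lit 6) L4242483 (by decide +kernel)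
theorem L4242485 : W_1 (nat_lit 7) (nat_lit 0x300018000c0003000000000000000000000000000) (nat_lit 0x0) (nat_lit 0x100048006700030000c00040000000000000000000000) := T_1 (nat_lit 107) (nat_lit 106) (nat_lit 3) (nat_lit 4) (nat_lit 6) L4242484 (by decide +kernel)
theorem L4242486 : W_1 (nat_lit 8) (nat_lit 0x100018000c0003000000000000000000000000000) (nat_lit 0x0) (nat_lit 0x500068006700030000c00040000000000000000000000) := T_1 (nat_lit 161) (nat_lit 178) (nat_lit 7) (nat_lit 7) (nat_lit 6) L4242485 (by decide +kernel)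
theorem L4242487 : W_1 (nat_lit 9) (nat_lit 0x100018000c0002000000000000000000000000000) (nat_lit 0x0) (nat_lit 0x500068006700030001c000c0000000000000000000000) := T_1 (nat_lit 108) (nat_lit 91) (nat_lit 4) (nat_lit 7) (nat_lit 9) L4242486 (by decide +kernel)
theorem L4242488 : W_1 (nat_lit 10) (nat_lit 0x18000c0002000000000000000000000000000) (nat_lit 0x0) (nat_lit 0x6000700078006700030001c000c0000000000000000000000) := Q_1 (nat_lit 160) (C_1 L4238302 (C_1 L258228 (C_1 L4242487 N_1))) (by decide +kernel)
theorem L4242489 : W_1 (nat_lit 11) (nat_lit 0x18000c0000000000000000000000000000000) (nat_lit 0x0) (nat_lit 0x6000700078006700030003c007c001c000000000000000000) := Q_1 (nat_lit 109) (C_1 L252800 (C_1 L3113 (C_1 L4242488 N_1))) (by decide +kernel)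
theorem L4242490 : W_1 (nat_lit 15) (nat_lit 0x1800080000000000000000000000000000000) (nat_lit 0x0) (nat_lit 0x3f001fc007e00e700678003f007e003f000280000000000000) := Q_1 (nat_lit 126) (C_1 L261937 (C_1 L257116 (C_1 L4236564 (C_1 L22151 (C_1 L4236572 (C_1 L4236573 (C_1 L4242480 (C_1 L4242481 (C_1 L4242489 N_1))))))))) (by decide +kernel)
theorem L4242493 : W_1 (nat_lit 4) (nat_lit 0x200018001c0000000000000000000000000000000) (nat_lit 0x0) (nat_lit 0x6000038019c00400000000000000000000000) := Q_1 (nat_lit 125) (C_1 L863102 (C_1 L820403 N_1)) (by decide +kernel)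
theorem L4242507 : W_1 (nat_lit 6) (nat_lit 0x200018001a0000000000000000000000000000000) (nat_lit 0x0) (nat_lit 0x700058003c0018000c000000000000000000) := Q_1 (nat_lit 126) (C_1 L861667 (C_1 L820403 (C_1 L861665 N_1))) (by decide +kernel)
theorem L4242508 : W_1 (nat_lit 4) (nat_lit 0x200018001a0000000000000000000000000000000) (nat_lit 0x0) (nat_lit 0x6000058019c00400000000000000000000000) := Q_1 (nat_lit 126) (C_1 L863102 (C_1 L820403 N_1)) (by decide +kernel)
theorem L4242668 : W_1 (nat_lit 2) (nat_lit 0x20001c001b0000000000000000000000000000000) (nat_lit 0x0) (nat_lit 0x4c000000000000000000000000000000) := D_1 (nat_lit 123) (nat_lit 122) (nat_lit 126) (nat_lit 3) (nat_lit 3) (nat_lit 7) (nat_lit 3) (nat_lit 4) (nat_lit 7) (by decide +kernel)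
theorem L4244363 : W_1 (nat_lit 7) (nat_lit 0x18001a0000000000000000000000000000000) (nat_lit 0x0) (nat_lit 0x28000700058003c0018000c000000000000000000) := Q_1 (nat_lit 126) (C_1 L72604 (C_1 L21711 (C_1 L20975 N_1))) (by decide +kernel)
theorem L4244762 : W_1 (nat_lit 2) (nat_lit 0x5000100008001c001b4000000000000000000000000000000) (nat_lit 0x0) (nat_lit 0xa0002000000000000000000000000000000000000000000000000) := D_1 (nat_lit 193) (nat_lit 209) (nat_lit 211) (nat_lit 5) (nat_lit 6) (nat_lit 8) (nat_lit 7) (nat_lit 6) (nat_lit 8) (by decide +kernel)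
theorem L4244763 : W_1 (nat_lit 3) (nat_lit 0x1000100008001c001b4000000000000000000000000000000) (nat_lit 0x0) (nat_lit 0xa0006000200000000000000000000000000000000000000000000) := T_1 (nat_lit 194) (nat_lit 177) (nat_lit 7) (nat_lit 6) (nat_lit 7) L4244762 (by decide +kernel)
theorem L4244764 : W_1 (nat_lit 4) (nat_lit 0x100008001c001b4000000000000000000000000000000) (nat_lit 0x0) (nat_lit 0xa0007000280000000000000000000000000000000000000000000) := T_1 (nat_lit 192) (nat_lit 175) (nat_lit 5) (nat_lit 6) (nat_lit 7) L4244763 (by decide +kernel)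
theorem L4244765 : W_1 (nat_lit 5) (nat_lit 0x8001c001b4000000000000000000000000000000) (nat_lit 0x0) (nat_lit 0xa0007000380000000000000000800000000000000000000000000) := T_1 (nat_lit 176) (nat_lit 107) (nat_lit 4) (nat_lit 6) (nat_lit 10) L4244764 (by decide +kernel)
theorem L4244870 : W_1 (nat_lit 2) (nat_lit 0x1c001a0001800040000000000000000000000) (nat_lit 0x0) (nat_lit 0x80002000100000000000000) := D_1 (nat_lit 73) (nat_lit 91) (nat_lit 56) (nat_lit 4) (nat_lit 6) (nat_lit 8) (nat_lit 7) (nat_lit 5) (nat_lit 3) (by decide +kernel)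
theorem L4244871 : W_1 (nat_lit 3) (nat_lit 0x1c001a0001800000000000000000000000000) (nat_lit 0x0) (nat_lit 0x80000000000000000c0002000100000000000000) := T_1 (nat_lit 90) (nat_lit 159) (nat_lit 4) (nat_lit 6) (nat_lit 9) L4244870 (by decide +kernel)
theorem L4244910 : W_1 (nat_lit 2) (nat_lit 0x80008001c001a0001800000000000000000000000000) (nat_lit 0x0) (nat_lit 0x1000100000000000010000000000000000000000000000000) := D_1 (nat_lit 176) (nat_lit 124) (nat_lit 192) (nat_lit 4) (nat_lit 6) (nat_lit 10) (nat_lit 5) (nat_lit 6) (nat_lit 7) (by decide +kernel)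
theorem L4244911 : W_1 (nat_lit 3) (nat_lit 0x8001c001a0001800000000000000000000000000) (nat_lit 0x0) (nat_lit 0x1000180004000000010000000000000000000000000000000) := T_1 (nat_lit 175) (nat_lit 158) (nat_lit 5) (nat_lit 6) (nat_lit 6) L4244910 (by decide +kernel)
theorem L4244912 : W_1 (nat_lit 4) (nat_lit 0x8001c001a0001000000000000000000000000000) (nat_lit 0x0) (nat_lit 0x1000180004000000010000800040000000000000000000000) := T_1 (nat_lit 107) (nat_lit 90) (nat_lit 4) (nat_lit 6) (nat_lit 9) L4244911 (by decide +kernel)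
theorem L4244913 : W_1 (nat_lit 2) (nat_lit 0x8001c001a00010000c0000000000000000000000) (nat_lit 0x0) (nat_lit 0x2000100008000000000000000000) := D_1 (nat_lit 92) (nat_lit 109) (nat_lit 75) (nat_lit 6) (nat_lit 6) (nat_lit 9) (nat_lit 6) (nat_lit 6) (nat_lit 8) (by decide +kernel)
theorem L4244914 : W_1 (nat_lit 3) (nat_lit 0x8001c001a0001000040000000000000000000000) (nat_lit 0x0) (nat_lit 0x200018000a000000000000000000) := T_1 (nat_lit 91) (nat_lit 73) (nat_lit 4) (nat_lit 6) (nat_lit 8) L4244913 (by decide +kernel)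
theorem L4244915 : W_1 (nat_lit 4) (nat_lit 0x8001c001a0001000000000000000000000000000) (nat_lit 0x0) (nat_lit 0x28001c000a000000000000000000) := T_1 (nat_lit 90) (nat_lit 107) (nat_lit 4) (nat_lit 6) (nat_lit 9) L4244914 (by decide +kernel)
theorem L4244917 : W_1 (nat_lit 3) (nat_lit 0x1c001a0001000100000000000000000000000) (nat_lit 0x0) (nat_lit 0x8000000000002000080008000400000000000000) := T_1 (nat_lit 75) (nat_lit 91) (nat_lit 6) (nat_lit 6) (nat_lit 8) L2822193 (by decide +kernel)
theorem L4244999 : W_1 (nat_lit 2) (nat_lit 0x5000100008001c001a0000800000000000000000000000000) (nat_lit 0x0) (nat_lit 0xa0002000000000000000000000000000000000000000000000000) := D_1 (nat_lit 193) (nat_lit 211) (nat_lit 209) (nat_lit 7) (nat_lit 6) (nat_lit 8) (nat_lit 5) (nat_lit 6) (nat_lit 8) (by decide +kernel)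
theorem L4245000 : W_1 (nat_lit 3) (nat_lit 0x4000100008001c001a0000800000000000000000000000000) (nat_lit 0x0) (nat_lit 0xa0003000080000000000000000000000000000000000000000000) := T_1 (nat_lit 192) (nat_lit 175) (nat_lit 5) (nat_lit 6) (nat_lit 7) L4244999 (by decide +kernel)
theorem L4245001 : W_1 (nat_lit 4) (nat_lit 0x100008001c001a0000800000000000000000000000000) (nat_lit 0x0) (nat_lit 0xa0007000280000000000000000000000000000000000000000000) := T_1 (nat_lit 194) (nat_lit 177) (nat_lit 7) (nat_lit 6) (nat_lit 7) L4245000 (by decide +kernel)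
theorem L4245002 : W_1 (nat_lit 5) (nat_lit 0x100008001c001a0000000000000000000000000000000) (nat_lit 0x0) (nat_lit 0xa0007000280000000000010000800000000000000000000000000) := T_1 (nat_lit 107) (nat_lit 124) (nat_lit 4) (nat_lit 6) (nat_lit 10) L4245001 (by decide +kernel)
theorem L4245003 : W_1 (nat_lit 2) (nat_lit 0x38000c001c001a0000000000000000000000000000000) (nat_lit 0x0) (nat_lit 0x400003000000000000000000000000000000000000000) := D_1 (nat_lit 157) (nat_lit 156) (nat_lit 178) (nat_lit 3) (nat_lit 3) (nat_lit 9) (nat_lit 0) (nat_lit 8) (nat_lit 10) (by decide +kernel)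
theorem L4245004 : W_1 (nat_lit 3) (nat_lit 0x380008001c001a0000000000000000000000000000000) (nat_lit 0x0) (nat_lit 0x400007000000000001000000000000000000000000000) := T_1 (nat_lit 158) (nat_lit 108) (nat_lit 5) (nat_lit 6) (nat_lit 6) L4245003 (by decide +kernel)
theorem L4245005 : W_1 (nat_lit 4) (nat_lit 0x300008001c001a0000000000000000000000000000000) (nat_lit 0x0) (nat_lit 0x1000480007000000000001000000000000000000000000000) := T_1 (nat_lit 175) (nat_lit 192) (nat_lit 5) (nat_lit 6) (nat_lit 7) L4245004 (by decide +kernel)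
theorem L4245006 : W_1 (nat_lit 5) (nat_lit 0x100008001c001a0000000000000000000000000000000) (nat_lit 0x0) (nat_lit 0x5000680007000000000001000000000000000000000000000) := T_1 (nat_lit 177) (nat_lit 194) (nat_lit 7) (nat_lit 6) (nat_lit 7) L4245005 (by decide +kernel)
theorem L4245009 : W_1 (nat_lit 6) (nat_lit 0x8001c001b0000000000000000000000000000000) (nat_lit 0x0) (nat_lit 0xa000700038000000000000c000800000000000000000000000000) := T_1 (nat_lit 122) (nat_lit 123) (nat_lit 3) (nat_lit 3) (nat_lit 7) L4244765 (by decide +kernel)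
theorem L4245090 : W_1 (nat_lit 2) (nat_lit 0x5000100008003c001a0000000000000000000000000000000) (nat_lit 0x0) (nat_lit 0xa0002000000000000000000000000000000000000000000000000) := D_1 (nat_lit 193) (nat_lit 211) (nat_lit 209) (nat_lit 7) (nat_lit 6) (nat_lit 8) (nat_lit 5) (nat_lit 6) (nat_lit 8) (by decide +kernel)
theorem L4245091 : W_1 (nat_lit 3) (nat_lit 0x4000100008003c001a0000000000000000000000000000000) (nat_lit 0x0) (nat_lit 0xa0003000080000000000000000000000000000000000000000000) := T_1 (nat_lit 192) (nat_lit 175) (nat_lit 5) (nat_lit 6) (nat_lit 7) L4245090 (by decide +kernel)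
theorem L4250465 : W_1 (nat_lit 2) (nat_lit 0x1c001b4001000180006800200010000000000) (nat_lit 0x0) (nat_lit 0x400020001000000) := D_1 (nat_lit 41) (nat_lit 24) (nat_lit 58) (nat_lit 6) (nat_lit 6) (nat_lit 5) (nat_lit 6) (nat_lit 6) (nat_lit 6) (by decide +kernel)
theorem L4250466 : W_1 (nat_lit 3) (nat_lit 0x1c001b4001000180006800200000000000000) (nat_lit 0x0) (nat_lit 0x2000000000000400030001000000) := T_1 (nat_lit 40) (nat_lit 109) (nat_lit 7) (nat_lit 6) (nat_lit 2) L4250465 (by decide +kernel)
theorem L4252307 : W_1 (nat_lit 4) (nat_lit 0x100008003c001a0000000000000000000000000000000) (nat_lit 0x0) (nat_lit 0xa0007000280000000000000000000000000000000000000000000) := T_1 (nat_lit 194) (nat_lit 177) (nat_lit 7) (nat_lit 6) (nat_lit 7) L4245091 (by decide +kernel)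
theorem L4252308 : W_1 (nat_lit 5) (nat_lit 0x100008003c00180000000000000000000000000000000) (nat_lit 0x0) (nat_lit 0xa0007000280000000000030000000000000000000000000000000) := T_1 (nat_lit 125) (nat_lit 124) (nat_lit 0) (nat_lit 9) (nat_lit 8) L4252307 (by decide +kernel)
theorem L4252341 : W_1 (nat_lit 4) (nat_lit 0x8003c00180000000000000000000000000000000) (nat_lit 0x0) (nat_lit 0x2000100000004000070002000000000000000000000000000) := T_1 (nat_lit 125) (nat_lit 124) (nat_lit 0) (nat_lit 9) (nat_lit 8) L14951 (by decide +kernel)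
theorem L4252342 : W_1 (nat_lit 5) (nat_lit 0x8001c00180000000000000000000000000000000) (nat_lit 0x0) (nat_lit 0x2000100004006000070002000000000000000000000000000) := T_1 (nat_lit 145) (nat_lit 158) (nat_lit 1) (nat_lit 9) (nat_lit 8) L4252341 (by decide +kernel)
theorem L4252343 : W_1 (nat_lit 2) (nat_lit 0x1000180008001c00180000000000000000000000000000000) (nat_lit 0x0) (nat_lit 0x20002000000004000000000000000000000000000000000000000) := D_1 (nat_lit 209) (nat_lit 193) (nat_lit 158) (nat_lit 5) (nat_lit 6) (nat_lit 8) (nat_lit 6) (nat_lit 5) (nat_lit 12) (by decide +kernel)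
theorem L4252344 : W_1 (nat_lit 3) (nat_lit 0x1000100008001c00180000000000000000000000000000000) (nat_lit 0x0) (nat_lit 0x20002000080004000000020000000000000000000000000000000) := T_1 (nat_lit 175) (nat_lit 125) (nat_lit 5) (nat_lit 6) (nat_lit 7) L4252343 (by decide +kernel)
theorem L4252345 : W_1 (nat_lit 3) (nat_lit 0x7000100008001c00180000000000000000000000000000000) (nat_lit 0x0) (nat_lit 0x800600020000000020000000000000000000000000000000) := T_1 (nat_lit 177) (nat_lit 125) (nat_lit 7) (nat_lit 6) (nat_lit 7) L313183 (by decide +kernel)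
theorem L4252346 : W_1 (nat_lit 4) (nat_lit 0x3000100008001c00180000000000000000000000000000000) (nat_lit 0x0) (nat_lit 0x80004800600020000000020000000000000000000000000000000) := T_1 (nat_lit 194) (nat_lit 211) (nat_lit 7) (nat_lit 6) (nat_lit 8) L4252345 (by decide +kernel)
theorem L4252347 : W_1 (nat_lit 5) (nat_lit 0x1000100008001c00180000000000000000000000000000000) (nat_lit 0x0) (nat_lit 0xa0006800600020000000020000000000000000000000000000000) := T_1 (nat_lit 193) (nat_lit 209) (nat_lit 5) (nat_lit 6) (nat_lit 8) L4252346 (by decide +kernel)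
theorem L4252348 : W_1 (nat_lit 2) (nat_lit 0x20001000100008001c00180000000000000000000000000000000) (nat_lit 0x0) (nat_lit 0x400000000000080004000000000000000000000000000000000000000) := D_1 (nat_lit 175) (nat_lit 158) (nat_lit 226) (nat_lit 6) (nat_lit 5) (nat_lit 12) (nat_lit 6) (nat_lit 5) (nat_lit 13) (by decide +kernel)
theorem L4252349 : W_1 (nat_lit 3) (nat_lit 0x1000100008001c00180000000000000000000000000000000) (nat_lit 0x0) (nat_lit 0x400020002000080004000000000000000000000000000000000000000) := T_1 (nat_lit 209) (nat_lit 193) (nat_lit 5) (nat_lit 6) (nat_lit 8) L4252348 (by decide +kernel)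
theorem L4252350 : W_1 (nat_lit 2) (nat_lit 0x1000180008001c00180000000000000000000000000000000) (nat_lit 0x0) (nat_lit 0x400020000000000004000000000000000000000000000000000000000) := D_1 (nat_lit 209) (nat_lit 158) (nat_lit 226) (nat_lit 6) (nat_lit 5) (nat_lit 12) (nat_lit 6) (nat_lit 5) (nat_lit 13) (by decide +kernel)
theorem L4252351 : W_1 (nat_lit 3) (nat_lit 0x1000100008001c00180000000000000000000000000000000) (nat_lit 0x0) (nat_lit 0x400020000000080004000000020000000000000000000000000000000) := T_1 (nat_lit 175) (nat_lit 125) (nat_lit 5) (nat_lit 6) (nat_lit 7) L4252350 (by decide +kernel)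
theorem L4252352 : W_1 (nat_lit 2) (nat_lit 0x1000700008001c001a0009a00580000000000000000000000) (nat_lit 0x0) (nat_lit 0x2000800004000000000000000000000000000000000000000) := D_1 (nat_lit 179) (nat_lit 193) (nat_lit 158) (nat_lit 1) (nat_lit 9) (nat_lit 10) (nat_lit 0) (nat_lit 9) (nat_lit 10) (by decide +kernel)
theorem L4252353 : W_1 (nat_lit 3) (nat_lit 0x1000300008001c001a0009a00580000000000000000000000) (nat_lit 0x0) (nat_lit 0x2000c00024000000000000000000000000000000000000000) := T_1 (nat_lit 178) (nat_lit 161) (nat_lit 6) (nat_lit 8) (nat_lit 10) L4252352 (by decide +kernel)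
theorem L4252354 : W_1 (nat_lit 4) (nat_lit 0x1000300008001c001a0001a00580000000000000000000000) (nat_lit 0x0) (nat_lit 0x2000c00024000000000008000000020000000000000000000) := T_1 (nat_lit 111) (nat_lit 77) (nat_lit 5) (nat_lit 9) (nat_lit 4) L4252353 (by decide +kernel)
theorem L4252355 : W_1 (nat_lit 5) (nat_lit 0x1000300008001c001a0001a00180000000000000000000000) (nat_lit 0x0) (nat_lit 0x2000c00024000000000008000600020000000000000000000) := T_1 (nat_lit 94) (nat_lit 93) (nat_lit 1) (nat_lit 9) (nat_lit 5) L4252354 (by decide +kernel)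
theorem L4252356 : W_1 (nat_lit 6) (nat_lit 0x1000300008001c001a0001800180000000000000000000000) (nat_lit 0x0) (nat_lit 0x2000c00024000000000008600600020000000000000000000) := T_1 (nat_lit 105) (nat_lit 106) (nat_lit 2) (nat_lit 3) (nat_lit 6) L4252355 (by decide +kernel)
theorem L4252357 : W_1 (nat_lit 7) (nat_lit 0x1000300008001c001a0001800100000000000000000000000) (nat_lit 0x0) (nat_lit 0x2000c00024000000000008600680028000000000000000000) := T_1 (nat_lit 91) (nat_lit 75) (nat_lit 6) (nat_lit 6) (nat_lit 8) L4252356 (by decide +kernel)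
theorem L4252358 : W_1 (nat_lit 8) (nat_lit 0x1000300008001c001a0001800000000000000000000000000) (nat_lit 0x0) (nat_lit 0x2000c0002400000000000a600780028000000000000000000) := T_1 (nat_lit 92) (nat_lit 109) (nat_lit 6) (nat_lit 6) (nat_lit 9) L4252357 (by decide +kernel)
theorem L4252359 : W_1 (nat_lit 9) (nat_lit 0x1000100008001c001a0001800000000000000000000000000) (nat_lit 0x0) (nat_lit 0x6000e0002400000000000a600780028000000000000000000) := T_1 (nat_lit 177) (nat_lit 194) (nat_lit 7) (nat_lit 6) (nat_lit 7) L4252358 (by decide +kernel)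
theorem L4252360 : W_1 (nat_lit 10) (nat_lit 0x1000100008001c001a0000800000000000000000000000000) (nat_lit 0x0) (nat_lit 0x6000e0002400000000000b6007c0028000000000000000000) := T_1 (nat_lit 108) (nat_lit 90) (nat_lit 4) (nat_lit 6) (nat_lit 9) L4252359 (by decide +kernel)
theorem L4252361 : W_1 (nat_lit 11) (nat_lit 0x1000100008001c001a0000000000000000000000000000000) (nat_lit 0x0) (nat_lit 0x6000e0002400000001000be007c0028000000000000000000) := T_1 (nat_lit 107) (nat_lit 124) (nat_lit 4) (nat_lit 6) (nat_lit 10) L4252360 (by decide +kernel)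
theorem L4252362 : W_1 (nat_lit 12) (nat_lit 0x1000100008001c00180000000000000000000000000000000) (nat_lit 0x0) (nat_lit 0x6000e8002400000003000be007c0028000000000000000000) := T_1 (nat_lit 125) (nat_lit 175) (nat_lit 5) (nat_lit 6) (nat_lit 7) L4252361 (by decide +kernel)
theorem L4252363 : W_1 (nat_lit 13) (nat_lit 0x100008001c00180000000000000000000000000000000) (nat_lit 0x0) (nat_lit 0x4000a0007800e8002400000003000be007c0028000000000000000000) := Q_1 (nat_lit 192) (C_1 L4252344 (C_1 L4252347 (C_1 L4252349 (C_1 L4252351 (C_1 L4252362 N_1))))) (by decide +kernel)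
theorem L4252364 : W_1 (nat_lit 3) (nat_lit 0x100008001c00180000000000000000000000000000000) (nat_lit 0x0) (nat_lit 0x2000000000000000060002000100000000000000000000000) := T_1 (nat_lit 126) (nat_lit 193) (nat_lit 6) (nat_lit 6) (nat_lit 11) L257383 (by decide +kernel)
theorem L4252365 : W_1 (nat_lit 2) (nat_lit 0x100008001c001a0000800000000000000000000000000) (nat_lit 0x0) (nat_lit 0x40001000040000000000000000000000) := D_1 (nat_lit 108) (nat_lit 90) (nat_lit 126) (nat_lit 4) (nat_lit 6) (nat_lit 9) (nat_lit 0) (nat_lit 9) (nat_lit 7) (by decide +kernel)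
theorem L4252366 : W_1 (nat_lit 3) (nat_lit 0x100008001c001a0000000000000000000000000000000) (nat_lit 0x0) (nat_lit 0x50001800040000000000000000000000) := T_1 (nat_lit 107) (nat_lit 124) (nat_lit 4) (nat_lit 6) (nat_lit 10) L4252365 (by decide +kernel)
theorem L4252367 : W_1 (nat_lit 3) (nat_lit 0x100008001c001a0000000000000000000000000000000) (nat_lit 0x0) (nat_lit 0x58002800000000000000000000000000) := T_1 (nat_lit 126) (nat_lit 109) (nat_lit 6) (nat_lit 6) (nat_lit 10) L257320 (by decide +kernel)
theorem L4252368 : W_1 (nat_lit 6) (nat_lit 0x100008001c00180000000000000000000000000000000) (nat_lit 0x0) (nat_lit 0x5000680007000000078003800040000000000000000000000) := Q_1 (nat_lit 125) (C_1 L3959915 (C_1 L4252366 (C_1 L4252367 (C_1 L4245006 N_1)))) (by decide +kernel)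
theorem L4252369 : W_1 (nat_lit 14) (nat_lit 0x8001c00180000000000000000000000000000000) (nat_lit 0x0) (nat_lit 0x14000e0007800f8002700000007800be007c0028000000000000000000) := Q_1 (nat_lit 176) (C_1 L4252363 (C_1 L312640 (C_1 L4252364 (C_1 L4252368 N_1)))) (by decide +kernel)
theorem L4252370 : W_1 (nat_lit 2) (nat_lit 0x1000f00028001c00180000000000000000000000000000000) (nat_lit 0x0) (nat_lit 0x800080040000000000000000000000000000000000000000) := D_1 (nat_lit 175) (nat_lit 191) (nat_lit 162) (nat_lit 1) (nat_lit 8) (nat_lit 10) (nat_lit 2) (nat_lit 5) (nat_lit 10) (by decide +kernel)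
theorem L4252371 : W_1 (nat_lit 3) (nat_lit 0xf00028001c00180000000000000000000000000000000) (nat_lit 0x0) (nat_lit 0x3800080040000000000000000000000000000000000000000) := T_1 (nat_lit 192) (nat_lit 193) (nat_lit 1) (nat_lit 9) (nat_lit 10) L4252370 (by decide +kernel)
theorem L4252372 : W_1 (nat_lit 4) (nat_lit 0xe00028001c00180000000000000000000000000000000) (nat_lit 0x0) (nat_lit 0x3800180044000000000000000000000000000000000000000) := T_1 (nat_lit 176) (nat_lit 158) (nat_lit 0) (nat_lit 9) (nat_lit 10) L4252371 (by decide +kernel)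
theorem L4252373 : W_1 (nat_lit 5) (nat_lit 0x600028001c00180000000000000000000000000000000) (nat_lit 0x0) (nat_lit 0x13800980044000000000000000000000000000000000000000) := T_1 (nat_lit 179) (nat_lit 196) (nat_lit 7) (nat_lit 8) (nat_lit 7) L4252372 (by decide +kernel)
theorem L4252374 : W_1 (nat_lit 6) (nat_lit 0x400028001c00180000000000000000000000000000000) (nat_lit 0x0) (nat_lit 0x17800b80044000000000000000000000000000000000000000) := T_1 (nat_lit 177) (nat_lit 194) (nat_lit 5) (nat_lit 8) (nat_lit 7) L4252373 (by decide +kernel)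
theorem L4252375 : W_1 (nat_lit 7) (nat_lit 0x400008001c00180000000000000000000000000000000) (nat_lit 0x0) (nat_lit 0x17800b80064000000000008000000000000000000000000000) := T_1 (nat_lit 161) (nat_lit 111) (nat_lit 6) (nat_lit 8) (nat_lit 10) L4252374 (by decide +kernel)
theorem L4252376 : W_1 (nat_lit 2) (nat_lit 0x400028001c00180000000000000000000000000000000) (nat_lit 0x0) (nat_lit 0x8000000004002000000000000000000000000000000000000) := D_1 (nat_lit 145) (nat_lit 158) (nat_lit 195) (nat_lit 1) (nat_lit 9) (nat_lit 8) (nat_lit 6) (nat_lit 8) (nat_lit 11) (by decide +kernel)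
theorem L4252377 : W_1 (nat_lit 3) (nat_lit 0x400008001c00180000000000000000000000000000000) (nat_lit 0x0) (nat_lit 0x8000000024002000000008000000000000000000000000000) := T_1 (nat_lit 161) (nat_lit 111) (nat_lit 6) (nat_lit 8) (nat_lit 10) L4252376 (by decide +kernel)
theorem L4252380 : W_1 (nat_lit 6) (nat_lit 0x100008001c00180000000000000000000000000000000) (nat_lit 0x0) (nat_lit 0xa0007000280004002000030000000000000000000000000000000) := T_1 (nat_lit 145) (nat_lit 158) (nat_lit 1) (nat_lit 9) (nat_lit 8) L4252308 (by decide +kernel)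
theorem L4252381 : W_1 (nat_lit 2) (nat_lit 0x100008001c001a0000000000000000000000000000000) (nat_lit 0x0) (nat_lit 0x2000010000800000000000000000000000000) := D_1 (nat_lit 124) (nat_lit 107) (nat_lit 145) (nat_lit 4) (nat_lit 6) (nat_lit 10) (nat_lit 0) (nat_lit 9) (nat_lit 8) (by decide +kernel)
theorem L4252382 : W_1 (nat_lit 2) (nat_lit 0x100008001c001a0000000000000000000000000000000) (nat_lit 0x0) (nat_lit 0x4002000010000000000000000000000000000000) := D_1 (nat_lit 145) (nat_lit 158) (nat_lit 124) (nat_lit 1) (nat_lit 9) (nat_lit 8) (nat_lit 0) (nat_lit 9) (nat_lit 8) (by decide +kernel)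
theorem L4252383 : W_1 (nat_lit 2) (nat_lit 0x10000c001c001a0000000000000000000000000000000) (nat_lit 0x0) (nat_lit 0x1000080000000000000001000000000000000000000000000) := D_1 (nat_lit 175) (nat_lit 192) (nat_lit 108) (nat_lit 5) (nat_lit 6) (nat_lit 7) (nat_lit 5) (nat_lit 6) (nat_lit 6) (by decide +kernel)
theorem L4252384 : W_1 (nat_lit 3) (nat_lit 0x100008001c001a0000000000000000000000000000000) (nat_lit 0x0) (nat_lit 0x1000080004002000000001000000000000000000000000000) := T_1 (nat_lit 158) (nat_lit 145) (nat_lit 1) (nat_lit 9) (nat_lit 8) L4252383 (by decide +kernel)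
theorem L4252385 : W_1 (nat_lit 5) (nat_lit 0x100008001c00180000000000000000000000000000000) (nat_lit 0x0) (nat_lit 0x1000080004002000030001800040000000000000000000000) := Q_1 (nat_lit 125) (C_1 L3959915 (C_1 L4252381 (C_1 L4252382 (C_1 L4252384 N_1)))) (by decide +kernel)
theorem L4252411 : W_1 (nat_lit 3) (nat_lit 0x500008001c00180000000000000000000000000000000) (nat_lit 0x0) (nat_lit 0x8000000024002000000008000000000000000000000000000) := T_1 (nat_lit 145) (nat_lit 158) (nat_lit 1) (nat_lit 9) (nat_lit 8) L4231301 (by decide +kernel)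
theorem L4252412 : W_1 (nat_lit 2) (nat_lit 0x10000700068001c00180000000000000000000000000000000) (nat_lit 0x0) (nat_lit 0x200008000000000002000000000000000000000000000000000000) := D_1 (nat_lit 195) (nat_lit 145) (nat_lit 213) (nat_lit 6) (nat_lit 8) (nat_lit 11) (nat_lit 7) (nat_lit 8) (nat_lit 8) (by decide +kernel)
theorem L4252413 : W_1 (nat_lit 3) (nat_lit 0x700068001c00180000000000000000000000000000000) (nat_lit 0x0) (nat_lit 0x200018000800000002000000000000000000000000000000000000) := T_1 (nat_lit 196) (nat_lit 179) (nat_lit 7) (nat_lit 8) (nat_lit 7) L4252412 (by decide +kernel)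
theorem L4252414 : W_1 (nat_lit 4) (nat_lit 0x700028001c00180000000000000000000000000000000) (nat_lit 0x0) (nat_lit 0x200018000880040002000000000000000000000000000000000000) := T_1 (nat_lit 162) (nat_lit 175) (nat_lit 2) (nat_lit 5) (nat_lit 10) L4252413 (by decide +kernel)
theorem L4252415 : W_1 (nat_lit 5) (nat_lit 0x500028001c00180000000000000000000000000000000) (nat_lit 0x0) (nat_lit 0x20001c000a80040002000000000000000000000000000000000000) := T_1 (nat_lit 177) (nat_lit 194) (nat_lit 5) (nat_lit 8) (nat_lit 7) L4252414 (by decide +kernel)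
theorem L4252416 : W_1 (nat_lit 6) (nat_lit 0x500008001c00180000000000000000000000000000000) (nat_lit 0x0) (nat_lit 0x20001c000a80060002000000008000000000000000000000000000) := T_1 (nat_lit 161) (nat_lit 111) (nat_lit 6) (nat_lit 8) (nat_lit 10) L4252415 (by decide +kernel)
theorem L4252417 : W_1 (nat_lit 7) (nat_lit 0x100008001c00180000000000000000000000000000000) (nat_lit 0x0) (nat_lit 0x20001c000e80067002000000008000000000000000000000000000) := Q_1 (nat_lit 178) (C_1 L4232026 (C_1 L4209826 (C_1 L4252411 (C_1 L4252416 N_1)))) (by decide +kernel)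
theorem L4252418 : W_1 (nat_lit 2) (nat_lit 0x3400700008003c001a0000000000000000000000000000000) (nat_lit 0x0) (nat_lit 0x8000000020000000000008000000000000000000000000000) := D_1 (nat_lit 161) (nat_lit 111) (nat_lit 195) (nat_lit 6) (nat_lit 8) (nat_lit 10) (nat_lit 6) (nat_lit 8) (nat_lit 11) (by decide +kernel)
theorem L4252419 : W_1 (nat_lit 3) (nat_lit 0x3400300008003c001a0000000000000000000000000000000) (nat_lit 0x0) (nat_lit 0x8000c00020000000000008000000000000000000000000000) := T_1 (nat_lit 178) (nat_lit 179) (nat_lit 1) (nat_lit 9) (nat_lit 10) L4252418 (by decide +kernel)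
theorem L4252420 : W_1 (nat_lit 4) (nat_lit 0x3000300008003c001a0000000000000000000000000000000) (nat_lit 0x0) (nat_lit 0x8c00c00020000000000008000000000000000000000000000) := T_1 (nat_lit 190) (nat_lit 191) (nat_lit 2) (nat_lit 3) (nat_lit 11) L4252419 (by decide +kernel)
theorem L4252421 : W_1 (nat_lit 5) (nat_lit 0x1000300008003c001a0000000000000000000000000000000) (nat_lit 0x0) (nat_lit 0x2000ac00c00020000000000008000000000000000000000000000) := T_1 (nat_lit 193) (nat_lit 209) (nat_lit 5) (nat_lit 6) (nat_lit 8) L4252420 (by decide +kernel)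
theorem L4252422 : W_1 (nat_lit 6) (nat_lit 0x1000300008001c001a0000000000000000000000000000000) (nat_lit 0x0) (nat_lit 0x2000ac00c00020002000010008000000000000000000000000000) := T_1 (nat_lit 145) (nat_lit 124) (nat_lit 0) (nat_lit 9) (nat_lit 8) L4252421 (by decide +kernel)
theorem L4252423 : W_1 (nat_lit 7) (nat_lit 0x300008001c001a0000000000000000000000000000000) (nat_lit 0x0) (nat_lit 0x2000bc00c80020002000010008000000000000000000000000000) := T_1 (nat_lit 192) (nat_lit 175) (nat_lit 5) (nat_lit 6) (nat_lit 7) L4252422 (by decide +kernel)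
theorem L4252424 : W_1 (nat_lit 8) (nat_lit 0x100008001c001a0000000000000000000000000000000) (nat_lit 0x0) (nat_lit 0x2000fc00e80020002000010008000000000000000000000000000) := T_1 (nat_lit 177) (nat_lit 194) (nat_lit 7) (nat_lit 6) (nat_lit 7) L4252423 (by decide +kernel)
theorem L4252425 : W_1 (nat_lit 2) (nat_lit 0x30000b400700028001c001a0000000000000000000000000000000) (nat_lit 0x0) (nat_lit 0x10000c0000000000000000000000000000000000000000000000000000) := D_1 (nat_lit 211) (nat_lit 228) (nat_lit 210) (nat_lit 5) (nat_lit 8) (nat_lit 9) (nat_lit 0) (nat_lit 9) (nat_lit 12) (by decide +kernel)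
theorem L4252426 : W_1 (nat_lit 3) (nat_lit 0x20000b400700028001c001a0000000000000000000000000000000) (nat_lit 0x0) (nat_lit 0x50001c0000000000000000000000000000000000000000000000000000) := T_1 (nat_lit 212) (nat_lit 230) (nat_lit 7) (nat_lit 8) (nat_lit 9) L4252425 (by decide +kernel)
theorem L4252427 : W_1 (nat_lit 4) (nat_lit 0xb400700028001c001a0000000000000000000000000000000) (nat_lit 0x0) (nat_lit 0x50003c0010000000000000000000000000000000000000000000000000) := T_1 (nat_lit 213) (nat_lit 196) (nat_lit 7) (nat_lit 8) (nat_lit 8) L4252426 (by decide +kernel)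
theorem L4252428 : W_1 (nat_lit 5) (nat_lit 0x3400700028001c001a0000000000000000000000000000000) (nat_lit 0x0) (nat_lit 0x50003c0018000000000002000000000000000000000000000000000000) := T_1 (nat_lit 195) (nat_lit 145) (nat_lit 6) (nat_lit 8) (nat_lit 11) L4252427 (by decide +kernel)
theorem L4252429 : W_1 (nat_lit 6) (nat_lit 0x3400700008001c001a0000000000000000000000000000000) (nat_lit 0x0) (nat_lit 0x50003c0018000000020002000000008000000000000000000000000000) := T_1 (nat_lit 161) (nat_lit 111) (nat_lit 6) (nat_lit 8) (nat_lit 10) L4252428 (by decide +kernel)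
theorem L4252430 : W_1 (nat_lit 7) (nat_lit 0x3400300008001c001a0000000000000000000000000000000) (nat_lit 0x0) (nat_lit 0x50003c0018000c00020002000000008000000000000000000000000000) := T_1 (nat_lit 178) (nat_lit 179) (nat_lit 1) (nat_lit 9) (nat_lit 10) L4252429 (by decide +kernel)
theorem L4252431 : W_1 (nat_lit 8) (nat_lit 0x3000300008001c001a0000000000000000000000000000000) (nat_lit 0x0) (nat_lit 0x50003c0018c00c00020002000000008000000000000000000000000000) := T_1 (nat_lit 190) (nat_lit 191) (nat_lit 2) (nat_lit 3) (nat_lit 11) L4252430 (by decide +kernel)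
theorem L4252432 : W_1 (nat_lit 9) (nat_lit 0x1000300008001c001a0000000000000000000000000000000) (nat_lit 0x0) (nat_lit 0x50003e001ac00c00020002000000008000000000000000000000000000) := T_1 (nat_lit 193) (nat_lit 209) (nat_lit 5) (nat_lit 6) (nat_lit 8) L4252431 (by decide +kernel)
theorem L4252433 : W_1 (nat_lit 10) (nat_lit 0x1000100008001c001a0000000000000000000000000000000) (nat_lit 0x0) (nat_lit 0x50003e001ec00e00020002000000008000000000000000000000000000) := T_1 (nat_lit 177) (nat_lit 194) (nat_lit 7) (nat_lit 6) (nat_lit 7) L4252432 (by decide +kernel)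
theorem L4252434 : W_1 (nat_lit 11) (nat_lit 0x100008001c001a0000000000000000000000000000000) (nat_lit 0x0) (nat_lit 0x50003e001fc00e80020002000000008000000000000000000000000000) := T_1 (nat_lit 192) (nat_lit 175) (nat_lit 5) (nat_lit 6) (nat_lit 7) L4252433 (by decide +kernel)
theorem L4252435 : W_1 (nat_lit 12) (nat_lit 0x100008001c00180000000000000000000000000000000) (nat_lit 0x0) (nat_lit 0x50003e001fc00e80020002000030008800000000000000000000000000) := Q_1 (nat_lit 125) (C_1 L4245002 (C_1 L4252381 (C_1 L4252424 (C_1 L4252434 N_1)))) (by decide +kernel)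
theorem L4252443 : W_1 (nat_lit 2) (nat_lit 0x400070000d001c00180000000000000000000000000000000) (nat_lit 0x0) (nat_lit 0x1000080002000000000000000000000000000000000000000000000000) := D_1 (nat_lit 211) (nat_lit 228) (nat_lit 193) (nat_lit 4) (nat_lit 7) (nat_lit 13) (nat_lit 7) (nat_lit 6) (nat_lit 8) (by decide +kernel)
theorem L4252444 : W_1 (nat_lit 3) (nat_lit 0x70000d001c00180000000000000000000000000000000) (nat_lit 0x0) (nat_lit 0x1000080006000000000000000020000000000000000000000000000000) := T_1 (nat_lit 194) (nat_lit 125) (nat_lit 7) (nat_lit 6) (nat_lit 7) L4252443 (by decide +kernel)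
theorem L4252445 : W_1 (nat_lit 4) (nat_lit 0x70000c001c00180000000000000000000000000000000) (nat_lit 0x0) (nat_lit 0x1000080006000000003000000020000000000000000000000000000000) := T_1 (nat_lit 156) (nat_lit 157) (nat_lit 3) (nat_lit 3) (nat_lit 9) L4252444 (by decide +kernel)
theorem L4252446 : W_1 (nat_lit 5) (nat_lit 0x50000c001c00180000000000000000000000000000000) (nat_lit 0x0) (nat_lit 0x1000080006000a00003000000020000000000000000000000000000000) := T_1 (nat_lit 177) (nat_lit 179) (nat_lit 0) (nat_lit 9) (nat_lit 10) L4252445 (by decide +kernel)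
theorem L4252447 : W_1 (nat_lit 6) (nat_lit 0x500008001c00180000000000000000000000000000000) (nat_lit 0x0) (nat_lit 0x1000080006000a00007002000020000000000000000000000000000000) := T_1 (nat_lit 158) (nat_lit 145) (nat_lit 1) (nat_lit 9) (nat_lit 8) L4252446 (by decide +kernel)
theorem L4252448 : W_1 (nat_lit 2) (nat_lit 0x10000700028001c00180000000000000000000000000000000) (nat_lit 0x0) (nat_lit 0x200008000000000002000000000000000000000000000000000000) := D_1 (nat_lit 195) (nat_lit 145) (nat_lit 213) (nat_lit 6) (nat_lit 8) (nat_lit 11) (nat_lit 7) (nat_lit 8) (nat_lit 8) (by decide +kernel)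
theorem L4252449 : W_1 (nat_lit 3) (nat_lit 0x700028001c00180000000000000000000000000000000) (nat_lit 0x0) (nat_lit 0x200018000800000002000000000000000000000000000000000000) := T_1 (nat_lit 196) (nat_lit 179) (nat_lit 7) (nat_lit 8) (nat_lit 7) L4252448 (by decide +kernel)
theorem L4252450 : W_1 (nat_lit 4) (nat_lit 0x500028001c00180000000000000000000000000000000) (nat_lit 0x0) (nat_lit 0x20001c000a00000002000000000000000000000000000000000000) := T_1 (nat_lit 177) (nat_lit 194) (nat_lit 5) (nat_lit 8) (nat_lit 7) L4252449 (by decide +kernel)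
theorem L4252451 : W_1 (nat_lit 5) (nat_lit 0x500008001c00180000000000000000000000000000000) (nat_lit 0x0) (nat_lit 0x20001c000a00020002000000008000000000000000000000000000) := T_1 (nat_lit 161) (nat_lit 111) (nat_lit 6) (nat_lit 8) (nat_lit 10) L4252450 (by decide +kernel)
theorem L4252452 : W_1 (nat_lit 7) (nat_lit 0x100008001c00180000000000000000000000000000000) (nat_lit 0x0) (nat_lit 0x100028001e000e00027002000020008000000000000000000000000000) := Q_1 (nat_lit 178) (C_1 L4232026 (C_1 L4252411 (C_1 L4252447 (C_1 L4252451 N_1)))) (by decide +kernel)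
theorem L4252453 : W_1 (nat_lit 14) (nat_lit 0x8001c00180000000000000000000000000000000) (nat_lit 0x0) (nat_lit 0x54003e001fc00f8006700200003000be007c0028000000000000000000) := Q_1 (nat_lit 176) (C_1 L4252380 (C_1 L4252363 (C_1 L4252385 (C_1 L4252417 (C_1 L4252435 (C_1 L4252452 N_1)))))) (by decide +kernel)
theorem L4252454 : W_1 (nat_lit 2) (nat_lit 0x380008003c001e0008800000000000000000000000000) (nat_lit 0x0) (nat_lit 0x20000000000000000400020000000000000000000) := D_1 (nat_lit 94) (nat_lit 77) (nat_lit 161) (nat_lit 5) (nat_lit 9) (nat_lit 4) (nat_lit 5) (nat_lit 9) (nat_lit 5) (by decide +kernel)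
theorem L4252455 : W_1 (nat_lit 3) (nat_lit 0x380008003c001e0000800000000000000000000000000) (nat_lit 0x0) (nat_lit 0x20000000000018000400020000000000000000000) := T_1 (nat_lit 111) (nat_lit 112) (nat_lit 2) (nat_lit 6) (nat_lit 7) L4252454 (by decide +kernel)
theorem L4252456 : W_1 (nat_lit 4) (nat_lit 0x180008003c001e0000800000000000000000000000000) (nat_lit 0x0) (nat_lit 0x4000200020000000000018000400020000000000000000000) := T_1 (nat_lit 177) (nat_lit 194) (nat_lit 7) (nat_lit 6) (nat_lit 7) L4252455 (by decide +kernel)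
theorem L4252457 : W_1 (nat_lit 5) (nat_lit 0x100008003c001e0000800000000000000000000000000) (nat_lit 0x0) (nat_lit 0x5000280020000000000018000400020000000000000000000) := T_1 (nat_lit 175) (nat_lit 192) (nat_lit 5) (nat_lit 6) (nat_lit 7) L4252456 (by decide +kernel)
theorem L4252458 : W_1 (nat_lit 6) (nat_lit 0x8003c001e0000800000000000000000000000000) (nat_lit 0x0) (nat_lit 0x7000380020000000000018000400020000000000000000000) := T_1 (nat_lit 176) (nat_lit 193) (nat_lit 6) (nat_lit 6) (nat_lit 11) L4252457 (by decide +kernel)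
theorem L4252459 : W_1 (nat_lit 7) (nat_lit 0x8003c001e0000000000000000000000000000000) (nat_lit 0x0) (nat_lit 0x7000380020000000000019800400020000000000000000000) := T_1 (nat_lit 107) (nat_lit 108) (nat_lit 0) (nat_lit 9) (nat_lit 7) L4252458 (by decide +kernel)
theorem L4252460 : W_1 (nat_lit 8) (nat_lit 0x8003c001a0000000000000000000000000000000) (nat_lit 0x0) (nat_lit 0x7000380020004000040019800400020000000000000000000) := T_1 (nat_lit 126) (nat_lit 146) (nat_lit 3) (nat_lit 6) (nat_lit 7) L4252459 (by decide +kernel)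
theorem L4252461 : W_1 (nat_lit 9) (nat_lit 0x8003c00180000000000000000000000000000000) (nat_lit 0x0) (nat_lit 0x7000380020004000070019800400020000000000000000000) := T_1 (nat_lit 125) (nat_lit 124) (nat_lit 0) (nat_lit 9) (nat_lit 8) L4252460 (by decide +kernel)
theorem L4252462 : W_1 (nat_lit 10) (nat_lit 0x8001c00180000000000000000000000000000000) (nat_lit 0x0) (nat_lit 0x7000380024006000070019800400020000000000000000000) := T_1 (nat_lit 145) (nat_lit 158) (nat_lit 1) (nat_lit 9) (nat_lit 8) L4252461 (by decide +kernel)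
theorem L4252463 : W_1 (nat_lit 11) (nat_lit 0x8001c00180000000000000000000000000000000) (nat_lit 0x0) (nat_lit 0xbc01fc00ff006700200004000a000000000000000000000000000) := Q_1 (nat_lit 178) (C_1 L4252375 (C_1 L4252377 (C_1 L4209836 (C_1 L294176 N_1)))) (by decide +kernel)
theorem L4252464 : W_1 (nat_lit 2) (nat_lit 0x8003c001e0008800100000000000000000000000) (nat_lit 0x0) (nat_lit 0x20000000000000000400020000000000000000000) := D_1 (nat_lit 94) (nat_lit 77) (nat_lit 161) (nat_lit 5) (nat_lit 9) (nat_lit 4) (nat_lit 5) (nat_lit 9) (nat_lit 5) (by decide +kernel)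
theorem L4252465 : W_1 (nat_lit 3) (nat_lit 0x8003c001e0000800100000000000000000000000) (nat_lit 0x0) (nat_lit 0x20000000000018000400020000000000000000000) := T_1 (nat_lit 111) (nat_lit 112) (nat_lit 2) (nat_lit 6) (nat_lit 7) L4252464 (by decide +kernel)
theorem L4252466 : W_1 (nat_lit 4) (nat_lit 0x8003c001e0000800000000000000000000000000) (nat_lit 0x0) (nat_lit 0x2000000000001a000500020000000000000000000) := T_1 (nat_lit 92) (nat_lit 109) (nat_lit 5) (nat_lit 7) (nat_lit 5) L4252465 (by decide +kernel)
theorem L4252467 : W_1 (nat_lit 5) (nat_lit 0x8003c001e0000000000000000000000000000000) (nat_lit 0x0) (nat_lit 0x2000000000001b800500020000000000000000000) := T_1 (nat_lit 107) (nat_lit 108) (nat_lit 0) (nat_lit 9) (nat_lit 7) L4252466 (by decide +kernel)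
theorem L4252468 : W_1 (nat_lit 6) (nat_lit 0x8003c001a0000000000000000000000000000000) (nat_lit 0x0) (nat_lit 0x2000400004001b800500020000000000000000000) := T_1 (nat_lit 126) (nat_lit 146) (nat_lit 3) (nat_lit 6) (nat_lit 7) L4252467 (by decide +kernel)
theorem L4252469 : W_1 (nat_lit 7) (nat_lit 0x8003c00180000000000000000000000000000000) (nat_lit 0x0) (nat_lit 0x2000400007001b800500020000000000000000000) := T_1 (nat_lit 125) (nat_lit 124) (nat_lit 0) (nat_lit 9) (nat_lit 8) L4252468 (by decide +kernel)
theorem L4252470 : W_1 (nat_lit 8) (nat_lit 0x8001c00180000000000000000000000000000000) (nat_lit 0x0) (nat_lit 0x2400600007001b800500020000000000000000000) := T_1 (nat_lit 145) (nat_lit 158) (nat_lit 1) (nat_lit 9) (nat_lit 8) L4252469 (by decide +kernel)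
theorem L4252472 : W_1 (nat_lit 4) (nat_lit 0x380008001c001e0000800000000000000000000000000) (nat_lit 0x0) (nat_lit 0x20006000000018000400020000000000000000000) := T_1 (nat_lit 145) (nat_lit 146) (nat_lit 3) (nat_lit 6) (nat_lit 7) L4252455 (by decide +kernel)
theorem L4252473 : W_1 (nat_lit 5) (nat_lit 0x380008001c001e0000000000000000000000000000000) (nat_lit 0x0) (nat_lit 0x20006000000019800400020000000000000000000) := T_1 (nat_lit 107) (nat_lit 108) (nat_lit 0) (nat_lit 9) (nat_lit 7) L4252472 (by decide +kernel)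
theorem L4252474 : W_1 (nat_lit 6) (nat_lit 0x180008001c001e0000000000000000000000000000000) (nat_lit 0x0) (nat_lit 0x4000200020006000000019800400020000000000000000000) := T_1 (nat_lit 177) (nat_lit 194) (nat_lit 7) (nat_lit 6) (nat_lit 7) L4252473 (by decide +kernel)
theorem L4252475 : W_1 (nat_lit 7) (nat_lit 0x100008001c001e0000000000000000000000000000000) (nat_lit 0x0) (nat_lit 0x5000280020006000000019800400020000000000000000000) := T_1 (nat_lit 175) (nat_lit 192) (nat_lit 5) (nat_lit 6) (nat_lit 7) L4252474 (by decide +kernel)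
theorem L4252476 : W_1 (nat_lit 8) (nat_lit 0x8001c001e0000000000000000000000000000000) (nat_lit 0x0) (nat_lit 0x7000380020006000000019800400020000000000000000000) := T_1 (nat_lit 176) (nat_lit 193) (nat_lit 6) (nat_lit 6) (nat_lit 11) L4252475 (by decide +kernel)
theorem L4252478 : W_1 (nat_lit 4) (nat_lit 0x8001c001a0000000000000000000000000000000) (nat_lit 0x0) (nat_lit 0x2000100000000000058003c00000000000000000000000000) := Q_1 (nat_lit 126) (C_1 L768520 (C_1 L258348 N_1)) (by decide +kernel)
theorem L4252479 : W_1 (nat_lit 7) (nat_lit 0x8001c001a0000000000000000000000000000000) (nat_lit 0x0) (nat_lit 0xa000700038000000200001c000800000000000000000000000000) := T_1 (nat_lit 124) (nat_lit 145) (nat_lit 0) (nat_lit 9) (nat_lit 8) L4245009 (by decide +kernel)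
theorem L4252480 : W_1 (nat_lit 2) (nat_lit 0x8001c001b0000000000000000000000000000000) (nat_lit 0x0) (nat_lit 0x4c000000000000000000000000000000) := D_1 (nat_lit 123) (nat_lit 122) (nat_lit 126) (nat_lit 3) (nat_lit 3) (nat_lit 7) (nat_lit 3) (nat_lit 4) (nat_lit 7) (by decide +kernel)
theorem L4252481 : W_1 (nat_lit 3) (nat_lit 0x8001c001a0000000000000000000000000000000) (nat_lit 0x0) (nat_lit 0x200005c000000000000000000000000000000) := T_1 (nat_lit 124) (nat_lit 145) (nat_lit 0) (nat_lit 9) (nat_lit 8) L4252480 (by decide +kernel)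
theorem L4252482 : W_1 (nat_lit 4) (nat_lit 0x8001c001e0000800100000000000000000000000) (nat_lit 0x0) (nat_lit 0x20006000000018000400020000000000000000000) := T_1 (nat_lit 145) (nat_lit 146) (nat_lit 3) (nat_lit 6) (nat_lit 7) L4252465 (by decide +kernel)
theorem L4252483 : W_1 (nat_lit 5) (nat_lit 0x8001c001e0000800000000000000000000000000) (nat_lit 0x0) (nat_lit 0x2000600000001a000500020000000000000000000) := T_1 (nat_lit 92) (nat_lit 109) (nat_lit 5) (nat_lit 7) (nat_lit 5) L4252482 (by decide +kernel)
theorem L4252484 : W_1 (nat_lit 6) (nat_lit 0x8001c001e0000000000000000000000000000000) (nat_lit 0x0) (nat_lit 0x2000600000001b800500020000000000000000000) := T_1 (nat_lit 107) (nat_lit 108) (nat_lit 0) (nat_lit 9) (nat_lit 7) L4252483 (by decide +kernel)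
theorem L4252485 : W_1 (nat_lit 9) (nat_lit 0x8001c001a0000000000000000000000000000000) (nat_lit 0x0) (nat_lit 0x700038002000600004001b800500020000000000000000000) := Q_1 (nat_lit 126) (C_1 L768520 (C_1 L4252476 (C_1 L4252484 N_1))) (by decide +kernel)
theorem L4252486 : W_1 (nat_lit 10) (nat_lit 0x8001c00180000000000000000000000000000000) (nat_lit 0x0) (nat_lit 0xa000700038002000600007c01bc00500020000000000000000000) := Q_1 (nat_lit 125) (C_1 L4252478 (C_1 L4252479 (C_1 L4252481 (C_1 L4252485 N_1)))) (by decide +kernel)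
theorem L4252487 : W_1 (nat_lit 15) (nat_lit 0x1c00180000000000000000000000000000000) (nat_lit 0x0) (nat_lit 0x54003fc01fc00ff006f00600007c01be007c0028000000000000000000) := Q_1 (nat_lit 159) (C_1 L4252342 (C_1 L4252369 (C_1 L4252453 (C_1 L4252462 (C_1 L4252463 (C_1 L4252470 (C_1 L4252486 N_1))))))) (by decide +kernel)
theorem L4252488 : W_1 (nat_lit 16) (nat_lit 0x1800180000000000000000000000000000000) (nat_lit 0x0) (nat_lit 0x54003fc01fc00ff006f00660007c01be007c0028000000000000000000) := T_1 (nat_lit 142) (nat_lit 141) (nat_lit 2) (nat_lit 5) (nat_lit 8) L4252487 (by decide +kernel)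
theorem L4252489 : W_1 (nat_lit 17) (nat_lit 0x1800080000000000000000000000000000000) (nat_lit 0x0) (nat_lit 0x54003fc01fc00ff006f00e60077c03be00fc0068000000000000000000) := Q_1 (nat_lit 128) (C_1 L4252488 (C_1 L2228 (C_1 L775227 (C_1 L73930 N_1)))) (by decide +kernel)
theorem L4252490 : W_1 (nat_lit 6) (nat_lit 0x18000e0000000000000000000000000000000) (nat_lit 0x0) (nat_lit 0x20001000e000700003800080004000000000000000000) := Q_1 (nat_lit 128) (C_1 L253681 (C_1 L72626 (C_1 L72703 N_1))) (by decide +kernel)
theorem L4252491 : W_1 (nat_lit 7) (nat_lit 0x18000c0000000000000000000000000000000) (nat_lit 0x0) (nat_lit 0x20001400e300738003c00080004000000000000000000) := Q_1 (nat_lit 125) (C_1 L72625 (C_1 L1811 (C_1 L4252490 N_1))) (by decide +kernel)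
theorem L4252492 : W_1 (nat_lit 2) (nat_lit 0x380038001d0000000000000000000000000000000) (nat_lit 0x0) (nat_lit 0x100000000000000002000100000000000000000000000) := D_1 (nat_lit 109) (nat_lit 92) (nat_lit 176) (nat_lit 7) (nat_lit 7) (nat_lit 5) (nat_lit 5) (nat_lit 7) (nat_lit 6) (by decide +kernel)
theorem L4252493 : W_1 (nat_lit 3) (nat_lit 0x300038001d0000000000000000000000000000000) (nat_lit 0x0) (nat_lit 0x10000c000000000002000100000000000000000000000) := T_1 (nat_lit 159) (nat_lit 158) (nat_lit 2) (nat_lit 5) (nat_lit 9) L4252492 (by decide +kernel)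
theorem L4252494 : W_1 (nat_lit 4) (nat_lit 0x300038001c0000000000000000000000000000000) (nat_lit 0x0) (nat_lit 0x10000c000000030002000100000000000000000000000) := T_1 (nat_lit 124) (nat_lit 125) (nat_lit 3) (nat_lit 5) (nat_lit 7) L4252493 (by decide +kernel)
theorem L4252495 : W_1 (nat_lit 3) (nat_lit 0x280038001d0000000000000000000000000000000) (nat_lit 0x0) (nat_lit 0x100014000000000002000100000000000000000000000) := T_1 (nat_lit 160) (nat_lit 158) (nat_lit 2) (nat_lit 5) (nat_lit 9) L4252492 (by decide +kernel)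
theorem L4252496 : W_1 (nat_lit 4) (nat_lit 0x280038001c0000000000000000000000000000000) (nat_lit 0x0) (nat_lit 0x100014000000030002000100000000000000000000000) := T_1 (nat_lit 124) (nat_lit 125) (nat_lit 3) (nat_lit 5) (nat_lit 7) L4252495 (by decide +kernel)
theorem L4252516 : W_1 (nat_lit 2) (nat_lit 0x280038001c0008000100000000000000000000000) (nat_lit 0x0) (nat_lit 0x30010000000000000000000000000000) := D_1 (nat_lit 125) (nat_lit 124) (nat_lit 112) (nat_lit 3) (nat_lit 5) (nat_lit 7) (nat_lit 2) (nat_lit 6) (nat_lit 7) (by decide +kernel)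
theorem L4252517 : W_1 (nat_lit 3) (nat_lit 0x280038001c0000000100000000000000000000000) (nat_lit 0x0) (nat_lit 0x30018000400000000000000000000000) := T_1 (nat_lit 111) (nat_lit 94) (nat_lit 5) (nat_lit 9) (nat_lit 5) L4252516 (by decide +kernel)
theorem L4252518 : W_1 (nat_lit 4) (nat_lit 0x280038001c0000000000000000000000000000000) (nat_lit 0x0) (nat_lit 0x3001a000500000000000000000000000) := T_1 (nat_lit 92) (nat_lit 109) (nat_lit 7) (nat_lit 7) (nat_lit 5) L4252517 (by decide +kernel)
theorem L4253203 : W_1 (nat_lit 5) (nat_lit 0x200018001c0008000100000000000000000000000) (nat_lit 0x0) (nat_lit 0x20070000e80020000000000000000000) := T_1 (nat_lit 94) (nat_lit 77) (nat_lit 5) (nat_lit 9) (nat_lit 4) L257445 (by decide +kernel)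
theorem L4253204 : W_1 (nat_lit 6) (nat_lit 0x200018001c0008000000000000000000000000000) (nat_lit 0x0) (nat_lit 0x20072000f80020000000000000000000) := T_1 (nat_lit 92) (nat_lit 109) (nat_lit 7) (nat_lit 7) (nat_lit 5) L4253203 (by decide +kernel)
theorem L4253205 : W_1 (nat_lit 7) (nat_lit 0x200018001c0000000000000000000000000000000) (nat_lit 0x0) (nat_lit 0x600003007a000f80020000000000000000000) := Q_1 (nat_lit 111) (C_1 L4253204 (C_1 L261938 (C_1 L820863 N_1))) (by decide +kernel)
theorem L4254743 : W_1 (nat_lit 6) (nat_lit 0x300038001d0000000000000000000000000000000) (nat_lit 0x0) (nat_lit 0x38003c00040000000600010000000000000000000000000000) := T_1 (nat_lit 178) (nat_lit 195) (nat_lit 6) (nat_lit 8) (nat_lit 11) L1959956 (by decide +kernel)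
theorem L4254744 : W_1 (nat_lit 7) (nat_lit 0x300038001c0000000000000000000000000000000) (nat_lit 0x0) (nat_lit 0x38003c00040000000630010000000000000000000000000000) := T_1 (nat_lit 124) (nat_lit 125) (nat_lit 3) (nat_lit 5) (nat_lit 7) L4254743 (by decide +kernel)
theorem L4254745 : W_1 (nat_lit 2) (nat_lit 0x300038001c0000000000000000000000000000000) (nat_lit 0x0) (nat_lit 0x8000400000000000000002000000000000000000000000000) := D_1 (nat_lit 178) (nat_lit 195) (nat_lit 109) (nat_lit 6) (nat_lit 8) (nat_lit 11) (nat_lit 7) (nat_lit 7) (nat_lit 6) (by decide +kernel)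
theorem L4254746 : W_1 (nat_lit 8) (nat_lit 0x100038001c0000000000000000000000000000000) (nat_lit 0x0) (nat_lit 0x38003d0006c000000630012000100000000000000000000000) := Q_1 (nat_lit 161) (C_1 L4252494 (C_1 L4254744 (C_1 L4254745 N_1))) (by decide +kernel)
theorem L4254747 : W_1 (nat_lit 2) (nat_lit 0x7000300038003c0000000000000000000000000000000) (nat_lit 0x0) (nat_lit 0xc0040000000000000000000000000000000000000000) := D_1 (nat_lit 175) (nat_lit 162) (nat_lit 174) (nat_lit 2) (nat_lit 5) (nat_lit 10) (nat_lit 2) (nat_lit 4) (nat_lit 10) (by decide +kernel)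
theorem L4254748 : W_1 (nat_lit 3) (nat_lit 0x7000100038003c0000000000000000000000000000000) (nat_lit 0x0) (nat_lit 0xc0060000000000002000000000000000000000000000) := T_1 (nat_lit 161) (nat_lit 109) (nat_lit 7) (nat_lit 7) (nat_lit 6) L4254747 (by decide +kernel)
theorem L4254749 : W_1 (nat_lit 4) (nat_lit 0x3000100038003c0000000000000000000000000000000) (nat_lit 0x0) (nat_lit 0x80004c0060000000000002000000000000000000000000000) := T_1 (nat_lit 178) (nat_lit 195) (nat_lit 7) (nat_lit 7) (nat_lit 7) L4254748 (by decide +kernel)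
theorem L4254750 : W_1 (nat_lit 5) (nat_lit 0x2000100038003c0000000000000000000000000000000) (nat_lit 0x0) (nat_lit 0xa0005c0060000000000002000000000000000000000000000) := T_1 (nat_lit 176) (nat_lit 193) (nat_lit 5) (nat_lit 7) (nat_lit 7) L4254749 (by decide +kernel)
theorem L4254751 : W_1 (nat_lit 6) (nat_lit 0x100038003c0000000000000000000000000000000) (nat_lit 0x0) (nat_lit 0xe0007c0060000000000002000000000000000000000000000) := T_1 (nat_lit 177) (nat_lit 194) (nat_lit 6) (nat_lit 7) (nat_lit 11) L4254750 (by decide +kernel)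
theorem L4254752 : W_1 (nat_lit 7) (nat_lit 0x100038001c0000000000000000000000000000000) (nat_lit 0x0) (nat_lit 0xe0007c0060000000600002000000000000000000000000000) := T_1 (nat_lit 129) (nat_lit 130) (nat_lit 1) (nat_lit 11) (nat_lit 7) L4254751 (by decide +kernel)
theorem L4254753 : W_1 (nat_lit 2) (nat_lit 0x6000300038003c0010000000000000000000000000000) (nat_lit 0x0) (nat_lit 0x10000800040000000000000000000000000000000000000000) := D_1 (nat_lit 179) (nat_lit 162) (nat_lit 196) (nat_lit 6) (nat_lit 9) (nat_lit 10) (nat_lit 7) (nat_lit 8) (nat_lit 7) (by decide +kernel)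
theorem L4254754 : W_1 (nat_lit 3) (nat_lit 0x6000100038003c0010000000000000000000000000000) (nat_lit 0x0) (nat_lit 0x10000800060000000000002000000000000000000000000000) := T_1 (nat_lit 161) (nat_lit 109) (nat_lit 7) (nat_lit 7) (nat_lit 6) L4254753 (by decide +kernel)
theorem L4254755 : W_1 (nat_lit 4) (nat_lit 0x2000100038003c0010000000000000000000000000000) (nat_lit 0x0) (nat_lit 0x18000c00060000000000002000000000000000000000000000) := T_1 (nat_lit 178) (nat_lit 195) (nat_lit 7) (nat_lit 7) (nat_lit 7) L4254754 (by decide +kernel)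
theorem L4254756 : W_1 (nat_lit 5) (nat_lit 0x2000100038003c0000000000000000000000000000000) (nat_lit 0x0) (nat_lit 0x18000c00060000000000032000000000000000000000000000) := T_1 (nat_lit 112) (nat_lit 113) (nat_lit 2) (nat_lit 7) (nat_lit 7) L4254755 (by decide +kernel)
theorem L4254757 : W_1 (nat_lit 6) (nat_lit 0x100038003c0000000000000000000000000000000) (nat_lit 0x0) (nat_lit 0x1c000e00060000000000032000000000000000000000000000) := T_1 (nat_lit 177) (nat_lit 194) (nat_lit 6) (nat_lit 7) (nat_lit 11) L4254756 (by decide +kernel)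
theorem L4254758 : W_1 (nat_lit 7) (nat_lit 0x100038001c0000000000000000000000000000000) (nat_lit 0x0) (nat_lit 0x1c000e00060000000600032000000000000000000000000000) := T_1 (nat_lit 129) (nat_lit 130) (nat_lit 1) (nat_lit 11) (nat_lit 7) L4254757 (by decide +kernel)
theorem L4254759 : W_1 (nat_lit 10) (nat_lit 0x38001c0000000000000000000000000000000) (nat_lit 0x0) (nat_lit 0x3e003fc007c000000630032000900048000000000000000000) := Q_1 (nat_lit 160) (C_1 L293137 (C_1 L299092 (C_1 L4254746 (C_1 L292182 (C_1 L4254752 (C_1 L4254758 N_1)))))) (by decide +kernel)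
theorem L4254788 : W_1 (nat_lit 2) (nat_lit 0x300038001c0000000000000000000000000000000) (nat_lit 0x0) (nat_lit 0x400000000000000008000400000000000000000000000) := D_1 (nat_lit 111) (nat_lit 94) (nat_lit 178) (nat_lit 5) (nat_lit 9) (nat_lit 5) (nat_lit 6) (nat_lit 8) (nat_lit 10) (by decide +kernel)
theorem L4254789 : W_1 (nat_lit 5) (nat_lit 0x100038001c0000000000000000000000000000000) (nat_lit 0x0) (nat_lit 0x800050002c00000003000a000500000000000000000000000) := Q_1 (nat_lit 161) (C_1 L4252494 (C_1 L4254745 (C_1 L4254788 N_1))) (by decide +kernel)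
theorem L4254790 : W_1 (nat_lit 3) (nat_lit 0x7000100038003c0000000000000000000000000000000) (nat_lit 0x0) (nat_lit 0xc0060000000000008000000000000000000000000000) := T_1 (nat_lit 161) (nat_lit 111) (nat_lit 6) (nat_lit 8) (nat_lit 10) L4254747 (by decide +kernel)
theorem L4254791 : W_1 (nat_lit 4) (nat_lit 0x3000100038003c0000000000000000000000000000000) (nat_lit 0x0) (nat_lit 0x80004c0060000000000008000000000000000000000000000) := T_1 (nat_lit 178) (nat_lit 195) (nat_lit 7) (nat_lit 7) (nat_lit 7) L4254790 (by decide +kernel)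
theorem L4254792 : W_1 (nat_lit 5) (nat_lit 0x2000100038003c0000000000000000000000000000000) (nat_lit 0x0) (nat_lit 0xa0005c0060000000000008000000000000000000000000000) := T_1 (nat_lit 176) (nat_lit 193) (nat_lit 5) (nat_lit 7) (nat_lit 7) L4254791 (by decide +kernel)
theorem L4254793 : W_1 (nat_lit 6) (nat_lit 0x100038003c0000000000000000000000000000000) (nat_lit 0x0) (nat_lit 0xe0007c0060000000000008000000000000000000000000000) := T_1 (nat_lit 177) (nat_lit 194) (nat_lit 6) (nat_lit 7) (nat_lit 11) L4254792 (by decide +kernel)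
theorem L4254794 : W_1 (nat_lit 7) (nat_lit 0x100038001c0000000000000000000000000000000) (nat_lit 0x0) (nat_lit 0xe0007c0060000000600008000000000000000000000000000) := T_1 (nat_lit 129) (nat_lit 130) (nat_lit 1) (nat_lit 11) (nat_lit 7) L4254793 (by decide +kernel)
theorem L4254795 : W_1 (nat_lit 2) (nat_lit 0x6000100038003d0000000000000000000000000000000) (nat_lit 0x0) (nat_lit 0x2000000000000a000000000000000000000000000) := D_1 (nat_lit 161) (nat_lit 109) (nat_lit 111) (nat_lit 7) (nat_lit 7) (nat_lit 6) (nat_lit 6) (nat_lit 8) (nat_lit 10) (by decide +kernel)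
theorem L4254796 : W_1 (nat_lit 3) (nat_lit 0x2000100038003d0000000000000000000000000000000) (nat_lit 0x0) (nat_lit 0x800040002000000000000a000000000000000000000000000) := T_1 (nat_lit 178) (nat_lit 195) (nat_lit 7) (nat_lit 7) (nat_lit 7) L4254795 (by decide +kernel)
theorem L4254797 : W_1 (nat_lit 4) (nat_lit 0x100038003d0000000000000000000000000000000) (nat_lit 0x0) (nat_lit 0xc00060002000000000000a000000000000000000000000000) := T_1 (nat_lit 177) (nat_lit 194) (nat_lit 6) (nat_lit 7) (nat_lit 11) L4254796 (by decide +kernel)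
theorem L4254798 : W_1 (nat_lit 5) (nat_lit 0x100038001d0000000000000000000000000000000) (nat_lit 0x0) (nat_lit 0xc00060002000000060000a000000000000000000000000000) := T_1 (nat_lit 129) (nat_lit 130) (nat_lit 1) (nat_lit 11) (nat_lit 7) L4254797 (by decide +kernel)
theorem L4254799 : W_1 (nat_lit 6) (nat_lit 0x100038001c0000000000000000000000000000000) (nat_lit 0x0) (nat_lit 0xc00060002000000063000a000000000000000000000000000) := T_1 (nat_lit 124) (nat_lit 125) (nat_lit 3) (nat_lit 5) (nat_lit 7) L4254798 (by decide +kernel)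
theorem L4254800 : W_1 (nat_lit 8) (nat_lit 0x38001c0000000000000000000000000000000) (nat_lit 0x0) (nat_lit 0x3e001fc007c00000063000a000500008000000000000000000) := Q_1 (nat_lit 160) (C_1 L293137 (C_1 L299092 (C_1 L4254752 (C_1 L4254789 (C_1 L4254794 (C_1 L4254799 N_1)))))) (by decide +kernel)
theorem L4254801 : W_1 (nat_lit 11) (nat_lit 0x38000c0000000000000000000000000000000) (nat_lit 0x0) (nat_lit 0x3e003fc007c00000073003a000d00068000000000000000000) := Q_1 (nat_lit 128) (C_1 L253301 (C_1 L4254759 (C_1 L68674 (C_1 L68671 (C_1 L4254800 N_1))))) (by decide +kernel)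
theorem L4254802 : W_1 (nat_lit 12) (nat_lit 0x18000c0000000000000000000000000000000) (nat_lit 0x0) (nat_lit 0x3e003fc007c00e00073003a000d00068000000000000000000) := Q_1 (nat_lit 145) (C_1 L21943 (C_1 L3721873 (C_1 L4254801 N_1))) (by decide +kernel)
theorem L4254803 : W_1 (nat_lit 5) (nat_lit 0x18000e0000000000000000000000000000000) (nat_lit 0x0) (nat_lit 0x2000e000700038000400020000000000000000000) := Q_1 (nat_lit 128) (C_1 L72703 (C_1 L21473 (C_1 L72136 N_1))) (by decide +kernel)
theorem L4254804 : W_1 (nat_lit 7) (nat_lit 0x18000c0000000000000000000000000000000) (nat_lit 0x0) (nat_lit 0x2400e300738039c00480024000000000000000000) := Q_1 (nat_lit 125) (C_1 L72625 (C_1 L1811 (C_1 L4254803 N_1))) (by decide +kernel)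
theorem L4254805 : W_1 (nat_lit 13) (nat_lit 0x1800080000000000000000000000000000000) (nat_lit 0x0) (nat_lit 0x3e003fc007c00e30077803bc00f8007c000000000000000000) := Q_1 (nat_lit 126) (C_1 L261937 (C_1 L257122 (C_1 L72701 (C_1 L4252491 (C_1 L4254802 (C_1 L4254804 N_1)))))) (by decide +kernel)
theorem L4254806 : W_1 (nat_lit 6) (nat_lit 0x18001c0000000000000000000000000000000) (nat_lit 0x0) (nat_lit 0x200010006000038003c00080004000000000000000000) := Q_1 (nat_lit 125) (C_1 L253681 (C_1 L21711 (C_1 L72950 N_1))) (by decide +kernel)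
theorem L4255364 : W_1 (nat_lit 2) (nat_lit 0x7000100078001c0018000e00000000000000000000000) (nat_lit 0x0) (nat_lit 0x20000180000000000000000000000) := D_1 (nat_lit 92) (nat_lit 113) (nat_lit 91) (nat_lit 3) (nat_lit 7) (nat_lit 5) (nat_lit 3) (nat_lit 6) (nat_lit 5) (by decide +kernel)
theorem L4255365 : W_1 (nat_lit 3) (nat_lit 0x7000100078001c0008000e00000000000000000000000) (nat_lit 0x0) (nat_lit 0x40000000000030000180000000000000000000000) := T_1 (nat_lit 112) (nat_lit 162) (nat_lit 6) (nat_lit 9) (nat_lit 9) L4255364 (by decide +kernel)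
theorem L4255366 : W_1 (nat_lit 4) (nat_lit 0x7000100078001c0008000600000000000000000000000) (nat_lit 0x0) (nat_lit 0x40000000000030000980040000000000000000000) := T_1 (nat_lit 95) (nat_lit 78) (nat_lit 6) (nat_lit 9) (nat_lit 8) L4255365 (by decide +kernel)
theorem L4255564 : W_1 (nat_lit 6) (nat_lit 0x18001a0000000000000000000000000000000) (nat_lit 0x0) (nat_lit 0x20001000070005801bc00080004000000000000000000) := Q_1 (nat_lit 126) (C_1 L21711 (C_1 L20975 (C_1 L21657 N_1))) (by decide +kernel)
theorem L4255565 : W_1 (nat_lit 6) (nat_lit 0x18001a0000000000000000000000000000000) (nat_lit 0x0) (nat_lit 0x200010006000058003c00080004000000000000000000) := Q_1 (nat_lit 126) (C_1 L72950 (C_1 L253681 (C_1 L21711 N_1))) (by decide +kernel)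
theorem L4255566 : W_1 (nat_lit 13) (nat_lit 0x1800180000000000000000000000000000000) (nat_lit 0x0) (nat_lit 0x700038001c00670007c01bc005c002e000000000000000000) := Q_1 (nat_lit 125) (C_1 L24630 (C_1 L4255564 (C_1 L2899 (C_1 L4255565 (C_1 L24624 N_1))))) (by decide +kernel)
theorem L4255567 : W_1 (nat_lit 11) (nat_lit 0x1800180000000000000000000000000000000) (nat_lit 0x0) (nat_lit 0x20005000e00067803bc00f8007c000000000000000000) := Q_1 (nat_lit 126) (C_1 L24834 (C_1 L4254806 (C_1 L1810 (C_1 L72949 N_1)))) (by decide +kernel)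
theorem L4255568 : W_1 (nat_lit 14) (nat_lit 0x1800080000000000000000000000000000000) (nat_lit 0x0) (nat_lit 0x700038005c00e70077c03bc00fc007e000000000000000000) := Q_1 (nat_lit 128) (C_1 L4255566 (C_1 L2228 (C_1 L775227 (C_1 L4255567 N_1)))) (by decide +kernel)
theorem L4256057 : W_1 (nat_lit 4) (nat_lit 0x400020001a00180000000000000000000000000000000) (nat_lit 0x0) (nat_lit 0x28001c000a00000000000000000000000000000000000000000000) := T_1 (nat_lit 194) (nat_lit 177) (nat_lit 5) (nat_lit 8) (nat_lit 7) L853233 (by decide +kernel)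
theorem L4256058 : W_1 (nat_lit 5) (nat_lit 0x20001a00180000000000000000000000000000000) (nat_lit 0x0) (nat_lit 0x28001c000e00000000000000008000000000000000000000000000) := T_1 (nat_lit 178) (nat_lit 111) (nat_lit 6) (nat_lit 8) (nat_lit 10) L4256057 (by decide +kernel)
theorem L4256059 : W_1 (nat_lit 6) (nat_lit 0x20001800180000000000000000000000000000000) (nat_lit 0x0) (nat_lit 0x28001c000e00000000600000008000000000000000000000000000) := T_1 (nat_lit 141) (nat_lit 142) (nat_lit 2) (nat_lit 5) (nat_lit 8) L4256058 (by decide +kernel)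
theorem L4256207 : W_1 (nat_lit 2) (nat_lit 0x600018003c001c00180000000000000000000000000000000) (nat_lit 0x0) (nat_lit 0x20001000000000000000020000000000000000000000000000000) := D_1 (nat_lit 192) (nat_lit 209) (nat_lit 125) (nat_lit 6) (nat_lit 5) (nat_lit 12) (nat_lit 5) (nat_lit 6) (nat_lit 7) (by decide +kernel)
theorem L4256208 : W_1 (nat_lit 3) (nat_lit 0x600018003c001800180000000000000000000000000000000) (nat_lit 0x0) (nat_lit 0xa0001000000000000400020000000000000000000000000000000) := T_1 (nat_lit 142) (nat_lit 211) (nat_lit 7) (nat_lit 6) (nat_lit 8) L4256207 (by decide +kernel)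
theorem L4256209 : W_1 (nat_lit 4) (nat_lit 0x400018003c001800180000000000000000000000000000000) (nat_lit 0x0) (nat_lit 0xe0003000000000000400020000000000000000000000000000000) := T_1 (nat_lit 193) (nat_lit 210) (nat_lit 6) (nat_lit 6) (nat_lit 12) L4256208 (by decide +kernel)
theorem L4256210 : W_1 (nat_lit 5) (nat_lit 0x400008003c001800180000000000000000000000000000000) (nat_lit 0x0) (nat_lit 0xe0003000100040000400020000000000000000000000000000000) := T_1 (nat_lit 176) (nat_lit 162) (nat_lit 1) (nat_lit 9) (nat_lit 9) L4256209 (by decide +kernel)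
theorem L4256211 : W_1 (nat_lit 6) (nat_lit 0x400000003c001800180000000000000000000000000000000) (nat_lit 0x0) (nat_lit 0xe00030001c0040000400020000000000000000000000000000000) := T_1 (nat_lit 175) (nat_lit 174) (nat_lit 1) (nat_lit 8) (nat_lit 9) L4256210 (by decide +kernel)
theorem L4256212 : W_1 (nat_lit 7) (nat_lit 0x4000000038001800180000000000000000000000000000000) (nat_lit 0x0) (nat_lit 0xe00030001c0046000400020000000000000000000000000000000) := T_1 (nat_lit 158) (nat_lit 157) (nat_lit 2) (nat_lit 4) (nat_lit 9) L4256211 (by decide +kernel)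
theorem L4256213 : W_1 (nat_lit 8) (nat_lit 0x38001800180000000000000000000000000000000) (nat_lit 0x0) (nat_lit 0xe00070003c0046000400020000000000000000000000000000000) := T_1 (nat_lit 194) (nat_lit 177) (nat_lit 6) (nat_lit 7) (nat_lit 11) L4256212 (by decide +kernel)
theorem L4256214 : W_1 (nat_lit 2) (nat_lit 0x2000180038001c00180000000000000000000000000000000) (nat_lit 0x0) (nat_lit 0x20001000000000000000020000000000000000000000000000000) := D_1 (nat_lit 192) (nat_lit 209) (nat_lit 125) (nat_lit 5) (nat_lit 6) (nat_lit 8) (nat_lit 5) (nat_lit 6) (nat_lit 7) (by decide +kernel)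
theorem L4256215 : W_1 (nat_lit 3) (nat_lit 0x2000180038001800180000000000000000000000000000000) (nat_lit 0x0) (nat_lit 0x20001000000000000600020000000000000000000000000000000) := T_1 (nat_lit 142) (nat_lit 141) (nat_lit 2) (nat_lit 5) (nat_lit 8) L4256214 (by decide +kernel)
theorem L4256216 : W_1 (nat_lit 4) (nat_lit 0x2000100038001800180000000000000000000000000000000) (nat_lit 0x0) (nat_lit 0x20001000080040000600020000000000000000000000000000000) := T_1 (nat_lit 175) (nat_lit 162) (nat_lit 1) (nat_lit 9) (nat_lit 9) L4256215 (by decide +kernel)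
theorem L4256217 : W_1 (nat_lit 5) (nat_lit 0x100038001800180000000000000000000000000000000) (nat_lit 0x0) (nat_lit 0x60003000080040000600020000000000000000000000000000000) := T_1 (nat_lit 193) (nat_lit 210) (nat_lit 6) (nat_lit 6) (nat_lit 12) L4256216 (by decide +kernel)
theorem L4256218 : W_1 (nat_lit 2) (nat_lit 0x180038001800180000000000000000000000000000000) (nat_lit 0x0) (nat_lit 0x4000240000000000000000000000000000000000000000000) := D_1 (nat_lit 177) (nat_lit 194) (nat_lit 174) (nat_lit 6) (nat_lit 7) (nat_lit 11) (nat_lit 2) (nat_lit 4) (nat_lit 10) (by decide +kernel)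
theorem L4256219 : W_1 (nat_lit 3) (nat_lit 0x100038001800180000000000000000000000000000000) (nat_lit 0x0) (nat_lit 0x40002c0040000000000000000000000000000000000000000) := T_1 (nat_lit 175) (nat_lit 162) (nat_lit 1) (nat_lit 9) (nat_lit 9) L4256218 (by decide +kernel)
theorem L4256220 : W_1 (nat_lit 6) (nat_lit 0x38001800180000000000000000000000000000000) (nat_lit 0x0) (nat_lit 0xe00070003c0040000600020000000000000000000000000000000) := Q_1 (nat_lit 176) (C_1 L3942276 (C_1 L3942294 (C_1 L4256217 (C_1 L4256219 N_1)))) (by decide +kernel)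
theorem L4256221 : W_1 (nat_lit 9) (nat_lit 0x28001800180000000000000000000000000000000) (nat_lit 0x0) (nat_lit 0xe00070003c0056000700030000000000000000000000000000000) := Q_1 (nat_lit 160) (C_1 L1947941 (C_1 L292872 (C_1 L4256213 (C_1 L4256220 N_1)))) (by decide +kernel)
theorem L4256886 : W_1 (nat_lit 4) (nat_lit 0x8003c00180000000000000000000000000000000) (nat_lit 0x0) (nat_lit 0x4000200010004000030001000000000000000000000000000) := T_1 (nat_lit 125) (nat_lit 124) (nat_lit 0) (nat_lit 9) (nat_lit 8) L14942 (by decide +kernel)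
theorem L4256887 : W_1 (nat_lit 5) (nat_lit 0x3c00180000000000000000000000000000000) (nat_lit 0x0) (nat_lit 0x400020001c004000030001000000000000000000000000000) := T_1 (nat_lit 159) (nat_lit 158) (nat_lit 1) (nat_lit 9) (nat_lit 8) L4256886 (by decide +kernel)
theorem L4256888 : W_1 (nat_lit 6) (nat_lit 0x3800180000000000000000000000000000000) (nat_lit 0x0) (nat_lit 0x400020001c004600030001000000000000000000000000000) := T_1 (nat_lit 142) (nat_lit 141) (nat_lit 2) (nat_lit 5) (nat_lit 8) L4256887 (by decide +kernel)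
theorem L4264582 : W_1 (nat_lit 2) (nat_lit 0x8001c001a0001000000000000000000000000000) (nat_lit 0x0) (nat_lit 0x200010000000000000000080000000000000000000000) := D_1 (nat_lit 160) (nat_lit 177) (nat_lit 91) (nat_lit 7) (nat_lit 6) (nat_lit 6) (nat_lit 7) (nat_lit 6) (nat_lit 5) (by decide +kernel)
theorem L4264684 : W_1 (nat_lit 5) (nat_lit 0x1c001a0001000000000000000000000000000) (nat_lit 0x0) (nat_lit 0x100000000000000001c000e000500000000000000) := T_1 (nat_lit 91) (nat_lit 160) (nat_lit 7) (nat_lit 6) (nat_lit 5) L3959995 (by decide +kernel)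
theorem L4264747 : W_1 (nat_lit 2) (nat_lit 0xc001c001a0001000000000000000000000000000) (nat_lit 0x0) (nat_lit 0x200010000000000000000080000000000000000000000) := D_1 (nat_lit 160) (nat_lit 91) (nat_lit 177) (nat_lit 7) (nat_lit 6) (nat_lit 5) (nat_lit 7) (nat_lit 6) (nat_lit 6) (by decide +kernel)
theorem L4264748 : W_1 (nat_lit 3) (nat_lit 0xc001c001a0000000000000000000000000000000) (nat_lit 0x0) (nat_lit 0x280010000000000001000080000000000000000000000) := T_1 (nat_lit 108) (nat_lit 175) (nat_lit 5) (nat_lit 6) (nat_lit 6) L4264747 (by decide +kernel)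
theorem L4264793 : W_1 (nat_lit 2) (nat_lit 0x2001f00080000000000000000000000000000000) (nat_lit 0x0) (nat_lit 0x70000000000000000000000000000000000000000) := D_1 (nat_lit 161) (nat_lit 162) (nat_lit 160) (nat_lit 3) (nat_lit 5) (nat_lit 8) (nat_lit 3) (nat_lit 4) (nat_lit 8) (by decide +kernel)
theorem L4264794 : W_1 (nat_lit 3) (nat_lit 0x2001e00080000000000000000000000000000000) (nat_lit 0x0) (nat_lit 0x71000100000000000000000000000000000000000) := T_1 (nat_lit 140) (nat_lit 156) (nat_lit 1) (nat_lit 7) (nat_lit 8) L4264793 (by decide +kernel)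
theorem L4264795 : W_1 (nat_lit 4) (nat_lit 0x1e00080000000000000000000000000000000) (nat_lit 0x0) (nat_lit 0x77000100000000000000000000000000000000000) := T_1 (nat_lit 157) (nat_lit 158) (nat_lit 1) (nat_lit 8) (nat_lit 8) L4264794 (by decide +kernel)
theorem L4264796 : W_1 (nat_lit 6) (nat_lit 0x1c00080000000000000000000000000000000) (nat_lit 0x0) (nat_lit 0x200010007f00230001c000800000000000000000000000000) := Q_1 (nat_lit 141) (C_1 L25467 (C_1 L25473 (C_1 L14771 (C_1 L4264795 N_1)))) (by decide +kernel)
theorem L4265368 : W_1 (nat_lit 2) (nat_lit 0x2000fc000a0000000000000000000000000000000) (nat_lit 0x0) (nat_lit 0x40010000100000000000000000000000000000000) := D_1 (nat_lit 148) (nat_lit 128) (nat_lit 162) (nat_lit 0) (nat_lit 12) (nat_lit 8) (nat_lit 1) (nat_lit 12) (nat_lit 8) (by decide +kernel)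
theorem L4266099 : W_1 (nat_lit 2) (nat_lit 0x3c000a000100008000c000000000000000000) (nat_lit 0x0) (nat_lit 0x40002000100000000000000) := D_1 (nat_lit 73) (nat_lit 90) (nat_lit 56) (nat_lit 4) (nat_lit 6) (nat_lit 8) (nat_lit 4) (nat_lit 6) (nat_lit 7) (by decide +kernel)
theorem L4266100 : W_1 (nat_lit 3) (nat_lit 0x3c000a0001000080008000000000000000000) (nat_lit 0x0) (nat_lit 0x40006000500000000000000) := T_1 (nat_lit 74) (nat_lit 58) (nat_lit 6) (nat_lit 6) (nat_lit 7) L4266099 (by decide +kernel)
theorem L4266101 : W_1 (nat_lit 4) (nat_lit 0x3c000a0001000080000000000000000000000) (nat_lit 0x0) (nat_lit 0x14000e000500000000000000) := T_1 (nat_lit 75) (nat_lit 92) (nat_lit 6) (nat_lit 6) (nat_lit 8) L4266100 (by decide +kernel)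
theorem L4266117 : W_1 (nat_lit 5) (nat_lit 0x3c000a0001000000000000000000000000000) (nat_lit 0x0) (nat_lit 0x100000000000000001c000e000500000000000000) := T_1 (nat_lit 91) (nat_lit 160) (nat_lit 7) (nat_lit 6) (nat_lit 5) L4266101 (by decide +kernel)
theorem L4266190 : W_1 (nat_lit 2) (nat_lit 0x3000100018001c000a0000800000000000000000000000000) (nat_lit 0x0) (nat_lit 0x10000c0000000000000000000000) := D_1 (nat_lit 108) (nat_lit 90) (nat_lit 91) (nat_lit 4) (nat_lit 6) (nat_lit 9) (nat_lit 7) (nat_lit 6) (nat_lit 5) (by decide +kernel)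
theorem L4266191 : W_1 (nat_lit 3) (nat_lit 0x3000100018001c000a0000000000000000000000000000000) (nat_lit 0x0) (nat_lit 0x100018000c0000000000000000000000) := T_1 (nat_lit 107) (nat_lit 124) (nat_lit 4) (nat_lit 6) (nat_lit 10) L4266190 (by decide +kernel)
theorem L4266192 : W_1 (nat_lit 4) (nat_lit 0x3000100018001c00080000000000000000000000000000000) (nat_lit 0x0) (nat_lit 0x800000000000300018000c0000000000000000000000) := T_1 (nat_lit 125) (nat_lit 175) (nat_lit 5) (nat_lit 6) (nat_lit 7) L4266191 (by decide +kernel)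
theorem L4266193 : W_1 (nat_lit 5) (nat_lit 0x2000100018001c00080000000000000000000000000000000) (nat_lit 0x0) (nat_lit 0x200010000800000000000300018000c0000000000000000000000) := T_1 (nat_lit 192) (nat_lit 209) (nat_lit 5) (nat_lit 6) (nat_lit 8) L4266192 (by decide +kernel)
theorem L4266194 : W_1 (nat_lit 6) (nat_lit 0x100018001c00080000000000000000000000000000000) (nat_lit 0x0) (nat_lit 0x600030000800000000000300018000c0000000000000000000000) := T_1 (nat_lit 193) (nat_lit 210) (nat_lit 6) (nat_lit 6) (nat_lit 12) L4266193 (by decide +kernel)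
theorem L4266227 : W_1 (nat_lit 2) (nat_lit 0xc00038001c00080000000000000000000000000000000) (nat_lit 0x0) (nat_lit 0x3000040000000000000000000000000000000000000000) := D_1 (nat_lit 180) (nat_lit 162) (nat_lit 181) (nat_lit 3) (nat_lit 6) (nat_lit 9) (nat_lit 0) (nat_lit 11) (nat_lit 10) (by decide +kernel)
theorem L4266228 : W_1 (nat_lit 3) (nat_lit 0x400038001c00080000000000000000000000000000000) (nat_lit 0x0) (nat_lit 0x10003800040000000000000000000000000000000000000000) := T_1 (nat_lit 179) (nat_lit 196) (nat_lit 7) (nat_lit 8) (nat_lit 7) L4266227 (by decide +kernel)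
theorem L4266301 : W_1 (nat_lit 2) (nat_lit 0x400030000d001c00080000000000000000000000000000000) (nat_lit 0x0) (nat_lit 0x1000080002000000000000000000000000000000000000000000000000) := D_1 (nat_lit 211) (nat_lit 228) (nat_lit 193) (nat_lit 4) (nat_lit 7) (nat_lit 13) (nat_lit 7) (nat_lit 6) (nat_lit 8) (by decide +kernel)
theorem L4266302 : W_1 (nat_lit 3) (nat_lit 0x30000d001c00080000000000000000000000000000000) (nat_lit 0x0) (nat_lit 0x1000080006000000000000000020000000000000000000000000000000) := T_1 (nat_lit 194) (nat_lit 125) (nat_lit 7) (nat_lit 6) (nat_lit 7) L4266301 (by decide +kernel)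
theorem L4266303 : W_1 (nat_lit 4) (nat_lit 0x30000c001c00080000000000000000000000000000000) (nat_lit 0x0) (nat_lit 0x1000080006000000003000000020000000000000000000000000000000) := T_1 (nat_lit 156) (nat_lit 157) (nat_lit 3) (nat_lit 3) (nat_lit 9) L4266302 (by decide +kernel)
theorem L4266304 : W_1 (nat_lit 2) (nat_lit 0x400070000d001c00080000000000000000000000000000000) (nat_lit 0x0) (nat_lit 0x1000080002000000000000000000000000000000000000000000000000) := D_1 (nat_lit 211) (nat_lit 228) (nat_lit 193) (nat_lit 4) (nat_lit 7) (nat_lit 13) (nat_lit 7) (nat_lit 6) (nat_lit 8) (by decide +kernel)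
theorem L4266305 : W_1 (nat_lit 3) (nat_lit 0x70000d001c00080000000000000000000000000000000) (nat_lit 0x0) (nat_lit 0x1000080006000000020000000000000000000000000000000000000000) := T_1 (nat_lit 194) (nat_lit 161) (nat_lit 5) (nat_lit 8) (nat_lit 7) L4266304 (by decide +kernel)
theorem L4266306 : W_1 (nat_lit 4) (nat_lit 0x70000c001c00080000000000000000000000000000000) (nat_lit 0x0) (nat_lit 0x1000080006000000023000000000000000000000000000000000000000) := T_1 (nat_lit 156) (nat_lit 157) (nat_lit 3) (nat_lit 3) (nat_lit 9) L4266305 (by decide +kernel)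
theorem L4266307 : W_1 (nat_lit 5) (nat_lit 0x30000c001c00080000000000000000000000000000000) (nat_lit 0x0) (nat_lit 0x1000080006000c00023000000000000000000000000000000000000000) := T_1 (nat_lit 178) (nat_lit 179) (nat_lit 0) (nat_lit 9) (nat_lit 10) L4266306 (by decide +kernel)
theorem L4266313 : W_1 (nat_lit 2) (nat_lit 0x400030000c001c00080000000000000000000000000000000) (nat_lit 0x0) (nat_lit 0x1000080002000000000000000000000000000000000000000000000000) := D_1 (nat_lit 211) (nat_lit 193) (nat_lit 228) (nat_lit 7) (nat_lit 6) (nat_lit 8) (nat_lit 4) (nat_lit 7) (nat_lit 13) (by decide +kernel)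
theorem L4266314 : W_1 (nat_lit 3) (nat_lit 0x400010000c001c00080000000000000000000000000000000) (nat_lit 0x0) (nat_lit 0x1000080002000200000000000020000000000000000000000000000000) := T_1 (nat_lit 177) (nat_lit 125) (nat_lit 7) (nat_lit 6) (nat_lit 7) L4266313 (by decide +kernel)
theorem L4266315 : W_1 (nat_lit 4) (nat_lit 0x50000c001c00080000000000000000000000000000000) (nat_lit 0x0) (nat_lit 0x1000080006000a00000000000020000000000000000000000000000000) := T_1 (nat_lit 177) (nat_lit 179) (nat_lit 0) (nat_lit 9) (nat_lit 10) L353242 (by decide +kernel)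
theorem L4266349 : W_1 (nat_lit 2) (nat_lit 0xf00008001c00080000000000000000000000000000000) (nat_lit 0x0) (nat_lit 0x30000000020000000000000000000000000000000000000000) := D_1 (nat_lit 196) (nat_lit 197) (nat_lit 161) (nat_lit 3) (nat_lit 6) (nat_lit 10) (nat_lit 7) (nat_lit 8) (nat_lit 7) (by decide +kernel)
theorem L4266350 : W_1 (nat_lit 3) (nat_lit 0x700008001c00080000000000000000000000000000000) (nat_lit 0x0) (nat_lit 0x30000800024000000000000000000000000000000000000000) := T_1 (nat_lit 179) (nat_lit 158) (nat_lit 0) (nat_lit 9) (nat_lit 10) L4266349 (by decide +kernel)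
theorem L4266742 : W_1 (nat_lit 2) (nat_lit 0x10000c001c000a0000000000000000000000000000000) (nat_lit 0x0) (nat_lit 0x13000000000000000000000000000000000000000) := D_1 (nat_lit 157) (nat_lit 160) (nat_lit 156) (nat_lit 2) (nat_lit 4) (nat_lit 9) (nat_lit 2) (nat_lit 3) (nat_lit 9) (by decide +kernel)
theorem L4266749 : W_1 (nat_lit 2) (nat_lit 0x2000100018001c000a0000800000000000000000000000000) (nat_lit 0x0) (nat_lit 0x20001000080000000000000000000000000000000000000000000) := D_1 (nat_lit 192) (nat_lit 209) (nat_lit 175) (nat_lit 5) (nat_lit 6) (nat_lit 8) (nat_lit 5) (nat_lit 6) (nat_lit 7) (by decide +kernel)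
theorem L4266750 : W_1 (nat_lit 3) (nat_lit 0x100018001c000a0000800000000000000000000000000) (nat_lit 0x0) (nat_lit 0x60003000080000000000000000000000000000000000000000000) := T_1 (nat_lit 193) (nat_lit 210) (nat_lit 6) (nat_lit 6) (nat_lit 12) L4266749 (by decide +kernel)
theorem L4266751 : W_1 (nat_lit 4) (nat_lit 0x100018001c000a0000000000000000000000000000000) (nat_lit 0x0) (nat_lit 0x60003000080000000000010000800000000000000000000000000) := T_1 (nat_lit 107) (nat_lit 124) (nat_lit 4) (nat_lit 6) (nat_lit 10) L4266750 (by decide +kernel)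
theorem L4266765 : W_1 (nat_lit 2) (nat_lit 0x20002000100008001c000a0000800000000000000000000000000) (nat_lit 0x0) (nat_lit 0x400040000000000010000000000000000000000000000000000000000) := D_1 (nat_lit 210) (nat_lit 160) (nat_lit 226) (nat_lit 6) (nat_lit 6) (nat_lit 12) (nat_lit 5) (nat_lit 6) (nat_lit 9) (by decide +kernel)
theorem L4266766 : W_1 (nat_lit 3) (nat_lit 0x2000100008001c000a0000800000000000000000000000000) (nat_lit 0x0) (nat_lit 0x400060001000000010000000000000000000000000000000000000000) := T_1 (nat_lit 209) (nat_lit 192) (nat_lit 5) (nat_lit 6) (nat_lit 8) L4266765 (by decide +kernel)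
theorem L4266767 : W_1 (nat_lit 4) (nat_lit 0x2000100008001c000a0000000000000000000000000000000) (nat_lit 0x0) (nat_lit 0x400060001000000010000000010000800000000000000000000000000) := T_1 (nat_lit 107) (nat_lit 124) (nat_lit 4) (nat_lit 6) (nat_lit 10) L4266766 (by decide +kernel)
theorem L4266768 : W_1 (nat_lit 2) (nat_lit 0x2000100008001c000a0000000000000000000000000000000) (nat_lit 0x0) (nat_lit 0x20001000080000000000000000000000000000000000000000000) := D_1 (nat_lit 192) (nat_lit 175) (nat_lit 209) (nat_lit 5) (nat_lit 6) (nat_lit 7) (nat_lit 5) (nat_lit 6) (nat_lit 8) (by decide +kernel)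
theorem L4266769 : W_1 (nat_lit 2) (nat_lit 0x1400040002000100008001c000a0000800000000000000000000000000) (nat_lit 0x0) (nat_lit 0x28000800000000000000000000000000000000000000000000000000000000) := D_1 (nat_lit 227) (nat_lit 245) (nat_lit 243) (nat_lit 7) (nat_lit 6) (nat_lit 10) (nat_lit 5) (nat_lit 6) (nat_lit 10) (by decide +kernel)
theorem L4266770 : W_1 (nat_lit 3) (nat_lit 0x1000040002000100008001c000a0000800000000000000000000000000) (nat_lit 0x0) (nat_lit 0x28000c00020000000000000000000000000000000000000000000000000000) := T_1 (nat_lit 226) (nat_lit 209) (nat_lit 5) (nat_lit 6) (nat_lit 9) L4266769 (by decide +kernel)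
theorem L4266771 : W_1 (nat_lit 4) (nat_lit 0x40002000100008001c000a0000800000000000000000000000000) (nat_lit 0x0) (nat_lit 0x28001c000a0000000000000000000000000000000000000000000000000000) := T_1 (nat_lit 228) (nat_lit 211) (nat_lit 7) (nat_lit 6) (nat_lit 9) L4266770 (by decide +kernel)
theorem L4266772 : W_1 (nat_lit 5) (nat_lit 0x40002000100008001c000a0000000000000000000000000000000) (nat_lit 0x0) (nat_lit 0x28001c000a0000000000000000000010000800000000000000000000000000) := T_1 (nat_lit 107) (nat_lit 124) (nat_lit 4) (nat_lit 6) (nat_lit 10) L4266771 (by decide +kernel)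
theorem L4266773 : W_1 (nat_lit 6) (nat_lit 0x2000100008001c000a0000000000000000000000000000000) (nat_lit 0x0) (nat_lit 0x28001c000e0000000000010000000010000800000000000000000000000000) := T_1 (nat_lit 210) (nat_lit 160) (nat_lit 6) (nat_lit 6) (nat_lit 12) L4266772 (by decide +kernel)
theorem L4266774 : W_1 (nat_lit 2) (nat_lit 0x20001c001a001c000a0000000000000000000000000000000) (nat_lit 0x0) (nat_lit 0x200060000000000000000000000000000000000000000) := D_1 (nat_lit 161) (nat_lit 162) (nat_lit 177) (nat_lit 1) (nat_lit 9) (nat_lit 9) (nat_lit 2) (nat_lit 4) (nat_lit 10) (by decide +kernel)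
theorem L4266775 : W_1 (nat_lit 3) (nat_lit 0x200018001a001c000a0000000000000000000000000000000) (nat_lit 0x0) (nat_lit 0x260060000000000000000000000000000000000000000) := T_1 (nat_lit 174) (nat_lit 173) (nat_lit 2) (nat_lit 3) (nat_lit 10) L4266774 (by decide +kernel)
theorem L4266776 : W_1 (nat_lit 4) (nat_lit 0x200010001a001c000a0000000000000000000000000000000) (nat_lit 0x0) (nat_lit 0x10002e0060000000000000000000000000000000000000000) := T_1 (nat_lit 175) (nat_lit 192) (nat_lit 5) (nat_lit 6) (nat_lit 7) L4266775 (by decide +kernel)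
theorem L4266777 : W_1 (nat_lit 5) (nat_lit 0x2000100018001c000a0000000000000000000000000000000) (nat_lit 0x0) (nat_lit 0x10002e0066000000000000000000000000000000000000000) := T_1 (nat_lit 157) (nat_lit 158) (nat_lit 2) (nat_lit 4) (nat_lit 9) L4266776 (by decide +kernel)
theorem L4266778 : W_1 (nat_lit 6) (nat_lit 0x2000100008001c000a0000000000000000000000000000000) (nat_lit 0x0) (nat_lit 0x400010002e0076000000000000000000000000000000000000000) := T_1 (nat_lit 160) (nat_lit 210) (nat_lit 6) (nat_lit 6) (nat_lit 12) L4266777 (by decide +kernel)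
theorem L4266779 : W_1 (nat_lit 7) (nat_lit 0x100008001c000a0000000000000000000000000000000) (nat_lit 0x0) (nat_lit 0x28001c000e00030002e0076000000010000800000000000000000000000000) := Q_1 (nat_lit 193) (C_1 L4266767 (C_1 L4266768 (C_1 L4266773 (C_1 L4266778 N_1)))) (by decide +kernel)
theorem L4266780 : W_1 (nat_lit 8) (nat_lit 0x100008001c00080000000000000000000000000000000) (nat_lit 0x0) (nat_lit 0x28001c000e00030002e00760000000300038001c0008000000000000000000) := Q_1 (nat_lit 125) (C_1 L376286 (C_1 L774990 (C_1 L4266779 (C_1 L376193 N_1)))) (by decide +kernel)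
theorem L4266781 : W_1 (nat_lit 2) (nat_lit 0x30000e001c000a0000000000000000000000000000000) (nat_lit 0x0) (nat_lit 0xc80000000000000000000000000000000000000000000) := D_1 (nat_lit 178) (nat_lit 179) (nat_lit 175) (nat_lit 0) (nat_lit 9) (nat_lit 10) (nat_lit 0) (nat_lit 8) (nat_lit 10) (by decide +kernel)
theorem L4266782 : W_1 (nat_lit 3) (nat_lit 0x30000c001c000a0000000000000000000000000000000) (nat_lit 0x0) (nat_lit 0xc80003000000000000000000000000000000000000000) := T_1 (nat_lit 157) (nat_lit 156) (nat_lit 3) (nat_lit 3) (nat_lit 9) L4266781 (by decide +kernel)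
theorem L4266783 : W_1 (nat_lit 4) (nat_lit 0x10000c001c000a0000000000000000000000000000000) (nat_lit 0x0) (nat_lit 0x4000e80003000000000000000000000000000000000000000) := T_1 (nat_lit 177) (nat_lit 194) (nat_lit 7) (nat_lit 6) (nat_lit 7) L4266782 (by decide +kernel)
theorem L4266784 : W_1 (nat_lit 2) (nat_lit 0x800078002c001c000a0000800000000000000000000000000) (nat_lit 0x0) (nat_lit 0x100000000040010000000000000000000000000000000000000000) := D_1 (nat_lit 160) (nat_lit 174) (nat_lit 212) (nat_lit 2) (nat_lit 4) (nat_lit 10) (nat_lit 4) (nat_lit 8) (nat_lit 12) (by decide +kernel)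
theorem L4266785 : W_1 (nat_lit 3) (nat_lit 0x800078000c001c000a0000800000000000000000000000000) (nat_lit 0x0) (nat_lit 0x100000000040070000000000000000000000000000000000000000) := T_1 (nat_lit 161) (nat_lit 162) (nat_lit 2) (nat_lit 5) (nat_lit 10) L4266784 (by decide +kernel)
theorem L4266786 : W_1 (nat_lit 4) (nat_lit 0x78000c001c000a0000800000000000000000000000000) (nat_lit 0x0) (nat_lit 0x100018000040070000000000000000000000000000000000000000) := T_1 (nat_lit 195) (nat_lit 196) (nat_lit 3) (nat_lit 5) (nat_lit 10) L4266785 (by decide +kernel)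
theorem L4266787 : W_1 (nat_lit 5) (nat_lit 0x70000c001c000a0000800000000000000000000000000) (nat_lit 0x0) (nat_lit 0x1000190000c0070000000000000000000000000000000000000000) := T_1 (nat_lit 175) (nat_lit 192) (nat_lit 5) (nat_lit 6) (nat_lit 7) L4266786 (by decide +kernel)
theorem L4266788 : W_1 (nat_lit 6) (nat_lit 0x70000c001c000a0000000000000000000000000000000) (nat_lit 0x0) (nat_lit 0x1000190000c0070000000010000800000000000000000000000000) := T_1 (nat_lit 107) (nat_lit 124) (nat_lit 4) (nat_lit 6) (nat_lit 10) L4266787 (by decide +kernel)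
theorem L4266789 : W_1 (nat_lit 7) (nat_lit 0x30000c001c000a0000000000000000000000000000000) (nat_lit 0x0) (nat_lit 0x100019000cc0070000000010000800000000000000000000000000) := T_1 (nat_lit 178) (nat_lit 179) (nat_lit 0) (nat_lit 9) (nat_lit 10) L4266788 (by decide +kernel)
theorem L4266790 : W_1 (nat_lit 8) (nat_lit 0x10000c001c000a0000000000000000000000000000000) (nat_lit 0x0) (nat_lit 0x10001d000ec0070000000010000800000000000000000000000000) := T_1 (nat_lit 177) (nat_lit 194) (nat_lit 7) (nat_lit 6) (nat_lit 7) L4266789 (by decide +kernel)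
theorem L4266791 : W_1 (nat_lit 9) (nat_lit 0x100008001c000a0000000000000000000000000000000) (nat_lit 0x0) (nat_lit 0x10001d000ec0077000000010000800000000000000000000000000) := Q_1 (nat_lit 158) (C_1 L4266742 (C_1 L4266783 (C_1 L4266790 N_1))) (by decide +kernel)
theorem L4266792 : W_1 (nat_lit 5) (nat_lit 0x100008001c000a0000000000000000000000000000000) (nat_lit 0x0) (nat_lit 0x5000680007000000000001000000000000000000000000000) := T_1 (nat_lit 175) (nat_lit 192) (nat_lit 5) (nat_lit 6) (nat_lit 7) L376341 (by decide +kernel)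
theorem L4266793 : W_1 (nat_lit 10) (nat_lit 0x100008001c00080000000000000000000000000000000) (nat_lit 0x0) (nat_lit 0x10001d000ec00770000000300038001c0008000000000000000000) := Q_1 (nat_lit 125) (C_1 L376286 (C_1 L774990 (C_1 L4266791 (C_1 L4266792 N_1)))) (by decide +kernel)
theorem L4266802 : W_1 (nat_lit 2) (nat_lit 0x6000900078001c00080000000000000000000000000000000) (nat_lit 0x0) (nat_lit 0x200010000400000000000000000000000000000000000000000000) := D_1 (nat_lit 196) (nat_lit 213) (nat_lit 178) (nat_lit 4) (nat_lit 9) (nat_lit 12) (nat_lit 7) (nat_lit 8) (nat_lit 7) (by decide +kernel)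
theorem L4266803 : W_1 (nat_lit 3) (nat_lit 0x6000100078001c00080000000000000000000000000000000) (nat_lit 0x0) (nat_lit 0x200010001c00000000000000000000000000000000000000000000) := T_1 (nat_lit 179) (nat_lit 180) (nat_lit 3) (nat_lit 6) (nat_lit 9) L4266802 (by decide +kernel)
theorem L4266804 : W_1 (nat_lit 4) (nat_lit 0x2000100078001c00080000000000000000000000000000000) (nat_lit 0x0) (nat_lit 0x280014001c00000000000000000000000000000000000000000000) := T_1 (nat_lit 194) (nat_lit 211) (nat_lit 7) (nat_lit 6) (nat_lit 8) L4266803 (by decide +kernel)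
theorem L4266805 : W_1 (nat_lit 5) (nat_lit 0x2000100038001c00080000000000000000000000000000000) (nat_lit 0x0) (nat_lit 0x280014001c80040000000000000000000000000000000000000000) := T_1 (nat_lit 162) (nat_lit 175) (nat_lit 1) (nat_lit 9) (nat_lit 9) L4266804 (by decide +kernel)
theorem L4266806 : W_1 (nat_lit 6) (nat_lit 0x100038001c00080000000000000000000000000000000) (nat_lit 0x0) (nat_lit 0x2c0016001c80040000000000000000000000000000000000000000) := T_1 (nat_lit 193) (nat_lit 210) (nat_lit 6) (nat_lit 6) (nat_lit 12) L4266805 (by decide +kernel)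
theorem L4266834 : W_1 (nat_lit 6) (nat_lit 0x10000c001c00080000000000000000000000000000000) (nat_lit 0x0) (nat_lit 0x1000080006000e80023000000020000000000000000000000000000000) := Q_1 (nat_lit 177) (C_1 L4266307 (C_1 L4266303 (C_1 L295289 (C_1 L502897 N_1)))) (by decide +kernel)
theorem L4266838 : W_1 (nat_lit 2) (nat_lit 0x40004000600010000c001c00080000000000000000000000000000000) (nat_lit 0x0) (nat_lit 0x8000800000000000080000000000000000000000000000000000000000000) := D_1 (nat_lit 227) (nat_lit 175) (nat_lit 243) (nat_lit 4) (nat_lit 6) (nat_lit 13) (nat_lit 5) (nat_lit 6) (nat_lit 10) (by decide +kernel)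
theorem L4266839 : W_1 (nat_lit 3) (nat_lit 0x4000600010000c001c00080000000000000000000000000000000) (nat_lit 0x0) (nat_lit 0x8000c00020000000080000000000000000000000000000000000000000000) := T_1 (nat_lit 226) (nat_lit 209) (nat_lit 5) (nat_lit 6) (nat_lit 9) L4266838 (by decide +kernel)
theorem L4266840 : W_1 (nat_lit 4) (nat_lit 0x600010000c001c00080000000000000000000000000000000) (nat_lit 0x0) (nat_lit 0x8000c00060000000080010000000000000000000000000000000000000000) := T_1 (nat_lit 210) (nat_lit 160) (nat_lit 6) (nat_lit 6) (nat_lit 12) L4266839 (by decide +kernel)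
theorem L4266841 : W_1 (nat_lit 5) (nat_lit 0x400010000c001c00080000000000000000000000000000000) (nat_lit 0x0) (nat_lit 0x8000c000e0002000080010000000000000000000000000000000000000000) := T_1 (nat_lit 193) (nat_lit 211) (nat_lit 7) (nat_lit 6) (nat_lit 8) L4266840 (by decide +kernel)
theorem L4266842 : W_1 (nat_lit 2) (nat_lit 0x400010000c001c00080000000000000000000000000000000) (nat_lit 0x0) (nat_lit 0x200010000000020000000000000000000000000000000) := D_1 (nat_lit 177) (nat_lit 160) (nat_lit 125) (nat_lit 6) (nat_lit 7) (nat_lit 11) (nat_lit 7) (nat_lit 6) (nat_lit 7) (by decide +kernel)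
theorem L4266843 : W_1 (nat_lit 6) (nat_lit 0x10000c001c00080000000000000000000000000000000) (nat_lit 0x0) (nat_lit 0x8001c000e0006000280010000000020000000000000000000000000000000) := Q_1 (nat_lit 194) (C_1 L4266841 (C_1 L4266314 (C_1 L4266842 N_1))) (by decide +kernel)
theorem L4266844 : W_1 (nat_lit 7) (nat_lit 0x100008001c00080000000000000000000000000000000) (nat_lit 0x0) (nat_lit 0x8001c000e0006000e80037000000020000000000000000000000000000000) := Q_1 (nat_lit 158) (C_1 L4266834 (C_1 L294676 (C_1 L4266843 N_1))) (by decide +kernel)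
theorem L4266845 : W_1 (nat_lit 11) (nat_lit 0x8001c00080000000000000000000000000000000) (nat_lit 0x0) (nat_lit 0x100038001c001e001fc00fe00770000000300038001c0008000000000000000000) := Q_1 (nat_lit 176) (C_1 L783732 (C_1 L775025 (C_1 L4232358 (C_1 L4266780 (C_1 L4266793 (C_1 L775027 (C_1 L4266844 N_1))))))) (by decide +kernel)
theorem L4267120 : W_1 (nat_lit 2) (nat_lit 0x4000c000200010000c001c00080000000000000000000000000000000) (nat_lit 0x0) (nat_lit 0x8000800000000000080000000000000000000000000000000000000000000) := D_1 (nat_lit 227) (nat_lit 175) (nat_lit 243) (nat_lit 4) (nat_lit 6) (nat_lit 13) (nat_lit 5) (nat_lit 6) (nat_lit 10) (by decide +kernel)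
theorem L4267121 : W_1 (nat_lit 3) (nat_lit 0xc000200010000c001c00080000000000000000000000000000000) (nat_lit 0x0) (nat_lit 0x8000c00020000000080000000000000000000000000000000000000000000) := T_1 (nat_lit 226) (nat_lit 209) (nat_lit 5) (nat_lit 6) (nat_lit 9) L4267120 (by decide +kernel)
theorem L4267122 : W_1 (nat_lit 4) (nat_lit 0x8000200010000c001c00080000000000000000000000000000000) (nat_lit 0x0) (nat_lit 0x8001c00060000000080000000000000000000000000000000000000000000) := T_1 (nat_lit 210) (nat_lit 228) (nat_lit 7) (nat_lit 6) (nat_lit 9) L4267121 (by decide +kernel)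
theorem L4267123 : W_1 (nat_lit 5) (nat_lit 0x80002000100008001c00080000000000000000000000000000000) (nat_lit 0x0) (nat_lit 0x8001c00060000000080004002000000000000000000000000000000000000) := T_1 (nat_lit 158) (nat_lit 145) (nat_lit 1) (nat_lit 9) (nat_lit 8) L4267122 (by decide +kernel)
theorem L4267124 : W_1 (nat_lit 6) (nat_lit 0x2000100008001c00080000000000000000000000000000000) (nat_lit 0x0) (nat_lit 0x8001c000e0004000080004002000000000000000000000000000000000000) := T_1 (nat_lit 211) (nat_lit 194) (nat_lit 7) (nat_lit 6) (nat_lit 8) L4267123 (by decide +kernel)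
theorem L4267129 : W_1 (nat_lit 2) (nat_lit 0x2800080004000200010000d001c00080000000000000000000000000000000) (nat_lit 0x0) (nat_lit 0x500010000000000000000000000000000000000000000000000000000000000000) := D_1 (nat_lit 244) (nat_lit 260) (nat_lit 262) (nat_lit 5) (nat_lit 6) (nat_lit 11) (nat_lit 7) (nat_lit 6) (nat_lit 11) (by decide +kernel)
theorem L4267130 : W_1 (nat_lit 3) (nat_lit 0x800080004000200010000d001c00080000000000000000000000000000000) (nat_lit 0x0) (nat_lit 0x500030001000000000000000000000000000000000000000000000000000000000) := T_1 (nat_lit 245) (nat_lit 228) (nat_lit 7) (nat_lit 6) (nat_lit 10) L4267129 (by decide +kernel)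
theorem L4267131 : W_1 (nat_lit 4) (nat_lit 0x80004000200010000d001c00080000000000000000000000000000000) (nat_lit 0x0) (nat_lit 0x500038001400000000000000000000000000000000000000000000000000000000) := T_1 (nat_lit 243) (nat_lit 226) (nat_lit 5) (nat_lit 6) (nat_lit 10) L4267130 (by decide +kernel)
theorem L4267132 : W_1 (nat_lit 5) (nat_lit 0x4000200010000d001c00080000000000000000000000000000000) (nat_lit 0x0) (nat_lit 0x500038001c00000000000080000000000000000000000000000000000000000000) := T_1 (nat_lit 227) (nat_lit 175) (nat_lit 4) (nat_lit 6) (nat_lit 13) L4267131 (by decide +kernel)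
theorem L4267133 : W_1 (nat_lit 6) (nat_lit 0x4000200010000c001c00080000000000000000000000000000000) (nat_lit 0x0) (nat_lit 0x500038001c00000000000080003000000000000000000000000000000000000000) := T_1 (nat_lit 156) (nat_lit 157) (nat_lit 2) (nat_lit 3) (nat_lit 9) L4267132 (by decide +kernel)
theorem L4267134 : W_1 (nat_lit 7) (nat_lit 0x40002000100008001c00080000000000000000000000000000000) (nat_lit 0x0) (nat_lit 0x500038001c00000000000080007002000000000000000000000000000000000000) := T_1 (nat_lit 158) (nat_lit 145) (nat_lit 1) (nat_lit 9) (nat_lit 8) L4267133 (by decide +kernel)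
theorem L4267138 : W_1 (nat_lit 2) (nat_lit 0x3000500008003c00180000000000000000000000000000000) (nat_lit 0x0) (nat_lit 0x8000000020000000000008000000000000000000000000000) := D_1 (nat_lit 161) (nat_lit 195) (nat_lit 111) (nat_lit 6) (nat_lit 8) (nat_lit 11) (nat_lit 6) (nat_lit 8) (nat_lit 10) (by decide +kernel)
theorem L4267139 : W_1 (nat_lit 3) (nat_lit 0x3000500008003c00080000000000000000000000000000000) (nat_lit 0x0) (nat_lit 0x8000000020000000300008000000000000000000000000000) := T_1 (nat_lit 128) (nat_lit 129) (nat_lit 2) (nat_lit 6) (nat_lit 8) L4267138 (by decide +kernel)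
theorem L4267140 : W_1 (nat_lit 4) (nat_lit 0x3000500008001c00080000000000000000000000000000000) (nat_lit 0x0) (nat_lit 0x8000000024002000300008000000000000000000000000000) := T_1 (nat_lit 145) (nat_lit 158) (nat_lit 1) (nat_lit 9) (nat_lit 8) L4267139 (by decide +kernel)
theorem L4267141 : W_1 (nat_lit 5) (nat_lit 0x2000500008001c00080000000000000000000000000000000) (nat_lit 0x0) (nat_lit 0x20009000000024002000300008000000000000000000000000000) := T_1 (nat_lit 192) (nat_lit 209) (nat_lit 5) (nat_lit 6) (nat_lit 8) L4267140 (by decide +kernel)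
theorem L4267142 : W_1 (nat_lit 2) (nat_lit 0x2000500008003c00180000000000000000000000000000000) (nat_lit 0x0) (nat_lit 0x8000000020000000000008000000000000000000000000000) := D_1 (nat_lit 161) (nat_lit 195) (nat_lit 111) (nat_lit 6) (nat_lit 8) (nat_lit 11) (nat_lit 6) (nat_lit 8) (nat_lit 10) (by decide +kernel)
theorem L4267143 : W_1 (nat_lit 3) (nat_lit 0x2000500008003c00080000000000000000000000000000000) (nat_lit 0x0) (nat_lit 0x8000000020000000300008000000000000000000000000000) := T_1 (nat_lit 128) (nat_lit 129) (nat_lit 2) (nat_lit 6) (nat_lit 8) L4267142 (by decide +kernel)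
theorem L4267144 : W_1 (nat_lit 4) (nat_lit 0x2000500008001c00080000000000000000000000000000000) (nat_lit 0x0) (nat_lit 0x8000000024002000300008000000000000000000000000000) := T_1 (nat_lit 145) (nat_lit 158) (nat_lit 1) (nat_lit 9) (nat_lit 8) L4267143 (by decide +kernel)
theorem L4267145 : W_1 (nat_lit 6) (nat_lit 0x2000100008001c00080000000000000000000000000000000) (nat_lit 0x0) (nat_lit 0x20009c00e80024002000300008000000000000000000000000000) := Q_1 (nat_lit 178) (C_1 L4233208 (C_1 L4267141 (C_1 L4267144 N_1))) (by decide +kernel)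
theorem L4267147 : W_1 (nat_lit 2) (nat_lit 0x40002000100008001c00080000000000000000000000000000000) (nat_lit 0x0) (nat_lit 0x1000080004000000000000000000000000000000000000000000000000) := D_1 (nat_lit 211) (nat_lit 228) (nat_lit 194) (nat_lit 7) (nat_lit 6) (nat_lit 9) (nat_lit 7) (nat_lit 6) (nat_lit 8) (by decide +kernel)
theorem L4267148 : W_1 (nat_lit 2) (nat_lit 0x400060001c000d001c00080000000000000000000000000000000) (nat_lit 0x0) (nat_lit 0x19000000000000000000000000000000000000000000000000) := D_1 (nat_lit 195) (nat_lit 196) (nat_lit 192) (nat_lit 0) (nat_lit 9) (nat_lit 11) (nat_lit 0) (nat_lit 8) (nat_lit 11) (by decide +kernel)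
theorem L4267149 : W_1 (nat_lit 3) (nat_lit 0x4000600018000d001c00080000000000000000000000000000000) (nat_lit 0x0) (nat_lit 0x19000060000000000000000000000000000000000000000000) := T_1 (nat_lit 174) (nat_lit 173) (nat_lit 3) (nat_lit 3) (nat_lit 10) L4267148 (by decide +kernel)
theorem L4267150 : W_1 (nat_lit 4) (nat_lit 0x4000600010000d001c00080000000000000000000000000000000) (nat_lit 0x0) (nat_lit 0x8000000190000e0000000000000000000000000000000000000000000) := T_1 (nat_lit 175) (nat_lit 227) (nat_lit 4) (nat_lit 6) (nat_lit 13) L4267149 (by decide +kernel)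
theorem L4267151 : W_1 (nat_lit 5) (nat_lit 0x4000600010000c001c00080000000000000000000000000000000) (nat_lit 0x0) (nat_lit 0x8000000190000e0003000000000000000000000000000000000000000) := T_1 (nat_lit 156) (nat_lit 157) (nat_lit 2) (nat_lit 3) (nat_lit 9) L4267150 (by decide +kernel)
theorem L4267152 : W_1 (nat_lit 6) (nat_lit 0x40006000100008001c00080000000000000000000000000000000) (nat_lit 0x0) (nat_lit 0x8000000190000e0007002000000000000000000000000000000000000) := T_1 (nat_lit 158) (nat_lit 145) (nat_lit 1) (nat_lit 9) (nat_lit 8) L4267151 (by decide +kernel)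
theorem L4267153 : W_1 (nat_lit 7) (nat_lit 0x40002000100008001c00080000000000000000000000000000000) (nat_lit 0x0) (nat_lit 0x80008001d0000e0007002000000000000000000000000000000000000) := T_1 (nat_lit 194) (nat_lit 211) (nat_lit 7) (nat_lit 6) (nat_lit 8) L4267152 (by decide +kernel)
theorem L4267154 : W_1 (nat_lit 8) (nat_lit 0x2000100008001c00080000000000000000000000000000000) (nat_lit 0x0) (nat_lit 0x500038001c000c001d0000e0007002000000000000000000000000000000000000) := Q_1 (nat_lit 210) (C_1 L4267147 (C_1 L4267134 (C_1 L4267153 N_1))) (by decide +kernel)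
theorem L4267155 : W_1 (nat_lit 9) (nat_lit 0x100008001c00080000000000000000000000000000000) (nat_lit 0x0) (nat_lit 0x500038001c000e001fc00ee0027002000300008000000000000000000000000000) := Q_1 (nat_lit 193) (C_1 L312649 (C_1 L25592 (C_1 L4267124 (C_1 L4267145 (C_1 L4267154 N_1))))) (by decide +kernel)
theorem L4267156 : W_1 (nat_lit 5) (nat_lit 0x100008001c00080000000000000000000000000000000) (nat_lit 0x0) (nat_lit 0xa0007000280000002000030000800000000000000000000000000) := Q_1 (nat_lit 125) (C_1 L826730 (C_1 L376189 N_1)) (by decide +kernel)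
theorem L4267297 : W_1 (nat_lit 4) (nat_lit 0x700008001c00080000000000000000000000000000000) (nat_lit 0x0) (nat_lit 0x1000080006000800004000000020000000000000000000000000000000) := T_1 (nat_lit 158) (nat_lit 179) (nat_lit 0) (nat_lit 9) (nat_lit 10) L353242 (by decide +kernel)
theorem L4267298 : W_1 (nat_lit 2) (nat_lit 0x700008001c00080000000000000000000000000000000) (nat_lit 0x0) (nat_lit 0x4000000020000000020000000000000000000000000000000) := D_1 (nat_lit 194) (nat_lit 125) (nat_lit 161) (nat_lit 7) (nat_lit 6) (nat_lit 7) (nat_lit 5) (nat_lit 8) (nat_lit 7) (by decide +kernel)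
theorem L4267299 : W_1 (nat_lit 5) (nat_lit 0x500008001c00080000000000000000000000000000000) (nat_lit 0x0) (nat_lit 0x1000080036000a00024000000020000000000000000000000000000000) := Q_1 (nat_lit 177) (C_1 L4266350 (C_1 L4267297 (C_1 L4267298 N_1))) (by decide +kernel)
theorem L4267300 : W_1 (nat_lit 4) (nat_lit 0x500008001c00080000000000000000000000000000000) (nat_lit 0x0) (nat_lit 0x8000000024002000300008000000000000000000000000000) := T_1 (nat_lit 145) (nat_lit 158) (nat_lit 1) (nat_lit 9) (nat_lit 8) L4231302 (by decide +kernel)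
theorem L4267301 : W_1 (nat_lit 5) (nat_lit 0x500008001c00080000000000000000000000000000000) (nat_lit 0x0) (nat_lit 0x1000080006000a00004002000020000000000000000000000000000000) := T_1 (nat_lit 158) (nat_lit 145) (nat_lit 1) (nat_lit 9) (nat_lit 8) L4266315 (by decide +kernel)
theorem L4267302 : W_1 (nat_lit 2) (nat_lit 0x4000500008001c00080000000000000000000000000000000) (nat_lit 0x0) (nat_lit 0x200020000000020000000000000000000000000000000) := D_1 (nat_lit 177) (nat_lit 161) (nat_lit 125) (nat_lit 5) (nat_lit 8) (nat_lit 7) (nat_lit 7) (nat_lit 6) (nat_lit 7) (by decide +kernel)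
theorem L4267303 : W_1 (nat_lit 2) (nat_lit 0x7000500008001c00080000000000000000000000000000000) (nat_lit 0x0) (nat_lit 0x8000a00000000000000000000000000000000000000000000) := D_1 (nat_lit 179) (nat_lit 195) (nat_lit 177) (nat_lit 2) (nat_lit 5) (nat_lit 11) (nat_lit 1) (nat_lit 9) (nat_lit 10) (by decide +kernel)
theorem L4267304 : W_1 (nat_lit 3) (nat_lit 0x6000500008001c00080000000000000000000000000000000) (nat_lit 0x0) (nat_lit 0x20009000a00000000000000000000000000000000000000000000) := T_1 (nat_lit 192) (nat_lit 209) (nat_lit 5) (nat_lit 6) (nat_lit 8) L4267303 (by decide +kernel)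
theorem L4267305 : W_1 (nat_lit 4) (nat_lit 0x4000500008001c00080000000000000000000000000000000) (nat_lit 0x0) (nat_lit 0xa000b000a00000000000000000000000000000000000000000000) := T_1 (nat_lit 193) (nat_lit 211) (nat_lit 7) (nat_lit 6) (nat_lit 8) L4267304 (by decide +kernel)
theorem L4267306 : W_1 (nat_lit 2) (nat_lit 0x7000d00028001c00180000000000000000000000000000000) (nat_lit 0x0) (nat_lit 0x2000600000000000000000000000000000000) := D_1 (nat_lit 129) (nat_lit 145) (nat_lit 130) (nat_lit 2) (nat_lit 6) (nat_lit 8) (nat_lit 1) (nat_lit 11) (nat_lit 7) (by decide +kernel)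
theorem L4267307 : W_1 (nat_lit 3) (nat_lit 0x7000d00028001c00080000000000000000000000000000000) (nat_lit 0x0) (nat_lit 0x2000700008000000000000000000000000000) := T_1 (nat_lit 128) (nat_lit 111) (nat_lit 6) (nat_lit 8) (nat_lit 10) L4267306 (by decide +kernel)
theorem L4267308 : W_1 (nat_lit 4) (nat_lit 0x7000d00008001c00080000000000000000000000000000000) (nat_lit 0x0) (nat_lit 0x10000000020002000700008000000000000000000000000000) := T_1 (nat_lit 161) (nat_lit 196) (nat_lit 7) (nat_lit 8) (nat_lit 7) L4267307 (by decide +kernel)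
theorem L4267309 : W_1 (nat_lit 5) (nat_lit 0x7000500008001c00080000000000000000000000000000000) (nat_lit 0x0) (nat_lit 0x18000800020002000700008000000000000000000000000000) := T_1 (nat_lit 179) (nat_lit 195) (nat_lit 2) (nat_lit 5) (nat_lit 11) L4267308 (by decide +kernel)
theorem L4267310 : W_1 (nat_lit 6) (nat_lit 0x6000500008001c00080000000000000000000000000000000) (nat_lit 0x0) (nat_lit 0x20019000800020002000700008000000000000000000000000000) := T_1 (nat_lit 192) (nat_lit 209) (nat_lit 5) (nat_lit 6) (nat_lit 8) L4267309 (by decide +kernel)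
theorem L4267311 : W_1 (nat_lit 7) (nat_lit 0x4000500008001c00080000000000000000000000000000000) (nat_lit 0x0) (nat_lit 0xa001b000800020002000700008000000000000000000000000000) := T_1 (nat_lit 193) (nat_lit 211) (nat_lit 7) (nat_lit 6) (nat_lit 8) L4267310 (by decide +kernel)
theorem L4267312 : W_1 (nat_lit 8) (nat_lit 0x500008001c00080000000000000000000000000000000) (nat_lit 0x0) (nat_lit 0xa001f000a00020002000720008000000000000000000000000000) := Q_1 (nat_lit 194) (C_1 L4267302 (C_1 L4267305 (C_1 L4267311 N_1))) (by decide +kernel)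
theorem L4267313 : W_1 (nat_lit 9) (nat_lit 0x100008001c00080000000000000000000000000000000) (nat_lit 0x0) (nat_lit 0x10000a003f000e00024002000720008000000000000000000000000000) := Q_1 (nat_lit 178) (C_1 L4267299 (C_1 L4267300 (C_1 L4267301 (C_1 L4267312 N_1)))) (by decide +kernel)
theorem L4267314 : W_1 (nat_lit 7) (nat_lit 0x100008001c00080000000000000000000000000000000) (nat_lit 0x0) (nat_lit 0x1000080006000e80027002000020000000000000000000000000000000) := T_1 (nat_lit 158) (nat_lit 145) (nat_lit 1) (nat_lit 9) (nat_lit 8) L4266834 (by decide +kernel)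
theorem L4267315 : W_1 (nat_lit 10) (nat_lit 0x8001c00080000000000000000000000000000000) (nat_lit 0x0) (nat_lit 0x500038001c000e003fc00fe0027002000730009800040000000000000000000000) := Q_1 (nat_lit 176) (C_1 L783732 (C_1 L826733 (C_1 L4267155 (C_1 L4267156 (C_1 L4267313 (C_1 L4267314 N_1)))))) (by decide +kernel)
theorem L4267561 : W_1 (nat_lit 7) (nat_lit 0x18001c000a0000000000000000000000000000000) (nat_lit 0x0) (nat_lit 0x600030001800000000000100038001c0000000000000000000000) := T_1 (nat_lit 108) (nat_lit 91) (nat_lit 7) (nat_lit 6) (nat_lit 5) L376150 (by decide +kernel)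
theorem L4267562 : W_1 (nat_lit 2) (nat_lit 0x40001a0038001c000a0000000000000000000000000000000) (nat_lit 0x0) (nat_lit 0xc0002000000000000000000000000000000000000000000000000) := D_1 (nat_lit 193) (nat_lit 210) (nat_lit 211) (nat_lit 6) (nat_lit 6) (nat_lit 12) (nat_lit 7) (nat_lit 6) (nat_lit 8) (by decide +kernel)
theorem L4267563 : W_1 (nat_lit 3) (nat_lit 0x1a0038001c000a0000000000000000000000000000000) (nat_lit 0x0) (nat_lit 0xc0006000200000000000000000000000000000000000000000000) := T_1 (nat_lit 194) (nat_lit 177) (nat_lit 7) (nat_lit 6) (nat_lit 7) L4267562 (by decide +kernel)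
theorem L4267564 : W_1 (nat_lit 4) (nat_lit 0x1a0018001c000a0000000000000000000000000000000) (nat_lit 0x0) (nat_lit 0xc0006000200060000000000000000000000000000000000000000) := T_1 (nat_lit 161) (nat_lit 162) (nat_lit 1) (nat_lit 9) (nat_lit 9) L4267563 (by decide +kernel)
theorem L4267565 : W_1 (nat_lit 5) (nat_lit 0x180018001c000a0000000000000000000000000000000) (nat_lit 0x0) (nat_lit 0xc0006000260060000000000000000000000000000000000000000) := T_1 (nat_lit 173) (nat_lit 174) (nat_lit 2) (nat_lit 3) (nat_lit 10) L4267564 (by decide +kernel)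
theorem L4267566 : W_1 (nat_lit 6) (nat_lit 0x100018001c000a0000000000000000000000000000000) (nat_lit 0x0) (nat_lit 0xc00070002e0060000000000000000000000000000000000000000) := T_1 (nat_lit 175) (nat_lit 192) (nat_lit 5) (nat_lit 6) (nat_lit 7) L4267565 (by decide +kernel)
theorem L4267567 : W_1 (nat_lit 2) (nat_lit 0x1c0018001c000a0000800000000000000000000000000) (nat_lit 0x0) (nat_lit 0x200060000000000000000000000000000000000000000) := D_1 (nat_lit 161) (nat_lit 162) (nat_lit 177) (nat_lit 1) (nat_lit 9) (nat_lit 9) (nat_lit 2) (nat_lit 4) (nat_lit 10) (by decide +kernel)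
theorem L4267568 : W_1 (nat_lit 3) (nat_lit 0x180018001c000a0000800000000000000000000000000) (nat_lit 0x0) (nat_lit 0x260060000000000000000000000000000000000000000) := T_1 (nat_lit 174) (nat_lit 173) (nat_lit 2) (nat_lit 3) (nat_lit 10) L4267567 (by decide +kernel)
theorem L4267569 : W_1 (nat_lit 4) (nat_lit 0x100018001c000a0000800000000000000000000000000) (nat_lit 0x0) (nat_lit 0x10002e0060000000000000000000000000000000000000000) := T_1 (nat_lit 175) (nat_lit 192) (nat_lit 5) (nat_lit 6) (nat_lit 7) L4267568 (by decide +kernel)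
theorem L4267570 : W_1 (nat_lit 5) (nat_lit 0x100018001c000a0000000000000000000000000000000) (nat_lit 0x0) (nat_lit 0x10002e0060000000010000800000000000000000000000000) := T_1 (nat_lit 107) (nat_lit 124) (nat_lit 4) (nat_lit 6) (nat_lit 10) L4267569 (by decide +kernel)
theorem L4267571 : W_1 (nat_lit 2) (nat_lit 0x4000100018001c000a0000000000000000000000000000000) (nat_lit 0x0) (nat_lit 0xc0002000000000000000000000000000000000000000000000000) := D_1 (nat_lit 193) (nat_lit 210) (nat_lit 211) (nat_lit 6) (nat_lit 6) (nat_lit 12) (nat_lit 7) (nat_lit 6) (nat_lit 8) (by decide +kernel)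
theorem L4267572 : W_1 (nat_lit 3) (nat_lit 0x100018001c000a0000000000000000000000000000000) (nat_lit 0x0) (nat_lit 0xc0006000200000000000000000000000000000000000000000000) := T_1 (nat_lit 194) (nat_lit 177) (nat_lit 7) (nat_lit 6) (nat_lit 7) L4267571 (by decide +kernel)
theorem L4267573 : W_1 (nat_lit 7) (nat_lit 0x18001c000a0000000000000000000000000000000) (nat_lit 0x0) (nat_lit 0xe00070003e0060000000010000800000000000000000000000000) := Q_1 (nat_lit 176) (C_1 L4266751 (C_1 L4267566 (C_1 L4267570 (C_1 L4267572 N_1)))) (by decide +kernel)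
theorem L4267574 : W_1 (nat_lit 8) (nat_lit 0x18001c00080000000000000000000000000000000) (nat_lit 0x0) (nat_lit 0xe00070003e00600000000300038001c0000000000000000000000) := Q_1 (nat_lit 125) (C_1 L4267561 (C_1 L4267573 (C_1 L376170 N_1))) (by decide +kernel)
theorem L4267575 : W_1 (nat_lit 2) (nat_lit 0x3000100018001c000a0000000000000000000000000000000) (nat_lit 0x0) (nat_lit 0x2000010000800000000000000000000000000) := D_1 (nat_lit 124) (nat_lit 107) (nat_lit 145) (nat_lit 4) (nat_lit 6) (nat_lit 10) (nat_lit 0) (nat_lit 9) (nat_lit 8) (by decide +kernel)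
theorem L4267576 : W_1 (nat_lit 3) (nat_lit 0x3000100018001c00080000000000000000000000000000000) (nat_lit 0x0) (nat_lit 0x80000002000030000800000000000000000000000000) := T_1 (nat_lit 125) (nat_lit 175) (nat_lit 5) (nat_lit 6) (nat_lit 7) L4267575 (by decide +kernel)
theorem L4267577 : W_1 (nat_lit 4) (nat_lit 0x2000100018001c00080000000000000000000000000000000) (nat_lit 0x0) (nat_lit 0x20001000080000002000030000800000000000000000000000000) := T_1 (nat_lit 192) (nat_lit 209) (nat_lit 5) (nat_lit 6) (nat_lit 8) L4267576 (by decide +kernel)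
theorem L4267578 : W_1 (nat_lit 5) (nat_lit 0x100018001c00080000000000000000000000000000000) (nat_lit 0x0) (nat_lit 0x60003000080000002000030000800000000000000000000000000) := T_1 (nat_lit 193) (nat_lit 210) (nat_lit 6) (nat_lit 6) (nat_lit 12) L4267577 (by decide +kernel)
theorem L4267579 : W_1 (nat_lit 2) (nat_lit 0x1a0038003c001a0000000000000000000000000000000) (nat_lit 0x0) (nat_lit 0x400000000000000008000400000000000000000000000) := D_1 (nat_lit 111) (nat_lit 94) (nat_lit 178) (nat_lit 5) (nat_lit 9) (nat_lit 5) (nat_lit 6) (nat_lit 8) (nat_lit 10) (by decide +kernel)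
theorem L4267580 : W_1 (nat_lit 3) (nat_lit 0x1a0018003c001a0000000000000000000000000000000) (nat_lit 0x0) (nat_lit 0x400060000000000008000400000000000000000000000) := T_1 (nat_lit 161) (nat_lit 162) (nat_lit 1) (nat_lit 9) (nat_lit 9) L4267579 (by decide +kernel)
theorem L4267581 : W_1 (nat_lit 4) (nat_lit 0x180018003c001a0000000000000000000000000000000) (nat_lit 0x0) (nat_lit 0x460060000000000008000400000000000000000000000) := T_1 (nat_lit 173) (nat_lit 174) (nat_lit 2) (nat_lit 3) (nat_lit 10) L4267580 (by decide +kernel)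
theorem L4267582 : W_1 (nat_lit 5) (nat_lit 0x100018003c001a0000000000000000000000000000000) (nat_lit 0x0) (nat_lit 0x10004e0060000000000008000400000000000000000000000) := T_1 (nat_lit 175) (nat_lit 192) (nat_lit 5) (nat_lit 6) (nat_lit 7) L4267581 (by decide +kernel)
theorem L4267583 : W_1 (nat_lit 6) (nat_lit 0x100018003c000a0000000000000000000000000000000) (nat_lit 0x0) (nat_lit 0x10004e0060000000300008000400000000000000000000000) := T_1 (nat_lit 128) (nat_lit 129) (nat_lit 2) (nat_lit 6) (nat_lit 8) L4267582 (by decide +kernel)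
theorem L4267584 : W_1 (nat_lit 7) (nat_lit 0x100018003c00080000000000000000000000000000000) (nat_lit 0x0) (nat_lit 0x10004e0060000000330008000400000000000000000000000) := T_1 (nat_lit 125) (nat_lit 124) (nat_lit 0) (nat_lit 9) (nat_lit 8) L4267583 (by decide +kernel)
theorem L4267585 : W_1 (nat_lit 8) (nat_lit 0x100018001c00080000000000000000000000000000000) (nat_lit 0x0) (nat_lit 0x10004e0060006000330008000400000000000000000000000) := T_1 (nat_lit 145) (nat_lit 146) (nat_lit 1) (nat_lit 10) (nat_lit 8) L4267584 (by decide +kernel)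
theorem L4267586 : W_1 (nat_lit 9) (nat_lit 0x18001c00080000000000000000000000000000000) (nat_lit 0x0) (nat_lit 0xe00070007e0060006000330008800400000000000000000000000) := Q_1 (nat_lit 176) (C_1 L4267578 (C_1 L774863 (C_1 L4267585 N_1))) (by decide +kernel)
theorem L4267662 : W_1 (nat_lit 4) (nat_lit 0x3000100018001c00080000000000000000000000000000000) (nat_lit 0x0) (nat_lit 0x8000c0000e0000000000020000000000000000000000000000000) := T_1 (nat_lit 175) (nat_lit 125) (nat_lit 5) (nat_lit 6) (nat_lit 7) L4231691 (by decide +kernel)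
theorem L4267663 : W_1 (nat_lit 5) (nat_lit 0x2000100018001c00080000000000000000000000000000000) (nat_lit 0x0) (nat_lit 0xa000d0000e0000000000020000000000000000000000000000000) := T_1 (nat_lit 192) (nat_lit 209) (nat_lit 5) (nat_lit 6) (nat_lit 8) L4267662 (by decide +kernel)
theorem L4267664 : W_1 (nat_lit 6) (nat_lit 0x100018001c00080000000000000000000000000000000) (nat_lit 0x0) (nat_lit 0xe000f0000e0000000000020000000000000000000000000000000) := T_1 (nat_lit 193) (nat_lit 210) (nat_lit 6) (nat_lit 6) (nat_lit 12) L4267663 (by decide +kernel)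
theorem L4267665 : W_1 (nat_lit 2) (nat_lit 0x7000100038003c00180000000000000000000000000000000) (nat_lit 0x0) (nat_lit 0x8000400000000000000008000000000000000000000000000) := D_1 (nat_lit 178) (nat_lit 195) (nat_lit 111) (nat_lit 6) (nat_lit 8) (nat_lit 11) (nat_lit 6) (nat_lit 8) (nat_lit 10) (by decide +kernel)
theorem L4267666 : W_1 (nat_lit 3) (nat_lit 0x7000100038003c00080000000000000000000000000000000) (nat_lit 0x0) (nat_lit 0x8000400000000000300008000000000000000000000000000) := T_1 (nat_lit 128) (nat_lit 129) (nat_lit 2) (nat_lit 6) (nat_lit 8) L4267665 (by decide +kernel)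
theorem L4267667 : W_1 (nat_lit 4) (nat_lit 0x7000100038001c00080000000000000000000000000000000) (nat_lit 0x0) (nat_lit 0x8000400000006000300008000000000000000000000000000) := T_1 (nat_lit 145) (nat_lit 146) (nat_lit 1) (nat_lit 10) (nat_lit 8) L4267666 (by decide +kernel)
theorem L4267668 : W_1 (nat_lit 5) (nat_lit 0x3000100038001c00080000000000000000000000000000000) (nat_lit 0x0) (nat_lit 0x8000c000400000006000300008000000000000000000000000000) := T_1 (nat_lit 194) (nat_lit 211) (nat_lit 7) (nat_lit 6) (nat_lit 8) L4267667 (by decide +kernel)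
theorem L4267669 : W_1 (nat_lit 6) (nat_lit 0x2000100038001c00080000000000000000000000000000000) (nat_lit 0x0) (nat_lit 0xa000d000400000006000300008000000000000000000000000000) := T_1 (nat_lit 192) (nat_lit 209) (nat_lit 5) (nat_lit 6) (nat_lit 8) L4267668 (by decide +kernel)
theorem L4267670 : W_1 (nat_lit 7) (nat_lit 0x100038001c00080000000000000000000000000000000) (nat_lit 0x0) (nat_lit 0xe000f000400000006000300008000000000000000000000000000) := T_1 (nat_lit 193) (nat_lit 210) (nat_lit 6) (nat_lit 6) (nat_lit 12) L4267669 (by decide +kernel)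
theorem L4267671 : W_1 (nat_lit 8) (nat_lit 0x100018001c00080000000000000000000000000000000) (nat_lit 0x0) (nat_lit 0x2e001f001c80060006000300008000000000000000000000000000) := Q_1 (nat_lit 161) (C_1 L4266806 (C_1 L4267670 (C_1 L4232890 N_1))) (by decide +kernel)
theorem L4267687 : W_1 (nat_lit 2) (nat_lit 0x900078003c00190000000000000000000000000000000) (nat_lit 0x0) (nat_lit 0x8000400000000000000008000000000000000000000000000) := D_1 (nat_lit 178) (nat_lit 195) (nat_lit 111) (nat_lit 6) (nat_lit 8) (nat_lit 11) (nat_lit 6) (nat_lit 8) (nat_lit 10) (by decide +kernel)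
theorem L4267688 : W_1 (nat_lit 3) (nat_lit 0x900078003c00090000000000000000000000000000000) (nat_lit 0x0) (nat_lit 0x8000400000000000300008000000000000000000000000000) := T_1 (nat_lit 128) (nat_lit 129) (nat_lit 2) (nat_lit 6) (nat_lit 8) L4267687 (by decide +kernel)
theorem L4267689 : W_1 (nat_lit 4) (nat_lit 0x900058003c00090000000000000000000000000000000) (nat_lit 0x0) (nat_lit 0x8001400020000000300008000000000000000000000000000) := T_1 (nat_lit 161) (nat_lit 180) (nat_lit 3) (nat_lit 6) (nat_lit 9) L4267688 (by decide +kernel)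
theorem L4267690 : W_1 (nat_lit 5) (nat_lit 0x900018003c00090000000000000000000000000000000) (nat_lit 0x0) (nat_lit 0x18001400060000000300008000000000000000000000000000) := T_1 (nat_lit 162) (nat_lit 196) (nat_lit 4) (nat_lit 9) (nat_lit 11) L4267689 (by decide +kernel)
theorem L4267691 : W_1 (nat_lit 6) (nat_lit 0x900018003c00080000000000000000000000000000000) (nat_lit 0x0) (nat_lit 0x18001400060000000330008000000000000000000000000000) := T_1 (nat_lit 124) (nat_lit 125) (nat_lit 0) (nat_lit 9) (nat_lit 8) L4267690 (by decide +kernel)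
theorem L4267692 : W_1 (nat_lit 7) (nat_lit 0x900018001c00080000000000000000000000000000000) (nat_lit 0x0) (nat_lit 0x18001400060006000330008000000000000000000000000000) := T_1 (nat_lit 145) (nat_lit 146) (nat_lit 1) (nat_lit 10) (nat_lit 8) L4267691 (by decide +kernel)
theorem L4267693 : W_1 (nat_lit 2) (nat_lit 0x7000d00038001c00080000000000000000000000000000000) (nat_lit 0x0) (nat_lit 0x3000040000000000000000000000000000000000000000) := D_1 (nat_lit 180) (nat_lit 181) (nat_lit 162) (nat_lit 0) (nat_lit 11) (nat_lit 10) (nat_lit 3) (nat_lit 6) (nat_lit 9) (by decide +kernel)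
theorem L4267694 : W_1 (nat_lit 3) (nat_lit 0x7000d00018001c00080000000000000000000000000000000) (nat_lit 0x0) (nat_lit 0x10003000060000000000000000000000000000000000000000) := T_1 (nat_lit 161) (nat_lit 196) (nat_lit 7) (nat_lit 8) (nat_lit 7) L4267693 (by decide +kernel)
theorem L4267695 : W_1 (nat_lit 4) (nat_lit 0x7000900018001c00080000000000000000000000000000000) (nat_lit 0x0) (nat_lit 0x18003400060000000000000000000000000000000000000000) := T_1 (nat_lit 178) (nat_lit 195) (nat_lit 2) (nat_lit 5) (nat_lit 11) L4267694 (by decide +kernel)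
theorem L4267696 : W_1 (nat_lit 5) (nat_lit 0x3000900018001c00080000000000000000000000000000000) (nat_lit 0x0) (nat_lit 0x8001c003400060000000000000000000000000000000000000000) := T_1 (nat_lit 194) (nat_lit 211) (nat_lit 7) (nat_lit 6) (nat_lit 8) L4267695 (by decide +kernel)
theorem L4267697 : W_1 (nat_lit 6) (nat_lit 0x2000900018001c00080000000000000000000000000000000) (nat_lit 0x0) (nat_lit 0xa001d003400060000000000000000000000000000000000000000) := T_1 (nat_lit 192) (nat_lit 209) (nat_lit 5) (nat_lit 6) (nat_lit 8) L4267696 (by decide +kernel)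
theorem L4267698 : W_1 (nat_lit 7) (nat_lit 0x900018001c00080000000000000000000000000000000) (nat_lit 0x0) (nat_lit 0xe001f003400060000000000000000000000000000000000000000) := T_1 (nat_lit 193) (nat_lit 210) (nat_lit 6) (nat_lit 6) (nat_lit 12) L4267697 (by decide +kernel)
theorem L4267699 : W_1 (nat_lit 2) (nat_lit 0x7000d00018003c00190000000000000000000000000000000) (nat_lit 0x0) (nat_lit 0x10000000020000000000008000000000000000000000000000) := D_1 (nat_lit 161) (nat_lit 111) (nat_lit 196) (nat_lit 6) (nat_lit 8) (nat_lit 10) (nat_lit 7) (nat_lit 8) (nat_lit 7) (by decide +kernel)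
theorem L4267700 : W_1 (nat_lit 3) (nat_lit 0x7000d00018003c00090000000000000000000000000000000) (nat_lit 0x0) (nat_lit 0x10000000020000000300008000000000000000000000000000) := T_1 (nat_lit 128) (nat_lit 129) (nat_lit 2) (nat_lit 6) (nat_lit 8) L4267699 (by decide +kernel)
theorem L4267701 : W_1 (nat_lit 4) (nat_lit 0x7000d00018003c00080000000000000000000000000000000) (nat_lit 0x0) (nat_lit 0x10000000020000000330008000000000000000000000000000) := T_1 (nat_lit 124) (nat_lit 125) (nat_lit 0) (nat_lit 9) (nat_lit 8) L4267700 (by decide +kernel)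
theorem L4267702 : W_1 (nat_lit 5) (nat_lit 0x7000d00018001c00080000000000000000000000000000000) (nat_lit 0x0) (nat_lit 0x10000000020006000330008000000000000000000000000000) := T_1 (nat_lit 145) (nat_lit 146) (nat_lit 1) (nat_lit 10) (nat_lit 8) L4267701 (by decide +kernel)
theorem L4267703 : W_1 (nat_lit 6) (nat_lit 0x7000900018001c00080000000000000000000000000000000) (nat_lit 0x0) (nat_lit 0x18000400020006000330008000000000000000000000000000) := T_1 (nat_lit 178) (nat_lit 195) (nat_lit 2) (nat_lit 5) (nat_lit 11) L4267702 (by decide +kernel)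
theorem L4267704 : W_1 (nat_lit 7) (nat_lit 0x3000900018001c00080000000000000000000000000000000) (nat_lit 0x0) (nat_lit 0x8001c000400020006000330008000000000000000000000000000) := T_1 (nat_lit 194) (nat_lit 211) (nat_lit 7) (nat_lit 6) (nat_lit 8) L4267703 (by decide +kernel)
theorem L4267705 : W_1 (nat_lit 8) (nat_lit 0x2000900018001c00080000000000000000000000000000000) (nat_lit 0x0) (nat_lit 0xa001d000400020006000330008000000000000000000000000000) := T_1 (nat_lit 192) (nat_lit 209) (nat_lit 5) (nat_lit 6) (nat_lit 8) L4267704 (by decide +kernel)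
theorem L4267706 : W_1 (nat_lit 9) (nat_lit 0x900018001c00080000000000000000000000000000000) (nat_lit 0x0) (nat_lit 0xe001f000400020006000330008000000000000000000000000000) := T_1 (nat_lit 193) (nat_lit 210) (nat_lit 6) (nat_lit 6) (nat_lit 12) L4267705 (by decide +kernel)
theorem L4267707 : W_1 (nat_lit 2) (nat_lit 0x17000900018003c00190000000000000000000000000000000) (nat_lit 0x0) (nat_lit 0x8001400000000000000000000000000000000000000000000) := D_1 (nat_lit 195) (nat_lit 180) (nat_lit 178) (nat_lit 2) (nat_lit 6) (nat_lit 11) (nat_lit 2) (nat_lit 5) (nat_lit 11) (by decide +kernel)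
theorem L4267708 : W_1 (nat_lit 3) (nat_lit 0x13000900018003c00190000000000000000000000000000000) (nat_lit 0x0) (nat_lit 0x8000c001400000000000000000000000000000000000000000000) := T_1 (nat_lit 194) (nat_lit 211) (nat_lit 7) (nat_lit 6) (nat_lit 8) L4267707 (by decide +kernel)
theorem L4267709 : W_1 (nat_lit 4) (nat_lit 0x12000900018003c00190000000000000000000000000000000) (nat_lit 0x0) (nat_lit 0xa000d001400000000000000000000000000000000000000000000) := T_1 (nat_lit 192) (nat_lit 209) (nat_lit 5) (nat_lit 6) (nat_lit 8) L4267708 (by decide +kernel)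
theorem L4267710 : W_1 (nat_lit 5) (nat_lit 0x10000900018003c00190000000000000000000000000000000) (nat_lit 0x0) (nat_lit 0xe000f001400000000000000000000000000000000000000000000) := T_1 (nat_lit 193) (nat_lit 210) (nat_lit 6) (nat_lit 6) (nat_lit 12) L4267709 (by decide +kernel)
theorem L4267711 : W_1 (nat_lit 6) (nat_lit 0x10000900018003c00090000000000000000000000000000000) (nat_lit 0x0) (nat_lit 0xe000f001400000000000300000000000000000000000000000000) := T_1 (nat_lit 128) (nat_lit 129) (nat_lit 2) (nat_lit 6) (nat_lit 8) L4267710 (by decide +kernel)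
theorem L4267712 : W_1 (nat_lit 7) (nat_lit 0x900018003c00090000000000000000000000000000000) (nat_lit 0x0) (nat_lit 0xe001f001400040000000300000000000000000000000000000000) := T_1 (nat_lit 196) (nat_lit 162) (nat_lit 4) (nat_lit 9) (nat_lit 11) L4267711 (by decide +kernel)
theorem L4267713 : W_1 (nat_lit 8) (nat_lit 0x900018003c00080000000000000000000000000000000) (nat_lit 0x0) (nat_lit 0xe001f001400040000000330000000000000000000000000000000) := T_1 (nat_lit 124) (nat_lit 125) (nat_lit 0) (nat_lit 9) (nat_lit 8) L4267712 (by decide +kernel)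
theorem L4267714 : W_1 (nat_lit 9) (nat_lit 0x900018001c00080000000000000000000000000000000) (nat_lit 0x0) (nat_lit 0xe001f001400040006000330000000000000000000000000000000) := T_1 (nat_lit 145) (nat_lit 146) (nat_lit 1) (nat_lit 10) (nat_lit 8) L4267713 (by decide +kernel)
theorem L4267715 : W_1 (nat_lit 2) (nat_lit 0x7001900058003c00090000000000000000000000000000000) (nat_lit 0x0) (nat_lit 0x20000000000000000300000000000000000000000000000000) := D_1 (nat_lit 128) (nat_lit 129) (nat_lit 197) (nat_lit 2) (nat_lit 6) (nat_lit 8) (nat_lit 7) (nat_lit 9) (nat_lit 7) (by decide +kernel)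
theorem L4267716 : W_1 (nat_lit 3) (nat_lit 0x7000900058003c00090000000000000000000000000000000) (nat_lit 0x0) (nat_lit 0x20001000020000000300000000000000000000000000000000) := T_1 (nat_lit 180) (nat_lit 161) (nat_lit 3) (nat_lit 6) (nat_lit 9) L4267715 (by decide +kernel)
theorem L4267717 : W_1 (nat_lit 4) (nat_lit 0x7000900018003c00090000000000000000000000000000000) (nat_lit 0x0) (nat_lit 0x30001000060000000300000000000000000000000000000000) := T_1 (nat_lit 162) (nat_lit 196) (nat_lit 4) (nat_lit 9) (nat_lit 11) L4267716 (by decide +kernel)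
theorem L4267718 : W_1 (nat_lit 5) (nat_lit 0x7000900018003c00080000000000000000000000000000000) (nat_lit 0x0) (nat_lit 0x30001000060000000330000000000000000000000000000000) := T_1 (nat_lit 124) (nat_lit 125) (nat_lit 0) (nat_lit 9) (nat_lit 8) L4267717 (by decide +kernel)
theorem L4267719 : W_1 (nat_lit 6) (nat_lit 0x7000900018001c00080000000000000000000000000000000) (nat_lit 0x0) (nat_lit 0x30001000060006000330000000000000000000000000000000) := T_1 (nat_lit 145) (nat_lit 146) (nat_lit 1) (nat_lit 10) (nat_lit 8) L4267718 (by decide +kernel)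
theorem L4267720 : W_1 (nat_lit 7) (nat_lit 0x3000900018001c00080000000000000000000000000000000) (nat_lit 0x0) (nat_lit 0x80034001000060006000330000000000000000000000000000000) := T_1 (nat_lit 194) (nat_lit 211) (nat_lit 7) (nat_lit 6) (nat_lit 8) L4267719 (by decide +kernel)
theorem L4267721 : W_1 (nat_lit 8) (nat_lit 0x2000900018001c00080000000000000000000000000000000) (nat_lit 0x0) (nat_lit 0xa0035001000060006000330000000000000000000000000000000) := T_1 (nat_lit 192) (nat_lit 209) (nat_lit 5) (nat_lit 6) (nat_lit 8) L4267720 (by decide +kernel)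
theorem L4267722 : W_1 (nat_lit 9) (nat_lit 0x900018001c00080000000000000000000000000000000) (nat_lit 0x0) (nat_lit 0xe0037001000060006000330000000000000000000000000000000) := T_1 (nat_lit 193) (nat_lit 210) (nat_lit 6) (nat_lit 6) (nat_lit 12) L4267721 (by decide +kernel)
theorem L4267723 : W_1 (nat_lit 2) (nat_lit 0x7000d00038003c00190000000000000000000000000000000) (nat_lit 0x0) (nat_lit 0x3000040000000000000000000000000000000000000000) := D_1 (nat_lit 180) (nat_lit 162) (nat_lit 181) (nat_lit 3) (nat_lit 6) (nat_lit 9) (nat_lit 0) (nat_lit 11) (nat_lit 10) (by decide +kernel)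
theorem L4267724 : W_1 (nat_lit 3) (nat_lit 0x7000d00018003c00190000000000000000000000000000000) (nat_lit 0x0) (nat_lit 0x3000060000000000008000000000000000000000000000) := T_1 (nat_lit 161) (nat_lit 111) (nat_lit 6) (nat_lit 8) (nat_lit 10) L4267723 (by decide +kernel)
theorem L4267725 : W_1 (nat_lit 4) (nat_lit 0x7000900018003c00190000000000000000000000000000000) (nat_lit 0x0) (nat_lit 0x8003400060000000000008000000000000000000000000000) := T_1 (nat_lit 178) (nat_lit 195) (nat_lit 2) (nat_lit 5) (nat_lit 11) L4267724 (by decide +kernel)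
theorem L4267726 : W_1 (nat_lit 5) (nat_lit 0x3000900018003c00190000000000000000000000000000000) (nat_lit 0x0) (nat_lit 0x8000c003400060000000000008000000000000000000000000000) := T_1 (nat_lit 194) (nat_lit 211) (nat_lit 7) (nat_lit 6) (nat_lit 8) L4267725 (by decide +kernel)
theorem L4267727 : W_1 (nat_lit 6) (nat_lit 0x2000900018003c00190000000000000000000000000000000) (nat_lit 0x0) (nat_lit 0xa000d003400060000000000008000000000000000000000000000) := T_1 (nat_lit 192) (nat_lit 209) (nat_lit 5) (nat_lit 6) (nat_lit 8) L4267726 (by decide +kernel)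
theorem L4267728 : W_1 (nat_lit 7) (nat_lit 0x900018003c00190000000000000000000000000000000) (nat_lit 0x0) (nat_lit 0xe000f003400060000000000008000000000000000000000000000) := T_1 (nat_lit 193) (nat_lit 210) (nat_lit 6) (nat_lit 6) (nat_lit 12) L4267727 (by decide +kernel)
theorem L4267729 : W_1 (nat_lit 8) (nat_lit 0x900018003c00090000000000000000000000000000000) (nat_lit 0x0) (nat_lit 0xe000f003400060000000300008000000000000000000000000000) := T_1 (nat_lit 128) (nat_lit 129) (nat_lit 2) (nat_lit 6) (nat_lit 8) L4267728 (by decide +kernel)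
theorem L4267730 : W_1 (nat_lit 9) (nat_lit 0x900018003c00080000000000000000000000000000000) (nat_lit 0x0) (nat_lit 0xe000f003400060000000330008000000000000000000000000000) := T_1 (nat_lit 124) (nat_lit 125) (nat_lit 0) (nat_lit 9) (nat_lit 8) L4267729 (by decide +kernel)
theorem L4267731 : W_1 (nat_lit 10) (nat_lit 0x900018001c00080000000000000000000000000000000) (nat_lit 0x0) (nat_lit 0xe000f003400060006000330008000000000000000000000000000) := T_1 (nat_lit 145) (nat_lit 146) (nat_lit 1) (nat_lit 10) (nat_lit 8) L4267730 (by decide +kernel)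
theorem L4267732 : W_1 (nat_lit 11) (nat_lit 0x100018001c00080000000000000000000000000000000) (nat_lit 0x0) (nat_lit 0xe003f003c00060006000330008000000000000000000000000000) := Q_1 (nat_lit 179) (C_1 L4267692 (C_1 L4267698 (C_1 L4267706 (C_1 L4267714 (C_1 L4267722 (C_1 L4267731 N_1)))))) (by decide +kernel)
theorem L4267733 : W_1 (nat_lit 2) (nat_lit 0x2000100038003c00190000000000000000000000000000000) (nat_lit 0x0) (nat_lit 0x8000400000000000000008000000000000000000000000000) := D_1 (nat_lit 178) (nat_lit 195) (nat_lit 111) (nat_lit 6) (nat_lit 8) (nat_lit 11) (nat_lit 6) (nat_lit 8) (nat_lit 10) (by decide +kernel)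
theorem L4267734 : W_1 (nat_lit 3) (nat_lit 0x2000100038003c00090000000000000000000000000000000) (nat_lit 0x0) (nat_lit 0x8000400000000000300008000000000000000000000000000) := T_1 (nat_lit 128) (nat_lit 129) (nat_lit 2) (nat_lit 6) (nat_lit 8) L4267733 (by decide +kernel)
theorem L4267735 : W_1 (nat_lit 4) (nat_lit 0x2000100038003c00080000000000000000000000000000000) (nat_lit 0x0) (nat_lit 0x8000400000000000330008000000000000000000000000000) := T_1 (nat_lit 124) (nat_lit 125) (nat_lit 0) (nat_lit 9) (nat_lit 8) L4267734 (by decide +kernel)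
theorem L4267736 : W_1 (nat_lit 5) (nat_lit 0x2000100038001c00080000000000000000000000000000000) (nat_lit 0x0) (nat_lit 0x8000400000006000330008000000000000000000000000000) := T_1 (nat_lit 145) (nat_lit 146) (nat_lit 1) (nat_lit 10) (nat_lit 8) L4267735 (by decide +kernel)
theorem L4267737 : W_1 (nat_lit 6) (nat_lit 0x100038001c00080000000000000000000000000000000) (nat_lit 0x0) (nat_lit 0x4000a000400000006000330008000000000000000000000000000) := T_1 (nat_lit 193) (nat_lit 210) (nat_lit 6) (nat_lit 6) (nat_lit 12) L4267736 (by decide +kernel)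
theorem L4267738 : W_1 (nat_lit 7) (nat_lit 0x100018001c00080000000000000000000000000000000) (nat_lit 0x0) (nat_lit 0x2c001e001c80060006000330008000000000000000000000000000) := Q_1 (nat_lit 161) (C_1 L4266806 (C_1 L4267737 (C_1 L4232890 N_1))) (by decide +kernel)
theorem L4267739 : W_1 (nat_lit 12) (nat_lit 0x18001c00080000000000000000000000000000000) (nat_lit 0x0) (nat_lit 0x2e003f003de00600060003300098004c0000000000000000000000) := Q_1 (nat_lit 176) (C_1 L4266194 (C_1 L4267664 (C_1 L4267671 (C_1 L4267585 (C_1 L4267732 (C_1 L4267738 N_1)))))) (by decide +kernel)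
theorem L4267745 : W_1 (nat_lit 2) (nat_lit 0x600038001c00080000000000000000000000000000000) (nat_lit 0x0) (nat_lit 0x10001800000000000000000000000000000000000000000000) := D_1 (nat_lit 179) (nat_lit 180) (nat_lit 196) (nat_lit 0) (nat_lit 10) (nat_lit 10) (nat_lit 7) (nat_lit 8) (nat_lit 7) (by decide +kernel)
theorem L4267746 : W_1 (nat_lit 3) (nat_lit 0x400038001c00080000000000000000000000000000000) (nat_lit 0x0) (nat_lit 0x14001a00000000000000000000000000000000000000000000) := T_1 (nat_lit 177) (nat_lit 194) (nat_lit 6) (nat_lit 7) (nat_lit 11) L4267745 (by decide +kernel)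
theorem L4267747 : W_1 (nat_lit 2) (nat_lit 0x4000400038001c00080000000000000000000000000000000) (nat_lit 0x0) (nat_lit 0x180008000000000000000000000000000000000000000000000000) := D_1 (nat_lit 195) (nat_lit 212) (nat_lit 211) (nat_lit 4) (nat_lit 8) (nat_lit 12) (nat_lit 5) (nat_lit 8) (nat_lit 8) (by decide +kernel)
theorem L4267748 : W_1 (nat_lit 3) (nat_lit 0x400038001c00080000000000000000000000000000000) (nat_lit 0x0) (nat_lit 0x18000c000200000000000000000000000000000000000000000000) := T_1 (nat_lit 194) (nat_lit 177) (nat_lit 6) (nat_lit 7) (nat_lit 11) L4267747 (by decide +kernel)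
theorem L4267749 : W_1 (nat_lit 4) (nat_lit 0x38001c00080000000000000000000000000000000) (nat_lit 0x0) (nat_lit 0x18001c003e00040000000000000000000000000000000000000000) := Q_1 (nat_lit 178) (C_1 L4266228 (C_1 L4267746 (C_1 L4267748 N_1))) (by decide +kernel)
theorem L4267750 : W_1 (nat_lit 6) (nat_lit 0x38001c00080000000000000000000000000000000) (nat_lit 0x0) (nat_lit 0xc0016001b80040006000000000000000000000000000000000000) := Q_1 (nat_lit 162) (C_1 L4232938 (C_1 L295774 (C_1 L4232303 N_1))) (by decide +kernel)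
theorem L4267751 : W_1 (nat_lit 3) (nat_lit 0x38003c00080000000000000000000000000000000) (nat_lit 0x0) (nat_lit 0x400000000000300008000400000000000000000000000) := T_1 (nat_lit 128) (nat_lit 129) (nat_lit 2) (nat_lit 6) (nat_lit 8) L4222955 (by decide +kernel)
theorem L4267752 : W_1 (nat_lit 4) (nat_lit 0x38001c00080000000000000000000000000000000) (nat_lit 0x0) (nat_lit 0x400000006000300008000400000000000000000000000) := T_1 (nat_lit 145) (nat_lit 146) (nat_lit 1) (nat_lit 10) (nat_lit 8) L4267751 (by decide +kernel)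
theorem L4267753 : W_1 (nat_lit 7) (nat_lit 0x18001c00080000000000000000000000000000000) (nat_lit 0x0) (nat_lit 0x1c001e003f80060006000300008000400000000000000000000000) := Q_1 (nat_lit 161) (C_1 L4267749 (C_1 L313307 (C_1 L4267750 (C_1 L4267752 N_1)))) (by decide +kernel)
theorem L4267754 : W_1 (nat_lit 2) (nat_lit 0x18003c000a0000000000000000000000000000000) (nat_lit 0x0) (nat_lit 0x200000000000000001000080000000000000000000000) := D_1 (nat_lit 108) (nat_lit 91) (nat_lit 177) (nat_lit 7) (nat_lit 6) (nat_lit 5) (nat_lit 7) (nat_lit 6) (nat_lit 6) (by decide +kernel)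
theorem L4267755 : W_1 (nat_lit 3) (nat_lit 0x18003c00080000000000000000000000000000000) (nat_lit 0x0) (nat_lit 0x200000000000030001000080000000000000000000000) := T_1 (nat_lit 125) (nat_lit 124) (nat_lit 0) (nat_lit 9) (nat_lit 8) L4267754 (by decide +kernel)
theorem L4267756 : W_1 (nat_lit 4) (nat_lit 0x18001c00080000000000000000000000000000000) (nat_lit 0x0) (nat_lit 0x200000006000030001000080000000000000000000000) := T_1 (nat_lit 145) (nat_lit 146) (nat_lit 1) (nat_lit 10) (nat_lit 8) L4267755 (by decide +kernel)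
theorem L4267757 : W_1 (nat_lit 13) (nat_lit 0x8001c00080000000000000000000000000000000) (nat_lit 0x0) (nat_lit 0x3e003f003fe007000600033000b8005c0000000000000000000000) := Q_1 (nat_lit 160) (C_1 L4267574 (C_1 L1923477 (C_1 L4267586 (C_1 L4267739 (C_1 L4267753 (C_1 L4267756 N_1)))))) (by decide +kernel)
theorem L4267758 : W_1 (nat_lit 14) (nat_lit 0x1c00080000000000000000000000000000000) (nat_lit 0x0) (nat_lit 0x500038001c003e003fc03fe007f00600073000b8005c0008000000000000000000) := Q_1 (nat_lit 159) (C_1 L4266845 (C_1 L26630 (C_1 L4267315 (C_1 L4267757 N_1)))) (by decide +kernel)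
theorem L4267759 : W_1 (nat_lit 15) (nat_lit 0x1800080000000000000000000000000000000) (nat_lit 0x0) (nat_lit 0x500038001c003e003fc03fe007f00670073c00b8005c0008000000000000000000) := Q_1 (nat_lit 142) (C_1 L774748 (C_1 L4264796 (C_1 L4267758 (C_1 L14758 N_1)))) (by decide +kernel)
theorem L4267778 : W_1 (nat_lit 4) (nat_lit 0x1c001a0001000000000000000000000000000) (nat_lit 0x0) (nat_lit 0x80000000400008000c0002000100000000000000) := T_1 (nat_lit 107) (nat_lit 126) (nat_lit 0) (nat_lit 9) (nat_lit 7) L4244871 (by decide +kernel)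
theorem L4267779 : W_1 (nat_lit 2) (nat_lit 0x1c001a0001800040000000000000000000000) (nat_lit 0x0) (nat_lit 0x10000000000002000100000000000000) := D_1 (nat_lit 73) (nat_lit 56) (nat_lit 124) (nat_lit 7) (nat_lit 5) (nat_lit 3) (nat_lit 7) (nat_lit 5) (nat_lit 4) (by decide +kernel)
theorem L4267780 : W_1 (nat_lit 3) (nat_lit 0x1c001a0001800000000000000000000000000) (nat_lit 0x0) (nat_lit 0x8000000010000000040002000100000000000000) := T_1 (nat_lit 90) (nat_lit 159) (nat_lit 4) (nat_lit 6) (nat_lit 9) L4267779 (by decide +kernel)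
theorem L4267781 : W_1 (nat_lit 4) (nat_lit 0x1c001a0001000000000000000000000000000) (nat_lit 0x0) (nat_lit 0x8000000050000800040002000100000000000000) := T_1 (nat_lit 107) (nat_lit 126) (nat_lit 0) (nat_lit 9) (nat_lit 7) L4267780 (by decide +kernel)
theorem L4267782 : W_1 (nat_lit 2) (nat_lit 0x1c001a000180008000c000200000000000000) (nat_lit 0x0) (nat_lit 0x2000100008000000000) := D_1 (nat_lit 56) (nat_lit 39) (nat_lit 73) (nat_lit 4) (nat_lit 6) (nat_lit 6) (nat_lit 4) (nat_lit 6) (nat_lit 7) (by decide +kernel)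
theorem L4267783 : W_1 (nat_lit 3) (nat_lit 0x1c001a000180008000c000000000000000000) (nat_lit 0x0) (nat_lit 0x10000000000002000300008000000000) := T_1 (nat_lit 57) (nat_lit 124) (nat_lit 5) (nat_lit 6) (nat_lit 3) L4267782 (by decide +kernel)
theorem L4267784 : W_1 (nat_lit 4) (nat_lit 0x1c001a0001800080008000000000000000000) (nat_lit 0x0) (nat_lit 0x10000000000006000700008000000000) := T_1 (nat_lit 74) (nat_lit 58) (nat_lit 6) (nat_lit 6) (nat_lit 7) L4267783 (by decide +kernel)
theorem L4267785 : W_1 (nat_lit 5) (nat_lit 0x1c001a0001800080000000000000000000000) (nat_lit 0x0) (nat_lit 0x1000000010000e000700008000000000) := T_1 (nat_lit 75) (nat_lit 92) (nat_lit 6) (nat_lit 6) (nat_lit 8) L4267784 (by decide +kernel)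
theorem L4267786 : W_1 (nat_lit 6) (nat_lit 0x1c001a0001800000000000000000000000000) (nat_lit 0x0) (nat_lit 0x1000000001000000018000e000700008000000000) := T_1 (nat_lit 91) (nat_lit 160) (nat_lit 7) (nat_lit 6) (nat_lit 5) L4267785 (by decide +kernel)
theorem L4267787 : W_1 (nat_lit 7) (nat_lit 0x1c001a0001000000000000000000000000000) (nat_lit 0x0) (nat_lit 0x1000000005000080018000e000700008000000000) := T_1 (nat_lit 107) (nat_lit 126) (nat_lit 0) (nat_lit 9) (nat_lit 7) L4267786 (by decide +kernel)
theorem L4267788 : W_1 (nat_lit 2) (nat_lit 0x1c001a0001000080000000000000000000000) (nat_lit 0x0) (nat_lit 0x40000800000004000000000000000000) := D_1 (nat_lit 126) (nat_lit 74) (nat_lit 107) (nat_lit 7) (nat_lit 6) (nat_lit 4) (nat_lit 0) (nat_lit 9) (nat_lit 7) (by decide +kernel)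
theorem L4267789 : W_1 (nat_lit 3) (nat_lit 0x1c001a0001000000000000000000000000000) (nat_lit 0x0) (nat_lit 0x10000000040000800080004000000000000000000) := T_1 (nat_lit 91) (nat_lit 160) (nat_lit 7) (nat_lit 6) (nat_lit 5) L4267788 (by decide +kernel)
theorem L4267790 : W_1 (nat_lit 8) (nat_lit 0x1c001a0000000000000000000000000000000) (nat_lit 0x0) (nat_lit 0x180000000500018001c000e000700008000000000) := Q_1 (nat_lit 108) (C_1 L4264684 (C_1 L4267778 (C_1 L4267781 (C_1 L4267787 (C_1 L4267789 N_1))))) (by decide +kernel)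
theorem L4267819 : W_1 (nat_lit 5) (nat_lit 0x8001c001a0000000000000000000000000000000) (nat_lit 0x0) (nat_lit 0x10003800140000000100038001c000a000000000000000000) := Q_1 (nat_lit 108) (C_1 L4264582 (C_1 L4244915 (C_1 L4244912 N_1))) (by decide +kernel)
theorem L4267820 : W_1 (nat_lit 4) (nat_lit 0x8001c001a0000000000000000000000000000000) (nat_lit 0x0) (nat_lit 0x280014002000000001000080000000000000000000000) := T_1 (nat_lit 158) (nat_lit 145) (nat_lit 1) (nat_lit 9) (nat_lit 8) L4264748 (by decide +kernel)
theorem L4267821 : W_1 (nat_lit 8) (nat_lit 0x1c001a0000000000000000000000000000000) (nat_lit 0x0) (nat_lit 0xa000700038001c00200001c0038001c000a000000000000000000) := Q_1 (nat_lit 159) (C_1 L4252479 (C_1 L4267819 (C_1 L377096 (C_1 L4267820 N_1)))) (by decide +kernel)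
theorem L4267822 : W_1 (nat_lit 2) (nat_lit 0x2c001c001e000a000000020000000000000000000) (nat_lit 0x0) (nat_lit 0x13000000000000000000000000000000000000000) := D_1 (nat_lit 157) (nat_lit 156) (nat_lit 160) (nat_lit 2) (nat_lit 3) (nat_lit 9) (nat_lit 2) (nat_lit 4) (nat_lit 9) (by decide +kernel)
theorem L4267823 : W_1 (nat_lit 3) (nat_lit 0x28001c001e000a000000020000000000000000000) (nat_lit 0x0) (nat_lit 0x17002000000000000000000000000000000000000) := T_1 (nat_lit 158) (nat_lit 145) (nat_lit 1) (nat_lit 9) (nat_lit 8) L4267822 (by decide +kernel)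
theorem L4267824 : W_1 (nat_lit 4) (nat_lit 0x20001c001e000a000000020000000000000000000) (nat_lit 0x0) (nat_lit 0x10001f002000000000000000000000000000000000000) := T_1 (nat_lit 159) (nat_lit 176) (nat_lit 6) (nat_lit 6) (nat_lit 10) L4267823 (by decide +kernel)
theorem L4267825 : W_1 (nat_lit 5) (nat_lit 0x20001c001e0008000000020000000000000000000) (nat_lit 0x0) (nat_lit 0x10001f002000000002000100000000000000000000000) := T_1 (nat_lit 109) (nat_lit 92) (nat_lit 7) (nat_lit 7) (nat_lit 5) L4267824 (by decide +kernel)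
theorem L4267826 : W_1 (nat_lit 6) (nat_lit 0x1c001e0008000000020000000000000000000) (nat_lit 0x0) (nat_lit 0x50003f002000000002000100000000000000000000000) := T_1 (nat_lit 161) (nat_lit 178) (nat_lit 6) (nat_lit 8) (nat_lit 10) L4267825 (by decide +kernel)
theorem L4267827 : W_1 (nat_lit 7) (nat_lit 0x1c001e0008000000000000000000000000000) (nat_lit 0x0) (nat_lit 0x50003f002000000002000500020000000000000000000) := T_1 (nat_lit 77) (nat_lit 94) (nat_lit 5) (nat_lit 9) (nat_lit 4) L4267826 (by decide +kernel)
theorem L4267828 : W_1 (nat_lit 8) (nat_lit 0x1c001e0000000000000000000000000000000) (nat_lit 0x0) (nat_lit 0x50003f00200000001a000500020000000000000000000) := T_1 (nat_lit 111) (nat_lit 112) (nat_lit 2) (nat_lit 6) (nat_lit 7) L4267827 (by decide +kernel)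
theorem L4267829 : W_1 (nat_lit 11) (nat_lit 0x1c001a0000000000000000000000000000000) (nat_lit 0x0) (nat_lit 0x300078003f00200004001b8005c002e000000000000000000) := Q_1 (nat_lit 126) (C_1 L72568 (C_1 L4267828 (C_1 L80212 (C_1 L72603 (C_1 L21030 N_1))))) (by decide +kernel)
theorem L4267830 : W_1 (nat_lit 12) (nat_lit 0x1c00180000000000000000000000000000000) (nat_lit 0x0) (nat_lit 0xa000700078003f00200007c01b8005c002e000700008000000000) := Q_1 (nat_lit 125) (C_1 L2898 (C_1 L4267790 (C_1 L4267821 (C_1 L4267829 N_1)))) (by decide +kernel)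
theorem L4267831 : W_1 (nat_lit 13) (nat_lit 0x1c00080000000000000000000000000000000) (nat_lit 0x0) (nat_lit 0xa000700078003f00200077c01b8005c002e000700008000000000) := Q_1 (nat_lit 128) (C_1 L2938 (C_1 L2227 (C_1 L4267830 N_1))) (by decide +kernel)
theorem L4267832 : W_1 (nat_lit 14) (nat_lit 0x1800080000000000000000000000000000000) (nat_lit 0x0) (nat_lit 0xa000700078007f00270077c01b8005c002e000700008000000000) := Q_1 (nat_lit 142) (C_1 L4264796 (C_1 L774748 (C_1 L4267831 (C_1 L14758 N_1)))) (by decide +kernel)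
theorem L4267866 : W_1 (nat_lit 2) (nat_lit 0x2c0038001e0000000000000000000000000000000) (nat_lit 0x0) (nat_lit 0x18000400000000000000000000000) := D_1 (nat_lit 111) (nat_lit 94) (nat_lit 112) (nat_lit 5) (nat_lit 9) (nat_lit 5) (nat_lit 2) (nat_lit 6) (nat_lit 7) (by decide +kernel)
theorem L4267867 : W_1 (nat_lit 3) (nat_lit 0x2c0038001c0000000000000000000000000000000) (nat_lit 0x0) (nat_lit 0x30018000400000000000000000000000) := T_1 (nat_lit 125) (nat_lit 124) (nat_lit 3) (nat_lit 5) (nat_lit 7) L4267866 (by decide +kernel)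
theorem L4267868 : W_1 (nat_lit 4) (nat_lit 0x280038001c0000000000000000000000000000000) (nat_lit 0x0) (nat_lit 0x14000000030018000400000000000000000000000) := T_1 (nat_lit 158) (nat_lit 160) (nat_lit 2) (nat_lit 5) (nat_lit 9) L4267867 (by decide +kernel)
theorem L4267869 : W_1 (nat_lit 2) (nat_lit 0x380038001c0000000400000000000000000000000) (nat_lit 0x0) (nat_lit 0x100000000000000002000100000000000000000000000) := D_1 (nat_lit 109) (nat_lit 92) (nat_lit 176) (nat_lit 7) (nat_lit 7) (nat_lit 5) (nat_lit 5) (nat_lit 7) (nat_lit 6) (by decide +kernel)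
theorem L4267870 : W_1 (nat_lit 3) (nat_lit 0x280038001c0000000400000000000000000000000) (nat_lit 0x0) (nat_lit 0x100014000000000002000100000000000000000000000) := T_1 (nat_lit 160) (nat_lit 158) (nat_lit 2) (nat_lit 5) (nat_lit 9) L4267869 (by decide +kernel)
theorem L4267871 : W_1 (nat_lit 4) (nat_lit 0x280038001c0000000000000000000000000000000) (nat_lit 0x0) (nat_lit 0x10001400000000000a000500000000000000000000000) := T_1 (nat_lit 94) (nat_lit 111) (nat_lit 5) (nat_lit 9) (nat_lit 5) L4267870 (by decide +kernel)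
theorem L4267872 : W_1 (nat_lit 5) (nat_lit 0x28003800180000000000000000000000000000000) (nat_lit 0x0) (nat_lit 0x10001400000007001a000500000000000000000000000) := Q_1 (nat_lit 126) (C_1 L4252518 (C_1 L4252496 (C_1 L4267868 (C_1 L4267871 N_1)))) (by decide +kernel)
theorem L4267966 : W_1 (nat_lit 5) (nat_lit 0x280018001c0000000000000000000000000000000) (nat_lit 0x0) (nat_lit 0x100016000700000002000100000000000000000000000) := T_1 (nat_lit 141) (nat_lit 142) (nat_lit 2) (nat_lit 5) (nat_lit 8) L4208839 (by decide +kernel)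
theorem L4267967 : W_1 (nat_lit 2) (nat_lit 0x28001c001c0002000000000000000000000000000) (nat_lit 0x0) (nat_lit 0x2000100000000000020000000000000000000000000000000) := D_1 (nat_lit 176) (nat_lit 125) (nat_lit 193) (nat_lit 6) (nat_lit 6) (nat_lit 10) (nat_lit 6) (nat_lit 6) (nat_lit 11) (by decide +kernel)
theorem L4267968 : W_1 (nat_lit 3) (nat_lit 0x280018001c0002000000000000000000000000000) (nat_lit 0x0) (nat_lit 0x2000100000000600020000000000000000000000000000000) := T_1 (nat_lit 142) (nat_lit 141) (nat_lit 2) (nat_lit 5) (nat_lit 8) L4267967 (by decide +kernel)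
theorem L4267969 : W_1 (nat_lit 4) (nat_lit 0x280018001c0000000000000000000000000000000) (nat_lit 0x0) (nat_lit 0x2000100000000600020002000100000000000000000000000) := T_1 (nat_lit 109) (nat_lit 92) (nat_lit 7) (nat_lit 7) (nat_lit 5) L4267968 (by decide +kernel)
theorem L4268088 : W_1 (nat_lit 2) (nat_lit 0x200038003c001e0008000000000000000000000000000) (nat_lit 0x0) (nat_lit 0x100000000000000002000100000000000000000000000) := D_1 (nat_lit 109) (nat_lit 92) (nat_lit 176) (nat_lit 7) (nat_lit 7) (nat_lit 5) (nat_lit 6) (nat_lit 6) (nat_lit 10) (by decide +kernel)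
theorem L4268089 : W_1 (nat_lit 3) (nat_lit 0x200038003c001a0008000000000000000000000000000) (nat_lit 0x0) (nat_lit 0x100000000000040012000100000000000000000000000) := T_1 (nat_lit 126) (nat_lit 112) (nat_lit 2) (nat_lit 6) (nat_lit 7) L4268088 (by decide +kernel)
theorem L4268100 : W_1 (nat_lit 2) (nat_lit 0x78003c001a0038000000000000000000000000000) (nat_lit 0x0) (nat_lit 0x10001800000000000000000000000000000000000000000000) := D_1 (nat_lit 179) (nat_lit 196) (nat_lit 180) (nat_lit 4) (nat_lit 9) (nat_lit 11) (nat_lit 3) (nat_lit 6) (nat_lit 9) (by decide +kernel)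
theorem L4268101 : W_1 (nat_lit 3) (nat_lit 0x38003c001a0038000000000000000000000000000) (nat_lit 0x0) (nat_lit 0x10001800040000000000000000800000000000000000000000) := T_1 (nat_lit 162) (nat_lit 95) (nat_lit 6) (nat_lit 9) (nat_lit 9) L4268100 (by decide +kernel)
theorem L4268102 : W_1 (nat_lit 4) (nat_lit 0x38003c001a0018000000000000000000000000000) (nat_lit 0x0) (nat_lit 0x10001800040000000000060000800000000000000000000000) := T_1 (nat_lit 113) (nat_lit 114) (nat_lit 1) (nat_lit 12) (nat_lit 6) L4268101 (by decide +kernel)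
theorem L4268103 : W_1 (nat_lit 5) (nat_lit 0x38003c001a0008000000000000000000000000000) (nat_lit 0x0) (nat_lit 0x10001800040000000040070000800000000000000000000000) := T_1 (nat_lit 112) (nat_lit 126) (nat_lit 2) (nat_lit 6) (nat_lit 7) L4268102 (by decide +kernel)
theorem L4268104 : W_1 (nat_lit 6) (nat_lit 0x38003c001a0000000000000000000000000000000) (nat_lit 0x0) (nat_lit 0x10001800040000000040078000c00000000000000000000000) := T_1 (nat_lit 111) (nat_lit 94) (nat_lit 5) (nat_lit 9) (nat_lit 5) L4268103 (by decide +kernel)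
theorem L4268105 : W_1 (nat_lit 7) (nat_lit 0x38003c00180000000000000000000000000000000) (nat_lit 0x0) (nat_lit 0x10001800040000000070078000c00000000000000000000000) := T_1 (nat_lit 125) (nat_lit 124) (nat_lit 0) (nat_lit 9) (nat_lit 8) L4268104 (by decide +kernel)
theorem L4268225 : W_1 (nat_lit 2) (nat_lit 0x28007c00190000000400000000000000000000000) (nat_lit 0x0) (nat_lit 0x18000040000000000000000000000000000000) := D_1 (nat_lit 147) (nat_lit 148) (nat_lit 126) (nat_lit 0) (nat_lit 12) (nat_lit 8) (nat_lit 0) (nat_lit 11) (nat_lit 8) (by decide +kernel)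
theorem L4268226 : W_1 (nat_lit 3) (nat_lit 0x28003c00190000000400000000000000000000000) (nat_lit 0x0) (nat_lit 0x1001c000040000000000000000000000000000000) := T_1 (nat_lit 146) (nat_lit 160) (nat_lit 1) (nat_lit 10) (nat_lit 8) L4268225 (by decide +kernel)
theorem L4268227 : W_1 (nat_lit 4) (nat_lit 0x28003c00190000000000000000000000000000000) (nat_lit 0x0) (nat_lit 0x1001c000040008000400000000000000000000000) := T_1 (nat_lit 94) (nat_lit 111) (nat_lit 5) (nat_lit 9) (nat_lit 5) L4268226 (by decide +kernel)
theorem L4268228 : W_1 (nat_lit 5) (nat_lit 0x28003c00180000000000000000000000000000000) (nat_lit 0x0) (nat_lit 0x1001c000070008000400000000000000000000000) := T_1 (nat_lit 124) (nat_lit 125) (nat_lit 0) (nat_lit 9) (nat_lit 8) L4268227 (by decide +kernel)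
theorem L4268229 : W_1 (nat_lit 6) (nat_lit 0x28001c00180000000000000000000000000000000) (nat_lit 0x0) (nat_lit 0x1401e000070008000400000000000000000000000) := T_1 (nat_lit 145) (nat_lit 158) (nat_lit 1) (nat_lit 9) (nat_lit 8) L4268228 (by decide +kernel)
theorem L4268230 : W_1 (nat_lit 7) (nat_lit 0x28001800180000000000000000000000000000000) (nat_lit 0x0) (nat_lit 0x1401e600070008000400000000000000000000000) := T_1 (nat_lit 142) (nat_lit 141) (nat_lit 2) (nat_lit 5) (nat_lit 8) L4268229 (by decide +kernel)
theorem L4268231 : W_1 (nat_lit 4) (nat_lit 0x28003c001a0000000000000000000000000000000) (nat_lit 0x0) (nat_lit 0x200010000000400004000a000400000000000000000000000) := T_1 (nat_lit 94) (nat_lit 111) (nat_lit 5) (nat_lit 9) (nat_lit 5) L997296 (by decide +kernel)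
theorem L4268232 : W_1 (nat_lit 5) (nat_lit 0x28003c00180000000000000000000000000000000) (nat_lit 0x0) (nat_lit 0x200010000000400007000a000400000000000000000000000) := T_1 (nat_lit 125) (nat_lit 124) (nat_lit 0) (nat_lit 9) (nat_lit 8) L4268231 (by decide +kernel)
theorem L4268233 : W_1 (nat_lit 6) (nat_lit 0x28001c00180000000000000000000000000000000) (nat_lit 0x0) (nat_lit 0x200010000400600007000a000400000000000000000000000) := T_1 (nat_lit 145) (nat_lit 158) (nat_lit 1) (nat_lit 9) (nat_lit 8) L4268232 (by decide +kernel)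
theorem L4268234 : W_1 (nat_lit 7) (nat_lit 0x28001800180000000000000000000000000000000) (nat_lit 0x0) (nat_lit 0x200010000400660007000a000400000000000000000000000) := T_1 (nat_lit 142) (nat_lit 141) (nat_lit 2) (nat_lit 5) (nat_lit 8) L4268233 (by decide +kernel)
theorem L4268235 : W_1 (nat_lit 9) (nat_lit 0x28001800180000000000000000000000000000000) (nat_lit 0x0) (nat_lit 0x40016001bc005600630005000a000400000000000000000000000) := Q_1 (nat_lit 160) (C_1 L1947941 (C_1 L4212041 (C_1 L291544 N_1))) (by decide +kernel)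
theorem L4268236 : W_1 (nat_lit 6) (nat_lit 0x28003800180000000000000000000000000000000) (nat_lit 0x0) (nat_lit 0x200010000400440007000a000400000000000000000000000) := T_1 (nat_lit 142) (nat_lit 158) (nat_lit 1) (nat_lit 9) (nat_lit 8) L4268232 (by decide +kernel)
theorem L4268237 : W_1 (nat_lit 7) (nat_lit 0x28001800180000000000000000000000000000000) (nat_lit 0x0) (nat_lit 0x200010001401e40007001a000500000000000000000000000) := Q_1 (nat_lit 145) (C_1 L291698 (C_1 L4267872 (C_1 L4268236 (C_1 L291535 N_1)))) (by decide +kernel)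
theorem L4268238 : W_1 (nat_lit 4) (nat_lit 0x200038003c001a0000000000000000000000000000000) (nat_lit 0x0) (nat_lit 0x10000000000004001a000500000000000000000000000) := T_1 (nat_lit 111) (nat_lit 94) (nat_lit 5) (nat_lit 9) (nat_lit 5) L4268089 (by decide +kernel)
theorem L4268239 : W_1 (nat_lit 5) (nat_lit 0x200038003c00180000000000000000000000000000000) (nat_lit 0x0) (nat_lit 0x10000000000007001a000500000000000000000000000) := T_1 (nat_lit 125) (nat_lit 124) (nat_lit 0) (nat_lit 9) (nat_lit 8) L4268238 (by decide +kernel)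
theorem L4268240 : W_1 (nat_lit 6) (nat_lit 0x200038001c00180000000000000000000000000000000) (nat_lit 0x0) (nat_lit 0x10000000600007001a000500000000000000000000000) := T_1 (nat_lit 145) (nat_lit 146) (nat_lit 1) (nat_lit 10) (nat_lit 8) L4268239 (by decide +kernel)
theorem L4268241 : W_1 (nat_lit 7) (nat_lit 0x200038001800180000000000000000000000000000000) (nat_lit 0x0) (nat_lit 0x10000000660007001a000500000000000000000000000) := T_1 (nat_lit 142) (nat_lit 141) (nat_lit 2) (nat_lit 5) (nat_lit 8) L4268240 (by decide +kernel)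
theorem L4268242 : W_1 (nat_lit 8) (nat_lit 0x38001800180000000000000000000000000000000) (nat_lit 0x0) (nat_lit 0x400030000000660007001a000500000000000000000000000) := T_1 (nat_lit 177) (nat_lit 194) (nat_lit 6) (nat_lit 7) (nat_lit 11) L4268241 (by decide +kernel)
theorem L4268243 : W_1 (nat_lit 8) (nat_lit 0x38003800180000000000000000000000000000000) (nat_lit 0x0) (nat_lit 0x10001800040000600070078000c00000000000000000000000) := T_1 (nat_lit 142) (nat_lit 141) (nat_lit 2) (nat_lit 5) (nat_lit 8) L4268105 (by decide +kernel)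
theorem L4268244 : W_1 (nat_lit 9) (nat_lit 0x38001800180000000000000000000000000000000) (nat_lit 0x0) (nat_lit 0x10001800040006600070078000c00000000000000000000000) := T_1 (nat_lit 145) (nat_lit 146) (nat_lit 1) (nat_lit 10) (nat_lit 8) L4268243 (by decide +kernel)
theorem L4268245 : W_1 (nat_lit 10) (nat_lit 0x28001800180000000000000000000000000000000) (nat_lit 0x0) (nat_lit 0xe0017001bc005000660007007a000d00000000000000000000000) := Q_1 (nat_lit 160) (C_1 L4256220 (C_1 L4212041 (C_1 L4268242 (C_1 L4268244 N_1)))) (by decide +kernel)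
theorem L4268246 : W_1 (nat_lit 2) (nat_lit 0x28007c00180000000000000000000000000000000) (nat_lit 0x0) (nat_lit 0x18000040000000000000000000000000000000) := D_1 (nat_lit 147) (nat_lit 148) (nat_lit 126) (nat_lit 0) (nat_lit 12) (nat_lit 8) (nat_lit 0) (nat_lit 11) (nat_lit 8) (by decide +kernel)
theorem L4268247 : W_1 (nat_lit 3) (nat_lit 0x28003c00180000000000000000000000000000000) (nat_lit 0x0) (nat_lit 0x1001c000040000000000000000000000000000000) := T_1 (nat_lit 146) (nat_lit 160) (nat_lit 1) (nat_lit 10) (nat_lit 8) L4268246 (by decide +kernel)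
theorem L4268248 : W_1 (nat_lit 4) (nat_lit 0x28001c00180000000000000000000000000000000) (nat_lit 0x0) (nat_lit 0x1401e000040000000000000000000000000000000) := T_1 (nat_lit 145) (nat_lit 158) (nat_lit 1) (nat_lit 9) (nat_lit 8) L4268247 (by decide +kernel)
theorem L4268249 : W_1 (nat_lit 5) (nat_lit 0x28001800180000000000000000000000000000000) (nat_lit 0x0) (nat_lit 0x1401e600040000000000000000000000000000000) := T_1 (nat_lit 142) (nat_lit 141) (nat_lit 2) (nat_lit 5) (nat_lit 8) L4268248 (by decide +kernel)
theorem L4268250 : W_1 (nat_lit 11) (nat_lit 0x20001800180000000000000000000000000000000) (nat_lit 0x0) (nat_lit 0xe0017001bc005e01e70007007a000d00000000000000000000000) := Q_1 (nat_lit 159) (C_1 L4256221 (C_1 L4268230 (C_1 L4268234 (C_1 L4268235 (C_1 L4268237 (C_1 L4268245 (C_1 L4268249 N_1))))))) (by decide +kernel)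
theorem L4268251 : W_1 (nat_lit 12) (nat_lit 0x20001800180000000000000000000000000000000) (nat_lit 0x0) (nat_lit 0x8007e003fc005e002600040002000000000000000000000000000) := Q_1 (nat_lit 178) (C_1 L2331 (C_1 L4208898 (C_1 L73801 N_1))) (by decide +kernel)
theorem L4268252 : W_1 (nat_lit 13) (nat_lit 0x1800180000000000000000000000000000000) (nat_lit 0x0) (nat_lit 0x2e007f003fc007e01e70007007a000d00020000000000000000000) := Q_1 (nat_lit 161) (C_1 L4256059 (C_1 L2376 (C_1 L4268250 (C_1 L4268251 N_1)))) (by decide +kernel)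
theorem L4270623 : W_1 (nat_lit 8) (nat_lit 0x18001c0000000000000000000000000000000) (nat_lit 0x0) (nat_lit 0x800040002000600003007a000f80020000000000000000000) := Q_1 (nat_lit 161) (C_1 L4253205 (C_1 L74070 (C_1 L72952 N_1))) (by decide +kernel)
theorem L4270624 : W_1 (nat_lit 7) (nat_lit 0x58003c0000000000000000000000000000000) (nat_lit 0x0) (nat_lit 0xe00070003800200002000a000000000000000000000000000) := T_1 (nat_lit 145) (nat_lit 125) (nat_lit 3) (nat_lit 6) (nat_lit 7) L274617 (by decide +kernel)
theorem L4270625 : W_1 (nat_lit 8) (nat_lit 0x18003c0000000000000000000000000000000) (nat_lit 0x0) (nat_lit 0xe00070003800e00002000a000000000000000000000000000) := T_1 (nat_lit 146) (nat_lit 147) (nat_lit 3) (nat_lit 7) (nat_lit 7) L4270624 (by decide +kernel)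
theorem L4270626 : W_1 (nat_lit 9) (nat_lit 0x18001c0000000000000000000000000000000) (nat_lit 0x0) (nat_lit 0xe00070003800e00062000a000000000000000000000000000) := T_1 (nat_lit 129) (nat_lit 130) (nat_lit 1) (nat_lit 11) (nat_lit 7) L4270625 (by decide +kernel)
theorem L4270627 : W_1 (nat_lit 14) (nat_lit 0x1800180000000000000000000000000000000) (nat_lit 0x0) (nat_lit 0x1f000f8007800e00067007a007f803fc007000000000000000) := Q_1 (nat_lit 126) (C_1 L3941465 (C_1 L72949 (C_1 L2582 (C_1 L4270623 (C_1 L292839 (C_1 L4270626 N_1)))))) (by decide +kernel)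
theorem L4270628 : W_1 (nat_lit 15) (nat_lit 0x1800080000000000000000000000000000000) (nat_lit 0x0) (nat_lit 0x2e007f003fc007e01e70077007a007f803fc007000000000000000) := Q_1 (nat_lit 128) (C_1 L4268252 (C_1 L2228 (C_1 L2226 (C_1 L4270627 N_1)))) (by decide +kernel)
theorem L4271534 : W_1 (nat_lit 5) (nat_lit 0x280018001c0002000000000000000000000000000) (nat_lit 0x0) (nat_lit 0x100016000000020001c00080000000000000000000000) := T_1 (nat_lit 160) (nat_lit 176) (nat_lit 5) (nat_lit 7) (nat_lit 6) L773843 (by decide +kernel)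
theorem L4271535 : W_1 (nat_lit 6) (nat_lit 0x280018001c0000000000000000000000000000000) (nat_lit 0x0) (nat_lit 0x100016000000020003c00180000000000000000000000) := T_1 (nat_lit 109) (nat_lit 92) (nat_lit 7) (nat_lit 7) (nat_lit 5) L4271534 (by decide +kernel)
theorem L4271536 : W_1 (nat_lit 2) (nat_lit 0x28001a001e0000000000000000000000000000000) (nat_lit 0x0) (nat_lit 0x100018000000000000000000000000000000) := D_1 (nat_lit 124) (nat_lit 123) (nat_lit 140) (nat_lit 3) (nat_lit 4) (nat_lit 7) (nat_lit 1) (nat_lit 8) (nat_lit 7) (by decide +kernel)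
theorem L4271537 : W_1 (nat_lit 3) (nat_lit 0x280018001e0000000000000000000000000000000) (nat_lit 0x0) (nat_lit 0x700018000000000000000000000000000000) := T_1 (nat_lit 141) (nat_lit 142) (nat_lit 2) (nat_lit 5) (nat_lit 8) L4271536 (by decide +kernel)
theorem L4271538 : W_1 (nat_lit 2) (nat_lit 0x280018001f0000000000000000000000000000000) (nat_lit 0x0) (nat_lit 0x1c00000000000000000000000000) := D_1 (nat_lit 107) (nat_lit 108) (nat_lit 106) (nat_lit 0) (nat_lit 9) (nat_lit 7) (nat_lit 0) (nat_lit 8) (nat_lit 7) (by decide +kernel)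
theorem L4271539 : W_1 (nat_lit 3) (nat_lit 0x280018001e0000000000000000000000000000000) (nat_lit 0x0) (nat_lit 0x18001c00000000000000000000000000) := T_1 (nat_lit 124) (nat_lit 123) (nat_lit 3) (nat_lit 4) (nat_lit 7) L4271538 (by decide +kernel)
theorem L4271540 : W_1 (nat_lit 2) (nat_lit 0x180028001c001e0008000000020000000000000000000) (nat_lit 0x0) (nat_lit 0x4000000000001800000000000000000000000000) := D_1 (nat_lit 108) (nat_lit 158) (nat_lit 107) (nat_lit 5) (nat_lit 6) (nat_lit 6) (nat_lit 0) (nat_lit 9) (nat_lit 7) (by decide +kernel)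
theorem L4271541 : W_1 (nat_lit 3) (nat_lit 0x100028001c001e0008000000020000000000000000000) (nat_lit 0x0) (nat_lit 0x1000080004000000000001800000000000000000000000000) := T_1 (nat_lit 175) (nat_lit 192) (nat_lit 5) (nat_lit 6) (nat_lit 7) L4271540 (by decide +kernel)
theorem L4271542 : W_1 (nat_lit 4) (nat_lit 0x28001c001e0008000000020000000000000000000) (nat_lit 0x0) (nat_lit 0x3000180004000000000001800000000000000000000000000) := T_1 (nat_lit 176) (nat_lit 193) (nat_lit 6) (nat_lit 6) (nat_lit 11) L4271541 (by decide +kernel)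
theorem L4271543 : W_1 (nat_lit 5) (nat_lit 0x28001c001e0008000000000000000000000000000) (nat_lit 0x0) (nat_lit 0x3000180004000000000001800400020000000000000000000) := T_1 (nat_lit 77) (nat_lit 94) (nat_lit 5) (nat_lit 9) (nat_lit 4) L4271542 (by decide +kernel)
theorem L4271544 : W_1 (nat_lit 6) (nat_lit 0x280018001e0008000000000000000000000000000) (nat_lit 0x0) (nat_lit 0x3000180004000600000001800400020000000000000000000) := T_1 (nat_lit 142) (nat_lit 141) (nat_lit 2) (nat_lit 5) (nat_lit 8) L4271543 (by decide +kernel)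
theorem L4271545 : W_1 (nat_lit 7) (nat_lit 0x280018001e0000000000000000000000000000000) (nat_lit 0x0) (nat_lit 0x3000180004000600000019800400020000000000000000000) := T_1 (nat_lit 111) (nat_lit 112) (nat_lit 2) (nat_lit 6) (nat_lit 7) L4271544 (by decide +kernel)
theorem L4271546 : W_1 (nat_lit 8) (nat_lit 0x280018001c0000000000000000000000000000000) (nat_lit 0x0) (nat_lit 0x3000180004000700038019c00400020000000000000000000) := Q_1 (nat_lit 125) (C_1 L4271537 (C_1 L4271539 (C_1 L4271545 N_1))) (by decide +kernel)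
theorem L4271547 : W_1 (nat_lit 2) (nat_lit 0x28001a001e0009000080020000000000000000000) (nat_lit 0x0) (nat_lit 0x10000000000002000100000000000000000000000) := D_1 (nat_lit 109) (nat_lit 92) (nat_lit 160) (nat_lit 7) (nat_lit 7) (nat_lit 5) (nat_lit 4) (nat_lit 7) (nat_lit 9) (by decide +kernel)
theorem L4271548 : W_1 (nat_lit 3) (nat_lit 0x28001a001e0009000000020000000000000000000) (nat_lit 0x0) (nat_lit 0x10000000000002000180004000000000000000000) := T_1 (nat_lit 91) (nat_lit 74) (nat_lit 7) (nat_lit 6) (nat_lit 4) L4271547 (by decide +kernel)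
theorem L4271549 : W_1 (nat_lit 4) (nat_lit 0x28001a001e0009000000000000000000000000000) (nat_lit 0x0) (nat_lit 0x10000000000002000580024000000000000000000) := T_1 (nat_lit 77) (nat_lit 94) (nat_lit 5) (nat_lit 9) (nat_lit 4) L4271548 (by decide +kernel)
theorem L4271550 : W_1 (nat_lit 5) (nat_lit 0x28001a001e0008000000000000000000000000000) (nat_lit 0x0) (nat_lit 0x10000000000003800580024000000000000000000) := T_1 (nat_lit 108) (nat_lit 107) (nat_lit 0) (nat_lit 9) (nat_lit 7) L4271549 (by decide +kernel)
theorem L4271551 : W_1 (nat_lit 6) (nat_lit 0x28001a001e0000000000000000000000000000000) (nat_lit 0x0) (nat_lit 0x1000000000001b800580024000000000000000000) := T_1 (nat_lit 111) (nat_lit 112) (nat_lit 2) (nat_lit 6) (nat_lit 7) L4271550 (by decide +kernel)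
theorem L4271552 : W_1 (nat_lit 7) (nat_lit 0x280018001e0000000000000000000000000000000) (nat_lit 0x0) (nat_lit 0x1000060000001b800580024000000000000000000) := T_1 (nat_lit 141) (nat_lit 142) (nat_lit 2) (nat_lit 5) (nat_lit 8) L4271551 (by decide +kernel)
theorem L4271553 : W_1 (nat_lit 8) (nat_lit 0x280018001c0000000000000000000000000000000) (nat_lit 0x0) (nat_lit 0x1000070003801bc00580024000000000000000000) := Q_1 (nat_lit 125) (C_1 L4271539 (C_1 L4271537 (C_1 L4271552 N_1))) (by decide +kernel)
theorem L4271554 : W_1 (nat_lit 9) (nat_lit 0x28001800180000000000000000000000000000000) (nat_lit 0x0) (nat_lit 0x300018001600070007801bc00580024000000000000000000) := Q_1 (nat_lit 126) (C_1 L4271535 (C_1 L4267969 (C_1 L4271546 (C_1 L4267966 (C_1 L4271553 N_1))))) (by decide +kernel)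
theorem L4271555 : W_1 (nat_lit 2) (nat_lit 0x2c001c00180000000000000000000000000000000) (nat_lit 0x0) (nat_lit 0x13000000000000000000000000000000000000000) := D_1 (nat_lit 157) (nat_lit 156) (nat_lit 160) (nat_lit 2) (nat_lit 3) (nat_lit 9) (nat_lit 2) (nat_lit 4) (nat_lit 9) (by decide +kernel)
theorem L4271556 : W_1 (nat_lit 3) (nat_lit 0x28001c00180000000000000000000000000000000) (nat_lit 0x0) (nat_lit 0x17002000000000000000000000000000000000000) := T_1 (nat_lit 158) (nat_lit 145) (nat_lit 1) (nat_lit 9) (nat_lit 8) L4271555 (by decide +kernel)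
theorem L4271557 : W_1 (nat_lit 4) (nat_lit 0x28001800180000000000000000000000000000000) (nat_lit 0x0) (nat_lit 0x17002600000000000000000000000000000000000) := T_1 (nat_lit 142) (nat_lit 141) (nat_lit 2) (nat_lit 5) (nat_lit 8) L4271556 (by decide +kernel)
theorem L4271558 : W_1 (nat_lit 2) (nat_lit 0x18003c001a00180000000000000000000000000000000) (nat_lit 0x0) (nat_lit 0x40002000000000000000010000000000000000000000000000000) := D_1 (nat_lit 193) (nat_lit 210) (nat_lit 124) (nat_lit 6) (nat_lit 6) (nat_lit 12) (nat_lit 7) (nat_lit 5) (nat_lit 7) (by decide +kernel)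
theorem L4271559 : W_1 (nat_lit 3) (nat_lit 0x8003c001a00180000000000000000000000000000000) (nat_lit 0x0) (nat_lit 0x40002000100040000000010000000000000000000000000000000) := T_1 (nat_lit 176) (nat_lit 162) (nat_lit 1) (nat_lit 9) (nat_lit 9) L4271558 (by decide +kernel)
theorem L4271560 : W_1 (nat_lit 4) (nat_lit 0x8003c001800180000000000000000000000000000000) (nat_lit 0x0) (nat_lit 0x40002000100040000300010000000000000000000000000000000) := T_1 (nat_lit 141) (nat_lit 140) (nat_lit 0) (nat_lit 8) (nat_lit 9) L4271559 (by decide +kernel)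
theorem L4271561 : W_1 (nat_lit 5) (nat_lit 0x3c001800180000000000000000000000000000000) (nat_lit 0x0) (nat_lit 0x400020001c0040000300010000000000000000000000000000000) := T_1 (nat_lit 175) (nat_lit 174) (nat_lit 1) (nat_lit 8) (nat_lit 9) L4271560 (by decide +kernel)
theorem L4271562 : W_1 (nat_lit 6) (nat_lit 0x38001800180000000000000000000000000000000) (nat_lit 0x0) (nat_lit 0x400020001c0046000300010000000000000000000000000000000) := T_1 (nat_lit 158) (nat_lit 157) (nat_lit 2) (nat_lit 4) (nat_lit 9) L4271561 (by decide +kernel)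
theorem L4271563 : W_1 (nat_lit 2) (nat_lit 0x380038001e0000000000000000000000000000000) (nat_lit 0x0) (nat_lit 0x18000400000000000000000000000) := D_1 (nat_lit 111) (nat_lit 94) (nat_lit 112) (nat_lit 5) (nat_lit 9) (nat_lit 5) (nat_lit 2) (nat_lit 6) (nat_lit 7) (by decide +kernel)
theorem L4271564 : W_1 (nat_lit 3) (nat_lit 0x380038001c0000000000000000000000000000000) (nat_lit 0x0) (nat_lit 0x30018000400000000000000000000000) := T_1 (nat_lit 125) (nat_lit 124) (nat_lit 3) (nat_lit 5) (nat_lit 7) L4271563 (by decide +kernel)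
theorem L4271565 : W_1 (nat_lit 4) (nat_lit 0x380018001c0000000000000000000000000000000) (nat_lit 0x0) (nat_lit 0x6000030018000400000000000000000000000) := T_1 (nat_lit 145) (nat_lit 146) (nat_lit 1) (nat_lit 10) (nat_lit 8) L4271564 (by decide +kernel)
theorem L4271566 : W_1 (nat_lit 5) (nat_lit 0x38001800180000000000000000000000000000000) (nat_lit 0x0) (nat_lit 0x10000000600007001a000500000000000000000000000) := Q_1 (nat_lit 126) (C_1 L4212148 (C_1 L4271565 N_1)) (by decide +kernel)
theorem L4271567 : W_1 (nat_lit 7) (nat_lit 0x28001800180000000000000000000000000000000) (nat_lit 0x0) (nat_lit 0x400020001c005600630007001a000500000000000000000000000) := Q_1 (nat_lit 160) (C_1 L291544 (C_1 L4271562 (C_1 L4271566 N_1))) (by decide +kernel)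
theorem L4271568 : W_1 (nat_lit 2) (nat_lit 0x380038001e0002000080000000000000000000000) (nat_lit 0x0) (nat_lit 0x18000400000000000000000000000) := D_1 (nat_lit 111) (nat_lit 94) (nat_lit 112) (nat_lit 5) (nat_lit 9) (nat_lit 5) (nat_lit 2) (nat_lit 6) (nat_lit 7) (by decide +kernel)
theorem L4271569 : W_1 (nat_lit 3) (nat_lit 0x380038001c0002000080000000000000000000000) (nat_lit 0x0) (nat_lit 0x30018000400000000000000000000000) := T_1 (nat_lit 125) (nat_lit 124) (nat_lit 3) (nat_lit 5) (nat_lit 7) L4271568 (by decide +kernel)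
theorem L4271570 : W_1 (nat_lit 4) (nat_lit 0x380018001c0002000080000000000000000000000) (nat_lit 0x0) (nat_lit 0x6000030018000400000000000000000000000) := T_1 (nat_lit 145) (nat_lit 146) (nat_lit 1) (nat_lit 10) (nat_lit 8) L4271569 (by decide +kernel)
theorem L4271571 : W_1 (nat_lit 5) (nat_lit 0x380018001c0002000000000000000000000000000) (nat_lit 0x0) (nat_lit 0x6000030019000480000000000000000000000) := T_1 (nat_lit 91) (nat_lit 108) (nat_lit 4) (nat_lit 7) (nat_lit 9) L4271570 (by decide +kernel)
theorem L4271572 : W_1 (nat_lit 6) (nat_lit 0x280018001c0002000000000000000000000000000) (nat_lit 0x0) (nat_lit 0x100010006000030019000480000000000000000000000) := T_1 (nat_lit 160) (nat_lit 176) (nat_lit 5) (nat_lit 7) (nat_lit 6) L4271571 (by decide +kernel)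
theorem L4271573 : W_1 (nat_lit 7) (nat_lit 0x280018001c0000000000000000000000000000000) (nat_lit 0x0) (nat_lit 0x10001000600003001b000580000000000000000000000) := T_1 (nat_lit 109) (nat_lit 92) (nat_lit 7) (nat_lit 7) (nat_lit 5) L4271572 (by decide +kernel)
theorem L4271574 : W_1 (nat_lit 2) (nat_lit 0x28001a001e0008000000000000000000000000000) (nat_lit 0x0) (nat_lit 0x6000000000000400000000000000000000000) := D_1 (nat_lit 145) (nat_lit 146) (nat_lit 94) (nat_lit 3) (nat_lit 6) (nat_lit 7) (nat_lit 5) (nat_lit 9) (nat_lit 5) (by decide +kernel)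
theorem L4271575 : W_1 (nat_lit 3) (nat_lit 0x28001a001e0000000000000000000000000000000) (nat_lit 0x0) (nat_lit 0x6000000018000400000000000000000000000) := T_1 (nat_lit 111) (nat_lit 112) (nat_lit 2) (nat_lit 6) (nat_lit 7) L4271574 (by decide +kernel)
theorem L4271576 : W_1 (nat_lit 4) (nat_lit 0x280018001e0000000000000000000000000000000) (nat_lit 0x0) (nat_lit 0x6600000018000400000000000000000000000) := T_1 (nat_lit 141) (nat_lit 142) (nat_lit 2) (nat_lit 5) (nat_lit 8) L4271575 (by decide +kernel)
theorem L4271577 : W_1 (nat_lit 5) (nat_lit 0x280018001c0000000000000000000000000000000) (nat_lit 0x0) (nat_lit 0x6700038019c00400000000000000000000000) := Q_1 (nat_lit 125) (C_1 L4271539 (C_1 L4271537 (C_1 L4271576 N_1))) (by decide +kernel)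
theorem L4271578 : W_1 (nat_lit 4) (nat_lit 0x280018001c0000000000000000000000000000000) (nat_lit 0x0) (nat_lit 0x2000100010000600000002000100000000000000000000000) := T_1 (nat_lit 142) (nat_lit 141) (nat_lit 2) (nat_lit 5) (nat_lit 8) L4208846 (by decide +kernel)
theorem L4271579 : W_1 (nat_lit 9) (nat_lit 0x28001800180000000000000000000000000000000) (nat_lit 0x0) (nat_lit 0x200010001000670007801bc00580024000000000000000000) := Q_1 (nat_lit 126) (C_1 L4267969 (C_1 L4271553 (C_1 L4271573 (C_1 L4271577 (C_1 L4271578 N_1))))) (by decide +kernel)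
theorem L4271580 : W_1 (nat_lit 10) (nat_lit 0x20001800180000000000000000000000000000000) (nat_lit 0x0) (nat_lit 0x400030001c005f01e70007801bc00580024000000000000000000) := Q_1 (nat_lit 159) (C_1 L4271554 (C_1 L4271557 (C_1 L4268234 (C_1 L4271567 (C_1 L4268237 (C_1 L4271579 N_1)))))) (by decide +kernel)
theorem L4271581 : W_1 (nat_lit 2) (nat_lit 0xc00024003c001e0001000000000000000000000000000) (nat_lit 0x0) (nat_lit 0x10000000000000000080004000000000000000000) := D_1 (nat_lit 91) (nat_lit 74) (nat_lit 160) (nat_lit 7) (nat_lit 6) (nat_lit 4) (nat_lit 7) (nat_lit 6) (nat_lit 5) (by decide +kernel)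
theorem L4271582 : W_1 (nat_lit 3) (nat_lit 0xc00024003c001e0000000000000000000000000000000) (nat_lit 0x0) (nat_lit 0x10000000000001800080004000000000000000000) := T_1 (nat_lit 108) (nat_lit 107) (nat_lit 0) (nat_lit 9) (nat_lit 7) L4271581 (by decide +kernel)
theorem L4271583 : W_1 (nat_lit 4) (nat_lit 0x400024003c001e0000000000000000000000000000000) (nat_lit 0x0) (nat_lit 0x10000800010000000000001800080004000000000000000000) := T_1 (nat_lit 179) (nat_lit 196) (nat_lit 7) (nat_lit 8) (nat_lit 7) L4271582 (by decide +kernel)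
theorem L4271584 : W_1 (nat_lit 5) (nat_lit 0x400020003c001e0000000000000000000000000000000) (nat_lit 0x0) (nat_lit 0x1000080001c000000000001800080004000000000000000000) := T_1 (nat_lit 158) (nat_lit 159) (nat_lit 1) (nat_lit 9) (nat_lit 8) L4271583 (by decide +kernel)
theorem L4271585 : W_1 (nat_lit 6) (nat_lit 0x400020001c001e0000000000000000000000000000000) (nat_lit 0x0) (nat_lit 0x1000080001c006000000001800080004000000000000000000) := T_1 (nat_lit 145) (nat_lit 146) (nat_lit 3) (nat_lit 6) (nat_lit 7) L4271584 (by decide +kernel)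
theorem L4271586 : W_1 (nat_lit 7) (nat_lit 0x4000200018001e0000000000000000000000000000000) (nat_lit 0x0) (nat_lit 0x1000080001c006600000001800080004000000000000000000) := T_1 (nat_lit 142) (nat_lit 141) (nat_lit 2) (nat_lit 5) (nat_lit 8) L4271585 (by decide +kernel)
theorem L4271587 : W_1 (nat_lit 8) (nat_lit 0x200018001e0000000000000000000000000000000) (nat_lit 0x0) (nat_lit 0x18000c0001c006600000001800080004000000000000000000) := T_1 (nat_lit 178) (nat_lit 195) (nat_lit 4) (nat_lit 8) (nat_lit 11) L4271586 (by decide +kernel)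
theorem L4271588 : W_1 (nat_lit 9) (nat_lit 0x200018001c0000000000000000000000000000000) (nat_lit 0x0) (nat_lit 0x18000c0001c006700038001c00080004000000000000000000) := Q_1 (nat_lit 125) (C_1 L861667 (C_1 L820403 (C_1 L4271587 N_1))) (by decide +kernel)
theorem L4271589 : W_1 (nat_lit 10) (nat_lit 0x20001800180000000000000000000000000000000) (nat_lit 0x0) (nat_lit 0x18000c0001c006700078003c0018000c000000000000000000) := Q_1 (nat_lit 126) (C_1 L861668 (C_1 L72952 (C_1 L4271588 N_1))) (by decide +kernel)
theorem L4271590 : W_1 (nat_lit 11) (nat_lit 0x1800180000000000000000000000000000000) (nat_lit 0x0) (nat_lit 0x4001b000dc007f01e70007801bc0058002c000000000000000000) := Q_1 (nat_lit 161) (C_1 L2376 (C_1 L2332 (C_1 L4271580 (C_1 L4271589 N_1)))) (by decide +kernel)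
theorem L4271591 : W_1 (nat_lit 12) (nat_lit 0x1800080000000000000000000000000000000) (nat_lit 0x0) (nat_lit 0x4001b000dc007f01e70077803bc00d8006c000000000000000000) := Q_1 (nat_lit 128) (C_1 L4271590 (C_1 L2228 (C_1 L775227 (C_1 L73930 N_1)))) (by decide +kernel)
theorem L4271592 : W_1 (nat_lit 5) (nat_lit 0x7000100078001c0008000400000000000000000000000) (nat_lit 0x0) (nat_lit 0x40000000000030000b80050000000000000000000) := T_1 (nat_lit 93) (nat_lit 76) (nat_lit 4) (nat_lit 9) (nat_lit 8) L4255366 (by decide +kernel)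
theorem L4271593 : W_1 (nat_lit 6) (nat_lit 0x7000100078001c0008000000000000000000000000000) (nat_lit 0x0) (nat_lit 0x40000000000030000f80070000000000000000000) := T_1 (nat_lit 94) (nat_lit 77) (nat_lit 5) (nat_lit 9) (nat_lit 4) L4271592 (by decide +kernel)
theorem L4271594 : W_1 (nat_lit 7) (nat_lit 0x7000100078001c0000000000000000000000000000000) (nat_lit 0x0) (nat_lit 0x60000000000038000f80070000000000000000000) := T_1 (nat_lit 111) (nat_lit 161) (nat_lit 6) (nat_lit 8) (nat_lit 10) L4271593 (by decide +kernel)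
theorem L4271595 : W_1 (nat_lit 8) (nat_lit 0x3000100078001c0000000000000000000000000000000) (nat_lit 0x0) (nat_lit 0x8000400060000000000038000f80070000000000000000000) := T_1 (nat_lit 178) (nat_lit 195) (nat_lit 7) (nat_lit 7) (nat_lit 7) L4271594 (by decide +kernel)
theorem L4271596 : W_1 (nat_lit 9) (nat_lit 0x2000100078001c0000000000000000000000000000000) (nat_lit 0x0) (nat_lit 0xa000500060000000000038000f80070000000000000000000) := T_1 (nat_lit 176) (nat_lit 193) (nat_lit 5) (nat_lit 7) (nat_lit 7) L4271595 (by decide +kernel)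
theorem L4271597 : W_1 (nat_lit 10) (nat_lit 0x100078001c0000000000000000000000000000000) (nat_lit 0x0) (nat_lit 0xe000700060000000000038000f80070000000000000000000) := T_1 (nat_lit 177) (nat_lit 194) (nat_lit 6) (nat_lit 7) (nat_lit 11) L4271596 (by decide +kernel)
theorem L4271598 : W_1 (nat_lit 11) (nat_lit 0x10007800180000000000000000000000000000000) (nat_lit 0x0) (nat_lit 0xe000700060000000060038000f80070000000000000000000) := T_1 (nat_lit 126) (nat_lit 125) (nat_lit 3) (nat_lit 6) (nat_lit 7) L4271597 (by decide +kernel)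
theorem L4271599 : W_1 (nat_lit 12) (nat_lit 0x7800180000000000000000000000000000000) (nat_lit 0x0) (nat_lit 0xe000700078000000060038000f80070000000000000000000) := T_1 (nat_lit 160) (nat_lit 159) (nat_lit 1) (nat_lit 10) (nat_lit 8) L4271598 (by decide +kernel)
theorem L4271600 : W_1 (nat_lit 13) (nat_lit 0x3800180000000000000000000000000000000) (nat_lit 0x0) (nat_lit 0xe00070007801c000060038000f80070000000000000000000) := Q_1 (nat_lit 146) (C_1 L292572 (C_1 L24741 (C_1 L4271599 N_1))) (by decide +kernel)
theorem L4271601 : W_1 (nat_lit 2) (nat_lit 0x24003c001e0009000000000000000000000000000) (nat_lit 0x0) (nat_lit 0x200010000000000000000080000000000000000000000) := D_1 (nat_lit 160) (nat_lit 177) (nat_lit 91) (nat_lit 4) (nat_lit 7) (nat_lit 10) (nat_lit 7) (nat_lit 6) (nat_lit 5) (by decide +kernel)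
theorem L4271602 : W_1 (nat_lit 3) (nat_lit 0x24003c001e0008000000000000000000000000000) (nat_lit 0x0) (nat_lit 0x200010000000000001800080000000000000000000000) := T_1 (nat_lit 108) (nat_lit 107) (nat_lit 0) (nat_lit 9) (nat_lit 7) L4271601 (by decide +kernel)
theorem L4271603 : W_1 (nat_lit 4) (nat_lit 0x24003c001a0008000000000000000000000000000) (nat_lit 0x0) (nat_lit 0x200010000000040011800080000000000000000000000) := T_1 (nat_lit 126) (nat_lit 112) (nat_lit 2) (nat_lit 6) (nat_lit 7) L4271602 (by decide +kernel)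
theorem L4271604 : W_1 (nat_lit 5) (nat_lit 0x20003c001a0008000000000000000000000000000) (nat_lit 0x0) (nat_lit 0x20001c000000040011800080000000000000000000000) := T_1 (nat_lit 158) (nat_lit 159) (nat_lit 1) (nat_lit 9) (nat_lit 8) L4271603 (by decide +kernel)
theorem L4271605 : W_1 (nat_lit 6) (nat_lit 0x20003c00180008000000000000000000000000000) (nat_lit 0x0) (nat_lit 0x20001c000000070011800080000000000000000000000) := T_1 (nat_lit 125) (nat_lit 124) (nat_lit 0) (nat_lit 9) (nat_lit 8) L4271604 (by decide +kernel)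
theorem L4271606 : W_1 (nat_lit 7) (nat_lit 0x20003c00180000000000000000000000000000000) (nat_lit 0x0) (nat_lit 0x20001c000000070019800480000000000000000000000) := T_1 (nat_lit 111) (nat_lit 94) (nat_lit 5) (nat_lit 9) (nat_lit 5) L4271605 (by decide +kernel)
theorem L4271607 : W_1 (nat_lit 8) (nat_lit 0x20003800180000000000000000000000000000000) (nat_lit 0x0) (nat_lit 0x20001c000600070019800480000000000000000000000) := T_1 (nat_lit 142) (nat_lit 141) (nat_lit 2) (nat_lit 5) (nat_lit 8) L4271606 (by decide +kernel)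
theorem L4271608 : W_1 (nat_lit 2) (nat_lit 0x1e00028003c00190000000000000000000000000000000) (nat_lit 0x0) (nat_lit 0x60000000040000000000000000000000000000000000000000) := D_1 (nat_lit 197) (nat_lit 162) (nat_lit 198) (nat_lit 7) (nat_lit 9) (nat_lit 7) (nat_lit 3) (nat_lit 7) (nat_lit 10) (by decide +kernel)
theorem L4271609 : W_1 (nat_lit 3) (nat_lit 0xe00028003c00190000000000000000000000000000000) (nat_lit 0x0) (nat_lit 0x60001000050000000000000000000000000000000000000000) := T_1 (nat_lit 180) (nat_lit 160) (nat_lit 0) (nat_lit 10) (nat_lit 10) L4271608 (by decide +kernel)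
theorem L4271610 : W_1 (nat_lit 4) (nat_lit 0xe00020003c00190000000000000000000000000000000) (nat_lit 0x0) (nat_lit 0x6000100005c000000000000000000000000000000000000000) := T_1 (nat_lit 159) (nat_lit 158) (nat_lit 1) (nat_lit 9) (nat_lit 8) L4271609 (by decide +kernel)
theorem L4271611 : W_1 (nat_lit 5) (nat_lit 0xe00020003c00180000000000000000000000000000000) (nat_lit 0x0) (nat_lit 0x6000100005c000000030000000000000000000000000000000) := T_1 (nat_lit 124) (nat_lit 125) (nat_lit 0) (nat_lit 9) (nat_lit 8) L4271610 (by decide +kernel)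
theorem L4271612 : W_1 (nat_lit 6) (nat_lit 0x600020003c00180000000000000000000000000000000) (nat_lit 0x0) (nat_lit 0x7000180005c000000030000000000000000000000000000000) := T_1 (nat_lit 179) (nat_lit 196) (nat_lit 7) (nat_lit 8) (nat_lit 7) L4271611 (by decide +kernel)
theorem L4271613 : W_1 (nat_lit 7) (nat_lit 0x400020003c00180000000000000000000000000000000) (nat_lit 0x0) (nat_lit 0x74001a0005c000000030000000000000000000000000000000) := T_1 (nat_lit 177) (nat_lit 194) (nat_lit 5) (nat_lit 8) (nat_lit 7) L4271612 (by decide +kernel)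
theorem L4271614 : W_1 (nat_lit 8) (nat_lit 0x20003c00180000000000000000000000000000000) (nat_lit 0x0) (nat_lit 0x7c001e0005c000000030000000000000000000000000000000) := T_1 (nat_lit 178) (nat_lit 195) (nat_lit 6) (nat_lit 8) (nat_lit 11) L4271613 (by decide +kernel)
theorem L4271615 : W_1 (nat_lit 9) (nat_lit 0x20003800180000000000000000000000000000000) (nat_lit 0x0) (nat_lit 0x7c001e0005c000600030000000000000000000000000000000) := T_1 (nat_lit 142) (nat_lit 141) (nat_lit 2) (nat_lit 5) (nat_lit 8) L4271614 (by decide +kernel)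
theorem L4271616 : W_1 (nat_lit 10) (nat_lit 0x3800180000000000000000000000000000000) (nat_lit 0x0) (nat_lit 0x7c001e0007c000600070019800480000000000000000000000) := Q_1 (nat_lit 161) (C_1 L68667 (C_1 L4271607 (C_1 L4271615 N_1))) (by decide +kernel)
theorem L4271617 : W_1 (nat_lit 6) (nat_lit 0x3800180000000000000000000000000000000) (nat_lit 0x0) (nat_lit 0x200010004600070001800080000000000000000000000) := T_1 (nat_lit 142) (nat_lit 141) (nat_lit 2) (nat_lit 5) (nat_lit 8) L362612 (by decide +kernel)
theorem L4271618 : W_1 (nat_lit 14) (nat_lit 0x1800180000000000000000000000000000000) (nat_lit 0x0) (nat_lit 0x7e001f0007c01e600070039800f80070000000000000000000) := Q_1 (nat_lit 145) (C_1 L293247 (C_1 L4256888 (C_1 L2880 (C_1 L4271600 (C_1 L4271616 (C_1 L4271617 N_1)))))) (by decide +kernel)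
theorem L4273862 : W_1 (nat_lit 4) (nat_lit 0x200018003e0010000000000000000000000000000) (nat_lit 0x0) (nat_lit 0xc000018001c00000000000000000000000000) := T_1 (nat_lit 146) (nat_lit 147) (nat_lit 3) (nat_lit 7) (nat_lit 7) L72786 (by decide +kernel)
theorem L4273863 : W_1 (nat_lit 5) (nat_lit 0x200018003c0010000000000000000000000000000) (nat_lit 0x0) (nat_lit 0xc000038009c00000000000000000000000000) := T_1 (nat_lit 125) (nat_lit 111) (nat_lit 2) (nat_lit 6) (nat_lit 7) L4273862 (by decide +kernel)
theorem L4273864 : W_1 (nat_lit 6) (nat_lit 0x200018003c0000000000000000000000000000000) (nat_lit 0x0) (nat_lit 0xc000038039c00000000000000000000000000) := T_1 (nat_lit 112) (nat_lit 113) (nat_lit 2) (nat_lit 7) (nat_lit 7) L4273863 (by decide +kernel)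
theorem L4273865 : W_1 (nat_lit 7) (nat_lit 0x200018001c0000000000000000000000000000000) (nat_lit 0x0) (nat_lit 0xc000638039c00000000000000000000000000) := T_1 (nat_lit 129) (nat_lit 130) (nat_lit 1) (nat_lit 11) (nat_lit 7) L4273864 (by decide +kernel)
theorem L4273866 : W_1 (nat_lit 2) (nat_lit 0x200018003c0018000000000000000000000000000) (nat_lit 0x0) (nat_lit 0x2000000000000400020000000000000000000) := D_1 (nat_lit 94) (nat_lit 77) (nat_lit 145) (nat_lit 5) (nat_lit 9) (nat_lit 4) (nat_lit 5) (nat_lit 9) (nat_lit 5) (by decide +kernel)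
theorem L4273867 : W_1 (nat_lit 3) (nat_lit 0x200018003c0010000000000000000000000000000) (nat_lit 0x0) (nat_lit 0x2000020008000400020000000000000000000) := T_1 (nat_lit 111) (nat_lit 125) (nat_lit 2) (nat_lit 6) (nat_lit 7) L4273866 (by decide +kernel)
theorem L4273868 : W_1 (nat_lit 4) (nat_lit 0x200018003c0000000000000000000000000000000) (nat_lit 0x0) (nat_lit 0x2000020038000400020000000000000000000) := T_1 (nat_lit 112) (nat_lit 113) (nat_lit 2) (nat_lit 7) (nat_lit 7) L4273867 (by decide +kernel)
theorem L4273869 : W_1 (nat_lit 5) (nat_lit 0x200018001c0000000000000000000000000000000) (nat_lit 0x0) (nat_lit 0x2000620038000400020000000000000000000) := T_1 (nat_lit 129) (nat_lit 130) (nat_lit 1) (nat_lit 11) (nat_lit 7) L4273868 (by decide +kernel)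
theorem L4273870 : W_1 (nat_lit 5) (nat_lit 0x200018003c0000000000000000000000000000000) (nat_lit 0x0) (nat_lit 0xe000038001c00000000000000000000000000) := T_1 (nat_lit 146) (nat_lit 147) (nat_lit 3) (nat_lit 7) (nat_lit 7) L73829 (by decide +kernel)
theorem L4273871 : W_1 (nat_lit 6) (nat_lit 0x200018001c0000000000000000000000000000000) (nat_lit 0x0) (nat_lit 0xe000638001c00000000000000000000000000) := T_1 (nat_lit 129) (nat_lit 130) (nat_lit 1) (nat_lit 11) (nat_lit 7) L4273870 (by decide +kernel)
theorem L4273872 : W_1 (nat_lit 9) (nat_lit 0x20001800180000000000000000000000000000000) (nat_lit 0x0) (nat_lit 0x5800e000678039c00c00060000000000000000000) := Q_1 (nat_lit 126) (C_1 L4273865 (C_1 L72790 (C_1 L4273869 (C_1 L4242493 (C_1 L291653 (C_1 L4273871 N_1)))))) (by decide +kernel)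
theorem L4273873 : W_1 (nat_lit 2) (nat_lit 0xc00038001800180000000000000000000000000000000) (nat_lit 0x0) (nat_lit 0x3200000000000000000000000000000000000000000000) := D_1 (nat_lit 180) (nat_lit 181) (nat_lit 177) (nat_lit 0) (nat_lit 11) (nat_lit 10) (nat_lit 0) (nat_lit 10) (nat_lit 10) (by decide +kernel)
theorem L4273874 : W_1 (nat_lit 3) (nat_lit 0xc00030001800180000000000000000000000000000000) (nat_lit 0x0) (nat_lit 0x320000c000000000000000000000000000000000000000) := T_1 (nat_lit 159) (nat_lit 158) (nat_lit 3) (nat_lit 5) (nat_lit 9) L4273873 (by decide +kernel)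
theorem L4273875 : W_1 (nat_lit 4) (nat_lit 0x400030001800180000000000000000000000000000000) (nat_lit 0x0) (nat_lit 0x10003a0000c000000000000000000000000000000000000000) := T_1 (nat_lit 179) (nat_lit 196) (nat_lit 7) (nat_lit 8) (nat_lit 7) L4273874 (by decide +kernel)
theorem L4273876 : W_1 (nat_lit 2) (nat_lit 0x400020001f00070001800380000000000000000000000000000000) (nat_lit 0x0) (nat_lit 0x3000000000000000040000000000000000000000000000000) := D_1 (nat_lit 193) (nat_lit 126) (nat_lit 192) (nat_lit 5) (nat_lit 7) (nat_lit 7) (nat_lit 1) (nat_lit 9) (nat_lit 10) (by decide +kernel)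
theorem L4273877 : W_1 (nat_lit 3) (nat_lit 0x400020001e00070001800380000000000000000000000000000000) (nat_lit 0x0) (nat_lit 0x3000180000000000040000000000000000000000000000000) := T_1 (nat_lit 176) (nat_lit 175) (nat_lit 2) (nat_lit 5) (nat_lit 10) L4273876 (by decide +kernel)
theorem L4273878 : W_1 (nat_lit 4) (nat_lit 0x20001e00070001800380000000000000000000000000000000) (nat_lit 0x0) (nat_lit 0x8000400003000180000000000040000000000000000000000000000000) := T_1 (nat_lit 214) (nat_lit 231) (nat_lit 4) (nat_lit 10) (nat_lit 13) L4273877 (by decide +kernel)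
theorem L4273879 : W_1 (nat_lit 5) (nat_lit 0x20001e00030001800380000000000000000000000000000000) (nat_lit 0x0) (nat_lit 0x8000400003000180040002000040000000000000000000000000000000) := T_1 (nat_lit 162) (nat_lit 145) (nat_lit 7) (nat_lit 9) (nat_lit 7) L4273878 (by decide +kernel)
theorem L4273880 : W_1 (nat_lit 6) (nat_lit 0x1e00030001800380000000000000000000000000000000) (nat_lit 0x0) (nat_lit 0x8000400063000180040002000040000000000000000000000000000000) := T_1 (nat_lit 197) (nat_lit 198) (nat_lit 3) (nat_lit 7) (nat_lit 10) L4273879 (by decide +kernel)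
theorem L4273881 : W_1 (nat_lit 7) (nat_lit 0x1c00030001800380000000000000000000000000000000) (nat_lit 0x0) (nat_lit 0x8000400067000380040002000040000000000000000000000000000000) := T_1 (nat_lit 177) (nat_lit 194) (nat_lit 6) (nat_lit 7) (nat_lit 11) L4273880 (by decide +kernel)
theorem L4273882 : W_1 (nat_lit 8) (nat_lit 0xc00030001800380000000000000000000000000000000) (nat_lit 0x0) (nat_lit 0x8000400067003380040002000040000000000000000000000000000000) := T_1 (nat_lit 180) (nat_lit 181) (nat_lit 0) (nat_lit 11) (nat_lit 10) L4273881 (by decide +kernel)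
theorem L4273883 : W_1 (nat_lit 9) (nat_lit 0x400030001800380000000000000000000000000000000) (nat_lit 0x0) (nat_lit 0x8000400077003b80040002000040000000000000000000000000000000) := T_1 (nat_lit 179) (nat_lit 196) (nat_lit 7) (nat_lit 8) (nat_lit 7) L4273882 (by decide +kernel)
theorem L4273884 : W_1 (nat_lit 10) (nat_lit 0x400030001800180000000000000000000000000000000) (nat_lit 0x0) (nat_lit 0x8000400077003b80040002000640000000000000000000000000000000) := T_1 (nat_lit 129) (nat_lit 130) (nat_lit 1) (nat_lit 11) (nat_lit 7) L4273883 (by decide +kernel)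
theorem L4273886 : W_1 (nat_lit 2) (nat_lit 0x400038001800180000000000000000000000000000000) (nat_lit 0x0) (nat_lit 0x6002000000000000000000000000000000000000) := D_1 (nat_lit 158) (nat_lit 145) (nat_lit 157) (nat_lit 2) (nat_lit 5) (nat_lit 9) (nat_lit 2) (nat_lit 4) (nat_lit 9) (by decide +kernel)
theorem L4273887 : W_1 (nat_lit 2) (nat_lit 0x78003c001900380000000000000000000000000000000) (nat_lit 0x0) (nat_lit 0x40002000000000000000040000000000000000000000000000000) := D_1 (nat_lit 193) (nat_lit 126) (nat_lit 210) (nat_lit 5) (nat_lit 7) (nat_lit 7) (nat_lit 6) (nat_lit 6) (nat_lit 12) (by decide +kernel)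
theorem L4273888 : W_1 (nat_lit 3) (nat_lit 0x68003c001900380000000000000000000000000000000) (nat_lit 0x0) (nat_lit 0x40002000100040000000040000000000000000000000000000000) := T_1 (nat_lit 176) (nat_lit 162) (nat_lit 2) (nat_lit 5) (nat_lit 10) L4273887 (by decide +kernel)
theorem L4273889 : W_1 (nat_lit 4) (nat_lit 0x60003c001900380000000000000000000000000000000) (nat_lit 0x0) (nat_lit 0x400020001c0040000000040000000000000000000000000000000) := T_1 (nat_lit 175) (nat_lit 174) (nat_lit 1) (nat_lit 8) (nat_lit 9) L4273888 (by decide +kernel)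
theorem L4273890 : W_1 (nat_lit 5) (nat_lit 0x60003c001800380000000000000000000000000000000) (nat_lit 0x0) (nat_lit 0x400020001c0040000300040000000000000000000000000000000) := T_1 (nat_lit 140) (nat_lit 141) (nat_lit 0) (nat_lit 8) (nat_lit 9) L4273889 (by decide +kernel)
theorem L4273891 : W_1 (nat_lit 6) (nat_lit 0x60003c001800180000000000000000000000000000000) (nat_lit 0x0) (nat_lit 0x400020001c0040000300640000000000000000000000000000000) := T_1 (nat_lit 129) (nat_lit 130) (nat_lit 1) (nat_lit 11) (nat_lit 7) L4273890 (by decide +kernel)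
theorem L4273892 : W_1 (nat_lit 7) (nat_lit 0x600038001800180000000000000000000000000000000) (nat_lit 0x0) (nat_lit 0x400020001c0046000300640000000000000000000000000000000) := T_1 (nat_lit 158) (nat_lit 157) (nat_lit 3) (nat_lit 4) (nat_lit 9) L4273891 (by decide +kernel)
theorem L4273893 : W_1 (nat_lit 8) (nat_lit 0x400038001800180000000000000000000000000000000) (nat_lit 0x0) (nat_lit 0x400060003c0046000300640000000000000000000000000000000) := T_1 (nat_lit 177) (nat_lit 194) (nat_lit 6) (nat_lit 7) (nat_lit 11) L4273892 (by decide +kernel)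
theorem L4273894 : W_1 (nat_lit 2) (nat_lit 0x7000380058003c0010000000000000000000000000000) (nat_lit 0x0) (nat_lit 0xc0040000000000000000000000000000000000000000) := D_1 (nat_lit 175) (nat_lit 162) (nat_lit 174) (nat_lit 2) (nat_lit 5) (nat_lit 10) (nat_lit 2) (nat_lit 4) (nat_lit 10) (by decide +kernel)
theorem L4273895 : W_1 (nat_lit 3) (nat_lit 0x6000380058003c0010000000000000000000000000000) (nat_lit 0x0) (nat_lit 0x20001c0040000000000000000000000000000000000000000) := T_1 (nat_lit 176) (nat_lit 193) (nat_lit 5) (nat_lit 7) (nat_lit 7) L4273894 (by decide +kernel)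
theorem L4273896 : W_1 (nat_lit 4) (nat_lit 0x6000380058003c0000000000000000000000000000000) (nat_lit 0x0) (nat_lit 0x20001c0040000000000030000000000000000000000000000) := T_1 (nat_lit 112) (nat_lit 113) (nat_lit 2) (nat_lit 7) (nat_lit 7) L4273895 (by decide +kernel)
theorem L4273897 : W_1 (nat_lit 5) (nat_lit 0x600038005800380000000000000000000000000000000) (nat_lit 0x0) (nat_lit 0x20001c0040008000040030000000000000000000000000000) := T_1 (nat_lit 126) (nat_lit 147) (nat_lit 3) (nat_lit 7) (nat_lit 7) L4273896 (by decide +kernel)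
theorem L4273898 : W_1 (nat_lit 6) (nat_lit 0x600038001800380000000000000000000000000000000) (nat_lit 0x0) (nat_lit 0x20001c004000e000040030000000000000000000000000000) := T_1 (nat_lit 146) (nat_lit 145) (nat_lit 1) (nat_lit 10) (nat_lit 8) L4273897 (by decide +kernel)
theorem L4273899 : W_1 (nat_lit 7) (nat_lit 0x400038001800380000000000000000000000000000000) (nat_lit 0x0) (nat_lit 0x60003c004000e000040030000000000000000000000000000) := T_1 (nat_lit 177) (nat_lit 194) (nat_lit 6) (nat_lit 7) (nat_lit 11) L4273898 (by decide +kernel)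
theorem L4273900 : W_1 (nat_lit 8) (nat_lit 0x400038001800180000000000000000000000000000000) (nat_lit 0x0) (nat_lit 0x60003c004000e000640030000000000000000000000000000) := T_1 (nat_lit 129) (nat_lit 130) (nat_lit 1) (nat_lit 11) (nat_lit 7) L4273899 (by decide +kernel)
theorem L4273901 : W_1 (nat_lit 9) (nat_lit 0x400030001800180000000000000000000000000000000) (nat_lit 0x0) (nat_lit 0x400060003c004e00e300640030000000000000000000000000000) := Q_1 (nat_lit 159) (C_1 L4273886 (C_1 L4273893 (C_1 L4273900 N_1))) (by decide +kernel)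
theorem L4273902 : W_1 (nat_lit 11) (nat_lit 0x400020001800180000000000000000000000000000000) (nat_lit 0x0) (nat_lit 0x8000440077003bc005e00e300640030000000000000000000000000000) := Q_1 (nat_lit 160) (C_1 L4208885 (C_1 L4273875 (C_1 L4273884 (C_1 L4273901 N_1)))) (by decide +kernel)
theorem L4273903 : W_1 (nat_lit 12) (nat_lit 0x20001800180000000000000000000000000000000) (nat_lit 0x0) (nat_lit 0x80006c007f003fc005e00e300640030000000000000000000000000000) := Q_1 (nat_lit 178) (C_1 L73786 (C_1 L73803 (C_1 L4273902 N_1))) (by decide +kernel)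
theorem L4273904 : W_1 (nat_lit 13) (nat_lit 0x1800180000000000000000000000000000000) (nat_lit 0x0) (nat_lit 0x80006c007f003fc007e00e300678039c00c00060000000000000000000) := Q_1 (nat_lit 161) (C_1 L73974 (C_1 L4273872 (C_1 L4273903 (C_1 L2376 N_1)))) (by decide +kernel)
theorem L4273905 : W_1 (nat_lit 15) (nat_lit 0x1800080000000000000000000000000000000) (nat_lit 0x0) (nat_lit 0x80006c007f003fc007e01e700778039c00f80070000000000000000000) := Q_1 (nat_lit 128) (C_1 L4271618 (C_1 L2228 (C_1 L775227 (C_1 L4273904 N_1)))) (by decide +kernel)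
theorem L4276181 : W_1 (nat_lit 2) (nat_lit 0x1c001b4001000080006000400000000000000) (nat_lit 0x0) (nat_lit 0x800000000000200020000000000) := D_1 (nat_lit 57) (nat_lit 41) (nat_lit 107) (nat_lit 6) (nat_lit 6) (nat_lit 6) (nat_lit 5) (nat_lit 6) (nat_lit 3) (by decide +kernel)
theorem L4276182 : W_1 (nat_lit 3) (nat_lit 0x1c001b4001000080006000000000000000000) (nat_lit 0x0) (nat_lit 0x800000008000600020000000000) := T_1 (nat_lit 58) (nat_lit 75) (nat_lit 6) (nat_lit 6) (nat_lit 7) L4276181 (by decide +kernel)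
theorem L4276183 : W_1 (nat_lit 4) (nat_lit 0x1c001b0001000080006000000000000000000) (nat_lit 0x0) (nat_lit 0xc000800000008000600020000000000) := T_1 (nat_lit 122) (nat_lit 123) (nat_lit 3) (nat_lit 3) (nat_lit 7) L4276182 (by decide +kernel)
theorem L4276184 : W_1 (nat_lit 5) (nat_lit 0x1c001b0001000080002000000000000000000) (nat_lit 0x0) (nat_lit 0xc00080000000c000700020000000000) := T_1 (nat_lit 74) (nat_lit 56) (nat_lit 4) (nat_lit 6) (nat_lit 7) L4276183 (by decide +kernel)
theorem L4276185 : W_1 (nat_lit 6) (nat_lit 0x1c001b0001000080000000000000000000000) (nat_lit 0x0) (nat_lit 0xc00080004000e000700020000000000) := T_1 (nat_lit 73) (nat_lit 90) (nat_lit 4) (nat_lit 6) (nat_lit 8) L4276184 (by decide +kernel)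
theorem L4276199 : W_1 (nat_lit 4) (nat_lit 0x1c001b4001000180006800000000000000000) (nat_lit 0x0) (nat_lit 0x2800000000000600030001000000) := T_1 (nat_lit 57) (nat_lit 107) (nat_lit 5) (nat_lit 6) (nat_lit 3) L4250466 (by decide +kernel)
theorem L4276200 : W_1 (nat_lit 5) (nat_lit 0x1c001b4001000180006000000000000000000) (nat_lit 0x0) (nat_lit 0x2800000001800600030001000000) := T_1 (nat_lit 71) (nat_lit 72) (nat_lit 3) (nat_lit 3) (nat_lit 4) L4276199 (by decide +kernel)
theorem L4276201 : W_1 (nat_lit 6) (nat_lit 0x1c001b4001000180002000000000000000000) (nat_lit 0x0) (nat_lit 0x2800000005800700030001000000) := T_1 (nat_lit 74) (nat_lit 56) (nat_lit 4) (nat_lit 6) (nat_lit 7) L4276200 (by decide +kernel)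
theorem L4276202 : W_1 (nat_lit 7) (nat_lit 0x1c001b4001000180000000000000000000000) (nat_lit 0x0) (nat_lit 0x2800040007800700030001000000) := T_1 (nat_lit 73) (nat_lit 90) (nat_lit 4) (nat_lit 6) (nat_lit 8) L4276201 (by decide +kernel)
theorem L4276203 : W_1 (nat_lit 8) (nat_lit 0x1c001b0001000180000000000000000000000) (nat_lit 0x0) (nat_lit 0xc002800040007800700030001000000) := T_1 (nat_lit 122) (nat_lit 123) (nat_lit 3) (nat_lit 3) (nat_lit 7) L4276202 (by decide +kernel)
theorem L4279059 : W_1 (nat_lit 2) (nat_lit 0x3a001e0008000000000000000000000000000) (nat_lit 0x0) (nat_lit 0x20000000000000000400020000000000000000000) := D_1 (nat_lit 94) (nat_lit 77) (nat_lit 161) (nat_lit 5) (nat_lit 9) (nat_lit 4) (nat_lit 5) (nat_lit 9) (nat_lit 5) (by decide +kernel)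
theorem L4279060 : W_1 (nat_lit 3) (nat_lit 0x3a001e0000000000000000000000000000000) (nat_lit 0x0) (nat_lit 0x20000000000018000400020000000000000000000) := T_1 (nat_lit 111) (nat_lit 112) (nat_lit 2) (nat_lit 6) (nat_lit 7) L4279059 (by decide +kernel)
theorem L4279061 : W_1 (nat_lit 4) (nat_lit 0x1a001e0000000000000000000000000000000) (nat_lit 0x0) (nat_lit 0x20006000000018000400020000000000000000000) := T_1 (nat_lit 145) (nat_lit 146) (nat_lit 3) (nat_lit 6) (nat_lit 7) L4279060 (by decide +kernel)
theorem L4279062 : W_1 (nat_lit 5) (nat_lit 0x1a001c0000000000000000000000000000000) (nat_lit 0x0) (nat_lit 0x20006100038018000400020000000000000000000) := Q_1 (nat_lit 125) (C_1 L20974 (C_1 L4279061 N_1)) (by decide +kernel)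
theorem L4279116 : W_1 (nat_lit 4) (nat_lit 0x1c001c0002000000000000000000000000000) (nat_lit 0x0) (nat_lit 0xc000600030000000020001c00080000000000000000000000) := Q_1 (nat_lit 160) (C_1 L4228760 (C_1 L1923872 N_1)) (by decide +kernel)
theorem L4279117 : W_1 (nat_lit 7) (nat_lit 0x1c001c0000000000000000000000000000000) (nat_lit 0x0) (nat_lit 0xc000600030000000020003c0078001c000000000000000000) := Q_1 (nat_lit 109) (C_1 L4228158 (C_1 L774823 (C_1 L4279116 N_1))) (by decide +kernel)
theorem L4289828 : W_1 (nat_lit 7) (nat_lit 0x1c00080000000000000000000000000000000) (nat_lit 0x0) (nat_lit 0x48007780238007e003000180000000000000000000000) := Q_1 (nat_lit 141) (C_1 L65033 (C_1 L4264795 (C_1 L415 (C_1 L14774 N_1)))) (by decide +kernel)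
theorem L4291169 : W_1 (nat_lit 2) (nat_lit 0x400010003c000c0002000000000000000000000000000) (nat_lit 0x0) (nat_lit 0xc000200000000000000000000000000000000000000000000) := D_1 (nat_lit 177) (nat_lit 194) (nat_lit 195) (nat_lit 6) (nat_lit 7) (nat_lit 11) (nat_lit 7) (nat_lit 7) (nat_lit 7) (by decide +kernel)
theorem L4291170 : W_1 (nat_lit 3) (nat_lit 0x10003c000c0002000000000000000000000000000) (nat_lit 0x0) (nat_lit 0xc000600020000000000000000000000000000000000000000) := T_1 (nat_lit 178) (nat_lit 161) (nat_lit 7) (nat_lit 7) (nat_lit 6) L4291169 (by decide +kernel)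
theorem L4291171 : W_1 (nat_lit 2) (nat_lit 0x30003c000c0003800000000000000000000000000) (nat_lit 0x0) (nat_lit 0x130000000000000000000000000000000) := D_1 (nat_lit 125) (nat_lit 124) (nat_lit 128) (nat_lit 3) (nat_lit 5) (nat_lit 7) (nat_lit 0) (nat_lit 9) (nat_lit 7) (by decide +kernel)
theorem L4291172 : W_1 (nat_lit 3) (nat_lit 0x30003c000c0003000000000000000000000000000) (nat_lit 0x0) (nat_lit 0x130000c00000000000000000000000000) := T_1 (nat_lit 107) (nat_lit 106) (nat_lit 3) (nat_lit 4) (nat_lit 6) L4291171 (by decide +kernel)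
theorem L4291173 : W_1 (nat_lit 4) (nat_lit 0x10003c000c0003000000000000000000000000000) (nat_lit 0x0) (nat_lit 0x400020000000130000c00000000000000000000000000) := T_1 (nat_lit 161) (nat_lit 178) (nat_lit 7) (nat_lit 7) (nat_lit 6) L4291172 (by decide +kernel)
theorem L4291174 : W_1 (nat_lit 5) (nat_lit 0x10003c000c0002000000000000000000000000000) (nat_lit 0x0) (nat_lit 0x400020000000130001c00080000000000000000000000) := T_1 (nat_lit 108) (nat_lit 91) (nat_lit 4) (nat_lit 7) (nat_lit 9) L4291173 (by decide +kernel)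
theorem L4291175 : W_1 (nat_lit 6) (nat_lit 0x3c000c0002000000000000000000000000000) (nat_lit 0x0) (nat_lit 0xc000600030000000130001c00080000000000000000000000) := Q_1 (nat_lit 160) (C_1 L4291170 (C_1 L4238599 (C_1 L4291174 N_1))) (by decide +kernel)
theorem L4291176 : W_1 (nat_lit 8) (nat_lit 0x3c000c0000000000000000000000000000000) (nat_lit 0x0) (nat_lit 0xc000600030000000130003c0078001c000000000000000000) := Q_1 (nat_lit 109) (C_1 L4241181 (C_1 L303772 (C_1 L4291175 N_1))) (by decide +kernel)
theorem L4291324 : W_1 (nat_lit 8) (nat_lit 0x3c000a0001000000000000000000000000000) (nat_lit 0x0) (nat_lit 0x20004000040002c007c001e000000000000000000) := T_1 (nat_lit 126) (nat_lit 146) (nat_lit 0) (nat_lit 10) (nat_lit 8) L2480479 (by decide +kernel)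
theorem L4291325 : W_1 (nat_lit 3) (nat_lit 0x3c000a0001000000000000000000000000000) (nat_lit 0x0) (nat_lit 0x10004000040000000080004000000000000000000) := T_1 (nat_lit 126) (nat_lit 146) (nat_lit 0) (nat_lit 10) (nat_lit 8) L4237345 (by decide +kernel)
theorem L4291326 : W_1 (nat_lit 2) (nat_lit 0x3c000e0001800000000000000000000000000) (nat_lit 0x0) (nat_lit 0x2600000000000000000000000000) := D_1 (nat_lit 106) (nat_lit 105) (nat_lit 109) (nat_lit 3) (nat_lit 3) (nat_lit 6) (nat_lit 3) (nat_lit 4) (nat_lit 6) (by decide +kernel)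
theorem L4291327 : W_1 (nat_lit 3) (nat_lit 0x3c000e0001000000000000000000000000000) (nat_lit 0x0) (nat_lit 0x100002e00000000000000000000000000) := T_1 (nat_lit 107) (nat_lit 128) (nat_lit 0) (nat_lit 9) (nat_lit 7) L4291326 (by decide +kernel)
theorem L4291328 : W_1 (nat_lit 4) (nat_lit 0x3c000a0001000000000000000000000000000) (nat_lit 0x0) (nat_lit 0x4000140002e00000000000000000000000000) := T_1 (nat_lit 126) (nat_lit 146) (nat_lit 0) (nat_lit 10) (nat_lit 8) L4291327 (by decide +kernel)
theorem L4291329 : W_1 (nat_lit 9) (nat_lit 0x3c000a0000000000000000000000000000000) (nat_lit 0x0) (nat_lit 0x30004000140003e007c001e000500000000000000) := Q_1 (nat_lit 108) (C_1 L4266117 (C_1 L4291324 (C_1 L4291325 (C_1 L4291328 N_1)))) (by decide +kernel)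
theorem L4291330 : W_1 (nat_lit 10) (nat_lit 0x3c00080000000000000000000000000000000) (nat_lit 0x0) (nat_lit 0x30004000170003e007c001e000500000000000000) := T_1 (nat_lit 125) (nat_lit 124) (nat_lit 0) (nat_lit 9) (nat_lit 8) L4291329 (by decide +kernel)
theorem L4293795 : W_1 (nat_lit 7) (nat_lit 0x20001c00080000000000000000000000000000000) (nat_lit 0x0) (nat_lit 0x100038001c000e00010002000700008000000000000000000000000000) := Q_1 (nat_lit 178) (C_1 L4236554 (C_1 L775073 (C_1 L67987 N_1))) (by decide +kernel)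
theorem L4293971 : W_1 (nat_lit 2) (nat_lit 0x1000f00020001c00080000000000000000000000000000000) (nat_lit 0x0) (nat_lit 0x800080040000000000000000000000000000000000000000) := D_1 (nat_lit 175) (nat_lit 191) (nat_lit 162) (nat_lit 1) (nat_lit 8) (nat_lit 10) (nat_lit 2) (nat_lit 5) (nat_lit 10) (by decide +kernel)
theorem L4293972 : W_1 (nat_lit 3) (nat_lit 0xf00020001c00080000000000000000000000000000000) (nat_lit 0x0) (nat_lit 0x3800080040000000000000000000000000000000000000000) := T_1 (nat_lit 192) (nat_lit 193) (nat_lit 1) (nat_lit 9) (nat_lit 10) L4293971 (by decide +kernel)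
theorem L4293973 : W_1 (nat_lit 4) (nat_lit 0x700020001c00080000000000000000000000000000000) (nat_lit 0x0) (nat_lit 0x13800880040000000000000000000000000000000000000000) := T_1 (nat_lit 179) (nat_lit 196) (nat_lit 7) (nat_lit 8) (nat_lit 7) L4293972 (by decide +kernel)
theorem L4293974 : W_1 (nat_lit 2) (nat_lit 0x1000f80022001c00080002000000000000000000000000000) (nat_lit 0x0) (nat_lit 0x40011000000000000000000000000000000000000000) := D_1 (nat_lit 174) (nat_lit 156) (nat_lit 160) (nat_lit 0) (nat_lit 7) (nat_lit 10) (nat_lit 2) (nat_lit 4) (nat_lit 10) (by decide +kernel)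
theorem L4293975 : W_1 (nat_lit 3) (nat_lit 0x1000f80020001c00080002000000000000000000000000000) (nat_lit 0x0) (nat_lit 0x40017000000000000000000000000000000000000000) := T_1 (nat_lit 157) (nat_lit 158) (nat_lit 0) (nat_lit 8) (nat_lit 10) L4293974 (by decide +kernel)
theorem L4293976 : W_1 (nat_lit 4) (nat_lit 0x1000f00020001c00080002000000000000000000000000000) (nat_lit 0x0) (nat_lit 0x8000c0017000000000000000000000000000000000000000) := T_1 (nat_lit 175) (nat_lit 191) (nat_lit 1) (nat_lit 8) (nat_lit 10) L4293975 (by decide +kernel)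
theorem L4293977 : W_1 (nat_lit 5) (nat_lit 0xf00020001c00080002000000000000000000000000000) (nat_lit 0x0) (nat_lit 0x38000c0017000000000000000000000000000000000000000) := T_1 (nat_lit 192) (nat_lit 193) (nat_lit 1) (nat_lit 9) (nat_lit 10) L4293976 (by decide +kernel)
theorem L4293978 : W_1 (nat_lit 6) (nat_lit 0x700020001c00080002000000000000000000000000000) (nat_lit 0x0) (nat_lit 0x138008c0017000000000000000000000000000000000000000) := T_1 (nat_lit 179) (nat_lit 196) (nat_lit 7) (nat_lit 8) (nat_lit 7) L4293977 (by decide +kernel)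
theorem L4293979 : W_1 (nat_lit 7) (nat_lit 0x700020001c00080000000000000000000000000000000) (nat_lit 0x0) (nat_lit 0x138008c0017000000040002000000000000000000000000000) := T_1 (nat_lit 109) (nat_lit 126) (nat_lit 4) (nat_lit 8) (nat_lit 10) L4293978 (by decide +kernel)
theorem L4293980 : W_1 (nat_lit 2) (nat_lit 0x700070001c000e0000000000000000000000000000000) (nat_lit 0x0) (nat_lit 0x2000018000000000000000000000000000000) := D_1 (nat_lit 124) (nat_lit 145) (nat_lit 123) (nat_lit 3) (nat_lit 5) (nat_lit 7) (nat_lit 3) (nat_lit 4) (nat_lit 7) (by decide +kernel)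
theorem L4293981 : W_1 (nat_lit 3) (nat_lit 0x700070001c000c0000000000000000000000000000000) (nat_lit 0x0) (nat_lit 0x2000038001000000000000000000000000000) := T_1 (nat_lit 125) (nat_lit 108) (nat_lit 4) (nat_lit 7) (nat_lit 10) L4293980 (by decide +kernel)
theorem L4293982 : W_1 (nat_lit 4) (nat_lit 0x700060001c000c0000000000000000000000000000000) (nat_lit 0x0) (nat_lit 0x2000000010002000038001000000000000000000000000000) := T_1 (nat_lit 160) (nat_lit 193) (nat_lit 5) (nat_lit 7) (nat_lit 7) L4293981 (by decide +kernel)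
theorem L4293983 : W_1 (nat_lit 5) (nat_lit 0x700060001c00080000000000000000000000000000000) (nat_lit 0x0) (nat_lit 0x2000000010002000078003000000000000000000000000000) := T_1 (nat_lit 126) (nat_lit 109) (nat_lit 4) (nat_lit 8) (nat_lit 10) L4293982 (by decide +kernel)
theorem L4293984 : W_1 (nat_lit 6) (nat_lit 0x700020001c00080000000000000000000000000000000) (nat_lit 0x0) (nat_lit 0x2000080050002000078003000000000000000000000000000) := T_1 (nat_lit 162) (nat_lit 175) (nat_lit 2) (nat_lit 5) (nat_lit 10) L4293983 (by decide +kernel)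
theorem L4293985 : W_1 (nat_lit 2) (nat_lit 0xfc0020001c00080002000000000000000000000000000) (nat_lit 0x0) (nat_lit 0x1c00000000000000000000000000000000000000000000000) := D_1 (nat_lit 191) (nat_lit 192) (nat_lit 190) (nat_lit 1) (nat_lit 8) (nat_lit 10) (nat_lit 1) (nat_lit 7) (nat_lit 10) (by decide +kernel)
theorem L4293986 : W_1 (nat_lit 3) (nat_lit 0xf80020001c00080002000000000000000000000000000) (nat_lit 0x0) (nat_lit 0x1c00040010000000000000000000000000000000000000000) := T_1 (nat_lit 174) (nat_lit 160) (nat_lit 2) (nat_lit 4) (nat_lit 10) L4293985 (by decide +kernel)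
theorem L4293987 : W_1 (nat_lit 4) (nat_lit 0xf00020001c00080002000000000000000000000000000) (nat_lit 0x0) (nat_lit 0x1c000c0050000000000000000000000000000000000000000) := T_1 (nat_lit 175) (nat_lit 162) (nat_lit 2) (nat_lit 5) (nat_lit 10) L4293986 (by decide +kernel)
theorem L4293988 : W_1 (nat_lit 5) (nat_lit 0x700020001c00080002000000000000000000000000000) (nat_lit 0x0) (nat_lit 0x11c008c0050000000000000000000000000000000000000000) := T_1 (nat_lit 179) (nat_lit 196) (nat_lit 7) (nat_lit 8) (nat_lit 7) L4293987 (by decide +kernel)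
theorem L4293989 : W_1 (nat_lit 6) (nat_lit 0x700020001c00080000000000000000000000000000000) (nat_lit 0x0) (nat_lit 0x11c008c0050000000040002000000000000000000000000000) := T_1 (nat_lit 109) (nat_lit 126) (nat_lit 4) (nat_lit 8) (nat_lit 10) L4293988 (by decide +kernel)
theorem L4293990 : W_1 (nat_lit 2) (nat_lit 0xf00020001c000c0000000000000000000000000000000) (nat_lit 0x0) (nat_lit 0x3000000010000000000000000000000000000000000000000) := D_1 (nat_lit 193) (nat_lit 192) (nat_lit 160) (nat_lit 1) (nat_lit 9) (nat_lit 10) (nat_lit 5) (nat_lit 7) (nat_lit 7) (by decide +kernel)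
theorem L4293991 : W_1 (nat_lit 3) (nat_lit 0x700020001c000c0000000000000000000000000000000) (nat_lit 0x0) (nat_lit 0x13000800010000000000000000000000000000000000000000) := T_1 (nat_lit 179) (nat_lit 196) (nat_lit 7) (nat_lit 8) (nat_lit 7) L4293990 (by decide +kernel)
theorem L4293992 : W_1 (nat_lit 4) (nat_lit 0x700020001c00080000000000000000000000000000000) (nat_lit 0x0) (nat_lit 0x13000800010000000040002000000000000000000000000000) := T_1 (nat_lit 126) (nat_lit 109) (nat_lit 4) (nat_lit 8) (nat_lit 10) L4293991 (by decide +kernel)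
theorem L4293993 : W_1 (nat_lit 8) (nat_lit 0x600020001c00080000000000000000000000000000000) (nat_lit 0x0) (nat_lit 0x13c009c0057002000078003000000000000000000000000000) := Q_1 (nat_lit 176) (C_1 L4293973 (C_1 L4293979 (C_1 L4293984 (C_1 L4293989 (C_1 L4293992 N_1))))) (by decide +kernel)
theorem L4293994 : W_1 (nat_lit 9) (nat_lit 0x400020001c00080000000000000000000000000000000) (nat_lit 0x0) (nat_lit 0x17c00bc0057002000078003000000000000000000000000000) := T_1 (nat_lit 177) (nat_lit 194) (nat_lit 5) (nat_lit 8) (nat_lit 7) L4293993 (by decide +kernel)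
theorem L4293995 : W_1 (nat_lit 10) (nat_lit 0x20001c00080000000000000000000000000000000) (nat_lit 0x0) (nat_lit 0x28001fc00fc0057002000078003000000000000000000000000000) := Q_1 (nat_lit 178) (C_1 L295152 (C_1 L67987 (C_1 L4293994 N_1))) (by decide +kernel)
theorem L4293996 : W_1 (nat_lit 7) (nat_lit 0x20001c00080000000000000000000000000000000) (nat_lit 0x0) (nat_lit 0x100038001c000c0001000000034000a000000000000000000000000000) := Q_1 (nat_lit 178) (C_1 L775073 (C_1 L295154 (C_1 L295152 N_1))) (by decide +kernel)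
theorem L4293997 : W_1 (nat_lit 4) (nat_lit 0x20001c00080000000000000000000000000000000) (nat_lit 0x0) (nat_lit 0x800040000000200074000a000000000000000000000000000) := Q_1 (nat_lit 178) (C_1 L4236554 (C_1 L295154 (C_1 L295152 N_1))) (by decide +kernel)
theorem L4293998 : W_1 (nat_lit 3) (nat_lit 0x20007c000a0000000000000000000000000000000) (nat_lit 0x0) (nat_lit 0x50018000100000000000000000000000000000000) := T_1 (nat_lit 147) (nat_lit 160) (nat_lit 1) (nat_lit 11) (nat_lit 8) L4265368 (by decide +kernel)
theorem L4293999 : W_1 (nat_lit 4) (nat_lit 0x20003c000a0000000000000000000000000000000) (nat_lit 0x0) (nat_lit 0x5001c000140000000000000000000000000000000) := T_1 (nat_lit 146) (nat_lit 126) (nat_lit 0) (nat_lit 10) (nat_lit 8) L4293998 (by decide +kernel)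
theorem L4294000 : W_1 (nat_lit 5) (nat_lit 0x20003c00080000000000000000000000000000000) (nat_lit 0x0) (nat_lit 0x5001c000170000000000000000000000000000000) := T_1 (nat_lit 125) (nat_lit 124) (nat_lit 0) (nat_lit 9) (nat_lit 8) L4293999 (by decide +kernel)
theorem L4294001 : W_1 (nat_lit 4) (nat_lit 0x20007c00290000000000000000000000000000000) (nat_lit 0x0) (nat_lit 0x740018000040000000000000000000000000000000) := T_1 (nat_lit 147) (nat_lit 126) (nat_lit 0) (nat_lit 11) (nat_lit 8) L321099 (by decide +kernel)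
theorem L4294002 : W_1 (nat_lit 5) (nat_lit 0x20003c00290000000000000000000000000000000) (nat_lit 0x0) (nat_lit 0x74001c000440000000000000000000000000000000) := T_1 (nat_lit 146) (nat_lit 130) (nat_lit 2) (nat_lit 7) (nat_lit 8) L4294001 (by decide +kernel)
theorem L4294003 : W_1 (nat_lit 6) (nat_lit 0x20003c00090000000000000000000000000000000) (nat_lit 0x0) (nat_lit 0x74001c000740000000000000000000000000000000) := T_1 (nat_lit 129) (nat_lit 128) (nat_lit 2) (nat_lit 6) (nat_lit 8) L4294002 (by decide +kernel)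
theorem L4294004 : W_1 (nat_lit 7) (nat_lit 0x20003c00080000000000000000000000000000000) (nat_lit 0x0) (nat_lit 0x74001c000770000000000000000000000000000000) := T_1 (nat_lit 124) (nat_lit 125) (nat_lit 0) (nat_lit 9) (nat_lit 8) L4294003 (by decide +kernel)
theorem L4294005 : W_1 (nat_lit 5) (nat_lit 0x20007c000a0000000000000000000000000000000) (nat_lit 0x0) (nat_lit 0x750018000600000000000000000000000000000000) := T_1 (nat_lit 129) (nat_lit 130) (nat_lit 2) (nat_lit 7) (nat_lit 8) L321002 (by decide +kernel)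
theorem L4294006 : W_1 (nat_lit 6) (nat_lit 0x20003c000a0000000000000000000000000000000) (nat_lit 0x0) (nat_lit 0x75001c000640000000000000000000000000000000) := T_1 (nat_lit 146) (nat_lit 126) (nat_lit 0) (nat_lit 10) (nat_lit 8) L4294005 (by decide +kernel)
theorem L4294007 : W_1 (nat_lit 7) (nat_lit 0x20003c00080000000000000000000000000000000) (nat_lit 0x0) (nat_lit 0x75001c000670000000000000000000000000000000) := T_1 (nat_lit 125) (nat_lit 124) (nat_lit 0) (nat_lit 9) (nat_lit 8) L4294006 (by decide +kernel)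
theorem L4294008 : W_1 (nat_lit 7) (nat_lit 0x20003c00080000000000000000000000000000000) (nat_lit 0x0) (nat_lit 0x75001c000730000000000000000000000000000000) := T_1 (nat_lit 124) (nat_lit 125) (nat_lit 0) (nat_lit 9) (nat_lit 8) L321102 (by decide +kernel)
theorem L4294009 : W_1 (nat_lit 2) (nat_lit 0x20003c001e0009000000000000000000000000000) (nat_lit 0x0) (nat_lit 0x200010000000000000000080000000000000000000000) := D_1 (nat_lit 160) (nat_lit 177) (nat_lit 91) (nat_lit 4) (nat_lit 7) (nat_lit 10) (nat_lit 7) (nat_lit 6) (nat_lit 5) (by decide +kernel)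
theorem L4294010 : W_1 (nat_lit 3) (nat_lit 0x20003c001e0008000000000000000000000000000) (nat_lit 0x0) (nat_lit 0x200010000000000001800080000000000000000000000) := T_1 (nat_lit 108) (nat_lit 107) (nat_lit 0) (nat_lit 9) (nat_lit 7) L4294009 (by decide +kernel)
theorem L4294011 : W_1 (nat_lit 4) (nat_lit 0x20003c001a0008000000000000000000000000000) (nat_lit 0x0) (nat_lit 0x200010000000040011800080000000000000000000000) := T_1 (nat_lit 126) (nat_lit 112) (nat_lit 2) (nat_lit 6) (nat_lit 7) L4294010 (by decide +kernel)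
theorem L4294012 : W_1 (nat_lit 5) (nat_lit 0x20003c00180008000000000000000000000000000) (nat_lit 0x0) (nat_lit 0x200010000000070011800080000000000000000000000) := T_1 (nat_lit 125) (nat_lit 124) (nat_lit 0) (nat_lit 9) (nat_lit 8) L4294011 (by decide +kernel)
theorem L4294013 : W_1 (nat_lit 6) (nat_lit 0x20003c00180000000000000000000000000000000) (nat_lit 0x0) (nat_lit 0x200010000000070019800480000000000000000000000) := T_1 (nat_lit 111) (nat_lit 94) (nat_lit 5) (nat_lit 9) (nat_lit 5) L4294012 (by decide +kernel)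
theorem L4294014 : W_1 (nat_lit 7) (nat_lit 0x20003c00080000000000000000000000000000000) (nat_lit 0x0) (nat_lit 0x200010000000370019800480000000000000000000000) := T_1 (nat_lit 128) (nat_lit 129) (nat_lit 2) (nat_lit 6) (nat_lit 8) L4294013 (by decide +kernel)
theorem L4294015 : W_1 (nat_lit 8) (nat_lit 0x20001c00080000000000000000000000000000000) (nat_lit 0x0) (nat_lit 0x20075001e000770019800480000000000000000000000) := Q_1 (nat_lit 145) (C_1 L4294000 (C_1 L295010 (C_1 L4294004 (C_1 L4294007 (C_1 L4294008 (C_1 L4294014 N_1)))))) (by decide +kernel)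
theorem L4294016 : W_1 (nat_lit 11) (nat_lit 0x1c00080000000000000000000000000000000) (nat_lit 0x0) (nat_lit 0x100038001fc00fc077701e00077801b800480000000000000000000000) := Q_1 (nat_lit 161) (C_1 L4293795 (C_1 L4293995 (C_1 L4293996 (C_1 L4293997 (C_1 L4294015 N_1))))) (by decide +kernel)
theorem L4294017 : W_1 (nat_lit 12) (nat_lit 0x1800080000000000000000000000000000000) (nat_lit 0x0) (nat_lit 0x100038001fc00fc077781e78077e01b800580000000000000000000000) := Q_1 (nat_lit 142) (C_1 L774748 (C_1 L4289828 (C_1 L4294016 (C_1 L14758 N_1)))) (by decide +kernel)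
theorem L4294018 : W_1 (nat_lit 5) (nat_lit 0x3c00080000000000000000000000000000000) (nat_lit 0x0) (nat_lit 0x10000c004000070002000100000000000000000000000) := T_1 (nat_lit 125) (nat_lit 124) (nat_lit 0) (nat_lit 9) (nat_lit 8) L32631 (by decide +kernel)
theorem L4294019 : W_1 (nat_lit 8) (nat_lit 0x8003c000c0000000000000000000000000000000) (nat_lit 0x0) (nat_lit 0x70003800100000000300018000c0006000000000000000000) := T_1 (nat_lit 125) (nat_lit 124) (nat_lit 3) (nat_lit 5) (nat_lit 7) L259910 (by decide +kernel)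
theorem L4294020 : W_1 (nat_lit 9) (nat_lit 0x3c000c0000000000000000000000000000000) (nat_lit 0x0) (nat_lit 0x700038001c0000000300018000c0006000000000000000000) := T_1 (nat_lit 159) (nat_lit 158) (nat_lit 1) (nat_lit 9) (nat_lit 8) L4294019 (by decide +kernel)
theorem L4294021 : W_1 (nat_lit 10) (nat_lit 0x3c00080000000000000000000000000000000) (nat_lit 0x0) (nat_lit 0xf00078003c000000170003c007c001e000000000000000000) := Q_1 (nat_lit 126) (C_1 L25516 (C_1 L4291176 (C_1 L21949 (C_1 L4294020 N_1)))) (by decide +kernel)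
theorem L4294022 : W_1 (nat_lit 11) (nat_lit 0x1c00080000000000000000000000000000000) (nat_lit 0x0) (nat_lit 0xf00078073c01e000170003e007c001e000500000000000000) := Q_1 (nat_lit 145) (C_1 L35740 (C_1 L4291330 (C_1 L4294018 (C_1 L4294021 (C_1 L25487 N_1))))) (by decide +kernel)
theorem L4294023 : W_1 (nat_lit 6) (nat_lit 0x1c00080000000000000000000000000000000) (nat_lit 0x0) (nat_lit 0x380038014e000000000000000000000000000000) := T_1 (nat_lit 141) (nat_lit 128) (nat_lit 2) (nat_lit 5) (nat_lit 8) L65033 (by decide +kernel)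
theorem L4294024 : W_1 (nat_lit 12) (nat_lit 0x1800080000000000000000000000000000000) (nat_lit 0x0) (nat_lit 0xf00078077f81e78017e003e007c001e000500000000000000) := Q_1 (nat_lit 142) (C_1 L4264796 (C_1 L4289828 (C_1 L774748 (C_1 L4294022 (C_1 L4294023 N_1))))) (by decide +kernel)
theorem L4294025 : W_1 (nat_lit 6) (nat_lit 0x18000c0000000000000000000000000000000) (nat_lit 0x0) (nat_lit 0x2000e400738039c00400020000000000000000000) := Q_1 (nat_lit 125) (C_1 L1811 (C_1 L4254803 (C_1 L72240 N_1))) (by decide +kernel)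
theorem L4294026 : W_1 (nat_lit 8) (nat_lit 0x18000c0000000000000000000000000000000) (nat_lit 0x0) (nat_lit 0xe000f0001e00e400738003c0018000c000000000000000000) := Q_1 (nat_lit 125) (C_1 L259182 (C_1 L4252490 (C_1 L72240 (C_1 L1811 N_1)))) (by decide +kernel)
theorem L4294027 : W_1 (nat_lit 13) (nat_lit 0x1800080000000000000000000000000000000) (nat_lit 0x0) (nat_lit 0x3e003fc007e00e40077803bc00f8007c000000000000000000) := Q_1 (nat_lit 126) (C_1 L261937 (C_1 L4254802 (C_1 L257122 (C_1 L4294025 (C_1 L4294026 N_1))))) (by decide +kernel)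
theorem L4294926 : W_1 (nat_lit 5) (nat_lit 0x20003c001a0000000000000000000000000000000) (nat_lit 0x0) (nat_lit 0x20001c004000000009000480000000000000000000000) := T_1 (nat_lit 159) (nat_lit 158) (nat_lit 1) (nat_lit 9) (nat_lit 8) L321014 (by decide +kernel)
theorem L4294927 : W_1 (nat_lit 6) (nat_lit 0x20001c001a0000000000000000000000000000000) (nat_lit 0x0) (nat_lit 0x20001c006000010009000480000000000000000000000) := T_1 (nat_lit 145) (nat_lit 124) (nat_lit 0) (nat_lit 9) (nat_lit 8) L4294926 (by decide +kernel)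
theorem L4294928 : W_1 (nat_lit 7) (nat_lit 0x200018001a0000000000000000000000000000000) (nat_lit 0x0) (nat_lit 0x20001c006600010009000480000000000000000000000) := T_1 (nat_lit 142) (nat_lit 141) (nat_lit 2) (nat_lit 5) (nat_lit 8) L4294927 (by decide +kernel)
theorem L4294929 : W_1 (nat_lit 3) (nat_lit 0x20001c001a0000000000000000000000000000000) (nat_lit 0x0) (nat_lit 0x200005c000000000000000000000000000000) := T_1 (nat_lit 124) (nat_lit 145) (nat_lit 0) (nat_lit 9) (nat_lit 8) L4242668 (by decide +kernel)
theorem L4294930 : W_1 (nat_lit 4) (nat_lit 0x200018001a0000000000000000000000000000000) (nat_lit 0x0) (nat_lit 0x260005c000000000000000000000000000000) := T_1 (nat_lit 142) (nat_lit 141) (nat_lit 2) (nat_lit 5) (nat_lit 8) L4294929 (by decide +kernel)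
theorem L4294931 : W_1 (nat_lit 6) (nat_lit 0x200018001a0000000000000000000000000000000) (nat_lit 0x0) (nat_lit 0x660004001b80058000c000000000000000000) := Q_1 (nat_lit 126) (C_1 L863102 (C_1 L861665 N_1)) (by decide +kernel)
theorem L4294932 : W_1 (nat_lit 8) (nat_lit 0x20001800180000000000000000000000000000000) (nat_lit 0x0) (nat_lit 0x20001c00670007c01bc0058000c000000000000000000) := Q_1 (nat_lit 125) (C_1 L4242507 (C_1 L4242508 (C_1 L4294928 (C_1 L4294930 (C_1 L4294931 N_1))))) (by decide +kernel)
theorem L4294933 : W_1 (nat_lit 11) (nat_lit 0x1800180000000000000000000000000000000) (nat_lit 0x0) (nat_lit 0x28001c000e0003c00670007c01bc0058002c000000000000000000) := Q_1 (nat_lit 161) (C_1 L4256059 (C_1 L4271589 (C_1 L2376 (C_1 L4294932 N_1)))) (by decide +kernel)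
theorem L4294934 : W_1 (nat_lit 12) (nat_lit 0x1800080000000000000000000000000000000) (nat_lit 0x0) (nat_lit 0x28001c000e0007c00e70077c03bc00f8007c000000000000000000) := Q_1 (nat_lit 128) (C_1 L2228 (C_1 L4294933 (C_1 L775227 (C_1 L4255567 N_1)))) (by decide +kernel)
theorem L4295002 : W_1 (nat_lit 2) (nat_lit 0x30001a001e0009000000020000000000000000000) (nat_lit 0x0) (nat_lit 0x2000080004000000000000000000) := D_1 (nat_lit 91) (nat_lit 109) (nat_lit 74) (nat_lit 4) (nat_lit 7) (nat_lit 9) (nat_lit 7) (nat_lit 6) (nat_lit 4) (by decide +kernel)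
theorem L4295003 : W_1 (nat_lit 3) (nat_lit 0x20001a001e0009000000020000000000000000000) (nat_lit 0x0) (nat_lit 0x200010000000000002000080004000000000000000000) := T_1 (nat_lit 160) (nat_lit 177) (nat_lit 4) (nat_lit 7) (nat_lit 10) L4295002 (by decide +kernel)
theorem L4295004 : W_1 (nat_lit 4) (nat_lit 0x20001a001e0008000000020000000000000000000) (nat_lit 0x0) (nat_lit 0x200010000000000003800080004000000000000000000) := T_1 (nat_lit 108) (nat_lit 107) (nat_lit 0) (nat_lit 9) (nat_lit 7) L4295003 (by decide +kernel)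
theorem L4295005 : W_1 (nat_lit 5) (nat_lit 0x20001a001e0008000000000000000000000000000) (nat_lit 0x0) (nat_lit 0x200010000000000003800480024000000000000000000) := T_1 (nat_lit 77) (nat_lit 94) (nat_lit 5) (nat_lit 9) (nat_lit 4) L4295004 (by decide +kernel)
theorem L4295006 : W_1 (nat_lit 6) (nat_lit 0x200018001e0008000000000000000000000000000) (nat_lit 0x0) (nat_lit 0x200010000600000003800480024000000000000000000) := T_1 (nat_lit 141) (nat_lit 142) (nat_lit 2) (nat_lit 5) (nat_lit 8) L4295005 (by decide +kernel)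
theorem L4295007 : W_1 (nat_lit 7) (nat_lit 0x200018001e0000000000000000000000000000000) (nat_lit 0x0) (nat_lit 0x20001000060000001b800480024000000000000000000) := T_1 (nat_lit 111) (nat_lit 112) (nat_lit 2) (nat_lit 6) (nat_lit 7) L4295006 (by decide +kernel)
theorem L4295009 : W_1 (nat_lit 2) (nat_lit 0x30003a001e0001000000000000000000000000000) (nat_lit 0x0) (nat_lit 0x2000080004000000000000000000) := D_1 (nat_lit 91) (nat_lit 109) (nat_lit 74) (nat_lit 4) (nat_lit 7) (nat_lit 9) (nat_lit 7) (nat_lit 6) (nat_lit 4) (by decide +kernel)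
theorem L4295010 : W_1 (nat_lit 3) (nat_lit 0x20003a001e0001000000000000000000000000000) (nat_lit 0x0) (nat_lit 0x200010000000000002000080004000000000000000000) := T_1 (nat_lit 160) (nat_lit 177) (nat_lit 4) (nat_lit 7) (nat_lit 10) L4295009 (by decide +kernel)
theorem L4295011 : W_1 (nat_lit 4) (nat_lit 0x20003a001e0000000000000000000000000000000) (nat_lit 0x0) (nat_lit 0x200010000000000003800080004000000000000000000) := T_1 (nat_lit 108) (nat_lit 107) (nat_lit 0) (nat_lit 9) (nat_lit 7) L4295010 (by decide +kernel)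
theorem L4295012 : W_1 (nat_lit 5) (nat_lit 0x20001a001e0000000000000000000000000000000) (nat_lit 0x0) (nat_lit 0x200010006000000003800080004000000000000000000) := T_1 (nat_lit 145) (nat_lit 146) (nat_lit 3) (nat_lit 6) (nat_lit 7) L4295011 (by decide +kernel)
theorem L4295013 : W_1 (nat_lit 6) (nat_lit 0x200018001e0000000000000000000000000000000) (nat_lit 0x0) (nat_lit 0x200010006600000003800080004000000000000000000) := T_1 (nat_lit 141) (nat_lit 142) (nat_lit 2) (nat_lit 5) (nat_lit 8) L4295012 (by decide +kernel)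
theorem L4295015 : W_1 (nat_lit 2) (nat_lit 0x28003c001c0000000400000000000000000000000) (nat_lit 0x0) (nat_lit 0x1000c000000000000000000000000000000000000) := D_1 (nat_lit 146) (nat_lit 147) (nat_lit 160) (nat_lit 0) (nat_lit 11) (nat_lit 8) (nat_lit 1) (nat_lit 10) (nat_lit 8) (by decide +kernel)
theorem L4295016 : W_1 (nat_lit 3) (nat_lit 0x20003c001c0000000400000000000000000000000) (nat_lit 0x0) (nat_lit 0x1c00c000000000000000000000000000000000000) := T_1 (nat_lit 159) (nat_lit 158) (nat_lit 1) (nat_lit 9) (nat_lit 8) L4295015 (by decide +kernel)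
theorem L4295017 : W_1 (nat_lit 4) (nat_lit 0x20003c001c0000000000000000000000000000000) (nat_lit 0x0) (nat_lit 0x1c00c000000008000400000000000000000000000) := T_1 (nat_lit 94) (nat_lit 111) (nat_lit 5) (nat_lit 9) (nat_lit 5) L4295016 (by decide +kernel)
theorem L4295018 : W_1 (nat_lit 5) (nat_lit 0x200038001c0000000000000000000000000000000) (nat_lit 0x0) (nat_lit 0x1c00c600000008000400000000000000000000000) := T_1 (nat_lit 142) (nat_lit 141) (nat_lit 2) (nat_lit 5) (nat_lit 8) L4295017 (by decide +kernel)
theorem L4295058 : W_1 (nat_lit 8) (nat_lit 0x200018001a0000000000000000000000000000000) (nat_lit 0x0) (nat_lit 0x20001000070005801bc00480024000000000000000000) := Q_1 (nat_lit 126) (C_1 L861667 (C_1 L4295007 (C_1 L820403 N_1))) (by decide +kernel)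
theorem L4295059 : W_1 (nat_lit 8) (nat_lit 0x200018001a0000000000000000000000000000000) (nat_lit 0x0) (nat_lit 0x20001000660004001b800480024000000000000000000) := Q_1 (nat_lit 126) (C_1 L863102 (C_1 L4295007 (C_1 L4295013 N_1))) (by decide +kernel)
theorem L4295060 : W_1 (nat_lit 9) (nat_lit 0x20001800180000000000000000000000000000000) (nat_lit 0x0) (nat_lit 0x20001c00670007c01bc00480024000000000000000000) := Q_1 (nat_lit 125) (C_1 L4295058 (C_1 L4294930 (C_1 L4242508 (C_1 L4294928 (C_1 L4295059 N_1))))) (by decide +kernel)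
theorem L4295061 : W_1 (nat_lit 13) (nat_lit 0x1800180000000000000000000000000000000) (nat_lit 0x0) (nat_lit 0x28007e003fc007e00670007c01bc00480024000000000000000000) := Q_1 (nat_lit 161) (C_1 L4268251 (C_1 L4256059 (C_1 L2376 (C_1 L4295060 N_1)))) (by decide +kernel)
theorem L4295062 : W_1 (nat_lit 14) (nat_lit 0x1800080000000000000000000000000000000) (nat_lit 0x0) (nat_lit 0x80006c007f003fc007e00e70077c03bc00c80064000000000000000000) := Q_1 (nat_lit 128) (C_1 L2228 (C_1 L4295061 (C_1 L775227 (C_1 L4273904 N_1)))) (by decide +kernel)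
theorem L4299120 : W_1 (nat_lit 9) (nat_lit 0x1c001b0001000100000000000000000000000) (nat_lit 0x0) (nat_lit 0xc0028000c000f800700030001000000) := T_1 (nat_lit 91) (nat_lit 75) (nat_lit 6) (nat_lit 6) (nat_lit 8) L4276203 (by decide +kernel)
theorem L4299121 : W_1 (nat_lit 10) (nat_lit 0x1c001a0001000100000000000000000000000) (nat_lit 0x0) (nat_lit 0x200001c0028000c000f800700030001000000) := T_1 (nat_lit 124) (nat_lit 145) (nat_lit 0) (nat_lit 9) (nat_lit 8) L4299120 (by decide +kernel)
theorem L4299122 : W_1 (nat_lit 2) (nat_lit 0x8001c001b0001000100000000000000000000000) (nat_lit 0x0) (nat_lit 0x100000000000000000800040000000000000000000000) := D_1 (nat_lit 107) (nat_lit 176) (nat_lit 90) (nat_lit 4) (nat_lit 6) (nat_lit 10) (nat_lit 4) (nat_lit 6) (nat_lit 9) (by decide +kernel)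
theorem L4299123 : W_1 (nat_lit 3) (nat_lit 0x1c001b0001000100000000000000000000000) (nat_lit 0x0) (nat_lit 0x100008000000000002800040000000000000000000000) := T_1 (nat_lit 159) (nat_lit 109) (nat_lit 6) (nat_lit 6) (nat_lit 9) L4299122 (by decide +kernel)
theorem L4299124 : W_1 (nat_lit 4) (nat_lit 0x1c001a0001000100000000000000000000000) (nat_lit 0x0) (nat_lit 0x100008002000010002800040000000000000000000000) := T_1 (nat_lit 124) (nat_lit 145) (nat_lit 0) (nat_lit 9) (nat_lit 8) L4299123 (by decide +kernel)
theorem L4299125 : W_1 (nat_lit 11) (nat_lit 0x1c001a0001000000000000000000000000000) (nat_lit 0x0) (nat_lit 0x10000800200001c002e003c000f800700030001000000) := Q_1 (nat_lit 92) (C_1 L4244917 (C_1 L3960001 (C_1 L4299121 (C_1 L4299124 N_1)))) (by decide +kernel)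
theorem L4299126 : W_1 (nat_lit 7) (nat_lit 0x1c001b0001000000000000000000000000000) (nat_lit 0x0) (nat_lit 0x1000000000c0008000c000e000700020000000000) := T_1 (nat_lit 91) (nat_lit 160) (nat_lit 7) (nat_lit 6) (nat_lit 5) L4276185 (by decide +kernel)
theorem L4299127 : W_1 (nat_lit 8) (nat_lit 0x1c001a0001000000000000000000000000000) (nat_lit 0x0) (nat_lit 0x1000200001c0008000c000e000700020000000000) := T_1 (nat_lit 124) (nat_lit 145) (nat_lit 0) (nat_lit 9) (nat_lit 8) L4299126 (by decide +kernel)
theorem L4299128 : W_1 (nat_lit 2) (nat_lit 0x60005a0038001c001a0001800100000000000000000000000) (nat_lit 0x0) (nat_lit 0x100018000000000000000000000000000000000000000000000000) := D_1 (nat_lit 195) (nat_lit 196) (nat_lit 212) (nat_lit 0) (nat_lit 9) (nat_lit 11) (nat_lit 4) (nat_lit 8) (nat_lit 12) (by decide +kernel)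
theorem L4299129 : W_1 (nat_lit 3) (nat_lit 0x20005a0038001c001a0001800100000000000000000000000) (nat_lit 0x0) (nat_lit 0x18001c000000000000000000000000000000000000000000000000) := T_1 (nat_lit 194) (nat_lit 211) (nat_lit 7) (nat_lit 6) (nat_lit 8) L4299128 (by decide +kernel)
theorem L4299130 : W_1 (nat_lit 4) (nat_lit 0x20001a0038001c001a0001800100000000000000000000000) (nat_lit 0x0) (nat_lit 0x18001c000400000000000000008000000000000000000000000000) := T_1 (nat_lit 178) (nat_lit 111) (nat_lit 6) (nat_lit 8) (nat_lit 10) L4299129 (by decide +kernel)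
theorem L4299131 : W_1 (nat_lit 5) (nat_lit 0x1a0038001c001a0001800100000000000000000000000) (nat_lit 0x0) (nat_lit 0x1c001e000400000000000000008000000000000000000000000000) := T_1 (nat_lit 193) (nat_lit 210) (nat_lit 6) (nat_lit 6) (nat_lit 12) L4299130 (by decide +kernel)
theorem L4299132 : W_1 (nat_lit 6) (nat_lit 0x1a0018001c001a0001800100000000000000000000000) (nat_lit 0x0) (nat_lit 0x1c001e000400060000000000008000000000000000000000000000) := T_1 (nat_lit 161) (nat_lit 162) (nat_lit 1) (nat_lit 9) (nat_lit 9) L4299131 (by decide +kernel)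
theorem L4299133 : W_1 (nat_lit 7) (nat_lit 0x180018001c001a0001800100000000000000000000000) (nat_lit 0x0) (nat_lit 0x1c001e000460060000000000008000000000000000000000000000) := T_1 (nat_lit 173) (nat_lit 174) (nat_lit 2) (nat_lit 3) (nat_lit 10) L4299132 (by decide +kernel)
theorem L4299134 : W_1 (nat_lit 8) (nat_lit 0x100018001c001a0001800100000000000000000000000) (nat_lit 0x0) (nat_lit 0x1c001f0004e0060000000000008000000000000000000000000000) := T_1 (nat_lit 175) (nat_lit 192) (nat_lit 5) (nat_lit 6) (nat_lit 7) L4299133 (by decide +kernel)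
theorem L4299135 : W_1 (nat_lit 9) (nat_lit 0x18001c001a0001800100000000000000000000000) (nat_lit 0x0) (nat_lit 0x1c001f0005e0060000000010008000000000000000000000000000) := T_1 (nat_lit 176) (nat_lit 124) (nat_lit 4) (nat_lit 6) (nat_lit 10) L4299134 (by decide +kernel)
theorem L4299136 : W_1 (nat_lit 10) (nat_lit 0x18001c001a0001000100000000000000000000000) (nat_lit 0x0) (nat_lit 0x1c001f0005e0060000000010008800040000000000000000000000) := T_1 (nat_lit 107) (nat_lit 90) (nat_lit 4) (nat_lit 6) (nat_lit 9) L4299135 (by decide +kernel)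
theorem L4299137 : W_1 (nat_lit 11) (nat_lit 0x18001c001a0001000000000000000000000000000) (nat_lit 0x0) (nat_lit 0x1c001f0005e006000000001000a800140000000000000000000000) := T_1 (nat_lit 92) (nat_lit 109) (nat_lit 6) (nat_lit 6) (nat_lit 9) L4299136 (by decide +kernel)
theorem L4299138 : W_1 (nat_lit 12) (nat_lit 0x8001c001a0001000000000000000000000000000) (nat_lit 0x0) (nat_lit 0x1c001f0007e007000000001000a800140000000000000000000000) := T_1 (nat_lit 160) (nat_lit 177) (nat_lit 7) (nat_lit 6) (nat_lit 6) L4299137 (by decide +kernel)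
theorem L4299139 : W_1 (nat_lit 2) (nat_lit 0x8003c001a0001000000000000000000000000000) (nat_lit 0x0) (nat_lit 0x200010004000000000000000000000000000000000000) := D_1 (nat_lit 160) (nat_lit 177) (nat_lit 146) (nat_lit 7) (nat_lit 6) (nat_lit 6) (nat_lit 1) (nat_lit 10) (nat_lit 8) (by decide +kernel)
theorem L4299140 : W_1 (nat_lit 3) (nat_lit 0x8001c001a0001000000000000000000000000000) (nat_lit 0x0) (nat_lit 0x200010006000010000000000000000000000000000000) := T_1 (nat_lit 145) (nat_lit 124) (nat_lit 0) (nat_lit 9) (nat_lit 8) L4299139 (by decide +kernel)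
theorem L4299141 : W_1 (nat_lit 3) (nat_lit 0x8001c001a0001000100000000000000000000000) (nat_lit 0x0) (nat_lit 0x100000002000010000800040000000000000000000000) := T_1 (nat_lit 124) (nat_lit 145) (nat_lit 0) (nat_lit 9) (nat_lit 8) L4299122 (by decide +kernel)
theorem L4299142 : W_1 (nat_lit 4) (nat_lit 0x8001c001a0001000000000000000000000000000) (nat_lit 0x0) (nat_lit 0x100000002000010002800140000000000000000000000) := T_1 (nat_lit 92) (nat_lit 109) (nat_lit 6) (nat_lit 6) (nat_lit 9) L4299141 (by decide +kernel)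
theorem L4299143 : W_1 (nat_lit 2) (nat_lit 0x30000b000700028001c001a0001000140000000000000000000000) (nat_lit 0x0) (nat_lit 0x10000c0000000000000000000000000000000000000000000000000000) := D_1 (nat_lit 211) (nat_lit 228) (nat_lit 210) (nat_lit 5) (nat_lit 8) (nat_lit 9) (nat_lit 0) (nat_lit 9) (nat_lit 12) (by decide +kernel)
theorem L4299144 : W_1 (nat_lit 3) (nat_lit 0x20000b000700028001c001a0001000140000000000000000000000) (nat_lit 0x0) (nat_lit 0x50001c0000000000000000000000000000000000000000000000000000) := T_1 (nat_lit 212) (nat_lit 230) (nat_lit 7) (nat_lit 8) (nat_lit 9) L4299143 (by decide +kernel)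
theorem L4299145 : W_1 (nat_lit 4) (nat_lit 0xb000700028001c001a0001000140000000000000000000000) (nat_lit 0x0) (nat_lit 0x50003c0010000000000000000000000000000000000000000000000000) := T_1 (nat_lit 213) (nat_lit 196) (nat_lit 7) (nat_lit 8) (nat_lit 8) L4299144 (by decide +kernel)
theorem L4299146 : W_1 (nat_lit 5) (nat_lit 0x3000700028001c001a0001000140000000000000000000000) (nat_lit 0x0) (nat_lit 0x50003c0018000000000002000000000000000000000000000000000000) := T_1 (nat_lit 195) (nat_lit 145) (nat_lit 6) (nat_lit 8) (nat_lit 11) L4299145 (by decide +kernel)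
theorem L4299147 : W_1 (nat_lit 6) (nat_lit 0x3000700008001c001a0001000140000000000000000000000) (nat_lit 0x0) (nat_lit 0x50003c0018000000020002000000008000000000000000000000000000) := T_1 (nat_lit 161) (nat_lit 111) (nat_lit 6) (nat_lit 8) (nat_lit 10) L4299146 (by decide +kernel)
theorem L4299148 : W_1 (nat_lit 7) (nat_lit 0x3000300008001c001a0001000140000000000000000000000) (nat_lit 0x0) (nat_lit 0x50003c0018000c00020002000000008000000000000000000000000000) := T_1 (nat_lit 178) (nat_lit 179) (nat_lit 1) (nat_lit 9) (nat_lit 10) L4299147 (by decide +kernel)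
theorem L4299149 : W_1 (nat_lit 8) (nat_lit 0x1000300008001c001a0001000140000000000000000000000) (nat_lit 0x0) (nat_lit 0x50003e001a000c00020002000000008000000000000000000000000000) := T_1 (nat_lit 193) (nat_lit 209) (nat_lit 5) (nat_lit 6) (nat_lit 8) L4299148 (by decide +kernel)
theorem L4299150 : W_1 (nat_lit 9) (nat_lit 0x300008001c001a0001000140000000000000000000000) (nat_lit 0x0) (nat_lit 0x50003e001b000c80020002000000008000000000000000000000000000) := T_1 (nat_lit 192) (nat_lit 175) (nat_lit 5) (nat_lit 6) (nat_lit 7) L4299149 (by decide +kernel)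
theorem L4299151 : W_1 (nat_lit 10) (nat_lit 0x200008001c001a0001000140000000000000000000000) (nat_lit 0x0) (nat_lit 0x50003e001f000d80020002000000008000000000000000000000000000) := T_1 (nat_lit 176) (nat_lit 194) (nat_lit 7) (nat_lit 6) (nat_lit 7) L4299150 (by decide +kernel)
theorem L4299152 : W_1 (nat_lit 11) (nat_lit 0x8001c001a0001000140000000000000000000000) (nat_lit 0x0) (nat_lit 0x50003e001f000f80030002000000008000000000000000000000000000) := T_1 (nat_lit 177) (nat_lit 160) (nat_lit 7) (nat_lit 6) (nat_lit 6) L4299151 (by decide +kernel)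
theorem L4299153 : W_1 (nat_lit 12) (nat_lit 0x8001c001a0001000040000000000000000000000) (nat_lit 0x0) (nat_lit 0x50003e001f000f8003000200000000a000100000000000000000000000) := T_1 (nat_lit 92) (nat_lit 109) (nat_lit 6) (nat_lit 6) (nat_lit 9) L4299152 (by decide +kernel)
theorem L4299154 : W_1 (nat_lit 13) (nat_lit 0x8001c001a0001000000000000000000000000000) (nat_lit 0x0) (nat_lit 0x50003e001f000f8003000200000000a800140000000000000000000000) := T_1 (nat_lit 90) (nat_lit 107) (nat_lit 4) (nat_lit 6) (nat_lit 9) L4299153 (by decide +kernel)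
theorem L4299155 : W_1 (nat_lit 14) (nat_lit 0x1c001a0001000000000000000000000000000) (nat_lit 0x0) (nat_lit 0x50003e001f000fe007800600001000a800140000000000000000000000) := Q_1 (nat_lit 159) (C_1 L4299138 (C_1 L4299140 (C_1 L4299142 (C_1 L4299154 N_1)))) (by decide +kernel)
theorem L4299156 : W_1 (nat_lit 2) (nat_lit 0x1c001b400100008000c000100000000000000) (nat_lit 0x0) (nat_lit 0x800000000000200008000000000) := D_1 (nat_lit 57) (nat_lit 39) (nat_lit 107) (nat_lit 4) (nat_lit 6) (nat_lit 6) (nat_lit 5) (nat_lit 6) (nat_lit 3) (by decide +kernel)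
theorem L4299157 : W_1 (nat_lit 3) (nat_lit 0x1c001b400100008000c000000000000000000) (nat_lit 0x0) (nat_lit 0x800000002000300008000000000) := T_1 (nat_lit 56) (nat_lit 73) (nat_lit 4) (nat_lit 6) (nat_lit 7) L4299156 (by decide +kernel)
theorem L4299158 : W_1 (nat_lit 4) (nat_lit 0x1c001b000100008000c000000000000000000) (nat_lit 0x0) (nat_lit 0xc000800000002000300008000000000) := T_1 (nat_lit 122) (nat_lit 123) (nat_lit 3) (nat_lit 3) (nat_lit 7) L4299157 (by decide +kernel)
theorem L4299159 : W_1 (nat_lit 5) (nat_lit 0x1c001b0001000080008000000000000000000) (nat_lit 0x0) (nat_lit 0xc000800000006000700008000000000) := T_1 (nat_lit 74) (nat_lit 58) (nat_lit 6) (nat_lit 6) (nat_lit 7) L4299158 (by decide +kernel)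
theorem L4299160 : W_1 (nat_lit 6) (nat_lit 0x1c001b0001000080000000000000000000000) (nat_lit 0x0) (nat_lit 0xc00080010000e000700008000000000) := T_1 (nat_lit 75) (nat_lit 92) (nat_lit 6) (nat_lit 6) (nat_lit 8) L4299159 (by decide +kernel)
theorem L4299161 : W_1 (nat_lit 7) (nat_lit 0x1c001b0001000000000000000000000000000) (nat_lit 0x0) (nat_lit 0x1000000000c00080018000e000700008000000000) := T_1 (nat_lit 91) (nat_lit 160) (nat_lit 7) (nat_lit 6) (nat_lit 5) L4299160 (by decide +kernel)
theorem L4299162 : W_1 (nat_lit 8) (nat_lit 0x1c001a0001000000000000000000000000000) (nat_lit 0x0) (nat_lit 0x1000200001c00080018000e000700008000000000) := T_1 (nat_lit 124) (nat_lit 145) (nat_lit 0) (nat_lit 9) (nat_lit 8) L4299161 (by decide +kernel)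
theorem L4299163 : W_1 (nat_lit 15) (nat_lit 0x1c001a0000000000000000000000000000000) (nat_lit 0x0) (nat_lit 0x50003e001f000fe007800600001c00be003c000f800700038001000000) := Q_1 (nat_lit 108) (C_1 L4264684 (C_1 L4299125 (C_1 L4299127 (C_1 L4299155 (C_1 L4299162 N_1))))) (by decide +kernel)
theorem L4299164 : W_1 (nat_lit 16) (nat_lit 0x18001a0000000000000000000000000000000) (nat_lit 0x0) (nat_lit 0x50003e001f000fe007800660001c00be003c000f800700038001000000) := T_1 (nat_lit 142) (nat_lit 141) (nat_lit 2) (nat_lit 5) (nat_lit 8) L4299163 (by decide +kernel)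
theorem L4299165 : W_1 (nat_lit 7) (nat_lit 0x18001a0000000000000000000000000000000) (nat_lit 0x0) (nat_lit 0x20003800660004001b80058002c000000000000000000) := Q_1 (nat_lit 126) (C_1 L253681 (C_1 L72604 (C_1 L72136 N_1))) (by decide +kernel)
theorem L4299166 : W_1 (nat_lit 17) (nat_lit 0x1800180000000000000000000000000000000) (nat_lit 0x0) (nat_lit 0x50003e001f000fe007800670007c01be007c002f800700038001000000) := Q_1 (nat_lit 125) (C_1 L4255565 (C_1 L4299164 (C_1 L4255564 (C_1 L4244363 (C_1 L2899 (C_1 L4299165 N_1)))))) (by decide +kernel)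
theorem L4299167 : W_1 (nat_lit 18) (nat_lit 0x1800080000000000000000000000000000000) (nat_lit 0x0) (nat_lit 0x50003e001f000fe007800e70077c07be07fc03ff807700038001000000) := Q_1 (nat_lit 128) (C_1 L2228 (C_1 L4299166 (C_1 L775227 (C_1 L4270627 N_1)))) (by decide +kernel)
theorem L4299168 : W_1 (nat_lit 14) (nat_lit 0x1800080000000000000000000000000000000) (nat_lit 0x0) (nat_lit 0x80006e007f003fc007e01e70077807bc00d00060000000000000000000) := Q_1 (nat_lit 128) (C_1 L2228 (C_1 L4268252 (C_1 L4273904 (C_1 L775227 N_1)))) (by decide +kernel)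
theorem L4299296 : W_1 (nat_lit 7) (nat_lit 0x200018001c0000000000000000000000000000000) (nat_lit 0x0) (nat_lit 0x200010001c00e60002000a000500000000000000000000000) := Q_1 (nat_lit 145) (C_1 L4295018 (C_1 L806009 (C_1 L332437 N_1))) (by decide +kernel)
theorem L4299821 : W_1 (nat_lit 7) (nat_lit 0x18001c0000000000000000000000000000000) (nat_lit 0x0) (nat_lit 0x200030003c00660002001b80058002c000000000000000000) := Q_1 (nat_lit 125) (C_1 L253687 (C_1 L72604 (C_1 L253681 (C_1 L72136 N_1)))) (by decide +kernel)
theorem L4299822 : W_1 (nat_lit 6) (nat_lit 0x18001c0000000000000000000000000000000) (nat_lit 0x0) (nat_lit 0x200030001c00660002001b800080004000000000000000000) := Q_1 (nat_lit 125) (C_1 L253687 (C_1 L21657 (C_1 L21090 N_1))) (by decide +kernel)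
theorem L4299823 : W_1 (nat_lit 8) (nat_lit 0x18001c0000000000000000000000000000000) (nat_lit 0x0) (nat_lit 0xc000600030000600020003c0078001c000000000000000000) := T_1 (nat_lit 142) (nat_lit 141) (nat_lit 2) (nat_lit 5) (nat_lit 8) L4279117 (by decide +kernel)
theorem L4299824 : W_1 (nat_lit 7) (nat_lit 0x18001c0000000000000000000000000000000) (nat_lit 0x0) (nat_lit 0x200010002c00660002001b80058002c000000000000000000) := Q_1 (nat_lit 125) (C_1 L253687 (C_1 L72604 (C_1 L72136 N_1))) (by decide +kernel)
theorem L4299825 : W_1 (nat_lit 8) (nat_lit 0x18001c0000000000000000000000000000000) (nat_lit 0x0) (nat_lit 0xa00050003c00e60002000a000500000000000000000000000) := Q_1 (nat_lit 161) (C_1 L74070 (C_1 L4299296 (C_1 L72952 N_1))) (by decide +kernel)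
theorem L4299826 : W_1 (nat_lit 5) (nat_lit 0x18001c0000000000000000000000000000000) (nat_lit 0x0) (nat_lit 0x200030006600020019800480020000000000000000000) := Q_1 (nat_lit 125) (C_1 L72136 (C_1 L21090 N_1)) (by decide +kernel)
theorem L4299827 : W_1 (nat_lit 9) (nat_lit 0x1800180000000000000000000000000000000) (nat_lit 0x0) (nat_lit 0xe00070003c00e60006001bc0078003c000000000000000000) := Q_1 (nat_lit 126) (C_1 L4299821 (C_1 L4299822 (C_1 L4299823 (C_1 L4299824 (C_1 L292848 (C_1 L4299825 (C_1 L4299826 N_1))))))) (by decide +kernel)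
theorem L4299828 : W_1 (nat_lit 12) (nat_lit 0x1800080000000000000000000000000000000) (nat_lit 0x0) (nat_lit 0x1f000f8007c00e60076003bc00f8007c000000000000000000) := Q_1 (nat_lit 128) (C_1 L292849 (C_1 L4299827 (C_1 L2226 (C_1 L2228 N_1)))) (by decide +kernel)
theorem L4299829 : W_1 (nat_lit 19) (nat_lit 0x1000080000000000000000000000000000000) (nat_lit 0x0) (nat_lit 0x5000f800fc007fc1ffc07ff077f81ef80f7e07bf07fe03ff807780038001000000) := Q_1 (nat_lit 143) (C_1 L4236560 (C_1 L775178 (C_1 L4236563 (C_1 L4242490 (C_1 L4252489 (C_1 L4254805 (C_1 L4255568 (C_1 L4267759 (C_1 L4267832 (C_1 L4270628 (C_1 L4271591 (C_1 L4273905 (C_1 L4294017 (C_1 L4294024 (C_1 L4294027 (C_1 L4294934 (C_1 L4295062 (C_1 L4299167 (C_1 L4299168 (C_1 L4299828 N_1)))))))))))))))))))) (by decide +kernel)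
theorem L4299830 : W_1 (nat_lit 2) (nat_lit 0x200014003c000a000000000000000000000000000) (nat_lit 0x0) (nat_lit 0x4000400020000000000000000000) := D_1 (nat_lit 94) (nat_lit 110) (nat_lit 77) (nat_lit 6) (nat_lit 8) (nat_lit 9) (nat_lit 5) (nat_lit 9) (nat_lit 4) (by decide +kernel)
theorem L4299831 : W_1 (nat_lit 3) (nat_lit 0x14003c000a000000000000000000000000000) (nat_lit 0x0) (nat_lit 0x400020000000000004000400020000000000000000000) := T_1 (nat_lit 161) (nat_lit 178) (nat_lit 6) (nat_lit 8) (nat_lit 10) L4299830 (by decide +kernel)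
theorem L4299832 : W_1 (nat_lit 4) (nat_lit 0x10003c000a000000000000000000000000000) (nat_lit 0x0) (nat_lit 0x400020000c00000004000400020000000000000000000) := T_1 (nat_lit 142) (nat_lit 143) (nat_lit 1) (nat_lit 10) (nat_lit 7) L4299831 (by decide +kernel)
theorem L4299833 : W_1 (nat_lit 2) (nat_lit 0x14003c001e000800020000000000000000000) (nat_lit 0x0) (nat_lit 0x40003000000000000000) := D_1 (nat_lit 78) (nat_lit 60) (nat_lit 61) (nat_lit 4) (nat_lit 10) (nat_lit 7) (nat_lit 5) (nat_lit 10) (nat_lit 3) (by decide +kernel)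
theorem L4299834 : W_1 (nat_lit 3) (nat_lit 0x14003c001e000800000000000000000000000) (nat_lit 0x0) (nat_lit 0x400060003000000000000000) := T_1 (nat_lit 77) (nat_lit 94) (nat_lit 5) (nat_lit 9) (nat_lit 4) L4299833 (by decide +kernel)
theorem L4299835 : W_1 (nat_lit 4) (nat_lit 0x14003c001e000000000000000000000000000) (nat_lit 0x0) (nat_lit 0x1c00060003000000000000000) := T_1 (nat_lit 95) (nat_lit 96) (nat_lit 2) (nat_lit 7) (nat_lit 6) L4299834 (by decide +kernel)
theorem L4299836 : W_1 (nat_lit 5) (nat_lit 0x14003c000e000000000000000000000000000) (nat_lit 0x0) (nat_lit 0x30001c00060003000000000000000) := T_1 (nat_lit 112) (nat_lit 113) (nat_lit 2) (nat_lit 7) (nat_lit 7) L4299835 (by decide +kernel)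
theorem L4299837 : W_1 (nat_lit 6) (nat_lit 0x10003c000e000000000000000000000000000) (nat_lit 0x0) (nat_lit 0xc00000030001c00060003000000000000000) := T_1 (nat_lit 142) (nat_lit 143) (nat_lit 1) (nat_lit 10) (nat_lit 7) L4299836 (by decide +kernel)
theorem L4299838 : W_1 (nat_lit 6) (nat_lit 0x10003c000e000000000000000000000000000) (nat_lit 0x0) (nat_lit 0x30001800ec00000000000400020000000000000000000) := T_1 (nat_lit 77) (nat_lit 94) (nat_lit 5) (nat_lit 9) (nat_lit 4) L249435 (by decide +kernel)
theorem L4299839 : W_1 (nat_lit 8) (nat_lit 0x10003c000a000000000000000000000000000) (nat_lit 0x0) (nat_lit 0x30001800ec00000034001c00060003000000000000000) := Q_1 (nat_lit 110) (C_1 L249423 (C_1 L249430 (C_1 L4299837 (C_1 L4299838 N_1)))) (by decide +kernel)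
theorem L4299840 : W_1 (nat_lit 2) (nat_lit 0x300010003c000e000000000000000000000000000) (nat_lit 0x0) (nat_lit 0xc00000000000200000000000000000000000) := D_1 (nat_lit 143) (nat_lit 93) (nat_lit 142) (nat_lit 6) (nat_lit 7) (nat_lit 9) (nat_lit 1) (nat_lit 10) (nat_lit 7) (by decide +kernel)
theorem L4299841 : W_1 (nat_lit 3) (nat_lit 0x200010003c000e000000000000000000000000000) (nat_lit 0x0) (nat_lit 0x200010000c00000000000200000000000000000000000) := T_1 (nat_lit 160) (nat_lit 177) (nat_lit 5) (nat_lit 8) (nat_lit 6) L4299840 (by decide +kernel)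
theorem L4299842 : W_1 (nat_lit 4) (nat_lit 0x10003c000e000000000000000000000000000) (nat_lit 0x0) (nat_lit 0x600030000c00000000000200000000000000000000000) := T_1 (nat_lit 161) (nat_lit 178) (nat_lit 6) (nat_lit 8) (nat_lit 10) L4299841 (by decide +kernel)
theorem L4299843 : W_1 (nat_lit 5) (nat_lit 0x10003c000a000000000000000000000000000) (nat_lit 0x0) (nat_lit 0x600030002c00000034001a00040002000000000000000) := Q_1 (nat_lit 110) (C_1 L249423 (C_1 L4299842 N_1)) (by decide +kernel)
theorem L4299844 : W_1 (nat_lit 9) (nat_lit 0x10003c0002000000000000000000000000000) (nat_lit 0x0) (nat_lit 0x70003800ec0000003c001e00060003000000000000000) := Q_1 (nat_lit 111) (C_1 L4299832 (C_1 L260873 (C_1 L4299839 (C_1 L4299843 N_1)))) (by decide +kernel)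
theorem L4299845 : W_1 (nat_lit 10) (nat_lit 0x10001c0002000000000000000000000000000) (nat_lit 0x0) (nat_lit 0x70003807ec01e001fc001e00060003000000000000000) := Q_1 (nat_lit 129) (C_1 L260903 (C_1 L4088 (C_1 L4299844 (C_1 L1541 N_1)))) (by decide +kernel)
theorem L4299846 : W_1 (nat_lit 2) (nat_lit 0x200010001c0006800600000000000000000000000) (nat_lit 0x0) (nat_lit 0x800000000000000010000800000000000000) := D_1 (nat_lit 76) (nat_lit 143) (nat_lit 59) (nat_lit 5) (nat_lit 8) (nat_lit 4) (nat_lit 5) (nat_lit 8) (nat_lit 3) (by decide +kernel)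
theorem L4299847 : W_1 (nat_lit 3) (nat_lit 0x200010001c0006800400000000000000000000000) (nat_lit 0x0) (nat_lit 0x800000000000200030000800000000000000) := T_1 (nat_lit 93) (nat_lit 77) (nat_lit 6) (nat_lit 8) (nat_lit 8) L4299846 (by decide +kernel)
theorem L4299848 : W_1 (nat_lit 4) (nat_lit 0x200010001c0006800000000000000000000000000) (nat_lit 0x0) (nat_lit 0x800000008000600030000800000000000000) := T_1 (nat_lit 94) (nat_lit 111) (nat_lit 6) (nat_lit 8) (nat_lit 9) L4299847 (by decide +kernel)
theorem L4299849 : W_1 (nat_lit 5) (nat_lit 0x200010001c0006000000000000000000000000000) (nat_lit 0x0) (nat_lit 0x800000009800600030000800000000000000) := T_1 (nat_lit 107) (nat_lit 108) (nat_lit 3) (nat_lit 5) (nat_lit 6) L4299848 (by decide +kernel)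
theorem L4299850 : W_1 (nat_lit 6) (nat_lit 0x10001c0006000000000000000000000000000) (nat_lit 0x0) (nat_lit 0x400020000800000009800600030000800000000000000) := T_1 (nat_lit 161) (nat_lit 178) (nat_lit 4) (nat_lit 8) (nat_lit 10) L4299849 (by decide +kernel)
theorem L4299851 : W_1 (nat_lit 2) (nat_lit 0x18001c0006000e00000000000000000000000) (nat_lit 0x0) (nat_lit 0x9800000000000000000000000000) := D_1 (nat_lit 108) (nat_lit 107) (nat_lit 111) (nat_lit 3) (nat_lit 5) (nat_lit 6) (nat_lit 2) (nat_lit 6) (nat_lit 6) (by decide +kernel)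
theorem L4299852 : W_1 (nat_lit 3) (nat_lit 0x18001c0006000600000000000000000000000) (nat_lit 0x0) (nat_lit 0x9801800000000000000000000000) := T_1 (nat_lit 95) (nat_lit 96) (nat_lit 1) (nat_lit 11) (nat_lit 5) L4299851 (by decide +kernel)
theorem L4299853 : W_1 (nat_lit 4) (nat_lit 0x10001c0006000600000000000000000000000) (nat_lit 0x0) (nat_lit 0x10000800000009801800000000000000000000000) := T_1 (nat_lit 143) (nat_lit 160) (nat_lit 6) (nat_lit 7) (nat_lit 9) L4299852 (by decide +kernel)
theorem L4299854 : W_1 (nat_lit 5) (nat_lit 0x10001c0006000200000000000000000000000) (nat_lit 0x0) (nat_lit 0x10000800000009801c00020000000000000000000) := T_1 (nat_lit 94) (nat_lit 77) (nat_lit 6) (nat_lit 8) (nat_lit 8) L4299853 (by decide +kernel)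
theorem L4299855 : W_1 (nat_lit 6) (nat_lit 0x10001c0006000000000000000000000000000) (nat_lit 0x0) (nat_lit 0x10002800000009801e00030001800000000000000) := Q_1 (nat_lit 93) (C_1 L252887 (C_1 L251157 (C_1 L4299854 N_1))) (by decide +kernel)
theorem L4299856 : W_1 (nat_lit 2) (nat_lit 0x300010001c0006800200000000000000000000000) (nat_lit 0x0) (nat_lit 0x2000000000000000010000800000000000000) := D_1 (nat_lit 76) (nat_lit 145) (nat_lit 59) (nat_lit 7) (nat_lit 8) (nat_lit 4) (nat_lit 5) (nat_lit 8) (nat_lit 3) (by decide +kernel)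
theorem L4299857 : W_1 (nat_lit 3) (nat_lit 0x300010001c0006800000000000000000000000000) (nat_lit 0x0) (nat_lit 0x2800000000000200010000800000000000000) := T_1 (nat_lit 93) (nat_lit 143) (nat_lit 6) (nat_lit 7) (nat_lit 9) L4299856 (by decide +kernel)
theorem L4299858 : W_1 (nat_lit 4) (nat_lit 0x200010001c0006800000000000000000000000000) (nat_lit 0x0) (nat_lit 0x200010002800000000000200010000800000000000000) := T_1 (nat_lit 160) (nat_lit 177) (nat_lit 5) (nat_lit 8) (nat_lit 6) L4299857 (by decide +kernel)
theorem L4299859 : W_1 (nat_lit 5) (nat_lit 0x10001c0006800000000000000000000000000) (nat_lit 0x0) (nat_lit 0x600030002800000000000200010000800000000000000) := T_1 (nat_lit 161) (nat_lit 178) (nat_lit 4) (nat_lit 8) (nat_lit 10) L4299858 (by decide +kernel)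
theorem L4299860 : W_1 (nat_lit 6) (nat_lit 0x10001c0006000000000000000000000000000) (nat_lit 0x0) (nat_lit 0x600030002800000001800200010000800000000000000) := T_1 (nat_lit 107) (nat_lit 108) (nat_lit 3) (nat_lit 5) (nat_lit 6) L4299859 (by decide +kernel)
theorem L4299861 : W_1 (nat_lit 2) (nat_lit 0x200010001c0006800600000000000000000000000) (nat_lit 0x0) (nat_lit 0x2000000000000000010000800000000000000) := D_1 (nat_lit 76) (nat_lit 59) (nat_lit 145) (nat_lit 5) (nat_lit 8) (nat_lit 3) (nat_lit 7) (nat_lit 8) (nat_lit 4) (by decide +kernel)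
theorem L4299862 : W_1 (nat_lit 3) (nat_lit 0x200010001c0006800400000000000000000000000) (nat_lit 0x0) (nat_lit 0x2000000000000200030000800000000000000) := T_1 (nat_lit 93) (nat_lit 77) (nat_lit 6) (nat_lit 8) (nat_lit 8) L4299861 (by decide +kernel)
theorem L4299863 : W_1 (nat_lit 4) (nat_lit 0x200010001c0006800000000000000000000000000) (nat_lit 0x0) (nat_lit 0x2000000008000600030000800000000000000) := T_1 (nat_lit 94) (nat_lit 111) (nat_lit 6) (nat_lit 8) (nat_lit 9) L4299862 (by decide +kernel)
theorem L4299864 : W_1 (nat_lit 5) (nat_lit 0x200010001c0006000000000000000000000000000) (nat_lit 0x0) (nat_lit 0x2000000009800600030000800000000000000) := T_1 (nat_lit 107) (nat_lit 108) (nat_lit 3) (nat_lit 5) (nat_lit 6) L4299863 (by decide +kernel)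
theorem L4299865 : W_1 (nat_lit 6) (nat_lit 0x10001c0006000000000000000000000000000) (nat_lit 0x0) (nat_lit 0x400020002000000009800600030000800000000000000) := T_1 (nat_lit 161) (nat_lit 178) (nat_lit 4) (nat_lit 8) (nat_lit 10) L4299864 (by decide +kernel)
theorem L4299866 : W_1 (nat_lit 2) (nat_lit 0x300010001c0006000200000000000000000000000) (nat_lit 0x0) (nat_lit 0x2000000000000000010000800000000000000) := D_1 (nat_lit 76) (nat_lit 145) (nat_lit 59) (nat_lit 7) (nat_lit 8) (nat_lit 4) (nat_lit 5) (nat_lit 8) (nat_lit 3) (by decide +kernel)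
theorem L4299867 : W_1 (nat_lit 3) (nat_lit 0x300010001c0006000000000000000000000000000) (nat_lit 0x0) (nat_lit 0x2800000000000200010000800000000000000) := T_1 (nat_lit 93) (nat_lit 143) (nat_lit 6) (nat_lit 7) (nat_lit 9) L4299866 (by decide +kernel)
theorem L4299868 : W_1 (nat_lit 4) (nat_lit 0x200010001c0006000000000000000000000000000) (nat_lit 0x0) (nat_lit 0x200010002800000000000200010000800000000000000) := T_1 (nat_lit 160) (nat_lit 177) (nat_lit 5) (nat_lit 8) (nat_lit 6) L4299867 (by decide +kernel)
theorem L4299869 : W_1 (nat_lit 5) (nat_lit 0x10001c0006000000000000000000000000000) (nat_lit 0x0) (nat_lit 0x600030002800000000000200010000800000000000000) := T_1 (nat_lit 161) (nat_lit 178) (nat_lit 4) (nat_lit 8) (nat_lit 10) L4299868 (by decide +kernel)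
theorem L4299870 : W_1 (nat_lit 4) (nat_lit 0x300018001c0007000400000000000000000000000) (nat_lit 0x0) (nat_lit 0x10000c006600000000000000000000000000000000000) := T_1 (nat_lit 141) (nat_lit 142) (nat_lit 2) (nat_lit 5) (nat_lit 8) L1923823 (by decide +kernel)
theorem L4299871 : W_1 (nat_lit 5) (nat_lit 0x300010001c0007000400000000000000000000000) (nat_lit 0x0) (nat_lit 0x10000c006e00000000000080000000000000000000000) := T_1 (nat_lit 143) (nat_lit 91) (nat_lit 4) (nat_lit 7) (nat_lit 9) L4299870 (by decide +kernel)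
theorem L4299872 : W_1 (nat_lit 6) (nat_lit 0x200010001c0007000400000000000000000000000) (nat_lit 0x0) (nat_lit 0x30001c006e00000000000080000000000000000000000) := T_1 (nat_lit 160) (nat_lit 177) (nat_lit 5) (nat_lit 8) (nat_lit 6) L4299871 (by decide +kernel)
theorem L4299873 : W_1 (nat_lit 7) (nat_lit 0x200010001c0007000000000000000000000000000) (nat_lit 0x0) (nat_lit 0x30001c006e00000008000480000000000000000000000) := T_1 (nat_lit 94) (nat_lit 111) (nat_lit 6) (nat_lit 8) (nat_lit 9) L4299872 (by decide +kernel)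
theorem L4299874 : W_1 (nat_lit 8) (nat_lit 0x200010001c0006000000000000000000000000000) (nat_lit 0x0) (nat_lit 0x30001c006e00000009800480000000000000000000000) := T_1 (nat_lit 108) (nat_lit 107) (nat_lit 3) (nat_lit 5) (nat_lit 6) L4299873 (by decide +kernel)
theorem L4299875 : W_1 (nat_lit 9) (nat_lit 0x10001c0006000000000000000000000000000) (nat_lit 0x0) (nat_lit 0x70003c006e00000009800480000000000000000000000) := T_1 (nat_lit 161) (nat_lit 178) (nat_lit 4) (nat_lit 8) (nat_lit 10) L4299874 (by decide +kernel)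
theorem L4299876 : W_1 (nat_lit 10) (nat_lit 0x10001c0002000000000000000000000000000) (nat_lit 0x0) (nat_lit 0x70003c006e0000000d801e80030001800000000000000) := Q_1 (nat_lit 110) (C_1 L4299850 (C_1 L4299855 (C_1 L4299860 (C_1 L4299865 (C_1 L4299869 (C_1 L4299875 N_1)))))) (by decide +kernel)
theorem L4299877 : W_1 (nat_lit 11) (nat_lit 0x10000c0002000000000000000000000000000) (nat_lit 0x0) (nat_lit 0x70003c07ee01f001fd801e80070003800000000000000) := Q_1 (nat_lit 128) (C_1 L252812 (C_1 L212554 (C_1 L4299845 (C_1 L4299876 N_1)))) (by decide +kernel)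
theorem L4299878 : W_1 (nat_lit 12) (nat_lit 0x10000c0000000000000000000000000000000) (nat_lit 0x0) (nat_lit 0x600070003e07ef01f181ffc01f8007c003800000000000000) := Q_1 (nat_lit 109) (C_1 L212587 (C_1 L252801 (C_1 L1510 (C_1 L4299877 N_1)))) (by decide +kernel)
theorem L4299879 : W_1 (nat_lit 10) (nat_lit 0x10000c0006000300020000000000000000000) (nat_lit 0x0) (nat_lit 0x16000b00138001c000e0007000000000000000000) := T_1 (nat_lit 143) (nat_lit 160) (nat_lit 6) (nat_lit 7) (nat_lit 9) L72902 (by decide +kernel)
theorem L4299880 : W_1 (nat_lit 11) (nat_lit 0x10000c0006000300000000000000000000000) (nat_lit 0x0) (nat_lit 0x16000b00138001c004e0027000000000000000000) := T_1 (nat_lit 77) (nat_lit 94) (nat_lit 6) (nat_lit 8) (nat_lit 8) L4299879 (by decide +kernel)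
theorem L4299881 : W_1 (nat_lit 12) (nat_lit 0x10000c0006000200000000000000000000000) (nat_lit 0x0) (nat_lit 0x16000b00138001c005e002f000000000000000000) := T_1 (nat_lit 92) (nat_lit 75) (nat_lit 7) (nat_lit 7) (nat_lit 4) L4299880 (by decide +kernel)
theorem L4299882 : W_1 (nat_lit 13) (nat_lit 0x10000c0006000000000000000000000000000) (nat_lit 0x0) (nat_lit 0x16000b00138001c007e003f001800000000000000) := Q_1 (nat_lit 93) (C_1 L212919 (C_1 L23288 (C_1 L4299881 N_1))) (by decide +kernel)
theorem L4299883 : W_1 (nat_lit 4) (nat_lit 0x10000c0006000300020000000000000000000) (nat_lit 0x0) (nat_lit 0x100008000000080000e0004000000000000000000) := T_1 (nat_lit 143) (nat_lit 160) (nat_lit 6) (nat_lit 7) (nat_lit 9) L22681 (by decide +kernel)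
theorem L4299884 : W_1 (nat_lit 5) (nat_lit 0x10000c0006000300000000000000000000000) (nat_lit 0x0) (nat_lit 0x100008000000080004e0024000000000000000000) := T_1 (nat_lit 77) (nat_lit 94) (nat_lit 6) (nat_lit 8) (nat_lit 8) L4299883 (by decide +kernel)
theorem L4299885 : W_1 (nat_lit 6) (nat_lit 0x10000c0006000200000000000000000000000) (nat_lit 0x0) (nat_lit 0x100008000000080005e002c000000000000000000) := T_1 (nat_lit 92) (nat_lit 75) (nat_lit 7) (nat_lit 7) (nat_lit 4) L4299884 (by decide +kernel)
theorem L4299886 : W_1 (nat_lit 7) (nat_lit 0x10000c0006000000000000000000000000000) (nat_lit 0x0) (nat_lit 0x100008000000080007e003c001800000000000000) := Q_1 (nat_lit 93) (C_1 L212919 (C_1 L23288 (C_1 L4299885 N_1))) (by decide +kernel)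
theorem L4299887 : W_1 (nat_lit 4) (nat_lit 0x10000c0006000300000000000000000000000) (nat_lit 0x0) (nat_lit 0x100008000000080000e0004000000000000000000) := T_1 (nat_lit 143) (nat_lit 160) (nat_lit 6) (nat_lit 7) (nat_lit 9) L817516 (by decide +kernel)
theorem L4299888 : W_1 (nat_lit 5) (nat_lit 0x10000c0006000200000000000000000000000) (nat_lit 0x0) (nat_lit 0x100008000000080001e000c000000000000000000) := T_1 (nat_lit 92) (nat_lit 75) (nat_lit 7) (nat_lit 7) (nat_lit 4) L4299887 (by decide +kernel)
theorem L4299889 : W_1 (nat_lit 6) (nat_lit 0x10000c0006000000000000000000000000000) (nat_lit 0x0) (nat_lit 0x100008000000080003e001c000c00000000000000) := Q_1 (nat_lit 93) (C_1 L212919 (C_1 L23279 (C_1 L4299888 N_1))) (by decide +kernel)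
theorem L4299890 : W_1 (nat_lit 14) (nat_lit 0x10000c0002000000000000000000000000000) (nat_lit 0x0) (nat_lit 0x16000b0073803dc01fe003f001c00000000000000) := Q_1 (nat_lit 110) (C_1 L252928 (C_1 L252895 (C_1 L4299882 (C_1 L4299886 (C_1 L4299889 N_1))))) (by decide +kernel)
theorem L4299891 : W_1 (nat_lit 2) (nat_lit 0x300010000c0006000200010000000000000000000) (nat_lit 0x0) (nat_lit 0x400020001000000000000000) := D_1 (nat_lit 77) (nat_lit 94) (nat_lit 60) (nat_lit 6) (nat_lit 8) (nat_lit 8) (nat_lit 6) (nat_lit 8) (nat_lit 7) (by decide +kernel)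
theorem L4299892 : W_1 (nat_lit 3) (nat_lit 0x300010000c0006000200000000000000000000000) (nat_lit 0x0) (nat_lit 0x400030001800000000000000) := T_1 (nat_lit 76) (nat_lit 59) (nat_lit 5) (nat_lit 8) (nat_lit 3) L4299891 (by decide +kernel)
theorem L4299893 : W_1 (nat_lit 4) (nat_lit 0x300010000c0006000000000000000000000000000) (nat_lit 0x0) (nat_lit 0x800000000000600030001800000000000000) := T_1 (nat_lit 93) (nat_lit 143) (nat_lit 6) (nat_lit 7) (nat_lit 9) L4299892 (by decide +kernel)
theorem L4299894 : W_1 (nat_lit 5) (nat_lit 0x200010000c0006000000000000000000000000000) (nat_lit 0x0) (nat_lit 0x200010000800000000000600030001800000000000000) := T_1 (nat_lit 160) (nat_lit 177) (nat_lit 5) (nat_lit 8) (nat_lit 6) L4299893 (by decide +kernel)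
theorem L4299895 : W_1 (nat_lit 6) (nat_lit 0x10000c0006000000000000000000000000000) (nat_lit 0x0) (nat_lit 0x600030000800000000000600030001800000000000000) := T_1 (nat_lit 161) (nat_lit 178) (nat_lit 4) (nat_lit 8) (nat_lit 10) L4299894 (by decide +kernel)
theorem L4299896 : W_1 (nat_lit 2) (nat_lit 0x300010001c0006000200010000400000000000000) (nat_lit 0x0) (nat_lit 0x200001800000000000000000000000000) := D_1 (nat_lit 108) (nat_lit 107) (nat_lit 129) (nat_lit 3) (nat_lit 5) (nat_lit 6) (nat_lit 0) (nat_lit 10) (nat_lit 7) (by decide +kernel)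
theorem L4299897 : W_1 (nat_lit 3) (nat_lit 0x300010000c0006000200010000400000000000000) (nat_lit 0x0) (nat_lit 0x2000300001800000000000000000000000000) := T_1 (nat_lit 128) (nat_lit 145) (nat_lit 7) (nat_lit 8) (nat_lit 4) L4299896 (by decide +kernel)
theorem L4299898 : W_1 (nat_lit 4) (nat_lit 0x300010000c0006000200010000000000000000000) (nat_lit 0x0) (nat_lit 0x2000300001800000008000400000000000000) := T_1 (nat_lit 58) (nat_lit 75) (nat_lit 4) (nat_lit 8) (nat_lit 7) L4299897 (by decide +kernel)
theorem L4299899 : W_1 (nat_lit 5) (nat_lit 0x300010000c0006000200000000000000000000000) (nat_lit 0x0) (nat_lit 0x2000300001800000018000c00000000000000) := T_1 (nat_lit 76) (nat_lit 59) (nat_lit 5) (nat_lit 8) (nat_lit 3) L4299898 (by decide +kernel)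
theorem L4299900 : W_1 (nat_lit 6) (nat_lit 0x300010000c0006000000000000000000000000000) (nat_lit 0x0) (nat_lit 0x2800300001800200018000c00000000000000) := T_1 (nat_lit 93) (nat_lit 143) (nat_lit 6) (nat_lit 7) (nat_lit 9) L4299899 (by decide +kernel)
theorem L4299901 : W_1 (nat_lit 7) (nat_lit 0x200010000c0006000000000000000000000000000) (nat_lit 0x0) (nat_lit 0x200010002800300001800200018000c00000000000000) := T_1 (nat_lit 160) (nat_lit 177) (nat_lit 5) (nat_lit 8) (nat_lit 6) L4299900 (by decide +kernel)
theorem L4299902 : W_1 (nat_lit 8) (nat_lit 0x10000c0006000000000000000000000000000) (nat_lit 0x0) (nat_lit 0x600030002800300001800200018000c00000000000000) := T_1 (nat_lit 161) (nat_lit 178) (nat_lit 4) (nat_lit 8) (nat_lit 10) L4299901 (by decide +kernel)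
theorem L4299903 : W_1 (nat_lit 9) (nat_lit 0x10000c0002000000000000000000000000000) (nat_lit 0x0) (nat_lit 0x60003000280071803dc01ee0038001c00000000000000) := Q_1 (nat_lit 110) (C_1 L252928 (C_1 L252895 (C_1 L4299895 (C_1 L4299902 N_1)))) (by decide +kernel)
theorem L4299904 : W_1 (nat_lit 3) (nat_lit 0x10000c0002000000000000000000000000000) (nat_lit 0x0) (nat_lit 0x400020000800000004000100000000000000000000000) := T_1 (nat_lit 161) (nat_lit 178) (nat_lit 4) (nat_lit 8) (nat_lit 10) L1939 (by decide +kernel)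
theorem L4299905 : W_1 (nat_lit 15) (nat_lit 0x10000c0000000000000000000000000000000) (nat_lit 0x0) (nat_lit 0x600036002b0073803fc01fe003f001c00000000000000) := Q_1 (nat_lit 109) (C_1 L212587 (C_1 L4299890 (C_1 L1510 (C_1 L4299903 (C_1 L4299904 N_1))))) (by decide +kernel)
theorem L4299906 : W_1 (nat_lit 2) (nat_lit 0x3d000e000e000700000000000000000000000) (nat_lit 0x0) (nat_lit 0x1001800000000000000000000000) := D_1 (nat_lit 95) (nat_lit 108) (nat_lit 96) (nat_lit 2) (nat_lit 6) (nat_lit 6) (nat_lit 1) (nat_lit 11) (nat_lit 5) (by decide +kernel)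
theorem L4299907 : W_1 (nat_lit 3) (nat_lit 0x3d000e000e000300000000000000000000000) (nat_lit 0x0) (nat_lit 0x1001c00020000000000000000000) := T_1 (nat_lit 94) (nat_lit 77) (nat_lit 6) (nat_lit 8) (nat_lit 8) L4299906 (by decide +kernel)
theorem L4299908 : W_1 (nat_lit 4) (nat_lit 0x3d000e0006000300000000000000000000000) (nat_lit 0x0) (nat_lit 0x19001c00020000000000000000000) := T_1 (nat_lit 111) (nat_lit 112) (nat_lit 1) (nat_lit 10) (nat_lit 6) L4299907 (by decide +kernel)
theorem L4299909 : W_1 (nat_lit 5) (nat_lit 0x3d000e0002000300000000000000000000000) (nat_lit 0x0) (nat_lit 0x1000000000001d001c00020000000000000000000) := T_1 (nat_lit 110) (nat_lit 160) (nat_lit 6) (nat_lit 7) (nat_lit 9) L4299908 (by decide +kernel)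
theorem L4299910 : W_1 (nat_lit 6) (nat_lit 0x3d000e0002000100000000000000000000000) (nat_lit 0x0) (nat_lit 0x1000000000001d001e00030000000000000000000) := T_1 (nat_lit 93) (nat_lit 76) (nat_lit 6) (nat_lit 7) (nat_lit 8) L4299909 (by decide +kernel)
theorem L4299911 : W_1 (nat_lit 7) (nat_lit 0x3c000e0002000100000000000000000000000) (nat_lit 0x0) (nat_lit 0x1000030000001d001e00030000000000000000000) := T_1 (nat_lit 140) (nat_lit 141) (nat_lit 2) (nat_lit 4) (nat_lit 8) L4299910 (by decide +kernel)
theorem L4299912 : W_1 (nat_lit 8) (nat_lit 0x38000e0002000100000000000000000000000) (nat_lit 0x0) (nat_lit 0x1800070000001d001e00030000000000000000000) := T_1 (nat_lit 142) (nat_lit 159) (nat_lit 5) (nat_lit 7) (nat_lit 5) L4299911 (by decide +kernel)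
theorem L4299913 : W_1 (nat_lit 9) (nat_lit 0x18000e0002000100000000000000000000000) (nat_lit 0x0) (nat_lit 0x1800670000001d001e00030000000000000000000) := T_1 (nat_lit 145) (nat_lit 146) (nat_lit 0) (nat_lit 10) (nat_lit 8) L4299912 (by decide +kernel)
theorem L4299914 : W_1 (nat_lit 10) (nat_lit 0x18000e0002000000000000000000000000000) (nat_lit 0x0) (nat_lit 0x1800670000001d001f00038000000000000000000) := T_1 (nat_lit 92) (nat_lit 75) (nat_lit 7) (nat_lit 7) (nat_lit 4) L4299913 (by decide +kernel)
theorem L4299915 : W_1 (nat_lit 11) (nat_lit 0x10000e0002000000000000000000000000000) (nat_lit 0x0) (nat_lit 0x600030001e006f0000003d001ff003e000000000000000000) := Q_1 (nat_lit 143) (C_1 L21940 (C_1 L259116 (C_1 L21788 (C_1 L22199 (C_1 L21499 (C_1 L4299914 N_1)))))) (by decide +kernel)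
theorem L4299916 : W_1 (nat_lit 12) (nat_lit 0x10000c0002000000000000000000000000000) (nat_lit 0x0) (nat_lit 0x600030001e006f8003803de01ff003e000000000000000000) := Q_1 (nat_lit 125) (C_1 L212687 (C_1 L212610 (C_1 L212568 (C_1 L18504 (C_1 L4299915 N_1))))) (by decide +kernel)
theorem L4299917 : W_1 (nat_lit 11) (nat_lit 0x18000c0002000000000000000000000000000) (nat_lit 0x0) (nat_lit 0x600070003e000700018005c002e0000000000000000000000) := T_1 (nat_lit 178) (nat_lit 161) (nat_lit 4) (nat_lit 8) (nat_lit 10) L2279943 (by decide +kernel)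
theorem L4299934 : W_1 (nat_lit 2) (nat_lit 0x8001c000e0006000000010000000000000000000) (nat_lit 0x0) (nat_lit 0x4006000000000000000000000000000000000000) := D_1 (nat_lit 145) (nat_lit 158) (nat_lit 146) (nat_lit 1) (nat_lit 9) (nat_lit 8) (nat_lit 0) (nat_lit 10) (nat_lit 8) (by decide +kernel)
theorem L4299935 : W_1 (nat_lit 3) (nat_lit 0x1c000e0006000000010000000000000000000) (nat_lit 0x0) (nat_lit 0x10000c006000000000000000000000000000000000000) := T_1 (nat_lit 159) (nat_lit 176) (nat_lit 6) (nat_lit 6) (nat_lit 10) L4299934 (by decide +kernel)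
theorem L4299936 : W_1 (nat_lit 4) (nat_lit 0x1c000e0006000000000000000000000000000) (nat_lit 0x0) (nat_lit 0x10000c006000000000000200010000000000000000000) := T_1 (nat_lit 76) (nat_lit 93) (nat_lit 5) (nat_lit 8) (nat_lit 4) L4299935 (by decide +kernel)
theorem L4300016 : W_1 (nat_lit 2) (nat_lit 0x18000e000f000000010000000000000000000) (nat_lit 0x0) (nat_lit 0xc0004000000000000000000) := D_1 (nat_lit 91) (nat_lit 90) (nat_lit 74) (nat_lit 0) (nat_lit 9) (nat_lit 6) (nat_lit 7) (nat_lit 6) (nat_lit 4) (by decide +kernel)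
theorem L4300017 : W_1 (nat_lit 3) (nat_lit 0x18000e0007000000010000000000000000000) (nat_lit 0x0) (nat_lit 0x180000c0004000000000000000000) := T_1 (nat_lit 111) (nat_lit 112) (nat_lit 1) (nat_lit 10) (nat_lit 6) L4300016 (by decide +kernel)
theorem L4300018 : W_1 (nat_lit 4) (nat_lit 0x18000e0007000000000000000000000000000) (nat_lit 0x0) (nat_lit 0x180002c0014000000000000000000) := T_1 (nat_lit 76) (nat_lit 93) (nat_lit 5) (nat_lit 8) (nat_lit 4) L4300017 (by decide +kernel)
theorem L4300748 : W_1 (nat_lit 2) (nat_lit 0x24001e000e8007000e00000000000000000000000) (nat_lit 0x0) (nat_lit 0x180008000000000000000000000000000000000000000) := D_1 (nat_lit 159) (nat_lit 175) (nat_lit 176) (nat_lit 5) (nat_lit 6) (nat_lit 6) (nat_lit 6) (nat_lit 6) (nat_lit 10) (by decide +kernel)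
theorem L4300749 : W_1 (nat_lit 3) (nat_lit 0x24001e000c8007000e00000000000000000000000) (nat_lit 0x0) (nat_lit 0x180008000000020000000080000000000000000000000) := T_1 (nat_lit 125) (nat_lit 91) (nat_lit 5) (nat_lit 6) (nat_lit 5) L4300748 (by decide +kernel)
theorem L4300750 : W_1 (nat_lit 4) (nat_lit 0x24001e000c8006000e00000000000000000000000) (nat_lit 0x0) (nat_lit 0x180008000000020001800080000000000000000000000) := T_1 (nat_lit 108) (nat_lit 107) (nat_lit 2) (nat_lit 5) (nat_lit 6) L4300749 (by decide +kernel)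
theorem L4300751 : W_1 (nat_lit 5) (nat_lit 0x24001e000c8006000600000000000000000000000) (nat_lit 0x0) (nat_lit 0x180008000000020001801880000000000000000000000) := T_1 (nat_lit 95) (nat_lit 96) (nat_lit 1) (nat_lit 11) (nat_lit 5) L4300750 (by decide +kernel)
theorem L4300752 : W_1 (nat_lit 6) (nat_lit 0x20001e000c8006000600000000000000000000000) (nat_lit 0x0) (nat_lit 0x18000e000000020001801880000000000000000000000) := T_1 (nat_lit 158) (nat_lit 157) (nat_lit 1) (nat_lit 8) (nat_lit 8) L4300751 (by decide +kernel)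
theorem L4300753 : W_1 (nat_lit 7) (nat_lit 0x20001e000c8006000200000000000000000000000) (nat_lit 0x0) (nat_lit 0x18000e000000020001801c80020000000000000000000) := T_1 (nat_lit 94) (nat_lit 77) (nat_lit 6) (nat_lit 8) (nat_lit 8) L4300752 (by decide +kernel)
theorem L4300754 : W_1 (nat_lit 8) (nat_lit 0x20001e000c0006000200000000000000000000000) (nat_lit 0x0) (nat_lit 0x18000e000000038001801c80020000000000000000000) := T_1 (nat_lit 123) (nat_lit 124) (nat_lit 0) (nat_lit 8) (nat_lit 8) L4300753 (by decide +kernel)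
theorem L4300755 : W_1 (nat_lit 9) (nat_lit 0x20001e000c0006000000000000000000000000000) (nat_lit 0x0) (nat_lit 0x18000e000000038001801e80030000000000000000000) := T_1 (nat_lit 93) (nat_lit 76) (nat_lit 5) (nat_lit 8) (nat_lit 4) L4300754 (by decide +kernel)
theorem L4300756 : W_1 (nat_lit 10) (nat_lit 0x20001c000c0006000000000000000000000000000) (nat_lit 0x0) (nat_lit 0x18000e000300038001801e80030000000000000000000) := T_1 (nat_lit 141) (nat_lit 140) (nat_lit 2) (nat_lit 4) (nat_lit 8) L4300755 (by decide +kernel)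
theorem L4300757 : W_1 (nat_lit 11) (nat_lit 0x1c000c0006000000000000000000000000000) (nat_lit 0x0) (nat_lit 0x58002e000300038001801e80030000000000000000000) := T_1 (nat_lit 161) (nat_lit 178) (nat_lit 4) (nat_lit 8) (nat_lit 10) L4300756 (by decide +kernel)
theorem L4300758 : W_1 (nat_lit 2) (nat_lit 0x22001e000f0006800040010000000000000000000) (nat_lit 0x0) (nat_lit 0x1000020001000000000000000000) := D_1 (nat_lit 89) (nat_lit 108) (nat_lit 72) (nat_lit 0) (nat_lit 8) (nat_lit 6) (nat_lit 4) (nat_lit 5) (nat_lit 8) (by decide +kernel)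
theorem L4300759 : W_1 (nat_lit 3) (nat_lit 0x22001e000f0006800000010000000000000000000) (nat_lit 0x0) (nat_lit 0x1000060003000000000000000000) := T_1 (nat_lit 90) (nat_lit 73) (nat_lit 7) (nat_lit 5) (nat_lit 4) L4300758 (by decide +kernel)
theorem L4300760 : W_1 (nat_lit 4) (nat_lit 0x22001e000f0006000000010000000000000000000) (nat_lit 0x0) (nat_lit 0x1c00060003000000000000000000) := T_1 (nat_lit 107) (nat_lit 106) (nat_lit 0) (nat_lit 8) (nat_lit 7) L4300759 (by decide +kernel)
theorem L4300761 : W_1 (nat_lit 5) (nat_lit 0x22001e000d0006000000010000000000000000000) (nat_lit 0x0) (nat_lit 0x2000020001c00060003000000000000000000) := T_1 (nat_lit 125) (nat_lit 145) (nat_lit 3) (nat_lit 5) (nat_lit 7) L4300760 (by decide +kernel)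
theorem L4300762 : W_1 (nat_lit 6) (nat_lit 0x22001e000c0006000000010000000000000000000) (nat_lit 0x0) (nat_lit 0x2000038001c00060003000000000000000000) := T_1 (nat_lit 124) (nat_lit 123) (nat_lit 0) (nat_lit 8) (nat_lit 8) L4300761 (by decide +kernel)
theorem L4300763 : W_1 (nat_lit 7) (nat_lit 0x20001e000c0006000000010000000000000000000) (nat_lit 0x0) (nat_lit 0x6002000038001c00060003000000000000000000) := T_1 (nat_lit 157) (nat_lit 158) (nat_lit 1) (nat_lit 8) (nat_lit 8) L4300762 (by decide +kernel)
theorem L4300764 : W_1 (nat_lit 8) (nat_lit 0x20001c000c0006000000010000000000000000000) (nat_lit 0x0) (nat_lit 0x6002300038001c00060003000000000000000000) := T_1 (nat_lit 141) (nat_lit 140) (nat_lit 2) (nat_lit 4) (nat_lit 8) L4300763 (by decide +kernel)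
theorem L4300765 : W_1 (nat_lit 9) (nat_lit 0x1c000c0006000000010000000000000000000) (nat_lit 0x0) (nat_lit 0x400026002300038001c00060003000000000000000000) := T_1 (nat_lit 161) (nat_lit 178) (nat_lit 4) (nat_lit 8) (nat_lit 10) L4300764 (by decide +kernel)
theorem L4300766 : W_1 (nat_lit 10) (nat_lit 0x1c000c0006000000000000000000000000000) (nat_lit 0x0) (nat_lit 0x400026002300038001c00260013000000000000000000) := T_1 (nat_lit 76) (nat_lit 93) (nat_lit 5) (nat_lit 8) (nat_lit 4) L4300765 (by decide +kernel)
theorem L4300767 : W_1 (nat_lit 2) (nat_lit 0x1c000e0006000000000000000000000000000) (nat_lit 0x0) (nat_lit 0x2000018000000000000000000000000000000) := D_1 (nat_lit 124) (nat_lit 145) (nat_lit 123) (nat_lit 3) (nat_lit 5) (nat_lit 7) (nat_lit 3) (nat_lit 4) (nat_lit 7) (by decide +kernel)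
theorem L4300768 : W_1 (nat_lit 5) (nat_lit 0x8001c000e0006000000000000000000000000000) (nat_lit 0x0) (nat_lit 0x18001c00240012000000000000000000) := T_1 (nat_lit 124) (nat_lit 123) (nat_lit 3) (nat_lit 4) (nat_lit 7) L779196 (by decide +kernel)
theorem L4300769 : W_1 (nat_lit 6) (nat_lit 0x1c000e0006000000000000000000000000000) (nat_lit 0x0) (nat_lit 0x100008000000018001c00240012000000000000000000) := T_1 (nat_lit 159) (nat_lit 176) (nat_lit 6) (nat_lit 6) (nat_lit 10) L4300768 (by decide +kernel)
theorem L4300770 : W_1 (nat_lit 7) (nat_lit 0x1c000c0006000000000000000000000000000) (nat_lit 0x0) (nat_lit 0x10000c006000038001c00240012000000000000000000) := Q_1 (nat_lit 125) (C_1 L4300767 (C_1 L4300769 (C_1 L4299936 N_1))) (by decide +kernel)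
theorem L4300771 : W_1 (nat_lit 2) (nat_lit 0x20001e000f0006800000010000000000000000000) (nat_lit 0x0) (nat_lit 0x100008000000000000000040000000000000000000000) := D_1 (nat_lit 159) (nat_lit 176) (nat_lit 90) (nat_lit 6) (nat_lit 6) (nat_lit 10) (nat_lit 7) (nat_lit 5) (nat_lit 5) (by decide +kernel)
theorem L4300772 : W_1 (nat_lit 3) (nat_lit 0x20001e000f0006000000010000000000000000000) (nat_lit 0x0) (nat_lit 0x100008000000000000c00040000000000000000000000) := T_1 (nat_lit 107) (nat_lit 106) (nat_lit 0) (nat_lit 8) (nat_lit 7) L4300771 (by decide +kernel)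
theorem L4300773 : W_1 (nat_lit 4) (nat_lit 0x20001e000d0006000000010000000000000000000) (nat_lit 0x0) (nat_lit 0x100008002000020000c00040000000000000000000000) := T_1 (nat_lit 125) (nat_lit 145) (nat_lit 3) (nat_lit 5) (nat_lit 7) L4300772 (by decide +kernel)
theorem L4300774 : W_1 (nat_lit 5) (nat_lit 0x20001e000c0006000000010000000000000000000) (nat_lit 0x0) (nat_lit 0x100008002000038000c00040000000000000000000000) := T_1 (nat_lit 124) (nat_lit 123) (nat_lit 0) (nat_lit 8) (nat_lit 8) L4300773 (by decide +kernel)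
theorem L4300775 : W_1 (nat_lit 6) (nat_lit 0x1e000c0006000000010000000000000000000) (nat_lit 0x0) (nat_lit 0x500028002000038000c00040000000000000000000000) := T_1 (nat_lit 161) (nat_lit 178) (nat_lit 4) (nat_lit 8) (nat_lit 10) L4300774 (by decide +kernel)
theorem L4300776 : W_1 (nat_lit 7) (nat_lit 0x1c000c0006000000010000000000000000000) (nat_lit 0x0) (nat_lit 0x500028002300038000c00040000000000000000000000) := T_1 (nat_lit 141) (nat_lit 140) (nat_lit 2) (nat_lit 4) (nat_lit 8) L4300775 (by decide +kernel)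
theorem L4300777 : W_1 (nat_lit 8) (nat_lit 0x1c000c0006000000000000000000000000000) (nat_lit 0x0) (nat_lit 0x500028002300038000c00240010000000000000000000) := T_1 (nat_lit 76) (nat_lit 93) (nat_lit 5) (nat_lit 8) (nat_lit 4) L4300776 (by decide +kernel)
theorem L4300778 : W_1 (nat_lit 12) (nat_lit 0x18000c0006000000000000000000000000000) (nat_lit 0x0) (nat_lit 0x200058002e00e700038001c01ee0033000000000000000000) := Q_1 (nat_lit 142) (C_1 L247832 (C_1 L825429 (C_1 L4300757 (C_1 L4300766 (C_1 L4300770 (C_1 L4300777 N_1)))))) (by decide +kernel)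
theorem L4300855 : W_1 (nat_lit 2) (nat_lit 0x18000e0007000000000000000000000000000) (nat_lit 0x0) (nat_lit 0x6000010000000000000000000000000000000) := D_1 (nat_lit 145) (nat_lit 146) (nat_lit 124) (nat_lit 0) (nat_lit 10) (nat_lit 8) (nat_lit 3) (nat_lit 5) (nat_lit 7) (by decide +kernel)
theorem L4300856 : W_1 (nat_lit 5) (nat_lit 0x18000c0007000000000000000000000000000) (nat_lit 0x0) (nat_lit 0x60000300180002c0014000000000000000000) := Q_1 (nat_lit 125) (C_1 L4300018 (C_1 L4300855 N_1)) (by decide +kernel)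
theorem L4300857 : W_1 (nat_lit 2) (nat_lit 0x200018000d0007800020010000000000000000000) (nat_lit 0x0) (nat_lit 0x2000020008000000000000000000000000000) := D_1 (nat_lit 125) (nat_lit 111) (nat_lit 145) (nat_lit 2) (nat_lit 5) (nat_lit 7) (nat_lit 3) (nat_lit 5) (nat_lit 7) (by decide +kernel)
theorem L4300858 : W_1 (nat_lit 3) (nat_lit 0x200018000c0007800020010000000000000000000) (nat_lit 0x0) (nat_lit 0x2000038008000000000000000000000000000) := T_1 (nat_lit 124) (nat_lit 123) (nat_lit 1) (nat_lit 8) (nat_lit 6) L4300857 (by decide +kernel)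
theorem L4300859 : W_1 (nat_lit 4) (nat_lit 0x200018000c0007800000010000000000000000000) (nat_lit 0x0) (nat_lit 0x2000038008000060000000000000000000000) := T_1 (nat_lit 89) (nat_lit 90) (nat_lit 0) (nat_lit 8) (nat_lit 6) L4300858 (by decide +kernel)
theorem L4300860 : W_1 (nat_lit 5) (nat_lit 0x18000c0007800000010000000000000000000) (nat_lit 0x0) (nat_lit 0x400020002000038008000060000000000000000000000) := T_1 (nat_lit 161) (nat_lit 178) (nat_lit 4) (nat_lit 8) (nat_lit 10) L4300859 (by decide +kernel)
theorem L4300861 : W_1 (nat_lit 6) (nat_lit 0x18000c0007000000010000000000000000000) (nat_lit 0x0) (nat_lit 0x400020002000038008c00060000000000000000000000) := T_1 (nat_lit 107) (nat_lit 106) (nat_lit 3) (nat_lit 4) (nat_lit 6) L4300860 (by decide +kernel)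
theorem L4300862 : W_1 (nat_lit 7) (nat_lit 0x18000c0007000000000000000000000000000) (nat_lit 0x0) (nat_lit 0x400020002000038008c00260010000000000000000000) := T_1 (nat_lit 76) (nat_lit 93) (nat_lit 5) (nat_lit 8) (nat_lit 4) L4300861 (by decide +kernel)
theorem L4300863 : W_1 (nat_lit 2) (nat_lit 0x200018000d0007800000010000000000000000000) (nat_lit 0x0) (nat_lit 0x2000020008000000000000000000000000000) := D_1 (nat_lit 125) (nat_lit 111) (nat_lit 145) (nat_lit 2) (nat_lit 5) (nat_lit 7) (nat_lit 3) (nat_lit 5) (nat_lit 7) (by decide +kernel)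
theorem L4300864 : W_1 (nat_lit 3) (nat_lit 0x200018000c0007800000010000000000000000000) (nat_lit 0x0) (nat_lit 0x2000038008000000000000000000000000000) := T_1 (nat_lit 124) (nat_lit 123) (nat_lit 1) (nat_lit 8) (nat_lit 6) L4300863 (by decide +kernel)
theorem L4300865 : W_1 (nat_lit 4) (nat_lit 0x200018000c0007000000010000000000000000000) (nat_lit 0x0) (nat_lit 0x2000038008c00000000000000000000000000) := T_1 (nat_lit 107) (nat_lit 106) (nat_lit 3) (nat_lit 4) (nat_lit 6) L4300864 (by decide +kernel)
theorem L4300866 : W_1 (nat_lit 5) (nat_lit 0x200018000c0007000000000000000000000000000) (nat_lit 0x0) (nat_lit 0x2000038008c00200010000000000000000000) := T_1 (nat_lit 76) (nat_lit 93) (nat_lit 5) (nat_lit 8) (nat_lit 4) L4300865 (by decide +kernel)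
theorem L4300867 : W_1 (nat_lit 6) (nat_lit 0x18000c0007000000000000000000000000000) (nat_lit 0x0) (nat_lit 0x400020002000038008c00200010000000000000000000) := T_1 (nat_lit 161) (nat_lit 178) (nat_lit 4) (nat_lit 8) (nat_lit 10) L4300866 (by decide +kernel)
theorem L4300868 : W_1 (nat_lit 8) (nat_lit 0x18000c0006000000000000000000000000000) (nat_lit 0x0) (nat_lit 0x400024006300038019c002e0014000200000000000000) := Q_1 (nat_lit 108) (C_1 L247877 (C_1 L825409 (C_1 L825193 (C_1 L4300856 (C_1 L4300862 (C_1 L4300867 N_1)))))) (by decide +kernel)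
theorem L4300869 : W_1 (nat_lit 13) (nat_lit 0x18000c0002000000000000000000000000000) (nat_lit 0x0) (nat_lit 0x200058002e00e70003803dc01ee0037000200000000000000) := Q_1 (nat_lit 110) (C_1 L22729 (C_1 L75227 (C_1 L4300778 (C_1 L4300868 N_1)))) (by decide +kernel)
theorem L4300870 : W_1 (nat_lit 6) (nat_lit 0x18000c0002000000000000000000000000000) (nat_lit 0x0) (nat_lit 0xc00060003000000003001d000680000000000000000000000) := Q_1 (nat_lit 160) (C_1 L257104 (C_1 L4238302 (C_1 L1923783 N_1))) (by decide +kernel)
theorem L4300871 : W_1 (nat_lit 14) (nat_lit 0x10000c0002000000000000000000000000000) (nat_lit 0x0) (nat_lit 0xe00078003e00ef0003803dc01ee0037000200000000000000) := Q_1 (nat_lit 143) (C_1 L252936 (C_1 L261936 (C_1 L4299917 (C_1 L4300869 (C_1 L4300870 N_1))))) (by decide +kernel)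
theorem L4300872 : W_1 (nat_lit 15) (nat_lit 0x10000c0000000000000000000000000000000) (nat_lit 0x0) (nat_lit 0xe00078003e00ef8003803fe01ff003f000200000000000000) := Q_1 (nat_lit 109) (C_1 L4299904 (C_1 L4299916 (C_1 L1510 (C_1 L212587 (C_1 L4300871 N_1))))) (by decide +kernel)
theorem L4300873 : W_1 (nat_lit 10) (nat_lit 0x10000c0000000000000000000000000000000) (nat_lit 0x0) (nat_lit 0xf000f8003f00ef00738007c0078001c000000000000000000) := Q_1 (nat_lit 143) (C_1 L261937 (C_1 L4294026 (C_1 L775736 (C_1 L72606 (C_1 L261932 (C_1 L22237 (C_1 L4252491 N_1))))))) (by decide +kernel)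
theorem L4300874 : W_1 (nat_lit 6) (nat_lit 0x18000c0004000000000000000000000000000) (nat_lit 0x0) (nat_lit 0x800060003000000013003a000500000000000000000000000) := Q_1 (nat_lit 161) (C_1 L817522 (C_1 L822743 (C_1 L759956 N_1))) (by decide +kernel)
theorem L4300875 : W_1 (nat_lit 11) (nat_lit 0x18000c0000000000000000000000000000000) (nat_lit 0x0) (nat_lit 0x800060003800c60073003e0007e003c000000000000000000) := Q_1 (nat_lit 110) (C_1 L817519 (C_1 L21126 (C_1 L1556 (C_1 L4300874 N_1)))) (by decide +kernel)
theorem L4300876 : W_1 (nat_lit 14) (nat_lit 0x18000c0000000000000000000000000000000) (nat_lit 0x0) (nat_lit 0xa00050002c00e70073807a007f803fc007000000000000000) := Q_1 (nat_lit 128) (C_1 L4236561 (C_1 L4270623 (C_1 L3941465 (C_1 L2678 N_1)))) (by decide +kernel)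
theorem L4300877 : W_1 (nat_lit 7) (nat_lit 0x18000c0000000000000000000000000000000) (nat_lit 0x0) (nat_lit 0x800060003000000013003e0007e001c000000000000000000) := Q_1 (nat_lit 110) (C_1 L817519 (C_1 L1556 (C_1 L4300874 N_1))) (by decide +kernel)
theorem L4300878 : W_1 (nat_lit 6) (nat_lit 0x18001c0000000000000000000000000000000) (nat_lit 0x0) (nat_lit 0x20006700038018000400020000000000000000000) := T_1 (nat_lit 141) (nat_lit 142) (nat_lit 2) (nat_lit 5) (nat_lit 8) L4279062 (by decide +kernel)
theorem L4300879 : W_1 (nat_lit 7) (nat_lit 0x18000c0000000000000000000000000000000) (nat_lit 0x0) (nat_lit 0x400020006700738038000400020000000000000000000) := Q_1 (nat_lit 128) (C_1 L2678 (C_1 L2582 (C_1 L4300878 N_1))) (by decide +kernel)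
theorem L4300880 : W_1 (nat_lit 15) (nat_lit 0x10000c0000000000000000000000000000000) (nat_lit 0x0) (nat_lit 0xe000f0003f00ef0073807e807fe03fc007000000000000000) := Q_1 (nat_lit 143) (C_1 L261932 (C_1 L22276 (C_1 L4300875 (C_1 L4300876 (C_1 L4300877 (C_1 L4300879 N_1)))))) (by decide +kernel)
theorem L4300881 : W_1 (nat_lit 4) (nat_lit 0x10001e0000800000000000000000000000000) (nat_lit 0x0) (nat_lit 0xee00200000000000000000000000000000000) := T_1 (nat_lit 142) (nat_lit 141) (nat_lit 1) (nat_lit 9) (nat_lit 7) L2482226 (by decide +kernel)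
theorem L4300882 : W_1 (nat_lit 5) (nat_lit 0x10001e0000000000000000000000000000000) (nat_lit 0x0) (nat_lit 0xee00200001800000000000000000000000000) := T_1 (nat_lit 107) (nat_lit 108) (nat_lit 0) (nat_lit 9) (nat_lit 7) L4300881 (by decide +kernel)
theorem L4300883 : W_1 (nat_lit 7) (nat_lit 0x10000e0000000000000000000000000000000) (nat_lit 0x0) (nat_lit 0x40002000ee0070007d800400020000000000000000000) := Q_1 (nat_lit 128) (C_1 L375701 (C_1 L1910 (C_1 L20953 (C_1 L1467 (C_1 L4300882 N_1))))) (by decide +kernel)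
theorem L4300884 : W_1 (nat_lit 10) (nat_lit 0x10000c0000000000000000000000000000000) (nat_lit 0x0) (nat_lit 0x40002001ef8073807de00400020000000000000000000) := Q_1 (nat_lit 125) (C_1 L255412 (C_1 L375648 (C_1 L1479 (C_1 L4300883 N_1)))) (by decide +kernel)
theorem L4300885 : W_1 (nat_lit 5) (nat_lit 0x1c000c0006000300020000000000000000000) (nat_lit 0x0) (nat_lit 0x300001c000e0004000000000000000000) := T_1 (nat_lit 128) (nat_lit 129) (nat_lit 1) (nat_lit 10) (nat_lit 7) L72593 (by decide +kernel)
theorem L4300886 : W_1 (nat_lit 6) (nat_lit 0x18000c0006000300020000000000000000000) (nat_lit 0x0) (nat_lit 0x8000400300001c000e0004000000000000000000) := T_1 (nat_lit 142) (nat_lit 159) (nat_lit 5) (nat_lit 7) (nat_lit 5) L4300885 (by decide +kernel)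
theorem L4300887 : W_1 (nat_lit 7) (nat_lit 0x10000c0006000300020000000000000000000) (nat_lit 0x0) (nat_lit 0x18000c00300001c000e0004000000000000000000) := T_1 (nat_lit 143) (nat_lit 160) (nat_lit 6) (nat_lit 7) (nat_lit 9) L4300886 (by decide +kernel)
theorem L4300888 : W_1 (nat_lit 8) (nat_lit 0x10000c0006000300000000000000000000000) (nat_lit 0x0) (nat_lit 0x18000c00300001c004e0024000000000000000000) := T_1 (nat_lit 77) (nat_lit 94) (nat_lit 6) (nat_lit 8) (nat_lit 8) L4300887 (by decide +kernel)
theorem L4300889 : W_1 (nat_lit 9) (nat_lit 0x10000c0006000200000000000000000000000) (nat_lit 0x0) (nat_lit 0x18000c00300001c005e002c000000000000000000) := T_1 (nat_lit 92) (nat_lit 75) (nat_lit 7) (nat_lit 7) (nat_lit 4) L4300888 (by decide +kernel)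
theorem L4300890 : W_1 (nat_lit 10) (nat_lit 0x10000c0006000000000000000000000000000) (nat_lit 0x0) (nat_lit 0x18000c00300001c007e003c001800000000000000) := Q_1 (nat_lit 93) (C_1 L212919 (C_1 L23288 (C_1 L4300889 N_1))) (by decide +kernel)
theorem L4300891 : W_1 (nat_lit 11) (nat_lit 0x10000c0002000000000000000000000000000) (nat_lit 0x0) (nat_lit 0x18000c0071803dc01fe003c001c00000000000000) := Q_1 (nat_lit 110) (C_1 L4299889 (C_1 L252928 (C_1 L4300890 (C_1 L252895 N_1)))) (by decide +kernel)
theorem L4300892 : W_1 (nat_lit 12) (nat_lit 0x10000c0000000000000000000000000000000) (nat_lit 0x0) (nat_lit 0x600038002c0071803fc01fe003c001c00000000000000) := Q_1 (nat_lit 109) (C_1 L4299904 (C_1 L4300891 (C_1 L1510 (C_1 L212587 (C_1 L4299903 N_1))))) (by decide +kernel)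
theorem L4300893 : W_1 (nat_lit 10) (nat_lit 0x10000c0000000000000000000000000000000) (nat_lit 0x0) (nat_lit 0xf000f8003e00ef0073803f0007e003c000000000000000000) := Q_1 (nat_lit 143) (C_1 L22276 (C_1 L4300879 (C_1 L4300877 (C_1 L22237 N_1)))) (by decide +kernel)
theorem L4300894 : W_1 (nat_lit 12) (nat_lit 0x10000c0000000000000000000000000000000) (nat_lit 0x0) (nat_lit 0x600070003e07ee01f001ffc01fe007c003800000000000000) := Q_1 (nat_lit 109) (C_1 L4299904 (C_1 L252766 (C_1 L1510 (C_1 L212587 (C_1 L4299877 N_1))))) (by decide +kernel)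
theorem L4300895 : W_1 (nat_lit 19) (nat_lit 0x1000080000000000000000000000000000000) (nat_lit 0x0) (nat_lit 0xa000f000f8003f07efc1f7e1fff87ff03ff007f00380014000000) := Q_1 (nat_lit 126) (C_1 L255414 (C_1 L4299878 (C_1 L21714 (C_1 L4299905 (C_1 L4300872 (C_1 L4300873 (C_1 L4300880 (C_1 L3721885 (C_1 L4300884 (C_1 L4300892 (C_1 L253639 (C_1 L4300893 (C_1 L4300894 N_1))))))))))))) (by decide +kernel)
theorem L4300896 : W_1 (nat_lit 2) (nat_lit 0x70003400380004000500000000000000000000000) (nat_lit 0x0) (nat_lit 0x800c000000000000000000000000000000000000) := D_1 (nat_lit 146) (nat_lit 159) (nat_lit 147) (nat_lit 2) (nat_lit 6) (nat_lit 9) (nat_lit 1) (nat_lit 11) (nat_lit 8) (by decide +kernel)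
theorem L4300897 : W_1 (nat_lit 3) (nat_lit 0x60003400380004000500000000000000000000000) (nat_lit 0x0) (nat_lit 0x20001800c000000000000000000000000000000000000) := T_1 (nat_lit 160) (nat_lit 177) (nat_lit 5) (nat_lit 8) (nat_lit 6) L4300896 (by decide +kernel)
theorem L4300898 : W_1 (nat_lit 4) (nat_lit 0x20003400380004000500000000000000000000000) (nat_lit 0x0) (nat_lit 0xa0005800c000000000000000000000000000000000000) := T_1 (nat_lit 162) (nat_lit 179) (nat_lit 7) (nat_lit 8) (nat_lit 6) L4300897 (by decide +kernel)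
theorem L4300899 : W_1 (nat_lit 5) (nat_lit 0x20003000380004000500000000000000000000000) (nat_lit 0x0) (nat_lit 0xa0005800cc00000000000000000000000000000000000) := T_1 (nat_lit 142) (nat_lit 143) (nat_lit 2) (nat_lit 6) (nat_lit 8) L4300898 (by decide +kernel)
theorem L4300900 : W_1 (nat_lit 6) (nat_lit 0x20003000380004000100000000000000000000000) (nat_lit 0x0) (nat_lit 0xa0005800cc00000008000400000000000000000000000) := T_1 (nat_lit 94) (nat_lit 111) (nat_lit 6) (nat_lit 8) (nat_lit 9) L4300899 (by decide +kernel)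
theorem L4300901 : W_1 (nat_lit 7) (nat_lit 0x20003000380004000000000000000000000000000) (nat_lit 0x0) (nat_lit 0xa0005800cc0000000a000500000000000000000000000) := T_1 (nat_lit 92) (nat_lit 109) (nat_lit 4) (nat_lit 8) (nat_lit 9) L4300900 (by decide +kernel)
theorem L4300902 : W_1 (nat_lit 2) (nat_lit 0x38003000380004000000000000000000000000000) (nat_lit 0x0) (nat_lit 0xc800000000000000000000000000000000000) := D_1 (nat_lit 146) (nat_lit 147) (nat_lit 143) (nat_lit 1) (nat_lit 11) (nat_lit 8) (nat_lit 1) (nat_lit 10) (nat_lit 8) (by decide +kernel)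
theorem L4300903 : W_1 (nat_lit 3) (nat_lit 0x30003000380004000000000000000000000000000) (nat_lit 0x0) (nat_lit 0xc00c800000000000000000000000000000000000) := T_1 (nat_lit 159) (nat_lit 158) (nat_lit 2) (nat_lit 5) (nat_lit 9) L4300902 (by decide +kernel)
theorem L4300904 : W_1 (nat_lit 4) (nat_lit 0x20003000380004000000000000000000000000000) (nat_lit 0x0) (nat_lit 0x20001c00c800000000000000000000000000000000000) := T_1 (nat_lit 160) (nat_lit 177) (nat_lit 5) (nat_lit 8) (nat_lit 6) L4300903 (by decide +kernel)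
theorem L4300905 : W_1 (nat_lit 2) (nat_lit 0x6000340038001c000100000000000000000000000) (nat_lit 0x0) (nat_lit 0x40060000000000000000000000000000) := D_1 (nat_lit 113) (nat_lit 126) (nat_lit 114) (nat_lit 2) (nat_lit 7) (nat_lit 7) (nat_lit 1) (nat_lit 12) (nat_lit 6) (by decide +kernel)
theorem L4300906 : W_1 (nat_lit 3) (nat_lit 0x6000340038000c000100000000000000000000000) (nat_lit 0x0) (nat_lit 0x40070000800000000000000000000000) := T_1 (nat_lit 112) (nat_lit 95) (nat_lit 6) (nat_lit 9) (nat_lit 9) L4300905 (by decide +kernel)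
theorem L4300907 : W_1 (nat_lit 4) (nat_lit 0x60003400380004000100000000000000000000000) (nat_lit 0x0) (nat_lit 0x40078000c00000000000000000000000) := T_1 (nat_lit 111) (nat_lit 94) (nat_lit 6) (nat_lit 8) (nat_lit 9) L4300906 (by decide +kernel)
theorem L4300908 : W_1 (nat_lit 5) (nat_lit 0x60003000380004000100000000000000000000000) (nat_lit 0x0) (nat_lit 0xc00040078000c00000000000000000000000) := T_1 (nat_lit 142) (nat_lit 143) (nat_lit 2) (nat_lit 6) (nat_lit 8) L4300907 (by decide +kernel)
theorem L4300909 : W_1 (nat_lit 6) (nat_lit 0x20003000380004000100000000000000000000000) (nat_lit 0x0) (nat_lit 0x800040000c00040078000c00000000000000000000000) := T_1 (nat_lit 162) (nat_lit 179) (nat_lit 7) (nat_lit 8) (nat_lit 6) L4300908 (by decide +kernel)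
theorem L4300910 : W_1 (nat_lit 7) (nat_lit 0x20003000380004000000000000000000000000000) (nat_lit 0x0) (nat_lit 0x800040000c0004007a000d00000000000000000000000) := T_1 (nat_lit 92) (nat_lit 109) (nat_lit 4) (nat_lit 8) (nat_lit 9) L4300909 (by decide +kernel)
theorem L4300911 : W_1 (nat_lit 2) (nat_lit 0x70003000380004000500000000000000000000000) (nat_lit 0x0) (nat_lit 0x800c000000000000000000000000000000000000) := D_1 (nat_lit 146) (nat_lit 159) (nat_lit 147) (nat_lit 2) (nat_lit 6) (nat_lit 9) (nat_lit 1) (nat_lit 11) (nat_lit 8) (by decide +kernel)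
theorem L4300912 : W_1 (nat_lit 3) (nat_lit 0x60003000380004000500000000000000000000000) (nat_lit 0x0) (nat_lit 0x20001800c000000000000000000000000000000000000) := T_1 (nat_lit 160) (nat_lit 177) (nat_lit 5) (nat_lit 8) (nat_lit 6) L4300911 (by decide +kernel)
theorem L4300913 : W_1 (nat_lit 4) (nat_lit 0x20003000380004000500000000000000000000000) (nat_lit 0x0) (nat_lit 0xa0005800c000000000000000000000000000000000000) := T_1 (nat_lit 162) (nat_lit 179) (nat_lit 7) (nat_lit 8) (nat_lit 6) L4300912 (by decide +kernel)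
theorem L4300914 : W_1 (nat_lit 5) (nat_lit 0x20003000380004000400000000000000000000000) (nat_lit 0x0) (nat_lit 0xa0005800c000000002000100000000000000000000000) := T_1 (nat_lit 92) (nat_lit 109) (nat_lit 4) (nat_lit 8) (nat_lit 9) L4300913 (by decide +kernel)
theorem L4300915 : W_1 (nat_lit 6) (nat_lit 0x20003000380004000000000000000000000000000) (nat_lit 0x0) (nat_lit 0xa0005800c00000000a000500000000000000000000000) := T_1 (nat_lit 94) (nat_lit 111) (nat_lit 6) (nat_lit 8) (nat_lit 9) L4300914 (by decide +kernel)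
theorem L4300916 : W_1 (nat_lit 8) (nat_lit 0x20001000380004000000000000000000000000000) (nat_lit 0x0) (nat_lit 0xa0005c00ec0004007a000d00000000000000000000000) := Q_1 (nat_lit 145) (C_1 L4300901 (C_1 L4300904 (C_1 L4300910 (C_1 L4300915 N_1)))) (by decide +kernel)
theorem L4300917 : W_1 (nat_lit 11) (nat_lit 0x20001000180004000000000000000000000000000) (nat_lit 0x0) (nat_lit 0xa0005c03ec00e4007a003d00180000000000000000000) := Q_1 (nat_lit 129) (C_1 L42022 (C_1 L39747 (C_1 L39729 (C_1 L42007 (C_1 L4300916 N_1))))) (by decide +kernel)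
theorem L4300918 : W_1 (nat_lit 2) (nat_lit 0x8007800b400780034000400000000000000000000000) (nat_lit 0x0) (nat_lit 0x100000000000000000800040000000000000000000) := D_1 (nat_lit 95) (nat_lit 78) (nat_lit 164) (nat_lit 7) (nat_lit 10) (nat_lit 4) (nat_lit 4) (nat_lit 11) (nat_lit 9) (by decide +kernel)
theorem L4300919 : W_1 (nat_lit 3) (nat_lit 0x80078003400780034000400000000000000000000000) (nat_lit 0x0) (nat_lit 0x100018000000000000800040000000000000000000) := T_1 (nat_lit 147) (nat_lit 148) (nat_lit 3) (nat_lit 8) (nat_lit 7) L4300918 (by decide +kernel)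
theorem L4300920 : W_1 (nat_lit 4) (nat_lit 0x80078003400780024000400000000000000000000000) (nat_lit 0x0) (nat_lit 0x100018000040010000800040000000000000000000) := T_1 (nat_lit 112) (nat_lit 126) (nat_lit 2) (nat_lit 7) (nat_lit 7) L4300919 (by decide +kernel)
theorem L4300921 : W_1 (nat_lit 5) (nat_lit 0x80078003400780004000400000000000000000000000) (nat_lit 0x0) (nat_lit 0x100018000040070000800040000000000000000000) := T_1 (nat_lit 113) (nat_lit 114) (nat_lit 2) (nat_lit 8) (nat_lit 7) L4300920 (by decide +kernel)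
theorem L4300922 : W_1 (nat_lit 6) (nat_lit 0x80078003400380004000400000000000000000000000) (nat_lit 0x0) (nat_lit 0x100018000c40070000800040000000000000000000) := T_1 (nat_lit 130) (nat_lit 131) (nat_lit 1) (nat_lit 12) (nat_lit 7) L4300921 (by decide +kernel)
theorem L4300923 : W_1 (nat_lit 7) (nat_lit 0x80078003400180004000400000000000000000000000) (nat_lit 0x0) (nat_lit 0x100018800e40070000800040000000000000000000) := T_1 (nat_lit 129) (nat_lit 143) (nat_lit 2) (nat_lit 6) (nat_lit 8) L4300922 (by decide +kernel)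
theorem L4300924 : W_1 (nat_lit 8) (nat_lit 0x80078003000180004000400000000000000000000000) (nat_lit 0x0) (nat_lit 0x100018e00e40070000800040000000000000000000) := T_1 (nat_lit 142) (nat_lit 141) (nat_lit 0) (nat_lit 9) (nat_lit 9) L4300923 (by decide +kernel)
theorem L4300925 : W_1 (nat_lit 9) (nat_lit 0x78003000180004000400000000000000000000000) (nat_lit 0x0) (nat_lit 0x180100018e00e40070000800040000000000000000000) := T_1 (nat_lit 175) (nat_lit 176) (nat_lit 1) (nat_lit 9) (nat_lit 9) L4300924 (by decide +kernel)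
theorem L4300926 : W_1 (nat_lit 10) (nat_lit 0x70003000180004000400000000000000000000000) (nat_lit 0x0) (nat_lit 0x18010c018e00e40070000800040000000000000000000) := T_1 (nat_lit 159) (nat_lit 158) (nat_lit 2) (nat_lit 5) (nat_lit 9) L4300925 (by decide +kernel)
theorem L4300927 : W_1 (nat_lit 11) (nat_lit 0x60003000180004000400000000000000000000000) (nat_lit 0x0) (nat_lit 0x38011c018e00e40070000800040000000000000000000) := T_1 (nat_lit 160) (nat_lit 177) (nat_lit 5) (nat_lit 8) (nat_lit 6) L4300926 (by decide +kernel)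
theorem L4300928 : W_1 (nat_lit 12) (nat_lit 0x20003000180004000400000000000000000000000) (nat_lit 0x0) (nat_lit 0xb8015c018e00e40070000800040000000000000000000) := T_1 (nat_lit 162) (nat_lit 179) (nat_lit 7) (nat_lit 8) (nat_lit 6) L4300927 (by decide +kernel)
theorem L4300929 : W_1 (nat_lit 13) (nat_lit 0x20003000180004000000000000000000000000000) (nat_lit 0x0) (nat_lit 0xb8015c018e00e40078000c00040000000000000000000) := T_1 (nat_lit 94) (nat_lit 111) (nat_lit 6) (nat_lit 8) (nat_lit 9) L4300928 (by decide +kernel)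
theorem L4300930 : W_1 (nat_lit 14) (nat_lit 0x20001000180004000000000000000000000000000) (nat_lit 0x0) (nat_lit 0xb8015c01ee00e40078003c000c0004000000000000000) := Q_1 (nat_lit 145) (C_1 L41995 (C_1 L41987 (C_1 L41984 (C_1 L4300929 N_1)))) (by decide +kernel)
theorem L4300931 : W_1 (nat_lit 2) (nat_lit 0x700010001c001f000080000000000000000000000) (nat_lit 0x0) (nat_lit 0x2000000000001800000000000000000000000) := D_1 (nat_lit 95) (nat_lit 145) (nat_lit 96) (nat_lit 6) (nat_lit 9) (nat_lit 9) (nat_lit 2) (nat_lit 7) (nat_lit 6) (by decide +kernel)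
theorem L4300932 : W_1 (nat_lit 3) (nat_lit 0x700010001c000f000080000000000000000000000) (nat_lit 0x0) (nat_lit 0x2000000030001800000000000000000000000) := T_1 (nat_lit 112) (nat_lit 113) (nat_lit 1) (nat_lit 11) (nat_lit 6) L4300931 (by decide +kernel)
theorem L4300933 : W_1 (nat_lit 4) (nat_lit 0x7000100018000f000080000000000000000000000) (nat_lit 0x0) (nat_lit 0x2800040030001800000000000000000000000) := T_1 (nat_lit 126) (nat_lit 143) (nat_lit 4) (nat_lit 7) (nat_lit 9) L4300932 (by decide +kernel)
theorem L4300934 : W_1 (nat_lit 5) (nat_lit 0x7000100018000f000000000000000000000000000) (nat_lit 0x0) (nat_lit 0x28000400300018c0000000000000000000000) := T_1 (nat_lit 91) (nat_lit 90) (nat_lit 0) (nat_lit 9) (nat_lit 6) L4300933 (by decide +kernel)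
theorem L4300935 : W_1 (nat_lit 6) (nat_lit 0x70001000180007000000000000000000000000000) (nat_lit 0x0) (nat_lit 0x2800040038001cc0000000000000000000000) := T_1 (nat_lit 111) (nat_lit 94) (nat_lit 6) (nat_lit 8) (nat_lit 9) L4300934 (by decide +kernel)
theorem L4300936 : W_1 (nat_lit 7) (nat_lit 0x70001000180006000000000000000000000000000) (nat_lit 0x0) (nat_lit 0x2800040039801cc0000000000000000000000) := T_1 (nat_lit 108) (nat_lit 107) (nat_lit 3) (nat_lit 5) (nat_lit 6) L4300935 (by decide +kernel)
theorem L4300937 : W_1 (nat_lit 8) (nat_lit 0x30001000180006000000000000000000000000000) (nat_lit 0x0) (nat_lit 0x800040002800040039801cc0000000000000000000000) := T_1 (nat_lit 162) (nat_lit 179) (nat_lit 7) (nat_lit 8) (nat_lit 6) L4300936 (by decide +kernel)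
theorem L4300938 : W_1 (nat_lit 9) (nat_lit 0x30001000180004000000000000000000000000000) (nat_lit 0x0) (nat_lit 0x80004000280004003b801dc0000000000000000000000) := T_1 (nat_lit 109) (nat_lit 92) (nat_lit 4) (nat_lit 8) (nat_lit 9) L4300937 (by decide +kernel)
theorem L4300939 : W_1 (nat_lit 10) (nat_lit 0x20001000180004000000000000000000000000000) (nat_lit 0x0) (nat_lit 0xa0005000280004003b801dc0000000000000000000000) := T_1 (nat_lit 160) (nat_lit 177) (nat_lit 5) (nat_lit 8) (nat_lit 6) L4300938 (by decide +kernel)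
theorem L4300940 : W_1 (nat_lit 15) (nat_lit 0x20001000080004000000000000000000000000000) (nat_lit 0x0) (nat_lit 0xb8015c03ee00f4007b803dc01c0004000000000000000) := Q_1 (nat_lit 128) (C_1 L102641 (C_1 L1050 (C_1 L4300917 (C_1 L4300930 (C_1 L4300939 N_1))))) (by decide +kernel)
theorem L4300941 : W_1 (nat_lit 2) (nat_lit 0x700010001c001f000800000002000000000000000) (nat_lit 0x0) (nat_lit 0x8000000000000c0000000000000000000000) := D_1 (nat_lit 91) (nat_lit 143) (nat_lit 90) (nat_lit 4) (nat_lit 7) (nat_lit 9) (nat_lit 0) (nat_lit 9) (nat_lit 6) (by decide +kernel)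
theorem L4300942 : W_1 (nat_lit 3) (nat_lit 0x700010001c001e000800000002000000000000000) (nat_lit 0x0) (nat_lit 0x8000000018000c0000000000000000000000) := T_1 (nat_lit 108) (nat_lit 107) (nat_lit 3) (nat_lit 5) (nat_lit 6) L4300941 (by decide +kernel)
end Crest.Agent.Helper32.Snaky.S2_1
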